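import Crest.Agent.R154.B6Abs_833

/-! Row 154, B6 in the same-environment form needed by the step (R): the pair energy built with
`P_same(both natural up to m, some contact)` (not `P_ind`) is small after a natural climb. -/

set_option autoImplicit false
set_option linter.unusedSectionVars false

open MeasureTheory Set Filter Topology
open scoped BigOperators

namespace Crest.Agent.R154.B6_833

namespace PairSys

variable {S Ω : Type*} [MeasurableSpace S] [mΩ : MeasurableSpace Ω] {A : PairSys S Ω}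
  [DiscreteMeasurableSpace S]
  {a : ℕ} {c₁ cₑ p : ℝ} {β h : ℕ → ℝ} {Far : ℕ → Set S} {χ : ℕ → S → ℝ}

/-- `P_same^s`(both natural up to `m`, some contact stage `≤ m`) -/
noncomputable def κs (A : PairSys S Ω) (m : ℕ) (s : S) : ℝ := A.φ m 0 s - A.φ m m s

/-- natural up to `n`, some contact stage in `(j, n]` -/
def LateG (A : PairSys S Ω) (j n : ℕ) : Set Ω :=
  A.N 0 n ∩ {ω | ∃ l, j < l ∧ l ≤ n ∧ ω ∈ A.cs l}

lemma lateG_subset {n m : ℕ} (r : ℕ) (hm : n + m ≤ 2 ^ r * n) (hn : 0 < n) :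
    A.LateG n (n + m) ⊆ ⋃ t ∈ Finset.Icc 1 r, A.Late (min (2 ^ t * n) (n + m)) := by
  rintro ω ⟨hN, l, hl1, hl2, hcs⟩
  have hex : ∃ t, l ≤ 2 ^ t * n := ⟨r, hl2.trans hm⟩
  classical
  set t := Nat.find hex with ht
  have h1 : l ≤ 2 ^ t * n := Nat.find_spec hex
  have ht0 : t ≠ 0 := by
    intro h0
    rw [h0] at h1
    simp at h1
    omega
  obtain ⟨t', ht'⟩ : ∃ t', t = t' + 1 := ⟨t - 1, by omega⟩
  have h2 : ¬ l ≤ 2 ^ t' * n := Nat.find_min hex (by omega)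
  have h3 : t ≤ r := Nat.find_le (hl2.trans hm)
  have h4 : 2 ^ t * n = 2 * (2 ^ t' * n) := by rw [ht', pow_succ]; ring
  refine mem_biUnion (x := t) (by simp; omega) ?_
  refine ⟨A.N_left 0 _ (n + m) (Nat.zero_le _) (min_le_right _ _) ω hN, l, ?_, ?_, hcs⟩
  · have := min_le_left (2 ^ t * n) (n + m)
    omega
  · exact le_min h1 hl2

lemma lateG_lim (H : A.Hyp a c₁ cₑ β h p Far χ) (r : ℕ) : ∀ ε > (0:ℝ), ∃ n₀ : ℕ, ∀ n ≥ n₀,
    ∀ m, n + m ≤ 2 ^ r * n → ∀ s : S, (A.P s).real (A.LateG n (n + m)) ≤ ε := by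
  intro ε hε
  obtain ⟨n₁, hn₁⟩ := late_lim H (ε / (r + 1)) (by positivity)
  refine ⟨max n₁ 1, fun n hn m hm s => ?_⟩
  have := A.prob s
  have hn1 : n₁ ≤ n := (le_max_left _ _).trans hn
  have hn0 : 0 < n := lt_of_lt_of_le one_pos ((le_max_right _ _).trans hn)
  calc (A.P s).real (A.LateG n (n + m))
      ≤ (A.P s).real (⋃ t ∈ Finset.Icc 1 r, A.Late (min (2 ^ t * n) (n + m))) :=
        measureReal_mono (lateG_subset r hm hn0) (measure_ne_top _ _)
    _ ≤ ∑ t ∈ Finset.Icc 1 r, (A.P s).real (A.Late (min (2 ^ t * n) (n + m))) :=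
        measureReal_biUnion_finset_le _ _
    _ ≤ ∑ t ∈ Finset.Icc 1 r, ε / (r + 1) := by
        refine Finset.sum_le_sum fun t _ => hn₁ _ ?_ s
        refine le_min ?_ (by omega)
        have : 1 ≤ 2 ^ t := Nat.one_le_two_pow
        nlinarith
    _ = r * (ε / (r + 1)) := by simp
    _ ≤ ε := by
        rw [mul_div_assoc', div_le_iff₀ (by positivity)]
        nlinarith

/-- **B6, same-environment form.** -/
theorem main_same (H : A.Hyp a c₁ cₑ β h p Far χ) (r : ℕ) : ∀ ε > (0:ℝ), ∃ n₀ : ℕ, ∀ n ≥ n₀,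
    ∀ m, n + m ≤ 2 ^ r * n → ∀ s : S,
    ∫ ω in A.N 0 n, A.κs m (A.st n ω) ∂(A.P s) ≤ ε := by
  intro ε hε
  obtain ⟨n₀, hn₀⟩ := lateG_lim H r ε hε
  refine ⟨n₀, fun n hn m hm s => le_trans ?_ (hn₀ n hn m hm s)⟩
  have := A.prob s
  have hB : MeasurableSet[A.F n] (A.N 0 n) := A.N_meas 0 n (Nat.zero_le _)
  have hal : A.N 0 n ⊆ A.al n := A.N_al 0 n (Nat.zero_le _)
  have e1 := H.FP s n n (n + m) le_rfl (by omega) (A.N 0 n) hB hal
  have e2 := H.FP s n (n + m) (n + m) (by omega) le_rfl (A.N 0 n) hB hal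
  have hi1 : Integrable (fun ω => A.φ m 0 (A.st n ω)) ((A.P s).restrict (A.N 0 n)) :=
    (integ_φ s n m 0).restrict
  have hi2 : Integrable (fun ω => A.φ m m (A.st n ω)) ((A.P s).restrict (A.N 0 n)) :=
    (integ_φ s n m m).restrict
  simp only [Nat.sub_self, Nat.add_sub_cancel_left] at e1 e2
  unfold κs
  rw [integral_sub hi1 hi2, ← e1, ← e2]
  have hms : MeasurableSet (A.N 0 n ∩ (A.N n (n + m) ∩ A.nocs n (n + m))) :=
    (A.N_measΩ 0 n (Nat.zero_le _)).inter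
      ((A.N_measΩ n (n + m) (by omega)).inter (A.nocs_measΩ n (n + m)))
  have hsub1 : A.N 0 n ∩ (A.N n (n + m) ∩ A.nocs n (n + m))
      ⊆ A.N 0 n ∩ (A.N n (n + m) ∩ A.nocs n n) :=
    fun ω hω => ⟨hω.1, hω.2.1, by intro l h1 h2; omega⟩
  rw [← measureReal_sdiff hsub1 hms]
  refine measureReal_mono ?_ (measure_ne_top _ _)
  rintro ω ⟨⟨h1, h2, _⟩, h4⟩
  refine ⟨A.N_trans 0 n (n + m) (Nat.zero_le _) (by omega) ω h1 h2, ?_⟩
  by_contra hcon
  refine h4 ⟨h1, h2, ?_⟩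
  intro l hl1 hl2 hl3
  exact hcon ⟨l, hl1, hl2, hl3⟩

end PairSys

end Crest.Agent.R154.B6_833
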