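import Crest.Agent.R154.B6Laws_833

/-! R154 block B6, instance (helper833), part 4: the `PairSys` of two marked walkers. -/

set_option autoImplicit false
set_option linter.unusedSectionVars false
set_option linter.deprecated false

open MeasureTheory ProbabilityTheory Filter Set
open scoped ENNReal Topology

namespace Crest.Agent.R154.B6I

open Crest.ProbabilityR.RandomEnvironment Crest.Agent.R154.Q561 Crest.Agent.R154.Ren263
open Crest.Agent.R154.Mk561
open Crest.Agent.R154.Flux132 (lev)
open Crest.Agent.R154.Fin804 (lev_add lev_step_le)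

local notation "shf" => Crest.Agent.R154.Ren263.shift

variable {d : ℕ} {u : Step d} {R : ℕ}

/-! ### measurability -/

lemma mp_of_set {α : Type*} [MeasurableSpace α] {p : α → Prop} (h : MeasurableSet {a | p a}) :
    Measurable p := measurableSet_setOf.1 h

lemma set_of_mp {α : Type*} [MeasurableSpace α] {p : α → Prop} (h : Measurable p) :
    MeasurableSet {a | p a} := measurableSet_setOf.2 h

lemma meas_zt (n : ℕ) : Measurable fun M : MPath d => zt u M n := by
  induction n with
  | zero => simp only [zt_zero]; exact measurable_const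
  | succ n ih =>
    simp only [zt_succ]
    exact ih.add ((measurable_of_countable fun m : Mark d => lev u (stp m)).comp
      (measurable_pi_apply n))

lemma mp_zt_lt (j : ℤ) (n : ℕ) : Measurable fun M : MPath d => zt u M n < j :=
  (measurable_of_countable fun z : ℤ => z < j).comp (meas_zt n)

lemma mp_hit (j n : ℕ) : Measurable fun M : MPath d => Hit u j M n := by
  unfold Hit
  refine Measurable.and ((measurable_of_countable fun z : ℤ => z = (j:ℤ)).comp (meas_zt n)) ?_
  refine Measurable.forall fun k => ?_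
  refine Measurable.imp measurable_const (mp_zt_lt _ _)

lemma mp_bf (j n : ℕ) : Measurable fun M : MPath d => bf u j M n := by
  unfold bf
  refine Measurable.forall fun k => ?_
  exact Measurable.imp measurable_const (mp_zt_lt _ _)

lemma mp_alv (j : ℕ) : Measurable fun M : MPath d => Alv u j M :=
  Measurable.exists fun n => mp_hit j n

lemma mp_nt (R i j : ℕ) : Measurable fun M : MPath d => Nt u R i j M := by
  unfold Nt
  refine Measurable.exists fun a => Measurable.exists fun b => ?_
  refine Measurable.and (mp_hit i a) (Measurable.and (mp_hit j b) ?_)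
  refine Measurable.forall fun n => Measurable.imp measurable_const
    (Measurable.imp measurable_const (Measurable.and ?_ ?_))
  · exact Measurable.imp measurable_const
      ((measurable_of_countable fun m : Mark d => m = (u, true)).comp (measurable_pi_apply n))
  · exact Measurable.imp measurable_const
      ((measurable_of_countable fun z : ℤ => (i:ℤ) + R ≤ z).comp (meas_zt n))

lemma meas_pos {α : Type*} [MeasurableSpace α] {x : α → Site d} {M : α → MPath d}
    (hx : Measurable x) (hM : Measurable M) (n : ℕ) : Measurable fun a => pos (x a) (M a) n := by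
  induction n with
  | zero => simp only [pos_zero]; exact hx
  | succ n ih =>
    simp only [pos_succ]
    exact (measurable_of_countable fun q : Site d × Mark d => q.1 + stp q.2).comp
      (ih.prodMk ((measurable_pi_apply n).comp hM))

lemma meas_s1 : Measurable fun ω : Om u => ω.1.1.1 :=
  (measurable_of_countable fun s : SP u => s.1.1).comp measurable_fst

lemma meas_s2 : Measurable fun ω : Om u => ω.1.1.2 :=
  (measurable_of_countable fun s : SP u => s.1.2).comp measurable_fst

lemma meas_p1 : Measurable fun ω : Om u => ω.2.1 := measurable_fst.comp measurable_snd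

lemma meas_p2 : Measurable fun ω : Om u => ω.2.2 := measurable_snd.comp measurable_snd

lemma mp_ct (R i i' : ℕ) : Measurable fun ω : Om u => ct R ω.1 ω.2 i i' := by
  have h := (measurable_of_countable fun q : (Site d × Site d) × (Mark d × Mark d) =>
    (q.2.1.2 = false ∧ q.2.2.2 = false ∧ ∀ c, |q.1.1 c - q.1.2 c| ≤ (R:ℤ))).comp
    (((meas_pos meas_s1 meas_p1 i).prodMk (meas_pos meas_s2 meas_p2 i')).prodMk
      (((measurable_pi_apply i).comp meas_p1).prodMk ((measurable_pi_apply i').comp meas_p2)) :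
      Measurable fun ω : Om u =>
        ((pos ω.1.1.1 ω.2.1 i, pos ω.1.1.2 ω.2.2 i'), (ω.2.1 i, ω.2.2 i')))
  exact h

lemma mp_cs (R l : ℕ) : Measurable fun ω : Om u => Cs R l ω := by
  unfold Cs
  refine Measurable.exists fun i => Measurable.exists fun i' => ?_
  refine Measurable.and ((mp_bf l i).comp meas_p1) (Measurable.and ((mp_bf l i').comp meas_p2)
    (Measurable.and (mp_ct R i i') (Measurable.not
      (Measurable.and ((mp_bf (l-1) i).comp meas_p1) ((mp_bf (l-1) i').comp meas_p2)))))

lemma mp_noC (R j L : ℕ) : Measurable fun ω : Om u => NoC R j L ω := by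
  unfold NoC
  refine Measurable.forall fun i => Measurable.forall fun i' => ?_
  exact Measurable.imp ((mp_bf L i).comp meas_p1) (Measurable.imp ((mp_bf L i').comp meas_p2)
    (Measurable.imp (mp_ct R i i')
      (Measurable.and ((mp_bf j i).comp meas_p1) ((mp_bf j i').comp meas_p2))))

lemma mp_al (j : ℕ) : Measurable fun ω : Om u => Al u j ω.2 :=
  Measurable.and ((mp_alv j).comp meas_p1) ((mp_alv j).comp meas_p2)

lemma tip_eq_iff (j : ℕ) (ω : Om u) (t : SP u) :
    tip j ω.1 ω.2 = t ↔ (∃ a b, Hit u j ω.2.1 a ∧ Hit u j ω.2.2 b ∧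
      (pos ω.1.1.1 ω.2.1 a, pos ω.1.1.2 ω.2.2 b) = t.1) ∨ (¬ Al u j ω.2 ∧ ω.1 = t) := by
  by_cases h : Al u j ω.2
  · obtain ⟨⟨a, ha⟩, ⟨b, hb⟩⟩ := h
    constructor
    · intro h'
      exact Or.inl ⟨a, b, ha, hb, by rw [← h', tip_val ω.1 ha hb]⟩
    · rintro (⟨a', b', ha', hb', h'⟩ | ⟨h', _⟩)
      · apply Subtype.ext
        rw [tip_val ω.1 ha' hb']; exact h'
      · exact absurd ⟨⟨a, ha⟩, ⟨b, hb⟩⟩ h'
  · constructor
    · intro h'
      refine Or.inr ⟨h, ?_⟩
      unfold tip at h'
      rwa [dif_neg h] at h'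
    · rintro (⟨a', b', ha', hb', _⟩ | ⟨_, h'⟩)
      · exact absurd ⟨⟨a', ha'⟩, ⟨b', hb'⟩⟩ h
      · unfold tip
        rw [dif_neg h]; exact h'

lemma mp_tip (j : ℕ) (t : SP u) : Measurable fun ω : Om u => tip j ω.1 ω.2 = t := by
  simp only [tip_eq_iff]
  refine Measurable.or ?_ (Measurable.and (Measurable.not (mp_al j))
    ((measurable_of_countable fun s : SP u => s = t).comp measurable_fst))
  refine Measurable.exists fun a => Measurable.exists fun b => ?_
  refine Measurable.and ((mp_hit j a).comp meas_p1) (Measurable.and ((mp_hit j b).comp meas_p2) ?_)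
  exact (measurable_of_countable fun q : Site d × Site d => q = t.1).comp
    ((meas_pos meas_s1 meas_p1 a).prodMk (meas_pos meas_s2 meas_p2 b))

/-- the information up to the first hits of level `j` -/
def Fj (u : Step d) (j : ℕ) : MeasurableSpace (Om u) where
  MeasurableSet' A := MeasurableSet A ∧ ∀ s, Dt u j {p | ((s, p) : Om u) ∈ A}
  measurableSet_empty := ⟨MeasurableSet.empty, fun _ _ _ _ _ h => h⟩
  measurableSet_compl A hA := ⟨hA.1.compl, fun s => (hA.2 s).compl⟩
  measurableSet_iUnion f hf := by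
    refine ⟨MeasurableSet.iUnion fun i => (hf i).1, fun s p q h1 h2 hp => ?_⟩
    simp only [Set.mem_ofPred_eq, Set.mem_iUnion] at hp ⊢
    obtain ⟨i, hi⟩ := hp
    exact ⟨i, (hf i).2 s p q h1 h2 hi⟩

lemma fj_iff {j : ℕ} {A : Set (Om u)} :
    MeasurableSet[Fj u j] A ↔ MeasurableSet A ∧ ∀ s, Dt u j {p | ((s, p) : Om u) ∈ A} := Iff.rfl

lemma meas_mk (s : SP u) : Measurable fun p : PP d => ((s, p) : Om u) :=
  measurable_const.prodMk measurable_id

variable (u R) in
/-- **the pair of marked walkers in the same environment as an abstract system** -/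
noncomputable def sys (κ : ℝ) (Q : Measure (Environment d)) [IsProbabilityMeasure Q] :
    B6_833.PairSys (SP u) (Om u) where
  P s := (PSm κ Q s.1.1 s.1.2).map fun p => ((s, p) : Om u)
  prob s := Measure.isProbabilityMeasure_map (meas_mk s).aemeasurable
  F := Fj u
  F_le j _ hA := hA.1
  F_mono i j hij _ hA := ⟨hA.1, fun s => (hA.2 s).mono hij⟩
  st j ω := tip j ω.1 ω.2
  st_meas j := by
    refine @measurable_to_countable' _ _ _ _ (Fj u j) _ fun t => ?_
    exact ⟨set_of_mp (mp_tip j t), fun s => dt_tip j s t⟩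
  N i j := {ω | Nt u R i j ω.2.1 ∧ Nt u R i j ω.2.2}
  N_meas i j hij := ⟨set_of_mp (Measurable.and ((mp_nt R i j).comp meas_p1)
    ((mp_nt R i j).comp meas_p2)), fun _ => dt_nt hij⟩
  N_trans i j k hij hjk ω h h' := ⟨h.1.trans hij hjk h'.1, h.2.trans hij hjk h'.2⟩
  N_left i j k _ hjk ω h := ⟨h.1.left hjk, h.2.left hjk⟩
  cs l := {ω | Cs R l ω}
  cs_meas l := ⟨set_of_mp (mp_cs R l), fun s => dt_cs R l s⟩
  al j := {ω | Al u j ω.2}
  al_meas j := ⟨set_of_mp (mp_al j), fun _ => dt_al j⟩
  al_anti i j hij ω h := ⟨h.1.anti hij, h.2.anti hij⟩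
  N_al i j _ ω h := ⟨h.1.alv, h.2.alv⟩
  Dist := {s | 0 < kf d κ ∨ s.1.1 ≠ s.1.2}

variable {κ : ℝ} {Q : Measure (Environment d)} [IsProbabilityMeasure Q]

lemma nocs_eq {j L : ℕ} (hjL : j ≤ L) : (sys u R κ Q).nocs j L = {ω | NoC R j L ω} := by
  ext ω
  exact noC_iff hjL ω

lemma P_apply (s : SP u) {A : Set (Om u)} (hA : MeasurableSet A) :
    (sys u R κ Q).P s A = PSm κ Q s.1.1 s.1.2 {p | ((s, p) : Om u) ∈ A} :=
  Measure.map_apply (meas_mk s) hA

lemma P_lintegral (s : SP u) {A : Set (Om u)} (hA : MeasurableSet A) {F : Om u → ℝ≥0∞}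
    (hF : Measurable F) :
    ∫⁻ ω in A, F ω ∂((sys u R κ Q).P s)
      = ∫⁻ p in {p | ((s, p) : Om u) ∈ A}, F (s, p) ∂(PSm κ Q s.1.1 s.1.2) := by
  have : (sys u R κ Q).P s = (PSm κ Q s.1.1 s.1.2).map fun p => ((s, p) : Om u) := rfl
  rw [this, Measure.restrict_map (meas_mk s) hA, lintegral_map hF (meas_mk s)]
  rfl

end Crest.Agent.R154.B6I
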