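import Mathlib

/-! R154 B9 (S4, S5): renewal tail from numbers only, dyadic summation of tails. -/

set_option autoImplicit false

open Finset

namespace Crest.Agent.R154.B9409

/-- the difference of two consecutive renewal equations -/
theorem renewal_diff {t u : ℕ → ℝ} (h : ∀ n, ∑ j ∈ range (n + 1), u j * t (n - j) = 1) (n : ℕ) :
    u 0 * t (n + 1) = ∑ j ∈ range (n + 1), (u j - u (j + 1)) * t (n - j) := by
  have h1 := h (n + 1)
  have h0 := h n
  rw [sum_range_succ'] at h1
  simp only [Nat.sub_zero] at h1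
  have e : ∀ j ∈ range (n + 1), u (j + 1) * t (n + 1 - (j + 1)) = u (j + 1) * t (n - j) := by
    intro j _
    rw [Nat.add_sub_add_right]
  rw [sum_congr rfl e] at h1
  simp only [sub_mul, sum_sub_distrib]
  linarith

/-- one step of the tail recursion -/
theorem tail_step {t u : ℕ → ℝ} {p : ℝ} (h : ∀ n, ∑ j ∈ range (n + 1), u j * t (n - j) = 1)
    (hu0 : u 0 = 1) (hu : Antitone u) (hp : ∀ n, p ≤ u n) (ht : Antitone t)
    (ht0 : ∀ n, 0 ≤ t n) (ht1 : ∀ n, t n ≤ 1) {n m : ℕ} (hn : 1 ≤ n) (hm : m ≤ n) :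
    t n ≤ (1 - p) * t (n - m) + (u m - p) := by
  obtain ⟨n, rfl⟩ : ∃ k, n = k + 1 := ⟨n - 1, by omega⟩
  have hd := renewal_diff h n
  rw [hu0, one_mul] at hd
  have hsplit : ∑ j ∈ range (n + 1), (u j - u (j + 1)) * t (n - j)
      = ∑ j ∈ range m, (u j - u (j + 1)) * t (n - j)
        + ∑ j ∈ Ico m (n + 1), (u j - u (j + 1)) * t (n - j) := by
    rw [sum_range_add_sum_Ico _ hm]
  have h1 : ∑ j ∈ range m, (u j - u (j + 1)) * t (n - j)
      ≤ ∑ j ∈ range m, (u j - u (j + 1)) * t (n + 1 - m) := by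
    refine sum_le_sum fun j hj => ?_
    have hj' := mem_range.1 hj
    refine mul_le_mul_of_nonneg_left (ht (by omega)) (sub_nonneg.2 (hu (Nat.le_succ j)))
  have h2 : ∑ j ∈ Ico m (n + 1), (u j - u (j + 1)) * t (n - j)
      ≤ ∑ j ∈ Ico m (n + 1), (u j - u (j + 1)) := by
    refine sum_le_sum fun j hj => ?_
    have := mul_le_mul_of_nonneg_left (ht1 (n - j)) (sub_nonneg.2 (hu (Nat.le_succ j)))
    simpa using this
  have h3 : ∑ j ∈ range m, (u j - u (j + 1)) = u 0 - u m := sum_range_sub' u m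
  have h4 : ∑ j ∈ Ico m (n + 1), (u j - u (j + 1)) = u m - u (n + 1) := by
    have ha := sum_range_add_sum_Ico (fun j => u j - u (j + 1)) hm
    have hb := sum_range_sub' u (n + 1)
    linarith [h3]
  rw [← sum_mul, h3] at h1
  rw [h4] at h2
  rw [hd, hsplit]
  have h5 : (u 0 - u m) * t (n + 1 - m) ≤ (1 - p) * t (n + 1 - m) := by
    refine mul_le_mul_of_nonneg_right ?_ (ht0 _)
    rw [hu0]; linarith [hp m]
  linarith [hp (n + 1)]

/-- **S5**: polynomial tail of the renewal gap -/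
theorem renewal_tail {t u : ℕ → ℝ} {p : ℝ} (hp0 : 0 < p)
    (h : ∀ n, ∑ j ∈ range (n + 1), u j * t (n - j) = 1)
    (hu0 : u 0 = 1) (hu : Antitone u) (hp : ∀ n, p ≤ u n) (ht : Antitone t)
    (ht0 : ∀ n, 0 ≤ t n) (ht1 : ∀ n, t n ≤ 1) {A : ℕ} {C : ℝ}
    (hC : ∀ n : ℕ, 1 ≤ n → u n - p ≤ C / (n : ℝ) ^ A) :
    ∃ C' : ℝ, 0 ≤ C' ∧ ∀ n : ℕ, 1 ≤ n → t n ≤ C' / (n : ℝ) ^ A := by
  have hp1 : p ≤ 1 := by have := hp 0; rwa [hu0] at this
  have hC0 : 0 ≤ C := by
    have := hC 1 le_rfl
    simp only [Nat.cast_one, one_pow, div_one] at this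
    linarith [hp 1]
  obtain ⟨L, hL⟩ := exists_nat_ge (2 * (A : ℝ) / p + 2)
  have hL2 : (2 : ℝ) ≤ L := by
    have : 0 ≤ 2 * (A : ℝ) / p := by positivity
    linarith
  have hL2' : 2 ≤ L := by exact_mod_cast hL2
  have hLA : (A : ℝ) / L ≤ p / 2 := by
    rw [div_le_iff₀ (by linarith)]
    have : 2 * (A : ℝ) / p ≤ L := by linarith
    rw [div_le_iff₀ hp0] at this
    linarith
  set C' : ℝ := (L : ℝ) ^ A + 2 * C * (2 * L) ^ A / p with hC'
  have hC'0 : 0 ≤ C' := by positivity
  refine ⟨C', hC'0, ?_⟩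
  intro n
  induction n using Nat.strong_induction_on with
  | _ n ih =>
    intro hn
    have hnr : (0 : ℝ) < n := by exact_mod_cast hn
    rcases lt_or_ge n L with hlt | hge
    · have h1 : (n : ℝ) ^ A ≤ (L : ℝ) ^ A :=
        pow_le_pow_left₀ hnr.le (by exact_mod_cast hlt.le) A
      rw [le_div_iff₀ (by positivity)]
      calc t n * (n : ℝ) ^ A ≤ 1 * (L : ℝ) ^ A := by
            refine mul_le_mul (ht1 n) h1 (by positivity) zero_le_one
        _ ≤ C' := by
            rw [hC', one_mul]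
            have : 0 ≤ 2 * C * (2 * L) ^ A / p := by positivity
            linarith
    · set m := n / L with hm
      have hm1 : 1 ≤ m := (Nat.one_le_div_iff (by omega)).2 hge
      have hmn : m < n := Nat.div_lt_self (by omega) (by omega)
      have hstep := tail_step h hu0 hu hp ht ht0 ht1 hn hmn.le
      have hih := ih (n - m) (by omega) (by omega)
      have hmL : (m : ℝ) ≤ n / L := by
        rw [hm]; exact Nat.cast_div_le
      have hnm : ((n - m : ℕ) : ℝ) = n - m := by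
        rw [Nat.cast_sub hmn.le]
      have hlow : (n : ℝ) * (1 - 1 / L) ≤ ((n - m : ℕ) : ℝ) := by
        rw [hnm]
        have : (n : ℝ) * (1 - 1 / L) = n - n / L := by ring
        linarith
      have hL0 : (0 : ℝ) < L := by linarith
      have h1L : (0 : ℝ) ≤ 1 - 1 / L := by
        rw [sub_nonneg, div_le_one hL0]; linarith
      have hbern : 1 - p / 2 ≤ (1 - 1 / (L : ℝ)) ^ A := by
        have := one_add_mul_le_pow (a := -(1 / (L : ℝ))) (by
          have : 1 / (L : ℝ) ≤ 1 := by rw [div_le_one hL0]; linarith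
          linarith) A
        have h2 : 1 + (A : ℝ) * -(1 / (L : ℝ)) = 1 - A / L := by ring
        rw [h2] at this
        have h3 : (1 + -(1 / (L : ℝ))) = 1 - 1 / (L : ℝ) := by ring
        rw [h3] at this
        linarith
      have hpow : (n : ℝ) ^ A * (1 - p / 2) ≤ ((n - m : ℕ) : ℝ) ^ A := by
        calc (n : ℝ) ^ A * (1 - p / 2) ≤ (n : ℝ) ^ A * (1 - 1 / (L : ℝ)) ^ A :=
              mul_le_mul_of_nonneg_left hbern (by positivity)
          _ = ((n : ℝ) * (1 - 1 / L)) ^ A := by rw [mul_pow]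
          _ ≤ _ := pow_le_pow_left₀ (by positivity) hlow A
      have hp2 : 0 < 1 - p / 2 := by linarith
      -- first term
      have hT1 : (1 - p) * t (n - m) ≤ (1 - p / 2) * C' / (n : ℝ) ^ A := by
        have ha : t (n - m) ≤ C' / ((n : ℝ) ^ A * (1 - p / 2)) := by
          refine hih.trans ?_
          exact div_le_div_of_nonneg_left hC'0 (by positivity) hpow
        have hb : (1 - p) * t (n - m) ≤ (1 - p) * (C' / ((n : ℝ) ^ A * (1 - p / 2))) :=
          mul_le_mul_of_nonneg_left ha (by linarith)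
        refine hb.trans ?_
        rw [le_div_iff₀ (by positivity)]
        have : (1 - p) * (C' / ((n : ℝ) ^ A * (1 - p / 2))) * (n : ℝ) ^ A
            = (1 - p) / (1 - p / 2) * C' := by
          field_simp
        rw [this]
        refine mul_le_mul_of_nonneg_right ?_ hC'0
        rw [div_le_iff₀ hp2]
        nlinarith [sq_nonneg p]
      -- second term
      have hm2 : (n : ℝ) / (2 * L) ≤ m := by
        have h1 : (n : ℝ) / L < m + 1 := by
          have := Nat.lt_floor_add_one ((n : ℝ) / L)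
          rwa [Nat.floor_div_natCast, Nat.floor_natCast] at this
        have h2 : (1 : ℝ) ≤ m := by exact_mod_cast hm1
        have h3 : (n : ℝ) / (2 * L) = (n / L) / 2 := by field_simp
        rw [h3]; linarith
      have hT2 : u m - p ≤ C * (2 * L) ^ A / (n : ℝ) ^ A := by
        refine (hC m hm1).trans ?_
        have h1 : ((n : ℝ) / (2 * L)) ^ A ≤ (m : ℝ) ^ A :=
          pow_le_pow_left₀ (by positivity) hm2 A
        have h2 : C / (m : ℝ) ^ A ≤ C / ((n : ℝ) / (2 * L)) ^ A :=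
          div_le_div_of_nonneg_left hC0 (by positivity) h1
        refine h2.trans (le_of_eq ?_)
        rw [div_pow]; field_simp
      have hfin : (1 - p / 2) * C' / (n : ℝ) ^ A + C * (2 * L) ^ A / (n : ℝ) ^ A
          ≤ C' / (n : ℝ) ^ A := by
        rw [← add_div]
        refine div_le_div_of_nonneg_right ?_ (by positivity)
        have : C * (2 * L) ^ A ≤ p / 2 * C' := by
          rw [hC']
          have h1 : p / 2 * (2 * C * (2 * L) ^ A / p) = C * (2 * L) ^ A := by field_simp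
          have h2 : 0 ≤ p / 2 * (L : ℝ) ^ A := by positivity
          rw [mul_add, h1]; linarith
        linarith
      linarith

/-- **S4** numbers: if `s (2^i n) - s(2^(i+1) n)`-type increments decay polynomially, so does the sum -/
theorem dyadic_sum {a : ℕ → ℝ} {A : ℕ} {C : ℝ} (hC : 0 ≤ C) (hA : 1 ≤ A)
    (h : ∀ n : ℕ, 1 ≤ n → a n ≤ C / (n : ℝ) ^ A) {n : ℕ} (hn : 1 ≤ n) (J : ℕ) :
    ∑ i ∈ range J, a (2 ^ i * n) ≤ 2 * C / (n : ℝ) ^ A := by
  have hnr : (0 : ℝ) < n := by exact_mod_cast hn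
  have h1 : ∀ i ∈ range J, a (2 ^ i * n) ≤ C / (n : ℝ) ^ A * (1 / 2) ^ i := by
    intro i _
    have h2 : 1 ≤ 2 ^ i * n := Nat.mul_pos (by positivity) hn
    refine (h _ h2).trans ?_
    push_cast
    rw [mul_pow, ← pow_mul, mul_comm i A, pow_mul]
    have h3 : (2 : ℝ) ^ i ≤ ((2 : ℝ) ^ A) ^ i := by
      refine pow_le_pow_left₀ (by norm_num) ?_ i
      calc (2 : ℝ) = 2 ^ 1 := by norm_num
        _ ≤ 2 ^ A := pow_le_pow_right₀ (by norm_num) hA
    calc C / (((2 : ℝ) ^ A) ^ i * (n : ℝ) ^ A) ≤ C / ((2 : ℝ) ^ i * (n : ℝ) ^ A) :=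
          div_le_div_of_nonneg_left hC (by positivity)
            (mul_le_mul_of_nonneg_right h3 (by positivity))
      _ = C / (n : ℝ) ^ A * (1 / 2) ^ i := by
          rw [one_div, inv_pow]; field_simp
  refine (sum_le_sum h1).trans ?_
  rw [← mul_sum]
  have hg : ∑ i ∈ range J, (1 / 2 : ℝ) ^ i ≤ 2 := by
    have := sum_geometric_two_le J
    simpa using this
  calc C / (n : ℝ) ^ A * ∑ i ∈ range J, (1 / 2 : ℝ) ^ i ≤ C / (n : ℝ) ^ A * 2 :=
        mul_le_mul_of_nonneg_left hg (by positivity)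
    _ = 2 * C / (n : ℝ) ^ A := by ring

end Crest.Agent.R154.B9409
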