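import Crest.Agent.R154.Ren_263
import Crest.Agent.R154.B9Num_409

/-! R154 B9 (S4, S5, S6): abstract renewal part (helper409).  Letters with integer heights. -/

set_option autoImplicit false
set_option linter.unusedSectionVars false

open MeasureTheory Filter Set
open scoped ENNReal Topology

namespace Crest.Agent.R154.B9409

open Crest.Agent.R154.Ren263

variable {S : Type*}

/-- integer height after `n` letters -/
def H (hz : S → ℤ) (s : ℕ → S) (n : ℕ) : ℤ := ∑ i ∈ Finset.range n, hz (s i)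

/-- the real height function of 263 -/
def hr (hz : S → ℤ) : S → ℝ := fun x => (hz x : ℝ)

lemma hgt_eq (hz : S → ℤ) (s : ℕ → S) (n : ℕ) : hgt (hr hz) s n = (H hz s n : ℝ) := by
  simp [hgt, H, hr]

@[simp] lemma H_zero (hz : S → ℤ) (s : ℕ → S) : H hz s 0 = 0 := by simp [H]

lemma H_succ (hz : S → ℤ) (s : ℕ → S) (n : ℕ) : H hz s (n + 1) = H hz s n + hz (s n) := by
  simp [H, Finset.sum_range_succ]

lemma H_shift (hz : S → ℤ) (s : ℕ → S) (t m : ℕ) :
    H hz (shift t s) m = H hz s (t + m) - H hz s t := by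
  unfold H Ren263.shift
  rw [Finset.sum_range_add]
  ring

lemma H_congr (hz : S → ℤ) {s s' : ℕ → S} {n : ℕ} (h : ∀ i < n, s i = s' i) {k : ℕ}
    (hk : k ≤ n) : H hz s k = H hz s' k := by
  unfold H
  refine Finset.sum_congr rfl fun i hi => ?_
  rw [h i (lt_of_lt_of_le (Finset.mem_range.1 hi) hk)]

lemma mem_Stay_iff (hz : S → ℤ) (s : ℕ → S) : s ∈ Stay (hr hz) ↔ ∀ n, 0 ≤ H hz s n := by
  simp only [Stay, mem_ofPred_eq, hgt_eq]
  exact forall_congr' fun n => by norm_cast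

lemma shift_mem_Stay_iff (hz : S → ℤ) (s : ℕ → S) (t : ℕ) :
    shift t s ∈ Stay (hr hz) ↔ ∀ i, t ≤ i → H hz s t ≤ H hz s i := by
  rw [mem_shift_Stay]
  simp only [hgt_eq]
  exact forall_congr' fun n => forall_congr' fun _ => by norm_cast

lemma record_iff (hz : S → ℤ) (s : ℕ → S) (n : ℕ) :
    Record (hr hz) s n ↔ ∀ k < n, H hz s k < H hz s n := by
  simp only [Record, hgt_eq]
  exact forall_congr' fun k => forall_congr' fun _ => by norm_cast

/-- first passage at level `j` at time `t`, before going below the start -/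
def FA (hz : S → ℤ) (j t : ℕ) : Set (ℕ → S) :=
  {s | H hz s t = j ∧ (∀ i < t, H hz s i < j) ∧ ∀ i ≤ t, 0 ≤ H hz s i}

/-- level `j` is a cut level -/
def Cut (hz : S → ℤ) (s : ℕ → S) (j : ℕ) : Prop :=
  ∃ t, H hz s t = j ∧ (∀ i < t, H hz s i < j) ∧ ∀ i, t ≤ i → (j : ℤ) ≤ H hz s i

/-- `Y > m` -/
def YG (hz : S → ℤ) (m : ℕ) : Set (ℕ → S) :=
  {s | s ∈ Stay (hr hz) ∧ ∀ j, 1 ≤ j → j ≤ m → ¬ Cut hz s j}

lemma YG_zero (hz : S → ℤ) : YG hz 0 = Stay (hr hz) := by
  ext s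
  simp only [YG, mem_ofPred_eq]
  constructor
  · exact fun h => h.1
  · exact fun h => ⟨h, fun j h1 h2 => by omega⟩

lemma YG_anti (hz : S → ℤ) {m n : ℕ} (h : m ≤ n) : YG hz n ⊆ YG hz m :=
  fun _ hs => ⟨hs.1, fun j h1 h2 => hs.2 j h1 (h2.trans h)⟩

lemma det_FA (hz : S → ℤ) (j t : ℕ) : Det t (FA hz j t) := by
  intro s s' h
  simp only [FA, mem_ofPred_eq]
  rw [H_congr hz h le_rfl]
  refine and_congr Iff.rfl (and_congr ?_ ?_)
  · refine forall_congr' fun i => forall_congr' fun hi => ?_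
    rw [H_congr hz h (le_of_lt hi)]
  · refine forall_congr' fun i => forall_congr' fun hi => ?_
    rw [H_congr hz h hi]

lemma FA_record (hz : S → ℤ) {j t : ℕ} {s : ℕ → S} (hs : s ∈ FA hz j t) :
    Record (hr hz) s t := by
  rw [record_iff]
  intro k hk
  rw [hs.1]
  exact hs.2.1 k hk

lemma FA_unique (hz : S → ℤ) {j t t' : ℕ} {s : ℕ → S} (h : s ∈ FA hz j t)
    (h' : s ∈ FA hz j t') : t = t' := by
  rcases lt_trichotomy t t' with H1 | H1 | H1
  · exact absurd h.1 (h'.2.1 t H1).ne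
  · exact H1
  · exact absurd h'.1 (h.2.1 t' H1).ne

/-- `T_j < D` -/
def U (hz : S → ℤ) (j : ℕ) : Set (ℕ → S) := ⋃ t, FA hz j t

/-- last cut level `≤ n` is `j` -/
def Z (hz : S → ℤ) (n j : ℕ) : Set (ℕ → S) :=
  {s | s ∈ Stay (hr hz) ∧ Cut hz s j ∧ ∀ i, j < i → i ≤ n → ¬ Cut hz s i}

lemma cut_shift (hz : S → ℤ) {j t : ℕ} {s : ℕ → S} (h : s ∈ FA hz j t) (i : ℕ) (hi : 1 ≤ i) :
    Cut hz (shift t s) i ↔ Cut hz s (j + i) := by
  constructor
  · rintro ⟨m, h1, h2, h3⟩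
    refine ⟨t + m, ?_, fun k hk => ?_, fun k hk => ?_⟩
    · rw [H_shift, h.1] at h1; push_cast; linarith
    · rcases lt_or_ge k t with hkt | hkt
      · have := h.2.1 k hkt; push_cast; omega
      · obtain ⟨l, rfl⟩ := Nat.exists_eq_add_of_le hkt
        have := h2 l (by omega)
        rw [H_shift, h.1] at this; push_cast; linarith
    · obtain ⟨l, rfl⟩ := Nat.exists_eq_add_of_le (le_trans (Nat.le_add_right t m) hk)
      have := h3 l (by omega)
      rw [H_shift, h.1] at this; push_cast; linarith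
  · rintro ⟨m, h1, h2, h3⟩
    have htm : t ≤ m := by
      by_contra hcon
      push Not at hcon
      have := h.2.1 m hcon
      rw [h1] at this; push_cast at this; omega
    obtain ⟨l, rfl⟩ := Nat.exists_eq_add_of_le htm
    refine ⟨l, ?_, fun k hk => ?_, fun k hk => ?_⟩
    · rw [H_shift, h.1, h1]; push_cast; ring
    · have := h2 (t + k) (by omega)
      rw [H_shift, h.1]; push_cast at this; linarith
    · have := h3 (t + k) (by omega)
      rw [H_shift, h.1]; push_cast at this; linarith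

lemma Z_eq (hz : S → ℤ) {n j : ℕ} (hj : j ≤ n) :
    Z hz n j = ⋃ t, FA hz j t ∩ shift t ⁻¹' YG hz (n - j) := by
  ext s
  simp only [Z, mem_ofPred_eq, mem_iUnion, mem_inter_iff, mem_preimage]
  constructor
  · rintro ⟨h1, ⟨t, h2, h3, h4⟩, h5⟩
    have hFA : s ∈ FA hz j t := ⟨h2, h3, fun i _ => (mem_Stay_iff hz s).1 h1 i⟩
    refine ⟨t, hFA, ?_, fun i hi1 hi2 hi3 => ?_⟩
    · rw [shift_mem_Stay_iff]; rw [h2]; exact h4
    · exact h5 (j + i) (by omega) (by omega) ((cut_shift hz hFA i hi1).1 hi3)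
  · rintro ⟨t, hFA, h1, h2⟩
    have h3 := (shift_mem_Stay_iff hz s t).1 h1
    refine ⟨(mem_Stay_iff hz s).2 fun i => ?_, ⟨t, hFA.1, hFA.2.1, fun i hi => ?_⟩, ?_⟩
    · rcases le_total i t with hit | hit
      · exact hFA.2.2 i hit
      · exact (hFA.2.2 t le_rfl).trans (h3 i hit)
    · rw [← hFA.1]; exact h3 i hi
    · intro i hi1 hi2 hi3
      refine h2 (i - j) (by omega) (by omega) ((cut_shift hz hFA (i - j) (by omega)).2 ?_)
      rwa [Nat.add_sub_cancel' hi1.le]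

lemma Stay_eq_Z (hz : S → ℤ) (n : ℕ) : Stay (hr hz) = ⋃ j ∈ Finset.range (n + 1), Z hz n j := by
  classical
  ext s
  simp only [mem_iUnion, Finset.mem_range]
  constructor
  · intro hs
    have h0 : Cut hz s 0 := ⟨0, by simp, fun i hi => absurd hi (Nat.not_lt_zero i), fun i _ => by
      simpa using (mem_Stay_iff hz s).1 hs i⟩
    refine ⟨Nat.findGreatest (fun j => Cut hz s j) n, ?_, hs, ?_, fun i hi1 hi2 hi3 => ?_⟩
    · exact Nat.lt_succ_of_le (Nat.findGreatest_le n)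
    · exact Nat.findGreatest_spec (P := fun j => Cut hz s j) (Nat.zero_le n) h0
    · exact Nat.findGreatest_is_greatest hi1 hi2 hi3
  · rintro ⟨j, _, hs⟩
    exact hs.1

lemma Z_disj (hz : S → ℤ) (n : ℕ) :
    ((Finset.range (n + 1) : Finset ℕ) : Set ℕ).PairwiseDisjoint (Z hz n) := by
  have key : ∀ j j', j < j' → j' ≤ n → Disjoint (Z hz n j) (Z hz n j') := by
    intro j j' hjj hj'
    rw [Set.disjoint_left]
    rintro s ⟨_, _, h1⟩ ⟨_, h2, _⟩
    exact h1 j' hjj hj' h2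
  intro j hj j' hj' hne
  have h1 := Finset.mem_range.1 (Finset.mem_coe.1 hj)
  have h2 := Finset.mem_range.1 (Finset.mem_coe.1 hj')
  rcases lt_or_gt_of_ne hne with h | h
  · exact key j j' h (by omega)
  · exact (key j' j h (by omega)).symm

section meas

variable [Countable S] [MeasurableSpace S] [MeasurableSingletonClass S]

lemma measurableSet_Cut (hz : S → ℤ) (j : ℕ) : MeasurableSet {s : ℕ → S | Cut hz s j} := by
  have : {s : ℕ → S | Cut hz s j} = ⋃ t, ({s | H hz s t = j ∧ ∀ i < t, H hz s i < j} ∩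
      shift t ⁻¹' Stay (hr hz)) := by
    ext s
    simp only [Cut, mem_ofPred_eq, mem_iUnion, mem_inter_iff, mem_preimage]
    refine exists_congr fun t => ?_
    rw [shift_mem_Stay_iff]
    constructor
    · rintro ⟨h1, h2, h3⟩
      exact ⟨⟨h1, h2⟩, fun i hi => by rw [h1]; exact h3 i hi⟩
    · rintro ⟨⟨h1, h2⟩, h3⟩
      exact ⟨h1, h2, fun i hi => by rw [← h1]; exact h3 i hi⟩
  rw [this]
  refine MeasurableSet.iUnion fun t => ?_
  refine MeasurableSet.inter ?_ (Ren263.measurable_shift t (measurableSet_Stay _))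
  have hd : Det t {s : ℕ → S | H hz s t = j ∧ ∀ i < t, H hz s i < j} := by
    intro s s' h
    simp only [mem_ofPred_eq]
    rw [H_congr hz h le_rfl]
    refine and_congr Iff.rfl (forall_congr' fun i => forall_congr' fun hi => ?_)
    rw [H_congr hz h (le_of_lt hi)]
  exact hd.measurableSet

lemma measurableSet_YG (hz : S → ℤ) (m : ℕ) : MeasurableSet (YG hz m) := by
  have : YG hz m = Stay (hr hz) ∩ ⋂ j, ⋂ (_ : 1 ≤ j), ⋂ (_ : j ≤ m), {s | Cut hz s j}ᶜ := by
    ext s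
    simp [YG]
  rw [this]
  exact (measurableSet_Stay _).inter (MeasurableSet.iInter fun j => MeasurableSet.iInter fun _ =>
    MeasurableSet.iInter fun _ => (measurableSet_Cut hz j).compl)

lemma measurableSet_Z (hz : S → ℤ) {n j : ℕ} (hj : j ≤ n) : MeasurableSet (Z hz n j) := by
  rw [Z_eq hz hj]
  exact MeasurableSet.iUnion fun t => (det_FA hz j t).measurableSet.inter
    (Ren263.measurable_shift t (measurableSet_YG hz _))

lemma P_Z {hz : S → ℤ} {P : Measure (ℕ → S)} (R : Renewal (hr hz) P) {n j : ℕ} (hj : j ≤ n) :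
    P (Z hz n j) = P (U hz j) * P (YG hz (n - j)) := by
  rw [Z_eq hz hj, measure_iUnion, U, measure_iUnion]
  · rw [← ENNReal.tsum_mul_right]
    refine tsum_congr fun t => ?_
    exact R.ren t _ _ (det_FA hz j t) (fun s hs => FA_record hz hs) (measurableSet_YG hz _)
      fun s hs => hs.1
  · intro t t' hne
    rw [Function.onFun, Set.disjoint_left]
    exact fun s h h' => hne (FA_unique hz h h')
  · exact fun t => (det_FA hz j t).measurableSet
  · intro t t' hne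
    rw [Function.onFun, Set.disjoint_left]
    exact fun s h h' => hne (FA_unique hz h.1 h'.1)
  · exact fun t => (det_FA hz j t).measurableSet.inter
      (Ren263.measurable_shift t (measurableSet_YG hz _))

/-- **renewal equation** -/
theorem renewal_eq {hz : S → ℤ} {P : Measure (ℕ → S)} (R : Renewal (hr hz) P) (n : ℕ) :
    ∑ j ∈ Finset.range (n + 1), P (U hz j) * P (YG hz (n - j)) = P (Stay (hr hz)) := by
  have h1 : P (Stay (hr hz)) = ∑ j ∈ Finset.range (n + 1), P (Z hz n j) := by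
    conv_lhs => rw [Stay_eq_Z hz n]
    exact measure_biUnion_finset (Z_disj hz n) fun j hj =>
      measurableSet_Z hz (Nat.lt_succ_iff.1 (Finset.mem_range.1 hj))
  rw [h1]
  exact Finset.sum_congr rfl fun j hj =>
    (P_Z R (Nat.lt_succ_iff.1 (Finset.mem_range.1 hj))).symm

end meas

/-! ### deterministic facts on letter sequences -/

/-- back below the start after reaching height `K`, before height `L` -/
def BackS (hz : S → ℤ) (K L : ℕ) : Set (ℕ → S) :=
  {s | ∃ m, H hz s m < 0 ∧ (∀ i < m, 0 ≤ H hz s i) ∧ (∃ n < m, (K : ℤ) ≤ H hz s n) ∧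
    ∀ i ≤ m, H hz s i < L}

/-- heights in `[0, L)` at the times `0, …, a - 1` -/
def SlabS (hz : S → ℤ) (L a : ℕ) : Set (ℕ → S) := {s | ∀ i < a, 0 ≤ H hz s i ∧ H hz s i < L}

/-- `τ > N` on `Stay` -/
def NR (hz : S → ℤ) (N : ℕ) : Set (ℕ → S) :=
  {s | s ∈ Stay (hr hz) ∧ ∀ m, 1 ≤ m → m ≤ N → ¬ Reg (hr hz) s m}

lemma NR_anti (hz : S → ℤ) {m n : ℕ} (h : m ≤ n) : NR hz n ⊆ NR hz m :=
  fun _ hs => ⟨hs.1, fun j h1 h2 => hs.2 j h1 (h2.trans h)⟩

lemma exact_passage {hz : S → ℤ} {s : ℕ → S} (hNN : ∀ n, hz (s n) ≤ 1) {j : ℕ} {t : ℕ}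
    (ht : (j : ℤ) ≤ H hz s t) :
    ∃ t' ≤ t, H hz s t' = j ∧ ∀ i < t', H hz s i < j := by
  classical
  have hex : ∃ t, (j : ℤ) ≤ H hz s t := ⟨t, ht⟩
  refine ⟨Nat.find hex, Nat.find_min' hex ht, ?_, fun i hi => not_le.1 (Nat.find_min hex hi)⟩
  have h1 := Nat.find_spec hex
  refine le_antisymm ?_ h1
  rcases Nat.eq_zero_or_pos (Nat.find hex) with h0 | hpos
  · rw [h0, H_zero]; positivity
  · have h2 : H hz s (Nat.find hex - 1) < j := not_le.1 (Nat.find_min hex (by omega))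
    have h3 := H_succ hz s (Nat.find hex - 1)
    rw [Nat.sub_add_cancel hpos] at h3
    have h4 := hNN (Nat.find hex - 1)
    omega

lemma U_succ {hz : S → ℤ} {s : ℕ → S} (hNN : ∀ n, hz (s n) ≤ 1) {j : ℕ}
    (hs : s ∈ U hz (j + 1)) : s ∈ U hz j := by
  obtain ⟨t, h1, h2, h3⟩ := mem_iUnion.1 hs
  obtain ⟨t', h4, h5, h6⟩ := exact_passage hNN (j := j) (t := t) (by rw [h1]; push_cast; omega)
  exact mem_iUnion.2 ⟨t', h5, h6, fun i hi => h3 i (hi.trans h4)⟩

lemma Stay_U {hz : S → ℤ} {s : ℕ → S} (hNN : ∀ n, hz (s n) ≤ 1) (hs : s ∈ Stay (hr hz))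
    (hunb : ∀ j : ℕ, ∃ t, (j : ℤ) ≤ H hz s t) (j : ℕ) : s ∈ U hz j := by
  obtain ⟨t, ht⟩ := hunb j
  obtain ⟨t', h4, h5, h6⟩ := exact_passage hNN ht
  exact mem_iUnion.2 ⟨t', h5, h6, fun i _ => (mem_Stay_iff hz s).1 hs i⟩

lemma U_zero (hz : S → ℤ) : U hz 0 = univ := by
  refine eq_univ_of_forall fun s => mem_iUnion.2 ⟨0, by simp, fun i hi => absurd hi (Nat.not_lt_zero i),
    fun i hi => ?_⟩
  rw [Nat.le_zero.1 hi, H_zero]

lemma U_diff {hz : S → ℤ} {s : ℕ → S} {n : ℕ} (hn : 1 ≤ n) (hs : s ∈ U hz n)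
    (hs' : s ∉ Stay (hr hz)) : ∃ i, s ∈ BackS hz (2 ^ i * n) (2 * (2 ^ i * n)) := by
  classical
  obtain ⟨t, h1, h2, h3⟩ := mem_iUnion.1 hs
  have hD : ∃ m, H hz s m < 0 := by
    rw [mem_Stay_iff] at hs'; push Not at hs'; exact hs'
  set m := Nat.find hD with hm
  have hm1 : H hz s m < 0 := Nat.find_spec hD
  have hm2 : ∀ i < m, 0 ≤ H hz s i := fun i hi => not_lt.1 (Nat.find_min hD hi)
  have htm : t < m := by
    by_contra hcon
    push Not at hcon
    exact absurd (h3 m hcon) (not_le.2 hm1)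
  have hex : ∃ i, ∀ l ≤ m, H hz s l < ((2 * (2 ^ i * n) : ℕ) : ℤ) := by
    obtain ⟨B, hB⟩ : ∃ B : ℕ, ∀ l ≤ m, H hz s l ≤ (B : ℤ) := by
      refine ⟨(∑ l ∈ Finset.range (m + 1), |H hz s l|).toNat, fun l hl => ?_⟩
      rw [Int.toNat_of_nonneg (Finset.sum_nonneg fun _ _ => abs_nonneg _)]
      exact (le_abs_self _).trans (Finset.single_le_sum (f := fun l => |H hz s l|)
        (fun _ _ => abs_nonneg _) (Finset.mem_range.2 (Nat.lt_succ_of_le hl)))
    refine ⟨B, fun l hl => (hB l hl).trans_lt ?_⟩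
    have h4 : B < 2 ^ B := Nat.lt_two_pow_self
    have h5 : 2 ^ B ≤ 2 * (2 ^ B * n) := by
      have h6 : 2 ^ B * 1 ≤ 2 ^ B * n := Nat.mul_le_mul_left _ hn
      omega
    exact_mod_cast lt_of_lt_of_le h4 h5
  refine ⟨Nat.find hex, m, hm1, hm2, ?_, Nat.find_spec hex⟩
  rcases Nat.eq_zero_or_pos (Nat.find hex) with h0 | hpos
  · refine ⟨t, htm, ?_⟩
    rw [h0, h1]; simp
  · have h6 := Nat.find_min hex (m := Nat.find hex - 1) (by omega)
    push Not at h6
    obtain ⟨l, hl1, hl2⟩ := h6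
    have h7 : 2 * (2 ^ (Nat.find hex - 1) * n) = 2 ^ Nat.find hex * n := by
      rw [← mul_assoc, ← pow_succ', Nat.sub_add_cancel hpos]
    rw [h7] at hl2
    refine ⟨l, ?_, hl2⟩
    refine lt_of_le_of_ne hl1 ?_
    rintro rfl
    have : (0 : ℤ) ≤ ((2 ^ Nat.find hex * n : ℕ) : ℤ) := by positivity
    linarith

/-- S6, deterministic part -/
lemma NR_sub (hz : S → ℤ) {n a : ℕ} (hn : 1 ≤ n) :
    NR hz a ⊆ YG hz n ∪ SlabS hz (2 * n) a := by
  intro s hs
  by_cases hY : s ∈ YG hz n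
  · exact Or.inl hY
  · right
    have : ∃ j, 1 ≤ j ∧ j ≤ n ∧ Cut hz s j := by
      by_contra hcon
      push Not at hcon
      exact hY ⟨hs.1, hcon⟩
    obtain ⟨j, hj1, hj2, t, h1, h2, h3⟩ := this
    have ht1 : 1 ≤ t := by
      rcases Nat.eq_zero_or_pos t with h0 | h0
      · rw [h0, H_zero] at h1; omega
      · exact h0
    have hReg : Reg (hr hz) s t := by
      refine ⟨(record_iff hz s t).2 fun k hk => by rw [h1]; exact h2 k hk, ?_⟩
      rw [shift_mem_Stay_iff, h1]; exact h3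
    have hta : a < t := by
      by_contra hcon
      push Not at hcon
      exact hs.2 t ht1 hcon hReg
    intro i hi
    refine ⟨(mem_Stay_iff hz s).1 hs.1 i, ?_⟩
    have := h2 i (by omega)
    push_cast; omega

/-! ### probabilities -/

section prob

variable [Countable S] [MeasurableSpace S] [MeasurableSingletonClass S]

/-- polynomial decay of every order -/
def PolyDecay (f : ℕ → ℝ≥0∞) : Prop :=
  ∀ A : ℕ, ∃ C : ℝ, 0 ≤ C ∧ ∀ n : ℕ, 1 ≤ n → f n ≤ ENNReal.ofReal (C / (n : ℝ) ^ A)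

/-- polynomial decay of order `A` -/
def DecayAt (A : ℕ) (f : ℕ → ℝ≥0∞) : Prop :=
  ∃ C : ℝ, 0 ≤ C ∧ ∀ n : ℕ, 1 ≤ n → f n ≤ ENNReal.ofReal (C / (n : ℝ) ^ A)

/-- S4 -/
lemma U_tail {hz : S → ℤ} {P : Measure (ℕ → S)} [IsProbabilityMeasure P] {A : ℕ}
    (E1 : DecayAt A fun n => P (BackS hz n (2 * n))) (hA : 1 ≤ A) :
    ∃ C : ℝ, 0 ≤ C ∧ ∀ n : ℕ, 1 ≤ n →
      P (U hz n \ Stay (hr hz)) ≤ ENNReal.ofReal (C / (n : ℝ) ^ A) := by
  obtain ⟨C, hC0, hC⟩ := E1
  refine ⟨2 * C, by positivity, fun n hn => ?_⟩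
  have hsub : U hz n \ Stay (hr hz) ⊆ ⋃ i : ℕ, BackS hz (2 ^ i * n) (2 * (2 ^ i * n)) := by
    rintro s ⟨h1, h2⟩
    exact mem_iUnion.2 (U_diff hn h1 h2)
  refine (measure_mono hsub).trans ((measure_iUnion_le _).trans ?_)
  rw [ENNReal.tsum_eq_iSup_nat]
  refine iSup_le fun J => ?_
  have hds := dyadic_sum (a := fun n => C / (n : ℝ) ^ A) hC0 hA (fun n _ => le_rfl) hn J
  calc ∑ i ∈ Finset.range J, P (BackS hz (2 ^ i * n) (2 * (2 ^ i * n)))
      ≤ ∑ i ∈ Finset.range J, ENNReal.ofReal (C / ((2 ^ i * n : ℕ) : ℝ) ^ A) := by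
        refine Finset.sum_le_sum fun i _ => hC _ ?_
        exact Nat.mul_pos (by positivity) hn
    _ = ENNReal.ofReal (∑ i ∈ Finset.range J, C / ((2 ^ i * n : ℕ) : ℝ) ^ A) := by
        rw [ENNReal.ofReal_sum_of_nonneg]
        intro i _; positivity
    _ ≤ _ := ENNReal.ofReal_le_ofReal hds

/-- S5 -/
lemma YG_tail_at {hz : S → ℤ} {P : Measure (ℕ → S)} [IsProbabilityMeasure P]
    (R : Renewal (hr hz) P) (hp : P (Stay (hr hz)) ≠ 0)
    (hNN : ∀ᵐ s ∂P, ∀ n, hz (s n) ≤ 1) (hunb : ∀ᵐ s ∂P, ∀ j : ℕ, ∃ t, (j : ℤ) ≤ H hz s t)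
    {A : ℕ} (hA : 1 ≤ A) (E1 : DecayAt A fun n => P (BackS hz n (2 * n))) :
    DecayAt A fun n => P (YG hz n) := by
  obtain ⟨C, hC0, hC⟩ := U_tail (P := P) E1 hA
  set p : ℝ := P.real (Stay (hr hz)) with hpdef
  have hp0 : 0 < p := by
    rw [hpdef]
    exact (measureReal_nonneg).lt_of_ne' (by
      rw [Measure.real, Ne, ENNReal.toReal_eq_zero_iff]; push Not
      exact ⟨hp, measure_ne_top _ _⟩)
  set u : ℕ → ℝ := fun j => P.real (U hz j) with hu
  set t : ℕ → ℝ := fun n => P.real (YG hz n) / p with ht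
  have hUm : ∀ j, MeasurableSet (U hz j) := fun j =>
    MeasurableSet.iUnion fun t => (det_FA hz j t).measurableSet
  have hle : ∀ j, P (Stay (hr hz)) ≤ P (U hz j) := by
    intro j
    refine measure_mono_ae ?_
    filter_upwards [hNN, hunb] with s h1 h2 hs
    exact Stay_U h1 hs h2 j
  have hren : ∀ n, ∑ j ∈ Finset.range (n + 1), u j * t (n - j) = 1 := by
    intro n
    have h1 := congrArg ENNReal.toReal (renewal_eq R n)
    rw [ENNReal.toReal_sum (fun j _ => ENNReal.mul_ne_top (measure_ne_top _ _)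
      (measure_ne_top _ _))] at h1
    simp only [ENNReal.toReal_mul] at h1
    have h2 : ∑ j ∈ Finset.range (n + 1), u j * t (n - j)
        = (∑ j ∈ Finset.range (n + 1), u j * P.real (YG hz (n - j))) / p := by
      rw [Finset.sum_div]
      exact Finset.sum_congr rfl fun j _ => by simp only [ht]; ring
    rw [h2, div_eq_one_iff_eq hp0.ne']
    exact h1
  have hanti : Antitone u := by
    refine antitone_nat_of_succ_le fun j => ?_
    refine ENNReal.toReal_mono (measure_ne_top _ _) (measure_mono_ae ?_)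
    filter_upwards [hNN] with s h1 hs
    exact U_succ h1 hs
  have hpu : ∀ n, p ≤ u n := fun n => ENNReal.toReal_mono (measure_ne_top _ _) (hle n)
  have hu0 : u 0 = 1 := by
    simp only [hu, U_zero]; simp
  have htanti : Antitone t := by
    intro m n hmn
    exact div_le_div_of_nonneg_right
      (ENNReal.toReal_mono (measure_ne_top _ _) (measure_mono (YG_anti hz hmn))) hp0.le
  have ht0 : ∀ n, 0 ≤ t n := fun n => div_nonneg measureReal_nonneg hp0.le
  have ht1 : ∀ n, t n ≤ 1 := by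
    intro n
    rw [ht, div_le_one hp0]
    exact ENNReal.toReal_mono (measure_ne_top _ _) (measure_mono fun s hs => hs.1)
  have hCu : ∀ n : ℕ, 1 ≤ n → u n - p ≤ C / (n : ℝ) ^ A := by
    intro n hn
    have h1 : P (U hz n) ≤ P (Stay (hr hz)) + P (U hz n \ Stay (hr hz)) := by
      rw [← measure_union_add_inter (Stay (hr hz)) ((hUm n).diff (measurableSet_Stay _))]
      refine le_trans (measure_mono ?_) (le_add_right le_rfl)
      intro s hs
      by_cases h : s ∈ Stay (hr hz)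
      · exact Or.inl h
      · exact Or.inr ⟨hs, h⟩
    have h2 : P (U hz n) ≤ P (Stay (hr hz)) + ENNReal.ofReal (C / (n : ℝ) ^ A) :=
      h1.trans (by gcongr; exact hC n hn)
    have h3 := ENNReal.toReal_mono (by
      exact ENNReal.add_ne_top.2 ⟨measure_ne_top _ _, ENNReal.ofReal_ne_top⟩) h2
    rw [ENNReal.toReal_add (measure_ne_top _ _) ENNReal.ofReal_ne_top,
      ENNReal.toReal_ofReal (by positivity)] at h3
    have h4 : u n ≤ p + C / (n : ℝ) ^ A := h3
    linarith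
  obtain ⟨C', hC'0, hC'⟩ := renewal_tail hp0 hren hu0 hanti hpu htanti ht0 ht1 hCu
  refine ⟨p * C', by positivity, fun n hn => ?_⟩
  have h1 := hC' n hn
  have hn1 : (1 : ℝ) ≤ n := by exact_mod_cast hn
  have h2 : P.real (YG hz n) ≤ p * C' / (n : ℝ) ^ A := by
    have h3 : P.real (YG hz n) = p * t n := by
      simp only [ht]; field_simp
    rw [h3, mul_div_assoc]
    exact mul_le_mul_of_nonneg_left h1 hp0.le
  simp only
  rw [← ENNReal.ofReal_toReal (measure_ne_top P (YG hz n))]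
  exact ENNReal.ofReal_le_ofReal h2

lemma PolyDecay.at {f : ℕ → ℝ≥0∞} (h : PolyDecay f) (A : ℕ) : DecayAt A f := h A

lemma DecayAt.le {f : ℕ → ℝ≥0∞} {A B : ℕ} (h : DecayAt B f) (hAB : A ≤ B) : DecayAt A f := by
  obtain ⟨C, hC0, hC⟩ := h
  refine ⟨C, hC0, fun n hn => (hC n hn).trans (ENNReal.ofReal_le_ofReal ?_)⟩
  have hn1 : (1 : ℝ) ≤ n := by exact_mod_cast hn
  exact div_le_div_of_nonneg_left hC0 (by positivity) (pow_le_pow_right₀ hn1 hAB)

/-- S6, tail of `τ` along the sequence `n0` -/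
lemma NR_tail_at {hz : S → ℤ} {P : Measure (ℕ → S)} [IsProbabilityMeasure P]
    (R : Renewal (hr hz) P) (hp : P (Stay (hr hz)) ≠ 0)
    (hNN : ∀ᵐ s ∂P, ∀ n, hz (s n) ≤ 1) (hunb : ∀ᵐ s ∂P, ∀ j : ℕ, ∃ t, (j : ℤ) ≤ H hz s t)
    {A : ℕ} (hA : 1 ≤ A)
    (E1 : DecayAt A fun n => P (BackS hz n (2 * n))) {n0 : ℕ → ℕ}
    (E2 : DecayAt A fun n => P (SlabS hz (2 * n) (n0 n))) :
    DecayAt A fun n => P (NR hz (n0 n)) := by
  obtain ⟨C1, hC1, h1⟩ := YG_tail_at R hp hNN hunb hA E1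
  obtain ⟨C2, hC2, h2⟩ := E2
  refine ⟨C1 + C2, by positivity, fun n hn => ?_⟩
  calc P (NR hz (n0 n)) ≤ P (YG hz n ∪ SlabS hz (2 * n) (n0 n)) :=
        measure_mono (NR_sub hz hn)
    _ ≤ P (YG hz n) + P (SlabS hz (2 * n) (n0 n)) := measure_union_le _ _
    _ ≤ ENNReal.ofReal (C1 / (n : ℝ) ^ A) + ENNReal.ofReal (C2 / (n : ℝ) ^ A) :=
        add_le_add (h1 n hn) (h2 n hn)
    _ = ENNReal.ofReal ((C1 + C2) / (n : ℝ) ^ A) := by
        rw [← ENNReal.ofReal_add (by positivity) (by positivity), add_div]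

/-- from the subsequence to all times -/
lemma NR_sq {hz : S → ℤ} {P : Measure (ℕ → S)} [IsProbabilityMeasure P] {n0 : ℕ → ℕ} {C0 : ℕ}
    (hC0 : 1 ≤ C0) (hn0 : ∀ n, 1 ≤ n → n0 n ≤ C0 * n ^ 2)
    (h : DecayAt 4 fun n => P (NR hz (n0 n))) :
    ∃ C : ℝ, 0 ≤ C ∧ ∀ N : ℕ, 1 ≤ N → P (NR hz N) ≤ ENNReal.ofReal (C / (N : ℝ) ^ 2) := by
  obtain ⟨C, hC, hb⟩ := h
  have hC0r : (1 : ℝ) ≤ C0 := by exact_mod_cast hC0
  refine ⟨(C0 : ℝ) ^ 2 + 16 * (C0 : ℝ) ^ 2 * C, by positivity, fun N hN => ?_⟩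
  have hNr : (0 : ℝ) < N := by exact_mod_cast hN
  rcases lt_or_ge N C0 with hlt | hge
  · have h1 : (1 : ℝ) ≤ ((C0 : ℝ) ^ 2 + 16 * (C0 : ℝ) ^ 2 * C) / (N : ℝ) ^ 2 := by
      rw [one_le_div (by positivity)]
      have h2 : (N : ℝ) ^ 2 ≤ (C0 : ℝ) ^ 2 :=
        pow_le_pow_left₀ hNr.le (by exact_mod_cast hlt.le) 2
      have h3 : 0 ≤ 16 * (C0 : ℝ) ^ 2 * C := by positivity
      linarith
    calc P (NR hz N) ≤ 1 := prob_le_one
      _ = ENNReal.ofReal 1 := by simp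
      _ ≤ _ := ENNReal.ofReal_le_ofReal h1
  · set n := Nat.sqrt (N / C0) with hn
    have hq : 1 ≤ N / C0 := (Nat.one_le_div_iff (by omega)).2 hge
    have hn1 : 1 ≤ n := by
      rw [hn]; exact Nat.sqrt_pos.2 hq
    have hn2 : n ^ 2 ≤ N / C0 := Nat.sqrt_le' _
    have hn3 : N / C0 < (n + 1) ^ 2 := Nat.lt_succ_sqrt' _
    have h4 : C0 * n ^ 2 ≤ N := by
      calc C0 * n ^ 2 ≤ C0 * (N / C0) := Nat.mul_le_mul_left _ hn2
        _ ≤ N := Nat.mul_div_le N C0
    have h5 : N ≤ 4 * C0 * n ^ 2 := by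
      have h6 : N < C0 * (n + 1) ^ 2 := by
        have h7 : N / C0 + 1 ≤ (n + 1) ^ 2 := hn3
        have h8 : N < C0 * (N / C0 + 1) := Nat.lt_mul_div_succ N (by omega)
        exact lt_of_lt_of_le h8 (Nat.mul_le_mul_left _ h7)
      have h9 : (n + 1) ^ 2 ≤ 4 * n ^ 2 := by nlinarith
      have h10 : C0 * (n + 1) ^ 2 ≤ C0 * (4 * n ^ 2) := Nat.mul_le_mul_left _ h9
      have h11 : C0 * (4 * n ^ 2) = 4 * C0 * n ^ 2 := by ring
      omega
    have h5r : (N : ℝ) ≤ 4 * C0 * (n : ℝ) ^ 2 := by exact_mod_cast h5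
    have hnr : (0 : ℝ) < n := by exact_mod_cast hn1
    calc P (NR hz N) ≤ P (NR hz (n0 n)) :=
          measure_mono (NR_anti hz ((hn0 n hn1).trans h4))
      _ ≤ ENNReal.ofReal (C / (n : ℝ) ^ 4) := hb n hn1
      _ ≤ _ := by
          refine ENNReal.ofReal_le_ofReal ?_
          rw [div_le_div_iff₀ (by positivity) (by positivity)]
          have h12 : (N : ℝ) ^ 2 ≤ (4 * C0 * (n : ℝ) ^ 2) ^ 2 :=
            pow_le_pow_left₀ hNr.le h5r 2
          have h13 : (4 * (C0 : ℝ) * (n : ℝ) ^ 2) ^ 2 = 16 * (C0 : ℝ) ^ 2 * (n : ℝ) ^ 4 := by ring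
          rw [h13] at h12
          have h14 : C * (N : ℝ) ^ 2 ≤ C * (16 * (C0 : ℝ) ^ 2 * (n : ℝ) ^ 4) :=
            mul_le_mul_of_nonneg_left h12 hC
          have h15 : 0 ≤ (C0 : ℝ) ^ 2 * (n : ℝ) ^ 4 := by positivity
          nlinarith

/-- finite expectation of the first regeneration time from a square tail -/
lemma tsum_good_mul {hz : S → ℤ} {P : Measure (ℕ → S)} [IsProbabilityMeasure P]
    (R : Renewal (hr hz) P) (hp : P (Stay (hr hz)) ≠ 0) {C : ℝ} (_hC0 : 0 ≤ C)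
    (hC : ∀ N : ℕ, 1 ≤ N → P (NR hz N) ≤ ENNReal.ofReal (C / (N : ℝ) ^ 2)) :
    ∑' n : ℕ, (n : ℝ≥0∞) * P (Good (hr hz) n) ≠ ⊤ := by
  classical
  set W : ℕ → Set (ℕ → S) := fun n => Good (hr hz) n ∩ shift n ⁻¹' Stay (hr hz) with hW
  have hWm : ∀ n, MeasurableSet (W n) := fun n =>
    (det_Good _ n).measurableSet.inter (Ren263.measurable_shift n (measurableSet_Stay _))
  have hWP : ∀ n, P (W n) = P (Good (hr hz) n) * P (Stay (hr hz)) := fun n =>
    R.block (det_Good _ n) subset_rfl (measurableSet_Stay _) subset_rfl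
  have hWd : Pairwise (Function.onFun Disjoint W) := by
    intro n m hnm
    rw [Function.onFun, Set.disjoint_left]
    exact fun s h h' => hnm (good_unique h h')
  have hWN : ∀ N n, N < n → W n ⊆ NR hz N := by
    intro N n hNn s hs
    have h1 := good_iff.1 hs
    exact ⟨h1.1, fun m hm1 hm2 => h1.2.2.2 m hm1 (by omega)⟩
  have h1 : ∑' n : ℕ, (n : ℝ≥0∞) * P (W n) ≤ ∑' N : ℕ, P (NR hz N) := by
    have e1 : ∀ n : ℕ, (n : ℝ≥0∞) * P (W n) = ∑' N : ℕ, if N < n then P (W n) else 0 := by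
      intro n
      rw [tsum_eq_sum (s := Finset.range n)]
      · rw [Finset.sum_congr rfl (g := fun _ => P (W n))]
        · rw [Finset.sum_const, Finset.card_range, nsmul_eq_mul]
        · intro N hN; rw [if_pos (Finset.mem_range.1 hN)]
      · intro N hN; rw [if_neg (fun h => hN (Finset.mem_range.2 h))]
    simp only [e1]
    rw [ENNReal.tsum_comm]
    refine ENNReal.tsum_le_tsum fun N => ?_
    calc ∑' n : ℕ, (if N < n then P (W n) else 0)
        = ∑' n : ℕ, P (if N < n then W n else ∅) := by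
          refine tsum_congr fun n => ?_
          split_ifs <;> simp
      _ = P (⋃ n, if N < n then W n else ∅) := by
          rw [measure_iUnion]
          · intro n m hnm
            rw [Function.onFun]
            by_cases h1 : N < n
            · by_cases h2 : N < m
              · rw [if_pos h1, if_pos h2]; exact hWd hnm
              · rw [if_neg h2]; exact Set.disjoint_empty _
            · rw [if_neg h1]; exact Set.empty_disjoint _
          · intro n; split_ifs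
            · exact hWm n
            · exact MeasurableSet.empty
      _ ≤ P (NR hz N) := by
          refine measure_mono ?_
          intro s hs
          obtain ⟨n, hn⟩ := mem_iUnion.1 hs
          split_ifs at hn with h
          · exact hWN N n h hn
          · exact absurd hn (notMem_empty s)
  have h2 : ∑' N : ℕ, P (NR hz N) ≠ ⊤ := by
    have hsum : Summable fun N : ℕ => C / (N : ℝ) ^ 2 := by
      have := (Real.summable_one_div_nat_pow (p := 2)).2 (by norm_num)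
      simpa [div_eq_mul_inv] using this.mul_left C
    have h3 : ∑' N : ℕ, P (NR hz N) ≤ 1 + ∑' N : ℕ, ENNReal.ofReal (C / (N : ℝ) ^ 2) := by
      have h4 : ∀ N : ℕ, P (NR hz N) ≤ (if N = 0 then 1 else 0) + ENNReal.ofReal (C / (N : ℝ) ^ 2) := by
        intro N
        rcases Nat.eq_zero_or_pos N with h0 | h0
        · rw [if_pos h0]; exact prob_le_one.trans (le_add_right le_rfl)
        · rw [if_neg h0.ne', zero_add]; exact hC N h0
      refine (ENNReal.tsum_le_tsum h4).trans ?_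
      rw [ENNReal.tsum_add]
      gcongr
      rw [tsum_ite_eq]
    refine ne_top_of_le_ne_top ?_ h3
    exact ENNReal.add_ne_top.2 ⟨ENNReal.one_ne_top, hsum.tsum_ofReal_ne_top⟩
  have h5 : (∑' n : ℕ, (n : ℝ≥0∞) * P (Good (hr hz) n)) * P (Stay (hr hz)) ≠ ⊤ := by
    rw [← ENNReal.tsum_mul_right]
    refine ne_top_of_le_ne_top h2 (le_trans (le_of_eq ?_) h1)
    refine tsum_congr fun n => ?_
    rw [hWP, mul_assoc]
  intro htop
  rw [htop, ENNReal.top_mul hp] at h5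
  exact h5 rfl

/-- **S4–S6**: the expected regeneration time is finite (decay of order 4 is enough) -/
theorem mean_time_at {hz : S → ℤ} {P : Measure (ℕ → S)} [IsProbabilityMeasure P]
    (R : Renewal (hr hz) P) (hp : P (Stay (hr hz)) ≠ 0)
    (hNN : ∀ᵐ s ∂P, ∀ n, hz (s n) ≤ 1) (hunb : ∀ᵐ s ∂P, ∀ j : ℕ, ∃ t, (j : ℤ) ≤ H hz s t)
    (E1 : DecayAt 4 fun n => P (BackS hz n (2 * n))) {n0 : ℕ → ℕ} {C0 : ℕ} (hC0 : 1 ≤ C0)
    (hn0 : ∀ n, 1 ≤ n → n0 n ≤ C0 * n ^ 2)
    (E2 : DecayAt 4 fun n => P (SlabS hz (2 * n) (n0 n))) :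
    ∑' n : ℕ, (n : ℝ≥0∞) * P (Good (hr hz) n) ≠ ⊤ := by
  obtain ⟨C, hC, hb⟩ := NR_sq hC0 hn0 (NR_tail_at R hp hNN hunb (by norm_num) E1 E2)
  exact tsum_good_mul R hp hC hb

/-- **S4–S6**: the expected regeneration time is finite -/
theorem mean_time {hz : S → ℤ} {P : Measure (ℕ → S)} [IsProbabilityMeasure P]
    (R : Renewal (hr hz) P) (hp : P (Stay (hr hz)) ≠ 0)
    (hNN : ∀ᵐ s ∂P, ∀ n, hz (s n) ≤ 1) (hunb : ∀ᵐ s ∂P, ∀ j : ℕ, ∃ t, (j : ℤ) ≤ H hz s t)
    (E1 : PolyDecay fun n => P (BackS hz n (2 * n))) {n0 : ℕ → ℕ} {C0 : ℕ} (hC0 : 1 ≤ C0)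
    (hn0 : ∀ n, 1 ≤ n → n0 n ≤ C0 * n ^ 2)
    (E2 : PolyDecay fun n => P (SlabS hz (2 * n) (n0 n))) :
    ∑' n : ℕ, (n : ℝ≥0∞) * P (Good (hr hz) n) ≠ ⊤ :=
  mean_time_at R hp hNN hunb (E1.at 4) hC0 hn0 (E2.at 4)

end prob

end Crest.Agent.R154.B9409
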