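import Crest.Agent.R154.Quen_561

/-! R154 B0: shift covariance and locality of the quenched law. -/

set_option autoImplicit false

open MeasureTheory ProbabilityTheory
open scoped ENNReal

namespace Crest.Agent.R154.Q561

open Crest.ProbabilityR.RandomEnvironment

variable {d : ℕ}

/-! ### shift covariance -/

/-- translation of a path -/
def tr (z : Site d) (X : Path d) : Path d := fun k => X k + z

theorem measurable_tr (z : Site d) : Measurable (tr z : Path d → Path d) :=
  measurable_pi_lambda _ fun k =>
    (measurable_of_countable (fun x : Site d => x + z)).comp (measurable_pi_apply k)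

theorem measurable_shiftEnv (z : Site d) : Measurable (shiftEnv z : Environment d → Environment d) :=
  measurable_pi_lambda _ fun x => measurable_pi_apply (x + z)

theorem stepP_shift (z : Site d) (ω : Environment d) (x y : Site d) :
    stepP (shiftEnv z ω) x y = stepP ω (x + z) (y + z) := by
  simp only [stepP_eq, shiftEnv]
  refine Finset.sum_congr rfl fun e _ => ?_
  have : (x + z + stepVec e = y + z) ↔ (x + stepVec e = y) := by
    rw [add_right_comm, add_left_inj]
  simp only [this]

theorem pathW_shift (z : Site d) (ω : Environment d) (γ : Path d) (n : ℕ) :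
    pathW (shiftEnv z ω) γ n = pathW ω (tr z γ) n := by
  simp only [pathW, stepP_shift, tr]

/-- **(q5)** quenched shift covariance -/
theorem quenched_shift (z : Site d) (ω : Environment d) (x : Site d) :
    (quenchedLaw (shiftEnv z ω) x).map (tr z) = quenchedLaw ω (x + z) := by
  have : IsProbabilityMeasure ((quenchedLaw (shiftEnv z ω) x).map (tr z)) :=
    Measure.isProbabilityMeasure_map (measurable_tr z).aemeasurable
  apply ext_cyl_prob
  intro γ n
  rw [Measure.map_apply (measurable_tr z) (measurableSet_cyl γ n)]
  have h : tr z ⁻¹' Cyl γ n = Cyl (tr (-z) γ) n := by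
    ext X
    simp only [Cyl, Set.mem_preimage, Set.mem_ofPred_eq, tr]
    refine forall_congr' fun k => forall_congr' fun _ => ?_
    constructor
    · intro h; rw [← h]; abel
    · intro h; rw [h]; abel
  rw [h, quenched_cyl, quenched_cyl, pathW_shift]
  have h2 : tr z (tr (-z) γ) = γ := by
    funext k; simp [tr]
  rw [h2]
  have h3 : (tr (-z) γ 0 = x) ↔ (γ 0 = x + z) := by
    simp only [tr]
    constructor
    · intro h; rw [← h]; abel
    · intro h; rw [h]; abel
  simp only [h3]

theorem quenched_shift_apply (z : Site d) (ω : Environment d) (x : Site d) {B : Set (Path d)}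
    (hB : MeasurableSet B) :
    quenchedLaw ω (x + z) B = quenchedLaw (shiftEnv z ω) x (tr z ⁻¹' B) := by
  rw [← quenched_shift, Measure.map_apply (measurable_tr z) hB]

theorem quenched_eq_zero_shift (ω : Environment d) (x : Site d) {B : Set (Path d)}
    (hB : MeasurableSet B) :
    quenchedLaw ω x B = quenchedLaw (shiftEnv x ω) 0 (tr x ⁻¹' B) := by
  have := quenched_shift_apply x ω 0 hB
  rwa [zero_add] at this

theorem annealed_shift {Q : Measure (Environment d)} {z : Site d}
    (hQ : MeasurePreserving (shiftEnv z) Q Q) (x : Site d) {B : Set (Path d)}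
    (hB : MeasurableSet B) :
    annealedProb Q (x + z) B = annealedProb Q x (tr z ⁻¹' B) := by
  unfold annealedProb
  simp only [quenched_shift_apply z _ x hB]
  exact hQ.lintegral_comp (measurable_quenched_apply x (measurable_tr z hB))

theorem annealed_eq_zero_shift {Q : Measure (Environment d)}
    (hQ : ∀ z : Site d, MeasurePreserving (shiftEnv z) Q Q) (x : Site d) {B : Set (Path d)}
    (hB : MeasurableSet B) :
    annealedProb Q x B = annealedProb Q 0 (tr x ⁻¹' B) := by
  have := annealed_shift (hQ x) 0 hB
  rwa [zero_add] at this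

instance iid_isProb (ν : Measure (Row d)) [IsProbabilityMeasure ν] :
    IsProbabilityMeasure (iidEnvironmentLaw ν) := by
  unfold iidEnvironmentLaw; infer_instance

/-- the iid law is shift invariant -/
theorem iid_shift (ν : Measure (Row d)) [IsProbabilityMeasure ν] (z : Site d) :
    MeasurePreserving (shiftEnv z) (iidEnvironmentLaw ν) (iidEnvironmentLaw ν) := by
  refine ⟨measurable_shiftEnv z, ?_⟩
  unfold iidEnvironmentLaw
  apply Measure.eq_infinitePi
  intro s t ht
  rw [Measure.map_apply (measurable_shiftEnv z) (MeasurableSet.pi s.countable_toSet fun i _ => ht i)]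
  have h : (shiftEnv z ⁻¹' (Set.pi (s : Set (Site d)) t) : Set (Environment d))
      = Set.pi ((s.map (addRightEmbedding z) : Finset (Site d)) : Set (Site d))
        (fun j => t (j - z)) := by
    ext ω
    simp only [Set.mem_preimage, Set.mem_pi, SetLike.mem_coe, shiftEnv, Finset.mem_map,
      addRightEmbedding_apply]
    constructor
    · rintro h i ⟨j, hj, rfl⟩
      rw [add_sub_cancel_right]; exact h j hj
    · intro h i hi
      have := h (i + z) ⟨i, hi, rfl⟩
      rwa [add_sub_cancel_right] at this
  rw [h, Measure.infinitePi_pi _ (fun i _ => ht _), Finset.prod_map]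
  refine Finset.prod_congr rfl fun i _ => ?_
  rw [addRightEmbedding_apply, add_sub_cancel_right]

/-! ### locality -/

open Classical in
/-- the path stopped at the exit of `S` -/
noncomputable def stopAt (S : Set (Site d)) (X : Path d) : Path d
  | 0 => X 0
  | k + 1 => if stopAt S X k ∈ S then X (k + 1) else stopAt S X k

theorem stopAt_zero (S : Set (Site d)) (X : Path d) : stopAt S X 0 = X 0 := rfl

theorem stopAt_succ_of_mem {S : Set (Site d)} {X : Path d} {k : ℕ} (h : stopAt S X k ∈ S) :
    stopAt S X (k + 1) = X (k + 1) := by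
  simp [stopAt, h]

theorem stopAt_succ_of_not_mem {S : Set (Site d)} {X : Path d} {k : ℕ} (h : stopAt S X k ∉ S) :
    stopAt S X (k + 1) = stopAt S X k := by
  simp [stopAt, h]

theorem stopAt_eq_of_mem {S : Set (Site d)} {X : Path d} {k : ℕ} (h : ∀ j < k, X j ∈ S) :
    stopAt S X k = X k := by
  induction k with
  | zero => rfl
  | succ k ih =>
    have h1 := ih fun j hj => h j (Nat.lt_succ_of_lt hj)
    exact stopAt_succ_of_mem (h1 ▸ h k (Nat.lt_succ_self k))

theorem mem_of_stopAt_mem {S : Set (Site d)} {X : Path d} {k : ℕ} (h : stopAt S X k ∈ S) :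
    ∀ j ≤ k, X j ∈ S := by
  induction k with
  | zero =>
    intro j hj
    obtain rfl := Nat.le_zero.1 hj
    exact h
  | succ k ih =>
    by_cases h1 : stopAt S X k ∈ S
    · intro j hj
      rcases Nat.lt_or_ge j (k + 1) with h2 | h2
      · exact ih h1 j (Nat.lt_succ_iff.1 h2)
      · obtain rfl := le_antisymm hj h2
        rwa [stopAt_succ_of_mem h1] at h
    · rw [stopAt_succ_of_not_mem h1] at h
      exact absurd h h1

theorem stopAt_congr (S : Set (Site d)) {X Y : Path d} {k : ℕ} (h : ∀ j ≤ k, X j = Y j) :
    stopAt S X k = stopAt S Y k := by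
  induction k with
  | zero => exact h 0 le_rfl
  | succ k ih =>
    have h1 := ih fun j hj => h j (Nat.le_succ_of_le hj)
    by_cases h2 : stopAt S X k ∈ S
    · rw [stopAt_succ_of_mem h2, stopAt_succ_of_mem (h1 ▸ h2), h _ le_rfl]
    · rw [stopAt_succ_of_not_mem h2, stopAt_succ_of_not_mem (h1 ▸ h2), h1]

theorem stopAt_idem (S : Set (Site d)) (X : Path d) : stopAt S (stopAt S X) = stopAt S X := by
  funext k
  induction k with
  | zero => rfl
  | succ k ih =>
    by_cases h : stopAt S X k ∈ S
    · rw [stopAt_succ_of_mem (by rw [ih]; exact h)]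
    · rw [stopAt_succ_of_not_mem (by rw [ih]; exact h), ih, stopAt_succ_of_not_mem h]

theorem stopAt_of_forall {S : Set (Site d)} {X : Path d} (h : ∀ k, X k ∈ S) : stopAt S X = X := by
  funext k; exact stopAt_eq_of_mem fun j _ => h j

theorem depOn_stopAt (S : Set (Site d)) {n : ℕ} {A : Set (Path d)} (hA : DepOn n A) :
    DepOn n (stopAt S ⁻¹' A) := by
  intro X Y h hX
  exact hA (stopAt S X) (stopAt S Y)
    (fun k hk => stopAt_congr S fun j hj => h j (hj.trans hk)) hX

theorem measurable_stopAt (S : Set (Site d)) : Measurable (stopAt S : Path d → Path d) := by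
  refine measurable_pi_lambda _ fun k => ?_
  intro T _
  have : DepOn k ((fun X : Path d => stopAt S X k) ⁻¹' T) := by
    intro X Y h hX
    have h1 := stopAt_congr S h
    change stopAt S Y k ∈ T
    rw [← h1]; exact hX
  exact this.measurableSet

theorem pathW_congr {ω ω' : Environment d} {γ : Path d} {n : ℕ}
    (h : ∀ k < n, ω (γ k) = ω' (γ k)) : pathW ω γ n = pathW ω' γ n := by
  refine Finset.prod_congr rfl fun k hk => ?_
  simp only [stepP_eq, h k (Finset.mem_range.1 hk)]

theorem stop_cyl_of_mem {S : Set (Site d)} {γ : Path d} {n : ℕ} (h : ∀ k < n, γ k ∈ S) :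
    stopAt S ⁻¹' Cyl γ n = Cyl γ n := by
  ext X
  constructor
  · intro hX k hk
    have hj : ∀ j < k, X j ∈ S := by
      intro j hj
      have h1 : stopAt S X j ∈ S := by
        rw [hX j ((le_of_lt hj).trans hk)]; exact h j (lt_of_lt_of_le hj hk)
      exact mem_of_stopAt_mem h1 j le_rfl
    rw [← stopAt_eq_of_mem hj]
    exact hX k hk
  · intro hX k hk
    rw [stopAt_eq_of_mem, hX k hk]
    intro j hj
    rw [hX j ((le_of_lt hj).trans hk)]
    exact h j (lt_of_lt_of_le hj hk)

/-- **(q4) LOCALITY.** The law of the path stopped at the exit of `S` depends only on the rows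
at the sites of `S`. -/
theorem quenched_stop_congr {S : Set (Site d)} {ω ω' : Environment d}
    (h : ∀ z ∈ S, ω z = ω' z) (x : Site d) :
    (quenchedLaw ω x).map (stopAt S) = (quenchedLaw ω' x).map (stopAt S) := by
  have i1 : IsProbabilityMeasure ((quenchedLaw ω x).map (stopAt S)) :=
    Measure.isProbabilityMeasure_map (measurable_stopAt S).aemeasurable
  have i2 : IsProbabilityMeasure ((quenchedLaw ω' x).map (stopAt S)) :=
    Measure.isProbabilityMeasure_map (measurable_stopAt S).aemeasurable
  apply ext_cyl_prob
  intro γ n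
  rw [Measure.map_apply (measurable_stopAt S) (measurableSet_cyl γ n),
    Measure.map_apply (measurable_stopAt S) (measurableSet_cyl γ n)]
  by_cases hc : ∀ k < n, γ k ∈ S
  · rw [stop_cyl_of_mem hc, quenched_cyl, quenched_cyl,
      pathW_congr fun k hk => h _ (hc k hk)]
  · classical
    push Not at hc
    have hc' : ∃ k, k < n ∧ γ k ∉ S := hc
    set m := Nat.find hc' with hm
    obtain ⟨hmn, hmS⟩ := Nat.find_spec hc'
    have hmin : ∀ k < m, γ k ∈ S := by
      intro k hk
      by_contra hks
      exact Nat.find_min hc' hk ⟨hk.trans hmn, hks⟩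
    by_cases hconst : ∀ k, m ≤ k → k ≤ n → γ k = γ m
    · have hset : stopAt S ⁻¹' Cyl γ n = Cyl γ m := by
        ext X
        constructor
        · intro hX
          have : X ∈ stopAt S ⁻¹' Cyl γ m := fun k hk => hX k (hk.trans hmn.le)
          rwa [stop_cyl_of_mem hmin] at this
        · intro hX
          have h1 : X ∈ stopAt S ⁻¹' Cyl γ m := by rw [stop_cyl_of_mem hmin]; exact hX
          have h2 : ∀ j, stopAt S X (m + j) = γ m := by
            intro j
            induction j with
            | zero => exact h1 m le_rfl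
            | succ j ih =>
              rw [← add_assoc, stopAt_succ_of_not_mem, ih]
              rw [ih]; exact hmS
          intro k hk
          rcases le_total k m with h3 | h3
          · exact h1 k h3
          · obtain ⟨j, rfl⟩ := Nat.exists_eq_add_of_le h3
            rw [h2 j, hconst _ h3 hk]
      rw [hset, quenched_cyl, quenched_cyl, pathW_congr fun k hk => h _ (hmin k hk)]
    · have hset : (stopAt S ⁻¹' Cyl γ n : Set (Path d)) = ∅ := by
        rw [Set.eq_empty_iff_forall_notMem]
        intro X hX
        apply hconst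
        have h1 : stopAt S X m = γ m := hX m hmn.le
        have h2 : ∀ j, stopAt S X (m + j) = γ m := by
          intro j
          induction j with
          | zero => exact h1
          | succ j ih =>
            rw [← add_assoc, stopAt_succ_of_not_mem, ih]
            rw [ih]; exact hmS
        intro k hk hkn
        obtain ⟨j, rfl⟩ := Nat.exists_eq_add_of_le hk
        rw [← hX _ hkn, h2 j]
      rw [hset]; simp

/-- the event `A` is decided before the exit of `S` (including: never exits) -/
def Dec (S : Set (Site d)) (A : Set (Path d)) : Prop := stopAt S ⁻¹' A = A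

theorem dec_iff {S : Set (Site d)} {A : Set (Path d)} :
    Dec S A ↔ ∀ X Y, stopAt S X = stopAt S Y → X ∈ A → Y ∈ A := by
  constructor
  · intro h X Y hXY hX
    rw [← h] at hX ⊢
    change stopAt S Y ∈ A
    rw [← hXY]; exact hX
  · intro h
    ext X
    exact ⟨h _ _ (stopAt_idem S X), h _ _ (stopAt_idem S X).symm⟩

theorem Dec.inter {S : Set (Site d)} {A B : Set (Path d)} (hA : Dec S A) (hB : Dec S B) :
    Dec S (A ∩ B) := by
  rw [Dec, Set.preimage_inter, hA, hB]

theorem Dec.union {S : Set (Site d)} {A B : Set (Path d)} (hA : Dec S A) (hB : Dec S B) :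
    Dec S (A ∪ B) := by
  rw [Dec, Set.preimage_union, hA, hB]

theorem Dec.compl {S : Set (Site d)} {A : Set (Path d)} (hA : Dec S A) : Dec S Aᶜ := by
  rw [Dec, Set.preimage_compl, hA]

theorem dec_iUnion {ι : Sort*} {S : Set (Site d)} {A : ι → Set (Path d)}
    (h : ∀ i, Dec S (A i)) : Dec S (⋃ i, A i) := by
  rw [Dec, Set.preimage_iUnion]
  exact Set.iUnion_congr h

theorem dec_iInter {ι : Sort*} {S : Set (Site d)} {A : ι → Set (Path d)}
    (h : ∀ i, Dec S (A i)) : Dec S (⋂ i, A i) := by
  rw [Dec, Set.preimage_iInter]
  exact Set.iInter_congr h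

/-- events of paths which never leave `S` -/
theorem dec_of_forall {S : Set (Site d)} {A : Set (Path d)} (h : ∀ X ∈ A, ∀ k, X k ∈ S) :
    Dec S A := by
  ext X
  constructor
  · intro hX
    have h1 : ∀ k, X k ∈ S := fun k => mem_of_stopAt_mem (h _ hX k) k le_rfl
    have h2 := stopAt_of_forall h1
    change stopAt S X ∈ A at hX
    rwa [h2] at hX
  · intro hX
    change stopAt S X ∈ A
    rw [stopAt_of_forall (h X hX)]; exact hX

/-- events with a finite horizon `n`, of paths which are in `S` up to time `n - 1` -/
theorem dec_of_depOn {S : Set (Site d)} {n : ℕ} {A : Set (Path d)} (hA : DepOn n A)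
    (h : ∀ X ∈ A, ∀ k < n, X k ∈ S) : Dec S A := by
  ext X
  constructor
  · intro hX
    have h1 : ∀ k < n, X k ∈ S := fun k hk => mem_of_stopAt_mem (h _ hX k hk) k le_rfl
    exact hA _ X (fun k hk => stopAt_eq_of_mem fun j hj => h1 j (lt_of_lt_of_le hj hk)) hX
  · intro hX
    exact hA X _ (fun k hk => (stopAt_eq_of_mem fun j hj => h X hX j (lt_of_lt_of_le hj hk)).symm)
      hX

theorem quenched_congr {S : Set (Site d)} {ω ω' : Environment d}
    (h : ∀ z ∈ S, ω z = ω' z) (x : Site d) {A : Set (Path d)} (hA : MeasurableSet A)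
    (hd : Dec S A) : quenchedLaw ω x A = quenchedLaw ω' x A := by
  rw [← hd, ← Measure.map_apply (measurable_stopAt S) hA,
    ← Measure.map_apply (measurable_stopAt S) hA, quenched_stop_congr h]

theorem quenched_lintegral_congr {S : Set (Site d)} {ω ω' : Environment d}
    (h : ∀ z ∈ S, ω z = ω' z) (x : Site d) {F : Path d → ℝ≥0∞} (hF : Measurable F)
    (hd : ∀ X, F (stopAt S X) = F X) :
    ∫⁻ X, F X ∂quenchedLaw ω x = ∫⁻ X, F X ∂quenchedLaw ω' x := by
  have e : ∀ ω : Environment d, ∫⁻ X, F X ∂quenchedLaw ω x
      = ∫⁻ X, F X ∂(quenchedLaw ω x).map (stopAt S) := by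
    intro ω
    rw [lintegral_map hF (measurable_stopAt S)]
    simp only [hd]
  rw [e, e, quenched_stop_congr h]

/-! ### measurability with respect to `coordSigmaAlgebra` -/

theorem coord_le (S : Set (Site d)) :
    coordSigmaAlgebra S ≤ (MeasurableSpace.pi : MeasurableSpace (Environment d)) := by
  have : Measurable fun ω : Environment d => fun x : S => ω x :=
    measurable_pi_lambda _ fun x => measurable_pi_apply x.1
  exact this.comap_le

/-- a measurable function which depends only on the rows in `S` -/
theorem measurable_coord {β : Type*} [MeasurableSpace β] {S : Set (Site d)}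
    {f : Environment d → β} (hf : Measurable f)
    (hloc : ∀ ω ω' : Environment d, (∀ z ∈ S, ω z = ω' z) → f ω = f ω') :
    Measurable[coordSigmaAlgebra S] f := by
  classical
  by_cases hne : Nonempty (Environment d)
  · obtain ⟨ω₀⟩ := hne
    let E : (S → Row d) → Environment d := fun η z => if hz : z ∈ S then η ⟨z, hz⟩ else ω₀ z
    have hE : Measurable E := by
      refine measurable_pi_lambda _ fun z => ?_
      by_cases hz : z ∈ S
      · simp only [E, hz, dite_true]; exact measurable_pi_apply _
      · simp only [E, hz, dite_false]; exact measurable_const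
    have e : f = (f ∘ E) ∘ fun ω : Environment d => fun x : S => ω x := by
      funext ω
      apply hloc
      intro z hz
      simp [E, hz]
    rw [e]
    exact @Measurable.comp _ _ _ (coordSigmaAlgebra S) _ _ _ _ (hf.comp hE) (comap_measurable _)
  · intro T _
    have : f ⁻¹' T = ∅ := by
      ext ω; exact absurd ⟨ω⟩ hne
    rw [this]; exact @MeasurableSet.empty _ (coordSigmaAlgebra S)

theorem measurable_coord_quenched {S : Set (Site d)} (x : Site d) {A : Set (Path d)}
    (hA : MeasurableSet A) (hd : Dec S A) :
    Measurable[coordSigmaAlgebra S] fun ω : Environment d => quenchedLaw ω x A :=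
  measurable_coord (measurable_quenched_apply x hA) fun _ _ h => quenched_congr h x hA hd

end Crest.Agent.R154.Q561
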