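import Crest.Agent.R154.B9Quen_409
import Crest.Agent.R154.B9Abs_409
import Crest.Agent.R154.Loc_561

/-! R154 B9 (S3): annealed polynomial decay of backtracking and of the time in a slab, from the
polynomial tail of the quenched escape probability (helper409). -/

set_option autoImplicit false

namespace Crest.Agent.R154.B9409

open MeasureTheory ProbabilityTheory Crest.ProbabilityR.RandomEnvironment Crest.Agent.R154
open scoped ENNReal

variable {d : ℕ}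

/-- **(QT)**: all polynomial moments of the inverse quenched escape probability, tail form -/
def QT (Q : Measure (Environment d)) (ht : Site d →+ ℤ) : Prop :=
  ∀ A : ℕ, ∃ C : ℝ, ∀ k : ℕ, 1 ≤ k →
    Q {ω | quenchedLaw ω 0 (Nt ht) < ENNReal.ofReal (1 / (k : ℝ))} ≤ ENNReal.ofReal (C / (k : ℝ) ^ A)

/-- some site of the box has small quenched escape probability -/
def Bad (ht : Site d →+ ℤ) (r k : ℕ) : Set (Environment d) :=
  {ω | ∃ y ∈ box d r, quenchedLaw ω y (Nt ht) < ENNReal.ofReal (1 / (k : ℝ))}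

/-- the box as a finset -/
noncomputable def boxF (d r : ℕ) : Finset (Site d) := Fintype.piFinset fun _ => Finset.Icc (-(r : ℤ)) r

lemma mem_boxF {r : ℕ} {y : Site d} : y ∈ boxF d r ↔ y ∈ box d r := by
  simp only [boxF, Fintype.mem_piFinset, Finset.mem_Icc, box, Set.mem_ofPred_eq, abs_le]

lemma card_boxF (d r : ℕ) : (boxF d r).card = (2 * r + 1) ^ d := by
  rw [boxF, Fintype.card_piFinset]
  simp only [Int.card_Icc, Finset.prod_const, Finset.card_univ, Fintype.card_fin]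
  congr 1
  omega

lemma tr_Nt (ht : Site d →+ ℤ) (z : Site d) : Q561.tr z ⁻¹' Nt ht = Nt ht := by
  ext X
  simp [Q561.tr, Nt]

lemma quenched_Nt_shift (ht : Site d →+ ℤ) (ω : Environment d) (x : Site d) :
    quenchedLaw ω x (Nt ht) = quenchedLaw (shiftEnv x ω) 0 (Nt ht) := by
  rw [Q561.quenched_eq_zero_shift ω x (measurableSet_Nt ht), tr_Nt]

lemma measurableSet_qlt (ht : Site d →+ ℤ) (x : Site d) (t : ℝ≥0∞) :
    MeasurableSet {ω : Environment d | quenchedLaw ω x (Nt ht) < t} :=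
  measurableSet_lt (measurable_quenched_apply x (measurableSet_Nt ht)) measurable_const

lemma qlt_shift {Q : Measure (Environment d)}
    (hQ : ∀ z : Site d, MeasurePreserving (shiftEnv z) Q Q) (ht : Site d →+ ℤ) (t : ℝ≥0∞)
    (y : Site d) :
    Q {ω | quenchedLaw ω y (Nt ht) < t} = Q {ω | quenchedLaw ω 0 (Nt ht) < t} := by
  have h1 := (hQ y).measure_preimage (measurableSet_qlt ht 0 t).nullMeasurableSet
  rw [← h1]
  refine congrArg Q ?_
  ext ω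
  simp only [Set.mem_ofPred_eq, Set.mem_preimage, quenched_Nt_shift ht ω y]

lemma bad_le {Q : Measure (Environment d)}
    (hQ : ∀ z : Site d, MeasurePreserving (shiftEnv z) Q Q) (ht : Site d →+ ℤ) (r k : ℕ) :
    Q (Bad ht r k) ≤ ((2 * r + 1 : ℕ) : ℝ≥0∞) ^ d *
      Q {ω | quenchedLaw ω 0 (Nt ht) < ENNReal.ofReal (1 / (k : ℝ))} := by
  set t : ℝ≥0∞ := ENNReal.ofReal (1 / (k : ℝ)) with ht'
  have h1 : Bad ht r k ⊆ ⋃ y ∈ boxF d r, {ω | quenchedLaw ω y (Nt ht) < t} := by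
    rintro ω ⟨y, hy, h⟩
    simp only [Set.mem_iUnion]
    exact ⟨y, mem_boxF.2 hy, h⟩
  refine (measure_mono h1).trans ((measure_biUnion_finset_le _ _).trans ?_)
  have h2 : ∑ y ∈ boxF d r, Q {ω | quenchedLaw ω y (Nt ht) < t}
      = ∑ _y ∈ boxF d r, Q {ω | quenchedLaw ω 0 (Nt ht) < t} :=
    Finset.sum_congr rfl fun y _ => qlt_shift hQ ht t y
  rw [h2, Finset.sum_const, card_boxF, nsmul_eq_mul]
  push_cast
  exact le_rfl

lemma measurableSet_Bad (ht : Site d →+ ℤ) (r k : ℕ) : MeasurableSet (Bad ht r k) := by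
  have : Bad ht r k = ⋃ y ∈ boxF d r,
      {ω | quenchedLaw ω y (Nt ht) < ENNReal.ofReal (1 / (k : ℝ))} := by
    ext ω
    simp only [Bad, Set.mem_ofPred_eq, Set.mem_iUnion, exists_prop, mem_boxF]
  rw [this]
  exact Finset.measurableSet_biUnion _ fun y _ => measurableSet_qlt ht y _

/-- good environments: no return is likely everywhere in the box -/
lemma noret_of_good {ht : Site d →+ ℤ} {u : Step d} (hu : ht (stepVec u) = 1) {κ : ℝ} (hκ : 0 < κ)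
    {ω : Environment d} (hell : ∀ (x : Site d) (e : Step d), κ ≤ (ω x).1 e) {r k : ℕ}
    (hω : ω ∉ Bad ht (r + 1) k) (y : Site d) (hy : y ∈ box d r) :
    ENNReal.ofReal (κ / k) ≤ quenchedLaw ω y (NoRet ht) := by
  refine le_trans ?_ (noret_ge ht hu ω y)
  have h1 : y + stepVec u ∈ box d (r + 1) := by
    intro i
    rw [Pi.add_apply]
    have h2 : |stepVec u i| ≤ 1 := by
      simp only [stepVec, Pi.single_apply]
      split_ifs <;> simp
    have h3 := abs_add_le (y i) (stepVec u i)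
    have h4 := hy i
    push_cast
    linarith
  have h2 : ENNReal.ofReal (1 / (k : ℝ)) ≤ quenchedLaw ω (y + stepVec u) (Nt ht) := by
    by_contra hcon
    exact hω ⟨_, h1, not_le.1 hcon⟩
  have h3 : ENNReal.ofReal (κ / k) = ENNReal.ofReal κ * ENNReal.ofReal (1 / (k : ℝ)) := by
    rw [← ENNReal.ofReal_mul hκ.le]; congr 1; ring
  rw [h3]
  exact mul_le_mul' (ENNReal.ofReal_le_ofReal (hell y u)) h2

/-- from quenched bounds on good environments to annealed bounds -/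
lemma annealed_le_of_good {Q : Measure (Environment d)} [IsProbabilityMeasure Q] {E : Set (Path d)}
    (hE : MeasurableSet E) {B : Set (Environment d)} (hB : MeasurableSet B) {b : ℝ≥0∞}
    (h : ∀ᵐ ω ∂Q, ω ∉ B → quenchedLaw ω 0 E ≤ b) : annealed Q 0 E ≤ Q B + b := by
  rw [annealed_apply Q 0 hE]
  unfold annealedProb
  calc ∫⁻ ω, quenchedLaw ω 0 E ∂Q ≤ ∫⁻ ω, (B.indicator 1 ω + b) ∂Q := by
        refine lintegral_mono_ae ?_
        filter_upwards [h] with ω hω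
        by_cases hB : ω ∈ B
        · rw [Set.indicator_of_mem hB]
          exact prob_le_one.trans (le_add_right le_rfl)
        · rw [Set.indicator_of_notMem hB, zero_add]
          exact hω hB
    _ = Q B + b := by
        rw [lintegral_add_right _ measurable_const, lintegral_indicator_one hB, lintegral_const,
          measure_univ, mul_one]

/-! ### the choice of the parameters -/

/-- length of one stretch -/
noncomputable def aa (κ : ℝ) (n : ℕ) : ℕ := ⌈4 * (n : ℝ) * (Nat.sqrt n : ℝ) / κ⌉₊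

/-- total time -/
noncomputable def nn (κ : ℝ) (n : ℕ) : ℕ := Nat.sqrt n * aa κ n

lemma sqrt_facts {n : ℕ} (hn : 1 ≤ n) : 1 ≤ Nat.sqrt n ∧ (Nat.sqrt n) ^ 2 ≤ n ∧
    n ≤ 4 * (Nat.sqrt n) ^ 2 := by
  have h1 : 1 ≤ Nat.sqrt n := Nat.sqrt_pos.2 hn
  have h2 : (Nat.sqrt n) ^ 2 ≤ n := Nat.sqrt_le' n
  have h3 : n < (Nat.sqrt n + 1) ^ 2 := Nat.lt_succ_sqrt' n
  refine ⟨h1, h2, ?_⟩
  nlinarith

lemma nn_le {κ : ℝ} (hκ : 0 < κ) {n : ℕ} (hn : 1 ≤ n) :
    (nn κ n : ℝ) ≤ (4 / κ + 1) * (n : ℝ) ^ 2 := by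
  obtain ⟨h1, h2, _⟩ := sqrt_facts hn
  have h1' : (1 : ℝ) ≤ (Nat.sqrt n : ℝ) := by exact_mod_cast h1
  have h2' : ((Nat.sqrt n : ℝ)) ^ 2 ≤ n := by exact_mod_cast h2
  have hn' : (1 : ℝ) ≤ n := by exact_mod_cast hn
  have h3 : (aa κ n : ℝ) ≤ 4 * (n : ℝ) * (Nat.sqrt n : ℝ) / κ + 1 :=
    (Nat.ceil_lt_add_one (by positivity)).le
  unfold nn
  push_cast
  calc (Nat.sqrt n : ℝ) * (aa κ n : ℝ)
      ≤ (Nat.sqrt n : ℝ) * (4 * (n : ℝ) * (Nat.sqrt n : ℝ) / κ + 1) := by gcongr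
    _ = 4 / κ * n * (Nat.sqrt n : ℝ) ^ 2 + (Nat.sqrt n : ℝ) := by ring
    _ ≤ 4 / κ * n * n + (n : ℝ) ^ 2 := by
        gcongr
        calc (Nat.sqrt n : ℝ) ≤ (Nat.sqrt n : ℝ) ^ 2 := by nlinarith
          _ ≤ n := h2'
          _ ≤ (n : ℝ) ^ 2 := by nlinarith
    _ = (4 / κ + 1) * (n : ℝ) ^ 2 := by ring

lemma nn_le_nat {κ : ℝ} (hκ : 0 < κ) (n : ℕ) (hn : 1 ≤ n) :
    nn κ n ≤ ⌈4 / κ + 1⌉₊ * n ^ 2 := by
  have h1 := nn_le hκ hn
  have h2 : (4 / κ + 1 : ℝ) ≤ (⌈4 / κ + 1⌉₊ : ℝ) := Nat.le_ceil _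
  have h3 : (nn κ n : ℝ) ≤ ((⌈4 / κ + 1⌉₊ * n ^ 2 : ℕ) : ℝ) := by
    push_cast
    refine h1.trans ?_
    gcongr
  exact_mod_cast h3

/-- exponential decay in `√n` beats every power -/
lemma exp_le_pow {κ : ℝ} (hκ : 0 < κ) (A : ℕ) :
    ∃ C : ℝ, 0 ≤ C ∧ ∀ n : ℕ, 1 ≤ n →
      Real.exp (-(κ * (Nat.sqrt n : ℝ))) ≤ C / (n : ℝ) ^ A := by
  refine ⟨((2 * A).factorial : ℝ) * 4 ^ A / κ ^ (2 * A), by positivity, fun n hn => ?_⟩
  obtain ⟨h1, _, h3⟩ := sqrt_facts hn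
  have h1' : (0 : ℝ) < (Nat.sqrt n : ℝ) := by exact_mod_cast h1
  have h3' : (n : ℝ) ≤ 4 * (Nat.sqrt n : ℝ) ^ 2 := by exact_mod_cast h3
  have hn' : (0 : ℝ) < n := by exact_mod_cast hn
  have h4 := Real.pow_div_factorial_le_exp (κ * (Nat.sqrt n : ℝ)) (by positivity) (2 * A)
  rw [Real.exp_neg]
  have h5 : 0 < (κ * (Nat.sqrt n : ℝ)) ^ (2 * A) / ((2 * A).factorial : ℝ) := by positivity
  refine (inv_anti₀ h5 h4).trans ?_
  rw [inv_div, div_div, div_le_div_iff₀ (by positivity) (by positivity)]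
  rw [mul_pow]
  have h6 : (n : ℝ) ^ A ≤ 4 ^ A * (Nat.sqrt n : ℝ) ^ (2 * A) := by
    calc (n : ℝ) ^ A ≤ (4 * (Nat.sqrt n : ℝ) ^ 2) ^ A := by gcongr
      _ = 4 ^ A * (Nat.sqrt n : ℝ) ^ (2 * A) := by rw [mul_pow, ← pow_mul]
  have h7 : 0 ≤ ((2 * A).factorial : ℝ) * κ ^ (2 * A) := by positivity
  calc ((2 * A).factorial : ℝ) * (κ ^ (2 * A) * (n : ℝ) ^ A)
      = (((2 * A).factorial : ℝ) * κ ^ (2 * A)) * (n : ℝ) ^ A := by ring
    _ ≤ (((2 * A).factorial : ℝ) * κ ^ (2 * A)) * (4 ^ A * (Nat.sqrt n : ℝ) ^ (2 * A)) := by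
        gcongr
    _ = _ := by ring

/-- the path stays in the slab `[0, L)` for `a` steps -/
def SlabP (ht : Site d →+ ℤ) (L a : ℕ) : Set (Path d) :=
  {X | ∀ i, i < a → 0 ≤ ht (X i) - ht (X 0) ∧ ht (X i) - ht (X 0) < L}

lemma measurableSet_SlabP (ht : Site d →+ ℤ) (L a : ℕ) : MeasurableSet (SlabP ht L a) := by
  refine measurableSet_of_agree a _ fun X Y h => ?_
  simp only [SlabP, Set.mem_ofPred_eq, h 0 (Nat.zero_le _)]
  refine forall_congr' fun i => forall_congr' fun hi => ?_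
  rw [h i (le_of_lt hi)]

lemma slabP_le (ht : Site d →+ ℤ) (ω : Environment d) (L a : ℕ) :
    quenchedLaw ω 0 (SlabP ht L a) ≤ quenchedLaw ω 0 (StayIn (slab ht a L) a) := by
  refine measure_mono_ae ?_
  filter_upwards [ae_box ω, quenched_zero_eq ω 0] with X hX h0 h
  intro i hi
  have h1 := h i hi
  rw [h0, map_zero, sub_zero] at h1
  exact ⟨fun k => (hX i k).trans (by exact_mod_cast hi.le), h1⟩

/-- quenched bounds on good environments -/
lemma quenched_good {ht : Site d →+ ℤ} {u : Step d} (hu : ht (stepVec u) = 1)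
    (h1 : ∀ e : Step d, |ht (stepVec e)| ≤ 1) {κ : ℝ} (hκ : 0 < κ)
    {ω : Environment d} (hell : ∀ (x : Site d) (e : Step d), κ ≤ (ω x).1 e) {n : ℕ} (hn : 1 ≤ n)
    (hω : ω ∉ Bad ht (nn κ n + 1) (Nat.sqrt n)) :
    quenchedLaw ω 0 (SlabP ht (2 * n) (nn κ n)) ≤ 2⁻¹ ^ Nat.sqrt n ∧
    quenchedLaw ω 0 (Back ht n (2 * n)) ≤
      2⁻¹ ^ Nat.sqrt n + (1 - ENNReal.ofReal (κ / (Nat.sqrt n : ℝ))) ^ n := by
  have hc := fun y hy => noret_of_good hu hκ hell hω y hy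
  obtain ⟨hs1, _, _⟩ := sqrt_facts hn
  have hs1' : (0 : ℝ) < (Nat.sqrt n : ℝ) := by exact_mod_cast hs1
  have hn' : (0 : ℝ) < n := by exact_mod_cast hn
  have hapos : 0 < 4 * (n : ℝ) * (Nat.sqrt n : ℝ) / κ := by positivity
  have ha : 2 * ((2 * n : ℕ) : ℝ≥0∞) ≤ ENNReal.ofReal (κ / (Nat.sqrt n : ℝ)) * (aa κ n : ℝ≥0∞) := by
    have e1 : (2 * ((2 * n : ℕ) : ℝ≥0∞)) = ENNReal.ofReal (4 * n) := by
      rw [show (4 * (n : ℝ)) = ((4 * n : ℕ) : ℝ) by push_cast; ring, ENNReal.ofReal_natCast]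
      push_cast; ring
    have e2 : (aa κ n : ℝ≥0∞) = ENNReal.ofReal (aa κ n : ℝ) := (ENNReal.ofReal_natCast _).symm
    rw [e1, e2, ← ENNReal.ofReal_mul (by positivity)]
    refine ENNReal.ofReal_le_ofReal ?_
    have h2 : 4 * (n : ℝ) * (Nat.sqrt n : ℝ) / κ ≤ (aa κ n : ℝ) := Nat.le_ceil _
    calc 4 * (n : ℝ) = κ / (Nat.sqrt n : ℝ) * (4 * (n : ℝ) * (Nat.sqrt n : ℝ) / κ) := by
          field_simp
      _ ≤ κ / (Nat.sqrt n : ℝ) * (aa κ n : ℝ) := by gcongr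
  have ha0 : aa κ n ≠ 0 := by
    have : 0 < aa κ n := Nat.ceil_pos.2 hapos
    exact this.ne'
  have hc0 : ENNReal.ofReal (κ / (Nat.sqrt n : ℝ)) ≠ 0 := by
    simp only [Ne, ENNReal.ofReal_eq_zero, not_le]; positivity
  have hslab := slab_le (ht := ht) ω hc (2 * n) (a := aa κ n) (m := Nat.sqrt n) ha hc0
    ENNReal.ofReal_ne_top ha0
  refine ⟨(slabP_le ht ω _ _).trans hslab, ?_⟩
  refine (back_le h1 ω hc n (2 * n)).trans ?_
  exact add_le_add hslab le_rfl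

/-- the bad environments have polynomially small probability of every order -/
lemma bad_decay {Q : Measure (Environment d)}
    (hQ : ∀ z : Site d, MeasurePreserving (shiftEnv z) Q Q) {ht : Site d →+ ℤ} {κ : ℝ} (hκ : 0 < κ)
    (hqt : QT Q ht) : PolyDecay fun n => Q (Bad ht (nn κ n + 1) (Nat.sqrt n)) := by
  intro A
  obtain ⟨C, hC⟩ := hqt (2 * (2 * d + A))
  set c1 : ℝ := 2 * (4 / κ + 1) + 3 with hc1
  refine ⟨c1 ^ d * |C| * 4 ^ (2 * d + A), by positivity, fun n hn => ?_⟩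
  obtain ⟨hs1, _, hs3⟩ := sqrt_facts hn
  have hs1' : (0 : ℝ) < (Nat.sqrt n : ℝ) := by exact_mod_cast hs1
  have hs3' : (n : ℝ) ≤ 4 * (Nat.sqrt n : ℝ) ^ 2 := by exact_mod_cast hs3
  have hn1 : (1 : ℝ) ≤ n := by exact_mod_cast hn
  have hn' : (0 : ℝ) < n := by linarith
  have h1 : ((2 * (nn κ n + 1) + 1 : ℕ) : ℝ) ≤ c1 * (n : ℝ) ^ 2 := by
    have h2 := nn_le hκ hn
    push_cast
    have h3 : (1 : ℝ) ≤ (n : ℝ) ^ 2 := one_le_pow₀ hn1
    calc 2 * ((nn κ n : ℝ) + 1) + 1 = 2 * (nn κ n : ℝ) + 3 := by ring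
      _ ≤ 2 * ((4 / κ + 1) * (n : ℝ) ^ 2) + 3 * (n : ℝ) ^ 2 := by linarith
      _ = c1 * (n : ℝ) ^ 2 := by rw [hc1]; ring
  have h4 : ((2 * (nn κ n + 1) + 1 : ℕ) : ℝ≥0∞) ^ d ≤ ENNReal.ofReal ((c1 * (n : ℝ) ^ 2) ^ d) := by
    rw [← ENNReal.ofReal_natCast, ENNReal.ofReal_pow (by positivity)]
    gcongr
  have h5 : Q {ω | quenchedLaw ω 0 (Nt ht) < ENNReal.ofReal (1 / (Nat.sqrt n : ℝ))}
      ≤ ENNReal.ofReal (|C| * 4 ^ (2 * d + A) / (n : ℝ) ^ (2 * d + A)) := by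
    refine (hC _ hs1).trans (ENNReal.ofReal_le_ofReal ?_)
    have h6 : (n : ℝ) ^ (2 * d + A) ≤ 4 ^ (2 * d + A) * (Nat.sqrt n : ℝ) ^ (2 * (2 * d + A)) := by
      calc (n : ℝ) ^ (2 * d + A) ≤ (4 * (Nat.sqrt n : ℝ) ^ 2) ^ (2 * d + A) := by gcongr
        _ = _ := by rw [mul_pow, ← pow_mul]
    rw [div_le_div_iff₀ (by positivity) (by positivity)]
    calc C * (n : ℝ) ^ (2 * d + A) ≤ |C| * (n : ℝ) ^ (2 * d + A) := by
          gcongr; exact le_abs_self C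
      _ ≤ |C| * (4 ^ (2 * d + A) * (Nat.sqrt n : ℝ) ^ (2 * (2 * d + A))) := by gcongr
      _ = _ := by ring
  calc Q (Bad ht (nn κ n + 1) (Nat.sqrt n)) ≤ _ := bad_le hQ ht _ _
    _ ≤ ENNReal.ofReal ((c1 * (n : ℝ) ^ 2) ^ d) *
          ENNReal.ofReal (|C| * 4 ^ (2 * d + A) / (n : ℝ) ^ (2 * d + A)) := mul_le_mul' h4 h5
    _ = ENNReal.ofReal (c1 ^ d * |C| * 4 ^ (2 * d + A) / (n : ℝ) ^ A) := by
        rw [← ENNReal.ofReal_mul (by positivity)]
        congr 1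
        rw [mul_pow, ← pow_mul]
        field_simp
        ring

lemma PolyDecay.add {f g : ℕ → ℝ≥0∞} (hf : PolyDecay f) (hg : PolyDecay g) :
    PolyDecay fun n => f n + g n := by
  intro A
  obtain ⟨C, hC0, hC⟩ := hf A
  obtain ⟨D, hD0, hD⟩ := hg A
  refine ⟨C + D, by positivity, fun n hn => ?_⟩
  calc f n + g n ≤ ENNReal.ofReal (C / (n : ℝ) ^ A) + ENNReal.ofReal (D / (n : ℝ) ^ A) :=
        add_le_add (hC n hn) (hD n hn)
    _ = _ := by rw [← ENNReal.ofReal_add (by positivity) (by positivity), add_div]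

lemma PolyDecay.mono {f g : ℕ → ℝ≥0∞} (hf : PolyDecay f) (h : ∀ n, 1 ≤ n → g n ≤ f n) :
    PolyDecay g := by
  intro A
  obtain ⟨C, hC0, hC⟩ := hf A
  exact ⟨C, hC0, fun n hn => (h n hn).trans (hC n hn)⟩

lemma polyDecay_exp {κ : ℝ} (hκ : 0 < κ) :
    PolyDecay fun n => ENNReal.ofReal (Real.exp (-(κ * (Nat.sqrt n : ℝ)))) := by
  intro A
  obtain ⟨C, hC0, hC⟩ := exp_le_pow hκ A
  exact ⟨C, hC0, fun n hn => ENNReal.ofReal_le_ofReal (hC n hn)⟩

lemma half_pow_eq (m : ℕ) :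
    (2⁻¹ : ℝ≥0∞) ^ m = ENNReal.ofReal (Real.exp (-(Real.log 2 * (m : ℝ)))) := by
  have h1 : (2⁻¹ : ℝ≥0∞) = ENNReal.ofReal (2⁻¹ : ℝ) := by
    rw [ENNReal.ofReal_inv_of_pos two_pos, ENNReal.ofReal_ofNat]
  rw [h1, ← ENNReal.ofReal_pow (by positivity)]
  congr 1
  rw [show -(Real.log 2 * (m : ℝ)) = (m : ℝ) * (-Real.log 2) by ring, Real.exp_nat_mul,
    Real.exp_neg, Real.exp_log two_pos]

lemma one_sub_pow_le {κ : ℝ} (hκ : 0 < κ) {n : ℕ} (hn : 1 ≤ n) :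
    (1 - ENNReal.ofReal (κ / (Nat.sqrt n : ℝ))) ^ n
      ≤ ENNReal.ofReal (Real.exp (-(κ * (Nat.sqrt n : ℝ)))) := by
  obtain ⟨hs1, hs2, _⟩ := sqrt_facts hn
  have hs1' : (0 : ℝ) < (Nat.sqrt n : ℝ) := by exact_mod_cast hs1
  have hs2' : ((Nat.sqrt n : ℝ)) ^ 2 ≤ n := by exact_mod_cast hs2
  set x : ℝ := κ / (Nat.sqrt n : ℝ) with hx
  have hx0 : 0 ≤ x := by positivity
  have h1 : 1 - ENNReal.ofReal x ≤ ENNReal.ofReal (Real.exp (-x)) := by
    rw [← ENNReal.ofReal_one, ← ENNReal.ofReal_sub _ hx0]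
    exact ENNReal.ofReal_le_ofReal (Real.one_sub_le_exp_neg x)
  calc (1 - ENNReal.ofReal x) ^ n ≤ (ENNReal.ofReal (Real.exp (-x))) ^ n := by gcongr
    _ = ENNReal.ofReal (Real.exp (-(x * n))) := by
        rw [← ENNReal.ofReal_pow (Real.exp_pos _).le, ← Real.exp_nat_mul]
        congr 2; ring
    _ ≤ _ := by
        refine ENNReal.ofReal_le_ofReal (Real.exp_le_exp.2 (neg_le_neg ?_))
        rw [hx, div_mul_eq_mul_div, le_div_iff₀ hs1']
        calc κ * (Nat.sqrt n : ℝ) * (Nat.sqrt n : ℝ) = κ * (Nat.sqrt n : ℝ) ^ 2 := by ring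
          _ ≤ κ * n := by gcongr

/-- **S3** -/
theorem annealed_decay {Q : Measure (Environment d)} [IsProbabilityMeasure Q]
    (hQ : ∀ z : Site d, MeasurePreserving (shiftEnv z) Q Q) {ht : Site d →+ ℤ} {u : Step d}
    (hu : ht (stepVec u) = 1) (h1 : ∀ e : Step d, |ht (stepVec e)| ≤ 1) {κ : ℝ} (hκ : 0 < κ)
    (hell : ∀ᵐ ω ∂Q, ∀ (x : Site d) (e : Step d), κ ≤ (ω x).1 e) (hqt : QT Q ht) :
    PolyDecay (fun n => annealed Q 0 (Back ht n (2 * n))) ∧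
    PolyDecay (fun n => annealed Q 0 (SlabP ht (2 * n) (nn κ n))) := by
  have hbad := bad_decay hQ hκ hqt
  have hhalf := polyDecay_exp (Real.log_pos one_lt_two)
  have hexp := polyDecay_exp hκ
  constructor
  · refine (hbad.add (hhalf.add hexp)).mono fun n hn => ?_
    refine annealed_le_of_good (measurableSet_Back ht _ _) (measurableSet_Bad ht _ _) ?_
    filter_upwards [hell] with ω hω hB
    refine (quenched_good hu h1 hκ hω hn hB).2.trans ?_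
    exact add_le_add (half_pow_eq _).le (one_sub_pow_le hκ hn)
  · refine (hbad.add hhalf).mono fun n hn => ?_
    refine annealed_le_of_good (measurableSet_SlabP ht _ _) (measurableSet_Bad ht _ _) ?_
    filter_upwards [hell] with ω hω hB
    exact (quenched_good hu h1 hκ hω hn hB).1.trans (half_pow_eq _).le

end Crest.Agent.R154.B9409
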