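import Crest.Agent.R154.B9Fin_409
import Crest.Agent.R154.FinB_804
import Crest.Agent.R154.Asm_247

/-! R154 B9 (helper409): bridge from 804's `FL` (scales `10^i`, all orders) to `B9409.FL`; literal ends
of S0220 and S0221 from the half-space property and `FL`. -/

set_option autoImplicit false

namespace Crest.Agent.R154.B9409

open MeasureTheory ProbabilityTheory Filter Crest.ProbabilityR.RandomEnvironment Crest.Agent.R154
open Crest.Agent.R154.B2d
open scoped ENNReal Topology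

variable {d : ℕ}

lemma climb_eq (u : Step d) (h : ℕ) : Fin804.Climb u h = Cl (htu u) h := rfl

lemma exp_two_lt : Real.exp 2 ≤ 10 := by
  have h1 := Real.exp_one_lt_d9
  have h2 : Real.exp 2 = Real.exp 1 ^ 2 := by
    rw [← Real.exp_nat_mul]; norm_num
  rw [h2]
  have h3 := Real.exp_pos 1
  nlinarith

lemma exp_three_gt : 10 ≤ Real.exp 3 := by
  have h1 := Real.exp_one_gt_d9
  have h2 : Real.exp 3 = Real.exp 1 ^ 3 := by
    rw [← Real.exp_nat_mul]; norm_num
  rw [h2]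
  have h3 : (2.7 : ℝ) ≤ Real.exp 1 := by linarith
  calc (10 : ℝ) ≤ 2.7 ^ 3 := by norm_num
    _ ≤ Real.exp 1 ^ 3 := by gcongr

/-- scale comparison -/
lemma scale_facts {h : ℕ} (hh : 160 ≤ h) :
    ∃ i : ℕ, h ≤ 10 ^ i ∧ Real.exp (1 / 2 * (i : ℝ)) ≤ (Nat.sqrt h : ℝ) := by
  refine ⟨Nat.clog 10 h, Nat.le_pow_clog (by norm_num) h, ?_⟩
  set i := Nat.clog 10 h with hi
  have hi1 : 1 ≤ i := by
    by_contra hcon
    have h0 : i = 0 := by omega
    have := Nat.le_pow_clog (b := 10) (by norm_num) h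
    rw [← hi, h0] at this
    omega
  have hlt : 10 ^ (i - 1) < h := by
    have := Nat.pow_pred_clog_lt_self (b := 10) (by norm_num) (x := h) (by omega)
    simpa [hi] using this
  have h10 : 10 ^ i ≤ 10 * h := by
    have : 10 ^ i = 10 * 10 ^ (i - 1) := by
      rw [← pow_succ', Nat.sub_add_cancel hi1]
    rw [this]; exact Nat.mul_le_mul_left _ hlt.le
  have h10' : (10 : ℝ) ^ i ≤ 10 * h := by exact_mod_cast h10
  obtain ⟨_, _, hs3⟩ := sqrt_facts (n := h) (by omega)
  have hs3' : (h : ℝ) ≤ 4 * (Nat.sqrt h : ℝ) ^ 2 := by exact_mod_cast hs3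
  have hh' : (160 : ℝ) ≤ h := by exact_mod_cast hh
  have h4 : Real.exp (1 / 2 * (i : ℝ)) ^ 4 ≤ (Nat.sqrt h : ℝ) ^ 4 := by
    calc Real.exp (1 / 2 * (i : ℝ)) ^ 4 = Real.exp 2 ^ i := by
          rw [← Real.exp_nat_mul, ← Real.exp_nat_mul]
          congr 1; push_cast; ring
      _ ≤ 10 ^ i := by gcongr; exact exp_two_lt
      _ ≤ 10 * h := h10'
      _ ≤ (h : ℝ) ^ 2 / 16 := by nlinarith
      _ ≤ (4 * (Nat.sqrt h : ℝ) ^ 2) ^ 2 / 16 := by gcongr
      _ = (Nat.sqrt h : ℝ) ^ 4 := by ring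
  exact le_of_pow_le_pow_left₀ (by norm_num) (by positivity) h4

/-- **bridge** -/
theorem FL_of_804 {Q : Measure (Environment d)} [IsProbabilityMeasure Q] {u : Step d}
    (h : Fin804.FL Q u) (M : ℕ) : FL Q (htu u) M := by
  obtain ⟨C, hC⟩ := h (1 / 2) (3 * M + 1) (by norm_num) (by positivity)
  refine ⟨|C| + 160 ^ M, fun k hk => ?_⟩
  have hk' : (0 : ℝ) < k := by exact_mod_cast hk
  rcases lt_or_ge k 160 with hlt | hge
  · refine prob_le_one.trans ?_
    rw [← ENNReal.ofReal_one]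
    refine ENNReal.ofReal_le_ofReal ?_
    rw [one_le_div (by positivity)]
    have h1 : (k : ℝ) ^ M ≤ 160 ^ M := by
      have : (k : ℝ) ≤ 160 := by exact_mod_cast hlt.le
      gcongr
    have := abs_nonneg C
    linarith
  · obtain ⟨i, hi1, hi2⟩ := scale_facts hge
    have hspos : (0 : ℝ) < (Nat.sqrt k : ℝ) := (Real.exp_pos _).trans_le hi2
    have hsub : {ω : Environment d | quenchedLaw ω 0 (Cl (htu u) k)
          < ENNReal.ofReal (1 / (Nat.sqrt k : ℝ))}
        ⊆ {ω | quenchedLaw ω 0 (Fin804.Climb u (10 ^ i))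
          < ENNReal.ofReal (Real.exp (-(1 / 2 * i)))} := by
      intro ω hω
      have h1 : quenchedLaw ω 0 (Fin804.Climb u (10 ^ i)) ≤ quenchedLaw ω 0 (Cl (htu u) k) := by
        rw [climb_eq]
        exact measure_mono (Cl_anti (htu u) hi1)
      refine h1.trans_lt (lt_of_lt_of_le hω (ENNReal.ofReal_le_ofReal ?_))
      rw [Real.exp_neg, one_div]
      exact inv_anti₀ (Real.exp_pos _) hi2
    refine (measure_mono hsub).trans ((hC i).trans (ENNReal.ofReal_le_ofReal ?_))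
    have hki : (k : ℝ) ≤ 10 ^ i := by exact_mod_cast hi1
    have h2 : Real.exp (-((3 * M + 1) * i)) ≤ 1 / (k : ℝ) ^ M := by
      have h3 : (k : ℝ) ^ M ≤ Real.exp ((3 * M + 1) * i) := by
        calc (k : ℝ) ^ M ≤ (10 ^ i) ^ M := by gcongr
          _ ≤ (Real.exp 3 ^ i) ^ M := by gcongr; exact exp_three_gt
          _ = Real.exp (3 * M * i) := by
              rw [← Real.exp_nat_mul, ← Real.exp_nat_mul]; congr 1; ring
          _ ≤ Real.exp ((3 * M + 1) * i) := by
              refine Real.exp_le_exp.2 ?_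
              have : (0 : ℝ) ≤ i := Nat.cast_nonneg i
              nlinarith
      rw [Real.exp_neg, one_div]
      exact inv_anti₀ (by positivity) h3
    calc C * Real.exp (-((3 * M + 1) * i)) ≤ |C| * Real.exp (-((3 * M + 1) * i)) := by
          gcongr; exact le_abs_self C
      _ ≤ |C| * (1 / (k : ℝ) ^ M) := by gcongr
      _ = |C| / (k : ℝ) ^ M := by ring
      _ ≤ (|C| + 160 ^ M) / (k : ℝ) ^ M := by gcongr; linarith [pow_pos (show (0:ℝ) < 160 by norm_num) M]

lemma L_dirVec (u : Step d) (x : Site d) : Kal132.L (dirVec u) x = (htu u x : ℝ) :=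
  sht_dirVec u x

lemma stay_eq_Nt (u : Step d) : Kal132.Stay (dirVec u) = (Nt (htu u) : Set (Path d)) := by
  ext X
  simp only [Kal132.Stay, Nt, Set.mem_ofPred_eq, L_dirVec, Int.cast_le]

/-- `P(D = ∞) > 0` for a coordinate direction -/
lemma nt_ne_zero_of_escape {Q : Measure (Environment d)} [IsProbabilityMeasure Q]
    (hstat : ∀ z : Site d, MeasurePreserving (shiftEnv z) Q Q) {u : Step d}
    (h : annealed Q 0 (escapeEvent (dirVec u)) ≠ 0) : annealedProb Q 0 (Nt (htu u)) ≠ 0 := by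
  have h1 := Kal132.pD_pos hstat (dirVec u) h
  rwa [stay_eq_Nt, annealed_apply Q 0 (measurableSet_Nt _)] at h1

/-- **literal end of S0220**: half-space property (B2) + 804's (FL) (B8). -/
theorem S0220_end (ν : Measure (Row d)) [IsProbabilityMeasure ν]
    (κ : ℝ) (hκ : 0 < κ) (hν : ∀ᵐ p ∂ν, ∀ e : Step d, κ ≤ p.1 e)
    (ℓ : Fin d → ℝ) (htrans : annealedProb (iidEnvironmentLaw ν) 0 (escapeEvent ℓ) = 1)
    (hH : HalfSpace (annealed (iidEnvironmentLaw ν) 0) ℓ)
    (hFL : ∀ u : Step d, annealed (iidEnvironmentLaw ν) 0 (escapeEvent (dirVec u)) ≠ 0 →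
      Fin804.FL (iidEnvironmentLaw ν) u) :
    ∃ v : Fin d → ℝ, 0 < ∑ i, v i * ℓ i ∧
      annealedProb (iidEnvironmentLaw ν) 0 (velocityEvent v) = 1 := by
  refine S0220_of_FL ν κ hκ hν ℓ htrans hH fun u hu => ?_
  have h0 : annealed (iidEnvironmentLaw ν) 0 (escapeEvent (dirVec u)) ≠ 0 := by
    rw [annealed_apply _ 0 (B2d.measurableSet_escapeEvent _), hu]; exact one_ne_zero
  exact ⟨nt_ne_zero_of_escape (Q561.iid_shift ν) h0, FL_of_804 (hFL u h0) _⟩

/-- the backtracking probability tends to `0` -/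
lemma down_tendsto {Q : Measure (Environment d)} [IsProbabilityMeasure Q]
    (hstat : ∀ z : Site d, MeasurePreserving (shiftEnv z) Q Q) {κ : ℝ} (hκ : 0 < κ)
    (hell : ∀ᵐ ω ∂Q, ∀ (x : Site d) (e : Step d), κ ≤ (ω x).1 e) {u : Step d}
    (hfl : FL Q (htu u) (2 * d + 1)) :
    Tendsto (fun h : ℕ => annealed Q 0 (Asm247.Down (dirVec u) h)) atTop (𝓝 0) := by
  obtain ⟨_, _, C, hC0, hC⟩ := decay_of_FL hstat (htu_self u) (htu_le u) hκ hell hfl
  refine tendsto_of_tendsto_of_tendsto_of_le_of_le' tendsto_const_nhds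
    (h := fun n : ℕ => ENNReal.ofReal (C / (n : ℝ) ^ 1)) ?_ (Eventually.of_forall fun _ => bot_le) ?_
  · rw [← ENNReal.ofReal_zero]
    refine (ENNReal.continuous_ofReal.tendsto 0).comp ?_
    simpa using tendsto_const_div_atTop_nhds_zero_nat C
  · filter_upwards [eventually_ge_atTop 1] with n hn
    refine le_trans (measure_mono_ae ?_) (hC n hn)
    filter_upwards [Asm247.ae_zero Q] with X h0 hX
    obtain ⟨m, hm1, hm2⟩ := hX
    refine ⟨m, ?_, fun i hi => ?_⟩
    · rw [h0, map_zero]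
      rw [L_dirVec] at hm1
      have : ((htu u (X m) : ℤ) : ℝ) ≤ ((-(n : ℤ) : ℤ) : ℝ) := by push_cast; linarith
      have := Int.cast_le.1 this
      linarith
    · rw [h0, map_zero]
      have h2 := hm2 i hi
      rw [L_dirVec] at h2
      have : htu u (X i) < 1 := by exact_mod_cast h2
      omega

/-- **literal end of S0221**: half-space property (B2) + 804's (FL) (B8), uniformly elliptic,
stationary, finite range. -/
theorem S0221_end {Q : Measure (Environment d)} [IsProbabilityMeasure Q]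
    (hstat : ∀ z : Site d, MeasurePreserving (shiftEnv z) Q Q) {κ : ℝ} (hκ : 0 < κ)
    (hell : ∀ᵐ ω ∂Q, ∀ (x : Site d) (e : Step d), κ ≤ (ω x).1 e) {R : ℕ}
    (hR : IsFiniteRangeDependent Q R)
    (hH : ∀ ℓ : Fin d → ℝ, annealed Q 0 (escapeEvent ℓ) ≠ 0 → ℓ ≠ 0 →
      HalfSpace (annealed Q 0) ℓ)
    (hFL : ∀ u : Step d, annealed Q 0 (escapeEvent (dirVec u)) ≠ 0 → Fin804.FL Q u)
    (ℓ : Fin d → ℝ) (hℓ : ℓ ≠ 0) :
    annealedProb Q 0 (escapeEvent ℓ) = 0 ∨ annealedProb Q 0 (escapeEvent ℓ) = 1 :=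
  Asm247.zero_one_ue hstat hκ hell hR hH
    (fun u hu => down_tendsto hstat hκ hell (FL_of_804 (hFL u hu) _)) ℓ hℓ

end Crest.Agent.R154.B9409
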