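import Mathlib

/-! R154 B9 (S7, deterministic part): law of large numbers for a nearest neighbour path from the
law of large numbers along an increasing sequence of times. -/

set_option autoImplicit false

open Filter Topology

namespace Crest.Agent.R154.B9409

theorem abs_sub_le_of_step {y : ℕ → ℤ} (hy : ∀ n, |y (n + 1) - y n| ≤ 1) {m n : ℕ} (h : m ≤ n) :
    |y n - y m| ≤ (n : ℤ) - m := by
  induction n, h using Nat.le_induction with
  | base => simp
  | succ n hmn ih =>
    have h1 : y (n + 1) - y m = (y (n + 1) - y n) + (y n - y m) := by ring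
    rw [h1]
    have := abs_add_le (y (n + 1) - y n) (y n - y m)
    have := hy n
    push_cast
    linarith

/-- interpolation: `y (τ k) / k → w`, `τ k / k → a > 0`, unit steps imply `y n / n → w / a` -/
theorem tendsto_div_of_times {y : ℕ → ℤ} (hy : ∀ n, |y (n + 1) - y n| ≤ 1)
    {τ : ℕ → ℕ} (hτ : StrictMono τ) {a w : ℝ} (ha : 0 < a)
    (h1 : Tendsto (fun k : ℕ => (τ k : ℝ) / k) atTop (𝓝 a))
    (h2 : Tendsto (fun k : ℕ => (y (τ k) : ℝ) / k) atTop (𝓝 w)) :
    Tendsto (fun n : ℕ => (y n : ℝ) / n) atTop (𝓝 (w / a)) := by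
  classical
  set K : ℕ → ℕ := fun n => Nat.findGreatest (fun k => τ k ≤ n) n with hK
  have hle : ∀ k, k ≤ τ k := fun k => hτ.le_apply
  have hKinf : Tendsto K atTop atTop := by
    refine tendsto_atTop.2 fun b => ?_
    filter_upwards [eventually_ge_atTop (τ b)] with n hn
    exact Nat.le_findGreatest ((hle b).trans hn) hn
  have hlow : ∀ᶠ n in atTop, τ (K n) ≤ n := by
    filter_upwards [eventually_ge_atTop (τ 0)] with n hn
    exact Nat.findGreatest_spec (P := fun k => τ k ≤ n) (Nat.zero_le n) hn
  have hup : ∀ᶠ n in atTop, n < τ (K n + 1) := by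
    refine Eventually.of_forall fun n => ?_
    by_contra hcon
    push Not at hcon
    have h3 : K n + 1 ≤ n := (hle _).trans hcon
    have h4 : K n + 1 ≤ K n := Nat.le_findGreatest (P := fun k => τ k ≤ n) h3 hcon
    exact absurd h4 (by simp)
  have hKpos : ∀ᶠ n in atTop, 1 ≤ K n := hKinf.eventually_ge_atTop 1
  -- τ (k+1) / k → a
  have h1' : Tendsto (fun k : ℕ => (τ (k + 1) : ℝ) / k) atTop (𝓝 a) := by
    have hs : Tendsto (fun k : ℕ => (τ (k + 1) : ℝ) / ((k + 1 : ℕ) : ℝ)) atTop (𝓝 a) :=
      h1.comp (tendsto_add_atTop_nat 1)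
    have hr : Tendsto (fun k : ℕ => ((k + 1 : ℕ) : ℝ) / k) atTop (𝓝 1) := by
      have : Tendsto (fun k : ℕ => 1 + 1 / (k : ℝ)) atTop (𝓝 (1 + 0)) :=
        tendsto_const_nhds.add tendsto_one_div_atTop_nhds_zero_nat
      rw [add_zero] at this
      refine this.congr' ?_
      filter_upwards [eventually_ge_atTop 1] with k hk
      have hk' : (k : ℝ) ≠ 0 := by
        have : (1 : ℝ) ≤ k := by exact_mod_cast hk
        linarith
      push_cast
      field_simp
    have hm := hs.mul hr
    rw [mul_one] at hm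
    refine hm.congr' ?_
    filter_upwards [eventually_ge_atTop 1] with k hk
    have hk' : (k : ℝ) ≠ 0 := by
      have : (1 : ℝ) ≤ k := by exact_mod_cast hk
      linarith
    have hk2 : ((k + 1 : ℕ) : ℝ) ≠ 0 := by positivity
    field_simp
  have hgap : Tendsto (fun k : ℕ => ((τ (k + 1) : ℝ) - τ k) / k) atTop (𝓝 0) := by
    have := h1'.sub h1
    rw [sub_self] at this
    refine this.congr fun k => ?_
    rw [sub_div]
  -- n / K n → a
  have hn : Tendsto (fun n : ℕ => (n : ℝ) / K n) atTop (𝓝 a) := by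
    refine tendsto_of_tendsto_of_tendsto_of_le_of_le' (h1.comp hKinf) (h1'.comp hKinf) ?_ ?_
    · filter_upwards [hlow] with n hn
      exact div_le_div_of_nonneg_right (by exact_mod_cast hn) (by positivity)
    · filter_upwards [hup] with n hn
      exact div_le_div_of_nonneg_right (by exact_mod_cast hn.le) (by positivity)
  have hdiff : Tendsto (fun n : ℕ => ((y n : ℝ) - y (τ (K n))) / K n) atTop (𝓝 0) := by
    refine squeeze_zero_norm' ?_ (hgap.comp hKinf)
    filter_upwards [hlow, hup] with n hl hu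
    rw [Real.norm_eq_abs, abs_div, Nat.abs_cast]
    refine div_le_div_of_nonneg_right ?_ (by positivity)
    have h3 := abs_sub_le_of_step hy hl
    have h4 : |((y n : ℝ) - y (τ (K n)))| ≤ (n : ℝ) - τ (K n) := by exact_mod_cast h3
    refine h4.trans ?_
    have : (n : ℝ) ≤ τ (K n + 1) := by exact_mod_cast hu.le
    simpa using this
  have hyK : Tendsto (fun n : ℕ => (y n : ℝ) / K n) atTop (𝓝 w) := by
    have := (h2.comp hKinf).add hdiff
    rw [add_zero] at this
    refine this.congr fun n => ?_
    simp only [Function.comp_apply]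
    rw [← add_div]; congr 1; ring
  have hfin := hyK.div hn ha.ne'
  refine hfin.congr' ?_
  filter_upwards [hKpos, eventually_ge_atTop 1] with n hk hn1
  have hk' : (K n : ℝ) ≠ 0 := by
    have : (1 : ℝ) ≤ K n := by exact_mod_cast hk
    linarith
  have hn' : (n : ℝ) ≠ 0 := by
    have : (1 : ℝ) ≤ n := by exact_mod_cast hn1
    linarith
  simp only [Pi.div_apply]
  field_simp

end Crest.Agent.R154.B9409
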