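import Crest.Agent.R154.MkC_561

/-! R154, marked walk, part 4: forced marks (coins), escape event, iid instance. -/

set_option autoImplicit false

open MeasureTheory ProbabilityTheory Filter
open scoped ENNReal Topology

namespace Crest.Agent.R154.Mk561

open Crest.ProbabilityR.RandomEnvironment Crest.Agent.R154.Q561 Crest.Agent.R154.Ren263

variable {d : ℕ}

/-! ### forced marks -/

theorem wgt_forced (κ : ℝ) (ω : Environment d) (x : Site d) {F : MPath d} {G : ℕ}
    (hF : ∀ i < G, (F i).2 = true) : wgt κ ω x F G = ENNReal.ofReal (kf d κ) ^ G := by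
  have h : ∀ i ∈ Finset.range G, mw κ (ω (pos x F i)) (F i) = ENNReal.ofReal (kf d κ) := by
    intro i hi
    have h1 := hF i (Finset.mem_range.1 hi)
    have h2 : F i = ((F i).1, true) := Prod.ext rfl h1
    rw [h2, mw_forced]
  unfold wgt
  rw [Finset.prod_congr rfl h, Finset.prod_const, Finset.card_range]

/-- **coins, quenched**: whatever the past, the next `G` marks are the forced marks `F` with probability
exactly `κ ^ G` -/
theorem mk_forced (κ : ℝ) (ω : Environment d) (x : Site d) {n : ℕ} {A : Set (MPath d)}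
    (hA : Det n A) {F : MPath d} {G : ℕ} (hF : ∀ i < G, (F i).2 = true) :
    mkLaw κ ω x (A ∩ shift n ⁻¹' Cy F G) = mkLaw κ ω x A * ENNReal.ofReal (kf d κ) ^ G := by
  rw [markov_det κ ω x hA (measurableSet_Cy F G)]
  simp only [mk_cyl, wgt_forced κ ω _ hF]
  rw [setLIntegral_const, mul_comm]

/-- coins, quenched, then the future -/
theorem mk_forced_future (κ : ℝ) (ω : Environment d) (x : Site d) {n : ℕ} {A : Set (MPath d)}
    (hA : Det n A) {F : MPath d} {G : ℕ} (hF : ∀ i < G, (F i).2 = true) {B : Set (MPath d)}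
    (hB : MeasurableSet B) :
    mkLaw κ ω x (A ∩ shift n ⁻¹' (Cy F G ∩ shift G ⁻¹' B))
      = ENNReal.ofReal (kf d κ) ^ G * ∫⁻ M in A, mkLaw κ ω (pos (pos x M n) F G) B ∂(mkLaw κ ω x) := by
  rw [markov_det κ ω x hA ((measurableSet_Cy F G).inter (measurable_shift G hB))]
  simp only [markov_Cy κ ω _ F G hB, wgt_forced κ ω _ hF]
  rw [lintegral_const_mul']
  exact ENNReal.pow_ne_top ENNReal.ofReal_ne_top

/-- **coins, annealed** -/
theorem mkAnn_forced (κ : ℝ) (Q : Measure (Environment d)) (x : Site d) {n : ℕ}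
    {A : Set (MPath d)} (hA : Det n A) {F : MPath d} {G : ℕ} (hF : ∀ i < G, (F i).2 = true) :
    mkAnn κ Q x (A ∩ shift n ⁻¹' Cy F G)
      = mkAnn κ Q x A * ENNReal.ofReal (kf d κ) ^ G := by
  rw [mkAnn_apply κ Q x (hA.measurableSet.inter (measurable_shift n (measurableSet_Cy F G))),
    mkAnn_apply κ Q x hA.measurableSet]
  simp only [mk_forced κ _ x hA hF]
  rw [lintegral_mul_const' _ _ (ENNReal.pow_ne_top ENNReal.ofReal_ne_top)]

/-- the constant forced step `e` -/
def forcedSeq (e : Step d) : MPath d := fun _ => (e, true)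

theorem pos_forcedSeq (e : Step d) (x : Site d) (n : ℕ) :
    pos x (forcedSeq e) n = x + n • stepVec e := by
  simp [pos, forcedSeq, stp]

theorem hgt_forcedSeq (ℓ : Fin d → ℝ) (e : Step d) (n : ℕ) :
    hgt (mht ℓ) (forcedSeq e) n = n * sht ℓ (stepVec e) := by
  simp [hgt, forcedSeq, mht, stp]

/-! ### escape event in terms of heights -/

theorem mpath_mem_escape (ℓ : Fin d → ℝ) (x : Site d) (M : MPath d) :
    mpath x M ∈ escapeEvent ℓ ↔ Tendsto (hgt (mht ℓ) M) atTop atTop := by
  have e : (fun n => ∑ i, ((mpath x M n) i : ℝ) * ℓ i) = fun n => sht ℓ x + hgt (mht ℓ) M n := by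
    funext n
    exact sht_pos ℓ x M n
  change Tendsto (fun n => ∑ i, ((mpath x M n) i : ℝ) * ℓ i) atTop atTop ↔ _
  rw [e]
  constructor
  · intro h
    have h2 := tendsto_atTop_add_const_left atTop (-(sht ℓ x)) h
    refine h2.congr fun n => ?_
    ring
  · intro h
    exact tendsto_atTop_add_const_left atTop (sht ℓ x) h

theorem measurableSet_escapeEvent (ℓ : Fin d → ℝ) : MeasurableSet (escapeEvent ℓ) := by
  unfold escapeEvent
  refine measurableSet_tendsto _ fun n => ?_
  refine Finset.measurable_sum _ fun i _ => ?_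
  exact (((measurable_of_countable fun z : Site d => ((z i : ℤ) : ℝ)).comp
    (measurable_pi_apply n))).mul_const _

/-- positions of the height function along a path of sites -/
theorem sht_mpath (ℓ : Fin d → ℝ) (x : Site d) (M : MPath d) (n : ℕ) :
    sht ℓ (mpath x M n) = sht ℓ x + hgt (mht ℓ) M n := sht_pos ℓ x M n

/-! ### iid instance, no coins -/

theorem renewal_iid (ν : Measure (Row d)) [IsProbabilityMeasure ν] (κ : ℝ) (ℓ : Fin d → ℝ) :
    Renewal (mht ℓ) (mkAnn κ (iidEnvironmentLaw ν) 0) :=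
  haveI : IsProbabilityMeasure (iidEnvironmentLaw ν) := by
    unfold iidEnvironmentLaw; infer_instance
  renewal_R0 (iid_shift ν) (iid_isFiniteRangeDependent ν 0) κ ℓ

/-- without coins the projection is the annealed law, for every environment law -/
theorem mkAnn_projection_zero (Q : Measure (Environment d)) (x : Site d)
    {B : Set (Path d)} (hB : MeasurableSet B) :
    mkAnn 0 Q x (mpath x ⁻¹' B) = annealedProb Q x B := by
  refine mkAnn_projection (Eventually.of_forall fun ω z e => ?_) x hB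
  rw [kf_zero]; exact (ω z).2.1 e

/-- under uniform ellipticity with constant `κ` the coin constant is `κ` -/
theorem kf_of_ell {Q : Measure (Environment d)} [NeZero Q] {κ : ℝ} (hκ : 0 ≤ κ)
    (hell : ∀ᵐ ω ∂Q, ∀ (z : Site d) (e : Step d), κ ≤ (ω z).1 e) : kf d κ = κ := by
  obtain ⟨ω, hω⟩ := hell.exists
  refine kf_eq hκ ?_
  have h1 : ∑ e : Step d, κ ≤ ∑ e : Step d, (ω 0).1 e := Finset.sum_le_sum fun e _ => hω 0 e
  rw [(ω 0).2.2] at h1
  simp only [Finset.sum_const, Finset.card_univ, Fintype.card_prod, Fintype.card_fin,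
    Fintype.card_bool, nsmul_eq_mul, Nat.cast_mul, Nat.cast_ofNat] at h1
  linarith

theorem mkAnn_projection_ell {Q : Measure (Environment d)} [IsProbabilityMeasure Q] {κ : ℝ}
    (hκ : 0 ≤ κ) (hell : ∀ᵐ ω ∂Q, ∀ (z : Site d) (e : Step d), κ ≤ (ω z).1 e) (x : Site d)
    {B : Set (Path d)} (hB : MeasurableSet B) :
    mkAnn κ Q x (mpath x ⁻¹' B) = annealedProb Q x B := by
  refine mkAnn_projection ?_ x hB
  rw [kf_of_ell hκ hell]
  exact hell

end Crest.Agent.R154.Mk561
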