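import Crest.Agent.R154.B9Ann_409
import Crest.Agent.R154.B9FL_409
import Crest.Agent.R154.B9SLLN_409
import Crest.Agent.R154.MkD_561
import Crest.Agent.R154.B2d_419

/-! R154 B9 (S7, S8): from the polynomial tail (QT) of the quenched escape probability to the law of
large numbers with non-zero speed; reduction of S0220 to (QT) for coordinate directions and the
half-space property (HalfSpace) of 419 (helper409). -/

set_option autoImplicit false
set_option linter.unusedSectionVars false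

namespace Crest.Agent.R154.B9409

open MeasureTheory ProbabilityTheory Filter Crest.ProbabilityR.RandomEnvironment Crest.Agent.R154
open Crest.Agent.R154.Ren263 Crest.Agent.R154.Mk561 Crest.Agent.R154.B2d
open scoped ENNReal Topology

variable {d : ℕ}

/-- height in the direction of the step `u` -/
def htu (u : Step d) : Site d →+ ℤ where
  toFun x := if u.2 then x u.1 else -x u.1
  map_zero' := by simp
  map_add' x y := by split_ifs <;> simp [add_comm]

lemma htu_apply (u : Step d) (x : Site d) : htu u x = if u.2 then x u.1 else -x u.1 := rfl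

lemma htu_self (u : Step d) : htu u (stepVec u) = 1 := by
  rw [htu_apply]
  unfold stepVec
  rw [Pi.single_eq_same]
  split_ifs <;> simp

lemma htu_le (u e : Step d) : |htu u (stepVec e)| ≤ 1 := by
  have h2 : |stepVec e u.1| ≤ 1 := by
    simp only [stepVec, Pi.single_apply]
    split_ifs <;> simp
  rw [htu_apply]
  split_ifs
  · exact h2
  · rw [abs_neg]; exact h2

lemma sht_dirVec (u : Step d) (x : Site d) : sht (dirVec u) x = (htu u x : ℝ) := by
  unfold sht
  rw [sum_mul_dirVec (fun i => (x i : ℝ)) u, htu_apply]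
  split_ifs <;> simp

/-- integer height of a mark -/
def hzu (u : Step d) (m : Mark d) : ℤ := htu u (stp m)

lemma hr_hzu (u : Step d) : hr (hzu u) = mht (dirVec u) := by
  funext m
  simp only [hr, hzu, mht, sht_dirVec]

lemma H_add (f : Site d →+ ℤ) (M : MPath d) (n : ℕ) :
    H (fun m => f (stp m)) M n = f (pos 0 M n) := by
  simp [H, pos, map_sum]

lemma H_hzu (u : Step d) (M : MPath d) (n : ℕ) : H (hzu u) M n = htu u (mpath 0 M n) :=
  H_add (htu u) M n

lemma mpath_zero_zero (M : MPath d) : mpath 0 M 0 = 0 := pos_zero 0 M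

lemma back_preimage (u : Step d) (K L : ℕ) :
    BackS (hzu u) K L = mpath 0 ⁻¹' Back (htu u) K L := by
  ext M
  simp only [BackS, Back, Set.mem_preimage, Set.mem_ofPred_eq, H_hzu, mpath_zero_zero, map_zero,
    zero_add]

lemma slab_preimage (u : Step d) (L a : ℕ) :
    SlabS (hzu u) L a = mpath 0 ⁻¹' SlabP (htu u) L a := by
  ext M
  simp only [SlabS, SlabP, Set.mem_preimage, Set.mem_ofPred_eq, H_hzu, mpath_zero_zero, map_zero,
    sub_zero]

lemma stay_preimage (u : Step d) :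
    Stay (hr (hzu u)) = (mpath 0 ⁻¹' Nt (htu u) : Set (MPath d)) := by
  ext M
  rw [mem_Stay_iff]
  simp only [Nt, Set.mem_preimage, Set.mem_ofPred_eq, H_hzu, mpath_zero_zero, map_zero]

section

variable {Q : Measure (Environment d)} [IsProbabilityMeasure Q]

/-- the quenched escape probability is not almost surely zero -/
lemma nt_ne_zero {u : Step d} (hqt : QT Q (htu u)) : annealedProb Q 0 (Nt (htu u)) ≠ 0 := by
  intro h0
  obtain ⟨C, hC⟩ := hqt 1
  unfold annealedProb at h0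
  rw [lintegral_eq_zero_iff (measurable_quenched_apply 0 (measurableSet_Nt _))] at h0
  have h1 : ∀ k : ℕ, 1 ≤ k → (1 : ℝ≥0∞) ≤ ENNReal.ofReal (C / (k : ℝ) ^ 1) := by
    intro k hk
    refine le_trans ?_ (hC k hk)
    have hk' : (0 : ℝ) < k := by exact_mod_cast hk
    have h2 : ∀ᵐ ω ∂Q, ω ∈ {ω : Environment d | quenchedLaw ω 0 (Nt (htu u))
        < ENNReal.ofReal (1 / (k : ℝ))} := by
      filter_upwards [h0] with ω hω
      have h3 : quenchedLaw ω 0 (Nt (htu u)) = 0 := hω
      change quenchedLaw ω 0 (Nt (htu u)) < ENNReal.ofReal (1 / (k : ℝ))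
      rw [h3, ENNReal.ofReal_pos]
      positivity
    have h4 := (mem_ae_iff_prob_eq_one (measurableSet_qlt (htu u) 0 _)).1 h2
    exact h4.ge
  obtain ⟨k, hk⟩ := exists_nat_gt (max C 1)
  have hk1 : (1 : ℝ) < k := (le_max_right _ _).trans_lt hk
  have hkC : C < k := (le_max_left _ _).trans_lt hk
  have h2 := h1 k (by exact_mod_cast hk1.le)
  rw [pow_one] at h2
  have h3 : C / (k : ℝ) < 1 := by
    rw [div_lt_one (by linarith)]; exact hkC
  have h4 : ENNReal.ofReal (C / (k : ℝ)) < 1 := by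
    rw [← ENNReal.ofReal_one]
    exact (ENNReal.ofReal_lt_ofReal_iff one_pos).2 h3
  exact absurd h2 (not_le.2 h4)

lemma measurableSet_velocityEvent (v : Fin d → ℝ) :
    MeasurableSet (velocityEvent v : Set (ℕ → Site d)) := by
  unfold velocityEvent
  refine measurableSet_tendsto _ fun n => ?_
  refine measurable_pi_lambda _ fun i => ?_
  have h1 : Measurable fun X : ℕ → Site d => X n i :=
    (measurable_pi_apply i).comp (measurable_pi_apply n)
  exact ((measurable_of_countable (fun z : ℤ => (z : ℝ))).comp h1).div_const _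

/-- **S7 for a coordinate direction**: escape with probability one, positive probability of never
going below the start and annealed decay of order 4 give a non-zero speed. -/
theorem velocity_of_decay {u : Step d}
    (hren : Renewal (mht (dirVec u)) (mkAnn 0 Q 0))
    (hesc : annealedProb Q 0 (escapeEvent (dirVec u)) = 1)
    (hp0 : annealedProb Q 0 (Nt (htu u)) ≠ 0)
    (D1 : DecayAt 4 fun n => annealed Q 0 (Back (htu u) n (2 * n))) {n0 : ℕ → ℕ} {C0 : ℕ}
    (hC0 : 1 ≤ C0) (hn0 : ∀ n, 1 ≤ n → n0 n ≤ C0 * n ^ 2)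
    (D2 : DecayAt 4 fun n => annealed Q 0 (SlabP (htu u) (2 * n) (n0 n))) :
    ∃ v : Fin d → ℝ, 0 < ∑ i, v i * dirVec u i ∧ annealedProb Q 0 (velocityEvent v) = 1 := by
  set P : Measure (MPath d) := mkAnn 0 Q 0 with hP
  have hR : Renewal (hr (hzu u)) P := by rw [hr_hzu]; exact hren
  have hp : P (Stay (hr (hzu u))) ≠ 0 := by
    rw [stay_preimage, hP, mkAnn_projection_zero Q 0 (measurableSet_Nt _)]
    exact hp0
  have hle : ∀ (m : Mark d), |hzu u m| ≤ 1 := fun m => htu_le u m.1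
  have hNN : ∀ᵐ s ∂P, ∀ n, hzu u (s n) ≤ 1 :=
    Eventually.of_forall fun s n => (le_abs_self _).trans (hle (s n))
  have hesc' : ∀ᵐ s ∂P, Tendsto (hgt (hr (hzu u)) s) atTop atTop := by
    have h1 : P (mpath 0 ⁻¹' escapeEvent (dirVec u)) = 1 := by
      rw [hP, mkAnn_projection_zero Q 0 (B2d.measurableSet_escapeEvent _)]; exact hesc
    have h2 := (mem_ae_iff_prob_eq_one
      ((measurable_mpath 0) (B2d.measurableSet_escapeEvent (dirVec u)))).2 h1
    filter_upwards [h2] with s hs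
    rw [hr_hzu]
    exact (mpath_mem_escape (dirVec u) 0 s).1 hs
  have hunbR : ∀ᵐ s ∂P, ∀ M : ℝ, ∃ n, M ≤ hgt (hr (hzu u)) s n := by
    filter_upwards [hesc'] with s hs M
    exact (hs.eventually_ge_atTop M).exists
  have hunb : ∀ᵐ s ∂P, ∀ j : ℕ, ∃ t, (j : ℤ) ≤ H (hzu u) s t := by
    filter_upwards [hunbR] with s hs j
    obtain ⟨n, hn⟩ := hs (j : ℝ)
    rw [hgt_eq] at hn
    exact ⟨n, by exact_mod_cast hn⟩
  have E1 : DecayAt 4 fun n => P (BackS (hzu u) n (2 * n)) := by
    refine D1.mono fun n _ => ?_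
    rw [back_preimage, hP, mkAnn_projection_zero Q 0 (measurableSet_Back _ _ _),
      annealed_apply Q 0 (measurableSet_Back _ _ _)]
  have E2 : DecayAt 4 fun n => P (SlabS (hzu u) (2 * n) (n0 n)) := by
    refine D2.mono fun n _ => ?_
    rw [slab_preimage, hP, mkAnn_projection_zero Q 0 (measurableSet_SlabP _ _ _),
      annealed_apply Q 0 (measurableSet_SlabP _ _ _)]
  have hmean := mean_time_at hR hp hNN hunb E1 hC0 hn0 E2
  have hT : ∀ᵐ s ∂P, s ∈ Stay (hr (hzu u)) → ∀ M : ℝ, ∃ n, M ≤ hgt (hr (hzu u)) s n := by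
    filter_upwards [hunbR] with s hs _
    exact hs
  set g : Fin d → Mark d → ℤ := fun i m => Pi.evalAddMonoidHom (fun _ => ℤ) i (stp m) with hg
  have hg1 : ∀ i m, |g i m| ≤ 1 := by
    intro i m
    simp only [hg, Pi.evalAddMonoidHom_apply, stp, stepVec, Pi.single_apply]
    split_ifs <;> simp
  have hgH : ∀ (i : Fin d) (M : MPath d) (n : ℕ), H (g i) M n = mpath 0 M n i := by
    intro i M n
    rw [hg, H_add]; rfl
  set v : Fin d → ℝ := fun i => mdis (hr (hzu u)) P (g i) / mlen (hr (hzu u)) P with hv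
  have hlln : ∀ᵐ s ∂P, ∀ i, Tendsto (fun n : ℕ => (H (g i) s n : ℝ) / n) atTop (𝓝 (v i)) := by
    rw [ae_all_iff]
    intro i
    filter_upwards [lln_letters hR hp hT hmean (g := g i)
      (Eventually.of_forall fun s n => hg1 i (s n)), hunbR] with s h1 h2
    exact h1 h2
  have hllnu : ∀ᵐ s ∂P, Tendsto (fun n : ℕ => (H (hzu u) s n : ℝ) / n) atTop
      (𝓝 (mdis (hr (hzu u)) P (hzu u) / mlen (hr (hzu u)) P)) := by
    filter_upwards [lln_letters hR hp hT hmean (g := hzu u)
      (Eventually.of_forall fun s n => hle (s n)), hunbR] with s h1 h2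
    exact h1 h2
  have hml := mlen_pos hR hp hT hmean
  have hmd := mdis_pos hR hp hT hmean (Eventually.of_forall fun s n => hle (s n))
  refine ⟨v, ?_, ?_⟩
  · obtain ⟨s, h1, h2⟩ := (hlln.and hllnu).exists
    have h3 : Tendsto (fun n : ℕ => (H (hzu u) s n : ℝ) / n) atTop
        (𝓝 (∑ i, v i * dirVec u i)) := by
      rw [sum_mul_dirVec]
      have h4 := h1 u.1
      by_cases hu2 : u.2
      · rw [if_pos hu2]
        refine h4.congr fun n => ?_
        rw [hgH, H_hzu, htu_apply, if_pos hu2]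
      · rw [if_neg hu2]
        refine h4.neg.congr fun n => ?_
        rw [hgH, H_hzu, htu_apply, if_neg hu2]
        push_cast; ring
    rw [tendsto_nhds_unique h3 h2]
    exact div_pos hmd (lt_of_lt_of_le one_pos hml)
  · rw [← mkAnn_projection_zero Q 0 (measurableSet_velocityEvent v), ← hP]
    refine (mem_ae_iff_prob_eq_one ((measurable_mpath 0) (measurableSet_velocityEvent v))).1 ?_
    filter_upwards [hlln] with s hs
    change Tendsto (fun n : ℕ => fun i => ((mpath 0 s n i : ℤ) : ℝ) / n) atTop (𝓝 v)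
    rw [tendsto_pi_nhds]
    intro i
    refine (hs i).congr fun n => ?_
    rw [hgH]

/-- (UE) + (QT) + escape with probability one give a non-zero speed. -/
theorem velocity_of_QT
    (hQ : ∀ z : Site d, MeasurePreserving (shiftEnv z) Q Q) {κ : ℝ} (hκ : 0 < κ)
    (hell : ∀ᵐ ω ∂Q, ∀ (x : Site d) (e : Step d), κ ≤ (ω x).1 e) {u : Step d}
    (hren : Renewal (mht (dirVec u)) (mkAnn 0 Q 0))
    (hesc : annealedProb Q 0 (escapeEvent (dirVec u)) = 1) (hqt : QT Q (htu u)) :
    ∃ v : Fin d → ℝ, 0 < ∑ i, v i * dirVec u i ∧ annealedProb Q 0 (velocityEvent v) = 1 := by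
  obtain ⟨D1, D2⟩ := annealed_decay hQ (htu_self u) (htu_le u) hκ hell hqt
  have hC0 : 1 ≤ ⌈4 / κ + 1⌉₊ := Nat.ceil_pos.2 (by positivity)
  exact velocity_of_decay hren hesc (nt_ne_zero hqt) (D1.at 4) hC0 (nn_le_nat hκ) (D2.at 4)

/-- (UE) + (FL) of order `2d + 4` + escape with probability one + `P(D = ∞) > 0` give a non-zero
speed. -/
theorem velocity_of_FL
    (hQ : ∀ z : Site d, MeasurePreserving (shiftEnv z) Q Q) {κ : ℝ} (hκ : 0 < κ)
    (hell : ∀ᵐ ω ∂Q, ∀ (x : Site d) (e : Step d), κ ≤ (ω x).1 e) {u : Step d}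
    (hren : Renewal (mht (dirVec u)) (mkAnn 0 Q 0))
    (hesc : annealedProb Q 0 (escapeEvent (dirVec u)) = 1)
    (hp0 : annealedProb Q 0 (Nt (htu u)) ≠ 0) (hfl : FL Q (htu u) (2 * d + 4)) :
    ∃ v : Fin d → ℝ, 0 < ∑ i, v i * dirVec u i ∧ annealedProb Q 0 (velocityEvent v) = 1 := by
  obtain ⟨D1, D2, _⟩ := decay_of_FL hQ (htu_self u) (htu_le u) hκ hell hfl
  have hC0 : 1 ≤ 4 * ⌈2 / κ + 1⌉₊ := by
    have : 0 < ⌈2 / κ + 1⌉₊ := Nat.ceil_pos.2 (by positivity)
    omega
  refine velocity_of_decay hren hesc hp0 D1 hC0 (n0 := fun n => nL κ (2 * n)) (fun n hn => ?_) D2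
  have h1 := nL_le hκ (n := 2 * n) (by omega)
  have h2 : (2 / κ + 1 : ℝ) ≤ (⌈2 / κ + 1⌉₊ : ℝ) := Nat.le_ceil _
  have h3 : (nL κ (2 * n) : ℝ) ≤ ((4 * ⌈2 / κ + 1⌉₊ * n ^ 2 : ℕ) : ℝ) := by
    push_cast at h1 ⊢
    calc (nL κ (2 * n) : ℝ) ≤ (2 / κ + 1) * (2 * (n : ℝ)) ^ 2 := h1
      _ ≤ (⌈2 / κ + 1⌉₊ : ℝ) * (2 * (n : ℝ)) ^ 2 := by gcongr
      _ = _ := by ring
  exact_mod_cast h3

/-- (D) of 804: with (FL) for `ht` the walk does not stay below its start while going down to
arbitrarily low levels. -/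
theorem no_natural_down {ht : Site d →+ ℤ} (hD : DecayAt 1 fun n => annealed Q 0 (Down ht n)) :
    annealed Q 0 {X | (∀ n, ht (X n) ≤ ht (X 0)) ∧ ∀ h : ℕ, ∃ m, ht (X m) + h ≤ ht (X 0)} = 0 := by
  obtain ⟨C, hC0, hC⟩ := hD
  refine le_antisymm ?_ (zero_le)
  refine ge_of_tendsto (f := fun n : ℕ => ENNReal.ofReal (C / (n : ℝ) ^ 1)) (x := atTop) ?_ ?_
  · rw [← ENNReal.ofReal_zero]
    refine (ENNReal.continuous_ofReal.tendsto 0).comp ?_
    simpa using tendsto_const_div_atTop_nhds_zero_nat C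
  · filter_upwards [eventually_ge_atTop 1] with n hn
    refine le_trans (measure_mono ?_) (hC n hn)
    rintro X ⟨h1, h2⟩
    obtain ⟨m, hm⟩ := h2 n
    exact ⟨m, hm, fun i _ => h1 i⟩

end

/-- the velocity lies in the half space of the escape direction -/
lemma velocity_dot_pos {P : Measure (ℕ → Site d)} [IsProbabilityMeasure P] {l v : Fin d → ℝ}
    (hH : HalfSpace P l) (h1 : P (escapeEvent l) = 1) (hv0 : v ≠ 0)
    (hv : ∀ᵐ X ∂P, X ∈ velocityEvent v) : 0 < ∑ i, v i * l i := by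
  obtain ⟨w, hw, hae⟩ := escape_all hH h1
  by_contra hcon
  push Not at hcon
  obtain ⟨X, hX1, hX2⟩ := (hae.and hv).exists
  -- `l' = l - ε v`
  have hvv : 0 < ∑ i, v i * v i := by
    obtain ⟨i, hi⟩ : ∃ i, v i ≠ 0 := by
      by_contra h
      push Not at h
      exact hv0 (funext h)
    exact Finset.sum_pos' (fun i _ => mul_self_nonneg _)
      ⟨i, Finset.mem_univ i, mul_self_pos.2 hi⟩
  obtain ⟨ε, hε, hεw⟩ : ∃ ε : ℝ, 0 < ε ∧ 0 < ∑ i, w i * l i - ε * ∑ i, w i * v i := by
    set a := ∑ i, w i * l i with ha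
    set b := ∑ i, w i * v i with hb
    refine ⟨a / (2 * (|b| + 1)), by positivity, ?_⟩
    have h2 : a / (2 * (|b| + 1)) * b ≤ a / 2 := by
      rw [div_mul_eq_mul_div, div_le_div_iff₀ (by positivity) two_pos]
      have h3 : b ≤ |b| := le_abs_self b
      nlinarith [abs_nonneg b]
    linarith
  have h5 : X ∈ escapeEvent (fun i => l i - ε * v i) := by
    refine hX1 _ ?_
    have : ∑ i, w i * (l i - ε * v i) = ∑ i, w i * l i - ε * ∑ i, w i * v i := by
      rw [Finset.mul_sum, ← Finset.sum_sub_distrib]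
      exact Finset.sum_congr rfl fun i _ => by ring
    rw [this]; exact hεw
  have h6 : Tendsto (fun n : ℕ => ∑ i, (X n i : ℝ) * (l i - ε * v i)) atTop atTop := h5
  have h7 : Tendsto (fun n : ℕ => ∑ i, ((X n i : ℝ) / n) * (l i - ε * v i)) atTop
      (𝓝 (∑ i, v i * (l i - ε * v i))) := by
    refine tendsto_finsetSum _ fun i _ => ?_
    exact ((tendsto_pi_nhds.1 hX2) i).mul_const _
  have h8 : ∑ i, v i * (l i - ε * v i) < 0 := by
    have : ∑ i, v i * (l i - ε * v i) = ∑ i, v i * l i - ε * ∑ i, v i * v i := by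
      rw [Finset.mul_sum, ← Finset.sum_sub_distrib]
      exact Finset.sum_congr rfl fun i _ => by ring
    rw [this]
    have := mul_pos hε hvv
    linarith
  have h9 := h7.eventually_lt_const h8
  have h10 := h6.eventually_ge_atTop 0
  obtain ⟨n, hn1, hn2, hn3⟩ := (h9.and (h10.and (eventually_ge_atTop 1))).exists
  have hn' : (0 : ℝ) < n := by exact_mod_cast hn3
  have h11 : ∑ i, ((X n i : ℝ) / n) * (l i - ε * v i)
      = (∑ i, (X n i : ℝ) * (l i - ε * v i)) / n := by
    rw [Finset.sum_div]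
    exact Finset.sum_congr rfl fun i _ => by ring
  rw [h11] at hn1
  exact absurd (div_nonneg hn2 hn'.le) (not_le.2 hn1)

/-- uniform ellipticity of the product law -/
lemma ue_iid (ν : Measure (Row d)) [IsProbabilityMeasure ν]
    {κ : ℝ} (hν : ∀ᵐ p ∂ν, ∀ e : Step d, κ ≤ p.1 e) :
    ∀ᵐ ω ∂(iidEnvironmentLaw ν), ∀ (x : Site d) (e : Step d), κ ≤ (ω x).1 e := by
  rw [ae_all_iff]
  intro x
  have hmp := measurePreserving_eval_infinitePi (fun _ : Site d => ν) x
  have h1 : ∀ᵐ p ∂((iidEnvironmentLaw ν).map (fun ω : Environment d => ω x)),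
      ∀ e : Step d, κ ≤ p.1 e := by
    have : (iidEnvironmentLaw ν).map (fun ω : Environment d => ω x) = ν := hmp.map_eq
    rw [this]; exact hν
  exact ae_of_ae_map (measurable_pi_apply x).aemeasurable h1

/-- reduction of S0220 to coordinate directions -/
theorem S0220_of_velocity (ν : Measure (Row d)) [IsProbabilityMeasure ν]
    (ℓ : Fin d → ℝ) (htrans : annealedProb (iidEnvironmentLaw ν) 0 (escapeEvent ℓ) = 1)
    (hH : HalfSpace (annealed (iidEnvironmentLaw ν) 0) ℓ)
    (hvel : ∀ u : Step d, annealedProb (iidEnvironmentLaw ν) 0 (escapeEvent (dirVec u)) = 1 →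
      ∃ v : Fin d → ℝ, 0 < ∑ i, v i * dirVec u i ∧
        annealedProb (iidEnvironmentLaw ν) 0 (velocityEvent v) = 1) :
    ∃ v : Fin d → ℝ, 0 < ∑ i, v i * ℓ i ∧
      annealedProb (iidEnvironmentLaw ν) 0 (velocityEvent v) = 1 := by
  set Q := iidEnvironmentLaw ν with hQdef
  have h1 : annealed Q 0 (escapeEvent ℓ) = 1 := by
    rw [annealed_apply Q 0 (B2d.measurableSet_escapeEvent ℓ)]; exact htrans
  obtain ⟨u, hu⟩ := exists_step_one hH h1
  rw [annealed_apply Q 0 (B2d.measurableSet_escapeEvent _)] at hu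
  obtain ⟨v, hv1, hv2⟩ := hvel u hu
  refine ⟨v, ?_, hv2⟩
  have hv0 : v ≠ 0 := by
    rintro rfl
    simp at hv1
  refine velocity_dot_pos hH h1 hv0 ?_
  rw [← annealed_apply Q 0 (measurableSet_velocityEvent v)] at hv2
  exact (mem_ae_iff_prob_eq_one (measurableSet_velocityEvent v)).2 hv2

/-- **S0220 from the half-space property (B2) and (QT) for coordinate directions (B8)** -/
theorem S0220_of (ν : Measure (Row d)) [IsProbabilityMeasure ν]
    (κ : ℝ) (hκ : 0 < κ) (hν : ∀ᵐ p ∂ν, ∀ e : Step d, κ ≤ p.1 e)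
    (ℓ : Fin d → ℝ) (htrans : annealedProb (iidEnvironmentLaw ν) 0 (escapeEvent ℓ) = 1)
    (hH : HalfSpace (annealed (iidEnvironmentLaw ν) 0) ℓ)
    (hqt : ∀ u : Step d, annealedProb (iidEnvironmentLaw ν) 0 (escapeEvent (dirVec u)) = 1 →
      QT (iidEnvironmentLaw ν) (htu u)) :
    ∃ v : Fin d → ℝ, 0 < ∑ i, v i * ℓ i ∧
      annealedProb (iidEnvironmentLaw ν) 0 (velocityEvent v) = 1 :=
  S0220_of_velocity ν ℓ htrans hH fun u hu =>
    velocity_of_QT (fun z => Q561.iid_shift ν z) hκ (ue_iid ν hν)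
      (renewal_iid ν 0 (dirVec u)) hu (hqt u hu)

/-- **S0220 from the half-space property (B2) and (FL) for coordinate directions (B8)** -/
theorem S0220_of_FL (ν : Measure (Row d)) [IsProbabilityMeasure ν]
    (κ : ℝ) (hκ : 0 < κ) (hν : ∀ᵐ p ∂ν, ∀ e : Step d, κ ≤ p.1 e)
    (ℓ : Fin d → ℝ) (htrans : annealedProb (iidEnvironmentLaw ν) 0 (escapeEvent ℓ) = 1)
    (hH : HalfSpace (annealed (iidEnvironmentLaw ν) 0) ℓ)
    (hfl : ∀ u : Step d, annealedProb (iidEnvironmentLaw ν) 0 (escapeEvent (dirVec u)) = 1 →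
      annealedProb (iidEnvironmentLaw ν) 0 (Nt (htu u)) ≠ 0 ∧
        FL (iidEnvironmentLaw ν) (htu u) (2 * d + 4)) :
    ∃ v : Fin d → ℝ, 0 < ∑ i, v i * ℓ i ∧
      annealedProb (iidEnvironmentLaw ν) 0 (velocityEvent v) = 1 :=
  S0220_of_velocity ν ℓ htrans hH fun u hu =>
    velocity_of_FL (fun z => Q561.iid_shift ν z) hκ (ue_iid ν hν)
      (renewal_iid ν 0 (dirVec u)) hu (hfl u hu).1 (hfl u hu).2

end Crest.Agent.R154.B9409
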