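import Crest.Agent.R154.Strong_541

/-! R154 B9 (S1, S2): quenched estimates for a nearest neighbour walk whose probability of never
returning to a level is bounded below on a set of sites (helper409).
Only the Markov property at fixed times is used. -/

set_option autoImplicit false

namespace Crest.Agent.R154.B9409

open MeasureTheory ProbabilityTheory Crest.ProbabilityR.RandomEnvironment Crest.Agent.R154
open scoped ENNReal

variable {d : ℕ}

/-- never below the starting height -/
def Nt (ht : Site d →+ ℤ) : Set (Path d) := {X | ∀ n, ht (X 0) ≤ ht (X n)}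

/-- never again at (or below) the starting height -/
def NoRet (ht : Site d →+ ℤ) : Set (Path d) := {X | ∀ n, 1 ≤ n → ht (X 0) < ht (X n)}

lemma measurableSet_Nt (ht : Site d →+ ℤ) : MeasurableSet (Nt ht) := by
  unfold Nt
  rw [Set.ofPred_forall]
  refine MeasurableSet.iInter fun n => measurableSet_of_agree n _ fun X Y h => ?_
  simp only [Set.mem_ofPred_eq, h 0 (Nat.zero_le _), h n le_rfl]

lemma measurableSet_NoRet (ht : Site d →+ ℤ) : MeasurableSet (NoRet ht) := by
  unfold NoRet
  rw [Set.ofPred_forall]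
  refine MeasurableSet.iInter fun n => measurableSet_of_agree n _ fun X Y h => ?_
  simp only [Set.mem_ofPred_eq, h 0 (Nat.zero_le _), h n le_rfl]

/-- S1 (a) -/
lemma noret_ge (ht : Site d →+ ℤ) {u : Step d} (hu : ht (stepVec u) = 1) (ω : Environment d)
    (y : Site d) :
    ENNReal.ofReal ((ω y).1 u) * quenchedLaw ω (y + stepVec u) (Nt ht)
      ≤ quenchedLaw ω y (NoRet ht) := by
  classical
  set γ : Path d := fun i => if i = 0 then y else y + stepVec u with hγ
  have hg0 : γ 0 = y := by simp [hγ]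
  have hg1 : γ 1 = y + stepVec u := by simp [hγ]
  have hc : quenchedLaw ω y (cyl γ 1) = ENNReal.ofReal ((ω y).1 u) := by
    rw [quenched_cyl, if_pos hg0]
    simp only [wt, Finset.range_one, Finset.prod_singleton, zero_add]
    rw [hg0, hg1, stepP_add]
  have hm := markov_event ω y 1 (A := cyl γ 1) (B := Nt ht)
    (fun X Y h => ⟨fun hX => h.symm.trans hX, fun hY => h.trans hY⟩) (measurableSet_Nt ht)
  have e1 : ∫⁻ X in cyl γ 1, quenchedLaw ω (X 1) (Nt ht) ∂quenchedLaw ω y
      = ∫⁻ _ in cyl γ 1, quenchedLaw ω (y + stepVec u) (Nt ht) ∂quenchedLaw ω y := by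
    refine setLIntegral_congr_fun (measurableSet_cyl _ _) fun X hX => ?_
    rw [hX 1 le_rfl, hg1]
  rw [e1, setLIntegral_const, hc, mul_comm] at hm
  rw [← hm]
  refine measure_mono ?_
  rintro X ⟨hX, hX2⟩ n hn
  have h0 : X 0 = y := by rw [hX 0 (Nat.zero_le _), hg0]
  have h1 : X 1 = y + stepVec u := by rw [hX 1 le_rfl, hg1]
  have h2 := hX2 (n - 1)
  simp only [shift] at h2
  rw [Nat.add_sub_cancel' hn] at h2
  simp only [Nat.add_zero] at h2
  rw [h1, map_add, hu] at h2
  rw [h0]; omega

/-- the path is in `B` at the times `0, …, a - 1` -/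
def StayIn (B : Set (Site d)) (a : ℕ) : Set (Path d) := {X | ∀ i, i < a → X i ∈ B}

lemma agree_StayIn (B : Set (Site d)) {a n : ℕ} (h : a ≤ n) (X Y : Path d) (hXY : Agree n X Y) :
    X ∈ StayIn B a ↔ Y ∈ StayIn B a := by
  simp only [StayIn, Set.mem_ofPred_eq]
  refine forall_congr' fun i => forall_congr' fun hi => ?_
  rw [hXY i (by omega)]

lemma measurableSet_StayIn (B : Set (Site d)) (a : ℕ) : MeasurableSet (StayIn B a) :=
  measurableSet_of_agree a _ fun X Y h => agree_StayIn B le_rfl X Y h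

/-- expected number of visits to a level inside `B` -/
lemma visits_le (ht : Site d →+ ℤ) (ω : Environment d) (x : Site d) {B : Set (Site d)}
    {c : ℝ≥0∞} (hc : ∀ y ∈ B, c ≤ quenchedLaw ω y (NoRet ht)) (j : ℤ) (a : ℕ) :
    c * ∑ n ∈ Finset.range a, quenchedLaw ω x {X | X n ∈ B ∧ ht (X n) = j} ≤ 1 := by
  classical
  set E : ℕ → Set (Path d) := fun n => {X | X n ∈ B ∧ ht (X n) = j} ∩ shift n ⁻¹' NoRet ht
    with hE
  have hA : ∀ n, ∀ X Y : Path d, Agree n X Y →
      (X ∈ {X : Path d | X n ∈ B ∧ ht (X n) = j} ↔ Y ∈ {X : Path d | X n ∈ B ∧ ht (X n) = j}) := by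
    intro n X Y h
    simp only [Set.mem_ofPred_eq, h n le_rfl]
  have hEm : ∀ n, MeasurableSet (E n) := fun n =>
    (measurableSet_of_agree n _ (hA n)).inter (measurable_shift n (measurableSet_NoRet ht))
  have hdisj : ((Finset.range a : Finset ℕ) : Set ℕ).PairwiseDisjoint E := by
    have key : ∀ n m, n < m → Disjoint (E n) (E m) := by
      intro n m hnm
      rw [Set.disjoint_left]
      rintro X ⟨h1, h2⟩ ⟨h3, _⟩
      have := h2 (m - n) (by omega)
      simp only [shift, Nat.add_zero] at this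
      rw [Nat.add_sub_cancel' hnm.le] at this
      rw [h1.2, h3.2] at this
      exact lt_irrefl _ this
    intro n _ m _ hnm
    rcases lt_or_gt_of_ne hnm with h | h
    · exact key n m h
    · exact (key m n h).symm
  have hle : ∀ n, c * quenchedLaw ω x {X | X n ∈ B ∧ ht (X n) = j} ≤ quenchedLaw ω x (E n) := by
    intro n
    rw [hE]
    simp only
    rw [markov_event ω x n (hA n) (measurableSet_NoRet ht), ← setLIntegral_const]
    refine setLIntegral_mono' (measurableSet_of_agree n _ (hA n)) fun X hX => ?_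
    exact hc _ hX.1
  rw [Finset.mul_sum]
  calc ∑ n ∈ Finset.range a, c * quenchedLaw ω x {X | X n ∈ B ∧ ht (X n) = j}
      ≤ ∑ n ∈ Finset.range a, quenchedLaw ω x (E n) := Finset.sum_le_sum fun n _ => hle n
    _ = quenchedLaw ω x (⋃ n ∈ Finset.range a, E n) :=
        (measure_biUnion_finset hdisj fun n _ => hEm n).symm
    _ ≤ 1 := prob_le_one

/-- the time spent in a set with few levels -/
lemma stay_le (ht : Site d →+ ℤ) (ω : Environment d) (x : Site d) {B : Set (Site d)}
    {c : ℝ≥0∞} (hc : ∀ y ∈ B, c ≤ quenchedLaw ω y (NoRet ht)) {J : Finset ℤ}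
    (hJ : ∀ y ∈ B, ht y ∈ J) (a : ℕ) :
    c * (a * quenchedLaw ω x (StayIn B a)) ≤ J.card := by
  classical
  have h1 : (a : ℝ≥0∞) * quenchedLaw ω x (StayIn B a)
      ≤ ∑ n ∈ Finset.range a, ∑ j ∈ J, quenchedLaw ω x {X | X n ∈ B ∧ ht (X n) = j} := by
    have h2 : ∀ n ∈ Finset.range a, quenchedLaw ω x (StayIn B a)
        ≤ ∑ j ∈ J, quenchedLaw ω x {X | X n ∈ B ∧ ht (X n) = j} := by
      intro n hn
      refine le_trans (measure_mono ?_) (measure_biUnion_finset_le J _)
      intro X hX
      have h3 := hX n (Finset.mem_range.1 hn)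
      simp only [Set.mem_iUnion, Set.mem_ofPred_eq]
      exact ⟨ht (X n), hJ _ h3, h3, rfl⟩
    calc (a : ℝ≥0∞) * quenchedLaw ω x (StayIn B a)
        = ∑ _n ∈ Finset.range a, quenchedLaw ω x (StayIn B a) := by
          rw [Finset.sum_const, Finset.card_range, nsmul_eq_mul]
      _ ≤ _ := Finset.sum_le_sum h2
  calc c * (a * quenchedLaw ω x (StayIn B a))
      ≤ c * ∑ n ∈ Finset.range a, ∑ j ∈ J, quenchedLaw ω x {X | X n ∈ B ∧ ht (X n) = j} := by
        gcongr
    _ = ∑ j ∈ J, c * ∑ n ∈ Finset.range a, quenchedLaw ω x {X | X n ∈ B ∧ ht (X n) = j} := by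
        rw [Finset.sum_comm, Finset.mul_sum]
    _ ≤ ∑ _j ∈ J, 1 := Finset.sum_le_sum fun j _ => visits_le ht ω x hc j a
    _ = J.card := by simp

/-- iteration of the exit probability -/
lemma stay_pow (ω : Environment d) {B : Set (Site d)} {a : ℕ} {r : ℝ≥0∞}
    (h : ∀ x, quenchedLaw ω x (StayIn B a) ≤ r) (m : ℕ) (x : Site d) :
    quenchedLaw ω x (StayIn B (m * a)) ≤ r ^ m := by
  induction m with
  | zero => simpa using prob_le_one
  | succ m ih =>
    have hA := fun X Y h => agree_StayIn (d := d) B (le_refl (m * a)) X Y h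
    have hsub : StayIn B ((m + 1) * a) ⊆ StayIn B (m * a) ∩ shift (m * a) ⁻¹' StayIn B a := by
      intro X hX
      have e : (m + 1) * a = m * a + a := by ring
      rw [e] at hX
      exact ⟨fun i hi => hX i (by omega), fun i hi => hX (m * a + i) (by omega)⟩
    calc quenchedLaw ω x (StayIn B ((m + 1) * a))
        ≤ quenchedLaw ω x (StayIn B (m * a) ∩ shift (m * a) ⁻¹' StayIn B a) :=
          measure_mono hsub
      _ = ∫⁻ X in StayIn B (m * a), quenchedLaw ω (X (m * a)) (StayIn B a) ∂quenchedLaw ω x :=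
          markov_event ω x (m * a) hA (measurableSet_StayIn B a)
      _ ≤ ∫⁻ _ in StayIn B (m * a), r ∂quenchedLaw ω x :=
          setLIntegral_mono' (measurableSet_StayIn B _) fun X _ => h _
      _ = r * quenchedLaw ω x (StayIn B (m * a)) := setLIntegral_const _ _
      _ ≤ r * r ^ m := by gcongr
      _ = r ^ (m + 1) := by rw [pow_succ']

/-- decomposition along a first time: if `A n` are disjoint events decided at time `n`, and the
future probability is at most `r` -/
lemma sum_first_le (ω : Environment d) (x : Site d) {A : ℕ → Set (Path d)} {B : Set (Path d)}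
    (hA : ∀ n, ∀ X Y : Path d, Agree n X Y → (X ∈ A n ↔ Y ∈ A n))
    (hdisj : Pairwise (Function.onFun Disjoint A)) (hB : MeasurableSet B) {r : ℝ≥0∞}
    (h : ∀ y, quenchedLaw ω y B ≤ r) :
    quenchedLaw ω x (⋃ n, A n ∩ shift n ⁻¹' B) ≤ r * quenchedLaw ω x (⋃ n, A n) := by
  have hAm : ∀ n, MeasurableSet (A n) := fun n => measurableSet_of_agree n _ (hA n)
  calc quenchedLaw ω x (⋃ n, A n ∩ shift n ⁻¹' B)
      ≤ ∑' n, quenchedLaw ω x (A n ∩ shift n ⁻¹' B) := measure_iUnion_le _
    _ ≤ ∑' n, r * quenchedLaw ω x (A n) := by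
        refine ENNReal.tsum_le_tsum fun n => ?_
        rw [markov_event ω x n (hA n) hB, ← setLIntegral_const]
        exact setLIntegral_mono' (hAm n) fun X _ => h _
    _ = r * quenchedLaw ω x (⋃ n, A n) := by
        rw [ENNReal.tsum_mul_left, measure_iUnion hdisj hAm]

/-- height jumps down by at most one -/
def NN (ht : Site d →+ ℤ) : Set (Path d) := {X | ∀ n, ht (X n) ≤ ht (X (n + 1)) + 1}

lemma measurableSet_NN (ht : Site d →+ ℤ) : MeasurableSet (NN ht) := by
  unfold NN
  rw [Set.ofPred_forall]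
  refine MeasurableSet.iInter fun n => measurableSet_of_agree (n + 1) _ fun X Y h => ?_
  simp only [Set.mem_ofPred_eq, h n (Nat.le_succ n), h (n + 1) le_rfl]

/-- descend by `N` levels inside `S` -/
def Desc (ht : Site d →+ ℤ) (S : Set (Site d)) (N : ℕ) : Set (Path d) :=
  NN ht ∩ {X | ∃ n, ht (X n) + N ≤ ht (X 0) ∧ ∀ i, i < n → X i ∈ S}

lemma measurableSet_Desc (ht : Site d →+ ℤ) (S : Set (Site d)) (N : ℕ) :
    MeasurableSet (Desc ht S N) := by
  refine (measurableSet_NN ht).inter ?_
  rw [Set.ofPred_exists]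
  refine MeasurableSet.iUnion fun n => measurableSet_of_agree n _ fun X Y h => ?_
  simp only [Set.mem_ofPred_eq, h 0 (Nat.zero_le _), h n le_rfl]
  refine and_congr Iff.rfl (forall_congr' fun i => forall_congr' fun hi => ?_)
  rw [h i hi.le]

/-- S1 (c) -/
lemma desc_le (ht : Site d →+ ℤ) (ω : Environment d) {S : Set (Site d)} {c : ℝ≥0∞}
    (hc : ∀ y ∈ S, c ≤ quenchedLaw ω y (NoRet ht)) (N : ℕ) (y : Site d) :
    quenchedLaw ω y (Desc ht S N) ≤ (1 - c) ^ N := by
  classical
  induction N generalizing y with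
  | zero => simpa using prob_le_one
  | succ N ih =>
    set A : ℕ → Set (Path d) := fun n =>
      {X | X 0 ∈ S ∧ ht (X n) < ht (X 0) ∧ ∀ i, i < n → ht (X 0) ≤ ht (X i)} with hAdef
    have hA : ∀ n, ∀ X Y : Path d, Agree n X Y → (X ∈ A n ↔ Y ∈ A n) := by
      intro n X Y h
      simp only [hAdef, Set.mem_ofPred_eq, h 0 (Nat.zero_le _), h n le_rfl]
      refine and_congr Iff.rfl (and_congr Iff.rfl (forall_congr' fun i => forall_congr' fun hi => ?_))
      rw [h i hi.le]
    have hdisj : Pairwise (Function.onFun Disjoint A) := by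
      have key : ∀ n m, n < m → Disjoint (A n) (A m) := by
        intro n m hnm
        rw [Set.disjoint_left]
        rintro X ⟨_, h1, _⟩ ⟨_, _, h2⟩
        exact absurd (h2 n hnm) (not_le.2 h1)
      intro n m hnm
      rcases lt_or_gt_of_ne hnm with h | h
      · exact key n m h
      · exact (key m n h).symm
    have hsub : Desc ht S (N + 1) ⊆ ⋃ n, A n ∩ shift n ⁻¹' Desc ht S N := by
      rintro X ⟨hNN, m, hm1, hm2⟩
      have hm1' : ht (X m) + N + 1 ≤ ht (X 0) := by push_cast at hm1; linarith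
      have hex : ∃ n, ht (X n) < ht (X 0) := ⟨m, by omega⟩
      set n := Nat.find hex with hn
      have hn1 : ht (X n) < ht (X 0) := Nat.find_spec hex
      have hn2 : ∀ i, i < n → ht (X 0) ≤ ht (X i) := fun i hi => not_lt.1 (Nat.find_min hex hi)
      have hnm : n ≤ m := Nat.find_min' hex (by omega)
      have hn0 : n ≠ 0 := by
        intro h0; rw [h0] at hn1; exact lt_irrefl _ hn1
      have hm0 : 0 < m := lt_of_lt_of_le (Nat.pos_of_ne_zero hn0) hnm
      have hdown : ht (X 0) ≤ ht (X n) + 1 := by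
        have h1 := hn2 (n - 1) (by omega)
        have h2 := hNN (n - 1)
        rw [Nat.sub_add_cancel (Nat.pos_of_ne_zero hn0)] at h2
        exact h1.trans h2
      simp only [Set.mem_iUnion]
      refine ⟨n, ⟨hm2 0 hm0, hn1, hn2⟩, fun i => ?_, m - n, ?_, fun i hi => ?_⟩
      · have := hNN (n + i)
        simpa [shift, add_assoc] using this
      · simp only [shift, Nat.add_zero]
        rw [Nat.add_sub_cancel' hnm]
        linarith
      · simp only [shift]
        exact hm2 (n + i) (by omega)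
    have hle := sum_first_le ω y hA hdisj (measurableSet_Desc ht S N) ih
    have hU : quenchedLaw ω y (⋃ n, A n) ≤ 1 - c := by
      by_cases hy : y ∈ S
      · have h1 : (⋃ n, A n) ⊆ (NoRet ht)ᶜ := by
          intro X hX
          simp only [Set.mem_iUnion] at hX
          obtain ⟨n, _, h2, _⟩ := hX
          intro hno
          have hn0 : n ≠ 0 := by
            rintro rfl; exact lt_irrefl _ h2
          have := hno n (Nat.pos_of_ne_zero hn0)
          exact lt_irrefl _ (h2.trans this)
        refine (measure_mono h1).trans ?_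
        rw [prob_compl_eq_one_sub (measurableSet_NoRet ht)]
        exact tsub_le_tsub_left (hc y hy) 1
      · have h1 : quenchedLaw ω y (⋃ n, A n) = 0 := by
          have h2 : ∀ᵐ X ∂quenchedLaw ω y, X ∉ ⋃ n, A n := by
            filter_upwards [quenched_zero_eq ω y] with X hX
            simp only [Set.mem_iUnion, not_exists]
            rintro n ⟨h3, _⟩
            rw [hX] at h3
            exact hy h3
          exact measure_eq_zero_iff_ae_notMem.2 h2
        rw [h1]; exact zero_le
    calc quenchedLaw ω y (Desc ht S (N + 1))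
        ≤ quenchedLaw ω y (⋃ n, A n ∩ shift n ⁻¹' Desc ht S N) := measure_mono hsub
      _ ≤ (1 - c) ^ N * quenchedLaw ω y (⋃ n, A n) := hle
      _ ≤ (1 - c) ^ N * (1 - c) := by gcongr
      _ = (1 - c) ^ (N + 1) := by rw [pow_succ]

/-- back below the start after having reached height `K`, before having reached height `L` -/
def Back (ht : Site d →+ ℤ) (K L : ℕ) : Set (Path d) :=
  {X | ∃ m, ht (X m) < ht (X 0) ∧ (∀ i, i < m → ht (X 0) ≤ ht (X i)) ∧
    (∃ n, n < m ∧ ht (X 0) + K ≤ ht (X n)) ∧ ∀ i, i ≤ m → ht (X i) < ht (X 0) + L}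

lemma measurableSet_Back (ht : Site d →+ ℤ) (K L : ℕ) : MeasurableSet (Back ht K L) := by
  unfold Back
  rw [Set.ofPred_exists]
  refine MeasurableSet.iUnion fun m => measurableSet_of_agree m _ fun X Y h => ?_
  simp only [Set.mem_ofPred_eq, h 0 (Nat.zero_le _), h m le_rfl]
  refine and_congr Iff.rfl (and_congr ?_ (and_congr ?_ ?_))
  · refine forall_congr' fun i => forall_congr' fun hi => ?_
    rw [h i hi.le]
  · refine exists_congr fun n => and_congr_right fun hn => ?_
    rw [h n hn.le]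
  · refine forall_congr' fun i => forall_congr' fun hi => ?_
    rw [h i hi]

/-- the box of radius `r` -/
def box (d : ℕ) (r : ℕ) : Set (Site d) := {x | ∀ i, |x i| ≤ (r : ℤ)}

/-- the slab `0 ≤ ht < L` inside the box -/
def slab (ht : Site d →+ ℤ) (r L : ℕ) : Set (Site d) := {x | x ∈ box d r ∧ 0 ≤ ht x ∧ ht x < L}

lemma ae_box (ω : Environment d) : ∀ᵐ X ∂quenchedLaw ω 0, ∀ n, X n ∈ box d n := by
  filter_upwards [quenched_zero_eq ω 0, quenched_nn ω 0] with X h0 hX n
  induction n with
  | zero => intro i; simp [h0]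
  | succ n ih =>
    obtain ⟨e, he⟩ := hX n
    intro i
    rw [he, Pi.add_apply]
    have h1 := ih i
    have h2 : |stepVec e i| ≤ 1 := by
      simp only [stepVec, Pi.single_apply]
      split_ifs <;> simp
    have h3 := abs_add_le (X n i) (stepVec e i)
    push_cast
    linarith

lemma ae_NN {ht : Site d →+ ℤ} (h1 : ∀ e : Step d, |ht (stepVec e)| ≤ 1) (ω : Environment d)
    (x : Site d) : ∀ᵐ X ∂quenchedLaw ω x, X ∈ NN ht := by
  filter_upwards [quenched_nn ω x] with X hX n
  obtain ⟨e, he⟩ := hX n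
  rw [he, map_add]
  have := (abs_le.1 (h1 e)).1
  linarith

/-- S3, quenched form: the probability of `Back` from the origin -/
lemma back_le {ht : Site d →+ ℤ} (h1 : ∀ e : Step d, |ht (stepVec e)| ≤ 1) (ω : Environment d)
    {c : ℝ≥0∞} {n0 : ℕ} (hc : ∀ y ∈ box d n0, c ≤ quenchedLaw ω y (NoRet ht)) (K L : ℕ) :
    quenchedLaw ω 0 (Back ht K L)
      ≤ quenchedLaw ω 0 (StayIn (slab ht n0 L) n0) + (1 - c) ^ K := by
  classical
  set S : Set (Site d) := box d n0 with hS
  set A : ℕ → Set (Path d) := fun n =>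
    {X | (K : ℤ) ≤ ht (X n) ∧ ∀ i, i < n → ht (X i) < K} with hAdef
  have hA : ∀ n, ∀ X Y : Path d, Agree n X Y → (X ∈ A n ↔ Y ∈ A n) := by
    intro n X Y h
    simp only [hAdef, Set.mem_ofPred_eq, h n le_rfl]
    refine and_congr Iff.rfl (forall_congr' fun i => forall_congr' fun hi => ?_)
    rw [h i hi.le]
  have hdisj : Pairwise (Function.onFun Disjoint A) := by
    have key : ∀ n m, n < m → Disjoint (A n) (A m) := by
      intro n m hnm
      rw [Set.disjoint_left]
      rintro X ⟨h1, _⟩ ⟨_, h2⟩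
      exact absurd (h2 n hnm) (not_lt.2 h1)
    intro n m hnm
    rcases lt_or_gt_of_ne hnm with h | h
    · exact key n m h
    · exact (key m n h).symm
  have hle := sum_first_le ω 0 hA hdisj (measurableSet_Desc ht S K) (desc_le ht ω hc K)
  have hmain : ∀ᵐ X ∂quenchedLaw ω 0, X ∈ Back ht K L →
      X ∈ StayIn (slab ht n0 L) n0 ∪ ⋃ n, A n ∩ shift n ⁻¹' Desc ht S K := by
    filter_upwards [quenched_zero_eq ω 0, ae_box ω, ae_NN h1 ω 0] with X h0 hbox hNN hX
    obtain ⟨m, hm1, hm2, ⟨n', hn1, hn2⟩, hm3⟩ := hX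
    rw [h0, map_zero] at hm1 hn2
    simp only [h0, map_zero] at hm2 hm3
    rcases le_or_gt n0 m with hcase | hcase
    · left
      intro i hi
      refine ⟨fun k => (hbox i k).trans (by exact_mod_cast hi.le), hm2 i (by omega), ?_⟩
      have := hm3 i (by omega)
      simpa using this
    · right
      have hex : ∃ n, (K : ℤ) ≤ ht (X n) := ⟨n', by simpa using hn2⟩
      set n := Nat.find hex with hn
      have hn3 : (K : ℤ) ≤ ht (X n) := Nat.find_spec hex
      have hn4 : ∀ i, i < n → ht (X i) < K := fun i hi => not_le.1 (Nat.find_min hex hi)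
      have hnn : n ≤ n' := Nat.find_min' hex (by simpa using hn2)
      simp only [Set.mem_iUnion]
      refine ⟨n, ⟨hn3, hn4⟩, fun i => ?_, m - n, ?_, fun i hi => ?_⟩
      · have := hNN (n + i)
        simpa [shift, add_assoc] using this
      · simp only [shift, Nat.add_zero]
        rw [Nat.add_sub_cancel' (by omega : n ≤ m)]
        linarith
      · simp only [shift]
        exact fun k => (hbox (n + i) k).trans (by push_cast; omega)
  calc quenchedLaw ω 0 (Back ht K L)
      ≤ quenchedLaw ω 0 (StayIn (slab ht n0 L) n0 ∪ ⋃ n, A n ∩ shift n ⁻¹' Desc ht S K) :=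
        measure_mono_ae hmain
    _ ≤ _ := measure_union_le _ _
    _ ≤ quenchedLaw ω 0 (StayIn (slab ht n0 L) n0) + (1 - c) ^ K := by
        gcongr
        refine hle.trans ?_
        calc (1 - c) ^ K * quenchedLaw ω 0 (⋃ n, A n) ≤ (1 - c) ^ K * 1 := by
              gcongr; exact prob_le_one
          _ = (1 - c) ^ K := mul_one _

/-- S2, numbers: in the slab for `m * a` steps -/
lemma slab_le {ht : Site d →+ ℤ} (ω : Environment d)
    {c : ℝ≥0∞} {n0 : ℕ} (hc : ∀ y ∈ box d n0, c ≤ quenchedLaw ω y (NoRet ht)) (L : ℕ) {a m : ℕ}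
    (ha : 2 * (L : ℝ≥0∞) ≤ c * a) (hc0 : c ≠ 0) (hct : c ≠ ⊤) (ha0 : a ≠ 0) :
    quenchedLaw ω 0 (StayIn (slab ht n0 L) (m * a)) ≤ 2⁻¹ ^ m := by
  refine stay_pow ω (fun x => ?_) m 0
  have h := stay_le ht ω x (B := slab ht n0 L) (c := c) (fun y hy => hc y hy.1)
    (J := Finset.Ico 0 (L : ℤ)) (fun y hy => Finset.mem_Ico.2 hy.2) a
  rw [Int.card_Ico, sub_zero, Int.toNat_natCast, ← mul_assoc] at h
  have hca0 : c * (a : ℝ≥0∞) ≠ 0 := mul_ne_zero hc0 (by exact_mod_cast ha0)
  have hcat : c * (a : ℝ≥0∞) ≠ ⊤ := ENNReal.mul_ne_top hct (ENNReal.natCast_ne_top a)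
  have h2 : 2 * (c * (a : ℝ≥0∞) * quenchedLaw ω x (StayIn (slab ht n0 L) a)) ≤ c * a :=
    (mul_le_mul_right h 2).trans ha
  have h3 : c * (a : ℝ≥0∞) * (2 * quenchedLaw ω x (StayIn (slab ht n0 L) a)) ≤ c * a * 1 := by
    rw [mul_one]
    calc c * (a : ℝ≥0∞) * (2 * quenchedLaw ω x (StayIn (slab ht n0 L) a))
        = 2 * (c * (a : ℝ≥0∞) * quenchedLaw ω x (StayIn (slab ht n0 L) a)) := by ring
      _ ≤ _ := h2
  have h4 := (ENNReal.mul_le_mul_iff_right hca0 hcat).1 h3
  rw [mul_comm] at h4
  calc quenchedLaw ω x (StayIn (slab ht n0 L) a) ≤ 1 / 2 :=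
        (ENNReal.le_div_iff_mul_le (Or.inl two_ne_zero) (Or.inl ENNReal.ofNat_ne_top)).2 h4
    _ = 2⁻¹ := one_div _

end Crest.Agent.R154.B9409
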