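import Crest.Agent.R154.KerInst_872
import Crest.Agent.R154.KerP_561

/-! Row 154, HOME MASS (263 #36390), binder of 903's `nonhome`: quenched probability `Bd` of a natural
climb having a cut level with a displacement outside the home set `HD`. -/

set_option autoImplicit false
set_option linter.unusedSectionVars false
set_option linter.deprecated false

namespace Crest.Agent.R154.Bd736

open MeasureTheory ProbabilityTheory Set Filter Crest.ProbabilityR.RandomEnvironment
open Crest.Agent.R154.Ren263 hiding lev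
open Crest.Agent.R154.Mk561 Crest.Agent.R154.Q561 Crest.Agent.R154.RatioR872
open Crest.Agent.R154.Flux132 (lev lev_add lev_neg lev_zero)
open Crest.Agent.R154.Bind263 (Frame)
open Crest.Agent.R154.B4Inst797 (Hit Nt Nat0 D0 zh natLaw hit_unique)
open scoped ENNReal

variable {d : ℕ}

section sets

variable (u : Step d) (R : ℕ) (HD : Set (Site d))

/-- natural climb to the level `c`, hit at time `n`, with a cut time `m` (natural up to the first hit
of its level at time `m`, natural afterwards) at a displacement outside `HD` -/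
def BdP (x : Site d) (c : ℤ) (n : ℕ) : Set (MPath d) :=
  {M | M ∈ ClM u R x c n ∧ ∃ m ≤ n, M ∈ ClM u R x (lev u (pos x M m)) m ∧
    Ren263.shift m M ∈ ClM u R (pos x M m) c (n - m) ∧ pos x M m - x ∉ HD}

/-- natural climb to the level `c` with a non home cut level -/
def BdS (x : Site d) (c : ℤ) : Set (MPath d) := ⋃ n, BdP u R HD x c n

lemma det_BdP (x : Site d) (c : ℤ) (n : ℕ) : Det n (BdP u R HD x c n) := by
  intro s s' h
  have hp : ∀ i ≤ n, pos x s i = pos x s' i := fun i hi => pos_congr x h hi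
  unfold BdP
  simp only [mem_setOf_eq]
  refine and_congr (det_ClM u R x c n s s' h) ?_
  refine exists_congr fun m => and_congr_right fun hm => ?_
  rw [hp m hm]
  refine and_congr ?_ (and_congr ?_ Iff.rfl)
  · exact det_ClM u R x _ m s s' fun i hi => h i (lt_of_lt_of_le hi hm)
  · exact det_ClM u R _ c (n - m) _ _ fun i hi => h (m + i) (by omega)

lemma meas_BdP (x : Site d) (c : ℤ) (n : ℕ) : MeasurableSet (BdP u R HD x c n) :=
  (det_BdP u R HD x c n).measurableSet

lemma meas_BdS (x : Site d) (c : ℤ) : MeasurableSet (BdS u R HD x c) :=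
  MeasurableSet.iUnion fun n => meas_BdP u R HD x c n

lemma disj_BdP (x : Site d) (c : ℤ) :
    Pairwise (Function.onFun Disjoint fun n => BdP u R HD x c n) := by
  intro m m' hne
  rw [Function.onFun, Set.disjoint_left]
  intro M h h'
  exact hne (ClM_unique u R h.1 h'.1)

lemma BdS_subset (x : Site d) (c : ℤ) : BdS u R HD x c ⊆ ClA u R x c :=
  iUnion_mono fun _ _ h => h.1

lemma BdP_shift (x z : Site d) (c : ℤ) (n : ℕ) :
    BdP u R HD (x + z) (c + lev u z) n = BdP u R HD x c n := by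
  have e : ∀ (M : MPath d) (m : ℕ), pos (x + z) M m = pos x M m + z := fun M m => pos_add x z M m
  ext M
  unfold BdP
  simp only [mem_setOf_eq, e, lev_add, ClM_shift]
  refine and_congr Iff.rfl ?_
  refine exists_congr fun m => and_congr_right fun _ => and_congr Iff.rfl (and_congr Iff.rfl ?_)
  rw [add_sub_add_right_eq_sub]

lemma BdS_shift (x z : Site d) (c : ℤ) :
    BdS u R HD (x + z) (c + lev u z) = BdS u R HD x c := by
  unfold BdS
  simp_rw [BdP_shift]

end sets

section kernel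

variable (u : Step d) (R : ℕ) (κ : ℝ) (HD : Set (Site d))

/-- quenched probability, from `x`, of a natural climb to the level `c` having a cut level with a
displacement outside `HD` -/
noncomputable def Bd (c : ℤ) (ω : Environment d) (x : Site d) : ℝ≥0∞ :=
  mkLaw κ ω x (BdS u R HD x c)

lemma Bd_eq_tsum (c : ℤ) (ω : Environment d) (x : Site d) :
    Bd u R κ HD c ω x = ∑' n, mkLaw κ ω x (BdP u R HD x c n) :=
  measure_iUnion (disj_BdP u R HD x c) fun n => meas_BdP u R HD x c n

lemma Bd_le (c : ℤ) (ω : Environment d) (x : Site d) :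
    Bd u R κ HD c ω x ≤ mkLaw κ ω x (ClA u R x c) := measure_mono (BdS_subset u R HD x c)

lemma measurable_Bd (c : ℤ) (x : Site d) : Measurable fun ω => Bd u R κ HD c ω x :=
  measurable_mk_apply κ x (meas_BdS u R HD x c)

lemma locOn_Bd (c : ℤ) (x : Site d) :
    LocOn {z | lev u x + R ≤ lev u z ∧ lev u z < c} fun ω => Bd u R κ HD c ω x := by
  intro ω ω' h
  simp only [Bd_eq_tsum]
  refine tsum_congr fun n => ?_
  exact mk_local_det κ h x (det_BdP u R HD x c n) fun M hM => ClM_read u R x c n hM.1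

lemma mkLaw_ClY_ClA (ω : Environment d) (x : Site d) (b c : ℤ) (m : ℕ) (y : Site d) :
    mkLaw κ ω x (ClY u R x b m y ∩ Ren263.shift m ⁻¹' ClA u R y c)
      = mkLaw κ ω x (ClY u R x b m y) * mkLaw κ ω y (ClA u R y c) := by
  rw [markov_det κ ω x (det_ClY u R x b m y) (meas_ClA u R y c)]
  rw [setLIntegral_congr_fun (meas_ClY u R x b m y)
    (g := fun _ => mkLaw κ ω y (ClA u R y c))]
  · rw [setLIntegral_const, mul_comm]
  · intro M hM
    have : pos x M m = y := hM.2
    simp only [this]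

open Classical in
/-- **(1)** the non home part of the climbs to `b` which go on to `c` is at most `Bd` -/
theorem le_Bd {b c : ℤ} (hbc : b ≤ c) (ω : Environment d) (x : Site d) :
    ∑' y, (if y - x ∈ HD then 0 else gk u R κ b ω x y) * ∑' z, gk u R κ c ω y z
      ≤ Bd u R κ HD c ω x := by
  have h1 : ∀ y, (if y - x ∈ HD then 0 else gk u R κ b ω x y) * ∑' z, gk u R κ c ω y z
      = ∑' m, mkLaw κ ω x
        ({M | y - x ∉ HD} ∩ (ClY u R x b m y ∩ Ren263.shift m ⁻¹' ClA u R y c)) := by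
    intro y
    rw [tsum_gk]
    by_cases h : y - x ∈ HD
    · simp [h]
    · simp only [h, if_false, not_false_eq_true, setOf_true, univ_inter]
      rw [gk_eq_tsum, ← ENNReal.tsum_mul_right]
      exact tsum_congr fun m => (mkLaw_ClY_ClA u R κ ω x b c m y).symm
  simp_rw [h1]
  rw [← ENNReal.tsum_prod]
  rw [← measure_iUnion (f := fun p : Site d × ℕ =>
    {M : MPath d | p.1 - x ∉ HD} ∩ (ClY u R x b p.2 p.1 ∩ Ren263.shift p.2 ⁻¹' ClA u R p.1 c))]
  · refine measure_mono ?_
    refine iUnion_subset fun p => ?_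
    rintro M ⟨hM0, hM1, hM2⟩
    obtain ⟨m', hm'⟩ := mem_iUnion.1 hM2
    have hy : pos x M p.2 = p.1 := hM1.2
    have hlev : lev u (pos x M p.2) = b := hM1.1.1
    refine mem_iUnion.2 ⟨p.2 + m', ?_, p.2, by omega, ?_, ?_, ?_⟩
    · refine ClM_comp u R hbc hM1.1 ?_
      rw [hy]
      exact hm'
    · rw [hlev]; exact hM1.1
    · rw [hy, Nat.add_sub_cancel_left]; exact hm'
    · rw [hy]; exact hM0
  · intro p q hpq
    rw [Function.onFun, Set.disjoint_left]
    rintro M ⟨_, hM, _⟩ ⟨_, hM', _⟩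
    have h2 := ClM_unique u R hM.1 hM'.1
    have h3 : p.1 = q.1 := by rw [← hM.2, ← hM'.2, h2]
    exact hpq (Prod.ext h3 h2)
  · intro p
    by_cases h : p.1 - x ∈ HD
    · simp [h]
    · simp only [h, not_false_eq_true, setOf_true, univ_inter]
      exact (meas_ClY u R x b p.2 p.1).inter
        (Ren263.measurable_shift p.2 (meas_ClA u R p.1 c))

end kernel

section annealed

variable {Q : Measure (Environment d)} [IsProbabilityMeasure Q] {κ : ℝ} {R : ℕ}

/-- a natural climb up to the first hit of level `l` -/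
lemma ClM_hit {u : Step d} {x : Site d} {l n : ℕ} {M : MPath d}
    (h : M ∈ ClM u R x (lev u x + l) n) : Hit u l n M ∧ Nt u R n M := by
  obtain ⟨h1, h2, h3, h4⟩ := h
  refine ⟨⟨?_, fun i hi => ?_⟩, fun i hiR hin => h3 i hin hiR, fun i hRi hin => ?_⟩
  · rw [lev_pos_eq] at h1; linarith
  · have := h2 i hi; rw [lev_pos_eq] at this; linarith
  · have := h4 i hRi hin; rw [lev_pos_eq] at this; linarith

/-- a path natural to level `l` at time `n`, natural from there on, is natural -/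
lemma nat_of_ClM {u : Step d} {x : Site d} {l n : ℕ} {M : MPath d}
    (h : M ∈ ClM u R x (lev u x + l) n) (h2 : Ren263.shift n M ∈ Nat0 u R) : M ∈ Nat0 u R := by
  obtain ⟨h3, h4⟩ := ClM_hit h
  refine B4Inst797.D0_inter (m := l) ⟨fun k hk => ?_, fun hk => absurd h3 (hk n)⟩ ?_
  · rw [hit_unique hk h3]; exact h4
  · rw [B4Inst797.th_eq h3]; exact h2

/-- the bad event of the walk from `0` -/
def BadC (u : Step d) (R : ℕ) (HD : Set (Site d)) (n : ℕ) : Set (MPath d) :=
  {s | ∃ l ≤ n, ∃ m, Hit u l m s ∧ Ren263.shift m s ∈ Nat0 u R ∧ pos 0 s m ∉ HD}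

lemma lev_pos_nonneg {u : Step d} {x : Site d} {m : ℕ} {M : MPath d}
    (h : M ∈ ClM u R x (lev u (pos x M m)) m) : ∃ l : ℕ, lev u (pos x M m) = lev u x + l := by
  rcases Nat.eq_zero_or_pos m with h0 | h0
  · subst h0
    exact ⟨0, by simp [pos_zero]⟩
  · have := h.2.1 0 h0
    rw [pos_zero] at this
    obtain ⟨l, hl⟩ := Int.eq_ofNat_of_zero_le (by linarith : 0 ≤ lev u (pos x M m) - lev u x)
    exact ⟨l, by linarith⟩

lemma BdP_bad {u : Step d} {HD : Set (Site d)} {n k : ℕ} {s : MPath d}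
    (h : s ∈ BdP u R HD 0 n k) (h2 : Ren263.shift k s ∈ Nat0 u R) :
    s ∈ Nat0 u R ∩ BadC u R HD n := by
  obtain ⟨h1, m, hm, h3, h4, h5⟩ := h
  have h1' : s ∈ ClM u R 0 (lev u (0 : Site d) + (n : ℕ)) k := by
    rw [lev_zero, zero_add]; exact h1
  refine ⟨nat_of_ClM h1' h2, ?_⟩
  obtain ⟨l, hl⟩ := lev_pos_nonneg h3
  rw [hl] at h3
  have h6 := (ClM_hit h3).1
  -- level `l ≤ n`
  have hln : l ≤ n := by
    rcases Nat.eq_zero_or_pos (k - m) with h0 | h0
    · have := h4.1
      rw [h0, pos_zero, hl, lev_zero] at this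
      have : (l : ℤ) = n := by linarith
      exact_mod_cast this.le
    · have := h4.2.1 0 h0
      rw [pos_zero, hl, lev_zero] at this
      have : (l : ℤ) < n := by linarith
      exact_mod_cast this.le
  refine ⟨l, hln, m, h6, ?_, ?_⟩
  · obtain ⟨j, rfl⟩ := Nat.exists_eq_add_of_le hln
    have h7 : Ren263.shift m s ∈ ClM u R (pos 0 s m) (lev u (pos 0 s m) + (j : ℕ)) (k - m) := by
      have e : lev u (pos 0 s m) + (j : ℕ) = ((l + j : ℕ) : ℤ) := by
        rw [hl, lev_zero]; push_cast; ring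
      rw [e]; exact h4
    refine nat_of_ClM h7 ?_
    have e : Ren263.shift (k - m) (Ren263.shift m s) = Ren263.shift k s := by
      rw [shift_shift, Nat.add_sub_cancel' hm]
    rw [e]; exact h2
  · rwa [sub_zero] at h5

/-- **(3)** annealed bound, no factor lost: fresh continuation at the level `n` -/
theorem ann_Bd (F : Frame Q κ R) (u : Step d) (HD : Set (Site d))
    (hc : mkAnn κ Q 0 (Nat0 u R) ≠ 0) (n : ℕ) :
    mkAnn κ Q 0 (BdS u R HD 0 n) ≤ natLaw κ Q u R (BadC u R HD n) := by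
  have hN := B4Inst797.measurableSet_Nat0 (d := d) u R
  have hfr : ∀ k, mkAnn κ Q 0 (BdP u R HD 0 n k ∩ Ren263.shift k ⁻¹' (Nat0 u R))
      = mkAnn κ Q 0 (BdP u R HD 0 n k) * mkAnn κ Q 0 (Nat0 u R) := by
    intro k
    refine B4Inst797.fresh F u (det_BdP u R HD 0 n k) ?_ hN (B4Inst797.nat_subset_RH u R)
    intro s hs i hi
    have h1 : s ∈ ClM u R 0 (lev u (0 : Site d) + (n : ℕ)) k := by
      rw [lev_zero, zero_add]; exact hs.1
    have h2 := (ClM_hit h1).1
    rw [h2.1]
    exact h2.2 i hi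
  have h1 : mkAnn κ Q 0 (BdS u R HD 0 n) * mkAnn κ Q 0 (Nat0 u R)
      ≤ mkAnn κ Q 0 (Nat0 u R ∩ BadC u R HD n) := by
    have e : mkAnn κ Q 0 (BdS u R HD 0 n) * mkAnn κ Q 0 (Nat0 u R)
        = mkAnn κ Q 0 (⋃ k, BdP u R HD 0 n k ∩ Ren263.shift k ⁻¹' (Nat0 u R)) := by
      rw [measure_iUnion, BdS, measure_iUnion (disj_BdP u R HD 0 n)
        (fun k => meas_BdP u R HD 0 n k), ← ENNReal.tsum_mul_right]
      · exact tsum_congr fun k => (hfr k).symm
      · intro k k' hkk
        exact (disj_BdP u R HD 0 n hkk).mono inter_subset_left inter_subset_left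
      · intro k
        exact (meas_BdP u R HD 0 n k).inter (Ren263.measurable_shift k hN)
    rw [e]
    refine measure_mono (iUnion_subset fun k => ?_)
    rintro s ⟨hs1, hs2⟩
    exact BdP_bad hs1 hs2
  rw [B4Inst797.natLaw_apply]
  have hfin : mkAnn κ Q 0 (Nat0 u R) ≠ ∞ := measure_ne_top _ _
  calc mkAnn κ Q 0 (BdS u R HD 0 n)
      = (mkAnn κ Q 0 (Nat0 u R))⁻¹ *
        (mkAnn κ Q 0 (BdS u R HD 0 n) * mkAnn κ Q 0 (Nat0 u R)) := by
        rw [mul_comm (mkAnn κ Q 0 (BdS u R HD 0 n)), ← mul_assoc,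
          ENNReal.inv_mul_cancel hc hfin, one_mul]
    _ ≤ _ := by gcongr

/-- **(3)** -/
theorem lint_Bd (F : Frame Q κ R) (u : Step d) (HD : Set (Site d))
    (hc : mkAnn κ Q 0 (Nat0 u R) ≠ 0) {a c : ℕ} (hac : a ≤ c) {x : Site d} (hx : lev u x = a) :
    ∫⁻ ω, Bd u R κ HD c ω x ∂Q ≤ natLaw κ Q u R (BadC u R HD (c - a)) := by
  have e1 : ∫⁻ ω, Bd u R κ HD c ω x ∂Q = mkAnn κ Q x (BdS u R HD x c) :=
    (mkAnn_apply κ Q x (meas_BdS u R HD x c)).symm
  have e2 : BdS u R HD x (c : ℤ) = BdS u R HD 0 ((c - a : ℕ) : ℤ) := by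
    have h2 := BdS_shift u R HD 0 x ((c - a : ℕ) : ℤ)
    rw [zero_add, hx] at h2
    rw [← h2]
    congr 1
    push_cast [Nat.cast_sub hac]
    ring
  rw [e1, e2, mkAnn_stat F.stat κ x]
  exact ann_Bd F u HD hc (c - a)

/-- the bad event in the letters of the level process `lp` -/
lemma BadC_subset (u : Step d) (i1 i2 : Fin d) (i : Fin 2) (cc : ℤ → ℝ) (D : ℝ) (n : ℕ) :
    BadC u R {z | |B4Inst797.lat i1 i2 z i - cc (lev u z)| ≤ D} n ⊆
      {s | ∃ l ≤ n, s ∈ B4Inst797.th u l ⁻¹' (Nat0 u R) ∧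
        D < |B4Inst797.UU u i1 i2 l s i - cc l|} := by
  rintro s ⟨l, hl, m, h1, h2, h3⟩
  obtain ⟨e1, e2⟩ := B4Inst797.hit_eq i1 i2 h1
  refine ⟨l, hl, ?_, ?_⟩
  · change B4Inst797.th u l s ∈ Nat0 u R
    rw [e1]; exact h2
  · rw [e2]
    simp only [mem_setOf_eq, not_le] at h3
    rw [lev_pos_eq, lev_zero, zero_add, h1.1] at h3
    exact h3

end annealed

end Crest.Agent.R154.Bd736
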