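import Mathlib

/-! Row 154, ROAD 801, H5 (helper278): the largest binomial weight tends to `0`. -/

set_option autoImplicit false

namespace Crest.Agent.R154.BinSup278

/-- binomial weights indexed by `ℤ` -/
noncomputable def f (p r : ℝ) : ℕ → ℤ → ℝ
  | 0, k => if k = 0 then 1 else 0
  | N + 1, k => p * f p r N (k - 1) + r * f p r N k

variable {p r : ℝ}

lemma f_nonneg (hp : 0 < p) (hr : 0 < r) (N : ℕ) (k : ℤ) : 0 ≤ f p r N k := by
  induction N generalizing k with
  | zero => unfold f; split_ifs <;> norm_num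
  | succ N ih =>
    have h1 := ih (k - 1)
    have h2 := ih k
    unfold f
    positivity

lemma f_neg (N : ℕ) (k : ℤ) (hk : k < 0) : f p r N k = 0 := by
  induction N generalizing k with
  | zero => unfold f; rw [if_neg (by omega)]
  | succ N ih => unfold f; rw [ih (k - 1) (by omega), ih k hk]; ring

lemma f_nat (N k : ℕ) : f p r N (k : ℤ) = (N.choose k : ℝ) * p ^ k * r ^ (N - k) := by
  induction N generalizing k with
  | zero =>
    cases k with
    | zero => simp [f]
    | succ k =>
      unfold f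
      rw [if_neg (by omega)]
      simp
  | succ N ih =>
    cases k with
    | zero =>
      unfold f
      rw [f_neg N _ (by simp), ih 0]
      simp [pow_succ]
      ring
    | succ k =>
      unfold f
      rw [show ((k + 1 : ℕ) : ℤ) - 1 = (k : ℤ) by push_cast; ring, ih k, ih (k + 1)]
      rcases Nat.lt_or_ge N (k + 1) with h | h
      · rw [Nat.choose_eq_zero_of_lt h, Nat.choose_succ_succ, Nat.choose_eq_zero_of_lt h]
        rw [show N + 1 - (k + 1) = N - k by omega]
        push_cast
        ring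
      · rw [Nat.choose_succ_succ, show N + 1 - (k + 1) = N - k by omega,
          show N - k = (N - (k + 1)) + 1 by omega]
        push_cast
        ring

lemma sum_le (hp : 0 < p) (hr : 0 < r) (h : p + r = 1) (N : ℕ) (s : Finset ℤ) :
    ∑ i ∈ s, f p r N i ≤ 1 := by
  induction N generalizing s with
  | zero =>
    unfold f
    rw [Finset.sum_ite_eq']
    split_ifs <;> norm_num
  | succ N ih =>
    have e : ∑ i ∈ s, f p r (N + 1) i
        = p * ∑ i ∈ s.image (fun i => i - 1), f p r N i + r * ∑ i ∈ s, f p r N i := by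
      rw [Finset.sum_image (by intro a _ b _ hab; simpa using hab), Finset.mul_sum,
        Finset.mul_sum, ← Finset.sum_add_distrib]
      rfl
    rw [e]
    have h1 := ih (s.image (fun i => i - 1))
    have h2 := ih s
    nlinarith

lemma le_A (hp : 0 < p) (hr : 0 < r) (h : p + r = 1) {N : ℕ} {A : ℝ}
    (hA : ∀ k, f p r N k ≤ A) (J : ℕ) (k : ℤ) : f p r (N + J) k ≤ A := by
  induction J generalizing k with
  | zero => exact hA k
  | succ J ih =>
    have e : f p r (N + (J + 1)) k = p * f p r (N + J) (k - 1) + r * f p r (N + J) k := rfl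
    rw [e]
    have h1 := ih (k - 1)
    have h2 := ih k
    have h3 : p * f p r (N + J) (k - 1) ≤ p * A := mul_le_mul_of_nonneg_left h1 hp.le
    have h4 : r * f p r (N + J) k ≤ r * A := mul_le_mul_of_nonneg_left h2 hr.le
    have h9 : p * A + r * A = A := by rw [← add_mul, h, one_mul]
    linarith

lemma le_mix (hp : 0 < p) (hr : 0 < r) (h : p + r = 1) {c : ℝ} (hc : 0 < c) (hcp : c ≤ p)
    (hcr : c ≤ r) {N : ℕ} {A : ℝ}
    (hA : ∀ k, f p r N k ≤ A) (J : ℕ) (k : ℤ) (j : ℕ) (hj : j ≤ J) :
    f p r (N + J) k ≤ A - c ^ J * (A - f p r N (k - j)) := by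
  induction J generalizing k j with
  | zero =>
    obtain rfl : j = 0 := by omega
    simp
  | succ J ih =>
    have e : f p r (N + (J + 1)) k = p * f p r (N + J) (k - 1) + r * f p r (N + J) k := rfl
    rw [e]
    have h1 := le_A hp hr h hA J (k - 1)
    have h2 := le_A hp hr h hA J k
    have hcJ : 0 < c ^ J := pow_pos hc J
    rcases Nat.lt_or_ge j (J + 1) with hj' | hj'
    · have h3 := ih k j (by omega)
      have h4 : 0 ≤ A - f p r N (k - j) := by linarith [hA (k - j)]
      have h5 : c * (c ^ J * (A - f p r N (k - j))) ≤ r * (c ^ J * (A - f p r N (k - j))) :=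
        mul_le_mul_of_nonneg_right hcr (mul_nonneg hcJ.le h4)
      have h6 : r * f p r (N + J) k ≤ r * (A - c ^ J * (A - f p r N (k - j))) :=
        mul_le_mul_of_nonneg_left h3 hr.le
      have h7 : p * f p r (N + J) (k - 1) ≤ p * A := mul_le_mul_of_nonneg_left h1 hp.le
      have h8 : c ^ (J + 1) * (A - f p r N (k - j)) = c * (c ^ J * (A - f p r N (k - j))) := by ring
      have h9 : p * A + r * A = A := by rw [← add_mul, h, one_mul]
      rw [h8]
      nlinarith
    · obtain rfl : j = J + 1 := by omega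
      have h3 := ih (k - 1) J le_rfl
      rw [show k - 1 - (J : ℤ) = k - ((J + 1 : ℕ) : ℤ) by push_cast; ring] at h3
      have h4 : 0 ≤ A - f p r N (k - ((J + 1 : ℕ) : ℤ)) := by linarith [hA (k - ((J + 1 : ℕ) : ℤ))]
      have h5 : c * (c ^ J * (A - f p r N (k - ((J + 1 : ℕ) : ℤ))))
          ≤ p * (c ^ J * (A - f p r N (k - ((J + 1 : ℕ) : ℤ)))) :=
        mul_le_mul_of_nonneg_right hcp (mul_nonneg hcJ.le h4)
      have h6 : p * f p r (N + J) (k - 1)
          ≤ p * (A - c ^ J * (A - f p r N (k - ((J + 1 : ℕ) : ℤ)))) :=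
        mul_le_mul_of_nonneg_left h3 hp.le
      have h7 : r * f p r (N + J) k ≤ r * A := mul_le_mul_of_nonneg_left h2 hr.le
      have h8 : c ^ (J + 1) * (A - f p r N (k - ((J + 1 : ℕ) : ℤ)))
          = c * (c ^ J * (A - f p r N (k - ((J + 1 : ℕ) : ℤ)))) := by ring
      have h9 : p * A + r * A = A := by rw [← add_mul, h, one_mul]
      rw [h8]
      nlinarith

/-- **the largest binomial weight tends to `0`** (`ℤ`-indexed form) -/
theorem f_sup (hp : 0 < p) (hr : 0 < r) (h : p + r = 1) :
    ∀ ε > 0, ∃ N₀ : ℕ, ∀ N ≥ N₀, ∀ k : ℤ, f p r N k ≤ ε := by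
  set S : Set ℝ := {A | ∃ N : ℕ, ∀ k : ℤ, f p r N k ≤ A} with hS
  have hne : S.Nonempty := ⟨1, 0, fun k => by unfold f; split_ifs <;> norm_num⟩
  have hbd : BddBelow S := ⟨0, by rintro A ⟨N, hN⟩; exact (f_nonneg hp hr N 0).trans (hN 0)⟩
  have hm0 : 0 ≤ sInf S := le_csInf hne (by
    rintro A ⟨N, hN⟩; exact (f_nonneg hp hr N 0).trans (hN 0))
  have hm : sInf S = 0 := by
    by_contra hne'
    have hpos : 0 < sInf S := lt_of_le_of_ne hm0 (Ne.symm hne')
    set m := sInf S with hmdef
    obtain ⟨J, hJ⟩ := exists_nat_gt (2 / m)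
    set c := min p r with hc
    have hc0 : 0 < c := lt_min hp hr
    have hcJ : 0 < c ^ J := pow_pos hc0 J
    set δ := m * c ^ J / 4 with hδ
    have hδ0 : 0 < δ := by positivity
    obtain ⟨A, ⟨N, hN⟩, hAm⟩ := exists_lt_of_csInf_lt hne (show sInf S < m + δ by linarith)
    have hnot : ¬ ∀ k : ℤ, f p r (N + J) k ≤ m - δ := by
      intro hall
      have : m ≤ m - δ := csInf_le hbd ⟨N + J, hall⟩
      linarith
    push Not at hnot
    obtain ⟨k, hk⟩ := hnot
    have hmA : m ≤ A := csInf_le hbd ⟨N, hN⟩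
    have hbig : ∀ j ∈ Finset.range (J + 1), m / 2 ≤ f p r N (k - (j : ℤ)) := by
      intro j hj
      have h1 := le_mix hp hr h hc0 (min_le_left _ _) (min_le_right _ _) hN J k j
        (by simpa using Nat.lt_succ_iff.1 (Finset.mem_range.1 hj))
      have h2 : c ^ J * (A - f p r N (k - (j : ℤ))) ≤ 2 * δ := by linarith
      have h3 : A - f p r N (k - (j : ℤ)) ≤ m / 2 := by
        by_contra hcon
        push Not at hcon
        have : c ^ J * (m / 2) < c ^ J * (A - f p r N (k - (j : ℤ))) :=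
          mul_lt_mul_of_pos_left hcon hcJ
        have e : c ^ J * (m / 2) = 2 * δ := by rw [hδ]; ring
        linarith
      linarith
    have hsum : ∑ j ∈ Finset.range (J + 1), f p r N (k - (j : ℤ)) ≤ 1 := by
      have := sum_le hp hr h N ((Finset.range (J + 1)).image (fun j : ℕ => k - (j : ℤ)))
      rwa [Finset.sum_image (by intro a _ b _ hab; simpa using hab)] at this
    have hlow : ∑ _j ∈ Finset.range (J + 1), m / 2
        ≤ ∑ j ∈ Finset.range (J + 1), f p r N (k - (j : ℤ)) := Finset.sum_le_sum hbig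
    rw [Finset.sum_const, Finset.card_range, nsmul_eq_mul] at hlow
    push_cast at hlow
    have h4 : 2 < m * J := by
      rw [div_lt_iff₀ hpos] at hJ
      linarith
    nlinarith
  intro ε hε
  obtain ⟨A, ⟨N, hN⟩, hA⟩ := exists_lt_of_csInf_lt hne (show sInf S < ε by rw [hm]; exact hε)
  refine ⟨N, fun N' hN' k => ?_⟩
  obtain ⟨J, rfl⟩ := Nat.exists_eq_add_of_le hN'
  exact (le_A hp hr h hN J k).trans hA.le

/-- **849's literal** -/
theorem binom_sup (hp : 0 < p) (hr : 0 < r) (h : p + r = 1) :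
    ∀ ε > 0, ∃ N₀ : ℕ, ∀ N ≥ N₀, ∀ k ≤ N, (N.choose k : ℝ) * p ^ k * r ^ (N - k) ≤ ε := by
  intro ε hε
  obtain ⟨N₀, hN⟩ := f_sup hp hr h ε hε
  exact ⟨N₀, fun N hN' k _ => by rw [← f_nat]; exact hN N hN' k⟩

end Crest.Agent.R154.BinSup278
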