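import Mathlib

/-! R154 (T0219, road 801, leaf H5): `sup_k C(N,k) p^k r^(N-k) -> 0` (pure Mathlib).
Proof: `M n = sup_k b n k` is nonincreasing; if its limit is `s > 0` then, going back in time, one finds
arbitrarily long runs of values `≥ s - η`, while runs sum up to at most `1`. -/

namespace Crest.Agent.R154.BinSup725

/-- binomial weights with an integer index -/
noncomputable def bb (p r : ℝ) : ℕ → ℤ → ℝ
  | 0, k => if k = 0 then 1 else 0
  | (n + 1), k => p * bb p r n (k - 1) + r * bb p r n k

theorem bb_nonneg {p r : ℝ} (hp : 0 < p) (hr : 0 < r) (n : ℕ) (k : ℤ) : 0 ≤ bb p r n k := by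
  induction n generalizing k with
  | zero => unfold bb; split_ifs <;> norm_num
  | succ n ih =>
    unfold bb
    have h1 := ih (k - 1)
    have h2 := ih k
    positivity

theorem bb_run {p r : ℝ} (hp : 0 < p) (hr : 0 < r) (h : p + r = 1) (n J : ℕ) (k : ℤ) :
    ∑ i ∈ Finset.range J, bb p r n (k + i) ≤ 1 := by
  induction n generalizing k with
  | zero =>
    unfold bb
    rw [Finset.sum_ite]
    simp only [Finset.sum_const, nsmul_eq_mul, mul_one, Finset.sum_const_zero, add_zero]
    have : (Finset.filter (fun i : ℕ => k + (i : ℤ) = 0) (Finset.range J)).card ≤ 1 := by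
      apply Finset.card_le_one.2
      intro a ha b hb
      simp only [Finset.mem_filter] at ha hb
      omega
    exact_mod_cast this
  | succ n ih =>
    have e : ∑ i ∈ Finset.range J, bb p r (n + 1) (k + i)
        = p * ∑ i ∈ Finset.range J, bb p r n ((k - 1) + i)
          + r * ∑ i ∈ Finset.range J, bb p r n (k + i) := by
      rw [Finset.mul_sum, Finset.mul_sum, ← Finset.sum_add_distrib]
      apply Finset.sum_congr rfl
      intro i _
      rw [bb]
      congr 3
      ring
    rw [e]
    have h1 := ih (k - 1)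
    have h2 := ih k
    nlinarith

theorem bb_le_one {p r : ℝ} (hp : 0 < p) (hr : 0 < r) (h : p + r = 1) (n : ℕ) (k : ℤ) :
    bb p r n k ≤ 1 := by
  have := bb_run hp hr h n 1 k
  simpa using this

theorem bb_bdd {p r : ℝ} (hp : 0 < p) (hr : 0 < r) (h : p + r = 1) (n : ℕ) :
    BddAbove (Set.range (bb p r n)) :=
  ⟨1, by rintro _ ⟨k, rfl⟩; exact bb_le_one hp hr h n k⟩

theorem sup_tendsto {p r : ℝ} (hp : 0 < p) (hr : 0 < r) (h : p + r = 1) :
    ∀ ε > 0, ∃ N : ℕ, ∀ n ≥ N, ∀ k : ℤ, bb p r n k ≤ ε := by
  set M : ℕ → ℝ := fun n => ⨆ k, bb p r n k with hM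
  have hle : ∀ n k, bb p r n k ≤ M n := fun n k => le_ciSup (bb_bdd hp hr h n) k
  have hM0 : ∀ n, 0 ≤ M n := fun n => (bb_nonneg hp hr n 0).trans (hle n 0)
  have hanti : Antitone M := by
    apply antitone_nat_of_succ_le
    intro n
    apply ciSup_le
    intro k
    rw [bb]
    have h1 := mul_le_mul_of_nonneg_left (hle n (k - 1)) hp.le
    have h2 := mul_le_mul_of_nonneg_left (hle n k) hr.le
    have h3 : p * M n + r * M n = M n := by rw [← add_mul, h, one_mul]
    linarith
  set s : ℝ := ⨅ n, M n with hs
  have hbb : BddBelow (Set.range M) := ⟨0, by rintro _ ⟨n, rfl⟩; exact hM0 n⟩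
  have hsM : ∀ n, s ≤ M n := fun n => ciInf_le hbb n
  have htail : ∀ η > 0, ∃ N : ℕ, ∀ n ≥ N, ∀ k : ℤ, bb p r n k ≤ s + η := by
    intro η hη
    obtain ⟨N, hN⟩ := exists_lt_of_ciInf_lt (show (⨅ n, M n) < s + η by rw [← hs]; linarith)
    exact ⟨N, fun n hn k => (hle n k).trans ((hanti hn).trans hN.le)⟩
  -- long runs
  have hrun : ∀ J : ℕ, ∀ η > 0, ∃ N : ℕ, ∀ n ≥ N, ∃ k : ℤ, ∀ i : ℕ, i ≤ J →
      s - η ≤ bb p r n (k + i) := by
    intro J
    induction J with
    | zero =>
      intro η hη
      refine ⟨0, fun n _ => ?_⟩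
      obtain ⟨k, hk⟩ := exists_lt_of_lt_ciSup (show s - η < ⨆ k, bb p r n k by
        have := hsM n
        simp only [hM] at this
        linarith)
      refine ⟨k, fun i hi => ?_⟩
      obtain rfl : i = 0 := by omega
      simpa using hk.le
    | succ J ih =>
      intro η hη
      -- choose η'
      have hc : 0 < min (p * η) (r * η) / 2 := by positivity
      set η' := min (p * η) (r * η) / 2 with hη'
      have h1 : η' ≤ p * η / 2 := by
        rw [hη']; have := min_le_left (p * η) (r * η); linarith
      have h2 : η' ≤ r * η / 2 := by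
        rw [hη']; have := min_le_right (p * η) (r * η); linarith
      obtain ⟨N1, hN1⟩ := ih η' hc
      obtain ⟨N2, hN2⟩ := htail η' hc
      refine ⟨max N1 N2, fun n hn => ?_⟩
      obtain ⟨k, hk⟩ := hN1 (n + 1) ((le_max_left N1 N2).trans (hn.trans (Nat.le_succ n)))
      have hup : ∀ k : ℤ, bb p r n k ≤ s + η' := hN2 n ((le_max_right N1 N2).trans hn)
      refine ⟨k - 1, fun i hi => ?_⟩
      rcases Nat.eq_zero_or_pos i with rfl | hpos
      · have hk0 := hk 0 (Nat.zero_le _)
        rw [bb] at hk0
        have hu := hup (k + ((0 : ℕ) : ℤ))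
        simp only [Nat.cast_zero, add_zero] at hk0 hu ⊢
        -- p * b(k-1) ≥ s - η' - r (s + η')
        have e : p * (s - η) ≤ p * bb p r n (k - 1) := by
          have h3 := mul_le_mul_of_nonneg_left hu hr.le
          have h4 : r * (s + η') = s - p * s + r * η' := by
            have : r = 1 - p := by linarith
            rw [this]; ring
          have h5 : r * η' ≤ 1 * η' := mul_le_mul_of_nonneg_right (by linarith) hc.le
          have h6 : p * (s - η) = p * s - p * η := by ring
          linarith
        exact le_of_mul_le_mul_left e hp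
      · have hki := hk (i - 1) (by omega)
        rw [bb] at hki
        have hc1 : (k : ℤ) - 1 + (i : ℤ) = k + ((i - 1 : ℕ) : ℤ) := by
          have : ((i - 1 : ℕ) : ℤ) = (i : ℤ) - 1 := by
            rw [Nat.cast_sub hpos]; simp
          rw [this]; ring
        rw [hc1]
        have hu := hup (k + ((i - 1 : ℕ) : ℤ) - 1)
        have e : r * (s - η) ≤ r * bb p r n (k + ((i - 1 : ℕ) : ℤ)) := by
          have h3 := mul_le_mul_of_nonneg_left hu hp.le
          have h4 : p * (s + η') = s - r * s + p * η' := by
            have : p = 1 - r := by linarith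
            rw [this]; ring
          have h5 : p * η' ≤ 1 * η' := mul_le_mul_of_nonneg_right (by linarith) hc.le
          have h6 : r * (s - η) = r * s - r * η := by ring
          linarith
        exact le_of_mul_le_mul_left e hr
  have hs0 : s ≤ 0 := by
    by_contra hcon
    push Not at hcon
    obtain ⟨J, hJ⟩ := exists_nat_gt (2 / s)
    obtain ⟨N, hN⟩ := hrun J (s / 2) (by positivity)
    obtain ⟨k, hk⟩ := hN N le_rfl
    have h1 := bb_run hp hr h N (J + 1) k
    have h2 : ∑ _i ∈ Finset.range (J + 1), (s / 2) ≤ ∑ i ∈ Finset.range (J + 1), bb p r N (k + i) := by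
      apply Finset.sum_le_sum
      intro i hi
      have := hk i (by simpa [Nat.lt_succ_iff] using hi)
      linarith
    rw [Finset.sum_const, Finset.card_range, nsmul_eq_mul] at h2
    rw [div_lt_iff₀ hcon] at hJ
    push_cast at h2
    nlinarith
  intro ε hε
  obtain ⟨N, hN⟩ := htail ε hε
  exact ⟨N, fun n hn k => (hN n hn k).trans (by linarith)⟩

theorem bb_choose (p r : ℝ) (N k : ℕ) :
    bb p r N k = (N.choose k : ℝ) * p ^ k * r ^ (N - k) := by
  induction N generalizing k with
  | zero =>
    unfold bb
    rcases k with _ | k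
    · simp
    · have : ((k + 1 : ℕ) : ℤ) ≠ 0 := by positivity
      simp [this]
      intro hh
      omega
  | succ n ih =>
    rcases k with _ | k
    · rw [bb]
      have hz : ∀ (m : ℕ) (j : ℤ), j < 0 → bb p r m j = 0 := by
        intro m
        induction m with
        | zero => intro j hj; unfold bb; rw [if_neg (by omega)]
        | succ m im => intro j hj; rw [bb, im _ (by omega), im _ hj]; ring
      rw [hz n _ (by norm_num)]
      have := ih 0
      simp only [Nat.cast_zero] at this ⊢
      rw [this]
      simp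
      ring
    · rw [bb]
      have e1 : (((k + 1 : ℕ) : ℤ) - 1) = (k : ℤ) := by push_cast; ring
      rw [e1, ih k, ih (k + 1), Nat.choose_succ_succ]
      rcases Nat.lt_or_ge n (k + 1) with hlt | hge
      · rw [Nat.choose_eq_zero_of_lt hlt]
        have : n + 1 - (k + 1) = n - k := by omega
        rw [this]
        push_cast
        ring
      · have e2 : n + 1 - (k + 1) = n - k := by omega
        have e3 : n - k = (n - (k + 1)) + 1 := by omega
        rw [e2, e3, pow_succ]
        push_cast
        ring

theorem binom_sup {p r : ℝ} (hp : 0 < p) (hr : 0 < r) (h : p + r = 1) :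
    ∀ ε > 0, ∃ N₀ : ℕ, ∀ N ≥ N₀, ∀ k ≤ N,
      (N.choose k : ℝ) * p ^ k * r ^ (N - k) ≤ ε := by
  intro ε hε
  obtain ⟨N, hN⟩ := sup_tendsto hp hr h ε hε
  exact ⟨N, fun n hn k _ => by rw [← bb_choose]; exact hN n hn k⟩

end Crest.Agent.R154.BinSup725
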