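import Mathlib

/-! Row 154, ROAD 801, H5: point concentration of the binomial law (helper730, Mathlib only). -/

set_option autoImplicit false

namespace Crest.Agent.R154.BinSup730

/-- binomial weight -/
noncomputable def bt (p r : ℝ) (N k : ℕ) : ℝ := (N.choose k : ℝ) * p ^ k * r ^ (N - k)

lemma bt_nonneg {p r : ℝ} (hp : 0 < p) (hr : 0 < r) (N k : ℕ) : 0 ≤ bt p r N k := by
  unfold bt; positivity

lemma bt_rec (p r : ℝ) {N k : ℕ} (hk : k < N) :
    ((k : ℝ) + 1) * r * bt p r N (k + 1) = ((N : ℝ) - k) * p * bt p r N k := by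
  have h1 : ((N.choose (k + 1) : ℕ) : ℝ) * ((k : ℝ) + 1) = (N.choose k : ℝ) * ((N : ℝ) - k) := by
    have := Nat.choose_succ_right_eq N k
    have h2 : ((N.choose (k + 1) * (k + 1) : ℕ) : ℝ) = ((N.choose k * (N - k) : ℕ) : ℝ) := by
      rw [this]
    rw [Nat.cast_mul, Nat.cast_mul, Nat.cast_sub hk.le] at h2
    push_cast at h2
    exact h2
  have h3 : r ^ (N - k) = r * r ^ (N - (k + 1)) := by
    rw [← pow_succ']; congr 1; omega
  unfold bt
  rw [h3, pow_succ]
  linear_combination (p ^ k * p * (r * r ^ (N - (k + 1)))) * h1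

lemma bt_sum {p r : ℝ} (h : p + r = 1) (N : ℕ) :
    ∑ m ∈ Finset.range (N + 1), bt p r N m = 1 := by
  have := add_pow p r N
  rw [h, one_pow] at this
  rw [this]
  refine Finset.sum_congr rfl fun m _ => ?_
  unfold bt; ring

lemma low {p r : ℝ} (hp : 0 < p) (hr : 0 < r) (h : p + r = 1) {J N k : ℕ} (hJ : 1 ≤ J)
    (hN : 4 * (J : ℝ) ^ 2 ≤ N * p * r) (hk : (k : ℝ) ≤ N * p) : bt p r N k ≤ 2 / J := by
  have hJ1 : (1 : ℝ) ≤ J := by exact_mod_cast hJ
  have hJ0 : (0 : ℝ) < J := by linarith
  have hp1 : p < 1 := by linarith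
  have hr1 : r < 1 := by linarith
  have hN0 : (0 : ℝ) ≤ N := Nat.cast_nonneg N
  have hNr : (J : ℝ) ≤ N * r := by
    have : (N : ℝ) * p * r ≤ N * r := by
      have : (N : ℝ) * r * p ≤ N * r * 1 := mul_le_mul_of_nonneg_left hp1.le (by positivity)
      linarith
    nlinarith
  have hkJ : k + J ≤ N := by
    have : ((k + J : ℕ) : ℝ) ≤ N := by
      push_cast
      have : (N : ℝ) * p + N * r = N := by rw [← mul_add, h, mul_one]
      linarith
    exact_mod_cast this
  -- comparison of the terms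
  have key : ∀ i : ℕ, i ≤ J → (1 - i * (1 / (2 * (J : ℝ)))) * bt p r N k ≤ bt p r N (k + i) := by
    intro i
    induction i with
    | zero => intro _; simp
    | succ i ih =>
      intro hi
      have hi1 : i < J := hi
      have hiR : (i : ℝ) + 1 ≤ J := by exact_mod_cast hi
      have ih' := ih hi1.le
      have hlt : k + i < N := by omega
      have hrec := bt_rec p r hlt
      have hb0 := bt_nonneg hp hr N (k + i)
      have hbk := bt_nonneg hp hr N k
      set x : ℝ := 1 / (2 * (J : ℝ)) with hx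
      have hx0 : 0 < x := by positivity
      have hxJ : x * (2 * J) = 1 := by rw [hx]; field_simp
      have hi0 : (0 : ℝ) ≤ i := Nat.cast_nonneg i
      have hk0 : (0 : ℝ) ≤ k := Nat.cast_nonneg k
      have hx1 : x ≤ 1 := by
        rw [hx, div_le_one (by positivity)]; linarith
      -- the ratio
      have hA : (1 - x) * (((k + i : ℕ) : ℝ) + 1) * r ≤ ((N : ℝ) - ((k + i : ℕ) : ℝ)) * p := by
        push_cast
        have e1 : ((k : ℝ) + i + 1) * r ≤ N * p * r + J := by
          have : (k : ℝ) * r ≤ N * p * r := mul_le_mul_of_nonneg_right hk hr.le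
          have : ((i : ℝ) + 1) * r ≤ J * 1 :=
            mul_le_mul hiR hr1.le hr.le hJ0.le
          nlinarith
        have e2 : (N : ℝ) * p * r - J ≤ ((N : ℝ) - (k + i)) * p := by
          have e3 : (N : ℝ) * r ≤ N - k := by
            have : (N : ℝ) * p + N * r = N := by rw [← mul_add, h, mul_one]
            linarith
          have e4 : (N : ℝ) * r * p ≤ (N - k) * p := mul_le_mul_of_nonneg_right e3 hp.le
          have e5 : (i : ℝ) * p ≤ J * 1 := mul_le_mul (by linarith) hp1.le hp.le hJ0.le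
          nlinarith
        have e6 : (1 - x) * (((k : ℝ) + i + 1) * r) ≤ (1 - x) * (N * p * r + J) :=
          mul_le_mul_of_nonneg_left e1 (by linarith)
        have e7 : 2 * (J : ℝ) ≤ x * (N * p * r) := by
          have : x * (4 * (J : ℝ) ^ 2) ≤ x * (N * p * r) := mul_le_mul_of_nonneg_left hN hx0.le
          have e8 : x * (4 * (J : ℝ) ^ 2) = 2 * J := by
            calc x * (4 * (J : ℝ) ^ 2) = (x * (2 * J)) * (2 * J) := by ring
              _ = 2 * J := by rw [hxJ, one_mul]
          linarith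
        have e9 : 0 ≤ x * J := by positivity
        nlinarith
      have hB : (1 - x) * bt p r N (k + i) ≤ bt p r N (k + i + 1) := by
        have hpos : (0 : ℝ) < (((k + i : ℕ) : ℝ) + 1) * r := by positivity
        rw [← mul_le_mul_iff_of_pos_left hpos]
        rw [hrec]
        have := mul_le_mul_of_nonneg_right hA hb0
        nlinarith
      have hC : (1 - (i : ℝ) * x) ≥ 0 := by
        have : (i : ℝ) * x ≤ (J : ℝ) * x := mul_le_mul_of_nonneg_right (by linarith) hx0.le
        nlinarith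
      calc (1 - ((i + 1 : ℕ) : ℝ) * x) * bt p r N k
          ≤ (1 - x) * ((1 - (i : ℝ) * x) * bt p r N k) := by
            push_cast
            have : 0 ≤ (i : ℝ) * x * x * bt p r N k := by positivity
            nlinarith
        _ ≤ (1 - x) * bt p r N (k + i) := mul_le_mul_of_nonneg_left ih' (by linarith)
        _ ≤ bt p r N (k + i + 1) := hB
  have half : ∀ i ∈ Finset.range J, bt p r N k / 2 ≤ bt p r N (k + i) := by
    intro i hi
    have hi' := Finset.mem_range.1 hi
    refine le_trans ?_ (key i hi'.le)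
    have hbk := bt_nonneg hp hr N k
    have h1 : (i : ℝ) * (1 / (2 * (J : ℝ))) ≤ 1 / 2 := by
      rw [mul_one_div, div_le_div_iff₀ (by positivity) (by norm_num)]
      have : (i : ℝ) ≤ J := by exact_mod_cast hi'.le
      linarith
    nlinarith
  have hs : (J : ℝ) * (bt p r N k / 2) ≤ 1 := by
    calc (J : ℝ) * (bt p r N k / 2) = ∑ _i ∈ Finset.range J, bt p r N k / 2 := by
          rw [Finset.sum_const, Finset.card_range, nsmul_eq_mul]
      _ ≤ ∑ i ∈ Finset.range J, bt p r N (k + i) := Finset.sum_le_sum half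
      _ = ∑ m ∈ Finset.Ico k (k + J), bt p r N m := by
          rw [Finset.sum_Ico_eq_sum_range]; simp
      _ ≤ ∑ m ∈ Finset.range (N + 1), bt p r N m := by
          refine Finset.sum_le_sum_of_subset_of_nonneg ?_ (fun _ _ _ => bt_nonneg hp hr _ _)
          intro m hm
          rw [Finset.mem_Ico] at hm
          exact Finset.mem_range.2 (by omega)
      _ = 1 := bt_sum h N
  rw [le_div_iff₀ hJ0]
  linarith

theorem binom_sup {p r : ℝ} (hp : 0 < p) (hr : 0 < r) (h : p + r = 1) :
    ∀ ε > 0, ∃ N₀ : ℕ, ∀ N ≥ N₀, ∀ k ≤ N,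
      (N.choose k : ℝ) * p ^ k * r ^ (N - k) ≤ ε := by
  intro ε hε
  obtain ⟨J, hJ⟩ := exists_nat_gt (2 / ε + 1)
  have hJ1 : 1 ≤ J := by
    have : (0 : ℝ) < 2 / ε := by positivity
    have : (1 : ℝ) < J := by linarith
    exact_mod_cast this.le
  have hJ0 : (0 : ℝ) < J := by exact_mod_cast hJ1
  have hJε : 2 / (J : ℝ) ≤ ε := by
    rw [div_le_iff₀ hJ0]
    have : 2 / ε < J := by linarith
    rw [div_lt_iff₀ hε] at this
    linarith
  obtain ⟨N₀, hN₀⟩ := exists_nat_gt (4 * (J : ℝ) ^ 2 / (p * r))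
  refine ⟨N₀, fun N hN k hk => ?_⟩
  have hNN : 4 * (J : ℝ) ^ 2 ≤ N * p * r := by
    have h1 : (N₀ : ℝ) ≤ N := by exact_mod_cast hN
    have h2 : 4 * (J : ℝ) ^ 2 / (p * r) < N := lt_of_lt_of_le hN₀ h1
    rw [div_lt_iff₀ (by positivity)] at h2
    nlinarith
  rcases le_total ((k : ℝ)) (N * p) with hc | hc
  · exact (low hp hr h hJ1 hNN hc).trans hJε
  · have hc' : ((N - k : ℕ) : ℝ) ≤ N * r := by
      rw [Nat.cast_sub hk]
      have : (N : ℝ) * p + N * r = N := by rw [← mul_add, h, mul_one]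
      linarith
    have := (low hr hp (by linarith) hJ1 (by linarith : 4 * (J : ℝ) ^ 2 ≤ N * r * p) hc').trans hJε
    unfold bt at this
    rw [Nat.choose_symm hk, Nat.sub_sub_self hk] at this
    linarith

end Crest.Agent.R154.BinSup730
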