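import Crest.Agent.R154.NBDefs_28

/-! Row 154, ROAD 801 (helper55): the two window lemmas and the thin slab in WORDS
(`IsUp`, `IsDn`, `aw` of `NBDefs_28`), for two pieces placed at depths `a`, `a'`.

`lt u y` = lateral part of the site `y`.  `CW u a a' x π γ` = depths of the common sites of
* the up crossing `π` hung with its endpoint at `-(a • e_u)` (depths `a+1 .. a+h`), and
* the down crossing `γ` started at `x - (a'+1) • e_u` (depths `a'+1 .. a'+h'`). -/

set_option autoImplicit false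

namespace Crest.Agent.R154.BW55

open MeasureTheory ProbabilityTheory Crest.ProbabilityR.RandomEnvironment Crest.Agent.R154
open Crest.Agent.R154.Flux132 (lev opp)
open Crest.Agent.R154.Flux566 (lw endp sitesL)
open Crest.Agent.R154.NB28 (IsUp IsDn aw Cm)
open scoped ENNReal

variable {d : ℕ}

/-- lateral part -/
def lt (u : Step d) (y : Site d) : Site d := y - (lev u y) • stepVec u

/-- depths of the common sites of two placed pieces -/
def CW (u : Step d) (a a' : ℕ) (x : Site d) (π γ : List (Step d)) : Set ℕ :=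
  {k | ∃ y, y ∈ sitesL (-((a : ℤ) • stepVec u) - endp 0 π) π ∧
    y ∈ sitesL (x - ((a' : ℤ) + 1) • stepVec u) γ ∧ lev u y = -(k : ℤ)}

open Classical in
/-- window lemma (2): the up walker local, no common site within `s` of the tops -/
def H2W (ν : Measure (Row d)) [IsProbabilityMeasure ν] (u : Step d) (C : ℝ≥0∞) (us : ℕ → ℝ≥0∞) :
    Prop :=
  ∀ (s h h' a a' lo : ℕ) (E : Finset (Site d)) (μ : Site d → ℝ≥0∞) (M lam : ℝ≥0∞),
    ∑' x, μ x ≤ 1 → (∀ x, μ x ≤ M) → lam ≠ 0 → lam ≠ ⊤ → a + s ≤ lo → a' + s ≤ lo →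
    ∑' x : Site d, (if lev u x = 0 then μ x * ∑' π : List (Step d), ∑' γ : List (Step d),
      (if IsUp u h π ∧ lt u (-endp 0 π) ∈ E ∧ IsDn u h' γ ∧ (∃ k, k ∈ CW u a a' x π γ) ∧
        (∀ k ∈ CW u a a' x π γ, lo ≤ k) then aw ν π * aw ν γ else 0) else 0)
      ≤ C * (lam + M * E.card * us s / lam + us s)

open Classical in
/-- window lemma (3): the down walker local, no common site within `s` of the bottoms -/
def H3W (ν : Measure (Row d)) [IsProbabilityMeasure ν] (u : Step d) (C : ℝ≥0∞) (us : ℕ → ℝ≥0∞) :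
    Prop :=
  ∀ (s h h' a a' hi : ℕ) (E : Finset (Site d)) (μ : Site d → ℝ≥0∞) (M lam : ℝ≥0∞),
    ∑' x, μ x ≤ 1 → (∀ x, μ x ≤ M) → lam ≠ 0 → lam ≠ ⊤ → hi + s ≤ a + h → hi + s ≤ a' + h' →
    ∑' x : Site d, (if lev u x = 0 then μ x * ∑' π : List (Step d), ∑' γ : List (Step d),
      (if IsUp u h π ∧ IsDn u h' γ ∧ lt u (endp 0 γ) ∈ E ∧ (∃ k, k ∈ CW u a a' x π γ) ∧
        (∀ k ∈ CW u a a' x π γ, k ≤ hi) then aw ν π * aw ν γ else 0) else 0)
      ≤ C * (lam + M * E.card * us s / lam + us s)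

open Classical in
/-- thin slab -/
def H5W (ν : Measure (Row d)) [IsProbabilityMeasure ν] (u : Step d) : Prop :=
  ∀ s : ℕ, ∀ η : ℝ≥0∞, η ≠ 0 → ∃ T : ℕ, ∀ a, T ≤ a → ∀ n : ℕ, ∀ w : Site d, lev u w = 0 →
    ∑' π : List (Step d), ∑' γ : List (Step d),
      (if IsUp u n π ∧ IsDn u n γ ∧ (∃ k ∈ Cm u w π γ, a ≤ k ∧ k < a + s)
        then aw ν π * aw ν γ else 0) ≤ η

end Crest.Agent.R154.BW55
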