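import Crest.Agent.R154.Tie_799

/-! Row 154, T0219, ROAD 801 (helper799): window lemma (3) in words: the down walker local, the up
walker free, reading from its start.  No mixing: the bottom of the down word is strictly below the
start of the up word. -/

set_option autoImplicit false

open MeasureTheory ProbabilityTheory Crest.ProbabilityR.RandomEnvironment
open scoped ENNReal

namespace Crest.Agent.R154.Tie799

open Crest.Agent.R154.Flux566 (lw endp sitesL measurable_lw endp_eq_add endp_append)
open Crest.Agent.R154.Flux132 (lev opp)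
open Crest.Agent.R154.NB28 (IsUp IsDn)
open Crest.Agent.R154.Surg799 (aw aw_shift ann_mul endp_mem_sites mem_sitesL_add lvadd lvneg)
open Crest.Agent.R154.WordB956 (PF FH Vis lw_append sitesL_append pf_FH pf_sum_le vis_le mem_sitesL)

variable {d : ℕ}

/-- words from `v` which end at their first visit of level `-b`, in `EE` -/
def Land (u : Step d) (b : ℤ) (EE : Finset (Site d)) (v : Site d) : Set (List (Step d)) :=
  {τ | (∀ y ∈ sitesL v τ, -b < lev u y) ∧ lev u (endp v τ) = -b ∧ endp v τ ∈ EE}

/-- the same, after a visit of a level `≥ -t` -/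
def Turn (u : Step d) (b t : ℤ) (EE : Finset (Site d)) (x : Site d) : Set (List (Step d)) :=
  {σ | (∀ y ∈ sitesL x σ, -b < lev u y) ∧ lev u (endp x σ) = -b ∧ endp x σ ∈ EE ∧
    ∃ y ∈ sitesL x σ, -t ≤ lev u y}

/-- the local down words -/
def GD (u : Step d) (h' : ℕ) (EE : Finset (Site d)) : Set (List (Step d)) :=
  {γ | IsDn u h' γ ∧ endp 0 γ ∈ EE}

/-- `s` (from `x`) ends at its first hit of the sites of `r` (from `0`) -/
def Rel (u : Step d) (h' : ℕ) (l t : ℤ) (EE : Finset (Site d)) (x : Site d)
    (r s : List (Step d)) : Prop :=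
  r ∈ GD u h' EE ∧ s ∈ FH {y | y ∈ sitesL 0 r} x ∧ (∀ y ∈ sitesL x s, -l ≤ lev u y) ∧
    -t ≤ lev u (endp x s)

open Classical in
/-- annealed weight of the words which visit a level `≥ s` and end at the first visit of `-i` -/
noncomputable def ret (ν : Measure (Row d)) (u : Step d) (s i : ℤ) : ℝ≥0∞ :=
  ∑' l : List (Step d), (if (∀ y ∈ sitesL 0 l, -i < lev u y) ∧ lev u (endp 0 l) = -i ∧
    (∃ y ∈ sitesL 0 l, s ≤ lev u y) then aw ν l else 0)

lemma pf_GD (u : Step d) (h' : ℕ) (EE : Finset (Site d)) : PF (GD u h' EE) := by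
  intro l hl l' hl'
  by_contra hne
  have h1 := hl.1.2
  have h2 := (hl'.1.1 (endp 0 l) (endp_mem_sites l l' 0 hne)).1
  omega

lemma pf_Up (u : Step d) (h : ℕ) : PF {π | IsUp u h π} := by
  intro l hl l' hl'
  by_contra hne
  have h1 := hl.2
  have h2 := (hl'.1 (endp 0 l) (endp_mem_sites l l' 0 hne)).2
  omega

lemma mem_sites_shift (x y : Site d) (l : List (Step d)) :
    y ∈ sitesL x l ↔ y - x ∈ sitesL 0 l := by
  have := mem_sitesL_add l 0 x y
  rwa [zero_add] at this

open Classical in
/-- (P1) first-hit factorisation -/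
lemma rel_sum_le (ν : Measure (Row d)) (u : Step d) (h h' : ℕ) (l t : ℤ)
    (EE : Finset (Site d)) (f : Site d → ℝ≥0∞) (x : Site d) (hx : lev u x = -l)
    (γ : List (Step d)) (hγ : γ ∈ GD u h' EE) :
    ∑' π : List (Step d), (if IsUp u h π ∧ (∃ y, y ∈ sitesL x π ∧ y ∈ sitesL 0 γ) ∧
        (∀ y, y ∈ sitesL x π → y ∈ sitesL 0 γ → -t ≤ lev u y)
        then aw ν π * f (endp x π) else 0)
      ≤ ∑' s : List (Step d), (if Rel u h' l t EE x γ s then W ν {π | IsUp u h π} f x s else 0) := by
  refine (tsum_le_split _ {s | Rel u h' l t EE x γ s} ?_).trans ?_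
  · intro π hπ
    have hc : IsUp u h π ∧ (∃ y, y ∈ sitesL x π ∧ y ∈ sitesL 0 γ) ∧
        (∀ y, y ∈ sitesL x π → y ∈ sitesL 0 γ → -t ≤ lev u y) := by
      by_contra hcc; exact hπ (if_neg hcc)
    obtain ⟨hU, ⟨y, hy1, hy2⟩, hdeep⟩ := hc
    obtain ⟨l1, e, l2, hl12, hend⟩ := mem_sitesL.1 hy1
    have hvis : π ∈ Vis {y | y ∈ sitesL 0 γ} x := ⟨l1, e :: l2, hl12, by rw [hend]; exact hy2⟩
    obtain ⟨m1, m2, hm, hm1⟩ := WordB956.exists_FH hvis
    refine ⟨m1, m2, hm, hγ, hm1, ?_, ?_⟩
    · intro z hz
      have hz' : z ∈ sitesL x π := by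
        rw [hm, sitesL_append]
        exact List.mem_append_left _ hz
      have h1 := (hU.1 _ ((mem_sites_shift x z π).1 hz')).1
      have h2 : lev u z = lev u x + lev u (z - x) := by
        rw [← lvadd]; congr 1; abel
      omega
    · rcases eq_or_ne m2 [] with h0 | h0
      · exfalso
        rw [h0, List.append_nil] at hm
        rw [hm] at hl12
        have := hm1.2 l1 (e :: l2) hl12 (by simp)
        apply this
        rw [hend]
        exact hy2
      · refine hdeep _ ?_ hm1.1
        rw [hm]
        exact endp_mem_sites m1 m2 x h0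
  · refine ENNReal.tsum_le_tsum fun s => ?_
    by_cases hs : Rel u h' l t EE x γ s
    · rw [if_pos (show s ∈ {s | Rel u h' l t EE x γ s} from hs), if_pos hs]
      unfold W
      refine ENNReal.tsum_le_tsum fun l2 => ?_
      by_cases h1 : IsUp u h (s ++ l2) ∧ (∃ y, y ∈ sitesL x (s ++ l2) ∧ y ∈ sitesL 0 γ) ∧
        (∀ y, y ∈ sitesL x (s ++ l2) → y ∈ sitesL 0 γ → -t ≤ lev u y)
      · rw [if_pos h1, if_pos (show s ++ l2 ∈ {π | IsUp u h π} from h1.1)]
      · rw [if_neg h1]; exact zero_le
    · rw [if_neg (show s ∉ {s | Rel u h' l t EE x γ s} from hs), if_neg hs]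

open Classical in
/-- quenched contact sum at `x` -/
noncomputable def cont (ν : Measure (Row d)) (u : Step d) (h h' : ℕ) (l t : ℤ)
    (EE : Finset (Site d)) (f : Site d → ℝ≥0∞) (x : Site d) (ω : Environment d) : ℝ≥0∞ :=
  if lev u x = -l then
    ∑' r : List (Step d), ∑' s : List (Step d), (if Rel u h' l t EE x r s then
      (if r ∈ GD u h' EE then lw ω 0 r else 0) * lw ω x s * wt ν {π | IsUp u h π} f x s else 0)
  else 0

lemma disj_of_rel {u : Step d} {h' : ℕ} {l t : ℤ} {EE : Finset (Site d)} {x : Site d}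
    {r s : List (Step d)} (h : Rel u h' l t EE x r s) :
    ∀ z ∈ sitesL 0 r, z ∉ sitesL x s := by
  intro z hz hz'
  obtain ⟨l1, e, l2, hl12, hend⟩ := mem_sitesL.1 hz'
  have := h.2.1.2 l1 (e :: l2) hl12 (by simp)
  apply this
  rw [hend]
  exact hz

open Classical in
/-- (P3) ind = same up to the first hit -/
lemma le_cont (ν : Measure (Row d)) [IsProbabilityMeasure ν] (u : Step d) (h h' : ℕ) (l t : ℤ)
    (EE : Finset (Site d)) (f : Site d → ℝ≥0∞) {M : ℝ≥0∞} (hf : ∀ z, f z ≤ M) (x : Site d) :
    (if lev u x = -l then ∑' γ : List (Step d), ∑' π : List (Step d),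
      (if IsDn u h' γ ∧ endp 0 γ ∈ EE ∧ IsUp u h π ∧ (∃ y, y ∈ sitesL x π ∧ y ∈ sitesL 0 γ) ∧
        (∀ y, y ∈ sitesL x π → y ∈ sitesL 0 γ → -t ≤ lev u y)
        then aw ν γ * aw ν π * f (endp x π) else 0) else 0)
      ≤ ∫⁻ ω, cont ν u h h' l t EE f x ω ∂(iidEnvironmentLaw ν) := by
  by_cases hx : lev u x = -l
  · rw [if_pos hx]
    unfold cont
    simp only [if_pos hx]
    rw [lintegral_tsum]
    · refine ENNReal.tsum_le_tsum fun γ => ?_
      rw [lintegral_tsum]
      · by_cases hγ : γ ∈ GD u h' EE
        · calc ∑' π : List (Step d),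
              (if IsDn u h' γ ∧ endp 0 γ ∈ EE ∧ IsUp u h π ∧
                (∃ y, y ∈ sitesL x π ∧ y ∈ sitesL 0 γ) ∧
                (∀ y, y ∈ sitesL x π → y ∈ sitesL 0 γ → -t ≤ lev u y)
                then aw ν γ * aw ν π * f (endp x π) else 0)
              ≤ aw ν γ * ∑' π : List (Step d), (if IsUp u h π ∧
                (∃ y, y ∈ sitesL x π ∧ y ∈ sitesL 0 γ) ∧
                (∀ y, y ∈ sitesL x π → y ∈ sitesL 0 γ → -t ≤ lev u y)
                then aw ν π * f (endp x π) else 0) := by
                rw [← ENNReal.tsum_mul_left]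
                refine ENNReal.tsum_le_tsum fun π => ?_
                split_ifs with h1 h2 h2
                · rw [mul_assoc]
                · exact absurd h1.2.2 h2
                · exact zero_le
                · exact zero_le
            _ ≤ aw ν γ * ∑' s : List (Step d),
                (if Rel u h' l t EE x γ s then W ν {π | IsUp u h π} f x s else 0) := by
                exact mul_le_mul' le_rfl (rel_sum_le ν u h h' l t EE f x hx γ hγ)
            _ = _ := by
                rw [← ENNReal.tsum_mul_left]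
                refine tsum_congr fun s => ?_
                by_cases hr : Rel u h' l t EE x γ s
                · simp only [if_pos hr, if_pos hγ]
                  rw [lintegral_mul_const (f := fun ω => lw ω 0 γ * lw ω x s) _
                    ((measurable_lw 0 γ).mul (measurable_lw x s)),
                    ann_mul ν 0 x γ s (disj_of_rel hr), W_eq ν (pf_Up u h) hf x s, mul_assoc]
                · simp [if_neg hr]
        · refine le_trans (le_of_eq ?_) zero_le
          rw [ENNReal.tsum_eq_zero]
          intro π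
          rw [if_neg]
          rintro ⟨h1, h2, _⟩
          exact hγ ⟨h1, h2⟩
      · intro s
        split_ifs
        · exact (((measurable_lw 0 γ).mul (measurable_lw x s)).mul_const _).aemeasurable
        · exact (((measurable_const (a := (0 : ℝ≥0∞))).mul (measurable_lw x s)).mul_const _).aemeasurable
        · exact aemeasurable_const
    · intro γ
      refine (Measurable.ennreal_tsum fun s => ?_).aemeasurable
      split_ifs
      · exact (((measurable_lw 0 γ).mul (measurable_lw x s)).mul_const _)
      · exact (((measurable_const (a := (0 : ℝ≥0∞))).mul (measurable_lw x s)).mul_const _)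
      · exact measurable_const
  · rw [if_neg hx]; exact zero_le

open Classical in
/-- (b') quenched turn bound -/
lemma turn_le (u : Step d) (h' : ℕ) (l t : ℤ) (hl : l < h') (EE : Finset (Site d)) (x : Site d)
    (ω : Environment d) (r : List (Step d)) (c : ℝ≥0∞) (hc0 : c ≠ 0) (hc : c ≠ ⊤) :
    ∑' s : List (Step d), (if Rel u h' l t EE x r s ∧
        c < ∑' τ : List (Step d), (if τ ∈ Land u h' EE (endp x s) then lw ω (endp x s) τ else 0)
        then lw ω x s else 0)
      ≤ c⁻¹ * ∑' σ : List (Step d), (if σ ∈ Turn u h' t EE x then lw ω x σ else 0) := by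
  have key : c * ∑' s : List (Step d), (if Rel u h' l t EE x r s ∧
        c < ∑' τ : List (Step d), (if τ ∈ Land u h' EE (endp x s) then lw ω (endp x s) τ else 0)
        then lw ω x s else 0)
      ≤ ∑' σ : List (Step d), (if σ ∈ Turn u h' t EE x then lw ω x σ else 0) := by
    have hPF : PF {s | Rel u h' l t EE x r s} :=
      (pf_FH {y | y ∈ sitesL 0 r} x).mono fun s hs => hs.2.1
    refine le_trans ?_ (tsum_split_le
      (fun σ => if σ ∈ Turn u h' t EE x then lw ω x σ else 0) hPF)
    rw [← ENNReal.tsum_mul_left]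
    refine ENNReal.tsum_le_tsum fun s => ?_
    by_cases hs : Rel u h' l t EE x r s
    · rw [if_pos (show s ∈ {s | Rel u h' l t EE x r s} from hs)]
      split_ifs with h1
      · rw [mul_comm]
        refine (mul_le_mul' le_rfl h1.2.le).trans ?_
        rw [← ENNReal.tsum_mul_left]
        refine ENNReal.tsum_le_tsum fun τ => ?_
        by_cases hτ : τ ∈ Land u h' EE (endp x s)
        · rw [if_pos hτ, if_pos, lw_append]
          have hv : endp x s ∈ sitesL 0 r := hs.2.1.1
          have hvl := (hs.1.1.1 _ hv).1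
          have hne : τ ≠ [] := by
            rintro rfl
            have := hτ.2.1
            simp only [endp] at this
            omega
          refine ⟨?_, ?_, ?_, ?_⟩
          · intro y hy
            rw [sitesL_append, List.mem_append] at hy
            rcases hy with hy | hy
            · have := hs.2.2.1 y hy
              omega
            · exact hτ.1 y hy
          · rw [endp_append]; exact hτ.2.1
          · rw [endp_append]; exact hτ.2.2
          · exact ⟨endp x s, endp_mem_sites s τ x hne, hs.2.2.2⟩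
        · rw [if_neg hτ, mul_zero]; exact zero_le
      · rw [mul_zero]; exact zero_le
    · rw [if_neg (fun h => hs h.1), mul_zero]; exact zero_le
  calc _ = c⁻¹ * (c * ∑' s : List (Step d), (if Rel u h' l t EE x r s ∧
        c < ∑' τ : List (Step d), (if τ ∈ Land u h' EE (endp x s) then lw ω (endp x s) τ else 0)
        then lw ω x s else 0)) := by
        rw [← mul_assoc, ENNReal.inv_mul_cancel hc0 hc, one_mul]
    _ ≤ _ := by gcongr

open Classical in
/-- annealed turn bound -/
lemma turn_sum (ν : Measure (Row d)) [IsProbabilityMeasure ν] (u : Step d) (b l t : ℤ)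
    (EE : Finset (Site d)) :
    ∑' x : Site d, (if lev u x = -l then ∑' σ : List (Step d),
      (if σ ∈ Turn u b t EE x then aw ν σ else 0) else 0)
      ≤ EE.card * ret ν u (l - t) (b - l) := by
  have h1 : ∀ x : Site d, (if lev u x = -l then ∑' σ : List (Step d),
      (if σ ∈ Turn u b t EE x then aw ν σ else 0) else 0)
      ≤ ∑' σ : List (Step d), (if (∀ y ∈ sitesL 0 σ, -(b - l) < lev u y) ∧
        lev u (endp 0 σ) = -(b - l) ∧ (∃ y ∈ sitesL 0 σ, l - t ≤ lev u y) then aw ν σ else 0) *
          (if endp x σ ∈ EE then 1 else 0) := by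
    intro x
    split_ifs with hx
    · refine ENNReal.tsum_le_tsum fun σ => ?_
      by_cases hσ : σ ∈ Turn u b t EE x
      · rw [if_pos hσ, if_pos hσ.2.2.1, mul_one, if_pos]
        refine ⟨?_, ?_, ?_⟩
        · intro y hy
          have h2 : y + x ∈ sitesL x σ := by
            rw [mem_sites_shift]; simpa using hy
          have h3 := hσ.1 _ h2
          rw [lvadd] at h3
          omega
        · have h3 := hσ.2.1
          rw [endp_eq_add, lvadd] at h3
          omega
        · obtain ⟨y, hy, hyt⟩ := hσ.2.2.2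
          refine ⟨y - x, (mem_sites_shift x y σ).1 hy, ?_⟩
          have h2 : lev u (y - x) = lev u y - lev u x := by
            rw [sub_eq_add_neg, lvadd, lvneg]; ring
          omega
      · rw [if_neg hσ]; exact zero_le
    · exact zero_le
  refine (ENNReal.tsum_le_tsum h1).trans ?_
  rw [ENNReal.tsum_comm]
  unfold ret
  rw [mul_comm, ← ENNReal.tsum_mul_right]
  refine ENNReal.tsum_le_tsum fun σ => ?_
  rw [ENNReal.tsum_mul_left]
  gcongr
  have hinj : Function.Injective fun x : Site d => endp x σ := by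
    intro a c hac
    simp only at hac
    rw [endp_eq_add, endp_eq_add σ c] at hac
    exact add_right_cancel hac
  refine (ENNReal.tsum_comp_le_tsum_of_injective hinj
    (fun z : Site d => if z ∈ EE then (1 : ℝ≥0∞) else 0)).trans ?_
  rw [tsum_eq_sum (s := EE) (fun z hz => if_neg hz)]
  rw [Finset.sum_congr rfl (fun z hz => if_pos hz)]
  simp

open Classical in
/-- **window lemma (3), core form** -/
theorem h3core (ν : Measure (Row d)) [IsProbabilityMeasure ν] (u : Step d) (h h' : ℕ) (l t : ℤ)
    (EE : Finset (Site d)) (f : Site d → ℝ≥0∞) (M lam : ℝ≥0∞) (hM : M ≠ ⊤) (hl0 : lam ≠ 0)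
    (hlt : lam ≠ ⊤) (hf : ∀ z, f z ≤ M) (hf1 : ∑' z, f z ≤ 1) (hl : l < h') :
    ∑' x : Site d, (if lev u x = -l then ∑' γ : List (Step d), ∑' π : List (Step d),
      (if IsDn u h' γ ∧ endp 0 γ ∈ EE ∧ IsUp u h π ∧ (∃ y, y ∈ sitesL x π ∧ y ∈ sitesL 0 γ) ∧
        (∀ y, y ∈ sitesL x π → y ∈ sitesL 0 γ → -t ≤ lev u y)
        then aw ν γ * aw ν π * f (endp x π) else 0) else 0)
      ≤ 8 * lam + 2 * (M * (EE.card * ret ν u (l - t) (h' - l)) / lam) := by
  refine (ENNReal.tsum_le_tsum fun x => le_cont ν u h h' l t EE f hf x).trans ?_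
  have hlam : ∀ j : ℕ, lam * (2⁻¹ : ℝ≥0∞) ^ j ≠ 0 := fun j =>
    mul_ne_zero hl0 (pow_ne_zero _ (by simp))
  have hlamt : ∀ j : ℕ, lam * (2⁻¹ : ℝ≥0∞) ^ j ≠ ⊤ := fun j =>
    ENNReal.mul_ne_top hlt (ENNReal.pow_ne_top (by simp))
  refine Dyad431.dyad_sum (iidEnvironmentLaw ν) M lam EE.card (ret ν u (l - t) (h' - l)) hl0 hlt
    (cont ν u h h' l t EE f)
    (fun x j ω => ∑' ξ : List (Step d),
      (if ξ ∈ mn {s | M * (4⁻¹ : ℝ≥0∞) ^ (j + 1) < wt ν {π | IsUp u h π} f x s}
        then lw ω x ξ else 0))
    (fun x j ω => if lev u x = -l then (lam * (2⁻¹ : ℝ≥0∞) ^ j)⁻¹ *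
      ∑' σ : List (Step d), (if σ ∈ Turn u h' t EE x then lw ω x σ else 0) else 0)
    (fun x => W ν {π | IsUp u h π} f x []) ?_ ?_ ?_ ?_ ?_ (W_nil_sum ν (pf_Up u h) f hf1)
  · intro x j
    refine Measurable.ennreal_tsum fun ξ => ?_
    split_ifs
    · exact measurable_lw x ξ
    · exact measurable_const
  · intro x j
    split_ifs
    · refine Measurable.const_mul (Measurable.ennreal_tsum fun σ => ?_) _
      split_ifs
      · exact measurable_lw x σ
      · exact measurable_const
    · exact measurable_const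
  · intro x ω
    unfold cont
    by_cases hx : lev u x = -l
    · simp only [if_pos hx]
      refine Dyad431.split_words M lam hM (fun s => lw ω x s)
        (fun r => if r ∈ GD u h' EE then lw ω 0 r else 0) (fun r s => Rel u h' l t EE x r s)
        (fun s => wt ν {π | IsUp u h π} f x s)
        (fun s => ∑' τ : List (Step d), (if τ ∈ Land u h' EE (endp x s) then lw ω (endp x s) τ
          else 0))
        (fun j r => r ∈ GD u h' EE ∧ r ∈ Vis {v | ∑' τ : List (Step d),
          (if τ ∈ Land u h' EE v then lw ω v τ else 0) ≤ lam * (2⁻¹ : ℝ≥0∞) ^ j} 0)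
        _ _ (fun s => wt_le ν (pf_Up u h) hf x s) ?_ (pf_sum_le ω 0 (pf_GD u h' EE)) ?_ ?_ ?_
      · intro r s j hr hle
        refine ⟨hr.1, ?_⟩
        have hv : endp x s ∈ sitesL 0 r := hr.2.1.1
        obtain ⟨l1, e, l2, h12, hend⟩ := mem_sitesL.1 hv
        refine ⟨l1, e :: l2, h12, ?_⟩
        rw [hend]
        exact hle
      · intro j
        have hh := vis_le ω 0 (GD u h' EE) {v | ∑' τ : List (Step d),
          (if τ ∈ Land u h' EE v then lw ω v τ else 0) ≤ lam * (2⁻¹ : ℝ≥0∞) ^ j}
          (lam * (2⁻¹ : ℝ≥0∞) ^ j) ?_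
        · refine le_trans (le_of_eq ?_) hh
          refine tsum_congr fun r => ?_
          by_cases h1 : r ∈ GD u h' EE <;>
            by_cases h2 : r ∈ Vis {v | ∑' τ : List (Step d),
              (if τ ∈ Land u h' EE v then lw ω v τ else 0) ≤ lam * (2⁻¹ : ℝ≥0∞) ^ j} 0 <;>
            simp [h1, h2]
        · intro l1 hl1
          refine le_trans ?_ (show ∑' τ : List (Step d),
            (if τ ∈ Land u h' EE (endp 0 l1) then lw ω (endp 0 l1) τ else 0)
              ≤ lam * (2⁻¹ : ℝ≥0∞) ^ j from hl1.1)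
          refine ENNReal.tsum_le_tsum fun l2 => ?_
          by_cases h2 : l1 ++ l2 ∈ GD u h' EE
          · rw [if_pos h2, if_pos]
            refine ⟨?_, ?_, ?_⟩
            · intro y hy
              exact (h2.1.1 y (by rw [sitesL_append]; exact List.mem_append_right _ hy)).1
            · have := h2.1.2; rwa [endp_append] at this
            · have := h2.2; rwa [endp_append] at this
          · rw [if_neg h2]; exact zero_le
      · intro r j
        have hPF : PF {s | Rel u h' l t EE x r s} :=
          (pf_FH {y | y ∈ sitesL 0 r} x).mono fun s hs => hs.2.1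
        refine le_trans (le_of_eq (tsum_congr fun s => ?_))
          (doob_le ω x (T := {s | Rel u h' l t EE x r s})
          (B := {s | M * (4⁻¹ : ℝ≥0∞) ^ (j + 1) < wt ν {π | IsUp u h π} f x s}) hPF)
        by_cases h1 : Rel u h' l t EE x r s ∧
          M * (4⁻¹ : ℝ≥0∞) ^ (j + 1) < wt ν {π | IsUp u h π} f x s
        · rw [if_pos h1, if_pos (show s ∈ {s | Rel u h' l t EE x r s} ∧
            s ∈ {s | M * (4⁻¹ : ℝ≥0∞) ^ (j + 1) < wt ν {π | IsUp u h π} f x s} from h1)]
        · rw [if_neg h1, if_neg (show ¬ (s ∈ {s | Rel u h' l t EE x r s} ∧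
            s ∈ {s | M * (4⁻¹ : ℝ≥0∞) ^ (j + 1) < wt ν {π | IsUp u h π} f x s}) from h1)]
      · intro r j
        exact turn_le u h' l t hl EE x ω r _ (hlam j) (hlamt j)
    · simp only [if_neg hx]; exact zero_le
  · intro x j
    rw [lintegral_tsum]
    · rw [← ENNReal.tsum_mul_left]
      refine le_trans (ENNReal.tsum_le_tsum fun ξ => ?_)
        (W_sum_le ν {π | IsUp u h π} f x
          (pf_mn {s | M * (4⁻¹ : ℝ≥0∞) ^ (j + 1) < wt ν {π | IsUp u h π} f x s}))
      by_cases hξ : ξ ∈ mn {s | M * (4⁻¹ : ℝ≥0∞) ^ (j + 1) < wt ν {π | IsUp u h π} f x s}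
      · simp only [if_pos hξ]
        rw [aw_shift, W_eq ν (pf_Up u h) hf x ξ, mul_comm]
        gcongr
        exact le_of_lt hξ.1
      · simp [if_neg hξ]
    · intro ξ
      split_ifs
      · exact (measurable_lw x ξ).aemeasurable
      · exact aemeasurable_const
  · intro j
    refine le_trans (le_of_eq ?_) (turn_sum ν u h' l t EE)
    rw [← ENNReal.tsum_mul_left]
    refine tsum_congr fun x => ?_
    by_cases hx : lev u x = -l
    · simp only [if_pos hx]
      rw [lintegral_const_mul, ← mul_assoc, ENNReal.mul_inv_cancel (hlam j) (hlamt j), one_mul,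
        lintegral_tsum]
      · refine tsum_congr fun σ => ?_
        by_cases hσ : σ ∈ Turn u h' t EE x
        · simp only [if_pos hσ]; rw [aw_shift]
        · simp [if_neg hσ]
      · intro σ
        split_ifs
        · exact (measurable_lw x σ).aemeasurable
        · exact aemeasurable_const
      · refine Measurable.ennreal_tsum fun σ => ?_
        split_ifs
        · exact measurable_lw x σ
        · exact measurable_const
    · simp [if_neg hx]

end Crest.Agent.R154.Tie799
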