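import Crest.Agent.R154.Flux2_566
import Crest.Agent.R154.B5Abs_566

/-! Row 154, ROAD 801 (helper458): Kraft inequality for words and `u_s → 0` : the weight of the
words which go below level `-s` and then hit level `h` for the first time tends to `0`. -/

set_option autoImplicit false

open MeasureTheory ProbabilityTheory Crest.ProbabilityR.RandomEnvironment
open scoped ENNReal

namespace Crest.Agent.R154.RetW458

open Crest.Agent.R154.Flux566

variable {d : ℕ}

/-- the rows are probability vectors -/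
lemma row_sum (ω : Environment d) (x : Site d) : ∑ e : Step d, ENNReal.ofReal ((ω x).1 e) = 1 := by
  have h := (ω x).2
  rw [← ENNReal.ofReal_sum_of_nonneg (fun e _ => h.1 e), h.2, ENNReal.ofReal_one]

open Classical in
/-- bounded Kraft inequality -/
lemma kraft_le (N : ℕ) : ∀ (S : Set (List (Step d))), (∀ l ∈ S, ∀ l', l ++ l' ∈ S → l' = []) →
    ∀ (ω : Environment d) (x : Site d),
      ∑' l, (if l ∈ S ∧ l.length ≤ N then lw ω x l else 0) ≤ 1 := by
  induction N with
  | zero =>
    intro S _ ω x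
    rw [B5A.tsum_list]
    have h1 : ∀ (b : Step d) (L : List (Step d)),
        (if (b :: L) ∈ S ∧ (b :: L).length ≤ 0 then lw ω x (b :: L) else 0) = 0 := by
      intro b L; rw [if_neg]; simp
    simp only [h1, tsum_zero, add_zero]
    split_ifs <;> simp [lw]
  | succ N ih =>
    intro S hS ω x
    rw [B5A.tsum_list]
    by_cases h0 : ([] : List (Step d)) ∈ S
    · have h1 : ∀ (b : Step d) (L : List (Step d)),
          (if (b :: L) ∈ S ∧ (b :: L).length ≤ N + 1 then lw ω x (b :: L) else 0) = 0 := by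
        intro b L
        rw [if_neg]
        rintro ⟨h, -⟩
        have := hS [] h0 (b :: L) (by simpa using h)
        simp at this
      simp only [h1, tsum_zero, add_zero]
      split_ifs <;> simp [lw]
    · rw [if_neg (by simp [h0]), zero_add, tsum_fintype, ← row_sum ω x]
      refine Finset.sum_le_sum fun e _ => ?_
      have h2 : ∀ L : List (Step d),
          (if (e :: L) ∈ S ∧ (e :: L).length ≤ N + 1 then lw ω x (e :: L) else 0)
            = ENNReal.ofReal ((ω x).1 e) *
              (if L ∈ {L' | (e :: L') ∈ S} ∧ L.length ≤ N then lw ω (x + stepVec e) L else 0) := by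
        intro L
        by_cases h : (e :: L) ∈ S ∧ L.length ≤ N
        · rw [if_pos (by simpa using h), if_pos (by simpa using h)]; rfl
        · rw [if_neg (by simpa using h), if_neg (by simpa using h), mul_zero]
      simp only [h2]
      rw [ENNReal.tsum_mul_left]
      calc ENNReal.ofReal ((ω x).1 e) * _ ≤ ENNReal.ofReal ((ω x).1 e) * 1 := by
            refine mul_le_mul_right (ih {L' | (e :: L') ∈ S} ?_ ω (x + stepVec e)) _
            intro l hl l' hl'
            exact hS (e :: l) hl l' (by simpa using hl')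
        _ = _ := mul_one _

open Classical in
/-- **Kraft inequality** -/
theorem kraft (S : Set (List (Step d))) (hS : ∀ l ∈ S, ∀ l', l ++ l' ∈ S → l' = [])
    (ω : Environment d) (x : Site d) : ∑' l, (if l ∈ S then lw ω x l else 0) ≤ 1 := by
  rw [ENNReal.tsum_eq_iSup_sum]
  refine iSup_le fun F => ?_
  obtain ⟨N, hN⟩ : ∃ N, ∀ l ∈ F, l.length ≤ N :=
    ⟨F.sup List.length, fun l hl => Finset.le_sup (f := List.length) hl⟩
  calc ∑ l ∈ F, (if l ∈ S then lw ω x l else 0)
      = ∑ l ∈ F, (if l ∈ S ∧ l.length ≤ N then lw ω x l else 0) := by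
        refine Finset.sum_congr rfl fun l hl => ?_
        simp [hN l hl]
    _ ≤ ∑' l, (if l ∈ S ∧ l.length ≤ N then lw ω x l else 0) := ENNReal.sum_le_tsum F
    _ ≤ 1 := kraft_le N S hS ω x

/-- first hit of level `h` -/
def FH (u : Step d) (h : ℤ) : Set (List (Step d)) :=
  {l | (∀ y ∈ sitesL 0 l, lev u y < h) ∧ lev u (endp 0 l) = h}

lemma sitesL_append (l l' : List (Step d)) (x : Site d) :
    sitesL x (l ++ l') = sitesL x l ++ sitesL (endp x l) l' := by
  induction l generalizing x with
  | nil => rfl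
  | cons e l ih => simp only [List.cons_append, sitesL, endp, ih]

lemma FH_pf (u : Step d) (h : ℤ) : ∀ l ∈ FH u h, ∀ l', l ++ l' ∈ FH u h → l' = [] := by
  intro l hl l' hl'
  cases l' with
  | nil => rfl
  | cons e l'' =>
    exfalso
    have h1 := hl'.1 (endp 0 l) (by rw [sitesL_append]; simp [sitesL])
    have h2 := hl.2
    omega

open Classical in
lemma kraft_ann (ν : Measure (Row d)) [IsProbabilityMeasure ν] (S : Set (List (Step d)))
    (hS : ∀ l ∈ S, ∀ l', l ++ l' ∈ S → l' = []) (x : Site d) :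
    ∑' l, (if l ∈ S then ∫⁻ ω, lw ω x l ∂(iidEnvironmentLaw ν) else 0) ≤ 1 := by
  have h1 : ∀ l : List (Step d), (if l ∈ S then ∫⁻ ω, lw ω x l ∂(iidEnvironmentLaw ν) else 0)
      = ∫⁻ ω, (if l ∈ S then lw ω x l else 0) ∂(iidEnvironmentLaw ν) := by
    intro l; split_ifs <;> simp
  simp only [h1]
  rw [← lintegral_tsum]
  · calc ∫⁻ ω, ∑' l, (if l ∈ S then lw ω x l else 0) ∂(iidEnvironmentLaw ν)
        ≤ ∫⁻ _, 1 ∂(iidEnvironmentLaw ν) := lintegral_mono fun ω => kraft S hS ω x
      _ = 1 := by simp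
  · intro l
    split_ifs
    · exact (measurable_lw x l).aemeasurable
    · exact aemeasurable_const

lemma lev_ge (u : Step d) (l : List (Step d)) (x : Site d) :
    ∀ y ∈ sitesL x l, lev u x - l.length ≤ lev u y := by
  induction l generalizing x with
  | nil => intro y hy; simp [sitesL] at hy
  | cons e l ih =>
    intro y hy
    simp only [sitesL, List.mem_cons] at hy
    rcases hy with rfl | hy
    · simp only [List.length_cons]; push_cast; omega
    · have h1 := ih (x + stepVec e) y hy
      have h2 : lev u x - 1 ≤ lev u (x + stepVec e) := by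
        unfold lev stepVec
        obtain ⟨i, b⟩ := u
        obtain ⟨j, c⟩ := e
        by_cases hij : i = j
        · subst hij
          cases b <;> cases c <;> simp <;> omega
        · cases b <;> cases c <;> simp [hij]
      simp only [List.length_cons]
      push_cast
      omega

open Classical in
/-- **`u_s → 0`** -/
theorem ret_small (ν : Measure (Row d)) [IsProbabilityMeasure ν] (u : Step d) (h : ℤ)
    (ε : ℝ≥0∞) (hε : ε ≠ 0) : ∃ s0 : ℕ, ∀ s, s0 ≤ s →
      ∑' l : List (Step d), (if (∀ y ∈ sitesL 0 l, lev u y < h) ∧ lev u (endp 0 l) = h ∧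
        (∃ y ∈ sitesL 0 l, lev u y ≤ -(s : ℤ)) then ∫⁻ ω, lw ω 0 l ∂(iidEnvironmentLaw ν) else 0)
        ≤ ε := by
  set f : List (Step d) → ℝ≥0∞ := fun l =>
    if l ∈ FH u h then ∫⁻ ω, lw ω 0 l ∂(iidEnvironmentLaw ν) else 0 with hf
  have hsum : ∑' l, f l ≠ ∞ :=
    ne_top_of_le_ne_top ENNReal.one_ne_top (kraft_ann ν (FH u h) (FH_pf u h) 0)
  have ht := ENNReal.tendsto_tsum_compl_atTop_zero hsum
  have hev := (ht.eventually (gt_mem_nhds (pos_iff_ne_zero.2 hε))).exists
  obtain ⟨F, hF⟩ := hev
  refine ⟨F.sup List.length + 1, fun s hs => ?_⟩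
  refine le_trans ?_ hF.le
  have h1 : ∀ l : List (Step d), (if (∀ y ∈ sitesL 0 l, lev u y < h) ∧ lev u (endp 0 l) = h ∧
        (∃ y ∈ sitesL 0 l, lev u y ≤ -(s : ℤ)) then ∫⁻ ω, lw ω 0 l ∂(iidEnvironmentLaw ν) else 0)
      ≤ (({l | l ∉ F} : Set (List (Step d))).indicator f l) := by
    intro l
    split_ifs with hc
    · have hl : l ∉ F := by
        intro hlF
        obtain ⟨y, hy, hy2⟩ := hc.2.2
        have h3 := lev_ge u l 0 y hy
        have h4 : l.length ≤ F.sup List.length := Finset.le_sup (f := List.length) hlF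
        have h5 : lev u (0 : Site d) = 0 := by unfold lev; split_ifs <;> simp
        rw [h5] at h3
        omega
      rw [Set.indicator_of_mem (by exact hl)]
      simp only [hf]
      rw [if_pos (show l ∈ FH u h from ⟨hc.1, hc.2.1⟩)]
    · exact zero_le
  refine (ENNReal.tsum_le_tsum h1).trans ?_
  rw [← tsum_subtype]
  exact le_rfl

open Classical in
theorem ret_small_unif (ν : Measure (Row d)) [IsProbabilityMeasure ν] (u : Step d) (i0 : ℕ)
    (ε : ℝ≥0∞) (hε : ε ≠ 0) : ∃ s0 : ℕ, ∀ s, s0 ≤ s → ∀ h : ℕ, h ≤ i0 →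
      ∑' l : List (Step d), (if (∀ y ∈ sitesL 0 l, lev u y < h) ∧ lev u (endp 0 l) = h ∧
        (∃ y ∈ sitesL 0 l, lev u y ≤ -(s : ℤ)) then ∫⁻ ω, lw ω 0 l ∂(iidEnvironmentLaw ν) else 0)
        ≤ ε := by
  choose g hg using fun h : ℕ => ret_small ν u (h : ℤ) ε hε
  refine ⟨(Finset.range (i0 + 1)).sup g, fun s hs h hh => hg h s (le_trans ?_ hs)⟩
  exact Finset.le_sup (f := g) (Finset.mem_range.2 (by omega))

end Crest.Agent.R154.RetW458
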