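import Crest.Agent.R154.Us_778
import Crest.Agent.R154.Flux2_566

/-! Row 154, T0219, ROAD 801 (helper778): sums over prefix-free sets of words are path probabilities;
in particular the annealed weight of the words which dip `s` below the start and come back is at
most `annealed Q 0 (Dip e0 s)`. -/

set_option autoImplicit false

open MeasureTheory ProbabilityTheory Crest.ProbabilityR.RandomEnvironment
open Filter
open scoped ENNReal Topology

namespace Crest.Agent.R154.Us778

open Flux566

variable {d : ℕ}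

lemma stepVec_inj : Function.Injective (stepVec : Step d → Site d) := by
  rintro ⟨i, b⟩ ⟨i', b'⟩ h
  unfold stepVec at h
  simp only at h
  have hi : i = i' := by
    by_contra hne
    have := congrFun h i
    rw [Pi.single_eq_same, Pi.single_eq_of_ne hne] at this
    cases b <;> simp at this
  subst hi
  have := congrFun h i
  rw [Pi.single_eq_same, Pi.single_eq_same] at this
  cases b <;> cases b' <;> simp at this <;> rfl

/-- a path which follows two words: one is a prefix of the other -/
lemma fol_prefix (l l' : List (Step d)) (X : Path d) (h : X ∈ Fol l (Set.univ : Set (Path d)))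
    (h' : X ∈ Fol l' (Set.univ : Set (Path d))) : l <+: l' ∨ l' <+: l := by
  induction l generalizing l' X with
  | nil => exact Or.inl (List.nil_prefix)
  | cons e l ih =>
    cases l' with
    | nil => exact Or.inr (List.nil_prefix)
    | cons e' l' =>
      obtain ⟨h1, h2⟩ := h
      obtain ⟨h1', h2'⟩ := h'
      have he : e = e' := stepVec_inj (by
        have := h1.symm.trans h1'
        exact add_left_cancel this)
      subst he
      rcases ih l' (shift 1 X) h2 h2' with h3 | h3
      · exact Or.inl ((List.prefix_cons_inj e).2 h3)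
      · exact Or.inr ((List.prefix_cons_inj e).2 h3)

/-- positions of a path which follows a word -/
lemma fol_pos (l1 l2 : List (Step d)) (X : Path d)
    (h : X ∈ Fol (l1 ++ l2) (Set.univ : Set (Path d))) : X l1.length = endp (X 0) l1 := by
  induction l1 generalizing X with
  | nil => rfl
  | cons e l ih =>
    obtain ⟨h1, h2⟩ := h
    have h3 := ih (shift 1 X) h2
    have e1 : shift 1 X l.length = X (l.length + 1) := by
      simp only [shift]; rw [Nat.add_comm]
    have e2 : shift 1 X 0 = X 0 + stepVec e := by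
      rw [← h1]; simp only [shift, Nat.add_zero]
    rw [e1, e2] at h3
    simpa only [List.length_cons, endp] using h3

lemma lw_le_fol (ω : Environment d) (x : Site d) (l : List (Step d)) :
    lw ω x l ≤ quenchedLaw ω x (Fol l Set.univ) := by
  have h := fol_ge ω l x (B := Set.univ) MeasurableSet.univ
  rwa [measure_univ, mul_one] at h

open Classical in
/-- **a prefix-free set of words weighs at most the probability of what its paths do** (quenched). -/
theorem pf_sum_le_quenched (ω : Environment d) (x : Site d) (T : Set (List (Step d)))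
    (hT : ∀ l ∈ T, ∀ l' ∈ T, l <+: l' → l = l') {S : Set (Path d)}
    (hsub : ∀ l ∈ T, ∀ X : Path d, X 0 = x → X ∈ Fol l Set.univ → X ∈ S) :
    ∑' l, (if l ∈ T then lw ω x l else 0) ≤ quenchedLaw ω x S := by
  have h1 : ∑' l, (if l ∈ T then lw ω x l else 0)
      ≤ ∑' l, (if l ∈ T then quenchedLaw ω x (Fol l Set.univ) else 0) :=
    ENNReal.tsum_le_tsum fun l => by
      split_ifs
      · exact lw_le_fol ω x l
      · exact le_rfl
  have h2 : ∑' l, (if l ∈ T then quenchedLaw ω x (Fol l Set.univ) else 0)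
      = quenchedLaw ω x (⋃ l : T, Fol (l : List (Step d)) Set.univ) := by
    rw [measure_iUnion]
    · rw [tsum_subtype T (fun l => quenchedLaw ω x (Fol l Set.univ))]
      exact tsum_congr fun l => by simp [Set.indicator_apply]
    · rintro ⟨l, hl⟩ ⟨l', hl'⟩ hne
      change Disjoint (Fol l Set.univ) (Fol l' Set.univ)
      rw [Set.disjoint_left]
      intro X hX hX'
      apply hne
      rcases fol_prefix l l' X hX hX' with h | h
      · exact Subtype.ext (hT l hl l' hl' h)
      · exact Subtype.ext (hT l' hl' l hl h).symm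
    · intro l
      exact measurableSet_Fol _ MeasurableSet.univ
  refine h1.trans (h2.le.trans (measure_mono_ae ?_))
  filter_upwards [quenched_zero_eq ω x] with X hX hmem
  obtain ⟨⟨l, hl⟩, hXl⟩ := Set.mem_iUnion.1 hmem
  exact hsub l hl X hX hXl

open Classical in
/-- annealed form -/
theorem pf_sum_le (Q : Measure (Environment d)) [IsProbabilityMeasure Q] (x : Site d)
    (T : Set (List (Step d))) (hT : ∀ l ∈ T, ∀ l' ∈ T, l <+: l' → l = l')
    {S : Set (Path d)} (hS : MeasurableSet S)
    (hsub : ∀ l ∈ T, ∀ X : Path d, X 0 = x → X ∈ Fol l Set.univ → X ∈ S) :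
    ∑' l, (if l ∈ T then ∫⁻ ω, lw ω x l ∂Q else 0) ≤ annealed Q x S := by
  have h1 : ∑' l, (if l ∈ T then ∫⁻ ω, lw ω x l ∂Q else 0)
      = ∫⁻ ω, ∑' l, (if l ∈ T then lw ω x l else 0) ∂Q := by
    rw [lintegral_tsum]
    · refine tsum_congr fun l => ?_
      split_ifs <;> simp
    · intro l
      split_ifs
      · exact (measurable_lw x l).aemeasurable
      · exact measurable_const.aemeasurable
  rw [h1, annealed_apply Q x hS]
  exact lintegral_mono fun ω => pf_sum_le_quenched ω x T hT hsub

open Classical in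
/-- **the words which dip `s` below the start and come back.** -/
theorem dip_words (Q : Measure (Environment d)) [IsProbabilityMeasure Q] (e0 : Step d) (s : ℕ)
    (T : Set (List (Step d))) (hT : ∀ l ∈ T, ∀ l' ∈ T, l <+: l' → l = l')
    (h : ∀ l ∈ T, (∃ l1, l1 <+: l ∧ lev e0 (endp 0 l1) ≤ -(s : ℤ)) ∧ 0 ≤ lev e0 (endp 0 l)) :
    ∑' l, (if l ∈ T then ∫⁻ ω, lw ω 0 l ∂Q else 0) ≤ annealed Q 0 (Dip e0 s) := by
  refine pf_sum_le Q 0 T hT (measurableSet_Dip e0 s) fun l hl X hX0 hX => ?_
  obtain ⟨⟨l1, ⟨l2, hl2⟩, h1⟩, h2⟩ := h l hl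
  refine ⟨l1.length, l.length, ?_, ?_, ?_⟩
  · rw [← hl2, List.length_append]; omega
  · have := fol_pos l1 l2 X (by rw [hl2]; exact hX)
    rw [this, hX0]; exact h1
  · have := fol_pos l [] X (by rw [List.append_nil]; exact hX)
    rw [this, hX0]; exact h2

open Classical in
/-- **the words which climb `s` above the start and come back.** -/
theorem bump_words (Q : Measure (Environment d)) [IsProbabilityMeasure Q] (e0 : Step d) (s : ℕ)
    (T : Set (List (Step d))) (hT : ∀ l ∈ T, ∀ l' ∈ T, l <+: l' → l = l')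
    (h : ∀ l ∈ T, (∃ l1, l1 <+: l ∧ (s : ℤ) ≤ lev e0 (endp 0 l1)) ∧ lev e0 (endp 0 l) ≤ 0) :
    ∑' l, (if l ∈ T then ∫⁻ ω, lw ω 0 l ∂Q else 0) ≤ annealed Q 0 (Bump e0 s) := by
  refine pf_sum_le Q 0 T hT (measurableSet_Bump e0 s) fun l hl X hX0 hX => ?_
  obtain ⟨⟨l1, ⟨l2, hl2⟩, h1⟩, h2⟩ := h l hl
  refine ⟨l1.length, l.length, ?_, ?_, ?_⟩
  · rw [← hl2, List.length_append]; omega
  · have := fol_pos l1 l2 X (by rw [hl2]; exact hX)
    rw [this, hX0]; exact h1
  · have := fol_pos l [] X (by rw [List.append_nil]; exact hX)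
    rw [this, hX0]; exact h2

/-- one sequence `us` for both, tending to `0` -/
noncomputable def us (ν : Measure (Row d)) [IsProbabilityMeasure ν] (e0 : Step d) (s : ℕ) : ℝ≥0∞ :=
  annealed (iidEnvironmentLaw ν) 0 (Dip e0 s) + annealed (iidEnvironmentLaw ν) 0 (Bump e0 s)

theorem us_tendsto_zero (ν : Measure (Row d)) [IsProbabilityMeasure ν]
    (hν : ∀ᵐ p ∂ν, ∀ e : Step d, 0 < p.1 e) (e0 : Step d)
    (h : annealedProb (iidEnvironmentLaw ν) 0 (escapeEvent (Flux566.dir e0)) ≠ 0) :
    Tendsto (us ν e0) atTop (𝓝 0) := by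
  have := (dip_tendsto ν hν e0 h).add (bump_tendsto ν hν e0 h)
  rwa [add_zero] at this

theorem us_eventually (ν : Measure (Row d)) [IsProbabilityMeasure ν]
    (hν : ∀ᵐ p ∂ν, ∀ e : Step d, 0 < p.1 e) (e0 : Step d)
    (h : annealedProb (iidEnvironmentLaw ν) 0 (escapeEvent (Flux566.dir e0)) ≠ 0)
    (η : ℝ≥0∞) (hη : η ≠ 0) : ∃ s0 : ℕ, ∀ s, s0 ≤ s → us ν e0 s ≤ η := by
  have h1 := (us_tendsto_zero ν hν e0 h).eventually (Iic_mem_nhds (pos_iff_ne_zero.2 hη))
  obtain ⟨s0, hs0⟩ := eventually_atTop.1 h1
  exact ⟨s0, fun s hs => hs0 s hs⟩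

end Crest.Agent.R154.Us778
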