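import Crest.Agent.R154.H2w_386
import Crest.Agent.R154.H3_799
import Crest.Agent.R154.UsW_778
import Crest.Agent.R154.RetW_458
import Crest.Agent.R154.B5Br_657

/-! Row 154, ROAD 801 (helper657): the window lemmas (2), (3) in the frame of the joint cuts
(`E2`, `E3` of 912: common height `H`, no offset), from 386's `core` and 799's `h3core`. -/

set_option autoImplicit false

namespace Crest.Agent.R154.E23W

open MeasureTheory ProbabilityTheory Crest.ProbabilityR.RandomEnvironment Crest.Agent.R154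
open Crest.Agent.R154.Flux132 (lev opp)
open Crest.Agent.R154.Flux566 (lw endp sitesL endp_eq_add)
open Crest.Agent.R154.NB28 (IsUp IsDn aw Cm)
open scoped ENNReal

variable {d : ℕ}

lemma lev_add' (u : Step d) (x y : Site d) : lev u (x + y) = lev u x + lev u y :=
  Flux566.lev_add u x y

lemma lev_neg' (u : Step d) (x : Site d) : lev u (-x) = - lev u x := Flux566.lev_neg u x

lemma lev_sub' (u : Step d) (x y : Site d) : lev u (x - y) = lev u x - lev u y := by
  rw [sub_eq_add_neg, lev_add', lev_neg']; ring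

lemma lev_self' (u : Step d) : lev u (stepVec u) = 1 := Flux566.lev_self u

lemma lev_opp' (u : Step d) (x : Site d) : lev (opp u) x = - lev u x := by
  obtain ⟨i, b⟩ := u
  cases b <;> simp [lev, opp]

/-- contacts in the frame of the core lemmas -/
lemma contact_iff (u : Step d) (x y : Site d) (π γ : List (Step d))
    (hx : x = stepVec u - endp 0 π - y) (h0 : lev u x = 0) (k : ℕ) :
    k ∈ Cm u x π γ ↔ ∃ z, z ∈ sitesL y π ∧ z ∈ sitesL 0 γ ∧ lev u z = 1 - (k : ℤ) := by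
  have h1 : lev u (y + endp 0 π) = 1 := by
    have : y + endp 0 π = stepVec u - x := by rw [hx]; abel
    rw [this, lev_sub', lev_self', h0, sub_zero]
  simp only [Cm, Set.mem_ofPred_eq]
  constructor
  · rintro ⟨s, hs1, hs2, hk⟩
    refine ⟨(y + endp 0 π) + s, ?_, ?_, ?_⟩
    · have := (B5W.mem_sitesL_add (y + endp 0 π) (-endp 0 π) s π).2 hs1
      rwa [add_neg_cancel_right] at this
    · have := (B5W.mem_sitesL_add (y + endp 0 π) (x + stepVec (opp u)) s γ).2 hs2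
      rwa [show y + endp 0 π + (x + stepVec (opp u)) = 0 by
        rw [B5W.stepVec_opp', hx]; abel] at this
    · rw [lev_add', h1, hk]; ring
  · rintro ⟨z, hz1, hz2, hk⟩
    refine ⟨-(y + endp 0 π) + z, ?_, ?_, ?_⟩
    · have := (B5W.mem_sitesL_add (-(y + endp 0 π)) y z π).2 hz1
      rwa [show -(y + endp 0 π) + y = - endp 0 π by abel] at this
    · have := (B5W.mem_sitesL_add (-(y + endp 0 π)) 0 z γ).2 hz2
      rwa [show -(y + endp 0 π) + 0 = x + stepVec (opp u) by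
        rw [B5W.stepVec_opp', hx]; abel] at this
    · rw [lev_add', lev_neg', h1, hk]; ring

/-- the contact levels seen from above -/
lemma contact_nat {u : Step d} {H : ℕ} {γ : List (Step d)} (hγ : IsDn u H γ) {z : Site d}
    (hz : z ∈ sitesL 0 γ) : ∃ k : ℕ, lev u z = 1 - (k : ℤ) := by
  have := (hγ.1 z hz).2
  exact ⟨(1 - lev u z).toNat, by omega⟩

open Classical in
noncomputable def us (ν : Measure (Row d)) [IsProbabilityMeasure ν] (u : Step d) (s : ℕ) : ℝ≥0∞ :=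
  H2w386.UU ν u 1 (-(s : ℤ)) + Tie799.ret ν u (s : ℤ) 1

open Classical in
/-- exchange: hang the up word from its top -/
lemma swap (u : Step d) (F : Site d → List (Step d) → List (Step d) → ℝ≥0∞) :
    ∑' x, ∑' π, ∑' γ, F x π γ
      = ∑' y, ∑' π, ∑' γ, F (stepVec u - endp 0 π - y) π γ := by
  rw [ENNReal.tsum_comm]
  rw [ENNReal.tsum_comm (f := fun y π => ∑' γ, F (stepVec u - endp 0 π - y) π γ)]
  refine tsum_congr fun π => ?_
  exact ((Equiv.subLeft (stepVec u - endp 0 π)).tsum_eq (fun x => ∑' γ, F x π γ)).symm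

open Classical in
/-- **E2** (common height, the up walker local) -/
theorem e2 (ν : Measure (Row d)) [IsProbabilityMeasure ν] (u : Step d) (s H : ℕ)
    (E : Finset (Site d)) (μ : Site d → ℝ≥0∞) (M lam : ℝ≥0∞) (hμ : ∑' x, μ x ≤ 1)
    (hM : ∀ x, μ x ≤ M) (hl : lam ≠ 0) (hl' : lam ≠ ⊤) :
    ∑' x, (if lev u x = 0 then μ x * ∑' π, ∑' γ,
      (if IsUp u H π ∧ endp 0 π ∈ E ∧ IsDn u H γ ∧ (∃ k, k ∈ Cm u x π γ) ∧
        (∀ k ∈ Cm u x π γ, s < k) then aw ν π * aw ν γ else 0) else 0)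
      ≤ 8 * (lam + M * E.card * us ν u s / lam + us ν u s) := by
  have h1 : ∑' x, (if lev u x = 0 then μ x * ∑' π, ∑' γ,
      (if IsUp u H π ∧ endp 0 π ∈ E ∧ IsDn u H γ ∧ (∃ k, k ∈ Cm u x π γ) ∧
        (∀ k ∈ Cm u x π γ, s < k) then aw ν π * aw ν γ else 0) else 0)
      = ∑' x, ∑' π, ∑' γ, (if lev u x = 0 ∧ IsUp u H π ∧ endp 0 π ∈ E ∧ IsDn u H γ ∧
        (∃ k, k ∈ Cm u x π γ) ∧ (∀ k ∈ Cm u x π γ, s < k)
        then μ x * (aw ν π * aw ν γ) else 0) := by
    refine tsum_congr fun x => ?_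
    by_cases hx : lev u x = 0
    · rw [if_pos hx, ← ENNReal.tsum_mul_left]
      refine tsum_congr fun π => ?_
      rw [← ENNReal.tsum_mul_left]
      refine tsum_congr fun γ => ?_
      simp only [hx, true_and, mul_ite, mul_zero]
    · simp [hx]
  rw [h1, swap u]
  have h2 := H2w386.core ν u H H 1 (-(s : ℤ)) E (fun z => μ (stepVec u - z)) M lam
    (fun z => hM _) hl hl'
  have h3 : ∑' z, μ (stepVec u - z) ≤ 1 := by
    exact ((Equiv.subLeft (stepVec u)).tsum_eq μ).le.trans hμ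
  have h4 : H2w386.UU ν u 1 (-(s : ℤ)) ≤ us ν u s := le_add_right le_rfl
  calc _ ≤ _ := ?_
    _ ≤ _ := h2
    _ ≤ (lam + us ν u s) * 1 + M * E.card * us ν u s / lam := by gcongr
    _ = 1 * (lam + M * E.card * us ν u s / lam + us ν u s) := by ring
    _ ≤ _ := by gcongr; norm_num
  refine ENNReal.tsum_le_tsum fun y => ENNReal.tsum_le_tsum fun π => ENNReal.tsum_le_tsum fun γ => ?_
  split_ifs with a b b
  · rw [show stepVec u - endp 0 π - y = stepVec u - (y + endp 0 π) by abel]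
  · exfalso
    obtain ⟨a1, a2, a3, a4, ⟨k, a5⟩, a6⟩ := a
    apply b
    refine ⟨?_, a2, a3, a4, fun z hz1 hz2 => ?_, ?_⟩
    · have : y + endp 0 π = stepVec u - (stepVec u - endp 0 π - y) := by abel
      rw [this, lev_sub', lev_self', a1, sub_zero]
    · obtain ⟨k', hk'⟩ := contact_nat a4 hz2
      have := a6 k' ((contact_iff u _ y π γ rfl a1 k').2 ⟨z, hz1, hz2, hk'⟩)
      omega
    · obtain ⟨z, hz1, hz2, -⟩ := (contact_iff u _ y π γ rfl a1 k).1 a5
      exact ⟨z, hz1, hz2⟩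
  · exact zero_le
  · exact le_rfl

open Classical in
/-- **E3** (common height, the down walker local) -/
theorem e3 (ν : Measure (Row d)) [IsProbabilityMeasure ν] (u : Step d) (s H : ℕ)
    (E : Finset (Site d)) (μ : Site d → ℝ≥0∞) (M lam : ℝ≥0∞) (hμ : ∑' x, μ x ≤ 1)
    (hM : ∀ x, μ x ≤ M) (hl : lam ≠ 0) (hl' : lam ≠ ⊤) :
    ∑' x, (if lev u x = 0 then μ x * ∑' π, ∑' γ,
      (if IsUp u H π ∧ endp 0 γ ∈ E ∧ IsDn u H γ ∧ (∃ k, k ∈ Cm u x π γ) ∧
        (∀ k ∈ Cm u x π γ, k + s ≤ H) then aw ν π * aw ν γ else 0) else 0)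
      ≤ 8 * (lam + M * E.card * us ν u s / lam + us ν u s) := by
  have h1 : ∑' x, (if lev u x = 0 then μ x * ∑' π, ∑' γ,
      (if IsUp u H π ∧ endp 0 γ ∈ E ∧ IsDn u H γ ∧ (∃ k, k ∈ Cm u x π γ) ∧
        (∀ k ∈ Cm u x π γ, k + s ≤ H) then aw ν π * aw ν γ else 0) else 0)
      = ∑' x, ∑' π, ∑' γ, (if lev u x = 0 ∧ IsUp u H π ∧ endp 0 γ ∈ E ∧ IsDn u H γ ∧
        (∃ k, k ∈ Cm u x π γ) ∧ (∀ k ∈ Cm u x π γ, k + s ≤ H)
        then μ x * (aw ν π * aw ν γ) else 0) := by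
    refine tsum_congr fun x => ?_
    by_cases hx : lev u x = 0
    · rw [if_pos hx, ← ENNReal.tsum_mul_left]
      refine tsum_congr fun π => ?_
      rw [← ENNReal.tsum_mul_left]
      refine tsum_congr fun γ => ?_
      simp only [hx, true_and, mul_ite, mul_zero]
    · simp [hx]
  rw [h1, swap u]
  have h3 : ∑' z, μ (stepVec u - z) ≤ 1 := by
    exact ((Equiv.subLeft (stepVec u)).tsum_eq μ).le.trans hμ
  have h2 := Tie799.h3core ν u H H ((H : ℤ) - 1) ((H : ℤ) - 1 - s) E (fun z => μ (stepVec u - z))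
    (min M 1) lam (ne_top_of_le_ne_top ENNReal.one_ne_top (min_le_right _ _)) hl hl'
    (fun z => le_min (hM _) ((ENNReal.le_tsum (f := μ) _).trans hμ)) h3 (by omega)
  have h4 : Tie799.ret ν u (s : ℤ) 1 ≤ us ν u s := le_add_left le_rfl
  have e1 : (H : ℤ) - 1 - ((H : ℤ) - 1 - s) = s := by ring
  have e2 : (H : ℤ) - ((H : ℤ) - 1) = 1 := by ring
  rw [e1, e2] at h2
  calc _ ≤ _ := ?_
    _ ≤ _ := h2
    _ ≤ 8 * lam + 2 * (M * (E.card * us ν u s) / lam) := by gcongr; exact min_le_left _ _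
    _ ≤ 8 * lam + 8 * (M * (E.card * us ν u s) / lam) + 8 * us ν u s :=
        le_add_right (by gcongr; norm_num)
    _ = _ := by rw [mul_assoc M]; ring
  refine ENNReal.tsum_le_tsum fun y => ?_
  rw [ENNReal.tsum_comm]
  by_cases hy : lev u y = -((H : ℤ) - 1)
  · rw [if_pos hy]
    refine ENNReal.tsum_le_tsum fun γ => ENNReal.tsum_le_tsum fun π => ?_
    split_ifs with a b b
    · rw [show stepVec u - endp 0 π - y = stepVec u - (y + endp 0 π) by abel,
        ← endp_eq_add π y]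
      rw [mul_comm (μ _), mul_comm (aw ν π)]
      exact le_rfl
    · exfalso
      obtain ⟨a1, a2, a3, a4, ⟨k, a5⟩, a6⟩ := a
      apply b
      obtain ⟨z, hz1, hz2, -⟩ := (contact_iff u _ y π γ rfl a1 k).1 a5
      refine ⟨a4, a3, a2, ⟨z, hz1, hz2⟩, fun z hz1 hz2 => ?_⟩
      obtain ⟨k', hk'⟩ := contact_nat a4 hz2
      have := a6 k' ((contact_iff u _ y π γ rfl a1 k').2 ⟨z, hz1, hz2, hk'⟩)
      omega
    · exact zero_le
    · exact le_rfl
  · rw [if_neg hy]
    refine le_of_eq ?_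
    rw [ENNReal.tsum_eq_zero]
    intro γ
    rw [ENNReal.tsum_eq_zero]
    intro π
    rw [if_neg]
    rintro ⟨a1, a2, -⟩
    apply hy
    have h5 := a2.2
    rw [lev_sub', lev_sub', lev_self'] at a1
    linarith

open Classical in
theorem us_small (ν : Measure (Row d)) [IsProbabilityMeasure ν]
    (hν : ∀ᵐ p ∂ν, ∀ e : Step d, 0 < p.1 e) (u : Step d)
    (h : annealedProb (iidEnvironmentLaw ν) 0 (escapeEvent (Flux566.dir u)) ≠ 0)
    (ε : ℝ≥0∞) (hε : ε ≠ 0) : ∃ s0 : ℕ, ∀ s, s0 ≤ s → us ν u s ≤ ε := by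
  have hε2 : ε / 2 ≠ 0 := (ENNReal.half_pos hε).ne'
  obtain ⟨s1, hs1⟩ := Filter.eventually_atTop.1
    ((Us778.dip_tendsto ν hν u h).eventually (Iic_mem_nhds (pos_iff_ne_zero.2 hε2)))
  obtain ⟨s2, hs2⟩ := RetW458.ret_small ν (opp u) 1 (ε / 2) hε2
  refine ⟨max s1 s2, fun s hs => ?_⟩
  have ha : H2w386.UU ν u 1 (-(s : ℤ)) ≤ ε / 2 := by
    refine le_trans ?_ (hs1 s (le_trans (le_max_left _ _) hs))
    refine Us778.dip_words (iidEnvironmentLaw ν) u s (H2w386.TT u 1 (-(s : ℤ)))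
      (fun l hl l' hl' hp => H2w386.pf_TT u 1 _ l hl l' hl' hp) fun l hl => ?_
    obtain ⟨⟨⟨γ, hγ, hγ2⟩, h2⟩, -⟩ := hl
    exact ⟨⟨γ, hγ, hγ2⟩, le_trans zero_le_one h2⟩
  have hb : Tie799.ret ν u (s : ℤ) 1 ≤ ε / 2 := by
    refine le_trans (le_of_eq ?_) (hs2 s (le_trans (le_max_right _ _) hs))
    unfold Tie799.ret
    refine tsum_congr fun l => ?_
    have : ((∀ y ∈ sitesL 0 l, -1 < lev u y) ∧ lev u (endp 0 l) = -1 ∧
        (∃ y ∈ sitesL 0 l, (s : ℤ) ≤ lev u y)) ↔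
      ((∀ y ∈ sitesL 0 l, Flux566.lev (opp u) y < 1) ∧ Flux566.lev (opp u) (endp 0 l) = 1 ∧
        (∃ y ∈ sitesL 0 l, Flux566.lev (opp u) y ≤ -(s : ℤ))) := by
      have e : ∀ y, Flux566.lev (opp u) y = - lev u y := fun y => lev_opp' u y
      simp only [e]
      constructor
      · rintro ⟨p1, p2, y, p3, p4⟩
        exact ⟨fun y hy => by have := p1 y hy; omega, by omega, y, p3, by omega⟩
      · rintro ⟨p1, p2, y, p3, p4⟩
        exact ⟨fun y hy => by have := p1 y hy; omega, by omega, y, p3, by omega⟩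
    by_cases hc : ((∀ y ∈ sitesL 0 l, -1 < lev u y) ∧ lev u (endp 0 l) = -1 ∧
        (∃ y ∈ sitesL 0 l, (s : ℤ) ≤ lev u y))
    · rw [if_pos hc, if_pos (this.1 hc)]
      rfl
    · rw [if_neg hc, if_neg (fun h => hc (this.2 h))]
  calc us ν u s ≤ ε / 2 + ε / 2 := add_le_add ha hb
    _ = ε := ENNReal.add_halves ε

end Crest.Agent.R154.E23W
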