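import Crest.Agent.R154.B5Abs_566

/-! Row 154, ROAD 801, leaf (C) (helper430): concentration of the displacement at a renewal height,
in the list letters of B5Abs_566. -/

set_option autoImplicit false

namespace Crest.Agent.R154.Conc430

open scoped ENNReal
open Crest.Agent.R154.B5A

section coin

variable {G : Type*} [AddCommGroup G]

/-- expectation over `c` fair coins of step `v` -/
noncomputable def E (v : G) : ℕ → (G → ℝ≥0∞) → G → ℝ≥0∞
  | 0, ψ, y => ψ y
  | c + 1, ψ, y => (E v c ψ y + E v c ψ (y + v)) / 2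

lemma E_trans (v a : G) (c : ℕ) (ψ : G → ℝ≥0∞) (y : G) :
    E v c (fun z => ψ (a + z)) y = E v c ψ (a + y) := by
  induction c generalizing y with
  | zero => rfl
  | succ c ih => simp only [E]; rw [ih, ih, add_assoc]

lemma half_add (b : ℝ≥0∞) : (b + b) / 2 = b := by
  rw [ENNReal.add_div, ENNReal.add_halves]

lemma E_le (v : G) (c : ℕ) (ψ : G → ℝ≥0∞) (b : ℝ≥0∞) (h : ∀ y, ψ y ≤ b) (y : G) :
    E v c ψ y ≤ b := by
  induction c generalizing y with
  | zero => exact h y
  | succ c ih =>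
    simp only [E]
    calc _ ≤ (b + b) / 2 := ENNReal.div_le_div_right (add_le_add (ih _) (ih _)) _
      _ = b := half_add b

lemma E_add_le (v : G) (c0 k : ℕ) (ψ : G → ℝ≥0∞) (b : ℝ≥0∞) (h : ∀ y, E v c0 ψ y ≤ b) (y : G) :
    E v (c0 + k) ψ y ≤ b := by
  induction k generalizing y with
  | zero => exact h y
  | succ k ih =>
    rw [← add_assoc]
    simp only [E]
    calc _ ≤ (b + b) / 2 := ENNReal.div_le_div_right (add_le_add (ih _) (ih _)) _
      _ = b := half_add b

lemma E_zero (v : G) (c : ℕ) (y : G) : E v c (fun _ => 0) y = 0 := by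
  have := E_le v c (fun _ => 0) 0 (fun _ => le_rfl) y
  exact le_antisymm this zero_le

open Classical in
/-- indicator of a point -/
noncomputable def ind (x : G) : G → ℝ≥0∞ := fun y => if y = x then 1 else 0

lemma E_ind_zero (v x : G) (c : ℕ) (y : G) (h : ∀ k : ℕ, y + k • v ≠ x) :
    E v c (ind x) y = 0 := by
  induction c generalizing y with
  | zero =>
    have := h 0
    simp only [zero_smul, add_zero] at this
    simp [E, ind, this]
  | succ c ih =>
    simp only [E]
    rw [ih y h, ih (y + v)]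
    · simp
    · intro k hk
      apply h (k + 1)
      rw [← hk, succ_nsmul']
      abel

lemma E_ind (v x : G) (hv : ∀ k : ℕ, k ≠ 0 → k • v ≠ 0) (c : ℕ) (k : ℕ) (y : G)
    (h : y + k • v = x) : E v c (ind x) y = (c.choose k : ℝ≥0∞) / 2 ^ c := by
  induction c generalizing y k with
  | zero =>
    rcases k with _ | k
    · simp only [zero_smul, add_zero] at h
      simp [E, ind, h]
    · have : y ≠ x := by
        intro hy
        apply hv (k + 1) (by omega)
        rw [hy] at h
        simpa using h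
      simp [E, ind, this]
  | succ c ih =>
    simp only [E]
    have h2 : (2 : ℝ≥0∞) ^ (c + 1) = 2 ^ c * 2 := pow_succ _ _
    rcases k with _ | k
    · rw [ih 0 y h, E_ind_zero v x c (y + v)]
      · rw [h2]
        simp only [Nat.choose_zero_right, Nat.cast_one, add_zero, one_div]
        rw [ENNReal.mul_inv (by simp) (by simp), ENNReal.div_eq_inv_mul, mul_comm]
      · intro k hk
        simp only [zero_smul, add_zero] at h
        apply hv (k + 1) (by omega)
        rw [succ_nsmul']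
        rw [h, add_assoc] at hk
        simpa using hk
    · rw [ih (k + 1) y h, ih k (y + v)]
      · rw [Nat.choose_succ_succ, h2, ← ENNReal.add_div, ENNReal.div_eq_inv_mul,
          ENNReal.div_eq_inv_mul, ENNReal.div_eq_inv_mul, ENNReal.mul_inv (by simp) (by simp)]
        push_cast
        ring
      · rw [← h, succ_nsmul']
        abel

lemma cb_sq (n : ℕ) : n.centralBinom ^ 2 * (2 * n + 1) ≤ 16 ^ n := by
  induction n with
  | zero => simp
  | succ n ih =>
    have h := Nat.succ_mul_centralBinom_succ n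
    have h1 : (n + 1) ^ 2 * ((n + 1).centralBinom ^ 2 * (2 * (n + 1) + 1))
        ≤ (n + 1) ^ 2 * 16 ^ (n + 1) := by
      calc (n + 1) ^ 2 * ((n + 1).centralBinom ^ 2 * (2 * (n + 1) + 1))
          = ((n + 1) * (n + 1).centralBinom) ^ 2 * (2 * n + 3) := by ring
        _ = (2 * (2 * n + 1) * n.centralBinom) ^ 2 * (2 * n + 3) := by rw [h]
        _ = (n.centralBinom ^ 2 * (2 * n + 1)) * (4 * ((2 * n + 1) * (2 * n + 3))) := by ring
        _ ≤ 16 ^ n * (4 * ((2 * n + 1) * (2 * n + 3))) := Nat.mul_le_mul_right _ ih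
        _ ≤ 16 ^ n * (16 * (n + 1) ^ 2) := Nat.mul_le_mul_left _ (by nlinarith)
        _ = (n + 1) ^ 2 * 16 ^ (n + 1) := by ring
    exact Nat.le_of_mul_le_mul_left h1 (by positivity)

lemma cb_small (ε : ℝ≥0∞) (hε : ε ≠ 0) :
    ∃ n : ℕ, (n.centralBinom : ℝ≥0∞) / 4 ^ n ≤ ε := by
  set δ : ℝ := (min ε 1).toReal with hδ
  have hmt : min ε 1 ≠ ⊤ := ne_top_of_le_ne_top ENNReal.one_ne_top (min_le_right _ _)
  have hδ0 : 0 < δ := ENNReal.toReal_pos (by simp [hε]) hmt
  obtain ⟨n, hn⟩ := exists_nat_gt (1 / δ ^ 2)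
  refine ⟨n, ?_⟩
  have h1 : (n.centralBinom : ℝ) / 4 ^ n ≤ δ := by
    have h2 : (n.centralBinom : ℝ) ^ 2 * (2 * n + 1) ≤ 16 ^ n := by exact_mod_cast cb_sq n
    have h3 : 1 ≤ δ ^ 2 * (2 * n + 1) := by
      have : 1 < n * δ ^ 2 := by rwa [div_lt_iff₀ (by positivity)] at hn
      nlinarith [sq_nonneg δ, hδ0]
    have h4 : (n.centralBinom : ℝ) ^ 2 ≤ (δ * 4 ^ n) ^ 2 := by
      have h5 : (δ * 4 ^ n) ^ 2 = δ ^ 2 * 16 ^ n := by
        rw [mul_pow, ← pow_mul, mul_comm n 2, pow_mul]; norm_num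
      rw [h5]
      have h6 : (0 : ℝ) ≤ (n.centralBinom : ℝ) ^ 2 := by positivity
      have h7 : (0:ℝ) < δ ^ 2 := by positivity
      calc (n.centralBinom : ℝ) ^ 2 ≤ (n.centralBinom : ℝ) ^ 2 * (δ ^ 2 * (2 * n + 1)) := by
            nlinarith
        _ = δ ^ 2 * ((n.centralBinom : ℝ) ^ 2 * (2 * n + 1)) := by ring
        _ ≤ δ ^ 2 * 16 ^ n := by gcongr
    have h8 : (n.centralBinom : ℝ) ≤ δ * 4 ^ n := by
      exact (pow_le_pow_iff_left₀ (by positivity) (by positivity) (by norm_num)).1 h4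
    rw [div_le_iff₀ (by positivity)]
    exact h8
  calc (n.centralBinom : ℝ≥0∞) / 4 ^ n = ENNReal.ofReal ((n.centralBinom : ℝ) / 4 ^ n) := by
        rw [ENNReal.ofReal_div_of_pos (by positivity), ENNReal.ofReal_natCast,
          ENNReal.ofReal_pow (by norm_num)]
        norm_num
    _ ≤ ENNReal.ofReal δ := ENNReal.ofReal_le_ofReal h1
    _ = min ε 1 := ENNReal.ofReal_toReal hmt
    _ ≤ ε := min_le_left _ _

lemma E_ind_le (v x : G) (hv : ∀ k : ℕ, k ≠ 0 → k • v ≠ 0) (n : ℕ) (y : G) :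
    E v (2 * n) (ind x) y ≤ (n.centralBinom : ℝ≥0∞) / 4 ^ n := by
  by_cases h : ∃ k : ℕ, y + k • v = x
  · obtain ⟨k, hk⟩ := h
    rw [E_ind v x hv (2 * n) k y hk, show (2 : ℝ≥0∞) ^ (2 * n) = 4 ^ n by rw [pow_mul]; norm_num]
    exact ENNReal.div_le_div_right (by exact_mod_cast Nat.choose_le_centralBinom k n) _
  · push Not at h
    rw [E_ind_zero v x _ y h]
    exact zero_le

end coin

section lists

lemma tsum_option {B : Type*} (F : Option B → ℝ≥0∞) : ∑' o, F o = F none + ∑' b, F (some b) := by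
  classical
  rw [ENNReal.tsum_eq_add_tsum_ite (none : Option B)]
  congr 1
  have hs : Function.support (fun o : Option B => if o = none then 0 else F o)
      ⊆ Set.range (some : B → Option B) := by
    intro o ho
    cases o with
    | none => simp at ho
    | some b => exact ⟨b, rfl⟩
  have e := (Option.some_injective B).tsum_eq hs
  calc _ = ∑' o : Option B, (if o = none then 0 else F o) :=
        tsum_congr fun o => by by_cases h : o = none <;> simp [h]
    _ = _ := e.symm
    _ = _ := tsum_congr fun b => by simp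

variable {B G : Type*} [AddCommGroup G]

/-- number of coins -/
def cc : List (Option B) → ℕ
  | [] => 0
  | none :: P => cc P + 1
  | some _ :: P => cc P

/-- heights / displacements extended to the coin -/
def ext {A : Type*} (f : B → A) (a : A) : Option B → A
  | none => a
  | some b => f b

/-- total displacement -/
def DS (dsp : B → G) (L : List B) : G := (L.map dsp).sum

lemma DS_cons (dsp : B → G) (b : B) (L : List B) : DS dsp (b :: L) = dsp b + DS dsp L := by
  simp [DS]

variable (Λ : B → ℝ≥0∞) (ht : B → ℕ) (dsp : B → G) (b1 b2 : B) (q : ℝ≥0∞)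

open Classical in
/-- residual weight -/
noncomputable def Rs (b : B) : ℝ≥0∞ := Λ b - (if b = b1 ∨ b = b2 then q else 0)

open Classical in
lemma Rs_add (hq1 : q ≤ Λ b1) (hq2 : q ≤ Λ b2) (b : B) :
    Λ b = Rs Λ b1 b2 q b + (if b = b1 ∨ b = b2 then q else 0) := by
  rw [Rs, tsub_add_cancel_of_le]
  split_ifs with h
  · rcases h with rfl | rfl <;> assumption
  · exact zero_le

open Classical in
lemma tsum_two (hne : b1 ≠ b2) (T : B → ℝ≥0∞) :
    ∑' b, (if b = b1 ∨ b = b2 then q else 0) * T b = q * T b1 + q * T b2 := by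
  have : ∀ b, (if b = b1 ∨ b = b2 then q else 0) * T b
      = (if b = b1 then q * T b1 else 0) + (if b = b2 then q * T b2 else 0) := by
    intro b
    by_cases h1 : b = b1
    · subst h1; simp [hne]
    · by_cases h2 : b = b2
      · subst h2; simp [h1]
      · simp [h1, h2]
  simp_rw [this]
  rw [ENNReal.tsum_add, tsum_ite_eq, tsum_ite_eq]

lemma claim1 (hne : b1 ≠ b2) (hh : ht b1 = ht b2) (hq1 : q ≤ Λ b1) (hq2 : q ≤ Λ b2) (j : ℕ)
    (φ : ℕ → G → ℝ≥0∞) :
    SL Λ j (fun L => φ (HT ht L) (DS dsp L))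
      = SL (ext (Rs Λ b1 b2 q) (2 * q)) j (fun P => E (dsp b2 - dsp b1) (cc P)
          (φ (HT (ext ht (ht b1)) P)) (DS (ext dsp (dsp b1)) P)) := by
  classical
  induction j generalizing φ with
  | zero => simp [SL_zero, HT, DS, cc, E]
  | succ j ih =>
    rw [SL_succ, SL_succ, tsum_option]
    simp only [HT_cons, DS_cons, cc, ext]
    set w := ext (Rs Λ b1 b2 q) (2 * q) with hw
    set v := dsp b2 - dsp b1 with hv
    set T : B → ℝ≥0∞ := fun b => SL w j (fun P => E v (cc P)
      (φ (ht b + HT (ext ht (ht b1)) P)) (dsp b + DS (ext dsp (dsp b1)) P)) with hT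
    have hL : ∀ b, SL Λ j (fun L => φ (ht b + HT ht L) (dsp b + DS dsp L)) = T b := by
      intro b
      rw [ih (fun n y => φ (ht b + n) (dsp b + y))]
      rw [hT]
      refine SL_congr w j fun P _ => ?_
      exact E_trans v (dsp b) (cc P) _ _
    simp_rw [hL]
    have hcoin : 2 * q * SL w j (fun P => E v (cc P + 1)
        (φ (ht b1 + HT (ext ht (ht b1)) P)) (dsp b1 + DS (ext dsp (dsp b1)) P))
        = q * T b1 + q * T b2 := by
      have e1 : (fun P : List (Option B) => E v (cc P + 1)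
        (φ (ht b1 + HT (ext ht (ht b1)) P)) (dsp b1 + DS (ext dsp (dsp b1)) P))
          = fun P => 2⁻¹ * ((fun P => E v (cc P)
        (φ (ht b1 + HT (ext ht (ht b1)) P)) (dsp b1 + DS (ext dsp (dsp b1)) P)) P
          + (fun P => E v (cc P)
        (φ (ht b2 + HT (ext ht (ht b1)) P)) (dsp b2 + DS (ext dsp (dsp b1)) P)) P) := by
        funext P
        simp only [E]
        rw [ENNReal.div_eq_inv_mul, ← hh]
        congr 3
        rw [hv]; abel
      rw [e1, SL_const_mul, SL_add_fun, ← mul_assoc, mul_comm (2 : ℝ≥0∞) q, mul_assoc q 2 2⁻¹,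
        ENNReal.mul_inv_cancel (by norm_num) (by norm_num), mul_one, mul_add]
    rw [hcoin]
    have : ∀ b, Λ b * T b = (if b = b1 ∨ b = b2 then q else 0) * T b + Rs Λ b1 b2 q b * T b := by
      intro b
      conv_lhs => rw [Rs_add Λ b1 b2 q hq1 hq2 b]
      rw [add_mul, add_comm]
    simp_rw [this]
    rw [ENNReal.tsum_add, tsum_two b1 b2 q hne]

lemma LW_coin (P : List (Option B)) :
    LW (ext (Rs Λ b1 b2 q) q) P = LW (ext (Rs Λ b1 b2 q) (2 * q)) P * (2⁻¹) ^ cc P := by
  induction P with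
  | nil => simp [LW, cc]
  | cons o P ih =>
    cases o with
    | none =>
      simp only [LW_cons, cc, ext]
      rw [ih, pow_succ]
      have h2 : (2 : ℝ≥0∞) * 2⁻¹ = 1 := ENNReal.mul_inv_cancel (by norm_num) (by norm_num)
      set W := LW (ext (Rs Λ b1 b2 q) (2 * q)) P
      calc q * (W * 2⁻¹ ^ cc P) = (2 * 2⁻¹) * (q * (W * 2⁻¹ ^ cc P)) := by rw [h2, one_mul]
        _ = 2 * q * W * (2⁻¹ ^ cc P * 2⁻¹) := by ring
    | some b =>
      simp only [LW_cons, cc, ext]
      rw [ih]; ring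

lemma U_sum : ∑' n, U Λ ht n = (1 - ∑' b, Λ b)⁻¹ := by
  simp only [U]
  rw [ENNReal.tsum_comm, ← ENNReal.tsum_geometric]
  simp_rw [← SL_pow]
  rw [← tsum_eq_tsum_SL]
  refine tsum_congr fun L => ?_
  rw [tsum_eq_single (HT ht L)]
  · simp
  · intro j hj; simp [hj.symm]

lemma U_le_one (h1 : ∀ b, 1 ≤ ht b) (hΛ : ∑' b, Λ b = 1) (n : ℕ) : U Λ ht n ≤ 1 := by
  have ht0 : tail Λ ht 0 = 1 := by
    rw [← hΛ, tail]
    refine tsum_congr fun b => ?_
    rw [if_pos (by have := h1 b; omega)]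
  have h := renewal_one Λ ht h1 hΛ n
  calc U Λ ht n = U Λ ht (n - 0) * tail Λ ht 0 := by rw [ht0, mul_one]; simp
    _ ≤ ∑ k ∈ Finset.range (n + 1), U Λ ht (n - k) * tail Λ ht k :=
      Finset.single_le_sum (f := fun k => U Λ ht (n - k) * tail Λ ht k)
        (fun _ _ => zero_le) (Finset.mem_range.2 (by omega))
    _ = 1 := h

open Classical in
/-- **concentration**: the mass of the lists of height `n` and displacement `x` tends to `0`,
uniformly in `x`. -/
theorem conc (h1 : ∀ b, 1 ≤ ht b) (hΛ : ∑' b, Λ b = 1) (hh : ht b1 = ht b2)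
    (hb1 : Λ b1 ≠ 0) (hb2 : Λ b2 ≠ 0)
    (hv : ∀ k : ℕ, k ≠ 0 → k • (dsp b2 - dsp b1) ≠ 0) (ε : ℝ≥0∞) (hε : ε ≠ 0) :
    ∃ N : ℕ, ∀ n, N ≤ n → ∀ x, ∑' L : List B,
      (if HT ht L = n ∧ (L.map dsp).sum = x then LW Λ L else 0) ≤ ε := by
  have hne : b1 ≠ b2 := by
    rintro rfl
    exact hv 1 one_ne_zero (by simp)
  set q := min (Λ b1) (Λ b2) with hq
  have hq1 : q ≤ Λ b1 := min_le_left _ _
  have hq2 : q ≤ Λ b2 := min_le_right _ _
  have hq0 : q ≠ 0 := by
    rw [hq]; simp [hb1, hb2]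
  have hqt : q ≠ ⊤ := ne_top_of_le_ne_top ENNReal.one_ne_top
    (hq1.trans ((ENNReal.le_tsum b1).trans hΛ.le))
  set w := ext (Rs Λ b1 b2 q) (2 * q) with hw
  set w' := ext (Rs Λ b1 b2 q) q with hw'
  set hh' := ext ht (ht b1) with hhh
  have hsum : 2 * q + ∑' b, Rs Λ b1 b2 q b = 1 := by
    rw [← hΛ]
    have h3 := tsum_two b1 b2 q hne (fun _ => 1)
    simp only [mul_one] at h3
    calc 2 * q + ∑' b, Rs Λ b1 b2 q b
        = ∑' b, (if b = b1 ∨ b = b2 then q else 0) + ∑' b, Rs Λ b1 b2 q b := by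
          rw [h3, two_mul]
      _ = ∑' b, Λ b := by
          rw [← ENNReal.tsum_add]
          refine tsum_congr fun b => ?_
          rw [add_comm]
          exact (Rs_add Λ b1 b2 q hq1 hq2 b).symm
  have hwsum : ∑' o, w o = 1 := by rw [tsum_option]; exact hsum
  have hw'sum : ∑' o, w' o ≤ 1 - q := by
    rw [tsum_option]
    change q + ∑' b, Rs Λ b1 b2 q b ≤ 1 - q
    refine ENNReal.le_sub_of_add_le_right hqt ?_
    rw [← hsum]
    exact le_of_eq (by ring)
  have hh1 : ∀ o, 1 ≤ hh' o := by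
    intro o
    cases o with
    | none => exact h1 b1
    | some b => exact h1 b
  have hlt : ∑' o, w' o < 1 := lt_of_le_of_lt hw'sum
    (ENNReal.sub_lt_self ENNReal.one_ne_top one_ne_zero hq0)
  have hfin : ∑' n, U w' hh' n ≠ ⊤ := by
    rw [U_sum, Ne, ENNReal.inv_eq_top, tsub_eq_zero_iff_le]
    exact not_le.2 hlt
  have htend := ENNReal.tendsto_atTop_zero_of_tsum_ne_top hfin
  have hε2 : ε / 2 ≠ 0 := by simp [hε]
  obtain ⟨m, hm⟩ := cb_small (ε / 2) hε2
  set K : ℝ≥0∞ := 2 ^ (2 * m) with hK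
  have hK0 : K ≠ 0 := by simp [hK]
  have hKt : K ≠ ⊤ := by simp [hK]
  have hε3 : 0 < ε / 2 / K := ENNReal.div_pos hε2 hKt
  obtain ⟨N, hN⟩ := Filter.eventually_atTop.1 (htend.eventually_le_const hε3)
  refine ⟨N, fun n hn x => ?_⟩
  have e0 : ∑' L : List B, (if HT ht L = n ∧ (L.map dsp).sum = x then LW Λ L else 0)
      = ∑' L, LW Λ L * (if HT ht L = n then ind x (DS dsp L) else 0) := by
    refine tsum_congr fun L => ?_
    by_cases ha : HT ht L = n
    · by_cases hb : (L.map dsp).sum = x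
      · simp [ha, hb, ind, DS]
      · simp [ha, hb, ind, DS]
    · simp [ha]
  rw [e0, tsum_eq_tsum_SL]
  have e1 : ∀ j, SL Λ j (fun L => if HT ht L = n then ind x (DS dsp L) else 0)
      = SL w j (fun P => E (dsp b2 - dsp b1) (cc P)
          (fun y => if HT hh' P = n then ind x y else 0) (DS (ext dsp (dsp b1)) P)) := by
    intro j
    exact claim1 Λ ht dsp b1 b2 q hne hh hq1 hq2 j (fun h y => if h = n then ind x y else 0)
  simp_rw [e1]
  rw [← tsum_eq_tsum_SL]
  have key : ∀ P : List (Option B), LW w P * E (dsp b2 - dsp b1) (cc P)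
          (fun y => if HT hh' P = n then ind x y else 0) (DS (ext dsp (dsp b1)) P)
        ≤ (ε / 2) * (if HT hh' P = n then LW w P else 0)
          + K * (if HT hh' P = n then LW w' P else 0) := by
    intro P
    by_cases hP : HT hh' P = n
    · simp only [hP, if_true]
      have hE : E (dsp b2 - dsp b1) (cc P) (fun y => ind x y) (DS (ext dsp (dsp b1)) P)
          ≤ ε / 2 + K * 2⁻¹ ^ cc P := by
        by_cases hc : 2 * m ≤ cc P
        · obtain ⟨k, hk⟩ := Nat.exists_eq_add_of_le hc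
          rw [hk]
          exact (E_add_le _ (2 * m) k (ind x) (ε / 2)
            (fun y => (E_ind_le _ x hv m y).trans hm) _).trans le_self_add
        · refine (E_le _ _ _ 1 (fun y => ?_) _).trans ?_
          · simp only [ind]; split_ifs <;> simp
          · refine le_trans ?_ le_add_self
            rw [hK]
            have h5 : (2 : ℝ≥0∞) ^ cc P * 2⁻¹ ^ cc P = 1 := by
              rw [← mul_pow, ENNReal.mul_inv_cancel (by norm_num) (by norm_num), one_pow]
            rw [← h5]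
            refine mul_le_mul_left ?_ _
            exact pow_le_pow_right₀ (by norm_num) (by omega)
      calc LW w P * E (dsp b2 - dsp b1) (cc P) (fun y => ind x y) (DS (ext dsp (dsp b1)) P)
          ≤ LW w P * (ε / 2 + K * 2⁻¹ ^ cc P) := mul_le_mul_right hE _
        _ = (ε / 2) * LW w P + K * LW w' P := by
            rw [hw', LW_coin Λ b1 b2 q P]; ring
    · simp [hP, E_zero]
  refine (ENNReal.tsum_le_tsum key).trans ?_
  rw [ENNReal.tsum_add, ENNReal.tsum_mul_left, ENNReal.tsum_mul_left]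
  change (ε / 2) * U w hh' n + K * U w' hh' n ≤ ε
  calc (ε / 2) * U w hh' n + K * U w' hh' n
      ≤ (ε / 2) * 1 + K * (ε / 2 / K) :=
        add_le_add (mul_le_mul_right (U_le_one w hh' hh1 hwsum n) _)
          (mul_le_mul_right (hN n hn) _)
    _ = ε := by
        rw [mul_one, ENNReal.mul_div_cancel hK0 hKt, ENNReal.add_halves]

end lists

end Crest.Agent.R154.Conc430
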