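import Crest.Agent.R154.Slab_689
import Crest.Agent.R154.Conc_430
import Crest.Agent.R154.B5Br_657

/-! Row 154, ROAD 801, frame B (helper169): the thin slab for 657's word instance. -/

set_option autoImplicit false

open MeasureTheory ProbabilityTheory Crest.ProbabilityR.RandomEnvironment
open scoped ENNReal

namespace Crest.Agent.R154.HSl169

open Crest.Agent.R154.B5A Crest.Agent.R154.B5W
open Crest.Agent.R154.Flux566 (lw endp sitesL lev lev_add lev_neg lev_zero lev_self endp_append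
  endp_eq_add)
open Crest.Agent.R154.NB28 (IsUp IsDn)

variable {d : ℕ}

/-- displacement of a block -/
def dsp (u : Step d) (b : PB u) : Site d := endp 0 b.1.1 + endp 0 b.1.2

lemma act_val (u : Step d) (L : List (PB u)) (w : Lat u) :
    (act (dl u) L w).1 = w.1 + (L.map (dsp u)).sum := by
  induction L generalizing w with
  | nil => simp [act]
  | cons b L ih =>
    rw [act, ih]
    simp only [dl, dlp, List.map_cons, List.sum_cons, dsp]
    abel

/-- a pair crossing of height one is a block -/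
def mk1 (u : Step d) (π γ : List (Step d)) (h1 : IsUp u 1 π) (h2 : IsDn u 1 γ) : PB u :=
  ⟨(π, γ), 1, le_rfl, ⟨(up_iff u 1 π).2 (by exact_mod_cast h1), (dn_iff u 1 γ).2 (by exact_mod_cast h2)⟩,
    fun a c k l ha hc he => by
      have h3 : (π, γ) ∈ PC (hu u) (hdn u) 1 :=
        ⟨(up_iff u 1 π).2 (by exact_mod_cast h1), (dn_iff u 1 γ).2 (by exact_mod_cast h2)⟩
      rw [he] at h3
      have := PC_height h3 (pm_mem ha hc)
      omega⟩

lemma ht_mk1 (u : Step d) (π γ : List (Step d)) (h1 : IsUp u 1 π) (h2 : IsDn u 1 γ) :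
    ht u (mk1 u π γ h1 h2) = 1 :=
  hb_eq (b := mk1 u π γ h1 h2) ⟨(up_iff u 1 π).2 (by exact_mod_cast h1),
    (dn_iff u 1 γ).2 (by exact_mod_cast h2)⟩


lemma lev_opp' (u : Step d) : lev u (stepVec (Flux132.opp u)) = -1 := by
  rw [stepVec_opp', lev_neg, lev_self]

lemma up_u (u : Step d) : IsUp u 1 [u] := by
  constructor
  · intro y hy
    simp only [sitesL, List.mem_singleton] at hy
    subst hy
    change 0 ≤ lev u (0 : Site d) ∧ lev u (0 : Site d) < (1 : ℕ)
    rw [lev_zero]; simp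
  · change lev u (0 + stepVec u) = (1 : ℕ)
    rw [zero_add, lev_self]; simp

lemma dn_u (u : Step d) : IsDn u 1 [Flux132.opp u] := by
  constructor
  · intro y hy
    simp only [sitesL, List.mem_singleton] at hy
    subst hy
    change -((1 : ℕ) : ℤ) < lev u (0 : Site d) ∧ lev u (0 : Site d) ≤ 0
    rw [lev_zero]; simp
  · change lev u (0 + stepVec (Flux132.opp u)) = -((1 : ℕ) : ℤ)
    rw [zero_add, lev_opp']; simp

lemma up_eu (u e : Step d) (he : lev u (stepVec e) = 0) : IsUp u 1 [e, u] := by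
  constructor
  · intro y hy
    simp only [sitesL, List.mem_cons, List.not_mem_nil, or_false, zero_add] at hy
    change 0 ≤ lev u y ∧ lev u y < (1 : ℕ)
    rcases hy with rfl | rfl
    · rw [lev_zero]; simp
    · rw [he]; simp
  · change lev u (0 + stepVec e + stepVec u) = (1 : ℕ)
    rw [zero_add, lev_add, he, lev_self]; simp

variable (ν : Measure (Row d)) [IsProbabilityMeasure ν]

lemma aw_ne (hν : ∀ᵐ p ∂ν, ∀ e : Step d, 0 < p.1 e) (l : List (Step d))
    (hnd : (sitesL 0 l).Nodup) : NB28.aw ν l ≠ 0 := by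
  obtain ⟨c, hc0, hc1, hc⟩ := FinE804.exists_c ν hν
  have := Flux566.ann_lw_ge ν (ENNReal.ofReal c) hc l 0 hnd
  intro h0
  unfold NB28.aw at h0
  rw [h0, nonpos_iff_eq_zero] at this
  exact (pow_ne_zero _ (by simpa using hc0)) this

lemma exists_lat (hd : 2 ≤ d) (u : Step d) : ∃ e : Step d, lev u (stepVec e) = 0 ∧
    ∀ k : ℕ, k ≠ 0 → k • (stepVec e : Site d) ≠ 0 := by
  obtain ⟨i, hi⟩ : ∃ i : Fin d, i ≠ u.1 := by
    by_cases h0 : u.1 = ⟨0, by omega⟩
    · exact ⟨⟨1, by omega⟩, by rw [h0]; simp [Fin.ext_iff]⟩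
    · exact ⟨⟨0, by omega⟩, fun h => h0 h.symm⟩
  refine ⟨(i, true), Flux132.lev_step_of_ne (u := u) (e := (i, true)) hi, fun k hk h => ?_⟩
  have h1 := congrArg (lev (i, true)) h
  have h2 : ∀ k : ℕ, lev ((i, true) : Step d) (k • (stepVec (i, true) : Site d)) = k := by
    intro k
    induction k with
    | zero => simp [lev_zero]
    | succ k ih => rw [succ_nsmul, lev_add, ih, lev_self]; push_cast; ring
  rw [h2, lev_zero] at h1
  exact hk (by exact_mod_cast h1)

open Classical in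
/-- **point concentration of the displacement of 657's pair lists** -/
theorem conc_inst (hd : 2 ≤ d) (hν : ∀ᵐ p ∂ν, ∀ e : Step d, 0 < p.1 e) (u : Step d)
    (hΛ : ∑' b, Lam ν u b = 1) (ε : ℝ≥0∞) (hε : ε ≠ 0) :
    ∃ D : ℕ, ∀ n, D ≤ n → ∀ w w' : Lat u,
      ∑' L : List (PB u), (if HT (ht u) L = n ∧ act (dl u) L w = w' then LW (Lam ν u) L else 0)
        ≤ ε := by
  obtain ⟨e, he0, hek⟩ := exists_lat hd u
  have hu := up_u u
  have hdn := dn_u u
  have heu := up_eu u e he0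
  have hne : stepVec e ≠ (0 : Site d) := by simpa using hek 1 one_ne_zero
  have hw : ∀ π (h1 : IsUp u 1 π), (sitesL 0 π).Nodup →
      Lam ν u (mk1 u π [Flux132.opp u] h1 hdn) ≠ 0 := by
    intro π h1 hnd
    change NB28.aw ν π * NB28.aw ν [Flux132.opp u] ≠ 0
    exact mul_ne_zero (aw_ne ν hν _ hnd) (aw_ne ν hν _ (by simp [sitesL]))
  have hkey := Conc430.conc (Lam ν u) (ht u) (dsp u) (mk1 u [u] _ hu hdn) (mk1 u [e, u] _ heu hdn)
    one_le_hb hΛ (by rw [ht_mk1, ht_mk1]) (hw _ hu (by simp [sitesL]))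
    (hw _ heu (by simp [sitesL]; exact fun h => hne h.symm)) ?_ ε hε
  · obtain ⟨D, hD⟩ := hkey
    refine ⟨D, fun n hn w w' => ?_⟩
    refine le_trans (ENNReal.tsum_le_tsum fun L => ?_) (hD n hn (w'.1 - w.1))
    by_cases h : HT (ht u) L = n ∧ act (dl u) L w = w'
    · have h3 : (L.map (dsp u)).sum = w'.1 - w.1 := by
        have h4 := congrArg Subtype.val h.2
        rw [act_val] at h4
        rw [← h4]; abel
      rw [if_pos h, if_pos ⟨h.1, h3⟩]
    · rw [if_neg h]; exact zero_le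
  · intro k hk h
    apply hek k hk
    have : dsp u (mk1 u [e, u] _ heu hdn) - dsp u (mk1 u [u] _ hu hdn) = stepVec e := by
      change (endp 0 [e, u] + endp 0 [Flux132.opp u]) - (endp 0 [u] + endp 0 [Flux132.opp u])
        = stepVec e
      simp only [endp]; abel
    rwa [this] at h

open Classical in
/-- **thin slab for 657's pair lists** (139's `hSl`, 818's `hSlab`) -/
theorem hSl (hd : 2 ≤ d) (hν : ∀ᵐ p ∂ν, ∀ e : Step d, 0 < p.1 e) (u : Step d)
    (hΛ : ∑' b, Lam ν u b = 1) (hU1 : ∀ n, U (Lam ν u) (ht u) n ≤ 1) :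
    ∀ s : ℕ, ∀ ε : ℝ≥0∞, ε ≠ 0 → ∃ D0 : ℕ, ∀ δ, D0 ≤ δ → ∀ w,
      ∑' L : List (PB u), (if HT (ht u) L = δ ∧ ∃ k ∈ CD (ht u) (dl u) (cd u) L w, δ < k + s
        then LW (Lam ν u) L else 0) ≤ ε :=
  Slab689.slab (Lam ν u) (ht u) (dl u) (cd u) one_le_hb (fun w b k hk => hcd u w b k hk) (hinj u)
    (hfar u) hΛ hU1 (conc_inst ν hd hν u hΛ)

open Classical in
theorem U_le_one (u : Step d) (n : ℕ) : U (Lam ν u) (ht u) n ≤ 1 := by
  rw [U_eq28]
  exact mul_le_one' (sum_if_le_one ν fun l l' h h' hp => NB28.isUp_prefix h h' hp)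
    (sum_if_le_one ν fun l l' h h' hp => NB28.isDn_prefix h h' hp)

end Crest.Agent.R154.HSl169
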