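import Crest.Agent.R154.NBDefs_28
import Crest.Agent.R154.B5Abs_566
import Crest.Agent.R154.Kal_132
import Crest.Agent.R154.DoobQ_804
import Crest.Agent.R154.B2d_419

/-! Row 154: total annealed mass of crossings of `n` levels, in the words of `Flux2_566` /
`NBDefs_28`: at most `1`, at least a constant independent of `n` (helper286). -/

set_option autoImplicit false

open MeasureTheory ProbabilityTheory Crest.ProbabilityR.RandomEnvironment
open scoped ENNReal

namespace Crest.Agent.R154.WM286

open Crest.Agent.R154.Flux132 (lev opp)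
open Crest.Agent.R154.Flux566 (lw endp sitesL)

variable {d : ℕ}

/-- a word which reads only `S` and ends in `T` -/
def Ex (S T : Set (Site d)) : Site d → List (Step d) → Prop
  | x, [] => x ∈ T
  | x, e :: l => x ∈ S ∧ Ex S T (x + stepVec e) l

lemma ex_iff (S T : Set (Site d)) (x : Site d) (l : List (Step d)) :
    Ex S T x l ↔ (∀ y ∈ sitesL x l, y ∈ S) ∧ endp x l ∈ T := by
  induction l generalizing x with
  | nil => simp [Ex, sitesL, endp]
  | cons e l ih =>
    simp only [Ex, sitesL, endp, ih, List.mem_cons, forall_eq_or_imp]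
    tauto

open Classical in
/-- total quenched mass -/
noncomputable def G (S T : Set (Site d)) (ω : Environment d) (x : Site d) : ℝ≥0∞ :=
  ∑' l : List (Step d), if Ex S T x l then lw ω x l else 0

open Classical in
/-- total quenched mass of words of length `≤ N` -/
noncomputable def GN (S T : Set (Site d)) (ω : Environment d) (N : ℕ) (x : Site d) : ℝ≥0∞ :=
  ∑' l : List (Step d), if l.length ≤ N ∧ Ex S T x l then lw ω x l else 0

open Classical in
lemma G_rec (S T : Set (Site d)) (ω : Environment d) (x : Site d) :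
    G S T ω x = (if x ∈ T then 1 else 0) + (if x ∈ S then
      ∑ e : Step d, ENNReal.ofReal ((ω x).1 e) * G S T ω (x + stepVec e) else 0) := by
  rw [G, B5A.tsum_list]
  congr 1
  rw [tsum_fintype]
  by_cases hx : x ∈ S
  · rw [if_pos hx]
    refine Finset.sum_congr rfl fun e _ => ?_
    rw [G, ← ENNReal.tsum_mul_left]
    refine tsum_congr fun l => ?_
    by_cases h : Ex S T (x + stepVec e) l
    · rw [if_pos h, if_pos ⟨hx, h⟩]; rfl
    · rw [if_neg h, if_neg fun h' => h h'.2, mul_zero]
  · rw [if_neg hx]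
    refine Finset.sum_eq_zero fun e _ => ?_
    rw [ENNReal.tsum_eq_zero]
    intro l
    exact if_neg fun h' => hx h'.1

open Classical in
lemma GN_succ (S T : Set (Site d)) (ω : Environment d) (N : ℕ) (x : Site d) :
    GN S T ω (N + 1) x = (if x ∈ T then 1 else 0) + (if x ∈ S then
      ∑ e : Step d, ENNReal.ofReal ((ω x).1 e) * GN S T ω N (x + stepVec e) else 0) := by
  rw [GN, B5A.tsum_list]
  congr 1
  · simp [Ex, lw]
  rw [tsum_fintype]
  by_cases hx : x ∈ S
  · rw [if_pos hx]
    refine Finset.sum_congr rfl fun e _ => ?_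
    rw [GN, ← ENNReal.tsum_mul_left]
    refine tsum_congr fun l => ?_
    simp only [List.length_cons, add_le_add_iff_right]
    by_cases h : l.length ≤ N ∧ Ex S T (x + stepVec e) l
    · rw [if_pos h, if_pos ⟨h.1, hx, h.2⟩]; rfl
    · rw [if_neg h, if_neg fun h' => h ⟨h'.1, h'.2.2⟩, mul_zero]
  · rw [if_neg hx]
    refine Finset.sum_eq_zero fun e _ => ?_
    rw [ENNReal.tsum_eq_zero]
    intro l
    exact if_neg fun h' => hx h'.2.1

lemma row_sum (ω : Environment d) (x : Site d) :
    ∑ e : Step d, ENNReal.ofReal ((ω x).1 e) = 1 := by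
  have hx := (ω x).2
  rw [← ENNReal.ofReal_sum_of_nonneg (fun e _ => hx.1 e), hx.2, ENNReal.ofReal_one]

lemma GN_le_one {S T : Set (Site d)} (hST : Disjoint S T) (ω : Environment d) (N : ℕ)
    (x : Site d) : GN S T ω N x ≤ 1 := by
  classical
  induction N generalizing x with
  | zero =>
    rw [GN, tsum_eq_single ([] : List (Step d))]
    · split_ifs <;> simp [lw]
    · intro l hl
      rw [if_neg]
      rintro ⟨h, _⟩
      exact hl (List.length_eq_zero_iff.1 (by omega))
  | succ N ih =>
    rw [GN_succ]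
    by_cases hT : x ∈ T
    · have hS : x ∉ S := fun h => Set.disjoint_left.1 hST h hT
      simp [hT, hS]
    · rw [if_neg hT, zero_add]
      split_ifs with hS
      · calc ∑ e : Step d, ENNReal.ofReal ((ω x).1 e) * GN S T ω N (x + stepVec e)
            ≤ ∑ e : Step d, ENNReal.ofReal ((ω x).1 e) * 1 :=
              Finset.sum_le_sum fun e _ => mul_le_mul_right (ih _) _
          _ = 1 := by simp only [mul_one]; exact row_sum ω x
      · exact zero_le

lemma G_le_one {S T : Set (Site d)} (hST : Disjoint S T) (ω : Environment d)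
    (x : Site d) : G S T ω x ≤ 1 := by
  classical
  rw [G, ENNReal.tsum_eq_iSup_sum]
  refine iSup_le fun s => ?_
  refine le_trans ?_ (GN_le_one hST ω (s.sup List.length) x)
  rw [GN]
  refine le_trans ?_ (ENNReal.sum_le_tsum s)
  refine Finset.sum_le_sum fun l hl => ?_
  by_cases h : Ex S T x l
  · rw [if_pos h, if_pos ⟨Finset.le_sup (f := List.length) hl, h⟩]
  · rw [if_neg h]; exact zero_le

/-- the walk stays in `S` until it is in `T` -/
def Hit (S T : Set (Site d)) (N : ℕ) : Set (Path d) :=
  {X | ∃ m, m ≤ N ∧ (∀ i, i < m → X i ∈ S) ∧ X m ∈ T}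

lemma measurableSet_Hit (S T : Set (Site d)) (N : ℕ) : MeasurableSet (Hit S T N) :=
  measurableSet_of_agree N _ fun X Y h => by
    constructor
    · rintro ⟨m, hm, h1, h2⟩
      exact ⟨m, hm, fun i hi => by rw [← h i (by omega)]; exact h1 i hi,
        by rw [← h m hm]; exact h2⟩
    · rintro ⟨m, hm, h1, h2⟩
      exact ⟨m, hm, fun i hi => by rw [h i (by omega)]; exact h1 i hi,
        by rw [h m hm]; exact h2⟩

lemma quenched_Hit_le (S T : Set (Site d)) (ω : Environment d) (N : ℕ) (x : Site d) :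
    quenchedLaw ω x (Hit S T N) ≤ G S T ω x := by
  classical
  induction N generalizing x with
  | zero =>
    rw [G_rec]
    by_cases hT : x ∈ T
    · rw [if_pos hT]
      exact le_trans prob_le_one le_self_add
    · have : quenchedLaw ω x (Hit S T 0) = 0 := by
        rw [measure_eq_zero_iff_ae_notMem]
        filter_upwards [Doob804.quenched_start ω x] with X hX
        rintro ⟨m, hm, _, h2⟩
        have : m = 0 := by omega
        subst this
        rw [hX] at h2
        exact hT h2
      rw [this]; exact zero_le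
  | succ N ih =>
    rw [G_rec]
    by_cases hT : x ∈ T
    · rw [if_pos hT]
      exact le_trans prob_le_one le_self_add
    · rw [if_neg hT, zero_add, Doob804.quenched_markov_one ω x _ (measurableSet_Hit S T (N + 1))]
      by_cases hS : x ∈ S
      · rw [if_pos hS]
        refine Finset.sum_le_sum fun e _ => mul_le_mul_right (le_trans (measure_mono ?_) (ih _)) _
        rintro X ⟨m, hm, h1, h2⟩
        cases m with
        | zero => exact absurd h2 hT
        | succ m => exact ⟨m, by omega, fun i hi => h1 (i + 1) (by omega), h2⟩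
      · rw [if_neg hS]
        refine (Finset.sum_eq_zero fun e _ => ?_).le
        have : {X : Path d | Doob804.consP x X ∈ Hit S T (N + 1)} = ∅ := by
          rw [Set.eq_empty_iff_forall_notMem]
          rintro X ⟨m, hm, h1, h2⟩
          cases m with
          | zero => exact hT h2
          | succ m => exact hS (h1 0 (by omega))
        rw [this, measure_empty, mul_zero]

/-- the walk stays in `S` until it is in `T`, any time -/
def HitU (S T : Set (Site d)) : Set (Path d) :=
  {X | ∃ m, (∀ i, i < m → X i ∈ S) ∧ X m ∈ T}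

lemma HitU_eq (S T : Set (Site d)) : HitU S T = ⋃ N, Hit S T N := by
  ext X
  simp only [HitU, Hit, Set.mem_iUnion, Set.mem_ofPred_eq]
  constructor
  · rintro ⟨m, h⟩; exact ⟨m, m, le_rfl, h⟩
  · rintro ⟨_, m, _, h⟩; exact ⟨m, h⟩

lemma measurableSet_HitU (S T : Set (Site d)) : MeasurableSet (HitU S T) := by
  rw [HitU_eq]
  exact MeasurableSet.iUnion fun N => measurableSet_Hit S T N

lemma quenched_HitU_le (S T : Set (Site d)) (ω : Environment d) (x : Site d) :
    quenchedLaw ω x (HitU S T) ≤ G S T ω x := by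
  rw [HitU_eq, Monotone.measure_iUnion]
  · exact iSup_le fun N => quenched_Hit_le S T ω N x
  · rintro N M hNM X ⟨m, hm, h⟩
    exact ⟨m, hm.trans hNM, h⟩

open Classical in
/-- annealed form -/
lemma annealed_HitU_le (S T : Set (Site d)) (Q : Measure (Environment d)) (x : Site d) :
    ∫⁻ ω, quenchedLaw ω x (HitU S T) ∂Q
      ≤ ∑' l : List (Step d), if Ex S T x l then ∫⁻ ω, lw ω x l ∂Q else 0 := by
  refine (lintegral_mono fun ω => quenched_HitU_le S T ω x).trans ?_
  simp only [G]
  rw [lintegral_tsum]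
  · refine ENNReal.tsum_le_tsum fun l => ?_
    by_cases h : Ex S T x l
    · simp only [if_pos h, le_refl]
    · simp only [if_neg h, lintegral_zero, le_refl]
  · intro l
    by_cases h : Ex S T x l
    · simp only [if_pos h]; exact (Flux566.measurable_lw x l).aemeasurable
    · simp only [if_neg h]; exact aemeasurable_const

open Classical in
lemma annealed_G_le_one {S T : Set (Site d)} (hST : Disjoint S T) (Q : Measure (Environment d))
    [IsProbabilityMeasure Q] (x : Site d) :
    (∑' l : List (Step d), if Ex S T x l then ∫⁻ ω, lw ω x l ∂Q else 0) ≤ 1 := by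
  have h : (∑' l : List (Step d), if Ex S T x l then ∫⁻ ω, lw ω x l ∂Q else 0)
      = ∫⁻ ω, G S T ω x ∂Q := by
    simp only [G]
    rw [lintegral_tsum]
    · refine tsum_congr fun l => ?_
      by_cases h : Ex S T x l
      · simp only [if_pos h]
      · simp only [if_neg h, lintegral_zero]
    · intro l
      by_cases h : Ex S T x l
      · simp only [if_pos h]; exact (Flux566.measurable_lw x l).aemeasurable
      · simp only [if_neg h]; exact aemeasurable_const
  rw [h]
  calc ∫⁻ ω, G S T ω x ∂Q ≤ ∫⁻ _, 1 ∂Q := lintegral_mono fun ω => G_le_one hST ω x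
    _ = 1 := by simp

/-! ### crossings -/

lemma lev_opp (u : Step d) (x : Site d) : lev (opp u) x = - lev u x := by
  unfold lev opp
  cases u.2 <;> simp

lemma opp_opp (u : Step d) : opp (opp u) = u := by
  unfold opp; simp

lemma isDn_iff (u : Step d) (n : ℕ) (l : List (Step d)) :
    NB28.IsDn u n l ↔ NB28.IsUp (opp u) n l := by
  unfold NB28.IsDn NB28.IsUp
  simp only [lev_opp]
  constructor
  · rintro ⟨h1, h2⟩
    exact ⟨fun y hy => ⟨by have := h1 y hy; omega, by have := h1 y hy; omega⟩, by omega⟩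
  · rintro ⟨h1, h2⟩
    exact ⟨fun y hy => ⟨by have := h1 y hy; omega, by have := h1 y hy; omega⟩, by omega⟩

lemma isUp_iff (u : Step d) (n : ℕ) (l : List (Step d)) :
    NB28.IsUp u n l ↔ Ex {y | 0 ≤ lev u y ∧ lev u y < n} {y | lev u y = n} 0 l := by
  rw [ex_iff]; rfl

lemma disj (u : Step d) (n : ℕ) :
    Disjoint {y : Site d | 0 ≤ lev u y ∧ lev u y < n} {y | lev u y = n} := by
  rw [Set.disjoint_left]
  rintro y ⟨_, h1⟩ h2
  simp only [Set.mem_ofPred_eq] at h2
  omega

open Classical in
/-- total annealed mass of the up crossings of `n` levels is at most `1` -/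
theorem sum_up_le_one (ν : Measure (Row d)) [IsProbabilityMeasure ν] (u : Step d) (n : ℕ) :
    (∑' l : List (Step d), if NB28.IsUp u n l then NB28.aw ν l else 0) ≤ 1 := by
  simp only [isUp_iff, NB28.aw]
  have : IsProbabilityMeasure (iidEnvironmentLaw ν) := by unfold iidEnvironmentLaw; infer_instance
  exact annealed_G_le_one (disj u n) (iidEnvironmentLaw ν) 0

open Classical in
theorem sum_dn_le_one (ν : Measure (Row d)) [IsProbabilityMeasure ν] (u : Step d) (n : ℕ) :
    (∑' l : List (Step d), if NB28.IsDn u n l then NB28.aw ν l else 0) ≤ 1 := by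
  simp only [isDn_iff]
  exact sum_up_le_one ν (opp u) n

lemma L_dirVec (u : Step d) (x : Site d) : Kal132.L (B2d.dirVec u) x = (lev u x : ℝ) := by
  unfold Kal132.L lev
  simp only [B2d.dirVec_apply]
  rw [Finset.sum_eq_single u.1]
  · by_cases hu : u.2 = true
    · simp [hu]
    · simp [hu]
  · intro i _ hi
    simp [hi]
  · simp

lemma dirVec_opp (u : Step d) : B2d.dirVec (opp u) = - B2d.dirVec u := by
  funext i
  rw [Pi.neg_apply, B2d.dirVec_apply, B2d.dirVec_apply]
  unfold opp
  by_cases h : i = u.1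
  · simp only [if_pos h]
    cases u.2 <;> simp
  · simp only [if_neg h, neg_zero]

lemma dirVec_ne_zero (u : Step d) : B2d.dirVec u ≠ 0 := by
  intro h
  have := congrFun h u.1
  rw [B2d.dirVec_apply, if_pos rfl] at this
  cases hu : u.2 <;> simp [hu] at this

lemma lev_step_le (u e : Step d) (x : Site d) : lev u (x + stepVec e) ≤ lev u x + 1 := by
  unfold lev stepVec
  by_cases h : u.1 = e.1
  · rw [Pi.add_apply, h, Pi.single_eq_same]
    cases u.2 <;> cases e.2 <;> simp
  · rw [Pi.add_apply, Pi.single_eq_of_ne h]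
    cases u.2 <;> simp

/-- a word cannot jump over level `n` -/
lemma ex_level (u : Step d) (n : ℕ) (x : Site d) (l : List (Step d)) (hx : lev u x ≤ n)
    (h : Ex {y | 0 ≤ lev u y ∧ lev u y < n} {y | (n : ℤ) ≤ lev u y} x l) :
    Ex {y | 0 ≤ lev u y ∧ lev u y < n} {y | lev u y = n} x l := by
  induction l generalizing x with
  | nil => exact le_antisymm hx h
  | cons e l ih =>
    refine ⟨h.1, ih _ ?_ h.2⟩
    have h1 := lev_step_le u e x
    have h2 := h.1.2
    omega

lemma lev_zero (u : Step d) : lev u (0 : Site d) = 0 := by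
  unfold lev; cases u.2 <;> simp

/-- staying above level `0` forces an up crossing of every height -/
lemma stay_le_hit (ν : Measure (Row d)) [IsProbabilityMeasure ν]
    (hν : ∀ᵐ p ∂ν, ∀ e : Step d, 0 < p.1 e) (u : Step d)
    (hA : annealed (iidEnvironmentLaw ν) 0 (escapeEvent (B2d.dirVec u)) ≠ 0) (n : ℕ) :
    annealed (iidEnvironmentLaw ν) 0 (Kal132.Stay (B2d.dirVec u))
      ≤ annealed (iidEnvironmentLaw ν) 0
          (HitU {y | 0 ≤ lev u y ∧ lev u y < n} {y | (n : ℤ) ≤ lev u y}) := by
  have : IsProbabilityMeasure (iidEnvironmentLaw ν) := by unfold iidEnvironmentLaw; infer_instance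
  refine measure_mono_ae ?_
  have hk := Kal132.kalikow_ae (Q561.iid_shift ν) (Kal132.slabProp_iid ν hν) (B2d.dirVec u)
    (dirVec_ne_zero u) (Kal132.retry_iid ν _ (dirVec_ne_zero u)) hA
  have h0 : ∀ᵐ X ∂annealed (iidEnvironmentLaw ν) (0 : Site d), X ∈ {X : Path d | X 0 = 0} :=
    annealed_ae (measurableSet_of_agree 0 _ fun X Y h => by
      simp only [Set.mem_ofPred_eq, h 0 le_rfl])
      (Filter.Eventually.of_forall fun ω => quenched_zero_eq ω 0)
  filter_upwards [hk, h0] with X hX hX0 hst
  have hX0' : X 0 = 0 := hX0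
  have hpos : ∀ m, 0 ≤ lev u (X m) := by
    intro m
    have h1 : Kal132.L (B2d.dirVec u) (X 0) ≤ Kal132.L (B2d.dirVec u) (X m) := hst m
    rw [L_dirVec, L_dirVec, hX0', lev_zero] at h1
    exact_mod_cast h1
  have hup : Filter.Tendsto (fun m => Kal132.L (B2d.dirVec u) (X m)) Filter.atTop Filter.atTop := by
    rcases hX with h | h
    · exact (Kal132.mem_escape_iff _ _).1 h
    · exfalso
      rw [Kal132.mem_escape_iff] at h
      obtain ⟨m, hm⟩ := (h.eventually_ge_atTop 1).exists
      rw [Kal132.L_neg, L_dirVec] at hm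
      have h2 : (0 : ℝ) ≤ (lev u (X m) : ℝ) := by exact_mod_cast hpos m
      linarith
  have hex : ∃ m, (n : ℤ) ≤ lev u (X m) := by
    obtain ⟨m, hm⟩ := (hup.eventually_ge_atTop (n : ℝ)).exists
    rw [L_dirVec] at hm
    exact ⟨m, by exact_mod_cast hm⟩
  classical
  exact ⟨Nat.find hex, fun i hi => ⟨hpos i, not_le.1 (Nat.find_min hex hi)⟩, Nat.find_spec hex⟩

open Classical in
/-- the total annealed mass of the up crossings is at least `P(D = ∞)` -/
theorem stay_le_sum_up (ν : Measure (Row d)) [IsProbabilityMeasure ν]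
    (hν : ∀ᵐ p ∂ν, ∀ e : Step d, 0 < p.1 e) (u : Step d)
    (hA : annealed (iidEnvironmentLaw ν) 0 (escapeEvent (B2d.dirVec u)) ≠ 0) (n : ℕ) :
    annealed (iidEnvironmentLaw ν) 0 (Kal132.Stay (B2d.dirVec u))
      ≤ ∑' l : List (Step d), if NB28.IsUp u n l then NB28.aw ν l else 0 := by
  have : IsProbabilityMeasure (iidEnvironmentLaw ν) := by unfold iidEnvironmentLaw; infer_instance
  refine (stay_le_hit ν hν u hA n).trans ?_
  rw [annealed_apply _ 0 (measurableSet_HitU _ _)]
  refine (annealed_HitU_le _ _ _ 0).trans ?_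
  refine ENNReal.tsum_le_tsum fun l => ?_
  split_ifs with h1 h2
  · exact le_rfl
  · exact absurd ((isUp_iff u n l).2 (ex_level u n 0 l (by rw [lev_zero]; omega) h1)) h2
  · exact zero_le
  · exact zero_le

/-- `P(D = ∞) ≠ 0` -/
theorem stay_ne_zero (ν : Measure (Row d)) [IsProbabilityMeasure ν] (u : Step d)
    (hA : annealed (iidEnvironmentLaw ν) 0 (escapeEvent (B2d.dirVec u)) ≠ 0) :
    annealed (iidEnvironmentLaw ν) 0 (Kal132.Stay (B2d.dirVec u)) ≠ 0 := by
  have : IsProbabilityMeasure (iidEnvironmentLaw ν) := by unfold iidEnvironmentLaw; infer_instance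
  exact Kal132.pD_pos (Q561.iid_shift ν) _ hA

open Classical in
/-- **positivity**: both masses are at least a constant independent of `n` -/
theorem mass_pos (ν : Measure (Row d)) [IsProbabilityMeasure ν]
    (hν : ∀ᵐ p ∂ν, ∀ e : Step d, 0 < p.1 e) (u : Step d)
    (hA : annealed (iidEnvironmentLaw ν) 0 (escapeEvent (B2d.dirVec u)) ≠ 0)
    (hB : annealed (iidEnvironmentLaw ν) 0 (escapeEvent (-B2d.dirVec u)) ≠ 0) :
    ∃ c : ℝ≥0∞, c ≠ 0 ∧ c ≤ 1 ∧
      (∀ n : ℕ, c ≤ ∑' l : List (Step d), if NB28.IsUp u n l then NB28.aw ν l else 0) ∧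
      (∀ n : ℕ, c ≤ ∑' l : List (Step d), if NB28.IsDn u n l then NB28.aw ν l else 0) := by
  have hB' : annealed (iidEnvironmentLaw ν) 0 (escapeEvent (B2d.dirVec (opp u))) ≠ 0 := by
    rw [dirVec_opp]; exact hB
  refine ⟨min (annealed (iidEnvironmentLaw ν) 0 (Kal132.Stay (B2d.dirVec u)))
    (annealed (iidEnvironmentLaw ν) 0 (Kal132.Stay (B2d.dirVec (opp u)))), ?_, ?_, ?_, ?_⟩
  · intro h
    rcases min_choice (annealed (iidEnvironmentLaw ν) 0 (Kal132.Stay (B2d.dirVec u)))
      (annealed (iidEnvironmentLaw ν) 0 (Kal132.Stay (B2d.dirVec (opp u)))) with h' | h'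
    · exact stay_ne_zero ν u hA (h' ▸ h)
    · exact stay_ne_zero ν (opp u) hB' (h' ▸ h)
  · exact (min_le_left _ _).trans ((stay_le_sum_up ν hν u hA 0).trans (sum_up_le_one ν u 0))
  · exact fun n => (min_le_left _ _).trans (stay_le_sum_up ν hν u hA n)
  · intro n
    simp only [isDn_iff]
    exact (min_le_right _ _).trans (stay_le_sum_up ν hν (opp u) hB' n)

open Classical in
/-- the product form: total mass of the pairs of crossings lies in `[c, 1]` -/
theorem mass_pairs (ν : Measure (Row d)) [IsProbabilityMeasure ν]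
    (hν : ∀ᵐ p ∂ν, ∀ e : Step d, 0 < p.1 e) (u : Step d)
    (hA : annealed (iidEnvironmentLaw ν) 0 (escapeEvent (B2d.dirVec u)) ≠ 0)
    (hB : annealed (iidEnvironmentLaw ν) 0 (escapeEvent (-B2d.dirVec u)) ≠ 0) :
    ∃ c : ℝ≥0∞, c ≠ 0 ∧ c ≤ 1 ∧ ∀ n : ℕ,
      c ≤ (∑' π : List (Step d), ∑' γ : List (Step d),
        if NB28.IsUp u n π ∧ NB28.IsDn u n γ then NB28.aw ν π * NB28.aw ν γ else 0) := by
  obtain ⟨c, h0, h1, h2, h3⟩ := mass_pos ν hν u hA hB
  refine ⟨c * c, mul_ne_zero h0 h0, by simpa using mul_le_mul' h1 h1, fun n => ?_⟩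
  refine (mul_le_mul' (h2 n) (h3 n)).trans (le_of_eq ?_)
  rw [← ENNReal.tsum_mul_right]
  refine tsum_congr fun π => ?_
  rw [← ENNReal.tsum_mul_left]
  refine tsum_congr fun γ => ?_
  by_cases ha : NB28.IsUp u n π <;> by_cases hb : NB28.IsDn u n γ <;> simp [ha, hb]

open Classical in
theorem mass_pairs_le (ν : Measure (Row d)) [IsProbabilityMeasure ν] (u : Step d) (n : ℕ) :
    (∑' π : List (Step d), ∑' γ : List (Step d),
        if NB28.IsUp u n π ∧ NB28.IsDn u n γ then NB28.aw ν π * NB28.aw ν γ else 0) ≤ 1 := by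
  have h := mul_le_mul' (sum_up_le_one ν u n) (sum_dn_le_one ν u n)
  rw [mul_one] at h
  refine le_trans (le_of_eq ?_) h
  rw [← ENNReal.tsum_mul_right]
  refine tsum_congr fun π => ?_
  rw [← ENNReal.tsum_mul_left]
  refine tsum_congr fun γ => ?_
  by_cases ha : NB28.IsUp u n π <;> by_cases hb : NB28.IsDn u n γ <;> simp [ha, hb]

end Crest.Agent.R154.WM286
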