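import Crest.Agent.R154.NBWord_28
import Crest.Agent.R154.WMass_286

/-! Row 154 (helper28): **`Spine.NBProp` from `KappaW'`.** -/

set_option autoImplicit false

namespace Crest.Agent.R154.NB28

open MeasureTheory ProbabilityTheory Crest.ProbabilityR.RandomEnvironment Crest.Agent.R154
open Crest.Agent.R154.B2d
open scoped ENNReal

/-- the only open input of `Spine.NBProp`: weak `KAPPA'` in words, for iid merely elliptic laws both of
whose opposite escape events are charged. -/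
def KappaAll' : Prop :=
  ∀ (d : ℕ) (_ : 3 ≤ d) (ν : Measure (Row d)) [IsProbabilityMeasure ν],
    (∀ᵐ p ∂ν, ∀ e : Step d, 0 < p.1 e) → ∀ u : Step d,
    annealed (iidEnvironmentLaw ν) 0 (escapeEvent (dirVec u)) ≠ 0 →
    annealed (iidEnvironmentLaw ν) 0 (escapeEvent (-dirVec u)) ≠ 0 → KappaW' ν u

/-- the same with `KappaW` -/
def KappaAll : Prop :=
  ∀ (d : ℕ) (_ : 3 ≤ d) (ν : Measure (Row d)) [IsProbabilityMeasure ν],
    (∀ᵐ p ∂ν, ∀ e : Step d, 0 < p.1 e) → ∀ u : Step d,
    annealed (iidEnvironmentLaw ν) 0 (escapeEvent (dirVec u)) ≠ 0 →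
    annealed (iidEnvironmentLaw ν) 0 (escapeEvent (-dirVec u)) ≠ 0 → KappaW ν u

/-- **`Spine.NBProp` from weak `KAPPA'`.** -/
theorem nb_of_kappaW' (h : KappaAll') : Spine.NBProp := by
  intro d hd ν _ hν u hA
  by_contra hB
  obtain ⟨c, hc, -, h1, h2⟩ := WM286.mass_pos ν hν u hA hB
  exact false_of (by omega) ν hν u c c hc hc h1 h2 (h d hd ν hν u hA hB)

/-- **`Spine.NBProp` from `KAPPA'`.** -/
theorem nb_of_kappaW (h : KappaAll) : Spine.NBProp :=
  nb_of_kappaW' fun d hd ν _ hν u hA hB => (h d hd ν hν u hA hB).weak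

end Crest.Agent.R154.NB28
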