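import Crest.Agent.R154.Comp_818
import Crest.Agent.R154.B5Br_657
import Crest.Agent.R154.Gap_583
import Crest.Agent.R154.WMass_286
import Crest.Agent.R154.NBTop_28
import Crest.Agent.R154.HSl_169

/-! Row 154, ROAD 801, FRAME B (helper818): `KappaW` from the window estimate and the slab, on 657's
instance of the pair lists. -/

set_option autoImplicit false

namespace Crest.Agent.R154.KB818

open MeasureTheory ProbabilityTheory Crest.ProbabilityR.RandomEnvironment Crest.Agent.R154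
open Crest.Agent.R154.B5A Crest.Agent.R154.B5W Crest.Agent.R154.Comp818
open Crest.Agent.R154.NB28 (IsUp IsDn KappaW KappaAll)
open scoped ENNReal Topology

variable {d : ℕ}

/-- the window estimate (912's `hWin`) for 657's instance -/
def HWin (ν : Measure (Row d)) [IsProbabilityMeasure ν] (u : Step d) : Prop :=
  ∀ ε : ℝ≥0∞, ε ≠ 0 → ∃ K : ℕ, 1 ≤ K ∧ ∀ i0 : ℕ, ∃ s H0 : ℕ, ∀ H, H0 ≤ H →
    ∀ a, K * H ≤ 8 * a → ∀ w : Lat u, (open Classical in ∑' L1 : List (PB u),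
      (if att (ht u) a L1 ∧ HT (ht u) L1 ≤ a + i0 then
        LW (Lam ν u) L1 * WLp (Lam ν u) (ht u) (dl u) (cd u) H s (act (dl u) L1 w) else 0)) ≤ ε / K

/-- the thin slab (689's) for 657's instance -/
def HSlab (ν : Measure (Row d)) [IsProbabilityMeasure ν] (u : Step d) : Prop :=
  ∀ (s : ℕ) (ε : ℝ≥0∞), ε ≠ 0 → ∃ D0 : ℕ, ∀ δ, D0 ≤ δ → ∀ w : Lat u,
    Slb (Lam ν u) (ht u) (dl u) (cd u) δ s w ≤ ε

open Classical in
lemma gap_of {B : Type*} (Λ : B → ℝ≥0∞) (ht : B → ℕ) (h1 : ∀ b, 1 ≤ ht b) (c : ℝ≥0∞)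
    (hc : c ≠ 0) (hU : ∀ n, c ≤ U Λ ht n) (hU1 : ∀ n, U Λ ht n ≤ 1) (ε : ℝ≥0∞) (hε : ε ≠ 0) :
    ∃ i0 : ℕ, ∀ a n, a + i0 ≤ n → Gap Λ ht n a i0 ≤ ε := by
  have h := Gap583.gap_tendsto Λ ht h1 c hc 0 (fun n _ => hU n) hU1
  obtain ⟨i0, hi0⟩ := ((ENNReal.tendsto_nhds_zero.1 h) ε (pos_iff_ne_zero.2 hε)).exists
  refine ⟨i0, fun a n hn => le_trans ?_ ((Gap583.gap_le Λ ht hU1 a i0 n hn).trans hi0)⟩
  rw [Gap]
  refine ENNReal.tsum_le_tsum fun L => ?_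
  by_cases hL : HT ht L = n ∧ (∀ i, ¬ (a ≤ HT ht (L.take i) ∧ HT ht (L.take i) ≤ a + i0))
  · rw [if_pos hL, if_pos]
    refine ⟨hL.1, fun L1 L2 h => ?_⟩
    have := hL.2 L1.length
    rwa [h, List.take_left' rfl] at this
  · rw [if_neg hL]; exact zero_le

/-- **`KappaW` from `HWin` and `HSlab`** -/
theorem kappaW_of (ν : Measure (Row d)) [IsProbabilityMeasure ν]
    (hν : ∀ᵐ p ∂ν, ∀ e : Step d, 0 < p.1 e) (u : Step d)
    (hA : annealed (iidEnvironmentLaw ν) 0 (escapeEvent (B2d.dirVec u)) ≠ 0)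
    (hB : annealed (iidEnvironmentLaw ν) 0 (escapeEvent (-B2d.dirVec u)) ≠ 0)
    (hSlab : HSlab ν u) (hWin : HWin ν u) : KappaW ν u := by
  obtain ⟨c, hc, -, h1, h2⟩ := WM286.mass_pos ν hν u hA hB
  have hU : ∀ n, c * c ≤ U (Lam ν u) (ht u) n := fun n => by
    rw [U_eq28]; exact mul_le_mul' (h1 n) (h2 n)
  have hU1 : ∀ n, U (Lam ν u) (ht u) n ≤ 1 := fun n => by
    rw [U_eq28]
    exact mul_le_one' (sum_if_le_one ν fun l l' h h' hp => NB28.isUp_prefix h h' hp)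
      (sum_if_le_one ν fun l l' h h' hp => NB28.isDn_prefix h h' hp)
  have key := comp (Lam ν u) (ht u) (dl u) (cd u) one_le_hb
    (fun w b k hk => hcd u w b k hk) (c * c) (mul_ne_zero hc hc) hU hU1
    (fun ε hε => gap_of _ _ one_le_hb (c * c) (mul_ne_zero hc hc) hU hU1 ε hε) hSlab hWin
  intro ε hε
  obtain ⟨M, hM⟩ := key ε hε
  refine ⟨M, fun m hm n hn w hw => ?_⟩
  have h := hM m hm n hn (⟨w, hw⟩ : Lat u)
  exact (le_of_eq (Kap1_eq ν u n m (⟨w, hw⟩ : Lat u)).symm).trans h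

/-- **`KappaW` from `HWin` alone** (slab = 169) -/
theorem kappaW_of_win (hd : 2 ≤ d) (ν : Measure (Row d)) [IsProbabilityMeasure ν]
    (hν : ∀ᵐ p ∂ν, ∀ e : Step d, 0 < p.1 e) (u : Step d)
    (hA : annealed (iidEnvironmentLaw ν) 0 (escapeEvent (B2d.dirVec u)) ≠ 0)
    (hB : annealed (iidEnvironmentLaw ν) 0 (escapeEvent (-B2d.dirVec u)) ≠ 0)
    (hWin : HWin ν u) : KappaW ν u := by
  obtain ⟨c, hc, -, h1, h2⟩ := WM286.mass_pos ν hν u hA hB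
  have hU : ∀ n, c * c ≤ U (Lam ν u) (ht u) n := fun n => by
    rw [U_eq28]; exact mul_le_mul' (h1 n) (h2 n)
  have hU1 : ∀ n, U (Lam ν u) (ht u) n ≤ 1 := fun n => by
    rw [U_eq28]
    exact mul_le_one' (sum_if_le_one ν fun l l' h h' hp => NB28.isUp_prefix h h' hp)
      (sum_if_le_one ν fun l l' h h' hp => NB28.isDn_prefix h h' hp)
  have hΛ : ∑' b, Lam ν u b = 1 :=
    le_antisymm (mass_le_one (Lam ν u) (ht u) one_le_hb hU1)
      (mass_ge_one (Lam ν u) (ht u) (c * c) (mul_ne_zero hc hc) 0 (fun n _ => hU n))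
  refine kappaW_of ν hν u hA hB ?_ hWin
  intro s ε hε
  exact HSl169.hSl ν hd hν u hΛ hU1 s ε hε

/-- **the row from the window estimate** -/
theorem kappaAll_of (h : ∀ (d : ℕ) (_ : 3 ≤ d) (ν : Measure (Row d)) [IsProbabilityMeasure ν],
    (∀ᵐ p ∂ν, ∀ e : Step d, 0 < p.1 e) → ∀ u : Step d,
    annealed (iidEnvironmentLaw ν) 0 (escapeEvent (B2d.dirVec u)) ≠ 0 →
    annealed (iidEnvironmentLaw ν) 0 (escapeEvent (-B2d.dirVec u)) ≠ 0 → HWin ν u) : KappaAll :=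
  fun d hd ν _ hν u hA hB => kappaW_of_win (by omega) ν hν u hA hB (h d hd ν hν u hA hB)

end Crest.Agent.R154.KB818
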