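import Crest.Agent.R154.KapComp_803
import Crest.Agent.R154.KB_818
import Crest.Agent.R154.E23_657

/-! Row 154, ROAD 801, FRAME B (helper557): the window estimate for 657's instance, from 803's
abstract theorem and 657's `e2`, `e3`. -/

set_option autoImplicit false
set_option maxHeartbeats 1000000

namespace Crest.Agent.R154.BindF557

open MeasureTheory ProbabilityTheory Crest.ProbabilityR.RandomEnvironment Crest.Agent.R154
open Crest.Agent.R154.B5A Crest.Agent.R154.B5W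
open Crest.Agent.R154.Flux566 (endp sitesL endp_append endp_eq_add)
open Crest.Agent.R154.NB28 (IsUp IsDn Cm KappaW KappaAll)
open Crest.Agent.R154.KapComp803 (WP)
open scoped ENNReal Topology

variable {d : ℕ}

open Classical in
/-- push-forward of a weight -/
noncomputable def push {I G : Type*} (F : I → ℝ≥0∞) (D : I → G) (z : G) : ℝ≥0∞ :=
  ∑' i, if D i = z then F i else 0

open Classical in
lemma grp {I G : Type*} (F : I → ℝ≥0∞) (D : I → G) (ψ : G → ℝ≥0∞) :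
    ∑' i, F i * ψ (D i) = ∑' z, push F D z * ψ z := by
  have e1 : ∀ z, push F D z * ψ z
      = ∑' i, (if D i = z then F i * ψ z else 0) := by
    intro z
    rw [push, ← ENNReal.tsum_mul_right]
    refine tsum_congr fun i => ?_
    split_ifs <;> simp
  simp_rw [e1]
  rw [ENNReal.tsum_comm]
  refine tsum_congr fun i => ?_
  rw [tsum_eq_single (D i)]
  · rw [if_pos rfl]
  · intro z hz
    rw [if_neg (fun h => hz h.symm)]

lemma act_cat (u : Step d) (L : List (PB u)) (w : Lat u) :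
    (act (dl u) L w).1 = w.1 + endp 0 (cat L).1 + endp 0 (cat L).2 := by
  induction L generalizing w with
  | nil => simp [act, cat, endp]
  | cons b L ih =>
    rw [act, ih]
    simp only [dl, dlp, cat, pm]
    rw [endp_append, endp_append, endp_eq_add b.1.1 (endp 0 (cat L).1),
      endp_eq_add (cat L).2 (endp 0 b.1.2)]
    abel

/-- lateral displacement of the up word -/
noncomputable def zX (u : Step d) (L : List (PB u)) : Site d := endp 0 (cat L).1

/-- minus the displacement of the down word -/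
noncomputable def zY (u : Step d) (L : List (PB u)) : Site d := -endp 0 (cat L).2

lemma hrel (u : Step d) (L' : List (PB u)) (w x : Lat u) : ∃ κ : Site d, ∀ A : List (PB u),
    act (dl u) (A ++ L') w = x → zX u A = zY u A + κ := by
  refine ⟨x.1 - w.1 - endp 0 (cat L').1 - endp 0 (cat L').2, fun A hA => ?_⟩
  rw [act_append] at hA
  have h := congrArg Subtype.val hA
  rw [act_cat, act_cat] at h
  rw [← h, zX, zY]
  abel

open Classical in
lemma hprod (ν : Measure (Row d)) [IsProbabilityMeasure ν] (u : Step d) (H : ℕ) :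
    ∃ a b : Site d → ℝ≥0∞, ∑' z, a z ≤ 1 ∧ ∑' z, b z ≤ 1 ∧
      ∀ F : Site d → Site d → ℝ≥0∞,
      (∑' L : List (PB u), if HT (ht u) L = H then LW (Lam ν u) L * F (zX u L) (zY u L) else 0)
        = ∑' x, ∑' y, a x * b y * F x y := by
  set fa : List (Step d) → ℝ≥0∞ := fun π => if IsUp u H π then NB28.aw ν π else 0 with hfa
  set fb : List (Step d) → ℝ≥0∞ := fun γ => if IsDn u H γ then NB28.aw ν γ else 0 with hfb
  refine ⟨push fa (fun π => endp 0 π), push fb (fun γ => -endp 0 γ), ?_, ?_, ?_⟩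
  · have h := grp fa (fun π => endp 0 π) (fun _ => 1)
    simp only [mul_one] at h
    rw [← h]
    exact sum_if_le_one ν fun l l' h h' hp => NB28.isUp_prefix h h' hp
  · have h := grp fb (fun π => -endp 0 π) (fun _ => 1)
    simp only [mul_one] at h
    rw [← h]
    exact sum_if_le_one ν fun l l' h h' hp => NB28.isDn_prefix h h' hp
  · intro F
    have h := tsum_L ν u H (fun x => F (endp 0 x.1) (-endp 0 x.2))
    refine Eq.trans ?_ (h.trans ?_)
    · rfl
    · have e1 : ∀ π γ : List (Step d), (if IsUp u H π ∧ IsDn u H γ then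
          NB28.aw ν π * NB28.aw ν γ * F (endp 0 π) (-endp 0 γ) else 0)
          = fa π * (fb γ * F (endp 0 π) (-endp 0 γ)) := by
        intro π γ
        simp only [hfa, hfb]
        by_cases h1 : IsUp u H π <;> by_cases h2 : IsDn u H γ <;> simp [h1, h2, mul_assoc]
      simp_rw [e1]
      simp_rw [ENNReal.tsum_mul_left]
      have e2 : ∀ π : List (Step d), ∑' γ, fb γ * F (endp 0 π) (-endp 0 γ)
          = ∑' y, push fb (fun γ => -endp 0 γ) y * F (endp 0 π) y :=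
        fun π => grp fb (fun γ => -endp 0 γ) (fun y => F (endp 0 π) y)
      simp_rw [e2]
      rw [grp fa (fun π => endp 0 π) (fun x =>
        ∑' y, push fb (fun γ => -endp 0 γ) y * F x y)]
      refine tsum_congr fun x => ?_
      rw [← ENNReal.tsum_mul_left]
      refine tsum_congr fun y => ?_
      ring

open Classical in
/-- `WP` in words -/
lemma WP_le (ν : Measure (Row d)) [IsProbabilityMeasure ν] (u : Step d) (H s : ℕ)
    (P : List (Step d) × List (Step d) → Prop) (x : Lat u) :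
    WP (Lam ν u) (ht u) (dl u) (cd u) H s (fun L => P (cat L)) x
      = ∑' π, ∑' γ, (if IsUp u H π ∧ IsDn u H γ ∧ P (π, γ) ∧ (∃ k, k ∈ Cm u x.1 π γ) ∧
        (∀ k ∈ Cm u x.1 π γ, s < k ∧ k + s ≤ H) then NB28.aw ν π * NB28.aw ν γ else 0) := by
  have h := tsum_L ν u H (fun y => if P y ∧ (∃ k, k ∈ cds u y x.1) ∧
    (∀ k ∈ cds u y x.1, s < k ∧ k + s ≤ H) then 1 else 0)
  unfold WP
  refine Eq.trans ?_ (h.trans ?_)
  · refine tsum_congr fun L => ?_
    have hiff : (P (cat L) ∧ CD (ht u) (dl u) (cd u) L x ≠ ∅ ∧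
        (∀ k ∈ CD (ht u) (dl u) (cd u) L x, s < k ∧ k + s ≤ H)) ↔
        (P (cat L) ∧ (∃ k, k ∈ cds u (cat L) x.1) ∧
          (∀ k ∈ cds u (cat L) x.1, s < k ∧ k + s ≤ H)) := by
      rw [CD_cat, ← Set.nonempty_iff_ne_empty]
      rfl
    by_cases h1 : HT (ht u) L = H
    · by_cases h2 : P (cat L) ∧ (∃ k, k ∈ cds u (cat L) x.1) ∧
          (∀ k ∈ cds u (cat L) x.1, s < k ∧ k + s ≤ H)
      · rw [if_pos ⟨h1, hiff.2 h2⟩, if_pos h1, if_pos h2, mul_one]
      · rw [if_neg (fun h' => h2 (hiff.1 h'.2)), if_pos h1, if_neg h2, mul_zero]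
    · rw [if_neg (fun h' => h1 h'.1), if_neg h1]
  · refine tsum_congr fun π => tsum_congr fun γ => ?_
    rw [cds_eq]
    by_cases h1 : IsUp u H π ∧ IsDn u H γ
    · by_cases h2 : P (π, γ) ∧ (∃ k, k ∈ Cm u x.1 π γ) ∧
          (∀ k ∈ Cm u x.1 π γ, s < k ∧ k + s ≤ H)
      · rw [if_pos h1, if_pos h2, if_pos ⟨h1.1, h1.2, h2⟩, mul_one]
      · rw [if_pos h1, if_neg h2, if_neg (fun h' => h2 h'.2.2), mul_zero]
    · rw [if_neg h1, if_neg (fun h' => h1 ⟨h'.1, h'.2.1⟩)]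

open Classical in
/-- extension of a weight on `Lat u` by zero -/
noncomputable def ext (u : Step d) (μ : Lat u → ℝ≥0∞) (y : Site d) : ℝ≥0∞ :=
  if h : Flux566.lev u y = 0 then μ ⟨y, h⟩ else 0

open Classical in
lemma ext_sum (u : Step d) (μ : Lat u → ℝ≥0∞) (F : Site d → ℝ≥0∞) :
    ∑' y, (if Flux566.lev u y = 0 then ext u μ y * F y else 0) = ∑' x : Lat u, μ x * F x.1 := by
  have h := tsum_subtype {y : Site d | Flux566.lev u y = 0} (fun y => ext u μ y * F y)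
  refine Eq.trans ?_ (Eq.trans h.symm ?_)
  · refine tsum_congr fun y => ?_
    rw [Set.indicator_apply]
    rfl
  · refine tsum_congr fun x => ?_
    have hx : ext u μ x.1 = μ x := by
      unfold ext
      rw [dif_pos (show Flux566.lev u x.1 = 0 from x.2)]
      rfl
    rw [hx]

lemma ext_le (u : Step d) (μ : Lat u → ℝ≥0∞) (M : ℝ≥0∞) (h : ∀ x, μ x ≤ M) (y : Site d) :
    ext u μ y ≤ M := by
  unfold ext
  split_ifs
  · exact h _
  · exact zero_le

open Classical in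
lemma ext_tsum (u : Step d) (μ : Lat u → ℝ≥0∞) (h : ∑' x, μ x ≤ 1) :
    ∑' y, ext u μ y ≤ 1 := by
  refine le_trans (le_of_eq ?_) h
  have := ext_sum u μ (fun _ => 1)
  simp only [mul_one] at this
  rw [← this]
  refine tsum_congr fun y => ?_
  unfold ext
  split_ifs <;> rfl

lemma consts (Cst η : ℝ≥0∞) (hC : Cst ≠ ⊤) (hη : η ≠ 0) : ∃ lam δ : ℝ≥0∞, lam ≠ 0 ∧ lam ≠ ⊤ ∧
    δ ≠ 0 ∧ ∀ us ≤ δ, ∀ Q ≤ Cst, 8 * (lam + Q * us / lam + us) ≤ η := by
  set e : ℝ≥0∞ := min η 1 / 24 with he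
  have hm0 : min η 1 ≠ 0 := by
    rcases min_choice η 1 with h | h <;> rw [h]
    · exact hη
    · exact one_ne_zero
  have he0 : e ≠ 0 := by
    rw [he, Ne, ENNReal.div_eq_zero_iff, not_or]
    exact ⟨hm0, by norm_num⟩
  have het : e ≠ ⊤ := by
    rw [he]
    exact ENNReal.div_ne_top (ne_top_of_le_ne_top ENNReal.one_ne_top (min_le_right _ _))
      (by norm_num)
  have hC1 : Cst + 1 ≠ ⊤ := ENNReal.add_ne_top.2 ⟨hC, ENNReal.one_ne_top⟩
  refine ⟨e, min e (e * e / (Cst + 1)), he0, het, ?_, fun us hus Q hQ => ?_⟩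
  · rcases min_choice e (e * e / (Cst + 1)) with h | h <;> rw [h]
    · exact he0
    · rw [Ne, ENNReal.div_eq_zero_iff, not_or]
      exact ⟨mul_ne_zero he0 he0, hC1⟩
  · have h1 : us ≤ e := hus.trans (min_le_left _ _)
    have h2 : Q * us / e ≤ e := by
      refine ENNReal.div_le_of_le_mul ?_
      calc Q * us ≤ (Cst + 1) * (e * e / (Cst + 1)) :=
            mul_le_mul' (hQ.trans le_self_add) (hus.trans (min_le_right _ _))
        _ ≤ e * e := ENNReal.mul_div_le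
    calc 8 * (e + Q * us / e + us) ≤ 8 * (e + e + e) := by gcongr
      _ = 24 * e := by ring
      _ = min η 1 := by
        rw [he]; exact ENNReal.mul_div_cancel (by norm_num) (by norm_num)
      _ ≤ η := min_le_left _ _

open Classical in
lemma hWX (ν : Measure (Row d)) [IsProbabilityMeasure ν] (u : Step d)
    (hus : ∀ ε : ℝ≥0∞, ε ≠ 0 → ∃ s0 : ℕ, ∀ s, s0 ≤ s → E23W.us ν u s ≤ ε)
    (Cst η : ℝ≥0∞) (hC : Cst ≠ ⊤) (hη : η ≠ 0) :
    ∃ s0 : ℕ, ∀ s, s0 ≤ s → ∀ (H : ℕ) (E : Finset (Site d))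
      (μ : Lat u → ℝ≥0∞) (M : ℝ≥0∞), ∑' x, μ x ≤ 1 → (∀ x, μ x ≤ M) → M * E.card ≤ Cst →
      ∑' x, μ x * WP (Lam ν u) (ht u) (dl u) (cd u) H s (fun L => zX u L ∈ E) x ≤ η := by
  obtain ⟨lam, δ, hl, hl', hδ, hc⟩ := consts Cst η hC hη
  obtain ⟨s0, hs0⟩ := hus δ hδ
  refine ⟨s0, fun s hs H E μ M hμ hM hME => ?_⟩
  have h := E23W.e2 ν u s H E (ext u μ) M lam (ext_tsum u μ hμ) (ext_le u μ M hM) hl hl'
  refine le_trans ?_ (h.trans (hc _ (hs0 s hs) _ hME))
  have h2 := ext_sum u μ (fun x => ∑' π, ∑' γ,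
      (if IsUp u H π ∧ endp 0 π ∈ E ∧ IsDn u H γ ∧ (∃ k, k ∈ Cm u x π γ) ∧
        (∀ k ∈ Cm u x π γ, s < k) then NB28.aw ν π * NB28.aw ν γ else 0))
  refine le_trans ?_ (le_of_eq h2.symm)
  refine ENNReal.tsum_le_tsum fun x => mul_le_mul_right ?_ _
  have h3 := WP_le ν u H s (fun y => endp 0 y.1 ∈ E) x
  refine le_trans (le_of_eq h3) ?_
  refine ENNReal.tsum_le_tsum fun π => ENNReal.tsum_le_tsum fun γ => ?_
  split_ifs with a b b
  · exact le_rfl
  · exact absurd ⟨a.1, a.2.2.1, a.2.1, a.2.2.2.1, fun k hk => (a.2.2.2.2 k hk).1⟩ b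
  · exact zero_le
  · exact le_rfl

open Classical in
lemma hWY (ν : Measure (Row d)) [IsProbabilityMeasure ν] (u : Step d)
    (hus : ∀ ε : ℝ≥0∞, ε ≠ 0 → ∃ s0 : ℕ, ∀ s, s0 ≤ s → E23W.us ν u s ≤ ε)
    (Cst η : ℝ≥0∞) (hC : Cst ≠ ⊤) (hη : η ≠ 0) :
    ∃ s0 : ℕ, ∀ s, s0 ≤ s → ∀ (H : ℕ) (E : Finset (Site d))
      (μ : Lat u → ℝ≥0∞) (M : ℝ≥0∞), ∑' x, μ x ≤ 1 → (∀ x, μ x ≤ M) → M * E.card ≤ Cst →
      ∑' x, μ x * WP (Lam ν u) (ht u) (dl u) (cd u) H s (fun L => zY u L ∈ E) x ≤ η := by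
  obtain ⟨lam, δ, hl, hl', hδ, hc⟩ := consts Cst η hC hη
  obtain ⟨s0, hs0⟩ := hus δ hδ
  refine ⟨s0, fun s hs H E μ M hμ hM hME => ?_⟩
  have hcard : M * ((E.image (fun z => -z)).card : ℝ≥0∞) ≤ Cst := by
    refine le_trans (mul_le_mul_right ?_ _) hME
    exact_mod_cast Finset.card_image_le
  have h := E23W.e3 ν u s H (E.image (fun z => -z)) (ext u μ) M lam (ext_tsum u μ hμ)
    (ext_le u μ M hM) hl hl'
  refine le_trans ?_ (h.trans (hc _ (hs0 s hs) _ hcard))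
  have h2 := ext_sum u μ (fun x => ∑' π, ∑' γ,
      (if IsUp u H π ∧ endp 0 γ ∈ E.image (fun z => -z) ∧ IsDn u H γ ∧
        (∃ k, k ∈ Cm u x π γ) ∧
        (∀ k ∈ Cm u x π γ, k + s ≤ H) then NB28.aw ν π * NB28.aw ν γ else 0))
  refine le_trans ?_ (le_of_eq h2.symm)
  refine ENNReal.tsum_le_tsum fun x => mul_le_mul_right ?_ _
  have h3 := WP_le ν u H s (fun y => -endp 0 y.2 ∈ E) x
  refine le_trans (le_of_eq h3) ?_
  refine ENNReal.tsum_le_tsum fun π => ENNReal.tsum_le_tsum fun γ => ?_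
  split_ifs with a b b
  · exact le_rfl
  · refine absurd ⟨a.1, ?_, a.2.1, a.2.2.2.1, fun k hk => (a.2.2.2.2 k hk).2⟩ b
    exact Finset.mem_image.2 ⟨_, a.2.2.1, neg_neg _⟩
  · exact zero_le
  · exact le_rfl

open Classical in
/-- **the window estimate** -/
theorem hWin (ν : Measure (Row d)) [IsProbabilityMeasure ν]
    (hν : ∀ᵐ p ∂ν, ∀ e : Step d, 0 < p.1 e) (u : Step d)
    (hA : annealed (iidEnvironmentLaw ν) 0 (escapeEvent (B2d.dirVec u)) ≠ 0)
    (hB : annealed (iidEnvironmentLaw ν) 0 (escapeEvent (-B2d.dirVec u)) ≠ 0) :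
    KB818.HWin ν u := by
  obtain ⟨c, hc, -, h1, h2⟩ := WM286.mass_pos ν hν u hA hB
  have hU : ∀ n, c * c ≤ U (Lam ν u) (ht u) n := fun n => by
    rw [U_eq28]; exact mul_le_mul' (h1 n) (h2 n)
  have hU1 : ∀ n, U (Lam ν u) (ht u) n ≤ 1 := fun n => by
    rw [U_eq28]
    exact mul_le_one' (sum_if_le_one ν fun l l' h h' hp => NB28.isUp_prefix h h' hp)
      (sum_if_le_one ν fun l l' h h' hp => NB28.isDn_prefix h h' hp)
  have hΛ : ∑' b, Lam ν u b = 1 :=
    le_antisymm (mass_le_one (Lam ν u) (ht u) one_le_hb hU1)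
      (mass_ge_one (Lam ν u) (ht u) (c * c) (mul_ne_zero hc hc) 0 (fun n _ => hU n))
  have hcc : c * c ≠ ⊤ := ne_top_of_le_ne_top ENNReal.one_ne_top ((hU 0).trans (hU1 0))
  have hmean : ∑' k, tail (Lam ν u) (ht u) k ≠ ⊤ := by
    rw [← sum_tail (Lam ν u) (ht u) hΛ]
    exact ne_top_of_le_ne_top (ENNReal.inv_ne_top.2 (mul_ne_zero hc hc))
      (mean_le (Lam ν u) (ht u) one_le_hb hΛ (c * c) (mul_ne_zero hc hc) hcc 0 (fun n _ => hU n))
  have hus : ∀ ε : ℝ≥0∞, ε ≠ 0 → ∃ s0 : ℕ, ∀ s, s0 ≤ s → E23W.us ν u s ≤ ε := fun ε hε =>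
    E23W.us_small ν hν u (by
      rw [← annealed_apply _ 0 (B2d.measurableSet_escapeEvent _)]; exact hA) ε hε
  exact KapComp803.hWin_of (Lam ν u) (ht u) (dl u) (cd u) one_le_hb hΛ.le hmean (c * c)
    (mul_ne_zero hc hc) hU hU1 (zX u) (zY u) (hprod ν u) (hrel u) (hWX ν u hus) (hWY ν u hus)

end Crest.Agent.R154.BindF557
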