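import Crest.Agent.R154.BindH_135

/-! Row 154, ROAD 801 (helper135): the window lemmas for lists (helper540's letters) from the window
lemmas in words with levels (helper971's letters). -/

set_option autoImplicit false

namespace Crest.Agent.R154.BindH135

open MeasureTheory ProbabilityTheory Crest.ProbabilityR.RandomEnvironment Crest.Agent.R154
open Crest.Agent.R154.Flux132 (lev opp)
open Crest.Agent.R154.Flux566 (lw endp sitesL endp_append endp_eq_add)
open Crest.Agent.R154.NB28 (IsUp IsDn aw)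
open Crest.Agent.R154.B5A (LW HT)
open Crest.Agent.R154.Bind12 (TT Dp catX catY sX sY)
open Crest.Agent.R154.Fact346 (Irr ht fl flr)
open scoped ENNReal

variable {d : ℕ}

open Classical in
/-- window lemma (2) in words -/
def H2W (ν : Measure (Row d)) [IsProbabilityMeasure ν] (u : Step d) (C : ℝ≥0∞)
    (us : ℕ → ℕ → ℝ≥0∞) : Prop :=
  ∀ (i s h h' a a' lo : ℕ) (E : Finset (Site d)) (μ : Site d → ℝ≥0∞) (M lam : ℝ≥0∞),
    ∑' x, μ x ≤ 1 → (∀ x, μ x ≤ M) → lam ≠ 0 → lam ≠ ⊤ → a + s ≤ lo → a' + s ≤ lo →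
    a ≤ a' + i →
    ∑' x : Site d, μ x * ∑' π : List (Step d), ∑' ρ : List (Step d),
      (if IsUp u h π ∧ IsDn u h' ρ ∧ endp 0 π ∈ E ∧
        (∃ y, y ∈ sitesL (a • stepVec (opp u) - endp 0 π) π ∧
          y ∈ sitesL (x + (a' + 1) • stepVec (opp u)) ρ) ∧
        (∀ y, y ∈ sitesL (a • stepVec (opp u) - endp 0 π) π →
          y ∈ sitesL (x + (a' + 1) • stepVec (opp u)) ρ → lev u y ≤ -(lo : ℤ))
        then aw ν π * aw ν ρ else 0)
      ≤ C * (lam + M * E.card * us i s / lam + us i s)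

open Classical in
/-- window lemma (3) in words -/
def H3W (ν : Measure (Row d)) [IsProbabilityMeasure ν] (u : Step d) (C : ℝ≥0∞)
    (us : ℕ → ℕ → ℝ≥0∞) : Prop :=
  ∀ (i s h h' a a' hi : ℕ) (E : Finset (Site d)) (μ : Site d → ℝ≥0∞) (M lam : ℝ≥0∞),
    ∑' x, μ x ≤ 1 → (∀ x, μ x ≤ M) → lam ≠ 0 → lam ≠ ⊤ → hi + s ≤ a + h → hi + s ≤ a' + h' →
    a + h ≤ a' + h' + i →
    ∑' x : Site d, μ x * ∑' π : List (Step d), ∑' ρ : List (Step d),
      (if IsUp u h π ∧ IsDn u h' ρ ∧ endp 0 ρ ∈ E ∧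
        (∃ y, y ∈ sitesL (a • stepVec (opp u) - endp 0 π) π ∧
          y ∈ sitesL (x + (a' + 1) • stepVec (opp u)) ρ) ∧
        (∀ y, y ∈ sitesL (a • stepVec (opp u) - endp 0 π) π →
          y ∈ sitesL (x + (a' + 1) • stepVec (opp u)) ρ → -(hi : ℤ) ≤ lev u y)
        then aw ν π * aw ν ρ else 0)
      ≤ C * (lam + M * E.card * us i s / lam + us i s)

open Classical in
/-- window lemma (2) for lists -/
def H2L (ν : Measure (Row d)) [IsProbabilityMeasure ν] (u : Step d) (C : ℝ≥0∞)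
    (us : ℕ → ℕ → ℝ≥0∞) : Prop :=
  ∀ (i s h h' a a' lo : ℕ) (E : Finset (Site d)) (μ : Site d → ℝ≥0∞) (M lam : ℝ≥0∞),
    ∑' x, μ x ≤ 1 → (∀ x, μ x ≤ M) → lam ≠ 0 → lam ≠ ⊤ → a + s ≤ lo → a' + s ≤ lo →
    a ≤ a' + i →
    ∑' x : Site d, μ x * ∑' L : List (Irr (IsUp u)), ∑' L' : List (Irr (IsDn u)),
      (if HT ht L = h ∧ DX u L ∈ E ∧ HT ht L' = h' ∧
        (∃ z k, (z, k) ∈ TX u L 0 a ∧ (z, k) ∈ TY u L' x a') ∧
        (∀ z k, (z, k) ∈ TX u L 0 a → (z, k) ∈ TY u L' x a' → lo ≤ k)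
        then LW (fun b : Irr (IsUp u) => aw ν b.1) L * LW (fun b : Irr (IsDn u) => aw ν b.1) L'
        else 0)
      ≤ C * (lam + M * E.card * us i s / lam + us i s)

open Classical in
/-- window lemma (3) for lists -/
def H3L (ν : Measure (Row d)) [IsProbabilityMeasure ν] (u : Step d) (C : ℝ≥0∞)
    (us : ℕ → ℕ → ℝ≥0∞) : Prop :=
  ∀ (i s h h' a a' hi : ℕ) (E : Finset (Site d)) (μ : Site d → ℝ≥0∞) (M lam : ℝ≥0∞),
    ∑' x, μ x ≤ 1 → (∀ x, μ x ≤ M) → lam ≠ 0 → lam ≠ ⊤ → hi + s ≤ a + h → hi + s ≤ a' + h' →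
    a + h ≤ a' + h' + i →
    ∑' x : Site d, μ x * ∑' L : List (Irr (IsUp u)), ∑' L' : List (Irr (IsDn u)),
      (if HT ht L = h ∧ DY u L' ∈ E ∧ HT ht L' = h' ∧
        (∃ z k, (z, k) ∈ TX u L 0 a ∧ (z, k) ∈ TY u L' x a') ∧
        (∀ z k, (z, k) ∈ TX u L 0 a → (z, k) ∈ TY u L' x a' → k ≤ hi)
        then LW (fun b : Irr (IsUp u) => aw ν b.1) L * LW (fun b : Irr (IsDn u) => aw ν b.1) L'
        else 0)
      ≤ C * (lam + M * E.card * us i s / lam + us i s)

lemma nsmul_lev (u : Step d) (k : ℕ) (x : Site d) : lev u (k • x) = k * lev u x := by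
  induction k with
  | zero => simp [Bind12.lev_zero]
  | succ k ih => rw [succ_nsmul, Bind12.lev_add, ih]; push_cast; ring

/-- change of frame -/
lemma sites_X (u : Step d) (a : ℕ) (π : List (Step d)) (y : Site d) :
    y ∈ sitesL (a • stepVec (opp u) - endp 0 π) π ↔
      y - a • stepVec (opp u) ∈ sitesL (- endp 0 π) π := by
  rw [← Bind12.mem_sitesL_shift, sub_eq_add_neg, add_comm]

lemma sites_Y (u : Step d) (a a' : ℕ) (x : Site d) (ρ : List (Step d)) (y : Site d) :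
    y ∈ sitesL (x + a • stepVec (opp u) - a' • stepVec (opp u) + (a' + 1) • stepVec (opp u)) ρ ↔
      y - a • stepVec (opp u) ∈ sitesL (x + stepVec (opp u)) ρ := by
  rw [← Bind12.mem_sitesL_shift]
  have : x + a • stepVec (opp u) - a' • stepVec (opp u) + (a' + 1) • stepVec (opp u)
      = x + stepVec (opp u) + a • (stepVec (opp u) : Site d) := by
    rw [succ_nsmul]; abel
  rw [this]

open Classical in
theorem H3_of {ν : Measure (Row d)} [IsProbabilityMeasure ν] {u : Step d} {C : ℝ≥0∞}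
    {us : ℕ → ℕ → ℝ≥0∞} (H : H3W ν u C us) : H3L ν u C us := by
  intro i s h h' a a' hi E μ M lam hμ hM hl hl' h1 h2 h3
  set c : Site d := a • stepVec (opp u) - a' • stepVec (opp u) with hc
  have hμ' : ∑' x, (fun x => μ (x - c)) x ≤ 1 := by
    have := (Equiv.subRight c).tsum_eq μ
    simp only [Equiv.subRight_apply] at this
    simp only
    rw [this]; exact hμ
  have key := H i s h h' a a' hi E (fun x => μ (x - c)) M lam hμ' (fun x => hM _) hl hl' h1 h2 h3
  refine le_trans ?_ key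
  refine le_trans ?_ ((Equiv.addRight c).tsum_eq _).le
  refine ENNReal.tsum_le_tsum fun x => ?_
  simp only [Equiv.coe_addRight, add_sub_cancel_right]
  refine mul_le_mul_right ?_ _
  have hd := lists_words ν u h h' a a' x (fun _ => True) (fun z => z ∈ E) (fun k => k ≤ (hi : ℤ))
  refine le_of_eq_of_le (Eq.trans (tsum_congr fun L => tsum_congr fun L' =>
    @if_congr _ _ _ (_) (_) _ _ _ _ ?_ rfl rfl) hd) ?_
  · simp only [Nat.cast_le]
    tauto
  refine ENNReal.tsum_le_tsum fun π => ENNReal.tsum_le_tsum fun ρ => ?_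
  by_cases hh : IsUp u h π ∧ True ∧ IsDn u h' ρ ∧ endp 0 ρ ∈ E ∧ CE u a a' x π ρ ∧
          CA u a (fun k => k ≤ (hi : ℤ)) x π ρ
  · rw [if_pos hh, if_pos]
    obtain ⟨g1, -, g2, g3, ⟨g4, y, g5, g6⟩, g7⟩ := hh
    have hxc : x + c = x + a • stepVec (opp u) - a' • stepVec (opp u) := by rw [hc]; abel
    refine ⟨g1, g2, g3, ⟨y + a • stepVec (opp u), ?_, ?_⟩, ?_⟩
    · rw [sites_X, add_sub_cancel_right]; exact g5
    · rw [hxc, sites_Y, add_sub_cancel_right]; exact g6
    · intro z hz1 hz2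
      rw [sites_X] at hz1
      rw [hxc, sites_Y] at hz2
      have := g7 _ hz1 hz2
      simp only at this
      rw [Bind12.lev_sub, nsmul_lev, Bind12.lev_opp] at this
      linarith
  · rw [if_neg hh]; exact zero_le

open Classical in
theorem H2_of {ν : Measure (Row d)} [IsProbabilityMeasure ν] {u : Step d} {C : ℝ≥0∞}
    {us : ℕ → ℕ → ℝ≥0∞} (H : H2W ν u C us) : H2L ν u C us := by
  intro i s h h' a a' lo E μ M lam hμ hM hl hl' h1 h2 h3
  set c : Site d := a • stepVec (opp u) - a' • stepVec (opp u) with hc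
  have hμ' : ∑' x, (fun x => μ (x - c)) x ≤ 1 := by
    have := (Equiv.subRight c).tsum_eq μ
    simp only [Equiv.subRight_apply] at this
    simp only
    rw [this]; exact hμ
  have key := H i s h h' a a' lo (E.image (fun z => -z)) (fun x => μ (x - c)) M lam hμ'
    (fun x => hM _) hl hl' h1 h2 h3
  rw [Finset.card_image_of_injective _ neg_injective] at key
  refine le_trans ?_ key
  refine le_trans ?_ ((Equiv.addRight c).tsum_eq _).le
  refine ENNReal.tsum_le_tsum fun x => ?_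
  simp only [Equiv.coe_addRight, add_sub_cancel_right]
  refine mul_le_mul_right ?_ _
  have hd := lists_words ν u h h' a a' x (fun z => z ∈ E) (fun _ => True) (fun k => (lo : ℤ) ≤ k)
  refine le_of_eq_of_le (Eq.trans (tsum_congr fun L => tsum_congr fun L' =>
    @if_congr _ _ _ (_) (_) _ _ _ _ ?_ rfl rfl) hd) ?_
  · simp only [Nat.cast_le]
    tauto
  refine ENNReal.tsum_le_tsum fun π => ENNReal.tsum_le_tsum fun ρ => ?_
  by_cases hh : IsUp u h π ∧ - endp 0 π ∈ E ∧ IsDn u h' ρ ∧ True ∧ CE u a a' x π ρ ∧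
          CA u a (fun k => (lo : ℤ) ≤ k) x π ρ
  · rw [if_pos hh, if_pos]
    obtain ⟨g1, g3, g2, -, ⟨g4, y, g5, g6⟩, g7⟩ := hh
    have hxc : x + c = x + a • stepVec (opp u) - a' • stepVec (opp u) := by rw [hc]; abel
    refine ⟨g1, g2, Finset.mem_image.2 ⟨_, g3, neg_neg _⟩, ⟨y + a • stepVec (opp u), ?_, ?_⟩, ?_⟩
    · rw [sites_X, add_sub_cancel_right]; exact g5
    · rw [hxc, sites_Y, add_sub_cancel_right]; exact g6
    · intro z hz1 hz2
      rw [sites_X] at hz1
      rw [hxc, sites_Y] at hz2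
      have := g7 _ hz1 hz2
      simp only at this
      rw [Bind12.lev_sub, nsmul_lev, Bind12.lev_opp] at this
      linarith
  · rw [if_neg hh]; exact zero_le

end Crest.Agent.R154.BindH135
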