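import Crest.Agent.R154.FinE_804

/-! Row 154, T0219, ROAD 801 (helper799): THE SURGERY in word form (iid, `R = 0`).
Pair crossings of height `n` without contact, joined by a fixed word at level `n`, are distinct words
ending at the first visit of level `-1`: their total annealed weight is at most `1`. -/

set_option autoImplicit false

open MeasureTheory ProbabilityTheory Crest.ProbabilityR.RandomEnvironment
open scoped ENNReal

namespace Crest.Agent.R154.Surg799

open Crest.Agent.R154.Flux566 (lw endp sitesL)
open Crest.Agent.R154.Flux132 (lev opp)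

variable {d : ℕ}

/-! ### Kraft inequality for words -/

lemma row_sum (r : Row d) : ∑ e : Step d, ENNReal.ofReal (r.1 e) = 1 := by
  rw [← ENNReal.ofReal_sum_of_nonneg fun e _ => r.2.1 e, r.2.2, ENNReal.ofReal_one]

/-- prefix free sets of words -/
def PF (S : Set (List (Step d))) : Prop := ∀ l ∈ S, ∀ l' ∈ S, l <+: l' → l = l'

open Classical in
lemma kraft_fin (ω : Environment d) (s : Finset (List (Step d))) :
    ∀ x : Site d, PF (s : Set (List (Step d))) → ∑ l ∈ s, lw ω x l ≤ 1 := by
  -- induction on the total length
  induction h : (s.sup List.length) using Nat.strong_induction_on generalizing s with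
  | _ N ih =>
    intro x hs
    by_cases h0 : ([] : List (Step d)) ∈ s
    · have : s = {[]} := by
        ext l
        simp only [Finset.mem_singleton]
        constructor
        · intro hl
          exact (hs [] (by exact_mod_cast h0) l (by exact_mod_cast hl) List.nil_prefix).symm
        · rintro rfl; exact h0
      rw [this]
      simp [lw]
    · by_cases hN : N = 0
      · have : s = ∅ := by
          rw [Finset.eq_empty_iff_forall_notMem]
          intro l hl
          have : l.length ≤ s.sup List.length := Finset.le_sup (f := List.length) hl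
          rw [h, hN, Nat.le_zero, List.length_eq_zero_iff] at this
          subst this
          exact h0 hl
        rw [this]; simp
      · -- split by first letter
        let T : Step d → Finset (List (Step d)) := fun e =>
          (s.filter fun l => l.head? = some e).image List.tail
        have hT : ∀ e l, l ∈ T e ↔ (e :: l) ∈ s := by
          intro e l
          simp only [T, Finset.mem_image, Finset.mem_filter]
          constructor
          · rintro ⟨l', ⟨h1, h2⟩, rfl⟩
            cases l' with
            | nil => simp at h2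
            | cons a l' =>
              simp only [List.head?_cons, Option.some.injEq] at h2
              subst h2
              exact h1
          · intro hl
            exact ⟨e :: l, ⟨hl, rfl⟩, rfl⟩
        have hsum : ∑ l ∈ s, lw ω x l = ∑ e : Step d, ∑ l ∈ T e, lw ω x (e :: l) := by
          rw [Finset.sum_sigma']
          refine (Finset.sum_bij (fun (p : (_ : Step d) × List (Step d)) _ => p.1 :: p.2)
            ?_ ?_ ?_ ?_).symm
          · rintro ⟨e, l⟩ hp
            simp only [Finset.mem_sigma, Finset.mem_univ, true_and] at hp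
            exact (hT e l).1 hp
          · rintro ⟨e, l⟩ _ ⟨e', l'⟩ _ hpp
            simp only [List.cons.injEq] at hpp
            obtain ⟨rfl, rfl⟩ := hpp
            rfl
          · intro l hl
            cases l with
            | nil => exact absurd hl h0
            | cons e l =>
              exact ⟨⟨e, l⟩, Finset.mem_sigma.2 ⟨Finset.mem_univ _, (hT e l).2 hl⟩, rfl⟩
          · rintro ⟨e, l⟩ _
            rfl
        rw [hsum]
        calc ∑ e : Step d, ∑ l ∈ T e, lw ω x (e :: l)
            = ∑ e : Step d, ENNReal.ofReal ((ω x).1 e) * ∑ l ∈ T e, lw ω (x + stepVec e) l := by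
              refine Finset.sum_congr rfl fun e _ => ?_
              rw [Finset.mul_sum]
              rfl
          _ ≤ ∑ e : Step d, ENNReal.ofReal ((ω x).1 e) * 1 := by
              refine Finset.sum_le_sum fun e _ => mul_le_mul_right ?_ _
              refine ih ((T e).sup List.length) ?_ (T e) rfl (x + stepVec e) ?_
              · rw [← h]
                have h1 : ∀ l ∈ T e, l.length < s.sup List.length := by
                  intro l hl
                  have h2 := (hT e l).1 hl
                  have h3 : (e :: l).length ≤ s.sup List.length :=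
                    Finset.le_sup (f := List.length) h2
                  simp only [List.length_cons] at h3
                  omega
                refine (Finset.sup_lt_iff ?_).2 h1
                rw [h]
                exact Nat.pos_of_ne_zero hN
              · intro l hl l' hl' hp
                have h1 := (hT e l).1 (by exact_mod_cast hl)
                have h2 := (hT e l').1 (by exact_mod_cast hl')
                have h3 := hs _ (by exact_mod_cast h1) _ (by exact_mod_cast h2)
                  (List.cons_prefix_cons.2 ⟨rfl, hp⟩)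
                simpa using h3
          _ = 1 := by simp [row_sum]

/-- **Kraft**: injective families of words with prefix free image. -/
lemma kraft {ι : Type*} (ω : Environment d) (x : Site d) (f : ι → List (Step d))
    (hf : ∀ i j, f i <+: f j → i = j) : ∑' i, lw ω x (f i) ≤ 1 := by
  classical
  rw [ENNReal.tsum_eq_iSup_sum]
  refine iSup_le fun s => ?_
  have hinj : Function.Injective f := fun i j h => hf i j (h ▸ List.prefix_rfl)
  rw [← Finset.sum_image (f := fun l => lw ω x l) (s := s) (g := f)
    (fun i _ j _ h => hinj h)]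
  refine kraft_fin ω _ x ?_
  intro l hl l' hl' hp
  simp only [Finset.coe_image, Set.mem_image, Finset.mem_coe] at hl hl'
  obtain ⟨i, _, rfl⟩ := hl
  obtain ⟨j, _, rfl⟩ := hl'
  rw [hf i j hp]

/-! ### words and levels -/

/-- words from `x` whose strict prefixes have level in `[lo, hi)` and whose end has level `t` -/
def Wk (u : Step d) (lo hi t : ℤ) : Site d → List (Step d) → Prop
  | x, [] => lev u x = t
  | x, e :: l => (lo ≤ lev u x ∧ lev u x < hi) ∧ Wk u lo hi t (x + stepVec e) l

lemma Wk_end {u : Step d} {lo hi t : ℤ} (l : List (Step d)) (x : Site d)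
    (h : Wk u lo hi t x l) : lev u (endp x l) = t := by
  induction l generalizing x with
  | nil => exact h
  | cons e l ih => exact ih _ h.2

lemma Wk_sites {u : Step d} {lo hi t : ℤ} (l : List (Step d)) (x : Site d)
    (h : Wk u lo hi t x l) : ∀ y ∈ sitesL x l, lo ≤ lev u y ∧ lev u y < hi := by
  induction l generalizing x with
  | nil => intro y hy; simp [sitesL] at hy
  | cons e l ih =>
    intro y hy
    simp only [sitesL, List.mem_cons] at hy
    rcases hy with rfl | hy
    · exact h.1
    · exact ih _ h.2 y hy

/-- the end of a strict prefix is a site of the word -/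
lemma endp_mem_sites (l l' : List (Step d)) (x : Site d) (hne : l' ≠ []) :
    endp x l ∈ sitesL x (l ++ l') := by
  induction l generalizing x with
  | nil =>
    cases l' with
    | nil => exact absurd rfl hne
    | cons e l' => simp [endp, sitesL]
  | cons e l ih =>
    simp only [endp, List.cons_append, sitesL, List.mem_cons]
    exact Or.inr (ih _)

lemma sitesL_append (l l' : List (Step d)) (x : Site d) :
    sitesL x (l ++ l') = sitesL x l ++ sitesL (endp x l) l' := by
  induction l generalizing x with
  | nil => rfl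
  | cons e l ih => simp only [List.cons_append, sitesL, endp, ih]

lemma lw_append (ω : Environment d) (l l' : List (Step d)) (x : Site d) :
    lw ω x (l ++ l') = lw ω x l * lw ω (endp x l) l' := by
  induction l generalizing x with
  | nil => simp [lw, endp]
  | cons e l ih => simp only [List.cons_append, lw, endp, ih, mul_assoc]

/-- annealed weight -/
noncomputable def aw (ν : Measure (Row d)) (l : List (Step d)) : ℝ≥0∞ :=
  ∫⁻ ω, lw ω 0 l ∂(iidEnvironmentLaw ν)

lemma lw_shift (ω : Environment d) (z x : Site d) (l : List (Step d)) :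
    lw (shiftEnv z ω) x l = lw ω (x + z) l := by
  induction l generalizing x with
  | nil => rfl
  | cons e l ih =>
    simp only [lw]
    rw [ih, add_right_comm]
    rfl

lemma aw_shift (ν : Measure (Row d)) [IsProbabilityMeasure ν] (x : Site d) (l : List (Step d)) :
    ∫⁻ ω, lw ω x l ∂(iidEnvironmentLaw ν) = aw ν l := by
  have h := (Q561.iid_shift ν x).lintegral_comp (Flux566.measurable_lw (0 : Site d) l)
  rw [aw, ← h]
  refine lintegral_congr fun ω => ?_
  rw [lw_shift, zero_add]

/-- `E [lw lw' ; disjoint sites] = aw * aw'` -/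
lemma ann_mul (ν : Measure (Row d)) [IsProbabilityMeasure ν] (x y : Site d)
    (l l' : List (Step d)) (h : ∀ z ∈ sitesL x l, z ∉ sitesL y l') :
    ∫⁻ ω, lw ω x l * lw ω y l' ∂(iidEnvironmentLaw ν) = aw ν l * aw ν l' := by
  rw [Q561.iid_lintegral_mul ν (S := {z | z ∈ sitesL x l}) (T := {z | z ∈ sitesL y l'})
    (Set.disjoint_left.2 h) (Flux566.measurable_lw x l) (Flux566.measurable_lw y l')
    (Flux566.locOn_lw x l) (Flux566.locOn_lw y l'), aw_shift, aw_shift]

/-- pair crossing of height `t.1` with top displacement `w`, without contact -/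
def NC (u : Step d) (w : Site d) (t : ℕ × List (Step d) × List (Step d)) : Prop :=
  Wk u 0 t.1 t.1 0 t.2.1 ∧ Wk u 0 t.1 (-1) (endp 0 t.2.1 + w - stepVec u) t.2.2 ∧
    ∀ z ∈ sitesL 0 t.2.1, z ∉ sitesL (endp 0 t.2.1 + w - stepVec u) t.2.2

/-- the joining word -/
lemma exists_sg (u : Step d) (w : Site d) (hw : lev u w = 0) :
    ∃ sg : List (Step d), sg ≠ [] ∧ (∀ x, endp x sg = x + w - stepVec u) ∧
      (∀ x, (sitesL x sg).Nodup) ∧ ∀ x, ∀ y ∈ sitesL x sg, lev u y = lev u x := by
  obtain ⟨l, h1, _, h3⟩ := Flux566.exists_word u (opp u) (Flux566.n1 w) w hw rfl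
  refine ⟨l ++ [opp u], by simp, fun x => ?_, fun x => (h3 x).2.1, fun x y hy => ?_⟩
  · rw [Flux566.endp_append, (h3 x).1]
    change x + w + stepVec (opp u) = _
    rw [show stepVec (opp u) = - stepVec u from Flux566.stepVec_opp u]
    abel
  · exact Flux566.lev_sites u (opp u) l h1 x y hy

lemma nc_prefix {u : Step d} {w : Site d} {sg : List (Step d)}
    (hsg : sg ≠ []) (h1 : ∀ x, endp x sg = x + w - stepVec u)
    (h2 : ∀ x, ∀ y ∈ sitesL x sg, lev u y = lev u x)
    {t t' : ℕ × List (Step d) × List (Step d)} (ht : NC u w t) (ht' : NC u w t')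
    (hp : t.2.1 ++ (sg ++ t.2.2) <+: t'.2.1 ++ (sg ++ t'.2.2)) : t = t' := by
  obtain ⟨n, pi, rho⟩ := t
  obtain ⟨n', pi', rho'⟩ := t'
  simp only [NC] at ht ht'
  simp only at hp
  obtain ⟨a1, a2, -⟩ := ht
  obtain ⟨b1, b2, -⟩ := ht'
  have key : ∀ (m : ℕ) (p r : List (Step d)), Wk u 0 m m 0 p →
      Wk u 0 m (-1) (endp 0 p + w - stepVec u) r →
      (∀ y ∈ sitesL 0 (p ++ (sg ++ r)), 0 ≤ lev u y ∧ lev u y ≤ m) ∧
      lev u (endp 0 (p ++ (sg ++ r))) = -1 := by
    intro m p r c1 c2
    have e1 : endp 0 (p ++ (sg ++ r)) = endp (endp 0 p + w - stepVec u) r := by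
      rw [Flux566.endp_append, Flux566.endp_append, h1]
    refine ⟨fun y hy => ?_, by rw [e1]; exact Wk_end _ _ c2⟩
    rw [sitesL_append, sitesL_append, h1, List.mem_append, List.mem_append] at hy
    rcases hy with hy | hy | hy
    · have := Wk_sites _ _ c1 y hy; omega
    · have h3 := h2 _ y hy
      have h4 := Wk_end _ _ c1
      omega
    · have := Wk_sites _ _ c2 y hy; omega
  obtain ⟨s1, s2⟩ := key n pi rho a1 a2
  obtain ⟨s1', s2'⟩ := key n' pi' rho' b1 b2
  -- the words are equal
  have hW : pi ++ (sg ++ rho) = pi' ++ (sg ++ rho') := by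
    obtain ⟨q, hq⟩ := hp
    by_cases hq0 : q = []
    · rw [hq0, List.append_nil] at hq; exact hq
    · exfalso
      have := endp_mem_sites (pi ++ (sg ++ rho)) q 0 hq0
      rw [hq] at this
      have := (s1' _ this).1
      omega
  -- the first parts are equal
  have half : ∀ (m m' : ℕ) (p p' r r' : List (Step d)), Wk u 0 m m 0 p → Wk u 0 m' m' 0 p' →
      (∀ y ∈ sitesL 0 (p ++ (sg ++ r)), 0 ≤ lev u y ∧ lev u y ≤ m) →
      p ++ (sg ++ r) = p' ++ (sg ++ r') → p <+: p' → p = p' := by
    intro m m' p p' r r' c1 c2 c3 c4 ⟨q, hq⟩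
    by_cases hq0 : q = []
    · rw [hq0, List.append_nil] at hq; exact hq
    · exfalso
      have g1 := endp_mem_sites p q 0 hq0
      rw [hq] at g1
      have g2 := (Wk_sites _ _ c2 _ g1).2
      rw [Wk_end _ _ c1] at g2
      have g3 := endp_mem_sites p' (sg ++ r') 0 (by simp [hsg])
      rw [← c4] at g3
      have g4 := (c3 _ g3).2
      rw [Wk_end _ _ c2] at g4
      omega
  have hpi : pi = pi' := by
    have p1 : pi <+: pi' ++ (sg ++ rho') := hW ▸ List.prefix_append _ _
    rcases List.prefix_or_prefix_of_prefix p1 (List.prefix_append pi' (sg ++ rho')) with h | h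
    · exact half n n' pi pi' rho rho' a1 b1 s1 hW h
    · exact (half n' n pi' pi rho' rho b1 a1 s1' hW.symm h).symm
  subst hpi
  have hn : n = n' := by
    have g1 := Wk_end _ _ a1
    have g2 := Wk_end _ _ b1
    omega
  subst hn
  have := List.append_cancel_left (List.append_cancel_left hW)
  subst this
  rfl

open Classical in
/-- **THE SURGERY** -/
theorem surgery (ν : Measure (Row d)) [IsProbabilityMeasure ν]
    (hν : ∀ᵐ p ∂ν, ∀ e : Step d, 0 < p.1 e) (u : Step d) (w : Site d) (hw : lev u w = 0) :
    ∃ c : ℝ≥0∞, c ≠ 0 ∧ c * ∑' t : ℕ × List (Step d) × List (Step d),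
      (if NC u w t then aw ν t.2.1 * aw ν t.2.2 else 0) ≤ 1 := by
  obtain ⟨sg, hsg, h1, hnd, h2⟩ := exists_sg u w hw
  obtain ⟨c, hc, -, hc2⟩ := FinE804.exists_c ν hν
  refine ⟨aw ν sg, ?_, ?_⟩
  · have := Flux566.ann_lw_ge ν (ENNReal.ofReal c) hc2 sg 0 (hnd 0)
    refine ne_of_gt (lt_of_lt_of_le ?_ this)
    refine pos_iff_ne_zero.2 (pow_ne_zero _ ?_)
    simpa using hc
  · set f : {t // NC u w t} → List (Step d) := fun t => t.1.2.1 ++ (sg ++ t.1.2.2) with hf
    have hk : ∀ ω : Environment d, ∑' t, lw ω 0 (f t) ≤ 1 := fun ω =>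
      kraft ω 0 f fun i j hij => Subtype.ext (nc_prefix hsg h1 h2 i.2 j.2 hij)
    have hsum : ∑' t : ℕ × List (Step d) × List (Step d),
        (if NC u w t then aw ν t.2.1 * aw ν t.2.2 else 0)
        = ∑' t : {t // NC u w t}, aw ν t.1.2.1 * aw ν t.1.2.2 := by
      refine Eq.trans ?_ (tsum_subtype {t | NC u w t} fun t => aw ν t.2.1 * aw ν t.2.2).symm
      refine tsum_congr fun t => ?_
      by_cases h : NC u w t
      · rw [if_pos h, Set.indicator_of_mem (show t ∈ {t | NC u w t} from h)]
      · rw [if_neg h, Set.indicator_of_notMem (show t ∉ {t | NC u w t} from h)]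
    rw [hsum, ← ENNReal.tsum_mul_left]
    have hw3 : ∀ t : {t // NC u w t}, ∫⁻ ω, lw ω 0 (f t) ∂(iidEnvironmentLaw ν)
        = aw ν sg * (aw ν t.1.2.1 * aw ν t.1.2.2) := by
      rintro ⟨⟨n, pi, rho⟩, a1, a2, a3⟩
      simp only at a1 a2 a3
      simp only [hf]
      have e1 : ∀ ω : Environment d, lw ω 0 (pi ++ (sg ++ rho))
          = lw ω (endp 0 pi) sg * (lw ω 0 pi * lw ω (endp 0 pi + w - stepVec u) rho) := by
        intro ω
        rw [lw_append, lw_append, h1]
        ring
      simp only [e1]
      have l0 : lev u (endp 0 pi) = n := Wk_end _ _ a1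
      rw [Q561.iid_lintegral_mul ν (S := {z | z ∈ sitesL (endp 0 pi) sg})
        (T := {z | z ∈ sitesL 0 pi ∨ z ∈ sitesL (endp 0 pi + w - stepVec u) rho})
        (f := fun ω => lw ω (endp 0 pi) sg)
        (g := fun ω => lw ω 0 pi * lw ω (endp 0 pi + w - stepVec u) rho) ?_ (Flux566.measurable_lw _ _)
        ((Flux566.measurable_lw _ _).mul (Flux566.measurable_lw _ _)) (Flux566.locOn_lw _ _) ?_,
        aw_shift, ann_mul ν _ _ _ _ a3]
      · rw [Set.disjoint_left]
        rintro z hz hz'
        have g1 := h2 _ z hz
        rcases hz' with hz' | hz'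
        · have g2 := (Wk_sites _ _ a1 z hz').2
          omega
        · have g2 := (Wk_sites _ _ a2 z hz').2
          omega
      · intro ω ω' h
        have q1 := Flux566.locOn_lw 0 pi ω ω' fun z hz => h z (Or.inl hz)
        have q2 := Flux566.locOn_lw (endp 0 pi + w - stepVec u) rho ω ω'
          fun z hz => h z (Or.inr hz)
        simp only at q1 q2 ⊢
        rw [q1, q2]
    calc ∑' t : {t // NC u w t}, aw ν sg * (aw ν t.1.2.1 * aw ν t.1.2.2)
        = ∑' t : {t // NC u w t}, ∫⁻ ω, lw ω 0 (f t) ∂(iidEnvironmentLaw ν) :=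
          tsum_congr fun t => (hw3 t).symm
      _ = ∫⁻ ω, ∑' t, lw ω 0 (f t) ∂(iidEnvironmentLaw ν) :=
          (lintegral_tsum fun t => (Flux566.measurable_lw 0 (f t)).aemeasurable).symm
      _ ≤ ∫⁻ _ω, 1 ∂(iidEnvironmentLaw ν) := lintegral_mono hk
      _ = 1 := by
          have : IsProbabilityMeasure (iidEnvironmentLaw ν) := by
            unfold iidEnvironmentLaw; infer_instance
          simp

end Crest.Agent.R154.Surg799
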