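import Crest.Agent.R154.Fact_346
import Crest.Agent.R154.Surg_799

/-! Row 154, road 801 (helper346): single-walker factorisation, down crossings, weights, and the
list read from the top. -/

set_option autoImplicit false
set_option linter.unusedSectionVars false

namespace Crest.Agent.R154.Fact346

open MeasureTheory ProbabilityTheory Crest.ProbabilityR.RandomEnvironment
open Crest.Agent.R154.Flux566 (lw endp sitesL endp_eq_add endp_append)
open Crest.Agent.R154.Flux132 (lev opp)
open Crest.Agent.R154.NB28 (IsUp IsDn aw)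
open scoped ENNReal

/-! ### generic: the list read from the end -/

section gen

variable {α : Type*} {P : ℕ → List α → Prop}

lemma HT_rev (L : List (Irr P)) : B5A.HT ht L.reverse = B5A.HT ht L := by
  induction L with
  | nil => rfl
  | cons b L ih => rw [List.reverse_cons, B5A.HT_append, ih, B5A.HT_cons, B5A.HT_cons,
      B5A.HT_nil]; ring

lemma LW_rev (Λ : Irr P → ℝ≥0∞) (L : List (Irr P)) : B5A.LW Λ L.reverse = B5A.LW Λ L := by
  induction L with
  | nil => rfl
  | cons b L ih => rw [List.reverse_cons, B5A.LW_append, ih, B5A.LW_cons, B5A.LW_cons,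
      B5A.LW_nil]; ring

/-- concatenation, **first block of the list = last block of the word** -/
def flr (L : List (Irr P)) : List α := fl L.reverse

@[simp] lemma flr_nil : flr ([] : List (Irr P)) = [] := rfl

lemma flr_cons (b : Irr P) (L : List (Irr P)) : flr (b :: L) = flr L ++ b.1 := by
  unfold flr
  rw [List.reverse_cons, fl_append]
  simp [fl]

lemma flr_append (L L' : List (Irr P)) : flr (L ++ L') = flr L' ++ flr L := by
  unfold flr
  rw [List.reverse_append, fl_append]

lemma flr_inj (h : Fac P) : Function.Injective (flr : List (Irr P) → List α) :=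
  (fl_inj h).comp List.reverse_injective

lemma P_flr (h : Fac P) (L : List (Irr P)) : P (B5A.HT ht L) (flr L) := by
  have := P_fl h L.reverse
  rwa [HT_rev] at this

open Classical in
theorem tsum_factr (h : Fac P) (n : ℕ) (G : List α → ℝ≥0∞) :
    ∑' l, (if P n l then G l else 0)
      = ∑' L : List (Irr P), (if B5A.HT ht L = n then G (flr L) else 0) := by
  rw [tsum_fact h n G, ← (Equiv.tsum_eq (⟨List.reverse, List.reverse, List.reverse_reverse,
    List.reverse_reverse⟩ : List (Irr P) ≃ List (Irr P)))]
  refine tsum_congr fun L => ?_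
  change (if B5A.HT ht L.reverse = n then G (fl L.reverse) else 0) = _
  rw [HT_rev]
  rfl

lemma weight_flr (h : Fac P) (w : List α → ℝ≥0∞) (w0 : w [] = 1)
    (wa : ∀ m n a b, P m a → P n b → w (a ++ b) = w a * w b) (L : List (Irr P)) :
    w (flr L) = B5A.LW (fun b : Irr P => w b.1) L := by
  unfold flr
  rw [weight_fl h w w0 wa, LW_rev]

end gen

/-! ### down crossings -/

variable {d : ℕ}

lemma isDn_iff (u : Step d) (n : ℕ) (l : List (Step d)) :
    IsDn u n l ↔ IsUp (opp u) n l := by
  unfold IsDn IsUp
  simp only [lev_opp]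
  constructor
  · rintro ⟨h1, h2⟩
    exact ⟨fun y hy => by have := h1 y hy; omega, by omega⟩
  · rintro ⟨h1, h2⟩
    exact ⟨fun y hy => by have := h1 y hy; omega, by omega⟩

lemma isDn_eq (u : Step d) : (IsDn u : ℕ → List (Step d) → Prop) = IsUp (opp u) := by
  funext n l
  exact propext (isDn_iff u n l)

theorem fac_dn (u : Step d) : Fac (IsDn u) := by
  rw [isDn_eq]
  exact fac_up (opp u)

/-! ### weights -/

variable (ν : Measure (Row d)) [IsProbabilityMeasure ν]

lemma aw_nil : aw ν ([] : List (Step d)) = 1 := by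
  unfold NB28.aw
  simp [lw]

lemma aw_eq (l : List (Step d)) : Surg799.aw ν l = aw ν l := rfl

lemma aw_append {a b : List (Step d)}
    (h : ∀ z ∈ sitesL 0 a, z ∉ sitesL (endp 0 a) b) : aw ν (a ++ b) = aw ν a * aw ν b := by
  have h1 := Surg799.ann_mul ν 0 (endp 0 a) a b h
  rw [aw_eq, aw_eq] at h1
  rw [← h1]
  unfold NB28.aw
  refine lintegral_congr fun ω => ?_
  rw [Surg799.lw_append]

lemma aw_append_up (u : Step d) (m n : ℕ) (a b : List (Step d)) (ha : IsUp u m a)
    (hb : IsUp u n b) : aw ν (a ++ b) = aw ν a * aw ν b := by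
  refine aw_append ν fun z hz hz' => ?_
  have h1 := ha.1 z hz
  have h2 := ((up_from u n b (endp 0 a)).1 hb).1 z hz'
  rw [ha.2] at h2
  omega

lemma aw_append_dn (u : Step d) (m n : ℕ) (a b : List (Step d)) (ha : IsDn u m a)
    (hb : IsDn u n b) : aw ν (a ++ b) = aw ν a * aw ν b :=
  aw_append_up ν (opp u) m n a b ((isDn_iff u m a).1 ha) ((isDn_iff u n b).1 hb)

/-- weights of the lists -/
theorem LW_up (u : Step d) (L : List (Irr (IsUp u))) :
    aw ν (fl L) = B5A.LW (fun b : Irr (IsUp u) => aw ν b.1) L :=
  weight_fl (fac_up u) (aw ν) (aw_nil ν) (aw_append_up ν u) L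

theorem LW_upr (u : Step d) (L : List (Irr (IsUp u))) :
    aw ν (flr L) = B5A.LW (fun b : Irr (IsUp u) => aw ν b.1) L :=
  weight_flr (fac_up u) (aw ν) (aw_nil ν) (aw_append_up ν u) L

theorem LW_dn (u : Step d) (L : List (Irr (IsDn u))) :
    aw ν (fl L) = B5A.LW (fun b : Irr (IsDn u) => aw ν b.1) L :=
  weight_fl (fac_dn u) (aw ν) (aw_nil ν) (aw_append_dn ν u) L

open Classical in
/-- `X`: list read from the top -/
theorem tsum_upr (u : Step d) (n : ℕ) (F : List (Step d) → ℝ≥0∞) :
    ∑' l, (if IsUp u n l then aw ν l * F l else 0)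
      = ∑' L : List (Irr (IsUp u)), (if B5A.HT ht L = n then
          B5A.LW (fun b : Irr (IsUp u) => aw ν b.1) L * F (flr L) else 0) := by
  rw [tsum_factr (fac_up u) n (fun l => aw ν l * F l)]
  simp only [LW_upr]

open Classical in
/-- `Y`: list read from the top -/
theorem tsum_dn (u : Step d) (n : ℕ) (F : List (Step d) → ℝ≥0∞) :
    ∑' l, (if IsDn u n l then aw ν l * F l else 0)
      = ∑' L : List (Irr (IsDn u)), (if B5A.HT ht L = n then
          B5A.LW (fun b : Irr (IsDn u) => aw ν b.1) L * F (fl L) else 0) := by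
  rw [tsum_fact (fac_dn u) n (fun l => aw ν l * F l)]
  simp only [LW_dn]

open Classical in
/-- the renewal function of the `X` list is the mass of the crossings -/
theorem U_up (u : Step d) (n : ℕ) :
    B5A.U (fun b : Irr (IsUp u) => aw ν b.1) ht n
      = ∑' l, (if IsUp u n l then aw ν l else 0) := by
  have h := tsum_upr ν u n (fun _ => 1)
  simp only [mul_one] at h
  rw [h]
  rfl

open Classical in
theorem U_dn (u : Step d) (n : ℕ) :
    B5A.U (fun b : Irr (IsDn u) => aw ν b.1) ht n
      = ∑' l, (if IsDn u n l then aw ν l else 0) := by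
  have h := tsum_dn ν u n (fun _ => 1)
  simp only [mul_one] at h
  rw [h]
  rfl

/-! ### sites of the placed words -/

/-- the word hung with its end at `x` -/
def hang (x : Site d) (l : List (Step d)) : List (Site d) := sitesL (x - endp 0 l) l

lemma endp_app (x : Site d) (l l' : List (Step d)) :
    endp x (l ++ l') = endp (endp x l) l' := by
  induction l generalizing x with
  | nil => rfl
  | cons e l ih => simp only [List.cons_append, endp, ih]

lemma hang_append (x : Site d) (l l' : List (Step d)) :
    hang x (l ++ l') = hang (x - endp 0 l') l ++ hang x l' := by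
  unfold hang
  have h1 : endp 0 (l ++ l') = endp 0 l + endp 0 l' := by
    rw [endp_app, endp_eq_add l' (endp 0 l)]
  rw [sitesL_append, h1]
  have h2 : endp (x - (endp 0 l + endp 0 l')) l = x - endp 0 l' := by
    rw [endp_eq_add l]; abel
  rw [h2]
  congr 2
  abel

lemma hang_flr_cons (u : Step d) (x : Site d) (b : Irr (IsUp u)) (L : List (Irr (IsUp u))) :
    hang x (flr (b :: L)) = hang (x - endp 0 b.1) (flr L) ++ hang x b.1 := by
  rw [flr_cons, hang_append]

lemma sites_fl_cons (u : Step d) (x : Site d) (b : Irr (IsDn u)) (L : List (Irr (IsDn u))) :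
    sitesL x (fl (b :: L)) = sitesL x b.1 ++ sitesL (x + endp 0 b.1) (fl L) := by
  change sitesL x (b.1 ++ fl L) = _
  rw [sitesL_append, endp_eq_add b.1 x]

end Crest.Agent.R154.Fact346
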