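import Crest.Agent.R154.Bind801_12
import Crest.Agent.R154.Fact2_346

/-! Row 154, ROAD 801 (helper135): dictionary between the single-walker lists of blocks
(helper540's letters in helper12's form) and the words of `NBDefs_28`, for two placed pieces. -/

set_option autoImplicit false

namespace Crest.Agent.R154.BindH135

open MeasureTheory ProbabilityTheory Crest.ProbabilityR.RandomEnvironment Crest.Agent.R154
open Crest.Agent.R154.Flux132 (lev opp)
open Crest.Agent.R154.Flux566 (lw endp sitesL endp_append endp_eq_add)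
open Crest.Agent.R154.NB28 (IsUp IsDn aw)
open Crest.Agent.R154.B5A (LW HT)
open Crest.Agent.R154.Bind12 (TT Dp catX catY sX sY)
open Crest.Agent.R154.Fact346 (Irr ht fl flr)
open scoped ENNReal

variable {d : ℕ}

/-- sites read by a list of up blocks hung at `x`, depth `a` -/
abbrev TX (u : Step d) (L : List (Irr (IsUp u))) (x : Site d) (a : ℕ) : Set (Site d × ℕ) :=
  TT (sX (Subtype.val : Irr (IsUp u) → List (Step d)) u) (fun b : Irr (IsUp u) => - endp 0 b.1)
    ht L x a

/-- sites read by a list of down blocks started below `x`, depth `a` -/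
abbrev TY (u : Step d) (L : List (Irr (IsDn u))) (x : Site d) (a : ℕ) : Set (Site d × ℕ) :=
  TT (sY (Subtype.val : Irr (IsDn u) → List (Step d)) u) (fun b : Irr (IsDn u) => endp 0 b.1)
    ht L x a

/-- displacement of a list of up blocks, top to bottom -/
abbrev DX (u : Step d) (L : List (Irr (IsUp u))) : Site d :=
  Dp (fun b : Irr (IsUp u) => - endp 0 b.1) L

/-- displacement of a list of down blocks -/
abbrev DY (u : Step d) (L : List (Irr (IsDn u))) : Site d :=
  Dp (fun b : Irr (IsDn u) => endp 0 b.1) L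

lemma catX_val (u : Step d) (L : List (Irr (IsUp u))) :
    catX (Subtype.val : Irr (IsUp u) → List (Step d)) L = flr L := by
  induction L with
  | nil => rfl
  | cons b L ih =>
    exact (Bind12.catX_cons _ b L).trans
      ((congrArg (fun t => t ++ b.1) ih).trans (Fact346.flr_cons b L).symm)

lemma catY_val (u : Step d) (L : List (Irr (IsDn u))) :
    catY (Subtype.val : Irr (IsDn u) → List (Step d)) L = fl L := by
  induction L with
  | nil => rfl
  | cons b L ih =>
    exact (Bind12.catY_cons _ b L).trans (congrArg (fun t => b.1 ++ t) ih)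

lemma DX_eq (u : Step d) (L : List (Irr (IsUp u))) : DX u L = - endp 0 (flr L) := by
  have := Bind12.Dp_catX (Subtype.val : Irr (IsUp u) → List (Step d)) L
  rw [catX_val] at this
  exact this

lemma DY_eq (u : Step d) (L : List (Irr (IsDn u))) : DY u L = endp 0 (fl L) := by
  have := Bind12.Dp_catY (Subtype.val : Irr (IsDn u) → List (Step d)) L
  rw [catY_val] at this
  exact this

lemma mem_TX (u : Step d) (L : List (Irr (IsUp u))) (x : Site d) (a : ℕ) (y : Site d) (k : ℕ) :
    (y, k) ∈ TX u L x a ↔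
      y ∈ sitesL (x - endp 0 (flr L)) (flr L) ∧ (k : ℤ) = a + lev u x - lev u y := by
  have := Bind12.mem_TX (Subtype.val : Irr (IsUp u) → List (Step d)) u ht
    (fun b => (Fact346.ht_spec b).2) (fun b y hy => by
      have h1 := (Fact346.up_from u _ _ (- endp 0 b.1)).1 (Fact346.ht_spec b)
      have h2 := (h1.1 y hy).2
      have h3 := (Fact346.ht_spec b).2
      rw [Bind12.lev_neg] at h2
      omega) L x a y k
  rw [catX_val] at this
  exact this

lemma mem_TY (u : Step d) (L : List (Irr (IsDn u))) (x : Site d) (a : ℕ) (y : Site d) (k : ℕ) :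
    (y, k) ∈ TY u L x a ↔
      y ∈ sitesL (x + stepVec (opp u)) (fl L) ∧ (k : ℤ) = a + lev u x - lev u y := by
  have := Bind12.mem_TY (Subtype.val : Irr (IsDn u) → List (Step d)) u ht
    (fun b => (Fact346.ht_spec b).2) (fun b y hy => by
      have h1 := (Fact346.up_from (opp u) _ _ (stepVec (opp u))).1
        ((Fact346.isDn_iff u _ _).1 (Fact346.ht_spec b))
      have h2 := (h1.1 y hy).1
      rw [Fact346.lev_opp, Fact346.lev_opp, Bind12.lev_opp] at h2
      omega) L x a y k
  rw [catY_val] at this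
  exact this

/-- the two placed words meet -/
def CE (u : Step d) (a a' : ℕ) (x : Site d) (π ρ : List (Step d)) : Prop :=
  lev u x = (a : ℤ) - a' ∧ ∃ y, y ∈ sitesL (- endp 0 π) π ∧ y ∈ sitesL (x + stepVec (opp u)) ρ

/-- all the meetings are at depths satisfying `PK` -/
def CA (u : Step d) (a : ℕ) (PK : ℤ → Prop) (x : Site d) (π ρ : List (Step d)) : Prop :=
  ∀ y, y ∈ sitesL (- endp 0 π) π → y ∈ sitesL (x + stepVec (opp u)) ρ → PK (a - lev u y)

lemma meet_iff (u : Step d) (h a a' : ℕ) (PK : ℤ → Prop) (x : Site d)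
    (L : List (Irr (IsUp u))) (L' : List (Irr (IsDn u))) (hL : HT ht L = h) :
    ((∃ z k, (z, k) ∈ TX u L 0 a ∧ (z, k) ∈ TY u L' x a') ∧
      (∀ z k, (z, k) ∈ TX u L 0 a → (z, k) ∈ TY u L' x a' → PK (k : ℤ))) ↔
    (CE u a a' x (flr L) (fl L') ∧ CA u a PK x (flr L) (fl L')) := by
  have hup : IsUp u h (flr L) := by
    have := Fact346.P_flr (Fact346.fac_up u) L
    rwa [hL] at this
  have hdep : ∀ y ∈ sitesL (- endp 0 (flr L)) (flr L), lev u y ≤ 0 := by
    intro y hy
    have h1 := (Fact346.up_from u _ _ (- endp 0 (flr L))).1 hup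
    have h2 := (h1.1 y hy).2
    have h3 := hup.2
    rw [Bind12.lev_neg] at h2
    omega
  constructor
  · rintro ⟨⟨z, k, h1, h2⟩, h3⟩
    rw [mem_TX] at h1
    rw [mem_TY] at h2
    rw [Bind12.lev_zero, zero_sub] at h1
    have hx : lev u x = (a : ℤ) - a' := by
      have e1 := h1.2
      have e2 := h2.2
      omega
    refine ⟨⟨hx, z, h1.1, h2.1⟩, ?_⟩
    intro y hy1 hy2
    have hy0 := hdep y hy1
    obtain ⟨k', hk'⟩ : ∃ k' : ℕ, (k' : ℤ) = a - lev u y := ⟨(a - lev u y).toNat, by omega⟩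
    rw [← hk']
    refine h3 y k' ?_ ?_
    · rw [mem_TX, Bind12.lev_zero, zero_sub]
      exact ⟨hy1, by omega⟩
    · rw [mem_TY]
      exact ⟨hy2, by omega⟩
  · rintro ⟨⟨hx, y, hy1, hy2⟩, h3⟩
    have hy0 := hdep y hy1
    obtain ⟨k', hk'⟩ : ∃ k' : ℕ, (k' : ℤ) = a - lev u y := ⟨(a - lev u y).toNat, by omega⟩
    refine ⟨⟨y, k', ?_, ?_⟩, ?_⟩
    · rw [mem_TX, Bind12.lev_zero, zero_sub]
      exact ⟨hy1, by omega⟩
    · rw [mem_TY]
      exact ⟨hy2, by omega⟩
    · intro z k hz1 hz2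
      rw [mem_TX, Bind12.lev_zero, zero_sub] at hz1
      rw [mem_TY] at hz2
      have := h3 z hz1.1 hz2.1
      rwa [show (a : ℤ) - lev u z = k by have := hz1.2; omega] at this

open Classical in
/-- **dictionary**: sums over lists = sums over words -/
theorem lists_words (ν : Measure (Row d)) [IsProbabilityMeasure ν] (u : Step d) (h h' a a' : ℕ)
    (x : Site d) (PX PY : Site d → Prop) (PK : ℤ → Prop) :
    ∑' L : List (Irr (IsUp u)), ∑' L' : List (Irr (IsDn u)),
      (if HT ht L = h ∧ PX (DX u L) ∧ HT ht L' = h' ∧ PY (DY u L') ∧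
          (∃ z k, (z, k) ∈ TX u L 0 a ∧ (z, k) ∈ TY u L' x a') ∧
          (∀ z k, (z, k) ∈ TX u L 0 a → (z, k) ∈ TY u L' x a' → PK (k : ℤ))
        then LW (fun b : Irr (IsUp u) => aw ν b.1) L * LW (fun b : Irr (IsDn u) => aw ν b.1) L'
        else 0)
    = ∑' π : List (Step d), ∑' ρ : List (Step d),
      (if IsUp u h π ∧ PX (- endp 0 π) ∧ IsDn u h' ρ ∧ PY (endp 0 ρ) ∧ CE u a a' x π ρ ∧
          CA u a PK x π ρ then aw ν π * aw ν ρ else 0) := by
  set G : List (Step d) → List (Step d) → ℝ≥0∞ := fun π ρ =>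
    if PX (- endp 0 π) ∧ PY (endp 0 ρ) ∧ CE u a a' x π ρ ∧ CA u a PK x π ρ then 1 else 0 with hG
  have e1 : ∀ π : List (Step d), ∑' ρ : List (Step d),
      (if IsUp u h π ∧ PX (- endp 0 π) ∧ IsDn u h' ρ ∧ PY (endp 0 ρ) ∧ CE u a a' x π ρ ∧
          CA u a PK x π ρ then aw ν π * aw ν ρ else 0)
      = if IsUp u h π then aw ν π * ∑' ρ : List (Step d),
          (if IsDn u h' ρ then aw ν ρ * G π ρ else 0) else 0 := by
    intro π
    by_cases h1 : IsUp u h π
    · rw [if_pos h1, ← ENNReal.tsum_mul_left]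
      refine tsum_congr fun ρ => ?_
      by_cases h2 : IsDn u h' ρ
      · by_cases h3 : PX (- endp 0 π) ∧ PY (endp 0 ρ) ∧ CE u a a' x π ρ ∧ CA u a PK x π ρ
        · rw [if_pos ⟨h1, h3.1, h2, h3.2⟩, if_pos h2]
          simp only [hG]
          rw [if_pos h3, mul_one]
        · rw [if_neg (fun hc => h3 ⟨hc.2.1, hc.2.2.2⟩), if_pos h2]
          simp only [hG]
          rw [if_neg h3, mul_zero, mul_zero]
      · rw [if_neg (fun hc => h2 hc.2.2.1), if_neg h2, mul_zero]
    · rw [if_neg h1]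
      refine ENNReal.tsum_eq_zero.2 fun ρ => if_neg fun hc => h1 hc.1
  simp_rw [e1]
  rw [Fact346.tsum_upr ν u h (fun π => ∑' ρ : List (Step d),
          (if IsDn u h' ρ then aw ν ρ * G π ρ else 0))]
  refine tsum_congr fun L => ?_
  by_cases hL : HT ht L = h
  · rw [if_pos hL, Fact346.tsum_dn ν u h' (fun ρ => G (flr L) ρ), ← ENNReal.tsum_mul_left]
    refine tsum_congr fun L' => ?_
    have hm := meet_iff u h a a' PK x L L' hL
    by_cases hL' : HT ht L' = h'
    · rw [if_pos hL']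
      by_cases h3 : PX (DX u L) ∧ PY (DY u L') ∧
          ((∃ z k, (z, k) ∈ TX u L 0 a ∧ (z, k) ∈ TY u L' x a') ∧
          (∀ z k, (z, k) ∈ TX u L 0 a → (z, k) ∈ TY u L' x a' → PK (k : ℤ)))
      · rw [if_pos ⟨hL, h3.1, hL', h3.2.1, h3.2.2.1, h3.2.2.2⟩]
        have h4 : PX (- endp 0 (flr L)) ∧ PY (endp 0 (fl L')) ∧ CE u a a' x (flr L) (fl L') ∧
            CA u a PK x (flr L) (fl L') := by
          rw [← DX_eq, ← DY_eq]
          exact ⟨h3.1, h3.2.1, hm.1 h3.2.2⟩
        simp only [hG]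
        rw [if_pos h4, mul_one]
      · rw [if_neg (fun hc => h3 ⟨hc.2.1, hc.2.2.2.1, hc.2.2.2.2⟩)]
        have h4 : ¬ (PX (- endp 0 (flr L)) ∧ PY (endp 0 (fl L')) ∧ CE u a a' x (flr L) (fl L') ∧
            CA u a PK x (flr L) (fl L')) := by
          rw [← DX_eq, ← DY_eq]
          exact fun hc => h3 ⟨hc.1, hc.2.1, hm.2 hc.2.2⟩
        simp only [hG]
        rw [if_neg h4, mul_zero, mul_zero]
    · rw [if_neg (fun hc => hL' hc.2.2.1), if_neg hL', mul_zero]
  · rw [if_neg hL]
    exact ENNReal.tsum_eq_zero.2 fun L' => if_neg fun hc => hL hc.1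

end Crest.Agent.R154.BindH135
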