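import Crest.Agent.R154.Fact_346
import Crest.Agent.R154.BindDefs_55

/-! Row 154, ROAD 801 (helper55): dictionary between block lists (letters of B5Abs) and words. -/

set_option autoImplicit false

namespace Crest.Agent.R154.BW55

open MeasureTheory ProbabilityTheory Crest.ProbabilityR.RandomEnvironment Crest.Agent.R154
open Crest.Agent.R154.Flux132 (lev opp)
open Crest.Agent.R154.Flux566 (lw endp sitesL endp_append endp_eq_add)
open Crest.Agent.R154.NB28 (IsUp IsDn aw Cm)
open Crest.Agent.R154.Fact346 (Irr Fac fl ht ht_spec P_fl P_fl_iff tsum_fact sitesL_append sitesL_add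
  lev_a lev_z lev_opp)
open Crest.Agent.R154.B5A (LW HT LW_nil LW_cons HT_nil HT_cons)
open scoped ENNReal

/-! ### placed traces of lists of blocks -/

section abs

variable {B G : Type*} [AddCommGroup G]

/-- set of (position, depth) read by a list of blocks placed at position `x`, depth `a` -/
def TR (s : B → Set (G × ℕ)) (h : B → ℕ) (z : B → G) : List B → G → ℕ → Set (G × ℕ)
  | [], _, _ => ∅
  | b :: L, x, a => (fun p : G × ℕ => (x + p.1, a + p.2)) '' s b ∪ TR s h z L (x + z b) (a + h b)

end abs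

variable {d : ℕ}

lemma lev_neg' (u : Step d) (x : Site d) : lev u (-x) = - lev u x := by
  have := lev_a u x (-x)
  rw [add_neg_cancel, lev_z] at this
  omega

lemma lev_sub' (u : Step d) (x y : Site d) : lev u (x - y) = lev u x - lev u y := by
  rw [sub_eq_add_neg, lev_a, lev_neg']; ring

lemma lev_step (u : Step d) : lev u (stepVec u) = 1 := by
  have := Flux566.lev_self u
  exact this

lemma lev_smul (u : Step d) (k : ℤ) (x : Site d) : lev u (k • x) = k * lev u x := by
  unfold Flux132.lev; split_ifs <;> simp [Pi.smul_apply]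

lemma lev_ke (u : Step d) (k : ℤ) : lev u (k • stepVec u) = k := by
  rw [lev_smul, lev_step, mul_one]

lemma lev_lt (u : Step d) (y : Site d) : lev u (lt u y) = 0 := by
  rw [lt, lev_sub', lev_ke]; ring

lemma lt_add (u : Step d) (x y : Site d) : lt u (x + y) = lt u x + lt u y := by
  simp only [lt, lev_a, add_smul]; abel

lemma lt_zero (u : Step d) : lt u (0 : Site d) = 0 := by simp [lt, lev_z]

lemma mem_shift (l : List (Step d)) (x z y : Site d) :
    y ∈ sitesL (x + z) l ↔ y - z ∈ sitesL x l := by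
  rw [sitesL_add, List.mem_map]
  constructor
  · rintro ⟨w, hw, rfl⟩; simpa using hw
  · intro h; exact ⟨y - z, h, by simp⟩

/-! ### the up side: lists of irreducible up words, top block first -/

/-- trace of an up block, hung at its top -/
def sU (u : Step d) (b : Irr (IsUp (d := d) u)) : Set (Site d × ℕ) :=
  {p | ∃ y ∈ sitesL (-endp 0 b.1) b.1, p.1 = lt u y ∧ (p.2 : ℤ) = - lev u y}

/-- lateral displacement from the top to the bottom -/
def zU (u : Step d) (b : Irr (IsUp (d := d) u)) : Site d := lt u (-endp 0 b.1)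

/-- trace of a down block -/
def sD (u : Step d) (b : Irr (IsDn (d := d) u)) : Set (Site d × ℕ) :=
  {p | ∃ y ∈ sitesL 0 b.1, p.1 = lt u y ∧ (p.2 : ℤ) = 1 - lev u y}

/-- lateral displacement from the top to the bottom -/
def zD (u : Step d) (b : Irr (IsDn (d := d) u)) : Site d := lt u (endp 0 b.1)

/-- word of a list of up blocks, top block first -/
def fU (u : Step d) (L : List (Irr (IsUp (d := d) u))) : List (Step d) := fl L.reverse

lemma fU_cons (u : Step d) (b : Irr (IsUp (d := d) u)) (L : List (Irr (IsUp (d := d) u))) :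
    fU u (b :: L) = fU u L ++ b.1 := by
  simp [fU, Fact346.fl_append, fl]

lemma dispU (u : Step d) (L : List (Irr (IsUp (d := d) u))) :
    (L.map (zU u)).sum = lt u (-endp 0 (fU u L)) := by
  induction L with
  | nil => simp [fU, fl, endp, lt_zero]
  | cons b L ih =>
    rw [List.map_cons, List.sum_cons, ih, fU_cons, endp_append, endp_eq_add b.1 (endp 0 (fU u L)),
      neg_add_rev, lt_add]
    rfl

lemma dispD (u : Step d) (L : List (Irr (IsDn (d := d) u))) :
    (L.map (zD u)).sum = lt u (endp 0 (fl L)) := by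
  induction L with
  | nil => simp [fl, endp, lt_zero]
  | cons b L ih =>
    rw [List.map_cons, List.sum_cons, ih]
    change _ = lt u (endp 0 (b.1 ++ fl L))
    rw [endp_append, endp_eq_add (fl L) (endp 0 b.1), lt_add]
    rfl

lemma mem_TRU (u : Step d) (L : List (Irr (IsUp (d := d) u))) (x : Site d) (a : ℕ)
    (p : Site d × ℕ) :
    p ∈ TR (sU u) ht (zU u) L x a ↔
      ∃ y ∈ sitesL (-endp 0 (fU u L)) (fU u L), p.1 = x + lt u y ∧ (p.2 : ℤ) = a - lev u y := by
  induction L generalizing x a with
  | nil => simp [TR, fU, fl, sitesL]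
  | cons b L ih =>
    have hb : lev u (endp 0 b.1) = ht b := (ht_spec b).2
    have hE : endp 0 (fU u (b :: L)) = endp 0 (fU u L) + endp 0 b.1 := by
      rw [fU_cons, endp_append, endp_eq_add b.1]
    have hS : ∀ y, y ∈ sitesL (-endp 0 (fU u (b :: L))) (fU u (b :: L)) ↔
        y + endp 0 b.1 ∈ sitesL (-endp 0 (fU u L)) (fU u L) ∨ y ∈ sitesL (-endp 0 b.1) b.1 := by
      intro y
      rw [hE, fU_cons, sitesL_append, List.mem_append]
      have e1 : -(endp 0 (fU u L) + endp 0 b.1) = -endp 0 (fU u L) + -endp 0 b.1 := by abel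
      rw [e1, mem_shift, sub_neg_eq_add]
      have e2 : endp (-endp 0 (fU u L) + -endp 0 b.1) (fU u L) = -endp 0 b.1 := by
        rw [endp_eq_add (fU u L)]; abel
      rw [e2]
    change p ∈ (fun p : Site d × ℕ => (x + p.1, a + p.2)) '' sU u b ∪
      TR (sU u) ht (zU u) L (x + zU u b) (a + ht b) ↔ _
    rw [Set.mem_union, ih]
    constructor
    · rintro (⟨q, ⟨y, hy, hq1, hq2⟩, rfl⟩ | ⟨y, hy, h1, h2⟩)
      · refine ⟨y, (hS y).2 (Or.inr hy), ?_, ?_⟩
        · simp only [hq1]
        · push_cast; rw [hq2]; ring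
      · refine ⟨y - endp 0 b.1, (hS _).2 (Or.inl (by simpa using hy)), ?_, ?_⟩
        · rw [h1, zU, sub_eq_add_neg y, lt_add]; abel
        · rw [h2, lev_sub', hb]; push_cast; ring
    · rintro ⟨y, hy, h1, h2⟩
      rcases (hS y).1 hy with hy | hy
      · refine Or.inr ⟨y + endp 0 b.1, hy, ?_, ?_⟩
        · rw [h1, zU, lt_add]
          have : lt u (-endp 0 b.1) = - lt u (endp 0 b.1) := by
            have := lt_add u (endp 0 b.1) (-endp 0 b.1)
            rw [add_neg_cancel, lt_zero] at this
            exact eq_neg_of_add_eq_zero_right this.symm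
          rw [this]; abel
        · rw [h2, lev_a, hb]; push_cast; ring
      · refine Or.inl ⟨(lt u y, (- lev u y).toNat), ⟨y, hy, rfl, ?_⟩, ?_⟩
        · have hlt : lev u y < 0 := by
            have h3 := (ht_spec b).1 (y - -endp 0 b.1) (by
              have := (mem_shift b.1 0 (-endp 0 b.1) y).1 (by rwa [zero_add])
              exact this)
            rw [lev_sub', lev_neg', hb] at h3
            omega
          exact Int.toNat_of_nonneg (by omega)
        · have hlt : lev u y < 0 := by
            have h3 := (ht_spec b).1 (y - -endp 0 b.1) (by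
              have := (mem_shift b.1 0 (-endp 0 b.1) y).1 (by rwa [zero_add])
              exact this)
            rw [lev_sub', lev_neg', hb] at h3
            omega
          refine Prod.ext h1.symm ?_
          simp only
          omega

lemma mem_TRD (u : Step d) (L : List (Irr (IsDn (d := d) u))) (x : Site d) (a : ℕ)
    (p : Site d × ℕ) :
    p ∈ TR (sD u) ht (zD u) L x a ↔
      ∃ y ∈ sitesL 0 (fl L), p.1 = x + lt u y ∧ (p.2 : ℤ) = a + 1 - lev u y := by
  induction L generalizing x a with
  | nil => simp [TR, fl, sitesL]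
  | cons b L ih =>
    have hb : lev u (endp 0 b.1) = -(ht b : ℤ) := (ht_spec b).2
    have hS : ∀ y, y ∈ sitesL 0 (fl (b :: L)) ↔
        y ∈ sitesL 0 b.1 ∨ y - endp 0 b.1 ∈ sitesL 0 (fl L) := by
      intro y
      change y ∈ sitesL 0 (b.1 ++ fl L) ↔ _
      rw [sitesL_append, List.mem_append]
      have := mem_shift (fl L) 0 (endp 0 b.1) y
      rw [zero_add] at this
      rw [this]
    change p ∈ (fun p : Site d × ℕ => (x + p.1, a + p.2)) '' sD u b ∪
      TR (sD u) ht (zD u) L (x + zD u b) (a + ht b) ↔ _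
    rw [Set.mem_union, ih]
    constructor
    · rintro (⟨q, ⟨y, hy, hq1, hq2⟩, rfl⟩ | ⟨y, hy, h1, h2⟩)
      · refine ⟨y, (hS y).2 (Or.inl hy), ?_, ?_⟩
        · simp only [hq1]
        · push_cast; rw [hq2]; ring
      · refine ⟨y + endp 0 b.1, (hS _).2 (Or.inr (by simpa using hy)), ?_, ?_⟩
        · rw [h1, zD, lt_add]; abel
        · rw [h2, lev_a, hb]; push_cast; ring
    · rintro ⟨y, hy, h1, h2⟩
      rcases (hS y).1 hy with hy | hy
      · have hle : lev u y ≤ 0 := ((ht_spec b).1 y hy).2
        refine Or.inl ⟨(lt u y, (1 - lev u y).toNat), ⟨y, hy, rfl, ?_⟩, ?_⟩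
        · exact Int.toNat_of_nonneg (by omega)
        · refine Prod.ext h1.symm ?_
          simp only
          omega
      · refine Or.inr ⟨y - endp 0 b.1, hy, ?_, ?_⟩
        · have e : y = (y - endp 0 b.1) + endp 0 b.1 := by abel
          rw [h1, zD]
          conv_lhs => rw [e, lt_add]
          abel
        · rw [h2, lev_sub', hb]; push_cast; ring

/-- **contacts of two placed lists = contacts of the placed words** -/
lemma contact_iff (u : Step d) (L : List (Irr (IsUp (d := d) u))) (L' : List (Irr (IsDn (d := d) u)))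
    (a a' : ℕ) (x : Site d) (hx : lev u x = 0) (k : ℕ) :
    (∃ z, (z, k) ∈ TR (sU u) ht (zU u) L 0 a ∧ (z, k) ∈ TR (sD u) ht (zD u) L' x a') ↔
      k ∈ CW u a a' x (fU u L) (fl L') := by
  constructor
  · rintro ⟨z, h1, h2⟩
    rw [mem_TRU] at h1
    rw [mem_TRD] at h2
    obtain ⟨y1, hy1, h3, h4⟩ := h1
    obtain ⟨y2, hy2, h5, h6⟩ := h2
    simp only at h3 h4 h5 h6
    refine ⟨z - (k : ℤ) • stepVec u, ?_, ?_, ?_⟩
    · have e : -((a : ℤ) • stepVec u) - endp 0 (fU u L) = -endp 0 (fU u L) + -((a : ℤ) • stepVec u) := by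
        abel
      rw [e, mem_shift]
      convert hy1 using 1
      rw [h3, lt, h4, sub_smul]; abel
    · have e : x - ((a' : ℤ) + 1) • stepVec u = 0 + (x - ((a' : ℤ) + 1) • stepVec u) := by abel
      rw [e, mem_shift]
      convert hy2 using 1
      rw [h5, lt, h6, sub_smul]; abel
    · rw [lev_sub', lev_ke, h3, zero_add, lev_lt]; ring
  · rintro ⟨y, h1, h2, h3⟩
    have e1 : -((a : ℤ) • stepVec u) - endp 0 (fU u L) = -endp 0 (fU u L) + -((a : ℤ) • stepVec u) := by
      abel
    rw [e1, mem_shift] at h1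
    have e2 : x - ((a' : ℤ) + 1) • stepVec u = 0 + (x - ((a' : ℤ) + 1) • stepVec u) := by abel
    rw [e2, mem_shift] at h2
    refine ⟨lt u y, ?_, ?_⟩
    · rw [mem_TRU]
      refine ⟨_, h1, ?_, ?_⟩
      · simp only [zero_add, lt, sub_neg_eq_add, lev_a, lev_ke, add_smul]; abel
      · simp only [sub_neg_eq_add, lev_a, lev_ke]; omega
    · rw [mem_TRD]
      refine ⟨_, h2, ?_, ?_⟩
      · simp only [lt, lev_sub', lev_ke, hx, sub_smul, zero_smul]; abel
      · simp only [lev_sub', lev_ke, hx]; omega

/-- no contact when the offset is not lateral -/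
lemma no_contact (u : Step d) (L : List (Irr (IsUp (d := d) u))) (L' : List (Irr (IsDn (d := d) u)))
    (a a' : ℕ) (x : Site d) (hx : lev u x ≠ 0) (k : ℕ) (z : Site d)
    (h1 : (z, k) ∈ TR (sU u) ht (zU u) L 0 a) : (z, k) ∉ TR (sD u) ht (zD u) L' x a' := by
  intro h2
  rw [mem_TRU] at h1
  rw [mem_TRD] at h2
  obtain ⟨y1, hy1, h3, h4⟩ := h1
  obtain ⟨y2, hy2, h5, h6⟩ := h2
  apply hx
  have h7 : lev u z = 0 := by
    have : z = 0 + lt u y1 := h3
    rw [this, zero_add, lev_lt]
  have h8 : lev u z = lev u x + 0 := by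
    have : z = x + lt u y2 := h5
    rw [this, lev_a, lev_lt]
  omega

end Crest.Agent.R154.BW55
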