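import Crest.Agent.R154.NBDefs_28
import Crest.Agent.R154.B5Rec_566

/-! Row 154, NBProp (S0219), ROAD 801 (helper88): joint between the list assembly (letters of
helper540) and the single-walker words (letters of helper28). -/

set_option autoImplicit false

namespace Crest.Agent.R154.Bind88

open MeasureTheory ProbabilityTheory Crest.ProbabilityR.RandomEnvironment Crest.Agent.R154
open Crest.Agent.R154.Flux132 (lev opp)
open Crest.Agent.R154.Flux566 (lw endp sitesL)
open Crest.Agent.R154.NB28
open Crest.Agent.R154.B5A
open scoped ENNReal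

/-! ### traces of lists -/

section trace

variable {B G : Type*} [AddCommGroup G]

/-- trace of a list of blocks read from the tie down, top at position `x`, depth `a` -/
def TX (s : B → Set (G × ℕ)) (z : B → G) (h : B → ℕ) : List B → G → ℕ → Set (G × ℕ)
  | [], _, _ => ∅
  | b :: L, x, a => (fun p : G × ℕ => (x + p.1, a + p.2)) '' s b ∪ TX s z h L (x + z b) (a + h b)

/-- total displacement -/
def Dp (z : B → G) (L : List B) : G := (L.map z).sum

lemma Dp_nil (z : B → G) : Dp z [] = 0 := rfl

lemma Dp_cons (z : B → G) (b : B) (L : List B) : Dp z (b :: L) = z b + Dp z L := by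
  simp [Dp]

end trace

variable {d : ℕ}

/-! ### words -/

lemma lev_add (u : Step d) (x y : Site d) : lev u (x + y) = lev u x + lev u y := by
  unfold lev; split <;> simp <;> ring

lemma lev_neg (u : Step d) (x : Site d) : lev u (-x) = - lev u x := by
  unfold lev; split <;> simp

lemma lev_step_self (u : Step d) : lev u (stepVec u) = 1 := by
  unfold lev stepVec
  rcases u with ⟨i, b⟩
  cases b <;> simp

lemma lev_sub (u : Step d) (x y : Site d) : lev u (x - y) = lev u x - lev u y := by
  rw [sub_eq_add_neg, lev_add, lev_neg, sub_eq_add_neg]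

lemma lev_opp (u : Step d) : lev u (stepVec (opp u)) = -1 := by
  unfold lev stepVec opp
  rcases u with ⟨i, b⟩
  cases b <;> simp

lemma sites_append (l l' : List (Step d)) (x : Site d) :
    sitesL x (l ++ l') = sitesL x l ++ sitesL (endp x l) l' := by
  induction l generalizing x with
  | nil => simp [sitesL, endp]
  | cons e l ih => simp [sitesL, endp, ih]

lemma mem_sites (l : List (Step d)) (x y z : Site d) :
    y ∈ sitesL (x + z) l ↔ y - z ∈ sitesL x l := by
  induction l generalizing x with
  | nil => simp [sitesL]
  | cons e l ih =>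
    simp only [sitesL, List.mem_cons]
    rw [show x + z + stepVec e = (x + stepVec e) + z by abel, ih]
    refine or_congr ?_ Iff.rfl
    constructor
    · rintro rfl; simp
    · intro h; rw [← h]; simp

lemma mem_sites0 (l : List (Step d)) (x y : Site d) :
    y ∈ sitesL x l ↔ y - x ∈ sitesL 0 l := by
  have := mem_sites l 0 y x
  rwa [zero_add] at this

variable {B : Type*} (u : Step d) (wd : B → List (Step d)) (ht : B → ℕ)

/-- up word of a list of blocks (top block first) -/
def catU : List B → List (Step d)
  | [] => []
  | b :: L => catU L ++ wd b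

/-- down word of a list of blocks (top block first) -/
def catD : List B → List (Step d)
  | [] => []
  | b :: L => wd b ++ catD L

/-- displacement (top to bottom) of an up block -/
def zU (b : B) : Site d := - endp 0 (wd b)

/-- displacement (top to bottom) of a down block -/
def zD (b : B) : Site d := endp 0 (wd b)

/-- sites read by an up block, relative to its top -/
def sU (b : B) : Set (Site d × ℕ) :=
  {p | ∃ s ∈ sitesL 0 (wd b), p.1 = s - endp 0 (wd b) ∧ (p.2 : ℤ) = ht b - lev u s}

/-- sites read by a down block, relative to its top -/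
def sD (b : B) : Set (Site d × ℕ) :=
  {p | ∃ s ∈ sitesL 0 (wd b), p.1 = stepVec (opp u) + s ∧ (p.2 : ℤ) = 1 - lev u s}

lemma endp_catU (L : List B) : endp 0 (catU wd L) = - Dp (zU wd) L := by
  induction L with
  | nil => simp [catU, endp, Dp_nil]
  | cons b L ih =>
    rw [catU, Flux566.endp_append, Flux566.endp_eq_add, ih, Dp_cons, zU]
    abel

lemma endp_catD (L : List B) : endp 0 (catD wd L) = Dp (zD wd) L := by
  induction L with
  | nil => simp [catD, endp, Dp_nil]
  | cons b L ih =>
    rw [catD, Flux566.endp_append, Flux566.endp_eq_add, ih, Dp_cons, zD]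

variable {u wd ht}

/-- (b1) -/
theorem TX_iff (hB : ∀ b, IsUp u (ht b) (wd b)) (L : List B) (x y : Site d) (a k : ℕ) :
    (y, k) ∈ TX (sU u wd ht) (zU wd) ht L x a ↔
      y ∈ sitesL (x - endp 0 (catU wd L)) (catU wd L) ∧ (k : ℤ) = a - lev u (y - x) := by
  induction L generalizing x a with
  | nil => simp [TX, catU, sitesL]
  | cons b L ih =>
    have hz : lev u (zU wd b) = -(ht b : ℤ) := by
      rw [zU, lev_neg, (hB b).2]
    have e1 : x - endp 0 (catU wd (b :: L)) = (x + zU wd b) - endp 0 (catU wd L) := by
      rw [catU, Flux566.endp_append, Flux566.endp_eq_add, zU]; abel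
    have e2 : endp (x - endp 0 (catU wd (b :: L))) (catU wd L) = x - endp 0 (wd b) := by
      rw [e1, Flux566.endp_eq_add, zU]; abel
    rw [TX, Set.mem_union, ih, catU, sites_append, List.mem_append]
    rw [← catU, e2, e1]
    have hlev : ((a + ht b : ℕ) : ℤ) - lev u (y - (x + zU wd b)) = a - lev u (y - x) := by
      rw [show y - (x + zU wd b) = (y - x) - zU wd b by abel, lev_sub, hz]; push_cast; ring
    rw [hlev]
    constructor
    · rintro (⟨⟨z, k'⟩, ⟨s, hs, h1, h2⟩, h3⟩ | h)
      · simp only at h1 h2
        simp only [Prod.mk.injEq] at h3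
        obtain ⟨h3, h4⟩ := h3
        subst h3 h4
        refine ⟨Or.inr ?_, ?_⟩
        · rw [mem_sites0, h1]
          rwa [show x + (s - endp 0 (wd b)) - (x - endp 0 (wd b)) = s by abel]
        · rw [show x + z - x = z by abel, h1, lev_sub, (hB b).2]
          push_cast; rw [h2]; ring
      · exact ⟨Or.inl h.1, h.2⟩
    · rintro ⟨h | h, hk⟩
      · exact Or.inr ⟨h, hk⟩
      · left
        rw [mem_sites0] at h
        have hl := (hB b).1 _ h
        have hs : lev u (y - (x - endp 0 (wd b))) = lev u (y - x) + ht b := by
          rw [show y - (x - endp 0 (wd b)) = (y - x) + endp 0 (wd b) by abel, lev_add, (hB b).2]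
        refine ⟨(y - x, k - a), ⟨y - (x - endp 0 (wd b)), h, ?_, ?_⟩, ?_⟩
        · simp only; abel
        · simp only
          rw [hs] at hl ⊢
          push_cast [Nat.cast_sub (show a ≤ k by omega)]
          omega
        · simp only [Prod.mk.injEq]
          rw [hs] at hl
          exact ⟨by abel, by omega⟩

/-- (b2) -/
theorem TY_iff (hB : ∀ b, IsDn u (ht b) (wd b)) (L : List B) (x y : Site d) (a k : ℕ) :
    (y, k) ∈ TX (sD u wd) (zD wd) ht L x a ↔
      y ∈ sitesL (x + stepVec (opp u)) (catD wd L) ∧ (k : ℤ) = a - lev u (y - x) := by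
  induction L generalizing x a with
  | nil => simp [TX, catD, sitesL]
  | cons b L ih =>
    have hz : lev u (zD wd b) = -(ht b : ℤ) := by
      rw [zD, (hB b).2]
    have e2 : endp (x + stepVec (opp u)) (wd b) = (x + zD wd b) + stepVec (opp u) := by
      rw [Flux566.endp_eq_add, zD]; abel
    rw [TX, Set.mem_union, ih, catD, sites_append, List.mem_append, e2]
    have hlev : ((a + ht b : ℕ) : ℤ) - lev u (y - (x + zD wd b)) = a - lev u (y - x) := by
      rw [show y - (x + zD wd b) = (y - x) - zD wd b by abel, lev_sub, hz]; push_cast; ring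
    rw [hlev]
    constructor
    · rintro (⟨⟨z, k'⟩, ⟨s, hs, h1, h2⟩, h3⟩ | h)
      · simp only at h1 h2
        simp only [Prod.mk.injEq] at h3
        obtain ⟨h3, h4⟩ := h3
        subst h3 h4
        refine ⟨Or.inl ?_, ?_⟩
        · rw [mem_sites0, h1]
          rwa [show x + (stepVec (opp u) + s) - (x + stepVec (opp u)) = s by abel]
        · rw [show x + z - x = z by abel, h1, lev_add, lev_opp]
          push_cast; rw [h2]; ring
      · exact ⟨Or.inr h.1, h.2⟩
    · rintro ⟨h | h, hk⟩
      · left
        rw [mem_sites0] at h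
        have hl := (hB b).1 _ h
        have hs : lev u (y - (x + stepVec (opp u))) = lev u (y - x) + 1 := by
          rw [show y - (x + stepVec (opp u)) = (y - x) - stepVec (opp u) by abel, lev_sub, lev_opp]
          ring
        refine ⟨(y - x, k - a), ⟨y - (x + stepVec (opp u)), h, ?_, ?_⟩, ?_⟩
        · simp only; abel
        · simp only
          rw [hs] at hl ⊢
          push_cast [Nat.cast_sub (show a ≤ k by omega)]
          omega
        · simp only [Prod.mk.injEq]
          rw [hs] at hl
          exact ⟨by abel, by omega⟩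
      · exact Or.inr ⟨h, hk⟩

end Crest.Agent.R154.Bind88
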