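import Mathlib

/-! Row 154, d = 2, helper24: **a rare block seen through the renewal structure** (504 #31751 (3),
abstract half).

`ζ k` independent identically distributed blocks of heights `Rr (ζ k) ≥ 1`, `Hh k` = sum of the first
`k` heights, `u ≤ P (m is a cut)` for every level `m`. For a set `G` of blocks of height `≥ h`:
`(2 h) u P (ζ 0 ∈ G) ≤ 2 P (some block of G starts below 2 h)`. -/

set_option autoImplicit false
set_option linter.unusedSectionVars false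
set_option linter.deprecated false

namespace Crest.Agent.R154.BlkTail24

open MeasureTheory ProbabilityTheory Set
open scoped ENNReal

variable {Ω E : Type*} [MeasurableSpace Ω] [MeasurableSpace E]

/-- height before the block `k` -/
def Hh (Rr : E → ℕ) (ζ : ℕ → Ω → E) (k : ℕ) (ω : Ω) : ℕ := ∑ i ∈ Finset.range k, Rr (ζ i ω)

lemma Hh_zero (Rr : E → ℕ) (ζ : ℕ → Ω → E) (ω : Ω) : Hh Rr ζ 0 ω = 0 := by simp [Hh]

lemma Hh_succ (Rr : E → ℕ) (ζ : ℕ → Ω → E) (k : ℕ) (ω : Ω) :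
    Hh Rr ζ (k + 1) ω = Hh Rr ζ k ω + Rr (ζ k ω) := by
  simp [Hh, Finset.sum_range_succ]

lemma Hh_mono (Rr : E → ℕ) (ζ : ℕ → Ω → E) (ω : Ω) {k l : ℕ} (h : k ≤ l) :
    Hh Rr ζ k ω ≤ Hh Rr ζ l ω :=
  Finset.sum_le_sum_of_subset (Finset.range_subset_range.2 h)

lemma Hh_add_le (Rr : E → ℕ) (ζ : ℕ → Ω → E) (ω : Ω) {k l : ℕ} (h : k < l) :
    Hh Rr ζ k ω + Rr (ζ k ω) ≤ Hh Rr ζ l ω := by
  rw [← Hh_succ]
  exact Hh_mono Rr ζ ω h

lemma Hh_strictMono {Rr : E → ℕ} (hR1 : ∀ e, 1 ≤ Rr e) (ζ : ℕ → Ω → E) (ω : Ω) :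
    StrictMono fun k => Hh Rr ζ k ω := by
  refine strictMono_nat_of_lt_succ fun k => ?_
  have := hR1 (ζ k ω)
  simp only [Hh_succ]
  omega

lemma measurable_Hh {Rr : E → ℕ} (hR : Measurable Rr) {ζ : ℕ → Ω → E} (hζ : ∀ k, Measurable (ζ k))
    (k : ℕ) : Measurable (Hh Rr ζ k) := by
  unfold Hh
  exact Finset.measurable_sum _ fun i _ => hR.comp (hζ i)

/-- a block of `G` starts at the level `m` -/
def St (Rr : E → ℕ) (ζ : ℕ → Ω → E) (G : Set E) (m : ℕ) : Set Ω :=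
  {ω | ∃ k, Hh Rr ζ k ω = m ∧ ζ k ω ∈ G}

/-- a block of `G` starts below the level `m` -/
def Be (Rr : E → ℕ) (ζ : ℕ → Ω → E) (G : Set E) (m : ℕ) : Set Ω :=
  {ω | ∃ k, Hh Rr ζ k ω < m ∧ ζ k ω ∈ G}

lemma St_eq (Rr : E → ℕ) (ζ : ℕ → Ω → E) (G : Set E) (m : ℕ) :
    St Rr ζ G m = ⋃ k, ({ω | Hh Rr ζ k ω = m} ∩ ζ k ⁻¹' G) := by
  ext ω; simp [St]

lemma measurableSet_cut {Rr : E → ℕ} (hR : Measurable Rr) {ζ : ℕ → Ω → E}
    (hζ : ∀ k, Measurable (ζ k)) (k m : ℕ) : MeasurableSet {ω | Hh Rr ζ k ω = m} :=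
  measurable_Hh hR hζ k (measurableSet_singleton m)

lemma measurableSet_St {Rr : E → ℕ} (hR : Measurable Rr) {ζ : ℕ → Ω → E}
    (hζ : ∀ k, Measurable (ζ k)) {G : Set E} (hG : MeasurableSet G) (m : ℕ) :
    MeasurableSet (St Rr ζ G m) := by
  rw [St_eq]
  exact MeasurableSet.iUnion fun k => (measurableSet_cut hR hζ k m).inter (hζ k hG)

/-- the cut at a level is independent of the next block -/
theorem measure_St {P : Measure Ω} {Rr : E → ℕ} (hR : Measurable Rr)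
    (hR1 : ∀ e, 1 ≤ Rr e) {ζ : ℕ → Ω → E} (hζ : ∀ k, Measurable (ζ k)) {G : Set E}
    (hG : MeasurableSet G) {g : ℝ≥0∞}
    (hi : ∀ k m, P ({ω | Hh Rr ζ k ω = m} ∩ ζ k ⁻¹' G) = P {ω | Hh Rr ζ k ω = m} * g) (m : ℕ) :
    P (St Rr ζ G m) = P {ω | ∃ k, Hh Rr ζ k ω = m} * g := by
  have hd : Pairwise (Function.onFun Disjoint fun k => {ω | Hh Rr ζ k ω = m}) := by
    intro k l hkl
    refine Set.disjoint_left.2 fun ω h1 h2 => hkl ?_
    exact (Hh_strictMono hR1 ζ ω).injective (show Hh Rr ζ k ω = Hh Rr ζ l ω from h1.trans h2.symm)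
  have e1 : {ω | ∃ k, Hh Rr ζ k ω = m} = ⋃ k, {ω | Hh Rr ζ k ω = m} := by ext ω; simp
  rw [St_eq, e1, measure_iUnion (fun k l hkl => (hd hkl).mono inter_subset_left inter_subset_left)
      (fun k => (measurableSet_cut hR hζ k m).inter (hζ k hG)),
    measure_iUnion hd (fun k => measurableSet_cut hR hζ k m), ← ENNReal.tsum_mul_right]
  exact tsum_congr fun k => hi k m

/-- at most two blocks of height `≥ h` start below `2 h` -/
lemma sum_ind_le {Rr : E → ℕ} {ζ : ℕ → Ω → E} {G : Set E} {h : ℕ} (hGh : ∀ e ∈ G, h ≤ Rr e)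
    (ω : Ω) :
    ∑ m ∈ Finset.range (2 * h), (St Rr ζ G m).indicator (1 : Ω → ℝ≥0∞) ω
      ≤ 2 * (Be Rr ζ G (2 * h)).indicator (1 : Ω → ℝ≥0∞) ω := by
  classical
  set S : Finset ℕ := (Finset.range (2 * h)).filter fun m => ω ∈ St Rr ζ G m with hS
  have e1 : ∑ m ∈ Finset.range (2 * h), (St Rr ζ G m).indicator (1 : Ω → ℝ≥0∞) ω = (S.card : ℝ≥0∞) := by
    rw [hS, Finset.card_filter]
    push_cast
    refine Finset.sum_congr rfl fun m _ => ?_
    by_cases hm : ω ∈ St Rr ζ G m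
    · rw [Set.indicator_of_mem hm, if_pos hm]; rfl
    · rw [Set.indicator_of_notMem hm, if_neg hm]
  rw [e1]
  have hgap : ∀ m ∈ S, ∀ m' ∈ S, m < m' → m + h ≤ m' := by
    intro m hm m' hm' hlt
    obtain ⟨k, h1, h2⟩ := (Finset.mem_filter.1 hm).2
    obtain ⟨l, h3, h4⟩ := (Finset.mem_filter.1 hm').2
    have hkl : k < l := by
      by_contra hc
      have := Hh_mono Rr ζ ω (not_lt.1 hc)
      omega
    have := Hh_add_le Rr ζ ω hkl
    have := hGh _ h2
    omega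
  by_cases hne : S.Nonempty
  · have hmem : ω ∈ Be Rr ζ G (2 * h) := by
      obtain ⟨m, hm⟩ := hne
      obtain ⟨hm1, k, h1, h2⟩ := Finset.mem_filter.1 hm
      exact ⟨k, by have := Finset.mem_range.1 hm1; omega, h2⟩
    rw [Set.indicator_of_mem hmem]
    have hc : S.card ≤ 2 := by
      set a := S.min' hne with ha
      set b := S.max' hne with hb
      have hsub : S ⊆ {a, b} := by
        intro m hm
        by_contra hmn
        simp only [Finset.mem_insert, Finset.mem_singleton, not_or] at hmn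
        have h1 : a < m := lt_of_le_of_ne (S.min'_le m hm) (Ne.symm hmn.1)
        have h2 : m < b := lt_of_le_of_ne (S.le_max' m hm) hmn.2
        have h3 := hgap a (S.min'_mem hne) m hm h1
        have h4 := hgap m hm b (S.max'_mem hne) h2
        have h5 := Finset.mem_range.1 (Finset.mem_filter.1 (S.max'_mem hne)).1
        omega
      exact (Finset.card_le_card hsub).trans Finset.card_le_two
    simp only [Pi.one_apply, mul_one]
    exact_mod_cast hc
  · rw [Finset.not_nonempty_iff_eq_empty.1 hne]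
    simp

/-- **a rare tall block**: `2 h u P (ζ ∈ G) ≤ 2 P (a block of G starts below 2 h)`. -/
theorem rare {P : Measure Ω} {Rr : E → ℕ} (hR : Measurable Rr)
    (hR1 : ∀ e, 1 ≤ Rr e) {ζ : ℕ → Ω → E} (hζ : ∀ k, Measurable (ζ k)) {G : Set E}
    (hG : MeasurableSet G) {g u : ℝ≥0∞}
    (hi : ∀ k m, P ({ω | Hh Rr ζ k ω = m} ∩ ζ k ⁻¹' G) = P {ω | Hh Rr ζ k ω = m} * g)
    {h : ℕ} (hu : ∀ m < 2 * h, u ≤ P {ω | ∃ k, Hh Rr ζ k ω = m}) (hGh : ∀ e ∈ G, h ≤ Rr e) :
    (2 * h : ℕ) * u * g ≤ 2 * P (Be Rr ζ G (2 * h)) := by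
  have hBm : MeasurableSet (Be Rr ζ G (2 * h)) := by
    have : Be Rr ζ G (2 * h) = ⋃ m ∈ Finset.range (2 * h), St Rr ζ G m := by
      ext ω
      simp only [Be, St, mem_iUnion, Finset.mem_range, exists_prop, mem_ofPred_eq]
      constructor
      · rintro ⟨k, h1, h2⟩
        exact ⟨_, h1, k, rfl, h2⟩
      · rintro ⟨m, h1, k, h2, h3⟩
        exact ⟨k, by omega, h3⟩
    rw [this]
    exact Finset.measurableSet_biUnion _ fun m _ => measurableSet_St hR hζ hG m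
  calc ((2 * h : ℕ) : ℝ≥0∞) * u * g
      = ∑ _m ∈ Finset.range (2 * h), u * g := by
        rw [Finset.sum_const, Finset.card_range, nsmul_eq_mul, mul_assoc]
    _ ≤ ∑ m ∈ Finset.range (2 * h), P (St Rr ζ G m) := by
        refine Finset.sum_le_sum fun m hm => ?_
        rw [measure_St hR hR1 hζ hG hi]
        gcongr
        exact hu m (Finset.mem_range.1 hm)
    _ = ∑ m ∈ Finset.range (2 * h), ∫⁻ ω, (St Rr ζ G m).indicator 1 ω ∂P := by
        refine Finset.sum_congr rfl fun m _ => ?_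
        rw [lintegral_indicator_one (measurableSet_St hR hζ hG m)]
    _ = ∫⁻ ω, ∑ m ∈ Finset.range (2 * h), (St Rr ζ G m).indicator 1 ω ∂P := by
        rw [lintegral_finsetSum]
        intro m _
        exact measurable_one.indicator (measurableSet_St hR hζ hG m)
    _ ≤ ∫⁻ ω, 2 * (Be Rr ζ G (2 * h)).indicator 1 ω ∂P :=
        lintegral_mono fun ω => sum_ind_le hGh ω
    _ = 2 * P (Be Rr ζ G (2 * h)) := by
        rw [lintegral_const_mul _ (measurable_one.indicator hBm), lintegral_indicator_one hBm]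

/-- the product form from independence and equal laws -/
theorem prod_of_iid {P : Measure Ω} {Rr : E → ℕ} (hR : Measurable Rr) {ζ : ℕ → Ω → E}
    (hζ : ∀ k, Measurable (ζ k)) (hind : iIndepFun ζ P) (hid : ∀ k, P.map (ζ k) = P.map (ζ 0))
    {G : Set E} (hG : MeasurableSet G) (k m : ℕ) :
    P ({ω | Hh Rr ζ k ω = m} ∩ ζ k ⁻¹' G) = P {ω | Hh Rr ζ k ω = m} * P (ζ 0 ⁻¹' G) := by
  classical
  have h1 : IndepFun (Hh Rr ζ k) (ζ k) P := by
    have h2 := hind.indepFun_finset (Finset.range k) {k} (by simp) hζ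
    have hf : Measurable fun w : (Finset.range k) → E => ∑ i, Rr (w i) :=
      Finset.measurable_sum _ fun i _ => hR.comp (measurable_pi_apply i)
    have hg : Measurable fun w : ({k} : Finset ℕ) → E => w ⟨k, by simp⟩ := measurable_pi_apply _
    have h3 := h2.comp hf hg
    have e1 : (fun w : (Finset.range k) → E => ∑ i, Rr (w i)) ∘ (fun a (i : Finset.range k) => ζ i a)
        = Hh Rr ζ k := by
      funext ω
      simp only [Function.comp, Hh]
      exact Finset.sum_coe_sort (Finset.range k) fun i => Rr (ζ i ω)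
    have e2 : (fun w : ({k} : Finset ℕ) → E => w ⟨k, by simp⟩) ∘
        (fun a (i : ({k} : Finset ℕ)) => ζ i a) = ζ k := by
      funext ω; rfl
    rwa [e1, e2] at h3
  have h4 := h1.measure_inter_preimage_eq_mul {m} G (measurableSet_singleton m) hG
  have h5 : P (ζ k ⁻¹' G) = P (ζ 0 ⁻¹' G) := by
    rw [← Measure.map_apply (hζ k) hG, hid k, Measure.map_apply (hζ 0) hG]
  rw [← h5]
  exact h4

/-- **the iid form** -/
theorem rare_iid {P : Measure Ω} {Rr : E → ℕ} (hR : Measurable Rr)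
    (hR1 : ∀ e, 1 ≤ Rr e) {ζ : ℕ → Ω → E} (hζ : ∀ k, Measurable (ζ k)) (hind : iIndepFun ζ P)
    (hid : ∀ k, P.map (ζ k) = P.map (ζ 0)) {G : Set E} (hG : MeasurableSet G) {u : ℝ≥0∞}
    {h : ℕ} (hu : ∀ m < 2 * h, u ≤ P {ω | ∃ k, Hh Rr ζ k ω = m}) (hGh : ∀ e ∈ G, h ≤ Rr e) :
    (h : ℝ≥0∞) * u * P (ζ 0 ⁻¹' G) ≤ P (Be Rr ζ G (2 * h)) := by
  have h1 := rare hR hR1 hζ hG (fun k m => prod_of_iid hR hζ hind hid hG k m) hu hGh
  have h2 : ((2 * h : ℕ) : ℝ≥0∞) * u * P (ζ 0 ⁻¹' G) = 2 * ((h : ℝ≥0∞) * u * P (ζ 0 ⁻¹' G)) := by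
    push_cast; ring
  rw [h2] at h1
  exact (ENNReal.mul_le_mul_iff_right (by norm_num) (by norm_num)).1 h1

end Crest.Agent.R154.BlkTail24
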