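import Mathlib
import Crest.Agent.R154.Conc_412

/-!
Row 154, block B3 (helper480 #26629): concentration for an arbitrary law in the plane, without any
pointwise lower bound of `1 - φ` (L1).
-/

open MeasureTheory ProbabilityTheory Set
open scoped BigOperators ENNReal NNReal

namespace Crest.Agent.R154.Conc412

variable {ι : Type*} [Fintype ι]

/-! ### One-dimensional oscillating integrals -/

theorem osc_period {K : ℝ} (hK : 0 < K) :
    ∫ u in (-Real.pi)..Real.pi, Real.exp (-K * (1 - Real.cos u)) ≤ 4 / Real.sqrt K := by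
  have hpi := Real.pi_pos
  have hb : 0 < K * (2 / Real.pi ^ 2) := by positivity
  have h1 : ∫ u in (-Real.pi)..Real.pi, Real.exp (-K * (1 - Real.cos u)) ≤
      ∫ u in (-Real.pi)..Real.pi, Real.exp (-(K * (2 / Real.pi ^ 2)) * u ^ 2) := by
    refine intervalIntegral.integral_mono_on (by linarith) ?_ ?_ fun u hu => ?_
    · exact (Continuous.intervalIntegrable (by fun_prop) _ _)
    · exact (Continuous.intervalIntegrable (by fun_prop) _ _)
    · apply Real.exp_le_exp.2
      have := Real.cos_le_one_sub_mul_cos_sq (x := u) (abs_le.2 hu)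
      nlinarith
  have h2 : ∫ u in (-Real.pi)..Real.pi, Real.exp (-(K * (2 / Real.pi ^ 2)) * u ^ 2) ≤
      ∫ u : ℝ, Real.exp (-(K * (2 / Real.pi ^ 2)) * u ^ 2) := by
    rw [intervalIntegral.integral_of_le (by linarith)]
    refine setIntegral_le_integral (integrable_exp_neg_mul_sq hb) (ae_of_all _ fun _ => ?_)
    exact Real.exp_nonneg _
  rw [integral_gaussian] at h2
  refine (h1.trans h2).trans ?_
  have h3 : Real.pi / (K * (2 / Real.pi ^ 2)) = (Real.pi ^ 3 / 2) / K := by
    field_simp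
  rw [h3, Real.sqrt_div (by positivity)]
  gcongr
  rw [Real.sqrt_le_left (by norm_num)]
  have h4 : Real.pi < 3.15 := Real.pi_lt_d2
  have h5 : Real.pi ^ 3 ≤ 3.15 ^ 3 := pow_le_pow_left₀ hpi.le h4.le 3
  norm_num at h5 ⊢
  linarith

theorem osc_interval {K : ℝ} (hK : 0 < K) {A B : ℝ} (hAB : A ≤ B) :
    ∫ u in A..B, Real.exp (-K * (1 - Real.cos u)) ≤
      ((B - A) / (2 * Real.pi) + 1) * (4 / Real.sqrt K) := by
  have hpi := Real.pi_pos
  set f : ℝ → ℝ := fun u => Real.exp (-K * (1 - Real.cos u)) with hf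
  have hper : Function.Periodic f (2 * Real.pi) := by
    intro u; simp [hf]
  have hfc : Continuous f := by rw [hf]; fun_prop
  have hint : ∀ a b, IntervalIntegrable f volume a b := fun a b => hfc.intervalIntegrable _ _
  set n : ℕ := ⌊(B - A) / (2 * Real.pi)⌋₊ + 1 with hn
  have hnn : (B - A) / (2 * Real.pi) ≤ n := by
    have := Nat.lt_floor_add_one ((B - A) / (2 * Real.pi))
    rw [hn]; push_cast; exact this.le
  have hn2 : (n : ℝ) ≤ (B - A) / (2 * Real.pi) + 1 := by
    rw [hn]; push_cast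
    have := Nat.floor_le (show 0 ≤ (B - A) / (2 * Real.pi) by
      apply div_nonneg <;> linarith)
    linarith
  have hBle : B ≤ A + (n : ℤ) • (2 * Real.pi) := by
    rw [div_le_iff₀ (by positivity)] at hnn
    simp only [zsmul_eq_mul, Int.cast_natCast]
    linarith
  have h1 : ∫ u in A..B, f u ≤ ∫ u in A..(A + (n : ℤ) • (2 * Real.pi)), f u := by
    refine intervalIntegral.integral_mono_interval le_rfl hAB hBle ?_ (hint _ _)
    exact ae_of_all _ fun u => Real.exp_nonneg _
  have h2 := hper.intervalIntegral_add_zsmul_eq (n : ℤ) A hint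
  have h3 : ∫ u in A..(A + 2 * Real.pi), f u = ∫ u in (-Real.pi)..Real.pi, f u := by
    have := hper.intervalIntegral_add_eq A (-Real.pi)
    rw [this]; congr 1; ring
  have h4 := osc_period hK
  calc ∫ u in A..B, f u ≤ ∫ u in A..(A + (n : ℤ) • (2 * Real.pi)), f u := h1
    _ = (n : ℤ) • ∫ u in A..(A + 2 * Real.pi), f u := h2
    _ = n * ∫ u in (-Real.pi)..Real.pi, f u := by rw [h3]; simp
    _ ≤ ((B - A) / (2 * Real.pi) + 1) * (4 / Real.sqrt K) := by
        refine mul_le_mul hn2 h4 ?_ (by positivity)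
        exact intervalIntegral.integral_nonneg (by linarith) fun _ _ => Real.exp_nonneg _

/-- The one-dimensional aliased integral: an arithmetic progression of peaks costs nothing. -/
theorem osc {M : ℝ} (hM : 0 < M) {y : ℝ} (hy : y ≠ 0) (s c : ℝ) {r : ℝ} (hr : 0 ≤ r) :
    ∫ b in Set.Icc (c - r) (c + r),
      Real.exp (-M * ((1 - Real.cos (s + b * y)) / min (y ^ 2) 1)) ≤ 4 * (r + 1) / Real.sqrt M := by
  have hpi := Real.pi_pos
  have hM' : 0 < Real.sqrt M := Real.sqrt_pos.2 hM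
  have main : ∀ y : ℝ, 0 < y → ∀ s : ℝ, ∫ b in Set.Icc (c - r) (c + r),
      Real.exp (-M * ((1 - Real.cos (s + b * y)) / min (y ^ 2) 1)) ≤
      4 * (r + 1) / Real.sqrt M := by
    intro y hy s
    have hw : 0 < min (y ^ 2) 1 := lt_min (by positivity) one_pos
    have hK : 0 < M / min (y ^ 2) 1 := by positivity
    rw [integral_Icc_eq_integral_Ioc, ← intervalIntegral.integral_of_le (by linarith)]
    have h1 : ∀ b : ℝ, Real.exp (-M * ((1 - Real.cos (s + b * y)) / min (y ^ 2) 1)) =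
        (fun u => Real.exp (-(M / min (y ^ 2) 1) * (1 - Real.cos u))) (s + y * b) := by
      intro b
      simp only
      rw [mul_comm b y]
      congr 1
      ring
    rw [intervalIntegral.integral_congr (g := fun b =>
      (fun u => Real.exp (-(M / min (y ^ 2) 1) * (1 - Real.cos u))) (s + y * b))
      (fun b _ => h1 b), intervalIntegral.integral_comp_add_mul
        (fun u => Real.exp (-(M / min (y ^ 2) 1) * (1 - Real.cos u))) hy.ne' s]
    have h2 := osc_interval hK (A := s + y * (c - r)) (B := s + y * (c + r)) (by nlinarith)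
    rw [smul_eq_mul]
    have h3 : s + y * (c + r) - (s + y * (c - r)) = 2 * (r * y) := by ring
    rw [h3] at h2
    have h4 : 0 < Real.sqrt (min (y ^ 2) 1) := Real.sqrt_pos.2 hw
    have h5 : Real.sqrt (min (y ^ 2) 1) ≤ 1 := Real.sqrt_le_one.2 (min_le_right _ _)
    have h6 : Real.sqrt (min (y ^ 2) 1) ≤ y := by
      rw [Real.sqrt_le_left hy.le]; exact min_le_left _ _
    rw [Real.sqrt_div hM.le] at h2
    have h7 : y⁻¹ * ((2 * (r * y) / (2 * Real.pi) + 1) *
        (4 / (Real.sqrt M / Real.sqrt (min (y ^ 2) 1)))) =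
        (r * Real.sqrt (min (y ^ 2) 1) / Real.pi + Real.sqrt (min (y ^ 2) 1) / y) *
          (4 / Real.sqrt M) := by
      field_simp
    have h8 : r * Real.sqrt (min (y ^ 2) 1) / Real.pi ≤ r := by
      rw [div_le_iff₀ hpi]
      have : (1 : ℝ) ≤ Real.pi := by linarith [Real.pi_gt_three]
      nlinarith
    have h9 : Real.sqrt (min (y ^ 2) 1) / y ≤ 1 := by
      rw [div_le_one hy]; exact h6
    calc y⁻¹ * ∫ x in (s + y * (c - r))..(s + y * (c + r)),
          Real.exp (-(M / min (y ^ 2) 1) * (1 - Real.cos x))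
        ≤ y⁻¹ * ((2 * (r * y) / (2 * Real.pi) + 1) *
          (4 / (Real.sqrt M / Real.sqrt (min (y ^ 2) 1)))) := by gcongr
      _ = (r * Real.sqrt (min (y ^ 2) 1) / Real.pi + Real.sqrt (min (y ^ 2) 1) / y) *
          (4 / Real.sqrt M) := h7
      _ ≤ (r + 1) * (4 / Real.sqrt M) := by gcongr
      _ = 4 * (r + 1) / Real.sqrt M := by ring
  rcases lt_or_gt_of_ne hy with h | h
  · have h1 := main (-y) (by linarith) (-s)
    refine le_trans (le_of_eq ?_) h1
    congr 1
    ext b
    have : -s + b * -y = -(s + b * y) := by ring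
    rw [this, Real.cos_neg, neg_sq]
  · exact main y h s

/-! ### The planar deterministic estimate -/

theorem osc_lint {M : ℝ} (hM : 0 < M) {y : ℝ} (hy : y ≠ 0) (s c : ℝ) {r : ℝ} (hr : 0 ≤ r) :
    ∫⁻ b in Set.Icc (c - r) (c + r),
      ENNReal.ofReal (Real.exp (-M * ((1 - Real.cos (s + b * y)) / min (y ^ 2) 1))) ≤
      ENNReal.ofReal (4 * (r + 1) / Real.sqrt M) := by
  rw [← ofReal_integral_eq_lintegral_ofReal]
  · exact ENNReal.ofReal_le_ofReal (osc hM hy s c hr)
  · exact (Continuous.continuousOn (by fun_prop)).integrableOn_Icc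
  · exact ae_of_all _ fun _ => Real.exp_nonneg _

set_option maxHeartbeats 1000000 in
theorem shear_bound {M : ℝ} (hM : 0 < M) {a b p q w : ℝ} (ha : a ≠ 0) (hba : |b| ≤ |a|)
    (hw : 0 < w) (hw1 : w ≤ min (a ^ 2) 1) (hy : -(b / a) * p + q ≠ 0) (c0 c1 : ℝ) :
    ∫⁻ t in Set.Icc (c1 - 1) (c1 + 1), ∫⁻ u in Set.Icc (c0 - 1) (c0 + 1),
      ENNReal.ofReal (Real.exp (-M * ((1 - Real.cos (u * a + t * b)) / w +
        (1 - Real.cos (u * p + t * q)) / min ((-(b / a) * p + q) ^ 2) 1))) ≤
      ENNReal.ofReal (96 / M) := by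
  set y := -(b / a) * p + q with hydef
  set e := b / a with hedef
  have he : |e| ≤ 1 := by
    rw [hedef, abs_div]; exact div_le_one_of_le₀ hba (abs_nonneg _)
  have hMs : 0 < Real.sqrt M := Real.sqrt_pos.2 hM
  -- the integrand
  set F : ℝ → ℝ → ℝ≥0∞ := fun u t => ENNReal.ofReal (Real.exp (-M *
    ((1 - Real.cos (u * a + t * b)) / w + (1 - Real.cos (u * p + t * q)) / min (y ^ 2) 1))) with hF
  -- change of variables
  have h1 : ∀ t ∈ Set.Icc (c1 - 1) (c1 + 1), ∫⁻ u in Set.Icc (c0 - 1) (c0 + 1), F u t ≤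
      ∫⁻ u in Set.Icc (c0 + e * c1 - 2) (c0 + e * c1 + 2), F (u - e * t) t := by
    intro t ht
    rw [← lintegral_indicator measurableSet_Icc, ← lintegral_indicator measurableSet_Icc,
      ← lintegral_sub_right_eq_self (μ := (volume : Measure ℝ))
        (fun u => (Set.Icc (c0 - 1) (c0 + 1)).indicator (fun u => F u t) u) (e * t)]
    refine lintegral_mono fun u => ?_
    by_cases hu : u - e * t ∈ Set.Icc (c0 - 1) (c0 + 1)
    · have hu2 : u ∈ Set.Icc (c0 + e * c1 - 2) (c0 + e * c1 + 2) := by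
        have h2 : |e * (t - c1)| ≤ 1 := by
          rw [abs_mul]
          have : |t - c1| ≤ 1 := abs_le.2 ⟨by linarith [ht.1], by linarith [ht.2]⟩
          nlinarith [abs_nonneg e, abs_nonneg (t - c1)]
        have h3 := abs_le.1 h2
        constructor <;> nlinarith [hu.1, hu.2, h3.1, h3.2]
      rw [Set.indicator_of_mem hu, Set.indicator_of_mem hu2]
    · rw [Set.indicator_of_notMem hu]; exact bot_le
  have h2 : ∀ u t : ℝ, F (u - e * t) t = ENNReal.ofReal (Real.exp (-M *
      ((1 - Real.cos (u * a)) / w))) * ENNReal.ofReal (Real.exp (-M *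
      ((1 - Real.cos (u * p + t * y)) / min (y ^ 2) 1))) := by
    intro u t
    rw [← ENNReal.ofReal_mul (Real.exp_nonneg _), ← Real.exp_add]
    simp only [hF]
    congr 2
    have e1 : (u - e * t) * a + t * b = u * a := by rw [hedef]; field_simp; ring
    have e2 : (u - e * t) * p + t * q = u * p + t * y := by rw [hydef]; ring
    rw [e1, e2]; ring
  have s1 : ∫⁻ t in Set.Icc (c1 - 1) (c1 + 1), ∫⁻ u in Set.Icc (c0 - 1) (c0 + 1), F u t ≤
      ∫⁻ t in Set.Icc (c1 - 1) (c1 + 1),
          ∫⁻ u in Set.Icc (c0 + e * c1 - 2) (c0 + e * c1 + 2), F (u - e * t) t :=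
    setLIntegral_mono' measurableSet_Icc h1
  have s2 : ∫⁻ t in Set.Icc (c1 - 1) (c1 + 1),
          ∫⁻ u in Set.Icc (c0 + e * c1 - 2) (c0 + e * c1 + 2), F (u - e * t) t =
      ∫⁻ u in Set.Icc (c0 + e * c1 - 2) (c0 + e * c1 + 2),
          ∫⁻ t in Set.Icc (c1 - 1) (c1 + 1), F (u - e * t) t := by
    have hm : Measurable (Function.uncurry fun t u : ℝ => F (u - e * t) t) := by
      simp only [hF, Function.uncurry_def]; fun_prop
    exact lintegral_lintegral_swap hm.aemeasurable
  have s3 : ∀ u, ∫⁻ t in Set.Icc (c1 - 1) (c1 + 1), F (u - e * t) t ≤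
      ENNReal.ofReal (Real.exp (-M * ((1 - Real.cos (0 + u * a)) / min (a ^ 2) 1))) *
          ENNReal.ofReal (4 * (1 + 1) / Real.sqrt M) := by
    intro u
    simp only [h2]
    rw [lintegral_const_mul _ (by fun_prop)]
    refine mul_le_mul' ?_ (osc_lint hM hy _ _ zero_le_one)
    apply ENNReal.ofReal_le_ofReal
    apply Real.exp_le_exp.2
    rw [zero_add]
    have h3 : 0 ≤ 1 - Real.cos (u * a) := by linarith [Real.cos_le_one (u * a)]
    have h4 : (1 - Real.cos (u * a)) / min (a ^ 2) 1 ≤ (1 - Real.cos (u * a)) / w :=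
      div_le_div_of_nonneg_left h3 hw hw1
    nlinarith
  have s4 : ∫⁻ u in Set.Icc (c0 + e * c1 - 2) (c0 + e * c1 + 2),
          ENNReal.ofReal (Real.exp (-M * ((1 - Real.cos (0 + u * a)) / min (a ^ 2) 1))) *
          ENNReal.ofReal (4 * (1 + 1) / Real.sqrt M) ≤
      ENNReal.ofReal (4 * (2 + 1) / Real.sqrt M) * ENNReal.ofReal (4 * (1 + 1) / Real.sqrt M) := by
    rw [lintegral_mul_const _ (by fun_prop)]
    exact mul_le_mul' (osc_lint hM ha 0 (c0 + e * c1) (by norm_num)) le_rfl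
  have s5 : ENNReal.ofReal (4 * (2 + 1) / Real.sqrt M) *
      ENNReal.ofReal (4 * (1 + 1) / Real.sqrt M) = ENNReal.ofReal (96 / M) := by
    rw [← ENNReal.ofReal_mul (by positivity)]
    congr 1
    rw [div_mul_div_comm, Real.mul_self_sqrt hM.le]
    norm_num
  refine s1.trans ?_
  rw [s2, ← s5]
  exact (lintegral_mono s3).trans s4

/-- Tonelli on a planar box. -/
theorem lintegral_box (f : ℝ → ℝ → ℝ≥0∞) (hf : Measurable (Function.uncurry f))
    (c : Fin 2 → ℝ) (r : ℝ) :
    ∫⁻ θ in box c r, f (θ 0) (θ 1) =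
      ∫⁻ x in Set.Icc (c 0 - r) (c 0 + r), ∫⁻ y in Set.Icc (c 1 - r) (c 1 + r), f x y := by
  have hmp := volume_preserving_finTwoArrow ℝ
  have hS : MeasurableSet (Set.Icc (c 0 - r) (c 0 + r) ×ˢ Set.Icc (c 1 - r) (c 1 + r)) :=
    measurableSet_Icc.prod measurableSet_Icc
  have h1 : ∫⁻ θ in box c r, f (θ 0) (θ 1) =
      ∫⁻ θ : Fin 2 → ℝ, (Set.Icc (c 0 - r) (c 0 + r) ×ˢ Set.Icc (c 1 - r) (c 1 + r)).indicator
        (Function.uncurry f) (MeasurableEquiv.finTwoArrow θ) := by
    rw [← lintegral_indicator (measurableSet_box c r)]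
    refine lintegral_congr fun θ => ?_
    have hiff : θ ∈ box c r ↔ (MeasurableEquiv.finTwoArrow θ : ℝ × ℝ) ∈
        Set.Icc (c 0 - r) (c 0 + r) ×ˢ Set.Icc (c 1 - r) (c 1 + r) := by
      constructor
      · intro h
        have h0 := abs_le.1 (h 0)
        have h1 := abs_le.1 (h 1)
        exact ⟨⟨by change c 0 - r ≤ θ 0; linarith [h0.1], by change θ 0 ≤ c 0 + r; linarith [h0.2]⟩,
          ⟨by change c 1 - r ≤ θ 1; linarith [h1.1], by change θ 1 ≤ c 1 + r; linarith [h1.2]⟩⟩
      · rintro ⟨h0, h1⟩ i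
        rw [abs_le]
        fin_cases i
        · have a1 : c 0 - r ≤ θ 0 := h0.1
          have a2 : θ 0 ≤ c 0 + r := h0.2
          constructor <;> simp only [Fin.zero_eta] <;> linarith
        · have a1 : c 1 - r ≤ θ 1 := h1.1
          have a2 : θ 1 ≤ c 1 + r := h1.2
          constructor <;> simp only [Fin.mk_one] <;> linarith
    by_cases h : θ ∈ box c r
    · rw [Set.indicator_of_mem h, Set.indicator_of_mem (hiff.1 h)]
      rfl
    · rw [Set.indicator_of_notMem h, Set.indicator_of_notMem (fun h' => h (hiff.2 h'))]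
  rw [h1, hmp.lintegral_comp (hf.indicator hS), lintegral_indicator hS,
    Measure.volume_eq_prod, ← Measure.prod_restrict, lintegral_prod _ hf.aemeasurable]
  rfl

/-- The body norm squared: `gg μ v = E min((v·η)², 1)`. -/
noncomputable def gg (μ : Measure (ι → ℝ)) (v : ι → ℝ) : ℝ := ∫ x, min (dot v x ^ 2) 1 ∂μ

/-- `GG μ θ = E (1 - cos (θ·η))`. -/
noncomputable def GG (μ : Measure (ι → ℝ)) (θ : ι → ℝ) : ℝ := ∫ x, (1 - Real.cos (dot θ x)) ∂μ

/-- The second direction, orthogonal to `x`, of sup norm one. -/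
noncomputable def perp (x : Fin 2 → ℝ) : Fin 2 → ℝ :=
  if |x 1| ≤ |x 0| then ![-(x 1 / x 0), 1] else ![1, -(x 0 / x 1)]

theorem measurable_perp : Measurable perp := by
  unfold perp
  refine Measurable.ite (measurableSet_le (by fun_prop) (by fun_prop)) ?_ ?_
  · refine measurable_pi_lambda _ fun i => ?_
    fin_cases i
    · simp only [Fin.zero_eta, Matrix.cons_val_zero]; fun_prop
    · simp only [Fin.mk_one, Matrix.cons_val_one]; fun_prop
  · refine measurable_pi_lambda _ fun i => ?_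
    fin_cases i
    · simp only [Fin.zero_eta, Matrix.cons_val_zero]; fun_prop
    · simp only [Fin.mk_one, Matrix.cons_val_one]; fun_prop

theorem norm_perp (x : Fin 2 → ℝ) : ‖perp x‖ = 1 := by
  unfold perp
  split_ifs with h
  · have h1 : |x 1 / x 0| ≤ 1 := by
      rw [abs_div]; exact div_le_one_of_le₀ h (abs_nonneg _)
    apply le_antisymm
    · rw [pi_norm_le_iff_of_nonneg zero_le_one]
      intro i; fin_cases i
      · simpa [abs_div] using h1
      · simp
    · have := norm_le_pi_norm (![-(x 1 / x 0), 1] : Fin 2 → ℝ) 1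
      simpa using this
  · push Not at h
    have h1 : |x 0 / x 1| ≤ 1 := by
      rw [abs_div]; exact div_le_one_of_le₀ h.le (abs_nonneg _)
    apply le_antisymm
    · rw [pi_norm_le_iff_of_nonneg zero_le_one]
      intro i; fin_cases i
      · simp
      · simpa [abs_div] using h1
    · have := norm_le_pi_norm (![1, -(x 0 / x 1)] : Fin 2 → ℝ) 0
      simpa using this

/-- The planar estimate for a pair of jumps. -/
theorem pair_bound {M : ℝ} (hM : 0 < M) {x z : Fin 2 → ℝ} (hx : x 0 ≠ 0)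
    (hz : dot (perp x) z ≠ 0) (c : Fin 2 → ℝ) :
    ∫⁻ θ in box c 1, ENNReal.ofReal (Real.exp (-M * ((1 - Real.cos (dot θ x)) / min (x 0 ^ 2) 1 +
      (1 - Real.cos (dot θ z)) / min (dot (perp x) z ^ 2) 1))) ≤ ENNReal.ofReal (96 / M) := by
  have hw : 0 < min (x 0 ^ 2) 1 := lt_min (by positivity) one_pos
  have hd : ∀ θ y : Fin 2 → ℝ, dot θ y = θ 0 * y 0 + θ 1 * y 1 := by
    intro θ y; simp [dot, Fin.sum_univ_two]
  have hbox := lintegral_box (fun u t => ENNReal.ofReal (Real.exp (-M *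
    ((1 - Real.cos (u * x 0 + t * x 1)) / min (x 0 ^ 2) 1 +
      (1 - Real.cos (u * z 0 + t * z 1)) / min (dot (perp x) z ^ 2) 1))))
      (by simp only [Function.uncurry_def]; fun_prop) c 1
  have hLHS : ∫⁻ θ in box c 1, ENNReal.ofReal (Real.exp (-M *
      ((1 - Real.cos (dot θ x)) / min (x 0 ^ 2) 1 +
      (1 - Real.cos (dot θ z)) / min (dot (perp x) z ^ 2) 1))) =
      ∫⁻ θ in box c 1, ENNReal.ofReal (Real.exp (-M *
      ((1 - Real.cos (θ 0 * x 0 + θ 1 * x 1)) / min (x 0 ^ 2) 1 +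
      (1 - Real.cos (θ 0 * z 0 + θ 1 * z 1)) / min (dot (perp x) z ^ 2) 1))) := by
    refine lintegral_congr fun θ => ?_
    rw [hd θ x, hd θ z]
  rw [hLHS, hbox]
  by_cases h : |x 1| ≤ |x 0|
  · have hp : dot (perp x) z = -(x 1 / x 0) * z 0 + z 1 := by
      rw [hd, perp, if_pos h]; simp
    rw [hp] at hz ⊢
    rw [lintegral_lintegral_swap (by simp only [Function.uncurry_def]; fun_prop)]
    exact shear_bound hM hx h hw le_rfl hz (c 0) (c 1)
  · have hp : dot (perp x) z = -(x 0 / x 1) * z 1 + z 0 := by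
      rw [hd, perp, if_neg h]; simp; ring
    rw [hp] at hz ⊢
    push Not at h
    have hx1 : x 1 ≠ 0 := fun h0 => by rw [h0, abs_zero] at h; exact absurd h (not_lt.2 (abs_nonneg _))
    have hle : min (x 0 ^ 2) 1 ≤ min (x 1 ^ 2) 1 := by
      refine min_le_min_right _ ?_
      rw [← sq_abs (x 0), ← sq_abs (x 1)]
      exact pow_le_pow_left₀ (abs_nonneg _) h.le 2
    have := shear_bound hM hx1 h.le hw hle hz (c 1) (c 0)
    refine le_trans (le_of_eq ?_) this
    refine lintegral_congr fun u => lintegral_congr fun t => ?_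
    congr 2
    rw [add_comm (u * x 0), add_comm (u * z 0)]

/-! ### Jensen with a sequentially tilted pair -/

theorem min_sq_nonneg (u : ℝ) : 0 ≤ min (u ^ 2) 1 := le_min (sq_nonneg _) zero_le_one

theorem integrable_min_sq {X : Type*} [MeasurableSpace X] (P : Measure X) [IsFiniteMeasure P]
    {f : X → ℝ} (hf : Measurable f) : Integrable (fun x => min (f x ^ 2) 1) P := by
  refine Integrable.of_bound (C := 1) (Measurable.aestronglyMeasurable (by fun_prop))
    (ae_of_all _ fun x => ?_)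
  rw [Real.norm_of_nonneg (min_sq_nonneg _)]
  exact min_le_right _ _

theorem integrable_one_sub_cos {X : Type*} [MeasurableSpace X] (P : Measure X) [IsFiniteMeasure P]
    {f : X → ℝ} (hf : Measurable f) : Integrable (fun x => 1 - Real.cos (f x)) P := by
  refine Integrable.of_bound (C := 2) (Measurable.aestronglyMeasurable (by fun_prop))
    (ae_of_all _ fun x => ?_)
  rw [Real.norm_of_nonneg (by linarith [Real.cos_le_one (f x)])]
  linarith [Real.neg_one_le_cos (f x)]

theorem GG_nonneg (μ : Measure (ι → ℝ)) (θ : ι → ℝ) : 0 ≤ GG μ θ :=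
  integral_nonneg fun x => by simp only [Pi.zero_apply]; linarith [Real.cos_le_one (dot θ x)]

theorem gg_nonneg (μ : Measure (ι → ℝ)) (v : ι → ℝ) : 0 ≤ gg μ v :=
  integral_nonneg fun x => min_sq_nonneg _

theorem continuous_gg (μ : Measure (ι → ℝ)) [IsFiniteMeasure μ] : Continuous (gg μ) := by
  unfold gg
  refine continuous_of_dominated (bound := fun _ => 1) ?_ ?_ (integrable_const _) ?_
  · intro v; exact (Continuous.aestronglyMeasurable (by fun_prop))
  · intro v; exact ae_of_all _ fun a => by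
      rw [Real.norm_of_nonneg (min_sq_nonneg _)]; exact min_le_right _ _
  · exact ae_of_all _ fun a => by fun_prop

theorem continuous_GG (μ : Measure (ι → ℝ)) [IsFiniteMeasure μ] : Continuous (GG μ) := by
  unfold GG
  refine continuous_of_dominated (bound := fun _ => 2) ?_ ?_ (integrable_const _) ?_
  · intro v; exact (Continuous.aestronglyMeasurable (by fun_prop))
  · intro v; exact ae_of_all _ fun a => by
      rw [Real.norm_of_nonneg (by linarith [Real.cos_le_one (dot v a)])]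
      linarith [Real.neg_one_le_cos (dot v a)]
  · exact ae_of_all _ fun a => by fun_prop

/-- The density of the tilted pair with respect to `μ ⊗ μ`. -/
noncomputable def dens (μ : Measure (Fin 2 → ℝ)) (p : (Fin 2 → ℝ) × (Fin 2 → ℝ)) : ℝ :=
  (min (p.1 0 ^ 2) 1 / gg μ ![1, 0]) * (min (dot (perp p.1) p.2 ^ 2) 1 / gg μ (perp p.1))

theorem dot_e0 (x : Fin 2 → ℝ) : dot ![1, 0] x = x 0 := by simp [dot, Fin.sum_univ_two]

theorem norm_e0 : ‖(![1, 0] : Fin 2 → ℝ)‖ = 1 := by
  apply le_antisymm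
  · rw [pi_norm_le_iff_of_nonneg zero_le_one]
    intro i; fin_cases i <;> simp
  · have := norm_le_pi_norm (![1, 0] : Fin 2 → ℝ) 0
    simpa using this

theorem perp_zero_of {x : Fin 2 → ℝ} (hx : x 0 = 0) : min (x 0 ^ 2) 1 = 0 := by
  rw [hx]; simp

section L1a

variable (μ : Measure (Fin 2 → ℝ)) [IsProbabilityMeasure μ] {τ : ℝ}

theorem dens_nonneg (p : (Fin 2 → ℝ) × (Fin 2 → ℝ)) : 0 ≤ dens μ p := by
  unfold dens
  have := gg_nonneg μ ![1, 0]
  have := gg_nonneg μ (perp p.1)
  have := min_sq_nonneg (p.1 0)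
  have := min_sq_nonneg (dot (perp p.1) p.2)
  positivity

theorem measurable_dens : Measurable (dens μ) := by
  unfold dens
  have h1 := measurable_perp
  have h2 := (continuous_gg μ).measurable
  fun_prop

theorem dens_le (hτ : 0 < τ) (hgg : ∀ v, ‖v‖ = 1 → τ ≤ gg μ v)
    (p : (Fin 2 → ℝ) × (Fin 2 → ℝ)) : dens μ p ≤ (1 / τ) * (1 / τ) := by
  unfold dens
  by_cases h0 : p.1 0 = 0
  · rw [perp_zero_of h0]; simp; positivity
  · have h1 := hgg _ norm_e0
    have h2 := hgg _ (norm_perp p.1)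
    have := min_sq_nonneg (p.1 0)
    have := min_sq_nonneg (dot (perp p.1) p.2)
    have a1 : min (p.1 0 ^ 2) 1 / gg μ ![1, 0] ≤ 1 / τ :=
      div_le_div₀ zero_le_one (min_le_right _ _) hτ h1
    have a2 : min (dot (perp p.1) p.2 ^ 2) 1 / gg μ (perp p.1) ≤ 1 / τ :=
      div_le_div₀ zero_le_one (min_le_right _ _) hτ h2
    have a3 : 0 ≤ min (dot (perp p.1) p.2 ^ 2) 1 / gg μ (perp p.1) :=
      div_nonneg (min_sq_nonneg _) (gg_nonneg _ _)
    exact mul_le_mul a1 a2 a3 (by positivity)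

theorem integrable_dens (hτ : 0 < τ) (hgg : ∀ v, ‖v‖ = 1 → τ ≤ gg μ v) :
    Integrable (dens μ) (μ.prod μ) := by
  refine Integrable.of_bound (C := (1 / τ) * (1 / τ)) (measurable_dens μ).aestronglyMeasurable
    (ae_of_all _ fun p => ?_)
  rw [Real.norm_of_nonneg (dens_nonneg μ p)]
  exact dens_le μ hτ hgg p

theorem integral_dens (hτ : 0 < τ) (hgg : ∀ v, ‖v‖ = 1 → τ ≤ gg μ v) :
    ∫ p, dens μ p ∂(μ.prod μ) = 1 := by
  rw [integral_prod _ (integrable_dens μ hτ hgg)]
  have h1 : ∀ x : Fin 2 → ℝ, ∫ y, dens μ (x, y) ∂μ = min (dot ![1, 0] x ^ 2) 1 / gg μ ![1, 0] := by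
    intro x
    unfold dens
    simp only
    rw [integral_const_mul, integral_div]
    change _ * (gg μ (perp x) / gg μ (perp x)) = _
    rw [dot_e0]
    by_cases h0 : x 0 = 0
    · rw [perp_zero_of h0]; simp
    · have h2 := hgg _ (norm_perp x)
      rw [div_self (by linarith), mul_one]
  simp only [h1]
  rw [integral_div]
  have h2 := hgg _ norm_e0
  exact div_self (by change gg μ ![1, 0] ≠ 0; linarith)

/-- The exponent. -/
noncomputable def expo (N : ℝ) (θ : Fin 2 → ℝ) (p : (Fin 2 → ℝ) × (Fin 2 → ℝ)) : ℝ :=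
  (N * gg μ ![1, 0] / 2) * ((1 - Real.cos (dot θ p.1)) / min (p.1 0 ^ 2) 1) +
  (N * gg μ (perp p.1) / 2) * ((1 - Real.cos (dot θ p.2)) / min (dot (perp p.1) p.2 ^ 2) 1)

theorem dens_mul_expo_le (hτ : 0 < τ) (hgg : ∀ v, ‖v‖ = 1 → τ ≤ gg μ v) {N : ℝ} (hN : 0 ≤ N)
    (θ : Fin 2 → ℝ) (p : (Fin 2 → ℝ) × (Fin 2 → ℝ)) :
    dens μ p * expo μ N θ p ≤
      (N / 2) * (1 - Real.cos (dot θ p.1)) *
        (min (dot (perp p.1) p.2 ^ 2) 1 / gg μ (perp p.1)) +
      (N / 2) * (min (p.1 0 ^ 2) 1 / gg μ ![1, 0]) * (1 - Real.cos (dot θ p.2)) := by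
  have c1 : 0 ≤ 1 - Real.cos (dot θ p.1) := by linarith [Real.cos_le_one (dot θ p.1)]
  have c2 : 0 ≤ 1 - Real.cos (dot θ p.2) := by linarith [Real.cos_le_one (dot θ p.2)]
  have g1 := gg_nonneg μ ![1, 0]
  have g2 := gg_nonneg μ (perp p.1)
  have m1 := min_sq_nonneg (p.1 0)
  have m2 := min_sq_nonneg (dot (perp p.1) p.2)
  by_cases h0 : p.1 0 = 0
  · have : dens μ p = 0 := by unfold dens; rw [perp_zero_of h0]; simp
    rw [this, zero_mul]
    positivity
  · have k1 : gg μ ![1, 0] ≠ 0 := by have := hgg _ norm_e0; linarith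
    have k2 : gg μ (perp p.1) ≠ 0 := by have := hgg _ (norm_perp p.1); linarith
    have k3 : min (p.1 0 ^ 2) 1 ≠ 0 := by
      have : 0 < min (p.1 0 ^ 2) 1 := lt_min (by positivity) one_pos
      exact this.ne'
    by_cases h1 : min (dot (perp p.1) p.2 ^ 2) 1 = 0
    · have : dens μ p = 0 := by unfold dens; rw [h1]; simp
      rw [this, zero_mul]
      positivity
    · apply le_of_eq
      unfold dens expo
      field_simp

/-- The integrable upper bound of `dens * expo`. -/
noncomputable def ubd (N : ℝ) (θ : Fin 2 → ℝ) (p : (Fin 2 → ℝ) × (Fin 2 → ℝ)) : ℝ :=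
  (N / 2) * (1 - Real.cos (dot θ p.1)) *
        (min (dot (perp p.1) p.2 ^ 2) 1 / gg μ (perp p.1)) +
      (N / 2) * (min (p.1 0 ^ 2) 1 / gg μ ![1, 0]) * (1 - Real.cos (dot θ p.2))

theorem measurable_expo (N : ℝ) : Measurable (Function.uncurry (expo μ N)) := by
  unfold expo Function.uncurry
  have h1 := measurable_perp
  have h2 := (continuous_gg μ).measurable
  fun_prop

theorem expo_nonneg {N : ℝ} (hN : 0 ≤ N) (θ : Fin 2 → ℝ) (p : (Fin 2 → ℝ) × (Fin 2 → ℝ)) :
    0 ≤ expo μ N θ p := by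
  unfold expo
  have c1 : 0 ≤ 1 - Real.cos (dot θ p.1) := by linarith [Real.cos_le_one (dot θ p.1)]
  have c2 : 0 ≤ 1 - Real.cos (dot θ p.2) := by linarith [Real.cos_le_one (dot θ p.2)]
  have g1 := gg_nonneg μ ![1, 0]
  have g2 := gg_nonneg μ (perp p.1)
  have m1 := min_sq_nonneg (p.1 0)
  have m2 := min_sq_nonneg (dot (perp p.1) p.2)
  positivity

theorem integral_ubd (hτ : 0 < τ) (hgg : ∀ v, ‖v‖ = 1 → τ ≤ gg μ v) (N : ℝ)
    (θ : Fin 2 → ℝ) : Integrable (ubd μ N θ) (μ.prod μ) ∧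
      ∫ p, ubd μ N θ p ∂(μ.prod μ) = N * GG μ θ := by
  have hperp := measurable_perp
  have hggm := (continuous_gg μ).measurable
  have i1 : Integrable (fun p : (Fin 2 → ℝ) × (Fin 2 → ℝ) => (N / 2) * (1 - Real.cos (dot θ p.1)) *
        (min (dot (perp p.1) p.2 ^ 2) 1 / gg μ (perp p.1))) (μ.prod μ) := by
    refine Integrable.of_bound (C := |N / 2| * 2 * (1 / τ))
      (Measurable.aestronglyMeasurable (by fun_prop)) (ae_of_all _ fun p => ?_)
    rw [norm_mul, norm_mul, Real.norm_eq_abs]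
    have a1 : ‖1 - Real.cos (dot θ p.1)‖ ≤ 2 := by
      rw [Real.norm_of_nonneg (by linarith [Real.cos_le_one (dot θ p.1)])]
      linarith [Real.neg_one_le_cos (dot θ p.1)]
    have a2 : ‖min (dot (perp p.1) p.2 ^ 2) 1 / gg μ (perp p.1)‖ ≤ 1 / τ := by
      rw [Real.norm_of_nonneg (div_nonneg (min_sq_nonneg _) (gg_nonneg _ _))]
      exact div_le_div₀ zero_le_one (min_le_right _ _) hτ (hgg _ (norm_perp _))
    gcongr
  have i2 : Integrable (fun p : (Fin 2 → ℝ) × (Fin 2 → ℝ) =>
      (N / 2) * (min (p.1 0 ^ 2) 1 / gg μ ![1, 0]) * (1 - Real.cos (dot θ p.2))) (μ.prod μ) := by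
    refine Integrable.of_bound (C := |N / 2| * (1 / τ) * 2)
      (Measurable.aestronglyMeasurable (by fun_prop)) (ae_of_all _ fun p => ?_)
    rw [norm_mul, norm_mul, Real.norm_eq_abs]
    have a1 : ‖1 - Real.cos (dot θ p.2)‖ ≤ 2 := by
      rw [Real.norm_of_nonneg (by linarith [Real.cos_le_one (dot θ p.2)])]
      linarith [Real.neg_one_le_cos (dot θ p.2)]
    have a2 : ‖min (p.1 0 ^ 2) 1 / gg μ ![1, 0]‖ ≤ 1 / τ := by
      rw [Real.norm_of_nonneg (div_nonneg (min_sq_nonneg _) (gg_nonneg _ _))]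
      exact div_le_div₀ zero_le_one (min_le_right _ _) hτ (hgg _ norm_e0)
    gcongr
  refine ⟨i1.add i2, ?_⟩
  unfold ubd
  rw [integral_add i1 i2, integral_prod _ i1, integral_prod _ i2]
  have e1 : ∀ x : Fin 2 → ℝ, ∫ y, (N / 2) * (1 - Real.cos (dot θ x)) *
        (min (dot (perp x) y ^ 2) 1 / gg μ (perp x)) ∂μ = (N / 2) * (1 - Real.cos (dot θ x)) := by
    intro x
    rw [integral_const_mul, integral_div]
    change _ * (gg μ (perp x) / gg μ (perp x)) = _
    have := hgg _ (norm_perp x)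
    rw [div_self (by linarith), mul_one]
  have e2 : ∀ x : Fin 2 → ℝ, ∫ y, (N / 2) * (min (x 0 ^ 2) 1 / gg μ ![1, 0]) *
      (1 - Real.cos (dot θ y)) ∂μ = ((N / 2) * GG μ θ) * (min (dot ![1, 0] x ^ 2) 1 / gg μ ![1, 0]) := by
    intro x
    rw [integral_const_mul, dot_e0]
    change _ * GG μ θ = _
    ring
  simp only [e1, e2]
  rw [integral_const_mul, integral_const_mul, integral_div]
  change (N / 2) * GG μ θ + (N / 2) * GG μ θ * (gg μ ![1, 0] / gg μ ![1, 0]) = _
  have := hgg _ norm_e0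
  rw [div_self (by linarith)]
  ring

theorem exp_le_integral (hτ : 0 < τ) (hgg : ∀ v, ‖v‖ = 1 → τ ≤ gg μ v) {N : ℝ} (hN : 0 ≤ N)
    (θ : Fin 2 → ℝ) :
    Real.exp (-N * GG μ θ) ≤ ∫ p, dens μ p * Real.exp (-expo μ N θ p) ∂(μ.prod μ) := by
  set a := N * GG μ θ with ha
  obtain ⟨hU, hUint⟩ := integral_ubd μ hτ hgg N θ
  have hd := integrable_dens μ hτ hgg
  have hm := (measurable_expo μ N).comp (measurable_const.prodMk measurable_id :
    Measurable fun p : (Fin 2 → ℝ) × (Fin 2 → ℝ) => (θ, p))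
  have hm' : Measurable fun p => expo μ N θ p := hm
  have hi : Integrable (fun p => dens μ p * Real.exp (-expo μ N θ p)) (μ.prod μ) := by
    refine Integrable.mono hd ?_ (ae_of_all _ fun p => ?_)
    · exact ((measurable_dens μ).mul (by fun_prop)).aestronglyMeasurable
    · rw [norm_mul, Real.norm_of_nonneg (Real.exp_nonneg _)]
      have : Real.exp (-expo μ N θ p) ≤ 1 := by
        rw [Real.exp_le_one_iff]; linarith [expo_nonneg μ hN θ p]
      nlinarith [norm_nonneg (dens μ p)]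
  have h1 : ∀ p, Real.exp (-a) * ((1 + a) * dens μ p - ubd μ N θ p) ≤
      dens μ p * Real.exp (-expo μ N θ p) := by
    intro p
    have h2 := Real.add_one_le_exp (a - expo μ N θ p)
    have h3 : Real.exp (-expo μ N θ p) = Real.exp (-a) * Real.exp (a - expo μ N θ p) := by
      rw [← Real.exp_add]; congr 1; ring
    have h4 := dens_mul_expo_le μ hτ hgg hN θ p
    have h5 := dens_nonneg μ p
    rw [h3]
    have h6 : (1 + a) * dens μ p - ubd μ N θ p ≤ dens μ p * Real.exp (a - expo μ N θ p) := by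
      have h7 : dens μ p * (a - expo μ N θ p + 1) ≤ dens μ p * Real.exp (a - expo μ N θ p) :=
        mul_le_mul_of_nonneg_left h2 h5
      have h8 : dens μ p * expo μ N θ p ≤ ubd μ N θ p := h4
      nlinarith
    calc Real.exp (-a) * ((1 + a) * dens μ p - ubd μ N θ p)
        ≤ Real.exp (-a) * (dens μ p * Real.exp (a - expo μ N θ p)) :=
          mul_le_mul_of_nonneg_left h6 (Real.exp_nonneg _)
      _ = dens μ p * (Real.exp (-a) * Real.exp (a - expo μ N θ p)) := by ring
  have h9 : ∫ p, Real.exp (-a) * ((1 + a) * dens μ p - ubd μ N θ p) ∂(μ.prod μ) ≤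
      ∫ p, dens μ p * Real.exp (-expo μ N θ p) ∂(μ.prod μ) :=
    integral_mono (((hd.const_mul (1 + a)).sub hU).const_mul (Real.exp (-a))) hi h1
  refine le_trans (le_of_eq ?_) h9
  rw [integral_const_mul, integral_sub (hd.const_mul _) hU, integral_const_mul,
    integral_dens μ hτ hgg, hUint]
  have : -N * GG μ θ = -a := by rw [ha]; ring
  rw [this]; ring

theorem measurable_expo_left (N : ℝ) (θ : Fin 2 → ℝ) : Measurable fun p => expo μ N θ p := by
  have hm := (measurable_expo μ N).comp (measurable_const.prodMk measurable_id :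
    Measurable fun p : (Fin 2 → ℝ) × (Fin 2 → ℝ) => (θ, p))
  exact hm

theorem measurable_expo_right (N : ℝ) (p : (Fin 2 → ℝ) × (Fin 2 → ℝ)) :
    Measurable fun θ => expo μ N θ p := by
  have hm := (measurable_expo μ N).comp (measurable_id.prodMk measurable_const :
    Measurable fun θ : Fin 2 → ℝ => (θ, p))
  exact hm

/-- **(L1a)** Integral of `exp (- N GG)` over any unit box, for an arbitrary law. -/
theorem L1a (hτ : 0 < τ) (hgg : ∀ v, ‖v‖ = 1 → τ ≤ gg μ v) {N : ℝ} (hN : 0 < N)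
    (c : Fin 2 → ℝ) :
    ∫⁻ θ in box c 1, ENNReal.ofReal (Real.exp (-N * GG μ θ)) ≤ ENNReal.ofReal (192 / (N * τ)) := by
  have hM : 0 < N * τ / 2 := by positivity
  have hm := measurable_expo μ N
  have hdm := measurable_dens μ
  have h1 : ∀ θ, ENNReal.ofReal (Real.exp (-N * GG μ θ)) ≤
      ∫⁻ p, ENNReal.ofReal (dens μ p) * ENNReal.ofReal (Real.exp (-expo μ N θ p)) ∂(μ.prod μ) := by
    intro θ
    have hm' := measurable_expo_left μ N θ
    refine (ENNReal.ofReal_le_ofReal (exp_le_integral μ hτ hgg hN.le θ)).trans ?_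
    rw [ofReal_integral_eq_lintegral_ofReal]
    · refine lintegral_mono fun p => ?_
      rw [ENNReal.ofReal_mul (dens_nonneg μ p)]
    · refine Integrable.mono (integrable_dens μ hτ hgg) ?_ (ae_of_all _ fun p => ?_)
      · exact ((measurable_dens μ).mul (by fun_prop)).aestronglyMeasurable
      · rw [norm_mul, Real.norm_of_nonneg (Real.exp_nonneg _)]
        have : Real.exp (-expo μ N θ p) ≤ 1 := by
          rw [Real.exp_le_one_iff]; linarith [expo_nonneg μ hN.le θ p]
        nlinarith [norm_nonneg (dens μ p)]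
    · exact ae_of_all _ fun p => mul_nonneg (dens_nonneg μ p) (Real.exp_nonneg _)
  calc ∫⁻ θ in box c 1, ENNReal.ofReal (Real.exp (-N * GG μ θ))
      ≤ ∫⁻ θ in box c 1, (∫⁻ p, ENNReal.ofReal (dens μ p) *
          ENNReal.ofReal (Real.exp (-expo μ N θ p)) ∂(μ.prod μ)) := lintegral_mono h1
    _ = ∫⁻ p, (∫⁻ θ in box c 1, ENNReal.ofReal (dens μ p) *
          ENNReal.ofReal (Real.exp (-expo μ N θ p))) ∂(μ.prod μ) := by
        have k1 : Measurable fun z : (Fin 2 → ℝ) × ((Fin 2 → ℝ) × (Fin 2 → ℝ)) =>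
            ENNReal.ofReal (dens μ z.2) := (hdm.comp measurable_snd).ennreal_ofReal
        have k2 : Measurable fun z : (Fin 2 → ℝ) × ((Fin 2 → ℝ) × (Fin 2 → ℝ)) =>
            ENNReal.ofReal (Real.exp (-expo μ N z.1 z.2)) :=
          (Real.measurable_exp.comp hm.neg).ennreal_ofReal
        exact lintegral_lintegral_swap (k1.mul k2).aemeasurable
    _ ≤ ∫⁻ p, ENNReal.ofReal (dens μ p) * ENNReal.ofReal (96 / (N * τ / 2)) ∂(μ.prod μ) := by
        refine lintegral_mono fun p => ?_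
        have hm' := measurable_expo_right μ N p
        rw [lintegral_const_mul _ (by fun_prop)]
        by_cases hx : p.1 0 = 0
        · have : dens μ p = 0 := by unfold dens; rw [perp_zero_of hx]; simp
          rw [this]; simp
        by_cases hz : dot (perp p.1) p.2 = 0
        · have : dens μ p = 0 := by unfold dens; rw [hz]; simp
          rw [this]; simp
        refine mul_le_mul' le_rfl ?_
        refine le_trans (lintegral_mono fun θ => ?_) (pair_bound hM hx hz c)
        apply ENNReal.ofReal_le_ofReal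
        apply Real.exp_le_exp.2
        unfold expo
        have c1 : 0 ≤ (1 - Real.cos (dot θ p.1)) / min (p.1 0 ^ 2) 1 :=
          div_nonneg (by linarith [Real.cos_le_one (dot θ p.1)]) (min_sq_nonneg _)
        have c2 : 0 ≤ (1 - Real.cos (dot θ p.2)) / min (dot (perp p.1) p.2 ^ 2) 1 :=
          div_nonneg (by linarith [Real.cos_le_one (dot θ p.2)]) (min_sq_nonneg _)
        have k1 := hgg _ norm_e0
        have k2 := hgg _ (norm_perp p.1)
        have l1 : N * τ / 2 ≤ N * gg μ ![1, 0] / 2 := by gcongr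
        have l2 : N * τ / 2 ≤ N * gg μ (perp p.1) / 2 := by gcongr
        nlinarith [mul_le_mul_of_nonneg_right l1 c1, mul_le_mul_of_nonneg_right l2 c2]
    _ = ENNReal.ofReal (192 / (N * τ)) := by
        rw [lintegral_mul_const _ (by fun_prop), ← ofReal_integral_eq_lintegral_ofReal
          (integrable_dens μ hτ hgg) (ae_of_all _ fun p => dens_nonneg μ p),
          integral_dens μ hτ hgg]
        simp only [ENNReal.ofReal_one, one_mul]
        congr 1
        field_simp
        norm_num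

end L1a

/-! ### (L1): concentration in the plane for an arbitrary law -/

theorem cube2_eq_box : (cube2 : Set (ι → ℝ)) = box 0 1 := by
  ext x
  simp only [cube2, box, Set.mem_univ_pi, Set.mem_Icc, Set.mem_ofPred_eq, Pi.zero_apply, sub_zero,
    abs_le]

/-- Real-integral form of (L1a). -/
theorem L1a_real (μ : Measure (Fin 2 → ℝ)) [IsProbabilityMeasure μ] {τ : ℝ} (hτ : 0 < τ)
    (hgg : ∀ v, ‖v‖ = 1 → τ ≤ gg μ v) {N : ℝ} (hN : 0 < N) (c : Fin 2 → ℝ) :
    ∫ θ in box c 1, Real.exp (-N * GG μ θ) ≤ 192 / (N * τ) := by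
  have h1 := L1a μ hτ hgg hN c
  have hc := (continuous_GG μ)
  rw [integral_eq_lintegral_of_nonneg_ae (ae_of_all _ fun _ => Real.exp_nonneg _)
    (Continuous.aestronglyMeasurable (by fun_prop))]
  exact ENNReal.toReal_le_of_le_ofReal (by positivity) h1

/-- **(L1), characteristic function form.** -/
theorem L1_of_cf (μ S : Measure (Fin 2 → ℝ)) [IsProbabilityMeasure μ] [IsProbabilityMeasure S]
    {τ : ℝ} (hτ : 0 < τ) (hgg : ∀ v, ‖v‖ = 1 → τ ≤ gg μ v) {N : ℝ} (hN : 0 < N)
    (hcf : ∀ θ ∈ (cube2 : Set (Fin 2 → ℝ)), ‖cf S θ‖ ≤ Real.exp (-N * GG μ θ))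
    (z : Fin 2 → ℝ) : S.real (box z 1) ≤ 328 / (N * τ) := by
  have h1 := esseen S z
  have hc := continuous_GG μ
  have h2 : ∫ θ in (cube2 : Set (Fin 2 → ℝ)), ‖cf S θ‖ ≤ 192 / (N * τ) := by
    refine le_trans ?_ (L1a_real μ hτ hgg hN 0)
    rw [← cube2_eq_box]
    refine setIntegral_mono_on ?_ ?_ measurableSet_cube2 hcf
    · exact Integrable.of_bound (C := 1) (continuous_cf S).norm.aestronglyMeasurable
        (ae_of_all _ fun x => by rw [norm_norm]; exact norm_cf_le_one S x)
    · refine Integrable.of_bound (C := 1) (Continuous.aestronglyMeasurable (by fun_prop))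
        (ae_of_all _ fun x => ?_)
      rw [Real.norm_of_nonneg (Real.exp_nonneg _), Real.exp_le_one_iff]
      have := GG_nonneg μ x
      nlinarith
  simp only [Fintype.card_fin] at h1
  have h3 : 0 < N * τ := by positivity
  have h4 : (328 : ℝ) / (N * τ) = (328/192) * (192 / (N * τ)) := by field_simp
  have h5 : 0 < 192 / (N * τ) := by positivity
  rw [h4]
  have h6 := h1.trans h2
  norm_num at h6
  nlinarith [measureReal_nonneg (μ := S) (s := box z 1)]

/-- The law of the difference of two independent copies. -/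
noncomputable def diffLaw (ν : Measure (ι → ℝ)) : Measure (ι → ℝ) :=
  (ν.prod ν).map fun p => p.1 - p.2

instance (ν : Measure (ι → ℝ)) [IsProbabilityMeasure ν] : IsProbabilityMeasure (diffLaw ν) :=
  Measure.isProbabilityMeasure_map (by fun_prop)

theorem normSq_cf_eq (ν : Measure (ι → ℝ)) [IsProbabilityMeasure ν] (θ : ι → ℝ) :
    ‖cf ν θ‖ ^ 2 = 1 - GG (diffLaw ν) θ := by
  have h1 : ∫ x, Real.cos (dot θ x) ∂(diffLaw ν) =
      ∫ p : (ι → ℝ) × (ι → ℝ), Real.cos (dot θ (p.1 - p.2)) ∂(ν.prod ν) := by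
    rw [diffLaw, integral_map (by fun_prop) (Continuous.aestronglyMeasurable (by fun_prop))]
  rw [normSq_cf, GG, integral_sub (integrable_const _)
    (Integrable.of_bound (C := 1) (Continuous.aestronglyMeasurable (by fun_prop))
      (ae_of_all _ fun x => Real.abs_cos_le_one _)), h1]
  simp

theorem norm_cf_le_GG (ν : Measure (ι → ℝ)) [IsProbabilityMeasure ν] (θ : ι → ℝ) :
    ‖cf ν θ‖ ≤ Real.exp (-(1/2) * GG (diffLaw ν) θ) := by
  have h1 := normSq_cf_eq ν θ
  have h2 := Real.add_one_le_exp (-GG (diffLaw ν) θ)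
  have h3 : Real.exp (-GG (diffLaw ν) θ) = Real.exp (-(1/2) * GG (diffLaw ν) θ) ^ 2 := by
    rw [← Real.exp_nat_mul]; congr 1; push_cast; ring
  have h4 : ‖cf ν θ‖ ^ 2 ≤ Real.exp (-(1/2) * GG (diffLaw ν) θ) ^ 2 := by rw [← h3]; linarith
  exact le_of_sq_le_sq h4 (Real.exp_nonneg _)

/-- **(L1)** for sums of independent planar vectors with common law `ν`: if the symmetrised law
satisfies `E min((v·(ξ-ξ'))², 1) ≥ τ` for all `v` of sup norm one, then every box of side two has
probability at most `656 / (n τ)`. -/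
theorem L1 {Ω κ : Type*} [Fintype κ] [Nonempty κ] [MeasurableSpace Ω] (P : Measure Ω)
    [IsProbabilityMeasure P] {X : κ → Ω → Fin 2 → ℝ} {ν : Measure (Fin 2 → ℝ)}
    (hX : ∀ k, Measurable (X k)) (hind : iIndepFun X P) (hlaw : ∀ k, P.map (X k) = ν)
    {τ : ℝ} (hτ : 0 < τ) (hgg : ∀ v, ‖v‖ = 1 → τ ≤ gg (diffLaw ν) v) (z : Fin 2 → ℝ) :
    P.real {ω | ∑ k, X k ω ∈ box z 1} ≤ 656 / (Fintype.card κ * τ) := by
  have hm : Measurable fun ω => ∑ k, X k ω := by fun_prop
  have hν : IsProbabilityMeasure ν := by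
    rw [← hlaw (Classical.arbitrary κ)]
    exact Measure.isProbabilityMeasure_map (hX _).aemeasurable
  have := Measure.isProbabilityMeasure_map (μ := P) hm.aemeasurable
  have hcard : (0 : ℝ) < Fintype.card κ := by exact_mod_cast Fintype.card_pos
  have h1 := L1_of_cf (diffLaw ν) (P.map fun ω => ∑ k, X k ω) hτ hgg
    (N := Fintype.card κ / 2) (by positivity) (fun θ _ => ?_) z
  · rw [map_measureReal_apply hm (measurableSet_box z 1)] at h1
    refine h1.trans (le_of_eq ?_)
    field_simp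
    norm_num
  · rw [cf_sum P hX hind, norm_prod]
    have h2 : ∀ k ∈ (Finset.univ : Finset κ), ‖cf (P.map (X k)) θ‖ ≤
        Real.exp (-(1/2) * GG (diffLaw ν) θ) := by
      intro k _; rw [hlaw k]; exact norm_cf_le_GG ν θ
    refine (Finset.prod_le_prod (fun _ _ => norm_nonneg _) h2).trans (le_of_eq ?_)
    rw [Finset.prod_const, Finset.card_univ, ← Real.exp_nat_mul]
    congr 1
    ring

end Crest.Agent.R154.Conc412
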