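import Mathlib
import Crest.Agent.R154.ConcB_412

/-!
Row 154, block B3 (helper480 #26629): frames (FR) and the Kesten-type monotonicity (L2).
-/

open MeasureTheory ProbabilityTheory Set
open scoped BigOperators ENNReal NNReal

namespace Crest.Agent.R154.Conc412

variable {ι : Type*} [Fintype ι]

/-! ### Calculus of `gg` and `GG` -/

theorem min_sq_add_le (a b : ℝ) :
    min ((a + b) ^ 2) 1 ≤ 2 * min (a ^ 2) 1 + 2 * min (b ^ 2) 1 := by
  rcases le_total (a ^ 2) 1 with ha | ha
  · rcases le_total (b ^ 2) 1 with hb | hb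
    · rw [min_eq_left ha, min_eq_left hb]
      exact (min_le_left _ _).trans (by nlinarith [sq_nonneg (a - b)])
    · rw [min_eq_right hb]
      exact (min_le_right _ _).trans (by nlinarith [min_sq_nonneg a])
  · rw [min_eq_right ha]
    exact (min_le_right _ _).trans (by nlinarith [min_sq_nonneg b])

theorem one_sub_cos_add_le (a b : ℝ) :
    1 - Real.cos (a + b) ≤ 2 * (1 - Real.cos a) + 2 * (1 - Real.cos b) := by
  have key : ∀ x : ℝ, 1 - Real.cos x = 2 * Real.sin (x / 2) ^ 2 := by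
    intro x
    have h1 := Real.cos_two_mul (x / 2)
    have h2 := Real.sin_sq_add_cos_sq (x / 2)
    have h3 : 2 * (x / 2) = x := by ring
    rw [h3] at h1
    nlinarith
  rw [key, key a, key b]
  have h1 : (a + b) / 2 = a / 2 + b / 2 := by ring
  rw [h1, Real.sin_add]
  set s := Real.sin (a / 2)
  set t := Real.sin (b / 2)
  set c := Real.cos (a / 2)
  set d := Real.cos (b / 2)
  have hc : c ^ 2 ≤ 1 := by
    have := Real.sin_sq_add_cos_sq (a / 2)
    nlinarith [sq_nonneg s]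
  have hd : d ^ 2 ≤ 1 := by
    have := Real.sin_sq_add_cos_sq (b / 2)
    nlinarith [sq_nonneg t]
  have h2 : (s * d + c * t) ^ 2 ≤ 2 * (s * d) ^ 2 + 2 * (c * t) ^ 2 := by
    nlinarith [sq_nonneg (s * d - c * t)]
  have h3 : (s * d) ^ 2 ≤ s ^ 2 := by
    rw [mul_pow]; nlinarith [sq_nonneg s]
  have h4 : (c * t) ^ 2 ≤ t ^ 2 := by
    rw [mul_pow]; nlinarith [sq_nonneg t]
  nlinarith

theorem dot_add_left (a b x : ι → ℝ) : dot (a + b) x = dot a x + dot b x := by
  simp [dot, add_mul, Finset.sum_add_distrib]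

theorem dot_smul_left (u : ℝ) (a x : ι → ℝ) : dot (u • a) x = u * dot a x := by
  simp [dot, Finset.mul_sum, mul_assoc]

theorem dot_neg_left (a x : ι → ℝ) : dot (-a) x = -dot a x := by
  simp [dot, Finset.sum_neg_distrib]

theorem dot_zero_left (x : ι → ℝ) : dot 0 x = 0 := by simp [dot]

section calcul

variable (μ : Measure (ι → ℝ)) [IsProbabilityMeasure μ]

theorem integrable_gg (v : ι → ℝ) : Integrable (fun x => min (dot v x ^ 2) 1) μ :=
  integrable_min_sq μ (by fun_prop)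

theorem integrable_GG (v : ι → ℝ) : Integrable (fun x => 1 - Real.cos (dot v x)) μ :=
  integrable_one_sub_cos μ (by fun_prop)

theorem gg_add_le (a b : ι → ℝ) : gg μ (a + b) ≤ 2 * gg μ a + 2 * gg μ b := by
  unfold gg
  rw [← integral_const_mul, ← integral_const_mul, ← integral_add
    ((integrable_gg μ a).const_mul 2) ((integrable_gg μ b).const_mul 2)]
  refine integral_mono (integrable_gg μ _)
    (((integrable_gg μ a).const_mul 2).add ((integrable_gg μ b).const_mul 2)) fun x => ?_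
  simp only [dot_add_left]
  exact min_sq_add_le _ _

theorem GG_add_le (a b : ι → ℝ) : GG μ (a + b) ≤ 2 * GG μ a + 2 * GG μ b := by
  unfold GG
  rw [← integral_const_mul, ← integral_const_mul, ← integral_add
    ((integrable_GG μ a).const_mul 2) ((integrable_GG μ b).const_mul 2)]
  refine integral_mono (integrable_GG μ _)
    (((integrable_GG μ a).const_mul 2).add ((integrable_GG μ b).const_mul 2)) fun x => ?_
  simp only [dot_add_left]
  exact one_sub_cos_add_le _ _

omit [IsProbabilityMeasure μ] in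
theorem GG_neg (a : ι → ℝ) : GG μ (-a) = GG μ a := by
  unfold GG; simp [dot_neg_left]

omit [IsProbabilityMeasure μ] in
theorem gg_zero : gg μ 0 = 0 := by
  unfold gg; simp [dot_zero_left]

theorem gg_smul_le {u : ℝ} (hu : 1 ≤ |u|) (a : ι → ℝ) : gg μ (u • a) ≤ u ^ 2 * gg μ a := by
  unfold gg
  rw [← integral_const_mul]
  refine integral_mono (integrable_gg μ _) ((integrable_gg μ a).const_mul _) fun x => ?_
  simp only [dot_smul_left, mul_pow]
  have hu2 : 1 ≤ u ^ 2 := by rw [← sq_abs]; exact one_le_pow₀ hu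
  rcases le_total (dot a x ^ 2) 1 with h | h
  · rw [min_eq_left h]; exact min_le_left _ _
  · rw [min_eq_right h, mul_one]; exact (min_le_right _ _).trans hu2

theorem gg_smul_le_self {u : ℝ} (hu : |u| ≤ 1) (a : ι → ℝ) : gg μ (u • a) ≤ gg μ a := by
  unfold gg
  refine integral_mono (integrable_gg μ _) (integrable_gg μ a) fun x => ?_
  simp only [dot_smul_left, mul_pow]
  refine min_le_min_right _ ?_
  have hu2 : u ^ 2 ≤ 1 := by rw [← sq_abs]; exact pow_le_one₀ (abs_nonneg _) hu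
  nlinarith [sq_nonneg (dot a x)]

theorem GG_le_gg (a : ι → ℝ) : GG μ a ≤ 2 * gg μ a := by
  unfold GG gg
  rw [← integral_const_mul]
  refine integral_mono (integrable_GG μ _) ((integrable_gg μ a).const_mul _) fun x => ?_
  simp only
  rcases le_total (dot a x ^ 2) 1 with h | h
  · rw [min_eq_left h]
    have := Real.one_sub_sq_div_two_le_cos (x := dot a x)
    nlinarith [sq_nonneg (dot a x)]
  · rw [min_eq_right h]
    linarith [Real.neg_one_le_cos (dot a x)]

end calcul

/-! ### Frames -/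

/-- The frequency `Σ v_i b_i`. -/
def comb (b : Fin 2 → ι → ℝ) (v : Fin 2 → ℝ) : ι → ℝ := v 0 • b 0 + v 1 • b 1

/-- The coordinates `(b_i · x)_i`. -/
def fr (b : Fin 2 → ι → ℝ) (x : ι → ℝ) : Fin 2 → ℝ := fun i => dot (b i) x

theorem dot_comb (b : Fin 2 → ι → ℝ) (v : Fin 2 → ℝ) (x : ι → ℝ) :
    dot (comb b v) x = dot v (fr b x) := by
  rw [comb, dot_add_left, dot_smul_left, dot_smul_left]
  simp [dot, fr, Fin.sum_univ_two]

@[fun_prop]
theorem measurable_fr (b : Fin 2 → ι → ℝ) : Measurable (fr b) := by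
  unfold fr
  exact measurable_pi_lambda _ fun i => by fun_prop

@[fun_prop]
theorem continuous_comb (b : Fin 2 → ι → ℝ) : Continuous (comb b) := by
  unfold comb; fun_prop

theorem gg_map (μ : Measure (ι → ℝ)) (b : Fin 2 → ι → ℝ) (v : Fin 2 → ℝ) :
    gg (μ.map (fr b)) v = gg μ (comb b v) := by
  unfold gg
  rw [integral_map (by fun_prop) (Continuous.aestronglyMeasurable (by fun_prop))]
  simp only [dot_comb]

theorem GG_map (μ : Measure (ι → ℝ)) (b : Fin 2 → ι → ℝ) (v : Fin 2 → ℝ) :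
    GG (μ.map (fr b)) v = GG μ (comb b v) := by
  unfold GG
  rw [integral_map (by fun_prop) (Continuous.aestronglyMeasurable (by fun_prop))]
  simp only [dot_comb]

theorem comb_add (b : Fin 2 → ι → ℝ) (v w : Fin 2 → ℝ) : comb b (v + w) = comb b v + comb b w := by
  ext i; simp [comb]; ring

theorem comb_sub (b : Fin 2 → ι → ℝ) (v w : Fin 2 → ℝ) : comb b (v - w) = comb b v - comb b w := by
  ext i; simp [comb]; ring

theorem comb_smul (b : Fin 2 → ι → ℝ) (u : ℝ) (v : Fin 2 → ℝ) :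
    comb b (u • v) = u • comb b v := by
  ext i; simp [comb]; ring

/-- `b` is a frame of the law `μ` at the scale `t`. -/
structure IsFrame (μ : Measure (ι → ℝ)) (t : ℝ) (b : Fin 2 → ι → ℝ) : Prop where
  small : ∀ i, gg μ (b i) ≤ 1 / t
  capt : ∀ v : Fin 2 → ℝ, gg μ (comb b v) ≤ 1 / t → ‖v‖ ≤ 1

theorem IsFrame.lower {μ : Measure (ι → ℝ)} [IsProbabilityMeasure μ] {t : ℝ}
    {b : Fin 2 → ι → ℝ} (hb : IsFrame μ t b) (v : Fin 2 → ℝ) (hv : ‖v‖ = 1) :
    1 / (4 * t) ≤ gg (μ.map (fr b)) v := by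
  rw [gg_map]
  by_contra hlt
  push Not at hlt
  have h1 : gg μ (comb b ((2 : ℝ) • v)) ≤ 1 / t := by
    rw [comb_smul]
    refine (gg_smul_le μ (by norm_num) _).trans ?_
    have : (1 : ℝ) / t = 2 ^ 2 * (1 / (4 * t)) := by ring
    rw [this]
    gcongr
  have h2 := hb.capt _ h1
  rw [norm_smul, hv] at h2
  norm_num at h2

theorem IsFrame.upper {μ : Measure (ι → ℝ)} [IsProbabilityMeasure μ] {t : ℝ}
    {b : Fin 2 → ι → ℝ} (hb : IsFrame μ t b) (v : Fin 2 → ℝ) (hv : ∀ i, |v i| ≤ 1) :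
    gg μ (comb b v) ≤ 4 / t := by
  have h0 := (gg_smul_le_self μ (hv 0) (b 0)).trans (hb.small 0)
  have h1 := (gg_smul_le_self μ (hv 1) (b 1)).trans (hb.small 1)
  have h2 := gg_add_le μ (v 0 • b 0) (v 1 • b 1)
  have h3 : (4 : ℝ) / t = 2 * (1 / t) + 2 * (1 / t) := by ring
  rw [h3]
  exact h2.trans (by linarith)

/-! ### The local bound -/

theorem exp_neg_two_mul_le {x : ℝ} (h0 : 0 ≤ x) (h1 : x ≤ 1/2) : Real.exp (-(2 * x)) ≤ 1 - x := by
  rw [Real.exp_neg]
  have h2 := Real.add_one_le_exp (2 * x)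
  have h3 : 0 < 2 * x + 1 := by linarith
  calc (Real.exp (2 * x))⁻¹ ≤ (2 * x + 1)⁻¹ := inv_anti₀ h3 h2
    _ ≤ 1 - x := by
      rw [inv_le_iff_one_le_mul₀ h3]
      nlinarith

theorem volume_cube2 : (volume : Measure (Fin 2 → ℝ)) cube2 = 4 := by
  rw [cube2, volume_pi, Measure.pi_pi]
  simp [Real.volume_Icc]
  norm_num

theorem isCompact_cube2 : IsCompact (cube2 : Set (ι → ℝ)) :=
  isCompact_univ_pi fun _ => isCompact_Icc

theorem zero_mem_cube2 : (0 : ι → ℝ) ∈ (cube2 : Set (ι → ℝ)) := by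
  intro i _; simp

theorem mem_cube2_abs {c : ι → ℝ} (hc : c ∈ (cube2 : Set (ι → ℝ))) (i : ι) : |c i| ≤ 1 :=
  abs_le.2 (hc i (mem_univ _))

/-- The constant of the local bound. -/
noncomputable def K2 : ℝ := 1536 * Real.exp 128

theorem local_bound (μ : Measure (ι → ℝ)) [IsProbabilityMeasure μ] {h : ℝ} (h256 : 256 ≤ h)
    {b : Fin 2 → ι → ℝ} (hb : IsFrame μ h b) (ϑ : ι → ℝ) {n : ℝ}
    (hn : 0 < n) {k : ℕ} (hk : (k : ℝ) ≤ h) (hkn : 8 * (k : ℝ) ≤ n) :
    ∫⁻ c in cube2, ENNReal.ofReal (Real.exp (-n * GG μ (ϑ + comb b c))) ≤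
      ENNReal.ofReal (K2 * h / n) *
        (∫⁻ c in cube2, ENNReal.ofReal ((1 - GG μ (ϑ + comb b c)) ^ k)) +
      ENNReal.ofReal (4 * Real.exp (-n / 8)) := by
  have hh : 0 < h := by linarith
  have hGc := continuous_GG μ
  set f : (Fin 2 → ℝ) → ℝ := fun c => GG μ (ϑ + comb b c) with hf
  have hfc : Continuous f := by rw [hf]; fun_prop
  obtain ⟨c1, hc1, hmin⟩ := isCompact_cube2.exists_isMinOn (⟨0, zero_mem_cube2⟩ :
    (cube2 : Set (Fin 2 → ℝ)).Nonempty) hfc.continuousOn
  have hmin' : ∀ c ∈ (cube2 : Set (Fin 2 → ℝ)), f c1 ≤ f c := fun c hc => hmin hc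
  have hf0 : ∀ c, 0 ≤ f c := fun c => GG_nonneg μ _
  have e1 : ∀ c, comb b (c - c1) = (ϑ + comb b c) - (ϑ + comb b c1) := by
    intro c; rw [comb_sub]; abel
  have i1 : ∀ c ∈ (cube2 : Set (Fin 2 → ℝ)), GG μ (comb b (c - c1)) ≤ 4 * f c := by
    intro c hc
    rw [e1, sub_eq_add_neg]
    refine (GG_add_le μ _ _).trans ?_
    rw [GG_neg]
    have := hmin' c hc
    simp only [hf] at this ⊢
    linarith
  have i2 : ∀ c ∈ (cube2 : Set (Fin 2 → ℝ)), f c ≤ 2 * f c1 + 64 / h := by
    intro c hc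
    have a1 : ϑ + comb b c = (ϑ + comb b c1) + comb b (c - c1) := by rw [e1]; abel
    have a2 : f c ≤ 2 * f c1 + 2 * GG μ (comb b (c - c1)) := by
      simp only [hf]
      rw [a1]
      exact GG_add_le μ _ _
    have a3 : GG μ (comb b (c - c1)) ≤ 2 * gg μ (comb b (c - c1)) := GG_le_gg μ _
    have a4 : gg μ (comb b (c - c1)) ≤ 16 / h := by
      have : c - c1 = (2 : ℝ) • ((1/2 : ℝ) • (c - c1)) := by
        rw [smul_smul]; norm_num
      rw [this, comb_smul]
      refine (gg_smul_le μ (by norm_num) _).trans ?_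
      have h4 : (16 : ℝ) / h = 2 ^ 2 * (4 / h) := by ring
      rw [h4]
      gcongr
      refine hb.upper _ fun i => ?_
      have b1 := mem_cube2_abs hc i
      have b2 := mem_cube2_abs hc1 i
      simp only [Pi.smul_apply, Pi.sub_apply, smul_eq_mul]
      rw [abs_mul]
      have b3 : |c i - c1 i| ≤ |c i| + |c1 i| := abs_sub _ _
      rw [abs_of_pos (by norm_num : (0:ℝ) < 1/2)]
      linarith
    have a5 : (64 : ℝ) / h = 4 * (16 / h) := by ring
    rw [a5]
    linarith
  rcases le_or_gt (f c1) (1/8) with hsmall | hbig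
  · -- upper bound of the left side
    have u1 : ∫⁻ c in cube2, ENNReal.ofReal (Real.exp (-n * f c)) ≤
        ENNReal.ofReal (Real.exp (-(n / 2) * f c1)) * ENNReal.ofReal (6144 * h / n) := by
      have u2 : ∀ c ∈ (cube2 : Set (Fin 2 → ℝ)), ENNReal.ofReal (Real.exp (-n * f c)) ≤
          ENNReal.ofReal (Real.exp (-(n / 2) * f c1)) *
            ENNReal.ofReal (Real.exp (-(n / 8) * GG (μ.map (fr b)) (c - c1))) := by
        intro c hc
        rw [← ENNReal.ofReal_mul (Real.exp_nonneg _), ← Real.exp_add]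
        apply ENNReal.ofReal_le_ofReal
        apply Real.exp_le_exp.2
        rw [GG_map]
        have := i1 c hc
        have := hmin' c hc
        nlinarith
      refine (setLIntegral_mono' measurableSet_cube2 u2).trans ?_
      have hGm := continuous_GG (μ.map (fr b))
      have hpr : IsProbabilityMeasure (μ.map (fr b)) :=
        Measure.isProbabilityMeasure_map (by fun_prop)
      rw [lintegral_const_mul _ (by fun_prop)]
      refine mul_le_mul' le_rfl ?_
      have u3 := L1a (μ.map (fr b)) (τ := 1 / (4 * h)) (by positivity)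
        (fun v hv => hb.lower v hv) (N := n / 8) (by positivity) (-c1)
      have u4 : ∫⁻ c in cube2, ENNReal.ofReal (Real.exp (-(n / 8) * GG (μ.map (fr b)) (c - c1))) =
          ∫⁻ θ in box (-c1) 1, ENNReal.ofReal (Real.exp (-(n / 8) * GG (μ.map (fr b)) θ)) := by
        rw [← lintegral_indicator measurableSet_cube2,
          ← lintegral_indicator (measurableSet_box _ _),
          ← lintegral_sub_right_eq_self (μ := (volume : Measure (Fin 2 → ℝ)))
            (fun θ => (box (-c1) 1).indicator (fun θ =>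
              ENNReal.ofReal (Real.exp (-(n / 8) * GG (μ.map (fr b)) θ))) θ) c1]
        refine lintegral_congr fun c => ?_
        have hiff : c ∈ (cube2 : Set (Fin 2 → ℝ)) ↔ c - c1 ∈ box (-c1) 1 := by
          rw [cube2_eq_box]
          simp [box]
        by_cases hc : c ∈ (cube2 : Set (Fin 2 → ℝ))
        · rw [Set.indicator_of_mem hc, Set.indicator_of_mem (hiff.1 hc)]
        · rw [Set.indicator_of_notMem hc, Set.indicator_of_notMem (fun h' => hc (hiff.2 h'))]
      rw [u4]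
      refine u3.trans (ENNReal.ofReal_le_ofReal (le_of_eq ?_))
      field_simp
      norm_num
    -- lower bound of the right side
    have l1 : ENNReal.ofReal (Real.exp (-(n / 2) * f c1)) ≤
        ENNReal.ofReal (Real.exp 128 / 4) * ∫⁻ c in cube2, ENNReal.ofReal ((1 - f c) ^ k) := by
      have l2 : ∀ c ∈ (cube2 : Set (Fin 2 → ℝ)),
          ENNReal.ofReal (Real.exp (-128) * Real.exp (-(n / 2) * f c1)) ≤
          ENNReal.ofReal ((1 - f c) ^ k) := by
        intro c hc
        apply ENNReal.ofReal_le_ofReal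
        have j1 := i2 c hc
        have j2 : 64 / h ≤ 1/4 := by
          rw [div_le_iff₀ hh]; linarith
        have j3 : f c ≤ 1/2 := by linarith
        have j4 := exp_neg_two_mul_le (hf0 c) j3
        rw [← Real.exp_add]
        calc Real.exp (-128 + -(n / 2) * f c1) ≤ Real.exp ((k : ℝ) * (-(2 * f c))) := by
              apply Real.exp_le_exp.2
              have j5 : (k : ℝ) * (64 / h) ≤ 64 := by
                rw [mul_div_assoc', div_le_iff₀ hh]; nlinarith
              have j6 : (k : ℝ) * f c ≤ (k : ℝ) * (2 * f c1 + 64 / h) :=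
                mul_le_mul_of_nonneg_left j1 (Nat.cast_nonneg k)
              have j7 : 8 * (k : ℝ) * f c1 ≤ n * f c1 :=
                mul_le_mul_of_nonneg_right hkn (hf0 c1)
              nlinarith
          _ = Real.exp (-(2 * f c)) ^ k := by rw [← Real.exp_nat_mul]
          _ ≤ (1 - f c) ^ k := pow_le_pow_left₀ (Real.exp_nonneg _) j4 k
      have l3 : ENNReal.ofReal (Real.exp (-128) * Real.exp (-(n / 2) * f c1)) * 4 ≤
          ∫⁻ c in cube2, ENNReal.ofReal ((1 - f c) ^ k) := by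
        refine le_trans (le_of_eq ?_) (setLIntegral_mono' measurableSet_cube2 l2)
        rw [setLIntegral_const, volume_cube2]
      calc ENNReal.ofReal (Real.exp (-(n / 2) * f c1))
          = ENNReal.ofReal (Real.exp 128 / 4) *
            (ENNReal.ofReal (Real.exp (-128) * Real.exp (-(n / 2) * f c1)) * 4) := by
            have h4 : (4 : ℝ≥0∞) = ENNReal.ofReal 4 := by norm_num
            rw [h4, ← ENNReal.ofReal_mul (by positivity), ← ENNReal.ofReal_mul (by positivity)]
            congr 1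
            have : Real.exp 128 * Real.exp (-128) = 1 := by rw [← Real.exp_add]; norm_num
            linear_combination (-(Real.exp (-(n / 2) * f c1))) * this
        _ ≤ _ := mul_le_mul' le_rfl l3
    refine (u1.trans ?_).trans le_self_add
    calc ENNReal.ofReal (Real.exp (-(n / 2) * f c1)) * ENNReal.ofReal (6144 * h / n)
        ≤ (ENNReal.ofReal (Real.exp 128 / 4) *
            ∫⁻ c in cube2, ENNReal.ofReal ((1 - f c) ^ k)) * ENNReal.ofReal (6144 * h / n) :=
          mul_le_mul' l1 le_rfl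
      _ = (ENNReal.ofReal (Real.exp 128 / 4) * ENNReal.ofReal (6144 * h / n)) *
            ∫⁻ c in cube2, ENNReal.ofReal ((1 - f c) ^ k) := by ring
      _ = _ := by
          rw [← ENNReal.ofReal_mul (by positivity)]
          congr 2
          rw [K2]
          ring
  · refine le_trans ?_ le_add_self
    have v1 : ∀ c ∈ (cube2 : Set (Fin 2 → ℝ)), ENNReal.ofReal (Real.exp (-n * f c)) ≤
        ENNReal.ofReal (Real.exp (-n / 8)) := by
      intro c hc
      apply ENNReal.ofReal_le_ofReal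
      apply Real.exp_le_exp.2
      have := hmin' c hc
      nlinarith
    refine (setLIntegral_mono' measurableSet_cube2 v1).trans ?_
    rw [setLIntegral_const, volume_cube2]
    have h4 : (4 : ℝ≥0∞) = ENNReal.ofReal 4 := by norm_num
    rw [h4, ← ENNReal.ofReal_mul (by positivity), mul_comm]

/-! ### Averaging over translates -/

omit [Fintype ι] in
theorem shift_box_le [Fintype ι] (F : (ι → ℝ) → ℝ≥0∞) {a : ι → ℝ} {s : ℝ}
    (ha : ∀ i, |a i| ≤ s) (r : ℝ) :
    ∫⁻ θ in box 0 r, F (θ + a) ≤ ∫⁻ θ in box 0 (r + s), F θ := by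
  rw [← lintegral_indicator (measurableSet_box _ _), ← lintegral_indicator (measurableSet_box _ _),
    ← lintegral_add_right_eq_self (μ := (volume : Measure (ι → ℝ)))
      (fun θ => (box 0 (r + s)).indicator F θ) a]
  refine lintegral_mono fun θ => ?_
  by_cases hθ : θ ∈ box 0 r
  · have h2 : θ + a ∈ box 0 (r + s) := by
      intro i
      have h3 := hθ i
      have h4 := ha i
      simp only [Pi.zero_apply, sub_zero, Pi.add_apply] at h3 ⊢
      exact (abs_add_le _ _).trans (by linarith)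
    rw [Set.indicator_of_mem hθ, Set.indicator_of_mem h2]
  · rw [Set.indicator_of_notMem hθ]; exact bot_le

theorem box_le_shift (F : (ι → ℝ) → ℝ≥0∞) {a : ι → ℝ} {s : ℝ}
    (ha : ∀ i, |a i| ≤ s) (r : ℝ) :
    ∫⁻ θ in box 0 r, F θ ≤ ∫⁻ θ in box 0 (r + s), F (θ + a) := by
  have h1 := shift_box_le (fun θ => F (θ + a)) (a := -a) (s := s)
    (fun i => by simpa using ha i) r
  simpa using h1

theorem comb_abs_le {β : Fin 2 → Fin 2 → ℝ} (hβ : ∀ i j, |β i j| ≤ 1) {c : Fin 2 → ℝ}
    (hc : c ∈ (cube2 : Set (Fin 2 → ℝ))) (i : Fin 2) : |comb β c i| ≤ 2 := by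
  simp only [comb, Pi.add_apply, Pi.smul_apply, smul_eq_mul]
  refine (abs_add_le _ _).trans ?_
  rw [abs_mul, abs_mul]
  have h0 := mem_cube2_abs hc 0
  have h1 := mem_cube2_abs hc 1
  have h2 := hβ 0 i
  have h3 := hβ 1 i
  have h4 : |c 0| * |β 0 i| ≤ 1 := mul_le_one₀ h0 (abs_nonneg _) h2
  have h5 : |c 1| * |β 1 i| ≤ 1 := mul_le_one₀ h1 (abs_nonneg _) h3
  linarith

theorem measurable_comb (β : Fin 2 → ι → ℝ) : Measurable (comb β) := by
  unfold comb
  fun_prop

theorem average_upper {F : (Fin 2 → ℝ) → ℝ≥0∞} (hF : Measurable F)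
    {β : Fin 2 → Fin 2 → ℝ} (hβ : ∀ i j, |β i j| ≤ 1) (r : ℝ) :
    4 * ∫⁻ θ in box 0 r, F θ ≤
      ∫⁻ θ in box 0 (r + 2), ∫⁻ c in cube2, F (θ + comb β c) := by
  have hm : Measurable fun z : (Fin 2 → ℝ) × (Fin 2 → ℝ) => F (z.1 + comb β z.2) := by
    have := measurable_comb β
    fun_prop
  rw [lintegral_lintegral_swap hm.aemeasurable]
  have h1 : 4 * ∫⁻ θ in box 0 r, F θ =
      ∫⁻ _c in (cube2 : Set (Fin 2 → ℝ)), (∫⁻ θ in box 0 r, F θ) := by
    rw [setLIntegral_const, volume_cube2, mul_comm]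
  rw [h1]
  refine setLIntegral_mono' measurableSet_cube2 fun c hc => ?_
  exact box_le_shift F (comb_abs_le hβ hc) r

theorem average_lower {F : (Fin 2 → ℝ) → ℝ≥0∞} (hF : Measurable F)
    {β : Fin 2 → Fin 2 → ℝ} (hβ : ∀ i j, |β i j| ≤ 1) (r : ℝ) :
    ∫⁻ θ in box 0 r, ∫⁻ c in cube2, F (θ + comb β c) ≤ 4 * ∫⁻ θ in box 0 (r + 2), F θ := by
  have hm : Measurable fun z : (Fin 2 → ℝ) × (Fin 2 → ℝ) => F (z.1 + comb β z.2) := by
    have := measurable_comb β
    fun_prop
  rw [lintegral_lintegral_swap hm.aemeasurable]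
  have h1 : 4 * ∫⁻ θ in box 0 (r + 2), F θ =
      ∫⁻ _c in (cube2 : Set (Fin 2 → ℝ)), (∫⁻ θ in box 0 (r + 2), F θ) := by
    rw [setLIntegral_const, volume_cube2, mul_comm]
  rw [h1]
  refine setLIntegral_mono' measurableSet_cube2 fun c hc => ?_
  exact shift_box_le F (comb_abs_le hβ hc) r

theorem comb_comb (b : Fin 2 → ι → ℝ) (β : Fin 2 → Fin 2 → ℝ) (c : Fin 2 → ℝ) :
    comb b (comb β c) = comb (fun i => comb b (β i)) c := by
  ext i; simp [comb]; ring

theorem volume_box_three : (volume : Measure (Fin 2 → ℝ)) (box 0 3) = 36 := by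
  have : (box 0 3 : Set (Fin 2 → ℝ)) = Set.univ.pi fun _ => Set.Icc (-3 : ℝ) 3 := by
    ext x
    simp only [box, Set.mem_univ_pi, Set.mem_Icc, Set.mem_ofPred_eq, Pi.zero_apply, sub_zero,
      abs_le]
  rw [this, volume_pi, Measure.pi_pi]
  simp [Real.volume_Icc]
  norm_num

/-- **(L2)** Kesten-type monotonicity, Fourier side: `b` a frame at the scale `t`, `b'` a frame at
the larger scale `h`. -/
theorem L2 (μ : Measure (ι → ℝ)) [IsProbabilityMeasure μ] {h : ℝ} (h256 : 256 ≤ h)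
    {b b' : Fin 2 → ι → ℝ} (hb' : IsFrame μ h b') {β : Fin 2 → Fin 2 → ℝ}
    (hβ : ∀ i j, |β i j| ≤ 1) (hbb : ∀ i, comb b (β i) = b' i) {n : ℝ} (hn : 0 < n) {k : ℕ}
    (hk : (k : ℝ) ≤ h) (hkn : 8 * (k : ℝ) ≤ n) :
    ∫⁻ v in box 0 1, ENNReal.ofReal (Real.exp (-n * GG μ (comb b v))) ≤
      ENNReal.ofReal (K2 * h / n) *
        (∫⁻ v in box 0 5, ENNReal.ofReal ((1 - GG μ (comb b v)) ^ k)) +
      ENNReal.ofReal (36 * Real.exp (-n / 8)) := by
  have hGc := continuous_GG μ
  have hbb' : ∀ c, comb b (comb β c) = comb b' c := by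
    intro c; rw [comb_comb]; congr 1; ext i; rw [hbb i]
  have m1 : Measurable fun v : Fin 2 → ℝ => ENNReal.ofReal (Real.exp (-n * GG μ (comb b v))) := by
    have := measurable_comb b
    have := hGc.measurable
    fun_prop
  have m2 : Measurable fun v : Fin 2 → ℝ => ENNReal.ofReal ((1 - GG μ (comb b v)) ^ k) := by
    have := measurable_comb b
    have := hGc.measurable
    fun_prop
  have h1 := average_upper m1 hβ 1
  have h2 : ∀ θ : Fin 2 → ℝ,
      ∫⁻ c in cube2, ENNReal.ofReal (Real.exp (-n * GG μ (comb b (θ + comb β c)))) ≤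
      ENNReal.ofReal (K2 * h / n) *
        (∫⁻ c in cube2, ENNReal.ofReal ((1 - GG μ (comb b (θ + comb β c))) ^ k)) +
      ENNReal.ofReal (4 * Real.exp (-n / 8)) := by
    intro θ
    simp only [comb_add, hbb']
    exact local_bound μ h256 hb' (comb b θ) hn hk hkn
  have m3 : Measurable fun z : (Fin 2 → ℝ) × (Fin 2 → ℝ) =>
      ENNReal.ofReal ((1 - GG μ (comb b (z.1 + comb β z.2))) ^ k) := by
    have e1 : Measurable fun z : (Fin 2 → ℝ) × (Fin 2 → ℝ) => z.1 + comb β z.2 := by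
      have := measurable_comb β
      fun_prop
    exact m2.comp e1
  have m4 : Measurable fun θ : Fin 2 → ℝ =>
      ∫⁻ c in cube2, ENNReal.ofReal ((1 - GG μ (comb b (θ + comb β c))) ^ k) :=
    Measurable.lintegral_prod_right' m3
  have h3 : (4 : ℝ≥0∞) * ∫⁻ v in box 0 1, ENNReal.ofReal (Real.exp (-n * GG μ (comb b v))) ≤
      4 * (ENNReal.ofReal (K2 * h / n) *
        (∫⁻ v in box 0 5, ENNReal.ofReal ((1 - GG μ (comb b v)) ^ k)) +
      ENNReal.ofReal (36 * Real.exp (-n / 8))) := by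
    refine h1.trans ?_
    have e3 : (1 : ℝ) + 2 = 3 := by norm_num
    rw [e3]
    refine (lintegral_mono h2).trans ?_
    rw [lintegral_add_right _ measurable_const, lintegral_const_mul _ m4, setLIntegral_const,
      volume_box_three, mul_add]
    have h4 := average_lower m2 hβ 3
    have e5 : (3 : ℝ) + 2 = 5 := by norm_num
    rw [e5] at h4
    refine add_le_add ?_ (le_of_eq ?_)
    · calc _ ≤ ENNReal.ofReal (K2 * h / n) *
            (4 * ∫⁻ v in box 0 5, ENNReal.ofReal ((1 - GG μ (comb b v)) ^ k)) :=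
          mul_le_mul' le_rfl h4
        _ = _ := by ring
    · have e6 : (36 : ℝ≥0∞) = ENNReal.ofReal 36 := by norm_num
      have e7 : (4 : ℝ≥0∞) = ENNReal.ofReal 4 := by norm_num
      rw [e6, e7, ← ENNReal.ofReal_mul (by positivity), ← ENNReal.ofReal_mul (by positivity)]
      congr 1
      ring
  exact (ENNReal.mul_le_mul_iff_right (by norm_num) (by norm_num)).1 h3

/-! ### (FR): existence of frames in the plane -/

theorem gg_neg (μ : Measure (ι → ℝ)) (a : ι → ℝ) : gg μ (-a) = gg μ a := by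
  unfold gg; simp [dot_neg_left]

/-- A nondegenerate law is uniformly nondegenerate. -/
theorem exists_lower {μ : Measure (ι → ℝ)} [IsProbabilityMeasure μ] [Nonempty ι]
    (hnd : ∀ v, v ≠ 0 → 0 < gg μ v) : ∃ p > 0, ∀ v : ι → ℝ, ‖v‖ = 1 → p ≤ gg μ v := by
  have hne : (Metric.sphere (0 : ι → ℝ) 1).Nonempty := by
    refine ⟨fun _ => 1, ?_⟩
    simp only [mem_sphere_iff_norm, sub_zero]
    rw [pi_norm_const]; simp
  obtain ⟨v, hv, hmin⟩ := (isCompact_sphere (0 : ι → ℝ) 1).exists_isMinOn hne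
    (continuous_gg μ).continuousOn
  refine ⟨gg μ v, hnd v ?_, fun w hw => hmin (by simpa using hw)⟩
  rintro rfl
  simp at hv

theorem gg_ge_of_norm {μ : Measure (ι → ℝ)} [IsProbabilityMeasure μ] {p : ℝ}
    (hp : ∀ v : ι → ℝ, ‖v‖ = 1 → p ≤ gg μ v) {v : ι → ℝ} (hv : 1 ≤ ‖v‖) : p ≤ gg μ v := by
  have h0 : 0 < ‖v‖ := by linarith
  have h1 : ‖(‖v‖⁻¹ : ℝ) • v‖ = 1 := by
    rw [norm_smul, norm_inv, norm_norm, inv_mul_cancel₀ h0.ne']
  refine (hp _ h1).trans (gg_smul_le_self μ ?_ v)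
  rw [abs_of_pos (by positivity)]
  exact inv_le_one_of_one_le₀ hv

/-- The determinant. -/
def det2 (b : (Fin 2 → ℝ) × (Fin 2 → ℝ)) : ℝ := b.1 0 * b.2 1 - b.1 1 * b.2 0

/-- **(FR)** -/
theorem exists_frame {μ : Measure (Fin 2 → ℝ)} [IsProbabilityMeasure μ] {t p : ℝ} (ht : 0 < t)
    (hp : ∀ v : Fin 2 → ℝ, ‖v‖ = 1 → p ≤ gg μ v) (htp : 1 / t < p) :
    ∃ b : Fin 2 → Fin 2 → ℝ, IsFrame μ t b := by
  set K : Set (Fin 2 → ℝ) := {v | gg μ v ≤ 1 / t} with hK
  have hKc : IsClosed K := isClosed_le (continuous_gg μ) continuous_const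
  have hKb : K ⊆ Metric.closedBall 0 1 := by
    intro v hv
    rw [mem_closedBall_zero_iff]
    by_contra h
    push Not at h
    have := gg_ge_of_norm hp h.le
    have h2 : gg μ v ≤ 1 / t := hv
    linarith
  have hKcomp : IsCompact K := (isCompact_closedBall (0 : Fin 2 → ℝ) 1).of_isClosed_subset hKc hKb
  -- a small multiple of the unit vectors belongs to `K`
  have hnhds : ∀ᶠ v in nhds (0 : Fin 2 → ℝ), gg μ v ≤ 1 / t := by
    have h1 : gg μ (0 : Fin 2 → ℝ) < 1 / t := by rw [gg_zero]; positivity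
    exact ((continuous_gg μ).tendsto 0).eventually_le_const h1 |>.mono fun v hv => hv
  obtain ⟨ε, hε, hball⟩ := Metric.eventually_nhds_iff.1 hnhds
  have hmem : ∀ i : Fin 2, (Pi.single i (ε / 2) : Fin 2 → ℝ) ∈ K := by
    intro i
    apply hball
    rw [dist_zero_right, Pi.norm_single, Real.norm_eq_abs, abs_of_pos (by positivity)]
    linarith
  have hdc : Continuous det2 := by unfold det2; fun_prop
  obtain ⟨⟨b0, b1⟩, ⟨hb0, hb1⟩, hmax⟩ := (hKcomp.prod hKcomp).exists_isMaxOn
    ⟨(Pi.single 0 (ε / 2), Pi.single 1 (ε / 2)), hmem 0, hmem 1⟩ hdc.continuousOn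
  have hmax' : ∀ x y, x ∈ K → y ∈ K → det2 (x, y) ≤ det2 (b0, b1) :=
    fun x y hx hy => hmax (show (x, y) ∈ K ×ˢ K from ⟨hx, hy⟩)
  have hD : 0 < det2 (b0, b1) := by
    refine lt_of_lt_of_le ?_ (hmax' _ _ (hmem 0) (hmem 1))
    simp only [det2]
    simp
    positivity
  have hneg : ∀ x ∈ K, -x ∈ K := fun x hx => by
    change gg μ (-x) ≤ 1 / t
    rw [gg_neg]; exact hx
  refine ⟨![b0, b1], ⟨fun i => ?_, fun v hv => ?_⟩⟩
  · fin_cases i
    · exact hb0
    · exact hb1
  · set w := comb ![b0, b1] v with hw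
    have hwK : w ∈ K := hv
    have hw0 : w 0 = v 0 * b0 0 + v 1 * b1 0 := by simp [hw, comb]
    have hw1 : w 1 = v 0 * b0 1 + v 1 * b1 1 := by simp [hw, comb]
    have d1 : det2 (w, b1) = v 0 * det2 (b0, b1) := by
      simp only [det2, hw0, hw1]; ring
    have d2 : det2 (b0, w) = v 1 * det2 (b0, b1) := by
      simp only [det2, hw0, hw1]; ring
    have d3 : det2 (-w, b1) = -(v 0 * det2 (b0, b1)) := by
      simp only [det2, Pi.neg_apply, hw0, hw1]; ring
    have d4 : det2 (b0, -w) = -(v 1 * det2 (b0, b1)) := by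
      simp only [det2, Pi.neg_apply, hw0, hw1]; ring
    have m1 := hmax' _ _ hwK hb1
    have m2 := hmax' _ _ hb0 hwK
    have m3 := hmax' _ _ (hneg _ hwK) hb1
    have m4 := hmax' _ _ hb0 (hneg _ hwK)
    rw [d1] at m1
    rw [d2] at m2
    rw [d3] at m3
    rw [d4] at m4
    rw [pi_norm_le_iff_of_nonneg zero_le_one]
    intro i
    rw [Real.norm_eq_abs, abs_le]
    fin_cases i
    · simp only [Fin.zero_eta]
      constructor <;> nlinarith
    · simp only [Fin.mk_one]
      constructor <;> nlinarith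

/-- Every frequency of the body is a combination of the frame with coefficients at most one. -/
theorem IsFrame.exists_beta {μ : Measure (Fin 2 → ℝ)} [IsProbabilityMeasure μ] {t : ℝ}
    (ht : 0 < t) {b : Fin 2 → Fin 2 → ℝ} (hb : IsFrame μ t b) {w : Fin 2 → ℝ}
    (hw : gg μ w ≤ 1 / t) : ∃ β : Fin 2 → ℝ, comb b β = w ∧ ∀ j, |β j| ≤ 1 := by
  let L : (Fin 2 → ℝ) →ₗ[ℝ] (Fin 2 → ℝ) :=
    { toFun := comb b
      map_add' := comb_add b
      map_smul' := comb_smul b }
  have hinj : Function.Injective L := by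
    rw [← LinearMap.ker_eq_bot, LinearMap.ker_eq_bot']
    intro v hv
    by_contra hne
    have hn : 0 < ‖v‖ := norm_pos_iff.2 hne
    have h1 : comb b ((2 / ‖v‖) • v) = 0 := by
      rw [comb_smul]
      have : comb b v = 0 := hv
      rw [this, smul_zero]
    have h2 := hb.capt ((2 / ‖v‖) • v) (by rw [h1, gg_zero]; positivity)
    rw [norm_smul, norm_div, norm_norm, div_mul_cancel₀ _ hn.ne'] at h2
    norm_num at h2
  obtain ⟨β, hβ⟩ := (LinearMap.injective_iff_surjective.1 hinj) w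
  have hβ' : comb b β = w := hβ
  refine ⟨β, hβ', fun j => ?_⟩
  have := hb.capt β (by rw [hβ']; exact hw)
  exact (norm_le_pi_norm β j).trans this

/-- Frames at two scales are nested. -/
theorem IsFrame.nested {μ : Measure (Fin 2 → ℝ)} [IsProbabilityMeasure μ] {t h : ℝ}
    (ht : 0 < t) (hth : t ≤ h) {b b' : Fin 2 → Fin 2 → ℝ} (hb : IsFrame μ t b)
    (hb' : IsFrame μ h b') :
    ∃ β : Fin 2 → Fin 2 → ℝ, (∀ i j, |β i j| ≤ 1) ∧ ∀ i, comb b (β i) = b' i := by
  have h1 : ∀ i, ∃ β : Fin 2 → ℝ, comb b β = b' i ∧ ∀ j, |β j| ≤ 1 := fun i =>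
    hb.exists_beta ht ((hb'.small i).trans (by gcongr))
  choose β h2 h3 using h1
  exact ⟨β, h3, h2⟩

end Crest.Agent.R154.Conc412
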