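import Mathlib
import Crest.Agent.R154.Conc_412

/-!
Row 154, block B3 (L0): tail of a sum of `n` independent symmetric vectors in the body of scale `t`
(`n ≤ t`): `P (S_n ∉ A E_t) ≤ n P (η ∉ E_t) + 4 exp (3/5 - A)`, and nesting of the bodies.
-/

open MeasureTheory ProbabilityTheory Set
open scoped BigOperators ENNReal NNReal

namespace Crest.Agent.R154.Tail480

open Crest.Agent.R154.Conc412

/-! ### one dimensional facts -/

theorem cosh_sub_one_le {y : ℝ} (hy : |y| ≤ 1) : Real.cosh y - 1 ≤ (3/5) * y ^ 2 := by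
  have h1 : Real.cosh y = (Real.exp y + Real.exp (-y)) / 2 := Real.cosh_eq y
  have hb : ∀ z : ℝ, |z| ≤ 1 → Real.exp z ≤ 1 + z + z ^ 2 / 2 + |z| ^ 3 * (2/9) := by
    intro z hz
    have h := Real.exp_bound hz (n := 3) (by norm_num)
    have h2 : (∑ m ∈ Finset.range 3, z ^ m / (m.factorial : ℝ)) = 1 + z + z ^ 2 / 2 := by
      simp [Finset.sum_range_succ, Nat.factorial]
    rw [h2] at h
    have h3 := (abs_le.1 h).2
    have h4 : |z| ^ 3 * ((Nat.succ 3 : ℕ) / ((Nat.factorial 3 : ℕ) * (3 : ℕ) : ℝ)) = |z| ^ 3 * (2/9) := by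
      norm_num [Nat.factorial]
    rw [h4] at h3
    linarith
  have hq : ∀ z : ℝ, |z| ≤ 1 →
      Real.exp z ≤ 1 + z + z ^ 2 / 2 + z ^ 3 / 6 + |z| ^ 4 * (5/96) := by
    intro z hz
    have h := Real.exp_bound hz (n := 4) (by norm_num)
    have h2 : (∑ m ∈ Finset.range 4, z ^ m / (m.factorial : ℝ)) =
        1 + z + z ^ 2 / 2 + z ^ 3 / 6 := by
      simp [Finset.sum_range_succ, Nat.factorial]
    rw [h2] at h
    have h3 := (abs_le.1 h).2
    have h4 : |z| ^ 4 * ((Nat.succ 4 : ℕ) / ((Nat.factorial 4 : ℕ) * (4 : ℕ) : ℝ)) = |z| ^ 4 * (5/96) := by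
      norm_num [Nat.factorial]
    rw [h4] at h3
    linarith
  have e1 := hq y hy
  have e2 := hq (-y) (by rwa [abs_neg])
  rw [abs_neg] at e2
  have h4 : |y| ^ 4 = y ^ 4 := by
    have : |y| ^ 4 = (|y| ^ 2) ^ 2 := by ring
    rw [this, sq_abs]; ring
  rw [h4] at e1 e2
  have hy2 : y ^ 2 ≤ 1 := by
    have := abs_le.1 hy
    nlinarith
  have hy4 : y ^ 4 ≤ y ^ 2 := by nlinarith [sq_nonneg y]
  rw [h1]
  nlinarith [sq_nonneg y]

/-- truncation at level one -/
noncomputable def tr (x : ℝ) : ℝ := if |x| ≤ 1 then x else 0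

theorem measurable_tr : Measurable tr := by
  unfold tr
  exact Measurable.ite (measurableSet_le measurable_id.abs measurable_const) measurable_id
    measurable_const

theorem abs_tr_le (x : ℝ) : |tr x| ≤ 1 := by
  unfold tr; split_ifs with h
  · exact h
  · simp

theorem tr_neg (x : ℝ) : tr (-x) = - tr x := by
  unfold tr; rw [abs_neg]; split_ifs <;> simp

theorem tr_sq_le (x : ℝ) : tr x ^ 2 ≤ min (x ^ 2) 1 := by
  unfold tr; split_ifs with h
  · refine le_min le_rfl ?_
    have := abs_le.1 h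
    nlinarith
  · simp; positivity

theorem integral_exp_tr_le (ν : Measure ℝ) [IsProbabilityMeasure ν]
    (hs : ν.map (fun x => -x) = ν) :
    ∫ x, Real.exp (tr x) ∂ν ≤ 1 + (3/5) * ∫ x, min (x ^ 2) 1 ∂ν := by
  have hm : Measurable fun x : ℝ => Real.exp (tr x) := Real.measurable_exp.comp measurable_tr
  have hm' : Measurable fun x : ℝ => Real.exp (-tr x) :=
    Real.measurable_exp.comp measurable_tr.neg
  have hb : ∀ x : ℝ, Real.exp (tr x) ≤ Real.exp 1 := fun x =>
    Real.exp_le_exp.2 (abs_le.1 (abs_tr_le x)).2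
  have hb' : ∀ x : ℝ, Real.exp (-tr x) ≤ Real.exp 1 := fun x =>
    Real.exp_le_exp.2 (by have := (abs_le.1 (abs_tr_le x)).1; linarith)
  have hi : Integrable (fun x : ℝ => Real.exp (tr x)) ν :=
    Integrable.of_bound hm.aestronglyMeasurable (Real.exp 1)
      (Filter.Eventually.of_forall fun x => by
        rw [Real.norm_eq_abs, abs_of_pos (Real.exp_pos _)]; exact hb x)
  have hi' : Integrable (fun x : ℝ => Real.exp (-tr x)) ν :=
    Integrable.of_bound hm'.aestronglyMeasurable (Real.exp 1)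
      (Filter.Eventually.of_forall fun x => by
        rw [Real.norm_eq_abs, abs_of_pos (Real.exp_pos _)]; exact hb' x)
  have hmin : Integrable (fun x : ℝ => min (x ^ 2) 1) ν :=
    Integrable.of_bound (by fun_prop) 1
      (Filter.Eventually.of_forall fun x => by
        rw [Real.norm_eq_abs, abs_of_nonneg (le_min (sq_nonneg x) zero_le_one)]
        exact min_le_right _ _)
  have hsym : ∫ x, Real.exp (tr x) ∂ν = ∫ x, Real.exp (-tr x) ∂ν := by
    conv_lhs => rw [← hs]
    rw [integral_map (by fun_prop) hm.aestronglyMeasurable]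
    simp only [tr_neg]
  have h2 : ∫ x, Real.exp (tr x) ∂ν = ∫ x, Real.cosh (tr x) ∂ν := by
    have : ∀ x : ℝ, Real.cosh (tr x) = (1/2) * Real.exp (tr x) + (1/2) * Real.exp (-tr x) := by
      intro x; rw [Real.cosh_eq]; ring
    simp only [this]
    rw [integral_add (hi.const_mul _) (hi'.const_mul _), integral_const_mul, integral_const_mul,
      ← hsym]
    ring
  rw [h2]
  have h3 : ∀ x : ℝ, Real.cosh (tr x) ≤ 1 + (3/5) * min (x ^ 2) 1 := by
    intro x
    have := cosh_sub_one_le (abs_tr_le x)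
    have h4 := tr_sq_le x
    nlinarith
  calc ∫ x, Real.cosh (tr x) ∂ν ≤ ∫ x, (1 + (3/5) * min (x ^ 2) 1) ∂ν := by
        refine integral_mono ?_ ?_ h3
        · have : (fun x : ℝ => Real.cosh (tr x)) =
              fun x => (1/2) * Real.exp (tr x) + (1/2) * Real.exp (-tr x) := by
            funext x; rw [Real.cosh_eq]; ring
          rw [this]
          exact (hi.const_mul _).add (hi'.const_mul _)
        · exact (integrable_const _).add (hmin.const_mul _)
    _ = 1 + (3/5) * ∫ x, min (x ^ 2) 1 ∂ν := by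
        rw [integral_add (integrable_const _) (hmin.const_mul _), integral_const_mul]
        simp

/-- Chernoff for truncated symmetric summands. -/
theorem chernoff {Ω : Type*} [MeasurableSpace Ω] (P : Measure Ω) [IsProbabilityMeasure P]
    (X : ℕ → Ω → ℝ) (hX : ∀ k, Measurable (X k)) (hind : iIndepFun X P)
    (hs : ∀ k, (P.map (X k)).map (fun x => -x) = P.map (X k)) (v : ℝ)
    (hv : ∀ k, ∫ ω, min (X k ω ^ 2) 1 ∂P ≤ v) (n : ℕ) (A : ℝ) :
    P.real {ω | A ≤ ∑ k ∈ Finset.range n, tr (X k ω)} ≤ Real.exp ((3/5) * (n * v) - A) := by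
  have hYm : ∀ k, Measurable fun ω => tr (X k ω) := fun k => measurable_tr.comp (hX k)
  have hYi : iIndepFun (fun k ω => tr (X k ω)) P :=
    hind.comp (fun _ => tr) (fun _ => measurable_tr)
  have hint : Integrable (fun ω => Real.exp (1 * (∑ k ∈ Finset.range n, fun ω => tr (X k ω)) ω)) P := by
    refine Integrable.of_bound ?_ (Real.exp n) (Filter.Eventually.of_forall fun ω => ?_)
    · refine (Real.measurable_exp.comp ?_).aestronglyMeasurable
      refine Measurable.const_mul ?_ _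
      have : (∑ k ∈ Finset.range n, fun ω => tr (X k ω)) =
          fun ω => ∑ k ∈ Finset.range n, tr (X k ω) := by
        funext ω; simp [Finset.sum_apply]
      rw [this]
      exact Finset.measurable_sum _ fun k _ => hYm k
    · rw [Real.norm_eq_abs, abs_of_pos (Real.exp_pos _)]
      refine Real.exp_le_exp.2 ?_
      rw [one_mul, Finset.sum_apply]
      calc ∑ k ∈ Finset.range n, tr (X k ω) ≤ ∑ k ∈ Finset.range n, (1 : ℝ) :=
            Finset.sum_le_sum fun k _ => (abs_le.1 (abs_tr_le _)).2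
        _ = n := by simp
  have h1 := measure_ge_le_exp_mul_mgf (μ := P) (X := ∑ k ∈ Finset.range n, fun ω => tr (X k ω))
    (t := 1) A zero_le_one hint
  rw [hYi.mgf_sum hYm] at h1
  have h2 : ∀ k ∈ Finset.range n, mgf (fun ω => tr (X k ω)) P 1 ≤ Real.exp ((3/5) * v) := by
    intro k _
    have e1 : mgf (fun ω => tr (X k ω)) P 1 = ∫ x, Real.exp (tr x) ∂(P.map (X k)) := by
      have hme : Measurable fun x : ℝ => Real.exp (tr x) := Real.measurable_exp.comp measurable_tr
      rw [integral_map (hX k).aemeasurable hme.aestronglyMeasurable]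
      simp [mgf]
    have : IsProbabilityMeasure (P.map (X k)) := Measure.isProbabilityMeasure_map (hX k).aemeasurable
    have e2 := integral_exp_tr_le (P.map (X k)) (hs k)
    have e3 : ∫ x, min (x ^ 2) 1 ∂(P.map (X k)) = ∫ ω, min (X k ω ^ 2) 1 ∂P := by
      rw [integral_map (hX k).aemeasurable (by fun_prop)]
    rw [e1]
    rw [e3] at e2
    have e4 := hv k
    have e5 := Real.add_one_le_exp ((3/5) * v)
    linarith
  have h3 : ∏ k ∈ Finset.range n, mgf (fun ω => tr (X k ω)) P 1 ≤ Real.exp ((3/5) * (n * v)) := by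
    calc ∏ k ∈ Finset.range n, mgf (fun ω => tr (X k ω)) P 1
        ≤ ∏ k ∈ Finset.range n, Real.exp ((3/5) * v) :=
          Finset.prod_le_prod (fun k _ => mgf_nonneg) h2
      _ = Real.exp ((3/5) * (n * v)) := by
          rw [Finset.prod_const, Finset.card_range, ← Real.exp_nat_mul]; ring_nf
  have hset : {ω | A ≤ ∑ k ∈ Finset.range n, tr (X k ω)} =
      {ω | A ≤ (∑ k ∈ Finset.range n, fun ω => tr (X k ω)) ω} := by
    ext ω; simp [Finset.sum_apply]
  rw [hset]
  calc _ ≤ _ := h1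
    _ ≤ Real.exp (-1 * A) * Real.exp ((3/5) * (n * v)) := by gcongr
    _ = _ := by rw [← Real.exp_add]; ring_nf

/-- Tail of a sum of symmetric independent summands. -/
theorem tail_one {Ω : Type*} [MeasurableSpace Ω] (P : Measure Ω) [IsProbabilityMeasure P]
    (X : ℕ → Ω → ℝ) (hX : ∀ k, Measurable (X k)) (hind : iIndepFun X P)
    (hs : ∀ k, (P.map (X k)).map (fun x => -x) = P.map (X k)) (v : ℝ)
    (hv : ∀ k, ∫ ω, min (X k ω ^ 2) 1 ∂P ≤ v) (n : ℕ) (A : ℝ) :
    P.real ({ω | A ≤ |∑ k ∈ Finset.range n, X k ω|} ∩ {ω | ∀ k ∈ Finset.range n, |X k ω| ≤ 1}) ≤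
      2 * Real.exp ((3/5) * (n * v) - A) := by
  have h1 := chernoff P X hX hind hs v hv n A
  have hs' : ∀ k, (P.map (fun ω => - X k ω)).map (fun x => -x) = P.map (fun ω => - X k ω) := by
    intro k
    have e : P.map (fun ω => - X k ω) = P.map (X k) := by
      have := hs k
      rw [Measure.map_map (by fun_prop) (hX k)] at this
      exact this
    rw [e]; exact hs k
  have h2 := chernoff P (fun k ω => - X k ω) (fun k => (hX k).neg)
    (hind.comp (fun _ x => -x) (fun _ => measurable_neg)) hs' v (by simpa using hv) n A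
  have hsub : ({ω | A ≤ |∑ k ∈ Finset.range n, X k ω|} ∩
      {ω | ∀ k ∈ Finset.range n, |X k ω| ≤ 1}) ⊆
      {ω | A ≤ ∑ k ∈ Finset.range n, tr (X k ω)} ∪
        {ω | A ≤ ∑ k ∈ Finset.range n, tr (- X k ω)} := by
    rintro ω ⟨hA, hk⟩
    have e1 : ∑ k ∈ Finset.range n, tr (X k ω) = ∑ k ∈ Finset.range n, X k ω :=
      Finset.sum_congr rfl fun k hk' => by
        have := hk k hk'
        simp [tr, this]
    have e2 : ∑ k ∈ Finset.range n, tr (- X k ω) = - ∑ k ∈ Finset.range n, X k ω := by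
      rw [← Finset.sum_neg_distrib]
      exact Finset.sum_congr rfl fun k hk' => by
        have := hk k hk'
        simp [tr, this]
    simp only [mem_union, Set.mem_ofPred_eq] at hA ⊢
    rw [e1, e2]
    rcases le_total 0 (∑ k ∈ Finset.range n, X k ω) with h | h
    · left; rwa [abs_of_nonneg h] at hA
    · right; rwa [abs_of_nonpos h] at hA
  calc P.real _ ≤ P.real ({ω | A ≤ ∑ k ∈ Finset.range n, tr (X k ω)} ∪
        {ω | A ≤ ∑ k ∈ Finset.range n, tr (- X k ω)}) := measureReal_mono hsub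
    _ ≤ _ := measureReal_union_le _ _
    _ ≤ _ := by linarith

/-! ### the body tail -/

/-- **(L0)** `S_n` of `n` iid symmetric vectors leaves the body `{x | ∀ i, |b i · x| ≤ A}` with
probability at most `n P (∃ i, 1 < |b i · η|) + 2 |ι'| exp (3/5 n v - A)`, if
`E min ((b i · η)^2, 1) ≤ v`. -/
theorem body_tail {ι ι' : Type*} [Fintype ι] [Fintype ι'] {Ω : Type*} [MeasurableSpace Ω]
    (P : Measure Ω) [IsProbabilityMeasure P] (μ : Measure (ι → ℝ)) [IsProbabilityMeasure μ]
    (hs : μ.map (fun x => -x) = μ)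
    (X : ℕ → Ω → ι → ℝ) (hX : ∀ k, Measurable (X k)) (hlaw : ∀ k, P.map (X k) = μ)
    (hind : iIndepFun X P) (b : ι' → ι → ℝ) (v : ℝ)
    (hv : ∀ i, ∫ x, min (dot (b i) x ^ 2) 1 ∂μ ≤ v) (n : ℕ) (A : ℝ) :
    P.real {ω | ∃ i, A ≤ |dot (b i) (∑ k ∈ Finset.range n, X k ω)|} ≤
      n * μ.real {x | ∃ i, 1 < |dot (b i) x|} +
        Fintype.card ι' * (2 * Real.exp ((3/5) * (n * v) - A)) := by
  have hdm : ∀ i, Measurable fun x : ι → ℝ => dot (b i) x := fun i =>
    (continuous_dot continuous_const continuous_id).measurable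
  have hbig : MeasurableSet {x : ι → ℝ | ∃ i, 1 < |dot (b i) x|} := by
    have : {x : ι → ℝ | ∃ i, 1 < |dot (b i) x|} = ⋃ i, {x | 1 < |dot (b i) x|} := by
      ext x; simp
    rw [this]
    exact MeasurableSet.iUnion fun i => measurableSet_lt measurable_const (hdm i).abs
  set B : Set Ω := ⋃ k ∈ Finset.range n, (X k) ⁻¹' {x | ∃ i, 1 < |dot (b i) x|} with hB
  have hBle : P.real B ≤ n * μ.real {x | ∃ i, 1 < |dot (b i) x|} := by
    calc P.real B ≤ ∑ k ∈ Finset.range n, P.real ((X k) ⁻¹' {x | ∃ i, 1 < |dot (b i) x|}) :=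
          measureReal_biUnion_finset_le _ _
      _ = ∑ k ∈ Finset.range n, μ.real {x | ∃ i, 1 < |dot (b i) x|} := by
          refine Finset.sum_congr rfl fun k _ => ?_
          rw [← hlaw k, map_measureReal_apply (hX k) hbig]
      _ = _ := by simp
  have hone : ∀ i, P.real ({ω | A ≤ |∑ k ∈ Finset.range n, dot (b i) (X k ω)|} ∩
      {ω | ∀ k ∈ Finset.range n, |dot (b i) (X k ω)| ≤ 1}) ≤
      2 * Real.exp ((3/5) * (n * v) - A) := by
    intro i
    refine tail_one P (fun k ω => dot (b i) (X k ω)) (fun k => (hdm i).comp (hX k))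
      (hind.comp (fun _ x => dot (b i) x) (fun _ => hdm i)) (fun k => ?_) v (fun k => ?_) n A
    · have e1 : P.map (fun ω => dot (b i) (X k ω)) = μ.map (fun x => dot (b i) x) := by
        rw [← hlaw k, Measure.map_map (hdm i) (hX k)]; rfl
      rw [e1]
      conv_rhs => rw [← hs]
      rw [Measure.map_map measurable_neg (hdm i), Measure.map_map (hdm i) measurable_neg]
      congr 1
      funext x
      simp [dot]
    · have e1 : ∫ ω, min (dot (b i) (X k ω) ^ 2) 1 ∂P = ∫ x, min (dot (b i) x ^ 2) 1 ∂μ := by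
        rw [← hlaw k, integral_map (hX k).aemeasurable]
        exact (((hdm i).pow_const 2).min measurable_const).aestronglyMeasurable
      rw [e1]; exact hv i
  have hsub : {ω | ∃ i, A ≤ |dot (b i) (∑ k ∈ Finset.range n, X k ω)|} ⊆
      B ∪ ⋃ i ∈ (Finset.univ : Finset ι'), ({ω | A ≤ |∑ k ∈ Finset.range n, dot (b i) (X k ω)|} ∩
        {ω | ∀ k ∈ Finset.range n, |dot (b i) (X k ω)| ≤ 1}) := by
    rintro ω ⟨i, hi⟩
    by_cases hω : ω ∈ B
    · exact Or.inl hω
    · refine Or.inr ?_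
      simp only [Set.mem_iUnion, Finset.mem_univ, exists_true_left]
      refine ⟨i, ?_, ?_⟩
      · rw [dot_sum_right] at hi; exact hi
      · intro k hk
        by_contra hcon
        apply hω
        simp only [hB, Set.mem_iUnion]
        exact ⟨k, hk, i, not_le.1 hcon⟩
  calc _ ≤ _ := measureReal_mono hsub
    _ ≤ _ := measureReal_union_le _ _
    _ ≤ n * μ.real {x | ∃ i, 1 < |dot (b i) x|} +
        ∑ i : ι', (2 * Real.exp ((3/5) * (n * v) - A)) := by
        refine add_le_add hBle ((measureReal_biUnion_finset_le _ _).trans ?_)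
        exact Finset.sum_le_sum fun i _ => hone i
    _ = _ := by simp

/-- One step leaves the body with probability at most `|ι'| v`. -/
theorem step_tail {ι ι' : Type*} [Fintype ι] [Fintype ι'] (μ : Measure (ι → ℝ))
    [IsProbabilityMeasure μ] (b : ι' → ι → ℝ) (v : ℝ)
    (hv : ∀ i, ∫ x, min (dot (b i) x ^ 2) 1 ∂μ ≤ v) :
    μ.real {x | ∃ i, 1 < |dot (b i) x|} ≤ Fintype.card ι' * v := by
  have hdm : ∀ i, Measurable fun x : ι → ℝ => dot (b i) x := fun i =>
    (continuous_dot continuous_const continuous_id).measurable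
  have hone : ∀ i, μ.real {x | 1 < |dot (b i) x|} ≤ v := by
    intro i
    have hmin : Integrable (fun x : ι → ℝ => min (dot (b i) x ^ 2) 1) μ :=
      Integrable.of_bound ((((hdm i).pow_const 2).min measurable_const).aestronglyMeasurable) 1
        (Filter.Eventually.of_forall fun x => by
          rw [Real.norm_eq_abs, abs_of_nonneg (le_min (sq_nonneg _) zero_le_one)]
          exact min_le_right _ _)
    have h1 := mul_meas_ge_le_integral_of_nonneg (μ := μ)
      (f := fun x : ι → ℝ => min (dot (b i) x ^ 2) 1)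
      (Filter.Eventually.of_forall fun x => le_min (sq_nonneg _) zero_le_one) hmin 1
    have h2 : μ.real {x | 1 < |dot (b i) x|} ≤ μ.real {x | 1 ≤ min (dot (b i) x ^ 2) 1} := by
      refine measureReal_mono fun x hx => ?_
      simp only [Set.mem_ofPred_eq] at hx ⊢
      refine le_min ?_ le_rfl
      have : 1 < |dot (b i) x| ^ 2 := by nlinarith
      rw [sq_abs] at this
      exact this.le
    rw [one_mul] at h1
    exact h2.trans (h1.trans (hv i))
  have : {x : ι → ℝ | ∃ i, 1 < |dot (b i) x|} =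
      ⋃ i ∈ (Finset.univ : Finset ι'), {x | 1 < |dot (b i) x|} := by
    ext x; simp
  rw [this]
  calc _ ≤ _ := measureReal_biUnion_finset_le _ _
    _ ≤ ∑ i : ι', v := Finset.sum_le_sum fun i _ => hone i
    _ = _ := by simp

/-! ### scaling and nesting -/

theorem integrable_min {ι : Type*} [Fintype ι] (μ : Measure (ι → ℝ)) [IsProbabilityMeasure μ]
    (θ : ι → ℝ) : Integrable (fun x : ι → ℝ => min (dot θ x ^ 2) 1) μ := by
  have hdm : Measurable fun x : ι → ℝ => dot θ x :=
    (continuous_dot continuous_const continuous_id).measurable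
  exact Integrable.of_bound (((hdm.pow_const 2).min measurable_const).aestronglyMeasurable) 1
    (Filter.Eventually.of_forall fun x => by
      rw [Real.norm_eq_abs, abs_of_nonneg (le_min (sq_nonneg _) zero_le_one)]
      exact min_le_right _ _)

theorem dot_smul_left {ι : Type*} [Fintype ι] (r : ℝ) (θ x : ι → ℝ) :
    dot (r • θ) x = r * dot θ x := by
  simp [dot, Finset.mul_sum, mul_assoc]

/-- `g² (r θ) ≤ r² g² (θ)` for `r ≥ 1`. -/
theorem gg_smul_le {ι : Type*} [Fintype ι] (μ : Measure (ι → ℝ)) [IsProbabilityMeasure μ]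
    {r : ℝ} (hr : 1 ≤ r) (θ : ι → ℝ) :
    ∫ x, min (dot (r • θ) x ^ 2) 1 ∂μ ≤ r ^ 2 * ∫ x, min (dot θ x ^ 2) 1 ∂μ := by
  rw [← integral_const_mul]
  refine integral_mono (integrable_min μ _) ((integrable_min μ _).const_mul _) fun x => ?_
  simp only [dot_smul_left, mul_pow]
  have hr2 : 1 ≤ r ^ 2 := by nlinarith
  rcases le_total (dot θ x ^ 2) 1 with h | h
  · rw [min_eq_left h]; exact min_le_left _ _
  · rw [min_eq_right h, mul_one]; exact (min_le_right _ _).trans hr2

/-- `g²` is nondecreasing along rays. -/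
theorem gg_smul_mono {ι : Type*} [Fintype ι] (μ : Measure (ι → ℝ)) [IsProbabilityMeasure μ]
    {r : ℝ} (hr0 : 0 ≤ r) (hr : r ≤ 1) (θ : ι → ℝ) :
    ∫ x, min (dot (r • θ) x ^ 2) 1 ∂μ ≤ ∫ x, min (dot θ x ^ 2) 1 ∂μ := by
  refine integral_mono (integrable_min μ _) (integrable_min μ _) fun x => ?_
  simp only [dot_smul_left, mul_pow]
  have hr2 : r ^ 2 ≤ 1 := by nlinarith
  exact min_le_min (by nlinarith [sq_nonneg (dot θ x)]) le_rfl

/-- **Nesting of bodies**: if the frame `b'` of scale `s` spans every `θ` with `g² (θ) ≤ w`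
(coefficients at most one) and `g² (b i) ≤ v ≤ w`, then on the body of `b'` one has
`|b i · x| ≤ |ι'| √(v / w)`. -/
theorem nest {ι ι' : Type*} [Fintype ι] [Fintype ι'] (μ : Measure (ι → ℝ))
    [IsProbabilityMeasure μ] {v w : ℝ} (hv : 0 < v) (hvw : v ≤ w) (b' : ι' → ι → ℝ)
    (hspan : ∀ θ : ι → ℝ, ∫ x, min (dot θ x ^ 2) 1 ∂μ ≤ w →
      ∃ c : ι' → ℝ, (∀ j, |c j| ≤ 1) ∧ θ = ∑ j, c j • b' j)
    (θ : ι → ℝ) (hθ : ∫ x, min (dot θ x ^ 2) 1 ∂μ ≤ v) (x : ι → ℝ) (A : ℝ)
    (hx : ∀ j, |dot (b' j) x| ≤ A) :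
    |dot θ x| ≤ Fintype.card ι' * A * Real.sqrt (v / w) := by
  have hw : 0 < w := hv.trans_le hvw
  set r : ℝ := Real.sqrt (w / v) with hr
  have hr1 : 1 ≤ r := by
    rw [hr, Real.one_le_sqrt]; exact (one_le_div hv).2 hvw
  have hr0 : 0 < r := by linarith
  have hr2 : r ^ 2 = w / v := Real.sq_sqrt (by positivity)
  have h1 : ∫ x, min (dot (r • θ) x ^ 2) 1 ∂μ ≤ w := by
    calc _ ≤ _ := gg_smul_le μ hr1 θ
      _ ≤ r ^ 2 * v := by gcongr
      _ = w := by rw [hr2]; field_simp
  obtain ⟨c, hc, he⟩ := hspan _ h1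
  have h2 : r * dot θ x = ∑ j, c j * dot (b' j) x := by
    rw [← dot_smul_left, he]
    simp only [dot, Finset.sum_apply, Pi.smul_apply, smul_eq_mul, Finset.sum_mul, Finset.mul_sum]
    rw [Finset.sum_comm]
    exact Finset.sum_congr rfl fun j _ => Finset.sum_congr rfl fun i _ => by ring
  have h3 : |r * dot θ x| ≤ Fintype.card ι' * A := by
    rw [h2]
    calc |∑ j, c j * dot (b' j) x| ≤ ∑ j, |c j * dot (b' j) x| := Finset.abs_sum_le_sum_abs _ _
      _ ≤ ∑ j : ι', A := by
          refine Finset.sum_le_sum fun j _ => ?_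
          rw [abs_mul]
          calc |c j| * |dot (b' j) x| ≤ 1 * A :=
                mul_le_mul (hc j) (hx j) (abs_nonneg _) zero_le_one
            _ = A := one_mul A
      _ = _ := by simp
  rw [abs_mul, abs_of_pos hr0] at h3
  have h4 : Real.sqrt (v / w) = 1 / r := by
    rw [hr, one_div, ← Real.sqrt_inv, inv_div]
  rw [h4]
  rw [mul_one_div, le_div_iff₀ hr0]
  linarith

end Crest.Agent.R154.Tail480
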