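import Crest.Agent.R154.Hit_818
import Crest.Agent.R154.Tail_480

/-!
Row 154, block B3: maximal inequality for truncated symmetric sums ((b) of BODY).
-/

open MeasureTheory ProbabilityTheory Set
open scoped BigOperators ENNReal NNReal

namespace Crest.Agent.R154.Hit818

open Crest.Agent.R154.Tail480

variable {Ω : Type*} [MeasurableSpace Ω] {P : Measure Ω} [IsProbabilityMeasure P]

section gen
variable {V : Type*} [AddCommGroup V] [MeasurableSpace V] [MeasurableAdd₂ V] [MeasurableNeg V]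

/-- One fixed final time. -/
theorem hit_single {X : ℕ → Ω → V} (hX : ∀ k, Measurable (X k)) (hind : iIndepFun X P)
    {μ : Measure V} (hlaw : ∀ k, P.map (X k) = μ) {A B A' : Set V} (hA : MeasurableSet A)
    (hB : MeasurableSet B) (hA' : MeasurableSet A') (hAB : ∀ x ∈ A, ∀ u ∈ B, x + u ∈ A')
    (n : ℕ) (c : ℝ≥0∞) (hc : ∀ l ≤ n, c ≤ P {ω | S X l ω ∈ B}) :
    P {ω | ∃ j ≤ n, S X j ω ∈ A} * c ≤ P {ω | S X n ω ∈ A'} := by
  classical
  have hdis : Set.PairwiseDisjoint (↑(Finset.range (n + 1)) : Set ℕ) (First X A 0) := by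
    intro i hi j hj hij
    rw [Function.onFun, Set.disjoint_left]
    rintro ω ⟨h1, h2⟩ ⟨h3, h4⟩
    rcases lt_or_gt_of_ne hij with h | h
    · exact h4 i (Nat.zero_le _) h h1
    · exact h2 j (Nat.zero_le _) h h3
  have hcov : {ω | ∃ j ≤ n, S X j ω ∈ A} ⊆ ⋃ i ∈ Finset.range (n + 1), First X A 0 i := by
    rintro ω ⟨j, hjn, hj⟩
    have hex : ∃ j, S X j ω ∈ A := ⟨j, hj⟩
    have h1 := Nat.find_spec hex
    have h2 : Nat.find hex ≤ j := Nat.find_min' hex hj
    simp only [Set.mem_iUnion]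
    refine ⟨Nat.find hex, Finset.mem_range.2 (by omega), h1, fun k _ hki hk => ?_⟩
    exact Nat.find_min hex hki hk
  calc P {ω | ∃ j ≤ n, S X j ω ∈ A} * c
      ≤ (∑ i ∈ Finset.range (n + 1), P (First X A 0 i)) * c := by
        gcongr
        exact (measure_mono hcov).trans (measure_biUnion_finset_le _ _)
    _ = ∑ i ∈ Finset.range (n + 1), P (First X A 0 i) * c := by rw [Finset.sum_mul]
    _ ≤ ∑ i ∈ Finset.range (n + 1), P (First X A 0 i ∩ {ω | S X n ω ∈ A'}) := by
        refine Finset.sum_le_sum fun i hi => ?_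
        have hin : i ≤ n := by rw [Finset.mem_range] at hi; omega
        calc P (First X A 0 i) * c ≤ P (First X A 0 i) * P {ω | S X (n - i) ω ∈ B} := by
              gcongr
              exact hc _ (Nat.sub_le _ _)
          _ = P (First X A 0 i ∩ {ω | ∑ k ∈ Finset.range (n - i), X (i + k) ω ∈ B}) :=
              (first_indep hX hind hlaw hA hB 0 i (n - i)).symm
          _ ≤ _ := by
              refine measure_mono ?_
              rintro ω ⟨h1, h2⟩
              refine ⟨h1, ?_⟩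
              have h3 := hAB _ h1.1 _ h2
              rw [← S_add, Nat.add_sub_cancel' hin] at h3
              exact h3
    _ = P (⋃ i ∈ Finset.range (n + 1), (First X A 0 i ∩ {ω | S X n ω ∈ A'})) := by
        rw [measure_biUnion_finset]
        · intro i hi i' hi' hne
          exact (hdis hi hi' hne).mono (Set.inter_subset_left) (Set.inter_subset_left)
        · intro i _
          exact (measurableSet_First hX hA 0 i).inter (measurable_S hX n hA')
    _ ≤ P {ω | S X n ω ∈ A'} := by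
        refine measure_mono ?_
        intro ω hω
        simp only [Set.mem_iUnion] at hω
        obtain ⟨i, _, hω⟩ := hω
        exact hω.2

omit [MeasurableNeg V] in
/-- the law of the partial sum depends only on the law of the step -/
theorem map_S {X : ℕ → Ω → V} (hX : ∀ k, Measurable (X k)) (hind : iIndepFun X P)
    {μ : Measure V} (hlaw : ∀ k, P.map (X k) = μ) (n : ℕ) :
    P.map (S X n) = (Measure.pi fun _ : Fin n => μ).map (fun x : Fin n → V => ∑ i, x i) := by
  have hi : iIndepFun (fun i : Fin n => X i) P :=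
    hind.precomp (g := fun i : Fin n => (i : ℕ)) (fun i j hij => Fin.ext hij)
  have h1 := (iIndepFun_iff_map_fun_eq_pi_map (fun i => (hX _).aemeasurable)).1 hi
  have h2 : S X n = (fun x : Fin n → V => ∑ i, x i) ∘ (fun ω i => X (i : Fin n) ω) := by
    funext ω
    simp only [Function.comp, S]
    rw [Finset.sum_range]
  rw [h2, ← Measure.map_map (by fun_prop) (measurable_pi_lambda _ fun i => hX _), h1]
  simp only [hlaw]

/-- sums of symmetric independent variables are symmetric -/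
theorem map_S_neg {X : ℕ → Ω → V} (hX : ∀ k, Measurable (X k)) (hind : iIndepFun X P)
    {μ : Measure V} (hlaw : ∀ k, P.map (X k) = μ) (hs : μ.map (fun x => -x) = μ) (n : ℕ) :
    P.map (fun ω => - S X n ω) = P.map (S X n) := by
  have hneg : iIndepFun (fun k ω => - X k ω) P :=
    hind.comp (fun _ x => -x) (fun _ => measurable_neg)
  have h3 := map_S (X := fun k ω => - X k ω) (fun k => (hX k).neg) hneg (μ := μ) (fun k => by
    have e : P.map (fun ω => - X k ω) = (P.map (X k)).map (fun x => -x) := by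
      rw [Measure.map_map measurable_neg (hX k)]; rfl
    rw [e, hlaw k, hs]) n
  have h5 : (fun ω => - S X n ω) = S (fun k ω => - X k ω) n := by
    funext ω; simp [S]
  rw [h5, h3, map_S hX hind hlaw]

end gen

/-- A symmetric real variable is nonnegative with probability at least one half. -/
theorem half_le_of_symm (ν : Measure ℝ) [IsProbabilityMeasure ν] (hs : ν.map (fun x => -x) = ν) :
    (1/2 : ℝ≥0∞) ≤ ν {x | 0 ≤ x} := by
  have h1 : ν {x | x ≤ 0} = ν {x | 0 ≤ x} := by
    conv_lhs => rw [← hs]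
    have hm : Measurable fun x : ℝ => -x := measurable_neg
    have hI : MeasurableSet {x : ℝ | x ≤ 0} := measurableSet_Iic
    rw [Measure.map_apply hm hI]
    congr 1
    ext x; simp
  have h2 : (1 : ℝ≥0∞) ≤ ν {x | 0 ≤ x} + ν {x | x ≤ 0} := by
    have : (Set.univ : Set ℝ) ⊆ {x | 0 ≤ x} ∪ {x | x ≤ 0} := by
      intro x _
      rcases le_total 0 x with h | h
      · exact Or.inl h
      · exact Or.inr h
    calc (1 : ℝ≥0∞) = ν Set.univ := measure_univ.symm
      _ ≤ _ := measure_mono this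
      _ ≤ _ := measure_union_le _ _
  rw [h1, ← two_mul] at h2
  rw [one_div, ENNReal.inv_le_iff_le_mul (by simp) (by simp)]
  rw [mul_comm] at h2
  rwa [mul_comm]

theorem half_le_S {Y : ℕ → Ω → ℝ} (hY : ∀ k, Measurable (Y k)) (hind : iIndepFun Y P)
    {ν : Measure ℝ} (hlaw : ∀ k, P.map (Y k) = ν) (hs : ν.map (fun x => -x) = ν) (l : ℕ) :
    (2⁻¹ : ℝ≥0∞) ≤ P {ω | S Y l ω ∈ Set.Ici 0} := by
  have hp : IsProbabilityMeasure (P.map (S Y l)) :=
    Measure.isProbabilityMeasure_map (measurable_S hY l).aemeasurable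
  have h1 := half_le_of_symm (P.map (S Y l)) (by
    rw [Measure.map_map (by fun_prop) (measurable_S hY l)]
    exact map_S_neg hY hind hlaw hs l)
  have h2 : P.map (S Y l) {x | 0 ≤ x} = P {ω | S Y l ω ∈ Set.Ici 0} :=
    Measure.map_apply (measurable_S hY l) (measurableSet_Ici (a := (0:ℝ)))
  rw [h2, one_div] at h1
  exact h1

/-- **Levy's maximal inequality** (one side). -/
theorem levy_one {Y : ℕ → Ω → ℝ} (hY : ∀ k, Measurable (Y k)) (hind : iIndepFun Y P)
    {ν : Measure ℝ} (hlaw : ∀ k, P.map (Y k) = ν) (hs : ν.map (fun x => -x) = ν) (n : ℕ)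
    (r : ℝ) :
    P {ω | ∃ j ≤ n, r < S Y j ω} ≤ 2 * P {ω | r < S Y n ω} := by
  have h := hit_single (P := P) hY hind hlaw (A := Set.Ioi r) (B := Set.Ici 0) (A' := Set.Ioi r)
    measurableSet_Ioi measurableSet_Ici measurableSet_Ioi
    (fun x hx u hu => by simp only [Set.mem_Ioi, Set.mem_Ici] at *; linarith) n (2⁻¹)
    (fun l _ => half_le_S hY hind hlaw hs l)
  rw [mul_comm]
  rwa [← div_eq_mul_inv, ENNReal.div_le_iff (by simp) (by simp)] at h

/-- **Levy's maximal inequality** (two sides). -/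
theorem levy_two {Y : ℕ → Ω → ℝ} (hY : ∀ k, Measurable (Y k)) (hind : iIndepFun Y P)
    {ν : Measure ℝ} (hlaw : ∀ k, P.map (Y k) = ν) (hs : ν.map (fun x => -x) = ν) (n : ℕ)
    {r : ℝ} (hr : 0 ≤ r) :
    P {ω | ∃ j ≤ n, r < |S Y j ω|} ≤ 2 * P {ω | r < |S Y n ω|} := by
  have h1 := levy_one hY hind hlaw hs n r
  have hneg : iIndepFun (fun k ω => - Y k ω) P :=
    hind.comp (fun _ x => -x) (fun _ => measurable_neg)
  have hlaw' : ∀ k, P.map (fun ω => - Y k ω) = ν := fun k => by
    have e : P.map (fun ω => - Y k ω) = (P.map (Y k)).map (fun x => -x) := by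
      rw [Measure.map_map measurable_neg (hY k)]; rfl
    rw [e, hlaw k, hs]
  have hS : ∀ j ω, S (fun k ω => - Y k ω) j ω = - S Y j ω := by
    intro j ω; simp [S]
  have h2 : P {ω | ∃ j ≤ n, r < - S Y j ω} ≤ 2 * P {ω | r < - S Y n ω} := by
    have h2' := levy_one (Y := fun k ω => - Y k ω) (fun k => (hY k).neg) hneg hlaw' hs n r
    have e1 : {ω | ∃ j ≤ n, r < S (fun k ω => - Y k ω) j ω} = {ω | ∃ j ≤ n, r < - S Y j ω} := by
      ext ω; simp only [Set.mem_ofPred_eq, hS]
    have e2 : {ω | r < S (fun k ω => - Y k ω) n ω} = {ω | r < - S Y n ω} := by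
      ext ω; simp only [Set.mem_ofPred_eq, hS]
    rwa [e1, e2] at h2'
  have hsub : {ω | ∃ j ≤ n, r < |S Y j ω|} ⊆
      {ω | ∃ j ≤ n, r < S Y j ω} ∪ {ω | ∃ j ≤ n, r < - S Y j ω} := by
    rintro ω ⟨j, hj, h⟩
    rcases lt_abs.1 h with h | h
    · exact Or.inl ⟨j, hj, h⟩
    · exact Or.inr ⟨j, hj, h⟩
  have hdisj : P {ω | r < S Y n ω} + P {ω | r < - S Y n ω} = P {ω | r < |S Y n ω|} := by
    rw [← measure_union]
    · congr 1
      ext ω
      simp only [Set.mem_union, Set.mem_ofPred_eq]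
      exact lt_abs.symm
    · rw [Set.disjoint_left]
      intro ω hω hω'
      simp only [Set.mem_ofPred_eq] at hω hω'
      linarith
    · exact measurableSet_lt measurable_const (measurable_S hY n).neg
  calc _ ≤ _ := measure_mono hsub
    _ ≤ _ := measure_union_le _ _
    _ ≤ 2 * P {ω | r < S Y n ω} + 2 * P {ω | r < - S Y n ω} := add_le_add h1 h2
    _ = _ := by rw [← mul_add, hdisj]

/-- Chebyshev after truncation: `P (|Y_0 + .. + Y_{n-1}| > 1) ≤ n E min (Y², 1)`. -/
theorem cheb_tr {Y : ℕ → Ω → ℝ} (hY : ∀ k, Measurable (Y k)) (hind : iIndepFun Y P)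
    {ν : Measure ℝ} (hlaw : ∀ k, P.map (Y k) = ν) (hs : ν.map (fun x => -x) = ν) (n : ℕ)
    {v : ℝ} (hv : ∫ x, min (x ^ 2) 1 ∂ν ≤ v) :
    P.real {ω | 1 < |S Y n ω|} ≤ n * v := by
  have hν : IsProbabilityMeasure ν := by
    rw [← hlaw 0]; exact Measure.isProbabilityMeasure_map (hY _).aemeasurable
  set Z : ℕ → Ω → ℝ := fun k ω => tr (Y k ω) with hZ
  have hZm : ∀ k, Measurable (Z k) := fun k => measurable_tr.comp (hY k)
  have hZb : ∀ k ω, |Z k ω| ≤ 1 := fun k ω => abs_tr_le _
  have hZi : ∀ k, MemLp (Z k) 2 P := fun k =>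
    MemLp.of_bound (hZm k).aestronglyMeasurable 1 (ae_of_all _ fun ω => by
      rw [Real.norm_eq_abs]; exact hZb k ω)
  have hint : ∀ k, Integrable (Z k) P := fun k => (hZi k).integrable one_le_two
  have hmean : ∀ k, ∫ ω, Z k ω ∂P = 0 := by
    intro k
    have e1 : ∫ ω, Z k ω ∂P = ∫ x, tr x ∂ν := by
      rw [← hlaw k, integral_map (hY k).aemeasurable measurable_tr.aestronglyMeasurable]
    have e2 : ∫ x, tr x ∂ν = - ∫ x, tr x ∂ν := by
      conv_lhs => rw [← hs]
      rw [integral_map (by fun_prop) measurable_tr.aestronglyMeasurable]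
      simp only [tr_neg, integral_neg]
    rw [e1]; linarith
  have hindZ : iIndepFun Z P := hind.comp (fun _ => tr) (fun _ => measurable_tr)
  set T : Ω → ℝ := ∑ k ∈ Finset.range n, Z k with hT
  have hTL : MemLp T 2 P := memLp_finsetSum' (Finset.range n) (fun k _ => hZi k)
  have hTapp : ∀ ω, T ω = ∑ k ∈ Finset.range n, Z k ω := fun ω => by
    rw [hT, Finset.sum_apply]
  have hTmean : ∫ ω, T ω ∂P = 0 := by
    simp only [hTapp]
    rw [integral_finsetSum _ (fun k _ => hint k)]
    simp [hmean]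
  have hv2 : ∀ k, Var[Z k; P] = ∫ x, tr x ^ 2 ∂ν := by
    intro k
    rw [variance_of_integral_eq_zero (hZm k).aemeasurable (hmean k), ← hlaw k,
      integral_map (hY k).aemeasurable (measurable_tr.pow_const 2).aestronglyMeasurable]
  have hvar : Var[T; P] = n * ∫ x, tr x ^ 2 ∂ν := by
    rw [hT, IndepFun.variance_sum (fun k _ => hZi k)
      (fun i _ j _ hij => hindZ.indepFun hij)]
    simp [hv2]
  have hch := meas_ge_le_variance_div_sq hTL one_pos
  have hTm : ∫ ω, T ω ∂P = 0 := hTmean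
  rw [hTm, hvar] at hch
  simp only [sub_zero, one_pow, div_one] at hch
  -- the union bound for the big jumps
  have hbig : P {ω | ∃ k < n, 1 < |Y k ω|} ≤ n * ν {x | 1 < |x|} := by
    have hsub : {ω | ∃ k < n, 1 < |Y k ω|} ⊆ ⋃ k ∈ Finset.range n, (Y k) ⁻¹' {x | 1 < |x|} := by
      rintro ω ⟨k, hk, h⟩
      simp only [Set.mem_iUnion]
      exact ⟨k, Finset.mem_range.2 hk, h⟩
    have hms : MeasurableSet {x : ℝ | 1 < |x|} := measurableSet_lt measurable_const measurable_id.abs
    calc _ ≤ _ := measure_mono hsub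
      _ ≤ ∑ k ∈ Finset.range n, P ((Y k) ⁻¹' {x | 1 < |x|}) := measure_biUnion_finset_le _ _
      _ = ∑ k ∈ Finset.range n, ν {x | 1 < |x|} := by
          refine Finset.sum_congr rfl fun k _ => ?_
          rw [← hlaw k, Measure.map_apply (hY k) hms]
      _ = _ := by simp
  have hsub : {ω | 1 < |S Y n ω|} ⊆ {ω | ∃ k < n, 1 < |Y k ω|} ∪ {ω | 1 ≤ |T ω|} := by
    intro ω hω
    by_cases h : ∃ k < n, 1 < |Y k ω|
    · exact Or.inl h
    · right
      push Not at h
      have : T ω = S Y n ω := by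
        rw [hTapp, S]
        refine Finset.sum_congr rfl fun k hk => ?_
        rw [Finset.mem_range] at hk
        simp only [hZ, tr, if_pos (h k hk)]
      simp only [Set.mem_ofPred_eq] at hω ⊢
      rw [this]; exact hω.le
  have hms : MeasurableSet {x : ℝ | 1 < |x|} := measurableSet_lt measurable_const measurable_id.abs
  have hfin : (P {ω | 1 < |S Y n ω|}).toReal ≤
      n * (ν {x | 1 < |x|}).toReal + n * ∫ x, tr x ^ 2 ∂ν := by
    have h0 : 0 ≤ ∫ x, tr x ^ 2 ∂ν := integral_nonneg fun x => sq_nonneg _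
    have h1 : P {ω | 1 < |S Y n ω|} ≤ n * ν {x | 1 < |x|} +
        ENNReal.ofReal (n * ∫ x, tr x ^ 2 ∂ν) :=
      (measure_mono hsub).trans ((measure_union_le _ _).trans (add_le_add hbig hch))
    have h2 := ENNReal.toReal_mono (by
      refine ENNReal.add_ne_top.2 ⟨ENNReal.mul_ne_top (by simp) (measure_ne_top _ _), ?_⟩
      exact ENNReal.ofReal_ne_top) h1
    rwa [ENNReal.toReal_add (ENNReal.mul_ne_top (by simp) (measure_ne_top _ _))
      ENNReal.ofReal_ne_top, ENNReal.toReal_mul, ENNReal.toReal_natCast,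
      ENNReal.toReal_ofReal (by positivity)] at h2
  have hi1 : Integrable (fun x : ℝ => tr x ^ 2) ν :=
    Integrable.of_bound (measurable_tr.pow_const 2).aestronglyMeasurable 1
      (ae_of_all _ fun x => by
        rw [Real.norm_eq_abs, abs_of_nonneg (sq_nonneg _)]
        exact (tr_sq_le x).trans (min_le_right _ _))
  have hi2 : Integrable (({x : ℝ | 1 < |x|}).indicator fun _ => (1:ℝ)) ν :=
    (integrable_const 1).indicator hms
  have hi3 : Integrable (fun x : ℝ => min (x ^ 2) 1) ν :=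
    Integrable.of_bound (by fun_prop) 1
      (Filter.Eventually.of_forall fun x => by
        rw [Real.norm_eq_abs, abs_of_nonneg (le_min (sq_nonneg x) zero_le_one)]
        exact min_le_right _ _)
  have hsum : (ν {x | 1 < |x|}).toReal + ∫ x, tr x ^ 2 ∂ν ≤ ∫ x, min (x ^ 2) 1 ∂ν := by
    have e1 : (ν {x | 1 < |x|}).toReal = ∫ x, ({x : ℝ | 1 < |x|}).indicator (fun _ => (1:ℝ)) x ∂ν := by
      rw [integral_indicator hms]
      simp [Measure.real]
    rw [e1, ← integral_add hi2 hi1]
    refine integral_mono (hi2.add hi1) hi3 fun x => ?_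
    by_cases hx : 1 < |x|
    · have h1 : 1 ≤ x ^ 2 := by rw [← sq_abs]; nlinarith
      simp only [Set.indicator, Set.mem_ofPred_eq, hx, if_true, tr, if_neg (not_le.2 hx)]
      rw [min_eq_right h1]; norm_num
    · simp only [Set.indicator, Set.mem_ofPred_eq, hx, if_false]
      have := tr_sq_le x
      linarith
  have h0 : (0:ℝ) ≤ n := Nat.cast_nonneg n
  calc P.real {ω | 1 < |S Y n ω|} ≤ n * ((ν {x | 1 < |x|}).toReal + ∫ x, tr x ^ 2 ∂ν) := by
        rw [mul_add]; exact hfin
    _ ≤ n * v := mul_le_mul_of_nonneg_left (hsum.trans hv) h0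

/-- `P (max_{j ≤ n} |Y_0 + .. + Y_{j-1}| > 1) ≤ 2 n E min (Y², 1)`. -/
theorem max_tr {Y : ℕ → Ω → ℝ} (hY : ∀ k, Measurable (Y k)) (hind : iIndepFun Y P)
    {ν : Measure ℝ} (hlaw : ∀ k, P.map (Y k) = ν) (hs : ν.map (fun x => -x) = ν) (n : ℕ)
    {v : ℝ} (hv : ∫ x, min (x ^ 2) 1 ∂ν ≤ v) :
    P.real {ω | ∃ j ≤ n, 1 < |S Y j ω|} ≤ 2 * (n * v) := by
  have h1 := levy_two hY hind hlaw hs n zero_le_one
  have h2 := cheb_tr hY hind hlaw hs n hv
  have h3 := ENNReal.toReal_mono (ENNReal.mul_ne_top (by simp) (measure_ne_top _ _)) h1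
  rw [ENNReal.toReal_mul] at h3
  simp only [ENNReal.toReal_ofNat] at h3
  calc _ ≤ _ := h3
    _ ≤ _ := by
      have : (P {ω | 1 < |S Y n ω|}).toReal ≤ n * v := h2
      linarith

end Crest.Agent.R154.Hit818
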