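import Crest.Agent.R154.BodyDefs_818
import Crest.Agent.R154.ConcC_412
import Crest.Agent.R154.Max_818

/-!
Row 154, block B3: parts (b) and (c) of BODY.
-/

open MeasureTheory ProbabilityTheory Set
open scoped BigOperators ENNReal NNReal

namespace Crest.Agent.R154.Body818

open Crest.Agent.R154.Conc412 Crest.Agent.R154.Hit818

theorem min_sq_le_pm (a b : ℝ) : min (a ^ 2) 1 ≤ min ((a - b) ^ 2) 1 + min ((a + b) ^ 2) 1 := by
  rcases le_total 0 (a * b) with h | h
  · have : a ^ 2 ≤ (a + b) ^ 2 := by nlinarith [sq_nonneg b]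
    have h1 : min (a ^ 2) 1 ≤ min ((a + b) ^ 2) 1 := min_le_min this le_rfl
    have h2 : 0 ≤ min ((a - b) ^ 2) 1 := le_min (sq_nonneg _) zero_le_one
    linarith
  · have : a ^ 2 ≤ (a - b) ^ 2 := by nlinarith [sq_nonneg b]
    have h1 : min (a ^ 2) 1 ≤ min ((a - b) ^ 2) 1 := min_le_min this le_rfl
    have h2 : 0 ≤ min ((a + b) ^ 2) 1 := le_min (sq_nonneg _) zero_le_one
    linarith

/-- For a symmetric law, `g²` of the step is at most twice `g²` of the difference. -/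
theorem gg_le_two_diff {μ : Measure (Fin 2 → ℝ)} [IsProbabilityMeasure μ]
    (hs : μ.map (fun x => -x) = μ) (v : Fin 2 → ℝ) : gg μ v ≤ 2 * gg (diffLaw μ) v := by
  have hd : ∀ (F : ℝ → ℝ), Continuous F → (∀ x, |F x| ≤ 1) →
      ∫ x, F (dot v x) ∂(diffLaw μ) = ∫ p, F (dot v p.1 - dot v p.2) ∂(μ.prod μ) := by
    intro F hF _
    unfold diffLaw
    rw [integral_map (by fun_prop) (Continuous.aestronglyMeasurable (by fun_prop))]
    refine integral_congr_ae (ae_of_all _ fun p => ?_)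
    simp only [dot_sub_right]
  set F : ℝ → ℝ := fun x => min (x ^ 2) 1 with hF
  have hFc : Continuous F := by rw [hF]; fun_prop
  have hFb : ∀ x, |F x| ≤ 1 := fun x => by
    rw [hF]; simp only
    rw [abs_of_nonneg (le_min (sq_nonneg _) zero_le_one)]; exact min_le_right _ _
  have hint : ∀ (G : (Fin 2 → ℝ) × (Fin 2 → ℝ) → ℝ), Continuous G →
      Integrable (fun p => F (G p)) (μ.prod μ) := fun G hG =>
    Integrable.of_bound (hFc.comp hG).aestronglyMeasurable 1 (ae_of_all _ fun p => hFb _)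
  have e1 : gg (diffLaw μ) v = ∫ p, F (dot v p.1 - dot v p.2) ∂(μ.prod μ) := hd F hFc hFb
  have e2 : ∫ p, F (dot v p.1 - dot v p.2) ∂(μ.prod μ) =
      ∫ p, F (dot v p.1 + dot v p.2) ∂(μ.prod μ) := by
    have hprod : (μ.prod μ).map (Prod.map id (fun x => -x)) = μ.prod μ := by
      have := Measure.map_prod_map μ μ (f := (id : (Fin 2 → ℝ) → (Fin 2 → ℝ)))
        (g := fun x => -x) measurable_id (by fun_prop)
      rw [← this, Measure.map_id, hs]
    conv_lhs => rw [← hprod]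
    rw [integral_map (by fun_prop) (Continuous.aestronglyMeasurable (by
      exact hFc.comp (by fun_prop)))]
    refine integral_congr_ae (ae_of_all _ fun p => ?_)
    have : dot v p.1 - dot v (-p.2) = dot v p.1 + dot v p.2 := by
      simp only [dot, Fin.sum_univ_two, Pi.neg_apply]; ring
    simp only [Prod.map, id]
    rw [this]
  have e3 : gg μ v = ∫ p, F (dot v p.1) ∂(μ.prod μ) := by
    have := integral_fun_fst (μ := μ) (ν := μ) (fun x => F (dot v x))
    rw [this]; simp [gg, hF]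
  have h4 : ∫ p, F (dot v p.1) ∂(μ.prod μ) ≤
      ∫ p, (F (dot v p.1 - dot v p.2) + F (dot v p.1 + dot v p.2)) ∂(μ.prod μ) := by
    refine integral_mono (hint _ (by fun_prop))
      ((hint (fun p => dot v p.1 - dot v p.2) (by fun_prop)).add
        (hint (fun p => dot v p.1 + dot v p.2) (by fun_prop))) fun p => min_sq_le_pm _ _
  rw [integral_add (hint (fun p => dot v p.1 - dot v p.2) (by fun_prop))
    (hint (fun p => dot v p.1 + dot v p.2) (by fun_prop)), ← e2, ← e1, ← e3] at h4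
  linarith

theorem abs_dot_le_norm (v x : Fin 2 → ℝ) : |dot v x| ≤ 2 * ‖v‖ * ‖x‖ := by
  have h0 : |v 0 * x 0| ≤ ‖v‖ * ‖x‖ := by
    rw [abs_mul]
    exact mul_le_mul (norm_le_pi_norm v 0) (norm_le_pi_norm x 0) (abs_nonneg _) (norm_nonneg _)
  have h1 : |v 1 * x 1| ≤ ‖v‖ * ‖x‖ := by
    rw [abs_mul]
    exact mul_le_mul (norm_le_pi_norm v 1) (norm_le_pi_norm x 1) (abs_nonneg _) (norm_nonneg _)
  simp only [dot, Fin.sum_univ_two]
  have := abs_add_le (v 0 * x 0) (v 1 * x 1)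
  linarith

/-- A functional with small `g²` is small in norm. -/
theorem norm_le_of_gg {μ : Measure (Fin 2 → ℝ)} [IsProbabilityMeasure μ] {p : ℝ} (hp0 : 0 < p)
    (hp : ∀ v : Fin 2 → ℝ, ‖v‖ = 1 → p ≤ gg μ v) {v : Fin 2 → ℝ} {w : ℝ} (hw : w < p)
    (hv : gg μ v ≤ w) : ‖v‖ ≤ Real.sqrt (w / p) := by
  have h1 : ‖v‖ < 1 := by
    by_contra h
    push Not at h
    have := gg_ge_of_norm hp h
    linarith
  rcases eq_or_lt_of_le (norm_nonneg v) with h0 | h0
  · rw [← h0]; exact Real.sqrt_nonneg _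
  · have h2 : 1 ≤ |(‖v‖⁻¹ : ℝ)| := by
      rw [abs_of_pos (by positivity)]
      exact (one_le_inv₀ h0).2 h1.le
    have h3 := gg_smul_le μ h2 v
    have h4 : ‖(‖v‖⁻¹ : ℝ) • v‖ = 1 := by
      rw [norm_smul, norm_inv, norm_norm, inv_mul_cancel₀ h0.ne']
    have h5 := hp _ h4
    have h6 : p ≤ (‖v‖⁻¹) ^ 2 * w :=
      h5.trans (h3.trans (mul_le_mul_of_nonneg_left hv (sq_nonneg _)))
    have h7 : ‖v‖ ^ 2 ≤ w / p := by
      rw [le_div_iff₀ hp0]
      have h8 : ‖v‖ ^ 2 * p ≤ ‖v‖ ^ 2 * ((‖v‖⁻¹) ^ 2 * w) :=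
        mul_le_mul_of_nonneg_left h6 (sq_nonneg _)
      have h9 : ‖v‖ ^ 2 * ((‖v‖⁻¹) ^ 2 * w) = w := by
        rw [← mul_assoc, ← mul_pow, mul_inv_cancel₀ h0.ne', one_pow, one_mul]
      linarith
    exact Real.le_sqrt_of_sq_le h7

/-- **(b)**: maximal inequality for the body. -/
theorem body_max {Ω : Type*} [MeasurableSpace Ω] {P : Measure Ω} [IsProbabilityMeasure P]
    {μ : Measure (Fin 2 → ℝ)} [IsProbabilityMeasure μ] (hs : μ.map (fun x => -x) = μ)
    {X : ℕ → Ω → Fin 2 → ℝ} (hX : IID P μ X) (b : Fin 2 → Fin 2 → ℝ) {v : ℝ}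
    (hv : ∀ i, gg μ (b i) ≤ v) (n : ℕ) :
    P.real {ω | ∃ j ≤ n, ∃ i, 1 < |dot (b i) (Sum X j ω)|} ≤ 4 * (n * v) := by
  have hdm : ∀ i, Measurable fun x : Fin 2 → ℝ => dot (b i) x := fun i => by fun_prop
  have hone : ∀ i, P.real {ω | ∃ j ≤ n, 1 < |S (fun k ω => dot (b i) (X k ω)) j ω|} ≤
      2 * (n * v) := by
    intro i
    refine max_tr (ν := μ.map (fun x => dot (b i) x)) (fun k => (hdm i).comp (hX.meas k))
      (hX.indep.comp (fun _ x => dot (b i) x) (fun _ => hdm i)) (fun k => ?_) ?_ n ?_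
    · rw [← hX.law k, Measure.map_map (hdm i) (hX.meas k)]; try rfl
    · conv_rhs => rw [← hs]
      rw [Measure.map_map (by fun_prop) (hdm i), Measure.map_map (hdm i) (by fun_prop)]
      congr 1
      funext x
      simp only [Function.comp, dot, Fin.sum_univ_two, Pi.neg_apply]; ring
    · rw [integral_map (hdm i).aemeasurable (Continuous.aestronglyMeasurable (by fun_prop))]
      exact hv i
  have hdot : ∀ i j ω, dot (b i) (Sum X j ω) = S (fun k ω => dot (b i) (X k ω)) j ω := by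
    intro i j ω
    rw [Sum, dot_sum_right]; rfl
  have hsub : {ω | ∃ j ≤ n, ∃ i, 1 < |dot (b i) (Sum X j ω)|} ⊆
      {ω | ∃ j ≤ n, 1 < |S (fun k ω => dot (b 0) (X k ω)) j ω|} ∪
      {ω | ∃ j ≤ n, 1 < |S (fun k ω => dot (b 1) (X k ω)) j ω|} := by
    rintro ω ⟨j, hj, i, h⟩
    rw [hdot] at h
    fin_cases i
    · exact Or.inl ⟨j, hj, h⟩
    · exact Or.inr ⟨j, hj, h⟩
  calc _ ≤ _ := measureReal_mono hsub
    _ ≤ _ := measureReal_union_le _ _
    _ ≤ 2 * (n * v) + 2 * (n * v) := add_le_add (hone 0) (hone 1)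
    _ = _ := by ring

end Crest.Agent.R154.Body818
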