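import Crest.Agent.R154.ConcB_412

/-!
Row 154, block B3: literal statement of the packaged output (BODY) used by B4 (one-scale form).
-/

open MeasureTheory ProbabilityTheory Set
open scoped BigOperators ENNReal NNReal

namespace Crest.Agent.R154.Body818

open Crest.Agent.R154.Conc412

/-- partial sums of a sequence of random vectors -/
def Sum {Ω : Type*} (X : ℕ → Ω → Fin 2 → ℝ) (n : ℕ) (ω : Ω) : Fin 2 → ℝ :=
  ∑ k ∈ Finset.range n, X k ω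

/-- `X` is an iid sequence with law `μ`. -/
structure IID {Ω : Type*} [MeasurableSpace Ω] (P : Measure Ω) (μ : Measure (Fin 2 → ℝ))
    (X : ℕ → Ω → Fin 2 → ℝ) : Prop where
  meas : ∀ k, Measurable (X k)
  indep : iIndepFun X P
  law : ∀ k, P.map (X k) = μ

/-- **(BODY)**: for all `ε`, `R` there are `C`, `N₀` (depending only on the law `μ`) and for all
`N ≥ N₀` a frame `b` (depending only on `μ` and `N`), with `K = {x | ∀ i, |b i · x| ≤ 1}`: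
(a) `sup_y P (∃ j ∈ [N/R, R N], S_j ∈ y + 3K) ≤ ε`;
(b) `P (max_{j ≤ n} S_j ∉ K) ≤ C n / N` for every `n`;
(c) `K` contains the ball of radius `√N / C`. -/
def BodyProp (μ : Measure (Fin 2 → ℝ)) : Prop :=
  ∀ ε : ℝ, 0 < ε → ∀ R : ℕ, 1 ≤ R → ∃ C : ℝ, 0 < C ∧ ∃ N₀ : ℕ, ∀ N : ℕ, N₀ ≤ N →
    ∃ b : Fin 2 → Fin 2 → ℝ,
      (∀ i, ∀ x : Fin 2 → ℝ, |dot (b i) x| ≤ C / Real.sqrt N * ‖x‖) ∧
      ∀ (Ω : Type) [MeasurableSpace Ω] (P : Measure Ω) [IsProbabilityMeasure P]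
        (X : ℕ → Ω → Fin 2 → ℝ), IID P μ X →
        (∀ y : Fin 2 → ℝ, P.real {ω | ∃ j : ℕ, N ≤ R * j ∧ j ≤ R * N ∧
            ∀ i, |dot (b i) (Sum X j ω - y)| ≤ 3} ≤ ε) ∧
        (∀ n : ℕ, P.real {ω | ∃ j ≤ n, ∃ i, 1 < |dot (b i) (Sum X j ω)|} ≤ C * n / N)

end Crest.Agent.R154.Body818
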