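import Mathlib

/-!
Row 154, block B3: the second moment argument (first hitting decomposition) for sums of iid vectors,
in a general measurable additive group.
-/

open MeasureTheory ProbabilityTheory Set
open scoped BigOperators ENNReal NNReal

namespace Crest.Agent.R154.Hit818

variable {V : Type*} [AddCommGroup V] [MeasurableSpace V] [MeasurableAdd₂ V] [MeasurableNeg V]
variable {Ω : Type*} [MeasurableSpace Ω] {P : Measure Ω} [IsProbabilityMeasure P]

/-- partial sums -/
def S (X : ℕ → Ω → V) (n : ℕ) (ω : Ω) : V := ∑ k ∈ Finset.range n, X k ω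

theorem measurable_S {X : ℕ → Ω → V} (hX : ∀ k, Measurable (X k)) (n : ℕ) :
    Measurable (S X n) := by
  unfold S; fun_prop

/-- the law of a block sum does not depend on the block -/
theorem map_block {X : ℕ → Ω → V} (hX : ∀ k, Measurable (X k)) (hind : iIndepFun X P)
    {μ : Measure V} (hlaw : ∀ k, P.map (X k) = μ) (a n : ℕ) :
    P.map (fun ω => ∑ k ∈ Finset.range n, X (a + k) ω) = P.map (S X n) := by
  have key : ∀ a : ℕ, P.map (fun ω => ∑ k ∈ Finset.range n, X (a + k) ω) =
      (Measure.pi fun _ : Fin n => μ).map (fun x : Fin n → V => ∑ i, x i) := by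
    intro a
    have hi : iIndepFun (fun i : Fin n => X (a + i)) P := by
      refine hind.precomp (g := fun i : Fin n => a + (i : ℕ)) ?_
      intro i j hij
      exact Fin.ext (by simpa using hij)
    have h1 := (iIndepFun_iff_map_fun_eq_pi_map (fun i => (hX _).aemeasurable)).1 hi
    have h2 : (fun ω => ∑ k ∈ Finset.range n, X (a + k) ω) =
        (fun x : Fin n → V => ∑ i, x i) ∘ (fun ω i => X (a + (i : Fin n)) ω) := by
      funext ω
      simp only [Function.comp]
      rw [Finset.sum_range]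
    rw [h2, ← Measure.map_map (by fun_prop) (measurable_pi_lambda _ fun i => hX _), h1]
    simp only [hlaw]
  have h0 := key 0
  simp only [zero_add] at h0
  rw [key a]
  exact h0.symm

theorem S_add (X : ℕ → Ω → V) (i l : ℕ) (ω : Ω) :
    S X (i + l) ω = S X i ω + ∑ k ∈ Finset.range l, X (i + k) ω := by
  simp [S, Finset.sum_range_add]

/-- first hitting of `A` in `[a, ∞)` at time `i` -/
def First (X : ℕ → Ω → V) (A : Set V) (a i : ℕ) : Set Ω :=
  {ω | S X i ω ∈ A ∧ ∀ j, a ≤ j → j < i → S X j ω ∉ A}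

theorem first_indep {X : ℕ → Ω → V} (hX : ∀ k, Measurable (X k)) (hind : iIndepFun X P)
    {μ : Measure V} (hlaw : ∀ k, P.map (X k) = μ) {A B : Set V} (hA : MeasurableSet A)
    (hB : MeasurableSet B) (a i l : ℕ) :
    P (First X A a i ∩ {ω | ∑ k ∈ Finset.range l, X (i + k) ω ∈ B}) =
      P (First X A a i) * P {ω | S X l ω ∈ B} := by
  have h0 := hind.indepFun_finset (Finset.range i) (Finset.Ico i (i + l))
    (Finset.disjoint_left.2 fun k hk hk' => by
      simp only [Finset.mem_range, Finset.mem_Ico] at hk hk'; omega) hX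
  -- the past set
  set T1 : Set ((k : Finset.range i) → V) := {x | (∑ k, x k) ∈ A ∧ ∀ j, a ≤ j → j < i →
    (∑ k : Finset.range i, if (k : ℕ) < j then x k else 0) ∉ A} with hT1
  set T2 : Set ((k : Finset.Ico i (i + l)) → V) := {x | (∑ k, x k) ∈ B} with hT2
  have mT1 : MeasurableSet T1 := by
    have : T1 = {x | (∑ k, x k) ∈ A} ∩ ⋂ j ∈ Finset.Ico a i,
        {x | (∑ k : Finset.range i, if (k : ℕ) < j then x k else 0) ∈ Aᶜ} := by
      ext x
      simp [hT1, Finset.mem_Ico]
    rw [this]
    refine MeasurableSet.inter ?_ (Finset.measurableSet_biInter _ fun j _ => ?_)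
    · exact (Finset.measurable_sum _ fun k _ => measurable_pi_apply k) hA
    · refine (Finset.measurable_sum _ fun k _ => ?_) hA.compl
      split_ifs
      · exact measurable_pi_apply k
      · exact measurable_const
  have mT2 : MeasurableSet T2 :=
    (Finset.measurable_sum _ fun k _ => measurable_pi_apply k) hB
  have h1 := h0.measure_inter_preimage_eq_mul T1 T2 mT1 mT2
  have e1 : (fun ω (k : Finset.range i) => X k ω) ⁻¹' T1 = First X A a i := by
    ext ω
    simp only [hT1, Set.mem_preimage, Set.mem_setOf_eq, First, S]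
    have hs : ∀ j ≤ i, (∑ k : Finset.range i, if (k : ℕ) < j then X k ω else 0) =
        ∑ k ∈ Finset.range j, X k ω := by
      intro j hj
      rw [Finset.sum_coe_sort (Finset.range i) (fun k => if k < j then X k ω else 0),
        ← Finset.sum_filter]
      congr 1
      ext k; simp only [Finset.mem_filter, Finset.mem_range]; omega
    rw [Finset.sum_coe_sort (Finset.range i) (fun k => X k ω)]
    constructor
    · rintro ⟨h, h'⟩
      refine ⟨h, fun j haj hji => ?_⟩
      rw [← hs j hji.le]; exact h' j haj hji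
    · rintro ⟨h, h'⟩
      refine ⟨h, fun j haj hji => ?_⟩
      rw [hs j hji.le]; exact h' j haj hji
  have e2 : (fun ω (k : Finset.Ico i (i + l)) => X k ω) ⁻¹' T2 =
      {ω | ∑ k ∈ Finset.range l, X (i + k) ω ∈ B} := by
    ext ω
    simp only [hT2, Set.mem_preimage, Set.mem_setOf_eq]
    rw [Finset.sum_coe_sort (Finset.Ico i (i + l)) (fun k => X k ω), Finset.sum_Ico_eq_sum_range]
    simp
  rw [e1, e2] at h1
  rw [h1]
  congr 1
  have h2 := map_block hX hind hlaw i l
  have m1 : Measurable fun ω => ∑ k ∈ Finset.range l, X (i + k) ω := by fun_prop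
  have h3 : P {ω | ∑ k ∈ Finset.range l, X (i + k) ω ∈ B} =
      P.map (fun ω => ∑ k ∈ Finset.range l, X (i + k) ω) B := (Measure.map_apply m1 hB).symm
  rw [h3, h2, Measure.map_apply (measurable_S hX l) hB]
  rfl

theorem measurableSet_First {X : ℕ → Ω → V} (hX : ∀ k, Measurable (X k)) {A : Set V}
    (hA : MeasurableSet A) (a i : ℕ) : MeasurableSet (First X A a i) := by
  have : First X A a i = (S X i) ⁻¹' A ∩ ⋂ j ∈ Finset.Ico a i, ((S X j) ⁻¹' A)ᶜ := by
    ext ω
    simp [First, Finset.mem_Ico]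
  rw [this]
  refine (measurable_S hX i hA).inter (Finset.measurableSet_biInter _ fun j _ => ?_)
  exact (measurable_S hX j hA).compl

/-- **Second moment (first hitting) inequality.** -/
theorem hit_mul_le {X : ℕ → Ω → V} (hX : ∀ k, Measurable (X k)) (hind : iIndepFun X P)
    {μ : Measure V} (hlaw : ∀ k, P.map (X k) = μ) {A B A' : Set V} (hA : MeasurableSet A)
    (hB : MeasurableSet B) (hA' : MeasurableSet A') (hAB : ∀ x ∈ A, ∀ u ∈ B, x + u ∈ A')
    (a b L : ℕ) :
    P {ω | ∃ j, a ≤ j ∧ j < b ∧ S X j ω ∈ A} * ∑ l ∈ Finset.range L, P {ω | S X l ω ∈ B} ≤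
      ∑ j ∈ Finset.Ico a (b + L), P {ω | S X j ω ∈ A'} := by
  classical
  have hdis : Set.PairwiseDisjoint (↑(Finset.Ico a b) : Set ℕ) (First X A a) := by
    intro i hi j hj hij
    simp only [Finset.coe_Ico, Set.mem_Ico] at hi hj
    rw [Function.onFun, Set.disjoint_left]
    rintro ω ⟨h1, h2⟩ ⟨h3, h4⟩
    rcases lt_or_gt_of_ne hij with h | h
    · exact h4 i hi.1 h h1
    · exact h2 j hj.1 h h3
  have hcov : {ω | ∃ j, a ≤ j ∧ j < b ∧ S X j ω ∈ A} ⊆
      ⋃ i ∈ Finset.Ico a b, First X A a i := by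
    rintro ω ⟨j, haj, hjb, hj⟩
    have hex : ∃ j, a ≤ j ∧ S X j ω ∈ A := ⟨j, haj, hj⟩
    set i := Nat.find hex with hi
    have h1 := Nat.find_spec hex
    have h2 : i ≤ j := Nat.find_min' hex ⟨haj, hj⟩
    simp only [Set.mem_iUnion]
    refine ⟨i, Finset.mem_Ico.2 ⟨h1.1, lt_of_le_of_lt h2 hjb⟩, h1.2, fun k hak hki hk => ?_⟩
    exact Nat.find_min hex hki ⟨hak, hk⟩
  calc P {ω | ∃ j, a ≤ j ∧ j < b ∧ S X j ω ∈ A} * ∑ l ∈ Finset.range L, P {ω | S X l ω ∈ B}
      ≤ (∑ i ∈ Finset.Ico a b, P (First X A a i)) *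
          ∑ l ∈ Finset.range L, P {ω | S X l ω ∈ B} := by
        gcongr
        refine (measure_mono hcov).trans (measure_biUnion_finset_le _ _)
    _ = ∑ i ∈ Finset.Ico a b, ∑ l ∈ Finset.range L,
          P (First X A a i ∩ {ω | ∑ k ∈ Finset.range l, X (i + k) ω ∈ B}) := by
        rw [Finset.sum_mul_sum]
        refine Finset.sum_congr rfl fun i _ => Finset.sum_congr rfl fun l _ => ?_
        rw [first_indep hX hind hlaw hA hB]
    _ ≤ ∑ i ∈ Finset.Ico a b, ∑ l ∈ Finset.range L,
          P (First X A a i ∩ {ω | S X (i + l) ω ∈ A'}) := by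
        refine Finset.sum_le_sum fun i _ => Finset.sum_le_sum fun l _ => measure_mono ?_
        rintro ω ⟨h1, h2⟩
        refine ⟨h1, ?_⟩
        simp only [Set.mem_setOf_eq] at h2 ⊢
        rw [S_add]
        exact hAB _ h1.1 _ h2
    _ ≤ ∑ i ∈ Finset.Ico a b, ∑ j ∈ Finset.Ico a (b + L),
          P (First X A a i ∩ {ω | S X j ω ∈ A'}) := by
        refine Finset.sum_le_sum fun i hi => ?_
        rw [Finset.mem_Ico] at hi
        have : ∑ l ∈ Finset.range L, P (First X A a i ∩ {ω | S X (i + l) ω ∈ A'}) =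
            ∑ j ∈ Finset.Ico i (i + L), P (First X A a i ∩ {ω | S X j ω ∈ A'}) := by
          rw [Finset.sum_Ico_eq_sum_range]; simp
        rw [this]
        refine Finset.sum_le_sum_of_subset fun j hj => ?_
        rw [Finset.mem_Ico] at hj ⊢
        omega
    _ = ∑ j ∈ Finset.Ico a (b + L), ∑ i ∈ Finset.Ico a b,
          P (First X A a i ∩ {ω | S X j ω ∈ A'}) := Finset.sum_comm
    _ ≤ ∑ j ∈ Finset.Ico a (b + L), P {ω | S X j ω ∈ A'} := by
        refine Finset.sum_le_sum fun j _ => ?_
        rw [← measure_biUnion_finset]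
        · refine measure_mono ?_
          intro ω hω
          simp only [Set.mem_iUnion] at hω
          obtain ⟨i, _, hω⟩ := hω
          exact hω.2
        · intro i hi i' hi' hne
          exact (hdis hi hi' hne).mono (Set.inter_subset_left) (Set.inter_subset_left)
        · intro i _
          exact (measurableSet_First hX hA a i).inter (measurable_S hX j hA')

end Crest.Agent.R154.Hit818
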