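import Crest.Agent.R154.Body_818
import Crest.Agent.R154.ConcD_412

/-!
Row 154, block B3: the final form of BODY.
-/

open MeasureTheory ProbabilityTheory Set
open scoped BigOperators ENNReal NNReal

namespace Crest.Agent.R154.Body818

open Crest.Agent.R154.Conc412 Crest.Agent.R154.Hit818

/-- **BODY** for every symmetric nondegenerate law on the plane. -/
theorem bodyProp {μ : Measure (Fin 2 → ℝ)} [IsProbabilityMeasure μ]
    (hs : μ.map (fun x => -x) = μ) (hnd : ∀ v, v ≠ 0 → 0 < gg μ v) : BodyProp μ := by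
  refine bodyProp_of_partA hs hnd ?_
  obtain ⟨p, hp0, hp⟩ := exists_lower hnd
  have hp' : ∀ v : Fin 2 → ℝ, ‖v‖ = 1 → p / 2 ≤ gg (diffLaw μ) v := by
    intro v hv
    have h1 := gg_le_two_diff hs v
    have h2 := hp v hv
    linarith
  intro ε hε R hR
  obtain ⟨m, N₀, h⟩ := body_a hs (p := p / 2) (by positivity) hp' hε hR
  exact ⟨m, N₀, fun N hN b hb Ω _ P _ X hX y =>
    h N hN b hb P X hX.meas hX.indep hX.law y⟩

/-- **BODY** for every symmetric law with two linearly independent atoms. -/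
theorem bodyProp_of_atoms {μ : Measure (Fin 2 → ℝ)} [IsProbabilityMeasure μ]
    (hs : μ.map (fun x => -x) = μ) {x y : Fin 2 → ℝ}
    (hx : μ {x} ≠ 0) (hy : μ {y} ≠ 0) (hxy : x 0 * y 1 - x 1 * y 0 ≠ 0) : BodyProp μ :=
  bodyProp hs (nondeg_of_atoms hx hy hxy)

end Crest.Agent.R154.Body818
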