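import Crest.Agent.R154.BodyB_818

/-!
Row 154, block B3: assembly of BODY from part (a).
-/

open MeasureTheory ProbabilityTheory Set
open scoped BigOperators ENNReal NNReal

namespace Crest.Agent.R154.Body818

open Crest.Agent.R154.Conc412 Crest.Agent.R154.Hit818

/-- Part (a) of BODY in the form proved by 412. -/
def PartA (μ : Measure (Fin 2 → ℝ)) : Prop :=
  ∀ ε : ℝ, 0 < ε → ∀ R : ℕ, 1 ≤ R → ∃ m : ℕ, ∃ N₀ : ℕ, ∀ N : ℕ, N₀ ≤ N →
    ∀ b : Fin 2 → Fin 2 → ℝ, IsFrame (diffLaw μ) (N / 2 ^ m) b →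
      ∀ (Ω : Type) [MeasurableSpace Ω] (P : Measure Ω) [IsProbabilityMeasure P]
        (X : ℕ → Ω → Fin 2 → ℝ), IID P μ X →
        ∀ y : Fin 2 → ℝ, P.real {ω | ∃ j : ℕ, N ≤ R * j ∧ j ≤ R * N ∧
            ∀ i, |dot (b i) (Sum X j ω - y)| ≤ 3} ≤ ε

theorem bodyProp_of_partA {μ : Measure (Fin 2 → ℝ)} [IsProbabilityMeasure μ]
    (hs : μ.map (fun x => -x) = μ) (hnd : ∀ v, v ≠ 0 → 0 < gg μ v) (ha : PartA μ) :
    BodyProp μ := by
  obtain ⟨p, hp0, hp⟩ := exists_lower hnd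
  have hp' : ∀ v : Fin 2 → ℝ, ‖v‖ = 1 → p / 2 ≤ gg (diffLaw μ) v := by
    intro v hv
    have h1 := gg_le_two_diff hs v
    have h2 := hp v hv
    linarith
  intro ε hε R hR
  obtain ⟨m, N₀, hN₀⟩ := ha ε hε R hR
  set M : ℝ := 2 ^ m with hM
  have hM0 : 0 < M := by rw [hM]; positivity
  -- `C` must dominate `8 M` and `2 √(2 M / p)`
  refine ⟨8 * M + 2 * Real.sqrt (2 * M / p), by positivity, max N₀ (⌈4 * M / p⌉₊ + 1), ?_⟩
  intro N hN
  have hN1 : N₀ ≤ N := (le_max_left _ _).trans hN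
  have hN2 : ⌈4 * M / p⌉₊ + 1 ≤ N := (le_max_right _ _).trans hN
  have hN3 : 4 * M / p < N := by
    have h1 : 4 * M / p ≤ ⌈4 * M / p⌉₊ := Nat.le_ceil _
    have h2 : ((⌈4 * M / p⌉₊ : ℕ) : ℝ) + 1 ≤ N := by exact_mod_cast hN2
    linarith
  have hNpos : (0:ℝ) < N := lt_of_le_of_lt (by positivity) hN3
  set t : ℝ := N / M with ht
  have ht0 : 0 < t := by positivity
  have htinv : 1 / t = M / N := by rw [ht, one_div_div]
  have htp : 2 * (1 / t) < p / 2 := by
    rw [htinv]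
    rw [div_lt_iff₀ hp0] at hN3
    have : M / N < p / 4 := by
      rw [div_lt_div_iff₀ hNpos (by norm_num)]; linarith
    linarith
  obtain ⟨b, hb⟩ := exists_frame (μ := diffLaw μ) ht0 hp' (by
    have : 0 < 1 / t := by positivity
    linarith)
  have hgg : ∀ i, gg μ (b i) ≤ 2 * (1 / t) := fun i =>
    (gg_le_two_diff hs (b i)).trans (by have := hb.small i; linarith)
  refine ⟨b, ?_, ?_⟩
  · intro i x
    have h1 := norm_le_of_gg hp0 hp (w := 2 * (1 / t)) (by linarith) (hgg i)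
    have h2 := abs_dot_le_norm (b i) x
    have h3 : Real.sqrt (2 * (1 / t) / p) = Real.sqrt (2 * M / p) / Real.sqrt N := by
      rw [← Real.sqrt_div (by positivity), htinv]
      congr 1
      field_simp
    rw [h3] at h1
    have h4 : 0 ≤ ‖x‖ := norm_nonneg _
    calc |dot (b i) x| ≤ 2 * ‖b i‖ * ‖x‖ := h2
      _ ≤ 2 * (Real.sqrt (2 * M / p) / Real.sqrt N) * ‖x‖ := by gcongr
      _ = (2 * Real.sqrt (2 * M / p)) / Real.sqrt N * ‖x‖ := by ring
      _ ≤ (8 * M + 2 * Real.sqrt (2 * M / p)) / Real.sqrt N * ‖x‖ := by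
          gcongr
          have : 0 ≤ 8 * M := by positivity
          linarith
  · intro Ω _ P _ X hX
    refine ⟨fun y => hN₀ N hN1 b hb Ω P X hX y, fun n => ?_⟩
    refine (body_max hs hX b hgg n).trans ?_
    rw [htinv]
    have h0 : 0 ≤ Real.sqrt (2 * M / p) := Real.sqrt_nonneg _
    have h1 : (0:ℝ) ≤ n := Nat.cast_nonneg n
    have h2 : 4 * ((n:ℝ) * (2 * (M / N))) = 8 * M * n / N := by ring
    rw [h2]
    gcongr
    linarith

/-- A law with two linearly independent atoms is nondegenerate. -/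
theorem nondeg_of_atoms {μ : Measure (Fin 2 → ℝ)} [IsProbabilityMeasure μ] {x y : Fin 2 → ℝ}
    (hx : μ {x} ≠ 0) (hy : μ {y} ≠ 0) (hxy : x 0 * y 1 - x 1 * y 0 ≠ 0) (v : Fin 2 → ℝ)
    (hv : v ≠ 0) : 0 < gg μ v := by
  have hne : dot v x ≠ 0 ∨ dot v y ≠ 0 := by
    by_contra h
    push Not at h
    obtain ⟨h1, h2⟩ := h
    simp only [dot, Fin.sum_univ_two] at h1 h2
    apply hv
    have h3 : v 0 * (x 0 * y 1 - x 1 * y 0) = 0 := by linear_combination y 1 * h1 - x 1 * h2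
    have h4 : v 1 * (x 0 * y 1 - x 1 * y 0) = 0 := by linear_combination x 0 * h2 - y 0 * h1
    have h5 := (mul_eq_zero.1 h3).resolve_right hxy
    have h6 := (mul_eq_zero.1 h4).resolve_right hxy
    funext i
    fin_cases i
    · exact h5
    · exact h6
  have key : ∀ z : Fin 2 → ℝ, μ {z} ≠ 0 → dot v z ≠ 0 → 0 < gg μ v := by
    intro z hz hd
    have hpos : 0 < min (dot v z ^ 2) 1 := lt_min (by positivity) one_pos
    have h1 : min (dot v z ^ 2) 1 * μ.real {z} ≤ gg μ v := by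
      have h2 := mul_meas_ge_le_integral_of_nonneg (μ := μ) (f := fun x => min (dot v x ^ 2) 1)
        (Filter.Eventually.of_forall fun x => le_min (sq_nonneg _) zero_le_one)
        (integrable_gg μ v) (min (dot v z ^ 2) 1)
      refine le_trans ?_ h2
      refine mul_le_mul_of_nonneg_left ?_ hpos.le
      refine measureReal_mono ?_
      intro w hw
      rw [Set.mem_singleton_iff] at hw
      show min (dot v z ^ 2) 1 ≤ min (dot v w ^ 2) 1
      rw [hw]
    have h2 : 0 < μ.real {z} := ENNReal.toReal_pos hz (measure_ne_top _ _)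
    have : 0 < min (dot v z ^ 2) 1 * μ.real {z} := mul_pos hpos h2
    linarith
  rcases hne with h | h
  · exact key x hx h
  · exact key y hy h

end Crest.Agent.R154.Body818
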