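import Crest.Agent.R154.BoxGeo_272

/-!
Row 154, block B8 (helper272), (init): the classes of laws on the boxes are not empty, with laws of
bounded support.
-/

set_option autoImplicit false
set_option linter.unusedSectionVars false
set_option linter.unusedVariables false
set_option linter.deprecated false

namespace Crest.Agent.R154.Box272

open MeasureTheory ProbabilityTheory Set Filter Crest.ProbabilityR.RandomEnvironment
open Crest.Agent.R154.Mk561 Crest.Agent.R154.Q561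
open Crest.Agent.R154.Flux132 (lev)
open Crest.Agent.R154.Fin804 (lev_add)
open Crest.Agent.R154.RatioR872 Crest.Agent.R154.Tile872
open Crest.Agent.R154.KS480
open Crest.Agent.R154.TileInst748 (clsM okM massM enM pushM outM single tsum_single tsum_single_mul
  out_mem)
open Crest.Agent.R154.B4Inst797 (Nat0 natLaw UU lat natLaw_apply lp natLaw_isProb)
open scoped ENNReal Topology

variable {d : ℕ}

/-- a site with prescribed level and two prescribed lateral coordinates -/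
lemma exists_site2 {u : Step d} {i1 i2 : Fin d} (h1 : i1 ≠ u.1) (h2 : i2 ≠ u.1) (h12 : i1 ≠ i2)
    (ℓ m1 m2 : ℤ) : ∃ z : Site d, lev u z = ℓ ∧ lat i1 i2 z 0 = m1 ∧ lat i1 i2 z 1 = m2 ∧
      ∀ c, |z c| ≤ |ℓ| + |m1| + |m2| := by
  classical
  refine ⟨fun j => if j = u.1 then (if u.2 then ℓ else -ℓ) else if j = i1 then m1 else
    if j = i2 then m2 else 0, ?_, ?_, ?_, ?_⟩
  · unfold lev
    split_ifs <;> simp
  · unfold lat
    simp [h1]
  · unfold lat
    simp [h2, h12.symm]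
  · intro c
    have a1 := abs_nonneg ℓ
    have a2 := abs_nonneg m1
    have a3 := abs_nonneg m2
    dsimp only
    split_ifs
    · linarith
    · rw [abs_neg]; linarith
    · linarith
    · linarith
    · rw [abs_zero]; linarith

section cls

variable {Q : Measure (Environment d)} [IsProbabilityMeasure Q] {κ : ℝ} {R : ℕ}
variable {u : Step d} {i1 i2 : Fin d} {σ A W : ℝ}

/-- a good environment exists -/
lemma exists_good (F : Bind263.Frame Q κ R) {ℓ n : ℕ} {z : Site d} (hz : lev u z = ℓ)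
    {T : Set (Site d)} {g κ₁ ε : ℝ≥0∞} (hg0 : g ≠ 0) (hgt : g ≠ ∞) (hκ0 : κ₁ ≠ 0) (hκt : κ₁ ≠ ∞)
    (hT : g ≤ mkAnn κ Q z (succ u R ((ℓ + n : ℕ) : ℤ) T z))
    (hE : ExitE u R κ Q ℓ (ℓ + n) (ℓ + n + n) ε) (hε : ε < κ₁ * (g / 2) ^ 3) :
    ∃ ω, okM T (Kc u R κ Q (ℓ + n) (ℓ + n + n)) κ₁ (g / 2) (single z)
      ((kS u R κ Q F.stat F.fin).G ℓ (ℓ + n) ω) := by
  have hsupp : ∀ x, lev u x ≠ (ℓ : ℤ) → single z x = 0 := by
    rw [single_eq_dl]
    exact dl_supp u hz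
  have hm : Measurable fun ω => Fm u R κ univ ((ℓ + n : ℕ) : ℤ) T (single z) ω :=
    measurable_Fm u R κ univ _ T _
  have hme : Measurable fun ω => en u R κ Q (ℓ + n) (ℓ + n + n)
      (outm u R κ univ ((ℓ + n : ℕ) : ℤ) T (single z) ω) :=
    (measurable_en u R κ Q _ _).comp
      (measurable_pi_lambda _ fun y => measurable_outm u R κ univ _ T _ y)
  have hg2 : g / 2 ≠ 0 := (ENNReal.div_pos hg0 (by norm_num)).ne'
  have hg2t : g / 2 ≠ ∞ := ENNReal.div_ne_top hgt (by norm_num)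
  have hint : g ≤ ∫⁻ ω, Fm u R κ univ ((ℓ + n : ℕ) : ℤ) T (single z) ω ∂Q := by
    rw [lint_Fm, tsum_single_mul, ← mkAnn_succ]
    exact hT
  have hF1 : ∀ ω, Fm u R κ univ ((ℓ + n : ℕ) : ℤ) T (single z) ω ≤ 1 := fun ω =>
    (Fm_le u R κ univ _ T _ ω).trans (tsum_single z).le
  have hen : ∫⁻ ω, en u R κ Q (ℓ + n) (ℓ + n + n)
      (outm u R κ univ ((ℓ + n : ℕ) : ℤ) T (single z) ω) ∂Q ≤ ε :=
    en_outm u R κ Q univ hE T hsupp (tsum_single z).le
  -- probability of a large mass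
  have hP1 : g / 2 ≤ Q {ω | g / 2 ≤ Fm u R κ univ ((ℓ + n : ℕ) : ℤ) T (single z) ω} := by
    have h1 : ∫⁻ ω, Fm u R κ univ ((ℓ + n : ℕ) : ℤ) T (single z) ω ∂Q ≤
        Q {ω | g / 2 ≤ Fm u R κ univ ((ℓ + n : ℕ) : ℤ) T (single z) ω} + g / 2 := by
      set E := {ω | g / 2 ≤ Fm u R κ univ ((ℓ + n : ℕ) : ℤ) T (single z) ω} with hEdef
      have hEm : MeasurableSet E := measurableSet_le measurable_const hm
      calc ∫⁻ ω, Fm u R κ univ ((ℓ + n : ℕ) : ℤ) T (single z) ω ∂Q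
          ≤ ∫⁻ ω, (E.indicator (fun _ => (1 : ℝ≥0∞)) ω + g / 2) ∂Q := by
            refine lintegral_mono fun ω => ?_
            by_cases h : ω ∈ E
            · rw [indicator_of_mem h]
              exact (hF1 ω).trans le_self_add
            · rw [indicator_of_notMem h, zero_add]
              have h' : ¬ g / 2 ≤ Fm u R κ univ ((ℓ + n : ℕ) : ℤ) T (single z) ω := h
              exact (not_le.1 h').le
        _ = Q E + g / 2 := by
            rw [lintegral_add_right _ measurable_const, lintegral_indicator_const hEm, one_mul,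
              lintegral_const, measure_univ, mul_one]
    have h2 := hint.trans h1
    have h3 : g / 2 + g / 2 ≤
        Q {ω | g / 2 ≤ Fm u R κ univ ((ℓ + n : ℕ) : ℤ) T (single z) ω} + g / 2 := by
      rw [ENNReal.add_halves]; exact h2
    exact (ENNReal.add_le_add_iff_right hg2t).1 h3
  by_contra hcon
  push Not at hcon
  have hsub : {ω | g / 2 ≤ Fm u R κ univ ((ℓ + n : ℕ) : ℤ) T (single z) ω} ⊆
      {ω | κ₁ * (g / 2) ^ 2 ≤ en u R κ Q (ℓ + n) (ℓ + n + n)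
        (outm u R κ univ ((ℓ + n : ℕ) : ℤ) T (single z) ω)} := by
    intro ω hω
    have hω' : g / 2 ≤ Fm u R κ univ ((ℓ + n : ℕ) : ℤ) T (single z) ω := hω
    by_contra hlt
    have hlt' : ¬ κ₁ * (g / 2) ^ 2 ≤ en u R κ Q (ℓ + n) (ℓ + n + n)
        (outm u R κ univ ((ℓ + n : ℕ) : ℤ) T (single z) ω) := hlt
    refine hcon ω ⟨?_, ?_⟩
    · rw [massM_eq u R κ Q F.stat F.fin T hsupp]
      exact hω'
    · rw [massM_eq u R κ Q F.stat F.fin T hsupp, enM_eq u R κ Q F.stat F.fin T hsupp]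
      refine (not_le.1 hlt').le.trans ?_
      gcongr
  have h4 := mul_meas_ge_le_lintegral (μ := Q) hme (κ₁ * (g / 2) ^ 2)
  have h5 : κ₁ * (g / 2) ^ 2 * (g / 2) ≤ ε := by
    calc κ₁ * (g / 2) ^ 2 * (g / 2) ≤ κ₁ * (g / 2) ^ 2 * Q {ω | κ₁ * (g / 2) ^ 2 ≤
          en u R κ Q (ℓ + n) (ℓ + n + n)
            (outm u R κ univ ((ℓ + n : ℕ) : ℤ) T (single z) ω)} := by
          gcongr
          exact hP1.trans (measure_mono hsub)
      _ ≤ _ := h4
      _ ≤ ε := hen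
  have h6 : κ₁ * (g / 2) ^ 2 * (g / 2) = κ₁ * (g / 2) ^ 3 := by ring
  rw [h6] at h5
  exact absurd hε (not_lt.2 h5)

/-- **a law in the class of every box, with bounded support** -/
theorem cls_bx (F : Bind263.Frame Q κ R) (h1 : i1 ≠ u.1) (h2 : i2 ≠ u.1) (h12 : i1 ≠ i2)
    (hc : mkAnn κ Q 0 (Nat0 u R) ≠ 0) {S c1 c2 : ℝ} {n : ℕ} {g' g κ₁ ε : ℝ≥0∞}
    (hSt : Steer u i1 i2 R κ Q σ A W S c1 c2 n g') (hgg : g ≤ mkAnn κ Q 0 (Nat0 u R) * g')
    (hg0 : g ≠ 0) (hgt : g ≠ ∞) (hκ0 : κ₁ ≠ 0) (hκt : κ₁ ≠ ∞) (hS : 1 / 2 ≤ S) (hW : 1 / 2 ≤ W)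
    (hE : ∀ ℓ : ℕ, ExitE u R κ Q ℓ (ℓ + n) (ℓ + n + n) ε) (hε : ε < κ₁ * (g / 2 / 2) ^ 3)
    {r : ℕ} (hr : ∀ (ℓ : ℕ) (z : Site d), lev u z = ℓ → mkAnn κ Q z
      (succ u R ((ℓ + n : ℕ) : ℤ) {y | ∃ c, (r : ℤ) < |y c - z c|} z) ≤ g / 2)
    (ℓ : ℕ) (t1 t2 : ℝ) :
    ∃ lam ∈ clsM (bx u i1 i2 σ A W ℓ t1 t2) (Kc u R κ Q ℓ (ℓ + n)) κ₁,
      ∀ y, lam y ≠ 0 → ∀ c, |(y c : ℝ)| ≤
        r + n + ℓ + (2 + |σ|) * (|t1| + |c1| + 1) + (|t2| + |c2| + 1) := by
  classical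
  -- the starting site
  set m1 : ℤ := round (t1 - c1) with hm1
  set m2 : ℤ := round (t2 - c2 + σ * m1) with hm2
  obtain ⟨z, hz, hz0, hz1, hzc⟩ := exists_site2 h1 h2 h12 (ℓ : ℤ) m1 m2
  have r1 := abs_sub_round (t1 - c1)
  have r2 := abs_sub_round (t2 - c2 + σ * m1)
  rw [← hm1] at r1
  rw [← hm2] at r2
  have hmass := succ_bx_ge (σ := σ) (A := A) (W := W) F hc hSt hz (t1 := t1) (t2 := t2) (by
    rw [hz0]
    have e : (m1 : ℝ) + c1 - t1 = -(t1 - c1 - m1) := by ring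
    rw [e, abs_neg]
    linarith) (by
    rw [hz0, hz1]
    have e : (m2 : ℝ) - σ * m1 + c2 - t2 = -(t2 - c2 + σ * m1 - m2) := by ring
    rw [e, abs_neg]
    linarith)
  set B := bx u i1 i2 σ A W (ℓ + n) t1 t2 with hB
  set T : Set (Site d) := B ∩ {y | ∀ c, |y c - z c| ≤ (r : ℤ)} with hT
  have hTm : g / 2 ≤ mkAnn κ Q z (succ u R ((ℓ + n : ℕ) : ℤ) T z) := by
    have hsub : succ u R ((ℓ + n : ℕ) : ℤ) B z ⊆ succ u R ((ℓ + n : ℕ) : ℤ) T z ∪
        succ u R ((ℓ + n : ℕ) : ℤ) {y | ∃ c, (r : ℤ) < |y c - z c|} z := by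
      intro M hM
      obtain ⟨m, hm, hmB⟩ := mem_iUnion.1 hM
      by_cases h : ∀ c, |pos z M m c - z c| ≤ (r : ℤ)
      · exact Or.inl (mem_iUnion.2 ⟨m, hm, hmB, h⟩)
      · push Not at h
        exact Or.inr (mem_iUnion.2 ⟨m, hm, h⟩)
    have h3 : g ≤ mkAnn κ Q z (succ u R ((ℓ + n : ℕ) : ℤ) T z) + g / 2 :=
      (hgg.trans hmass).trans (((measure_mono hsub).trans (measure_union_le _ _)).trans
        (add_le_add le_rfl (hr ℓ z hz)))
    have h4 : g / 2 + g / 2 ≤ mkAnn κ Q z (succ u R ((ℓ + n : ℕ) : ℤ) T z) + g / 2 := by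
      rw [ENNReal.add_halves]; exact h3
    exact (ENNReal.add_le_add_iff_right (ENNReal.div_ne_top hgt (by norm_num))).1 h4
  have hg2 : g / 2 ≠ 0 := (ENNReal.div_pos hg0 (by norm_num)).ne'
  have hg2t : g / 2 ≠ ∞ := ENNReal.div_ne_top hgt (by norm_num)
  obtain ⟨ω, hω⟩ := exists_good F hz hg2 hg2t hκ0 hκt hTm (hE ℓ) hε
  have h4 := out_mem T (Kc u R κ Q (ℓ + n) (ℓ + n + n))
    ((ENNReal.div_pos hg2 (by norm_num)).ne') (le_of_eq (tsum_single z))
    (fun y => (kS u R κ Q F.stat F.fin).mass ℓ (ℓ + n) ω y (by omega)) hω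
  set lam' := outM T (single z) ((kS u R κ Q F.stat F.fin).G ℓ (ℓ + n) ω) with hlam'
  obtain ⟨e, he, he0, he1, hec⟩ := exists_site2 h1 h2 h12 (n : ℤ) 0 0
  refine ⟨fun y => lam' (y + e), ⟨?_, ?_, ?_⟩, ?_⟩
  · rw [← h4.1]
    exact (Equiv.addRight e).tsum_eq lam'
  · intro y hy
    refine h4.2.1 _ fun hcon => hy ?_
    obtain ⟨g1, g2, g3⟩ := hcon.1
    refine ⟨?_, ?_, ?_⟩
    · rw [lev_add, he] at g1
      push_cast at g1
      linarith
    · rw [B4Inst797.lat_add] at g2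
      simp only [Pi.add_apply, he0, Int.cast_zero, add_zero] at g2
      exact g2
    · rw [B4Inst797.lat_add] at g3
      simp only [Pi.add_apply, he0, he1, Int.cast_zero, add_zero] at g3
      exact g3
  · refine le_trans (le_of_eq ?_) h4.2.2
    have e1 : ∀ y y', Kc u R κ Q ℓ (ℓ + n) y y' = Kc u R κ Q (ℓ + n) (ℓ + n + n) (y + e) (y' + e) :=
      fun y y' => (Kc_trans F.stat u y y' e (by omega)).symm
    simp only [e1]
    calc ∑' y, ∑' y', lam' (y + e) * lam' (y' + e) * Kc u R κ Q (ℓ + n) (ℓ + n + n) (y + e) (y' + e)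
        = ∑' y, ∑' y', lam' (y + e) * lam' y' * Kc u R κ Q (ℓ + n) (ℓ + n + n) (y + e) y' := by
          refine tsum_congr fun y => ?_
          exact (Equiv.addRight e).tsum_eq
            (fun y' => lam' (y + e) * lam' y' * Kc u R κ Q (ℓ + n) (ℓ + n + n) (y + e) y')
      _ = _ := (Equiv.addRight e).tsum_eq
            (fun y => ∑' y', lam' y * lam' y' * Kc u R κ Q (ℓ + n) (ℓ + n + n) y y')
  · intro y hy c
    have hmem : y + e ∈ T := by
      by_contra hcon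
      exact hy (h4.2.1 _ hcon)
    have g1 := hmem.2 c
    have g2 := hec c
    have g3 := hzc c
    have g4 : |y c| ≤ (r : ℤ) + |(ℓ : ℤ)| + |m1| + |m2| + |(n : ℤ)| := by
      have e2 : y c = ((y + e) c - z c) + z c - e c := by
        simp only [Pi.add_apply]; ring
      have g5 : |y c| ≤ |(y + e) c - z c| + |z c| + |e c| := by
        calc |y c| = |((y + e) c - z c) + z c - e c| := by rw [← e2]
          _ ≤ |((y + e) c - z c) + z c| + |e c| := abs_sub _ _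
          _ ≤ _ := add_le_add (abs_add_le _ _) le_rfl
      simp only [abs_zero, add_zero] at g2
      have g3' : |z c| ≤ |(ℓ : ℤ)| + |m1| + |m2| := g3
      have g1' : |(y + e) c - z c| ≤ (r : ℤ) := g1
      push_cast
      linarith
    have g6 : |(m1 : ℝ)| ≤ |t1| + |c1| + 1 := by
      have e2 : (m1 : ℝ) = (t1 - c1) - (t1 - c1 - m1) := by ring
      rw [e2]
      have := abs_sub (t1 - c1) (t1 - c1 - m1)
      have := abs_sub t1 c1
      linarith
    have g7 : |(m2 : ℝ)| ≤ |t2| + |c2| + |σ| * (|t1| + |c1| + 1) + 1 := by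
      have e2 : (m2 : ℝ) = (t2 - c2 + σ * m1) - (t2 - c2 + σ * m1 - m2) := by ring
      rw [e2]
      have a1 := abs_sub (t2 - c2 + σ * m1) (t2 - c2 + σ * m1 - m2)
      have a2 := abs_add_le (t2 - c2) (σ * m1)
      have a3 := abs_sub t2 c2
      have a4 : |σ * (m1 : ℝ)| ≤ |σ| * (|t1| + |c1| + 1) := by
        rw [abs_mul]
        exact mul_le_mul_of_nonneg_left g6 (abs_nonneg _)
      linarith
    have g8 : |(y c : ℝ)| ≤ r + ℓ + |(m1 : ℝ)| + |(m2 : ℝ)| + n := by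
      have : ((|y c| : ℤ) : ℝ) ≤ (((r : ℤ) + |(ℓ : ℤ)| + |m1| + |m2| + |(n : ℤ)| : ℤ) : ℝ) := by
        exact_mod_cast g4
      push_cast at this
      simpa using this
    nlinarith [abs_nonneg σ, abs_nonneg t1, abs_nonneg c1]

end cls

end Crest.Agent.R154.Box272
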