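import Crest.Agent.R154.TileInst_748

set_option autoImplicit false
set_option linter.unusedSectionVars false
set_option linter.unusedVariables false

/-!
Row 154, block B8 / TILE: helper748's `TileInst748` with arbitrary sub-kernels (killed climbs) for
the two moves of a tile (helper333): from a K-set bound for DETERMINISTIC admissible laws moved by
the sub-kernels `kL`, `kR` of 872's kernel system and a bound for the first climb from a point
(true kernel) to 299's `TileSys`.
-/

namespace Crest.Agent.R154.TileInst2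

open MeasureTheory ProbabilityTheory
open Crest.Agent.R154.Contour748 Crest.Agent.R154.RatioR872 Crest.Agent.R154.TileInst748
open scoped ENNReal

section inst

variable {S : Type*} [Countable S] {Ω : Type*} [m0 : MeasurableSpace Ω] {P : Measure Ω}

variable (A : KerSys S P) (L N : ℕ) (Cell : ℕ → ℤ → Set S) (En : ℕ → S → S → ℝ≥0∞)
  (kL kR : ℕ → ℤ → Ω → S → S → ℝ≥0∞) (κ γ γ0 : ℝ≥0∞)

/-- admissible sub-kernels of the layers. -/
structure SubKer (A : KerSys S P) (L N : ℕ) (kk : ℕ → ℤ → Ω → S → S → ℝ≥0∞) : Prop where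
  le : ∀ k x ω y z, kk k x ω y z ≤ A.G (L + k * N) (L + (k + 1) * N) ω y z
  measF : ∀ k x y z, Measurable[A.F (L + (k + 1) * N)] fun ω => kk k x ω y z
  measH : ∀ k x y z, Measurable[A.H (L + k * N)] fun ω => kk k x ω y z

lemma SubKer.mass {A : KerSys S P} {L N : ℕ} {kk : ℕ → ℤ → Ω → S → S → ℝ≥0∞}
    (h : SubKer A L N kk) (k : ℕ) (x : ℤ) (ω : Ω) (y : S) : ∑' z, kk k x ω y z ≤ 1 :=
  (ENNReal.tsum_le_tsum fun z => h.le k x ω y z).trans (gL_mass A L N k ω y)

/-- good tile (layer `k`, cell `x`). -/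
def goodS (k : ℕ) (x : ℤ) (lam : S → ℝ≥0∞) : Set Ω :=
  {ω | okM (Cell (k+1) x) (En (k+1)) κ γ lam (kL k x ω) ∧
    okM (Cell (k+1) (x+1)) (En (k+1)) κ γ lam (kR k x ω)}

/-- **The deterministic inputs** for the attempts from the point `z0` of level `L` (the grid `Cell`
may depend on `(L, z0)`). -/
structure Inputs (z0 : S) (q : ℝ≥0∞) : Prop where
  subL : SubKer A L N kL
  subR : SubKer A L N kR
  /-- the cells are on the right levels (not needed for the cost, only for the geometry) -/
  nonempty : ∀ k x, (clsM (Cell k x) (En k) κ).Nonempty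
  kset : ∀ k (K : Finset ℤ) (lam : ℤ → S → ℝ≥0∞), (∀ x, lam x ∈ clsM (Cell k x) (En k) κ) →
    P {ω | ∀ x ∈ K, ω ∉ goodS Cell En kL kR κ γ k x (lam x)} ≤ q ^ K.card
  start : P (succ0 A L N Cell En κ γ0 z0)ᶜ ≤ q

open Classical in
/-- **The tile system.** -/
noncomputable def tiles [IsProbabilityMeasure P] (hγ : γ ≠ 0) (hγ0 : γ0 ≠ 0) {q : ℝ≥0∞} {z0 : S}
    (H : Inputs A L N Cell En kL kR κ γ γ0 z0 q) :
    TileSys P (FN A L N) S (S → ℝ≥0∞) q where
  cls k x := clsM (Cell k x) (En k) κ
  dflt k x := (H.nonempty k x).some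
  dflt_mem k x := (H.nonempty k x).some_mem
  good k x lam := goodS Cell En kL kR κ γ k x lam
  outL k x lam ω := outM (Cell (k+1) x) lam (kL k x ω)
  outR k x lam ω := outM (Cell (k+1) (x+1)) lam (kR k x ω)
  outL_mem k x lam ω hlam hω :=
    out_mem _ _ hγ (le_of_eq hlam.1) (H.subL.mass k x ω) hω.1
  outR_mem k x lam ω hlam hω :=
    out_mem _ _ hγ (le_of_eq hlam.1) (H.subR.mass k x ω) hω.2
  good_meas k x f hf := by
    have hl : ∀ y, Measurable[A.F (L + (k + 1) * N)] fun ω => f ω y := fun y =>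
      (measurable_pi_apply y).comp (hf.mono (A.F.mono (lv_le L N k)) le_rfl)
    have h1 := @meas_ok S _ Ω (A.F (L + (k + 1) * N)) f (kL k x) (Cell (k+1) x) (En (k+1)) κ γ
      hl (H.subL.measF k x)
    have h2 := @meas_ok S _ Ω (A.F (L + (k + 1) * N)) f (kR k x) (Cell (k+1) (x+1)) (En (k+1))
      κ γ hl (H.subR.measF k x)
    exact MeasurableSet.inter h1 h2
  outL_meas k x f hf := by
    have hl : ∀ y, Measurable[A.F (L + (k + 1) * N)] fun ω => f ω y := fun y =>
      (measurable_pi_apply y).comp (hf.mono (A.F.mono (lv_le L N k)) le_rfl)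
    exact @meas_out S _ Ω (A.F (L + (k + 1) * N)) f (kL k x) (Cell (k+1) x)
      hl (H.subL.measF k x)
  outR_meas k x f hf := by
    have hl : ∀ y, Measurable[A.F (L + (k + 1) * N)] fun ω => f ω y := fun y =>
      (measurable_pi_apply y).comp (hf.mono (A.F.mono (lv_le L N k)) le_rfl)
    exact @meas_out S _ Ω (A.F (L + (k + 1) * N)) f (kR k x) (Cell (k+1) (x+1))
      hl (H.subR.measF k x)
  succ k z := if k = 0 ∧ z = z0 then succ0 A L N Cell En κ γ0 z else Set.univ
  sig k z ω := if k = 0 ∧ z = z0 then sel (good0 A L N Cell En κ γ0 z ω) else 0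
  lam0 k z ω := if k = 0 ∧ z = z0 then
      (if ω ∈ succ0 A L N Cell En κ γ0 z then
        outM (Cell 1 (sel (good0 A L N Cell En κ γ0 z ω))) (single z) (gL A L N 0 ω)
      else (H.nonempty 1 0).some)
    else (H.nonempty (k+1) 0).some
  succ_meas k z := by
    split_ifs with h
    · have : MeasurableSet[A.F (L + (0 + 1) * N)] (succ0 A L N Cell En κ γ0 z) := by
        have e : succ0 A L N Cell En κ γ0 z =
            ⋃ x, {ω | okM (Cell 1 x) (En 1) κ γ0 (single z) (gL A L N 0 ω)} := by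
          ext ω; simp [succ0, good0]
        rw [e]
        exact MeasurableSet.iUnion fun x => @meas_ok S _ Ω (A.F (L + (0 + 1) * N))
          (fun _ => single z) (gL A L N 0) (Cell 1 x) (En 1) κ γ0 (fun y => measurable_const)
          (meas_gL_F A L N 0)
      rw [h.1]
      exact this
    · exact MeasurableSet.univ
  sig_meas k z x := by
    by_cases h : k = 0 ∧ z = z0
    · obtain ⟨rfl, rfl⟩ := h
      simp only [and_self, if_true]
      have := @meas_sel Ω (A.F (L + (0 + 1) * N)) (fun ω x => good0 A L N Cell En κ γ0 z ω x)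
        (fun x => @meas_ok S _ Ω (A.F (L + (0 + 1) * N))
          (fun _ => single z) (gL A L N 0) (Cell 1 x) (En 1) κ γ0 (fun y => measurable_const)
          (meas_gL_F A L N 0)) x
      exact this
    · simp only [h, if_false]
      exact MeasurableSet.const _
  lam0_meas k z := by
    by_cases h : k = 0 ∧ z = z0
    · obtain ⟨rfl, rfl⟩ := h
      simp only [and_self, if_true]
      have hs : MeasurableSet[A.F (L + (0 + 1) * N)] {ω | ω ∈ succ0 A L N Cell En κ γ0 z} := by
        have e : succ0 A L N Cell En κ γ0 z =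
            ⋃ x, {ω | okM (Cell 1 x) (En 1) κ γ0 (single z) (gL A L N 0 ω)} := by
          ext ω; simp [succ0, good0]
        rw [e]
        exact MeasurableSet.iUnion fun x => @meas_ok S _ Ω (A.F (L + (0 + 1) * N))
          (fun _ => single z) (gL A L N 0) (Cell 1 x) (En 1) κ γ0 (fun y => measurable_const)
          (meas_gL_F A L N 0)
      have hsel := @meas_sel Ω (A.F (L + (0 + 1) * N)) (fun ω x => good0 A L N Cell En κ γ0 z ω x)
        (fun x => @meas_ok S _ Ω (A.F (L + (0 + 1) * N))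
          (fun _ => single z) (gL A L N 0) (Cell 1 x) (En 1) κ γ0 (fun y => measurable_const)
          (meas_gL_F A L N 0))
      refine @Measurable.ite Ω (S → ℝ≥0∞) _ _ (A.F (L + (0 + 1) * N)) _
        (fun ω => ω ∈ succ0 A L N Cell En κ γ0 z) _ hs ?_ measurable_const
      -- countable case distinction on the selected cell
      intro s hs'
      have e : (fun ω => outM (Cell 1 (sel (good0 A L N Cell En κ γ0 z ω))) (single z)
          (gL A L N 0 ω)) ⁻¹' s =
          ⋃ x : ℤ, {ω | sel (good0 A L N Cell En κ γ0 z ω) = x} ∩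
            (fun ω => outM (Cell 1 x) (single z) (gL A L N 0 ω)) ⁻¹' s := by
        ext ω
        simp
      rw [e]
      refine MeasurableSet.iUnion fun x => MeasurableSet.inter (hsel x) ?_
      exact @meas_out S _ Ω (A.F (L + (0 + 1) * N)) (fun _ => single z) (gL A L N 0) (Cell 1 x)
        (fun y => measurable_const) (meas_gL_F A L N 0) s hs'
    · simp only [h, if_false]
      exact measurable_const
  lam0_mem k z ω hω := by
    by_cases h : k = 0 ∧ z = z0
    · obtain ⟨rfl, rfl⟩ := h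
      simp only [and_self, if_true] at hω ⊢
      rw [if_pos hω]
      have hg : good0 A L N Cell En κ γ0 z ω (sel (good0 A L N Cell En κ γ0 z ω)) := sel_spec hω
      exact out_mem _ _ hγ0 (le_of_eq (tsum_single z)) (gL_mass A L N 0 ω) hg
    · simp only [h, if_false]
      exact (H.nonempty (k+1) 0).some_mem
  kset k K f hf hfc B hB := by
    have hm : ∀ x, MeasurableSet[MeasurableSpace.pi.prod (A.H (L + k * N))]
        {p : (S → ℝ≥0∞) × Ω | p.2 ∉ goodS Cell En kL kR κ γ k x p.1} := by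
      intro x
      have hl : ∀ y, @Measurable ((S → ℝ≥0∞) × Ω) ℝ≥0∞ (MeasurableSpace.pi.prod (A.H (L + k * N))) _
          fun p => p.1 y := fun y =>
        (measurable_pi_apply y).comp (@measurable_fst (S → ℝ≥0∞) Ω MeasurableSpace.pi
          (A.H (L + k * N)))
      have hg : ∀ y z, @Measurable ((S → ℝ≥0∞) × Ω) ℝ≥0∞
          (MeasurableSpace.pi.prod (A.H (L + k * N))) _ fun p => kL k x p.2 y z := fun y z =>
        (H.subL.measH k x y z).comp (@measurable_snd (S → ℝ≥0∞) Ω MeasurableSpace.pi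
          (A.H (L + k * N)))
      have hg' : ∀ y z, @Measurable ((S → ℝ≥0∞) × Ω) ℝ≥0∞
          (MeasurableSpace.pi.prod (A.H (L + k * N))) _ fun p => kR k x p.2 y z := fun y z =>
        (H.subR.measH k x y z).comp (@measurable_snd (S → ℝ≥0∞) Ω MeasurableSpace.pi
          (A.H (L + k * N)))
      have h1 := @meas_ok S _ ((S → ℝ≥0∞) × Ω) (MeasurableSpace.pi.prod (A.H (L + k * N)))
        (fun p => p.1) (fun p => kL k x p.2) (Cell (k+1) x) (En (k+1)) κ γ hl hg
      have h2 := @meas_ok S _ ((S → ℝ≥0∞) × Ω) (MeasurableSpace.pi.prod (A.H (L + k * N)))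
        (fun p => p.1) (fun p => kR k x p.2) (Cell (k+1) (x+1)) (En (k+1)) κ γ hl hg'
      exact (MeasurableSet.inter h1 h2).compl
    exact TileInd748.kset_rand (m1 := A.F (L + k * N)) (m2 := A.H (L + k * N)) P (A.F.le _)
      (A.H_le _) (A.indep _) (fun x => {p | p.2 ∉ goodS Cell En kL kR κ γ k x p.1}) hm
      (fun x => clsM (Cell k x) (En k) κ) K (q ^ K.card)
      (fun lam hlam => H.kset k K lam hlam) f hf hfc B hB
  fail k z B hB := by
    by_cases h : k = 0 ∧ z = z0
    · obtain ⟨rfl, rfl⟩ := h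
      simp only [and_self, if_true]
      have hB' : MeasurableSet[A.F L] B := by
        have : MeasurableSet[A.F (L + 0 * N)] B := hB
        rwa [zero_mul, add_zero] at this
      have hs : MeasurableSet[A.H L] (succ0 A L N Cell En κ γ0 z)ᶜ := by
        have e : succ0 A L N Cell En κ γ0 z =
            ⋃ x, {ω | okM (Cell 1 x) (En 1) κ γ0 (single z) (gL A L N 0 ω)} := by
          ext ω; simp [succ0, good0]
        rw [e]
        refine (MeasurableSet.iUnion fun x => ?_).compl
        have hg : ∀ y z, Measurable[A.H L] fun ω => gL A L N 0 ω y z := fun y z => by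
          have := meas_gL_H A L N 0 y z
          rwa [zero_mul, add_zero] at this
        exact @meas_ok S _ Ω (A.H L) (fun _ => single z) (gL A L N 0) (Cell 1 x) (En 1) κ γ0
          (fun y => measurable_const) hg
      rw [(Indep_iff _ _ _).1 (A.indep L) B _ hB' hs, mul_comm]
      gcongr
      exact H.start
    · simp only [h, if_false, Set.compl_univ, Set.inter_empty, measure_empty]
      exact zero_le

/-- **FINAL FORM**: 299's `fam` (cost `γ0 * γ ^ s`). -/
theorem fam [IsProbabilityMeasure P] (hγ : γ ≠ 0) (hγ0 : γ0 ≠ 0) (hγ1 : γ ≤ 1) {q θ : ℝ≥0∞}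
    (hq : 54 * q ≤ 1) (hθ1 : θ ≤ 1) (hθ : 27 * q ≤ θ ^ 2)
    {z : S} (H : Inputs A L N Cell En kL kR κ γ γ0 z q) :
    ∃ τ : Ω → ℕ∞,
      (∀ t : ℕ, MeasurableSet[A.F (L + t * N)] {ω | τ ω = t}) ∧ (∀ ω, 1 ≤ τ ω) ∧
      (∀ t : ℕ, 1 ≤ t → ∀ B, MeasurableSet[A.F L] B → P (B ∩ {ω | τ ω = t}) ≤ θ ^ t * P B) ∧
      (∀ᵐ ω ∂P, ∀ s : ℕ, 1 ≤ s → (s : ℕ∞) < τ ω → γ0 * γ ^ s ≤ A.N L (L + s * N) ω z) := by
  classical
  set T := tiles A L N Cell En kL kR κ γ γ0 hγ hγ0 H with hT
  refine ⟨T.tau 0 z, ?_, T.one_le_tau 0 z, ?_, ?_⟩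
  · intro t
    have := T.tau_meas 0 z t
    rw [zero_add] at this
    exact this
  · intro t ht B hB
    refine T.tau_le 0 z θ hq hθ1 hθ t ht B ?_
    show MeasurableSet[A.F (L + 0 * N)] B
    rwa [zero_mul, add_zero]
  · have hcomp : ∀ᵐ ω ∂P, ∀ s : ℕ, ∀ x y, ∑' w, A.G L (L + s * N) ω x w *
        A.G (L + s * N) (L + (s + 1) * N) ω w y ≤ A.G L (L + (s + 1) * N) ω x y := by
      rw [ae_all_iff]
      intro s
      exact A.comp L (L + s * N) (L + (s + 1) * N) (by omega) (lv_le L N s)
    filter_upwards [hcomp] with ω hω s hs hlt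
    have hc : (0 : ℕ) = 0 ∧ z = z := ⟨rfl, rfl⟩
    obtain ⟨x, lam, _, hsum, hle⟩ := T.inv_of_lt_tau 0 z hs hlt
      (fun s x lam => 1 ≤ s ∧ ∑' y, lam y = 1 ∧
        ∀ y, γ0 * γ ^ (s - 1) * lam y ≤ A.G L (L + s * N) ω z y)
      (by
        intro hsucc
        have hsucc' : ω ∈ succ0 A L N Cell En κ γ0 z := by
          simpa [T, tiles, hc] using hsucc
        have hl0 : T.lam0 0 z ω = outM (Cell 1 (sel (good0 A L N Cell En κ γ0 z ω))) (single z)
            (gL A L N 0 ω) := by
          simp [T, tiles, hsucc']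
        have hg : good0 A L N Cell En κ γ0 z ω (sel (good0 A L N Cell En κ γ0 z ω)) :=
          sel_spec hsucc'
        rw [hl0]
        refine ⟨le_rfl, (out_mem _ _ hγ0 (le_of_eq (tsum_single z)) (gL_mass A L N 0 ω) hg).1,
          fun y => ?_⟩
        have := mul_out_le _ _ hγ0 (le_of_eq (tsum_single z)) (gL_mass A L N 0 ω) hg y
        rw [tsum_single_mul] at this
        simpa [gL] using this)
      (by
        rintro s x lam ⟨h0, h1, h2⟩ hgood
        have hgood' : ω ∈ goodS Cell En kL kR κ γ s x lam := by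
          have : ω ∈ T.good (0 + s) x lam := hgood
          rw [zero_add] at this
          exact this
        have hout : T.outL (0 + s) x lam ω = outM (Cell (s+1) x) lam (kL s x ω) := by
          rw [zero_add]; rfl
        rw [hout]
        refine ⟨by omega, (out_mem _ _ hγ (le_of_eq h1) (H.subL.mass s x ω) hgood'.1).1,
          fun y => ?_⟩
        refine step_cost h0 h2 ?_ (hω s)
        exact (mul_out_le _ _ hγ (le_of_eq h1) (H.subL.mass s x ω) hgood'.1 y).trans
          (ENNReal.tsum_le_tsum fun w => by gcongr; exact H.subL.le s x ω w y))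
      (by
        rintro s x lam ⟨h0, h1, h2⟩ hgood
        have hgood' : ω ∈ goodS Cell En kL kR κ γ s x lam := by
          have : ω ∈ T.good (0 + s) x lam := hgood
          rw [zero_add] at this
          exact this
        have hout : T.outR (0 + s) x lam ω = outM (Cell (s+1) (x+1)) lam (kR s x ω) := by
          rw [zero_add]; rfl
        rw [hout]
        refine ⟨by omega, (out_mem _ _ hγ (le_of_eq h1) (H.subR.mass s x ω) hgood'.2).1,
          fun y => ?_⟩
        refine step_cost h0 h2 ?_ (hω s)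
        exact (mul_out_le _ _ hγ (le_of_eq h1) (H.subR.mass s x ω) hgood'.2 y).trans
          (ENNReal.tsum_le_tsum fun w => by gcongr; exact H.subR.le s x ω w y))
    calc γ0 * γ ^ s ≤ γ0 * γ ^ (s - 1) :=
          mul_le_mul_right (pow_le_pow_right_of_le_one' hγ1 (Nat.sub_le s 1)) _
      _ = ∑' y, γ0 * γ ^ (s - 1) * lam y := by rw [ENNReal.tsum_mul_left, hsum, mul_one]
      _ ≤ ∑' y, A.G L (L + s * N) ω z y := ENNReal.tsum_le_tsum hle
      _ = A.N L (L + s * N) ω z := rfl

/-- **299's `TileSys` (v2).** -/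
theorem tileSys [IsProbabilityMeasure P] (A : KerSys S P) (N : ℕ) {κ γ γ0 : ℝ≥0∞}
    (hγ : γ ≠ 0) (hγ0 : γ0 ≠ 0) (hγ1 : γ ≤ 1) {q θ : ℝ≥0∞}
    (hq : 54 * q ≤ 1) (hθ1 : θ ≤ 1) (hθ : 27 * q ≤ θ ^ 2)
    (H : ∀ L, ∀ z ∈ A.L L, ∃ (Cell : ℕ → ℤ → Set S) (En : ℕ → S → S → ℝ≥0∞)
      (kL kR : ℕ → ℤ → Ω → S → S → ℝ≥0∞), Inputs A L N Cell En kL kR κ γ γ0 z q) :
    WindowK299.TileSys A N γ0 γ θ where
  fam L z hz := by
    obtain ⟨Cell, En, kL, kR, h⟩ := H L z hz
    exact fam A L N Cell En kL kR κ γ γ0 hγ hγ0 hγ1 hq hθ1 hθ h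

end inst

end Crest.Agent.R154.TileInst2
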