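import Crest.Agent.R154.InitK_272
import Crest.Agent.R154.TileInst2_333

/-!
Row 154, block B8 (helper272): **small heights** with sub-kernels (killed climbs), any index type of
cells, started from admissible laws at the level `0` (no first climb).
-/

set_option autoImplicit false
set_option linter.unusedSectionVars false
set_option linter.unusedVariables false

namespace Crest.Agent.R154.InitY272

open MeasureTheory ProbabilityTheory Crest.Agent.R154.Perc272 Crest.Agent.R154.Gen272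
open Crest.Agent.R154.RatioR872 Crest.Agent.R154.TileInst748 Crest.Agent.R154.Init272
open scoped ENNReal NNReal

section inst

variable {S : Type*} [Countable S] {Ω : Type*} [m0 : MeasurableSpace Ω] {P : Measure Ω}
  {X : Type*}

/-- admissible sub-kernels of the layers `k N`. -/
structure SubKerX (A : KerSys S P) (N : ℕ) (kk : ℕ → X → Ω → S → S → ℝ≥0∞) : Prop where
  le : ∀ k x ω y z, kk k x ω y z ≤ A.G (k * N) ((k + 1) * N) ω y z
  measF : ∀ k x y z, Measurable[A.F ((k + 1) * N)] fun ω => kk k x ω y z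
  measH : ∀ k x y z, Measurable[A.H (k * N)] fun ω => kk k x ω y z

lemma lvm (N : ℕ) : Monotone fun k : ℕ => k * N := fun a b h => Nat.mul_le_mul_right N h

lemma lv_le (k N : ℕ) : k * N ≤ (k + 1) * N := Nat.mul_le_mul_right N (Nat.le_succ k)

lemma SubKerX.mass {A : KerSys S P} {N : ℕ} {kk : ℕ → X → Ω → S → S → ℝ≥0∞}
    (h : SubKerX A N kk) (k : ℕ) (x : X) (ω : Ω) (y : S) : ∑' z, kk k x ω y z ≤ 1 :=
  (ENNReal.tsum_le_tsum fun z => h.le k x ω y z).trans (A.mass _ _ ω y (lv_le k N))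

variable (A : KerSys S P) (N : ℕ) (sh : Equiv.Perm X) (Cell : ℕ → X → Set S)
  (En : ℕ → S → S → ℝ≥0∞) (kL kR : ℕ → X → Ω → S → S → ℝ≥0∞) (κ γ : ℝ≥0∞)

/-- good tile (layer `k`, cell `x`). -/
def goodY (k : ℕ) (x : X) (lam : S → ℝ≥0∞) : Set Ω :=
  {ω | okM (Cell (k+1) x) (En (k+1)) κ γ lam (kL k x ω) ∧
    okM (Cell (k+1) (sh x)) (En (k+1)) κ γ lam (kR k x ω)}

/-- **The deterministic inputs.** -/
structure InputsY (q : ℝ≥0∞) : Prop where
  subL : SubKerX A N kL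
  subR : SubKerX A N kR
  nonempty : ∀ k x, (clsM (Cell k x) (En k) κ).Nonempty
  kset : ∀ k (K : Finset X) (lam : X → S → ℝ≥0∞), (∀ x, lam x ∈ clsM (Cell k x) (En k) κ) →
    P {ω | ∀ x ∈ K, ω ∉ goodY sh Cell En kL kR κ γ k x (lam x)} ≤ q ^ K.card

open Classical in
/-- **The tile system.** -/
noncomputable def tilesY [IsProbabilityMeasure P] (hγ : γ ≠ 0) {q : ℝ≥0∞}
    (H : InputsY A N sh Cell En kL kR κ γ q) :
    TSys P (FL A (fun k => k * N) (lvm N)) X (S → ℝ≥0∞) q where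
  sh := sh
  cls k x := clsM (Cell k x) (En k) κ
  dflt k x := (H.nonempty k x).some
  dflt_mem k x := (H.nonempty k x).some_mem
  good k x lam := goodY sh Cell En kL kR κ γ k x lam
  outL k x lam ω := outM (Cell (k+1) x) lam (kL k x ω)
  outR k x lam ω := outM (Cell (k+1) (sh x)) lam (kR k x ω)
  outL_mem k x lam ω hlam hω :=
    out_mem _ _ hγ (le_of_eq hlam.1) (H.subL.mass k x ω) hω.1
  outR_mem k x lam ω hlam hω :=
    out_mem _ _ hγ (le_of_eq hlam.1) (H.subR.mass k x ω) hω.2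
  good_meas k x f hf := by
    have hl : ∀ y, Measurable[A.F ((k + 1) * N)] fun ω => f ω y := fun y =>
      (measurable_pi_apply y).comp (hf.mono (A.F.mono (lv_le k N)) le_rfl)
    have h1 := @meas_ok S _ Ω (A.F ((k + 1) * N)) f (kL k x) (Cell (k+1) x) (En (k+1)) κ γ
      hl (H.subL.measF k x)
    have h2 := @meas_ok S _ Ω (A.F ((k + 1) * N)) f (kR k x) (Cell (k+1) (sh x)) (En (k+1))
      κ γ hl (H.subR.measF k x)
    exact MeasurableSet.inter h1 h2
  outL_meas k x f hf := by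
    have hl : ∀ y, Measurable[A.F ((k + 1) * N)] fun ω => f ω y := fun y =>
      (measurable_pi_apply y).comp (hf.mono (A.F.mono (lv_le k N)) le_rfl)
    exact @meas_out S _ Ω (A.F ((k + 1) * N)) f (kL k x) (Cell (k+1) x)
      hl (H.subL.measF k x)
  outR_meas k x f hf := by
    have hl : ∀ y, Measurable[A.F ((k + 1) * N)] fun ω => f ω y := fun y =>
      (measurable_pi_apply y).comp (hf.mono (A.F.mono (lv_le k N)) le_rfl)
    exact @meas_out S _ Ω (A.F ((k + 1) * N)) f (kR k x) (Cell (k+1) (sh x))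
      hl (H.subR.measF k x)
  kset k K f hf hfc B hB := by
    have hm : ∀ x, MeasurableSet[MeasurableSpace.pi.prod (A.H (k * N))]
        {p : (S → ℝ≥0∞) × Ω | p.2 ∉ goodY sh Cell En kL kR κ γ k x p.1} := by
      intro x
      have hl : ∀ y, @Measurable ((S → ℝ≥0∞) × Ω) ℝ≥0∞ (MeasurableSpace.pi.prod (A.H (k * N))) _
          fun p => p.1 y := fun y =>
        (measurable_pi_apply y).comp (@measurable_fst (S → ℝ≥0∞) Ω MeasurableSpace.pi
          (A.H (k * N)))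
      have hg : ∀ y z, @Measurable ((S → ℝ≥0∞) × Ω) ℝ≥0∞
          (MeasurableSpace.pi.prod (A.H (k * N))) _ fun p => kL k x p.2 y z := fun y z =>
        (H.subL.measH k x y z).comp (@measurable_snd (S → ℝ≥0∞) Ω MeasurableSpace.pi
          (A.H (k * N)))
      have hg' : ∀ y z, @Measurable ((S → ℝ≥0∞) × Ω) ℝ≥0∞
          (MeasurableSpace.pi.prod (A.H (k * N))) _ fun p => kR k x p.2 y z := fun y z =>
        (H.subR.measH k x y z).comp (@measurable_snd (S → ℝ≥0∞) Ω MeasurableSpace.pi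
          (A.H (k * N)))
      have h1 := @meas_ok S _ ((S → ℝ≥0∞) × Ω) (MeasurableSpace.pi.prod (A.H (k * N)))
        (fun p => p.1) (fun p => kL k x p.2) (Cell (k+1) x) (En (k+1)) κ γ hl hg
      have h2 := @meas_ok S _ ((S → ℝ≥0∞) × Ω) (MeasurableSpace.pi.prod (A.H (k * N)))
        (fun p => p.1) (fun p => kR k x p.2) (Cell (k+1) (sh x)) (En (k+1)) κ γ hl hg'
      exact (MeasurableSet.inter h1 h2).compl
    exact kset_randX (m1 := A.F (k * N)) (m2 := A.H (k * N)) P (A.F.le _)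
      (A.H_le _) (A.indep _) (fun x => {p | p.2 ∉ goodY sh Cell En kL kR κ γ k x p.1}) hm
      (fun x => clsM (Cell k x) (En k) κ) K (q ^ K.card)
      (fun lam hlam => H.kset k K lam hlam) f hf hfc B hB

variable {A N sh Cell En kL kR κ γ}

/-- the deterministic start: wet cells `Src`, laws `lam0`. -/
noncomputable def confY [IsProbabilityMeasure P] (hγ : γ ≠ 0) {q : ℝ≥0∞}
    (H : InputsY A N sh Cell En kL kR κ γ q) (lam0 : X → S → ℝ≥0∞)
    (h0 : ∀ x, lam0 x ∈ clsM (Cell 0 x) (En 0) κ) (Src : Set X) :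
    Conf (tilesY A N sh Cell En kL kR κ γ hγ H) 0 where
  A x := {_ω | x ∈ Src}
  f x _ω := lam0 x
  A_meas x := MeasurableSet.const _
  f_meas x := measurable_const
  f_mem x _ω := h0 x

end inst

section mass

variable {S : Type*} [Countable S] {Ω : Type*} [m0 : MeasurableSpace Ω] {P : Measure Ω}
  [IsProbabilityMeasure P] {X : Type*} {A : KerSys S P} {N : ℕ} {sh : Equiv.Perm X}
  {Cell : ℕ → X → Set S} {En : ℕ → S → S → ℝ≥0∞} {kL kR : ℕ → X → Ω → S → S → ℝ≥0∞}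
  {κ γ : ℝ≥0∞}

theorem mass_of_wetY (hγ : γ ≠ 0) {q : ℝ≥0∞} (H : InputsY A N sh Cell En kL kR κ γ q)
    (lam0 : X → S → ℝ≥0∞) (h0 : ∀ x, lam0 x ∈ clsM (Cell 0 x) (En 0) κ) (Src : Set X) :
    ∀ᵐ ω ∂P, ∀ j x, ω ∈ (tilesY A N sh Cell En kL kR κ γ hγ H).wet
        (confY hγ H lam0 h0 Src) (j + 1) x →
      ∃ x' ∈ Src, γ ^ (j + 1) ≤ ∑' z, lam0 x' z * A.N 0 ((j + 1) * N) ω z := by
  classical
  have hcomp : ∀ᵐ ω ∂P, ∀ j : ℕ, ∀ x y, ∑' w, A.G 0 (j * N) ω x w *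
      A.G (j * N) ((j + 1) * N) ω w y ≤ A.G 0 ((j + 1) * N) ω x y := by
    rw [ae_all_iff]
    intro j
    exact A.comp 0 (j * N) ((j + 1) * N) (Nat.zero_le _) (lv_le j N)
  filter_upwards [hcomp] with ω hω j x hw
  set T := tilesY A N sh Cell En kL kR κ γ hγ H with hT
  set c := confY hγ H lam0 h0 Src with hc
  -- one step of the invariant
  have hstep : ∀ (s : ℕ) (x' : X) (lam o : S → ℝ≥0∞) (y : S),
      ((s = 0 ∧ lam = lam0 x') ∨
        (1 ≤ s ∧ ∀ y, γ ^ s * lam y ≤ ∑' z, lam0 x' z * A.G 0 (s * N) ω z y)) →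
      γ * o y ≤ ∑' w, lam w * A.G (s * N) ((s + 1) * N) ω w y →
      γ ^ (s + 1) * o y ≤ ∑' z, lam0 x' z * A.G 0 ((s + 1) * N) ω z y := by
    intro s x' lam o y h2 hout
    rcases h2 with ⟨rfl, rfl⟩ | ⟨hs, h2⟩
    · rw [zero_add, pow_one]
      simpa only [zero_mul, zero_add] using hout
    · calc γ ^ (s + 1) * o y = γ ^ s * (γ * o y) := by rw [pow_succ]; ring
        _ ≤ γ ^ s * ∑' w, lam w * A.G (s * N) ((s + 1) * N) ω w y := by gcongr
        _ = ∑' w, (γ ^ s * lam w) * A.G (s * N) ((s + 1) * N) ω w y := by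
            rw [← ENNReal.tsum_mul_left]
            exact tsum_congr fun w => by ring
        _ ≤ ∑' w, (∑' z, lam0 x' z * A.G 0 (s * N) ω z w) * A.G (s * N) ((s + 1) * N) ω w y :=
            ENNReal.tsum_le_tsum fun w => by gcongr; exact h2 w
        _ = ∑' z, lam0 x' z * ∑' w, A.G 0 (s * N) ω z w * A.G (s * N) ((s + 1) * N) ω w y := by
            simp_rw [← ENNReal.tsum_mul_right, ← ENNReal.tsum_mul_left]
            rw [ENNReal.tsum_comm]
            refine tsum_congr fun z => tsum_congr fun w => ?_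
            ring
        _ ≤ ∑' z, lam0 x' z * A.G 0 ((s + 1) * N) ω z y :=
            ENNReal.tsum_le_tsum fun z => by gcongr; exact hω s z y
  have hinv := T.inv_of_wet c (ω := ω) (fun s x lam => ∑' y, lam y = 1 ∧ ∃ x' ∈ Src,
      ((s = 0 ∧ lam = lam0 x') ∨
        (1 ≤ s ∧ ∀ y, γ ^ s * lam y ≤ ∑' z, lam0 x' z * A.G 0 (s * N) ω z y))) (by
    intro x hx
    exact ⟨(h0 x).1, x, hx, Or.inl ⟨rfl, rfl⟩⟩) (by
    rintro s x lam ⟨h1, x', hx', h2⟩ hg
    rw [zero_add] at hg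
    have hg' : ω ∈ goodY sh Cell En kL kR κ γ s x lam := hg
    have e : T.outL (0 + s) x lam ω = outM (Cell (s+1) x) lam (kL s x ω) := by
      rw [zero_add]; rfl
    rw [e]
    refine ⟨(out_mem _ _ hγ (le_of_eq h1) (H.subL.mass s x ω) hg'.1).1, x', hx',
      Or.inr ⟨by omega, fun y => ?_⟩⟩
    refine hstep s x' lam _ y h2 ((mul_out_le _ _ hγ (le_of_eq h1)
      (H.subL.mass s x ω) hg'.1 y).trans (ENNReal.tsum_le_tsum fun w => ?_))
    gcongr
    exact H.subL.le s x ω w y) (by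
    rintro s x lam ⟨h1, x', hx', h2⟩ hg
    rw [zero_add] at hg
    have hg' : ω ∈ goodY sh Cell En kL kR κ γ s x lam := hg
    have e : T.outR (0 + s) x lam ω = outM (Cell (s+1) (sh x)) lam (kR s x ω) := by
      rw [zero_add]; rfl
    rw [e]
    refine ⟨(out_mem _ _ hγ (le_of_eq h1) (H.subR.mass s x ω) hg'.2).1, x', hx',
      Or.inr ⟨by omega, fun y => ?_⟩⟩
    refine hstep s x' lam _ y h2 ((mul_out_le _ _ hγ (le_of_eq h1)
      (H.subR.mass s x ω) hg'.2 y).trans (ENNReal.tsum_le_tsum fun w => ?_))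
    gcongr
    exact H.subR.le s x ω w y) hw
  obtain ⟨h1, x', hx', h2⟩ := hinv
  refine ⟨x', hx', ?_⟩
  rcases h2 with ⟨h2, -⟩ | ⟨-, h2⟩
  · omega
  calc γ ^ (j + 1) = ∑' y, γ ^ (j + 1) * T.state c (j + 1) x ω y := by
        rw [ENNReal.tsum_mul_left, h1, mul_one]
    _ ≤ ∑' y, ∑' z, lam0 x' z * A.G 0 ((j + 1) * N) ω z y := ENNReal.tsum_le_tsum h2
    _ = ∑' z, lam0 x' z * A.N 0 ((j + 1) * N) ω z := by
        rw [ENNReal.tsum_comm]
        exact tsum_congr fun z => ENNReal.tsum_mul_left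

/-- **Bound from rows of wet cells.** -/
theorem init_boundY (hγ : γ ≠ 0) {q : ℝ≥0∞} (H : InputsY A N sh Cell En kL kR κ γ q)
    (hq0 : q ≠ 0) (hq : q ≤ ((1 / 48 : ℝ≥0) : ℝ≥0∞)) {ι : Type*} [DecidableEq ι]
    (x : ι → X) (n : ι → ℕ) (h : ℕ) (I : Finset ι) (hn : ∀ s ∈ I, 1 ≤ n s)
    (hinj : Set.InjOn (fun p : ι × ℤ => (sh ^ p.2) (x p.1))
      {p | p.1 ∈ I ∧ 0 ≤ p.2 ∧ p.2 < n p.1 + h})
    (lam0 : X → S → ℝ≥0∞) (h0 : ∀ x, lam0 x ∈ clsM (Cell 0 x) (En 0) κ)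
    (μ : S → ℝ≥0∞) (w : ℝ≥0∞)
    (hw : ∀ s ∈ I, ∀ y : ℕ, y < n s → ∀ z, w * lam0 ((sh ^ y) (x s)) z ≤ μ z) :
    P {ω | A.Sh μ ((h + 1) * N) ω < w * γ ^ (h + 1)} ≤
      ∏ s ∈ I, (2 * (12 * q) ^ n s) := by
  classical
  set Src : Set X := {z | ∃ s ∈ I, ∃ y : ℕ, y < n s ∧ z = (sh ^ y) (x s)} with hSrc
  set T := tilesY A N sh Cell En kL kR κ γ hγ H with hT
  set c := confY hγ H lam0 h0 Src with hc
  have hdead := T.dead_le c hq0 hq x n h I hn hinj Set.univ MeasurableSet.univ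
  rw [measure_univ, one_mul] at hdead
  refine le_trans (measure_mono_ae ?_) hdead
  filter_upwards [mass_of_wetY (A := A) (N := N) (sh := sh) (Cell := Cell) (En := En)
    (kL := kL) (kR := kR) hγ H lam0 h0 Src] with ω hω
  intro (hlt : A.Sh μ ((h + 1) * N) ω < w * γ ^ (h + 1))
  refine ⟨Set.mem_univ _, fun s hs => ?_⟩
  rw [Set.eq_empty_iff_forall_notMem]
  intro y hy
  have hwet := T.wet_of_cl c (x s) (n s) ω (fun y hy => ⟨s, hs, y, hy, rfl⟩) (h + 1) y hy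
  obtain ⟨x', ⟨s', hs', y', hy', rfl⟩, hN⟩ := hω h _ hwet
  refine absurd hlt (not_lt.2 ?_)
  calc w * γ ^ (h + 1)
      ≤ w * ∑' z, lam0 ((sh ^ y') (x s')) z * A.N 0 ((h + 1) * N) ω z := by gcongr
    _ = ∑' z, (w * lam0 ((sh ^ y') (x s')) z) * A.N 0 ((h + 1) * N) ω z := by
        rw [← ENNReal.tsum_mul_left]
        exact tsum_congr fun z => by ring
    _ ≤ ∑' z, μ z * A.N 0 ((h + 1) * N) ω z :=
        ENNReal.tsum_le_tsum fun z => by gcongr; exact hw s' hs' y' hy' z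
    _ = A.Sh μ ((h + 1) * N) ω := by
        unfold KerSys.Sh
        rw [KerSys.tot_push]

end mass

/-! ### The final arithmetic -/

section final

variable {S : Type*} [Countable S] {Ω : Type*} [m0 : MeasurableSpace Ω] {P : Measure Ω}
  [IsProbabilityMeasure P]

/-- **LITERAL INPUT of (init)**: one tile system on `ℤ × ℤ` (first coordinate: plane, second: cell of
a row) for the pair `(b, δ')`, started at the level `0`. -/
def InitTilesY (A : KerSys S P) (μ : ℕ → S → ℝ≥0∞) (b δ' : ℝ) : Prop :=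
  ∃ (N : ℕ) (m ρ : ℝ) (κ γ : ℝ≥0∞) (Cell : ℕ → ℤ × ℤ → Set S)
    (En : ℕ → S → S → ℝ≥0∞) (kL kR : ℕ → ℤ × ℤ → Ω → S → S → ℝ≥0∞) (lam0 : ℤ × ℤ → S → ℝ≥0∞)
    (n0 : ℕ),
    0 < N ∧ 0 ≤ m ∧ 4 * m * b ≤ δ' * N ∧ ENNReal.ofReal (Real.exp (-m)) ≤ γ ∧
    InputsY A N shZ Cell En kL kR κ γ ((1 / 96 : ℝ≥0) : ℝ≥0∞) ∧
    (∀ x, lam0 x ∈ clsM (Cell 0 x) (En 0) κ) ∧
    0 < ρ ∧ ∀ n, n0 ≤ n → ∀ s y : ℕ, (s : ℝ) ≤ ρ * n → (y : ℝ) ≤ ρ * n →
      ∀ z, lam0 ((s : ℤ), (y : ℤ)) z ≠ 0 → ENNReal.ofReal (Real.exp (-(δ' * n / 4))) ≤ μ n z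

/-- **(init)** of `CompW.chain`. -/
theorem init_of_tilesY (A : KerSys S P) (μ : ℕ → S → ℝ≥0∞) (hμ : ∀ n, A.Start (μ n))
    (a : ℕ → ℕ → Ω → ℝ)
    (ha : ∀ n i, ∀ᵐ ω ∂P, a n i ω = - Real.log (A.Sh (μ n) (10 ^ i) ω).toReal)
    (hT : ∀ b δ' : ℝ, 0 < b → 0 < δ' → InitTilesY A μ b δ') :
    ∀ b δ' M : ℝ, 0 < b → 0 < δ' → 0 < M → ∃ n1 : ℕ, ∀ n, n1 ≤ n → ∀ J : ℕ,
      (10 : ℝ) ^ J ≤ b * n →
      P {ω | δ' * n ≤ a n J ω} ≤ ENNReal.ofReal (Real.exp (-(M * n))) := by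
  classical
  intro b δ' M hb hδ hM
  obtain ⟨N, m, ρ, κ, γ, Cell, En, kL, kR, lam0, n0, hN, hm, hmb, hγ, H, hlam0, hρ, hμw⟩ :=
    hT b δ' hb hδ
  have hγne : γ ≠ 0 := by
    intro h
    rw [h] at hγ
    have := le_zero_iff.1 hγ
    rw [ENNReal.ofReal_eq_zero] at this
    exact absurd this (not_le.2 (Real.exp_pos _))
  obtain ⟨n1, hn1⟩ := exists_nat_ge (max (max (2 / ρ) (8 * M / ρ ^ 2)) (8 * m / δ') + 1)
  refine ⟨max n0 n1, fun n hn J hJ => ?_⟩
  have hnn0 : n0 ≤ n := (le_max_left _ _).trans hn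
  have hnn1 : max (max (2 / ρ) (8 * M / ρ ^ 2)) (8 * m / δ') + 1 ≤ (n : ℝ) :=
    hn1.trans (by exact_mod_cast (le_max_right _ _).trans hn)
  have i1 : 2 / ρ ≤ n := by
    have := (le_max_left (2 / ρ) (8 * M / ρ ^ 2)).trans
      (le_max_left _ (8 * m / δ'))
    linarith
  have i2 : 8 * M / ρ ^ 2 ≤ n := by
    have := (le_max_right (2 / ρ) (8 * M / ρ ^ 2)).trans
      (le_max_left _ (8 * m / δ'))
    linarith
  have i3 : 8 * m / δ' ≤ n := by
    have := le_max_right (max (2 / ρ) (8 * M / ρ ^ 2)) (8 * m / δ')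
    linarith
  have hnpos : (0 : ℝ) < n := by
    have := (le_max_left (2 / ρ) (8 * M / ρ ^ 2)).trans
      (le_max_left _ (8 * m / δ'))
    have h2 : 0 < 2 / ρ := by positivity
    linarith
  have i1' : 2 ≤ ρ * n := by
    rw [div_le_iff₀ hρ] at i1
    linarith
  have i2' : 8 * M ≤ ρ ^ 2 * n := by
    rw [div_le_iff₀ (by positivity)] at i2
    linarith
  have i3' : 8 * m ≤ δ' * n := by
    rw [div_le_iff₀ hδ] at i3
    linarith
  set r : ℕ := ⌊ρ * n⌋₊ with hr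
  have hr1 : (r : ℝ) ≤ ρ * n := Nat.floor_le (by positivity)
  have hr2 : ρ * n < r + 1 := Nat.lt_floor_add_one _
  have hr3 : ρ * n / 2 ≤ r := by linarith
  have hrpos : 1 ≤ r := by
    have : (1 : ℝ) ≤ r := by linarith
    exact_mod_cast this
  set h : ℕ := ⌈b * n / N⌉₊ with hh
  have hNr : (0 : ℝ) < N := by exact_mod_cast hN
  have hh1 : b * n / N ≤ h := Nat.le_ceil _
  have hh2 : (h : ℝ) < b * n / N + 1 := Nat.ceil_lt_add_one (by positivity)
  have hq48 : ((1 / 96 : ℝ≥0) : ℝ≥0∞) ≤ ((1 / 48 : ℝ≥0) : ℝ≥0∞) := by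
    refine ENNReal.coe_le_coe.2 ?_
    rw [← NNReal.coe_le_coe]
    push_cast
    norm_num
  have hbound := init_boundY (A := A) (N := N) (sh := shZ) (Cell := Cell) (En := En)
    (kL := kL) (kR := kR) hγne H (by norm_num) hq48
    (fun s : ℕ => ((s : ℤ), (0 : ℤ))) (fun _ => r) h (Finset.range r) (fun _ _ => hrpos) (by
      rintro ⟨s, y⟩ hy ⟨s', y'⟩ hy' heq
      have h1 : (0 : ℤ) ≤ y := hy.2.1
      have h2 : (0 : ℤ) ≤ y' := hy'.2.1
      simp only at heq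
      rw [shZ_zpow y h1, shZ_zpow y' h2] at heq
      simp only [Prod.mk.injEq, Nat.cast_inj, zero_add] at heq
      rw [heq.1, heq.2]) lam0 hlam0
    (μ n) (ENNReal.ofReal (Real.exp (-(δ' * n / 4)))) (by
      intro s hs y hy z
      rw [shZ_pow, zero_add]
      rw [Finset.mem_range] at hs
      have e1 : (s : ℝ) ≤ r := by exact_mod_cast hs.le
      have e2 : (y : ℝ) ≤ r := by exact_mod_cast hy.le
      have h5 := hlam0 ((s : ℤ), (y : ℤ))
      by_cases hz : lam0 ((s : ℤ), (y : ℤ)) z = 0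
      · rw [hz, mul_zero]
        exact zero_le
      · refine le_trans ?_ (hμw n hnn0 s y (e1.trans hr1) (e2.trans hr1) z hz)
        have h6 : lam0 ((s : ℤ), (y : ℤ)) z ≤ 1 := by
          rw [← h5.1]
          exact ENNReal.le_tsum z
        calc ENNReal.ofReal (Real.exp (-(δ' * n / 4))) * lam0 ((s : ℤ), (y : ℤ)) z
            ≤ ENNReal.ofReal (Real.exp (-(δ' * n / 4))) * 1 := by gcongr
          _ = _ := mul_one _)
  refine le_trans (measure_mono_ae ?_) (hbound.trans ?_)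
  · filter_upwards [ha n J] with ω hω
    intro (hle : δ' * n ≤ a n J ω)
    change A.Sh (μ n) ((h + 1) * N) ω < _
    rw [hω] at hle
    have ht : A.Sh (μ n) (10 ^ J) ω ≠ ∞ :=
      ne_top_of_le_ne_top ENNReal.one_ne_top (KerSys.Sh_le_one (hμ n) _ ω)
    have hδn : 0 < δ' * n := by positivity
    have hpos : 0 < (A.Sh (μ n) (10 ^ J) ω).toReal := by
      by_contra hcon
      have h0 : (A.Sh (μ n) (10 ^ J) ω).toReal = 0 :=
        le_antisymm (not_lt.1 hcon) ENNReal.toReal_nonneg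
      rw [h0, Real.log_zero] at hle
      linarith
    have h1 : (A.Sh (μ n) (10 ^ J) ω).toReal ≤ Real.exp (-(δ' * n)) := by
      rw [← Real.exp_log hpos]
      apply Real.exp_le_exp.2
      linarith
    have h2 : A.Sh (μ n) ((h + 1) * N) ω ≤ ENNReal.ofReal (Real.exp (-(δ' * n))) := by
      refine (KerSys.Sh_anti (?_ : 10 ^ J ≤ (h + 1) * N) ω).trans ?_
      · have e1 : ((10 ^ J : ℕ) : ℝ) ≤ ((h + 1) * N : ℕ) := by
          push_cast
          refine hJ.trans ?_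
          rw [div_le_iff₀ hNr] at hh1
          have : (h : ℝ) * N ≤ ((h : ℝ) + 1) * N := by nlinarith
          linarith
        exact_mod_cast e1
      · rw [← ENNReal.ofReal_toReal ht]
        exact ENNReal.ofReal_le_ofReal h1
    refine lt_of_le_of_lt h2 ?_
    have h3 : ENNReal.ofReal (Real.exp (-(δ' * n / 4))) *
        ENNReal.ofReal (Real.exp (-m)) ^ (h + 1) ≤
        ENNReal.ofReal (Real.exp (-(δ' * n / 4))) * γ ^ (h + 1) :=
      mul_le_mul' le_rfl (pow_le_pow_left' hγ _)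
    refine lt_of_lt_of_le ?_ h3
    rw [← ENNReal.ofReal_pow (Real.exp_pos _).le, ← ENNReal.ofReal_mul (Real.exp_pos _).le,
      ← Real.exp_nat_mul, ← Real.exp_add]
    refine (ENNReal.ofReal_lt_ofReal_iff (Real.exp_pos _)).2 (Real.exp_lt_exp.2 ?_)
    have e3 : m * ((h : ℝ) + 1) ≤ δ' * n / 4 + δ' * n / 4 := by
      have e4 : m * ((h : ℝ) + 1) ≤ m * (b * n / N + 2) :=
        mul_le_mul_of_nonneg_left (by linarith) hm
      have e5 : m * (b * n / N) ≤ δ' * n / 4 := by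
        rw [mul_div_assoc', div_le_iff₀ hNr]
        have := mul_le_mul_of_nonneg_right hmb hnpos.le
        nlinarith
      have e6 : m * 2 ≤ δ' * n / 4 := by linarith
      linarith
    push_cast
    nlinarith
  · rw [Finset.prod_const, Finset.card_range]
    have e1 : (2 : ℝ≥0∞) * (12 * ((1 / 96 : ℝ≥0) : ℝ≥0∞)) ^ r ≤
        ENNReal.ofReal (Real.exp (-((r : ℝ) / 2))) := by
      have e24 : (12 : ℝ≥0∞) * ((1 / 96 : ℝ≥0) : ℝ≥0∞) = ENNReal.ofReal (1 / 8) := by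
        have : (12 : ℝ≥0∞) = ((12 : ℝ≥0) : ℝ≥0∞) := by simp
        rw [this, ← ENNReal.coe_mul, ENNReal.ofReal, ENNReal.coe_inj, ← NNReal.coe_inj,
          Real.coe_toNNReal _ (by norm_num)]
        push_cast
        norm_num
      rw [e24, ← ENNReal.ofReal_pow (by norm_num)]
      have e2 : (2 : ℝ≥0∞) = ENNReal.ofReal 2 := by simp
      rw [e2, ← ENNReal.ofReal_mul (by norm_num)]
      apply ENNReal.ofReal_le_ofReal
      have e3 : (2 : ℝ) * (1 / 8) ^ r ≤ (1 / 2) ^ r := by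
        have e4 : ((1 : ℝ) / 8) ^ r = (1 / 2) ^ r * (1 / 4) ^ r := by
          rw [← mul_pow]; norm_num
        have e5 : ((1 : ℝ) / 4) ^ r ≤ 1 / 4 := by
          calc ((1 : ℝ) / 4) ^ r ≤ (1 / 4) ^ 1 :=
                pow_le_pow_of_le_one (by norm_num) (by norm_num) hrpos
            _ = 1 / 4 := pow_one _
        have e6 : (0 : ℝ) < (1 / 2) ^ r := by positivity
        rw [e4]
        nlinarith
      refine e3.trans ?_
      have e7 : (1 : ℝ) / 2 ≤ Real.exp (-(1 / 2)) := by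
        have := Real.add_one_le_exp (-(1 / 2 : ℝ))
        linarith
      calc ((1 : ℝ) / 2) ^ r ≤ Real.exp (-(1 / 2)) ^ r :=
            pow_le_pow_left₀ (by norm_num) e7 r
        _ = Real.exp (-((r : ℝ) / 2)) := by
            rw [← Real.exp_nat_mul]
            congr 1
            ring
    refine (pow_le_pow_left' e1 r).trans ?_
    rw [← ENNReal.ofReal_pow (Real.exp_pos _).le, ← Real.exp_nat_mul]
    apply ENNReal.ofReal_le_ofReal
    apply Real.exp_le_exp.2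
    have e8 : (ρ * n / 2) ^ 2 ≤ (r : ℝ) ^ 2 := pow_le_pow_left₀ (by positivity) hr3 2
    have e9 : 8 * M * n ≤ ρ ^ 2 * n * n := by
      exact mul_le_mul_of_nonneg_right i2' hnpos.le
    nlinarith

end final

end Crest.Agent.R154.InitY272
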