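import Mathlib

/-!
Row 154, TILE: shear lemma (ham sandwich for two laws separated by a vertical strip).  Two finite
measures, one with first coordinate `≥ a`, the other with first coordinate `≤ -a`: there are a slope
`s` and a shift `d` such that `Y - s X` has median `d` under both.  Mathlib only.
-/

set_option autoImplicit false

namespace Crest.Agent.R154.Shear284

open MeasureTheory Set Filter
open scoped Topology

variable {Ω : Type*} [MeasurableSpace Ω]

lemma closed_ge (μ : Measure Ω) [IsFiniteMeasure μ] {Z : Ω → ℝ} (hZ : Measurable Z) {m e : ℝ}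
    (h : ∀ δ : ℝ, 0 < δ → m ≤ μ.real {ω | e - δ ≤ Z ω}) : m ≤ μ.real {ω | e ≤ Z ω} := by
  have h1 : Tendsto (fun k : ℕ => μ.real {ω | e - 1 / ((k : ℝ) + 1) ≤ Z ω}) atTop
      (𝓝 (μ.real {ω | e ≤ Z ω})) := by
    have h2 : {ω | e ≤ Z ω} = ⋂ k : ℕ, {ω | e - 1 / ((k : ℝ) + 1) ≤ Z ω} := by
      ext ω
      simp only [mem_ofPred_eq, mem_iInter]
      constructor
      · intro h k
        have : 0 < 1 / ((k : ℝ) + 1) := by positivity
        linarith
      · intro h
        refine le_of_forall_pos_le_add fun ε hε => ?_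
        obtain ⟨k, hk⟩ := exists_nat_one_div_lt hε
        have := h k
        linarith
    rw [h2]
    have h3 := tendsto_measure_iInter_atTop (μ := μ)
      (s := fun k : ℕ => {ω | e - 1 / ((k : ℝ) + 1) ≤ Z ω})
      (fun k => (measurableSet_le measurable_const hZ).nullMeasurableSet)
      (fun i j hij ω hω => by
        simp only [mem_ofPred_eq] at hω ⊢
        have : 1 / ((j : ℝ) + 1) ≤ 1 / ((i : ℝ) + 1) := by
          apply one_div_le_one_div_of_le (by positivity)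
          have : (i : ℝ) ≤ j := by exact_mod_cast hij
          linarith
        linarith) ⟨0, measure_ne_top _ _⟩
    exact (ENNReal.tendsto_toReal (measure_ne_top _ _)).comp h3
  exact ge_of_tendsto' h1 fun k => h _ (by positivity)

lemma closed_le (μ : Measure Ω) [IsFiniteMeasure μ] {Z : Ω → ℝ} (hZ : Measurable Z) {m e : ℝ}
    (h : ∀ δ : ℝ, 0 < δ → m ≤ μ.real {ω | Z ω ≤ e + δ}) : m ≤ μ.real {ω | Z ω ≤ e} := by
  have := closed_ge μ (Z := fun ω => -Z ω) hZ.neg (m := m) (e := -e) (fun δ hδ => by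
    refine (h δ hδ).trans (measureReal_mono ?_)
    intro ω hω
    simp only [mem_ofPred_eq] at hω ⊢
    linarith)
  refine this.trans (measureReal_mono ?_)
  intro ω hω
  simp only [mem_ofPred_eq] at hω ⊢
  linarith

lemma ae_full (μ : Measure Ω) [IsFiniteMeasure μ] {p : Ω → Prop} (h : ∀ᵐ ω ∂μ, p ω) :
    μ.real {ω | p ω} = μ.real univ := by
  apply measureReal_congr
  filter_upwards [h] with ω hω
  exact propext ⟨fun _ => trivial, fun _ => hω⟩

lemma ae_empty (μ : Measure Ω) [IsFiniteMeasure μ] {p : Ω → Prop} (h : ∀ᵐ ω ∂μ, ¬ p ω) :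
    μ.real {ω | p ω} = 0 := by
  have : μ {ω | p ω} = 0 := by
    rw [ae_iff] at h
    simpa using h
  simp [Measure.real, this]

lemma half_of_lt (μ : Measure Ω) [IsFiniteMeasure μ] {S T : Set Ω} (hS : MeasurableSet S)
    (h : μ.real S < μ.real univ / 2) (hT : Sᶜ ⊆ T) : μ.real univ / 2 ≤ μ.real T := by
  have h1 : μ.real Sᶜ = μ.real univ - μ.real S := measureReal_compl hS
  have h2 := measureReal_mono (μ := μ) hT
  linarith

lemma median (μ : Measure Ω) [IsFiniteMeasure μ] (h0 : 0 < μ.real univ) {Z : Ω → ℝ}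
    (hZ : Measurable Z) {M : ℝ} (hM : ∀ᵐ ω ∂μ, |Z ω| ≤ M) :
    ∃ d : ℝ, |d| ≤ M ∧ μ.real univ / 2 ≤ μ.real {ω | d ≤ Z ω} ∧
      μ.real univ / 2 ≤ μ.real {ω | Z ω ≤ d} := by
  set A : Set ℝ := {t | μ.real univ / 2 ≤ μ.real {ω | t ≤ Z ω}} with hA
  have h1 : -M ∈ A := by
    have : μ.real {ω | -M ≤ Z ω} = μ.real univ := by
      apply ae_full
      filter_upwards [hM] with ω hω
      exact (abs_le.1 hω).1
    simp only [hA, mem_ofPred_eq, this]
    linarith
  have h2 : ∀ t ∈ A, t ≤ M := by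
    intro t ht
    by_contra hc
    push Not at hc
    have : μ.real {ω | t ≤ Z ω} = 0 := by
      apply ae_empty
      filter_upwards [hM] with ω hω
      have := (abs_le.1 hω).2
      push Not
      linarith
    simp only [hA, mem_ofPred_eq, this] at ht
    linarith
  have hbdd : BddAbove A := ⟨M, h2⟩
  set d := sSup A with hd
  have hd1 : -M ≤ d := le_csSup hbdd h1
  have hd2 : d ≤ M := csSup_le ⟨_, h1⟩ h2
  refine ⟨d, abs_le.2 ⟨hd1, hd2⟩, ?_, ?_⟩
  · apply closed_ge μ hZ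
    intro δ hδ
    obtain ⟨t, ht, ht'⟩ := exists_lt_of_lt_csSup ⟨_, h1⟩ (show d - δ < sSup A by linarith)
    refine (show μ.real univ / 2 ≤ μ.real {ω | t ≤ Z ω} from ht).trans (measureReal_mono ?_)
    intro ω hω
    simp only [mem_ofPred_eq] at hω ⊢
    linarith
  · apply closed_le μ hZ
    intro δ hδ
    have h3 : d + δ ∉ A := fun h => by
      have := le_csSup hbdd h
      linarith
    simp only [hA, mem_ofPred_eq, not_le] at h3
    refine half_of_lt μ (measurableSet_le measurable_const hZ) h3 ?_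
    intro ω hω
    simp only [mem_compl_iff, mem_ofPred_eq, not_le] at hω ⊢
    exact hω.le

lemma lim_ge (μ : Measure Ω) [IsFiniteMeasure μ] {X Y : Ω → ℝ} (hX : Measurable X)
    (hY : Measurable Y) {A m : ℝ} (hXA : ∀ᵐ ω ∂μ, |X ω| ≤ A) {s e : ℕ → ℝ} {s₀ e₀ : ℝ}
    (hs : Tendsto s atTop (𝓝 s₀)) (he : Tendsto e atTop (𝓝 e₀))
    (h : ∀ k, m ≤ μ.real {ω | e k ≤ Y ω - s k * X ω}) :
    m ≤ μ.real {ω | e₀ ≤ Y ω - s₀ * X ω} := by
  apply closed_ge μ (Z := fun ω => Y ω - s₀ * X ω) (hY.sub (hX.const_mul s₀))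
  intro δ hδ
  have h1 : Tendsto (fun k => (e₀ - e k) + |s k - s₀| * A) atTop (𝓝 ((e₀ - e₀) + |s₀ - s₀| * A)) :=
    (tendsto_const_nhds.sub he).add (((hs.sub_const s₀).abs).mul_const A)
  simp only [sub_self, abs_zero, zero_mul, add_zero] at h1
  obtain ⟨k, hk⟩ := (h1.eventually (gt_mem_nhds hδ)).exists
  refine (h k).trans ?_
  refine ENNReal.toReal_mono (measure_ne_top _ _) (measure_mono_ae ?_)
  filter_upwards [hXA] with ω hω h2
  have h3 : -(|s k - s₀| * A) ≤ (s k - s₀) * X ω := by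
    have h4 : |(s k - s₀) * X ω| ≤ |s k - s₀| * A := by
      rw [abs_mul]
      exact mul_le_mul_of_nonneg_left hω (abs_nonneg _)
    exact (abs_le.1 h4).1
  change e₀ - δ ≤ Y ω - s₀ * X ω
  have h5 : e k ≤ Y ω - s k * X ω := h2
  nlinarith

lemma lim_le (μ : Measure Ω) [IsFiniteMeasure μ] {X Y : Ω → ℝ} (hX : Measurable X)
    (hY : Measurable Y) {A m : ℝ} (hXA : ∀ᵐ ω ∂μ, |X ω| ≤ A) {s e : ℕ → ℝ} {s₀ e₀ : ℝ}
    (hs : Tendsto s atTop (𝓝 s₀)) (he : Tendsto e atTop (𝓝 e₀))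
    (h : ∀ k, m ≤ μ.real {ω | Y ω - s k * X ω ≤ e k}) :
    m ≤ μ.real {ω | Y ω - s₀ * X ω ≤ e₀} := by
  have := lim_ge μ (X := fun ω => -X ω) (Y := fun ω => -Y ω) hX.neg hY.neg (A := A) (m := m)
    (by simpa using hXA) (s := s) (e := fun k => - e k) (s₀ := s₀) (e₀ := -e₀) hs he.neg
    (fun k => (h k).trans (measureReal_mono (fun ω hω => by
      simp only [mem_ofPred_eq] at hω ⊢
      linarith)))
  refine this.trans (measureReal_mono ?_)
  intro ω hω
  simp only [mem_ofPred_eq] at hω ⊢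
  linarith

/-- **Shear lemma.** -/
theorem shear (μ ν : Measure Ω) [IsFiniteMeasure μ] [IsFiniteMeasure ν]
    (hμ0 : 0 < μ.real univ) (hν0 : 0 < ν.real univ) {X Y : Ω → ℝ} (hX : Measurable X)
    (hY : Measurable Y) {a A W : ℝ} (ha : 0 < a) (hW : 0 ≤ W)
    (hμ : ∀ᵐ ω ∂μ, (a ≤ X ω ∧ X ω ≤ A) ∧ |Y ω| ≤ W)
    (hν : ∀ᵐ ω ∂ν, (a ≤ -X ω ∧ -X ω ≤ A) ∧ |Y ω| ≤ W) :
    ∃ s d : ℝ, |s| ≤ W / a ∧ |d| ≤ W + (W / a + 1) * A ∧
      μ.real univ / 2 ≤ μ.real {ω | d ≤ Y ω - s * X ω} ∧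
      μ.real univ / 2 ≤ μ.real {ω | Y ω - s * X ω ≤ d} ∧
      ν.real univ / 2 ≤ ν.real {ω | d ≤ Y ω - s * X ω} ∧
      ν.real univ / 2 ≤ ν.real {ω | Y ω - s * X ω ≤ d} := by
  have hA0 : a ≤ A := by
    by_contra hc
    push Not at hc
    have : μ.real {ω : Ω | True} = 0 := by
      apply ae_empty
      filter_upwards [hμ] with ω hω
      exact fun _ => by linarith [hω.1.1, hω.1.2]
    simp only [ofPred_true] at this
    linarith
  set M := W + (W / a + 1) * A with hMdef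
  have hWa : 0 ≤ W / a := by positivity
  have hZm : ∀ s : ℝ, Measurable fun ω => Y ω - s * X ω := fun s => hY.sub (hX.const_mul s)
  have hbμ : ∀ s : ℝ, |s| ≤ W / a + 1 → ∀ᵐ ω ∂μ, |Y ω - s * X ω| ≤ M := by
    intro s hs
    filter_upwards [hμ] with ω hω
    have h1 : |s * X ω| ≤ (W / a + 1) * A := by
      rw [abs_mul]
      apply mul_le_mul hs _ (abs_nonneg _) (by linarith)
      rw [abs_of_nonneg (by linarith [hω.1.1])]
      exact hω.1.2
    have h2 := abs_sub (Y ω) (s * X ω)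
    linarith [hω.2]
  have hbν : ∀ s : ℝ, |s| ≤ W / a + 1 → ∀ᵐ ω ∂ν, |Y ω - s * X ω| ≤ M := by
    intro s hs
    filter_upwards [hν] with ω hω
    have h1 : |s * X ω| ≤ (W / a + 1) * A := by
      rw [abs_mul]
      apply mul_le_mul hs _ (abs_nonneg _) (by linarith)
      rw [← abs_neg, abs_of_nonneg (by linarith [hω.1.1])]
      exact hω.1.2
    have h2 := abs_sub (Y ω) (s * X ω)
    linarith [hω.2]
  set B : Set ℝ := {s | ∃ d : ℝ, μ.real univ / 2 ≤ μ.real {ω | d ≤ Y ω - s * X ω} ∧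
    ν.real univ / 2 ≤ ν.real {ω | Y ω - s * X ω ≤ d}} with hB
  have hB1 : -(W / a) ∈ B := by
    refine ⟨0, ?_, ?_⟩
    · have : μ.real {ω | 0 ≤ Y ω - -(W / a) * X ω} = μ.real univ := by
        apply ae_full
        filter_upwards [hμ] with ω hω
        have h1 : W ≤ W / a * X ω := by
          have := mul_le_mul_of_nonneg_left hω.1.1 hWa
          rwa [div_mul_cancel₀ _ ha.ne'] at this
        have := (abs_le.1 hω.2).1
        linarith
      rw [this]; linarith
    · have : ν.real {ω | Y ω - -(W / a) * X ω ≤ 0} = ν.real univ := by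
        apply ae_full
        filter_upwards [hν] with ω hω
        have h1 : W ≤ W / a * (-X ω) := by
          have := mul_le_mul_of_nonneg_left hω.1.1 hWa
          rwa [div_mul_cancel₀ _ ha.ne'] at this
        have := (abs_le.1 hω.2).2
        linarith
      rw [this]; linarith
  have hB2 : ∀ s ∈ B, s ≤ W / a := by
    rintro s ⟨d, hd1, hd2⟩
    by_contra hc
    push Not at hc
    have hs : W < s * a := by rwa [div_lt_iff₀ ha] at hc
    have hs0 : 0 < s := lt_of_le_of_lt hWa hc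
    have h1 : d ≤ W - s * a := by
      by_contra h
      push Not at h
      have : μ.real {ω | d ≤ Y ω - s * X ω} = 0 := by
        apply ae_empty
        filter_upwards [hμ] with ω hω
        have h3 := mul_le_mul_of_nonneg_left hω.1.1 hs0.le
        have := (abs_le.1 hω.2).2
        push Not
        linarith
      linarith
    have h2 : s * a - W ≤ d := by
      by_contra h
      push Not at h
      have : ν.real {ω | Y ω - s * X ω ≤ d} = 0 := by
        apply ae_empty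
        filter_upwards [hν] with ω hω
        have h3 := mul_le_mul_of_nonneg_left hω.1.1 hs0.le
        have := (abs_le.1 hω.2).1
        push Not
        linarith
      linarith
    linarith
  have hbdd : BddAbove B := ⟨_, hB2⟩
  set s₀ := sSup B with hs₀
  have hs1 : -(W / a) ≤ s₀ := le_csSup hbdd hB1
  have hs2 : s₀ ≤ W / a := csSup_le ⟨_, hB1⟩ hB2
  have hAX : ∀ᵐ ω ∂μ, |X ω| ≤ A := by
    filter_upwards [hμ] with ω hω
    rw [abs_of_nonneg (by linarith [hω.1.1])]
    exact hω.1.2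
  have hAX' : ∀ᵐ ω ∂ν, |X ω| ≤ A := by
    filter_upwards [hν] with ω hω
    rw [← abs_neg, abs_of_nonneg (by linarith [hω.1.1])]
    exact hω.1.2
  -- points of `B`
  have hE : ∀ s ∈ B, |s| ≤ W / a + 1 → ∃ e : ℝ, |e| ≤ M ∧
      μ.real univ / 2 ≤ μ.real {ω | e ≤ Y ω - s * X ω} ∧
      ν.real univ / 2 ≤ ν.real {ω | e ≤ Y ω - s * X ω} ∧
      ν.real univ / 2 ≤ ν.real {ω | Y ω - s * X ω ≤ e} := by
    rintro s ⟨d, hd1, hd2⟩ hs
    obtain ⟨m, hm1, hm2, hm3⟩ := median ν hν0 (hZm s) (hbν s hs)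
    rcases le_or_gt m d with hmd | hmd
    · refine ⟨m, hm1, hd1.trans (measureReal_mono ?_), hm2, hm3⟩
      intro ω hω
      simp only [mem_ofPred_eq] at hω ⊢
      linarith
    · refine ⟨d, ?_, hd1, hm2.trans (measureReal_mono ?_), hd2⟩
      · rw [abs_le]
        refine ⟨?_, hmd.le.trans (abs_le.1 hm1).2⟩
        by_contra hc
        push Not at hc
        have : ν.real {ω | Y ω - s * X ω ≤ d} = 0 := by
          apply ae_empty
          filter_upwards [hbν s hs] with ω hω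
          have := (abs_le.1 hω).1
          push Not
          linarith
        linarith
      · intro ω hω
        simp only [mem_ofPred_eq] at hω ⊢
        linarith
  -- points outside `B`
  have hD : ∀ s : ℝ, s ∉ B → |s| ≤ W / a + 1 → ∃ d : ℝ, |d| ≤ M ∧
      μ.real univ / 2 ≤ μ.real {ω | d ≤ Y ω - s * X ω} ∧
      μ.real univ / 2 ≤ μ.real {ω | Y ω - s * X ω ≤ d} ∧
      ν.real univ / 2 ≤ ν.real {ω | d ≤ Y ω - s * X ω} := by
    intro s hsB hs
    obtain ⟨m, hm1, hm2, hm3⟩ := median μ hμ0 (hZm s) (hbμ s hs)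
    refine ⟨m, hm1, hm2, hm3, ?_⟩
    have h1 : ν.real {ω | Y ω - s * X ω ≤ m} < ν.real univ / 2 := by
      by_contra hc
      push Not at hc
      exact hsB ⟨m, hm2, hc⟩
    refine half_of_lt ν (measurableSet_le (hZm s) measurable_const) h1 ?_
    intro ω hω
    simp only [mem_compl_iff, mem_ofPred_eq, not_le] at hω ⊢
    exact hω.le
  -- limit from below
  have hlow : ∃ e : ℝ, |e| ≤ M ∧
      μ.real univ / 2 ≤ μ.real {ω | e ≤ Y ω - s₀ * X ω} ∧
      ν.real univ / 2 ≤ ν.real {ω | e ≤ Y ω - s₀ * X ω} ∧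
      ν.real univ / 2 ≤ ν.real {ω | Y ω - s₀ * X ω ≤ e} := by
    have h1 : ∀ k : ℕ, ∃ s ∈ B, s₀ - 1 / ((k : ℝ) + 1) < s ∧ s ≤ s₀ := by
      intro k
      have : 0 < 1 / ((k : ℝ) + 1) := by positivity
      obtain ⟨t, ht, ht'⟩ := exists_lt_of_lt_csSup ⟨_, hB1⟩
        (show s₀ - 1 / ((k : ℝ) + 1) < sSup B by linarith)
      exact ⟨t, ht, ht', le_csSup hbdd ht⟩
    choose s hsB hs3 hs4 using h1
    have hs5 : ∀ k, |s k| ≤ W / a + 1 := by
      intro k
      have h2 : 1 / ((k : ℝ) + 1) ≤ 1 := by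
        rw [div_le_one (by positivity)]
        have : (0 : ℝ) ≤ k := Nat.cast_nonneg k
        linarith
      rw [abs_le]
      exact ⟨by linarith [hs3 k], by linarith [hs4 k]⟩
    have hs6 : Tendsto s atTop (𝓝 s₀) := by
      have h3 : Tendsto (fun k : ℕ => s₀ - 1 / ((k : ℝ) + 1)) atTop (𝓝 (s₀ - 0)) :=
        tendsto_const_nhds.sub tendsto_one_div_add_atTop_nhds_zero_nat
      rw [sub_zero] at h3
      exact tendsto_of_tendsto_of_tendsto_of_le_of_le h3 tendsto_const_nhds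
        (fun k => (hs3 k).le) hs4
    choose e he1 he2 he3 he4 using fun k => hE (s k) (hsB k) (hs5 k)
    obtain ⟨e₀, he₀, φ, hφ, hlim⟩ := isCompact_Icc.tendsto_subseq
      (fun k => (show e k ∈ Icc (-M) M from abs_le.1 (he1 k)))
    have hs7 := hs6.comp hφ.tendsto_atTop
    refine ⟨e₀, abs_le.2 he₀, ?_, ?_, ?_⟩
    · exact lim_ge μ hX hY hAX hs7 hlim fun k => he2 (φ k)
    · exact lim_ge ν hX hY hAX' hs7 hlim fun k => he3 (φ k)
    · exact lim_le ν hX hY hAX' hs7 hlim fun k => he4 (φ k)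
  -- limit from above
  have hupp : ∃ e : ℝ, |e| ≤ M ∧
      μ.real univ / 2 ≤ μ.real {ω | e ≤ Y ω - s₀ * X ω} ∧
      μ.real univ / 2 ≤ μ.real {ω | Y ω - s₀ * X ω ≤ e} ∧
      ν.real univ / 2 ≤ ν.real {ω | e ≤ Y ω - s₀ * X ω} := by
    set s : ℕ → ℝ := fun k => s₀ + 1 / ((k : ℝ) + 1) with hs
    have hsB : ∀ k, s k ∉ B := by
      intro k h
      have h1 := le_csSup hbdd h
      have : 0 < 1 / ((k : ℝ) + 1) := by positivity
      have h2 : s k = s₀ + 1 / ((k : ℝ) + 1) := rfl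
      linarith
    have hs5 : ∀ k, |s k| ≤ W / a + 1 := by
      intro k
      have h2 : 1 / ((k : ℝ) + 1) ≤ 1 := by
        rw [div_le_one (by positivity)]
        have : (0 : ℝ) ≤ k := Nat.cast_nonneg k
        linarith
      have h3 : 0 < 1 / ((k : ℝ) + 1) := by positivity
      have h4 : s k = s₀ + 1 / ((k : ℝ) + 1) := rfl
      rw [abs_le]
      exact ⟨by linarith, by linarith⟩
    have hs6 : Tendsto s atTop (𝓝 s₀) := by
      have h3 : Tendsto (fun k : ℕ => s₀ + 1 / ((k : ℝ) + 1)) atTop (𝓝 (s₀ + 0)) :=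
        tendsto_const_nhds.add tendsto_one_div_add_atTop_nhds_zero_nat
      rw [add_zero] at h3
      exact h3
    choose e he1 he2 he3 he4 using fun k => hD (s k) (hsB k) (hs5 k)
    obtain ⟨e₀, he₀, φ, hφ, hlim⟩ := isCompact_Icc.tendsto_subseq
      (fun k => (show e k ∈ Icc (-M) M from abs_le.1 (he1 k)))
    have hs7 := hs6.comp hφ.tendsto_atTop
    refine ⟨e₀, abs_le.2 he₀, ?_, ?_, ?_⟩
    · exact lim_ge μ hX hY hAX hs7 hlim fun k => he2 (φ k)
    · exact lim_le μ hX hY hAX hs7 hlim fun k => he3 (φ k)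
    · exact lim_ge ν hX hY hAX' hs7 hlim fun k => he4 (φ k)
  obtain ⟨e, he1, he2, he3, he4⟩ := hlow
  obtain ⟨d, hd1, hd2, hd3, hd4⟩ := hupp
  have hsabs : |s₀| ≤ W / a := abs_le.2 ⟨hs1, hs2⟩
  rcases le_or_gt e d with hed | hed
  · refine ⟨s₀, d, hsabs, hd1, hd2, hd3, hd4, he4.trans (measureReal_mono ?_)⟩
    intro ω hω
    simp only [mem_ofPred_eq] at hω ⊢
    linarith
  · refine ⟨s₀, e, hsabs, he1, he2, hd3.trans (measureReal_mono ?_), he3, he4⟩
    intro ω hω
    simp only [mem_ofPred_eq] at hω ⊢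
    linarith

end Crest.Agent.R154.Shear284
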