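import Crest.Agent.R154.B4LP_573
import Crest.Agent.R154.Shear_284

/-!
Row 154, TILE: steering of the level process (573's `LP`) in TWO lateral coordinates at once, with no
hypothesis on the joint law.  `steerG` is the general form (finitely many regions, one piece for each);
`mobility2` = pieces obtained from a one dimensional mobility by the shear lemma.
-/

set_option autoImplicit false
set_option linter.unusedSectionVars false

namespace Crest.Agent.R154.Steer284

open MeasureTheory ProbabilityTheory Filter Crest.Agent.R154.B4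
open scoped ENNReal Topology

variable {Ω : Type*} [mΩ : MeasurableSpace Ω] {P : Measure Ω}

/-- position after `j` pieces of height `n`, in the frame moving with `c` -/
noncomputable def TT (L : LP P) (ψ : V → ℝ × ℝ) (c y : ℝ × ℝ) (n j : ℕ) (ω : Ω) : ℝ × ℝ :=
  y + ψ (L.U (j * n) ω) - (j : ℝ) • c

/-- the steering event: at the time `j` the position is in `R i` for some `i`, and the next increment
is in `B i` -/
def EE {ι : Type*} (L : LP P) (ψ : V → ℝ × ℝ) (R B : ι → Set (ℝ × ℝ)) (c y : ℝ × ℝ) (n k : ℕ) :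
    Set Ω :=
  {ω | ∀ j < k, ∃ i, TT L ψ c y n j ω ∈ R i ∧ TT L ψ c y n (j + 1) ω - TT L ψ c y n j ω ∈ B i}

lemma measurable_TT (L : LP P) {ψ : V → ℝ × ℝ} (hψ : Measurable ψ) (c y : ℝ × ℝ) {n j k : ℕ}
    (hj : j ≤ k) : Measurable[L.F (k * n)] (TT L ψ c y n j) := by
  have h1 : Measurable[L.F (k * n)] (L.U (j * n)) :=
    (L.U_meas (j * n)).mono (L.F_mono (Nat.mul_le_mul_right n hj)) le_rfl
  exact ((hψ.comp h1).const_add y).sub_const _

lemma measurableSet_EE {ι : Type*} [Countable ι] (L : LP P) {ψ : V → ℝ × ℝ}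
    (hψ : Measurable ψ) {R B : ι → Set (ℝ × ℝ)}
    (hR : ∀ i, MeasurableSet (R i)) (hB : ∀ i, MeasurableSet (B i)) (c y : ℝ × ℝ) (n k : ℕ) :
    MeasurableSet[L.F (k * n)] (EE L ψ R B c y n k) := by
  have : EE L ψ R B c y n k = ⋂ j, ⋂ _ : j < k, ⋃ i,
      ((TT L ψ c y n j) ⁻¹' (R i) ∩
        (fun ω => TT L ψ c y n (j + 1) ω - TT L ψ c y n j ω) ⁻¹' (B i)) := by
    ext ω; simp [EE]
  rw [this]
  refine MeasurableSet.iInter fun j => MeasurableSet.iInter fun hj =>
    MeasurableSet.iUnion fun i => ?_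
  have h1 := measurable_TT L hψ c y (n := n) hj.le
  have h2 := measurable_TT L hψ c y (n := n) (j := j + 1) (k := k) hj
  exact (h1 (hR i)).inter ((h2.sub h1) (hB i))

/-- **steering, general form** -/
theorem steerG {ι : Type*} [Countable ι] [IsProbabilityMeasure P] (L : LP P)
    {ψ : V → ℝ × ℝ} (hψ : Measurable ψ) (hadd : ∀ x y, ψ (x + y) = ψ x + ψ y)
    {R B : ι → Set (ℝ × ℝ)} (hR : ∀ i, MeasurableSet (R i)) (hB : ∀ i, MeasurableSet (B i)) (hcov : ∀ v, ∃ i, v ∈ R i)
    (hdis : Pairwise fun i j => Disjoint (R i) (R j)) {c : ℝ × ℝ} {n : ℕ} {p₀ : ℝ} (hp₀ : 0 ≤ p₀)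
    (h : ∀ i, ENNReal.ofReal p₀ ≤ P {ω | ψ (L.U n ω) - c ∈ B i}) (y : ℝ × ℝ) (k : ℕ) :
    ENNReal.ofReal ((L.p * p₀) ^ k) ≤ P (EE L ψ R B c y n k ∩ L.C (k * n)) := by
  induction k with
  | zero =>
    have h : P (L.C 0) = 1 := (prob_compl_eq_zero_iff (L.C_meas 0)).1 L.C_zero
    have e : EE L ψ R B c y n 0 = Set.univ := by ext ω; simp [EE]
    simp only [pow_zero, zero_mul, ENNReal.ofReal_one, e, Set.univ_inter]
    exact h.ge
  | succ k ih =>
    set l := k * n with hl
    have hT := measurable_TT L hψ c y (n := n) (le_refl k)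
    have hE := measurableSet_EE L hψ hR hB c y n k
    set A : ι → Set Ω := fun i => EE L ψ R B c y n k ∩ (TT L ψ c y n k) ⁻¹' (R i) with hA
    have hAm : ∀ i, MeasurableSet[L.F l] (A i) := fun i =>
      MeasurableSet.inter hE (hT (hR i))
    have hUn : Measurable[L.F n] fun ω => ψ (L.U n ω) - c := (hψ.comp (L.U_meas n)).sub_const c
    set D : ι → Set Ω := fun i => {ω | ψ (L.U n ω) - c ∈ B i} with hD
    have hDm : ∀ i, MeasurableSet[L.F n] (D i) := fun i => hUn (hB i)
    have hq : ∀ i, ENNReal.ofReal (L.p * p₀) ≤ P (D i ∩ L.C n) := fun i => by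
      rw [ENNReal.ofReal_mul L.p_pos.le]
      exact (mul_le_mul_right (h i) _).trans (L.cut n (D i) (hDm i))
    have hDm' : ∀ i, MeasurableSet (D i ∩ L.C n) := fun i =>
      (L.F_le n _ (hDm i)).inter (L.C_meas n)
    have r := fun i => L.ren l (A i) (D i ∩ L.C n) (hAm i) (hDm' i)
    have hkl : (k + 1) * n = l + n := by rw [hl]; ring
    have hstep : ∀ ω, TT L ψ c y n (k + 1) ω - TT L ψ c y n k ω = ψ (L.U n (L.θ l ω)) - c := by
      intro ω
      unfold TT
      rw [hkl, L.U_add, hadd]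
      ext
      · simp only [Prod.fst_sub, Prod.fst_add, Prod.smul_fst, smul_eq_mul]
        push_cast
        ring
      · simp only [Prod.snd_sub, Prod.snd_add, Prod.smul_snd, smul_eq_mul]
        push_cast
        ring
    have hsub : (⋃ i, (A i ∩ L.C l ∩ L.θ l ⁻¹' (D i ∩ L.C n))) ⊆
        EE L ψ R B c y n (k + 1) ∩ L.C ((k + 1) * n) := by
      intro ω hω
      obtain ⟨i, ⟨⟨h3, h4⟩, h5⟩, h6, h7⟩ := Set.mem_iUnion.1 hω
      refine ⟨fun j hj => ?_, ?_⟩
      · rcases Nat.lt_succ_iff_lt_or_eq.1 hj with hj | rfl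
        · exact h3 j hj
        · refine ⟨i, h4, ?_⟩
          rw [hstep]
          exact h6
      · rw [hkl, L.C_add]; exact h7
    have hm : ∀ i, MeasurableSet (A i ∩ L.C l ∩ L.θ l ⁻¹' (D i ∩ L.C n)) := fun i =>
      (((L.F_le l) _ (hAm i)).inter (L.C_meas l)).inter (L.θ_meas l (hDm' i))
    have hdisj : Pairwise fun i j => Disjoint (A i ∩ L.C l ∩ L.θ l ⁻¹' (D i ∩ L.C n))
        (A j ∩ L.C l ∩ L.θ l ⁻¹' (D j ∩ L.C n)) := by
      intro i j hij
      rw [Set.disjoint_left]
      intro ω h h'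
      exact Set.disjoint_left.1 (hdis hij) h.1.1.2 h'.1.1.2
    have hsplit : P (EE L ψ R B c y n k ∩ L.C l) ≤ ∑' i, P (A i ∩ L.C l) := by
      refine (measure_mono ?_).trans (measure_iUnion_le _)
      rintro ω ⟨h3, h4⟩
      obtain ⟨i, hi⟩ := hcov (TT L ψ c y n k ω)
      exact Set.mem_iUnion.2 ⟨i, ⟨h3, hi⟩, h4⟩
    calc ENNReal.ofReal ((L.p * p₀) ^ (k + 1))
        = ENNReal.ofReal ((L.p * p₀) ^ k) * ENNReal.ofReal (L.p * p₀) := by
          rw [pow_succ, ENNReal.ofReal_mul (pow_nonneg (mul_nonneg L.p_pos.le hp₀) k)]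
      _ ≤ P (EE L ψ R B c y n k ∩ L.C l) * ENNReal.ofReal (L.p * p₀) := mul_le_mul_left ih _
      _ ≤ (∑' i, P (A i ∩ L.C l)) * ENNReal.ofReal (L.p * p₀) :=
          mul_le_mul_left hsplit _
      _ = ∑' i, P (A i ∩ L.C l) * ENNReal.ofReal (L.p * p₀) := ENNReal.tsum_mul_right.symm
      _ ≤ ∑' i, P (A i ∩ L.C l) * P (D i ∩ L.C n) :=
          ENNReal.tsum_le_tsum fun i => mul_le_mul_right (hq i) _
      _ = ∑' i, P (A i ∩ L.C l ∩ L.θ l ⁻¹' (D i ∩ L.C n)) := by
          simp_rw [r]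
      _ = P (⋃ i, (A i ∩ L.C l ∩ L.θ l ⁻¹' (D i ∩ L.C n))) :=
          (measure_iUnion hdisj hm).symm
      _ ≤ _ := measure_mono hsub

/-- the four quadrants -/
def RR (i : Bool × Bool) : Set (ℝ × ℝ) :=
  {v | (if i.1 then v.1 ≤ 0 else 0 < v.1) ∧ (if i.2 then v.2 ≤ 0 else 0 < v.2)}

/-- the four pieces: the first coordinate moves by `[a, A]` and the second by `[0, W]`, both towards
the origin -/
def BB (a A W : ℝ) (i : Bool × Bool) : Set (ℝ × ℝ) :=
  {v | (if i.1 then a ≤ v.1 ∧ v.1 ≤ A else a ≤ -v.1 ∧ -v.1 ≤ A) ∧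
    (if i.2 then 0 ≤ v.2 ∧ v.2 ≤ W else 0 ≤ -v.2 ∧ -v.2 ≤ W)}

lemma RR_meas (i : Bool × Bool) : MeasurableSet (RR i) := by
  unfold RR
  refine MeasurableSet.inter (s₁ := {v : ℝ × ℝ | if i.1 then v.1 ≤ 0 else 0 < v.1})
    (s₂ := {v : ℝ × ℝ | if i.2 then v.2 ≤ 0 else 0 < v.2}) ?_ ?_
  · cases i.1
    · simpa using measurableSet_lt measurable_const measurable_fst
    · simpa using measurableSet_le measurable_fst measurable_const
  · cases i.2
    · simpa using measurableSet_lt measurable_const measurable_snd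
    · simpa using measurableSet_le measurable_snd measurable_const

lemma mIcc {f : ℝ × ℝ → ℝ} (hf : Measurable f) (a A : ℝ) :
    MeasurableSet {v | a ≤ f v ∧ f v ≤ A} :=
  (measurableSet_le measurable_const hf).inter (measurableSet_le hf measurable_const)

lemma BB_meas (a A W : ℝ) (i : Bool × Bool) : MeasurableSet (BB a A W i) := by
  unfold BB
  refine MeasurableSet.inter
    (s₁ := {v : ℝ × ℝ | if i.1 then a ≤ v.1 ∧ v.1 ≤ A else a ≤ -v.1 ∧ -v.1 ≤ A})
    (s₂ := {v : ℝ × ℝ | if i.2 then 0 ≤ v.2 ∧ v.2 ≤ W else 0 ≤ -v.2 ∧ -v.2 ≤ W}) ?_ ?_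
  · cases i.1
    · simp only [Bool.false_eq_true, if_false]
      exact mIcc measurable_fst.neg a A
    · simp only [if_true]
      exact mIcc measurable_fst a A
  · cases i.2
    · simp only [Bool.false_eq_true, if_false]
      exact mIcc measurable_snd.neg 0 W
    · simp only [if_true]
      exact mIcc measurable_snd 0 W

lemma RR_cov (v : ℝ × ℝ) : ∃ i, v ∈ RR i := by
  refine ⟨(decide (v.1 ≤ 0), decide (v.2 ≤ 0)), ?_⟩
  simp only [RR, Set.mem_ofPred_eq, decide_eq_true_eq]
  constructor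
  · split_ifs with h
    · exact h
    · exact not_le.1 h
  · split_ifs with h
    · exact h
    · exact not_le.1 h

lemma RR_dis : Pairwise fun i j => Disjoint (RR i) (RR j) := by
  intro i j hij
  rw [Set.disjoint_left]
  rintro v ⟨h1, h2⟩ ⟨h3, h4⟩
  apply hij
  ext
  · cases hi : i.1 <;> cases hj : j.1 <;> simp_all <;> linarith
  · cases hi : i.2 <;> cases hj : j.2 <;> simp_all <;> linarith

/-- positions under steering -/
lemma bound_of_EE {L : LP P} {ψ : V → ℝ × ℝ} {a A W : ℝ} (ha : 0 < a) {c y : ℝ × ℝ}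
    (h0 : ψ 0 = 0) {n k : ℕ} {ω : Ω} (h : ω ∈ EE L ψ RR (BB a A W) c y n k) (hy : |y.2| ≤ W) :
    ∀ j ≤ k, |(TT L ψ c y n j ω).1| ≤ max (|y.1| - j * a) A ∧ |(TT L ψ c y n j ω).2| ≤ W := by
  intro j
  induction j with
  | zero => intro _; simp [TT, L.U_zero, h0, hy]
  | succ j ih =>
    intro hj
    obtain ⟨h1, h1'⟩ := ih (by omega)
    obtain ⟨i, ⟨h2, h3⟩, h4, h5⟩ := h j (by omega)
    set x := TT L ψ c y n j ω
    set x' := TT L ψ c y n (j + 1) ω
    simp only [Prod.fst_sub, Prod.snd_sub] at h4 h5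
    push_cast
    constructor
    · cases hi : i.1
      · simp only [hi, Bool.false_eq_true, if_false] at h2 h4
        rcases le_total x'.1 0 with h6 | h6
        · rw [abs_of_nonpos h6]
          refine le_max_of_le_right ?_; linarith
        · rw [abs_of_nonneg h6]
          rw [abs_of_pos h2] at h1
          rcases le_max_iff.1 h1 with h7 | h7
          · refine le_max_of_le_left ?_; linarith
          · refine le_max_of_le_right ?_; linarith
      · simp only [hi, if_true] at h2 h4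
        rcases le_total x'.1 0 with h6 | h6
        · rw [abs_of_nonpos h6]
          rw [abs_of_nonpos h2] at h1
          rcases le_max_iff.1 h1 with h7 | h7
          · refine le_max_of_le_left ?_; linarith
          · refine le_max_of_le_right ?_; linarith
        · rw [abs_of_nonneg h6]
          refine le_max_of_le_right ?_; linarith
    · obtain ⟨h8, h9⟩ := abs_le.1 h1'
      cases hi : i.2
      · simp only [hi, Bool.false_eq_true, if_false] at h3 h5
        rw [abs_le]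
        constructor <;> linarith
      · simp only [hi, if_true] at h3 h5
        rw [abs_le]
        constructor <;> linarith

/-- **Mobility in two lateral coordinates.**  From the mass of the two pieces of the first coordinate
(with the second coordinate in ONE window, no other hypothesis on the joint law) there is a shear
`φ₂ - s φ₁` and a drift such that from every start the walk is steered in both coordinates. -/
theorem mobility2 [IsProbabilityMeasure P] (L : LP P) {φ₁ φ₂ : V → ℝ} (hφ₁ : Measurable φ₁)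
    (hφ₂ : Measurable φ₂) (hadd₁ : ∀ x y, φ₁ (x + y) = φ₁ x + φ₁ y)
    (hadd₂ : ∀ x y, φ₂ (x + y) = φ₂ x + φ₂ y) {a A W c₁ v₂ g : ℝ} (ha : 0 < a) (hW : 0 ≤ W)
    (hg : 0 < g) (n : ℕ)
    (h₁ : g ≤ P.real {ω | (a ≤ φ₁ (L.U n ω) - c₁ ∧ φ₁ (L.U n ω) - c₁ ≤ A) ∧
      |φ₂ (L.U n ω) - v₂| ≤ W})
    (h₂ : g ≤ P.real {ω | (a ≤ -(φ₁ (L.U n ω) - c₁) ∧ -(φ₁ (L.U n ω) - c₁) ≤ A) ∧
      |φ₂ (L.U n ω) - v₂| ≤ W}) :
    ∃ s c₂ : ℝ, |s| ≤ W / a ∧ ∀ (y₁ y₂ : ℝ) (k : ℕ), |y₁| ≤ A + k * a →
      |y₂| ≤ 2 * (W + (W / a + 1) * A) →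
      ENNReal.ofReal ((L.p * (g / 2)) ^ k) ≤
        P ({ω | |y₁ + φ₁ (L.U (k * n) ω) - k * c₁| ≤ A ∧
          |y₂ + (φ₂ (L.U (k * n) ω) - s * φ₁ (L.U (k * n) ω)) - k * c₂| ≤
            2 * (W + (W / a + 1) * A)} ∩ L.C (k * n)) := by
  set X : Ω → ℝ := fun ω => φ₁ (L.U n ω) - c₁ with hX
  set Y : Ω → ℝ := fun ω => φ₂ (L.U n ω) - v₂ with hY
  have hUm : Measurable (L.U n) := (L.U_meas n).mono (L.F_le n) le_rfl
  have hXm : Measurable X := (hφ₁.comp hUm).sub_const _
  have hYm : Measurable Y := (hφ₂.comp hUm).sub_const _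
  set E₁ : Set Ω := {ω | (a ≤ X ω ∧ X ω ≤ A) ∧ |Y ω| ≤ W} with hE₁
  set E₂ : Set Ω := {ω | (a ≤ -X ω ∧ -X ω ≤ A) ∧ |Y ω| ≤ W} with hE₂
  have hE₁m : MeasurableSet E₁ :=
    ((measurableSet_le measurable_const hXm).inter (measurableSet_le hXm measurable_const)).inter
      (measurableSet_le hYm.abs measurable_const)
  have hE₂m : MeasurableSet E₂ :=
    ((measurableSet_le measurable_const hXm.neg).inter
      (measurableSet_le (f := fun ω => -X ω) hXm.neg measurable_const)).inter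
      (measurableSet_le hYm.abs measurable_const)
  have hu₁ : (P.restrict E₁).real Set.univ = P.real E₁ := by
    simp [Measure.real]
  have hu₂ : (P.restrict E₂).real Set.univ = P.real E₂ := by
    simp [Measure.real]
  have hr : ∀ (E S : Set Ω), MeasurableSet S → (P.restrict E).real S = P.real (S ∩ E) := by
    intro E S hS
    simp [Measure.real, Measure.restrict_apply hS]
  obtain ⟨s, d, hs, hd, k1, k2, k3, k4⟩ := Shear284.shear (P.restrict E₁) (P.restrict E₂)
    (by rw [hu₁]; linarith) (by rw [hu₂]; linarith) hXm hYm ha hW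
    (ae_restrict_mem hE₁m) (ae_restrict_mem hE₂m)
  have hZm : Measurable fun ω => Y ω - s * X ω := hYm.sub (hXm.const_mul s)
  rw [hu₁, hr _ _ (measurableSet_le measurable_const hZm)] at k1
  rw [hu₁, hr _ _ (measurableSet_le hZm measurable_const)] at k2
  rw [hu₂, hr _ _ (measurableSet_le measurable_const hZm)] at k3
  rw [hu₂, hr _ _ (measurableSet_le hZm measurable_const)] at k4
  set W' := 2 * (W + (W / a + 1) * A) with hW'
  have hA0 : a ≤ A := by
    by_contra hc
    push Not at hc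
    have : E₁ = ∅ := by
      ext ω
      simp only [hE₁, Set.mem_ofPred_eq, Set.mem_empty_iff_false, iff_false]
      rintro ⟨⟨h5, h6⟩, -⟩
      linarith
    rw [this] at k1
    have h1' : g ≤ P.real E₁ := h₁
    rw [this] at h1'
    simp at h1'
    linarith
  have hWa : 0 ≤ W / a := by positivity
  have hZb : ∀ ω, |X ω| ≤ A → |Y ω| ≤ W → |Y ω - s * X ω - d| ≤ W' := by
    intro ω h5 h6
    have h7 : |s * X ω| ≤ W / a * A := by
      rw [abs_mul]
      exact mul_le_mul hs h5 (abs_nonneg _) hWa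
    have h8 := abs_sub (Y ω - s * X ω) d
    have h9 := abs_sub (Y ω) (s * X ω)
    have : 0 ≤ A := ha.le.trans hA0
    nlinarith
  set c₂ := v₂ - s * c₁ + d with hc₂
  refine ⟨s, c₂, hs, fun y₁ y₂ k hy₁ hy₂ => ?_⟩
  set ψ : V → ℝ × ℝ := fun v => (φ₁ v, φ₂ v - s * φ₁ v) with hψ
  have hψm : Measurable ψ := hφ₁.prodMk (hφ₂.sub (hφ₁.const_mul s))
  have hψa : ∀ x y, ψ (x + y) = ψ x + ψ y := by
    intro x y
    ext
    · simp [hψ, hadd₁]
    · simp only [hψ, hadd₁, hadd₂, Prod.mk_add_mk]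
      ring
  have hψ0 : ψ 0 = 0 := by
    have := hψa 0 0
    simpa using this
  have hZe : ∀ ω, φ₂ (L.U n ω) - s * φ₁ (L.U n ω) - c₂ = Y ω - s * X ω - d := by
    intro ω
    simp only [hX, hY, hc₂]
    ring
  have hpiece : ∀ i : Bool × Bool,
      ENNReal.ofReal (g / 2) ≤ P {ω | ψ (L.U n ω) - (c₁, c₂) ∈ BB a A W' i} := by
    intro i
    have key : ∀ S : Set Ω, g / 2 ≤ P.real S → S ⊆ {ω | ψ (L.U n ω) - (c₁, c₂) ∈ BB a A W' i} →
        ENNReal.ofReal (g / 2) ≤ P {ω | ψ (L.U n ω) - (c₁, c₂) ∈ BB a A W' i} := by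
      intro S hS hsub
      refine (ENNReal.ofReal_le_ofReal hS).trans ?_
      rw [Measure.real, ENNReal.ofReal_toReal (measure_ne_top _ _)]
      exact measure_mono hsub
    obtain ⟨i1, i2⟩ := i
    cases i1 <;> cases i2
    · refine key _ (le_trans (by linarith) k4) ?_
      rintro ω ⟨h5, ⟨h6, h7⟩, h8⟩
      have h9 : Y ω - s * X ω ≤ d := h5
      have h10 := hZb ω (by rw [← abs_neg, abs_of_nonneg (by linarith)]; exact h7) h8
      have h11 := (abs_le.1 h10).1
      have h12 := hZe ω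
      refine ⟨?_, ?_⟩
      · simp only [Bool.false_eq_true, if_false, hψ, Prod.fst_sub]
        exact ⟨h6, h7⟩
      · simp only [Bool.false_eq_true, if_false, hψ, Prod.snd_sub]
        rw [h12]
        constructor <;> linarith
    · refine key _ (le_trans (by linarith) k3) ?_
      rintro ω ⟨h5, ⟨h6, h7⟩, h8⟩
      have h9 : d ≤ Y ω - s * X ω := h5
      have h10 := hZb ω (by rw [← abs_neg, abs_of_nonneg (by linarith)]; exact h7) h8
      have h11 := (abs_le.1 h10).2
      have h12 := hZe ω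
      refine ⟨?_, ?_⟩
      · simp only [Bool.false_eq_true, if_false, hψ, Prod.fst_sub]
        exact ⟨h6, h7⟩
      · simp only [if_true, hψ, Prod.snd_sub]
        rw [h12]
        constructor <;> linarith
    · refine key _ (le_trans (by linarith) k2) ?_
      rintro ω ⟨h5, ⟨h6, h7⟩, h8⟩
      have h9 : Y ω - s * X ω ≤ d := h5
      have h10 := hZb ω (by rw [abs_of_nonneg (by linarith)]; exact h7) h8
      have h11 := (abs_le.1 h10).1
      have h12 := hZe ω
      refine ⟨?_, ?_⟩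
      · simp only [if_true, hψ, Prod.fst_sub]
        exact ⟨h6, h7⟩
      · simp only [Bool.false_eq_true, if_false, hψ, Prod.snd_sub]
        rw [h12]
        constructor <;> linarith
    · refine key _ (le_trans (by linarith) k1) ?_
      rintro ω ⟨h5, ⟨h6, h7⟩, h8⟩
      have h9 : d ≤ Y ω - s * X ω := h5
      have h10 := hZb ω (by rw [abs_of_nonneg (by linarith)]; exact h7) h8
      have h11 := (abs_le.1 h10).2
      have h12 := hZe ω
      refine ⟨?_, ?_⟩
      · simp only [if_true, hψ, Prod.fst_sub]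
        exact ⟨h6, h7⟩
      · simp only [if_true, hψ, Prod.snd_sub]
        rw [h12]
        constructor <;> linarith
  refine (steerG L hψm hψa RR_meas (BB_meas a A W') RR_cov RR_dis (by positivity) hpiece
    (y₁, y₂) k).trans (measure_mono ?_)
  rintro ω ⟨h5, h6⟩
  refine ⟨?_, h6⟩
  obtain ⟨h7, h8⟩ := bound_of_EE ha hψ0 h5 hy₂ k le_rfl
  simp only [TT, hψ, Prod.fst_sub, Prod.snd_sub, Prod.fst_add, Prod.snd_add, Prod.smul_fst,
    Prod.smul_snd, smul_eq_mul] at h7 h8
  refine ⟨h7.trans (max_le ?_ le_rfl), h8⟩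
  linarith

end Crest.Agent.R154.Steer284
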