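import Crest.Agent.R154.TileFin_872
import Crest.Agent.R154.Steer2_284
import Crest.Agent.R154.InitY_272

/-!
Row 154, block B8 (helper272), (init): two-dimensional boxes of lateral coordinates in a sheared
frame: masses of the natural climb from box to box, and the row condition (ROW) for the family
`ℤ × ℤ` (planes x cells) of boxes.
-/

set_option autoImplicit false
set_option linter.unusedSectionVars false
set_option linter.unusedVariables false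
set_option linter.deprecated false

namespace Crest.Agent.R154.Box272

open MeasureTheory ProbabilityTheory Set Filter Crest.ProbabilityR.RandomEnvironment
open Crest.Agent.R154.Mk561 Crest.Agent.R154.Q561
open Crest.Agent.R154.Flux132 (lev)
open Crest.Agent.R154.RatioR872 Crest.Agent.R154.Tile872
open Crest.Agent.R154.KS480
open Crest.Agent.R154.MobW437 (wl wl_pos one_le_wl four_wl_le mob Sl)
open Crest.Agent.R154.B4Inst797 (Nat0 natLaw UU lat natLaw_apply lp natLaw_isProb)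
open Crest.Agent.R154.Row12 (NearP)
open scoped ENNReal Topology

variable {d : ℕ}

/-! ### near cells at the height `K N` -/

section near

variable {Q : Measure (Environment d)} [IsProbabilityMeasure Q] {κ : ℝ} {R : ℕ}

/-- **near cells**, climbs of `K N` levels (12's `near_cells`) -/
lemma near_cellsK (F : Bind263.Frame Q κ R) (u : Step d) {i1 i2 : Fin d} (h1 : i1 ≠ u.1)
    (h2 : i2 ≠ u.1) (h12 : i1 ≠ i2) (hc : mkAnn κ Q 0 (Nat0 u R) ≠ 0) (i : Fin 2)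
    (hN : NearP u R κ Q) (K : ℕ) (hK : 1 ≤ K) {s δ : ℝ≥0∞} (hs : s ≠ 0) (hs1 : s ≤ 1)
    (hδ : δ ≠ 0) :
    ∃ p N0 : ℕ, ∀ N : ℕ, N0 ≤ N → 2 ^ p ∣ N → ∀ a : ℝ,
      wl (lp F u h1 h2 h12 hc) i N / 80 ≤ a →
      ∀ (ℓ : ℕ) (x x' : Site d), lev u x = ℓ → lev u x' = ℓ →
        3 * a ≤ |lat i1 i2 x i - lat i1 i2 x' i| → ∀ T T' : Set (Site d),
        mt u R κ Q s ((ℓ + K * N : ℕ) : ℤ) T T' x x' ≤ δ := by
  have := natLaw_isProb hc
  obtain ⟨η, hη, hη2⟩ := hN s δ hs hs1 hδ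
  obtain ⟨q, hq2, hq⟩ : ∃ q : ℕ, 2 ≤ q ∧ ENNReal.ofReal (6 / (100 * (2 ^ q : ℕ))) ≤ η := by
    rcases eq_or_ne η ⊤ with h | h
    · exact ⟨2, le_rfl, by rw [h]; exact le_top⟩
    have hpos : 0 < η.toReal := ENNReal.toReal_pos hη h
    obtain ⟨q, hq⟩ := exists_nat_gt (1 / η.toReal)
    refine ⟨max 2 q, le_max_left _ _, ENNReal.ofReal_le_of_le_toReal ?_⟩
    have h3 : (q : ℝ) < 2 ^ (max 2 q) := by
      have h5 : max 2 q < 2 ^ (max 2 q) := Nat.lt_two_pow_self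
      have h6 : q < 2 ^ (max 2 q) := lt_of_le_of_lt (le_max_right _ _) h5
      exact_mod_cast h6
    have h4 : 1 / η.toReal < 2 ^ (max 2 q) := hq.trans h3
    rw [div_lt_iff₀ hpos] at h4
    rw [div_le_iff₀ (by positivity)]
    push_cast
    nlinarith
  obtain ⟨l0, hl0⟩ := Row12.short_tail (lp F u h1 h2 h12 hc) i q hq2
  obtain ⟨n0, hn0⟩ := hη2 (q + 35 + K)
  refine ⟨q + 35, max (2 ^ (q + 35) * l0) (max n0 1), ?_⟩
  rintro N hN0 ⟨l, rfl⟩ a ha ℓ x x' hx hx' hxx T T'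
  have hl : l0 ≤ l := by
    have h3 := (le_max_left _ _).trans hN0
    exact Nat.le_of_mul_le_mul_left h3 (by positivity)
  obtain ⟨c, hcc⟩ := hl0 l hl
  have htail : natLaw κ Q u R {s | a < |UU u i1 i2 l s i - c|} ≤ η :=
    (Row12.le_of_real (hcc a ha)).trans hq
  have ha0 : 0 < a := lt_of_lt_of_le (by have := wl_pos (lp F u h1 h2 h12 hc) i
                                          (2 ^ (q + 35) * l); positivity) ha
  have hln : l ≤ 2 ^ (q + 35) * l := Nat.le_mul_of_pos_left _ (by positivity)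
  have hKn : 2 ^ (q + 35) * l ≤ K * (2 ^ (q + 35) * l) := Nat.le_mul_of_pos_left _ (by omega)
  have hK2 : K * (2 ^ (q + 35) * l) ≤ 2 ^ (q + 35 + K) * l := by
    have e : 2 ^ (q + 35 + K) * l = 2 ^ K * (2 ^ (q + 35) * l) := by rw [pow_add]; ring
    rw [e]
    exact Nat.mul_le_mul_right _ (Nat.lt_two_pow_self).le
  have key := hn0 (K * (2 ^ (q + 35) * l))
    (((le_max_left _ _).trans ((le_max_right _ _).trans hN0)).trans hKn) l (hln.trans hKn)
    hK2 (ℓ : ℤ) x x' hx hx' {y | |lat i1 i2 y i - lat i1 i2 x i - c| ≤ a} ?_ ?_ T T'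
  · have e : ((ℓ + K * (2 ^ (q + 35) * l) : ℕ) : ℤ)
        = (ℓ : ℤ) + ((K * (2 ^ (q + 35) * l) : ℕ) : ℤ) := by
      push_cast; ring
    rw [e]; exact key
  · have h3 := Row12.succ_out_le u i1 i2 i F hx hc htail
      {y | |lat i1 i2 y i - lat i1 i2 x i - c| ≤ a}ᶜ (fun y hy _ => by
        simpa using hy)
    have e : ((ℓ + l : ℕ) : ℤ) = (ℓ : ℤ) + (l : ℤ) := by push_cast; ring
    rw [e] at h3; exact h3
  · have h3 := Row12.succ_out_le u i1 i2 i F hx' hc htail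
      {y | |lat i1 i2 y i - lat i1 i2 x i - c| ≤ a} (fun y hy _ => by
        simp only [mem_setOf_eq] at hy
        have h4 : |lat i1 i2 x i - lat i1 i2 x' i| ≤ |lat i1 i2 y i - lat i1 i2 x' i - c| +
            |lat i1 i2 y i - lat i1 i2 x i - c| := by
          have := abs_sub (lat i1 i2 y i - lat i1 i2 x' i - c) (lat i1 i2 y i - lat i1 i2 x i - c)
          have e : (lat i1 i2 y i - lat i1 i2 x' i - c) - (lat i1 i2 y i - lat i1 i2 x i - c) =
            lat i1 i2 x i - lat i1 i2 x' i := by ring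
          rw [e] at this
          exact this
        linarith)
    have e : ((ℓ + l : ℕ) : ℤ) = (ℓ : ℤ) + (l : ℤ) := by push_cast; ring
    rw [e] at h3; exact h3

end near

/-! ### boxes -/

/-- the box of level `ℓ`, centre `(t1, t2)` in the sheared lateral coordinates -/
def bx (u : Step d) (i1 i2 : Fin d) (σ A W : ℝ) (ℓ : ℕ) (t1 t2 : ℝ) : Set (Site d) :=
  {y | lev u y = ℓ ∧ |lat i1 i2 y 0 - t1| ≤ A ∧
    |lat i1 i2 y 1 - σ * lat i1 i2 y 0 - t2| ≤ W}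

section mass

variable {Q : Measure (Environment d)} [IsProbabilityMeasure Q] {κ : ℝ} {R : ℕ}
variable {u : Step d} {i1 i2 : Fin d} {σ A W : ℝ}

/-- steering hypothesis: from every lateral displacement `(y₁, y₂)` to the own box -/
def Steer (u : Step d) (i1 i2 : Fin d) (R : ℕ) (κ : ℝ) (Q : Measure (Environment d))
    (σ A W S c1 c2 : ℝ) (n : ℕ) (g : ℝ≥0∞) : Prop :=
  ∀ y₁ y₂ : ℝ, |y₁| ≤ S → |y₂| ≤ W → g ≤ natLaw κ Q u R
    {ω | |y₁ + UU u i1 i2 n ω 0 - c1| ≤ A ∧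
      |y₂ + (UU u i1 i2 n ω 1 - σ * UU u i1 i2 n ω 0) - c2| ≤ W}

/-- mass into a box -/
lemma succ_bx_ge (F : Bind263.Frame Q κ R) (hc : mkAnn κ Q 0 (Nat0 u R) ≠ 0)
    {S c1 c2 : ℝ} {n : ℕ} {g : ℝ≥0∞} (hg : Steer u i1 i2 R κ Q σ A W S c1 c2 n g)
    {z : Site d} {ℓ : ℕ} (hz : lev u z = ℓ) {t1 t2 : ℝ}
    (hz1 : |lat i1 i2 z 0 + c1 - t1| ≤ S)
    (hz2 : |lat i1 i2 z 1 - σ * lat i1 i2 z 0 + c2 - t2| ≤ W) :
    mkAnn κ Q 0 (Nat0 u R) * g ≤
      mkAnn κ Q z (succ u R ((ℓ + n : ℕ) : ℤ) (bx u i1 i2 σ A W (ℓ + n) t1 t2) z) := by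
  rw [mkAnn_succ]
  have h1 := MobNat927.mass_lat F u i1 i2 z n
    {w | |w 0 - t1| ≤ A ∧ |w 1 - σ * w 0 - t2| ≤ W}
    (bx u i1 i2 σ A W (ℓ + n) t1 t2)
    (fun y hy hy2 => ⟨by rw [hy, hz]; push_cast; rfl, hy2.1, hy2.2⟩) hc
  have e : lev u z + (n : ℤ) = ((ℓ + n : ℕ) : ℤ) := by rw [hz]; push_cast; rfl
  rw [e] at h1
  refine le_trans ?_ h1
  gcongr
  refine (hg _ _ hz1 hz2).trans (measure_mono ?_)
  rintro ω ⟨g1, g2⟩
  simp only [mem_setOf_eq, Pi.add_apply]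
  constructor
  · have e1 : lat i1 i2 z 0 + UU u i1 i2 n ω 0 - t1
        = lat i1 i2 z 0 + c1 - t1 + UU u i1 i2 n ω 0 - c1 := by ring
    rw [e1]; exact g1
  · have e1 : lat i1 i2 z 1 + UU u i1 i2 n ω 1 - σ * (lat i1 i2 z 0 + UU u i1 i2 n ω 0) - t2
        = lat i1 i2 z 1 - σ * lat i1 i2 z 0 + c2 - t2
          + (UU u i1 i2 n ω 1 - σ * UU u i1 i2 n ω 0) - c2 := by ring
    rw [e1]; exact g2

/-- upper bound: from a box into a box -/
lemma succ_bx_le (F : Bind263.Frame Q κ R) (hc : mkAnn κ Q 0 (Nat0 u R) ≠ 0)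
    {n : ℕ} {x : Site d} {ℓ : ℕ} {t1 t2 t1' t2' : ℝ} (hx : x ∈ bx u i1 i2 σ A W ℓ t1' t2') :
    mkAnn κ Q x (succ u R ((ℓ + n : ℕ) : ℤ) (bx u i1 i2 σ A W (ℓ + n) t1 t2) x) ≤
      natLaw κ Q u R {ω | |UU u i1 i2 n ω 0 - (t1 - t1')| ≤ 2 * A ∧
        |UU u i1 i2 n ω 1 - σ * UU u i1 i2 n ω 0 - (t2 - t2')| ≤ 2 * W} := by
  rw [mkAnn_succ]
  have hm : MeasurableSet {w : B4.V | |w 0 - t1| ≤ A ∧ |w 1 - σ * w 0 - t2| ≤ W} := by
    have m0 : Measurable fun w : B4.V => w 0 := measurable_pi_apply 0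
    have m1 : Measurable fun w : B4.V => w 1 := measurable_pi_apply 1
    exact (measurableSet_le (m0.sub_const _).abs measurable_const).inter
      (measurableSet_le ((m1.sub (m0.const_mul σ)).sub_const _).abs measurable_const)
  have h1 := mass_lat_le F u i1 i2 x n {w | |w 0 - t1| ≤ A ∧ |w 1 - σ * w 0 - t2| ≤ W} hm
    (bx u i1 i2 σ A W (ℓ + n) t1 t2) (fun y hy _ => ⟨hy.2.1, hy.2.2⟩) hc
  have e : lev u x + (n : ℤ) = ((ℓ + n : ℕ) : ℤ) := by rw [hx.1]; push_cast; rfl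
  rw [e] at h1
  refine h1.trans (measure_mono ?_)
  rintro ω hω
  obtain ⟨-, hx1, hx2⟩ := hx
  simp only [mem_setOf_eq, Pi.add_apply] at hω ⊢
  obtain ⟨g1, g2⟩ := hω
  rw [abs_le] at hx1 hx2 g1 g2
  constructor
  · rw [abs_le]
    constructor <;> linarith [hx1.1, hx1.2, g1.1, g1.2]
  · rw [abs_le]
    constructor <;> nlinarith [hx2.1, hx2.2, g2.1, g2.2]

end mass

/-! ### disjoint windows in the plane -/

section windows

variable {Ω : Type*} [MeasurableSpace Ω] {P : Measure Ω}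

lemma sum_windows2 {Y1 Y2 : Ω → ℝ} (hY1 : Measurable Y1) (hY2 : Measurable Y2)
    {A W D D2 r1 r2 : ℝ} (hA : 0 ≤ A) (hW : 0 ≤ W) (hD : 4 * A < D) (hD2 : 4 * W < D2)
    (l : ℤ × ℤ) (o : ℤ)
    (K : Finset (ℤ × ℤ))
    (hK : ∀ l' ∈ K, (l'.1 = l.1 ∧ r1 < |((l.2 + o - l'.2 : ℤ) : ℝ)| * D - 2 * A) ∨
      (l'.1 ≠ l.1 ∧ r2 < D2 - 2 * W)) :
    ∑ l' ∈ K, P {ω | |Y1 ω - ((l.2 + o - l'.2 : ℤ) : ℝ) * D| ≤ 2 * A ∧
        |Y2 ω - ((l.1 - l'.1 : ℤ) : ℝ) * D2| ≤ 2 * W} ≤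
      P {ω | r1 < |Y1 ω|} + P {ω | r2 < |Y2 ω|} := by
  have hD0 : 0 < D := by linarith
  have hD20 : 0 < D2 := by linarith
  rw [← measure_biUnion_finset]
  · refine le_trans (measure_mono ?_) (measure_union_le _ _)
    intro ω hω
    simp only [mem_iUnion, mem_setOf_eq, exists_prop] at hω
    obtain ⟨l', hl', h1, h2⟩ := hω
    rcases hK l' hl' with ⟨h3, h4⟩ | ⟨h3, h4⟩
    · left
      show r1 < |Y1 ω|
      have h5 : |((l.2 + o - l'.2 : ℤ) : ℝ) * D| ≤ |Y1 ω| + |Y1 ω - ((l.2 + o - l'.2 : ℤ) : ℝ) * D| := by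
        have := abs_sub (Y1 ω) (Y1 ω - ((l.2 + o - l'.2 : ℤ) : ℝ) * D)
        have e : Y1 ω - (Y1 ω - ((l.2 + o - l'.2 : ℤ) : ℝ) * D) = ((l.2 + o - l'.2 : ℤ) : ℝ) * D := by
          ring
        rw [e] at this
        exact this
      rw [abs_mul, abs_of_pos hD0] at h5
      linarith
    · right
      show r2 < |Y2 ω|
      have h6 : (1 : ℝ) ≤ |((l.1 - l'.1 : ℤ) : ℝ)| := by
        have : (1 : ℤ) ≤ |l.1 - l'.1| := Int.one_le_abs (sub_ne_zero.2 (Ne.symm h3))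
        exact_mod_cast this
      have h5 : |((l.1 - l'.1 : ℤ) : ℝ) * D2| ≤ |Y2 ω| + |Y2 ω - ((l.1 - l'.1 : ℤ) : ℝ) * D2| := by
        have := abs_sub (Y2 ω) (Y2 ω - ((l.1 - l'.1 : ℤ) : ℝ) * D2)
        have e : Y2 ω - (Y2 ω - ((l.1 - l'.1 : ℤ) : ℝ) * D2) = ((l.1 - l'.1 : ℤ) : ℝ) * D2 := by
          ring
        rw [e] at this
        exact this
      rw [abs_mul, abs_of_pos hD20] at h5
      nlinarith
  · intro k _ k' _ hkk
    refine Set.disjoint_left.2 fun ω h1 h2 => ?_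
    simp only [mem_setOf_eq] at h1 h2
    obtain ⟨a1, a2⟩ := h1
    obtain ⟨b1, b2⟩ := h2
    rw [abs_le] at a1 a2 b1 b2
    by_cases h3 : k.1 = k'.1
    · have h4 : k.2 ≠ k'.2 := fun h => hkk (Prod.ext h3 h)
      have h5 : (1 : ℝ) ≤ |((k.2 - k'.2 : ℤ) : ℝ)| := by
        have : (1 : ℤ) ≤ |k.2 - k'.2| := Int.one_le_abs (sub_ne_zero.2 h4)
        exact_mod_cast this
      have h6 : |((k.2 - k'.2 : ℤ) : ℝ) * D| ≤ 4 * A := by
        rw [abs_le]
        push_cast at a1 b1 ⊢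
        constructor <;> nlinarith [a1.1, a1.2, b1.1, b1.2]
      rw [abs_mul, abs_of_pos hD0] at h6
      nlinarith
    · have h5 : (1 : ℝ) ≤ |((k.1 - k'.1 : ℤ) : ℝ)| := by
        have : (1 : ℤ) ≤ |k.1 - k'.1| := Int.one_le_abs (sub_ne_zero.2 h3)
        exact_mod_cast this
      have h6 : |((k.1 - k'.1 : ℤ) : ℝ) * D2| ≤ 4 * W := by
        rw [abs_le]
        push_cast at a2 b2 ⊢
        constructor <;> nlinarith [a2.1, a2.2, b2.1, b2.2]
      rw [abs_mul, abs_of_pos hD20] at h6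
      nlinarith
  · intro k _
    exact (measurableSet_le (hY1.sub_const _).abs measurable_const).inter
      (measurableSet_le (hY2.sub_const _).abs measurable_const)

end windows

/-! ### (ROW) for the boxes -/

section row

variable {Q : Measure (Environment d)} [IsProbabilityMeasure Q] {κ : ℝ} {R : ℕ}
variable {u : Step d} {i1 i2 : Fin d} {σ A W : ℝ}

/-- **(ROW) for the family of boxes** at one height `n`, from the near bound, (CAP) and the two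
tails. -/
theorem row_bx (F : Bind263.Frame Q κ R) (hc : mkAnn κ Q 0 (Nat0 u R) ≠ 0)
    {s κx H δ : ℝ≥0∞} {n R0 : ℕ} {a c1 c2 D D2 r1 r2 : ℝ} (hA : 0 ≤ A) (hW : 0 ≤ W)
    (hm0 : Measurable fun ω : MPath d => UU u i1 i2 n ω 0)
    (hm1 : Measurable fun ω : MPath d => UU u i1 i2 n ω 1)
    (hD : 4 * A < D) (hD2 : 4 * W < D2) (haD : 3 * a + 2 * A ≤ D)
    (hCAP : ∀ b : ℤ, CAP u R κ Q s b H)
    (hnear : ∀ (ℓ : ℕ) (x x' : Site d), lev u x = ℓ → lev u x' = ℓ →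
        3 * a ≤ |lat i1 i2 x 0 - lat i1 i2 x' 0| → ∀ T T' : Set (Site d),
        mt u R κ Q s ((ℓ + n : ℕ) : ℤ) T T' x x' ≤ δ)
    (hδ : ((2 * R0 + 1 : ℕ) : ℝ≥0∞) * δ ≤ κx / 2)
    (hr1 : r1 < R0 * D - 2 * A) (hr2 : r2 < D2 - 2 * W)
    (htail : H / s ^ 2 * (natLaw κ Q u R {ω | r1 < |UU u i1 i2 n ω 0 - c1|} +
      natLaw κ Q u R {ω | r2 < |UU u i1 i2 n ω 1 - σ * UU u i1 i2 n ω 0 - c2|}) ≤ κx / 2)
    (ℓ : ℕ) (t1 t2 : ℝ) (o : ℤ) (ho : |o| ≤ 1) :
    ROW u R κ Q s ((ℓ + n : ℕ) : ℤ)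
      (fun l : ℤ × ℤ => bx u i1 i2 σ A W ℓ (t1 + l.2 * D) (t2 + l.1 * D2))
      (fun l : ℤ × ℤ => bx u i1 i2 σ A W (ℓ + n) (t1 + c1 + (l.2 + o : ℤ) * D)
        (t2 + c2 + l.1 * D2)) κx := by
  have hprob := natLaw_isProb hc
  have hD0 : 0 < D := by linarith
  intro l x hx K hlK
  classical
  set Kn := K.filter fun l' => l'.1 = l.1 ∧ |l'.2 - l.2| ≤ R0 with hKn
  set Kf := K.filter fun l' => ¬ (l'.1 = l.1 ∧ |l'.2 - l.2| ≤ R0) with hKf
  set T : ℤ × ℤ → Set (Site d) := fun l => bx u i1 i2 σ A W (ℓ + n) (t1 + c1 + (l.2 + o : ℤ) * D)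
        (t2 + c2 + l.1 * D2) with hT
  set S : ℤ × ℤ → Set (Site d) := fun l => bx u i1 i2 σ A W ℓ (t1 + l.2 * D) (t2 + l.1 * D2)
    with hS
  show ∑ l' ∈ K, ⨆ x' ∈ S l', mt u R κ Q s ((ℓ + n : ℕ) : ℤ) (T l) (T l') x x' ≤ κx
  rw [← Finset.sum_filter_add_sum_filter_not K (fun l' => l'.1 = l.1 ∧ |l'.2 - l.2| ≤ R0),
    ← ENNReal.add_halves κx]
  refine add_le_add ?_ ?_
  · -- near cells
    have hcard : Kn.card ≤ 2 * R0 + 1 := by
      have hsub : Kn ⊆ (Finset.Icc (l.2 - R0) (l.2 + R0)).image fun y => (l.1, y) := by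
        intro l' hl'
        have h3 := (Finset.mem_filter.1 hl').2
        rw [Finset.mem_image]
        refine ⟨l'.2, ?_, Prod.ext h3.1.symm rfl⟩
        have h4 := h3.2
        rw [abs_le] at h4
        rw [Finset.mem_Icc]
        constructor <;> linarith [h4.1, h4.2]
      refine (Finset.card_le_card hsub).trans (Finset.card_image_le.trans (le_of_eq ?_))
      rw [Int.card_Icc]
      omega
    have hle : ∀ l' ∈ Kn, (⨆ x' ∈ S l', mt u R κ Q s ((ℓ + n : ℕ) : ℤ) (T l) (T l') x x') ≤ δ := by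
      intro l' hl'
      refine iSup₂_le fun x' hx' => ?_
      have h30 := (Finset.mem_filter.1 hl').2
      refine hnear ℓ x x' hx.1 hx'.1 ?_ _ _
      have hne : l.2 ≠ l'.2 := fun h => hlK (by
        have e : l = l' := Prod.ext h30.1.symm h
        rw [e]
        exact (Finset.mem_filter.1 hl').1)
      have h3 : (1 : ℝ) ≤ |(l.2 : ℝ) - l'.2| := by
        have : (1 : ℤ) ≤ |l.2 - l'.2| := Int.one_le_abs (sub_ne_zero.2 hne)
        exact_mod_cast this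
      have h4 : D ≤ |((l.2 : ℝ) - l'.2) * D| := by
        rw [abs_mul, abs_of_pos hD0]
        nlinarith
      have h5 := hx.2.1
      have h6 := hx'.2.1
      rw [abs_le] at h5 h6
      have h7 : |((l.2 : ℝ) - l'.2) * D| ≤ |lat i1 i2 x 0 - lat i1 i2 x' 0| + 2 * A := by
        have e : ((l.2 : ℝ) - l'.2) * D = (lat i1 i2 x 0 - lat i1 i2 x' 0) -
          ((lat i1 i2 x 0 - (t1 + l.2 * D)) - (lat i1 i2 x' 0 - (t1 + l'.2 * D))) := by
          ring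
        rw [e]
        refine (abs_sub _ _).trans (add_le_add le_rfl ?_)
        rw [abs_le]; constructor <;> linarith [h5.1, h5.2, h6.1, h6.2]
      linarith
    refine (Finset.sum_le_card_nsmul _ _ _ hle).trans ?_
    rw [nsmul_eq_mul]
    calc (Kn.card : ℝ≥0∞) * δ ≤ ((2 * R0 + 1 : ℕ) : ℝ≥0∞) * δ := by
          gcongr
      _ ≤ κx / 2 := hδ
  · -- far cells
    have hterm : ∀ l' ∈ Kf, (⨆ x' ∈ S l', mt u R κ Q s ((ℓ + n : ℕ) : ℤ) (T l) (T l') x x') ≤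
        H / s ^ 2 * natLaw κ Q u R
          {ω | |(UU u i1 i2 n ω 0 - c1) - ((l.2 + o - l'.2 : ℤ) : ℝ) * D| ≤ 2 * A ∧
            |(UU u i1 i2 n ω 1 - σ * UU u i1 i2 n ω 0 - c2) - ((l.1 - l'.1 : ℤ) : ℝ) * D2|
              ≤ 2 * W} := by
      intro l' _
      refine iSup₂_le fun x' hx' => ?_
      refine (hCAP _ _ _ x x' (by rw [hx.1, hx'.1])).trans (mul_le_mul' le_rfl ?_)
      have h3 := succ_bx_le (σ := σ) (A := A) (W := W) F (n := n)
        (t1 := t1 + c1 + (l.2 + o : ℤ) * D) (t2 := t2 + c2 + l.1 * D2) hc hx'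
      refine h3.trans (measure_mono ?_)
      rintro ω ⟨g1, g2⟩
      constructor
      · have e : (UU u i1 i2 n ω 0 - c1) - ((l.2 + o - l'.2 : ℤ) : ℝ) * D
            = UU u i1 i2 n ω 0 - (t1 + c1 + (l.2 + o : ℤ) * D - (t1 + l'.2 * D)) := by
          push_cast; ring
        rw [e]; exact g1
      · have e : (UU u i1 i2 n ω 1 - σ * UU u i1 i2 n ω 0 - c2) - ((l.1 - l'.1 : ℤ) : ℝ) * D2
            = UU u i1 i2 n ω 1 - σ * UU u i1 i2 n ω 0 - (t2 + c2 + l.1 * D2 - (t2 + l'.1 * D2)) := by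
          push_cast; ring
        rw [e]; exact g2
    refine (Finset.sum_le_sum hterm).trans ?_
    rw [← Finset.mul_sum]
    refine le_trans ?_ htail
    gcongr
    refine sum_windows2 (P := natLaw κ Q u R) (hm0.sub_const _)
      ((hm1.sub (hm0.const_mul σ)).sub_const _) hA hW hD hD2 l o Kf ?_
    intro l' hl'
    have h4 := (Finset.mem_filter.1 hl').2
    by_cases h5 : l'.1 = l.1
    · left
      refine ⟨h5, lt_of_lt_of_le hr1 ?_⟩
      have h6 : ¬ |l'.2 - l.2| ≤ R0 := fun h => h4 ⟨h5, h⟩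
      have h7 : (R0 : ℤ) ≤ |l.2 + o - l'.2| := by
        have h8 : |l'.2 - l.2| ≤ |l.2 + o - l'.2| + |o| := by
          have := abs_sub o (l.2 + o - l'.2)
          have e : o - (l.2 + o - l'.2) = l'.2 - l.2 := by ring
          rw [e] at this
          linarith
        omega
      have h8 : (R0 : ℝ) ≤ |((l.2 + o - l'.2 : ℤ) : ℝ)| := by exact_mod_cast h7
      nlinarith
    · right
      exact ⟨h5, hr2⟩

end row

end Crest.Agent.R154.Box272
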