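import Crest.Agent.R154.BoxCls_272

/-!
Row 154, block B8 (helper272), (init): steering in two lateral coordinates at the regular heights
(helper284's `mobility2` from helper437's `mob`), tightness, and the regular octaves.
-/

set_option autoImplicit false
set_option linter.unusedSectionVars false
set_option linter.unusedVariables false
set_option linter.deprecated false

namespace Crest.Agent.R154.Box272

open MeasureTheory ProbabilityTheory Set Filter Crest.ProbabilityR.RandomEnvironment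
open Crest.Agent.R154.B4
open Crest.Agent.R154.Mk561 Crest.Agent.R154.Q561
open Crest.Agent.R154.Flux132 (lev)
open Crest.Agent.R154.RatioR872 Crest.Agent.R154.Tile872
open Crest.Agent.R154.KS480
open Crest.Agent.R154.MobW437 (wl wl_pos one_le_wl four_wl_le mob Sl telescope nfold tl_mono_of_Nf
  tl_pos)
open Crest.Agent.R154.B4Inst797 (Nat0 natLaw UU lat natLaw_apply lp natLaw_isProb)
open scoped ENNReal Topology

section tight

variable {Ω : Type*} [MeasurableSpace Ω]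

/-- tightness of one real variable -/
lemma tight (P : Measure Ω) [IsFiniteMeasure P] {Y : Ω → ℝ} (hY : Measurable Y) {ε : ℝ≥0∞}
    (hε : ε ≠ 0) : ∃ n : ℕ, 1 ≤ n ∧ P {ω | (n : ℝ) < |Y ω|} ≤ ε := by
  have h1 : Antitone fun n : ℕ => {ω | (n : ℝ) < |Y ω|} := by
    intro m n hmn ω hω
    have h2 : (m : ℝ) ≤ n := by exact_mod_cast hmn
    exact lt_of_le_of_lt h2 hω
  have h2 : ∀ n : ℕ, NullMeasurableSet {ω | (n : ℝ) < |Y ω|} P := fun n =>
    (measurableSet_lt measurable_const hY.abs).nullMeasurableSet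
  have h3 := tendsto_measure_iInter_atTop h2 h1 ⟨0, measure_ne_top _ _⟩
  have h4 : ⋂ n : ℕ, {ω | (n : ℝ) < |Y ω|} = ∅ := by
    ext ω
    simp only [mem_iInter, mem_setOf_eq, mem_empty_iff_false, iff_false, not_forall, not_lt]
    exact exists_nat_ge |Y ω|
  rw [h4, measure_empty] at h3
  have h5 := (tendsto_order.1 h3).2 ε (pos_iff_ne_zero.2 hε)
  obtain ⟨n, hn⟩ := h5.exists_forall_of_atTop
  exact ⟨max n 1, le_max_right _ _, (hn _ (le_max_left _ _)).le⟩

end tight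

section octaves

variable {Ω : Type*} [mΩ : MeasurableSpace Ω] {P : Measure Ω} [IsProbabilityMeasure P]

/-- **infinitely many regular octaves** -/
lemma reg_octaves (L : LP P) (i : Fin 2) {C C' : ℝ} (hC : 0 ≤ C)
    (hg : ∀ k : ℕ, Real.logb 2 (wl L i (2 ^ k)) ≤ C * (k + 1))
    (hS : ∀ J : ℕ, ∑ k ∈ Finset.range J, (Sl L i (2 ^ k) : ℝ) ≤ C' * (J + 1)) :
    ∃ A₀ : ℕ, 1 ≤ A₀ ∧ ∀ r : ℕ, 2 ≤ r → ∃ B : ℝ, 0 ≤ B ∧ ∀ k0 : ℕ, ∃ k, k0 ≤ k ∧
      Sl L i (2 ^ k) ≤ A₀ ∧ wl L i (2 ^ (k + r)) ≤ B * wl L i (2 ^ k) := by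
  have hC' : 0 ≤ C' := by
    have := hS 0
    simp at this
    exact this
  set A₀ : ℕ := ⌈4 * C'⌉₊ + 1 with hA₀
  have hA₀4 : 4 * C' ≤ A₀ := by
    have := Nat.le_ceil (4 * C')
    rw [hA₀]; push_cast; linarith
  have hA₀1 : (1 : ℝ) ≤ A₀ := by
    rw [hA₀]; push_cast
    have : (0 : ℝ) ≤ (⌈4 * C'⌉₊ : ℝ) := Nat.cast_nonneg _
    linarith
  refine ⟨A₀, by omega, fun r hr => ?_⟩
  set f : ℕ → ℝ := fun k => Real.logb 2 (wl L i (2 ^ k)) with hf
  have hf0 : ∀ k, 0 ≤ f k := fun k => Real.logb_nonneg (by norm_num) (one_le_wl L i _)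
  set B' : ℝ := 4 * r * C + 1 with hB'
  have hr0 : (0 : ℝ) ≤ r := Nat.cast_nonneg r
  have hB'1 : 1 ≤ B' := by
    rw [hB']
    have : 0 ≤ 4 * r * C := by positivity
    linarith
  refine ⟨2 ^ B', by positivity, fun k0 => ?_⟩
  obtain ⟨k1, hk1⟩ := nfold L i (2 ^ r) Nat.one_le_two_pow
  have h2r : 3 ≤ 2 ^ r := by
    calc 3 ≤ 2 ^ 2 := by norm_num
      _ ≤ 2 ^ r := Nat.pow_le_pow_right (by norm_num) hr
  have hmono : ∀ k, k1 ≤ k → f k ≤ f (k + r) := by
    intro k hk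
    have h3 := hk1 (2 ^ k) (hk.trans (Nat.lt_two_pow_self (n := k)).le)
    have h4 := tl_mono_of_Nf h2r h3
    have e : 2 ^ r * 2 ^ k = 2 ^ (k + r) := by rw [pow_add]; ring
    rw [e] at h4
    refine Real.logb_le_logb_of_le (by norm_num) (wl_pos L i _) ?_
    unfold wl
    exact one_div_le_one_div_of_le (tl_pos _ _ _) h4
  by_contra hcon
  push Not at hcon
  set a : ℕ := max k0 k1 with ha
  have hterm : ∀ k, a ≤ k → (1 : ℝ) ≤ (Sl L i (2 ^ k) : ℝ) / A₀ + (f (k + r) - f k) / B' := by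
    intro k hk
    have h3 := hmono k ((le_max_right _ _).trans hk)
    have h4 : 0 ≤ (f (k + r) - f k) / B' := div_nonneg (by linarith) (by linarith)
    by_cases h5 : Sl L i (2 ^ k) ≤ A₀
    · have h6 := hcon k ((le_max_left _ _).trans hk) h5
      have h7 : 1 ≤ (f (k + r) - f k) / B' := by
        rw [le_div_iff₀ (by linarith), one_mul]
        have h8 : Real.logb 2 (2 ^ B' * wl L i (2 ^ k)) ≤ f (k + r) :=
          Real.logb_le_logb_of_le (by norm_num) (by have := wl_pos L i (2 ^ k); positivity) h6.le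
        rw [Real.logb_mul (by positivity) (wl_pos L i _).ne', Real.logb_rpow (by norm_num)
          (by norm_num)] at h8
        simp only [hf] at h8 ⊢
        linarith
      have h8 : 0 ≤ (Sl L i (2 ^ k) : ℝ) / A₀ := by positivity
      linarith
    · push Not at h5
      have h6 : 1 ≤ (Sl L i (2 ^ k) : ℝ) / A₀ := by
        rw [le_div_iff₀ (by linarith), one_mul]
        exact_mod_cast h5.le
      linarith
  set J : ℕ := 2 * a + r + 10 with hJ
  -- sum over `[a, J)`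
  have hsum1 : ((J - a : ℕ) : ℝ) ≤ ∑ k ∈ Finset.range (J - a),
      ((Sl L i (2 ^ (a + k)) : ℝ) / A₀ + (f (a + k + r) - f (a + k)) / B') := by
    calc ((J - a : ℕ) : ℝ) = ∑ k ∈ Finset.range (J - a), (1 : ℝ) := by simp
      _ ≤ _ := Finset.sum_le_sum fun k _ => hterm (a + k) (by omega)
  rw [Finset.sum_add_distrib] at hsum1
  have hs1 : ∑ k ∈ Finset.range (J - a), (Sl L i (2 ^ (a + k)) : ℝ) / A₀ ≤ ((J : ℝ) + 1) / 4 := by
    rw [← Finset.sum_div]
    have h3 : ∑ k ∈ Finset.range (J - a), (Sl L i (2 ^ (a + k)) : ℝ) ≤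
        ∑ k ∈ Finset.range J, (Sl L i (2 ^ k) : ℝ) := by
      have h4 : ∑ k ∈ Finset.range (J - a), (Sl L i (2 ^ (a + k)) : ℝ) =
          ∑ k ∈ (Finset.range (J - a)).image (fun k => a + k), (Sl L i (2 ^ k) : ℝ) := by
        rw [Finset.sum_image (fun x _ y _ h => by simpa using h)]
      rw [h4]
      refine Finset.sum_le_sum_of_subset_of_nonneg ?_ fun _ _ _ => Nat.cast_nonneg _
      intro k hk
      rw [Finset.mem_image] at hk
      obtain ⟨j, hj, rfl⟩ := hk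
      rw [Finset.mem_range] at hj ⊢
      omega
    rw [div_le_div_iff₀ (by linarith) (by norm_num)]
    have h5 := h3.trans (hS J)
    have hJ0 : (0 : ℝ) ≤ J := Nat.cast_nonneg J
    nlinarith
  have hs2 : ∑ k ∈ Finset.range (J - a), (f (a + k + r) - f (a + k)) / B' ≤
      ((J : ℝ) + r + 1) / 4 := by
    rw [← Finset.sum_div]
    have h3 := telescope (fun k => f (a + k)) r (J - a)
    have h4 : ∑ k ∈ Finset.range (J - a), (f (a + k + r) - f (a + k)) =
        ∑ k ∈ Finset.range (J - a), ((fun k => f (a + k)) (k + r) - (fun k => f (a + k)) k) := by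
      refine Finset.sum_congr rfl fun k _ => ?_
      simp only
      rw [add_assoc]
    rw [h4, h3]
    have h5 : ∑ j ∈ Finset.range r, f (a + (J - a + j)) ≤ r * (C * (J + r + 1)) := by
      have h6 : ∀ j ∈ Finset.range r, f (a + (J - a + j)) ≤ C * (J + r + 1) := by
        intro j hj
        have h7 := hg (a + (J - a + j))
        have h8 : ((a + (J - a + j) : ℕ) : ℝ) + 1 ≤ (J : ℝ) + r + 1 := by
          have : a + (J - a + j) ≤ J + r := by
            rw [Finset.mem_range] at hj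
            omega
          have : ((a + (J - a + j) : ℕ) : ℝ) ≤ ((J + r : ℕ) : ℝ) := by exact_mod_cast this
          push_cast at this ⊢
          linarith
        exact h7.trans (mul_le_mul_of_nonneg_left h8 hC)
      refine (Finset.sum_le_card_nsmul _ _ _ h6).trans (le_of_eq ?_)
      rw [Finset.card_range, nsmul_eq_mul]
    have h6 : 0 ≤ ∑ j ∈ Finset.range r, f (a + j) := Finset.sum_nonneg fun j _ => hf0 _
    rw [div_le_div_iff₀ (by linarith) (by norm_num)]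
    have hJ0 : (0 : ℝ) ≤ (J : ℝ) + r + 1 := by positivity
    have h7 : r * (C * ((J : ℝ) + r + 1)) * 4 ≤ ((J : ℝ) + r + 1) * B' := by
      rw [hB']
      nlinarith
    linarith
  have hJa : ((J - a : ℕ) : ℝ) = (J : ℝ) - a := by
    rw [Nat.cast_sub (by omega)]
  rw [hJa] at hsum1
  have hJr : (J : ℝ) = 2 * a + r + 10 := by rw [hJ]; push_cast; ring
  have ha0 : (0 : ℝ) ≤ a := Nat.cast_nonneg a
  linarith

end octaves

section steer

variable {d : ℕ}
variable {Q : Measure (Environment d)} [IsProbabilityMeasure Q] {κ : ℝ} {R : ℕ}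

/-- **two-dimensional steering at a height with two windows** -/
theorem steer_of_windows (F : Bind263.Frame Q κ R) {u : Step d} {i1 i2 : Fin d} (h1 : i1 ≠ u.1)
    (h2 : i2 ≠ u.1) (h12 : i1 ≠ i2) (hc : mkAnn κ Q 0 (Nat0 u R) ≠ 0) {N : ℕ} {c1 c2 a g : ℝ}
    (ha : 0 < a) (h4 : 4 * a ≤ |c2 - c1|) (h8 : |c2 - c1| ≤ 8 * a) (hg : 0 < g)
    (w1 : g ≤ (natLaw κ Q u R).real {ω | UU u i1 i2 N ω 0 - c1 ∈ Ico 0 a})
    (w2 : g ≤ (natLaw κ Q u R).real {ω | UU u i1 i2 N ω 0 - c2 ∈ Ico 0 a}) :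
    ∃ σ W c c' : ℝ, 1 ≤ W ∧ Steer u i1 i2 R κ Q σ (5 * a) W (5 * a + 64 * a) (64 * c) (64 * c')
      (64 * N) (ENNReal.ofReal (((lp F u h1 h2 h12 hc).p * (g / 2 / 2)) ^ 64)) := by
  have hprob := natLaw_isProb hc
  set L := lp F u h1 h2 h12 hc with hL
  have hU : Measurable fun ω : MPath d => UU u i1 i2 N ω := measurable_pi_lambda _ fun j =>
    (MobW437.meas_U L N).eval (a := j)
  have m0 : Measurable fun ω : MPath d => UU u i1 i2 N ω 0 := (MobW437.meas_U L N).eval (a := 0)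
  have m1 : Measurable fun ω : MPath d => UU u i1 i2 N ω 1 := (MobW437.meas_U L N).eval (a := 1)
  -- the window of the second coordinate
  obtain ⟨n, hn1, hn⟩ := tight (natLaw κ Q u R) m1 (ε := ENNReal.ofReal (g / 2))
    (ENNReal.ofReal_pos.2 (by linarith)).ne'
  have hnr : (natLaw κ Q u R).real {ω | (n : ℝ) < |UU u i1 i2 N ω 1|} ≤ g / 2 := by
    rw [measureReal_def]
    refine ENNReal.toReal_le_of_le_ofReal (by linarith) hn
  have hn1' : (1 : ℝ) ≤ n := by exact_mod_cast hn1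
  set c : ℝ := (c1 + c2) / 2 + a / 2 with hcdef
  have key : ∀ (E E' : Set (MPath d)), g ≤ (natLaw κ Q u R).real E → E ⊆ E' →
      g / 2 ≤ (natLaw κ Q u R).real {ω | ω ∈ E' ∧ |UU u i1 i2 N ω 1 - 0| ≤ n} := by
    intro E E' hE hsub
    have h5 : E ⊆ {ω | ω ∈ E' ∧ |UU u i1 i2 N ω 1 - 0| ≤ n} ∪
        {ω | (n : ℝ) < |UU u i1 i2 N ω 1|} := by
      intro ω hω
      by_cases h6 : |UU u i1 i2 N ω 1| ≤ n
      · left
        exact ⟨hsub hω, by rw [sub_zero]; exact h6⟩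
      · right
        exact not_le.1 h6
    have h6 := (measureReal_mono h5 (μ := natLaw κ Q u R)).trans (measureReal_union_le _ _)
    linarith
  have hpair : g / 2 ≤ (natLaw κ Q u R).real {ω | (a ≤ UU u i1 i2 N ω 0 - c ∧
      UU u i1 i2 N ω 0 - c ≤ 5 * a) ∧ |UU u i1 i2 N ω 1 - 0| ≤ n} ∧
      g / 2 ≤ (natLaw κ Q u R).real {ω | (a ≤ -(UU u i1 i2 N ω 0 - c) ∧
      -(UU u i1 i2 N ω 0 - c) ≤ 5 * a) ∧ |UU u i1 i2 N ω 1 - 0| ≤ n} := by
    rcases le_or_gt c1 c2 with hle | hlt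
    · rw [abs_of_nonneg (by linarith)] at h4 h8
      refine ⟨key _ {ω | a ≤ UU u i1 i2 N ω 0 - c ∧ UU u i1 i2 N ω 0 - c ≤ 5 * a} w2 ?_,
        key _ {ω | a ≤ -(UU u i1 i2 N ω 0 - c) ∧ -(UU u i1 i2 N ω 0 - c) ≤ 5 * a} w1 ?_⟩
      · intro ω hω
        have hω' : UU u i1 i2 N ω 0 - c2 ∈ Ico 0 a := hω
        rw [mem_Ico] at hω'
        show a ≤ UU u i1 i2 N ω 0 - c ∧ UU u i1 i2 N ω 0 - c ≤ 5 * a
        rw [hcdef]
        constructor <;> linarith [hω'.1, hω'.2]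
      · intro ω hω
        have hω' : UU u i1 i2 N ω 0 - c1 ∈ Ico 0 a := hω
        rw [mem_Ico] at hω'
        show a ≤ -(UU u i1 i2 N ω 0 - c) ∧ -(UU u i1 i2 N ω 0 - c) ≤ 5 * a
        rw [hcdef]
        constructor <;> linarith [hω'.1, hω'.2]
    · rw [abs_of_neg (by linarith)] at h4 h8
      refine ⟨key _ {ω | a ≤ UU u i1 i2 N ω 0 - c ∧ UU u i1 i2 N ω 0 - c ≤ 5 * a} w1 ?_,
        key _ {ω | a ≤ -(UU u i1 i2 N ω 0 - c) ∧ -(UU u i1 i2 N ω 0 - c) ≤ 5 * a} w2 ?_⟩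
      · intro ω hω
        have hω' : UU u i1 i2 N ω 0 - c1 ∈ Ico 0 a := hω
        rw [mem_Ico] at hω'
        show a ≤ UU u i1 i2 N ω 0 - c ∧ UU u i1 i2 N ω 0 - c ≤ 5 * a
        rw [hcdef]
        constructor <;> linarith [hω'.1, hω'.2]
      · intro ω hω
        have hω' : UU u i1 i2 N ω 0 - c2 ∈ Ico 0 a := hω
        rw [mem_Ico] at hω'
        show a ≤ -(UU u i1 i2 N ω 0 - c) ∧ -(UU u i1 i2 N ω 0 - c) ≤ 5 * a
        rw [hcdef]
        constructor <;> linarith [hω'.1, hω'.2]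
  obtain ⟨σ, c', hσ, hmob⟩ := Steer284.mobility2 L (φ₁ := fun v : B4.V => v 0)
    (φ₂ := fun v : B4.V => v 1) (measurable_pi_apply 0) (measurable_pi_apply 1)
    (fun x y => rfl) (fun x y => rfl) (a := a) (A := 5 * a) (W := n) (c₁ := c) (v₂ := 0)
    (g := g / 2) ha (by linarith) (by linarith) N hpair.1 hpair.2
  refine ⟨σ, 2 * (n + (n / a + 1) * (5 * a)), c, c', ?_, ?_⟩
  · have h5 : 0 ≤ ((n : ℝ) / a + 1) * (5 * a) := by positivity
    linarith
  · intro y₁ y₂ hy₁ hy₂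
    have h5 := hmob y₁ y₂ 64 (by push_cast; exact hy₁) hy₂
    refine h5.trans (measure_mono ?_)
    rintro ω ⟨⟨h6, h7⟩, -⟩
    refine ⟨?_, ?_⟩
    · push_cast at h6
      exact h6
    · push_cast at h7
      exact h7

end steer

end Crest.Agent.R154.Box272
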