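import Crest.Agent.R154.NBDefs_28
import Crest.Agent.R154.Flux1_132
import Crest.Agent.R154.B5Abs_566

/-! Row 154, ROAD 801 (helper96): bridge between words (`IsUp`, `IsDn`, `aw`) and lists of
single-walker blocks (`LW`, `HT`), in the letters of the list assembly. -/

set_option autoImplicit false

namespace Crest.Agent.R154.Br96

open MeasureTheory ProbabilityTheory Crest.ProbabilityR.RandomEnvironment Crest.Agent.R154
open Crest.Agent.R154.Flux132 (lev opp lev_add lev_neg lev_zero lev_step_self stepVec_opp)
open Crest.Agent.R154.Flux566 (lw endp sitesL endp_append endp_eq_add)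
open Crest.Agent.R154.NB28 (IsUp IsDn aw Cm KW KappaW)
open Crest.Agent.R154.B5A (LW HT)
open scoped ENNReal

variable {d : ℕ}

lemma sitesL_append (l l' : List (Step d)) (x : Site d) :
    sitesL x (l ++ l') = sitesL x l ++ sitesL (endp x l) l' := by
  induction l generalizing x with
  | nil => rfl
  | cons e l ih => simp only [List.cons_append, sitesL, endp, ih]

lemma mem_sitesL_shift (l : List (Step d)) (x z y : Site d) :
    y + z ∈ sitesL (x + z) l ↔ y ∈ sitesL x l := by
  induction l generalizing x with
  | nil => simp [sitesL]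
  | cons e l ih =>
    simp only [sitesL, List.mem_cons]
    rw [show x + z + stepVec e = x + stepVec e + z by abel, ih]
    constructor
    · rintro (h | h)
      · exact Or.inl (add_right_cancel h)
      · exact Or.inr h
    · rintro (h | h)
      · exact Or.inl (by rw [h])
      · exact Or.inr h

/-- sites (with depth) read by a list of blocks, top block first -/
def TS {B G : Type*} [Add G] (s : B → Set (G × ℕ)) (z : B → G) (h : B → ℕ) :
    List B → G → ℕ → Set (G × ℕ)
  | [], _, _ => ∅
  | b :: L, x, a => {p | ∃ q ∈ s b, p = (x + q.1, a + q.2)} ∪ TS s z h L (x + z b) (a + h b)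

section
variable {B : Type*} (u : Step d) (w : B → List (Step d)) (h : B → ℕ)

/-- up word of a list of blocks, top block first in the list -/
def catX : List B → List (Step d)
  | [] => []
  | b :: L => catX L ++ w b

/-- down word of a list of blocks, top block first in the list -/
def catY : List B → List (Step d)
  | [] => []
  | b :: L => w b ++ catY L

/-- displacement of an up block, from the top -/
def zX (b : B) : Site d := -endp 0 (w b)

/-- displacement of a down block, from the top -/
def zY (b : B) : Site d := endp 0 (w b)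

/-- sites of an up block hung at `0` -/
def sX (b : B) : Set (Site d × ℕ) :=
  {q | q.1 ∈ sitesL (-endp 0 (w b)) (w b) ∧ (q.2 : ℤ) = -lev u q.1}

/-- sites of a down block with top `0` -/
def sY (b : B) : Set (Site d × ℕ) :=
  {q | q.1 ∈ sitesL (stepVec (opp u)) (w b) ∧ (q.2 : ℤ) = -lev u q.1}

lemma map_zX (L : List B) : (L.map (zX w)).sum = -endp 0 (catX w L) := by
  induction L with
  | nil => simp [catX, endp]
  | cons b L ih =>
    rw [List.map_cons, List.sum_cons, ih, catX, endp_append, endp_eq_add (w b) (endp 0 (catX w L)),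
      zX]
    abel

lemma map_zY (L : List B) : (L.map (zY w)).sum = endp 0 (catY w L) := by
  induction L with
  | nil => simp [catY, endp]
  | cons b L ih =>
    rw [List.map_cons, List.sum_cons, ih, catY, endp_append, endp_eq_add (catY w L) (endp 0 (w b)),
      zY]

lemma lev_sub' (x y : Site d) : lev u (x - y) = lev u x - lev u y := by
  rw [sub_eq_add_neg, lev_add, lev_neg]; ring

lemma mem_TX (hw : ∀ b, IsUp u (h b) (w b)) (L : List B) (x : Site d) (a : ℕ) (z : Site d)
    (k : ℕ) : (z, k) ∈ TS (sX u w) (zX w) h L x a ↔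
      z ∈ sitesL (x - endp 0 (catX w L)) (catX w L) ∧ (k : ℤ) = a + lev u x - lev u z := by
  induction L generalizing x a with
  | nil => simp [TS, catX, sitesL]
  | cons b L ih =>
    have e1 : endp 0 (catX w L ++ w b) = endp 0 (catX w L) + endp 0 (w b) := by
      rw [endp_append, endp_eq_add (w b)]
    have e2 : x - endp 0 (catX w L ++ w b) = (x + zX w b) - endp 0 (catX w L) := by
      rw [e1, zX]; abel
    have e3 : endp (x + zX w b - endp 0 (catX w L)) (catX w L) = x - endp 0 (w b) := by
      rw [endp_eq_add, zX]; abel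
    simp only [TS, catX]
    rw [Set.mem_union, ih, e2, sitesL_append, List.mem_append, e3]
    have hl : lev u (x + zX w b) = lev u x - h b := by
      rw [zX, lev_add, lev_neg, (hw b).2]; ring
    have h1 : (z, k) ∈ {p : Site d × ℕ | ∃ q ∈ sX u w b, p = (x + q.1, a + q.2)} ↔
        z ∈ sitesL (x - endp 0 (w b)) (w b) ∧ (k : ℤ) = a + lev u x - lev u z := by
      constructor
      · rintro ⟨⟨q, j⟩, ⟨hq1, hq2⟩, hp⟩
        simp only [Prod.mk.injEq] at hp
        obtain ⟨rfl, rfl⟩ := hp
        simp only at hq1 hq2 ⊢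
        refine ⟨?_, ?_⟩
        · rw [add_comm x q, show x - endp 0 (w b) = -endp 0 (w b) + x by abel]
          exact (mem_sitesL_shift _ _ _ _).2 hq1
        · push_cast
          rw [hq2, lev_add]; ring
      · rintro ⟨hz, hk⟩
        have hz' : z - x ∈ sitesL (-endp 0 (w b)) (w b) := by
          rw [← mem_sitesL_shift _ _ x, sub_add_cancel,
            show -endp 0 (w b) + x = x - endp 0 (w b) by abel]
          exact hz
        have hz0 : z - x + endp 0 (w b) ∈ sitesL 0 (w b) := by
          have h7 := (mem_sitesL_shift (w b) (-endp 0 (w b)) (endp 0 (w b)) (z - x)).2 hz'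
          rwa [neg_add_cancel] at h7
        have hlev := (hw b).1 _ hz0
        rw [lev_add, (hw b).2, lev_sub'] at hlev
        have hka : a ≤ k := by omega
        refine ⟨(z - x, k - a), ⟨hz', ?_⟩, ?_⟩
        · simp only
          rw [lev_sub']; omega
        · simp only [Prod.mk.injEq]
          refine ⟨by abel, by omega⟩
    rw [h1, hl]
    constructor
    · rintro (⟨h2, h3⟩ | ⟨h2, h3⟩)
      · exact ⟨Or.inr h2, h3⟩
      · exact ⟨Or.inl h2, by push_cast at h3; omega⟩
    · rintro ⟨h2 | h2, h3⟩
      · exact Or.inr ⟨h2, by push_cast; omega⟩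
      · exact Or.inl ⟨h2, h3⟩

lemma mem_TY (hw : ∀ b, IsDn u (h b) (w b)) (L : List B) (x : Site d) (a : ℕ) (z : Site d)
    (k : ℕ) : (z, k) ∈ TS (sY u w) (zY w) h L x a ↔
      z ∈ sitesL (x + stepVec (opp u)) (catY w L) ∧ (k : ℤ) = a + lev u x - lev u z := by
  induction L generalizing x a with
  | nil => simp [TS, catY, sitesL]
  | cons b L ih =>
    have e3 : endp (x + stepVec (opp u)) (w b) = x + zY w b + stepVec (opp u) := by
      rw [endp_eq_add, zY]; abel
    simp only [TS, catY]
    rw [Set.mem_union, ih, sitesL_append, List.mem_append, e3]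
    have hl : lev u (x + zY w b) = lev u x - h b := by
      rw [zY, lev_add, (hw b).2]; ring
    have hso : lev u (stepVec (opp u)) = -1 := by
      rw [stepVec_opp, lev_neg, lev_step_self]
    have h1 : (z, k) ∈ {p : Site d × ℕ | ∃ q ∈ sY u w b, p = (x + q.1, a + q.2)} ↔
        z ∈ sitesL (x + stepVec (opp u)) (w b) ∧ (k : ℤ) = a + lev u x - lev u z := by
      constructor
      · rintro ⟨⟨q, j⟩, ⟨hq1, hq2⟩, hp⟩
        simp only [Prod.mk.injEq] at hp
        obtain ⟨rfl, rfl⟩ := hp
        simp only at hq1 hq2 ⊢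
        refine ⟨?_, ?_⟩
        · rw [add_comm x q, add_comm x (stepVec (opp u))]
          exact (mem_sitesL_shift _ _ _ _).2 hq1
        · push_cast
          rw [hq2, lev_add]; ring
      · rintro ⟨hz, hk⟩
        have hz' : z - x ∈ sitesL (stepVec (opp u)) (w b) := by
          rw [← mem_sitesL_shift _ _ x, sub_add_cancel, add_comm (stepVec (opp u)) x]
          exact hz
        have hz0 : z - x - stepVec (opp u) ∈ sitesL 0 (w b) := by
          rw [← mem_sitesL_shift _ _ (stepVec (opp u)), zero_add, sub_add_cancel]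
          exact hz'
        have hlev := (hw b).1 _ hz0
        rw [lev_sub', lev_sub', hso] at hlev
        have hka : a ≤ k := by omega
        refine ⟨(z - x, k - a), ⟨hz', ?_⟩, ?_⟩
        · simp only
          rw [lev_sub']; omega
        · simp only [Prod.mk.injEq]
          refine ⟨by abel, by omega⟩
    rw [h1, hl]
    constructor
    · rintro (⟨h2, h3⟩ | ⟨h2, h3⟩)
      · exact ⟨Or.inl h2, h3⟩
      · exact ⟨Or.inr h2, by push_cast at h3; omega⟩
    · rintro ⟨h2 | h2, h3⟩
      · exact Or.inl ⟨h2, h3⟩
      · exact Or.inr ⟨h2, by push_cast; omega⟩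

end

section sums
variable {BX BY : Type*} {ν : Measure (Row d)} [IsProbabilityMeasure ν] {u : Step d}
  {wX : BX → List (Step d)} {hX : BX → ℕ} {ΛX : BX → ℝ≥0∞}
  {wY : BY → List (Step d)} {hY : BY → ℕ} {ΛY : BY → ℝ≥0∞}

open Classical in
lemma pair_sum
    (sumX : ∀ (n : ℕ) (F : List (Step d) → ℝ≥0∞),
      ∑' L, (if HT hX L = n then LW ΛX L * F (catX wX L) else 0)
        = ∑' l, (if IsUp u n l then aw ν l * F l else 0))
    (sumY : ∀ (n : ℕ) (F : List (Step d) → ℝ≥0∞),
      ∑' L, (if HT hY L = n then LW ΛY L * F (catY wY L) else 0)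
        = ∑' l, (if IsDn u n l then aw ν l * F l else 0))
    (n n' : ℕ) (P : List (Step d) → List (Step d) → Prop) :
    ∑' L, ∑' L', (if HT hX L = n ∧ HT hY L' = n' ∧ P (catX wX L) (catY wY L')
        then LW ΛX L * LW ΛY L' else 0)
      = ∑' π, ∑' ρ, (if IsUp u n π ∧ IsDn u n' ρ ∧ P π ρ then aw ν π * aw ν ρ else 0) := by
  have e1 : ∀ L, ∑' L', (if HT hX L = n ∧ HT hY L' = n' ∧ P (catX wX L) (catY wY L')
        then LW ΛX L * LW ΛY L' else 0)
      = (if HT hX L = n then LW ΛX L * (∑' L', (if HT hY L' = n' then LW ΛY L' *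
        (if P (catX wX L) (catY wY L') then 1 else 0) else 0)) else 0) := by
    intro L
    by_cases h1 : HT hX L = n
    · rw [if_pos h1, ← ENNReal.tsum_mul_left]
      refine tsum_congr fun L' => ?_
      by_cases h2 : HT hY L' = n'
      · by_cases h3 : P (catX wX L) (catY wY L')
        · simp [h1, h2, h3]
        · simp [h3]
      · simp [h2]
    · simp [h1]
  have e2 : ∀ π, ∑' ρ, (if IsUp u n π ∧ IsDn u n' ρ ∧ P π ρ then aw ν π * aw ν ρ else 0)
      = (if IsUp u n π then aw ν π * (∑' ρ, (if IsDn u n' ρ then aw ν ρ *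
        (if P π ρ then 1 else 0) else 0)) else 0) := by
    intro π
    by_cases h1 : IsUp u n π
    · rw [if_pos h1, ← ENNReal.tsum_mul_left]
      refine tsum_congr fun ρ => ?_
      by_cases h2 : IsDn u n' ρ
      · by_cases h3 : P π ρ
        · simp [h1, h2, h3]
        · simp [h3]
      · simp [h2]
    · simp [h1]
  simp_rw [e1, e2]
  have e3 : ∀ L, ∑' L', (if HT hY L' = n' then LW ΛY L' *
        (if P (catX wX L) (catY wY L') then (1 : ℝ≥0∞) else 0) else 0)
      = ∑' ρ, (if IsDn u n' ρ then aw ν ρ * (if P (catX wX L) ρ then 1 else 0) else 0) :=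
    fun L => sumY n' fun ρ => if P (catX wX L) ρ then 1 else 0
  simp_rw [e3]
  exact sumX n fun π => ∑' ρ, (if IsDn u n' ρ then aw ν ρ * (if P π ρ then 1 else 0) else 0)

end sums

end Crest.Agent.R154.Br96
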