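import Crest.Agent.R154.Attempts_748

set_option autoImplicit false
set_option linter.unusedSectionVars false
set_option linter.unusedVariables false

/-!
Row 154, block B8 (W): abstract tile system (states in the cells, random states decided by the
past) ⟹ lifetime `τ` of the cluster of a source point, with the geometric tail needed by
`Window_299.window`, and a chain of good tiles while it is alive (helper748).
-/

namespace Crest.Agent.R154.Contour748

open MeasureTheory
open scoped ENNReal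

/-- An abstract system of tiles.  `F k` = past of layer `k`; `Λ` = states (for example the mass
function of the law sitting in a cell); `cls k x` = admissible states in the cell `x` of layer `k`;
`good k x lam` = the tile (layer `k`, cell `x`) with input `lam` is good; `outL`, `outR` = its outputs
in the cells `x`, `x+1` of layer `k+1`.  `succ k z`, `sig k z`, `lam0 k z` = the first climb of an
attempt from the point `z` of layer `k`: success, cell and state reached in layer `k+1`. -/
structure TileSys {Ω : Type*} [m0 : MeasurableSpace Ω] (P : Measure Ω) (F : Filtration ℕ m0)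
    (Z Λ : Type*) [MeasurableSpace Λ] (q : ℝ≥0∞) where
  cls : ℕ → ℤ → Set Λ
  dflt : ℕ → ℤ → Λ
  dflt_mem : ∀ k x, dflt k x ∈ cls k x
  good : ℕ → ℤ → Λ → Set Ω
  outL : ℕ → ℤ → Λ → Ω → Λ
  outR : ℕ → ℤ → Λ → Ω → Λ
  outL_mem : ∀ k x lam ω, lam ∈ cls k x → ω ∈ good k x lam → outL k x lam ω ∈ cls (k + 1) x
  outR_mem : ∀ k x lam ω, lam ∈ cls k x → ω ∈ good k x lam → outR k x lam ω ∈ cls (k + 1) (x + 1)
  good_meas : ∀ k x (f : Ω → Λ), Measurable[F k] f → MeasurableSet[F (k + 1)] {ω | ω ∈ good k x (f ω)}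
  outL_meas : ∀ k x (f : Ω → Λ), Measurable[F k] f → Measurable[F (k + 1)] fun ω => outL k x (f ω) ω
  outR_meas : ∀ k x (f : Ω → Λ), Measurable[F k] f → Measurable[F (k + 1)] fun ω => outR k x (f ω) ω
  succ : ℕ → Z → Set Ω
  sig : ℕ → Z → Ω → ℤ
  lam0 : ℕ → Z → Ω → Λ
  succ_meas : ∀ k z, MeasurableSet[F (k + 1)] (succ k z)
  sig_meas : ∀ k z x, MeasurableSet[F (k + 1)] {ω | sig k z ω = x}
  lam0_meas : ∀ k z, Measurable[F (k + 1)] (lam0 k z)
  lam0_mem : ∀ k z ω, ω ∈ succ k z → lam0 k z ω ∈ cls (k + 1) (sig k z ω)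
  kset : ∀ k (K : Finset ℤ) (f : ℤ → Ω → Λ), (∀ x, Measurable[F k] (f x)) →
    (∀ x ω, f x ω ∈ cls k x) → ∀ B, MeasurableSet[F k] B →
    P (B ∩ {ω | ∀ x ∈ K, ω ∉ good k x (f x ω)}) ≤ q ^ K.card * P B
  fail : ∀ k z B, MeasurableSet[F k] B → P (B ∩ (succ k z)ᶜ) ≤ q * P B

namespace TileSys

variable {Ω : Type*} [m0 : MeasurableSpace Ω] {P : Measure Ω} {F : Filtration ℕ m0}
  {Z Λ : Type*} [MeasurableSpace Λ] {q : ℝ≥0∞}

open Classical in
/-- wet cells and their states; layer `k+1+i`. -/
noncomputable def st (T : TileSys P F Z Λ q) (k : ℕ) (z : Z) : ℕ → ℤ → (Set Ω × (Ω → Λ))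
  | 0, x => (T.succ k z ∩ {ω | T.sig k z ω = x},
      fun ω => if ω ∈ T.succ k z ∩ {ω | T.sig k z ω = x} then T.lam0 k z ω else T.dflt (k + 1) x)
  | (i+1), x =>
      let A := (st T k z i x).1 ∩ {ω | ω ∈ T.good (k + 1 + i) x ((st T k z i x).2 ω)}
      let A' := (st T k z i (x-1)).1 ∩
        {ω | ω ∈ T.good (k + 1 + i) (x-1) ((st T k z i (x-1)).2 ω)}
      (A ∪ A', fun ω => if ω ∈ A then T.outL (k + 1 + i) x ((st T k z i x).2 ω) ω
        else if ω ∈ A' then T.outR (k + 1 + i) (x-1) ((st T k z i (x-1)).2 ω) ω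
        else T.dflt (k + 1 + (i + 1)) x)

/-- the cell `x` of layer `k+1+i` is wet. -/
noncomputable def wet (T : TileSys P F Z Λ q) (k : ℕ) (z : Z) (i : ℕ) (x : ℤ) : Set Ω :=
  (T.st k z i x).1

/-- its state. -/
noncomputable def state (T : TileSys P F Z Λ q) (k : ℕ) (z : Z) (i : ℕ) (x : ℤ) : Ω → Λ :=
  (T.st k z i x).2

/-- good tile with the actual state. -/
def gd (T : TileSys P F Z Λ q) (k : ℕ) (z : Z) (i : ℕ) (x : ℤ) : Set Ω :=
  {ω | ω ∈ T.good (k + 1 + i) x (T.state k z i x ω)}

variable (T : TileSys P F Z Λ q) (k : ℕ) (z : Z)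

lemma wet_zero (x : ℤ) : T.wet k z 0 x = T.succ k z ∩ {ω | T.sig k z ω = x} := rfl

lemma wet_succ (i : ℕ) (x : ℤ) : T.wet k z (i + 1) x =
    (T.wet k z i x ∩ T.gd k z i x) ∪ (T.wet k z i (x-1) ∩ T.gd k z i (x-1)) := rfl

open Classical in
lemma state_zero (x : ℤ) : T.state k z 0 x =
    fun ω => if ω ∈ T.wet k z 0 x then T.lam0 k z ω else T.dflt (k + 1) x := by
  funext ω
  by_cases h : ω ∈ T.succ k z ∩ {ω | T.sig k z ω = x}
  · simp only [state, st]
    rw [if_pos h, if_pos (show ω ∈ T.wet k z 0 x from h)]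
  · simp only [state, st]
    rw [if_neg h, if_neg (show ω ∉ T.wet k z 0 x from h)]

open Classical in
lemma state_succ (i : ℕ) (x : ℤ) : T.state k z (i + 1) x = fun ω =>
    if ω ∈ T.wet k z i x ∩ T.gd k z i x then T.outL (k + 1 + i) x (T.state k z i x ω) ω
    else if ω ∈ T.wet k z i (x-1) ∩ T.gd k z i (x-1) then
      T.outR (k + 1 + i) (x-1) (T.state k z i (x-1) ω) ω
    else T.dflt (k + 1 + (i + 1)) x := rfl

lemma meas : ∀ i x, MeasurableSet[F (k + 1 + i)] (T.wet k z i x) ∧
    Measurable[F (k + 1 + i)] (T.state k z i x) := by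
  classical
  intro i
  induction i with
  | zero =>
    intro x
    have h1 : MeasurableSet[F (k + 1)] (T.wet k z 0 x) := by
      rw [wet_zero]
      exact MeasurableSet.inter (T.succ_meas k z) (T.sig_meas k z x)
    refine ⟨h1, ?_⟩
    rw [state_zero]
    exact Measurable.ite (m := F (k+1)) h1 (T.lam0_meas k z) measurable_const
  | succ i ih =>
    have hg : ∀ x, MeasurableSet[F (k + 1 + (i + 1))] (T.wet k z i x ∩ T.gd k z i x) := fun x =>
      MeasurableSet.inter (F.mono (by omega) _ (ih x).1)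
        (T.good_meas (k + 1 + i) x _ (ih x).2)
    intro x
    refine ⟨?_, ?_⟩
    · rw [wet_succ]
      exact MeasurableSet.union (hg x) (hg (x-1))
    · rw [state_succ]
      refine Measurable.ite (m := F (k + 1 + (i + 1))) (hg x)
        (T.outL_meas (k + 1 + i) x _ (ih x).2) ?_
      exact Measurable.ite (m := F (k + 1 + (i + 1))) (hg (x-1))
        (T.outR_meas (k + 1 + i) (x-1) _ (ih (x-1)).2) measurable_const

lemma state_mem : ∀ i x ω, T.state k z i x ω ∈ T.cls (k + 1 + i) x := by
  classical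
  intro i
  induction i with
  | zero =>
    intro x ω
    rw [state_zero]
    dsimp only
    split_ifs with h
    · rw [wet_zero] at h
      have := T.lam0_mem k z ω h.1
      rwa [h.2] at this
    · exact T.dflt_mem _ _
  | succ i ih =>
    intro x ω
    rw [state_succ]
    dsimp only
    split_ifs with h h'
    · exact T.outL_mem _ _ _ _ (ih x ω) h.2
    · have := T.outR_mem _ _ _ _ (ih (x-1) ω) h'.2
      simpa [add_assoc] using this
    · exact T.dflt_mem _ _

/-- bad = wet and the tile with the actual state is not good. -/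
def bd (T : TileSys P F Z Λ q) (k : ℕ) (z : Z) (i : ℕ) (x : ℤ) : Set Ω :=
  T.wet k z i x \ T.gd k z i x

lemma wet_iff_chg {ω : Ω} (hω : ω ∈ T.succ k z) : ∀ i x,
    ω ∈ T.wet k z i x ↔
      chg 1 (fun i x => ω ∈ T.bd k z i (T.sig k z ω + x)) i (x - T.sig k z ω) := by
  intro i
  induction i with
  | zero =>
    intro x
    rw [wet_zero]
    simp only [Set.mem_inter_iff, hω, true_and, Set.mem_ofPred_eq, chg]
    push_cast
    omega
  | succ i ih =>
    intro x
    have e1 : T.sig k z ω + (x - T.sig k z ω) = x := by ring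
    have e2 : T.sig k z ω + (x - T.sig k z ω - 1) = x - 1 := by ring
    have e3 : x - T.sig k z ω - 1 = x - 1 - T.sig k z ω := by ring
    rw [wet_succ]
    simp only [chg, e1, e2]
    rw [e3, ← ih x, ← ih (x-1)]
    simp only [Set.mem_union, Set.mem_inter_iff, bd, Set.mem_sdiff, not_and, not_not]
    tauto

lemma wet_subset_succ : ∀ i x, T.wet k z i x ⊆ T.succ k z := by
  intro i
  induction i with
  | zero => intro x; rw [wet_zero]; exact Set.inter_subset_left
  | succ i ih =>
    intro x
    rw [wet_succ]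
    rintro ω (h | h)
    · exact ih _ h.1
    · exact ih _ h.1

/-- alive at layer `k+s` (`s ≥ 1`). -/
def alive (T : TileSys P F Z Λ q) (k : ℕ) (z : Z) (s : ℕ) : Set Ω :=
  ⋃ x, T.wet k z (s - 1) x

lemma alive_meas (s : ℕ) (hs : 1 ≤ s) : MeasurableSet[F (k + s)] (T.alive k z s) := by
  refine MeasurableSet.iUnion fun x => ?_
  have := (T.meas k z (s - 1) x).1
  have e : k + 1 + (s - 1) = k + s := by omega
  rwa [e] at this

lemma alive_anti {s : ℕ} (hs : 1 ≤ s) : T.alive k z (s + 1) ⊆ T.alive k z s := by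
  obtain ⟨i, rfl⟩ := Nat.exists_eq_add_of_le hs
  intro ω hω
  simp only [alive, Set.mem_iUnion] at hω ⊢
  obtain ⟨x, hx⟩ := hω
  have e1 : 1 + i + 1 - 1 = i + 1 := by omega
  have e2 : 1 + i - 1 = i := by omega
  rw [e1, wet_succ] at hx
  rw [e2]
  rcases hx with h | h
  · exact ⟨_, h.1⟩
  · exact ⟨_, h.1⟩

lemma alive_anti' {s t : ℕ} (hs : 1 ≤ s) (hst : s ≤ t) : T.alive k z t ⊆ T.alive k z s := by
  induction t, hst using Nat.le_induction with
  | base => exact subset_rfl
  | succ t ht ih => exact (T.alive_anti k z (hs.trans ht)).trans ih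

open Classical in
/-- lifetime of the attempt from the point `z` of layer `k` (number of layers used). -/
noncomputable def tau (T : TileSys P F Z Λ q) (k : ℕ) (z : Z) (ω : Ω) : ℕ∞ :=
  if h : ∃ t, 1 ≤ t ∧ ω ∉ T.alive k z t then ((Nat.find h : ℕ) : ℕ∞) else ⊤

lemma one_le_tau (ω : Ω) : 1 ≤ T.tau k z ω := by
  classical
  unfold tau
  split_ifs with h
  · exact_mod_cast (Nat.find_spec h).1
  · exact le_top

lemma tau_eq_iff (ω : Ω) (t : ℕ) (ht : 1 ≤ t) :
    T.tau k z ω = t ↔ (∀ s, 1 ≤ s → s < t → ω ∈ T.alive k z s) ∧ ω ∉ T.alive k z t := by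
  classical
  unfold tau
  split_ifs with h
  · rw [Nat.cast_inj, Nat.find_eq_iff]
    constructor
    · rintro ⟨h1, h2⟩
      refine ⟨fun s hs hst => ?_, h1.2⟩
      by_contra hcon
      exact h2 s hst ⟨hs, hcon⟩
    · rintro ⟨h1, h2⟩
      exact ⟨⟨ht, h2⟩, fun s hst hs => hs.2 (h1 s hs.1 hst)⟩
  · constructor
    · intro h'; exact absurd h'.symm (by simp)
    · rintro ⟨_, h2⟩; exact absurd ⟨t, ht, h2⟩ h

lemma lt_tau {ω : Ω} {s : ℕ} (hs : 1 ≤ s) (h : (s : ℕ∞) < T.tau k z ω) : ω ∈ T.alive k z s := by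
  classical
  by_contra hcon
  unfold tau at h
  have hex : ∃ t, 1 ≤ t ∧ ω ∉ T.alive k z t := ⟨s, hs, hcon⟩
  rw [dif_pos hex] at h
  have := Nat.find_min' hex ⟨hs, hcon⟩
  have h' : s < Nat.find hex := by exact_mod_cast h
  omega

lemma tau_meas (t : ℕ) : MeasurableSet[F (k + t)] {ω | T.tau k z ω = t} := by
  rcases Nat.eq_zero_or_pos t with rfl | ht
  · have : {ω | T.tau k z ω = ((0 : ℕ) : ℕ∞)} = ∅ := by
      ext ω
      simp only [Set.mem_ofPred_eq, Set.mem_empty_iff_false, iff_false]
      intro h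
      have := T.one_le_tau k z ω
      rw [h] at this
      simp at this
    rw [this]
    exact @MeasurableSet.empty _ (F (k + 0))
  · have e : {ω | T.tau k z ω = t} =
        (⋂ s ∈ Finset.Ico 1 t, T.alive k z s) ∩ (T.alive k z t)ᶜ := by
      ext ω
      rw [Set.mem_ofPred_eq, T.tau_eq_iff k z ω t ht]
      simp only [Set.mem_inter_iff, Set.mem_iInter, Finset.mem_Ico, Set.mem_compl_iff, and_imp]
    rw [e]
    refine MeasurableSet.inter ?_ (T.alive_meas k z t ht).compl
    refine Finset.measurableSet_biInter _ fun s hs => ?_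
    have h1 := Finset.mem_Ico.1 hs
    exact F.mono (by omega) _ (T.alive_meas k z s h1.1)

/-- one-layer K-set bound for the bad field of a source. -/
lemma bd_kset (i : ℕ) (K : Finset ℤ) (B : Set Ω) (hB : MeasurableSet[F (k + 1 + i)] B) :
    P (B ∩ {ω | ∀ x ∈ K, ω ∈ T.bd k z i x}) ≤ q ^ K.card * P B := by
  refine le_trans (measure_mono ?_) (T.kset (k + 1 + i) K (fun x => T.state k z i x)
    (fun x => (T.meas k z i x).2) (fun x ω => T.state_mem k z i x ω) B hB)
  refine Set.inter_subset_inter_right _ ?_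
  intro ω hω x hx
  exact (hω x hx).2

/-- absolute-layer version of the bad field. -/
def bdA (T : TileSys P F Z Λ q) (k : ℕ) (z : Z) (l : ℕ) (x : ℤ) : Set Ω :=
  if k + 1 ≤ l then T.bd k z (l - (k + 1)) x else ∅

lemma bd_meas (i : ℕ) (x : ℤ) : MeasurableSet[F (k + 1 + i + 1)] (T.bd k z i x) := by
  have h := T.meas k z i x
  exact MeasurableSet.diff (F.mono (by omega) _ h.1) (T.good_meas (k + 1 + i) x _ h.2)

lemma tau_le (θ : ℝ≥0∞) (hq : 54 * q ≤ 1) (hθ1 : θ ≤ 1) (hθ : 27 * q ≤ θ ^ 2)
    (t : ℕ) (ht : 1 ≤ t) (B : Set Ω) (hB : MeasurableSet[F k] B) :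
    P (B ∩ {ω | T.tau k z ω = t}) ≤ θ ^ t * P B := by
  classical
  have hqθ : q ≤ θ ^ 2 := le_trans (by nth_rewrite 1 [← one_mul q]; gcongr; norm_num) hθ
  rcases Nat.lt_or_ge t 2 with h2 | h2
  · -- t = 1 : the first climb failed
    have ht1 : t = 1 := by omega
    subst ht1
    have hsub : B ∩ {ω | T.tau k z ω = ((1 : ℕ) : ℕ∞)} ⊆ B ∩ (T.succ k z)ᶜ := by
      rintro ω ⟨hωB, hω⟩
      refine ⟨hωB, fun hs => ?_⟩
      have h := ((T.tau_eq_iff k z ω 1 le_rfl).1 hω).2
      apply h
      simp only [alive, Set.mem_iUnion]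
      exact ⟨T.sig k z ω, by rw [Nat.sub_self, wet_zero]; exact ⟨hs, rfl⟩⟩
    calc P (B ∩ {ω | T.tau k z ω = ((1 : ℕ) : ℕ∞)}) ≤ P (B ∩ (T.succ k z)ᶜ) := measure_mono hsub
      _ ≤ q * P B := T.fail k z B hB
      _ ≤ θ ^ 2 * P B := by gcongr
      _ ≤ θ ^ 1 * P B := mul_le_mul_left (pow_le_pow_right_of_le_one' hθ1 (by norm_num)) _
  · obtain ⟨j, rfl⟩ := Nat.exists_eq_add_of_le h2
    -- decompose on the cell of the source
    set Bz : ℤ → Set Ω := fun y => (B ∩ T.succ k z) ∩ {ω | T.sig k z ω = y} with hBz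
    have hBzm : ∀ y, MeasurableSet[F (k + 1)] (Bz y) := fun y =>
      MeasurableSet.inter (MeasurableSet.inter (F.mono (Nat.le_succ k) _ hB) (T.succ_meas k z))
        (T.sig_meas k z y)
    have hdies : ∀ y, P (Bz y ∩ {ω | diesAt 1 (fun i x => ω ∈ T.bd k z i (y + x)) j}) ≤
        (27 * q) ^ (1 + j) * P (Bz y) := by
      intro y
      have hset : ∀ (i : ℕ) (K : Finset (ℕ × ℤ)),
          (∀ p ∈ K, k + 1 ≤ p.1 ∧ p.1 < k + 1 + (j + 1)) →
          P (Bz y ∩ {ω | ∀ p ∈ K, ω ∈ T.bdA k z p.1 p.2}) ≤ q ^ K.card * P (Bz y) := by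
        intro i K hK
        refine kset_layers P (fun l => F l) (fun l => F.le l) (fun a b hab => F.mono hab)
          (T.bdA k z) q ?_ ?_ (j + 1) (k + 1) K (Bz y) (hBzm y) hK
        · intro l x
          unfold bdA
          split_ifs with h
          · have := T.bd_meas k z (l - (k + 1)) x
            have e : k + 1 + (l - (k + 1)) + 1 = l + 1 := by omega
            rwa [e] at this
          · exact @MeasurableSet.empty _ (F (l + 1))
        · intro l K B hB
          by_cases h : k + 1 ≤ l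
          · have e : k + 1 + (l - (k + 1)) = l := by omega
            have := T.bd_kset k z (l - (k + 1)) K B (by rwa [e])
            simpa [bdA, h] using this
          · rcases K.eq_empty_or_nonempty with rfl | ⟨x, hx⟩
            · simp
            · have : B ∩ {ω | ∀ x ∈ K, ω ∈ T.bdA k z l x} = ∅ := by
                ext ω
                simp only [Set.mem_inter_iff, Set.mem_ofPred_eq, Set.mem_empty_iff_false,
                  iff_false, not_and]
                intro _ hall
                have := hall x hx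
                simp [bdA, h] at this
              rw [this]; simp
      have hmb : ∀ i x, MeasurableSet (T.bd k z i x) := fun i x => F.le _ _ (T.bd_meas k z i x)
      have hmeasK : ∀ K : Finset (ℕ × ℤ), MeasurableSet {ω | ∀ p ∈ K, ω ∈ T.bd k z p.1 (y + p.2)} := by
        intro K
        have e : {ω | ∀ p ∈ K, ω ∈ T.bd k z p.1 (y + p.2)} = ⋂ p ∈ K, T.bd k z p.1 (y + p.2) := by
          ext ω; simp
        rw [e]
        exact Finset.measurableSet_biInter _ fun p _ => hmb _ _
      have key := dies_le (P.restrict (Bz y)) (P (Bz y)) q hq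
        (fun i x ω => ω ∈ T.bd k z i (y + x)) 1 j (by
          intro K hK
          let φ : ℕ × ℤ → ℕ × ℤ := fun p => (k + 1 + p.1, y + p.2)
          have hφ : Function.Injective φ := by
            rintro ⟨a, b⟩ ⟨c, d⟩ h
            simp only [φ, Prod.mk.injEq] at h
            ext <;> simp <;> omega
          have h := hset 0 (K.image φ) (by
            intro p hp
            rw [Finset.mem_image] at hp
            obtain ⟨p', hp', rfl⟩ := hp
            have := hK p' hp'
            simp only [φ]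
            omega)
          rw [Finset.card_image_of_injective _ hφ] at h
          have hseteq : {ω | ∀ p ∈ K, ω ∈ T.bd k z p.1 (y + p.2)} =
              {ω | ∀ p ∈ K.image φ, ω ∈ T.bdA k z p.1 p.2} := by
            ext ω
            simp only [Set.mem_ofPred_eq, Finset.mem_image]
            constructor
            · rintro h p ⟨p', hp', rfl⟩
              simpa [bdA, φ] using h p' hp'
            · intro h p hp
              simpa [bdA, φ] using h (φ p) ⟨p, hp, rfl⟩
          rw [Measure.restrict_apply (hmeasK K), Set.inter_comm, hseteq, mul_comm]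
          exact h)
      have hmc : ∀ i x, MeasurableSet {ω | chg 1 (fun i x => ω ∈ T.bd k z i (y + x)) i x} := by
        intro i
        induction i with
        | zero => intro x; simp only [chg]; exact MeasurableSet.const _
        | succ i ih =>
          intro x
          have e : {ω | chg 1 (fun i x => ω ∈ T.bd k z i (y + x)) (i + 1) x} =
              ({ω | chg 1 (fun i x => ω ∈ T.bd k z i (y + x)) i x} \ T.bd k z i (y + x)) ∪
              ({ω | chg 1 (fun i x => ω ∈ T.bd k z i (y + x)) i (x - 1)} \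
                T.bd k z i (y + (x - 1))) := by
            ext ω
            simp only [chg, Set.mem_ofPred_eq, Set.mem_union, Set.mem_sdiff]
          rw [e]
          exact ((ih x).diff (hmb _ _)).union ((ih (x-1)).diff (hmb _ _))
      have hmd : MeasurableSet {ω | diesAt 1 (fun i x => ω ∈ T.bd k z i (y + x)) j} := by
        have e : {ω | diesAt 1 (fun i x => ω ∈ T.bd k z i (y + x)) j} =
            (⋃ x, {ω | chg 1 (fun i x => ω ∈ T.bd k z i (y + x)) j x}) ∩
            (⋂ x, {ω | chg 1 (fun i x => ω ∈ T.bd k z i (y + x)) (j + 1) x}ᶜ) := by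
          ext ω
          simp only [diesAt, Set.mem_ofPred_eq, Set.mem_inter_iff, Set.mem_iUnion, Set.mem_iInter,
            Set.mem_compl_iff]
        rw [e]
        exact (MeasurableSet.iUnion fun x => hmc j x).inter
          (MeasurableSet.iInter fun x => (hmc (j + 1) x).compl)
      rw [Measure.restrict_apply hmd, Set.inter_comm, mul_comm] at key
      exact key
    have hsub : B ∩ {ω | T.tau k z ω = ((2 + j : ℕ) : ℕ∞)} ⊆
        ⋃ y, (Bz y ∩ {ω | diesAt 1 (fun i x => ω ∈ T.bd k z i (y + x)) j}) := by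
      rintro ω ⟨hωB, hω⟩
      have h := (T.tau_eq_iff k z ω (2 + j) (by omega)).1 hω
      have ha : ω ∈ T.alive k z (j + 1) := h.1 (j + 1) (by omega) (by omega)
      simp only [alive, Set.mem_iUnion, Nat.add_sub_cancel] at ha
      obtain ⟨x, hx⟩ := ha
      have hs : ω ∈ T.succ k z := T.wet_subset_succ k z j x hx
      refine Set.mem_iUnion.2 ⟨T.sig k z ω, ⟨⟨⟨hωB, hs⟩, rfl⟩, ?_, ?_⟩⟩
      · exact ⟨_, (T.wet_iff_chg k z hs j x).1 hx⟩
      · intro x' hx'
        apply h.2
        simp only [alive, Set.mem_iUnion]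
        refine ⟨T.sig k z ω + x', ?_⟩
        have e : 2 + j - 1 = j + 1 := by omega
        rw [e, T.wet_iff_chg k z hs (j + 1)]
        simpa using hx'
    calc P (B ∩ {ω | T.tau k z ω = ((2 + j : ℕ) : ℕ∞)})
        ≤ ∑' y, P (Bz y ∩ {ω | diesAt 1 (fun i x => ω ∈ T.bd k z i (y + x)) j}) :=
          (measure_mono hsub).trans (measure_iUnion_le _)
      _ ≤ ∑' y, (27 * q) ^ (1 + j) * P (Bz y) := ENNReal.tsum_le_tsum hdies
      _ = (27 * q) ^ (1 + j) * P (⋃ y, Bz y) := by
          rw [ENNReal.tsum_mul_left, measure_iUnion]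
          · intro y y' hyy'
            rw [Function.onFun, Set.disjoint_left]
            rintro ω ⟨_, h1⟩ ⟨_, h2⟩
            exact hyy' (h1.symm.trans h2)
          · intro y; exact F.le _ _ (hBzm y)
      _ ≤ (27 * q) ^ (1 + j) * P B := by
          gcongr
          exact Set.iUnion_subset fun y ω hω => hω.1.1
      _ ≤ θ ^ (2 + j) * P B := by
          refine mul_le_mul_left ?_ _
          calc (27 * q) ^ (1 + j) ≤ (θ ^ 2) ^ (1 + j) := by gcongr
            _ = θ ^ (2 * (1 + j)) := by rw [pow_mul]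
            _ ≤ θ ^ (2 + j) := pow_le_pow_right_of_le_one' hθ1 (by omega)

/-- chain of good tiles from the point `z` of layer `k`: `Conn s x lam` = the state `lam` is reached
in the cell `x` of layer `k+s`. -/
inductive Conn (T : TileSys P F Z Λ q) (k : ℕ) (z : Z) (ω : Ω) : ℕ → ℤ → Λ → Prop
  | start (h : ω ∈ T.succ k z) : Conn T k z ω 1 (T.sig k z ω) (T.lam0 k z ω)
  | left {s : ℕ} {x : ℤ} {lam : Λ} (h : Conn T k z ω s x lam) (hg : ω ∈ T.good (k + s) x lam) :
      Conn T k z ω (s + 1) x (T.outL (k + s) x lam ω)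
  | right {s : ℕ} {x : ℤ} {lam : Λ} (h : Conn T k z ω s x lam) (hg : ω ∈ T.good (k + s) x lam) :
      Conn T k z ω (s + 1) (x + 1) (T.outR (k + s) x lam ω)

lemma conn_of_wet (ω : Ω) : ∀ i x, ω ∈ T.wet k z i x →
    Conn T k z ω (i + 1) x (T.state k z i x ω) := by
  classical
  intro i
  induction i with
  | zero =>
    intro x hx
    have hx' := hx
    rw [wet_zero] at hx
    rw [state_zero]
    dsimp only
    rw [if_pos hx']
    have := Conn.start (T := T) (k := k) (z := z) (ω := ω) hx.1
    rwa [hx.2] at this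
  | succ i ih =>
    intro x hx
    rw [state_succ]
    dsimp only
    rw [wet_succ] at hx
    by_cases hA : ω ∈ T.wet k z i x ∩ T.gd k z i x
    · rw [if_pos hA]
      have e : k + (i + 1) = k + 1 + i := by omega
      have := Conn.left (ih x hA.1) (by rw [e]; exact hA.2)
      rwa [e] at this
    · rw [if_neg hA]
      have hA' : ω ∈ T.wet k z i (x-1) ∩ T.gd k z i (x-1) := by
        rcases hx with h | h
        · exact absurd h hA
        · exact h
      rw [if_pos hA']
      have e : k + (i + 1) = k + 1 + i := by omega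
      have := Conn.right (ih (x-1) hA'.1) (by rw [e]; exact hA'.2)
      rw [e] at this
      simpa using this

/-- **While the attempt is alive there is a chain of good tiles.** -/
theorem conn_of_lt_tau {ω : Ω} {s : ℕ} (hs : 1 ≤ s) (h : (s : ℕ∞) < T.tau k z ω) :
    ∃ x lam, Conn T k z ω s x lam := by
  have ha := T.lt_tau k z hs h
  simp only [alive, Set.mem_iUnion] at ha
  obtain ⟨x, hx⟩ := ha
  have := T.conn_of_wet k z ω (s - 1) x hx
  have e : s - 1 + 1 = s := by omega
  rw [e] at this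
  exact ⟨x, _, this⟩

/-- invariant form. -/
theorem inv_of_lt_tau {ω : Ω} {s : ℕ} (hs : 1 ≤ s) (h : (s : ℕ∞) < T.tau k z ω)
    (Inv : ℕ → ℤ → Λ → Prop)
    (h0 : ω ∈ T.succ k z → Inv 1 (T.sig k z ω) (T.lam0 k z ω))
    (hL : ∀ s x lam, Inv s x lam → ω ∈ T.good (k + s) x lam →
      Inv (s + 1) x (T.outL (k + s) x lam ω))
    (hR : ∀ s x lam, Inv s x lam → ω ∈ T.good (k + s) x lam →
      Inv (s + 1) (x + 1) (T.outR (k + s) x lam ω)) :
    ∃ x lam, Inv s x lam := by
  obtain ⟨x, lam, hc⟩ := T.conn_of_lt_tau k z hs h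
  refine ⟨x, lam, ?_⟩
  clear h
  induction hc with
  | start h => exact h0 h
  | left _ hg ih => exact hL _ _ _ (ih (by rename_i h1; cases h1 <;> omega)) hg
  | right _ hg ih => exact hR _ _ _ (ih (by rename_i h1; cases h1 <;> omega)) hg

end TileSys

end Crest.Agent.R154.Contour748
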