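import Crest.Agent.R154.WindowK_299
import Crest.Agent.R154.Tau_748

/-!
# From 748's tile systems (states = mass functions on sites) to `WindowK299.TileSys`

`TileLaw A N c1 c q L`: layer `k` = level `L + k * N`, states = probability mass functions, a good
tile transmits mass `c` to each of its two outputs, the first step of an attempt from a site of
level `L` transmits mass `c1 * c`.
-/

set_option autoImplicit false
set_option linter.unusedVariables false
set_option linter.unusedSectionVars false

open MeasureTheory ENNReal Crest.Agent.R154.RatioR872 Crest.Agent.R154.Contour748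

namespace Crest.Agent.R154.Bridge299

variable {S : Type*} {Ω : Type*} {m0 : MeasurableSpace Ω} {P : Measure Ω}

/-- the filtration of the layers `L + k * N`. -/
def lay (A : KerSys S P) (L N : ℕ) : Filtration ℕ m0 where
  seq k := A.F (L + k * N)
  mono' _ _ hij := A.F.mono (Nat.add_le_add_left (Nat.mul_le_mul_right N hij) L)
  le' _ := A.F.le _

/-- a tile system of height `N` based at level `L`, with states = mass functions. -/
structure TileLaw (A : KerSys S P) (N : ℕ) (c1 c q : ℝ≥0∞) (L : ℕ) where
  T : Contour748.TileSys P (lay A L N) S (S → ℝ≥0∞) q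
  cls_prob : ∀ k x lam, lam ∈ T.cls k x → ∑' y, lam y = 1
  goodL : ∀ k x lam ω, lam ∈ T.cls k x → ω ∈ T.good k x lam → ∀ y,
    c * T.outL k x lam ω y ≤ ∑' z, lam z * A.G (L + k * N) (L + (k + 1) * N) ω z y
  goodR : ∀ k x lam ω, lam ∈ T.cls k x → ω ∈ T.good k x lam → ∀ y,
    c * T.outR k x lam ω y ≤ ∑' z, lam z * A.G (L + k * N) (L + (k + 1) * N) ω z y
  start : ∀ z, z ∈ A.L L → ∀ᵐ ω ∂P, ω ∈ T.succ 0 z → ∀ y,
    c1 * c * T.lam0 0 z ω y ≤ A.G L (L + N) ω z y

variable [Countable S] {A : KerSys S P}

theorem step_mass {L N s : ℕ} {ω : Ω} {z : S} {a c : ℝ≥0∞} {lam out : S → ℝ≥0∞}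
    (hcomp : ∀ x y, ∑' w, A.G L (L + s * N) ω x w * A.G (L + s * N) (L + (s + 1) * N) ω w y
      ≤ A.G L (L + (s + 1) * N) ω x y)
    (h1 : ∀ y, a * lam y ≤ A.G L (L + s * N) ω z y)
    (h2 : ∀ y, c * out y ≤ ∑' w, lam w * A.G (L + s * N) (L + (s + 1) * N) ω w y) (y : S) :
    a * c * out y ≤ A.G L (L + (s + 1) * N) ω z y := by
  calc a * c * out y = a * (c * out y) := by ring
    _ ≤ a * ∑' w, lam w * A.G (L + s * N) (L + (s + 1) * N) ω w y := by
        gcongr; exact h2 y
    _ = ∑' w, (a * lam w) * A.G (L + s * N) (L + (s + 1) * N) ω w y := by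
        rw [← ENNReal.tsum_mul_left]
        exact tsum_congr fun w => by ring
    _ ≤ ∑' w, A.G L (L + s * N) ω z w * A.G (L + s * N) (L + (s + 1) * N) ω w y := by
        refine ENNReal.tsum_le_tsum fun w => ?_
        gcongr
        exact h1 w
    _ ≤ _ := hcomp z y

/-- **The bridge.** -/
theorem tileSys_of_law {N : ℕ} {c1 c q θ : ℝ≥0∞} (hq : 54 * q ≤ 1) (hθ1 : θ ≤ 1)
    (hθ : 27 * q ≤ θ ^ 2) (T : ∀ L, TileLaw A N c1 c q L) :
    WindowK299.TileSys A N c1 c θ where
  fam L z hz := by
    refine ⟨(T L).T.tau 0 z, ?_, ?_, ?_, ?_⟩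
    · intro t
      have h := (T L).T.tau_meas 0 z t
      have e : (lay A L N) (0 + t) = A.F (L + t * N) := by
        show A.F (L + (0 + t) * N) = A.F (L + t * N)
        rw [Nat.zero_add]
      rwa [e] at h
    · exact (T L).T.one_le_tau 0 z
    · intro t ht B hB
      have e : (lay A L N) 0 = A.F L := by
        show A.F (L + 0 * N) = A.F L
        rw [Nat.zero_mul, Nat.add_zero]
      exact (T L).T.tau_le 0 z θ hq hθ1 hθ t ht B (by rw [e]; exact hB)
    · have hcomp : ∀ᵐ ω ∂P, ∀ s : ℕ, ∀ x y,
          ∑' w, A.G L (L + s * N) ω x w * A.G (L + s * N) (L + (s + 1) * N) ω w y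
            ≤ A.G L (L + (s + 1) * N) ω x y := by
        rw [ae_all_iff]
        intro s
        exact A.comp L (L + s * N) (L + (s + 1) * N) (Nat.le_add_right _ _)
          (Nat.add_le_add_left (Nat.mul_le_mul_right N (Nat.le_succ s)) L)
      filter_upwards [hcomp, (T L).start z hz] with ω hω hst s hs1 hs
      obtain ⟨x, lam, hcls, hinv⟩ := (T L).T.inv_of_lt_tau 0 z hs1 hs
        (fun s x lam => lam ∈ (T L).T.cls s x ∧ ∀ y, c1 * c ^ s * lam y ≤ A.G L (L + s * N) ω z y)
        (by
          intro hsucc
          refine ⟨?_, ?_⟩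
          · have := (T L).T.lam0_mem 0 z ω hsucc
            rwa [Nat.zero_add] at this
          · intro y
            have := hst hsucc y
            rw [pow_one, one_mul]
            exact this)
        (by
          intro s x lam hin hg
          rw [Nat.zero_add] at hg
          refine ⟨?_, ?_⟩
          · have := (T L).T.outL_mem s x lam ω hin.1 hg
            simpa using this
          · intro y
            have h1 := step_mass (A := A) (hω s) hin.2
              ((T L).goodL s x lam ω hin.1 hg) y
            rw [pow_succ, ← mul_assoc, Nat.zero_add]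
            exact h1)
        (by
          intro s x lam hin hg
          rw [Nat.zero_add] at hg
          refine ⟨?_, ?_⟩
          · have := (T L).T.outR_mem s x lam ω hin.1 hg
            simpa using this
          · intro y
            have h1 := step_mass (A := A) (hω s) hin.2
              ((T L).goodR s x lam ω hin.1 hg) y
            rw [pow_succ, ← mul_assoc, Nat.zero_add]
            exact h1)
      calc c1 * c ^ s = ∑' y, c1 * c ^ s * lam y := by
            rw [ENNReal.tsum_mul_left, (T L).cls_prob s x lam hcls, mul_one]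
        _ ≤ ∑' y, A.G L (L + s * N) ω z y := ENNReal.tsum_le_tsum hinv
        _ = A.N L (L + s * N) ω z := rfl

end Crest.Agent.R154.Bridge299
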