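import Crest.Agent.R154.Kset_740

set_option autoImplicit false
set_option linter.unusedSectionVars false

/-!
Row 154, block B7/B8: log-free capacity of a stopped walker and the K-set bound with a fixed rate
for arbitrary lateral laws (helper923), on helper740's `Expl`.
-/

namespace Crest.Agent.R154.CF923

open MeasureTheory ProbabilityTheory
open scoped ENNReal
open Crest.Agent.R154.K740 Crest.Agent.R154.K740.Expl

/-- `1` if the two finite sets meet, `0` otherwise -/
noncomputable def mt {S : Type*} (V W : Finset S) : ℝ≥0∞ := by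
  classical
  exact if Disjoint V W then 0 else 1

section mtlem

variable {S : Type*}

lemma mt_le_one (V W : Finset S) : mt V W ≤ 1 := by
  unfold mt; split_ifs <;> simp

lemma mt_of_disjoint {V W : Finset S} (h : Disjoint V W) : mt V W = 0 := by
  unfold mt; rw [if_pos h]

lemma mt_of_not_disjoint {V W : Finset S} (h : ¬ Disjoint V W) : mt V W = 1 := by
  unfold mt; rw [if_neg h]

lemma mt_of_mem {V W : Finset S} {z : S} (h : z ∈ V) (h' : z ∈ W) : mt V W = 1 :=
  mt_of_not_disjoint fun hd => Finset.disjoint_left.1 hd h h'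

lemma mt_comm (V W : Finset S) : mt V W = mt W V := by
  by_cases h : Disjoint V W
  · rw [mt_of_disjoint h, mt_of_disjoint h.symm]
  · rw [mt_of_not_disjoint h, mt_of_not_disjoint fun h' => h h'.symm]

lemma mt_mono {V V' W W' : Finset S} (h : V ⊆ V') (h' : W ⊆ W') : mt V W ≤ mt V' W' := by
  by_cases hd : Disjoint V' W'
  · rw [mt_of_disjoint (Finset.disjoint_of_subset_left h (Finset.disjoint_of_subset_right h' hd))]
    exact zero_le
  · rw [mt_of_not_disjoint hd]; exact mt_le_one _ _

end mtlem

section basic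

variable {S Rw A A' : Type*} [MeasurableSpace Rw] (E : Expl S Rw A) (E' : Expl S Rw A')

/-- quenched probability that the exploration meets `V` -/
noncomputable def hitq (ω : S → Rw) (V : Finset S) : ℝ≥0∞ :=
  E.val (fun h => mt (E.expl h) V) ω E.T []

lemma hit_eq [Countable A] (ν : Measure Rw) [IsProbabilityMeasure ν] (V : Finset S) :
    E.hit ν V = ∫⁻ η, hitq E η V ∂(Measure.infinitePi fun _ : S => ν) := rfl

lemma hitq_le_one (ω : S → Rw) (V : Finset S) : hitq E ω V ≤ 1 :=
  E.val_le_one (fun _ => mt_le_one _ _) _ _ _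

lemma hitq_mono (ω : S → Rw) {V V' : Finset S} (h : V ⊆ V') : hitq E ω V ≤ hitq E ω V' :=
  E.val_mono (fun _ => mt_mono (Finset.Subset.refl _) h) _ _ _

lemma val_tsum {ι : Type*} (u : ι → List A → ℝ≥0∞) (ω : S → Rw) (n : ℕ) (h : List A) :
    E.val (fun h => ∑' i, u i h) ω n h = ∑' i, E.val (u i) ω n h := by
  induction n generalizing h with
  | zero => rfl
  | succ n ih =>
    simp only [val, ih, ← ENNReal.tsum_mul_left]
    exact ENNReal.tsum_comm

lemma val_comm (f : List A → List A' → ℝ≥0∞) (ω : S → Rw) (n m : ℕ) (h : List A) (k : List A') :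
    E.val (fun h => E'.val (f h) ω m k) ω n h = E'.val (fun k => E.val (fun h => f h k) ω n h) ω m k := by
  induction n generalizing h with
  | zero => rfl
  | succ n ih =>
    simp only [val, ih]
    rw [val_tsum]
    exact tsum_congr fun a => (E'.val_mul_left _ _ _ _ _).symm

lemma val_congr_ext {u v : List A → ℝ≥0∞} (ω : S → Rw) (n : ℕ) (h : List A)
    (huv : ∀ l : List A, l.length = n → u (l ++ h) = v (l ++ h)) : E.val u ω n h = E.val v ω n h := by
  induction n generalizing h with
  | zero => simpa [val] using huv [] rfl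
  | succ n ih =>
    simp only [val]
    refine tsum_congr fun a => ?_
    rw [ih (a :: h) fun l hl => by
      have := huv (l ++ [a]) (by simp [hl])
      simpa using this]

lemma val_mono_ext {u v : List A → ℝ≥0∞} (ω : S → Rw) (n : ℕ) (h : List A)
    (huv : ∀ l : List A, l.length = n → u (l ++ h) ≤ v (l ++ h)) : E.val u ω n h ≤ E.val v ω n h := by
  induction n generalizing h with
  | zero => simpa [val] using huv [] rfl
  | succ n ih =>
    simp only [val]
    refine ENNReal.tsum_le_tsum fun a => ?_
    gcongr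
    exact ih (a :: h) fun l hl => by
      have := huv (l ++ [a]) (by simp [hl])
      simpa using this

lemma measurable_valU [Countable A] {U : (S → Rw) → List A → ℝ≥0∞}
    (hU : ∀ h, Measurable fun ω => U ω h) (n : ℕ) (h : List A) :
    Measurable fun ω : S → Rw => E.val (U ω) ω n h := by
  induction n generalizing h with
  | zero => exact hU h
  | succ n ih =>
    exact Measurable.tsum fun a => (E.measurable_step h a).mul (ih (a :: h))

lemma measurable_hitq [Countable A] (V : Finset S) : Measurable fun ω => hitq E ω V :=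
  E.measurable_val _ _ _

/-- avoiding payoff -/
noncomputable def av {S : Type*} (V W : Finset S) : ℝ≥0∞ := by
  classical
  exact if Disjoint V W then 1 else 0

lemma av_add_mt {S : Type*} (V W : Finset S) : mt V W + av V W = 1 := by
  unfold mt av; split_ifs <;> simp

lemma val_av_zero {V : Finset S} (ω : S → Rw) (n : ℕ) {h : List A}
    (hd : ¬ Disjoint (E.expl h) V) : E.val (fun h => av (E.expl h) V) ω n h = 0 := by
  have h1 : E.val (fun h => av (E.expl h) V) ω n h = E.val (fun _ => 0) ω n h := by
    refine val_congr_ext E ω n h fun l _ => ?_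
    have : ¬ Disjoint (E.expl (l ++ h)) V := fun h' =>
      hd (Finset.disjoint_of_subset_left (E.expl_subset_append l h) h')
    unfold av; rw [if_neg this]
  rw [h1, E.val_const]

/-- The avoiding probability does not depend on the rows on the avoided set. -/
lemma val_av_merge (V : Finset S) (ω η : S → Rw) (n : ℕ) (h : List A) :
    E.val (fun h => av (E.expl h) V) (merge V ω η) n h =
      E.val (fun h => av (E.expl h) V) η n h := by
  classical
  induction n generalizing h with
  | zero => rfl
  | succ n ih =>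
    rcases hh : E.site h with _ | z
    · simp only [val, E.step_none hh, ih]
    · by_cases hz : z ∈ V
      · simp only [val]
        refine tsum_congr fun a => ?_
        have : ¬ Disjoint (E.expl (a :: h)) V := by
          rw [E.expl_cons_some hh]
          exact fun h' => Finset.disjoint_left.1 h' (Finset.mem_insert_self _ _) hz
        rw [val_av_zero E _ _ this, val_av_zero E _ _ this, mul_zero, mul_zero]
      · simp only [val, E.step_some hh, ih, merge_not_mem hz]

end basic

section key

variable {S Rw A A' : Type*} [MeasurableSpace Rw] [Countable A] [Countable A']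
  (ν : Measure Rw) [IsProbabilityMeasure ν] (E : Expl S Rw A) (E' : Expl S Rw A')

local notation "𝐏" => (Measure.infinitePi fun _ : S => ν)

/-- Replace a payoff which depends on the environment by another one with the same conditional
expectation given the rows of the explored sites. -/
lemma lintegral_val_congr {U₁ U₂ : (S → Rw) → List A → ℝ≥0∞}
    (h₁ : ∀ h, Measurable fun ω => U₁ ω h) (h₂ : ∀ h, Measurable fun ω => U₂ ω h)
    (hleaf : ∀ h (ω : S → Rw), ∫⁻ η, U₁ (merge (E.expl h) ω η) h ∂𝐏 =
      ∫⁻ η, U₂ (merge (E.expl h) ω η) h ∂𝐏)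
    (n : ℕ) (h : List A) (ω : S → Rw) :
    ∫⁻ η, E.val (U₁ (merge (E.expl h) ω η)) (merge (E.expl h) ω η) n h ∂𝐏 =
      ∫⁻ η, E.val (U₂ (merge (E.expl h) ω η)) (merge (E.expl h) ω η) n h ∂𝐏 := by
  classical
  induction n generalizing h ω with
  | zero => exact hleaf h ω
  | succ n ih =>
    have m1 : ∀ (V : Finset S) (ω : S → Rw) (l : List A), Measurable fun η : S → Rw =>
        E.val (U₁ (merge V ω η)) (merge V ω η) n l := fun V ω l =>
      (measurable_valU E h₁ n l).comp (measurable_merge V ω)
    have m2 : ∀ (V : Finset S) (ω : S → Rw) (l : List A), Measurable fun η : S → Rw =>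
        E.val (U₂ (merge V ω η)) (merge V ω η) n l := fun V ω l =>
      (measurable_valU E h₂ n l).comp (measurable_merge V ω)
    rcases hh : E.site h with _ | z
    · simp only [val, E.step_none hh]
      rw [lintegral_tsum fun a => ((m1 _ _ _).const_mul _).aemeasurable,
        lintegral_tsum fun a => ((m2 _ _ _).const_mul _).aemeasurable]
      refine tsum_congr fun a => ?_
      rw [lintegral_const_mul _ (m1 _ _ _), lintegral_const_mul _ (m2 _ _ _)]
      congr 1
      have := ih (a :: h) ω
      rwa [E.expl_cons_none hh] at this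
    · by_cases hz : z ∈ E.expl h
      · simp only [val, E.step_some hh, merge_mem hz]
        rw [lintegral_tsum fun a => ((m1 _ _ _).const_mul _).aemeasurable,
          lintegral_tsum fun a => ((m2 _ _ _).const_mul _).aemeasurable]
        refine tsum_congr fun a => ?_
        rw [lintegral_const_mul _ (m1 _ _ _), lintegral_const_mul _ (m2 _ _ _)]
        congr 1
        have := ih (a :: h) ω
        rwa [E.expl_cons_some hh, Finset.insert_eq_of_mem hz] at this
      · have g1 : Measurable fun ω' : S → Rw => E.val (U₁ ω') ω' (n + 1) h :=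
          measurable_valU E h₁ (n + 1) h
        have g2 : Measurable fun ω' : S → Rw => E.val (U₂ ω') ω' (n + 1) h :=
          measurable_valU E h₂ (n + 1) h
        rw [lintegral_merge_insert ν hz ω g1, lintegral_merge_insert ν hz ω g2]
        refine lintegral_congr fun r => ?_
        have e1 : ∀ η : S → Rw,
            merge (insert z (E.expl h)) (Function.update ω z r) η z = r := fun η => by
          rw [merge_mem (Finset.mem_insert_self _ _)]; simp
        simp only [val, E.step_some hh, e1]
        rw [lintegral_tsum fun a => ((m1 _ _ _).const_mul _).aemeasurable,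
          lintegral_tsum fun a => ((m2 _ _ _).const_mul _).aemeasurable]
        refine tsum_congr fun a => ?_
        rw [lintegral_const_mul _ (m1 _ _ _), lintegral_const_mul _ (m2 _ _ _)]
        congr 1
        have := ih (a :: h) (Function.update ω z r)
        rwa [E.expl_cons_some hh] at this

lemma lintegral_val_congr_nil {U₁ U₂ : (S → Rw) → List A → ℝ≥0∞}
    (h₁ : ∀ h, Measurable fun ω => U₁ ω h) (h₂ : ∀ h, Measurable fun ω => U₂ ω h)
    (hleaf : ∀ h (ω : S → Rw), ∫⁻ η, U₁ (merge (E.expl h) ω η) h ∂𝐏 =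
      ∫⁻ η, U₂ (merge (E.expl h) ω η) h ∂𝐏) [Nonempty Rw] (n : ℕ) :
    ∫⁻ η, E.val (U₁ η) η n [] ∂𝐏 = ∫⁻ η, E.val (U₂ η) η n [] ∂𝐏 := by
  obtain ⟨r⟩ := ‹Nonempty Rw›
  have := lintegral_val_congr ν E h₁ h₂ hleaf n [] (fun _ => r)
  simpa [Expl.expl] using this

/-- **KEY identity**: two explorations in the same environment or in independent environments:
the contact probability is the same, with an arbitrary payoff on one of the two histories. -/
theorem key {u : List A → ℝ≥0∞} (hu : ∀ h, u h ≤ 1) :
    E.ann ν (fun h => u h * E'.hit ν (E.expl h)) =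
      ∫⁻ ω, E.val (fun h => u h * hitq E' ω (E.expl h)) ω E.T [] ∂𝐏 := by
  classical
  have : Nonempty Rw := by
    by_contra hne
    rw [not_nonempty_iff] at hne
    have := measure_univ (μ := ν)
    simp [Set.univ_eq_empty_iff.2 hne] at this
  -- avoiding probabilities
  set avq : (S → Rw) → Finset S → ℝ≥0∞ := fun ω V =>
    E'.val (fun k => av (E'.expl k) V) ω E'.T [] with havq
  have hm : ∀ V, Measurable fun ω => avq ω V := fun V => E'.measurable_val _ _ _
  have hsum : ∀ ω V, hitq E' ω V + avq ω V = 1 := by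
    intro ω V
    rw [havq, hitq, ← E'.val_add]
    have : (fun h => mt (E'.expl h) V + av (E'.expl h) V) = fun _ => (1 : ℝ≥0∞) := by
      funext h; exact av_add_mt _ _
    rw [this, E'.val_const]
  have hAsum : ∀ V, E'.hit ν V + ∫⁻ ω, avq ω V ∂𝐏 = 1 := by
    intro V
    rw [hit_eq, ← lintegral_add_left (measurable_hitq E' V)]
    simp [hsum]
  have hA : ∫⁻ ω, E.val (fun h => u h * avq ω (E.expl h)) ω E.T [] ∂𝐏 =
      ∫⁻ ω, E.val (fun h => u h * ∫⁻ ω', avq ω' (E.expl h) ∂𝐏) ω E.T [] ∂𝐏 := by
    refine lintegral_val_congr_nil ν E (U₁ := fun ω h => u h * avq ω (E.expl h))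
      (U₂ := fun _ h => u h * ∫⁻ ω', avq ω' (E.expl h) ∂𝐏)
      (fun h => (hm _).const_mul _) (fun h => measurable_const) ?_ _
    intro h ω
    simp only [lintegral_const, measure_univ, mul_one]
    rw [lintegral_const_mul' _ _ (ne_top_of_le_ne_top ENNReal.one_ne_top (hu h))]
    congr 1
    exact lintegral_congr fun η => val_av_merge E' _ _ _ _ _
  have hu' : ∀ (x : ℝ≥0∞) h, x ≤ 1 → u h * x ≤ 1 := fun x h hx => by
    calc u h * x ≤ 1 * 1 := mul_le_mul' (hu h) hx
      _ = 1 := one_mul 1
  have hfin : ∫⁻ ω, E.val (fun h => u h * avq ω (E.expl h)) ω E.T [] ∂𝐏 ≠ ∞ := by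
    refine ne_top_of_le_ne_top ENNReal.one_ne_top ?_
    calc _ ≤ ∫⁻ _, 1 ∂𝐏 := by
          refine lintegral_mono fun ω => E.val_le_one (fun h => hu' _ _ ?_) _ _ _
          rw [← hsum ω (E.expl h)]; exact le_add_self
      _ = 1 := by simp
  have t1 : (∫⁻ ω, E.val (fun h => u h * hitq E' ω (E.expl h)) ω E.T [] ∂𝐏) +
      ∫⁻ ω, E.val (fun h => u h * avq ω (E.expl h)) ω E.T [] ∂𝐏 = E.ann ν u := by
    rw [← lintegral_add_left (measurable_valU E
      (U := fun ω h => u h * hitq E' ω (E.expl h)) (fun h => (measurable_hitq E' _).const_mul _) _ _)]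
    unfold Expl.ann
    refine lintegral_congr fun ω => ?_
    rw [← E.val_add]
    congr 1
    funext h
    rw [← mul_add, hsum, mul_one]
  have t2 : E.ann ν (fun h => u h * E'.hit ν (E.expl h)) +
      ∫⁻ ω, E.val (fun h => u h * ∫⁻ ω', avq ω' (E.expl h) ∂𝐏) ω E.T [] ∂𝐏 = E.ann ν u := by
    unfold Expl.ann
    rw [← lintegral_add_left (E.measurable_val _ _ _)]
    refine lintegral_congr fun ω => ?_
    rw [← E.val_add]
    congr 1
    funext h
    rw [← mul_add, hAsum, mul_one]
  rw [← hA] at t2
  exact (ENNReal.add_left_inj hfin).1 (t2.trans t1.symm)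

end key

section tree

variable {S Rw A : Type*} [MeasurableSpace Rw] [Countable A]
  (ν : Measure Rw) [IsProbabilityMeasure ν] (E : Expl S Rw A)

local notation "𝐏" => (Measure.infinitePi fun _ : S => ν)

/-- quenched weight of a history -/
noncomputable def wt (ω : S → Rw) : List A → ℝ≥0∞
  | [] => 1
  | a :: h => wt ω h * E.step ω h a

omit [Countable A] in
lemma measurable_wt (h : List A) : Measurable fun ω => wt E ω h := by
  induction h with
  | nil => exact measurable_const
  | cons a h ih => exact ih.mul (E.measurable_step h a)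

omit [Countable A] in
lemma wt_le_one (ω : S → Rw) (h : List A) : wt E ω h ≤ 1 := by
  induction h with
  | nil => exact le_rfl
  | cons a h ih =>
    calc wt E ω (a :: h) = wt E ω h * E.step ω h a := rfl
      _ ≤ 1 * 1 := mul_le_mul' ih ((ENNReal.le_tsum a).trans (E.step_sum ω h).le)
      _ = 1 := one_mul 1

/-- annealed weight of a history -/
noncomputable def aw (h : List A) : ℝ≥0∞ := ∫⁻ η, wt E η h ∂𝐏

omit [Countable A] in
lemma aw_le_one (h : List A) : aw ν E h ≤ 1 := by
  calc aw ν E h ≤ ∫⁻ _, 1 ∂𝐏 := lintegral_mono fun η => wt_le_one E η h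
    _ = 1 := by simp

omit [Countable A] in
lemma aw_ne_top (h : List A) : aw ν E h ≠ ∞ := ne_top_of_le_ne_top ENNReal.one_ne_top (aw_le_one ν E h)

/-- annealed mass of the payoff `u` of the exploration `E₂` after the history `h` of `E` -/
noncomputable def PV (E₂ : Expl S Rw A) (u : List A → ℝ≥0∞) (n : ℕ) (h : List A) : ℝ≥0∞ :=
  ∫⁻ η, wt E η h * E₂.val u η n h ∂𝐏

lemma PV_succ {E₂ : Expl S Rw A} {u : List A → ℝ≥0∞} {n : ℕ} {h : List A}
    (hs : ∀ ω a, E₂.step ω h a = E.step ω h a) :
    PV ν E E₂ u (n + 1) h = ∑' a, PV ν E E₂ u n (a :: h) := by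
  unfold PV
  have hm : ∀ a, Measurable fun η : S → Rw => wt E η (a :: h) * E₂.val u η n (a :: h) :=
    fun a => (measurable_wt E (a :: h)).mul (E₂.measurable_val u n (a :: h))
  rw [← lintegral_tsum fun a => (hm a).aemeasurable]
  refine lintegral_congr fun η => ?_
  simp only [Expl.val, hs, ← ENNReal.tsum_mul_left]
  exact tsum_congr fun a => by simp only [wt]; ring

lemma PV_zero (E₂ : Expl S Rw A) (u : List A → ℝ≥0∞) (h : List A) :
    PV ν E E₂ u 0 h = aw ν E h * u h := by
  unfold PV aw
  simp only [Expl.val]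
  rw [lintegral_mul_const _ (measurable_wt E h)]

lemma PV_const {E₂ : Expl S Rw A} {u : List A → ℝ≥0∞} {n : ℕ} {h : List A} {c : ℝ≥0∞}
    (hu : ∀ l : List A, l.length = n → u (l ++ h) = c) :
    PV ν E E₂ u n h = aw ν E h * c := by
  unfold PV aw
  rw [← lintegral_mul_const _ (measurable_wt E h)]
  refine lintegral_congr fun η => ?_
  rw [val_congr_ext E₂ η n h (v := fun _ => c) hu, E₂.val_const]

lemma PV_mono_ext {E₂ : Expl S Rw A} {u v : List A → ℝ≥0∞} {n : ℕ} {h : List A}
    (hu : ∀ l : List A, l.length = n → u (l ++ h) ≤ v (l ++ h)) :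
    PV ν E E₂ u n h ≤ PV ν E E₂ v n h :=
  lintegral_mono fun η => by gcongr; exact val_mono_ext E₂ η n h hu

lemma PV_mul_right (E₂ : Expl S Rw A) (u : List A → ℝ≥0∞) (n : ℕ) (h : List A) (c : ℝ≥0∞) :
    PV ν E E₂ (fun h => u h * c) n h = PV ν E E₂ u n h * c := by
  unfold PV
  have hm : Measurable fun η : S → Rw => wt E η h * E₂.val u η n h :=
    (measurable_wt E h).mul (E₂.measurable_val u n h)
  rw [← lintegral_mul_const _ hm]
  refine lintegral_congr fun η => ?_
  rw [mul_assoc]
  congr 1
  have := E₂.val_mul_left c u η n h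
  simp only [mul_comm c] at this
  exact this

lemma aw_tsum (h : List A) : ∑' a, aw ν E (a :: h) = aw ν E h := by
  have h1 := PV_succ ν E (E₂ := E) (u := fun _ => 1) (n := 0) (h := h) (fun _ _ => rfl)
  simp only [PV_zero, mul_one] at h1
  rw [← h1, PV_const ν E (c := 1) (fun _ _ => rfl), mul_one]

/-- the history has never dipped: at every time the annealed conditional success probability
is at least `s` -/
def good (u : List A → ℝ≥0∞) (s : ℝ≥0∞) : List A → Prop
  | [] => s * aw ν E [] ≤ PV ν E E u E.T []
  | a :: h => good u s h ∧ s * aw ν E (a :: h) ≤ PV ν E E u (E.T - (a :: h).length) (a :: h)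

/-- all proper prefixes are good -/
def pgood (u : List A → ℝ≥0∞) (s : ℝ≥0∞) : List A → Prop
  | [] => True
  | _ :: h => good ν E u s h

variable {ν E}

omit [Countable A] in
lemma good.pgood {u : List A → ℝ≥0∞} {s : ℝ≥0∞} {h : List A} (hg : good ν E u s h) :
    pgood ν E u s h := by
  cases h with
  | nil => trivial
  | cons a h => exact hg.1

omit [Countable A] in
lemma good.le {u : List A → ℝ≥0∞} {s : ℝ≥0∞} {h : List A} (hg : good ν E u s h) :
    s * aw ν E h ≤ PV ν E E u (E.T - h.length) h := by
  cases h with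
  | nil => exact hg
  | cons a h => exact hg.2

omit [Countable A] in
lemma pgood.lt {u : List A → ℝ≥0∞} {s : ℝ≥0∞} {h : List A} (hg : CF923.pgood ν E u s h)
    (hn : ¬ good ν E u s h) : PV ν E E u (E.T - h.length) h < s * aw ν E h := by
  cases h with
  | nil => exact not_le.1 hn
  | cons a h => exact not_le.1 fun h' => hn ⟨hg, h'⟩

omit [Countable A] in
lemma good.mono {u : List A → ℝ≥0∞} {s s' : ℝ≥0∞} (hs : s' ≤ s) {h : List A}
    (hg : good ν E u s h) : good ν E u s' h := by
  induction h with
  | nil => exact (mul_le_mul' hs le_rfl).trans hg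
  | cons a h ih => exact ⟨ih hg.1, (mul_le_mul' hs le_rfl).trans hg.2⟩

omit [Countable A] in
lemma good.tail {u : List A → ℝ≥0∞} {s : ℝ≥0∞} (l h : List A)
    (hg : good ν E u s (l ++ h)) : good ν E u s h := by
  induction l with
  | nil => exact hg
  | cons a l ih => exact ih hg.1

variable (ν E)

open Classical in
/-- the exploration stopped at the first dip -/
noncomputable def stop (u : List A → ℝ≥0∞) (s : ℝ≥0∞) : Expl S Rw A where
  site := fun h => if good ν E u s h then E.site h else none
  ker := fun h r a => E.ker h r a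
  free := fun h a => E.free h a
  ker_sum := E.ker_sum
  free_sum := E.free_sum
  ker_meas := E.ker_meas
  T := E.T

open Classical in
/-- the payoff restricted to the histories which never dip -/
noncomputable def us (u : List A → ℝ≥0∞) (s : ℝ≥0∞) (h : List A) : ℝ≥0∞ :=
  if good ν E u s h then u h else 0

variable {ν E}

omit [Countable A] in
lemma us_le (u : List A → ℝ≥0∞) (s : ℝ≥0∞) (h : List A) : us ν E u s h ≤ u h := by
  unfold us; split_ifs <;> simp

omit [Countable A] in
lemma stop_step {u : List A → ℝ≥0∞} {s : ℝ≥0∞} {h : List A} (hg : good ν E u s h)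
    (ω : S → Rw) (a : A) : (stop ν E u s).step ω h a = E.step ω h a := by
  have : (stop ν E u s).site h = E.site h := by simp [stop, hg]
  rcases hh : E.site h with _ | z
  · rw [E.step_none hh, (stop ν E u s).step_none (this.trans hh)]; rfl
  · rw [E.step_some hh, (stop ν E u s).step_some (this.trans hh)]; rfl

omit [Countable A] in
lemma stop_expl_cons {u : List A → ℝ≥0∞} {s : ℝ≥0∞} {h : List A} (hg : good ν E u s h) (a : A) :
    (stop ν E u s).expl (a :: h) = E.expl (a :: h) := by
  classical
  induction h generalizing a with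
  | nil =>
    have : (stop ν E u s).site [] = E.site [] := by simp [stop, hg]
    rcases hh : E.site [] with _ | z
    · rw [E.expl_cons_none hh, (stop ν E u s).expl_cons_none (this.trans hh)]; rfl
    · rw [E.expl_cons_some hh, (stop ν E u s).expl_cons_some (this.trans hh)]; rfl
  | cons b h ih =>
    have : (stop ν E u s).site (b :: h) = E.site (b :: h) := by simp [stop, hg]
    have ih' := ih hg.1 b
    rcases hh : E.site (b :: h) with _ | z
    · rw [E.expl_cons_none hh, (stop ν E u s).expl_cons_none (this.trans hh), ih']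
    · rw [E.expl_cons_some hh, (stop ν E u s).expl_cons_some (this.trans hh), ih']

omit [Countable A] in
lemma stop_expl_of_pgood {u : List A → ℝ≥0∞} {s : ℝ≥0∞} {h : List A} (hg : pgood ν E u s h) :
    (stop ν E u s).expl h = E.expl h := by
  cases h with
  | nil => rfl
  | cons a h => exact stop_expl_cons hg a

omit [Countable A] in
lemma stop_expl_append {u : List A → ℝ≥0∞} {s : ℝ≥0∞} {h : List A} (hn : ¬ good ν E u s h)
    (l : List A) : (stop ν E u s).expl (l ++ h) = (stop ν E u s).expl h := by
  induction l with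
  | nil => rfl
  | cons a l ih =>
    have : (stop ν E u s).site (l ++ h) = none := by
      have : ¬ good ν E u s (l ++ h) := fun h' => hn (good.tail l h h')
      simp [stop, this]
    rw [List.cons_append, (stop ν E u s).expl_cons_none this, ih]

/-- mass lost by forbidding dips: at most `s`. -/
lemma PV_le_us {u : List A → ℝ≥0∞} {s : ℝ≥0∞} (n : ℕ) {h : List A} (hn : h.length + n = E.T)
    (hg : pgood ν E u s h) :
    PV ν E E u n h ≤ PV ν E E (us ν E u s) n h + s * aw ν E h := by
  induction n generalizing h with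
  | zero =>
    by_cases hg' : good ν E u s h
    · rw [PV_zero, PV_zero, us, if_pos hg']; exact le_self_add
    · have := pgood.lt hg hg'
      rw [show E.T - h.length = 0 by omega] at this
      exact this.le.trans le_add_self
  | succ n ih =>
    by_cases hg' : good ν E u s h
    · rw [PV_succ ν E (fun _ _ => rfl), PV_succ ν E (fun _ _ => rfl), ← aw_tsum ν E h,
        ← ENNReal.tsum_mul_left, ← ENNReal.tsum_add]
      exact ENNReal.tsum_le_tsum fun a => ih (by simp only [List.length_cons]; omega) hg'
    · have := pgood.lt hg hg'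
      rw [show E.T - h.length = n + 1 by omega] at this
      exact this.le.trans le_add_self

/-- **(2)** the load of the exploration stopped at level `2s` is paid by the successes without
a dip below `s`. -/
lemma stopped_load_le {u : List A → ℝ≥0∞} {s : ℝ≥0∞} (hs : s ≠ ∞) {c : Finset S → ℝ≥0∞}
    (hc : ∀ V, c V ≠ ∞) (hcm : ∀ V V' : Finset S, V ⊆ V' → c V ≤ c V')
    (n : ℕ) {h : List A} (hn : h.length + n = E.T) (hg : pgood ν E u (2 * s) h) :
    s * PV ν E (stop ν E u (2 * s)) (fun h => c ((stop ν E u (2 * s)).expl h)) n h +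
        PV ν E E (us ν E u s) n h * c (E.expl h) ≤
      s * (aw ν E h * c (E.expl h)) +
        PV ν E E (fun h => us ν E u s h * c (E.expl h)) n h := by
  induction n generalizing h with
  | zero =>
    rw [PV_zero, PV_zero, PV_zero, stop_expl_of_pgood hg]
    rw [mul_assoc (aw ν E h) (us ν E u s h)]
  | succ n ih =>
    by_cases hg' : good ν E u (2 * s) h
    · have hgs : good ν E u s h := hg'.mono (by rw [two_mul]; exact le_self_add)
      set V' : A → Finset S := fun a => E.expl (a :: h)
      -- common value of the explored set after the next step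
      obtain ⟨V1, hV1, hVV⟩ : ∃ V1, (∀ a, E.expl (a :: h) = V1) ∧ E.expl h ⊆ V1 := by
        classical
        rcases hh : E.site h with _ | z
        · exact ⟨E.expl h, fun a => E.expl_cons_none hh a, Finset.Subset.refl _⟩
        · exact ⟨insert z (E.expl h), fun a => E.expl_cons_some hh a, Finset.subset_insert _ _⟩
      have key : s * PV ν E (stop ν E u (2 * s)) (fun h => c ((stop ν E u (2 * s)).expl h)) (n + 1) h +
          PV ν E E (us ν E u s) (n + 1) h * c V1 ≤ s * (aw ν E h * c V1) +
          PV ν E E (fun h => us ν E u s h * c (E.expl h)) (n + 1) h := by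
        rw [PV_succ ν E (fun ω a => stop_step hg' ω a), PV_succ ν E (fun _ _ => rfl),
          PV_succ ν E (fun _ _ => rfl), ← aw_tsum ν E h, ← ENNReal.tsum_mul_right,
          ← ENNReal.tsum_mul_right, ← ENNReal.tsum_mul_left, ← ENNReal.tsum_mul_left,
          ← ENNReal.tsum_add, ← ENNReal.tsum_add]
        refine ENNReal.tsum_le_tsum fun a => ?_
        have := ih (h := a :: h) (by simp only [List.length_cons]; omega) hg'
        rwa [hV1 a] at this
      have hB : s * aw ν E h ≤ PV ν E E (us ν E u s) (n + 1) h := by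
        have h1 := PV_le_us (n + 1) hn hgs.pgood
        have h2 := hg'.le
        rw [show E.T - h.length = n + 1 by omega] at h2
        have h3 : s * aw ν E h + s * aw ν E h ≤ PV ν E E (us ν E u s) (n + 1) h + s * aw ν E h := by
          rw [← two_mul, ← mul_assoc]
          exact h2.trans h1
        exact (ENNReal.add_le_add_iff_right (ENNReal.mul_ne_top hs (aw_ne_top ν E h))).1 h3
      -- write `c V1 = c V + d`
      obtain ⟨d, hd⟩ : ∃ d, c V1 = c (E.expl h) + d := ⟨c V1 - c (E.expl h),
        (add_tsub_cancel_of_le (hcm _ _ hVV)).symm⟩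
      have hdt : d ≠ ∞ := ne_top_of_le_ne_top (hc V1) (by rw [hd]; exact le_add_self)
      rw [hd, mul_add, mul_add, mul_add] at key
      set x := s * PV ν E (stop ν E u (2 * s)) (fun h => c ((stop ν E u (2 * s)).expl h)) (n + 1) h
      set P1 := PV ν E E (us ν E u s) (n + 1) h
      set R := PV ν E E (fun h => us ν E u s h * c (E.expl h)) (n + 1) h
      have h4 : (x + P1 * c (E.expl h)) + s * (aw ν E h * d) ≤
          (s * (aw ν E h * c (E.expl h)) + R) + s * (aw ν E h * d) := by
        calc (x + P1 * c (E.expl h)) + s * (aw ν E h * d)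
            ≤ (x + P1 * c (E.expl h)) + P1 * d := by
              have h5 : s * (aw ν E h * d) ≤ P1 * d := by
                rw [← mul_assoc]; exact mul_le_mul' hB le_rfl
              exact add_le_add le_rfl h5
          _ = x + (P1 * c (E.expl h) + P1 * d) := by ring
          _ ≤ s * (aw ν E h * c (E.expl h)) + s * (aw ν E h * d) + R := key
          _ = _ := by ring
      exact (ENNReal.add_le_add_iff_right
        (ENNReal.mul_ne_top hs (ENNReal.mul_ne_top (aw_ne_top ν E h) hdt))).1 h4
    · -- stopped
      have h1 : PV ν E (stop ν E u (2 * s)) (fun h => c ((stop ν E u (2 * s)).expl h)) (n + 1) h =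
          aw ν E h * c (E.expl h) := by
        refine PV_const ν E fun l _ => ?_
        rw [stop_expl_append hg' l, stop_expl_of_pgood hg]
      rw [h1]
      gcongr
      rw [← PV_mul_right]
      refine PV_mono_ext ν E fun l _ => ?_
      gcongr
      exact hcm _ _ (E.expl_subset_append l h)

end tree

section first

variable {S Rw A : Type*} [MeasurableSpace Rw] (E : Expl S Rw A)

open Classical in
/-- the first asked site which lies in `W` -/
noncomputable def fst (W : Finset S) : List A → Option S
  | [] => none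
  | _ :: h => match fst W h with
    | some z => some z
    | none => match E.site h with
      | some z => if z ∈ W then some z else none
      | none => none

lemma fst_mem {W : Finset S} {h : List A} {z : S} (hz : fst E W h = some z) :
    z ∈ W ∧ z ∈ E.expl h := by
  classical
  induction h with
  | nil => simp [fst] at hz
  | cons a h ih =>
    rcases h1 : fst E W h with _ | z'
    · rcases h2 : E.site h with _ | z'
      · simp [fst, h1, h2] at hz
      · by_cases h3 : z' ∈ W
        · have : z' = z := by simpa [fst, h1, h2, h3] using hz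
          subst this
          exact ⟨h3, by rw [E.expl_cons_some h2]; exact Finset.mem_insert_self _ _⟩
        · simp [fst, h1, h2, h3] at hz
    · have : z' = z := by simpa [fst, h1] using hz
      subst this
      exact ⟨(ih h1).1, E.expl_subset_cons a h (ih h1).2⟩

lemma exists_fst {W : Finset S} {h : List A} (hd : ¬ Disjoint (E.expl h) W) :
    ∃ z, fst E W h = some z := by
  classical
  induction h with
  | nil => exact absurd (Finset.disjoint_empty_left W) hd
  | cons a h ih =>
    by_cases h0 : Disjoint (E.expl h) W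
    · rcases h1 : fst E W h with _ | z'
      · rcases h2 : E.site h with _ | z'
        · rw [E.expl_cons_none h2] at hd; exact absurd h0 hd
        · have h3 : z' ∈ W := by
            by_contra h3
            apply hd
            rw [E.expl_cons_some h2, Finset.disjoint_insert_left]
            exact ⟨h3, h0⟩
          exact ⟨z', by simp [fst, h1, h2, h3]⟩
      · exact ⟨z', by simp [fst, h1]⟩
    · obtain ⟨z, hz⟩ := ih h0
      exact ⟨z, by simp [fst, hz]⟩

open Classical in
/-- splitting of the hitting probability according to the quenched value of the first contact -/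
lemma hitq_split {e : S → ℝ≥0∞} {ω : S → Rw} {M b : ℝ≥0∞} (hb : b ≠ 0) (hbt : b ≠ ∞)
    (V : Finset S) (hM : E.val (fun k => (fst E V k).elim 0 e) ω E.T [] ≤ M) :
    hitq E ω V ≤ b⁻¹ * M + E.val (fun k => mt (E.expl k) (V.filter fun z => e z < b)) ω E.T [] := by
  calc hitq E ω V
      ≤ E.val (fun k => b⁻¹ * (fst E V k).elim 0 e +
          mt (E.expl k) (V.filter fun z => e z < b)) ω E.T [] := by
        refine E.val_mono (fun k => ?_) _ _ _
        by_cases hd : Disjoint (E.expl k) V
        · rw [mt_of_disjoint hd]; exact zero_le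
        · obtain ⟨z, hz⟩ := exists_fst E hd
          have hm := fst_mem E hz
          rw [mt_of_not_disjoint hd, hz]
          by_cases hzb : e z < b
          · refine le_trans ?_ le_add_self
            rw [mt_of_mem hm.2 (Finset.mem_filter.2 ⟨hm.1, hzb⟩)]
          · refine le_trans ?_ le_self_add
            simp only [Option.elim]
            rw [← ENNReal.inv_mul_cancel hb hbt]
            gcongr
            exact not_lt.1 hzb
    _ = b⁻¹ * E.val (fun k => (fst E V k).elim 0 e) ω E.T [] +
          E.val (fun k => mt (E.expl k) (V.filter fun z => e z < b)) ω E.T [] := by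
        rw [E.val_add, E.val_mul_left]
    _ ≤ _ := by gcongr

end first

section main

variable {S Rw A : Type*} [MeasurableSpace Rw] [Countable A]
  (ν : Measure Rw) [IsProbabilityMeasure ν] (X : Expl S Rw A) {ι : Type*} (E : ι → Expl S Rw A)

local notation "𝐏" => (Measure.infinitePi fun _ : S => ν)

omit [Countable A] in
/-- strong Markov property of `X` at its first visit of `W` before the dip -/
lemma strongX {u : List A → ℝ≥0∞} {s : ℝ≥0∞} {e : S → ℝ≥0∞} {ω : S → Rw}
    (hX : ∀ h z, X.site h = some z → h.length < X.T → X.val u ω (X.T - h.length) h ≤ e z)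
    {W : Finset S} {b : ℝ≥0∞} (hW : ∀ z ∈ W, e z ≤ b) (n : ℕ) {h : List A}
    (hn : h.length + n = X.T) (hg : pgood ν X u s h) (hd : Disjoint (X.expl h) W) :
    X.val (fun h => us ν X u s h * mt (X.expl h) W) ω n h ≤
      b * (stop ν X u s).val (fun h => mt ((stop ν X u s).expl h) W) ω n h := by
  classical
  induction n generalizing h with
  | zero =>
    simp only [Expl.val]
    rw [mt_of_disjoint hd, mul_zero]; exact zero_le
  | succ n ih =>
    by_cases hg' : good ν X u s h
    · have hsite : (stop ν X u s).site h = X.site h := by simp [stop, hg']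
      by_cases hzW : ∃ z ∈ W, X.site h = some z
      · obtain ⟨z, hz, hh⟩ := hzW
        have h1 : 1 ≤ (stop ν X u s).val (fun h => mt ((stop ν X u s).expl h) W) ω (n + 1) h := by
          refine (stop ν X u s).le_val_of_ext ω (n + 1) h fun l hl => ?_
          have hl' : l ≠ [] := by rintro rfl; simp at hl
          have hsub := (stop ν X u s).insert_subset_append (hsite.trans hh) hl'
          rw [mt_of_mem (hsub (Finset.mem_insert_self _ _)) hz]
        calc X.val (fun h => us ν X u s h * mt (X.expl h) W) ω (n + 1) h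
            ≤ X.val u ω (n + 1) h := X.val_mono (fun h => by
                calc us ν X u s h * mt (X.expl h) W ≤ u h * 1 := mul_le_mul' (us_le u s h) (mt_le_one _ _)
                  _ = u h := mul_one _) _ _ _
          _ ≤ e z := by
                have := hX h z hh (by omega)
                rwa [show X.T - h.length = n + 1 by omega] at this
          _ ≤ b * 1 := by rw [mul_one]; exact hW z hz
          _ ≤ _ := by gcongr
      · simp only [Expl.val, stop_step hg']
        rw [← ENNReal.tsum_mul_left]
        refine ENNReal.tsum_le_tsum fun a => ?_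
        rw [mul_left_comm]
        gcongr
        refine ih (h := a :: h) (by simp only [List.length_cons]; omega) hg' ?_
        rcases hh : X.site h with _ | z
        · rw [X.expl_cons_none hh]; exact hd
        · rw [X.expl_cons_some hh, Finset.disjoint_insert_left]
          exact ⟨fun hz => hzW ⟨z, hz, hh⟩, hd⟩
    · have h0 : X.val (fun h => us ν X u s h * mt (X.expl h) W) ω (n + 1) h =
          X.val (fun _ => 0) ω (n + 1) h := by
        refine val_congr_ext X ω (n + 1) h fun l _ => ?_
        have : ¬ good ν X u s (l ++ h) := fun h' => hg' (good.tail l h h')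
        simp [us, this]
      rw [h0, X.val_const]; exact zero_le

omit [Countable A] in
/-- quenched form of **(1)** -/
lemma quenched_one (E' : Expl S Rw A) {u : List A → ℝ≥0∞} (hu : ∀ h, u h ≤ 1) {s : ℝ≥0∞}
    {e : S → ℝ≥0∞} {ω : S → Rw}
    (hX : ∀ h z, X.site h = some z → h.length < X.T → X.val u ω (X.T - h.length) h ≤ e z)
    {M : ℝ≥0∞} (hM : ∀ W : Finset S, E'.val (fun k => (fst E' W k).elim 0 e) ω E'.T [] ≤ M)
    {b : ℝ≥0∞} (hb : b ≠ 0) (hbt : b ≠ ∞) :
    X.val (fun h => us ν X u s h * hitq E' ω (X.expl h)) ω X.T [] ≤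
      b⁻¹ * M + b * (stop ν X u s).val (fun h => hitq E' ω ((stop ν X u s).expl h)) ω X.T [] := by
  classical
  calc X.val (fun h => us ν X u s h * hitq E' ω (X.expl h)) ω X.T []
      ≤ X.val (fun h => b⁻¹ * M + us ν X u s h *
          E'.val (fun k => mt (E'.expl k) ((X.expl h).filter fun z => e z < b)) ω E'.T []) ω X.T [] := by
        refine X.val_mono (fun h => ?_) _ _ _
        calc us ν X u s h * hitq E' ω (X.expl h)
            ≤ us ν X u s h * (b⁻¹ * M + E'.val (fun k => mt (E'.expl k)
                ((X.expl h).filter fun z => e z < b)) ω E'.T []) := by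
              gcongr; exact hitq_split E' hb hbt _ (hM _)
          _ = us ν X u s h * (b⁻¹ * M) + us ν X u s h * E'.val (fun k => mt (E'.expl k)
                ((X.expl h).filter fun z => e z < b)) ω E'.T [] := mul_add _ _ _
          _ ≤ _ := by
              refine add_le_add ?_ le_rfl
              calc us ν X u s h * (b⁻¹ * M) ≤ 1 * (b⁻¹ * M) :=
                    mul_le_mul' ((us_le u s h).trans (hu h)) le_rfl
                _ = _ := one_mul _
    _ = b⁻¹ * M + X.val (fun h => E'.val (fun k => us ν X u s h *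
          mt (X.expl h) ((E'.expl k).filter fun z => e z < b)) ω E'.T []) ω X.T [] := by
        rw [X.val_add, X.val_const]
        congr 1
        congr 1
        funext h
        rw [← E'.val_mul_left]
        congr 1
        funext k
        congr 1
        by_cases hd : Disjoint (X.expl h) ((E'.expl k).filter fun z => e z < b)
        · rw [mt_of_disjoint hd, mt_of_disjoint]
          rw [Finset.disjoint_left] at hd ⊢
          intro z hz hz'
          rw [Finset.mem_filter] at hz'
          exact hd hz'.1 (Finset.mem_filter.2 ⟨hz, hz'.2⟩)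
        · rw [mt_of_not_disjoint hd, mt_of_not_disjoint]
          intro hd'
          apply hd
          rw [Finset.disjoint_left] at hd' ⊢
          intro z hz hz'
          rw [Finset.mem_filter] at hz'
          exact hd' hz'.1 (Finset.mem_filter.2 ⟨hz, hz'.2⟩)
    _ = b⁻¹ * M + E'.val (fun k => X.val (fun h => us ν X u s h *
          mt (X.expl h) ((E'.expl k).filter fun z => e z < b)) ω X.T []) ω E'.T [] := by
        rw [val_comm X E']
    _ ≤ b⁻¹ * M + E'.val (fun k => b * (stop ν X u s).val (fun h =>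
          mt ((stop ν X u s).expl h) (E'.expl k)) ω X.T []) ω E'.T [] := by
        gcongr
        refine E'.val_mono (fun k => ?_) _ _ _
        refine (strongX ν X (u := u) (s := s) (h := []) hX
          (fun z hz => (Finset.mem_filter.1 hz).2.le) X.T
          (by simp) (by exact trivial) (by simp [Expl.expl])).trans ?_
        gcongr
        exact (stop ν X u s).val_mono (fun h => mt_mono (Finset.Subset.refl _)
          (Finset.filter_subset _ _)) _ _ _
    _ = b⁻¹ * M + b * (stop ν X u s).val (fun h => hitq E' ω ((stop ν X u s).expl h)) ω X.T [] := by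
        rw [E'.val_mul_left]
        congr 2
        rw [val_comm E' (stop ν X u s)]
        congr 1
        funext h
        unfold hitq
        congr 1
        funext k
        exact mt_comm _ _

lemma stop_T (u : List A → ℝ≥0∞) (s : ℝ≥0∞) : (stop ν X u s).T = X.T := rfl

lemma ann_finset_sum {κ : Type*} (K : Finset κ) (v : κ → List A → ℝ≥0∞) :
    X.ann ν (fun h => ∑ i ∈ K, v i h) = ∑ i ∈ K, X.ann ν (v i) := by
  unfold Expl.ann
  rw [← lintegral_finsetSum _ fun j _ => X.measurable_val _ _ _]
  exact lintegral_congr fun η => X.val_finset_sum _ _ _ _ _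

/-- **(1)** -/
lemma one {K : Finset ι} {u : List A → ℝ≥0∞} (hu : ∀ h, u h ≤ 1) {s : ℝ≥0∞}
    {e : (S → Rw) → S → ℝ≥0∞}
    (hX : ∀ ω h z, X.site h = some z → h.length < X.T → X.val u ω (X.T - h.length) h ≤ e ω z)
    {M : ι → (S → Rw) → ℝ≥0∞} (hM : ∀ i ∈ K, ∀ ω, ∀ W : Finset S,
      (E i).val (fun k => (fst (E i) W k).elim 0 (e ω)) ω (E i).T [] ≤ M i ω)
    {b : ℝ≥0∞} (hb : b ≠ 0) (hbt : b ≠ ∞) :
    X.ann ν (fun h => us ν X u s h * load ν E K (X.expl h)) ≤
      b⁻¹ * (∑ i ∈ K, ∫⁻ ω, M i ω ∂𝐏) +
        b * (stop ν X u s).ann ν (fun h => load ν E K ((stop ν X u s).expl h)) := by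
  have hu' : ∀ h, us ν X u s h ≤ 1 := fun h => (us_le u s h).trans (hu h)
  have e1 : (fun h => us ν X u s h * load ν E K (X.expl h)) =
      fun h => ∑ i ∈ K, us ν X u s h * (E i).hit ν (X.expl h) := by
    funext h; unfold load; rw [Finset.mul_sum]
  rw [e1, ann_finset_sum]
  have e2 : (stop ν X u s).ann ν (fun h => load ν E K ((stop ν X u s).expl h)) =
      ∑ i ∈ K, (stop ν X u s).ann ν (fun h => (E i).hit ν ((stop ν X u s).expl h)) := by
    rw [← ann_finset_sum]; rfl
  rw [e2, Finset.mul_sum, Finset.mul_sum, ← Finset.sum_add_distrib]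
  refine Finset.sum_le_sum fun i hi => ?_
  rw [key ν X (E i) hu']
  have e3 : (stop ν X u s).ann ν (fun h => (E i).hit ν ((stop ν X u s).expl h)) =
      ∫⁻ ω, (stop ν X u s).val (fun h => hitq (E i) ω ((stop ν X u s).expl h)) ω X.T [] ∂𝐏 := by
    have := key ν (stop ν X u s) (E i) (u := fun _ => 1) (fun _ => le_rfl)
    simpa [stop_T] using this
  have hmeas : Measurable fun ω : S → Rw =>
      (stop ν X u s).val (fun h => hitq (E i) ω ((stop ν X u s).expl h)) ω X.T [] :=
    measurable_valU (stop ν X u s) (U := fun ω h => hitq (E i) ω ((stop ν X u s).expl h))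
      (fun h => measurable_hitq (E i) _) _ _
  rw [e3, ← lintegral_const_mul' _ _ (ENNReal.inv_ne_top.2 hb), ← lintegral_const_mul' _ _ hbt,
    ← lintegral_add_right _ (hmeas.const_mul _)]
  exact lintegral_mono fun ω => quenched_one ν X (E i) hu (hX ω) (hM i hi ω) hb hbt

lemma load_ne_top (K : Finset ι) (V : Finset S) : load ν E K V ≠ ∞ := by
  unfold load
  refine ENNReal.sum_ne_top.2 fun i _ => ?_
  refine ne_top_of_le_ne_top ENNReal.one_ne_top ?_
  rw [hit_eq]
  calc _ ≤ ∫⁻ _, 1 ∂𝐏 := lintegral_mono fun η => hitq_le_one (E i) η V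
    _ = 1 := by simp

lemma load_le_card (K : Finset ι) (V : Finset S) : load ν E K V ≤ K.card := by
  unfold load
  calc ∑ i ∈ K, (E i).hit ν V ≤ ∑ i ∈ K, 1 := by
        refine Finset.sum_le_sum fun i _ => ?_
        rw [hit_eq]
        calc _ ≤ ∫⁻ _, 1 ∂𝐏 := lintegral_mono fun η => hitq_le_one (E i) η V
          _ = 1 := by simp
    _ = K.card := by simp

/-- **(2)** at the root -/
lemma two {K : Finset ι} (u : List A → ℝ≥0∞) {s : ℝ≥0∞} (hs : s ≠ ∞) :
    s * (stop ν X u (2 * s)).ann ν (fun h => load ν E K ((stop ν X u (2 * s)).expl h)) ≤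
      X.ann ν (fun h => us ν X u s h * load ν E K (X.expl h)) := by
  have h1 := stopped_load_le (ν := ν) (E := X) (u := u) (s := s) hs (c := load ν E K)
    (load_ne_top ν E K) (fun V V' h => load_mono ν E h) X.T (h := []) (by simp) trivial
  have h2 : load ν E K (X.expl []) = 0 := load_empty ν E K
  rw [h2, mul_zero, mul_zero, mul_zero, add_zero, zero_add] at h1
  unfold PV at h1
  simp only [wt, one_mul] at h1
  exact h1

/-- **Log-free capacity.** -/
theorem capacity_le {K : Finset ι} {u : List A → ℝ≥0∞} (hu : ∀ h, u h ≤ 1)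
    {e : (S → Rw) → S → ℝ≥0∞}
    (hX : ∀ ω h z, X.site h = some z → h.length < X.T → X.val u ω (X.T - h.length) h ≤ e ω z)
    {M : ι → (S → Rw) → ℝ≥0∞} (hM : ∀ i ∈ K, ∀ ω, ∀ W : Finset S,
      (E i).val (fun k => (fst (E i) W k).elim 0 (e ω)) ω (E i).T [] ≤ M i ω)
    {s : ℝ≥0∞} (hs : s ≠ 0) (hst : s ≠ ∞) :
    (stop ν X u s).ann ν (fun h => load ν E K ((stop ν X u s).expl h)) ≤
      64 * (∑ i ∈ K, ∫⁻ ω, M i ω ∂𝐏) / s ^ 2 := by
  set Φ : ℝ≥0∞ → ℝ≥0∞ := fun s =>
    (stop ν X u s).ann ν (fun h => load ν E K ((stop ν X u s).expl h)) with hΦ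
  set Mt := ∑ i ∈ K, ∫⁻ ω, M i ω ∂𝐏 with hMt
  -- one step
  have step : ∀ s : ℝ≥0∞, s ≠ 0 → s ≠ ∞ → Φ (2 * s) ≤ 8 * Mt / s ^ 2 + Φ s / 8 := by
    intro s hs hst
    have hb : s / 8 ≠ 0 := (ENNReal.div_pos hs (by norm_num)).ne'
    have hbt : s / 8 ≠ ∞ := ENNReal.div_ne_top hst (by norm_num)
    have h1 := two ν X E (K := K) u hst
    have h2 := one ν X E (K := K) hu (s := s) hX hM hb hbt
    have h3 : s * Φ (2 * s) ≤ (s / 8)⁻¹ * Mt + s / 8 * Φ s := h1.trans h2
    have h4 : Φ (2 * s) ≤ ((s / 8)⁻¹ * Mt + s / 8 * Φ s) / s := by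
      rw [ENNReal.le_div_iff_mul_le (Or.inl hs) (Or.inl hst), mul_comm]
      exact h3
    refine h4.trans (le_of_eq ?_)
    rw [ENNReal.add_div]
    congr 1
    · rw [ENNReal.inv_div (Or.inl (by norm_num)) (Or.inl (by norm_num)), ENNReal.div_eq_inv_mul,
        ENNReal.div_eq_inv_mul, ENNReal.div_eq_inv_mul, pow_two, ENNReal.mul_inv (Or.inl hs) (Or.inl hst)]
      ring
    · rw [ENNReal.div_eq_inv_mul, ENNReal.div_eq_inv_mul, ENNReal.div_eq_inv_mul]
      calc s⁻¹ * (8⁻¹ * s * Φ s) = (s⁻¹ * s) * (8⁻¹ * Φ s) := by ring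
        _ = 8⁻¹ * Φ s := by rw [ENNReal.inv_mul_cancel hs hst, one_mul]
  have iter : ∀ j : ℕ, ∀ s : ℝ≥0∞, s ≠ 0 → s ≠ ∞ →
      Φ s ≤ 64 * Mt / s ^ 2 + (8⁻¹) ^ j * K.card := by
    intro j
    induction j with
    | zero =>
      intro s _ _
      refine le_add_left ?_
      rw [pow_zero, one_mul, hΦ]
      unfold Expl.ann
      calc _ ≤ ∫⁻ η, (stop ν X u s).val (fun _ => (K.card : ℝ≥0∞)) η (stop ν X u s).T [] ∂𝐏 :=
            lintegral_mono fun η => (stop ν X u s).val_mono (fun h => load_le_card ν E K _) _ _ _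
        _ = K.card := by simp [Expl.val_const]
    | succ j ih =>
      intro s hs hst
      have hs2 : s / 2 ≠ 0 := (ENNReal.div_pos hs (by norm_num)).ne'
      have hst2 : s / 2 ≠ ∞ := ENNReal.div_ne_top hst (by norm_num)
      have h1 := step (s / 2) hs2 hst2
      rw [ENNReal.mul_div_cancel (by norm_num) (by norm_num)] at h1
      have h2 := ih (s / 2) hs2 hst2
      have hsq : (s / 2) ^ 2 = s ^ 2 / 4 := by
        rw [ENNReal.div_eq_inv_mul, ENNReal.div_eq_inv_mul, mul_pow, ← ENNReal.inv_pow]
        norm_num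
      have hs4 : ∀ c : ℝ≥0∞, c * Mt / (s / 2) ^ 2 = 4 * c * Mt / s ^ 2 := by
        intro c
        rw [hsq, ENNReal.div_eq_inv_mul, ENNReal.inv_div (Or.inl (by norm_num)) (Or.inl (by norm_num)),
          ENNReal.div_eq_inv_mul, ENNReal.div_eq_inv_mul]
        ring
      rw [hs4] at h1 h2
      calc Φ s ≤ 4 * 8 * Mt / s ^ 2 + Φ (s / 2) / 8 := h1
        _ ≤ 4 * 8 * Mt / s ^ 2 + (4 * 64 * Mt / s ^ 2 + (8⁻¹) ^ j * K.card) / 8 := by gcongr
        _ = 64 * Mt / s ^ 2 + (8⁻¹) ^ (j + 1) * K.card := by
          rw [ENNReal.add_div, ← add_assoc]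
          congr 1
          · rw [ENNReal.div_eq_inv_mul, ENNReal.div_eq_inv_mul, ENNReal.div_eq_inv_mul,
              ENNReal.div_eq_inv_mul]
            have h8 : (8 : ℝ≥0∞)⁻¹ * ((s ^ 2)⁻¹ * (4 * 64 * Mt)) =
                ((8 : ℝ≥0∞)⁻¹ * 8) * ((s ^ 2)⁻¹ * (32 * Mt)) := by ring
            rw [h8, ENNReal.inv_mul_cancel (by norm_num) (by norm_num)]
            ring
          · rw [ENNReal.div_eq_inv_mul, pow_succ]; ring
  refine ENNReal.le_of_forall_pos_le_add fun ε hε _ => ?_
  obtain ⟨j, hj⟩ : ∃ j : ℕ, (8⁻¹ : ℝ≥0∞) ^ j * K.card ≤ ε := by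
    have ht : Filter.Tendsto (fun j : ℕ => (8⁻¹ : ℝ≥0∞) ^ j * K.card) Filter.atTop (nhds 0) := by
      have h1 : Filter.Tendsto (fun j : ℕ => (8⁻¹ : ℝ≥0∞) ^ j) Filter.atTop (nhds 0) :=
        ENNReal.tendsto_pow_atTop_nhds_zero_of_lt_one (by
          rw [ENNReal.inv_lt_one]; norm_num)
      have h2 := ENNReal.Tendsto.mul_const h1 (b := (K.card : ℝ≥0∞)) (Or.inr (by simp))
      simpa using h2
    exact (ht.eventually (ge_mem_nhds (by exact_mod_cast hε))).exists
  exact (iter j s hs hst).trans (by gcongr)

end main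

section kset

variable {S Rw A : Type*} [MeasurableSpace Rw] [Countable A]
  (ν : Measure Rw) [IsProbabilityMeasure ν]

local notation "𝐏" => (Measure.infinitePi fun _ : S => ν)

omit [Countable A] in
/-- stopping does not change the law of the undipped histories -/
lemma val_stop_us (X : Expl S Rw A) (u v : List A → ℝ≥0∞) (s : ℝ≥0∞)
    (hv : ∀ h, ¬ good ν X u s h → v h = 0) (ω : S → Rw) (n : ℕ) (h : List A) :
    (stop ν X u s).val v ω n h = X.val v ω n h := by
  induction n generalizing h with
  | zero => rfl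
  | succ n ih =>
    by_cases hg : good ν X u s h
    · simp only [Expl.val, stop_step hg, ih]
    · have h1 : ∀ l : List A, l.length = n + 1 → v (l ++ h) = 0 := fun l _ =>
        hv _ fun h' => hg (good.tail l h h')
      rw [val_congr_ext _ ω (n + 1) h (v := fun _ => 0) h1,
        val_congr_ext X ω (n + 1) h (v := fun _ => 0) h1, Expl.val_const, Expl.val_const]

omit [Countable A] in
lemma hitq_stop_le (X : Expl S Rw A) (u : List A → ℝ≥0∞) (s : ℝ≥0∞) (ω : S → Rw) (V : Finset S) :
    hitq (stop ν X u s) ω V ≤ hitq X ω V := by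
  have main : ∀ (n : ℕ) (h : List A), pgood ν X u s h →
      (stop ν X u s).val (fun h => mt ((stop ν X u s).expl h) V) ω n h ≤
        X.val (fun h => mt (X.expl h) V) ω n h := by
    intro n
    induction n with
    | zero =>
      intro h hg
      simp only [Expl.val]
      rw [stop_expl_of_pgood hg]
    | succ n ih =>
      intro h hg
      by_cases hg' : good ν X u s h
      · simp only [Expl.val, stop_step hg']
        exact ENNReal.tsum_le_tsum fun a => by gcongr; exact ih (a :: h) hg'
      · have h1 : (stop ν X u s).val (fun h => mt ((stop ν X u s).expl h) V) ω (n + 1) h =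
            mt (X.expl h) V := by
          rw [val_congr_ext _ ω (n + 1) h (v := fun _ => mt (X.expl h) V) (fun l _ => by
            rw [stop_expl_append hg' l, stop_expl_of_pgood hg]), Expl.val_const]
        rw [h1]
        exact X.le_val_of_ext ω (n + 1) h fun l _ =>
          mt_mono (X.expl_subset_append l h) (Finset.Subset.refl _)
  exact main X.T [] (by exact trivial)

variable {ι : Type*} (X : ι → Expl S Rw A) (u : ι → List A → ℝ≥0∞)

lemma load_stop_le (K : Finset ι) (s : ℝ≥0∞) (V : Finset S) :
    load ν (fun i => stop ν (X i) (u i) s) K V ≤ load ν X K V := by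
  unfold load
  refine Finset.sum_le_sum fun i _ => ?_
  rw [hit_eq, hit_eq]
  exact lintegral_mono fun η => hitq_stop_le ν (X i) (u i) s η V

lemma ann_stop_fail {X : Expl S Rw A} {u : List A → ℝ≥0∞} (hu : ∀ h, u h ≤ 1) {s : ℝ≥0∞}
    {g : ℝ≥0∞} (hg : g ≤ X.ann ν u) :
    (stop ν X u s).ann ν (fun h => 1 - us ν X u s h) + g ≤ 1 + s := by
  have hus : ∀ h, us ν X u s h ≤ 1 := fun h => (us_le u s h).trans (hu h)
  have h1 : (stop ν X u s).ann ν (fun h => 1 - us ν X u s h) + (stop ν X u s).ann ν (us ν X u s) = 1 := by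
    unfold Expl.ann
    rw [← lintegral_add_left ((stop ν X u s).measurable_val _ _ _)]
    have : ∀ η : S → Rw, (stop ν X u s).val (fun h => 1 - us ν X u s h) η (stop ν X u s).T [] +
        (stop ν X u s).val (us ν X u s) η (stop ν X u s).T [] = 1 := by
      intro η
      rw [← Expl.val_add]
      have : (fun h => 1 - us ν X u s h + us ν X u s h) = fun _ => (1 : ℝ≥0∞) := by
        funext h; exact tsub_add_cancel_of_le (hus h)
      rw [this, Expl.val_const]
    simp [this]
  have h2 : (stop ν X u s).ann ν (us ν X u s) = X.ann ν (us ν X u s) := by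
    unfold Expl.ann
    refine lintegral_congr fun η => ?_
    exact val_stop_us ν X u _ s (fun h hh => by simp [us, hh]) η X.T []
  have h3 : X.ann ν u ≤ X.ann ν (us ν X u s) + s := by
    have := PV_le_us (ν := ν) (E := X) (u := u) (s := s) X.T (h := []) (by simp) (by exact trivial)
    unfold PV aw at this
    simpa [wt, Expl.ann] using this
  calc (stop ν X u s).ann ν (fun h => 1 - us ν X u s h) + g
      ≤ (stop ν X u s).ann ν (fun h => 1 - us ν X u s h) + (X.ann ν (us ν X u s) + s) := by
        gcongr; exact hg.trans h3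
    _ = ((stop ν X u s).ann ν (fun h => 1 - us ν X u s h) + (stop ν X u s).ann ν (us ν X u s)) + s := by
        rw [h2, add_assoc]
    _ = 1 + s := by rw [h1]

/-- **K-set bound with stopped walkers**: rate `g²/(64 κ)` per cell, `κ` = sum of the contact
probabilities of the stopped walker with all walkers of the cells (self energy included). -/
theorem kset_stopped {K : Finset ι} (hK : K.Nonempty) (hu : ∀ i ∈ K, ∀ h, u i h ≤ 1)
    {g κ : ℝ} (hg0 : 0 < g) (hg1 : g ≤ 1) (hκ : 0 < κ)
    (hg : ∀ i ∈ K, ENNReal.ofReal g ≤ (X i).ann ν (u i))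
    (hcontact : ∀ i ∈ K, (stop ν (X i) (u i) (ENNReal.ofReal (g / 4))).ann ν
      (fun h => load ν X K ((stop ν (X i) (u i) (ENNReal.ofReal (g / 4))).expl h)) ≤
        ENNReal.ofReal κ)
    (n : ℕ) (V : Finset S)
    (hV : load ν X K V + n * ENNReal.ofReal (8 * κ / g) ≤ K.card * ENNReal.ofReal (g / 8))
    (ω : S → Rw) :
    ∫⁻ η, {ω : S → Rw | ∀ i ∈ K, (X i).val (u i) ω (X i).T [] ≤ ENNReal.ofReal (g / 4)}.indicator 1
      (merge V ω η) ∂𝐏 ≤ ENNReal.ofReal (1 - g / 4) ^ n := by
  classical
  set s : ℝ≥0∞ := ENNReal.ofReal (g / 4) with hs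
  set Y : ι → Expl S Rw A := fun i => stop ν (X i) (u i) s with hY
  set w : ι → List A → ℝ≥0∞ := fun i h => 1 - us ν (X i) (u i) s h with hw
  have hus : ∀ i ∈ K, ∀ h, us ν (X i) (u i) s h ≤ 1 := fun i hi h => (us_le _ _ h).trans (hu i hi h)
  have hε0 : ENNReal.ofReal (1 - g / 4) ≠ 0 := (ENNReal.ofReal_pos.2 (by linarith)).ne'
  have hθ0 : ENNReal.ofReal (8 * κ / g) ≠ 0 := (ENNReal.ofReal_pos.2 (by positivity)).ne'
  have h1 := kset_many ν Y w hK (ε := ENNReal.ofReal (1 - g / 4)) (θ := ENNReal.ofReal (8 * κ / g))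
    (δ := ENNReal.ofReal (1 - 3 * g / 4)) (κ := ENNReal.ofReal κ) (ζ := ENNReal.ofReal (g / 8))
    hε0 ENNReal.ofReal_ne_top hθ0 ENNReal.ofReal_ne_top ENNReal.ofReal_ne_top ENNReal.ofReal_ne_top
    ENNReal.ofReal_ne_top (fun i _ h => tsub_le_self)
    (fun i hi => by
      have h2 := ann_stop_fail ν (X := X i) (u := u i) (hu i hi) (s := s) (hg i hi)
      have h3 : (1 : ℝ≥0∞) + s = ENNReal.ofReal (1 - 3 * g / 4) + ENNReal.ofReal g := by
        rw [hs, ← ENNReal.ofReal_one, ← ENNReal.ofReal_add (by norm_num) (by linarith),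
          ← ENNReal.ofReal_add (by linarith) hg0.le]
        congr 1; ring
      rw [h3] at h2
      exact (ENNReal.add_le_add_iff_right ENNReal.ofReal_ne_top).1 h2)
    (fun i hi => by
      rw [← ann_load]
      refine le_trans ?_ (hcontact i hi)
      refine lintegral_mono fun η => Expl.val_mono _ (fun h => ?_) _ _ _
      exact load_stop_le ν X u K s _)
    n V ((add_le_add (load_stop_le ν X u K s V) le_rfl).trans hV) ω
  refine (lintegral_mono fun η => ?_).trans (h1.trans ?_)
  · by_cases hη : ∀ i ∈ K, (X i).val (u i) (merge V ω η) (X i).T [] ≤ s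
    · have hB : merge V ω η ∈ Bad Y w K (ENNReal.ofReal (1 - g / 4)) := by
        intro i hi
        have h2 : (Y i).val (w i) (merge V ω η) (Y i).T [] +
            (X i).val (us ν (X i) (u i) s) (merge V ω η) (X i).T [] = 1 := by
          rw [← val_stop_us ν (X i) (u i) (us ν (X i) (u i) s) s (fun h hh => by simp [us, hh])]
          show (Y i).val (w i) (merge V ω η) (X i).T [] + (Y i).val _ (merge V ω η) (X i).T [] = 1
          rw [← Expl.val_add]
          have : (fun h => w i h + us ν (X i) (u i) s h) = fun _ => (1 : ℝ≥0∞) := by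
            funext h; exact tsub_add_cancel_of_le (hus i hi h)
          rw [this, Expl.val_const]
        have h3 : (X i).val (us ν (X i) (u i) s) (merge V ω η) (X i).T [] ≤ s :=
          ((X i).val_mono (fun h => us_le _ _ h) _ _ _).trans (hη i hi)
        have h4 : ENNReal.ofReal (1 - g / 4) + s = 1 := by
          rw [hs, ← ENNReal.ofReal_add (by linarith) (by linarith), ← ENNReal.ofReal_one]
          congr 1; ring
        have h5 : ENNReal.ofReal (1 - g / 4) + s ≤ (Y i).val (w i) (merge V ω η) (Y i).T [] + s := by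
          rw [h4, ← h2]; gcongr
        exact (ENNReal.add_le_add_iff_right (by rw [hs]; exact ENNReal.ofReal_ne_top)).1 h5
      rw [Set.indicator_of_mem hB, Set.indicator_of_mem (by exact hη)]
    · rw [Set.indicator_of_notMem (by exact hη)]; exact zero_le
  · gcongr
    rw [← ENNReal.ofReal_div_of_pos (by positivity),
      ← ENNReal.ofReal_add (by linarith) (by positivity),
      ← ENNReal.ofReal_add (by linarith) (by positivity),
      ← ENNReal.ofReal_div_of_pos (by linarith)]
    apply ENNReal.ofReal_le_ofReal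
    have e1 : κ / (8 * κ / g) = g / 8 := by field_simp
    rw [e1, div_le_iff₀ (by linarith)]
    nlinarith

/-- **Fixed-rate K-set bound for arbitrary laws.**  `m` = mass transport constant. -/
theorem kset_fixed {K : Finset ι} (hK : K.Nonempty) (hu : ∀ i ∈ K, ∀ h, u i h ≤ 1)
    {g m : ℝ} (hg0 : 0 < g) (hg1 : g ≤ 1) (hm0 : 0 < m)
    (hg : ∀ i ∈ K, ENNReal.ofReal g ≤ (X i).ann ν (u i))
    {e : ι → (S → Rw) → S → ℝ≥0∞}
    (hX : ∀ i ∈ K, ∀ ω h z, (X i).site h = some z → h.length < (X i).T →
      (X i).val (u i) ω ((X i).T - h.length) h ≤ e i ω z)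
    {M : ι → ι → (S → Rw) → ℝ≥0∞} (hM : ∀ i ∈ K, ∀ l ∈ K, ∀ ω, ∀ W : Finset S,
      (X l).val (fun k => (fst (X l) W k).elim 0 (e i ω)) ω (X l).T [] ≤ M i l ω)
    (hm : ∀ i ∈ K, ∑ l ∈ K, ∫⁻ ω, M i l ω ∂𝐏 ≤ ENNReal.ofReal m)
    (n : ℕ) (V : Finset S)
    (hV : load ν X K V + n * ENNReal.ofReal (8192 * m / g ^ 3) ≤ K.card * ENNReal.ofReal (g / 8))
    (ω : S → Rw) :
    ∫⁻ η, {ω : S → Rw | ∀ i ∈ K, (X i).val (u i) ω (X i).T [] ≤ ENNReal.ofReal (g / 4)}.indicator 1
      (merge V ω η) ∂𝐏 ≤ ENNReal.ofReal (1 - g / 4) ^ n := by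
  refine kset_stopped ν X u hK hu hg0 hg1 (κ := 1024 * m / g ^ 2) (by positivity) hg
    (fun i hi => ?_) n V ?_ ω
  · have h1 := capacity_le ν (X i) X (K := K) (hu i hi) (e := e i) (hX i hi) (M := M i)
      (hM i hi) (s := ENNReal.ofReal (g / 4)) (ENNReal.ofReal_pos.2 (by linarith)).ne'
      ENNReal.ofReal_ne_top
    refine h1.trans ?_
    rw [← ENNReal.ofReal_pow (by linarith)]
    calc 64 * (∑ l ∈ K, ∫⁻ ω, M i l ω ∂𝐏) / ENNReal.ofReal ((g / 4) ^ 2)
        ≤ 64 * ENNReal.ofReal m / ENNReal.ofReal ((g / 4) ^ 2) := by gcongr; exact hm i hi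
      _ = ENNReal.ofReal (1024 * m / g ^ 2) := by
        rw [show (64 : ℝ≥0∞) = ENNReal.ofReal 64 by norm_num, ← ENNReal.ofReal_mul (by norm_num),
          ← ENNReal.ofReal_div_of_pos (by positivity)]
        congr 1
        field_simp
        norm_num
  · have e1 : 8 * (1024 * m / g ^ 2) / g = 8192 * m / g ^ 3 := by field_simp; norm_num
    rw [e1]; exact hV

end kset

end Crest.Agent.R154.CF923
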