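import Crest.Agent.R154.ContW_424

/-! Row 154, B4 (helper424): the grid of the contact inequality in the marked frame: `Grid.Ok`,
aliveness = naturalness, Harnack, and the inclusion of the contact event in `CC`. -/

set_option autoImplicit false
set_option linter.unusedVariables false
set_option linter.unusedSectionVars false

open MeasureTheory ProbabilityTheory Filter Set
open scoped ENNReal Topology

namespace Crest.Agent.R154.KB424

open Crest.ProbabilityR.RandomEnvironment Crest.Agent.R154.Q561 Crest.Agent.R154.Ren263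
open Crest.Agent.R154.Mk561 Crest.Agent.R154.B6I Crest.Agent.R154.Cont
open Crest.Agent.R154.Flux132 (lev)
open Crest.Agent.R154.Fin804 (lev_add lev_step_le)

variable {d : ℕ}

/-- data of the grid -/
structure GD (d : ℕ) where
  u : Step d
  R : ℕ
  l0 : ℤ
  L : ℕ → ℕ
  M : ℕ
  E : Set (Site d)

/-- admissible grid -/
structure GD.Ok (g : GD d) : Prop where
  mono : Monotone g.L
  sep : ∀ j, g.L j + g.R ≤ g.L (j + 1)
  ge : g.R ≤ g.L 0
  gt : g.R < g.L 1

namespace GD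

variable (g : GD d)

/-- violation of naturalness at time `n` -/
def viol (X : SMPath d) (n : ℕ) : Prop :=
  (g.R ≤ n ∧ lev g.u (pos X.1 X.2 n) < g.l0 + g.R) ∨ ∃ i, i < g.R ∧ i < n ∧ X.2 i ≠ (g.u, true)

/-- violation, made `dead` -/
def viol' (X : SMPath d) (n : ℕ) : Prop :=
  g.viol X n ∧ (ft (fun k => g.l0 + g.L 1 ≤ lev g.u (pos X.1 X.2 k)) ≤ (n : ℕ∞) →
    lev g.u (pos X.1 X.2 n) < g.l0 + g.L 0)

/-- the grid -/
noncomputable def gr : Grid d (SMPath d) where
  W := fWS g.u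
  rd := rdM
  R := g.R
  lev := lev g.u
  Lv k := g.l0 + g.L k
  M := g.M
  D X := ft (g.viol' X)
  E := g.E
  c _ := 0

variable {g}

lemma pdet_viol : PDet (fWS g.u) g.viol := by
  intro n X Y h
  have h' : fHist n X = fHist n Y := h
  rw [fHist_eq_iff] at h'
  unfold viol
  rw [← h'.1, ← pos_congr X.1 h'.2.1 le_rfl]
  refine or_congr_right ?_
  constructor
  · rintro ⟨i, h1, h2, h3⟩
    exact ⟨i, h1, h2, by rw [← h'.2.1 i h2]; exact h3⟩
  · rintro ⟨i, h1, h2, h3⟩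
    exact ⟨i, h1, h2, by rw [h'.2.1 i h2]; exact h3⟩

lemma pdet_viol' : PDet (fWS g.u) g.viol' := by
  intro n X Y h
  have h1 := pdet_viol n X Y h
  have h2 := pdet_stop_le (W := fWS g.u)
    (Grid.isStop_tau (𝒢 := g.gr) 1) n X Y h
  have h3 : pos X.1 X.2 n = pos Y.1 Y.2 n := (fWS g.u).pos_det n X Y h
  unfold viol'
  rw [h1, h3]
  refine and_congr_right fun _ => ?_
  exact imp_congr h2 Iff.rfl

lemma lev_diff (u : Step d) {R : ℕ} {a z : Site d} (h : ∀ i, |a i - z i| ≤ (R : ℤ)) :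
    |lev u a - lev u z| ≤ R := by
  have := h u.1
  unfold Flux132.lev
  split_ifs
  · exact this
  · rw [show -a u.1 - -z u.1 = -(a u.1 - z u.1) by ring, abs_neg]; exact this

lemma time_bound (u : Step d) (x : Site d) (M : MPath d) (n : ℕ) :
    zt u M n ≤ n := by
  induction n with
  | zero => simp
  | succ n ih =>
    have := zt_step u M n
    rw [abs_le] at this
    push_cast
    linarith [this.2]

theorem ok (hg : g.Ok) : g.gr.Ok where
  hrd := rdSpace_fWS g.u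
  mono := by
    intro i j hij
    have := hg.mono hij
    change g.l0 + (g.L i : ℤ) ≤ g.l0 + g.L j
    have : (g.L i : ℤ) ≤ g.L j := by exact_mod_cast this
    linarith
  sep := by
    intro a z h j hj
    have h1 := lev_diff g.u (R := g.R) h
    rw [abs_le] at h1
    have h2 := hg.sep j
    have h3 : (g.L j : ℤ) + g.R ≤ g.L (j + 1) := by exact_mod_cast h2
    change g.l0 + (g.L j : ℤ) ≤ lev g.u z
    have h4 : g.l0 + (g.L (j + 1) : ℤ) ≤ lev g.u a := hj
    linarith [h1.2]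
  stopD := isStop_ft pdet_viol'
  dead := by
    intro X m hD h1
    have h2 := ft_spec (p := g.viol' X) hD
    exact h2.2 h1

/-! ### aliveness -/

variable {x : Site d} {M : MPath d}

lemma lev_pos' (hx : lev g.u x = g.l0) (n : ℕ) : lev g.u (pos x M n) = g.l0 + zt g.u M n := by
  rw [lev_pos, hx]

lemma tau_of_hit (hx : lev g.u x = g.l0) {j n : ℕ} (h : Hit g.u (g.L j) M n) :
    g.gr.tau j (x, M) = n := by
  refine ft_eq_of (p := fun n => g.l0 + (g.L j : ℤ) ≤ lev g.u (pos x M n)) ?_ fun i hi => ?_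
  · rw [lev_pos' hx, h.1]
  · rw [lev_pos' hx, not_le]
    have := h.2 i hi
    linarith

lemma hit_of_tau (hx : lev g.u x = g.l0) {j n : ℕ} (h : g.gr.tau j (x, M) = n) :
    Hit g.u (g.L j) M n := by
  have h1 : g.l0 + (g.L j : ℤ) ≤ lev g.u (pos x M n) :=
    ft_spec (p := fun n => g.l0 + (g.L j : ℤ) ≤ lev g.u (pos x M n)) h
  rw [lev_pos' hx] at h1
  obtain ⟨m, hm, hH⟩ := exists_hit (u := g.u) (j := g.L j) (M := M) (n := n) (by linarith)
  have h2 := tau_of_hit hx hH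
  rw [h] at h2
  have : n = m := by exact_mod_cast h2
  rw [this]; exact hH

lemma lt_tau (hx : lev g.u x = g.l0) {j n : ℕ} (h : bf g.u (g.L j) M n) :
    (n : ℕ∞) < g.gr.tau j (x, M) := by
  by_contra hcon
  rw [not_lt] at hcon
  obtain ⟨m, hm⟩ := ENat.ne_top_iff_exists.1 (ne_top_of_le_ne_top (ENat.natCast_ne_top n) hcon)
  have h1 := hit_of_tau hx hm.symm
  rw [← hm] at hcon
  have h2 : m ≤ n := by exact_mod_cast hcon
  have h3 := h m h2
  rw [h1.1] at h3
  exact lt_irrefl _ h3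

lemma bf_of_lt_tau (hx : lev g.u x = g.l0) {j n : ℕ} (h : (n : ℕ∞) < g.gr.tau j (x, M)) :
    bf g.u (g.L j) M n := by
  intro k hk
  have h1 : (k : ℕ∞) < g.gr.tau j (x, M) := lt_of_le_of_lt (by exact_mod_cast hk) h
  have h2 : lev g.u (pos x M k) < g.l0 + (g.L j : ℤ) := Grid.lev_lt_of_lt_tau h1
  rw [lev_pos' hx] at h2
  linarith

/-- **aliveness = naturalness** -/
theorem alive_iff (hg : g.Ok) (hx : lev g.u x = g.l0) (j : ℕ) :
    g.gr.tau j (x, M) < g.gr.D (x, M) ↔ B6I.Nt g.u g.R 0 (g.L j) M := by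
  have hLj : g.R ≤ g.L j := hg.ge.trans (hg.mono (Nat.zero_le j))
  constructor
  · intro h
    obtain ⟨b, hb⟩ := exists_nat_of_lt h
    have hH := hit_of_tau hx hb
    rw [hb] at h
    refine ⟨0, b, hit_zero M, hH, fun n _ hn => ?_⟩
    have hno : ∀ k ≤ b, ¬ g.viol' (x, M) k := fun k hk =>
      not_of_lt_ft (lt_of_le_of_lt (by exact_mod_cast hk) h)
    have hforced : ∀ i, i < g.R → i < b → M i = (g.u, true) := by
      intro i hi hib
      by_contra hcon
      refine hno (i + 1) (by omega) ⟨Or.inr ⟨i, hi, Nat.lt_succ_self i, hcon⟩, fun h1 => ?_⟩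
      exfalso
      obtain ⟨q, hq⟩ := ENat.ne_top_iff_exists.1
        (ne_top_of_le_ne_top (ENat.natCast_ne_top (i + 1)) h1)
      rw [← hq] at h1
      have h2 : q ≤ i + 1 := by exact_mod_cast h1
      have h3 := hit_of_tau (j := 1) hx hq.symm
      have h4 := time_bound g.u x M q
      rw [h3.1] at h4
      have h5 : g.L 1 ≤ q := by exact_mod_cast h4
      have := hg.gt
      omega
    refine ⟨fun h1 => hforced n (by omega) hn, fun h1 => ?_⟩
    by_contra hcon
    rw [not_le] at hcon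
    have hR : g.R ≤ n := by omega
    have h2 : lev g.u (pos x M n) < g.l0 + g.R := by
      rw [lev_pos' hx]
      push_cast at hcon
      linarith
    refine hno n hn.le ⟨Or.inl ⟨hR, h2⟩, fun _ => ?_⟩
    have : (g.R : ℤ) ≤ g.L 0 := by exact_mod_cast hg.ge
    simp only
    linarith
  · rintro ⟨a, b, ha, hb, H⟩
    obtain rfl : a = 0 := ha.unique (hit_zero M)
    rw [tau_of_hit hx hb]
    have hno : ∀ k ≤ b, ¬ g.viol' (x, M) k := by
      rintro k hk ⟨h1, -⟩
      rcases h1 with ⟨h2, h3⟩ | ⟨i, hi, hik, h3⟩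
      · simp only at h3
        rw [lev_pos' hx] at h3
        rcases Nat.lt_or_ge k b with hkb | hkb
        · have := (H k (Nat.zero_le _) hkb).2 (by omega)
          push_cast at this
          linarith
        · obtain rfl : k = b := by omega
          rw [hb.1] at h3
          have : (g.R : ℤ) ≤ g.L j := by exact_mod_cast hLj
          linarith
      · exact h3 ((H i (Nat.zero_le _) (by omega)).1 (by omega))
    have h5 : ((b + 1 : ℕ) : ℕ∞) ≤ g.gr.D (x, M) := by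
      refine le_ft fun n hn => ?_
      by_contra hcon
      rw [not_le] at hcon
      have : n < b + 1 := by exact_mod_cast hcon
      exact hno n (by omega) hn
    exact lt_of_lt_of_le (by exact_mod_cast Nat.lt_succ_self b) h5

/-! ### Harnack -/

lemma gp_step {κ : ℝ} (ω : Environment d) {a : Site d} {B : Set (Path d)} (hB : MeasurableSet B)
    (hcons : ∀ Y, Y ∈ B → consP a Y ∈ B) (e : Step d) :
    ENNReal.ofReal (kf d κ) * Gp κ ω (a + stepVec e) B ≤ Gp κ ω a B := by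
  rw [Gp_eq κ ω a hB]
  refine le_trans ?_ (Finset.single_le_sum (f := fun e => ENNReal.ofReal ((reg κ (ω a)).1 e) *
    gB κ ω a B e) (fun _ _ => zero_le) (Finset.mem_univ e))
  refine mul_le_mul' (ENNReal.ofReal_le_ofReal (le_reg κ _ e)) ?_
  unfold Gp gB
  rw [Measure.map_apply (measurable_mpath _) hB]
  exact measure_mono fun M hM => hcons _ hM

lemma kf_le_one (u : Step d) (κ : ℝ) : ENNReal.ofReal (kf d κ) ≤ 1 := by
  rw [ENNReal.ofReal_le_one]
  have h : 0 < d := lt_of_le_of_lt (Nat.zero_le _) u.1.2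
  have h1 := kf_le (d := d) κ
  have h2 := kf_nonneg (d := d) κ
  have h3 : (1 : ℝ) ≤ d := by exact_mod_cast h
  nlinarith

/-- one step towards `z` -/
lemma step_toward {a z : Site d} {i : Fin d} (h : a i ≠ z i) :
    ∃ e : Step d, (∀ j, |(a + stepVec e) j - z j| ≤ |a j - z j|) ∧
      ∑ j, ((a + stepVec e) j - z j).natAbs + 1 = ∑ j, (a j - z j).natAbs := by
  classical
  obtain ⟨e, he1, he2⟩ : ∃ e : Step d, e.1 = i ∧
      ((a + stepVec e) i - z i).natAbs + 1 = (a i - z i).natAbs := by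
    rcases lt_or_gt_of_ne h with h1 | h1
    · refine ⟨(i, true), rfl, ?_⟩
      have : (a + stepVec ((i, true) : Step d)) i = a i + 1 := by
        simp [stepVec]
      rw [this]; omega
    · refine ⟨(i, false), rfl, ?_⟩
      have : (a + stepVec ((i, false) : Step d)) i = a i - 1 := by
        simp [stepVec]; ring
      rw [this]; omega
  have hj : ∀ j, j ≠ i → (a + stepVec e) j = a j := by
    intro j hj
    simp only [Pi.add_apply, stepVec]
    rw [Pi.single_eq_of_ne (by rw [he1]; exact hj)]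
    ring
  refine ⟨e, fun j => ?_, ?_⟩
  · by_cases hji : j = i
    · subst hji
      rw [Int.abs_eq_natAbs, Int.abs_eq_natAbs]
      omega
    · rw [hj j hji]
  · rw [← Finset.add_sum_erase _ _ (Finset.mem_univ i),
      ← Finset.add_sum_erase (Finset.univ) (fun j => (a j - z j).natAbs) (Finset.mem_univ i)]
    have : ∑ j ∈ Finset.univ.erase i, ((a + stepVec e) j - z j).natAbs
        = ∑ j ∈ Finset.univ.erase i, (a j - z j).natAbs :=
      Finset.sum_congr rfl fun j hj' => by rw [hj j (Finset.ne_of_mem_erase hj')]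
    rw [this]
    omega

lemma harnack_aux {κ : ℝ} (ω : Environment d) {B : Set (Path d)} (hB : MeasurableSet B) {R : ℕ}
    {z : Site d} (hcons : ∀ a : Site d, (∀ i, |a i - z i| ≤ (R : ℤ)) → ∀ Y, Y ∈ B → consP a Y ∈ B) :
    ∀ (N : ℕ) (a : Site d), (∀ i, |a i - z i| ≤ (R : ℤ)) → ∑ j, (a j - z j).natAbs = N →
      ENNReal.ofReal (kf d κ) ^ N * Gp κ ω z B ≤ Gp κ ω a B := by
  intro N
  induction N with
  | zero =>
    intro a _ h0
    have : a = z := by
      funext j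
      have := (Finset.sum_eq_zero_iff.1 h0) j (Finset.mem_univ j)
      omega
    rw [this]; simp
  | succ N ih =>
    intro a ha hN
    have : ∃ i, a i ≠ z i := by
      by_contra hcon
      push Not at hcon
      have : ∑ j, (a j - z j).natAbs = 0 := Finset.sum_eq_zero fun j _ => by rw [hcon j]; simp
      omega
    obtain ⟨i, hi⟩ := this
    obtain ⟨e, h1, h2⟩ := step_toward hi
    have h3 := ih (a + stepVec e) (fun j => (h1 j).trans (ha j)) (by omega)
    calc ENNReal.ofReal (kf d κ) ^ (N + 1) * Gp κ ω z B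
        = ENNReal.ofReal (kf d κ) * (ENNReal.ofReal (kf d κ) ^ N * Gp κ ω z B) := by ring
      _ ≤ ENNReal.ofReal (kf d κ) * Gp κ ω (a + stepVec e) B := by gcongr
      _ ≤ _ := gp_step ω hB (hcons a ha) e

/-- Harnack constant -/
noncomputable def hK (d R : ℕ) (κ : ℝ) : ℝ≥0∞ := ENNReal.ofReal (kf d κ) ^ (d * R)

lemma hK_ne_zero {κ : ℝ} {R : ℕ} (h : R = 0 ∨ 0 < kf d κ) : hK d R κ ≠ 0 := by
  unfold hK
  rcases h with rfl | h
  · simp
  · exact pow_ne_zero _ (by simpa using h)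

lemma hK_ne_top {κ : ℝ} {R : ℕ} : hK d R κ ≠ ⊤ := ENNReal.pow_ne_top ENNReal.ofReal_ne_top

/-- **Harnack for the sets `RI`** -/
theorem harnack (hg : g.Ok) (κ : ℝ) (ω : Environment d) (k : ℕ) (a z : Site d)
    (haz : ∀ l, |a l - z l| ≤ (g.gr.R : ℤ)) (h1 : g.gr.Lv (k + 2) ≤ g.gr.lev z)
    (h2 : g.gr.lev z < g.gr.Lv (k + 6)) (y : Site d) :
    hK d g.R κ * Gp κ ω z (g.gr.RI k y) ≤ Gp κ ω a (g.gr.RI k y) := by
  have hOk := ok hg
  have hB := Grid.measurableSet_RI (𝒢 := g.gr) k y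
  have hcons : ∀ a : Site d, (∀ i, |a i - z i| ≤ (g.R : ℤ)) → ∀ Y, Y ∈ g.gr.RI k y →
      consP a Y ∈ g.gr.RI k y := by
    rintro a ha Y ⟨m, m1, m2, m3, m4⟩
    have ha' : ∀ i, |z i - a i| ≤ (g.R : ℤ) := fun i => by rw [abs_sub_comm]; exact ha i
    have l1 : g.gr.Lv (k + 1) ≤ g.gr.lev a := hOk.sep z a ha' (k + 1) h1
    have l2 : g.gr.lev a < g.gr.Lv (k + 7) := by
      by_contra hcon
      rw [not_lt] at hcon
      have := hOk.sep a z ha (k + 6) hcon
      omega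
    refine ⟨m + 1, ?_, ?_, ?_, ?_⟩
    · simp only [consP, Nat.succ_ne_zero, if_false, Nat.add_sub_cancel]
      exact m1
    · intro i hi
      unfold consP
      split_ifs with h0
      · exact l2
      · exact m2 _ (by omega)
    · intro i hi
      unfold consP
      split_ifs with h0
      · exact l1
      · exact m3 _ (by omega)
    · simp only [consP, Nat.succ_ne_zero, if_false, Nat.add_sub_cancel]
      exact m4
  have hN : ∑ j, (a j - z j).natAbs ≤ d * g.R := by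
    calc ∑ j, (a j - z j).natAbs ≤ ∑ _j : Fin d, g.R := Finset.sum_le_sum fun j _ => by
          have h3 : |a j - z j| ≤ (g.R : ℤ) := haz j
          rw [Int.abs_eq_natAbs] at h3
          omega
      _ = d * g.R := by simp
  refine le_trans ?_ (harnack_aux ω hB hcons _ a haz rfl)
  gcongr
  unfold hK
  exact pow_le_pow_right_of_le_one' (kf_le_one g.u κ) hN

/-! ### the inclusion -/

lemma js_iff {j : ℕ} {X T : SMPath d} : g.gr.JS j X T ↔ ∃ n i : ℕ, (n : ℕ∞) < g.gr.S g.gr.M T ∧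
    (i : ℕ∞) < g.gr.S j X ∧ (X.2 i).2 = false ∧ (T.2 n).2 = false ∧
    ∀ l, |pos X.1 X.2 i l - pos T.1 T.2 n l| ≤ (g.R : ℤ) := by
  unfold Grid.JS
  rw [kap_lt_iff]
  constructor
  · rintro ⟨n, h1, h2, a, ⟨i, h3, h4, rfl⟩, h5⟩
    exact ⟨n, i, h1, h3, h4, h2, h5⟩
  · rintro ⟨n, i, h1, h3, h4, h2, h5⟩
    exact ⟨n, h1, h2, _, ⟨i, h3, h4, rfl⟩, h5⟩

lemma not_js4 (hg : g.Ok) {m : ℕ} (h6 : g.L 6 ≤ m) (hM : 6 ≤ g.M) {x y : Site d}
    (hx : lev g.u x = g.l0) (hy : lev g.u y = g.l0) {M M' : MPath d}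
    (hX : g.gr.Gd (x, M)) (hT : g.gr.Gd (y, M'))
    (hC : ∀ i i', bf g.u m M i → bf g.u m M' i' → (M i).2 = false → (M' i').2 = false →
      ¬ ∀ c, |pos x M i c - pos y M' i' c| ≤ (g.R : ℤ)) : ¬ g.gr.JS 4 (x, M) (y, M') := by
  have hOk := ok hg
  intro hJ
  obtain ⟨n, i, h1, h2, h3, h4, h5⟩ := js_iff.1 hJ
  simp only at h3 h4 h5
  rw [hT.S_eq hOk le_rfl] at h1
  rw [hX.S_eq hOk (show 4 ≤ g.gr.M by change 4 ≤ g.M; omega)] at h2
  have hi : bf g.u m M i := bf_mono ((hg.mono (by omega : 4 ≤ 6)).trans h6) (bf_of_lt_tau hx h2)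
  have hn : (n : ℕ∞) < g.gr.tau 6 (y, M') := by
    by_contra hcon
    rw [not_lt] at hcon
    have l1 := hT.2 5 (show 5 < g.gr.M by change 5 < g.M; omega) n hcon h1.le
    have l2 := hOk.sep (pos y M' n) (pos x M i) (fun l => by rw [abs_sub_comm]; exact h5 l) 4 l1
    have l3 : g.gr.lev (g.gr.W.pos (x, M) i) < g.gr.Lv 4 := Grid.lev_lt_of_lt_tau h2
    exact absurd l2 (not_le.2 l3)
  have hn' : bf g.u m M' n := bf_mono h6 (bf_of_lt_tau hy hn)
  exact hC i n hi hn' h3 h4 h5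

lemma js_of_ct (hg : g.Ok) {m : ℕ} (hM : 2 * m ≤ g.L (g.M - 2)) {x y : Site d}
    (hx : lev g.u x = g.l0) (hy : lev g.u y = g.l0) {M M' : MPath d}
    (hX : g.gr.Gd (x, M)) (hT : g.gr.Gd (y, M')) {i i' : ℕ} (h1 : bf g.u (2 * m) M i)
    (h2 : bf g.u (2 * m) M' i') (h3 : (M i).2 = false) (h4 : (M' i').2 = false)
    (h5 : ∀ c, |pos x M i c - pos y M' i' c| ≤ (g.R : ℤ)) :
    g.gr.JS (g.gr.M - 2) (x, M) (y, M') := by
  have hOk := ok hg
  refine js_iff.2 ⟨i', i, ?_, ?_, h3, h4, h5⟩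
  · rw [hT.S_eq hOk le_rfl]
    exact lt_tau hy (bf_mono (hM.trans (hg.mono (Nat.sub_le _ _))) h2)
  · rw [hX.S_eq hOk (Nat.sub_le _ _)]
    exact lt_tau hx (bf_mono hM h1)

/-- **a contact between the levels `m` and `2m` of natural paths is in `CC`, or a path is `NG`.** -/
theorem incl (hg : g.Ok) {m : ℕ} (h6 : g.L 6 ≤ m) (h6M : 6 ≤ g.M) (hM : 2 * m ≤ g.L (g.M - 2))
    (s : SP g.u) (hs : lev g.u s.1.1 = g.l0) (p : PP d)
    (hN1 : B6I.Nt g.u g.R 0 (2 * m) p.1) (hN2 : B6I.Nt g.u g.R 0 (2 * m) p.2)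
    (hC : NoC g.R 0 m ((s, p) : Om g.u)) (hC' : ¬ NoC g.R 0 (2 * m) ((s, p) : Om g.u)) :
    ((s.1.1, p.1), (s.1.2, p.2)) ∈ g.gr.CC ∨ g.gr.NG (s.1.1, p.1) ∨ g.gr.NG (s.1.2, p.2) := by
  have hs' : lev g.u s.1.2 = g.l0 := by rw [← s.2]; exact hs
  have hL1 : g.L 1 ≤ 2 * m := (hg.mono (by omega : 1 ≤ 6)).trans (h6.trans (by omega))
  have a1 : g.gr.tau 1 (s.1.1, p.1) < g.gr.D (s.1.1, p.1) :=
    (alive_iff hg hs 1).2 (hN1.left hL1)
  have a2 : g.gr.tau 1 (s.1.2, p.2) < g.gr.D (s.1.2, p.2) :=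
    (alive_iff hg hs' 1).2 (hN2.left hL1)
  by_cases g1 : g.gr.Gd (s.1.1, p.1)
  swap
  · exact Or.inr (Or.inl ⟨a1, g1⟩)
  by_cases g2 : g.gr.Gd (s.1.2, p.2)
  swap
  · exact Or.inr (Or.inr ⟨a2, g2⟩)
  refine Or.inl ?_
  have hno : ∀ i i', bf g.u m p.1 i → bf g.u m p.2 i' → (p.1 i).2 = false → (p.2 i').2 = false →
      ¬ ∀ c, |pos s.1.1 p.1 i c - pos s.1.2 p.2 i' c| ≤ (g.R : ℤ) := by
    intro i i' e1 e2 e3 e4 e5
    exact not_bf_zero _ _ (hC i i' e1 e2 ⟨e3, e4, e5⟩).1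
  unfold NoC at hC'
  push Not at hC'
  obtain ⟨i, i', e1, e2, ⟨e3, e4, e5⟩, -⟩ := hC'
  refine ⟨g1, g2, ?_, ?_, ?_, ?_⟩
  · exact not_js4 hg h6 h6M hs hs' g1 g2 hno
  · exact js_of_ct hg hM hs hs' g1 g2 e1 e2 e3 e4 e5
  · refine not_js4 hg h6 h6M hs' hs g2 g1 fun i i' f1 f2 f3 f4 f5 => ?_
    exact hno i' i f2 f1 f4 f3 fun c => by rw [abs_sub_comm]; exact f5 c
  · exact js_of_ct hg hM hs' hs g2 g1 e2 e1 e4 e3 fun c => by rw [abs_sub_comm]; exact e5 c

end GD

end Crest.Agent.R154.KB424
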