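import Crest.Agent.R154.Marked_561

/-! R154, marked walk, part 2: extensionality, measurability in the environment, Markov property,
projection to the quenched law, shift covariance, annealed marked law. -/

set_option autoImplicit false

open MeasureTheory ProbabilityTheory
open scoped ENNReal

namespace Crest.Agent.R154.Mk561

open Crest.ProbabilityR.RandomEnvironment Crest.Agent.R154.Q561 Crest.Agent.R154.Ren263

variable {d : ℕ}

/-! ### words and determined sets -/

/-- the first `n` marks -/
def res (n : ℕ) (M : MPath d) : Fin n → Mark d := fun i => M i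

theorem measurable_res (n : ℕ) : Measurable (res n : MPath d → Fin n → Mark d) :=
  measurable_pi_lambda _ fun _ => measurable_pi_apply _

theorem preimage_res (n : ℕ) (W : MPath d) : res n ⁻¹' {res n W} = Cy W n := by
  ext M
  simp only [Set.mem_preimage, Set.mem_singleton_iff, Cy, Set.mem_ofPred_eq]
  constructor
  · intro h i hi; exact congrFun h ⟨i, hi⟩
  · intro h; funext i; exact h i.1 i.2

theorem det_inter_res {n : ℕ} {A : Set (MPath d)} (hA : Det n A) (w : Fin n → Mark d) :
    (A ∩ res n ⁻¹' {w} = ∅) ∨ ∃ W ∈ A, res n W = w ∧ A ∩ res n ⁻¹' {w} = Cy W n := by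
  by_cases h : ∃ W ∈ A, res n W = w
  · obtain ⟨W, hW, rfl⟩ := h
    refine Or.inr ⟨W, hW, rfl, ?_⟩
    rw [preimage_res]
    refine Set.inter_eq_right.2 fun M hM => ?_
    exact (hA M W hM).2 hW
  · refine Or.inl (Set.eq_empty_of_forall_notMem fun M hM => h ⟨M, hM.1, hM.2⟩)

theorem sum_res (μ : Measure (MPath d)) (n : ℕ) {A : Set (MPath d)} (hA : MeasurableSet A) :
    μ A = ∑ w : Fin n → Mark d, μ (A ∩ res n ⁻¹' {w}) := by
  have h : A = ⋃ w ∈ (Finset.univ : Finset (Fin n → Mark d)), A ∩ res n ⁻¹' {w} := by
    ext M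
    simp
  conv_lhs => rw [h]
  refine measure_biUnion_finset ?_ fun w _ => hA.inter (measurable_res n (measurableSet_singleton w))
  intro w _ w' _ hne
  refine Set.disjoint_left.2 fun M h1 h2 => hne ?_
  exact (show res n M = w from h1.2).symm.trans h2.2

/-- a determined set is measured by its cylinders -/
theorem det_eq {Φ Ψ : Measure (MPath d)} {n : ℕ} {A : Set (MPath d)} (hA : Det n A)
    (h : ∀ W ∈ A, Φ (Cy W n) = Ψ (Cy W n)) : Φ A = Ψ A := by
  rw [sum_res Φ n hA.measurableSet, sum_res Ψ n hA.measurableSet]
  refine Finset.sum_congr rfl fun w _ => ?_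
  rcases det_inter_res hA w with h1 | ⟨W, hW, _, h2⟩
  · rw [h1]; simp
  · rw [h2, h W hW]

theorem isPiSystem_Alg : IsPiSystem (Alg (Mark d)) := by
  rintro A ⟨n, hA⟩ B ⟨m, hB⟩ _
  exact ⟨max n m, (hA.mono (le_max_left _ _)).inter (hB.mono (le_max_right _ _))⟩

/-- finite measures on mark sequences are determined by the cylinders -/
theorem ext_Cy {μ ν : Measure (MPath d)} [IsFiniteMeasure μ]
    (h : ∀ W n, μ (Cy W n) = ν (Cy W n)) : μ = ν := by
  refine ext_of_generate_finite _ generateFrom_Alg isPiSystem_Alg ?_ ?_
  · rintro A ⟨n, hA⟩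
    exact det_eq hA fun W _ => h W n
  · exact det_eq (Det.univ 0) fun W _ => h W 0

/-! ### measurability in the environment -/

theorem measurable_wgt (κ : ℝ) (x : Site d) (W : MPath d) (n : ℕ) :
    Measurable fun ω : Environment d => wgt κ ω x W n :=
  Finset.measurable_prod _ fun i _ => (measurable_mw κ (W i)).comp (measurable_pi_apply _)

theorem measurable_mkLaw (κ : ℝ) (x : Site d) :
    Measurable fun ω : Environment d => mkLaw κ ω x := by
  refine Measurable.measure_of_isPiSystem_of_isProbabilityMeasure generateFrom_Alg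
    isPiSystem_Alg ?_
  rintro A ⟨n, hA⟩
  have : (fun ω : Environment d => mkLaw κ ω x A)
      = fun ω => ∑ w : Fin n → Mark d, mkLaw κ ω x (A ∩ res n ⁻¹' {w}) := by
    funext ω; exact sum_res _ n hA.measurableSet
  rw [this]
  refine Finset.measurable_sum _ fun w _ => ?_
  rcases det_inter_res hA w with h1 | ⟨W, hW, _, h2⟩
  · simp only [h1, measure_empty]; exact measurable_const
  · simp only [h2, mk_cyl]; exact measurable_wgt κ x W n

theorem measurable_mk_apply (κ : ℝ) (x : Site d) {B : Set (MPath d)} (hB : MeasurableSet B) :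
    Measurable fun ω : Environment d => mkLaw κ ω x B :=
  (Measure.measurable_coe hB).comp (measurable_mkLaw κ x)

/-- the marked quenched law as a kernel -/
noncomputable def mkK (κ : ℝ) (x : Site d) : Kernel (Environment d) (MPath d) :=
  ⟨fun ω => mkLaw κ ω x, measurable_mkLaw κ x⟩

instance (κ : ℝ) (x : Site d) : IsMarkovKernel (mkK κ x) := ⟨fun ω => mkLaw_isProb κ ω x⟩

/-- **the annealed marked law** -/
noncomputable def mkAnn (κ : ℝ) (Q : Measure (Environment d)) (x : Site d) : Measure (MPath d) :=
  Q.bind (mkK κ x)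

theorem mkAnn_apply (κ : ℝ) (Q : Measure (Environment d)) (x : Site d) {B : Set (MPath d)}
    (hB : MeasurableSet B) : mkAnn κ Q x B = ∫⁻ ω, mkLaw κ ω x B ∂Q := by
  unfold mkAnn
  rw [Measure.bind_apply hB (mkK κ x).measurable.aemeasurable]
  rfl

instance mkAnn_isProb (κ : ℝ) (Q : Measure (Environment d)) [IsProbabilityMeasure Q]
    (x : Site d) : IsProbabilityMeasure (mkAnn κ Q x) := by
  refine ⟨?_⟩
  rw [mkAnn_apply κ Q x MeasurableSet.univ]
  simp

/-! ### Markov property -/

/-- follow `W` for `n` marks, then `V` -/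
def spl (W : MPath d) (n : ℕ) (V : MPath d) : MPath d := fun i => if i < n then W i else V (i - n)

theorem spl_lt {W V : MPath d} {n i : ℕ} (h : i < n) : spl W n V i = W i := if_pos h

theorem spl_add (W V : MPath d) (n i : ℕ) : spl W n V (n + i) = V i := by
  unfold spl
  rw [if_neg (by omega)]
  congr 1; omega

theorem shift_spl (W V : MPath d) (n : ℕ) : shift n (spl W n V) = V := by
  funext i; exact spl_add W V n i

theorem cy_inter_shift (W V : MPath d) (n m : ℕ) :
    Cy W n ∩ shift n ⁻¹' Cy V m = Cy (spl W n V) (n + m) := by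
  ext M
  simp only [Cy, Set.mem_inter_iff, Set.mem_ofPred_eq, Set.mem_preimage, shift]
  constructor
  · rintro ⟨h1, h2⟩ i hi
    by_cases hin : i < n
    · rw [spl_lt hin]; exact h1 i hin
    · obtain ⟨j, rfl⟩ := Nat.exists_eq_add_of_le (not_lt.1 hin)
      rw [spl_add]; exact h2 j (by omega)
  · intro h
    refine ⟨fun i hi => ?_, fun j hj => ?_⟩
    · rw [h i (by omega), spl_lt hi]
    · rw [h (n + j) (by omega), spl_add]

theorem wgt_congr (κ : ℝ) (ω : Environment d) (x : Site d) {W V : MPath d} {n : ℕ}
    (h : ∀ i < n, W i = V i) : wgt κ ω x W n = wgt κ ω x V n := by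
  refine Finset.prod_congr rfl fun i hi => ?_
  have hi' := Finset.mem_range.1 hi
  rw [h i hi', pos_congr x h hi'.le]

theorem wgt_add (κ : ℝ) (ω : Environment d) (x : Site d) (W : MPath d) (n m : ℕ) :
    wgt κ ω x W (n + m) = wgt κ ω x W n * wgt κ ω (pos x W n) (shift n W) m := by
  unfold wgt
  rw [Finset.prod_range_add]
  congr 1
  refine Finset.prod_congr rfl fun i _ => ?_
  rw [pos_shift]
  rfl

/-- **Markov property at a cylinder** -/
theorem markov_Cy (κ : ℝ) (ω : Environment d) (x : Site d) (W : MPath d) (n : ℕ)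
    {B : Set (MPath d)} (hB : MeasurableSet B) :
    mkLaw κ ω x (Cy W n ∩ shift n ⁻¹' B) = wgt κ ω x W n * mkLaw κ ω (pos x W n) B := by
  have h : ((mkLaw κ ω x).restrict (Cy W n)).map (shift n)
      = (wgt κ ω x W n) • mkLaw κ ω (pos x W n) := by
    have hne : wgt κ ω x W n ≠ ⊤ := by
      rw [← mk_cyl]; exact measure_ne_top _ _
    refine ext_Cy fun V m => ?_
    rw [Measure.map_apply (measurable_shift n) (measurableSet_Cy V m),
      Measure.restrict_apply (measurable_shift n (measurableSet_Cy V m)), Set.inter_comm,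
      cy_inter_shift, mk_cyl, wgt_add, Measure.smul_apply, mk_cyl, smul_eq_mul]
    rw [wgt_congr κ ω x (fun i hi => spl_lt hi : ∀ i < n, spl W n V i = W i), shift_spl,
      pos_congr x (fun i hi => spl_lt hi : ∀ i < n, spl W n V i = W i) le_rfl]
  have h2 := congrArg (fun μ : Measure (MPath d) => μ B) h
  simp only [Measure.smul_apply, smul_eq_mul] at h2
  rw [Measure.map_apply (measurable_shift n) hB,
    Measure.restrict_apply (measurable_shift n hB), Set.inter_comm] at h2
  exact h2

/-- **Markov property at time `n`** -/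
theorem markov_det (κ : ℝ) (ω : Environment d) (x : Site d) {n : ℕ} {A : Set (MPath d)}
    (hA : Det n A) {B : Set (MPath d)} (hB : MeasurableSet B) :
    mkLaw κ ω x (A ∩ shift n ⁻¹' B) = ∫⁻ M in A, mkLaw κ ω (pos x M n) B ∂(mkLaw κ ω x) := by
  have hm : Measurable fun M : MPath d => mkLaw κ ω (pos x M n) B := by
    have h1 : Measurable fun M : MPath d => pos x M n := by
      unfold pos
      refine Measurable.const_add ?_ x
      exact Finset.measurable_sum _ fun i _ =>
        (measurable_of_countable stp).comp (measurable_pi_apply i)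
    exact (measurable_of_countable fun y : Site d => mkLaw κ ω y B).comp h1
  have e := det_eq (Φ := (mkLaw κ ω x).restrict (shift n ⁻¹' B))
    (Ψ := (mkLaw κ ω x).withDensity fun M => mkLaw κ ω (pos x M n) B) hA ?_
  · rw [Measure.restrict_apply hA.measurableSet, withDensity_apply _ hA.measurableSet] at e
    exact e
  · intro W _
    rw [Measure.restrict_apply (measurableSet_Cy W n), withDensity_apply _ (measurableSet_Cy W n),
      markov_Cy κ ω x W n hB]
    rw [setLIntegral_congr_fun (measurableSet_Cy W n) (g := fun _ => mkLaw κ ω (pos x W n) B)]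
    · rw [setLIntegral_const, mk_cyl, mul_comm]
    · intro M hM
      simp only
      rw [pos_congr x (show ∀ i < n, M i = W i from hM) le_rfl]

/-! ### projection to the site path -/

theorem measurable_mpath (x : Site d) : Measurable (mpath x : MPath d → Path d) := by
  refine measurable_pi_lambda _ fun n => ?_
  unfold mpath pos
  refine Measurable.const_add ?_ x
  exact Finset.measurable_sum _ fun i _ =>
    (measurable_of_countable stp).comp (measurable_pi_apply i)

/-- environment with regularised rows -/
noncomputable def regE (κ : ℝ) (ω : Environment d) : Environment d := fun z => reg κ (ω z)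

theorem regE_eq {κ : ℝ} {ω : Environment d} (h : ∀ z e, kf d κ ≤ (ω z).1 e) : regE κ ω = ω := by
  funext z; exact reg_eq (h z)

theorem regE_zero (ω : Environment d) : regE 0 ω = ω := by
  funext z; exact reg_zero _

/-- total marked weight of a step -/
theorem sum_mw_step (κ : ℝ) (ω : Environment d) (y v : Site d) :
    ∑ m : Mark d, (if y + stp m = v then mw κ (ω y) m else 0) = stepP (regE κ ω) y v := by
  rw [stepP_eq, Fintype.sum_prod_type]
  refine Finset.sum_congr rfl fun e _ => ?_
  simp only [Fintype.sum_bool, stp]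
  by_cases h : y + stepVec e = v
  · simp only [h, if_true, mw_add]; rfl
  · simp [h]

theorem preimage_cyl_zero (x : Site d) (γ : Path d) :
    mpath x ⁻¹' Cyl γ 0 = if γ 0 = x then Set.univ else (∅ : Set (MPath d)) := by
  ext M
  simp only [Set.mem_preimage, Cyl, Set.mem_ofPred_eq, Nat.le_zero, forall_eq, mpath, pos_zero]
  by_cases h : γ 0 = x
  · simp [h]
  · simp only [h, if_false, Set.mem_empty_iff_false, iff_false]
    exact fun e => h e.symm

theorem det_preimage_cyl (x : Site d) (γ : Path d) (n : ℕ) : Det n (mpath x ⁻¹' Cyl γ n) := by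
  intro s s' h
  simp only [Set.mem_preimage, Cyl, Set.mem_ofPred_eq, mpath]
  refine forall_congr' fun k => forall_congr' fun hk => ?_
  rw [pos_congr x h hk]

/-- **projection** -/
theorem mk_projection (κ : ℝ) (ω : Environment d) (x : Site d) :
    (mkLaw κ ω x).map (mpath x) = quenchedLaw (regE κ ω) x := by
  have : IsProbabilityMeasure ((mkLaw κ ω x).map (mpath x)) :=
    Measure.isProbabilityMeasure_map (measurable_mpath x).aemeasurable
  refine ext_cyl_prob fun γ n => ?_
  rw [Measure.map_apply (measurable_mpath x) (measurableSet_cyl γ n), quenched_cyl]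
  induction n with
  | zero =>
    rw [preimage_cyl_zero]
    split_ifs with h
    · simp [pathW]
    · simp
  | succ n ih =>
    -- last mark
    have hm : ∀ m : Mark d, MeasurableSet ((fun M : MPath d => M 0) ⁻¹' {m}) := fun m =>
      measurable_pi_apply 0 (measurableSet_singleton m)
    have hset : mpath x ⁻¹' Cyl γ (n + 1) = ⋃ m ∈ (Finset.univ : Finset (Mark d)),
        (mpath x ⁻¹' Cyl γ n ∩ shift n ⁻¹' ((fun M : MPath d => M 0) ⁻¹'
          {m' | m' = m ∧ γ n + stp m = γ (n + 1)})) := by
      ext M
      simp only [Set.mem_preimage, Cyl, Set.mem_ofPred_eq, mpath, Set.mem_iUnion, Finset.mem_univ,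
        exists_prop, true_and, Set.mem_inter_iff, shift, add_zero]
      constructor
      · intro h
        refine ⟨M n, fun k hk => h k (by omega), rfl, ?_⟩
        rw [← h n (by omega), ← h (n + 1) le_rfl, pos_succ]
      · rintro ⟨m, h1, h2, h3⟩ k hk
        rcases Nat.lt_or_ge k (n + 1) with hk' | hk'
        · exact h1 k (by omega)
        · have : k = n + 1 := by omega
          subst this
          rw [pos_succ, h1 n le_rfl, h2, h3]
    rw [hset, measure_biUnion_finset]
    · have hterm : ∀ m : Mark d, mkLaw κ ω x (mpath x ⁻¹' Cyl γ n ∩ shift n ⁻¹'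
          ((fun M : MPath d => M 0) ⁻¹' {m' | m' = m ∧ γ n + stp m = γ (n + 1)}))
          = mkLaw κ ω x (mpath x ⁻¹' Cyl γ n)
            * (if γ n + stp m = γ (n + 1) then mw κ (ω (γ n)) m else 0) := by
        intro m
        have hmm : MeasurableSet ((fun M : MPath d => M 0) ⁻¹'
            {m' | m' = m ∧ γ n + stp m = γ (n + 1)}) :=
          measurable_pi_apply 0 (Set.to_countable _).measurableSet
        rw [markov_det κ ω x (det_preimage_cyl x γ n) hmm]
        rw [setLIntegral_congr_fun (det_preimage_cyl x γ n).measurableSet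
          (g := fun _ => (if γ n + stp m = γ (n + 1) then mw κ (ω (γ n)) m else 0))]
        · rw [setLIntegral_const, mul_comm]
        · intro M hM
          simp only
          have hp : pos x M n = γ n := hM n le_rfl
          rw [hp, ← Measure.map_apply (measurable_pi_apply 0) (Set.to_countable _).measurableSet,
            mk_map_zero]
          split_ifs with h
          · have : {m' : Mark d | m' = m ∧ γ n + stp m = γ (n + 1)} = {m} := by
              ext m'; simp [h]
            rw [this, markLaw_singleton]
          · have : {m' : Mark d | m' = m ∧ γ n + stp m = γ (n + 1)} = ∅ := by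
              ext m'; simp [h]
            rw [this]; simp
      simp only [hterm]
      rw [← Finset.mul_sum, sum_mw_step, ih]
      split_ifs
      · rw [pathW, pathW, Finset.prod_range_succ]
      · simp
    · intro m _ m' _ hne
      refine Set.disjoint_left.2 fun M h1 h2 => hne ?_
      have e1 : M (n + 0) = m := h1.2.1
      have e2 : M (n + 0) = m' := h2.2.1
      exact e1.symm.trans e2
    · intro m _
      exact (det_preimage_cyl x γ n).measurableSet.inter
        (measurable_shift n (measurable_pi_apply 0 (Set.to_countable _).measurableSet))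

theorem mk_projection_of_le {κ : ℝ} {ω : Environment d} (h : ∀ z e, kf d κ ≤ (ω z).1 e)
    (x : Site d) : (mkLaw κ ω x).map (mpath x) = quenchedLaw ω x := by
  rw [mk_projection, regE_eq h]

/-- the annealed projection under uniform ellipticity -/
theorem mkAnn_projection {κ : ℝ} {Q : Measure (Environment d)}
    (hell : ∀ᵐ ω ∂Q, ∀ (z : Site d) (e : Step d), kf d κ ≤ (ω z).1 e) (x : Site d)
    {B : Set (Path d)} (hB : MeasurableSet B) :
    mkAnn κ Q x (mpath x ⁻¹' B) = annealedProb Q x B := by
  rw [mkAnn_apply κ Q x (measurable_mpath x hB)]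
  unfold annealedProb
  refine lintegral_congr_ae ?_
  filter_upwards [hell] with ω hω
  rw [← Measure.map_apply (measurable_mpath x) hB, mk_projection_of_le hω]

/-! ### shift covariance -/

theorem wgt_shiftEnv (κ : ℝ) (z : Site d) (ω : Environment d) (x : Site d) (W : MPath d) (n : ℕ) :
    wgt κ (shiftEnv z ω) x W n = wgt κ ω (x + z) W n := by
  refine Finset.prod_congr rfl fun i _ => ?_
  rw [pos_add]
  rfl

theorem mkLaw_shiftEnv (κ : ℝ) (z : Site d) (ω : Environment d) (x : Site d) :
    mkLaw κ (shiftEnv z ω) x = mkLaw κ ω (x + z) :=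
  ext_Cy fun W n => by rw [mk_cyl, mk_cyl, wgt_shiftEnv]

theorem mkAnn_stat {Q : Measure (Environment d)}
    (hstat : ∀ z : Site d, MeasurePreserving (shiftEnv z) Q Q) (κ : ℝ) (x : Site d) :
    mkAnn κ Q x = mkAnn κ Q 0 := by
  refine Measure.ext fun B hB => ?_
  rw [mkAnn_apply κ Q x hB, mkAnn_apply κ Q 0 hB]
  have : ∀ ω : Environment d, mkLaw κ ω x B = (fun ω => mkLaw κ ω 0 B) (shiftEnv x ω) := by
    intro ω
    simp only [mkLaw_shiftEnv, zero_add]
  simp only [this]
  exact (hstat x).lintegral_comp (measurable_mk_apply κ 0 hB)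

end Crest.Agent.R154.Mk561
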