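import Crest.Agent.R154.Key_850
import Crest.Agent.R154.MkB_561

/-! Row 154: the marked walk (561) as a walk space with read sites; its laws read only the rows at
unforced times. So exploration, pair theorem, K1 and KEY hold for the marked walk at range `R`. -/

set_option autoImplicit false

namespace Crest.Agent.R154

open MeasureTheory ProbabilityTheory Crest.ProbabilityR.RandomEnvironment
open scoped ENNReal

variable {d : ℕ}

/-- marked paths with a starting point. -/
abbrev SMPath (d : ℕ) : Type := Site d × Mk561.MPath d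

/-- history of a marked path. -/
def mkHist (n : ℕ) (p : SMPath d) : Site d × (Fin n → Mk561.Mark d) := (p.1, fun i => p.2 i)

/-- sites read before time `n` (positions at unforced times). -/
def mkRead (p : SMPath d) (n : ℕ) : Set (Site d) :=
  {z | ∃ i, i < n ∧ (p.2 i).2 = false ∧ Mk561.pos p.1 p.2 i = z}

lemma mkHist_eq_iff {n : ℕ} {p q : SMPath d} :
    mkHist n p = mkHist n q ↔ p.1 = q.1 ∧ ∀ i < n, p.2 i = q.2 i := by
  constructor
  · intro h
    obtain ⟨h1, h2⟩ := Prod.ext_iff.1 h
    exact ⟨h1, fun i hi => congrFun h2 ⟨i, hi⟩⟩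
  · rintro ⟨h1, h2⟩
    refine Prod.ext h1 ?_
    funext i
    exact h2 i i.2

lemma measurable_mkHist (n : ℕ) : Measurable (mkHist (d := d) n) :=
  measurable_fst.prodMk (measurable_pi_lambda _ fun i =>
    (measurable_pi_apply (i : ℕ)).comp measurable_snd)

/-- extension of a marked history. -/
def mkExt (m₀ : Mk561.Mark d) (n : ℕ) (h : Site d × (Fin n → Mk561.Mark d)) : SMPath d :=
  (h.1, fun i => if hi : i < n then h.2 ⟨i, hi⟩ else m₀)

lemma mkHist_ext (m₀ : Mk561.Mark d) (n : ℕ) (h : Site d × (Fin n → Mk561.Mark d)) :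
    mkHist n (mkExt m₀ n h) = h := by
  refine Prod.ext rfl ?_
  funext i
  simp [mkHist, mkExt]

lemma mk_gen (m₀ : Mk561.Mark d) : (inferInstance : MeasurableSpace (SMPath d))
    = MeasurableSpace.generateFrom
        {s | ∃ (X : SMPath d) (n : ℕ), s = {Y | mkHist n Y = mkHist n X}} := by
  set C : Set (Set (SMPath d)) := {s | ∃ (X : SMPath d) (n : ℕ), s = {Y | mkHist n Y = mkHist n X}}
    with hC
  have hcyl : ∀ (n : ℕ) (h : Site d × (Fin n → Mk561.Mark d)),
      MeasurableSet[MeasurableSpace.generateFrom C] {Y : SMPath d | mkHist n Y = h} := by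
    intro n h
    refine MeasurableSpace.measurableSet_generateFrom ⟨mkExt m₀ n h, n, ?_⟩
    rw [mkHist_ext]
  apply le_antisymm
  · have h1 : @Measurable _ _ (MeasurableSpace.generateFrom C) _
        (fun p : SMPath d => p.1) := by
      refine @measurable_to_countable' (Site d) (SMPath d) _ _
        (MeasurableSpace.generateFrom C) _ ?_
      intro a
      have : (fun p : SMPath d => p.1) ⁻¹' {a}
          = {Y : SMPath d | mkHist 0 Y = (a, fun i => i.elim0)} := by
        ext p
        simp only [Set.mem_preimage, Set.mem_singleton_iff, Set.mem_ofPred_eq]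
        constructor
        · intro h
          refine Prod.ext h ?_
          funext i
          exact i.elim0
        · intro h
          exact congrArg Prod.fst h
      rw [this]
      exact hcyl 0 _
    have h2 : @Measurable _ _ (MeasurableSpace.generateFrom C) _
        (fun p : SMPath d => p.2) := by
      refine @measurable_pi_lambda (SMPath d) ℕ (fun _ => Mk561.Mark d)
        (MeasurableSpace.generateFrom C) _ _ fun n => ?_
      refine @measurable_to_countable' (Mk561.Mark d) (SMPath d) _ _
        (MeasurableSpace.generateFrom C) _ ?_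
      intro m
      have : (fun p : SMPath d => p.2 n) ⁻¹' {m}
          = ⋃ h : {h : Site d × (Fin (n + 1) → Mk561.Mark d) // h.2 ⟨n, by omega⟩ = m},
              {Y : SMPath d | mkHist (n + 1) Y = h.1} := by
        ext p
        simp only [Set.mem_preimage, Set.mem_singleton_iff, Set.mem_iUnion, Subtype.exists,
          Set.mem_ofPred_eq]
        constructor
        · intro h
          exact ⟨mkHist (n + 1) p, h, rfl⟩
        · rintro ⟨h, hh, rfl⟩
          exact hh
      rw [this]
      exact MeasurableSet.iUnion fun h => hcyl (n + 1) h.1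
    have h3 := h1.prodMk h2
    have h4 : (fun p : SMPath d => (p.1, p.2)) = id := rfl
    rw [h4] at h3
    intro s hs
    exact h3 hs
  · refine MeasurableSpace.generateFrom_le ?_
    rintro _ ⟨X, n, rfl⟩
    exact measurable_mkHist n (measurableSet_singleton (mkHist n X))

/-- **the marked walk space.** -/
def mkWS (m₀ : Mk561.Mark d) : WalkSpace d (SMPath d) where
  H n := Site d × (Fin n → Mk561.Mark d)
  countH n := inferInstance
  hist := mkHist
  ext := mkExt m₀
  hist_ext := mkHist_ext m₀
  mono := by
    intro m n X Y hmn h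
    rw [mkHist_eq_iff] at h ⊢
    exact ⟨h.1, fun i hi => h.2 i (lt_of_lt_of_le hi hmn)⟩
  gen := mk_gen m₀
  pos p n := Mk561.pos p.1 p.2 n
  pos_det := by
    intro n X Y h
    rw [mkHist_eq_iff] at h
    rw [h.1]
    exact Mk561.pos_congr _ h.2 le_rfl
  read := mkRead
  read_det := by
    intro n X Y h
    rw [mkHist_eq_iff] at h
    ext z
    constructor
    · rintro ⟨i, hi, hf, hp⟩
      refine ⟨i, hi, by rw [← h.2 i hi]; exact hf, ?_⟩
      rw [← h.1, ← Mk561.pos_congr X.1 h.2 hi.le]
      exact hp
    · rintro ⟨i, hi, hf, hp⟩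
      refine ⟨i, hi, by rw [h.2 i hi]; exact hf, ?_⟩
      rw [Mk561.pos_congr X.1 h.2 hi.le, h.1]
      exact hp
  read_sub := by
    rintro X n z ⟨i, hi, _, hp⟩
    exact ⟨i, hi, hp⟩
  read_mono := by
    rintro X m n hmn z ⟨i, hi, hf, hp⟩
    exact ⟨i, lt_of_lt_of_le hi hmn, hf, hp⟩

/-- marked quenched law from `x` on paths with starting point. -/
noncomputable def smLaw (κ : ℝ) (ω : Environment d) (x : Site d) : Measure (SMPath d) :=
  (Mk561.mkLaw κ ω x).map (fun M => (x, M))

instance (κ : ℝ) (ω : Environment d) (x : Site d) : IsProbabilityMeasure (smLaw κ ω x) :=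
  Measure.isProbabilityMeasure_map measurable_prodMk_left.aemeasurable

/-- marked quenched kernel with initial law `μ`. -/
noncomputable def smK (κ : ℝ) (μ : Measure (Site d)) : Kernel (Environment d) (SMPath d) where
  toFun ω := μ.bind (fun x => smLaw κ ω x)
  measurable' := by
    refine Measure.measurable_of_measurable_coe _ fun A hA => ?_
    have : ∀ ω : Environment d, (μ.bind (fun x => smLaw κ ω x)) A
        = ∑' x, Mk561.mkLaw κ ω x ((fun M => (x, M)) ⁻¹' A) * μ {x} := by
      intro ω
      rw [Measure.bind_apply hA (measurable_of_countable _).aemeasurable, lintegral_countable']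
      refine tsum_congr fun x => ?_
      rw [smLaw, Measure.map_apply measurable_prodMk_left hA]
    simp_rw [this]
    exact Measurable.ennreal_tsum fun x =>
      (Mk561.measurable_mk_apply κ x (measurable_prodMk_left hA)).mul_const _

lemma smK_apply (κ : ℝ) (μ : Measure (Site d)) (ω : Environment d) {A : Set (SMPath d)}
    (hA : MeasurableSet A) :
    smK κ μ ω A = ∑' x, Mk561.mkLaw κ ω x ((fun M => (x, M)) ⁻¹' A) * μ {x} := by
  change (μ.bind (fun x => smLaw κ ω x)) A = _
  rw [Measure.bind_apply hA (measurable_of_countable _).aemeasurable, lintegral_countable']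
  refine tsum_congr fun x => ?_
  rw [smLaw, Measure.map_apply measurable_prodMk_left hA]

lemma smK_univ (κ : ℝ) (μ : Measure (Site d)) (ω : Environment d) :
    smK κ μ ω Set.univ = μ Set.univ := by
  rw [smK_apply κ μ ω MeasurableSet.univ]
  simp only [Set.preimage_univ, measure_univ, one_mul]
  have := lintegral_countable' (μ := μ) (fun _ : Site d => (1 : ℝ≥0∞))
  simp only [one_mul, lintegral_one] at this
  exact this.symm

instance (κ : ℝ) (μ : Measure (Site d)) [IsFiniteMeasure μ] : IsFiniteKernel (smK (d := d) κ μ) :=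
  ⟨⟨μ Set.univ, measure_lt_top _ _, fun ω => (smK_univ κ μ ω).le⟩⟩

instance (κ : ℝ) (μ : Measure (Site d)) [IsProbabilityMeasure μ] :
    IsMarkovKernel (smK (d := d) κ μ) :=
  ⟨fun ω => ⟨by rw [smK_univ]; exact measure_univ⟩⟩

lemma smK_cyl (κ : ℝ) (μ : Measure (Site d)) (ω : Environment d) (m₀ : Mk561.Mark d)
    (γ : SMPath d) (n : ℕ) :
    smK κ μ ω ((mkWS m₀).cyl γ n) = Mk561.wgt κ ω γ.1 γ.2 n * μ {γ.1} := by
  classical
  rw [smK_apply κ μ ω ((mkWS m₀).measurableSet_cyl γ n), tsum_eq_single γ.1]
  · congr 1
    rw [← Mk561.mk_cyl]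
    congr 1
    ext M
    change mkHist n (γ.1, M) = mkHist n γ ↔ _
    rw [mkHist_eq_iff]
    simp [Mk561.Cy]
  · intro x hx
    have : (fun M : Mk561.MPath d => (x, M)) ⁻¹' ((mkWS m₀).cyl γ n) = ∅ := by
      ext M
      simp only [Set.mem_preimage, Set.mem_empty_iff_false, iff_false]
      intro h
      have h' : mkHist n (x, M) = mkHist n γ := h
      rw [mkHist_eq_iff] at h'
      exact hx h'.1
    rw [this]
    simp

/-- **the marked laws read only the rows at unforced times.** -/
theorem readsOnly_smK (Q : Measure (Environment d)) (κ : ℝ) (μ : Measure (Site d))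
    (m₀ : Mk561.Mark d) : (mkWS m₀).ReadsOnly Q (smK κ μ) := by
  intro γ n
  refine ⟨fun ω => Mk561.wgt κ ω γ.1 γ.2 n * μ {γ.1}, ?_, ?_⟩
  · refine Measurable.mul_const ?_ _
    unfold Mk561.wgt
    refine Finset.measurable_prod _ fun i hi => ?_
    have hi' := Finset.mem_range.1 hi
    rcases hb : (γ.2 i).2 with _ | _
    · refine (Mk561.measurable_mw κ (γ.2 i)).comp (measurable_row _ ?_)
      exact ⟨i, hi', hb, rfl⟩
    · have : (fun ω : Environment d => Mk561.mw κ (ω (Mk561.pos γ.1 γ.2 i)) (γ.2 i))
          = fun _ => ENNReal.ofReal (Mk561.kf d κ) := by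
        funext ω
        simp [Mk561.mw, hb]
      rw [this]
      exact measurable_const
  · exact Filter.Eventually.of_forall fun ω => smK_cyl κ μ ω m₀ γ n

end Crest.Agent.R154
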