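import Crest.Agent.R154.TileB_872
import Crest.Agent.R154.KExp_402
import Crest.Agent.R154.MkWS_850

/-! Row 154, B8, TILE, (KS): definitions for the K-set bound of the UNCONFINED local tile
(helper480).  Killed marked natural climbs: stopped at the first time at which the own annealed
conditional success probability is below `s`. -/

set_option autoImplicit false
set_option linter.unusedSectionVars false
set_option linter.deprecated false

namespace Crest.Agent.R154.KS480

open MeasureTheory ProbabilityTheory Set Filter Crest.ProbabilityR.RandomEnvironment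
open Crest.Agent.R154.Ren263 (Det)
open Crest.Agent.R154.Mk561 Crest.Agent.R154.Q561
open Crest.Agent.R154.Flux132 (lev)
open Crest.Agent.R154.RatioR872
open scoped ENNReal

variable {d : ℕ}

/-- flagged cylinder: the marks before `n` and the flag of the mark `n` -/
def CyF (W : MPath d) (n : ℕ) : Set (MPath d) := {M | (∀ i < n, M i = W i) ∧ (M n).2 = (W n).2}

section defs

variable (u : Step d) (R : ℕ) (κ : ℝ) (Q : Measure (Environment d)) (s : ℝ≥0∞) (b : ℤ)

/-- natural climb from `x` to level `b` (first hit at time `m`) with exit in the target `T` -/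
def succM (T : Set (Site d)) (x : Site d) (m : ℕ) : Set (MPath d) :=
  {M | M ∈ ClM u R x b m ∧ pos x M m ∈ T}

/-- success: natural climb from `x` to level `b` with exit in the target `T` -/
def succ (T : Set (Site d)) (x : Site d) : Set (MPath d) := ⋃ m, succM u R b T x m

/-- **dip**: the annealed conditional success probability, given the marks before `n` and the flag
of the mark `n`, is below `s` -/
def dp (T : Set (Site d)) (x : Site d) (M : MPath d) (n : ℕ) : Prop :=
  mkAnn κ Q x (succ u R b T x ∩ CyF M n) < s * mkAnn κ Q x (CyF M n)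

/-- decision time of the killed walker: first hit of level `b` or first dip -/
noncomputable def tau (T : Set (Site d)) (x : Site d) (M : MPath d) : ℕ∞ :=
  KExp.fst fun n => b ≤ lev u (pos x M n) ∨ dp u R κ Q s b T x M n

/-- good: success at time `m`, no dip before -/
def goodM (T : Set (Site d)) (x : Site d) (m : ℕ) : Set (MPath d) :=
  {M | M ∈ succM u R b T x m ∧ ∀ i < m, ¬ dp u R κ Q s b T x M i}

/-- good: success without dip -/
def good (T : Set (Site d)) (x : Site d) : Set (MPath d) := ⋃ m, goodM u R κ Q s b T x m

/-- **contact probability of two killed walkers in independent environments**: targets `T`, `T'`,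
starting points `x`, `x'`; they read within `R` of each other before their decision times -/
noncomputable def mt (T T' : Set (Site d)) (x x' : Site d) : ℝ≥0∞ :=
  ((mkAnn κ Q x).prod (mkAnn κ Q x'))
    {p | ∃ i j : ℕ, (i : ℕ∞) < tau u R κ Q s b T x p.1 ∧ (j : ℕ∞) < tau u R κ Q s b T' x' p.2 ∧
      (p.1 i).2 = false ∧ (p.2 j).2 = false ∧ ∀ c, |pos x p.1 i c - pos x' p.2 j c| ≤ (R : ℤ)}

/-- **(ROW)**, the one geometric input of the K-set bound: start cells `S l`, targets `T l` -/
def ROW {ι : Type*} (S T : ι → Set (Site d)) (κx : ℝ≥0∞) : Prop :=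
  ∀ l, ∀ x ∈ S l, ∀ K : Finset ι, l ∉ K →
    ∑ l' ∈ K, ⨆ x' ∈ S l', mt u R κ Q s b (T l) (T l') x x' ≤ κx

/-- **(CAP)** (helper923's capacity bound in the frame), `H` = Harnack constant: the killed walker
from `x` meets the killed walker from `x'` with probability at most
`H s⁻²` x annealed probability of a natural climb from `x'` into the target of `x` -/
def CAP (H : ℝ≥0∞) : Prop :=
  ∀ (T T' : Set (Site d)) (x x' : Site d), lev u x = lev u x' →
    mt u R κ Q s b T T' x x' ≤ H / s ^ 2 * mkAnn κ Q x' (succ u R b T x')

/-! ### killed kernels -/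

/-- quenched mass of the killed climb from `x` into `T` -/
noncomputable def gg (T : Set (Site d)) (ω : Environment d) (x : Site d) : ℝ≥0∞ :=
  mkLaw κ ω x (good u R κ Q s b T x)

/-- quenched mass of the killed climb from `x` into `T` with exit site `z` -/
noncomputable def gz (T : Set (Site d)) (ω : Environment d) (x z : Site d) : ℝ≥0∞ :=
  mkLaw κ ω x (⋃ m, {M | M ∈ goodM u R κ Q s b T x m ∧ pos x M m = z})

/-- killed mass of the weight `w` -/
noncomputable def Fd (T : Set (Site d)) (w : Site d → ℝ≥0∞) (ω : Environment d) : ℝ≥0∞ :=
  ∑' x, w x * gg u R κ Q s b T ω x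

/-- killed exit weight -/
noncomputable def outd (T : Set (Site d)) (w : Site d → ℝ≥0∞) (ω : Environment d) (z : Site d) :
    ℝ≥0∞ := ∑' x, w x * gz u R κ Q s b T ω x z

end defs

end Crest.Agent.R154.KS480
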