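import Crest.Agent.R154.CapR_923
import Crest.Agent.R154.KSDefs_480
import Crest.Agent.R154.KBGrid_424

/-! Row 154, (KS) / (ROW) (helper923): **`KS480.CAP`** for the marked walk. -/

set_option autoImplicit false
set_option linter.unusedVariables false
set_option linter.unusedSectionVars false
set_option linter.deprecated false

namespace Crest.Agent.R154.Cap923

open MeasureTheory ProbabilityTheory Set Filter Crest.ProbabilityR.RandomEnvironment
open Crest.Agent.R154.Ren263 (Det)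
open Crest.Agent.R154.Mk561 Crest.Agent.R154.Q561
open Crest.Agent.R154.Flux132 (lev)
open Crest.Agent.R154.RatioR872 (ClM det_ClM)
open Crest.Agent.R154.Cont Crest.Agent.R154.Dip
open Crest.Agent.R154.KB424.GD (hK hK_ne_zero hK_ne_top gp_step step_toward kf_le_one)
open scoped ENNReal

variable {d : ℕ}

/-! ### Harnack in a strip -/

/-- the sites with level in `[α, b)` -/
def strip (u : Step d) (α b : ℤ) : Set (Site d) := {y | α ≤ lev u y ∧ lev u y < b}

/-- exit from the strip at level `b` in the target `T` -/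
def land (u : Step d) (α b : ℤ) (T : Set (Site d)) : Set (Path d) :=
  {Y | ∃ m : ℕ, lev u (Y m) = b ∧ Y m ∈ T ∧ ∀ i < m, Y i ∈ strip u α b}

lemma measurableSet_land (u : Step d) (α b : ℤ) (T : Set (Site d)) :
    MeasurableSet (land u α b T) := by
  have h : land u α b T = ⋃ m : ℕ, {Y | lev u (Y m) = b ∧ Y m ∈ T ∧ ∀ i < m, Y i ∈ strip u α b} := by
    ext Y
    simp [land]
  rw [h]
  refine MeasurableSet.iUnion fun m => measurableSet_of_agree m _ fun X Y hXY => ?_
  have h0 := hXY m le_rfl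
  constructor
  · rintro ⟨h1, h2, h3⟩
    exact ⟨h0 ▸ h1, h0 ▸ h2, fun i hi => by rw [← hXY i hi.le]; exact h3 i hi⟩
  · rintro ⟨h1, h2, h3⟩
    exact ⟨h0 ▸ h1, h0 ▸ h2, fun i hi => by rw [hXY i hi.le]; exact h3 i hi⟩

lemma consP_land {u : Step d} {α b : ℤ} {T : Set (Site d)} {a : Site d} (ha : a ∈ strip u α b)
    {Y : Path d} (hY : Y ∈ land u α b T) : consP a Y ∈ land u α b T := by
  obtain ⟨m, h1, h2, h3⟩ := hY
  refine ⟨m + 1, ?_, ?_, ?_⟩
  · simp only [consP, Nat.succ_ne_zero, if_false, Nat.add_sub_cancel]; exact h1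
  · simp only [consP, Nat.succ_ne_zero, if_false, Nat.add_sub_cancel]; exact h2
  · intro i hi
    unfold consP
    split_ifs with h0
    · exact ha
    · exact h3 _ (by omega)

lemma abs_stepVec_le (e : Step d) (j : Fin d) : |stepVec e j| ≤ 1 := by
  rcases e with ⟨i, c⟩
  by_cases h : j = i
  · subst h
    simp only [stepVec, Pi.single_eq_same]
    split_ifs <;> simp
  · simp only [stepVec]
    rw [Pi.single_eq_of_ne h]
    simp

lemma strip_step {u : Step d} {α b : ℤ} {a z : Site d} (ha : a ∈ strip u α b)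
    (hz : z ∈ strip u α b) {e : Step d}
    (h : ∀ j, |(a + stepVec e) j - z j| ≤ |a j - z j|) : a + stepVec e ∈ strip u α b := by
  have h1 := h u.1
  have h2 := abs_stepVec_le e u.1
  obtain ⟨a1, a2⟩ := ha
  obtain ⟨z1, z2⟩ := hz
  simp only [Pi.add_apply] at h1
  rw [Int.abs_eq_natAbs, Int.abs_eq_natAbs] at h1
  rw [Int.abs_eq_natAbs] at h2
  unfold strip lev at *
  simp only [mem_setOf_eq, Pi.add_apply]
  split_ifs at * <;> omega

lemma harnack_aux {u : Step d} {α b : ℤ} {T : Set (Site d)} {κ : ℝ} (ω : Environment d)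
    {z : Site d} (hz : z ∈ strip u α b) :
    ∀ (N : ℕ) (a : Site d), a ∈ strip u α b → ∑ j, (a j - z j).natAbs = N →
      ENNReal.ofReal (kf d κ) ^ N * Gp κ ω z (land u α b T) ≤ Gp κ ω a (land u α b T) := by
  intro N
  induction N with
  | zero =>
    intro a _ h0
    have : a = z := by
      funext j
      have := (Finset.sum_eq_zero_iff.1 h0) j (Finset.mem_univ j)
      omega
    rw [this]; simp
  | succ N ih =>
    intro a ha hN
    have : ∃ i, a i ≠ z i := by
      by_contra hcon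
      push Not at hcon
      have : ∑ j, (a j - z j).natAbs = 0 := Finset.sum_eq_zero fun j _ => by rw [hcon j]; simp
      omega
    obtain ⟨i, hi⟩ := this
    obtain ⟨e, h1, h2⟩ := step_toward hi
    have h3 := ih (a + stepVec e) (strip_step ha hz h1) (by omega)
    calc ENNReal.ofReal (kf d κ) ^ (N + 1) * Gp κ ω z (land u α b T)
        = ENNReal.ofReal (kf d κ) * (ENNReal.ofReal (kf d κ) ^ N * Gp κ ω z (land u α b T)) := by
          ring
      _ ≤ ENNReal.ofReal (kf d κ) * Gp κ ω (a + stepVec e) (land u α b T) := by gcongr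
      _ ≤ _ := gp_step ω (measurableSet_land u α b T) (fun Y hY => consP_land ha hY) e

theorem harnack (u : Step d) {α b : ℤ} {T : Set (Site d)} (κ : ℝ) {R : ℕ} (ω : Environment d)
    {a z : Site d} (ha : a ∈ strip u α b) (hz : z ∈ strip u α b)
    (haz : ∀ l, |a l - z l| ≤ (R : ℤ)) :
    hK d R κ * Gp κ ω z (land u α b T) ≤ Gp κ ω a (land u α b T) := by
  have hN : ∑ j, (a j - z j).natAbs ≤ d * R := by
    calc ∑ j, (a j - z j).natAbs ≤ ∑ _j : Fin d, R := Finset.sum_le_sum fun j _ => by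
          have h3 : |a j - z j| ≤ (R : ℤ) := haz j
          rw [Int.abs_eq_natAbs] at h3
          omega
      _ = d * R := by simp
  refine le_trans ?_ (harnack_aux ω hz _ a ha rfl)
  gcongr
  unfold hK
  exact pow_le_pow_right_of_le_one' (kf_le_one u κ) hN

/-! ### laws -/

section laws

variable {κ : ℝ} {Q : Measure (Environment d)} [IsProbabilityMeasure Q]

lemma bind_eq (x : Site d) : Q.bind (smP κ x) = (mkAnn κ Q x).map (Prod.mk x) := by
  refine Measure.ext fun A hA => ?_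
  have hm : MeasurableSet {M : MPath d | (x, M) ∈ A} := measurable_prodMk_left hA
  rw [Measure.bind_apply hA (Kernel.measurable _).aemeasurable,
    Measure.map_apply measurable_prodMk_left hA]
  simp only [smP_apply' κ x _ hA]
  rw [← mkAnn_apply κ Q x hm]
  rfl

lemma bind_apply (x : Site d) {A : Set (SMPath d)} (hA : MeasurableSet A) :
    (Q.bind (smP κ x)) A = mkAnn κ Q x {M | (x, M) ∈ A} := by
  rw [bind_eq, Measure.map_apply measurable_prodMk_left hA]
  rfl

lemma ind_apply (x y : Site d) {A : Set (SMPath d × SMPath d)} (hA : MeasurableSet A) :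
    WalkSpace.ind Q (smP κ x) (smP κ y) A
      = ((mkAnn κ Q x).prod (mkAnn κ Q y)) {p | ((x, p.1), (y, p.2)) ∈ A} := by
  unfold WalkSpace.ind
  rw [bind_eq, bind_eq,
    Measure.map_prod_map _ _ measurable_prodMk_left measurable_prodMk_left,
    Measure.map_apply (measurable_prodMk_left.prodMap measurable_prodMk_left) hA]
  rfl

end laws

/-! ### null histories -/

/-- some history of `X` has probability zero -/
def nul {Ω : Type} [MeasurableSpace Ω] (W : WalkSpace d Ω) (μ : Measure Ω) : Set Ω :=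
  {X | ∃ n : ℕ, μ (W.cyl X n) = 0}

lemma measurableSet_nul {Ω : Type} [MeasurableSpace Ω] (W : WalkSpace d Ω) (μ : Measure Ω) :
    MeasurableSet (nul W μ) := by
  refine measurableSet_of_open W _ ?_
  rintro X ⟨n, hn⟩
  exact ⟨n, fun Y h => ⟨n, by rw [← cyl_congr W h]; exact hn⟩⟩

lemma nul_zero {Ω : Type} [MeasurableSpace Ω] (W : WalkSpace d Ω) (μ : Measure Ω) :
    μ (nul W μ) = 0 := by
  have hsub : nul W μ ⊆ ⋃ n : ℕ, ⋃ h : {h : W.H n // μ (W.hcyl n h) = 0}, W.hcyl n h.1 := by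
    rintro X ⟨n, hn⟩
    refine mem_iUnion.2 ⟨n, mem_iUnion.2 ⟨⟨W.hist n X, ?_⟩, rfl⟩⟩
    exact hn
  refine measure_mono_null hsub ?_
  exact measure_iUnion_null fun n => measure_iUnion_null fun h => h.2

/-! ### the walkers -/

section walkers

variable (u : Step d) (R : ℕ) (b : ℤ) (T : Set (Site d)) (x : Site d)

/-- first hit of level `b` -/
noncomputable def hitT (u : Step d) (b : ℤ) (X : SMPath d) : ℕ∞ :=
  KExp.fst fun n => b ≤ lev u (pos X.1 X.2 n)

/-- success of the walker from `x` -/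
def Gs : Set (SMPath d) := {X | X.1 = x ∧ X.2 ∈ KS480.succ u R b T x}

lemma isStop_hitT : (fWS u).IsStop (hitT u b) := by
  refine KExp.isStop_fst (fWS u) (p := fun n X => b ≤ lev u (pos X.1 X.2 n)) fun n X Y h => ?_
  have h1 : pos X.1 X.2 n = pos Y.1 Y.2 n := (fWS u).pos_det n X Y h
  rw [h1]

lemma hitT_eq {X : SMPath d} {m : ℕ} (h : X.2 ∈ ClM u R X.1 b m) : hitT u b X = m := by
  refine le_antisymm (KExp.fst_le (p := fun n => b ≤ lev u (pos X.1 X.2 n)) h.1.ge) ?_
  by_contra hcon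
  rw [not_le] at hcon
  obtain ⟨i, hi, hp⟩ := KExp.fst_exists hcon
  have hi' : i < m := by exact_mod_cast hi
  have := h.2.1 i hi'
  omega

lemma lt_of_lt_hitT {X : SMPath d} {n : ℕ} (h : (n : ℕ∞) < hitT u b X) :
    lev u (pos X.1 X.2 n) < b :=
  not_le.1 (KExp.not_of_lt_fst (p := fun n => b ≤ lev u (pos X.1 X.2 n)) h)

lemma det_succM (m : ℕ) : Det m (KS480.succM u R b T x m) := by
  intro s s' h
  have hp : pos x s m = pos x s' m := pos_congr x h le_rfl
  unfold KS480.succM
  simp only [mem_setOf_eq]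
  rw [det_ClM u R x b m s s' h, hp]

lemma measurableSet_succ : MeasurableSet (KS480.succ u R b T x) :=
  MeasurableSet.iUnion fun m => (det_succM u R b T x m).measurableSet

lemma measurableSet_Gs : MeasurableSet (Gs u R b T x) :=
  (measurable_fst (measurableSet_singleton x)).inter (measurable_snd (measurableSet_succ u R b T x))

lemma Gs_mono {X Y : SMPath d} {n : ℕ} (h : fHist n X = fHist n Y) (hn : hitT u b X = n)
    (hX : X ∈ Gs u R b T x) : Y ∈ Gs u R b T x := by
  obtain ⟨h1, h2, h3⟩ := fHist_eq_iff.1 h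
  obtain ⟨g1, g2⟩ := hX
  obtain ⟨m, hm⟩ := mem_iUnion.1 g2
  have e1 : hitT u b X = m := hitT_eq u R b (by rw [g1]; exact hm.1)
  obtain rfl : m = n := by rw [hn] at e1; exact_mod_cast e1.symm
  exact ⟨by rw [← h1]; exact g1, mem_iUnion.2 ⟨m, (det_succM u R b T x m X.2 Y.2 h2).1 hm⟩⟩

lemma detBy_Gs : (fWS u).DetBy (hitT u b) (fun X => X ∈ Gs u R b T x) := by
  intro X Y n h hn
  have hnY : hitT u b Y = n := isStop_hitT u b X Y n h hn
  exact propext ⟨Gs_mono u R b T x h hn, Gs_mono u R b T x h.symm hnY⟩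

lemma Gs_lt_top : ∀ X ∈ Gs u R b T x, hitT u b X < ⊤ := by
  rintro X ⟨g1, g2⟩
  obtain ⟨m, hm⟩ := mem_iUnion.1 g2
  rw [hitT_eq u R b (m := m) (by rw [g1]; exact hm.1)]
  exact ENat.natCast_lt_top m

/-- a successful walker, at a reading time, is in the strip and lands in the target -/
lemma Gs_reads {X : SMPath d} (hX : X ∈ Gs u R b T x) {n : ℕ} (hn : (n : ℕ∞) < hitT u b X)
    (hr : rdM X n) : shp (fWS u) n X ∈ land u (lev u x + R) b T ∧
      (fWS u).pos X n ∈ strip u (lev u x + R) b := by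
  obtain ⟨g1, g2⟩ := hX
  obtain ⟨m, hm⟩ := mem_iUnion.1 g2
  have e1 : hitT u b X = m := hitT_eq u R b (by rw [g1]; exact hm.1)
  have hnm : n < m := by rw [e1] at hn; exact_mod_cast hn
  obtain ⟨⟨c1, c2, c3, c4⟩, c5⟩ := hm
  have hRn : R ≤ n := by
    by_contra hcon
    have := c3 n hnm (by omega)
    unfold rdM at hr
    rw [this] at hr
    exact absurd hr (by simp)
  have hpos : ∀ i, (fWS u).pos X i = pos x X.2 i := fun i => by
    show pos X.1 X.2 i = _
    rw [g1]
  have hst : ∀ i, n ≤ i → i < m → (fWS u).pos X i ∈ strip u (lev u x + R) b := fun i h1 h2 => by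
    rw [hpos]
    exact ⟨c4 i (by omega) h2.le, c2 i h2⟩
  refine ⟨⟨m - n, ?_, ?_, ?_⟩, hst n le_rfl hnm⟩
  · show lev u ((fWS u).pos X (n + (m - n))) = b
    rw [hpos, Nat.add_sub_cancel' hnm.le]; exact c1
  · show (fWS u).pos X (n + (m - n)) ∈ T
    rw [hpos, Nat.add_sub_cancel' hnm.le]; exact c5
  · intro i hi
    exact hst (n + i) (by omega) (by omega)

variable (κ : ℝ) (Q : Measure (Environment d)) [IsProbabilityMeasure Q] (s : ℝ≥0∞)

/-- the killed walker -/
noncomputable def kil : SMPath d → ℕ∞ := sτ (fWS u) (Q.bind (smP κ x)) (Gs u R b T x) s (hitT u b)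

lemma isStop_kil : (fWS u).IsStop (kil u R b T x κ Q s) := isStop_sτ _ _ _ _ (isStop_hitT u b)

/-- before its decision time, the killed walker has been natural -/
lemma kil_nat {T' : Set (Site d)} {Y : SMPath d} (hs : s ≠ 0)
    (hY : Y ∉ nul (fWS u) (Q.bind (smP κ x))) {n : ℕ} (hn : (n : ℕ∞) < kil u R b T' x κ Q s Y)
    (hr : rdM Y n) : Y.1 = x ∧ R ≤ n ∧ (∀ i < R, Y.2 i = (u, true)) ∧
      (∀ i ≤ n, lev u (pos x Y.2 i) < b) ∧ (∀ i, R ≤ i → i ≤ n → lev u x + R ≤ lev u (pos x Y.2 i))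
      ∧ lev u x + R ≤ b := by
  have h1 : (n : ℕ∞) < hitT u b Y := hn.trans_le (min_le_left _ _)
  have h2 : (n : ℕ∞) < dip (fWS u) (Q.bind (smP κ x)) (Gs u R b T' x) s Y :=
    hn.trans_le (min_le_right _ _)
  have h3 := good_before (fWS u) (Q.bind (smP κ x)) (Gs u R b T' x) s h2
  have h4 : (Q.bind (smP κ x)) ((fWS u).cyl Y n) ≠ 0 := fun h => hY ⟨n, h⟩
  have h5 : (Q.bind (smP κ x)) (Gs u R b T' x ∩ (fWS u).cyl Y n) ≠ 0 := by
    intro h
    rw [h] at h3
    exact absurd (le_antisymm h3 zero_le) (mul_ne_zero hs h4)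
  obtain ⟨V, hV1, hV2⟩ := nonempty_of_measure_ne_zero h5
  have hV2' : fHist n V = fHist n Y := hV2
  obtain ⟨e1, e2, e3⟩ := fHist_eq_iff.1 hV2'
  obtain ⟨g1, g2⟩ := hV1
  obtain ⟨m, hm⟩ := mem_iUnion.1 g2
  obtain ⟨⟨c1, c2, c3, c4⟩, c5⟩ := hm
  have hY1 : Y.1 = x := by rw [← e1]; exact g1
  have hpos : ∀ i ≤ n, pos x V.2 i = pos x Y.2 i := fun i hi => pos_congr x e2 hi
  have hlt : ∀ i ≤ n, lev u (pos x Y.2 i) < b := by
    intro i hi
    have := lt_of_lt_hitT u b (X := Y) (n := i) (lt_of_le_of_lt (by exact_mod_cast hi) h1)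
    rwa [hY1] at this
  have hnm : n < m := by
    by_contra hcon
    have h6 := hlt m (by omega)
    rw [← hpos m (by omega), c1] at h6
    omega
  have hRn : R ≤ n := by
    by_contra hcon
    have h6 := c3 n hnm (by omega)
    unfold rdM at hr
    rw [← e3, h6] at hr
    exact absurd hr (by simp)
  refine ⟨hY1, hRn, fun i hi => ?_, hlt, fun i h6 h7 => ?_, ?_⟩
  · rw [← e2 i (by omega)]
    exact c3 i (by omega) hi
  · rw [← hpos i h7]
    exact c4 i h6 (by omega)
  · have := c4 m (by omega) le_rfl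
    omega

/-- the killed walker with target `T'`, at a reading time: if it lands in `T`, it has made a
natural climb into `T`. -/
lemma kil_land {T' : Set (Site d)} {Y : SMPath d} (hs : s ≠ 0)
    (hY : Y ∉ nul (fWS u) (Q.bind (smP κ x))) {n : ℕ} (hn : (n : ℕ∞) < kil u R b T' x κ Q s Y)
    (hr : rdM Y n) (hF : shp (fWS u) n Y ∈ land u (lev u x + R) b T) : Y ∈ Gs u R b T x := by
  obtain ⟨g1, g2, g3, g4, g5, g6⟩ := kil_nat u R b x κ Q s hs hY hn hr
  obtain ⟨m, m1, m2, m3⟩ := hF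
  have hpos : ∀ i, shp (fWS u) n Y i = pos x Y.2 (n + i) := fun i => by
    show pos Y.1 Y.2 (n + i) = _
    rw [g1]
  rw [hpos] at m1 m2
  refine ⟨g1, mem_iUnion.2 ⟨n + m, ⟨m1, ?_, ?_, ?_⟩, m2⟩⟩
  · intro i hi
    rcases Nat.lt_or_ge n i with h | h
    · have := (m3 (i - n) (by omega)).2
      rw [hpos, Nat.add_sub_cancel' h.le] at this
      exact this
    · exact g4 i h
  · intro i _ hi
    exact g3 i hi
  · intro i h1 h2
    rcases Nat.lt_or_ge n i with h | h
    · rcases Nat.lt_or_ge i (n + m) with h' | h'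
      · have := (m3 (i - n) (by omega)).1
        rw [hpos, Nat.add_sub_cancel' h.le] at this
        exact this
      · obtain rfl : i = n + m := by omega
        rw [m1]; exact g6
    · exact g5 i h1 h

/-! ### the killed walker of helper480 -/

lemma low_iff (M : MPath d) (n : ℕ) :
    low (fWS u) (Q.bind (smP κ x)) (Gs u R b T x) s n (x, M) ↔ KS480.dp u R κ Q s b T x M n := by
  unfold low KS480.dp
  have m1 : MeasurableSet ((fWS u).cyl (x, M) n) := (fWS u).measurableSet_cyl _ _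
  rw [bind_apply x ((measurableSet_Gs u R b T x).inter m1), bind_apply x m1]
  have e1 : {M' : MPath d | (x, M') ∈ (fWS u).cyl (x, M) n} = KS480.CyF M n := by
    ext M'
    show fHist n (x, M') = fHist n (x, M) ↔ _
    rw [fHist_eq_iff]
    simp [KS480.CyF]
  have e2 : {M' : MPath d | (x, M') ∈ Gs u R b T x ∩ (fWS u).cyl (x, M) n}
      = KS480.succ u R b T x ∩ KS480.CyF M n := by
    rw [← e1]
    ext M'
    simp [Gs]
  rw [e1, e2]

lemma fst_or (p q : ℕ → Prop) : KExp.fst (fun n => p n ∨ q n) = min (KExp.fst p) (KExp.fst q) := by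
  refine le_antisymm (le_min ?_ ?_) ?_
  · by_contra hcon
    rw [not_le] at hcon
    obtain ⟨n, hn, h⟩ := KExp.fst_exists hcon
    exact absurd hn (not_lt.2 (KExp.fst_le (p := fun n => p n ∨ q n) (Or.inl h)))
  · by_contra hcon
    rw [not_le] at hcon
    obtain ⟨n, hn, h⟩ := KExp.fst_exists hcon
    exact absurd hn (not_lt.2 (KExp.fst_le (p := fun n => p n ∨ q n) (Or.inr h)))
  · by_contra hcon
    rw [not_le] at hcon
    obtain ⟨n, hn, h⟩ := KExp.fst_exists hcon
    rcases h with h | h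
    · exact absurd hn (not_lt.2 ((min_le_left _ _).trans (KExp.fst_le h)))
    · exact absurd hn (not_lt.2 ((min_le_right _ _).trans (KExp.fst_le h)))

lemma kil_eq (M : MPath d) : kil u R b T x κ Q s (x, M) = KS480.tau u R κ Q s b T x M := by
  unfold kil sτ KS480.tau hitT dip
  rw [fst_or]
  congr 1
  congr 1
  funext n
  exact propext (low_iff u R b T x κ Q s M n)

/-- `mt` is the probability of the contact set -/
lemma mt_eq (T' : Set (Site d)) (x' : Site d) :
    KS480.mt u R κ Q s b T T' x x' = WalkSpace.ind Q (smP κ x) (smP κ x')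
      (CT (fWS u) rdM R (kil u R b T x κ Q s) (kil u R b T' x' κ Q s)) := by
  rw [ind_apply x x' (measurableSet_CT (rdSpace_fWS u) (isStop_kil u R b T x κ Q s)
    (isStop_kil u R b T' x' κ Q s))]
  unfold KS480.mt
  congr 1
  ext p
  simp only [mem_setOf_eq]
  rw [mem_CT]
  simp only [kil_eq]
  exact Iff.rfl

end walkers

/-- **(CAP)** -/
theorem cap_of {u : Step d} {R : ℕ} {κ : ℝ} {Q : Measure (Environment d)} [IsProbabilityMeasure Q]
    (hR : IsFiniteRangeDependent Q R) (hfrc : R = 0 ∨ 0 < kf d κ) {c₀ : ℝ≥0∞} (hc : c₀ ≠ 0)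
    (hc' : c₀ ≠ ⊤) (hML : ∀ᵐ ω ∂Q, ∀ (z : Site d) (e : Step d),
      c₀ * ENNReal.ofReal ((reg κ (ω z)).1 e) ≤ mw κ (ω z) (e, false))
    {s : ℝ≥0∞} (hs : s ≠ 0) (hs' : s ≠ ⊤) (b : ℤ) :
    KS480.CAP u R κ Q s b (64 * (cU d κ / (c₀ * hK d R κ))) := by
  classical
  intro T T' x x' hxx
  rw [mt_eq]
  have hC : cU d κ ≠ 0 := by
    intro h
    unfold cU at h
    rw [add_eq_zero] at h
    have h1 := h.1
    split_ifs at h1 with h2
    · exact one_ne_zero h1
    · exact ENNReal.inv_ne_zero.2 (ne_top_of_le_ne_top ENNReal.one_ne_top (qf_le_one κ true)) h1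
  set N := nul (fWS u) (Q.bind (smP κ x')) with hN
  have mN : MeasurableSet N := measurableSet_nul _ _
  have hN0 : (Q.bind (smP κ x')) N = 0 := nul_zero _ _
  have key := capacity (W := fWS u) (rd := rdM) (R := R) (Q := Q) (P₁ := smP κ x) (P₂ := smP κ x')
    (F := land u (lev u x + R) b T) (Z := strip u (lev u x + R) b) (G₁ := Gs u R b T x)
    (G₂ := Gs u R b T x' ∪ N) (N := N) (τ := hitT u b) (S' := kil u R b T' x' κ Q s)
    (C₀ := cU d κ) (c₀ := c₀) (h₀ := hK d R κ) (rdSpace_fWS u) (k1p_smP u hR κ x x')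
    (isStop_hitT u b) (isStop_kil u R b T' x' κ Q s) (G := Gp κ)
    (Filter.Eventually.of_forall fun ω => mu_smP u κ x ω)
    (by filter_upwards [hML] with ω hω; exact ml_smP u κ x' ω hω)
    (measurableSet_land _ _ _ _) (measurableSet_Gs u R b T x)
    ((measurableSet_Gs u R b T x').union mN) (detBy_Gs u R b T x) (Gs_lt_top u R b T x) mN hN0
    (fun X hX n hn hr => Gs_reads u R b T x hX hn hr)
    (by
      intro Y n hn hr hF
      by_cases hY : Y ∈ N
      · exact Or.inr hY
      · refine Or.inl (kil_land u R b T x' κ Q s hs hY hn hr ?_)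
        rw [← hxx]; exact hF)
    (by
      intro Y n hY hn hr
      obtain ⟨g1, g2, g3, g4, g5, g6⟩ := kil_nat u R b x' κ Q s hs hY hn hr
      have hp : (fWS u).pos Y n = pos x' Y.2 n := by
        show pos Y.1 Y.2 n = _
        rw [g1]
      rw [hp, hxx]
      exact ⟨g5 n g2 le_rfl, g4 n le_rfl⟩)
    hC (cU_ne_top κ) hc hc' (hK_ne_zero hfrc) hK_ne_top
    (Filter.Eventually.of_forall fun ω y z hy hz hyz =>
      harnack u κ ω hz hy (fun l => by rw [abs_sub_comm]; exact hyz l)) hs hs'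
  refine key.trans ?_
  gcongr
  calc (Q.bind (smP κ x')) (Gs u R b T x' ∪ N)
      ≤ (Q.bind (smP κ x')) (Gs u R b T x') + (Q.bind (smP κ x')) N := measure_union_le _ _
    _ = mkAnn κ Q x' (KS480.succ u R b T x') := by
        rw [hN0, add_zero, bind_apply x' (measurableSet_Gs u R b T x')]
        congr 1
        ext M
        simp [Gs]

/-- **(CAP) in the frame**: `H` depends on `κ`, `R`, `d` and the constant `c` of 424's `Half` only.
`hc` is `KB424.Half κ Q`. -/
theorem cap_frame {u : Step d} {R : ℕ} {κ : ℝ} {Q : Measure (Environment d)}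
    [IsProbabilityMeasure Q] (F : Bind263.Frame Q κ R)
    (hc : ∃ c : ℝ, 0 < c ∧ ∀ᵐ ω ∂Q, ∀ (z : Site d) (e : Step d),
      c * (ω z).1 e ≤ (ω z).1 e - kf d κ) :
    ∃ H : ℝ≥0∞, H ≠ ⊤ ∧ ∀ s : ℝ≥0∞, s ≠ 0 → s ≠ ⊤ → ∀ b : ℤ, KS480.CAP u R κ Q s b H := by
  obtain ⟨c, hc0, hc⟩ := hc
  have hcc : ENNReal.ofReal c ≠ 0 := by simpa using hc0
  refine ⟨64 * (cU d κ / (ENNReal.ofReal c * hK d R κ)), ?_, fun s hs hs' b =>
    cap_of F.fin F.frc (c₀ := ENNReal.ofReal c) hcc ENNReal.ofReal_ne_top ?_ hs hs' b⟩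
  · exact ENNReal.mul_ne_top (by norm_num) (ENNReal.div_ne_top (cU_ne_top κ)
      (mul_ne_zero hcc (hK_ne_zero F.frc)))
  · filter_upwards [F.ell, hc] with ω h1 h2 z e
    rw [reg_eq (h1 z), ← ENNReal.ofReal_mul hc0.le]
    unfold mw
    refine ENNReal.ofReal_le_ofReal ?_
    simp only [Bool.false_eq_true, if_false]
    rw [reg_eq (h1 z)]
    exact h2 z e

end Crest.Agent.R154.Cap923
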