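import Crest.Agent.R154.Contact_424

/-! Row 154, B4 (helper424): the pair theorem with READ contact (both rows read), after 850's
GenPair; `K1P` for every walk space with reading times. -/

set_option autoImplicit false
set_option linter.unusedVariables false
set_option linter.unusedSectionVars false

namespace Crest.Agent.R154

open MeasureTheory ProbabilityTheory Crest.ProbabilityR.RandomEnvironment
open scoped ENNReal

namespace Cont

variable {d : ℕ} {Ω : Type} [MeasurableSpace Ω] (W : WalkSpace d Ω) (rd : Ω → ℕ → Prop)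

/-- the pair `(X stopped at S, T stopped at its first contact with the rows read by X)`. -/
noncomputable def stopPairK (R : ℕ) (S : Ω → ℕ∞) (p : Ω × Ω) : Ω × Ω :=
  (W.freeze (S p.1) p.1, W.freeze (kap W rd R (W.readE p.1 (S p.1)) p.2) p.2)

/-- stopping time in the pair exploration. -/
noncomputable def pairStopK (R : ℕ) (S : Ω → ℕ∞) (k : ℕ) (s : List (Ω × ℕ)) (X : Ω) : ℕ∞ :=
  match s with
  | [] => min (S X) k
  | q :: l => min (kap W rd R (W.listRows (q :: l)) X) k

/-- the pair exploration, cut at time `k`. -/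
noncomputable def pairExpK (R : ℕ) (S : Ω → ℕ∞) (P₁ P₂ : Kernel (Environment d) Ω) (k : ℕ) :
    GExplorer d Ω (List (Ω × ℕ)) where
  rows s := W.listRows s
  law s := match s with
    | [] => P₁
    | _ :: _ => P₂
  stop := pairStopK W rd R S k
  next s X := (W.freeze (pairStopK W rd R S k s X) X, (pairStopK W rd R S k s X).toNat) :: s

lemma pairExpK_valid (hW : RdSpace W rd) (R : ℕ) {S : Ω → ℕ∞} (hS : W.IsStop S) (Q : Measure (Environment d))
    {P₁ P₂ : Kernel (Environment d) Ω} (h₁ : W.ReadsOnly Q P₁) (h₂ : W.ReadsOnly Q P₂) (k : ℕ) :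
    (pairExpK W rd R S P₁ P₂ k).Valid W Q R where
  isStop s := by
    cases s with
    | nil => exact W.isStop_min_nat hS k
    | cons q l => exact W.isStop_min_nat (isStop_kap hW.det _) k
  det s := by
    intro X Y n hXY hn
    have hY : pairStopK W rd R S k s Y = n := by
      cases s with
      | nil => exact W.isStop_min_nat hS k X Y n hXY hn
      | cons q l => exact W.isStop_min_nat (isStop_kap hW.det _) k X Y n hXY hn
    have hX : pairStopK W rd R S k s X = n := hn
    simp only [pairExpK, hX, hY, W.freeze_congr hXY]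
  far s := by
    intro X n hn z hz
    cases s with
    | nil =>
      intro a ha
      obtain ⟨q, hq, _⟩ := ha
      exact absurd hq (List.not_mem_nil)
    | cons q l =>
      have h1 : min (kap W rd R (W.listRows (q :: l)) X) (k : ℕ∞) = n := hn
      obtain ⟨i, hi, hrd, rfl⟩ := (hW.read_iff X n z).1 hz
      by_contra hcon
      have h2 : kap W rd R (W.listRows (q :: l)) X ≤ i := ft_le ⟨hrd, hcon⟩
      have h3 : (n : ℕ∞) ≤ i := h1 ▸ (min_le_left _ _).trans h2
      have h4 : n ≤ i := by exact_mod_cast h3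
      omega
  rows_next s := by
    intro X n hn z hz
    have hX : pairStopK W rd R S k s X = n := hn
    rcases hz with hz | hz
    · obtain ⟨q, hq, hz⟩ := hz
      exact ⟨q, List.mem_cons_of_mem _ hq, hz⟩
    · refine ⟨_, List.mem_cons_self, ?_⟩
      simp only [hX, ENat.toNat_natCast]
      rw [← W.read_det n X _ (W.hist_freeze_self n X)]
      exact hz
  reads s := by
    cases s with
    | nil => exact h₁
    | cons q l => exact h₂

/-- the cut events. -/
def cutEvK (R : ℕ) (S : Ω → ℕ∞) (γ δ : Ω) (n m k : ℕ) : Set (Ω × Ω) :=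
  {p | W.freeze (min (S p.1) k) p.1 ∈ W.cyl γ n ∧
    W.freeze (min (kap W rd R (W.readE p.1 (min (S p.1) k)) p.2) k) p.2 ∈ W.cyl δ m}

lemma cutEvK_congr (hW : RdSpace W rd) (R : ℕ) {S : Ω → ℕ∞} (hS : W.IsStop S) (γ δ : Ω) (n m k : ℕ)
    (p q : Ω × Ω) (h1 : W.hist k p.1 = W.hist k q.1) (h2 : W.hist k p.2 = W.hist k q.2)
    (hp : p ∈ cutEvK W rd R S γ δ n m k) : q ∈ cutEvK W rd R S γ δ n m k := by
  obtain ⟨hp1, hp2⟩ := hp
  obtain ⟨j, hj⟩ := ENat.ne_top_iff_exists.1 (min_nat_lt_top (S p.1) k).ne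
  have hjk : j ≤ k := by
    have : (j : ℕ∞) ≤ k := hj ▸ min_le_right _ _
    exact_mod_cast this
  have hj1 := W.mono _ _ hjk h1
  have hq : min (S q.1) (k : ℕ∞) = j := W.isStop_min_nat hS k p.1 q.1 j hj1 hj.symm
  have e1 : W.freeze (min (S q.1) k) q.1 = W.freeze (min (S p.1) k) p.1 := by
    rw [hq, ← hj]
    exact (W.freeze_congr hj1).symm
  have e2 : W.readE q.1 (min (S q.1) k) = W.readE p.1 (min (S p.1) k) := by
    rw [hq, ← hj, W.readE_coe, W.readE_coe]
    exact (W.read_det j _ _ hj1).symm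
  refine ⟨by rw [e1]; exact hp1, ?_⟩
  rw [e2]
  set V := W.readE p.1 (min (S p.1) k) with hV
  obtain ⟨l, hl⟩ := ENat.ne_top_iff_exists.1 (min_nat_lt_top (kap W rd R V p.2) k).ne
  have hlk : l ≤ k := by
    have : (l : ℕ∞) ≤ k := hl ▸ min_le_right _ _
    exact_mod_cast this
  have hl2 := W.mono _ _ hlk h2
  have hq2 : min (kap W rd R V q.2) (k : ℕ∞) = l :=
    W.isStop_min_nat (isStop_kap hW.det _) k p.2 q.2 l hl2 hl.symm
  rw [hq2, ← W.freeze_congr hl2, hl]
  exact hp2

lemma measurableSet_cutEvK (hW : RdSpace W rd) (R : ℕ) {S : Ω → ℕ∞} (hS : W.IsStop S) (γ δ : Ω) (n m k : ℕ) :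
    MeasurableSet (cutEvK W rd R S γ δ n m k) :=
  W.measurableSet_of_hist_pair k _ fun p q h1 h2 => cutEvK_congr W rd hW R hS γ δ n m k p q h1 h2

lemma pairPayK_eq (R : ℕ) {S : Ω → ℕ∞} (P₁ P₂ : Kernel (Environment d) Ω) (γ δ : Ω)
    (n m k : ℕ) (X T : Ω) :
    W.pairPay γ δ n m ((pairExpK W rd R S P₁ P₂ k).next ((pairExpK W rd R S P₁ P₂ k).next [] X) T)
      = (cutEvK W rd R S γ δ n m k).indicator 1 (X, T) := by
  classical
  obtain ⟨j, hj⟩ := ENat.ne_top_iff_exists.1 (min_nat_lt_top (S X) k).ne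
  have e1 : pairStopK W rd R S k [] X = j := hj.symm
  have e2 : W.listRows [(W.freeze (pairStopK W rd R S k [] X) X, (pairStopK W rd R S k [] X).toNat)]
      = W.readE X (min (S X) k) := by
    rw [e1, W.listRows_single, ← hj, W.readE_coe, ENat.toNat_natCast]
    exact (W.read_det j _ _ (W.hist_freeze_self j X)).symm
  simp only [pairExpK, pairPay]
  simp only [pairStopK] at e2 ⊢
  rw [e2]
  simp only [Set.indicator_apply, cutEvK, Set.mem_ofPred_eq, Pi.one_apply]
  by_cases h1 : W.freeze (min (S X) k) X ∈ W.cyl γ n <;>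
    by_cases h2 : W.freeze (min (kap W rd R (W.readE X (min (S X) k)) T) k) T ∈ W.cyl δ m <;>
    simp [WalkSpace.pairPay, h1, h2]

lemma pairStopK_lt_top (R : ℕ) (S : Ω → ℕ∞) (k : ℕ) (s : List (Ω × ℕ)) (X : Ω) :
    pairStopK W rd R S k s X < ⊤ := by
  cases s with
  | nil => exact min_nat_lt_top _ _
  | cons q l => exact min_nat_lt_top _ _

/-- the two laws agree on the cut events. -/
lemma cutEvK_eq (hW : RdSpace W rd) (R : ℕ) {S : Ω → ℕ∞} (hS : W.IsStop S) (Q : Measure (Environment d))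
    [IsProbabilityMeasure Q] (hQ : IndepAt R Q) {P₁ P₂ : Kernel (Environment d) Ω}
    [IsFiniteKernel P₁] [IsFiniteKernel P₂] (h₁ : W.ReadsOnly Q P₁) (h₂ : W.ReadsOnly Q P₂)
    (γ δ : Ω) (n m k : ℕ) :
    WalkSpace.same Q P₁ P₂ (cutEvK W rd R S γ δ n m k) = WalkSpace.ind Q P₁ P₂ (cutEvK W rd R S γ δ n m k) := by
  have hmeas := measurableSet_cutEvK W rd hW R hS γ δ n m k
  have key := (pairExpK W rd R S P₁ P₂ k).explore_prob (pairExpK_valid W rd hW R hS Q h₁ h₂ k) hQ
    (W.pairPay γ δ n m) 2 []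
  have huniv : ∀ s, {X | (pairExpK W rd R S P₁ P₂ k).stop s X < ⊤} = Set.univ := by
    intro s
    rw [Set.eq_univ_iff_forall]
    intro X
    exact pairStopK_lt_top W rd R S k s X
  have hq : ∀ ω, (pairExpK W rd R S P₁ P₂ k).qVal (W.pairPay γ δ n m) ω 2 []
      = ((P₁ ω).prod (P₂ ω)) (cutEvK W rd R S γ δ n m k) := by
    intro ω
    rw [Measure.prod_apply hmeas]
    simp only [GExplorer.qVal, huniv, Measure.restrict_univ]
    refine lintegral_congr fun X => ?_
    rw [← lintegral_indicator_one (measurable_prodMk_left hmeas)]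
    refine lintegral_congr fun T => ?_
    rw [pairPayK_eq W rd R]
    rfl
  have ha : (pairExpK W rd R S P₁ P₂ k).aVal (W.pairPay γ δ n m) Q 2 []
      = ((Q.bind P₁).prod (Q.bind P₂)) (cutEvK W rd R S γ δ n m k) := by
    rw [Measure.prod_apply hmeas]
    simp only [GExplorer.aVal, huniv, Measure.restrict_univ]
    refine lintegral_congr fun X => ?_
    rw [← lintegral_indicator_one (measurable_prodMk_left hmeas)]
    refine lintegral_congr fun T => ?_
    rw [pairPayK_eq W rd R]
    rfl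
  rw [WalkSpace.same_apply _ _ _ hmeas, WalkSpace.ind, ← ha, ← key]
  exact lintegral_congr fun ω => (hq ω).symm

/-! ### passage to the limit -/

lemma eventually_cutEvK (R : ℕ) (S : Ω → ℕ∞) (γ δ : Ω) (n m : ℕ) (p : Ω × Ω) :
    ∀ᶠ k in Filter.atTop, p ∈ cutEvK W rd R S γ δ n m k ↔
      p ∈ stopPairK W rd R S ⁻¹' (W.cyl γ n ×ˢ W.cyl δ m) := by
  obtain ⟨X, T⟩ := p
  have h1 : ∀ᶠ k in Filter.atTop, W.hist m
      (W.freeze (kap W rd R (W.readE X (min (S X) (k : ℕ))) T) T)
      = W.hist m (W.freeze (kap W rd R (W.readE X (S X)) T) T) := by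
    have hsub : ∀ k : ℕ, W.readE X (min (S X) k) ⊆ W.readE X (S X) :=
      fun k => W.readE_mono X (min_le_left _ _)
    rcases le_or_gt (m : ℕ∞) (kap W rd R (W.readE X (S X)) T) with hc | hc
    · refine Filter.Eventually.of_forall fun k => ?_
      rw [W.hist_freeze_of_le hc, W.hist_freeze_of_le (hc.trans (kap_anti (hsub k) T))]
    · obtain ⟨j, hj⟩ := ENat.ne_top_iff_exists.1 (hc.trans (ENat.natCast_lt_top m)).ne
      obtain ⟨hrT, a, ⟨l, hl, ha⟩, ha2⟩ := kap_spec hj.symm
      filter_upwards [Filter.eventually_ge_atTop l] with k hk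
      have h3 : kap W rd R (W.readE X (min (S X) k)) T ≤ j := by
        refine ft_le ⟨hrT, not_far_iff.2 ⟨a, ⟨l, le_min hl (by exact_mod_cast hk), ha⟩, ha2⟩⟩
      have h4 : kap W rd R (W.readE X (min (S X) k)) T = kap W rd R (W.readE X (S X)) T :=
        le_antisymm (hj ▸ h3) (kap_anti (hsub k) T)
      rw [h4]
  filter_upwards [h1, Filter.eventually_ge_atTop n, Filter.eventually_ge_atTop m]
    with k hk hn hm
  simp only [cutEvK, Set.mem_ofPred_eq, stopPairK, Set.mem_preimage, Set.mem_prod]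
  rw [W.mem_cyl_congr (W.hist_freeze_min (S X) k n hn X),
    W.mem_cyl_congr ((W.hist_freeze_min _ k m hm T).trans hk)]

variable [Nonempty Ω]

lemma measurable_stopPairK (hW : RdSpace W rd) (R : ℕ) {S : Ω → ℕ∞} (hS : W.IsStop S) :
    Measurable (stopPairK W rd R S) := by
  have h : @Measurable _ _ _ (MeasurableSpace.generateFrom
      (Set.image2 (· ×ˢ ·) W.cyls W.cyls)) (stopPairK W rd R S) := by
    refine measurable_generateFrom ?_
    rintro _ ⟨_, ⟨γ, n, rfl⟩, _, ⟨δ, m, rfl⟩, rfl⟩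
    exact measurableSet_of_tendsto_indicator Filter.atTop
      (fun k => measurableSet_cutEvK W rd hW R hS γ δ n m k)
      (fun p => eventually_cutEvK W rd R S γ δ n m p)
  exact h.mono le_rfl W.gen_prod.le

/-- **SAME ENVIRONMENT = INDEPENDENT ENVIRONMENTS up to the first contact (generic form).** -/
theorem same_map_eq_ind_mapK (hW : RdSpace W rd) (R : ℕ) {S : Ω → ℕ∞} (hS : W.IsStop S)
    (Q : Measure (Environment d)) [IsProbabilityMeasure Q] (hQ : IndepAt R Q)
    {P₁ P₂ : Kernel (Environment d) Ω} [IsFiniteKernel P₁] [IsFiniteKernel P₂]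
    (h₁ : W.ReadsOnly Q P₁) (h₂ : W.ReadsOnly Q P₂) :
    (WalkSpace.same Q P₁ P₂).map (stopPairK W rd R S) = (WalkSpace.ind Q P₁ P₂).map (stopPairK W rd R S) := by
  have hm := measurable_stopPairK W rd hW R hS
  refine W.measure_ext_prod fun γ δ n m => ?_
  rw [Measure.map_apply hm ((W.measurableSet_cyl _ _).prod (W.measurableSet_cyl _ _)),
    Measure.map_apply hm ((W.measurableSet_cyl _ _).prod (W.measurableSet_cyl _ _))]
  have h1 := tendsto_measure_of_tendsto_indicator_of_isFiniteMeasure Filter.atTop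
    (WalkSpace.same Q P₁ P₂) (fun k => measurableSet_cutEvK W rd hW R hS γ δ n m k)
    (fun p => eventually_cutEvK W rd R S γ δ n m p)
  have h2 := tendsto_measure_of_tendsto_indicator_of_isFiniteMeasure Filter.atTop
    (WalkSpace.ind Q P₁ P₂) (fun k => measurableSet_cutEvK W rd hW R hS γ δ n m k)
    (fun p => eventually_cutEvK W rd R S γ δ n m p)
  simp_rw [cutEvK_eq W rd hW R hS Q hQ h₁ h₂] at h1
  exact tendsto_nhds_unique h1 h2

/-- set form. -/
theorem same_eq_indK (hW : RdSpace W rd) (R : ℕ) {S : Ω → ℕ∞} (hS : W.IsStop S)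
    (Q : Measure (Environment d)) [IsProbabilityMeasure Q] (hQ : IndepAt R Q)
    {P₁ P₂ : Kernel (Environment d) Ω} [IsFiniteKernel P₁] [IsFiniteKernel P₂]
    (h₁ : W.ReadsOnly Q P₁) (h₂ : W.ReadsOnly Q P₂)
    {B : Set (Ω × Ω)} (hB : MeasurableSet B) (hdet : ∀ p, stopPairK W rd R S p ∈ B ↔ p ∈ B) :
    WalkSpace.same Q P₁ P₂ B = WalkSpace.ind Q P₁ P₂ B := by
  have hm := measurable_stopPairK W rd hW R hS
  have hpre : stopPairK W rd R S ⁻¹' B = B := by
    ext p
    exact hdet p
  have := congrArg (fun m => m B) (same_map_eq_ind_mapK W rd hW R hS Q hQ h₁ h₂)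
  simp only [Measure.map_apply hm hB, hpre] at this
  exact this


/-- **`K1P` holds on every walk space with reading times.** -/
theorem k1p (hW : RdSpace W rd) (R : ℕ) (Q : Measure (Environment d)) [IsProbabilityMeasure Q]
    (hQ : IndepAt R Q) {P₁ P₂ : Kernel (Environment d) Ω} [IsFiniteKernel P₁] [IsFiniteKernel P₂]
    (h₁ : W.ReadsOnly Q P₁) (h₂ : W.ReadsOnly Q P₂) : K1P W rd R Q P₁ P₂ := by
  intro S S' hS hS' C hC hdet hle
  refine same_eq_indK W rd hW R hS Q hQ h₁ h₂ hC fun p => ?_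
  obtain ⟨X, T⟩ := p
  have e1 : S (W.freeze (S X) X) = S X := W.stop_freeze hS X
  have eV : W.readE X (S X) = rows W rd X (S X) := readE_eq_rows hW X (S X)
  have eX : rows W rd (W.freeze (S X) X) (S (W.freeze (S X) X)) = rows W rd X (S X) := by
    rw [e1]
    exact ((ag_freeze (W := W) (S X) X).rows_eq hW.det).symm
  simp only [stopPairK, eV]
  set V := rows W rd X (S X) with hV
  have e2 : kap W rd R V (W.freeze (kap W rd R V T) T) = kap W rd R V T :=
    W.stop_freeze (isStop_kap hW.det V) T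
  constructor
  · intro h
    have h3 := hle _ _ h
    rw [eX, e2] at h3
    refine hdet _ _ _ _ ?_ ?_ h
    · rw [e1]; exact (ag_freeze (W := W) (S X) X).symm
    · exact ((ag_freeze (W := W) (kap W rd R V T) T).symm).mono h3
  · intro h
    refine hdet _ _ _ _ (ag_freeze (W := W) (S X) X) ?_ h
    exact (ag_freeze (W := W) (kap W rd R V T) T).mono (hle _ _ h)

end Cont

end Crest.Agent.R154
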