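import Crest.Agent.R154.Dip_402
import Crest.Agent.R154.ContK1_424

/-! Row 154, (KS) / (ROW) (helper923): **the capacity bound** for two walkers stopped at their
dips, in a walk space (same environment = independent environments before read contact). -/

set_option autoImplicit false
set_option linter.unusedVariables false
set_option linter.unusedSectionVars false

namespace Crest.Agent.R154.Cap923

open MeasureTheory ProbabilityTheory Crest.ProbabilityR.RandomEnvironment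
open Crest.Agent.R154.Cont Crest.Agent.R154.Dip
open scoped ENNReal

variable {d : ℕ} {Ω : Type} [MeasurableSpace Ω] {W : WalkSpace d Ω} {rd : Ω → ℕ → Prop} {R : ℕ}

/-! ### the contact set -/

/-- the walker `p.1`, seen up to `σ`, and the walker `p.2`, seen up to `S'`, read within `R` of each
other -/
def CT (W : WalkSpace d Ω) (rd : Ω → ℕ → Prop) (R : ℕ) (σ S' : Ω → ℕ∞) : Set (Ω × Ω) :=
  {p | kap W rd R (rows W rd p.1 (σ p.1)) p.2 < S' p.2}

lemma mem_CT {σ S' : Ω → ℕ∞} {p : Ω × Ω} : p ∈ CT W rd R σ S' ↔ ∃ i j : ℕ,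
    (i : ℕ∞) < σ p.1 ∧ (j : ℕ∞) < S' p.2 ∧ rd p.1 i ∧ rd p.2 j ∧
      ∀ l, |W.pos p.1 i l - W.pos p.2 j l| ≤ (R : ℤ) := by
  unfold CT
  simp only [Set.mem_ofPred_eq, kap_lt_iff]
  constructor
  · rintro ⟨n, hn, hr, a, ⟨i, hi, hX, rfl⟩, h⟩
    exact ⟨i, n, hi, hn, hX, hr, h⟩
  · rintro ⟨i, n, hi, hn, hX, hr, h⟩
    exact ⟨n, hn, hr, _, ⟨i, hi, hX, rfl⟩, h⟩

lemma mem_CT' {σ S' : Ω → ℕ∞} {p : Ω × Ω} : p ∈ CT W rd R σ S' ↔
    kap W rd R (rows W rd p.2 (S' p.2)) p.1 < σ p.1 := by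
  rw [mem_CT, kap_lt_iff]
  constructor
  · rintro ⟨i, n, hi, hn, hX, hr, h⟩
    exact ⟨i, hi, hX, _, ⟨n, hn, hr, rfl⟩, fun l => by rw [abs_sub_comm]; exact h l⟩
  · rintro ⟨i, hi, hX, a, ⟨n, hn, hr, rfl⟩, h⟩
    exact ⟨i, n, hi, hn, hX, hr, fun l => by rw [abs_sub_comm]; exact h l⟩

lemma CT_congr (hW : RdSpace W rd) {σ S' : Ω → ℕ∞} (hσ : W.IsStop σ) (hS : W.IsStop S')
    {X X' T T' : Ω} (h : Ag W (σ X) X X') (h' : Ag W (S' T) T T') (hp : (X, T) ∈ CT W rd R σ S') :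
    (X', T') ∈ CT W rd R σ S' := by
  rw [mem_CT] at hp ⊢
  obtain ⟨i, j, hi, hj, h1, h2, h3⟩ := hp
  simp only at hi hj h1 h2 h3 ⊢
  refine ⟨i, j, ?_, ?_, (h.pdet hW.det hi.le).1 h1, (h'.pdet hW.det hj.le).1 h2, ?_⟩
  · rw [h.stop_eq hσ le_rfl]; exact hi
  · rw [h'.stop_eq hS le_rfl]; exact hj
  · rw [← h.pos hi.le, ← h'.pos hj.le]; exact h3

lemma measurableSet_CT (hW : RdSpace W rd) {σ S' : Ω → ℕ∞} (hσ : W.IsStop σ) (hS : W.IsStop S') :
    MeasurableSet (CT W rd R σ S') := by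
  refine measurableSet_of_open_pair W _ ?_
  rintro ⟨X, T⟩ hp
  rw [mem_CT] at hp
  obtain ⟨i, j, hi, hj, h1, h2, h3⟩ := hp
  simp only at hi hj h1 h2 h3
  refine ⟨max i j, ?_⟩
  rintro ⟨X', T'⟩ hX hT
  simp only at hX hT
  have g1 := ag_of_hist (W.mono _ _ (le_max_left i j) hX)
  have g2 := ag_of_hist (W.mono _ _ (le_max_right i j) hT)
  rw [mem_CT]
  refine ⟨i, j, g1.lt_stop hσ hi, g2.lt_stop hS hj, (g1.pdet hW.det le_rfl).1 h1,
    (g2.pdet hW.det le_rfl).1 h2, ?_⟩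
  simp only
  rw [← g1.pos le_rfl, ← g2.pos le_rfl]
  exact h3

/-! ### same environment = independent environments -/

section laws

variable {Q : Measure (Environment d)} [IsProbabilityMeasure Q]
  {P₁ P₂ : Kernel (Environment d) Ω} [IsMarkovKernel P₁] [IsMarkovKernel P₂]

/-- contact, first walker in an event decided at `σ` -/
lemma same_CT (hW : RdSpace W rd) (hK : K1P W rd R Q P₁ P₂) {σ S' : Ω → ℕ∞} (hσ : W.IsStop σ)
    (hS : W.IsStop S') {B : Set Ω} (hB : MeasurableSet B)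
    (hBd : ∀ X X', Ag W (σ X) X X' → X ∈ B → X' ∈ B) :
    WalkSpace.same Q P₁ P₂ ({p | p.1 ∈ B} ∩ CT W rd R σ S')
      = WalkSpace.ind Q P₁ P₂ ({p | p.1 ∈ B} ∩ CT W rd R σ S') := by
  have mC : MeasurableSet {p : Ω × Ω | p.1 ∈ B} := measurable_fst hB
  have mJ := measurableSet_CT (R := R) hW hσ hS
  have h1 : WalkSpace.same Q P₁ P₂ ({p | p.1 ∈ B} \ CT W rd R σ S')
      = WalkSpace.ind Q P₁ P₂ ({p | p.1 ∈ B} \ CT W rd R σ S') := by
    refine hK σ S' hσ hS _ (mC.diff mJ) ?_ ?_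
    · rintro X X' T T' hX hT ⟨g1, g2⟩
      refine ⟨hBd X X' hX g1, fun h => g2 (CT_congr hW hσ hS ?_ ?_ h)⟩
      · rw [hX.stop_eq hσ le_rfl]; exact hX.symm
      · rw [hT.stop_eq hS le_rfl]; exact hT.symm
    · rintro X T ⟨-, g2⟩
      exact not_lt.1 g2
  have e1 := measure_inter_add_sdiff (μ := WalkSpace.same Q P₁ P₂) {p : Ω × Ω | p.1 ∈ B} mJ
  have e2 := measure_inter_add_sdiff (μ := WalkSpace.ind Q P₁ P₂) {p : Ω × Ω | p.1 ∈ B} mJ
  have e3 : WalkSpace.same Q P₁ P₂ {p : Ω × Ω | p.1 ∈ B} = (Q.bind P₁) B :=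
    WalkSpace.same_fst Q hB
  have e4 : WalkSpace.ind Q P₁ P₂ {p : Ω × Ω | p.1 ∈ B} = (Q.bind P₁) B :=
    WalkSpace.ind_fst Q
  rw [e3] at e1
  rw [e4, ← h1, ← e1] at e2
  exact ((ENNReal.add_left_inj (measure_ne_top _ _)).1 e2).symm

end laws

/-! ### the estimate in a fixed environment -/

lemma isStop_const (W : WalkSpace d Ω) (n : ℕ∞) : W.IsStop (fun _ : Ω => n) :=
  fun _ _ _ _ h => h

section fixed

variable {P₁ P₂ : Measure Ω} [IsProbabilityMeasure P₁] [IsProbabilityMeasure P₂]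
  {G : Site d → Measure (Path d)} {F : Set (Path d)} {Z : Set (Site d)} {B G₂ N : Set Ω}
  {σ S' : Ω → ℕ∞} {C₀ c₀ h₀ b : ℝ≥0∞}

/-- contact of the second walker at a site with chance at least `b` -/
def B1 (W : WalkSpace d Ω) (rd : Ω → ℕ → Prop) (R : ℕ) (S' : Ω → ℕ∞) (G : Site d → Measure (Path d))
    (F : Set (Path d)) (b : ℝ≥0∞) (V : Set (Site d)) : Set Ω :=
  {T | ∃ n : ℕ, kap W rd R V T = n ∧ (n : ℕ∞) < S' T ∧ b ≤ G (W.pos T n) F}

/-- contact of the first walker with a site of chance below `b` -/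
def B2 (W : WalkSpace d Ω) (rd : Ω → ℕ → Prop) (R : ℕ) (σ : Ω → ℕ∞) (Z : Set (Site d))
    (V : Set (Site d)) : Set Ω :=
  {X | ∃ n : ℕ, kap W rd R V X = n ∧ (n : ℕ∞) < σ X ∧ W.pos X n ∈ Z}

lemma B1_congr (hW : RdSpace W rd) (hS : W.IsStop S') {V : Set (Site d)} {X Y : Ω} {n : ℕ}
    (h : W.hist n X = W.hist n Y) (hn : kap W rd R V X = n) (hX : X ∈ B1 W rd R S' G F b V) :
    Y ∈ B1 W rd R S' G F b V := by
  obtain ⟨m, hm, h1, h2⟩ := hX
  obtain rfl : m = n := by rw [hn] at hm; exact_mod_cast hm.symm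
  exact ⟨m, isStop_kap hW.det _ X Y m h hm, (pdet_lt_stop hS m X Y h).1 h1, by
    rw [← W.pos_det m X Y h]; exact h2⟩

lemma B2_congr (hW : RdSpace W rd) (hσ : W.IsStop σ) {V : Set (Site d)} {X Y : Ω} {n : ℕ}
    (h : W.hist n X = W.hist n Y) (hn : kap W rd R V X = n) (hX : X ∈ B2 W rd R σ Z V) :
    Y ∈ B2 W rd R σ Z V := by
  obtain ⟨m, hm, h1, h2⟩ := hX
  obtain rfl : m = n := by rw [hn] at hm; exact_mod_cast hm.symm
  exact ⟨m, isStop_kap hW.det _ X Y m h hm, (pdet_lt_stop hσ m X Y h).1 h1, by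
    rw [← W.pos_det m X Y h]; exact h2⟩

lemma measurableSet_A1 (hW : RdSpace W rd) (hσ : W.IsStop σ) (hS : W.IsStop S') :
    MeasurableSet {p : Ω × Ω | p.2 ∈ B1 W rd R S' G F b (rows W rd p.1 (σ p.1))} := by
  have : {p : Ω × Ω | p.2 ∈ B1 W rd R S' G F b (rows W rd p.1 (σ p.1))}
      = ⋃ n : ℕ, ((CT W rd R σ (fun _ => ((n + 1 : ℕ) : ℕ∞)) \ CT W rd R σ (fun _ => (n : ℕ∞)))
          ∩ {p | p.2 ∈ {T | (n : ℕ∞) < S' T ∧ b ≤ G (W.pos T n) F}}) := by
    ext p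
    simp only [B1, CT, Set.mem_ofPred_eq, Set.mem_iUnion, Set.mem_inter_iff, Set.mem_sdiff, not_lt]
    refine exists_congr fun n => ?_
    constructor
    · rintro ⟨h1, h2, h3⟩
      refine ⟨⟨?_, h1.ge⟩, h2, h3⟩
      rw [h1]; exact_mod_cast Nat.lt_succ_self n
    · rintro ⟨⟨h1, h1'⟩, h2, h3⟩
      refine ⟨le_antisymm ?_ h1', h2, h3⟩
      have := ENat.lt_add_one_iff (ENat.natCast_ne_top n) (m := kap W rd R (rows W rd p.1 (σ p.1)) p.2)
      push_cast at h1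
      exact this.1 h1
  rw [this]
  refine MeasurableSet.iUnion fun n => MeasurableSet.inter
    ((measurableSet_CT hW hσ (isStop_const W _)).diff (measurableSet_CT hW hσ (isStop_const W _)))
    (measurable_snd (W.measurableSet_of_hist n _ fun X Y h hX => ?_))
  exact ⟨(pdet_lt_stop hS n X Y h).1 hX.1, by rw [← W.pos_det n X Y h]; exact hX.2⟩

/-- **fixed environment**: contact with a successful first walker costs success of the second one,
or the first one has taken a small chance. -/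
theorem fixed_env (hW : RdSpace W rd) (hσ : W.IsStop σ) (hS : W.IsStop S')
    (hMU : MU W P₁ G C₀) (hML : ML W rd P₂ G c₀) (hFm : MeasurableSet F)
    (hB : MeasurableSet B) (hN : MeasurableSet N) (hN0 : P₂ N = 0)
    (hF1 : ∀ X ∈ B, ∀ n : ℕ, (n : ℕ∞) < σ X → rd X n → shp W n X ∈ F ∧ W.pos X n ∈ Z)
    (hF2 : ∀ (T : Ω) (n : ℕ), (n : ℕ∞) < S' T → rd T n → shp W n T ∈ F → T ∈ G₂)
    (hZ : ∀ (T : Ω) (n : ℕ), T ∉ N → (n : ℕ∞) < S' T → rd T n → W.pos T n ∈ Z)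
    (hc : c₀ ≠ 0) (hc' : c₀ ≠ ⊤) (h0 : h₀ ≠ 0) (h0' : h₀ ≠ ⊤) (hb : b ≠ 0) (hb' : b ≠ ⊤)
    (hH : ∀ y z : Site d, y ∈ Z → z ∈ Z → (∀ l, |y l - z l| ≤ (R : ℤ)) → h₀ * G y F ≤ G z F) :
    (P₁.prod P₂) ({p | p.1 ∈ B} ∩ CT W rd R σ S') ≤ (c₀ * b)⁻¹ * P₂ G₂
      + C₀ * (h₀⁻¹ * b) * (P₁.prod P₂) (CT W rd R σ S') := by
  classical
  set A : Set (Ω × Ω) := {p | p.1 ∈ B} ∩ CT W rd R σ S' with hA
  set A1 : Set (Ω × Ω) := {p | p.2 ∈ B1 W rd R S' G F b (rows W rd p.1 (σ p.1))} with hA1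
  have mCT := measurableSet_CT (R := R) hW hσ hS
  have mA : MeasurableSet A := (measurable_fst hB).inter mCT
  have mA1 : MeasurableSet A1 := measurableSet_A1 hW hσ hS
  have mN : MeasurableSet {p : Ω × Ω | p.2 ∈ N} := measurable_snd hN
  have hN1 : (P₁.prod P₂) {p : Ω × Ω | p.2 ∈ N} = 0 := by
    have : {p : Ω × Ω | p.2 ∈ N} = Set.univ ×ˢ N := by ext p; simp
    rw [this, Measure.prod_prod, hN0, mul_zero]
  set A3 : Set (Ω × Ω) := (A \ A1) \ {p | p.2 ∈ N} with hA3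
  have mA3 : MeasurableSet A3 := (mA.diff mA1).diff mN
  have hsub : A ⊆ (A1 ∪ {p | p.2 ∈ N}) ∪ A3 := by
    intro p hp
    by_cases h1 : p ∈ A1
    · exact Or.inl (Or.inl h1)
    by_cases h2 : p ∈ {p : Ω × Ω | p.2 ∈ N}
    · exact Or.inl (Or.inr h2)
    exact Or.inr ⟨⟨hp, h1⟩, h2⟩
  -- first part
  have p1 : (P₁.prod P₂) A1 ≤ (c₀ * b)⁻¹ * P₂ G₂ := by
    rw [Measure.prod_apply mA1]
    calc ∫⁻ X, P₂ (Prod.mk X ⁻¹' A1) ∂P₁ ≤ ∫⁻ _, (c₀ * b)⁻¹ * P₂ G₂ ∂P₁ := by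
          refine lintegral_mono fun X => ?_
          have hsec : Prod.mk X ⁻¹' A1 = B1 W rd R S' G F b (rows W rd X (σ X)) := rfl
          rw [hsec]
          have key := sml (W := W) (isStop_kap (R := R) hW.det (rows W rd X (σ X)))
            (B := B1 W rd R S' G F b (rows W rd X (σ X)))
            (fun T T' n h hn hT => B1_congr hW hS h hn hT)
            (by rintro T ⟨n, hn, -⟩; rw [hn]; exact ENat.natCast_ne_top n)
            (F := fun _ => F) (fun _ _ _ _ _ _ => rfl) (fun _ => hFm) (rd := rd)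
            (by
              rintro T ⟨n, hn, -⟩
              rw [hn, ENat.toNat_natCast]
              exact (kap_spec hn).1) hML (a := b)
            (by
              rintro T ⟨n, hn, -, h3⟩
              rw [hn, ENat.toNat_natCast]
              exact h3)
          have key2 : P₂ {T | T ∈ B1 W rd R S' G F b (rows W rd X (σ X)) ∧
              shp W (kap W rd R (rows W rd X (σ X)) T).toNat T ∈ F} ≤ P₂ G₂ := by
            refine measure_mono ?_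
            rintro T ⟨⟨n, hn, h2, h3⟩, h4⟩
            rw [hn, ENat.toNat_natCast] at h4
            exact hF2 T n h2 (kap_spec hn).1 h4
          have hcb : c₀ * b ≠ 0 := mul_ne_zero hc hb
          have hcb' : c₀ * b ≠ ⊤ := ENNReal.mul_ne_top hc' hb'
          calc P₂ (B1 W rd R S' G F b (rows W rd X (σ X)))
              = (c₀ * b)⁻¹ * (c₀ * b * P₂ (B1 W rd R S' G F b (rows W rd X (σ X)))) := by
                rw [← mul_assoc, ENNReal.inv_mul_cancel hcb hcb', one_mul]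
            _ ≤ _ := by
                gcongr
                exact key.trans key2
      _ = (c₀ * b)⁻¹ * P₂ G₂ := by rw [lintegral_const, measure_univ, mul_one]
  -- third part
  have p3 : (P₁.prod P₂) A3 ≤ C₀ * (h₀⁻¹ * b) * (P₁.prod P₂) (CT W rd R σ S') := by
    rw [Measure.prod_apply_symm mA3, Measure.prod_apply_symm mCT]
    rw [← lintegral_const_mul _ (measurable_measure_prodMk_right mCT)]
    refine lintegral_mono fun T => ?_
    simp only
    set V : Set (Site d) := {z | z ∈ rows W rd T (S' T) ∧ z ∈ Z ∧ G z F < b} with hV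
    have key := smu (W := W) (isStop_kap (R := R) hW.det V) (B := B2 W rd R σ Z V)
      (fun X X' n h hn hX => B2_congr hW hσ h hn hX)
      (by rintro X ⟨n, hn, -⟩; rw [hn]; exact ENat.natCast_ne_top n)
      (F := fun _ => F) (fun _ _ _ _ _ _ => rfl) (fun _ => hFm) hMU (a := h₀⁻¹ * b)
      (by
        rintro X ⟨n, hn, h2, h3⟩
        rw [hn, ENat.toNat_natCast]
        obtain ⟨hr, z, ⟨hz1, hz2, hz3⟩, hz4⟩ := kap_spec hn
        have h5 := hH (W.pos X n) z h3 hz2 (fun l => by rw [abs_sub_comm]; exact hz4 l)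
        calc G (W.pos X n) F = h₀⁻¹ * (h₀ * G (W.pos X n) F) := by
              rw [← mul_assoc, ENNReal.inv_mul_cancel h0 h0', one_mul]
          _ ≤ h₀⁻¹ * b := by
              gcongr
              exact h5.trans hz3.le)
    refine le_trans (measure_mono ?_) (key.trans ?_)
    · intro X hX
      obtain ⟨⟨⟨hXB, hXC⟩, hX1⟩, hXN⟩ := hX
      simp only [Set.mem_ofPred_eq] at hXB hXN
      have hXC' : kap W rd R (rows W rd X (σ X)) T < S' T := hXC
      obtain ⟨n, hn⟩ := exists_nat_of_lt hXC'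
      have hnS : (n : ℕ∞) < S' T := hn ▸ hXC'
      obtain ⟨hr, a, ⟨i, hi, hri, rfl⟩, hnear⟩ := kap_spec hn
      have hlt : G (W.pos T n) F < b := by
        by_contra hcon
        exact hX1 ⟨n, hn, hnS, not_lt.1 hcon⟩
      have hzV : W.pos T n ∈ V := ⟨⟨n, hnS, hr, rfl⟩, hZ T n hXN hnS hr, hlt⟩
      have hkl : kap W rd R V X < σ X := by
        rw [kap_lt_iff]
        exact ⟨i, hi, hri, _, hzV, fun l => by rw [abs_sub_comm]; exact hnear l⟩
      obtain ⟨j, hj⟩ := exists_nat_of_lt hkl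
      have hjσ : (j : ℕ∞) < σ X := hj ▸ hkl
      obtain ⟨g1, g2⟩ := hF1 X hXB j hjσ (kap_spec hj).1
      refine ⟨⟨j, hj, hjσ, g2⟩, ?_⟩
      rw [hj, ENat.toNat_natCast]
      exact g1
    · gcongr
      rintro X ⟨n, hn, h2, h3⟩
      obtain ⟨hr, z, ⟨hz1, hz2, hz3⟩, hz4⟩ := kap_spec hn
      obtain ⟨j, hj, hrj, rfl⟩ := hz1
      show (X, T) ∈ CT W rd R σ S'
      rw [mem_CT]
      exact ⟨n, j, h2, hj, hr, hrj, fun l => by rw [abs_sub_comm]; exact hz4 l⟩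
  calc (P₁.prod P₂) A ≤ ((P₁.prod P₂) A1 + (P₁.prod P₂) {p | p.2 ∈ N}) + (P₁.prod P₂) A3 :=
        (measure_mono hsub).trans ((measure_union_le _ _).trans
          (add_le_add (measure_union_le _ _) le_rfl))
    _ ≤ _ := by
        rw [hN1, add_zero]
        exact add_le_add p1 p3

end fixed

/-! ### annealed: contact before the dip at level `2 s` costs success without dip at level `s` -/

section anneal

variable {μ : Measure Ω} [IsProbabilityMeasure μ] {G : Set Ω} {s : ℝ≥0∞} {τ ζ : Ω → ℕ∞}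

lemma dip_anti (W : WalkSpace d Ω) (μ : Measure Ω) (G : Set Ω) {s t : ℝ≥0∞} (h : s ≤ t) (X : Ω) :
    dip W μ G t X ≤ dip W μ G s X := by
  unfold dip
  by_contra hcon
  rw [not_le] at hcon
  obtain ⟨m, hm, hp⟩ := KExp.fst_exists hcon
  have h1 : low W μ G t m X := by
    unfold low at hp ⊢
    exact hp.trans_le (by gcongr)
  have h2 := KExp.fst_le (p := fun n => low W μ G t n X) h1
  exact absurd hm (not_lt.2 h2)

lemma sτ_anti (W : WalkSpace d Ω) (μ : Measure Ω) (G : Set Ω) {s t : ℝ≥0∞} (h : s ≤ t)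
    (τ : Ω → ℕ∞) (X : Ω) : sτ W μ G t τ X ≤ sτ W μ G s τ X :=
  min_le_min le_rfl (dip_anti W μ G h X)

/-- conditional form of `dip_loss` -/
lemma dip_loss_on (W : WalkSpace d Ω) (μ : Measure Ω) [IsProbabilityMeasure μ] (G : Set Ω)
    (s : ℝ≥0∞) {B : Set Ω} (hBm : MeasurableSet B)
    (hBd : ∀ X Y (n : ℕ), W.hist n X = W.hist n Y → dip W μ G s X = n → X ∈ B → Y ∈ B)
    (hBt : ∀ X ∈ B, dip W μ G s X < ⊤) :
    μ (G ∩ B) ≤ s * μ B := by
  classical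
  have hS : W.IsStop (dip W μ G s) := isStop_dip W μ G s
  have hm : MeasurableSet {X | dip W μ G s X < ⊤} := W.measurableSet_stop_lt hS
  have hdet : W.DetBy (dip W μ G s) (B.indicator (fun _ : Ω => (1 : ℝ≥0∞))) := by
    intro X Y n h hn
    have hnY := hS X Y n h hn
    by_cases hX : X ∈ B
    · rw [Set.indicator_of_mem hX, Set.indicator_of_mem (hBd X Y n h hn hX)]
    · have hY : Y ∉ B := fun hY => hX (hBd Y X n h.symm hnY hY)
      rw [Set.indicator_of_notMem hX, Set.indicator_of_notMem hY]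
  have e1 := W.lintegral_stop hS hdet (μ.restrict G)
  have e2 := W.lintegral_stop hS hdet μ
  have hsub : B ⊆ {X | dip W μ G s X < ⊤} := fun X hX => hBt X hX
  have h1 : μ (G ∩ B)
      = ∫⁻ X in {X | dip W μ G s X < ⊤}, B.indicator (fun _ => 1) X ∂(μ.restrict G) := by
    rw [lintegral_indicator hBm, setLIntegral_one, Measure.restrict_apply hBm,
      Measure.restrict_apply (hBm.inter hm), Set.inter_eq_left.2 hsub, Set.inter_comm]
  have h2 : (∫⁻ X in {X | dip W μ G s X < ⊤}, B.indicator (fun _ => (1 : ℝ≥0∞)) X ∂μ) = μ B := by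
    rw [lintegral_indicator hBm, setLIntegral_one, Measure.restrict_apply hBm,
      Set.inter_eq_left.2 hsub]
  rw [h1, e1, ← h2, e2, ← ENNReal.tsum_mul_left]
  refine ENNReal.tsum_le_tsum fun p => ?_
  split_ifs with h
  · have hl := low_of_dip_eq W μ G s h
    unfold low at hl
    rw [← W.hcyl_eq] at hl
    rw [Measure.restrict_apply (W.measurableSet_hcyl _ _), Set.inter_comm]
    calc B.indicator (fun _ => (1 : ℝ≥0∞)) (W.ext p.1 p.2) * μ (G ∩ W.hcyl p.1 p.2)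
        ≤ B.indicator (fun _ => (1 : ℝ≥0∞)) (W.ext p.1 p.2) * (s * μ (W.hcyl p.1 p.2)) := by
          gcongr
      _ = _ := by ring
  · simp

/-- **before the dip at level `2 s`** -/
theorem two_s (hτ : W.IsStop τ) (hζ : W.IsStop ζ) (hGm : MeasurableSet G)
    (hGt : ∀ X ∈ G, τ X < ⊤) (hs : s ≠ ⊤) :
    s * μ {X | ζ X < sτ W μ G (2 * s) τ X}
      ≤ μ ({X | X ∈ sG W μ G s τ} ∩ {X | ζ X < sτ W μ G s τ X}) := by
  classical
  set B : Set Ω := {X | ζ X < sτ W μ G (2 * s) τ X} with hB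
  have hσ2 : W.IsStop (sτ W μ G (2 * s) τ) := isStop_sτ W μ G _ hτ
  have mB : MeasurableSet B := W.measurableSet_lt hζ hσ2
  have hd2 : ∀ X, dip W μ G (2 * s) X ≤ dip W μ G s X := dip_anti W μ G (by
    calc s = 1 * s := (one_mul s).symm
      _ ≤ 2 * s := by gcongr; norm_num)
  -- mass before the dip
  have h1 : 2 * s * μ B ≤ μ (G ∩ B) := by
    have hF : W.DetBy ζ ({X | ζ X < τ X}.indicator (fun _ : Ω => (1 : ℝ≥0∞))) := by
      intro X Y n h hn
      have hnY := hζ X Y n h hn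
      have hiff : ζ X < τ X ↔ ζ Y < τ Y := by
        rw [hn, hnY]; exact pdet_lt_stop hτ n X Y h
      by_cases hX : ζ X < τ X
      · rw [Set.indicator_of_mem (show X ∈ {X | ζ X < τ X} from hX),
          Set.indicator_of_mem (show Y ∈ {X | ζ X < τ X} from hiff.1 hX)]
      · rw [Set.indicator_of_notMem (show X ∉ {X | ζ X < τ X} from hX),
          Set.indicator_of_notMem (show Y ∉ {X | ζ X < τ X} from fun h => hX (hiff.2 h))]
    have key := mass_before_dip W μ G (2 * s) hζ hF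
    have mlt : MeasurableSet {X | ζ X < τ X} := W.measurableSet_lt hζ hτ
    have mld : MeasurableSet {X | ζ X < dip W μ G (2 * s) X} :=
      W.measurableSet_lt hζ (isStop_dip W μ G _)
    have hBe : {X | ζ X < τ X} ∩ {X | ζ X < dip W μ G (2 * s) X} = B := by
      ext X
      simp [hB, sτ]
    have e : ∀ ν : Measure Ω, ∫⁻ X in {X | ζ X < dip W μ G (2 * s) X},
        {X | ζ X < τ X}.indicator (fun _ : Ω => (1 : ℝ≥0∞)) X ∂ν = ν B := by
      intro ν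
      rw [lintegral_indicator mlt, setLIntegral_one, Measure.restrict_apply mlt, hBe]
    rw [e, e, Measure.restrict_apply mB, Set.inter_comm] at key
    exact key
  -- loss
  set B' : Set Ω := B ∩ {X | dip W μ G s X < ⊤} with hB'
  have hS : W.IsStop (dip W μ G s) := isStop_dip W μ G s
  have mB' : MeasurableSet B' := mB.inter (W.measurableSet_stop_lt hS)
  have h2 : μ (G ∩ B') ≤ s * μ B' := by
    refine dip_loss_on W μ G s mB' ?_ fun X hX => hX.2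
    rintro X Y n h hn ⟨hX1, hX2⟩
    have hA := ag_of_hist (W := W) h
    have hdY := hS X Y n h hn
    refine ⟨?_, by
      show dip W μ G s Y < ⊤
      rw [hdY]; exact ENat.natCast_lt_top n⟩
    have hX1' : ζ X < sτ W μ G (2 * s) τ X := hX1
    have hle : sτ W μ G (2 * s) τ X ≤ n := (min_le_right _ _).trans ((hd2 X).trans hn.le)
    have hlt : ζ X ≤ n := hX1'.le.trans hle
    show ζ Y < sτ W μ G (2 * s) τ Y
    rw [hA.stop_eq hζ hlt, hA.stop_eq hσ2 hle]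
    exact hX1'
  have hsub : G ∩ B ⊆ ({X | X ∈ sG W μ G s τ} ∩ {X | ζ X < sτ W μ G s τ X}) ∪ (G ∩ B') := by
    rintro X ⟨hXG, hXB⟩
    by_cases hc : τ X ≤ dip W μ G s X
    · refine Or.inl ⟨⟨hXG, hc⟩, ?_⟩
      have h3 : ζ X < sτ W μ G (2 * s) τ X := hXB
      exact h3.trans_le (sτ_anti W μ G (by
        calc s = 1 * s := (one_mul s).symm
          _ ≤ 2 * s := by gcongr; norm_num) τ X)
    · exact Or.inr ⟨hXG, hXB, (not_le.1 hc).trans (hGt X hXG)⟩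
  have h3 : 2 * s * μ B ≤ μ ({X | X ∈ sG W μ G s τ} ∩ {X | ζ X < sτ W μ G s τ X}) + s * μ B := by
    calc 2 * s * μ B ≤ μ (G ∩ B) := h1
      _ ≤ μ ({X | X ∈ sG W μ G s τ} ∩ {X | ζ X < sτ W μ G s τ X}) + μ (G ∩ B') :=
          (measure_mono hsub).trans (measure_union_le _ _)
      _ ≤ μ ({X | X ∈ sG W μ G s τ} ∩ {X | ζ X < sτ W μ G s τ X}) + s * μ B := by
          gcongr
          exact h2.trans (by gcongr; exact Set.inter_subset_left)
  have hfin : s * μ B ≠ ⊤ := ENNReal.mul_ne_top hs (measure_ne_top _ _)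
  have h4 : s * μ B + s * μ B ≤ μ ({X | X ∈ sG W μ G s τ} ∩ {X | ζ X < sτ W μ G s τ X})
      + s * μ B := by
    calc s * μ B + s * μ B = 2 * s * μ B := by ring
      _ ≤ _ := h3
  exact (ENNReal.add_le_add_iff_right hfin).1 h4

end anneal

/-! ### the capacity bound -/

/-- iteration of `Φ(2 s) ≤ K / s² + Φ(s) / 8`. -/
lemma iterate {Φ : ℝ≥0∞ → ℝ≥0∞} {K : ℝ≥0∞} (hΦ1 : ∀ s, Φ s ≤ 1)
    (step : ∀ s : ℝ≥0∞, s ≠ 0 → s ≠ ⊤ → Φ (2 * s) ≤ K / s ^ 2 + Φ s / 8) {s : ℝ≥0∞}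
    (hs : s ≠ 0) (hst : s ≠ ⊤) : Φ s ≤ 8 * K / s ^ 2 := by
  have iter : ∀ j : ℕ, ∀ s : ℝ≥0∞, s ≠ 0 → s ≠ ⊤ →
      Φ s ≤ 8 * K / s ^ 2 + (8⁻¹) ^ j := by
    intro j
    induction j with
    | zero =>
      intro s _ _
      rw [pow_zero]
      exact (hΦ1 s).trans le_add_self
    | succ j ih =>
      intro s hs hst
      have hs2 : s / 2 ≠ 0 := (ENNReal.div_pos hs (by norm_num)).ne'
      have hst2 : s / 2 ≠ ⊤ := ENNReal.div_ne_top hst (by norm_num)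
      have h1 := step (s / 2) hs2 hst2
      rw [ENNReal.mul_div_cancel (by norm_num) (by norm_num)] at h1
      have h2 := ih (s / 2) hs2 hst2
      have hsq : (s / 2) ^ 2 = s ^ 2 / 4 := by
        rw [ENNReal.div_eq_inv_mul, ENNReal.div_eq_inv_mul, mul_pow, ← ENNReal.inv_pow]
        norm_num
      have hs4 : ∀ c : ℝ≥0∞, c / (s / 2) ^ 2 = 4 * c / s ^ 2 := by
        intro c
        rw [hsq, ENNReal.div_eq_inv_mul, ENNReal.inv_div (Or.inl (by norm_num))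
          (Or.inl (by norm_num)), ENNReal.div_eq_inv_mul, ENNReal.div_eq_inv_mul]
        ring
      rw [hs4] at h1 h2
      calc Φ s ≤ 4 * K / s ^ 2 + Φ (s / 2) / 8 := h1
        _ ≤ 4 * K / s ^ 2 + (4 * (8 * K) / s ^ 2 + (8⁻¹) ^ j) / 8 := by gcongr
        _ = 8 * K / s ^ 2 + (8⁻¹) ^ (j + 1) := by
          rw [ENNReal.add_div, ← add_assoc]
          congr 1
          · rw [ENNReal.div_eq_inv_mul, ENNReal.div_eq_inv_mul, ENNReal.div_eq_inv_mul,
              ENNReal.div_eq_inv_mul]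
            have h8 : (8 : ℝ≥0∞)⁻¹ * ((s ^ 2)⁻¹ * (4 * (8 * K))) =
                ((8 : ℝ≥0∞)⁻¹ * 8) * ((s ^ 2)⁻¹ * (4 * K)) := by ring
            rw [h8, ENNReal.inv_mul_cancel (by norm_num) (by norm_num)]
            ring
          · rw [ENNReal.div_eq_inv_mul, pow_succ]; ring
  refine ENNReal.le_of_forall_pos_le_add fun ε hε _ => ?_
  obtain ⟨j, hj⟩ : ∃ j : ℕ, (8⁻¹ : ℝ≥0∞) ^ j ≤ ε := by
    have h1 : Filter.Tendsto (fun j : ℕ => (8⁻¹ : ℝ≥0∞) ^ j) Filter.atTop (nhds 0) :=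
      ENNReal.tendsto_pow_atTop_nhds_zero_of_lt_one (by
        rw [ENNReal.inv_lt_one]; norm_num)
    exact (h1.eventually (ge_mem_nhds (by exact_mod_cast hε))).exists
  exact (iter j s hs hst).trans (by gcongr)

section cap

variable {Q : Measure (Environment d)} [IsProbabilityMeasure Q]
  {P₁ P₂ : Kernel (Environment d) Ω} [IsMarkovKernel P₁] [IsMarkovKernel P₂]
  {F : Set (Path d)} {Z : Set (Site d)} {G₁ G₂ N : Set Ω} {τ S' : Ω → ℕ∞} {C₀ c₀ h₀ : ℝ≥0∞}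

lemma instProbBind' (Q : Measure (Environment d)) [IsProbabilityMeasure Q]
    (P : Kernel (Environment d) Ω) [IsMarkovKernel P] : IsProbabilityMeasure (Q.bind P) := by
  constructor
  rw [Measure.bind_apply MeasurableSet.univ P.aemeasurable]
  simp

/-- **CAPACITY BOUND**: the first walker, stopped at the first time at which its annealed
conditional success probability is below `s`, meets the second one (stopped at any stopping time)
with probability at most `64 C₀ / (c₀ h₀) s⁻²` x the probability that the second one succeeds. -/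
theorem capacity (hW : RdSpace W rd) (hK : K1P W rd R Q P₁ P₂) (hτ : W.IsStop τ)
    (hS : W.IsStop S') {G : Environment d → Site d → Measure (Path d)}
    (hMU : ∀ᵐ ω ∂Q, MU W (P₁ ω) (G ω) C₀) (hML : ∀ᵐ ω ∂Q, ML W rd (P₂ ω) (G ω) c₀)
    (hFm : MeasurableSet F) (hG₁ : MeasurableSet G₁) (hG₂ : MeasurableSet G₂)
    (hG₁d : W.DetBy τ (fun X => X ∈ G₁)) (hG₁t : ∀ X ∈ G₁, τ X < ⊤)
    (hN : MeasurableSet N) (hN0 : (Q.bind P₂) N = 0)
    (hF1 : ∀ X ∈ G₁, ∀ n : ℕ, (n : ℕ∞) < τ X → rd X n → shp W n X ∈ F ∧ W.pos X n ∈ Z)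
    (hF2 : ∀ (T : Ω) (n : ℕ), (n : ℕ∞) < S' T → rd T n → shp W n T ∈ F → T ∈ G₂)
    (hZ : ∀ (T : Ω) (n : ℕ), T ∉ N → (n : ℕ∞) < S' T → rd T n → W.pos T n ∈ Z)
    (hC : C₀ ≠ 0) (hC' : C₀ ≠ ⊤) (hc : c₀ ≠ 0) (hc' : c₀ ≠ ⊤) (h0 : h₀ ≠ 0) (h0' : h₀ ≠ ⊤)
    (hH : ∀ᵐ ω ∂Q, ∀ y z : Site d, y ∈ Z → z ∈ Z → (∀ l, |y l - z l| ≤ (R : ℤ)) →
      h₀ * G ω y F ≤ G ω z F) {s : ℝ≥0∞} (hs : s ≠ 0) (hs' : s ≠ ⊤) :
    WalkSpace.ind Q P₁ P₂ (CT W rd R (sτ W (Q.bind P₁) G₁ s τ) S')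
      ≤ 64 * (C₀ / (c₀ * h₀)) / s ^ 2 * (Q.bind P₂) G₂ := by
  classical
  have i1 : IsProbabilityMeasure (Q.bind P₁) := instProbBind' Q P₁
  have i2 : IsProbabilityMeasure (Q.bind P₂) := instProbBind' Q P₂
  set μ := Q.bind P₁ with hμ
  set Mt := (Q.bind P₂) G₂ with hMt
  set Φ : ℝ≥0∞ → ℝ≥0∞ := fun s =>
    WalkSpace.ind Q P₁ P₂ (CT W rd R (sτ W μ G₁ s τ) S') with hΦ
  have iInd : IsProbabilityMeasure (WalkSpace.ind Q P₁ P₂) := by
    unfold WalkSpace.ind; infer_instance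
  have hσ : ∀ s, W.IsStop (sτ W μ G₁ s τ) := fun s => isStop_sτ W μ G₁ s hτ
  -- decided
  have hBd : ∀ s X X', Ag W (sτ W μ G₁ s τ X) X X' → X ∈ sG W μ G₁ s τ →
      X' ∈ sG W μ G₁ s τ := by
    intro s X X' h hX
    have h1 := sG_lt_top W μ G₁ s hG₁t X hX
    obtain ⟨n, hn⟩ := exists_nat_of_lt h1
    have h2 := detBy_sG W μ G₁ s hτ hG₁d X X' n (h n hn.ge) hn
    exact (iff_of_eq h2).1 hX
  -- one
  have one : ∀ (s : ℝ≥0∞) (b : ℝ≥0∞), b ≠ 0 → b ≠ ⊤ →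
      WalkSpace.ind Q P₁ P₂ ({p | p.1 ∈ sG W μ G₁ s τ} ∩ CT W rd R (sτ W μ G₁ s τ) S')
        ≤ (c₀ * b)⁻¹ * Mt + C₀ * (h₀⁻¹ * b) * Φ s := by
    intro s b hb hb'
    have mB := measurableSet_sG W μ G₁ s hτ hG₁
    have mCT := measurableSet_CT (R := R) hW (hσ s) hS
    have mA : MeasurableSet ({p : Ω × Ω | p.1 ∈ sG W μ G₁ s τ} ∩
        CT W rd R (sτ W μ G₁ s τ) S') := (measurable_fst mB).inter mCT
    have e1 := same_CT (R := R) hW hK (hσ s) hS mB (hBd s)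
    have e2 := same_CT (R := R) hW hK (hσ s) hS MeasurableSet.univ (fun _ _ _ _ => trivial)
    have hu : {p : Ω × Ω | p.1 ∈ (Set.univ : Set Ω)} ∩ CT W rd R (sτ W μ G₁ s τ) S'
        = CT W rd R (sτ W μ G₁ s τ) S' := by ext p; simp
    rw [hu] at e2
    have hN1 : ∀ᵐ ω ∂Q, P₂ ω N = 0 := by
      rw [Measure.bind_apply hN P₂.aemeasurable] at hN0
      exact (lintegral_eq_zero_iff (P₂.measurable_coe hN)).1 hN0
    have hMt' : Mt = ∫⁻ ω, P₂ ω G₂ ∂Q := Measure.bind_apply hG₂ P₂.aemeasurable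
    rw [← e1]
    simp only [hΦ]
    rw [← e2, WalkSpace.same_apply _ _ _ mA, WalkSpace.same_apply _ _ _ mCT, hMt']
    have hx : (c₀ * b)⁻¹ ≠ ⊤ := ENNReal.inv_ne_top.2 (mul_ne_zero hc hb)
    have hy : C₀ * (h₀⁻¹ * b) ≠ ⊤ :=
      ENNReal.mul_ne_top hC' (ENNReal.mul_ne_top (ENNReal.inv_ne_top.2 h0) hb')
    rw [← lintegral_const_mul' _ _ hx, ← lintegral_const_mul' _ _ hy,
      ← lintegral_add_left ((P₂.measurable_coe hG₂).const_mul _)]
    refine lintegral_mono_ae ?_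
    filter_upwards [hMU, hML, hH, hN1] with ω g1 g2 g3 g4
    refine fixed_env (B := sG W μ G₁ s τ) (G₂ := G₂) (N := N) (Z := Z) hW (hσ s) hS g1 g2 hFm mB hN
      g4 ?_ hF2 hZ hc hc' h0 h0' hb hb' g3
    intro X hX n hn hr
    exact hF1 X hX.1 n (hn.trans_le (sτ_le W μ G₁ s τ X)) hr
  -- two
  have two : ∀ s : ℝ≥0∞, s ≠ ⊤ → s * Φ (2 * s) ≤
      WalkSpace.ind Q P₁ P₂ ({p | p.1 ∈ sG W μ G₁ s τ} ∩ CT W rd R (sτ W μ G₁ s τ) S') := by
    intro s hs
    have mB := measurableSet_sG W μ G₁ s hτ hG₁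
    have mCT := measurableSet_CT (R := R) hW (hσ s) hS
    have mCT2 := measurableSet_CT (R := R) hW (hσ (2 * s)) hS
    have mA : MeasurableSet ({p : Ω × Ω | p.1 ∈ sG W μ G₁ s τ} ∩
        CT W rd R (sτ W μ G₁ s τ) S') := (measurable_fst mB).inter mCT
    simp only [hΦ]
    unfold WalkSpace.ind
    rw [Measure.prod_apply_symm mCT2, Measure.prod_apply_symm mA,
      ← lintegral_const_mul _ (measurable_measure_prodMk_right mCT2)]
    refine lintegral_mono fun T => ?_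
    have hk := two_s (μ := μ) (G := G₁) (s := s) (τ := τ)
      (ζ := kap W rd R (rows W rd T (S' T))) hτ (isStop_kap hW.det _) hG₁ hG₁t hs
    have e1 : (fun X => (X, T)) ⁻¹' CT W rd R (sτ W μ G₁ (2 * s) τ) S'
        = {X | kap W rd R (rows W rd T (S' T)) X < sτ W μ G₁ (2 * s) τ X} := by
      ext X
      exact mem_CT'
    have e2 : (fun X => (X, T)) ⁻¹' ({p : Ω × Ω | p.1 ∈ sG W μ G₁ s τ} ∩
        CT W rd R (sτ W μ G₁ s τ) S')
        = {X | X ∈ sG W μ G₁ s τ} ∩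
          {X | kap W rd R (rows W rd T (S' T)) X < sτ W μ G₁ s τ X} := by
      ext X
      exact and_congr Iff.rfl mem_CT'
    rw [e1, e2]
    exact hk
  have hK0 : C₀ / (c₀ * h₀) ≠ ⊤ := ENNReal.div_ne_top hC' (mul_ne_zero hc h0)
  -- step
  have step : ∀ s : ℝ≥0∞, s ≠ 0 → s ≠ ⊤ →
      Φ (2 * s) ≤ (8 * (C₀ / (c₀ * h₀)) * Mt) / s ^ 2 + Φ s / 8 := by
    intro s hs hst
    set b : ℝ≥0∞ := s * (h₀ / (8 * C₀)) with hb
    have hb0 : b ≠ 0 := mul_ne_zero hs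
      (ENNReal.div_pos h0 (ENNReal.mul_ne_top (by norm_num) hC')).ne'
    have hbt : b ≠ ⊤ := ENNReal.mul_ne_top hst
      (ENNReal.div_ne_top h0' (mul_ne_zero (by norm_num) hC))
    have h3 : s * Φ (2 * s) ≤ (c₀ * b)⁻¹ * Mt + C₀ * (h₀⁻¹ * b) * Φ s :=
      (two s hst).trans (one s b hb0 hbt)
    have h4 : Φ (2 * s) ≤ ((c₀ * b)⁻¹ * Mt + C₀ * (h₀⁻¹ * b) * Φ s) / s := by
      rw [ENNReal.le_div_iff_mul_le (Or.inl hs) (Or.inl hst), mul_comm]
      exact h3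
    have e5 : C₀ * (h₀⁻¹ * b) = s * 8⁻¹ := by
      rw [hb, ENNReal.div_eq_inv_mul, ENNReal.mul_inv (Or.inl (by norm_num)) (Or.inl (by norm_num))]
      calc C₀ * (h₀⁻¹ * (s * (8⁻¹ * C₀⁻¹ * h₀)))
          = s * 8⁻¹ * (C₀⁻¹ * C₀) * (h₀⁻¹ * h₀) := by ring
        _ = s * 8⁻¹ := by
          rw [ENNReal.inv_mul_cancel hC hC', ENNReal.inv_mul_cancel h0 h0', mul_one, mul_one]
    have e6 : (c₀ * b)⁻¹ = 8 * (C₀ / (c₀ * h₀)) * s⁻¹ := by
      have hne : c₀ * b ≠ 0 := mul_ne_zero hc hb0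
      have hnt : c₀ * b ≠ ⊤ := ENNReal.mul_ne_top hc' hbt
      have hp : c₀ * b * (8 * (C₀ / (c₀ * h₀)) * s⁻¹) = 1 := by
        rw [hb, ENNReal.div_eq_inv_mul, ENNReal.div_eq_inv_mul,
          ENNReal.mul_inv (Or.inl (by norm_num)) (Or.inl (by norm_num)),
          ENNReal.mul_inv (Or.inl hc) (Or.inl hc')]
        calc c₀ * (s * (8⁻¹ * C₀⁻¹ * h₀)) * (8 * (c₀⁻¹ * h₀⁻¹ * C₀) * s⁻¹)
            = (c₀⁻¹ * c₀) * (s⁻¹ * s) * (8⁻¹ * 8) * (C₀⁻¹ * C₀) * (h₀⁻¹ * h₀) := by ring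
          _ = 1 := by
            rw [ENNReal.inv_mul_cancel hC hC', ENNReal.inv_mul_cancel h0 h0',
              ENNReal.inv_mul_cancel hc hc', ENNReal.inv_mul_cancel hs hst,
              ENNReal.inv_mul_cancel (by norm_num) (by norm_num)]
            norm_num
      calc (c₀ * b)⁻¹ = (c₀ * b)⁻¹ * (c₀ * b * (8 * (C₀ / (c₀ * h₀)) * s⁻¹)) := by
            rw [hp, mul_one]
        _ = ((c₀ * b)⁻¹ * (c₀ * b)) * (8 * (C₀ / (c₀ * h₀)) * s⁻¹) := by ring
        _ = _ := by rw [ENNReal.inv_mul_cancel hne hnt, one_mul]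
    refine h4.trans (le_of_eq ?_)
    rw [ENNReal.add_div, e5, e6]
    congr 1
    · rw [ENNReal.div_eq_inv_mul (b := s), ENNReal.div_eq_inv_mul (b := s ^ 2), pow_two,
        ENNReal.mul_inv (Or.inl hs) (Or.inl hst)]
      ring
    · rw [ENNReal.div_eq_inv_mul, ENNReal.div_eq_inv_mul]
      calc s⁻¹ * (s * 8⁻¹ * Φ s) = (s⁻¹ * s) * (8⁻¹ * Φ s) := by ring
        _ = 8⁻¹ * Φ s := by rw [ENNReal.inv_mul_cancel hs hst, one_mul]
  have hfin := iterate (Φ := Φ) (K := 8 * (C₀ / (c₀ * h₀)) * Mt) (fun s => prob_le_one) step hs hs'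
  refine hfin.trans (le_of_eq ?_)
  rw [ENNReal.div_eq_inv_mul, ENNReal.div_eq_inv_mul (b := s ^ 2)]
  ring

end cap

end Crest.Agent.R154.Cap923
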