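import Crest.Agent.R154.CapI_923

/-! Row 154, (K) of 12 / 269 (helper26): **CAP-T**, the capacity bound with one threshold.  The
first walker reaches level `b` for the first time in `N`; the second walker is arbitrary (it may
start anywhere, dip, carry hair).  On contact before the first hits of level `b`, either the second
walker could have taken over the end of the first one (and reach level `b` in `N`), or the first
one has used a small chance. -/

set_option autoImplicit false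
set_option linter.unusedVariables false
set_option linter.unusedSectionVars false
set_option linter.deprecated false

namespace Crest.Agent.R154.CapT26

open MeasureTheory ProbabilityTheory Set Filter Crest.ProbabilityR.RandomEnvironment
open Crest.Agent.R154.Ren263 (Det)
open Crest.Agent.R154.Mk561 Crest.Agent.R154.Q561
open Crest.Agent.R154.Flux132 (lev)
open Crest.Agent.R154.RatioR872 (ClM det_ClM)
open Crest.Agent.R154.Cont Crest.Agent.R154.Dip Crest.Agent.R154.Cap923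
open Crest.Agent.R154.KB424.GD (hK hK_ne_zero hK_ne_top gp_step step_toward kf_le_one)
open scoped ENNReal

variable {d : ℕ}

/-! ### Harnack below level `b` -/

/-- the sites below level `b` -/
def below (u : Step d) (b : ℤ) : Set (Site d) := {y | lev u y < b}

/-- the first hit of level `b` is in `T` -/
def landI (u : Step d) (b : ℤ) (T : Set (Site d)) : Set (Path d) :=
  {Y | ∃ m : ℕ, lev u (Y m) = b ∧ Y m ∈ T ∧ ∀ i < m, Y i ∈ below u b}

lemma measurableSet_landI (u : Step d) (b : ℤ) (T : Set (Site d)) :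
    MeasurableSet (landI u b T) := by
  have h : landI u b T = ⋃ m : ℕ, {Y | lev u (Y m) = b ∧ Y m ∈ T ∧ ∀ i < m, Y i ∈ below u b} := by
    ext Y
    simp [landI]
  rw [h]
  refine MeasurableSet.iUnion fun m => measurableSet_of_agree m _ fun X Y hXY => ?_
  have h0 := hXY m le_rfl
  constructor
  · rintro ⟨h1, h2, h3⟩
    exact ⟨h0 ▸ h1, h0 ▸ h2, fun i hi => by rw [← hXY i hi.le]; exact h3 i hi⟩
  · rintro ⟨h1, h2, h3⟩
    exact ⟨h0 ▸ h1, h0 ▸ h2, fun i hi => by rw [hXY i hi.le]; exact h3 i hi⟩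

lemma consP_landI {u : Step d} {b : ℤ} {T : Set (Site d)} {a : Site d} (ha : a ∈ below u b)
    {Y : Path d} (hY : Y ∈ landI u b T) : consP a Y ∈ landI u b T := by
  obtain ⟨m, h1, h2, h3⟩ := hY
  refine ⟨m + 1, ?_, ?_, ?_⟩
  · simp only [consP, Nat.succ_ne_zero, if_false, Nat.add_sub_cancel]; exact h1
  · simp only [consP, Nat.succ_ne_zero, if_false, Nat.add_sub_cancel]; exact h2
  · intro i hi
    unfold consP
    split_ifs with h0
    · exact ha
    · exact h3 _ (by omega)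

lemma below_step {u : Step d} {b : ℤ} {a z : Site d} (ha : a ∈ below u b)
    (hz : z ∈ below u b) {e : Step d}
    (h : ∀ j, |(a + stepVec e) j - z j| ≤ |a j - z j|) : a + stepVec e ∈ below u b := by
  have h1 := h u.1
  have h2 := abs_stepVec_le e u.1
  simp only [Pi.add_apply] at h1
  rw [Int.abs_eq_natAbs, Int.abs_eq_natAbs] at h1
  rw [Int.abs_eq_natAbs] at h2
  unfold below lev at *
  simp only [mem_setOf_eq, Pi.add_apply] at *
  split_ifs at * <;> omega

lemma harnackI_aux {u : Step d} {b : ℤ} {T : Set (Site d)} {κ : ℝ} (ω : Environment d)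
    {z : Site d} (hz : z ∈ below u b) :
    ∀ (N : ℕ) (a : Site d), a ∈ below u b → ∑ j, (a j - z j).natAbs = N →
      ENNReal.ofReal (kf d κ) ^ N * Gp κ ω z (landI u b T) ≤ Gp κ ω a (landI u b T) := by
  intro N
  induction N with
  | zero =>
    intro a _ h0
    have : a = z := by
      funext j
      have := (Finset.sum_eq_zero_iff.1 h0) j (Finset.mem_univ j)
      omega
    rw [this]; simp
  | succ N ih =>
    intro a ha hN
    have : ∃ i, a i ≠ z i := by
      by_contra hcon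
      push Not at hcon
      have : ∑ j, (a j - z j).natAbs = 0 := Finset.sum_eq_zero fun j _ => by rw [hcon j]; simp
      omega
    obtain ⟨i, hi⟩ := this
    obtain ⟨e, h1, h2⟩ := step_toward hi
    have h3 := ih (a + stepVec e) (below_step ha hz h1) (by omega)
    calc ENNReal.ofReal (kf d κ) ^ (N + 1) * Gp κ ω z (landI u b T)
        = ENNReal.ofReal (kf d κ) * (ENNReal.ofReal (kf d κ) ^ N * Gp κ ω z (landI u b T)) := by
          ring
      _ ≤ ENNReal.ofReal (kf d κ) * Gp κ ω (a + stepVec e) (landI u b T) := by gcongr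
      _ ≤ _ := gp_step ω (measurableSet_landI u b T) (fun Y hY => consP_landI ha hY) e

theorem harnackI (u : Step d) {b : ℤ} {T : Set (Site d)} (κ : ℝ) {R : ℕ} (ω : Environment d)
    {a z : Site d} (ha : a ∈ below u b) (hz : z ∈ below u b)
    (haz : ∀ l, |a l - z l| ≤ (R : ℤ)) :
    hK d R κ * Gp κ ω z (landI u b T) ≤ Gp κ ω a (landI u b T) := by
  have hN : ∑ j, (a j - z j).natAbs ≤ d * R := by
    calc ∑ j, (a j - z j).natAbs ≤ ∑ _j : Fin d, R := Finset.sum_le_sum fun j _ => by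
          have h3 : |a j - z j| ≤ (R : ℤ) := haz j
          rw [Int.abs_eq_natAbs] at h3
          omega
      _ = d * R := by simp
  refine le_trans ?_ (harnackI_aux ω hz _ a ha rfl)
  gcongr
  unfold hK
  exact pow_le_pow_right_of_le_one' (kf_le_one u κ) hN

/-! ### the event of the first walker -/

/-- the walker reaches level `b` for the first time, in `N` -/
def hitN (u : Step d) (b : ℤ) (N : Set (Site d)) : Set (SMPath d) :=
  {X | ∃ m : ℕ, lev u (pos X.1 X.2 m) = b ∧ pos X.1 X.2 m ∈ N ∧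
    ∀ i < m, lev u (pos X.1 X.2 i) < b}

section walkers

variable (u : Step d) (b : ℤ) (N : Set (Site d))

lemma hitT_eqI {X : SMPath d} {m : ℕ} (h1 : lev u (pos X.1 X.2 m) = b)
    (h2 : ∀ i < m, lev u (pos X.1 X.2 i) < b) : hitT u b X = m := by
  refine le_antisymm (KExp.fst_le (p := fun n => b ≤ lev u (pos X.1 X.2 n)) h1.ge) ?_
  by_contra hcon
  rw [not_le] at hcon
  obtain ⟨i, hi, hp⟩ := KExp.fst_exists hcon
  have hi' : i < m := by exact_mod_cast hi
  have := h2 i hi'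
  omega

lemma hitN_iff {X : SMPath d} : X ∈ hitN u b N ↔
    ∃ m : ℕ, hitT u b X = m ∧ lev u (pos X.1 X.2 m) = b ∧ pos X.1 X.2 m ∈ N := by
  constructor
  · rintro ⟨m, h1, h2, h3⟩
    exact ⟨m, hitT_eqI u b h1 h3, h1, h2⟩
  · rintro ⟨m, h0, h1, h2⟩
    exact ⟨m, h1, h2, fun i hi => lt_of_lt_hitT u b (by rw [h0]; exact_mod_cast hi)⟩

lemma hitN_mono' {X Y : SMPath d} {n : ℕ} (h : fHist n X = fHist n Y) (hn : hitT u b X = n)
    (hX : X ∈ hitN u b N) : Y ∈ hitN u b N := by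
  rw [hitN_iff] at hX ⊢
  obtain ⟨m, h0, h1, h2⟩ := hX
  obtain rfl : m = n := by rw [hn] at h0; exact_mod_cast h0.symm
  have hY : hitT u b Y = m := isStop_hitT u b X Y m h hn
  have hp : pos X.1 X.2 m = pos Y.1 Y.2 m := (fWS u).pos_det m X Y h
  exact ⟨m, hY, hp ▸ h1, hp ▸ h2⟩

lemma hitN_ag {X Y : SMPath d} (h : Ag (fWS u) (hitT u b X) X Y) (hX : X ∈ hitN u b N) :
    Y ∈ hitN u b N := by
  obtain ⟨m, h0, h1, h2⟩ := (hitN_iff u b N).1 hX
  exact hitN_mono' u b N (h m h0.ge) h0 hX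

lemma measurableSet_hitN : MeasurableSet (hitN u b N) := by
  refine measurableSet_of_open (fWS u) _ ?_
  intro X hX
  obtain ⟨m, h0, h1, h2⟩ := (hitN_iff u b N).1 hX
  exact ⟨m, fun Y h => hitN_mono' u b N h h0 hX⟩

lemma hitN_reads {X : SMPath d} (hX : X ∈ hitN u b N) {n : ℕ} (hn : (n : ℕ∞) < hitT u b X) :
    shp (fWS u) n X ∈ landI u b N ∧ (fWS u).pos X n ∈ below u b := by
  obtain ⟨m, h0, h1, h2⟩ := (hitN_iff u b N).1 hX
  have hnm : n < m := by rw [h0] at hn; exact_mod_cast hn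
  have hlt : ∀ i < m, lev u (pos X.1 X.2 i) < b := fun i hi =>
    lt_of_lt_hitT u b (by rw [h0]; exact_mod_cast hi)
  refine ⟨⟨m - n, ?_, ?_, ?_⟩, hlt n hnm⟩
  · show lev u ((fWS u).pos X (n + (m - n))) = b
    rw [Nat.add_sub_cancel' hnm.le]; exact h1
  · show (fWS u).pos X (n + (m - n)) ∈ N
    rw [Nat.add_sub_cancel' hnm.le]; exact h2
  · intro i hi
    exact hlt (n + i) (by omega)

lemma hitN_of_reads {X : SMPath d} {n : ℕ} (hn : (n : ℕ∞) < hitT u b X)
    (h : shp (fWS u) n X ∈ landI u b N) : X ∈ hitN u b N := by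
  obtain ⟨m, m1, m2, m3⟩ := h
  refine ⟨n + m, m1, m2, fun i hi => ?_⟩
  rcases Nat.lt_or_ge n i with h | h
  · have h3 := m3 (i - n) (by omega)
    have e : n + (i - n) = i := Nat.add_sub_cancel' h.le
    have h4 : lev u (pos X.1 X.2 (n + (i - n))) < b := h3
    rwa [e] at h4
  · exact lt_of_lt_hitT u b (lt_of_le_of_lt (by exact_mod_cast h) hn)

lemma cU_ne_zero (κ : ℝ) : cU d κ ≠ 0 := by
  intro h
  unfold cU at h
  rw [add_eq_zero] at h
  have h1 := h.1
  split_ifs at h1 with h2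
  · exact one_ne_zero h1
  · exact ENNReal.inv_ne_zero.2 (ne_top_of_le_ne_top ENNReal.one_ne_top (qf_le_one κ true)) h1

/-- the contact set of the two walkers before their first hits of level `b` -/
def CTb (u : Step d) (R : ℕ) (b : ℤ) : Set (SMPath d × SMPath d) :=
  CT (fWS u) rdM R (hitT u b) (hitT u b)

lemma mem_CTb {R : ℕ} {p : SMPath d × SMPath d} : p ∈ CTb u R b ↔ ∃ i j : ℕ,
    (i : ℕ∞) < hitT u b p.1 ∧ (j : ℕ∞) < hitT u b p.2 ∧ rdM p.1 i ∧ rdM p.2 j ∧
      ∀ l, |pos p.1.1 p.1.2 i l - pos p.2.1 p.2.2 j l| ≤ (R : ℤ) := mem_CT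

/-- **CAP-T in a fixed environment** -/
theorem quenched {R : ℕ} {κ : ℝ} (hfrc : R = 0 ∨ 0 < kf d κ) {c₀ : ℝ≥0∞} (hc : c₀ ≠ 0)
    (hc' : c₀ ≠ ⊤) (ω : Environment d) (hML : ∀ (z : Site d) (e : Step d),
      c₀ * ENNReal.ofReal ((reg κ (ω z)).1 e) ≤ mw κ (ω z) (e, false))
    (x x' : Site d) {β : ℝ≥0∞} (hβ : β ≠ 0) (hβ' : β ≠ ⊤) :
    ((smP κ x ω).prod (smP κ x' ω)) ({p | p.1 ∈ hitN u b N} ∩ CTb u R b)
      ≤ (c₀ * β)⁻¹ * (smP κ x' ω) (hitN u b N) + cU d κ * ((hK d R κ)⁻¹ * β) := by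
  have key := fixed_env (W := fWS u) (rd := rdM) (R := R) (P₁ := smP κ x ω) (P₂ := smP κ x' ω)
    (G := Gp κ ω) (F := landI u b N) (Z := below u b) (B := hitN u b N) (G₂ := hitN u b N)
    (N := (∅ : Set (SMPath d))) (σ := hitT u b) (S' := hitT u b) (C₀ := cU d κ) (c₀ := c₀)
    (h₀ := hK d R κ) (b := β) (rdSpace_fWS u) (isStop_hitT u b) (isStop_hitT u b)
    (mu_smP u κ x ω) (ml_smP u κ x' ω hML) (measurableSet_landI u b N)
    (measurableSet_hitN u b N) MeasurableSet.empty (by simp)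
    (fun X hX n hn _ => hitN_reads u b N hX hn)
    (fun T n hn _ hF => hitN_of_reads u b N hn hF)
    (fun T n _ hn _ => lt_of_lt_hitT u b hn)
    hc hc' (hK_ne_zero hfrc) hK_ne_top hβ hβ'
    (fun y z hy hz hyz => harnackI u κ ω hz hy (fun l => by rw [abs_sub_comm]; exact hyz l))
  refine key.trans (add_le_add le_rfl ?_)
  calc cU d κ * ((hK d R κ)⁻¹ * β) * ((smP κ x ω).prod (smP κ x' ω))
        (CT (fWS u) rdM R (hitT u b) (hitT u b))
      ≤ cU d κ * ((hK d R κ)⁻¹ * β) * 1 := by gcongr; exact prob_le_one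
    _ = _ := mul_one _

variable {κ : ℝ} {Q : Measure (Environment d)} [IsProbabilityMeasure Q]

/-- **CAP-T**, independent environments, start-marked walkers -/
theorem ind_le {R : ℕ} (hR : IsFiniteRangeDependent Q R) (hfrc : R = 0 ∨ 0 < kf d κ) {c₀ : ℝ≥0∞}
    (hc : c₀ ≠ 0) (hc' : c₀ ≠ ⊤) (hML : ∀ᵐ ω ∂Q, ∀ (z : Site d) (e : Step d),
      c₀ * ENNReal.ofReal ((reg κ (ω z)).1 e) ≤ mw κ (ω z) (e, false))
    (x x' : Site d) {β : ℝ≥0∞} (hβ : β ≠ 0) (hβ' : β ≠ ⊤) :
    WalkSpace.ind Q (smP κ x) (smP κ x') ({p | p.1 ∈ hitN u b N} ∩ CTb u R b)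
      ≤ (c₀ * β)⁻¹ * (Q.bind (smP κ x')) (hitN u b N) + cU d κ * ((hK d R κ)⁻¹ * β) := by
  have mB := measurableSet_hitN u b N
  have mCT : MeasurableSet (CTb u R b) :=
    measurableSet_CT (R := R) (rdSpace_fWS u) (isStop_hitT u b) (isStop_hitT u b)
  have mA : MeasurableSet ({p : SMPath d × SMPath d | p.1 ∈ hitN u b N} ∩ CTb u R b) :=
    (measurable_fst mB).inter mCT
  have e1 := same_CT (R := R) (rdSpace_fWS u) (k1p_smP u hR κ x x') (isStop_hitT u b)
    (isStop_hitT u b) mB (fun X X' h hX => hitN_ag u b N h hX)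
  have e1' : WalkSpace.same Q (smP κ x) (smP κ x') ({p | p.1 ∈ hitN u b N} ∩ CTb u R b)
      = WalkSpace.ind Q (smP κ x) (smP κ x') ({p | p.1 ∈ hitN u b N} ∩ CTb u R b) := e1
  rw [← e1', WalkSpace.same_apply _ _ _ mA, Measure.bind_apply mB (smP κ x').aemeasurable]
  have hx : (c₀ * β)⁻¹ ≠ ⊤ := ENNReal.inv_ne_top.2 (mul_ne_zero hc hβ)
  rw [← lintegral_const_mul' _ _ hx]
  calc ∫⁻ ω, ((smP κ x ω).prod (smP κ x' ω)) ({p | p.1 ∈ hitN u b N} ∩ CTb u R b) ∂Q
      ≤ ∫⁻ ω, ((c₀ * β)⁻¹ * (smP κ x' ω) (hitN u b N) + cU d κ * ((hK d R κ)⁻¹ * β)) ∂Q := by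
        refine lintegral_mono_ae ?_
        filter_upwards [hML] with ω hω
        exact quenched u b N hfrc hc hc' ω hω x x' hβ hβ'
    _ = _ := by
        rw [lintegral_add_right _ measurable_const, lintegral_const, measure_univ, mul_one]

end walkers

/-! ### the form for `mkAnn` -/

section ann

variable {u : Step d} {R : ℕ} {κ : ℝ} {Q : Measure (Environment d)} [IsProbabilityMeasure Q]

/-- the marked path from `x` reaches level `b` for the first time in `N` -/
def hitM (u : Step d) (b : ℤ) (N : Set (Site d)) (x : Site d) : Set (MPath d) :=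
  {M | ∃ m : ℕ, lev u (pos x M m) = b ∧ pos x M m ∈ N ∧ ∀ i < m, lev u (pos x M i) < b}

/-- contact of the two marked paths (rows read before the first hits of level `b`) -/
def conT (u : Step d) (R : ℕ) (b : ℤ) (x x' : Site d) : Set (MPath d × MPath d) :=
  {p | ∃ i j : ℕ, (∀ n ≤ i, lev u (pos x p.1 n) < b) ∧ (∀ n ≤ j, lev u (pos x' p.2 n) < b) ∧
    (p.1 i).2 = false ∧ (p.2 j).2 = false ∧
      ∀ l, |pos x p.1 i l - pos x' p.2 j l| ≤ (R : ℤ)}

lemma lt_hitT_iff {X : SMPath d} {b : ℤ} {n : ℕ} :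
    (n : ℕ∞) < hitT u b X ↔ ∀ i ≤ n, lev u (pos X.1 X.2 i) < b := by
  constructor
  · intro h i hi
    exact lt_of_lt_hitT u b (lt_of_le_of_lt (by exact_mod_cast hi) h)
  · intro h
    by_contra hcon
    rw [not_lt] at hcon
    have h1 : hitT u b X < ((n + 1 : ℕ) : ℕ∞) :=
      lt_of_le_of_lt hcon (by exact_mod_cast Nat.lt_succ_self n)
    obtain ⟨i, hi, hp⟩ := KExp.fst_exists h1
    have hi' : i < n + 1 := by exact_mod_cast hi
    have := h i (by omega)
    omega

lemma mem_CTb_mk {b : ℤ} {x x' : Site d} {p : MPath d × MPath d} :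
    (((x, p.1), (x', p.2)) : SMPath d × SMPath d) ∈ CTb u R b ↔ p ∈ conT u R b x x' := by
  rw [mem_CTb]
  simp only [lt_hitT_iff]
  exact Iff.rfl

/-- **CAP-T** for `mkAnn` -/
theorem capT_of (hR : IsFiniteRangeDependent Q R) (hfrc : R = 0 ∨ 0 < kf d κ) {c₀ : ℝ≥0∞}
    (hc : c₀ ≠ 0) (hc' : c₀ ≠ ⊤) (hML : ∀ᵐ ω ∂Q, ∀ (z : Site d) (e : Step d),
      c₀ * ENNReal.ofReal ((reg κ (ω z)).1 e) ≤ mw κ (ω z) (e, false))
    (b : ℤ) (N : Set (Site d)) (x x' : Site d) {β : ℝ≥0∞} (hβ : β ≠ 0) :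
    ((mkAnn κ Q x).prod (mkAnn κ Q x')) ({p | p.1 ∈ hitM u b N x} ∩ conT u R b x x')
      ≤ (c₀⁻¹ + cU d κ * (hK d R κ)⁻¹) * (β⁻¹ * mkAnn κ Q x' (hitM u b N x') + β) := by
  have hcU : cU d κ * (hK d R κ)⁻¹ ≠ 0 := mul_ne_zero (cU_ne_zero κ)
    (ENNReal.inv_ne_zero.2 hK_ne_top)
  by_cases hβ' : β = ⊤
  · subst hβ'
    have h1 : (c₀⁻¹ + cU d κ * (hK d R κ)⁻¹) * ((⊤ : ℝ≥0∞)⁻¹ * mkAnn κ Q x' (hitM u b N x') + ⊤)
        = ⊤ := by
      rw [add_top]
      exact ENNReal.mul_top (by simp [hcU])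
    rw [h1]
    exact le_top
  have mB := measurableSet_hitN u b N
  have mCT : MeasurableSet (CTb u R b) :=
    measurableSet_CT (R := R) (rdSpace_fWS u) (isStop_hitT u b) (isStop_hitT u b)
  have mA : MeasurableSet ({p : SMPath d × SMPath d | p.1 ∈ hitN u b N} ∩ CTb u R b) :=
    (measurable_fst mB).inter mCT
  have key := ind_le u b N hR hfrc hc hc' hML x x' hβ hβ'
  rw [ind_apply x x' mA, bind_apply x' mB] at key
  have e1 : {p : MPath d × MPath d | (((x, p.1), (x', p.2)) : SMPath d × SMPath d) ∈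
      ({p : SMPath d × SMPath d | p.1 ∈ hitN u b N} ∩ CTb u R b)}
      = {p | p.1 ∈ hitM u b N x} ∩ conT u R b x x' := by
    ext p
    show _ ∧ _ ↔ _ ∧ _
    rw [mem_CTb_mk]
    exact Iff.rfl
  rw [e1] at key
  refine key.trans ?_
  have e2 : {M : MPath d | ((x', M) : SMPath d) ∈ hitN u b N} = hitM u b N x' := rfl
  rw [e2, ENNReal.mul_inv (Or.inl hc) (Or.inl hc'), mul_add, add_mul, add_mul]
  calc c₀⁻¹ * β⁻¹ * mkAnn κ Q x' (hitM u b N x') + cU d κ * ((hK d R κ)⁻¹ * β)
      = c₀⁻¹ * (β⁻¹ * mkAnn κ Q x' (hitM u b N x')) + cU d κ * (hK d R κ)⁻¹ * β := by ring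
    _ ≤ _ := add_le_add le_self_add le_add_self

/-- **CAP-T in the frame** (`hc` is `KB424.Half κ Q`) -/
theorem capT (F : Bind263.Frame Q κ R)
    (hc : ∃ c : ℝ, 0 < c ∧ ∀ᵐ ω ∂Q, ∀ (z : Site d) (e : Step d),
      c * (ω z).1 e ≤ (ω z).1 e - kf d κ) :
    ∃ C : ℝ≥0∞, C ≠ 0 ∧ C ≠ ⊤ ∧ ∀ (u : Step d) (b : ℤ) (N : Set (Site d)) (x x' : Site d)
      (β : ℝ≥0∞), β ≠ 0 →
      ((mkAnn κ Q x).prod (mkAnn κ Q x')) ({p | p.1 ∈ hitM u b N x} ∩ conT u R b x x')
        ≤ C * (β⁻¹ * mkAnn κ Q x' (hitM u b N x') + β) := by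
  obtain ⟨c, hc0, hc⟩ := hc
  have hcc : ENNReal.ofReal c ≠ 0 := by simpa using hc0
  refine ⟨(ENNReal.ofReal c)⁻¹ + cU d κ * (hK d R κ)⁻¹, ?_, ?_, fun u b N x x' β hβ =>
    capT_of F.fin F.frc hcc ENNReal.ofReal_ne_top ?_ b N x x' hβ⟩
  · simp
  · exact ENNReal.add_ne_top.2 ⟨ENNReal.inv_ne_top.2 hcc,
      ENNReal.mul_ne_top (cU_ne_top κ) (ENNReal.inv_ne_top.2 (hK_ne_zero F.frc))⟩
  · filter_upwards [F.ell, hc] with ω h1 h2 z e
    rw [reg_eq (h1 z), ← ENNReal.ofReal_mul hc0.le]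
    unfold mw
    refine ENNReal.ofReal_le_ofReal ?_
    simp only [Bool.false_eq_true, if_false]
    rw [reg_eq (h1 z)]
    exact h2 z e

lemma measurableSet_hitM (u : Step d) (b : ℤ) (N : Set (Site d)) (x : Site d) :
    MeasurableSet (hitM u b N x) := by
  have h := measurable_prodMk_left (x := x) (measurableSet_hitN u b N)
  exact h

lemma measurableSet_conT (u : Step d) (R : ℕ) (b : ℤ) (x x' : Site d) :
    MeasurableSet (conT u R b x x') := by
  have mCT : MeasurableSet (CTb (d := d) u R b) :=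
    measurableSet_CT (R := R) (rdSpace_fWS u) (isStop_hitT u b) (isStop_hitT u b)
  have h := (measurable_prodMk_left (x := x)).prodMap (measurable_prodMk_left (x := x')) mCT
  have e : Prod.map (Prod.mk x) (Prod.mk x') ⁻¹' (CTb u R b) = conT u R b x x' := by
    ext p
    exact mem_CTb_mk
  rw [e] at h
  exact h

open Classical in
/-- the total weight of the starts whose targets are hit -/
lemma sum_hit_le {u : Step d} {b : ℤ} {N : Site d → Set (Site d)} {x' : Site d}
    {w : Site d → ℝ≥0∞} {q : ℝ≥0∞} (μ : Measure (MPath d)) [IsProbabilityMeasure μ]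
    (hw : ∀ z : Site d, ∑' x, w x * (if z ∈ N x then 1 else 0) ≤ q) :
    ∑' x, w x * μ (hitM u b (N x) x') ≤ q := by
  have e : ∀ x, w x * μ (hitM u b (N x) x')
      = ∫⁻ M, w x * (hitM u b (N x) x').indicator (fun _ => (1 : ℝ≥0∞)) M ∂μ := by
    intro x
    rw [lintegral_const_mul _ (measurable_const.indicator (measurableSet_hitM u b (N x) x')),
      lintegral_indicator (measurableSet_hitM u b (N x) x'), setLIntegral_one]
  simp_rw [e]
  rw [← lintegral_tsum fun x => ((measurable_const.indicator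
    (measurableSet_hitM u b (N x) x')).const_mul _).aemeasurable]
  calc ∫⁻ M, ∑' x, w x * (hitM u b (N x) x').indicator (fun _ => (1 : ℝ≥0∞)) M ∂μ
      ≤ ∫⁻ _, q ∂μ := by
        refine lintegral_mono fun M => ?_
        by_cases h : ∃ m : ℕ, lev u (pos x' M m) = b ∧ ∀ i < m, lev u (pos x' M i) < b
        · obtain ⟨m, h1, h2⟩ := h
          refine le_trans (ENNReal.tsum_le_tsum fun x => ?_) (hw (pos x' M m))
          gcongr
          by_cases hx : M ∈ hitM u b (N x) x'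
          · obtain ⟨m', g1, g2, g3⟩ := hx
            have : m' = m := by
              rcases lt_trichotomy m' m with h | h | h
              · have := h2 m' h; omega
              · exact h
              · have := g3 m h; omega
            subst this
            rw [if_pos g2]
            exact indicator_le_self' (fun _ _ => zero_le) M
          · rw [indicator_of_notMem hx]
            exact zero_le
        · have : ∀ x, w x * (hitM u b (N x) x').indicator (fun _ => (1 : ℝ≥0∞)) M = 0 := by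
            intro x
            rw [indicator_of_notMem, mul_zero]
            rintro ⟨m, g1, g2, g3⟩
            exact h ⟨m, g1, g3⟩
          simp_rw [this]
          simp
    _ = q := by rw [lintegral_const, measure_univ, mul_one]

open Classical in
/-- **CAP-T averaged over the start of the local walker**: its start has the sub-probability law
`w`; from the start `x` it lands in `N x`; every site is in targets of total weight `≤ q²`.  Then
the contact with any other walker has probability `≤ C q`. -/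
theorem capT_avg (F : Bind263.Frame Q κ R)
    (hc : ∃ c : ℝ, 0 < c ∧ ∀ᵐ ω ∂Q, ∀ (z : Site d) (e : Step d),
      c * (ω z).1 e ≤ (ω z).1 e - kf d κ) :
    ∃ C : ℝ≥0∞, C ≠ 0 ∧ C ≠ ⊤ ∧ ∀ (u : Step d) (b : ℤ) (N : Site d → Set (Site d)) (x' : Site d)
      (w : Site d → ℝ≥0∞) (q : ℝ≥0∞), q ≠ 0 → ∑' x, w x ≤ 1 →
      (∀ z : Site d, ∑' x, w x * (if z ∈ N x then 1 else 0) ≤ q ^ 2) →
      ∑' x, w x * ((mkAnn κ Q x).prod (mkAnn κ Q x'))
        ({p | p.1 ∈ hitM u b (N x) x} ∩ conT u R b x x') ≤ C * q := by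
  obtain ⟨C, hC0, hC, h⟩ := capT (R := R) F hc
  refine ⟨C * 2, mul_ne_zero hC0 (by norm_num), ENNReal.mul_ne_top hC (by norm_num),
    fun u b N x' w q hq hw1 hw => ?_⟩
  by_cases hq' : q = ⊤
  · rw [hq', ENNReal.mul_top (mul_ne_zero hC0 (by norm_num))]
    exact le_top
  have h2 := sum_hit_le (u := u) (b := b) (x' := x') (mkAnn κ Q x') hw
  calc ∑' x, w x * ((mkAnn κ Q x).prod (mkAnn κ Q x'))
        ({p | p.1 ∈ hitM u b (N x) x} ∩ conT u R b x x')
      ≤ ∑' x, (C * q⁻¹ * (w x * mkAnn κ Q x' (hitM u b (N x) x')) + C * q * w x) := by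
        refine ENNReal.tsum_le_tsum fun x => ?_
        calc w x * ((mkAnn κ Q x).prod (mkAnn κ Q x'))
              ({p | p.1 ∈ hitM u b (N x) x} ∩ conT u R b x x')
            ≤ w x * (C * (q⁻¹ * mkAnn κ Q x' (hitM u b (N x) x') + q)) := by
              gcongr
              exact h u b (N x) x x' q hq
          _ = _ := by ring
    _ = C * q⁻¹ * ∑' x, w x * mkAnn κ Q x' (hitM u b (N x) x') + C * q * ∑' x, w x := by
        rw [ENNReal.tsum_add, ENNReal.tsum_mul_left, ENNReal.tsum_mul_left]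
    _ ≤ C * q⁻¹ * q ^ 2 + C * q * 1 := by gcongr
    _ = C * (q⁻¹ * q) * q + C * q := by ring
    _ = C * 2 * q := by
        rw [ENNReal.inv_mul_cancel hq hq']
        ring

end ann

end Crest.Agent.R154.CapT26
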