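import Mathlib

/-!
Row 154, B4: centres by Fubini.
-/

open MeasureTheory ProbabilityTheory Set
open scoped BigOperators ENNReal NNReal

namespace Crest.Agent.R154.Center818

/-- **Centre by Fubini**: if the difference of two independent copies is in `K` with probability
at least `1 - q`, then one copy is in `c + K` with probability at least `1 - q` for some `c`. -/
theorem exists_center {V : Type*} [AddGroup V] [MeasurableSpace V] [MeasurableSub₂ V]
    (ν : Measure V) [IsProbabilityMeasure ν] {K : Set V} (hK : MeasurableSet K) {q : ℝ≥0∞}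
    (h : (ν.prod ν) {p : V × V | p.1 - p.2 ∉ K} ≤ q) : ∃ c : V, ν {u | u - c ∉ K} ≤ q := by
  have hm : MeasurableSet {p : V × V | p.1 - p.2 ∉ K} := (measurable_fst.sub measurable_snd) hK.compl
  rw [Measure.prod_apply_symm hm] at h
  obtain ⟨c, hc⟩ := exists_le_lintegral (μ := ν)
    (f := fun c => ν ((fun x => (x, c)) ⁻¹' {p : V × V | p.1 - p.2 ∉ K}))
    (measurable_measure_prodMk_right hm).aemeasurable
  exact ⟨c, hc.trans h⟩

/-- the same on two arbitrary probability spaces with a measurable map -/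
theorem exists_center_map {Ω V : Type*} [MeasurableSpace Ω] [AddGroup V] [MeasurableSpace V]
    [MeasurableSub₂ V] (P : Measure Ω) [IsProbabilityMeasure P] {U : Ω → V} (hU : Measurable U)
    {K : Set V} (hK : MeasurableSet K) {q : ℝ≥0∞}
    (h : (P.prod P) {p : Ω × Ω | U p.1 - U p.2 ∉ K} ≤ q) : ∃ c : V, P {ω | U ω - c ∉ K} ≤ q := by
  have := Measure.isProbabilityMeasure_map (μ := P) hU.aemeasurable
  have hm : MeasurableSet {p : V × V | p.1 - p.2 ∉ K} := (measurable_fst.sub measurable_snd) hK.compl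
  obtain ⟨c, hc⟩ := exists_center (P.map U) hK (q := q) (by
    rw [Measure.map_prod_map P P hU hU, Measure.map_apply (hU.prodMap hU) hm]
    exact h)
  refine ⟨c, ?_⟩
  have hm2 : MeasurableSet {u : V | u - c ∉ K} := (measurable_id.sub_const c) hK.compl
  rwa [Measure.map_apply hU hm2] at hc

/-- restricted (sub-probability) version: the walk may die. -/
theorem exists_center_on {Ω V : Type*} [MeasurableSpace Ω] [AddGroup V] [MeasurableSpace V]
    [MeasurableSub₂ V] (P : Measure Ω) [IsProbabilityMeasure P] {G : Set Ω} (hG : MeasurableSet G)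
    (hG0 : P G ≠ 0) {U : Ω → V} (hU : Measurable U)
    {K : Set V} (hK : MeasurableSet K) {q : ℝ≥0∞}
    (h : (P.prod P) {p : Ω × Ω | p.1 ∈ G ∧ p.2 ∈ G ∧ U p.1 - U p.2 ∉ K} ≤ q) :
    ∃ c : V, P {ω | ω ∈ G ∧ U ω - c ∉ K} ≤ q / P G := by
  have hm : MeasurableSet {p : Ω × Ω | p.1 ∈ G ∧ p.2 ∈ G ∧ U p.1 - U p.2 ∉ K} := by
    have e : {p : Ω × Ω | p.1 ∈ G ∧ p.2 ∈ G ∧ U p.1 - U p.2 ∉ K} =
        (Prod.fst ⁻¹' G) ∩ ((Prod.snd ⁻¹' G) ∩ (fun p : Ω × Ω => U p.1 - U p.2) ⁻¹' Kᶜ) := by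
      ext p; rfl
    rw [e]
    exact (measurable_fst hG).inter ((measurable_snd hG).inter
      (((hU.comp measurable_fst).sub (hU.comp measurable_snd)) hK.compl))
  rw [Measure.prod_apply_symm hm] at h
  set f : Ω → ℝ≥0∞ := fun y =>
    P ((fun x => (x, y)) ⁻¹' {p : Ω × Ω | p.1 ∈ G ∧ p.2 ∈ G ∧ U p.1 - U p.2 ∉ K}) with hf
  have hfm : Measurable f := measurable_measure_prodMk_right hm
  obtain ⟨y, hy, hle⟩ := exists_le_setLAverage (μ := P) (s := G) hG0 (measure_ne_top _ _)
    hfm.aemeasurable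
  refine ⟨U y, ?_⟩
  have h1 : P {ω | ω ∈ G ∧ U ω - U y ∉ K} ≤ f y := by
    refine measure_mono ?_
    rintro x ⟨hx, hx'⟩
    exact ⟨hx, hy, hx'⟩
  refine h1.trans (hle.trans ?_)
  rw [setLAverage_eq]
  gcongr
  exact (setLIntegral_le_lintegral _ _).trans h

end Crest.Agent.R154.Center818
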