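import Mathlib

set_option autoImplicit false
set_option linter.unusedSectionVars false
set_option linter.unusedVariables false

/-!
Row 154, block B8 / TILE: confined tiles in separated corridors are independent; the K-set bound for
random states decided by the past from the failure probability of ONE tile with a deterministic
admissible state (helper748).
-/

namespace Crest.Agent.R154.TileInd748

open MeasureTheory ProbabilityTheory
open scoped ENNReal

/-- Random state decided by `m1`, event read through `Y`, `m1` and `Y` independent. -/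
theorem rand_state' {Ω Ω' Λ : Type*} {m1 : MeasurableSpace Ω} [m0 : MeasurableSpace Ω]
    [m' : MeasurableSpace Ω'] [mΛ : MeasurableSpace Λ]
    (P : Measure Ω) [IsProbabilityMeasure P] (h1 : m1 ≤ m0) (Y : Ω → Ω') (hY : Measurable Y)
    (hind : Indep m1 (MeasurableSpace.comap Y m') P) (Bad : Set (Λ × Ω'))
    (hBad : MeasurableSet Bad) (f : Ω → Λ) (hf : Measurable[m1] f)
    (cls : Set Λ) (hfc : ∀ ω, f ω ∈ cls) (c : ℝ≥0∞)
    (hc : ∀ lam ∈ cls, P {ω | (lam, Y ω) ∈ Bad} ≤ c) (B : Set Ω) (hB : MeasurableSet[m1] B) :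
    P (B ∩ {ω | (f ω, Y ω) ∈ Bad}) ≤ c * P B := by
  classical
  have hfm : Measurable f := hf.mono h1 le_rfl
  let ν : Measure Ω := P.restrict B
  have hB0 : MeasurableSet B := h1 _ hB
  have hrect : ∀ (s : Set Λ) (t : Set Ω'), MeasurableSet s → MeasurableSet t →
      ν (f ⁻¹' s ∩ Y ⁻¹' t) = ν (f ⁻¹' s) * P (Y ⁻¹' t) := by
    intro s t hs ht
    have hfs : MeasurableSet[m1] (f ⁻¹' s) := hf hs
    have e1 : ν (f ⁻¹' s ∩ Y ⁻¹' t) = P ((f ⁻¹' s ∩ B) ∩ Y ⁻¹' t) := by
      rw [Measure.restrict_apply ((h1 _ hfs).inter (hY ht))]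
      congr 1
      ext ω; simp only [Set.mem_inter_iff]; tauto
    have e2 : ν (f ⁻¹' s) = P (f ⁻¹' s ∩ B) := by
      rw [Measure.restrict_apply (h1 _ hfs)]
    rw [e1, e2]
    exact (Indep_iff _ _ _).1 hind _ _ (MeasurableSet.inter hfs hB) ⟨t, ht, rfl⟩
  have hjm : Measurable (fun ω => (f ω, Y ω)) := hfm.prodMk hY
  have : IsProbabilityMeasure (P.map Y) := Measure.isProbabilityMeasure_map hY.aemeasurable
  have hprod : Measure.map (fun ω => (f ω, Y ω)) ν = (Measure.map f ν).prod (P.map Y) := by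
    symm
    refine Measure.prod_eq ?_
    intro s t hs ht
    rw [Measure.map_apply hjm (hs.prod ht), Measure.map_apply hfm hs, Measure.map_apply hY ht]
    exact hrect s t hs ht
  have key : P (B ∩ {ω | (f ω, Y ω) ∈ Bad}) = Measure.map (fun ω => (f ω, Y ω)) ν Bad := by
    rw [Measure.map_apply hjm hBad, Measure.restrict_apply (hjm hBad), Set.inter_comm]
    rfl
  rw [key, hprod, Measure.prod_apply hBad]
  have hle : ∀ᵐ lam ∂(Measure.map f ν), P.map Y (Prod.mk lam ⁻¹' Bad) ≤ c := by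
    have hset : MeasurableSet {lam | P.map Y (Prod.mk lam ⁻¹' Bad) ≤ c} :=
      measurable_measure_prodMk_left hBad measurableSet_Iic
    rw [ae_map_iff hfm.aemeasurable hset]
    refine Filter.Eventually.of_forall fun ω => ?_
    rw [Measure.map_apply hY (measurable_prodMk_left hBad)]
    exact hc (f ω) (hfc ω)
  calc ∫⁻ lam, P.map Y (Prod.mk lam ⁻¹' Bad) ∂(Measure.map f ν)
      ≤ ∫⁻ _, c ∂(Measure.map f ν) := lintegral_mono_ae hle
    _ = c * P B := by
        rw [lintegral_const, Measure.map_apply hfm MeasurableSet.univ]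
        simp [ν]

/-- Same, event read in a σ-algebra `m2` independent of `m1`. -/
theorem rand_state {Ω Λ : Type*} {m1 m2 : MeasurableSpace Ω} [m0 : MeasurableSpace Ω]
    [mΛ : MeasurableSpace Λ]
    (P : Measure Ω) [IsProbabilityMeasure P] (h1 : m1 ≤ m0) (h2 : m2 ≤ m0)
    (hind : Indep m1 m2 P) (Bad : Set (Λ × Ω))
    (hBad : MeasurableSet[mΛ.prod m2] Bad) (f : Ω → Λ) (hf : Measurable[m1] f)
    (cls : Set Λ) (hfc : ∀ ω, f ω ∈ cls) (c : ℝ≥0∞)
    (hc : ∀ lam ∈ cls, P {ω | (lam, ω) ∈ Bad} ≤ c) (B : Set Ω) (hB : MeasurableSet[m1] B) :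
    P (B ∩ {ω | (f ω, ω) ∈ Bad}) ≤ c * P B := by
  have hid : MeasurableSpace.comap (id : Ω → Ω) m2 = m2 := MeasurableSpace.comap_id
  exact @rand_state' Ω Ω Λ m1 m0 m2 mΛ P _ h1 id (fun s hs => h2 _ hs) (by rw [hid]; exact hind)
    Bad hBad f hf cls hfc c hc B hB

/-- **K-SET BOUND from one-tile bounds and independence of separated corridors.**
`m1` = past, `C x` = rows of the corridor of the tile `x`; for every finite set `K'` of cells in the
residue class of `x` mod `r` (not containing `x`) the past and the corridors of `K'` are independent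
of the corridor of `x`. -/
theorem kset_corridors {Ω Λ : Type*} {m1 : MeasurableSpace Ω} {C : ℤ → MeasurableSpace Ω}
    [m0 : MeasurableSpace Ω] [mΛ : MeasurableSpace Λ]
    (P : Measure Ω) [IsProbabilityMeasure P] (h1 : m1 ≤ m0) (hC : ∀ x, C x ≤ m0) (r : ℕ)
    (hr : 0 < r)
    (hind : ∀ (K' : Finset ℤ) (x : ℤ), x ∉ K' → (∀ y ∈ K', (y : ℤ) % r = x % r) →
      Indep (m1 ⊔ ⨆ y ∈ K', C y) (C x) P)
    (Bad : ℤ → Set (Λ × Ω)) (hBad : ∀ x, MeasurableSet[mΛ.prod (C x)] (Bad x))
    (cls : ℤ → Set Λ) (q : ℝ≥0∞) (hq1 : q ≤ 1)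
    (hc : ∀ x, ∀ lam ∈ cls x, P {ω | (lam, ω) ∈ Bad x} ≤ q ^ r)
    (K : Finset ℤ) (f : ℤ → Ω → Λ) (hf : ∀ x, Measurable[m1] (f x))
    (hfc : ∀ x ω, f x ω ∈ cls x) (B : Set Ω) (hB : MeasurableSet[m1] B) :
    P (B ∩ {ω | ∀ x ∈ K, (f x ω, ω) ∈ Bad x}) ≤ q ^ K.card * P B := by
  classical
  -- induction for a residue class
  have main : ∀ K' : Finset ℤ, (∀ x ∈ K', ∀ y ∈ K', (y : ℤ) % r = x % r) →
      MeasurableSet[m1 ⊔ ⨆ y ∈ K', C y] {ω | ∀ x ∈ K', (f x ω, ω) ∈ Bad x} ∧
      P (B ∩ {ω | ∀ x ∈ K', (f x ω, ω) ∈ Bad x}) ≤ (q ^ r) ^ K'.card * P B := by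
    intro K'
    induction K' using Finset.induction_on with
    | empty =>
      intro _
      refine ⟨?_, ?_⟩
      · simp only [Finset.notMem_empty, false_imp_iff, implies_true, Set.ofPred_true]
        exact @MeasurableSet.univ _ _
      · simp
    | insert x K' hx ih =>
      intro hres
      obtain ⟨ih1, ih2⟩ := ih (fun a ha b hb =>
        hres a (Finset.mem_insert_of_mem ha) b (Finset.mem_insert_of_mem hb))
      have hle0 : m1 ⊔ ⨆ y ∈ K', C y ≤ m0 := sup_le h1 (iSup₂_le fun y _ => hC y)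
      have hind' : Indep (m1 ⊔ ⨆ y ∈ K', C y) (C x) P := hind K' x hx (fun y hy =>
        hres x (Finset.mem_insert_self _ _) y (Finset.mem_insert_of_mem hy))
      have hsplit : {ω | ∀ y ∈ insert x K', (f y ω, ω) ∈ Bad y} =
          {ω | ∀ y ∈ K', (f y ω, ω) ∈ Bad y} ∩ {ω | (f x ω, ω) ∈ Bad x} := by
        ext ω
        simp only [Finset.mem_insert, forall_eq_or_imp, Set.mem_ofPred_eq, Set.mem_inter_iff]
        tauto
      have hle1 : m1 ⊔ ⨆ y ∈ K', C y ≤ m1 ⊔ ⨆ y ∈ insert x K', C y := by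
        refine sup_le_sup_left ?_ _
        exact iSup₂_le fun y hy => le_iSup₂_of_le y (Finset.mem_insert_of_mem hy) le_rfl
      have hle2 : C x ≤ m1 ⊔ ⨆ y ∈ insert x K', C y :=
        le_sup_of_le_right (le_iSup₂_of_le x (Finset.mem_insert_self _ _) le_rfl)
      have hle3 : m1 ≤ m1 ⊔ ⨆ y ∈ insert x K', C y := le_sup_left
      refine ⟨?_, ?_⟩
      · rw [hsplit]
        refine MeasurableSet.inter (hle1 _ ih1) ?_
        have hjm : @Measurable Ω (Λ × Ω) (m1 ⊔ ⨆ y ∈ insert x K', C y) (mΛ.prod (C x))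
            (fun ω => (f x ω, ω)) := by
          refine @Measurable.prodMk Ω (m1 ⊔ ⨆ y ∈ insert x K', C y) Λ Ω mΛ (C x) (f x) id ?_ ?_
          · exact (hf x).mono hle3 le_rfl
          · exact fun s hs => hle2 _ hs
        exact hjm (hBad x)
      · rw [hsplit, ← Set.inter_assoc]
        have hBm : MeasurableSet[m1 ⊔ ⨆ y ∈ K', C y] (B ∩ {ω | ∀ y ∈ K', (f y ω, ω) ∈ Bad y}) :=
          MeasurableSet.inter ((le_sup_left : m1 ≤ m1 ⊔ ⨆ y ∈ K', C y) _ hB) ih1
        have h := rand_state (m1 := m1 ⊔ ⨆ y ∈ K', C y) (m2 := C x) P hle0 (hC x) hind' (Bad x)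
          (hBad x) (f x) ((hf x).mono le_sup_left le_rfl) (cls x) (hfc x) (q ^ r) (hc x) _ hBm
        refine h.trans ?_
        rw [Finset.card_insert_of_notMem hx, pow_succ]
        calc q ^ r * P (B ∩ {ω | ∀ y ∈ K', (f y ω, ω) ∈ Bad y})
            ≤ q ^ r * ((q ^ r) ^ K'.card * P B) := by gcongr
          _ = (q ^ r) ^ K'.card * q ^ r * P B := by ring
  -- choose a residue class containing at least |K|/r cells
  have hex : ∃ c ∈ Finset.range r, K.card ≤ r * (K.filter (fun x => x % r = (c : ℤ))).card := by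
    by_contra hcon
    push Not at hcon
    have hsum : K.card = ∑ c ∈ Finset.range r, (K.filter (fun x => x % r = (c : ℤ))).card := by
      rw [Finset.card_eq_sum_card_fiberwise (f := fun x : ℤ => (x % r).toNat)
        (t := Finset.range r)]
      · refine Finset.sum_congr rfl fun c hc => ?_
        congr 1
        refine Finset.filter_congr fun x _ => ?_
        have h0 : 0 ≤ x % (r : ℤ) := Int.emod_nonneg _ (by omega)
        omega
      · intro x _
        have h0 : 0 ≤ x % (r : ℤ) := Int.emod_nonneg _ (by omega)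
        have h1 : x % (r : ℤ) < r := Int.emod_lt_of_pos _ (by omega)
        simp only [Finset.coe_range, Set.mem_Iio]
        omega
    have hlt : r * K.card < r * K.card := by
      calc r * K.card = ∑ c ∈ Finset.range r, r * (K.filter (fun x => x % r = (c : ℤ))).card := by
            rw [← Finset.mul_sum, ← hsum]
        _ < ∑ c ∈ Finset.range r, K.card := by
            refine Finset.sum_lt_sum_of_nonempty (Finset.nonempty_range_iff.2 hr.ne') ?_
            intro c hc
            exact hcon c hc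
        _ = r * K.card := by simp
    exact lt_irrefl _ hlt
  obtain ⟨c, _, hcard⟩ := hex
  set K' := K.filter (fun x => x % r = (c : ℤ)) with hK'
  have h := (main K' (by
    intro x hx y hy
    rw [hK', Finset.mem_filter] at hx hy
    rw [hx.2, hy.2])).2
  calc P (B ∩ {ω | ∀ x ∈ K, (f x ω, ω) ∈ Bad x})
      ≤ P (B ∩ {ω | ∀ x ∈ K', (f x ω, ω) ∈ Bad x}) := by
        refine measure_mono (Set.inter_subset_inter_right _ ?_)
        intro ω hω x hx
        exact hω x (Finset.mem_filter.1 hx).1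
    _ ≤ (q ^ r) ^ K'.card * P B := h
    _ ≤ q ^ K.card * P B := by
        refine mul_le_mul_left ?_ _
        rw [← pow_mul]
        exact pow_le_pow_right_of_le_one' hq1 hcard

/-- **K-set bound for random states from the K-set bound for deterministic states.** `m1` = past,
`m2` = rows of the layer, independent. -/
theorem kset_rand {Ω Λ : Type*} {m1 m2 : MeasurableSpace Ω}
    [m0 : MeasurableSpace Ω] [mΛ : MeasurableSpace Λ]
    (P : Measure Ω) [IsProbabilityMeasure P] (h1 : m1 ≤ m0) (h2 : m2 ≤ m0) (hind : Indep m1 m2 P)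
    (Bad : ℤ → Set (Λ × Ω)) (hBad : ∀ x, MeasurableSet[mΛ.prod m2] (Bad x))
    (cls : ℤ → Set Λ) (K : Finset ℤ) (c : ℝ≥0∞)
    (hc : ∀ lam : ℤ → Λ, (∀ x, lam x ∈ cls x) → P {ω | ∀ x ∈ K, (lam x, ω) ∈ Bad x} ≤ c)
    (f : ℤ → Ω → Λ) (hf : ∀ x, Measurable[m1] (f x))
    (hfc : ∀ x ω, f x ω ∈ cls x) (B : Set Ω) (hB : MeasurableSet[m1] B) :
    P (B ∩ {ω | ∀ x ∈ K, (f x ω, ω) ∈ Bad x}) ≤ c * P B := by
  classical
  let Bad' : Set ((ℤ → Λ) × Ω) := ⋂ x ∈ K, {p | (p.1 x, p.2) ∈ Bad x}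
  have hBad' : MeasurableSet[MeasurableSpace.pi.prod m2] Bad' := by
    refine Finset.measurableSet_biInter _ fun x _ => ?_
    have hm : @Measurable ((ℤ → Λ) × Ω) (Λ × Ω) (MeasurableSpace.pi.prod m2) (mΛ.prod m2)
        (fun p => (p.1 x, p.2)) := by
      refine @Measurable.prodMk ((ℤ → Λ) × Ω) (MeasurableSpace.pi.prod m2) Λ Ω mΛ m2 _ _ ?_ ?_
      · exact (measurable_pi_apply x).comp (@measurable_fst (ℤ → Λ) Ω MeasurableSpace.pi m2)
      · exact @measurable_snd (ℤ → Λ) Ω MeasurableSpace.pi m2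
    exact hm (hBad x)
  have h := rand_state (Λ := ℤ → Λ) P h1 h2 hind Bad' hBad' (fun ω x => f x ω)
    (@measurable_pi_lambda Ω ℤ (fun _ => Λ) m1 (fun _ => mΛ) _ hf) {lam | ∀ x, lam x ∈ cls x} (fun ω x => hfc x ω) c
    (fun lam hlam => by
      have := hc lam hlam
      simpa [Bad'] using this) B hB
  simpa [Bad'] using h

end Crest.Agent.R154.TileInd748
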