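import Mathlib

/-!
# The window lemma (W) of B8, large heights: attempts from every layer, in weighted form

`τ k z` = lifetime (number of layers) of the cluster of good tiles started from the point `z` at
layer `k`; `w k z` = the quenched hitting law of layer `k`.  No enlargement of the probability
space: `h m` is the weight (conditional probability given the environment) of a restart at `m`.
-/

set_option linter.deprecated false
set_option linter.unusedVariables false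

open MeasureTheory ENNReal

namespace Crest.Agent.R154.Window299

variable {Ω Z : Type*}

/-- mass of the points of layer `k` whose cluster has lifetime exactly `t` -/
noncomputable def aw (w : ℕ → Z → Ω → ℝ≥0∞) (τ : ℕ → Z → Ω → ℕ∞) (k t : ℕ) (ω : Ω) : ℝ≥0∞ :=
  ∑' z, w k z ω * {ω | τ k z ω = t}.indicator (fun _ => (1 : ℝ≥0∞)) ω

/-- mass of the points of layer `k` whose cluster has lifetime `> t` -/
noncomputable def tw (w : ℕ → Z → Ω → ℝ≥0∞) (τ : ℕ → Z → Ω → ℕ∞) (k t : ℕ) (ω : Ω) : ℝ≥0∞ :=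
  ∑' z, w k z ω * {ω | (t : ℕ∞) < τ k z ω}.indicator (fun _ => (1 : ℝ≥0∞)) ω

/-- weight of a restart at layer `m` -/
noncomputable def hw (w : ℕ → Z → Ω → ℝ≥0∞) (τ : ℕ → Z → Ω → ℕ∞) : ℕ → Ω → ℝ≥0∞
  | 0, _ => 1
  | m + 1, ω => ∑ i : Fin (m + 1), hw w τ i ω * aw w τ i (m + 1 - i) ω

theorem hw_succ (w : ℕ → Z → Ω → ℝ≥0∞) (τ : ℕ → Z → Ω → ℕ∞) (m : ℕ) (ω : Ω) :
    hw w τ (m + 1) ω = ∑ i ∈ Finset.range (m + 1), hw w τ i ω * aw w τ i (m + 1 - i) ω := by
  rw [hw, Finset.sum_range]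

theorem tw_split (w : ℕ → Z → Ω → ℝ≥0∞) (τ : ℕ → Z → Ω → ℕ∞) (k t : ℕ) (ω : Ω) :
    tw w τ k t ω = aw w τ k (t + 1) ω + tw w τ k (t + 1) ω := by
  unfold tw aw
  rw [← ENNReal.tsum_add]
  refine tsum_congr fun z => ?_
  rw [← mul_add]
  congr 1
  simp only [Set.indicator, Set.mem_setOf_eq]
  rcases lt_trichotomy (τ k z ω) ((t + 1 : ℕ) : ℕ∞) with h | h | h
  · have h1 : ¬ ((t : ℕ∞) < τ k z ω) := by
      intro hc
      have := Order.add_one_le_of_lt hc
      exact absurd h (not_lt.2 (by exact_mod_cast this))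
    rw [if_neg h1, if_neg h.ne, if_neg (not_lt.2 h.le)]
    simp
  · have h1 : (t : ℕ∞) < τ k z ω := by
      rw [h]; exact_mod_cast Nat.lt_succ_self t
    rw [if_pos h1, if_pos h, if_neg (by rw [h]; exact lt_irrefl _)]
    simp
  · have h1 : (t : ℕ∞) < τ k z ω := lt_trans (by exact_mod_cast Nat.lt_succ_self t) h
    rw [if_pos h1, if_neg h.ne', if_pos h]
    simp

theorem tw_split_many (w : ℕ → Z → Ω → ℝ≥0∞) (τ : ℕ → Z → Ω → ℕ∞) (k : ℕ) (ω : Ω) (t : ℕ) :
    ∀ n : ℕ, tw w τ k t ω = ∑ j ∈ Finset.range n, aw w τ k (t + 1 + j) ω + tw w τ k (t + n) ω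
  | 0 => by simp
  | n + 1 => by
      rw [tw_split_many w τ k ω t n, tw_split, Finset.sum_range_succ]
      have e : t + n + 1 = t + 1 + n := by omega
      have e2 : t + (n + 1) = t + 1 + n := by omega
      rw [e, e2, ← add_assoc]

theorem tw_zero (w : ℕ → Z → Ω → ℝ≥0∞) (τ : ℕ → Z → Ω → ℕ∞) (k : ℕ) (ω : Ω)
    (hτ : ∀ k z, 1 ≤ τ k z ω) : tw w τ k 0 ω = ∑' z, w k z ω := by
  rw [tw]
  refine tsum_congr fun z => ?_
  have : ω ∈ {ω | ((0 : ℕ) : ℕ∞) < τ k z ω} := lt_of_lt_of_le (by simp) (hτ k z)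
  rw [Set.indicator_of_mem this, mul_one]

/-- exact renewal identity: the attempt alive at layer `n` is unique -/
theorem renewal (w : ℕ → Z → Ω → ℝ≥0∞) (τ : ℕ → Z → Ω → ℕ∞) (ω : Ω) (hτ : ∀ k z, 1 ≤ τ k z ω) :
    ∀ n : ℕ, (∀ k ≤ n, ∑' z, w k z ω = 1) →
      ∑ j ∈ Finset.range (n + 1), hw w τ j ω * tw w τ j (n - j) ω = 1
  | 0, hw1 => by
      simp only [Finset.range_one, Finset.sum_singleton, zero_add, Nat.sub_self]
      rw [hw, one_mul, tw_zero w τ 0 ω hτ, hw1 0 le_rfl]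
  | n + 1, hw1 => by
      have ih := renewal w τ ω hτ n (fun k hk => hw1 k (by omega))
      rw [Finset.sum_range_succ]
      have h0 : tw w τ (n + 1) (n + 1 - (n + 1)) ω = 1 := by
        rw [Nat.sub_self, tw_zero w τ (n + 1) ω hτ, hw1 (n + 1) le_rfl]
      rw [h0, mul_one, hw_succ, ← Finset.sum_add_distrib, ← ih]
      refine Finset.sum_congr rfl fun j hj => ?_
      have hj' : j ≤ n := Nat.lt_succ_iff.1 (Finset.mem_range.1 hj)
      rw [← mul_add, tw_split w τ j (n - j)]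
      have e : n - j + 1 = n + 1 - j := by omega
      rw [e, add_comm]

theorem hw_le_one (w : ℕ → Z → Ω → ℝ≥0∞) (τ : ℕ → Z → Ω → ℕ∞) (ω : Ω)
    (hτ : ∀ k z, 1 ≤ τ k z ω) (n : ℕ) (hw1 : ∀ k ≤ n, ∑' z, w k z ω = 1) : hw w τ n ω ≤ 1 := by
  have h := renewal w τ ω hτ n hw1
  rw [Finset.sum_range_succ, Nat.sub_self] at h
  have h0 : tw w τ n 0 ω = 1 := by
    rw [tw_zero w τ n ω hτ, hw1 n le_rfl]
  rw [h0, mul_one] at h
  rw [← h]
  exact le_add_self

/-- **pointwise part of the attempts**: if from every layer `j ≤ K0` the surviving mass is at most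
`1/(2(K0+1))`, the restart weights of the layers in `(K0, K]` sum to at least `1/2`. -/
theorem half_le_sum (w : ℕ → Z → Ω → ℝ≥0∞) (τ : ℕ → Z → Ω → ℕ∞) (ω : Ω)
    (hτ : ∀ k z, 1 ≤ τ k z ω) (K0 K : ℕ) (hK : K0 ≤ K) (hw1 : ∀ k ≤ K0, ∑' z, w k z ω = 1)
    (hs : ∀ k ≤ K0, tw w τ k (K - k) ω ≤ (2 * ((K0 : ℝ≥0∞) + 1))⁻¹) :
    2⁻¹ ≤ ∑ m ∈ Finset.range (K - K0), hw w τ (K0 + 1 + m) ω := by
  have h := renewal w τ ω hτ K0 hw1
  have h1 : ∀ j ∈ Finset.range (K0 + 1), hw w τ j ω * tw w τ j (K0 - j) ω =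
      ∑ m ∈ Finset.range (K - K0), hw w τ j ω * aw w τ j (K0 + 1 + m - j) ω +
        hw w τ j ω * tw w τ j (K - j) ω := by
    intro j hj
    have hj' : j ≤ K0 := Nat.lt_succ_iff.1 (Finset.mem_range.1 hj)
    rw [tw_split_many w τ j ω (K0 - j) (K - K0), mul_add, Finset.mul_sum]
    have e : K0 - j + (K - K0) = K - j := by omega
    rw [e]
    congr 1
    refine Finset.sum_congr rfl fun m _ => ?_
    have e2 : K0 - j + 1 + m = K0 + 1 + m - j := by omega
    rw [e2]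
  rw [Finset.sum_congr rfl h1, Finset.sum_add_distrib, Finset.sum_comm] at h
  have h2 : ∑ m ∈ Finset.range (K - K0), ∑ j ∈ Finset.range (K0 + 1),
      hw w τ j ω * aw w τ j (K0 + 1 + m - j) ω ≤
      ∑ m ∈ Finset.range (K - K0), hw w τ (K0 + 1 + m) ω := by
    refine Finset.sum_le_sum fun m _ => ?_
    have e : K0 + 1 + m = (K0 + m) + 1 := by ring
    rw [e, hw_succ]
    refine Finset.sum_le_sum_of_subset ?_
    intro j hj
    simp only [Finset.mem_range] at hj ⊢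
    omega
  have h3 : ∑ j ∈ Finset.range (K0 + 1), hw w τ j ω * tw w τ j (K - j) ω ≤ 2⁻¹ := by
    calc ∑ j ∈ Finset.range (K0 + 1), hw w τ j ω * tw w τ j (K - j) ω
        ≤ ∑ j ∈ Finset.range (K0 + 1), (2 * ((K0 : ℝ≥0∞) + 1))⁻¹ := by
          refine Finset.sum_le_sum fun j hj => ?_
          have hj' : j ≤ K0 := Nat.lt_succ_iff.1 (Finset.mem_range.1 hj)
          calc hw w τ j ω * tw w τ j (K - j) ω ≤ 1 * (2 * ((K0 : ℝ≥0∞) + 1))⁻¹ := by
                gcongr
                · exact hw_le_one w τ ω hτ j (fun k hk => hw1 k (by omega))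
                · exact hs j hj'
            _ = _ := one_mul _
      _ = 2⁻¹ := by
          rw [Finset.sum_const, Finset.card_range, nsmul_eq_mul]
          push_cast
          rw [ENNReal.mul_inv (Or.inl (by norm_num)) (Or.inl (by norm_num)), mul_left_comm,
            ENNReal.mul_inv_cancel (by simp) (by simp), mul_one]
  by_contra hc
  push Not at hc
  have h4 : (1 : ℝ≥0∞) < 2⁻¹ + 2⁻¹ := by
    rw [← h]
    exact ENNReal.add_lt_add_of_lt_of_le (ne_top_of_le_ne_top (by simp) h3) (h2.trans_lt hc) h3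
  rw [ENNReal.inv_two_add_inv_two] at h4
  exact lt_irrefl _ h4

/-! ### the probability part -/

variable {m0 : MeasurableSpace Ω}

/-- conditional bound for events ⇒ conditional bound for functions -/
theorem lintegral_indicator_le (P : Measure Ω) {m : MeasurableSpace Ω} (hm : m ≤ m0)
    {D : Set Ω} (hD : MeasurableSet[m0] D) (c : ℝ≥0∞)
    (h : ∀ B, MeasurableSet[m] B → P (B ∩ D) ≤ c * P B) {f : Ω → ℝ≥0∞} (hf : Measurable[m] f)
    {B : Set Ω} (hB : MeasurableSet[m] B) :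
    ∫⁻ ω in B, f ω * D.indicator (fun _ => (1 : ℝ≥0∞)) ω ∂P ≤ c * ∫⁻ ω in B, f ω ∂P := by
  have hle : ((P.restrict D).trim hm) ≤ c • (P.trim hm) := by
    refine Measure.le_iff.2 fun s hs => ?_
    rw [trim_measurableSet_eq hm hs, Measure.restrict_apply (hm s hs), Measure.smul_apply,
      trim_measurableSet_eq hm hs, smul_eq_mul]
    exact h s hs
  have hfB : Measurable[m] (B.indicator f) := hf.indicator hB
  calc ∫⁻ ω in B, f ω * D.indicator (fun _ => (1 : ℝ≥0∞)) ω ∂P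
      = ∫⁻ ω, B.indicator f ω ∂(P.restrict D) := by
        rw [← lintegral_indicator (hm B hB)]
        rw [← lintegral_indicator hD (B.indicator f)]
        refine lintegral_congr fun ω => ?_
        by_cases h1 : ω ∈ B <;> by_cases h2 : ω ∈ D <;> simp [h1, h2]
    _ = ∫⁻ ω, B.indicator f ω ∂((P.restrict D).trim hm) := (lintegral_trim hm hfB).symm
    _ ≤ ∫⁻ ω, B.indicator f ω ∂(c • (P.trim hm)) := lintegral_mono' hle le_rfl
    _ = c * ∫⁻ ω, B.indicator f ω ∂P := by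
        rw [lintegral_smul_measure, lintegral_trim hm hfB, smul_eq_mul]
    _ = c * ∫⁻ ω in B, f ω ∂P := by rw [lintegral_indicator (hm B hB)]

section
variable [Countable Z] (P : Measure Ω) (F : Filtration ℕ m0) (w : ℕ → Z → Ω → ℝ≥0∞)
  (τ : ℕ → Z → Ω → ℕ∞)

theorem measurable_aw (hw : ∀ k z, Measurable[F k] (w k z))
    (hτ : ∀ k z (t : ℕ), MeasurableSet[F (k + t)] {ω | τ k z ω = t}) (k t : ℕ) :
    Measurable[F (k + t)] (aw w τ k t) := by
  unfold aw
  refine Measurable.ennreal_tsum fun z => ?_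
  exact ((hw k z).mono (F.mono (Nat.le_add_right k t)) le_rfl).mul
    (measurable_const.indicator (hτ k z t))

theorem measurable_hw (hw' : ∀ k z, Measurable[F k] (w k z))
    (hτ : ∀ k z (t : ℕ), MeasurableSet[F (k + t)] {ω | τ k z ω = t}) :
    ∀ m : ℕ, Measurable[F m] (hw w τ m) := by
  intro m
  induction m using Nat.strong_induction_on with
  | _ m ih =>
    rcases m with _ | m
    · have : hw w τ 0 = fun _ => 1 := by funext ω; rw [hw]
      rw [this]
      exact measurable_const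
    · have : hw w τ (m + 1) = fun ω => ∑ i ∈ Finset.range (m + 1),
          hw w τ i ω * aw w τ i (m + 1 - i) ω := by
        funext ω; exact hw_succ w τ m ω
      rw [this]
      refine Finset.measurable_fun_sum _ fun i hi => ?_
      have hi' := Finset.mem_range.1 hi
      have h1 := measurable_aw F w τ hw' hτ i (m + 1 - i)
      rw [show i + (m + 1 - i) = m + 1 by omega] at h1
      exact ((ih i hi').mono (F.mono (by omega)) le_rfl).mul h1

theorem lintegral_hw_le (hwm : ∀ k z, Measurable[F k] (w k z))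
    (hτm : ∀ k z (t : ℕ), MeasurableSet[F (k + t)] {ω | τ k z ω = t})
    (hw1 : ∀ k ω, ∑' z, w k z ω ≤ 1) (θ : ℝ≥0∞)
    (hθ : ∀ k z (t : ℕ), 1 ≤ t → ∀ B, MeasurableSet[F k] B →
      P (B ∩ {ω | τ k z ω = t}) ≤ θ ^ t * P B)
    {B : Set Ω} (hB : MeasurableSet[F 0] B) :
    ∀ m : ℕ, ∫⁻ ω in B, hw w τ m ω ∂P ≤ (2 * θ) ^ m * P B := by
  intro m
  induction m using Nat.strong_induction_on with
  | _ m ih =>
    rcases m with _ | m
    · simp [hw]
    · simp_rw [hw_succ]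
      have hBk : ∀ k, MeasurableSet[F k] B := fun k => F.mono (Nat.zero_le k) _ hB
      rw [lintegral_finsetSum]
      swap
      · intro i hi
        have hi' := Finset.mem_range.1 hi
        exact ((measurable_hw F w τ hwm hτm i).mono (F.le i) le_rfl).mul
          ((measurable_aw F w τ hwm hτm i (m + 1 - i)).mono (F.le _) le_rfl)
      have key : ∀ i ∈ Finset.range (m + 1),
          ∫⁻ ω in B, hw w τ i ω * aw w τ i (m + 1 - i) ω ∂P ≤
            θ ^ (m + 1 - i) * ((2 * θ) ^ i * P B) := by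
        intro i hi
        have hi' := Finset.mem_range.1 hi
        calc ∫⁻ ω in B, hw w τ i ω * aw w τ i (m + 1 - i) ω ∂P
            = ∫⁻ ω in B, ∑' z, (hw w τ i ω * w i z ω) *
                {ω | τ i z ω = ((m + 1 - i : ℕ) : ℕ∞)}.indicator
                  (fun _ => (1 : ℝ≥0∞)) ω ∂P := by
              refine lintegral_congr fun ω => ?_
              rw [aw, ← ENNReal.tsum_mul_left]
              refine tsum_congr fun z => ?_
              rw [mul_assoc]
          _ = ∑' z, ∫⁻ ω in B, (hw w τ i ω * w i z ω) *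
                {ω | τ i z ω = ((m + 1 - i : ℕ) : ℕ∞)}.indicator
                  (fun _ => (1 : ℝ≥0∞)) ω ∂P := by
              rw [lintegral_tsum]
              intro z
              refine Measurable.aemeasurable ?_
              refine (((measurable_hw F w τ hwm hτm i).mono (F.le i) le_rfl).mul
                ((hwm i z).mono (F.le i) le_rfl)).mul ?_
              exact measurable_const.indicator (F.le _ _ (hτm i z (m + 1 - i)))
          _ ≤ ∑' z, θ ^ (m + 1 - i) * ∫⁻ ω in B, (hw w τ i ω * w i z ω) ∂P := by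
              refine ENNReal.tsum_le_tsum fun z => ?_
              exact lintegral_indicator_le P (F.le i) (F.le _ _ (hτm i z (m + 1 - i)))
                (θ ^ (m + 1 - i)) (hθ i z (m + 1 - i) (by omega))
                ((measurable_hw F w τ hwm hτm i).mul (hwm i z)) (hBk i)
          _ = θ ^ (m + 1 - i) * ∫⁻ ω in B, ∑' z, (hw w τ i ω * w i z ω) ∂P := by
              rw [ENNReal.tsum_mul_left, lintegral_tsum]
              intro z
              exact (((measurable_hw F w τ hwm hτm i).mono (F.le i) le_rfl).mul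
                ((hwm i z).mono (F.le i) le_rfl)).aemeasurable
          _ ≤ θ ^ (m + 1 - i) * ∫⁻ ω in B, hw w τ i ω ∂P := by
              gcongr with ω
              rw [ENNReal.tsum_mul_left]
              calc hw w τ i ω * ∑' z, w i z ω ≤ hw w τ i ω * 1 := by
                    gcongr; exact hw1 i ω
                _ = hw w τ i ω := mul_one _
          _ ≤ θ ^ (m + 1 - i) * ((2 * θ) ^ i * P B) := by
              gcongr
              exact ih i hi'
      refine (Finset.sum_le_sum key).trans ?_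
      have e : ∀ i ∈ Finset.range (m + 1), θ ^ (m + 1 - i) * ((2 * θ) ^ i * P B) =
          2 ^ i * (θ ^ (m + 1) * P B) := by
        intro i hi
        have hi' := Finset.mem_range.1 hi
        have : θ ^ (m + 1) = θ ^ (m + 1 - i) * θ ^ i := by
          rw [← pow_add]; congr 1; omega
        rw [this, mul_pow]
        ring
      rw [Finset.sum_congr rfl e, ← Finset.sum_mul]
      have h2 : ∑ i ∈ Finset.range (m + 1), (2 : ℝ≥0∞) ^ i ≤ 2 ^ (m + 1) := by
        have h3 : ∀ n : ℕ, ∑ i ∈ Finset.range n, (2 : ℝ≥0∞) ^ i + 1 = 2 ^ n := by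
          intro n
          induction n with
          | zero => simp
          | succ n ihn =>
            rw [Finset.sum_range_succ, add_right_comm, ihn, pow_succ]
            ring
        rw [← h3 (m + 1)]
        exact le_self_add
      calc (∑ i ∈ Finset.range (m + 1), (2 : ℝ≥0∞) ^ i) * (θ ^ (m + 1) * P B)
          ≤ 2 ^ (m + 1) * (θ ^ (m + 1) * P B) := by gcongr
        _ = (2 * θ) ^ (m + 1) * P B := by rw [mul_pow]; ring

/-- **(Att)**: all attempts started at the layers `≤ K0` die before `K`. -/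
theorem attempts (hwm : ∀ k z, Measurable[F k] (w k z))
    (hτm : ∀ k z (t : ℕ), MeasurableSet[F (k + t)] {ω | τ k z ω = t})
    (hτ1 : ∀ k z ω, 1 ≤ τ k z ω)
    (hw1 : ∀ k ω, ∑' z, w k z ω ≤ 1) (θ : ℝ≥0∞) (hθ4 : 4 * θ ≤ 1)
    (hθ : ∀ k z (t : ℕ), 1 ≤ t → ∀ B, MeasurableSet[F k] B →
      P (B ∩ {ω | τ k z ω = t}) ≤ θ ^ t * P B)
    (K0 K : ℕ) (hK : K0 ≤ K) {B : Set Ω} (hB : MeasurableSet[F 0] B) :
    P (B ∩ {ω | ∀ k ≤ K0, ∑' z, w k z ω = 1 ∧
      tw w τ k (K - k) ω ≤ (2 * ((K0 : ℝ≥0∞) + 1))⁻¹}) ≤ 4 * (2 * θ) ^ (K0 + 1) * P B := by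
  set X : Ω → ℝ≥0∞ := fun ω => ∑ m ∈ Finset.range (K - K0), hw w τ (K0 + 1 + m) ω with hX
  have hXm : Measurable X := by
    refine Finset.measurable_fun_sum _ fun m _ => ?_
    exact (measurable_hw F w τ hwm hτm (K0 + 1 + m)).mono (F.le _) le_rfl
  have hBm : MeasurableSet B := F.le 0 _ hB
  have h1 : P (B ∩ {ω | ∀ k ≤ K0, ∑' z, w k z ω = 1 ∧
      tw w τ k (K - k) ω ≤ (2 * ((K0 : ℝ≥0∞) + 1))⁻¹}) ≤ (P.restrict B) {ω | 2⁻¹ ≤ X ω} := by
    rw [Measure.restrict_apply' hBm, Set.inter_comm]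
    refine measure_mono ?_
    rintro ω ⟨hω, hωB⟩
    exact ⟨half_le_sum w τ ω (fun k z => hτ1 k z ω) K0 K hK (fun k hk => (hω k hk).1)
      (fun k hk => (hω k hk).2), hωB⟩
  have h2 : (P.restrict B) {ω | 2⁻¹ ≤ X ω} ≤ 2 * ∫⁻ ω in B, X ω ∂P := by
    have := mul_meas_ge_le_lintegral (μ := P.restrict B) hXm (2⁻¹ : ℝ≥0∞)
    calc (P.restrict B) {ω | 2⁻¹ ≤ X ω} = 2 * (2⁻¹ * (P.restrict B) {ω | 2⁻¹ ≤ X ω}) := by
          rw [← mul_assoc, ENNReal.mul_inv_cancel (by norm_num) (by norm_num), one_mul]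
      _ ≤ 2 * ∫⁻ ω in B, X ω ∂P := by gcongr
  have h3 : ∫⁻ ω in B, X ω ∂P ≤ 2 * (2 * θ) ^ (K0 + 1) * P B := by
    rw [hX, lintegral_finsetSum _ (fun m _ =>
      (measurable_hw F w τ hwm hτm (K0 + 1 + m)).mono (F.le _) le_rfl)]
    have h2θ : 2 * θ ≤ 2⁻¹ := by
      calc 2 * θ = 2⁻¹ * (4 * θ) := by
            rw [← mul_assoc]
            congr 1
            rw [show (4 : ℝ≥0∞) = 2 * 2 by norm_num, ← mul_assoc,
              ENNReal.inv_mul_cancel (by norm_num) (by norm_num), one_mul]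
        _ ≤ 2⁻¹ * 1 := by gcongr
        _ = 2⁻¹ := mul_one _
    calc ∑ m ∈ Finset.range (K - K0), ∫⁻ ω in B, hw w τ (K0 + 1 + m) ω ∂P
        ≤ ∑ m ∈ Finset.range (K - K0), (2 * θ) ^ (K0 + 1) * P B * 2⁻¹ ^ m := by
          refine Finset.sum_le_sum fun m _ => ?_
          refine (lintegral_hw_le P F w τ hwm hτm hw1 θ hθ hB (K0 + 1 + m)).trans ?_
          rw [pow_add]
          calc (2 * θ) ^ (K0 + 1) * (2 * θ) ^ m * P B
              ≤ (2 * θ) ^ (K0 + 1) * 2⁻¹ ^ m * P B := by gcongr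
            _ = _ := by ring
      _ = (2 * θ) ^ (K0 + 1) * P B * ∑ m ∈ Finset.range (K - K0), 2⁻¹ ^ m := by
          rw [Finset.mul_sum]
      _ ≤ (2 * θ) ^ (K0 + 1) * P B * 2 := by
          gcongr
          refine (ENNReal.sum_le_tsum _).trans ?_
          rw [ENNReal.tsum_geometric, ENNReal.one_sub_inv_two, inv_inv]
      _ = _ := by ring
  calc _ ≤ _ := h1
    _ ≤ _ := h2
    _ ≤ 2 * (2 * (2 * θ) ^ (K0 + 1) * P B) := by gcongr
    _ = _ := by ring

/-- **(W), fixed parameters**: `S k` = quenched probability of reaching layer `k`. -/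
theorem window (hwm : ∀ k z, Measurable[F k] (w k z))
    (hτm : ∀ k z (t : ℕ), MeasurableSet[F (k + t)] {ω | τ k z ω = t})
    (hτ1 : ∀ k z ω, 1 ≤ τ k z ω)
    (hw1 : ∀ k ω, ∑' z, w k z ω ≤ 1) (θ : ℝ≥0∞) (hθ4 : 4 * θ ≤ 1)
    (hθ : ∀ k z (t : ℕ), 1 ≤ t → ∀ B, MeasurableSet[F k] B →
      P (B ∩ {ω | τ k z ω = t}) ≤ θ ^ t * P B)
    (K0 K : ℕ) (hK : K0 ≤ K) (S : ℕ → Ω → ℝ≥0∞) (hSa : ∀ ω, Antitone fun k => S k ω)
    (hS1 : ∀ k ω, S k ω ≠ ∞) (c : ℝ≥0∞) (hc0 : c ≠ 0) (hct : c ≠ ∞)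
    (hSc : ∀ k ≤ K0, ∀ ω, S k ω ≠ 0 → ∑' z, w k z ω = 1 ∧
      S k ω * (c * tw w τ k (K - k) ω) ≤ S K ω)
    {B : Set Ω} (hB : MeasurableSet[F 0] B) :
    P (B ∩ {ω | S K0 ω ≠ 0 ∧ S K ω ≤ c * (2 * ((K0 : ℝ≥0∞) + 1))⁻¹ * S K0 ω}) ≤
      4 * (2 * θ) ^ (K0 + 1) * P B := by
  refine le_trans (measure_mono ?_) (attempts P F w τ hwm hτm hτ1 hw1 θ hθ4 hθ K0 K hK hB)
  refine Set.inter_subset_inter_right B ?_
  rintro ω ⟨h0, hω⟩ k hk
  have hk0 : S k ω ≠ 0 := fun h => h0 (le_antisymm ((hSa ω hk).trans h.le) (zero_le))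
  obtain ⟨h1, h2⟩ := hSc k hk ω hk0
  refine ⟨h1, ?_⟩
  have h3 : S K0 ω * c * tw w τ k (K - k) ω ≤ S K0 ω * c * (2 * ((K0 : ℝ≥0∞) + 1))⁻¹ := by
    calc S K0 ω * c * tw w τ k (K - k) ω ≤ S k ω * (c * tw w τ k (K - k) ω) := by
          rw [mul_assoc]
          gcongr
          exact hSa ω hk
      _ ≤ S K ω := h2
      _ ≤ c * (2 * ((K0 : ℝ≥0∞) + 1))⁻¹ * S K0 ω := hω
      _ = _ := by ring
  exact (ENNReal.mul_le_mul_iff_right (mul_ne_zero h0 hc0) (ENNReal.mul_ne_top (hS1 _ _) hct)).1 h3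

end

end Crest.Agent.R154.Window299
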