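import Crest.Agent.R154.RatioB_872
import Crest.Agent.R154.Window_299

/-!
# The window lemma (W), large heights, for 872's kernel systems

`TileSys A N c1 c θ`: from every site of every level a family of tiles of height `N`: the lifetime
`τ` of the cluster of good tiles is `t` with conditional probability `≤ θ ^ t`, and as long as the
cluster is alive after `s ≥ 1` layers the quenched mass of the climb of `s` layers is
`≥ c1 * c ^ s` (`c1` = extra cost of the first step of an attempt).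
-/

set_option autoImplicit false
set_option linter.deprecated false
set_option linter.unusedVariables false

open MeasureTheory ENNReal Crest.Agent.R154.RatioR872 Crest.Agent.R154.Window299

namespace Crest.Agent.R154.WindowK299

variable {S : Type*} {Ω : Type*} {m0 : MeasurableSpace Ω} {P : Measure Ω}

/-- tiles of height `N`, quenched cost `c` per layer (`c1` once), rate `θ`. -/
structure TileSys (A : KerSys S P) (N : ℕ) (c1 c θ : ℝ≥0∞) : Prop where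
  fam : ∀ (L : ℕ) (x : S), x ∈ A.L L → ∃ τ : Ω → ℕ∞,
    (∀ t : ℕ, MeasurableSet[A.F (L + t * N)] {ω | τ ω = t}) ∧ (∀ ω, 1 ≤ τ ω) ∧
    (∀ t : ℕ, 1 ≤ t → ∀ B, MeasurableSet[A.F L] B → P (B ∩ {ω | τ ω = t}) ≤ θ ^ t * P B) ∧
    (∀ᵐ ω ∂P, ∀ s : ℕ, 1 ≤ s → (s : ℕ∞) < τ ω → c1 * c ^ s ≤ A.N L (L + s * N) ω x)

variable [Countable S] {A : KerSys S P}

/-- composition of masses: exit law of level `a`, then climb to `c`. -/
theorem Sh_mul_le {μ : S → ℝ≥0∞} (hμ : A.Start μ) {a c : ℕ} (hac : a ≤ c) :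
    ∀ᵐ ω ∂P, A.Sh μ a ω * ∑' x, A.exitW μ a ω x * A.N a c ω x ≤ A.Sh μ c ω := by
  filter_upwards [A.comp 0 a c (Nat.zero_le _) hac] with ω h1
  calc A.Sh μ a ω * ∑' x, A.exitW μ a ω x * A.N a c ω x
      = ∑' x, ∑' z, A.push 0 a (fun _ => μ) ω x * A.G a c ω x z := by
        rw [← ENNReal.tsum_mul_left]
        refine tsum_congr fun x => ?_
        rw [← mul_assoc, KerSys.mul_exitW hμ, KerSys.N, ENNReal.tsum_mul_left]
    _ = ∑' x, ∑' z, ∑' x0, μ x0 * (A.G 0 a ω x0 x * A.G a c ω x z) := by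
        refine tsum_congr fun x => tsum_congr fun z => ?_
        unfold KerSys.push
        rw [← ENNReal.tsum_mul_right]
        exact tsum_congr fun x0 => by ring
    _ = ∑' z, ∑' x0, μ x0 * ∑' x, (A.G 0 a ω x0 x * A.G a c ω x z) := by
        rw [ENNReal.tsum_comm]
        refine tsum_congr fun z => ?_
        rw [ENNReal.tsum_comm]
        exact tsum_congr fun x0 => ENNReal.tsum_mul_left
    _ ≤ ∑' z, ∑' x0, μ x0 * A.G 0 c ω x0 z := by
        refine ENNReal.tsum_le_tsum fun z => ENNReal.tsum_le_tsum fun x0 => ?_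
        gcongr
        exact h1 x0 z
    _ = A.Sh μ c ω := rfl

/-- **(W) at fixed parameters** for a kernel system. -/
theorem windowK {N : ℕ} {c1 c θ : ℝ≥0∞} (hT : TileSys A N c1 c θ) (hc10 : c1 ≠ 0)
    (hc11 : c1 ≠ ∞) (hc0 : c ≠ 0) (hc1 : c ≤ 1)
    (hθ4 : 4 * θ ≤ 1) {μ : S → ℝ≥0∞} (hμ : A.Start μ) (H0 K0 K : ℕ) (hK' : K0 < K)
    {B : Set Ω} (hB : MeasurableSet[A.F H0] B) :
    P (B ∩ {ω | A.Sh μ (H0 + K0 * N) ω ≠ 0 ∧ A.Sh μ (H0 + K * N) ω ≤
      c1 * c ^ K * (2 * ((K0 : ℝ≥0∞) + 1))⁻¹ * A.Sh μ (H0 + K0 * N) ω}) ≤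
      4 * (2 * θ) ^ (K0 + 1) * P B := by
  classical
  have hK : K0 ≤ K := hK'.le
  -- the data
  let F : Filtration ℕ m0 :=
    { seq := fun k => A.F (H0 + k * N)
      mono' := fun i j hij => A.F.mono (Nat.add_le_add_left (Nat.mul_le_mul_right N hij) H0)
      le' := fun k => A.F.le _ }
  let w : ℕ → S → Ω → ℝ≥0∞ := fun k z ω => A.exitW μ (H0 + k * N) ω z
  let τ : ℕ → S → Ω → ℕ∞ := fun k z =>
    if h : z ∈ A.L (H0 + k * N) then Classical.choose (hT.fam (H0 + k * N) z h) else fun _ => ⊤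
  have hτpos : ∀ k z (h : z ∈ A.L (H0 + k * N)),
      τ k z = Classical.choose (hT.fam (H0 + k * N) z h) := fun k z h => dif_pos h
  have hτneg : ∀ k z (h : z ∉ A.L (H0 + k * N)), τ k z = fun _ => ⊤ := fun k z h => dif_neg h
  have hwm : ∀ k z, Measurable[F k] (w k z) := fun k z => (KerSys.wt_exitW hμ _).meas z
  have hτm : ∀ k z (t : ℕ), MeasurableSet[F (k + t)] {ω | τ k z ω = t} := by
    intro k z t
    by_cases h : z ∈ A.L (H0 + k * N)
    · rw [hτpos k z h]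
      have := (Classical.choose_spec (hT.fam (H0 + k * N) z h)).1 t
      have e : H0 + k * N + t * N = H0 + (k + t) * N := by ring
      rw [e] at this
      exact this
    · rw [hτneg k z h]
      simp
  have hτ1 : ∀ k z ω, 1 ≤ τ k z ω := by
    intro k z ω
    by_cases h : z ∈ A.L (H0 + k * N)
    · rw [hτpos k z h]
      exact (Classical.choose_spec (hT.fam (H0 + k * N) z h)).2.1 ω
    · rw [hτneg k z h]; exact le_top
  have hw1 : ∀ k ω, ∑' z, w k z ω ≤ 1 := fun k ω => KerSys.tot_exitW_le μ _ ω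
  have hθ : ∀ k z (t : ℕ), 1 ≤ t → ∀ B, MeasurableSet[F k] B →
      P (B ∩ {ω | τ k z ω = t}) ≤ θ ^ t * P B := by
    intro k z t ht B hB
    by_cases h : z ∈ A.L (H0 + k * N)
    · rw [hτpos k z h]
      exact (Classical.choose_spec (hT.fam (H0 + k * N) z h)).2.2.1 t ht B hB
    · rw [hτneg k z h]
      simp
  have hatt := attempts P F w τ hwm hτm hτ1 hw1 θ hθ4 hθ K0 K hK
    (B := B) (by
      have e : H0 + 0 * N = H0 := by ring
      show MeasurableSet[A.F (H0 + 0 * N)] B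
      rw [e]; exact hB)
  refine le_trans (measure_mono_ae ?_) hatt
  have hcomp : ∀ᵐ ω ∂P, ∀ k ∈ Finset.range (K0 + 1), A.Sh μ (H0 + k * N) ω *
      ∑' x, A.exitW μ (H0 + k * N) ω x * A.N (H0 + k * N) (H0 + K * N) ω x ≤
        A.Sh μ (H0 + K * N) ω := by
    rw [Filter.eventually_all_finset]
    intro k hk
    have hk' : k ≤ K0 := Nat.lt_succ_iff.1 (Finset.mem_range.1 hk)
    exact Sh_mul_le hμ (Nat.add_le_add_left (Nat.mul_le_mul_right N (hk'.trans hK)) H0)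
  have hcost : ∀ᵐ ω ∂P, ∀ k ∈ Finset.range (K0 + 1), ∀ z, z ∈ A.L (H0 + k * N) →
      ∀ s : ℕ, 1 ≤ s → (s : ℕ∞) < τ k z ω →
        c1 * c ^ s ≤ A.N (H0 + k * N) (H0 + k * N + s * N) ω z := by
    rw [Filter.eventually_all_finset]
    intro k _
    rw [ae_all_iff]
    intro z
    by_cases h : z ∈ A.L (H0 + k * N)
    · filter_upwards [(Classical.choose_spec (hT.fam (H0 + k * N) z h)).2.2.2] with ω hω _
      rw [hτpos k z h]
      exact hω
    · exact Filter.Eventually.of_forall fun ω h' => absurd h' h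
  filter_upwards [hcomp, hcost] with ω h1 h2
  rintro ⟨hωB, hω0, hω⟩
  refine ⟨hωB, fun k hk => ?_⟩
  have hkm : H0 + k * N ≤ H0 + K0 * N := Nat.add_le_add_left (Nat.mul_le_mul_right N hk) H0
  have hSk : A.Sh μ (H0 + K0 * N) ω ≤ A.Sh μ (H0 + k * N) ω := KerSys.Sh_anti hkm ω
  have hk0 : A.Sh μ (H0 + k * N) ω ≠ 0 := fun h => hω0 (le_antisymm (hSk.trans h.le) zero_le)
  refine ⟨KerSys.tot_exitW_eq hμ _ ω hk0, ?_⟩
  have hkr : k ∈ Finset.range (K0 + 1) := Finset.mem_range.2 (Nat.lt_succ_of_le hk)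
  -- surviving mass
  have h3 : c1 * c ^ K * tw w τ k (K - k) ω ≤
      ∑' x, A.exitW μ (H0 + k * N) ω x * A.N (H0 + k * N) (H0 + K * N) ω x := by
    rw [tw, ← ENNReal.tsum_mul_left]
    refine ENNReal.tsum_le_tsum fun z => ?_
    by_cases hz : z ∈ A.L (H0 + k * N)
    · by_cases hs : ((K - k : ℕ) : ℕ∞) < τ k z ω
      · have h4 := h2 k hkr z hz (K - k) (by omega) hs
        have e : H0 + k * N + (K - k) * N = H0 + K * N := by
          rw [add_assoc, ← add_mul, Nat.add_sub_cancel' (hk.trans hK)]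
        rw [e] at h4
        have hmem : ω ∈ {ω | ((K - k : ℕ) : ℕ∞) < τ k z ω} := hs
        rw [Set.indicator_of_mem hmem, mul_one, mul_comm]
        refine mul_le_mul_right (le_trans ?_ h4) _
        exact mul_le_mul_right (pow_le_pow_right_of_le_one' hc1 (Nat.sub_le K k)) _
      · have hmem : ω ∉ {ω | ((K - k : ℕ) : ℕ∞) < τ k z ω} := hs
        rw [Set.indicator_of_notMem hmem]
        simp
    · have : w k z ω = 0 := (KerSys.wt_exitW hμ _).supp ω z hz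
      rw [this]
      simp
  have h5 : A.Sh μ (H0 + K0 * N) ω * (c1 * c ^ K) * tw w τ k (K - k) ω ≤
      A.Sh μ (H0 + K0 * N) ω * (c1 * c ^ K) * (2 * ((K0 : ℝ≥0∞) + 1))⁻¹ := by
    calc A.Sh μ (H0 + K0 * N) ω * (c1 * c ^ K) * tw w τ k (K - k) ω
        = A.Sh μ (H0 + K0 * N) ω * (c1 * c ^ K * tw w τ k (K - k) ω) := by rw [mul_assoc]
      _ ≤ A.Sh μ (H0 + k * N) ω *
          ∑' x, A.exitW μ (H0 + k * N) ω x * A.N (H0 + k * N) (H0 + K * N) ω x := by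
          gcongr
      _ ≤ A.Sh μ (H0 + K * N) ω := h1 k hkr
      _ ≤ c1 * c ^ K * (2 * ((K0 : ℝ≥0∞) + 1))⁻¹ * A.Sh μ (H0 + K0 * N) ω := hω
      _ = _ := by ring
  have hct : c1 * c ^ K ≠ ∞ := ENNReal.mul_ne_top hc11
    (ENNReal.pow_ne_top (ne_top_of_le_ne_top ENNReal.one_ne_top hc1))
  have hSt : A.Sh μ (H0 + K0 * N) ω ≠ ∞ :=
    ne_top_of_le_ne_top ENNReal.one_ne_top (KerSys.Sh_le_one hμ _ ω)
  exact (ENNReal.mul_le_mul_iff_right (mul_ne_zero hω0 (mul_ne_zero hc10 (pow_ne_zero _ hc0)))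
    (ENNReal.mul_ne_top hSt hct)).1 h5

/-! ### one window, one tile system -/

theorem rate_le {E y ρ : ℝ} (hρ : 2 ≤ ρ) (K0 : ℕ) (hK0R : 9 * y ≤ (K0 : ℝ) + 1)
    (hE : E + 2 ≤ 9 * y * (ρ - 1)) :
    4 * (2 * ENNReal.ofReal (Real.exp (-ρ))) ^ (K0 + 1) ≤ ENNReal.ofReal (Real.exp (-E)) := by
  have h1 : 2 * ENNReal.ofReal (Real.exp (-ρ)) ≤ ENNReal.ofReal (Real.exp (-(ρ - 1))) := by
    rw [show (2 : ℝ≥0∞) = ENNReal.ofReal 2 by simp, ← ENNReal.ofReal_mul (by norm_num)]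
    refine ENNReal.ofReal_le_ofReal ?_
    have h2 : (2 : ℝ) ≤ Real.exp 1 := by
      have := Real.add_one_le_exp 1; linarith
    calc 2 * Real.exp (-ρ) ≤ Real.exp 1 * Real.exp (-ρ) := by gcongr
      _ = Real.exp (-(ρ - 1)) := by rw [← Real.exp_add]; congr 1; ring
  have h8 : E + 2 ≤ (ρ - 1) * (K0 + 1) := by
    have h7 : 9 * y * (ρ - 1) ≤ ((K0 : ℝ) + 1) * (ρ - 1) :=
      mul_le_mul_of_nonneg_right hK0R (by linarith)
    linarith
  have h3 : (4 : ℝ) ≤ Real.exp 2 := by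
    have h5 : (2 : ℝ) ≤ Real.exp 1 := by have := Real.add_one_le_exp 1; linarith
    calc (4 : ℝ) = 2 * 2 := by norm_num
      _ ≤ Real.exp 1 * Real.exp 1 := by gcongr
      _ = Real.exp 2 := by rw [← Real.exp_add]; norm_num
  have h10 : 4 * Real.exp (-((ρ - 1) * (K0 + 1))) ≤ Real.exp (-E) := by
    calc 4 * Real.exp (-((ρ - 1) * (K0 + 1)))
        ≤ Real.exp 2 * Real.exp (-(E + 2)) :=
          mul_le_mul h3 (Real.exp_le_exp.2 (neg_le_neg h8)) (Real.exp_pos _).le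
            (Real.exp_pos _).le
      _ = Real.exp (-E) := by rw [← Real.exp_add]; congr 1; ring
  calc 4 * (2 * ENNReal.ofReal (Real.exp (-ρ))) ^ (K0 + 1)
      ≤ 4 * ENNReal.ofReal (Real.exp (-(ρ - 1))) ^ (K0 + 1) := by gcongr
    _ = ENNReal.ofReal (4 * Real.exp (-((ρ - 1) * (K0 + 1)))) := by
        rw [← ENNReal.ofReal_pow (Real.exp_pos _).le, ← Real.exp_nat_mul,
          ENNReal.ofReal_mul (by norm_num)]
        congr 1
        · simp
        · congr 2; push_cast; ring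
    _ ≤ ENNReal.ofReal (Real.exp (-E)) := ENNReal.ofReal_le_ofReal h10

theorem cost_le {v y mn m1 : ℝ} (hmn1 : 1 ≤ mn) (hy1 : 1 ≤ y) (hm1 : m1 ≤ v / 2)
    (hyC : 400 * y * mn ≤ v) (K0 K : ℕ) (hKR : (K : ℝ) ≤ 100 * y) (hK0R' : (K0 : ℝ) ≤ 9 * y) :
    ENNReal.ofReal (Real.exp (-v)) ≤ ENNReal.ofReal (Real.exp (-m1)) *
      ENNReal.ofReal (Real.exp (-mn)) ^ K * (2 * ((K0 : ℝ≥0∞) + 1))⁻¹ := by
  have hb : (2 * ((K0 : ℝ) + 1)) ≤ Real.exp (20 * y) := by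
    have h3 : 2 * ((K0 : ℝ) + 1) ≤ 20 * y := by linarith
    have h4 := Real.add_one_le_exp (20 * y)
    linarith
  have hcK : ENNReal.ofReal (Real.exp (-mn)) ^ K =
      ENNReal.ofReal (Real.exp (-(mn * K))) := by
    rw [← ENNReal.ofReal_pow (Real.exp_pos _).le, ← Real.exp_nat_mul]
    congr 2; ring
  have h5 : (2 * ((K0 : ℝ≥0∞) + 1))⁻¹ = ENNReal.ofReal ((2 * ((K0 : ℝ) + 1))⁻¹) := by
    rw [ENNReal.ofReal_inv_of_pos (by positivity)]
    congr 1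
    rw [ENNReal.ofReal_mul (by norm_num), ENNReal.ofReal_add (by positivity) (by norm_num)]
    simp
  rw [hcK, h5, ← ENNReal.ofReal_mul (Real.exp_pos _).le, ← ENNReal.ofReal_mul (by positivity)]
  refine ENNReal.ofReal_le_ofReal ?_
  have h6 : Real.exp (-(20 * y)) ≤ (2 * ((K0 : ℝ) + 1))⁻¹ := by
    rw [Real.exp_neg]
    exact inv_anti₀ (by positivity) hb
  have h7 : mn * K ≤ mn * (100 * y) := by gcongr
  have h8 : y ≤ y * mn := by nlinarith
  calc Real.exp (-v) ≤ Real.exp (-m1 + -(mn * K) + -(20 * y)) := by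
        apply Real.exp_le_exp.2
        linarith
    _ = Real.exp (-m1) * Real.exp (-(mn * K)) * Real.exp (-(20 * y)) := by
        rw [Real.exp_add, Real.exp_add]
    _ ≤ _ := by gcongr

/-- **(W) for one window `i`, one strength `v`, one tile system** of height `N ≤ 10^i`, cost `m`
per layer (`m1` once), rate `ρ`: only arithmetic is left. -/
theorem window_param {N : ℕ} (hNpos : 0 < N) {m m1 ρ : ℝ} (hm : 1 ≤ m) (hρ : 2 ≤ ρ)
    (hTS : TileSys A N (ENNReal.ofReal (Real.exp (-m1))) (ENNReal.ofReal (Real.exp (-m)))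
      (ENNReal.ofReal (Real.exp (-ρ))))
    {i : ℕ} (hNx : N ≤ 10 ^ i) {v E : ℝ} (hC : 400 * 10 ^ i * m ≤ v * N) (hm1 : m1 ≤ v / 2)
    (hE : (E + 2) * N ≤ 9 * 10 ^ i * (ρ - 1)) {μ : S → ℝ≥0∞} (hμ : A.Start μ)
    {B : Set Ω} (hB : MeasurableSet[A.F (10 ^ i)] B) :
    P (B ∩ {ω | A.Sh μ (10 ^ (i + 1)) ω ≠ 0 ∧ A.Sh μ (10 ^ (i + 2)) ω ≤
        ENNReal.ofReal (Real.exp (-v)) * A.Sh μ (10 ^ (i + 1)) ω}) ≤
        ENNReal.ofReal (Real.exp (-E)) * P B := by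
  classical
  have hNRpos : (0 : ℝ) < N := by exact_mod_cast hNpos
  have hNxR : (N : ℝ) ≤ 10 ^ i := by exact_mod_cast hNx
  set K0 : ℕ := 9 * 10 ^ i / N with hK0
  set K : ℕ := 99 * 10 ^ i / N + 1 with hK
  have hK0N : K0 * N ≤ 9 * 10 ^ i := Nat.div_mul_le_self _ _
  have hK0N' : 9 * 10 ^ i < (K0 + 1) * N := by
    rw [hK0, mul_comm (9 * 10 ^ i / N + 1) N]; exact Nat.lt_mul_div_succ _ hNpos
  have hKN : 99 * 10 ^ i < K * N := by
    rw [hK, mul_comm (99 * 10 ^ i / N + 1) N]; exact Nat.lt_mul_div_succ _ hNpos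
  have hKN' : (K - 1) * N ≤ 99 * 10 ^ i := by
    rw [hK, Nat.add_sub_cancel]; exact Nat.div_mul_le_self _ _
  have hK0K : K0 < K := by
    rw [hK0, hK]
    exact Nat.lt_succ_of_le (Nat.div_le_div_right (Nat.mul_le_mul_right _ (by norm_num)))
  set y : ℝ := 10 ^ i / N with hy
  have hy1 : 1 ≤ y := by rw [hy, one_le_div hNRpos]; exact hNxR
  have hKR : (K : ℝ) ≤ 100 * y := by
    have h1 : ((K - 1 : ℕ) : ℝ) * N ≤ 99 * 10 ^ i := by exact_mod_cast hKN'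
    have h2 : ((K - 1 : ℕ) : ℝ) = K - 1 := by
      rw [Nat.cast_sub (by rw [hK]; exact Nat.le_add_left 1 _)]; simp
    rw [h2] at h1
    have h3 : (K : ℝ) - 1 ≤ 99 * y := by
      rw [hy, ← mul_div_assoc, le_div_iff₀ hNRpos]; exact h1
    linarith
  have hK0R : 9 * y ≤ (K0 : ℝ) + 1 := by
    have h1 : (9 * 10 ^ i : ℝ) < ((K0 : ℝ) + 1) * N := by exact_mod_cast hK0N'
    rw [hy, ← mul_div_assoc, div_le_iff₀ hNRpos]; exact h1.le
  have hK0R' : (K0 : ℝ) ≤ 9 * y := by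
    have h1 : (K0 : ℝ) * N ≤ 9 * 10 ^ i := by exact_mod_cast hK0N
    rw [hy, ← mul_div_assoc, le_div_iff₀ hNRpos]; exact h1
  have hyC : 400 * y * m ≤ v := by
    have : 400 * y * m = (400 * 10 ^ i * m) / N := by rw [hy]; ring
    rw [this, div_le_iff₀ hNRpos]; exact hC
  have hyE : E + 2 ≤ 9 * y * (ρ - 1) := by
    have : 9 * y * (ρ - 1) = (9 * 10 ^ i * (ρ - 1)) / N := by rw [hy]; ring
    rw [this, le_div_iff₀ hNRpos]; exact hE
  -- the main estimate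
  have hmain := windowK (A := A) hTS (by simp [Real.exp_pos]) ENNReal.ofReal_ne_top
    (by simp [Real.exp_pos]) (by
      rw [ENNReal.ofReal_le_one]; exact Real.exp_le_one_iff.2 (by linarith))
    (by
      have h1 : Real.exp (-ρ) ≤ 1 / 4 := by
        have h3 : Real.exp (-ρ) ≤ Real.exp (-2) := Real.exp_le_exp.2 (by linarith)
        have h4 : Real.exp (-2) ≤ 1 / 4 := by
          rw [Real.exp_neg, one_div]
          apply inv_anti₀ (by norm_num)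
          have h5 : (2 : ℝ) ≤ Real.exp 1 := by have := Real.add_one_le_exp 1; linarith
          calc (4 : ℝ) = 2 * 2 := by norm_num
            _ ≤ Real.exp 1 * Real.exp 1 := by gcongr
            _ = Real.exp 2 := by rw [← Real.exp_add]; norm_num
        exact h3.trans h4
      calc 4 * ENNReal.ofReal (Real.exp (-ρ))
          ≤ 4 * ENNReal.ofReal (1 / 4) := by gcongr
        _ = 1 := by
            rw [show (4 : ℝ≥0∞) = ENNReal.ofReal 4 by simp, ← ENNReal.ofReal_mul (by norm_num)]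
            norm_num) hμ (10 ^ i) K0 K hK0K hB
  refine le_trans (measure_mono (Set.inter_subset_inter_right B ?_)) (hmain.trans ?_)
  · -- inclusion of the events
    rintro ω ⟨h1, h2⟩
    have e1 : 10 ^ i + K0 * N ≤ 10 ^ (i + 1) := by
      calc 10 ^ i + K0 * N ≤ 10 ^ i + 9 * 10 ^ i := by gcongr
        _ = 10 ^ (i + 1) := by ring
    have e2 : 10 ^ (i + 2) ≤ 10 ^ i + K * N := by
      calc 10 ^ (i + 2) = 10 ^ i + 99 * 10 ^ i := by ring
        _ ≤ 10 ^ i + K * N := by gcongr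
    have a1 := KerSys.Sh_anti (A := A) (μ := μ) e1 ω
    have a2 := KerSys.Sh_anti (A := A) (μ := μ) e2 ω
    refine ⟨fun h => h1 (le_antisymm (a1.trans h.le) zero_le), ?_⟩
    refine a2.trans (h2.trans ?_)
    refine mul_le_mul' ?_ a1
    exact cost_le hm hy1 hm1 hyC K0 K hKR hK0R'
  · -- the rate
    gcongr
    exact rate_le hρ K0 hK0R hyE

/-! ### choice of the scale -/

/-- exponent of the coarsest dyadic scale of the window `i` -/
def lg (i : ℕ) : ℕ := Nat.log 2 (10 ^ i)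

/-- extra deterministic cost of an irregular window -/
noncomputable def wx (m : ℕ → ℝ) (M0 : ℝ) (i : ℕ) : ℝ :=
  if m (lg i) ≤ M0 then 0 else 800 * m (lg i)

theorem wx_nonneg {m : ℕ → ℝ} (hm : ∀ n, 1 ≤ m n) (M0 : ℝ) (i : ℕ) : 0 ≤ wx m M0 i := by
  unfold wx
  split_ifs
  · exact le_rfl
  · have := hm (lg i); linarith

/-- **(W), large heights, with scale dependent cost `m n` at height `2 ^ n`.** -/
theorem window_scale (m : ℕ → ℝ) (hm : ∀ n, 1 ≤ m n)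
    (hT : ∀ Λ : ℝ, ∃ (m1 : ℝ) (n0 : ℕ), ∀ n, n0 ≤ n → m (n + 1) ≤ 2 * m n →
      TileSys A (2 ^ (n + 1)) (ENNReal.ofReal (Real.exp (-m1)))
        (ENNReal.ofReal (Real.exp (-(m (n + 1)))))
        (ENNReal.ofReal (Real.exp (-(Λ * m n))))) :
    ∀ lam : ℝ, 0 < lam → ∀ M0 : ℝ, ∃ u0 c : ℝ, 0 < c ∧ 1 ≤ u0 ∧ ∀ μ : S → ℝ≥0∞, A.Start μ →
      ∀ (i : ℕ) (u : ℝ), u0 ≤ u → u + wx m M0 i ≤ c * 10 ^ i →
      ∀ B, MeasurableSet[A.F (10 ^ i)] B →
      P (B ∩ {ω | A.Sh μ (10 ^ (i + 1)) ω ≠ 0 ∧ A.Sh μ (10 ^ (i + 2)) ω ≤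
        ENNReal.ofReal (Real.exp (-(u + wx m M0 i))) * A.Sh μ (10 ^ (i + 1)) ω}) ≤
        ENNReal.ofReal (Real.exp (-(lam * u))) * P B := by
  classical
  intro lam hlam M0
  set Λ : ℝ := 2 + 100 * (lam + 2) with hΛ
  obtain ⟨m1, n0, hn0⟩ := hT Λ
  refine ⟨max (max (800 * M0) 1) (2 * m1), 1 / 2 ^ n0, by positivity,
    (le_max_right _ _).trans (le_max_left _ _), ?_⟩
  intro μ hμ i u hu huc B hB
  have hu1 : 1 ≤ u := ((le_max_right _ _).trans (le_max_left _ _)).trans hu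
  have huM : 800 * M0 ≤ u := ((le_max_left _ _).trans (le_max_left _ _)).trans hu
  have hum1 : 2 * m1 ≤ u := (le_max_right _ _).trans hu
  set v : ℝ := u + wx m M0 i with hv
  have hwx := wx_nonneg hm M0 i
  have huv : u ≤ v := by linarith
  have hv1 : 1 ≤ v := hu1.trans huv
  have hx0 : (0 : ℝ) < 10 ^ i := by positivity
  have hLle : (2 : ℝ) ^ lg i ≤ 10 ^ i := by
    have : 2 ^ lg i ≤ 10 ^ i := Nat.pow_log_le_self 2 (by positivity)
    exact_mod_cast this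
  have hLlt : (10 : ℝ) ^ i < 2 ^ (lg i + 1) := by
    have : 10 ^ i < 2 ^ (lg i + 1) := Nat.lt_pow_succ_log_self (by norm_num) _
    exact_mod_cast this
  -- the coarsest scale is admissible
  have hvL : 800 * m (lg i) ≤ v := by
    rw [hv]
    unfold wx
    split_ifs with h
    · linarith
    · linarith
  have hCL : 400 * 10 ^ i * m (lg i) ≤ v * 2 ^ lg i := by
    have h1 : 0 < m (lg i) := by have := hm (lg i); linarith
    have h2 : (10 : ℝ) ^ i ≤ 2 * 2 ^ lg i := by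
      rw [pow_succ] at hLlt; linarith
    have h3 : (0 : ℝ) < 2 ^ lg i := by positivity
    calc 400 * 10 ^ i * m (lg i) ≤ 400 * (2 * 2 ^ lg i) * m (lg i) := by gcongr
      _ = (800 * m (lg i)) * 2 ^ lg i := by ring
      _ ≤ v * 2 ^ lg i := by gcongr
  have hex : ∃ n : ℕ, 400 * 10 ^ i * m n ≤ v * 2 ^ n := ⟨_, hCL⟩
  set ns := Nat.find hex with hns
  have hC : 400 * 10 ^ i * m ns ≤ v * 2 ^ ns := Nat.find_spec hex
  have hnsL : ns ≤ lg i := Nat.find_min' hex hCL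
  have hns0 : n0 < ns := by
    by_contra hcon
    push Not at hcon
    have h1 : (2 : ℝ) ^ ns ≤ 2 ^ n0 := pow_le_pow_right₀ (by norm_num) hcon
    have h2 : v * 2 ^ ns ≤ (1 / 2 ^ n0 * 10 ^ i) * 2 ^ n0 := by
      calc v * 2 ^ ns ≤ v * 2 ^ n0 := by gcongr
        _ ≤ (1 / 2 ^ n0 * 10 ^ i) * 2 ^ n0 := by gcongr
    have h3 : (1 / 2 ^ n0 * 10 ^ i) * 2 ^ n0 = (10 : ℝ) ^ i := by
      field_simp
    rw [h3] at h2
    have h4 := hm ns
    nlinarith
  obtain ⟨n, hn⟩ : ∃ n, ns = n + 1 := ⟨ns - 1, by omega⟩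
  have hn0n : n0 ≤ n := by omega
  have hnC : v * 2 ^ n < 400 * 10 ^ i * m n := by
    have := Nat.find_min hex (m := n) (by omega)
    push Not at this
    exact this
  rw [hn] at hC hnsL
  have h2n : (0 : ℝ) < 2 ^ n := by positivity
  have hmm : m (n + 1) ≤ 2 * m n := by
    have h1 : 400 * 10 ^ i * m (n + 1) < 400 * 10 ^ i * (2 * m n) := by
      calc 400 * 10 ^ i * m (n + 1) ≤ v * 2 ^ (n + 1) := hC
        _ = 2 * (v * 2 ^ n) := by rw [pow_succ]; ring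
        _ < 2 * (400 * 10 ^ i * m n) := by linarith
        _ = _ := by ring
    exact (lt_of_mul_lt_mul_left h1 (by positivity)).le
  have hTS := hn0 n hn0n hmm
  have hmn := hm n
  have hmn1 := hm (n + 1)
  have hΛm : 1 + 100 * (lam + 2) * m n ≤ Λ * m n - 1 := by rw [hΛ]; nlinarith
  have hlam2 : 0 < lam + 2 := by linarith
  refine window_param (A := A) (N := 2 ^ (n + 1)) (by positivity) hmn1 (by nlinarith) hTS
    ?_ (by push_cast; exact hC) (by linarith) ?_ hμ hB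
  · calc 2 ^ (n + 1) ≤ 2 ^ lg i := Nat.pow_le_pow_right (by norm_num) hnsL
      _ ≤ 10 ^ i := Nat.pow_log_le_self 2 (by positivity)
  · -- (lam u + 2) 2^{n+1} ≤ 9 x (Λ m n - 1)
    push_cast
    have h1 : (lam * u + 2) ≤ (lam + 2) * v := by nlinarith
    calc (lam * u + 2) * 2 ^ (n + 1) ≤ (lam + 2) * v * 2 ^ (n + 1) := by gcongr
      _ = (lam + 2) * 2 * (v * 2 ^ n) := by rw [pow_succ]; ring
      _ ≤ (lam + 2) * 2 * (400 * 10 ^ i * m n) := by gcongr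
      _ ≤ 9 * 10 ^ i * (100 * (lam + 2) * m n) := by
          have : 0 < (lam + 2) * (10 ^ i * m n) := by positivity
          nlinarith
      _ ≤ 9 * 10 ^ i * (Λ * m n - 1) := by
          have : 100 * (lam + 2) * m n ≤ Λ * m n - 1 := by linarith
          gcongr

theorem log_event {μ : S → ℝ≥0∞} (hμ : A.Start μ) (hpos : ∀ h, ∀ᵐ ω ∂P, A.Sh μ h ω ≠ 0)
    (a : ℕ → Ω → ℝ) (ha : ∀ i, ∀ᵐ ω ∂P, a i ω = - Real.log (A.Sh μ (10 ^ i) ω).toReal)
    (i : ℕ) (v : ℝ) (B : Set Ω) :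
    P (B ∩ {ω | v ≤ a (i + 2) ω - a (i + 1) ω}) ≤
    P (B ∩ {ω | A.Sh μ (10 ^ (i + 1)) ω ≠ 0 ∧ A.Sh μ (10 ^ (i + 2)) ω ≤
        ENNReal.ofReal (Real.exp (-v)) * A.Sh μ (10 ^ (i + 1)) ω}) := by
  refine measure_mono_ae ?_
  filter_upwards [hpos (10 ^ (i + 1)), hpos (10 ^ (i + 2)), ha (i + 1), ha (i + 2)]
    with ω p1 p2 e1 e2
  rintro ⟨hωB, hω⟩
  refine ⟨hωB, p1, ?_⟩
  have hω' : v ≤ a (i + 2) ω - a (i + 1) ω := hω
  rw [e1, e2] at hω'
  have t1 : A.Sh μ (10 ^ (i + 1)) ω ≠ ∞ :=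
    ne_top_of_le_ne_top ENNReal.one_ne_top (KerSys.Sh_le_one hμ _ ω)
  have t2 : A.Sh μ (10 ^ (i + 2)) ω ≠ ∞ :=
    ne_top_of_le_ne_top ENNReal.one_ne_top (KerSys.Sh_le_one hμ _ ω)
  have q1 : 0 < (A.Sh μ (10 ^ (i + 1)) ω).toReal := ENNReal.toReal_pos p1 t1
  have q2 : 0 < (A.Sh μ (10 ^ (i + 2)) ω).toReal := ENNReal.toReal_pos p2 t2
  have h3 : Real.log (A.Sh μ (10 ^ (i + 2)) ω).toReal ≤
      -v + Real.log (A.Sh μ (10 ^ (i + 1)) ω).toReal := by linarith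
  have h4 : (A.Sh μ (10 ^ (i + 2)) ω).toReal ≤
      Real.exp (-v) * (A.Sh μ (10 ^ (i + 1)) ω).toReal := by
    calc (A.Sh μ (10 ^ (i + 2)) ω).toReal = Real.exp (Real.log (A.Sh μ (10 ^ (i + 2)) ω).toReal) :=
          (Real.exp_log q2).symm
      _ ≤ Real.exp (-v + Real.log (A.Sh μ (10 ^ (i + 1)) ω).toReal) :=
          Real.exp_le_exp.2 h3
      _ = _ := by rw [Real.exp_add, Real.exp_log q1]
  calc A.Sh μ (10 ^ (i + 2)) ω = ENNReal.ofReal (A.Sh μ (10 ^ (i + 2)) ω).toReal :=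
        (ENNReal.ofReal_toReal t2).symm
    _ ≤ ENNReal.ofReal (Real.exp (-v) * (A.Sh μ (10 ^ (i + 1)) ω).toReal) :=
        ENNReal.ofReal_le_ofReal h4
    _ = _ := by
        rw [ENNReal.ofReal_mul (Real.exp_pos _).le, ENNReal.ofReal_toReal t1]

/-- **(W) in the logarithmic form `WH` of the chain**: `a i = -log S_{10^i}` a.e. -/
theorem window_log (m : ℕ → ℝ) (hm : ∀ n, 1 ≤ m n)
    (hT : ∀ Λ : ℝ, ∃ (m1 : ℝ) (n0 : ℕ), ∀ n, n0 ≤ n → m (n + 1) ≤ 2 * m n →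
      TileSys A (2 ^ (n + 1)) (ENNReal.ofReal (Real.exp (-m1)))
        (ENNReal.ofReal (Real.exp (-(m (n + 1)))))
        (ENNReal.ofReal (Real.exp (-(Λ * m n))))) :
    ∀ lam : ℝ, 0 < lam → ∀ M0 : ℝ, ∃ u0 c : ℝ, 0 < c ∧ 1 ≤ u0 ∧ ∀ μ : S → ℝ≥0∞, A.Start μ →
      (∀ h, ∀ᵐ ω ∂P, A.Sh μ h ω ≠ 0) → ∀ a : ℕ → Ω → ℝ,
      (∀ i, ∀ᵐ ω ∂P, a i ω = - Real.log (A.Sh μ (10 ^ i) ω).toReal) →
      ∀ (i : ℕ) (u : ℝ), u0 ≤ u → u + wx m M0 i ≤ c * 10 ^ i →
      ∀ B, MeasurableSet[A.F (10 ^ i)] B →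
      P (B ∩ {ω | u + wx m M0 i ≤ a (i + 2) ω - a (i + 1) ω}) ≤
        ENNReal.ofReal (Real.exp (-(lam * u))) * P B := by
  intro lam hlam M0
  obtain ⟨u0, c, hc, hu0, h⟩ := window_scale (A := A) m hm hT lam hlam M0
  exact ⟨u0, c, hc, hu0, fun μ hμ hpos a ha i u hu huc B hB =>
    (log_event hμ hpos a ha i _ B).trans (h μ hμ i u hu huc B hB)⟩

omit [Countable S] in
/-- monotonicity of the tile systems in the parameters. -/
theorem TileSys.mono {N : ℕ} {c1 c1' c c' θ θ' : ℝ≥0∞} (h : TileSys A N c1 c θ) (hc1 : c1' ≤ c1)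
    (hc : c' ≤ c) (hθ : θ ≤ θ') : TileSys A N c1' c' θ' where
  fam L x hx := by
    obtain ⟨τ, h1, h2, h3, h4⟩ := h.fam L x hx
    refine ⟨τ, h1, h2, fun t ht B hB => (h3 t ht B hB).trans (by gcongr), ?_⟩
    filter_upwards [h4] with ω hω s hs1 hs
    exact (mul_le_mul' hc1 (pow_le_pow_left' hc s)).trans (hω s hs1 hs)

/-- **(W) when the cost per layer is a constant** (regular lateral laws): no extra cost.  The cost
may depend on `Λ`. -/
theorem window_const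
    (hT : ∀ Λ : ℝ, ∃ (m m1 : ℝ) (n0 : ℕ), 1 ≤ m ∧ ∀ n, n0 ≤ n →
      TileSys A (2 ^ n) (ENNReal.ofReal (Real.exp (-m1))) (ENNReal.ofReal (Real.exp (-m)))
        (ENNReal.ofReal (Real.exp (-(Λ * m))))) :
    ∀ lam : ℝ, 0 < lam → ∃ u0 c : ℝ, 0 < c ∧ 1 ≤ u0 ∧ ∀ μ : S → ℝ≥0∞, A.Start μ →
      (∀ h, ∀ᵐ ω ∂P, A.Sh μ h ω ≠ 0) → ∀ a : ℕ → Ω → ℝ,
      (∀ i, ∀ᵐ ω ∂P, a i ω = - Real.log (A.Sh μ (10 ^ i) ω).toReal) →
      ∀ (i : ℕ) (u : ℝ), u0 ≤ u → u ≤ c * 10 ^ i →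
      ∀ B, MeasurableSet[A.F (10 ^ i)] B →
      P (B ∩ {ω | u ≤ a (i + 2) ω - a (i + 1) ω}) ≤
        ENNReal.ofReal (Real.exp (-(lam * u))) * P B := by
  classical
  intro lam hlam
  set Λ : ℝ := 2 + 100 * (lam + 2) with hΛ
  obtain ⟨m, m1, n0, hm, hn0⟩ := hT Λ
  refine ⟨max (max (800 * m) 1) (2 * m1), 1 / 2 ^ n0, by positivity,
    (le_max_right _ _).trans (le_max_left _ _), ?_⟩
  intro μ hμ hpos a ha i u hu huc B hB
  refine (log_event hμ hpos a ha i _ B).trans ?_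
  have hu1 : 1 ≤ u := ((le_max_right _ _).trans (le_max_left _ _)).trans hu
  have huM : 800 * m ≤ u := ((le_max_left _ _).trans (le_max_left _ _)).trans hu
  have hum1 : 2 * m1 ≤ u := (le_max_right _ _).trans hu
  have hLlt : (10 : ℝ) ^ i < 2 ^ (lg i + 1) := by
    have : 10 ^ i < 2 ^ (lg i + 1) := Nat.lt_pow_succ_log_self (by norm_num) _
    exact_mod_cast this
  have hCL : 400 * 10 ^ i * m ≤ u * 2 ^ lg i := by
    have h2 : (10 : ℝ) ^ i ≤ 2 * 2 ^ lg i := by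
      rw [pow_succ] at hLlt; linarith
    have h3 : (0 : ℝ) < 2 ^ lg i := by positivity
    calc 400 * 10 ^ i * m ≤ 400 * (2 * 2 ^ lg i) * m := by gcongr
      _ = (800 * m) * 2 ^ lg i := by ring
      _ ≤ u * 2 ^ lg i := by gcongr
  have hex : ∃ n : ℕ, 400 * 10 ^ i * m ≤ u * 2 ^ n := ⟨_, hCL⟩
  set ns := Nat.find hex with hns
  have hC : 400 * 10 ^ i * m ≤ u * 2 ^ ns := Nat.find_spec hex
  have hnsL : ns ≤ lg i := Nat.find_min' hex hCL
  have hns0 : n0 < ns := by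
    by_contra hcon
    push Not at hcon
    have h1 : (2 : ℝ) ^ ns ≤ 2 ^ n0 := pow_le_pow_right₀ (by norm_num) hcon
    have h2 : u * 2 ^ ns ≤ (1 / 2 ^ n0 * 10 ^ i) * 2 ^ n0 := by
      calc u * 2 ^ ns ≤ u * 2 ^ n0 := by gcongr
        _ ≤ (1 / 2 ^ n0 * 10 ^ i) * 2 ^ n0 := by gcongr
    have h3 : (1 / 2 ^ n0 * 10 ^ i) * 2 ^ n0 = (10 : ℝ) ^ i := by
      field_simp
    rw [h3] at h2
    have hx0 : (0 : ℝ) < 10 ^ i := by positivity
    nlinarith
  obtain ⟨n, hn⟩ : ∃ n, ns = n + 1 := ⟨ns - 1, by omega⟩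
  have hnC : u * 2 ^ n < 400 * 10 ^ i * m := by
    have := Nat.find_min hex (m := n) (by omega)
    push Not at this
    exact this
  have hTS := hn0 ns hns0.le
  rw [hn] at hC hnsL hTS
  have hΛm : 1 + 100 * (lam + 2) * m ≤ Λ * m - 1 := by rw [hΛ]; nlinarith
  have hlam2 : 0 < lam + 2 := by linarith
  refine window_param (A := A) (N := 2 ^ (n + 1)) (by positivity) hm (by nlinarith) hTS
    ?_ (by push_cast; exact hC) (by linarith) ?_ hμ hB
  · calc 2 ^ (n + 1) ≤ 2 ^ lg i := Nat.pow_le_pow_right (by norm_num) hnsL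
      _ ≤ 10 ^ i := Nat.pow_log_le_self 2 (by positivity)
  · push_cast
    have h1 : (lam * u + 2) ≤ (lam + 2) * u := by nlinarith
    calc (lam * u + 2) * 2 ^ (n + 1) ≤ (lam + 2) * u * 2 ^ (n + 1) := by gcongr
      _ = (lam + 2) * 2 * (u * 2 ^ n) := by rw [pow_succ]; ring
      _ ≤ (lam + 2) * 2 * (400 * 10 ^ i * m) := by gcongr
      _ ≤ 9 * 10 ^ i * (100 * (lam + 2) * m) := by
          have : 0 < (lam + 2) * (10 ^ i * m) := by positivity
          nlinarith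
      _ ≤ 9 * 10 ^ i * (Λ * m - 1) := by
          have : 100 * (lam + 2) * m ≤ Λ * m - 1 := by linarith
          gcongr

end Crest.Agent.R154.WindowK299
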