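import Crest.Agent.R154.Tau_748
import Crest.Agent.R154.TileInd_748
import Crest.Agent.R154.RatioA_872
import Crest.Agent.R154.WindowK_299

set_option autoImplicit false
set_option linter.unusedSectionVars false
set_option linter.unusedVariables false

/-!
Row 154, block B8 / TILE: the abstract tile system on 872's kernel system of natural climbs: from a
K-set bound for DETERMINISTIC admissible laws and a bound for the first climb from a point to
299's `fam` (helper748).
-/

namespace Crest.Agent.R154.TileInst748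

open MeasureTheory ProbabilityTheory
open Crest.Agent.R154.Contour748 Crest.Agent.R154.RatioR872
open scoped ENNReal

section mass

variable {S : Type*} [Countable S]

open Classical in
/-- mass function pushed by the matrix `g`, restricted to the target `T`. -/
noncomputable def pushM (T : Set S) (lam : S → ℝ≥0∞) (g : S → S → ℝ≥0∞) (z : S) : ℝ≥0∞ :=
  if z ∈ T then ∑' y, lam y * g y z else 0

noncomputable def massM (T : Set S) (lam : S → ℝ≥0∞) (g : S → S → ℝ≥0∞) : ℝ≥0∞ :=
  ∑' z, pushM T lam g z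

noncomputable def enM (T : Set S) (E : S → S → ℝ≥0∞) (lam : S → ℝ≥0∞) (g : S → S → ℝ≥0∞) : ℝ≥0∞ :=
  ∑' z, ∑' z', pushM T lam g z * pushM T lam g z' * E z z'

/-- normalised exit law. -/
noncomputable def outM (T : Set S) (lam : S → ℝ≥0∞) (g : S → S → ℝ≥0∞) (z : S) : ℝ≥0∞ :=
  (massM T lam g)⁻¹ * pushM T lam g z

variable {α : Type*} [MeasurableSpace α] {lam : α → S → ℝ≥0∞} {g : α → S → S → ℝ≥0∞}

lemma meas_push (T : Set S) (hl : ∀ y, Measurable fun a => lam a y)
    (hg : ∀ y z, Measurable fun a => g a y z) (z : S) :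
    Measurable fun a => pushM T (lam a) (g a) z := by
  unfold pushM
  split_ifs
  · exact Measurable.tsum fun y => (hl y).mul (hg y z)
  · exact measurable_const

lemma meas_mass (T : Set S) (hl : ∀ y, Measurable fun a => lam a y)
    (hg : ∀ y z, Measurable fun a => g a y z) :
    Measurable fun a => massM T (lam a) (g a) :=
  Measurable.tsum fun z => meas_push T hl hg z

lemma meas_en (T : Set S) (E : S → S → ℝ≥0∞) (hl : ∀ y, Measurable fun a => lam a y)
    (hg : ∀ y z, Measurable fun a => g a y z) :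
    Measurable fun a => enM T E (lam a) (g a) :=
  Measurable.tsum fun z => Measurable.tsum fun z' =>
    ((meas_push T hl hg z).mul (meas_push T hl hg z')).mul_const _

lemma meas_out (T : Set S) (hl : ∀ y, Measurable fun a => lam a y)
    (hg : ∀ y z, Measurable fun a => g a y z) :
    Measurable fun a => outM T (lam a) (g a) :=
  measurable_pi_lambda _ fun z => (meas_mass T hl hg).inv.mul (meas_push T hl hg z)

/-- the tile with input `lam` gives mass `≥ γ` and normalised energy `≤ κ` in the target `T`. -/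
def okM (T : Set S) (E : S → S → ℝ≥0∞) (κ γ : ℝ≥0∞) (lam : S → ℝ≥0∞) (g : S → S → ℝ≥0∞) : Prop :=
  γ ≤ massM T lam g ∧ enM T E lam g ≤ κ * massM T lam g ^ 2

lemma meas_ok (T : Set S) (E : S → S → ℝ≥0∞) (κ γ : ℝ≥0∞) (hl : ∀ y, Measurable fun a => lam a y)
    (hg : ∀ y z, Measurable fun a => g a y z) :
    MeasurableSet {a | okM T E κ γ (lam a) (g a)} := by
  have h1 := meas_mass T hl hg
  have h2 := meas_en T E hl hg
  exact (measurableSet_le measurable_const h1).inter
    (measurableSet_le h2 ((h1.pow_const 2).const_mul κ))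

lemma massM_le (T : Set S) {lam : S → ℝ≥0∞} {g : S → S → ℝ≥0∞} (hl : ∑' y, lam y ≤ 1)
    (hg : ∀ y, ∑' z, g y z ≤ 1) : massM T lam g ≤ 1 := by
  classical
  unfold massM pushM
  calc ∑' z, (if z ∈ T then ∑' y, lam y * g y z else 0) ≤ ∑' z, ∑' y, lam y * g y z := by
        refine ENNReal.tsum_le_tsum fun z => ?_
        split_ifs
        · exact le_rfl
        · exact zero_le
    _ = ∑' y, lam y * ∑' z, g y z := by
        rw [ENNReal.tsum_comm]
        exact tsum_congr fun y => ENNReal.tsum_mul_left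
    _ ≤ ∑' y, lam y * 1 := ENNReal.tsum_le_tsum fun y => by gcongr; exact hg y
    _ ≤ 1 := by simpa using hl

/-- admissible laws of a cell. -/
def clsM (C : Set S) (E : S → S → ℝ≥0∞) (κ : ℝ≥0∞) : Set (S → ℝ≥0∞) :=
  {lam | ∑' y, lam y = 1 ∧ (∀ y, y ∉ C → lam y = 0) ∧
    ∑' y, ∑' y', lam y * lam y' * E y y' ≤ κ}

lemma out_mem (T : Set S) (E : S → S → ℝ≥0∞) {κ γ : ℝ≥0∞} (hγ : γ ≠ 0) {lam : S → ℝ≥0∞}
    {g : S → S → ℝ≥0∞} (hl : ∑' y, lam y ≤ 1) (hg : ∀ y, ∑' z, g y z ≤ 1)
    (h : okM T E κ γ lam g) : outM T lam g ∈ clsM T E κ := by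
  classical
  have hm0 : massM T lam g ≠ 0 := fun h0 => hγ (by have := h.1; rw [h0] at this; exact le_zero_iff.1 this)
  have hmt : massM T lam g ≠ ∞ := ne_top_of_le_ne_top ENNReal.one_ne_top (massM_le T hl hg)
  refine ⟨?_, ?_, ?_⟩
  · unfold outM
    rw [ENNReal.tsum_mul_left]
    exact ENNReal.inv_mul_cancel hm0 hmt
  · intro y hy
    simp [outM, pushM, hy]
  · have e : ∑' y, ∑' y', outM T lam g y * outM T lam g y' * E y y' =
        (massM T lam g)⁻¹ ^ 2 * enM T E lam g := by
      unfold outM enM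
      rw [← ENNReal.tsum_mul_left]
      refine tsum_congr fun y => ?_
      rw [← ENNReal.tsum_mul_left]
      refine tsum_congr fun y' => ?_
      ring
    rw [e]
    calc (massM T lam g)⁻¹ ^ 2 * enM T E lam g
        ≤ (massM T lam g)⁻¹ ^ 2 * (κ * massM T lam g ^ 2) := by gcongr; exact h.2
      _ = κ * ((massM T lam g)⁻¹ * massM T lam g) ^ 2 := by ring
      _ = κ := by rw [ENNReal.inv_mul_cancel hm0 hmt]; simp

lemma mul_out_le (T : Set S) (E : S → S → ℝ≥0∞) {κ γ : ℝ≥0∞} (hγ : γ ≠ 0) {lam : S → ℝ≥0∞}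
    {g : S → S → ℝ≥0∞} (hl : ∑' y, lam y ≤ 1) (hg : ∀ y, ∑' z, g y z ≤ 1)
    (h : okM T E κ γ lam g) (z : S) : γ * outM T lam g z ≤ ∑' y, lam y * g y z := by
  classical
  have hm0 : massM T lam g ≠ 0 := fun h0 => hγ (by have := h.1; rw [h0] at this; exact le_zero_iff.1 this)
  have hmt : massM T lam g ≠ ∞ := ne_top_of_le_ne_top ENNReal.one_ne_top (massM_le T hl hg)
  unfold outM
  calc γ * ((massM T lam g)⁻¹ * pushM T lam g z)
      ≤ massM T lam g * ((massM T lam g)⁻¹ * pushM T lam g z) := by gcongr; exact h.1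
    _ = (massM T lam g * (massM T lam g)⁻¹) * pushM T lam g z := by ring
    _ = pushM T lam g z := by rw [ENNReal.mul_inv_cancel hm0 hmt, one_mul]
    _ ≤ _ := by
        unfold pushM
        split_ifs
        · exact le_rfl
        · exact zero_le

end mass

section inst

variable {S : Type*} [Countable S] {Ω : Type*} [m0 : MeasurableSpace Ω] {P : Measure Ω}

/-- the filtration of the layers `L + k N`. -/
def FN (A : KerSys S P) (L N : ℕ) : Filtration ℕ m0 where
  seq k := A.F (L + k * N)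
  mono' := fun a b hab => A.F.mono (by gcongr)
  le' k := A.F.le _

open Classical in
/-- the first cell (in a fixed enumeration of `ℤ`) reached well from the point `z`. -/
noncomputable def sel (Good : ℤ → Prop) : ℤ :=
  if h : ∃ n : ℕ, Good (Denumerable.ofNat ℤ n) then Denumerable.ofNat ℤ (Nat.find h) else 0

lemma sel_spec {Good : ℤ → Prop} (h : ∃ x, Good x) : Good (sel Good) := by
  classical
  have h' : ∃ n : ℕ, Good (Denumerable.ofNat ℤ n) := by
    obtain ⟨x, hx⟩ := h
    exact ⟨Encodable.encode x, by rwa [Denumerable.ofNat_encode]⟩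
  unfold sel
  rw [dif_pos h']
  exact Nat.find_spec h'

lemma meas_sel {α : Type*} [MeasurableSpace α] {Good : α → ℤ → Prop}
    (hG : ∀ x, MeasurableSet {a | Good a x}) (x : ℤ) : MeasurableSet {a | sel (Good a) = x} := by
  classical
  have e : {a | sel (Good a) = x} =
      ({a | Good a x} ∩ ⋂ m ∈ Finset.range (Encodable.encode x),
        {a | Good a (Denumerable.ofNat ℤ m)}ᶜ) ∪
      ((⋂ n : ℕ, {a | Good a (Denumerable.ofNat ℤ n)}ᶜ) ∩ {_a | x = 0}) := by
    ext a
    simp only [Set.mem_ofPred_eq, Set.mem_union, Set.mem_inter_iff, Set.mem_iInter,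
      Finset.mem_range, Set.mem_compl_iff]
    unfold sel
    split_ifs with h
    · constructor
      · intro hx
        left
        subst hx
        refine ⟨Nat.find_spec h, fun m hm => ?_⟩
        rw [Denumerable.encode_ofNat] at hm
        exact Nat.find_min h hm
      · rintro (⟨h1, h2⟩ | ⟨h1, _⟩)
        · have : Nat.find h = Encodable.encode x := by
            rw [Nat.find_eq_iff]
            exact ⟨by rwa [Denumerable.ofNat_encode], fun m hm => h2 m hm⟩
          rw [this, Denumerable.ofNat_encode]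
        · obtain ⟨n, hn⟩ := h
          exact absurd hn (h1 n)
    · push Not at h
      constructor
      · intro hx
        right
        exact ⟨h, hx.symm⟩
      · rintro (⟨h1, _⟩ | ⟨_, h2⟩)
        · have := h (Encodable.encode x)
          rw [Denumerable.ofNat_encode] at this
          exact absurd h1 this
        · exact h2.symm
  rw [e]
  refine MeasurableSet.union ((hG x).inter ?_) ((MeasurableSet.iInter fun n => (hG _).compl).inter
    (MeasurableSet.const _))
  exact Finset.measurableSet_biInter _ fun m _ => (hG _).compl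

variable (A : KerSys S P) (L N : ℕ) (Cell : ℕ → ℤ → Set S) (En : ℕ → S → S → ℝ≥0∞)
  (κ γ γ0 : ℝ≥0∞)

/-- kernel of the layer `k`. -/
noncomputable def gL (k : ℕ) (ω : Ω) : S → S → ℝ≥0∞ := A.G (L + k * N) (L + (k + 1) * N) ω

lemma lv_le (k : ℕ) : L + k * N ≤ L + (k + 1) * N := by gcongr; omega

/-- good tile (layer `k`, cell `x`). -/
def goodS (k : ℕ) (x : ℤ) (lam : S → ℝ≥0∞) : Set Ω :=
  {ω | okM (Cell (k+1) x) (En (k+1)) κ γ lam (gL A L N k ω) ∧
    okM (Cell (k+1) (x+1)) (En (k+1)) κ γ lam (gL A L N k ω)}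

open Classical in
/-- point mass -/
noncomputable def single (z : S) : S → ℝ≥0∞ := fun y => if y = z then 1 else 0

lemma tsum_single (z : S) : ∑' y, single z y = 1 := by
  classical
  unfold single
  exact tsum_ite_eq z (fun _ => 1)

lemma tsum_single_mul (z : S) (f : S → ℝ≥0∞) : ∑' y, single z y * f y = f z := by
  classical
  unfold single
  rw [tsum_eq_single z]
  · simp
  · intro y hy; simp [hy]

/-- first climb from the point `z` reaches the cell `x` of layer `1` well. -/
def good0 (z : S) (ω : Ω) (x : ℤ) : Prop :=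
  okM (Cell 1 x) (En 1) κ γ0 (single z) (gL A L N 0 ω)

/-- success of the first climb. -/
def succ0 (z : S) : Set Ω := {ω | ∃ x, good0 A L N Cell En κ γ0 z ω x}

/-- **The deterministic inputs** for the attempts from the point `z0` of level `L` (the grid `Cell`
may depend on `(L, z0)`). -/
structure Inputs (z0 : S) (q : ℝ≥0∞) : Prop where
  /-- the cells are on the right levels (not needed for the cost, only for the geometry) -/
  nonempty : ∀ k x, (clsM (Cell k x) (En k) κ).Nonempty
  kset : ∀ k (K : Finset ℤ) (lam : ℤ → S → ℝ≥0∞), (∀ x, lam x ∈ clsM (Cell k x) (En k) κ) →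
    P {ω | ∀ x ∈ K, ω ∉ goodS A L N Cell En κ γ k x (lam x)} ≤ q ^ K.card
  start : P (succ0 A L N Cell En κ γ0 z0)ᶜ ≤ q

lemma meas_gL_F (k : ℕ) (y z : S) : Measurable[A.F (L + (k + 1) * N)] fun ω => gL A L N k ω y z :=
  A.measF _ _ y z (lv_le L N k)

lemma meas_gL_H (k : ℕ) (y z : S) : Measurable[A.H (L + k * N)] fun ω => gL A L N k ω y z :=
  A.measH _ _ y z (lv_le L N k)

lemma gL_mass (k : ℕ) (ω : Ω) (y : S) : ∑' z, gL A L N k ω y z ≤ 1 :=
  A.mass _ _ ω y (lv_le L N k)

open Classical in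
/-- **The tile system.** -/
noncomputable def tiles [IsProbabilityMeasure P] (hγ : γ ≠ 0) (hγ0 : γ0 ≠ 0) {q : ℝ≥0∞} {z0 : S}
    (H : Inputs A L N Cell En κ γ γ0 z0 q) :
    TileSys P (FN A L N) S (S → ℝ≥0∞) q where
  cls k x := clsM (Cell k x) (En k) κ
  dflt k x := (H.nonempty k x).some
  dflt_mem k x := (H.nonempty k x).some_mem
  good k x lam := goodS A L N Cell En κ γ k x lam
  outL k x lam ω := outM (Cell (k+1) x) lam (gL A L N k ω)
  outR k x lam ω := outM (Cell (k+1) (x+1)) lam (gL A L N k ω)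
  outL_mem k x lam ω hlam hω :=
    out_mem _ _ hγ (le_of_eq hlam.1) (gL_mass A L N k ω) hω.1
  outR_mem k x lam ω hlam hω :=
    out_mem _ _ hγ (le_of_eq hlam.1) (gL_mass A L N k ω) hω.2
  good_meas k x f hf := by
    have hl : ∀ y, Measurable[A.F (L + (k + 1) * N)] fun ω => f ω y := fun y =>
      (measurable_pi_apply y).comp (hf.mono (A.F.mono (lv_le L N k)) le_rfl)
    have h1 := @meas_ok S _ Ω (A.F (L + (k + 1) * N)) f (gL A L N k) (Cell (k+1) x) (En (k+1)) κ γ
      hl (meas_gL_F A L N k)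
    have h2 := @meas_ok S _ Ω (A.F (L + (k + 1) * N)) f (gL A L N k) (Cell (k+1) (x+1)) (En (k+1))
      κ γ hl (meas_gL_F A L N k)
    exact MeasurableSet.inter h1 h2
  outL_meas k x f hf := by
    have hl : ∀ y, Measurable[A.F (L + (k + 1) * N)] fun ω => f ω y := fun y =>
      (measurable_pi_apply y).comp (hf.mono (A.F.mono (lv_le L N k)) le_rfl)
    exact @meas_out S _ Ω (A.F (L + (k + 1) * N)) f (gL A L N k) (Cell (k+1) x)
      hl (meas_gL_F A L N k)
  outR_meas k x f hf := by
    have hl : ∀ y, Measurable[A.F (L + (k + 1) * N)] fun ω => f ω y := fun y =>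
      (measurable_pi_apply y).comp (hf.mono (A.F.mono (lv_le L N k)) le_rfl)
    exact @meas_out S _ Ω (A.F (L + (k + 1) * N)) f (gL A L N k) (Cell (k+1) (x+1))
      hl (meas_gL_F A L N k)
  succ k z := if k = 0 ∧ z = z0 then succ0 A L N Cell En κ γ0 z else Set.univ
  sig k z ω := if k = 0 ∧ z = z0 then sel (good0 A L N Cell En κ γ0 z ω) else 0
  lam0 k z ω := if k = 0 ∧ z = z0 then
      (if ω ∈ succ0 A L N Cell En κ γ0 z then
        outM (Cell 1 (sel (good0 A L N Cell En κ γ0 z ω))) (single z) (gL A L N 0 ω)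
      else (H.nonempty 1 0).some)
    else (H.nonempty (k+1) 0).some
  succ_meas k z := by
    split_ifs with h
    · have : MeasurableSet[A.F (L + (0 + 1) * N)] (succ0 A L N Cell En κ γ0 z) := by
        have e : succ0 A L N Cell En κ γ0 z =
            ⋃ x, {ω | okM (Cell 1 x) (En 1) κ γ0 (single z) (gL A L N 0 ω)} := by
          ext ω; simp [succ0, good0]
        rw [e]
        exact MeasurableSet.iUnion fun x => @meas_ok S _ Ω (A.F (L + (0 + 1) * N))
          (fun _ => single z) (gL A L N 0) (Cell 1 x) (En 1) κ γ0 (fun y => measurable_const)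
          (meas_gL_F A L N 0)
      rw [h.1]
      exact this
    · exact MeasurableSet.univ
  sig_meas k z x := by
    by_cases h : k = 0 ∧ z = z0
    · obtain ⟨rfl, rfl⟩ := h
      simp only [and_self, if_true]
      have := @meas_sel Ω (A.F (L + (0 + 1) * N)) (fun ω x => good0 A L N Cell En κ γ0 z ω x)
        (fun x => @meas_ok S _ Ω (A.F (L + (0 + 1) * N))
          (fun _ => single z) (gL A L N 0) (Cell 1 x) (En 1) κ γ0 (fun y => measurable_const)
          (meas_gL_F A L N 0)) x
      exact this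
    · simp only [h, if_false]
      exact MeasurableSet.const _
  lam0_meas k z := by
    by_cases h : k = 0 ∧ z = z0
    · obtain ⟨rfl, rfl⟩ := h
      simp only [and_self, if_true]
      have hs : MeasurableSet[A.F (L + (0 + 1) * N)] {ω | ω ∈ succ0 A L N Cell En κ γ0 z} := by
        have e : succ0 A L N Cell En κ γ0 z =
            ⋃ x, {ω | okM (Cell 1 x) (En 1) κ γ0 (single z) (gL A L N 0 ω)} := by
          ext ω; simp [succ0, good0]
        rw [e]
        exact MeasurableSet.iUnion fun x => @meas_ok S _ Ω (A.F (L + (0 + 1) * N))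
          (fun _ => single z) (gL A L N 0) (Cell 1 x) (En 1) κ γ0 (fun y => measurable_const)
          (meas_gL_F A L N 0)
      have hsel := @meas_sel Ω (A.F (L + (0 + 1) * N)) (fun ω x => good0 A L N Cell En κ γ0 z ω x)
        (fun x => @meas_ok S _ Ω (A.F (L + (0 + 1) * N))
          (fun _ => single z) (gL A L N 0) (Cell 1 x) (En 1) κ γ0 (fun y => measurable_const)
          (meas_gL_F A L N 0))
      refine @Measurable.ite Ω (S → ℝ≥0∞) _ _ (A.F (L + (0 + 1) * N)) _
        (fun ω => ω ∈ succ0 A L N Cell En κ γ0 z) _ hs ?_ measurable_const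
      -- countable case distinction on the selected cell
      intro s hs'
      have e : (fun ω => outM (Cell 1 (sel (good0 A L N Cell En κ γ0 z ω))) (single z)
          (gL A L N 0 ω)) ⁻¹' s =
          ⋃ x : ℤ, {ω | sel (good0 A L N Cell En κ γ0 z ω) = x} ∩
            (fun ω => outM (Cell 1 x) (single z) (gL A L N 0 ω)) ⁻¹' s := by
        ext ω
        simp
      rw [e]
      refine MeasurableSet.iUnion fun x => MeasurableSet.inter (hsel x) ?_
      exact @meas_out S _ Ω (A.F (L + (0 + 1) * N)) (fun _ => single z) (gL A L N 0) (Cell 1 x)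
        (fun y => measurable_const) (meas_gL_F A L N 0) s hs'
    · simp only [h, if_false]
      exact measurable_const
  lam0_mem k z ω hω := by
    by_cases h : k = 0 ∧ z = z0
    · obtain ⟨rfl, rfl⟩ := h
      simp only [and_self, if_true] at hω ⊢
      rw [if_pos hω]
      have hg : good0 A L N Cell En κ γ0 z ω (sel (good0 A L N Cell En κ γ0 z ω)) := sel_spec hω
      exact out_mem _ _ hγ0 (le_of_eq (tsum_single z)) (gL_mass A L N 0 ω) hg
    · simp only [h, if_false]
      exact (H.nonempty (k+1) 0).some_mem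
  kset k K f hf hfc B hB := by
    have hm : ∀ x, MeasurableSet[MeasurableSpace.pi.prod (A.H (L + k * N))]
        {p : (S → ℝ≥0∞) × Ω | p.2 ∉ goodS A L N Cell En κ γ k x p.1} := by
      intro x
      have hl : ∀ y, @Measurable ((S → ℝ≥0∞) × Ω) ℝ≥0∞ (MeasurableSpace.pi.prod (A.H (L + k * N))) _
          fun p => p.1 y := fun y =>
        (measurable_pi_apply y).comp (@measurable_fst (S → ℝ≥0∞) Ω MeasurableSpace.pi
          (A.H (L + k * N)))
      have hg : ∀ y z, @Measurable ((S → ℝ≥0∞) × Ω) ℝ≥0∞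
          (MeasurableSpace.pi.prod (A.H (L + k * N))) _ fun p => gL A L N k p.2 y z := fun y z =>
        (meas_gL_H A L N k y z).comp (@measurable_snd (S → ℝ≥0∞) Ω MeasurableSpace.pi
          (A.H (L + k * N)))
      have h1 := @meas_ok S _ ((S → ℝ≥0∞) × Ω) (MeasurableSpace.pi.prod (A.H (L + k * N)))
        (fun p => p.1) (fun p => gL A L N k p.2) (Cell (k+1) x) (En (k+1)) κ γ hl hg
      have h2 := @meas_ok S _ ((S → ℝ≥0∞) × Ω) (MeasurableSpace.pi.prod (A.H (L + k * N)))
        (fun p => p.1) (fun p => gL A L N k p.2) (Cell (k+1) (x+1)) (En (k+1)) κ γ hl hg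
      exact (MeasurableSet.inter h1 h2).compl
    exact TileInd748.kset_rand (m1 := A.F (L + k * N)) (m2 := A.H (L + k * N)) P (A.F.le _)
      (A.H_le _) (A.indep _) (fun x => {p | p.2 ∉ goodS A L N Cell En κ γ k x p.1}) hm
      (fun x => clsM (Cell k x) (En k) κ) K (q ^ K.card)
      (fun lam hlam => H.kset k K lam hlam) f hf hfc B hB
  fail k z B hB := by
    by_cases h : k = 0 ∧ z = z0
    · obtain ⟨rfl, rfl⟩ := h
      simp only [and_self, if_true]
      have hB' : MeasurableSet[A.F L] B := by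
        have : MeasurableSet[A.F (L + 0 * N)] B := hB
        rwa [zero_mul, add_zero] at this
      have hs : MeasurableSet[A.H L] (succ0 A L N Cell En κ γ0 z)ᶜ := by
        have e : succ0 A L N Cell En κ γ0 z =
            ⋃ x, {ω | okM (Cell 1 x) (En 1) κ γ0 (single z) (gL A L N 0 ω)} := by
          ext ω; simp [succ0, good0]
        rw [e]
        refine (MeasurableSet.iUnion fun x => ?_).compl
        have hg : ∀ y z, Measurable[A.H L] fun ω => gL A L N 0 ω y z := fun y z => by
          have := meas_gL_H A L N 0 y z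
          rwa [zero_mul, add_zero] at this
        exact @meas_ok S _ Ω (A.H L) (fun _ => single z) (gL A L N 0) (Cell 1 x) (En 1) κ γ0
          (fun y => measurable_const) hg
      rw [(Indep_iff _ _ _).1 (A.indep L) B _ hB' hs, mul_comm]
      gcongr
      exact H.start
    · simp only [h, if_false, Set.compl_univ, Set.inter_empty, measure_empty]
      exact zero_le

lemma step_cost {A : KerSys S P} {L N : ℕ} {γ γ0 : ℝ≥0∞} {s : ℕ} (hs : 1 ≤ s) {ω : Ω} {z y : S}
    {lam : S → ℝ≥0∞} {o : ℝ≥0∞}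
    (h2 : ∀ y, γ0 * γ ^ (s - 1) * lam y ≤ A.G L (L + s * N) ω z y)
    (hout : γ * o ≤ ∑' w, lam w * gL A L N s ω w y)
    (hcomp : ∀ x y, ∑' w, A.G L (L + s * N) ω x w *
        A.G (L + s * N) (L + (s + 1) * N) ω w y ≤ A.G L (L + (s + 1) * N) ω x y) :
    γ0 * γ ^ (s + 1 - 1) * o ≤ A.G L (L + (s + 1) * N) ω z y := by
  obtain ⟨i, rfl⟩ := Nat.exists_eq_add_of_le hs
  have e1 : 1 + i + 1 - 1 = i + 1 := by omega
  have e2 : 1 + i - 1 = i := by omega
  rw [e2] at h2
  rw [e1]
  calc γ0 * γ ^ (i + 1) * o = γ0 * γ ^ i * (γ * o) := by rw [pow_succ]; ring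
    _ ≤ γ0 * γ ^ i * ∑' w, lam w * gL A L N (1 + i) ω w y := by gcongr
    _ = ∑' w, (γ0 * γ ^ i * lam w) * gL A L N (1 + i) ω w y := by
        rw [← ENNReal.tsum_mul_left]
        exact tsum_congr fun w => by ring
    _ ≤ ∑' w, A.G L (L + (1 + i) * N) ω z w * gL A L N (1 + i) ω w y :=
        ENNReal.tsum_le_tsum fun w => by gcongr; exact h2 w
    _ ≤ A.G L (L + (1 + i + 1) * N) ω z y := hcomp z y

/-- **FINAL FORM**: 299's `fam` (cost `γ0 * γ ^ s`). -/
theorem fam [IsProbabilityMeasure P] (hγ : γ ≠ 0) (hγ0 : γ0 ≠ 0) (hγ1 : γ ≤ 1) {q θ : ℝ≥0∞}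
    (hq : 54 * q ≤ 1) (hθ1 : θ ≤ 1) (hθ : 27 * q ≤ θ ^ 2)
    {z : S} (H : Inputs A L N Cell En κ γ γ0 z q) :
    ∃ τ : Ω → ℕ∞,
      (∀ t : ℕ, MeasurableSet[A.F (L + t * N)] {ω | τ ω = t}) ∧ (∀ ω, 1 ≤ τ ω) ∧
      (∀ t : ℕ, 1 ≤ t → ∀ B, MeasurableSet[A.F L] B → P (B ∩ {ω | τ ω = t}) ≤ θ ^ t * P B) ∧
      (∀ᵐ ω ∂P, ∀ s : ℕ, 1 ≤ s → (s : ℕ∞) < τ ω → γ0 * γ ^ s ≤ A.N L (L + s * N) ω z) := by
  classical
  set T := tiles A L N Cell En κ γ γ0 hγ hγ0 H with hT
  refine ⟨T.tau 0 z, ?_, T.one_le_tau 0 z, ?_, ?_⟩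
  · intro t
    have := T.tau_meas 0 z t
    rw [zero_add] at this
    exact this
  · intro t ht B hB
    refine T.tau_le 0 z θ hq hθ1 hθ t ht B ?_
    show MeasurableSet[A.F (L + 0 * N)] B
    rwa [zero_mul, add_zero]
  · have hcomp : ∀ᵐ ω ∂P, ∀ s : ℕ, ∀ x y, ∑' w, A.G L (L + s * N) ω x w *
        A.G (L + s * N) (L + (s + 1) * N) ω w y ≤ A.G L (L + (s + 1) * N) ω x y := by
      rw [ae_all_iff]
      intro s
      exact A.comp L (L + s * N) (L + (s + 1) * N) (by omega) (lv_le L N s)
    filter_upwards [hcomp] with ω hω s hs hlt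
    have hc : (0 : ℕ) = 0 ∧ z = z := ⟨rfl, rfl⟩
    obtain ⟨x, lam, _, hsum, hle⟩ := T.inv_of_lt_tau 0 z hs hlt
      (fun s x lam => 1 ≤ s ∧ ∑' y, lam y = 1 ∧
        ∀ y, γ0 * γ ^ (s - 1) * lam y ≤ A.G L (L + s * N) ω z y)
      (by
        intro hsucc
        have hsucc' : ω ∈ succ0 A L N Cell En κ γ0 z := by
          simpa [T, tiles, hc] using hsucc
        have hl0 : T.lam0 0 z ω = outM (Cell 1 (sel (good0 A L N Cell En κ γ0 z ω))) (single z)
            (gL A L N 0 ω) := by
          simp [T, tiles, hsucc']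
        have hg : good0 A L N Cell En κ γ0 z ω (sel (good0 A L N Cell En κ γ0 z ω)) :=
          sel_spec hsucc'
        rw [hl0]
        refine ⟨le_rfl, (out_mem _ _ hγ0 (le_of_eq (tsum_single z)) (gL_mass A L N 0 ω) hg).1,
          fun y => ?_⟩
        have := mul_out_le _ _ hγ0 (le_of_eq (tsum_single z)) (gL_mass A L N 0 ω) hg y
        rw [tsum_single_mul] at this
        simpa [gL] using this)
      (by
        rintro s x lam ⟨h0, h1, h2⟩ hgood
        have hgood' : ω ∈ goodS A L N Cell En κ γ s x lam := by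
          have : ω ∈ T.good (0 + s) x lam := hgood
          rw [zero_add] at this
          exact this
        have hout : T.outL (0 + s) x lam ω = outM (Cell (s+1) x) lam (gL A L N s ω) := by
          rw [zero_add]; rfl
        rw [hout]
        refine ⟨by omega, (out_mem _ _ hγ (le_of_eq h1) (gL_mass A L N s ω) hgood'.1).1,
          fun y => ?_⟩
        refine step_cost h0 h2 ?_ (hω s)
        exact mul_out_le _ _ hγ (le_of_eq h1) (gL_mass A L N s ω) hgood'.1 y)
      (by
        rintro s x lam ⟨h0, h1, h2⟩ hgood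
        have hgood' : ω ∈ goodS A L N Cell En κ γ s x lam := by
          have : ω ∈ T.good (0 + s) x lam := hgood
          rw [zero_add] at this
          exact this
        have hout : T.outR (0 + s) x lam ω = outM (Cell (s+1) (x+1)) lam (gL A L N s ω) := by
          rw [zero_add]; rfl
        rw [hout]
        refine ⟨by omega, (out_mem _ _ hγ (le_of_eq h1) (gL_mass A L N s ω) hgood'.2).1,
          fun y => ?_⟩
        refine step_cost h0 h2 ?_ (hω s)
        exact mul_out_le _ _ hγ (le_of_eq h1) (gL_mass A L N s ω) hgood'.2 y)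
    calc γ0 * γ ^ s ≤ γ0 * γ ^ (s - 1) :=
          mul_le_mul_right (pow_le_pow_right_of_le_one' hγ1 (Nat.sub_le s 1)) _
      _ = ∑' y, γ0 * γ ^ (s - 1) * lam y := by rw [ENNReal.tsum_mul_left, hsum, mul_one]
      _ ≤ ∑' y, A.G L (L + s * N) ω z y := ENNReal.tsum_le_tsum hle
      _ = A.N L (L + s * N) ω z := rfl

/-- **299's `TileSys` (v2).** -/
theorem tileSys [IsProbabilityMeasure P] (A : KerSys S P) (N : ℕ) {κ γ γ0 : ℝ≥0∞}
    (hγ : γ ≠ 0) (hγ0 : γ0 ≠ 0) (hγ1 : γ ≤ 1) {q θ : ℝ≥0∞}
    (hq : 54 * q ≤ 1) (hθ1 : θ ≤ 1) (hθ : 27 * q ≤ θ ^ 2)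
    (H : ∀ L, ∀ z ∈ A.L L, ∃ (Cell : ℕ → ℤ → Set S) (En : ℕ → S → S → ℝ≥0∞),
      Inputs A L N Cell En κ γ γ0 z q) :
    WindowK299.TileSys A N γ0 γ θ where
  fam L z hz := by
    obtain ⟨Cell, En, h⟩ := H L z hz
    exact fam A L N Cell En κ γ γ0 hγ hγ0 hγ1 hq hθ1 hθ h

end inst

end Crest.Agent.R154.TileInst748
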