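import Crest.Agent.R154.TileGen_272
import Crest.Agent.R154.TileInst_748
import Crest.Agent.R154.RatioB_872

/-!
Row 154, block B8 (helper272): **small heights** = input (init) of `CompW.chain`, from ONE tile
system (cells `ℤ × ℤ`: rows of cells in direction 1, planes in direction 2) per pair `(b, δ')`.
-/

set_option autoImplicit false
set_option linter.unusedSectionVars false
set_option linter.unusedVariables false

namespace Crest.Agent.R154.Init272

open MeasureTheory ProbabilityTheory Crest.Agent.R154.Perc272 Crest.Agent.R154.Gen272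
open Crest.Agent.R154.RatioR872 Crest.Agent.R154.TileInst748
open scoped ENNReal NNReal

/-- K-set bound for random states, any index type (748's `kset_rand`). -/
theorem kset_randX {Ω Λ X : Type*} {m1 m2 : MeasurableSpace Ω}
    [m0 : MeasurableSpace Ω] [mΛ : MeasurableSpace Λ]
    (P : Measure Ω) [IsProbabilityMeasure P] (h1 : m1 ≤ m0) (h2 : m2 ≤ m0) (hind : Indep m1 m2 P)
    (Bad : X → Set (Λ × Ω)) (hBad : ∀ x, MeasurableSet[mΛ.prod m2] (Bad x))
    (cls : X → Set Λ) (K : Finset X) (c : ℝ≥0∞)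
    (hc : ∀ lam : X → Λ, (∀ x, lam x ∈ cls x) → P {ω | ∀ x ∈ K, (lam x, ω) ∈ Bad x} ≤ c)
    (f : X → Ω → Λ) (hf : ∀ x, Measurable[m1] (f x))
    (hfc : ∀ x ω, f x ω ∈ cls x) (B : Set Ω) (hB : MeasurableSet[m1] B) :
    P (B ∩ {ω | ∀ x ∈ K, (f x ω, ω) ∈ Bad x}) ≤ c * P B := by
  classical
  let Bad' : Set ((X → Λ) × Ω) := ⋂ x ∈ K, {p | (p.1 x, p.2) ∈ Bad x}
  have hBad' : MeasurableSet[MeasurableSpace.pi.prod m2] Bad' := by
    refine Finset.measurableSet_biInter _ fun x _ => ?_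
    have hm : @Measurable ((X → Λ) × Ω) (Λ × Ω) (MeasurableSpace.pi.prod m2) (mΛ.prod m2)
        (fun p => (p.1 x, p.2)) := by
      refine @Measurable.prodMk ((X → Λ) × Ω) (MeasurableSpace.pi.prod m2) Λ Ω mΛ m2 _ _ ?_ ?_
      · exact (measurable_pi_apply x).comp (@measurable_fst (X → Λ) Ω MeasurableSpace.pi m2)
      · exact @measurable_snd (X → Λ) Ω MeasurableSpace.pi m2
    exact hm (hBad x)
  have h := TileInd748.rand_state (Λ := X → Λ) P h1 h2 hind Bad' hBad' (fun ω x => f x ω)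
    (@measurable_pi_lambda Ω X (fun _ => Λ) m1 (fun _ => mΛ) _ hf) {lam | ∀ x, lam x ∈ cls x}
    (fun ω x => hfc x ω) c
    (fun lam hlam => by
      have := hc lam hlam
      simpa [Bad'] using this) B hB
  simpa [Bad'] using h

section inst

variable {S : Type*} [Countable S] {Ω : Type*} [m0 : MeasurableSpace Ω] {P : Measure Ω}
  {X : Type*}

/-- the filtration of the layers `lv k`. -/
def FL (A : KerSys S P) (lv : ℕ → ℕ) (hlv : Monotone lv) : Filtration ℕ m0 where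
  seq k := A.F (lv k)
  mono' := fun a b hab => A.F.mono (hlv hab)
  le' k := A.F.le _

variable (A : KerSys S P) (lv : ℕ → ℕ) (sh : Equiv.Perm X) (Cell : ℕ → X → Set S)
  (En : ℕ → S → S → ℝ≥0∞) (κ γ γ0 : ℝ≥0∞)

/-- good tile (layer `k`, cell `x`) with input law `lam`: mass `≥ γ` and small energy in the own cell
and in the right cell of the next layer. -/
def goodX (k : ℕ) (x : X) (lam : S → ℝ≥0∞) : Set Ω :=
  {ω | okM (Cell (k+1) x) (En (k+1)) κ γ lam (A.G (lv k) (lv (k+1)) ω) ∧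
    okM (Cell (k+1) (sh x)) (En (k+1)) κ γ lam (A.G (lv k) (lv (k+1)) ω)}

/-- good start: natural climb from the point `z` to the layer `0`, into the cell `x`. -/
def startX (z : S) (x : X) : Set Ω :=
  {ω | okM (Cell 0 x) (En 0) κ γ0 (single z) (A.G 0 (lv 0) ω)}

/-- **The deterministic inputs** (any index type `X` of cells; layers at the levels `lv k`). -/
structure InputsX (q : ℝ≥0∞) : Prop where
  nonempty : ∀ k x, (clsM (Cell k x) (En k) κ).Nonempty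
  kset : ∀ k (K : Finset X) (lam : X → S → ℝ≥0∞), (∀ x, lam x ∈ clsM (Cell k x) (En k) κ) →
    P {ω | ∀ x ∈ K, ω ∉ goodX A lv sh Cell En κ γ k x (lam x)} ≤ q ^ K.card

open Classical in
/-- **The tile system.** -/
noncomputable def tilesX [IsProbabilityMeasure P] (hlv : Monotone lv) (hγ : γ ≠ 0) {q : ℝ≥0∞}
    (H : InputsX A lv sh Cell En κ γ q) :
    TSys P (FL A lv hlv) X (S → ℝ≥0∞) q where
  sh := sh
  cls k x := clsM (Cell k x) (En k) κ
  dflt k x := (H.nonempty k x).some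
  dflt_mem k x := (H.nonempty k x).some_mem
  good k x lam := goodX A lv sh Cell En κ γ k x lam
  outL k x lam ω := outM (Cell (k+1) x) lam (A.G (lv k) (lv (k+1)) ω)
  outR k x lam ω := outM (Cell (k+1) (sh x)) lam (A.G (lv k) (lv (k+1)) ω)
  outL_mem k x lam ω hlam hω :=
    out_mem _ _ hγ (le_of_eq hlam.1) (fun y => A.mass _ _ ω y (hlv (Nat.le_succ k))) hω.1
  outR_mem k x lam ω hlam hω :=
    out_mem _ _ hγ (le_of_eq hlam.1) (fun y => A.mass _ _ ω y (hlv (Nat.le_succ k))) hω.2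
  good_meas k x f hf := by
    have hl : ∀ y, Measurable[A.F (lv (k+1))] fun ω => f ω y := fun y =>
      (measurable_pi_apply y).comp (hf.mono (A.F.mono (hlv (Nat.le_succ k))) le_rfl)
    have hg : ∀ y z, Measurable[A.F (lv (k+1))] fun ω => A.G (lv k) (lv (k+1)) ω y z := fun y z =>
      A.measF _ _ y z (hlv (Nat.le_succ k))
    have h1 := @meas_ok S _ Ω (A.F (lv (k+1))) f (A.G (lv k) (lv (k+1))) (Cell (k+1) x) (En (k+1))
      κ γ hl hg
    have h2 := @meas_ok S _ Ω (A.F (lv (k+1))) f (A.G (lv k) (lv (k+1))) (Cell (k+1) (sh x))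
      (En (k+1)) κ γ hl hg
    exact MeasurableSet.inter h1 h2
  outL_meas k x f hf := by
    have hl : ∀ y, Measurable[A.F (lv (k+1))] fun ω => f ω y := fun y =>
      (measurable_pi_apply y).comp (hf.mono (A.F.mono (hlv (Nat.le_succ k))) le_rfl)
    exact @meas_out S _ Ω (A.F (lv (k+1))) f (A.G (lv k) (lv (k+1))) (Cell (k+1) x)
      hl (fun y z => A.measF _ _ y z (hlv (Nat.le_succ k)))
  outR_meas k x f hf := by
    have hl : ∀ y, Measurable[A.F (lv (k+1))] fun ω => f ω y := fun y =>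
      (measurable_pi_apply y).comp (hf.mono (A.F.mono (hlv (Nat.le_succ k))) le_rfl)
    exact @meas_out S _ Ω (A.F (lv (k+1))) f (A.G (lv k) (lv (k+1))) (Cell (k+1) (sh x))
      hl (fun y z => A.measF _ _ y z (hlv (Nat.le_succ k)))
  kset k K f hf hfc B hB := by
    have hm : ∀ x, MeasurableSet[MeasurableSpace.pi.prod (A.H (lv k))]
        {p : (S → ℝ≥0∞) × Ω | p.2 ∉ goodX A lv sh Cell En κ γ k x p.1} := by
      intro x
      have hl : ∀ y, @Measurable ((S → ℝ≥0∞) × Ω) ℝ≥0∞ (MeasurableSpace.pi.prod (A.H (lv k))) _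
          fun p => p.1 y := fun y =>
        (measurable_pi_apply y).comp (@measurable_fst (S → ℝ≥0∞) Ω MeasurableSpace.pi
          (A.H (lv k)))
      have hg : ∀ y z, @Measurable ((S → ℝ≥0∞) × Ω) ℝ≥0∞
          (MeasurableSpace.pi.prod (A.H (lv k))) _ fun p => A.G (lv k) (lv (k+1)) p.2 y z :=
        fun y z => (A.measH _ _ y z (hlv (Nat.le_succ k))).comp
          (@measurable_snd (S → ℝ≥0∞) Ω MeasurableSpace.pi (A.H (lv k)))
      have h1 := @meas_ok S _ ((S → ℝ≥0∞) × Ω) (MeasurableSpace.pi.prod (A.H (lv k)))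
        (fun p => p.1) (fun p => A.G (lv k) (lv (k+1)) p.2) (Cell (k+1) x) (En (k+1)) κ γ hl hg
      have h2 := @meas_ok S _ ((S → ℝ≥0∞) × Ω) (MeasurableSpace.pi.prod (A.H (lv k)))
        (fun p => p.1) (fun p => A.G (lv k) (lv (k+1)) p.2) (Cell (k+1) (sh x)) (En (k+1)) κ γ
        hl hg
      exact (MeasurableSet.inter h1 h2).compl
    exact kset_randX (m1 := A.F (lv k)) (m2 := A.H (lv k)) P (A.F.le _)
      (A.H_le _) (A.indep _) (fun x => {p | p.2 ∉ goodX A lv sh Cell En κ γ k x p.1}) hm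
      (fun x => clsM (Cell k x) (En k) κ) K (q ^ K.card)
      (fun lam hlam => H.kset k K lam hlam) f hf hfc B hB

variable {A lv sh Cell En κ γ}

open Classical in
/-- the configuration reached by the first climbs from the points `z0 x`, `x ∈ Src`. -/
noncomputable def confX [IsProbabilityMeasure P] (hlv : Monotone lv) (hγ : γ ≠ 0) (hγ0 : γ0 ≠ 0)
    {q : ℝ≥0∞} (H : InputsX A lv sh Cell En κ γ q) (z0 : X → S) (Src : Set X) :
    Conf (tilesX A lv sh Cell En κ γ hlv hγ H) 0 where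
  A x := startX A lv Cell En κ γ0 (z0 x) x ∩ {_ω | x ∈ Src}
  f x ω := if ω ∈ startX A lv Cell En κ γ0 (z0 x) x then
      outM (Cell 0 x) (single (z0 x)) (A.G 0 (lv 0) ω) else (H.nonempty 0 x).some
  A_meas x := by
    have hg : ∀ y z, Measurable[A.F (lv 0)] fun ω => A.G 0 (lv 0) ω y z := fun y z =>
      A.measF _ _ y z (Nat.zero_le _)
    refine MeasurableSet.inter ?_ (MeasurableSet.const _)
    exact @meas_ok S _ Ω (A.F (lv 0)) (fun _ => single (z0 x)) (A.G 0 (lv 0)) (Cell 0 x) (En 0)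
      κ γ0 (fun y => measurable_const) hg
  f_meas x := by
    have hg : ∀ y z, Measurable[A.F (lv 0)] fun ω => A.G 0 (lv 0) ω y z := fun y z =>
      A.measF _ _ y z (Nat.zero_le _)
    have hs : MeasurableSet[A.F (lv 0)] {ω | ω ∈ startX A lv Cell En κ γ0 (z0 x) x} :=
      @meas_ok S _ Ω (A.F (lv 0)) (fun _ => single (z0 x)) (A.G 0 (lv 0)) (Cell 0 x) (En 0)
      κ γ0 (fun y => measurable_const) hg
    refine @Measurable.ite Ω (S → ℝ≥0∞) _ _ (A.F (lv 0)) _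
        (fun ω => ω ∈ startX A lv Cell En κ γ0 (z0 x) x) _ hs ?_ measurable_const
    exact @meas_out S _ Ω (A.F (lv 0)) (fun _ => single (z0 x)) (A.G 0 (lv 0)) (Cell 0 x)
        (fun y => measurable_const) hg
  f_mem x ω := by
    change (if ω ∈ startX A lv Cell En κ γ0 (z0 x) x then
      outM (Cell 0 x) (single (z0 x)) (A.G 0 (lv 0) ω) else (H.nonempty 0 x).some) ∈
        clsM (Cell 0 x) (En 0) κ
    split_ifs with h
    · exact out_mem _ _ hγ0 (le_of_eq (tsum_single _)) (fun y => A.mass _ _ ω y (Nat.zero_le _)) h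
    · exact (H.nonempty 0 x).some_mem

end inst

/-! ### Fields whose sources may fail -/

section src

variable {Ω : Type*} [m0 : MeasurableSpace Ω] {P : Measure Ω} {F : Filtration ℕ m0}
  {X Λ : Type*} [MeasurableSpace Λ] {q : ℝ≥0∞} (T : TSys P F X Λ q) {k : ℕ} (c : Conf T k)

/-- bad field: a source cell which is not wet is bad too -/
def bf0 (x0 : X) (i : ℕ) (y : ℤ) (ω : Ω) : Prop :=
  ω ∈ T.bd c i ((T.sh ^ y) x0) ∨ (i = 0 ∧ ω ∉ c.A ((T.sh ^ y) x0))

/-- the cluster of a row of `n` possible sources -/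
def cl0 (x0 : X) (n j : ℕ) (ω : Ω) : Set ℤ := Perc272.W (bf0 T c x0) n j ω

theorem wet_of_cl0 (x0 : X) (n : ℕ) (ω : Ω) :
    ∀ (j : ℕ) (y : ℤ), y ∈ cl0 T c x0 n (j + 1) ω → ω ∈ T.wet c (j + 1) ((T.sh ^ y) x0) := by
  have e : ∀ y : ℤ, T.sh.symm ((T.sh ^ y) x0) = (T.sh ^ (y - 1)) x0 := by
    intro y
    rw [Equiv.symm_apply_eq]
    have : T.sh ^ y = T.sh * T.sh ^ (y - 1) := by
      rw [← zpow_one_add]
      congr 1
      ring
    rw [this]
    rfl
  intro j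
  induction j with
  | zero =>
    intro y hy
    rw [TSys.wet_succ]
    rcases hy with ⟨h1, h2⟩ | ⟨h1, h2⟩
    · left
      have h3 : ω ∈ T.wet c 0 ((T.sh ^ y) x0) := by
        by_contra h3
        exact h2 (Or.inr ⟨rfl, h3⟩)
      refine ⟨h3, ?_⟩
      by_contra h4
      exact h2 (Or.inl ⟨h3, h4⟩)
    · right
      rw [e]
      have h3 : ω ∈ T.wet c 0 ((T.sh ^ (y - 1)) x0) := by
        by_contra h3
        exact h2 (Or.inr ⟨rfl, h3⟩)
      refine ⟨h3, ?_⟩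
      by_contra h4
      exact h2 (Or.inl ⟨h3, h4⟩)
  | succ j ih =>
    intro y hy
    rw [TSys.wet_succ]
    rcases hy with ⟨h1, h2⟩ | ⟨h1, h2⟩
    · left
      have h3 := ih y h1
      refine ⟨h3, ?_⟩
      by_contra h4
      exact h2 (Or.inl ⟨h3, h4⟩)
    · right
      have h3 := ih (y - 1) h1
      rw [e]
      refine ⟨h3, ?_⟩
      by_contra h4
      exact h2 (Or.inl ⟨h3, h4⟩)

/-- K-set bound, sources included -/
theorem kset_rows0 [IsProbabilityMeasure P] {ι : Type*} [DecidableEq ι] (x : ι → X) (n : ι → ℕ)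
    (h : ℕ) (S : Finset ι)
    (hinj : Set.InjOn (fun p : ι × ℤ => (T.sh ^ p.2) (x p.1))
      {p | p.1 ∈ S ∧ 0 ≤ p.2 ∧ p.2 < n p.1 + h})
    (hst : ∀ K : Finset X, (∀ z ∈ K, ∃ s ∈ S, ∃ y : ℕ, y < n s ∧ z = (T.sh ^ y) (x s)) →
      P {ω | ∀ z ∈ K, ω ∉ c.A z} ≤ q ^ K.card) (hq1 : q ≤ 1)
    (K : Finset (ι × ℕ × ℤ))
    (hK : ∀ p ∈ K, p.1 ∈ S ∧ p.2.1 ≤ h ∧ 0 ≤ p.2.2 ∧ p.2.2 < n p.1 + p.2.1) :
    P (Set.univ ∩ {ω | ∀ p ∈ K, bf0 T c (x p.1) p.2.1 p.2.2 ω}) ≤ 1 * (2 * q) ^ K.card := by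
  classical
  set φ : ι × ℕ × ℤ → ℕ × X := fun p => (p.2.1, (T.sh ^ p.2.2) (x p.1)) with hφ
  have hφi : Set.InjOn φ K := by
    rintro ⟨s, l, y⟩ hp ⟨s', l', y'⟩ hp' heq
    have h1 := hK _ hp
    have h2 := hK _ hp'
    simp only [hφ, Prod.mk.injEq] at heq h1 h2
    have h3 := @hinj (s, y)
      ⟨h1.1, h1.2.2.1, by have := h1.2.1; have := h1.2.2.2; dsimp only; omega⟩ (s', y')
      ⟨h2.1, h2.2.2.1, by have := h2.2.1; have := h2.2.2.2; dsimp only; omega⟩ heq.2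
    simp only [Prod.mk.injEq] at h3
    rw [heq.1, h3.1, h3.2]
  have hcov : Set.univ ∩ {ω | ∀ p ∈ K, bf0 T c (x p.1) p.2.1 p.2.2 ω} ⊆
      ⋃ K' ∈ (K.filter fun p => p.2.1 = 0).powerset,
        ({ω | ∀ p ∈ K', ω ∉ c.A (φ p).2} ∩ {ω | ∀ p ∈ K \ K', ω ∈ T.bd c (φ p).1 (φ p).2}) := by
    rintro ω ⟨-, hω⟩
    simp only [Set.mem_iUnion]
    refine ⟨(K.filter fun p => p.2.1 = 0).filter fun p => ω ∉ c.A (φ p).2, ?_, ?_, ?_⟩
    · rw [Finset.mem_powerset]; exact Finset.filter_subset _ _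
    · intro p hp
      exact (Finset.mem_filter.1 hp).2
    · intro p hp
      rw [Finset.mem_sdiff, Finset.mem_filter, Finset.mem_filter] at hp
      rcases hω p hp.1 with h | ⟨h1, h2⟩
      · exact h
      · exact absurd ⟨⟨hp.1, h1⟩, h2⟩ hp.2
  refine (measure_mono hcov).trans ((measure_biUnion_finset_le _ _).trans ?_)
  have hone : ∀ K' ∈ (K.filter fun p => p.2.1 = 0).powerset,
      P ({ω | ∀ p ∈ K', ω ∉ c.A (φ p).2} ∩ {ω | ∀ p ∈ K \ K', ω ∈ T.bd c (φ p).1 (φ p).2}) ≤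
        q ^ K.card := by
    intro K' hK'
    rw [Finset.mem_powerset] at hK'
    have hsub : K' ⊆ K := hK'.trans (Finset.filter_subset _ _)
    have h0 : ∀ p ∈ K', p.2.1 = 0 := fun p hp => (Finset.mem_filter.1 (hK' hp)).2
    -- the sources
    have hψi : Set.InjOn (fun p => (φ p).2) (K' : Set (ι × ℕ × ℤ)) := by
      intro p hp p' hp' heq
      refine hφi (hsub hp) (hsub hp') (Prod.ext ?_ heq)
      simp only [hφ]
      rw [h0 p hp, h0 p' hp']
    have h1 : P {ω | ∀ p ∈ K', ω ∉ c.A (φ p).2} ≤ q ^ K'.card := by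
      have := hst (K'.image fun p => (φ p).2) (by
        intro z hz
        rw [Finset.mem_image] at hz
        obtain ⟨p, hp, rfl⟩ := hz
        have h2 := hK p (hsub hp)
        have h3 := h0 p hp
        refine ⟨p.1, h2.1, p.2.2.toNat, ?_, ?_⟩
        · have := h2.2.2.2
          rw [h3] at this
          omega
        · simp only [hφ]
          rw [← zpow_natCast, Int.toNat_of_nonneg h2.2.2.1])
      rw [Finset.card_image_of_injOn hψi] at this
      refine le_trans (measure_mono ?_) this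
      intro ω hω z hz
      rw [Finset.mem_image] at hz
      obtain ⟨p, hp, rfl⟩ := hz
      exact hω p hp
    have hB : MeasurableSet[F (k + 0)] {ω | ∀ p ∈ K', ω ∉ c.A (φ p).2} := by
      have e : {ω | ∀ p ∈ K', ω ∉ c.A (φ p).2} = ⋂ p ∈ K', (c.A (φ p).2)ᶜ := by
        ext ω; simp
      rw [e]
      exact Finset.measurableSet_biInter _ fun p _ => (c.A_meas _).compl
    have h2 := T.kset_all c (h + 1) 0 ((K \ K').image φ) _ hB (by
      intro p hp
      rw [Finset.mem_image] at hp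
      obtain ⟨r, hr, rfl⟩ := hp
      have := hK r (Finset.sdiff_subset hr)
      simp only [hφ]
      omega)
    rw [Finset.card_image_of_injOn (hφi.mono (by
      intro p hp
      exact Finset.sdiff_subset hp))] at h2
    have hcard : K.card = (K \ K').card + K'.card := by
      rw [Finset.card_sdiff_add_card_eq_card hsub]
    calc P ({ω | ∀ p ∈ K', ω ∉ c.A (φ p).2} ∩ {ω | ∀ p ∈ K \ K', ω ∈ T.bd c (φ p).1 (φ p).2})
        ≤ P ({ω | ∀ p ∈ K', ω ∉ c.A (φ p).2} ∩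
            {ω | ∀ p ∈ (K \ K').image φ, ω ∈ T.bd c p.1 p.2}) := by
          refine measure_mono (Set.inter_subset_inter_right _ ?_)
          intro ω hω p hp
          rw [Finset.mem_image] at hp
          obtain ⟨r, hr, rfl⟩ := hp
          exact hω r hr
      _ ≤ q ^ (K \ K').card * P {ω | ∀ p ∈ K', ω ∉ c.A (φ p).2} := h2
      _ ≤ q ^ (K \ K').card * q ^ K'.card := by gcongr
      _ = q ^ K.card := by rw [hcard, pow_add]
  refine (Finset.sum_le_sum hone).trans ?_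
  rw [Finset.sum_const, nsmul_eq_mul, one_mul, mul_pow]
  refine mul_le_mul' ?_ le_rfl
  have h1 : (K.filter fun p => p.2.1 = 0).powerset.card ≤ 2 ^ K.card := by
    rw [Finset.card_powerset]
    exact Nat.pow_le_pow_right (by norm_num) (Finset.card_filter_le _ _)
  exact_mod_cast h1

/-- **All rows die**, sources included. -/
theorem dead0_le [IsProbabilityMeasure P] {ι : Type*} [DecidableEq ι] (hq0 : q ≠ 0)
    (hq : q ≤ ((1 / 96 : ℝ≥0) : ℝ≥0∞))
    (x : ι → X) (n : ι → ℕ) (h : ℕ) (S : Finset ι) (hn : ∀ s ∈ S, 1 ≤ n s)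
    (hinj : Set.InjOn (fun p : ι × ℤ => (T.sh ^ p.2) (x p.1))
      {p | p.1 ∈ S ∧ 0 ≤ p.2 ∧ p.2 < n p.1 + h})
    (hst : ∀ K : Finset X, (∀ z ∈ K, ∃ s ∈ S, ∃ y : ℕ, y < n s ∧ z = (T.sh ^ y) (x s)) →
      P {ω | ∀ z ∈ K, ω ∉ c.A z} ≤ q ^ K.card) :
    P {ω | ∀ s ∈ S, cl0 T c (x s) (n s) (h + 1) ω = ∅} ≤ ∏ s ∈ S, (2 * (24 * q) ^ n s) := by
  have hq1 : q ≤ 1 := by
    refine hq.trans ?_
    have e : (1 : ℝ≥0∞) = ((1 : ℝ≥0) : ℝ≥0∞) := by simp
    rw [e, ENNReal.coe_le_coe, ← NNReal.coe_le_coe]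
    push_cast
    norm_num
  have hq2 : 2 * q ≤ ((1 / 48 : ℝ≥0) : ℝ≥0∞) := by
    refine (mul_le_mul' le_rfl hq).trans ?_
    have e : (2 : ℝ≥0∞) = ((2 : ℝ≥0) : ℝ≥0∞) := by simp
    rw [e, ← ENNReal.coe_mul, ENNReal.coe_le_coe, ← NNReal.coe_le_coe]
    push_cast
    norm_num
  have h1 := planes_le P 1 (2 * q) (fun s => bf0 T c (x s)) (mul_ne_zero (by norm_num) hq0) hq2 n h
    S hn Set.univ (fun K hK => kset_rows0 T c x n h S hinj hst hq1 K hK)
  rw [Set.univ_inter, one_mul] at h1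
  have e : ∀ s, (2 : ℝ≥0∞) * (12 * (2 * q)) ^ n s = 2 * (24 * q) ^ n s := by
    intro s
    congr 2
    rw [← mul_assoc]
    norm_num
  simp only [e] at h1
  exact h1

end src

/-! ### The mass reached -/

section mass

variable {S : Type*} [Countable S] {Ω : Type*} [m0 : MeasurableSpace Ω] {P : Measure Ω}
  [IsProbabilityMeasure P] {X : Type*} {A : KerSys S P} {lv : ℕ → ℕ} {sh : Equiv.Perm X}
  {Cell : ℕ → X → Set S} {En : ℕ → S → S → ℝ≥0∞} {κ γ γ0 : ℝ≥0∞}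

theorem mass_of_wet (hlv : Monotone lv) (hγ : γ ≠ 0) (hγ0 : γ0 ≠ 0)
    {q : ℝ≥0∞} (H : InputsX A lv sh Cell En κ γ q) (z0 : X → S) (Src : Set X) :
    ∀ᵐ ω ∂P, ∀ j x, ω ∈ (tilesX A lv sh Cell En κ γ hlv hγ H).wet
        (confX γ0 hlv hγ hγ0 H z0 Src) j x →
      ∃ x' ∈ Src, γ0 * γ ^ j ≤ A.N 0 (lv j) ω (z0 x') := by
  classical
  have hcomp : ∀ᵐ ω ∂P, ∀ j : ℕ, ∀ x y, ∑' w, A.G 0 (lv j) ω x w *
      A.G (lv j) (lv (j + 1)) ω w y ≤ A.G 0 (lv (j + 1)) ω x y := by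
    rw [ae_all_iff]
    intro j
    exact A.comp 0 (lv j) (lv (j + 1)) (Nat.zero_le _) (hlv (Nat.le_succ j))
  filter_upwards [hcomp] with ω hω j x hw
  set T := tilesX A lv sh Cell En κ γ hlv hγ H with hT
  set c := confX γ0 hlv hγ hγ0 H z0 Src with hc
  have hstep : ∀ (s : ℕ) (x' : X) (lam o : S → ℝ≥0∞) (y : S),
      (∀ y, γ0 * γ ^ s * lam y ≤ A.G 0 (lv s) ω (z0 x') y) →
      γ * o y ≤ ∑' w, lam w * A.G (lv s) (lv (s + 1)) ω w y →
      γ0 * γ ^ (s + 1) * o y ≤ A.G 0 (lv (s + 1)) ω (z0 x') y := by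
    intro s x' lam o y h2 hout
    calc γ0 * γ ^ (s + 1) * o y = γ0 * γ ^ s * (γ * o y) := by rw [pow_succ]; ring
      _ ≤ γ0 * γ ^ s * ∑' w, lam w * A.G (lv s) (lv (s + 1)) ω w y := by gcongr
      _ = ∑' w, (γ0 * γ ^ s * lam w) * A.G (lv s) (lv (s + 1)) ω w y := by
          rw [← ENNReal.tsum_mul_left]
          exact tsum_congr fun w => by ring
      _ ≤ ∑' w, A.G 0 (lv s) ω (z0 x') w * A.G (lv s) (lv (s + 1)) ω w y :=
          ENNReal.tsum_le_tsum fun w => by gcongr; exact h2 w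
      _ ≤ A.G 0 (lv (s + 1)) ω (z0 x') y := hω s _ _
  have hinv := T.inv_of_wet c (ω := ω) (fun s x lam => ∑' y, lam y = 1 ∧ ∃ x' ∈ Src,
      ∀ y, γ0 * γ ^ s * lam y ≤ A.G 0 (lv s) ω (z0 x') y) (by
    rintro x ⟨hx, hxS⟩
    have hx' : okM (Cell 0 x) (En 0) κ γ0 (single (z0 x)) (A.G 0 (lv 0) ω) := hx
    have e : c.f x ω = outM (Cell 0 x) (single (z0 x)) (A.G 0 (lv 0) ω) := if_pos hx
    rw [e]
    refine ⟨(out_mem _ _ hγ0 (le_of_eq (tsum_single _))
      (fun y => A.mass _ _ ω y (Nat.zero_le _)) hx').1, x, hxS, fun y => ?_⟩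
    have := mul_out_le _ _ hγ0 (le_of_eq (tsum_single (z0 x)))
      (fun y => A.mass _ _ ω y (Nat.zero_le _)) hx' y
    rw [tsum_single_mul] at this
    simpa using this) (by
    rintro s x lam ⟨h1, x', hx', h2⟩ hg
    rw [zero_add] at hg
    have hg' : ω ∈ goodX A lv sh Cell En κ γ s x lam := hg
    have e : T.outL (0 + s) x lam ω = outM (Cell (s+1) x) lam (A.G (lv s) (lv (s+1)) ω) := by
      rw [zero_add]; rfl
    rw [e]
    refine ⟨(out_mem _ _ hγ (le_of_eq h1)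
      (fun y => A.mass _ _ ω y (hlv (Nat.le_succ s))) hg'.1).1, x', hx', fun y => ?_⟩
    exact hstep s x' lam _ y h2 (mul_out_le _ _ hγ (le_of_eq h1)
      (fun y => A.mass _ _ ω y (hlv (Nat.le_succ s))) hg'.1 y)) (by
    rintro s x lam ⟨h1, x', hx', h2⟩ hg
    rw [zero_add] at hg
    have hg' : ω ∈ goodX A lv sh Cell En κ γ s x lam := hg
    have e : T.outR (0 + s) x lam ω = outM (Cell (s+1) (sh x)) lam (A.G (lv s) (lv (s+1)) ω) := by
      rw [zero_add]; rfl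
    rw [e]
    refine ⟨(out_mem _ _ hγ (le_of_eq h1)
      (fun y => A.mass _ _ ω y (hlv (Nat.le_succ s))) hg'.2).1, x', hx', fun y => ?_⟩
    exact hstep s x' lam _ y h2 (mul_out_le _ _ hγ (le_of_eq h1)
      (fun y => A.mass _ _ ω y (hlv (Nat.le_succ s))) hg'.2 y)) hw
  obtain ⟨h1, x', hx', h2⟩ := hinv
  refine ⟨x', hx', ?_⟩
  calc γ0 * γ ^ j = ∑' y, γ0 * γ ^ j * T.state c j x ω y := by
        rw [ENNReal.tsum_mul_left, h1, mul_one]
    _ ≤ ∑' y, A.G 0 (lv j) ω (z0 x') y := ENNReal.tsum_le_tsum h2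
    _ = A.N 0 (lv j) ω (z0 x') := rfl

/-- **Bound from rows of sources**, `InputsX` + K-set bound of the first climbs. -/
theorem init_bound (hlv : Monotone lv) (hγ : γ ≠ 0) (hγ0 : γ0 ≠ 0)
    {q : ℝ≥0∞} (H : InputsX A lv sh Cell En κ γ q) (hq0 : q ≠ 0)
    (hq : q ≤ ((1 / 96 : ℝ≥0) : ℝ≥0∞)) (z0 : X → S) {ι : Type*} [DecidableEq ι]
    (x : ι → X) (n : ι → ℕ) (h : ℕ) (I : Finset ι) (hn : ∀ s ∈ I, 1 ≤ n s)
    (hinj : Set.InjOn (fun p : ι × ℤ => (sh ^ p.2) (x p.1))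
      {p | p.1 ∈ I ∧ 0 ≤ p.2 ∧ p.2 < n p.1 + h})
    (hst : ∀ K : Finset X, (∀ z ∈ K, ∃ s ∈ I, ∃ y : ℕ, y < n s ∧ z = (sh ^ y) (x s)) →
      P {ω | ∀ z ∈ K, ω ∉ startX A lv Cell En κ γ0 (z0 z) z} ≤ q ^ K.card)
    (μ : S → ℝ≥0∞) (w : ℝ≥0∞) (hw : ∀ s ∈ I, ∀ y : ℕ, y < n s → w ≤ μ (z0 ((sh ^ y) (x s)))) :
    P {ω | A.Sh μ (lv (h + 1)) ω < w * (γ0 * γ ^ (h + 1))} ≤
      ∏ s ∈ I, (2 * (24 * q) ^ n s) := by
  classical
  set Src : Set X := {z | ∃ s ∈ I, ∃ y : ℕ, y < n s ∧ z = (sh ^ y) (x s)} with hSrc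
  set T := tilesX A lv sh Cell En κ γ hlv hγ H with hT
  set c := confX γ0 hlv hγ hγ0 H z0 Src with hc
  refine le_trans (measure_mono_ae ?_) (dead0_le T c hq0 hq x n h I hn hinj (by
    intro K hK
    refine le_trans (measure_mono ?_) (hst K hK)
    intro ω hω z hz hmem
    exact hω z hz ⟨hmem, hK z hz⟩))
  filter_upwards [mass_of_wet (A := A) (lv := lv) (sh := sh) (Cell := Cell) (En := En)
    hlv hγ hγ0 H z0 Src] with ω hω
  intro (hlt : A.Sh μ (lv (h + 1)) ω < w * (γ0 * γ ^ (h + 1))) s hs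
  rw [Set.eq_empty_iff_forall_notMem]
  intro y hy
  have hwet := wet_of_cl0 T c (x s) (n s) ω h y hy
  obtain ⟨x', ⟨s', hs', y', hy', rfl⟩, hN⟩ := hω (h + 1) _ hwet
  refine absurd hlt (not_lt.2 ?_)
  calc w * (γ0 * γ ^ (h + 1))
      ≤ μ (z0 ((sh ^ y') (x s'))) * A.N 0 (lv (h + 1)) ω (z0 ((sh ^ y') (x s'))) :=
        mul_le_mul' (hw s' hs' y' hy') hN
    _ ≤ ∑' z, μ z * A.N 0 (lv (h + 1)) ω z :=
        ENNReal.le_tsum (f := fun z => μ z * A.N 0 (lv (h + 1)) ω z) _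
    _ = A.Sh μ (lv (h + 1)) ω := by
        unfold KerSys.Sh
        rw [KerSys.tot_push]

end mass

/-! ### The final arithmetic -/

section final

/-- right neighbour in a plane -/
def shZ : Equiv.Perm (ℤ × ℤ) := Equiv.prodCongr (Equiv.refl ℤ) (Equiv.addRight 1)

lemma shZ_pow (y : ℕ) (s x : ℤ) : (shZ ^ y) (s, x) = (s, x + y) := by
  induction y with
  | zero => simp
  | succ y ih =>
    rw [pow_succ', Equiv.Perm.mul_apply, ih]
    simp [shZ]
    ring

lemma shZ_zpow (y : ℤ) (hy : 0 ≤ y) (s x : ℤ) : (shZ ^ y) (s, x) = (s, x + y) := by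
  obtain ⟨z, rfl⟩ := Int.eq_ofNat_of_zero_le hy
  rw [zpow_natCast, shZ_pow]

variable {S : Type*} [Countable S] {Ω : Type*} [m0 : MeasurableSpace Ω] {P : Measure Ω}
  [IsProbabilityMeasure P]

/-- **LITERAL INPUT of (init)**: one tile system on `ℤ × ℤ` (first coordinate: plane, second: cell of
a row) for the pair `(b, δ')`. -/
def InitTiles (A : KerSys S P) (μ : ℕ → S → ℝ≥0∞) (b δ' : ℝ) : Prop :=
  ∃ (N : ℕ) (m ρ : ℝ) (κ γ γ0 : ℝ≥0∞) (lv : ℕ → ℕ) (Cell : ℕ → ℤ × ℤ → Set S)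
    (En : ℕ → S → S → ℝ≥0∞) (z0 : ℤ × ℤ → S) (n0 : ℕ),
    0 < N ∧ 0 ≤ m ∧ 4 * m * b ≤ δ' * N ∧ ENNReal.ofReal (Real.exp (-m)) ≤ γ ∧ γ0 ≠ 0 ∧
    Monotone lv ∧ (∀ k, k * N ≤ lv k) ∧
    InputsX A lv shZ Cell En κ γ ((1 / 96 : ℝ≥0) : ℝ≥0∞) ∧
    (∀ K : Finset (ℤ × ℤ), P {ω | ∀ z ∈ K, ω ∉ startX A lv Cell En κ γ0 (z0 z) z} ≤
      ((1 / 96 : ℝ≥0) : ℝ≥0∞) ^ K.card) ∧
    0 < ρ ∧ ∀ n, n0 ≤ n → ∀ s y : ℕ, (s : ℝ) ≤ ρ * n → (y : ℝ) ≤ ρ * n →
      ENNReal.ofReal (Real.exp (-(δ' * n / 4))) ≤ μ n (z0 ((s : ℤ), (y : ℤ)))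

/-- **(init)** of `CompW.chain`. -/
theorem init_of_tiles (A : KerSys S P) (μ : ℕ → S → ℝ≥0∞) (hμ : ∀ n, A.Start (μ n))
    (a : ℕ → ℕ → Ω → ℝ)
    (ha : ∀ n i, ∀ᵐ ω ∂P, a n i ω = - Real.log (A.Sh (μ n) (10 ^ i) ω).toReal)
    (hT : ∀ b δ' : ℝ, 0 < b → 0 < δ' → InitTiles A μ b δ') :
    ∀ b δ' M : ℝ, 0 < b → 0 < δ' → 0 < M → ∃ n1 : ℕ, ∀ n, n1 ≤ n → ∀ J : ℕ,
      (10 : ℝ) ^ J ≤ b * n →
      P {ω | δ' * n ≤ a n J ω} ≤ ENNReal.ofReal (Real.exp (-(M * n))) := by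
  classical
  intro b δ' M hb hδ hM
  obtain ⟨N, m, ρ, κ, γ, γ0, lv, Cell, En, z0, n0, hN, hm, hmb, hγ, hγ0, hlv, hlvN, H, hst, hρ,
    hμw⟩ := hT b δ' hb hδ
  have hγne : γ ≠ 0 := by
    intro h
    rw [h] at hγ
    have := le_zero_iff.1 hγ
    rw [ENNReal.ofReal_eq_zero] at this
    exact absurd this (not_le.2 (Real.exp_pos _))
  -- a real lower bound of `γ0`
  obtain ⟨g, hg0, hg⟩ : ∃ g : ℝ, 0 ≤ g ∧ ENNReal.ofReal (Real.exp (-g)) ≤ γ0 := by
    by_cases ht : γ0 = ∞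
    · exact ⟨0, le_rfl, by rw [ht]; exact le_top⟩
    · have hpos : 0 < γ0.toReal := ENNReal.toReal_pos hγ0 ht
      refine ⟨max 0 (-Real.log γ0.toReal), le_max_left _ _, ?_⟩
      rw [ENNReal.ofReal_le_iff_le_toReal ht]
      calc Real.exp (-max 0 (-Real.log γ0.toReal)) ≤ Real.exp (Real.log γ0.toReal) := by
            apply Real.exp_le_exp.2
            have := le_max_right 0 (-Real.log γ0.toReal)
            linarith
        _ = γ0.toReal := Real.exp_log hpos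
  obtain ⟨n1, hn1⟩ := exists_nat_ge (max (max (2 / ρ) (8 * M / ρ ^ 2))
    (max (8 * m / δ') (16 * g / δ')) + 1)
  refine ⟨max n0 n1, fun n hn J hJ => ?_⟩
  have hnn0 : n0 ≤ n := (le_max_left _ _).trans hn
  have hnn1 : max (max (2 / ρ) (8 * M / ρ ^ 2)) (max (8 * m / δ') (16 * g / δ')) + 1 ≤ (n : ℝ) :=
    hn1.trans (by exact_mod_cast (le_max_right _ _).trans hn)
  have i1 : 2 / ρ ≤ n := by
    have := (le_max_left (2 / ρ) (8 * M / ρ ^ 2)).trans
      (le_max_left _ (max (8 * m / δ') (16 * g / δ')))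
    linarith
  have i2 : 8 * M / ρ ^ 2 ≤ n := by
    have := (le_max_right (2 / ρ) (8 * M / ρ ^ 2)).trans
      (le_max_left _ (max (8 * m / δ') (16 * g / δ')))
    linarith
  have i3 : 8 * m / δ' ≤ n := by
    have := (le_max_left (8 * m / δ') (16 * g / δ')).trans
      (le_max_right (max (2 / ρ) (8 * M / ρ ^ 2)) _)
    linarith
  have i4 : 16 * g / δ' ≤ n := by
    have := (le_max_right (8 * m / δ') (16 * g / δ')).trans
      (le_max_right (max (2 / ρ) (8 * M / ρ ^ 2)) _)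
    linarith
  have hnpos : (0 : ℝ) < n := by
    have := (le_max_left (2 / ρ) (8 * M / ρ ^ 2)).trans
      (le_max_left _ (max (8 * m / δ') (16 * g / δ')))
    have h2 : 0 < 2 / ρ := by positivity
    linarith
  have i1' : 2 ≤ ρ * n := by
    rw [div_le_iff₀ hρ] at i1
    linarith
  have i2' : 8 * M ≤ ρ ^ 2 * n := by
    rw [div_le_iff₀ (by positivity)] at i2
    linarith
  have i3' : 8 * m ≤ δ' * n := by
    rw [div_le_iff₀ hδ] at i3
    linarith
  have i4' : 16 * g ≤ δ' * n := by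
    rw [div_le_iff₀ hδ] at i4
    linarith
  set r : ℕ := ⌊ρ * n⌋₊ with hr
  have hr1 : (r : ℝ) ≤ ρ * n := Nat.floor_le (by positivity)
  have hr2 : ρ * n < r + 1 := Nat.lt_floor_add_one _
  have hr3 : ρ * n / 2 ≤ r := by linarith
  have hrpos : 1 ≤ r := by
    have : (1 : ℝ) ≤ r := by linarith
    exact_mod_cast this
  set h : ℕ := ⌈b * n / N⌉₊ with hh
  have hNr : (0 : ℝ) < N := by exact_mod_cast hN
  have hh1 : b * n / N ≤ h := Nat.le_ceil _
  have hh2 : (h : ℝ) < b * n / N + 1 := Nat.ceil_lt_add_one (by positivity)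
  have hbound := init_bound (A := A) (lv := lv) (sh := shZ) (Cell := Cell) (En := En)
    hlv hγne hγ0 H (by norm_num) le_rfl z0
    (fun s : ℕ => ((s : ℤ), (0 : ℤ))) (fun _ => r) h (Finset.range r) (fun _ _ => hrpos) (by
      rintro ⟨s, y⟩ hy ⟨s', y'⟩ hy' heq
      have h1 : (0 : ℤ) ≤ y := hy.2.1
      have h2 : (0 : ℤ) ≤ y' := hy'.2.1
      simp only at heq
      rw [shZ_zpow y h1, shZ_zpow y' h2] at heq
      simp only [Prod.mk.injEq, Nat.cast_inj, zero_add] at heq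
      rw [heq.1, heq.2]) (fun K _ => hst K) (μ n)
    (ENNReal.ofReal (Real.exp (-(δ' * n / 4)))) (by
      intro s hs y hy
      rw [shZ_pow, zero_add]
      rw [Finset.mem_range] at hs
      have e1 : (s : ℝ) ≤ r := by exact_mod_cast hs.le
      have e2 : (y : ℝ) ≤ r := by exact_mod_cast hy.le
      exact hμw n hnn0 s y (e1.trans hr1) (e2.trans hr1))
  refine le_trans (measure_mono_ae ?_) (hbound.trans ?_)
  · filter_upwards [ha n J] with ω hω
    intro (hle : δ' * n ≤ a n J ω)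
    change A.Sh (μ n) (lv (h + 1)) ω < _
    rw [hω] at hle
    have ht : A.Sh (μ n) (10 ^ J) ω ≠ ∞ :=
      ne_top_of_le_ne_top ENNReal.one_ne_top (KerSys.Sh_le_one (hμ n) _ ω)
    have hδn : 0 < δ' * n := by positivity
    have hpos : 0 < (A.Sh (μ n) (10 ^ J) ω).toReal := by
      by_contra hcon
      have h0 : (A.Sh (μ n) (10 ^ J) ω).toReal = 0 :=
        le_antisymm (not_lt.1 hcon) ENNReal.toReal_nonneg
      rw [h0, Real.log_zero] at hle
      linarith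
    have h1 : (A.Sh (μ n) (10 ^ J) ω).toReal ≤ Real.exp (-(δ' * n)) := by
      rw [← Real.exp_log hpos]
      apply Real.exp_le_exp.2
      linarith
    have h2 : A.Sh (μ n) (lv (h + 1)) ω ≤ ENNReal.ofReal (Real.exp (-(δ' * n))) := by
      refine (KerSys.Sh_anti (?_ : 10 ^ J ≤ lv (h + 1)) ω).trans ?_
      · have e1 : ((10 ^ J : ℕ) : ℝ) ≤ ((h + 1) * N : ℕ) := by
          push_cast
          refine hJ.trans ?_
          rw [div_le_iff₀ hNr] at hh1
          have : (h : ℝ) * N ≤ ((h : ℝ) + 1) * N := by nlinarith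
          linarith
        have e2 : 10 ^ J ≤ (h + 1) * N := by exact_mod_cast e1
        exact e2.trans (hlvN (h + 1))
      · rw [← ENNReal.ofReal_toReal ht]
        exact ENNReal.ofReal_le_ofReal h1
    refine lt_of_le_of_lt h2 ?_
    have h3 : ENNReal.ofReal (Real.exp (-(δ' * n / 4))) *
        (ENNReal.ofReal (Real.exp (-g)) * ENNReal.ofReal (Real.exp (-m)) ^ (h + 1)) ≤
        ENNReal.ofReal (Real.exp (-(δ' * n / 4))) * (γ0 * γ ^ (h + 1)) :=
      mul_le_mul' le_rfl (mul_le_mul' hg (pow_le_pow_left' hγ _))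
    refine lt_of_lt_of_le ?_ h3
    rw [← ENNReal.ofReal_pow (Real.exp_pos _).le, ← ENNReal.ofReal_mul (Real.exp_pos _).le,
      ← ENNReal.ofReal_mul (Real.exp_pos _).le, ← Real.exp_nat_mul, ← Real.exp_add,
      ← Real.exp_add]
    refine (ENNReal.ofReal_lt_ofReal_iff (Real.exp_pos _)).2 (Real.exp_lt_exp.2 ?_)
    have e3 : m * ((h : ℝ) + 1) ≤ δ' * n / 4 + δ' * n / 4 := by
      have e4 : m * ((h : ℝ) + 1) ≤ m * (b * n / N + 2) :=
        mul_le_mul_of_nonneg_left (by linarith) hm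
      have e5 : m * (b * n / N) ≤ δ' * n / 4 := by
        rw [mul_div_assoc', div_le_iff₀ hNr]
        have := mul_le_mul_of_nonneg_right hmb hnpos.le
        nlinarith
      have e6 : m * 2 ≤ δ' * n / 4 := by linarith
      linarith
    push_cast
    nlinarith
  · rw [Finset.prod_const, Finset.card_range]
    have e1 : (2 : ℝ≥0∞) * (24 * ((1 / 96 : ℝ≥0) : ℝ≥0∞)) ^ r ≤
        ENNReal.ofReal (Real.exp (-((r : ℝ) / 2))) := by
      have e24 : (24 : ℝ≥0∞) * ((1 / 96 : ℝ≥0) : ℝ≥0∞) = ENNReal.ofReal (1 / 4) := by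
        have : (24 : ℝ≥0∞) = ((24 : ℝ≥0) : ℝ≥0∞) := by simp
        rw [this, ← ENNReal.coe_mul, ENNReal.ofReal, ENNReal.coe_inj, ← NNReal.coe_inj,
          Real.coe_toNNReal _ (by norm_num)]
        push_cast
        norm_num
      rw [e24, ← ENNReal.ofReal_pow (by norm_num)]
      have e2 : (2 : ℝ≥0∞) = ENNReal.ofReal 2 := by simp
      rw [e2, ← ENNReal.ofReal_mul (by norm_num)]
      apply ENNReal.ofReal_le_ofReal
      have e3 : (2 : ℝ) * (1 / 4) ^ r ≤ (1 / 2) ^ r := by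
        have e4 : ((1 : ℝ) / 4) ^ r = (1 / 2) ^ r * (1 / 2) ^ r := by
          rw [← mul_pow]; norm_num
        have e5 : ((1 : ℝ) / 2) ^ r ≤ 1 / 2 := by
          calc ((1 : ℝ) / 2) ^ r ≤ (1 / 2) ^ 1 :=
                pow_le_pow_of_le_one (by norm_num) (by norm_num) hrpos
            _ = 1 / 2 := pow_one _
        have e6 : (0 : ℝ) < (1 / 2) ^ r := by positivity
        rw [e4]
        nlinarith
      refine e3.trans ?_
      have e7 : (1 : ℝ) / 2 ≤ Real.exp (-(1 / 2)) := by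
        have := Real.add_one_le_exp (-(1 / 2 : ℝ))
        linarith
      calc ((1 : ℝ) / 2) ^ r ≤ Real.exp (-(1 / 2)) ^ r :=
            pow_le_pow_left₀ (by norm_num) e7 r
        _ = Real.exp (-((r : ℝ) / 2)) := by
            rw [← Real.exp_nat_mul]
            congr 1
            ring
    refine (pow_le_pow_left' e1 r).trans ?_
    rw [← ENNReal.ofReal_pow (Real.exp_pos _).le, ← Real.exp_nat_mul]
    apply ENNReal.ofReal_le_ofReal
    apply Real.exp_le_exp.2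
    have e8 : (ρ * n / 2) ^ 2 ≤ (r : ℝ) ^ 2 := pow_le_pow_left₀ (by positivity) hr3 2
    have e9 : 8 * M * n ≤ ρ ^ 2 * n * n := by
      exact mul_le_mul_of_nonneg_right i2' hnpos.le
    nlinarith

end final

end Crest.Agent.R154.Init272
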