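import Crest.Agent.R154.D2Asm_244
import Crest.Agent.R154.InitK_272
import Crest.Agent.R154.FinE_804

/-!
Row 154 (helper263): THE CHAIN WITH A BALL START, output `FinE804.FLe Q u` in every frame.
Objects: `D2Asm244.kT`, `aa` (helper244), `CompW.chain` (helper263, helper402),
`RatioS775.hR_of_hWS` (helper775), `Init272.init_of_tiles` (helper272),
`WindowK299.window_const` (helper299).
-/

set_option autoImplicit false
set_option linter.unusedSectionVars false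

namespace Crest.Agent.R154.ChainFL

open MeasureTheory ProbabilityTheory Set Filter Crest.ProbabilityR.RandomEnvironment
open Crest.Agent.R154 Crest.Agent.R154.Mk561 Crest.Agent.R154.Q561
open Crest.Agent.R154.RatioR872 Crest.Agent.R154.RatioR872.KerSys
open Crest.Agent.R154.Flux132 (lev)
open Crest.Agent.R154.Tile872 (rho rho_le rho_pos rho_shift measurable_rho)
open Crest.Agent.R154.WindowK299 (TileSys)
open Crest.Agent.R154.D2Asm244 (kT N_eq h_ge h_le Sh_pos aa aa_nonneg aa_mono aa_meas aa_eq)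
open scoped ENNReal Topology

variable {d : ℕ}

/-! ### the ball of level 0 -/

/-- sites of level `0` in the box of radius `r` -/
noncomputable def bl (u : Step d) (r : ℕ) : Finset (Site d) := by
  classical
  exact (Finset.Icc (fun _ => -(r : ℤ)) (fun _ => (r : ℤ))).filter fun z => lev u z = 0

lemma mem_bl {u : Step d} {r : ℕ} {z : Site d} :
    z ∈ bl u r ↔ Fin804.nrm z ≤ r ∧ lev u z = 0 := by
  classical
  unfold bl
  rw [Finset.mem_filter, Finset.mem_Icc, Fin804.nrm_le_iff (Int.natCast_nonneg r)]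
  refine and_congr_left fun _ => ?_
  constructor
  · rintro ⟨h1, h2⟩ i
    exact abs_le.2 ⟨h1 i, h2 i⟩
  · intro h
    exact ⟨fun i => (abs_le.1 (h i)).1, fun i => (abs_le.1 (h i)).2⟩

lemma zero_mem_bl (u : Step d) (r : ℕ) : (0 : Site d) ∈ bl u r := by
  rw [mem_bl]
  refine ⟨?_, Flux132.lev_zero u⟩
  rw [Fin804.nrm_le_iff (Int.natCast_nonneg r)]
  intro i
  simp

/-- uniform law on the ball -/
noncomputable def bmu (u : Step d) (r : ℕ) : Site d → ℝ≥0∞ := by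
  classical
  exact fun z => if z ∈ bl u r then ((bl u r).card : ℝ≥0∞)⁻¹ else 0

lemma bmu_apply {u : Step d} {r : ℕ} {z : Site d} (hz : z ∈ bl u r) :
    bmu u r z = ((bl u r).card : ℝ≥0∞)⁻¹ := by
  classical
  unfold bmu
  exact if_pos hz

lemma bmu_eq_zero {u : Step d} {r : ℕ} {z : Site d} (hz : z ∉ bl u r) : bmu u r z = 0 := by
  classical
  unfold bmu
  exact if_neg hz

lemma card_bl_pos (u : Step d) (r : ℕ) : 0 < (bl u r).card :=
  Finset.card_pos.2 ⟨0, zero_mem_bl u r⟩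

lemma tsum_bmu (u : Step d) (r : ℕ) : ∑' z, bmu u r z = 1 := by
  rw [tsum_eq_sum (s := bl u r) fun z hz => bmu_eq_zero hz,
    Finset.sum_congr rfl fun z hz => bmu_apply hz, Finset.sum_const, nsmul_eq_mul]
  refine ENNReal.mul_inv_cancel ?_ (ENNReal.natCast_ne_top _)
  exact_mod_cast (card_bl_pos u r).ne'

section sys

variable {Q : Measure (Environment d)} [IsProbabilityMeasure Q] {κ : ℝ} {R : ℕ}

lemma bmu_start (F : Bind263.Frame Q κ R) (u : Step d) (r : ℕ) :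
    (kT u R κ Q F.stat F.fin).Start (bmu u r) where
  one := tsum_bmu u r
  supp x hx := by
    refine bmu_eq_zero fun h => hx ?_
    change lev u x = ((0 : ℕ) : ℤ)
    exact (mem_bl.1 h).2

lemma Sh_eq (F : Bind263.Frame Q κ R) (u : Step d) {μ : Site d → ℝ≥0∞}
    (hμ : (kT u R κ Q F.stat F.fin).Start μ) (h : ℕ) (ω : Environment d) :
    (kT u R κ Q F.stat F.fin).Sh μ h ω = ∑' x, μ x * mkLaw κ ω x (ClA u R x h) := by
  unfold KerSys.Sh
  rw [tot_push]
  refine tsum_congr fun x => ?_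
  by_cases hx : x ∈ (kT u R κ Q F.stat F.fin).L 0
  · have hx' : lev u x = ((0 : ℕ) : ℤ) := hx
    rw [N_eq F u h ω hx']
  · rw [hμ.supp x hx, zero_mul, zero_mul]

/-- the marked natural climb is a climb, any starting point of level `0` -/
lemma ClA_subset (u : Step d) (R h : ℕ) {x : Site d} (hx : lev u x = 0) :
    ClA u R x (h : ℤ) ⊆ mpath x ⁻¹' Fin804.Climb u h := by
  intro M hM
  obtain ⟨m, hm⟩ := mem_iUnion.1 hM
  obtain ⟨a1, a2, a3, a4⟩ := hm
  have hz : mpath x M 0 = x := pos_zero _ _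
  refine ⟨m, ?_, fun k hk => ?_⟩
  · rw [hz]
    change lev u x + (h : ℤ) ≤ lev u (pos x M m)
    rw [a1, hx, zero_add]
  · rw [hz]
    change lev u x ≤ lev u (pos x M k)
    by_cases hkR : R ≤ k
    · have := a4 k hkR hk
      omega
    · have hup : ∀ j, j ≤ k → lev u (pos x M j) = lev u x + j := by
        intro j
        induction j with
        | zero => intro _; simp [pos_zero]
        | succ j ih =>
          intro hj
          have e1 := ih (by omega)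
          have e2 : M j = (u, true) := a3 j (by omega) (by omega)
          rw [pos_succ, Flux132.lev_add, e1, e2]
          have : lev u (stp ((u, true) : Mark d)) = 1 := Flux132.lev_step_self u
          rw [this]
          push_cast
          ring
      rw [hup k le_rfl]
      omega

lemma mk_le_climb (F : Bind263.Frame Q κ R) (u : Step d) :
    ∀ᵐ ω ∂Q, ∀ x : Site d, lev u x = 0 → ∀ h : ℕ,
      mkLaw κ ω x (ClA u R x (h : ℤ)) ≤ quenchedLaw ω x (Fin804.Climb u h) := by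
  filter_upwards [F.ell] with ω hω x hx h
  rw [← mk_projection_of_le hω x, Measure.map_apply (measurable_mpath x)
    (Fin804.measurableSet_climb u h)]
  exact measure_mono (ClA_subset u R h hx)

/-- literal input (W): the same constants for all start laws -/
def HW (A : KerSys (Site d) Q) : Prop :=
  ∀ lam ε' : ℝ, 0 < lam → 0 < ε' → ∃ u0 c : ℝ, 0 < c ∧ ∃ w : ℕ → ℝ, (∀ i, 0 ≤ w i) ∧
    (∀ J : ℕ, ∑ i ∈ Finset.range J, w i ≤ ε' * J + u0) ∧
    ∀ μ, A.Start μ → (∀ h, ∀ᵐ ω ∂Q, A.Sh μ h ω ≠ 0) → CompW.WH Q A.F10 (aa A μ) lam u0 c w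

/-- literal input (init): ball start -/
def HI (A : KerSys (Site d) Q) (u : Step d) : Prop :=
  ∀ η b δ' M : ℝ, 0 < η → 0 < b → 0 < δ' → 0 < M → ∃ n1 : ℕ, ∀ n : ℕ, n1 ≤ n → ∀ J : ℕ,
    (10 : ℝ) ^ J ≤ b * n →
    Q {ω | δ' * n ≤ aa A (bmu u ⌊η * n⌋₊) J ω} ≤ ENNReal.ofReal (Real.exp (-(M * n)))

/-- **the chain, ball start** -/
theorem chain_ball (F : Bind263.Frame Q κ R) (u : Step d)
    (hA : annealedProb Q 0 (escapeEvent (B2d.dirVec u)) ≠ 0)
    (hW : HW (kT u R κ Q F.stat F.fin)) (hI : HI (kT u R κ Q F.stat F.fin) u)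
    {η δ M : ℝ} (hη : 0 < η) (hδ : 0 < δ) (hM : 0 < M) :
    ∃ C : ℝ, ∀ n : ℕ, Q {ω | δ * n ≤ aa (kT u R κ Q F.stat F.fin) (bmu u ⌊η * n⌋₊) n ω}
      ≤ ENNReal.ofReal (C * Real.exp (-(M * n))) := by
  set A := kT u R κ Q F.stat F.fin with hAdef
  have hst : ∀ n : ℕ, A.Start (bmu u ⌊η * n⌋₊) := fun n => bmu_start F u _
  have hpos := Sh_pos F u hA
  have hae : ∀ n i, ∀ᵐ ω ∂Q, aa A (bmu u ⌊η * (n : ℕ)⌋₊) i ω
      = - Real.log (A.Sh (bmu u ⌊η * n⌋₊) (10 ^ i) ω).toReal :=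
    fun n i => aa_eq (hst n) (hpos _ (hst n)) i
  have hW' : ∀ lam ε' : ℝ, 0 < lam → 0 < ε' → ∃ u0 c : ℝ, 0 < c ∧ ∃ w : ℕ → ℝ,
      (∀ i, 0 ≤ w i) ∧ (∀ J : ℕ, ∑ i ∈ Finset.range J, w i ≤ ε' * J + u0) ∧
      ∀ n : ℕ, CompW.WH Q A.F10 (aa A (bmu u ⌊η * n⌋₊)) lam u0 c w := by
    intro lam ε' hlam hε'
    obtain ⟨u0, c, hc, w, hw0, hwS, h⟩ := hW lam ε' hlam hε'
    exact ⟨u0, c, hc, w, hw0, hwS, fun n => h _ (hst n) (hpos _ (hst n))⟩
  have hp0 : ∫⁻ ω, rho u R κ ω 0 ∂Q ≠ 0 := by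
    rw [Ne, lintegral_eq_zero_iff (measurable_rho u R κ 0)]
    intro h0
    obtain ⟨ω, h1, h2⟩ := ((rho_pos F u hA).and h0).exists
    exact h1 h2
  have hR := RatioS775.hR_of_hWS A hp0 (h_ge F u) (h_le F u) hpos
    (fun n : ℕ => bmu u ⌊η * n⌋₊) hst (fun n : ℕ => aa A (bmu u ⌊η * n⌋₊)) hae hW'
  exact CompW.chain Q A.F10 (fun n : ℕ => aa A (bmu u ⌊η * n⌋₊)) (fun n => aa_meas (hst n))
    (fun n => aa_nonneg (hst n)) (fun _ => aa_mono) hW' hR
    (fun b δ' M' hb hδ' hM' => hI η b δ' M' hη hb hδ' hM') hδ hM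

/-- **FLe from (W) and (init)**, every frame. -/
theorem fle_of (F : Bind263.Frame Q κ R) (u : Step d)
    (hA : annealedProb Q 0 (escapeEvent (B2d.dirVec u)) ≠ 0)
    (hW : HW (kT u R κ Q F.stat F.fin)) (hI : HI (kT u R κ Q F.stat F.fin) u) :
    FinE804.FLe Q u := by
  intro δ M η hδ hM hη
  obtain ⟨C, hC⟩ := chain_ball F u hA hW hI hη hδ hM
  refine ⟨C, fun i => le_trans (measure_mono_ae ?_) (hC i)⟩
  set A := kT u R κ Q F.stat F.fin with hAdef
  have hst : A.Start (bmu u ⌊η * i⌋₊) := bmu_start F u _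
  have hpos := Sh_pos F u hA
  filter_upwards [mk_le_climb F u, aa_eq hst (hpos _ hst) i, hpos _ hst (10 ^ i)] with ω h1 h2 h3
  intro hω
  have hω' : ∀ z : Site d, lev u z = 0 → (Fin804.nrm z : ℝ) ≤ η * i →
    quenchedLaw ω z (Fin804.Climb u (10 ^ i)) < ENNReal.ofReal (Real.exp (-(δ * i))) := hω
  change δ * i ≤ aa A (bmu u ⌊η * i⌋₊) i ω
  rw [h2]
  have e1 : A.Sh (bmu u ⌊η * i⌋₊) (10 ^ i) ω ≤ ENNReal.ofReal (Real.exp (-(δ * i))) := by
    rw [Sh_eq F u hst]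
    calc ∑' x, bmu u ⌊η * i⌋₊ x * mkLaw κ ω x (ClA u R x ((10 ^ i : ℕ) : ℤ))
        ≤ ∑' x, bmu u ⌊η * i⌋₊ x * ENNReal.ofReal (Real.exp (-(δ * i))) := by
          refine ENNReal.tsum_le_tsum fun x => ?_
          by_cases hx : x ∈ bl u ⌊η * i⌋₊
          · obtain ⟨g1, g2⟩ := mem_bl.1 hx
            refine mul_le_mul_right ?_ _
            refine (h1 x g2 (10 ^ i)).trans (hω' x g2 ?_).le
            have g3 : (Fin804.nrm x : ℝ) ≤ (⌊η * i⌋₊ : ℝ) := by exact_mod_cast g1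
            exact g3.trans (Nat.floor_le (by positivity))
          · rw [bmu_eq_zero hx, zero_mul, zero_mul]
      _ = ENNReal.ofReal (Real.exp (-(δ * i))) := by
          rw [ENNReal.tsum_mul_right, tsum_bmu, one_mul]
  have t1 : A.Sh (bmu u ⌊η * i⌋₊) (10 ^ i) ω ≠ ∞ := ne_top_of_le_ne_top ENNReal.ofReal_ne_top e1
  have e3 := ENNReal.toReal_pos h3 t1
  have e4 : (A.Sh (bmu u ⌊η * i⌋₊) (10 ^ i) ω).toReal ≤ Real.exp (-(δ * i)) := by
    have := ENNReal.toReal_mono ENNReal.ofReal_ne_top e1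
    rwa [ENNReal.toReal_ofReal (Real.exp_pos _).le] at this
  have e5 := (Real.log_le_iff_le_exp e3).2 e4
  linarith

/-! ### binding of the two inputs -/

/-- (W) from tile systems of constant cost at all large dyadic heights (299) -/
theorem hW_of_tiles (F : Bind263.Frame Q κ R) (u : Step d)
    (hT : ∀ Λ : ℝ, ∃ (m m1 : ℝ) (n0 : ℕ), 1 ≤ m ∧ ∀ n, n0 ≤ n →
      TileSys (kT u R κ Q F.stat F.fin) (2 ^ n) (ENNReal.ofReal (Real.exp (-m1)))
        (ENNReal.ofReal (Real.exp (-m))) (ENNReal.ofReal (Real.exp (-(Λ * m))))) :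
    HW (kT u R κ Q F.stat F.fin) := by
  intro lam ε' hlam hε'
  obtain ⟨u0, c, hc, hu0, h⟩ := WindowK299.window_const hT lam hlam
  refine ⟨u0, c, hc, fun _ => 0, fun _ => le_rfl, fun J => ?_, fun μ hμ hpos => ?_⟩
  · simp only [Finset.sum_const_zero]
    have : (0 : ℝ) ≤ J := Nat.cast_nonneg J
    nlinarith
  · intro i v hv hvc B hB
    simp only [add_zero] at hvc ⊢
    exact h μ hμ hpos (aa (kT u R κ Q F.stat F.fin) μ) (aa_eq hμ hpos) i v hv hvc B hB

/-- (init) from 272's `InitTiles` for the ball laws -/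
theorem hI_of_tiles (F : Bind263.Frame Q κ R) (u : Step d)
    (hA : annealedProb Q 0 (escapeEvent (B2d.dirVec u)) ≠ 0)
    (hT : ∀ η b δ' : ℝ, 0 < η → 0 < b → 0 < δ' →
      Init272.InitTiles (kT u R κ Q F.stat F.fin) (fun n : ℕ => bmu u ⌊η * n⌋₊) b δ') :
    HI (kT u R κ Q F.stat F.fin) u := by
  intro η b δ' M hη hb hδ hM
  have hst : ∀ n : ℕ, (kT u R κ Q F.stat F.fin).Start (bmu u ⌊η * n⌋₊) := fun n => bmu_start F u _
  exact Init272.init_of_tiles (kT u R κ Q F.stat F.fin) (fun n : ℕ => bmu u ⌊η * n⌋₊) hst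
    (fun n : ℕ => aa (kT u R κ Q F.stat F.fin) (bmu u ⌊η * n⌋₊))
    (fun n i => aa_eq (hst n) (Sh_pos F u hA _ (hst n)) i)
    (fun b δ' hb hδ => hT η b δ' hη hb hδ) b δ' M hb hδ hM

end sys

end Crest.Agent.R154.ChainFL
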