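import Crest.Agent.R154.RatioS_775

/-! Row 154, TILE_RUN (helper998's plan #33522), step (F) = FREE RANGE (helper12): for ANY start law,
ANY heights `a ≤ b`, the walk which is at distance `n` from its past loses a fraction of its mass
larger than `1 - p/4` between `a` and `b` only with conditional probability `≤ n ^ (-c')`.
Proof = helper775's `coreS` at arbitrary levels; only input besides the kernel system: a polynomial
rate `(H)` of convergence of the annealed climb probabilities `h n`. -/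

set_option autoImplicit false
set_option linter.unusedSectionVars false
set_option linter.deprecated false
set_option linter.unusedVariables false

namespace Crest.Agent.R154.Free12

open MeasureTheory ProbabilityTheory Set Filter Finset
open Crest.Agent.R154.RatioR872 Crest.Agent.R154.RatioR872.KerSys Crest.Agent.R154.RatioS775
open scoped ENNReal Topology

variable {S : Type*} [Countable S] {Ω : Type*} {m0 : MeasurableSpace Ω} {P : Measure Ω}

/-- **(F), finite form**: `T` attempts with steps `s` between the levels `a0` and `a`. -/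
theorem free_core [IsProbabilityMeasure P] (A : KerSys S P) {p : ℝ≥0∞} (hp0 : p ≠ 0)
    (hp : ∀ n, p ≤ A.h n) (hh : ∀ n, A.h n ≤ 1)
    (hpos : ∀ μ, A.Start μ → ∀ h, ∀ᵐ ω ∂P, A.Sh μ h ω ≠ 0)
    {ε : ℝ≥0∞} {T s a0 a b : ℕ} (hconv : ∀ m, s ≤ m → m ≤ b - a0 → A.h s ≤ A.h m + ε)
    (h0 : a0 + T * s ≤ a) (hab : a ≤ b)
    {μ : S → ℝ≥0∞} (hμ : A.Start μ) {B : Set Ω} (hB : MeasurableSet[A.F a0] B) :
    P (B ∩ {ω | A.Sh μ b ω < p / 4 * A.Sh μ a ω})
      ≤ ((1 - p / 2) ^ T + T * (4 * ε / p)) * P B := by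
  have hpt : p ≠ ∞ := ne_top_of_le_ne_top ENNReal.one_ne_top ((hp 0).trans (hh 0))
  set lv : ℕ → ℕ := fun j => a0 + j * s with hlv
  have hlvm : Monotone lv := fun i j hij => by
    simp only [hlv]
    exact Nat.add_le_add_left (Nat.mul_le_mul_right _ hij) _
  have hlv0 : lv 0 = a0 := by simp [hlv]
  have hlvs : ∀ j, lv (j + 1) = lv j + s := fun j => by simp only [hlv]; ring
  have hlvT : ∀ j, j ≤ T → lv j ≤ a := by
    intro j hj
    simp only [hlv]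
    have : j * s ≤ T * s := Nat.mul_le_mul_right _ hj
    omega
  set w : ℕ → Ω → S → ℝ≥0∞ := fun j => A.exitW μ (lv j) with hw
  set E : ℕ → Set Ω := fun j => {ω | p / 2 ≤ tot (A.push (lv j) (lv (j + 1)) (w j)) ω} with hE
  set Bd : ℕ → Set Ω := fun j => {ω | p / 2 ≤ tot (A.push (lv j) (lv (j + 1)) (w j)) ω ∧
    tot (A.push (lv j) b (w j)) ω < p / 4} with hBd
  have hw1 : ∀ j, ∀ᵐ ω ∂P, tot (w j) ω = 1 := by
    intro j
    filter_upwards [hpos μ hμ (lv j)] with ω hω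
    exact tot_exitW_eq hμ _ ω hω
  have hwW : ∀ j, A.Wt (lv j) (w j) := fun j => wt_exitW hμ _
  have hwl : ∀ j ω, tot (w j) ω ≤ 1 := fun j ω => tot_exitW_le μ _ ω
  have hEm : ∀ j, MeasurableSet[A.F (lv (j + 1))] (E j) := by
    intro j
    have hm := ((hwW j).push (hlvm (Nat.le_succ j))).meas_tot
    exact @measurableSet_le _ _ _ _ _ (A.F (lv (j + 1))) _ _ _ _ _
      (@measurable_const _ _ _ (A.F (lv (j + 1))) _) hm
  have h1 := (all_fail (P := P) A.F lv hlvm E hEm (q := p / 2) T (fun j _ B hB =>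
    good_prob (hlvm (Nat.le_succ j)) (hwW j) (hw1 j) (hp _) (hwl j) hB)
    (B := B) (by rw [hlv0]; exact hB) T le_rfl).2
  have h2 : ∀ j, j < T → P (B ∩ Bd j) ≤ 4 * ε / p * P B := by
    intro j hj
    have hjc : lv (j + 1) ≤ b := (hlvT (j + 1) hj).trans hab
    refine bad_first A (hlvm (Nat.le_succ j)) hjc (hwW j) (hwl j) hh hp0 hpt
      ?_ (A.F.mono (by simp [hlv]) _ hB)
    have e1 : lv (j + 1) - lv j = s := by rw [hlvs]; omega
    rw [e1]
    have h3 := hlvs j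
    have h4 : a0 ≤ lv j := by simp [hlv]
    exact hconv _ (by omega) (by omega)
  have hsub : (B ∩ {ω | A.Sh μ b ω < p / 4 * A.Sh μ a ω} : Set Ω)
      ≤ᵐ[P] ((B ∩ ⋂ l ∈ Finset.range T, (E l)ᶜ) ∪ ⋃ j ∈ Finset.range T, (B ∩ Bd j) : Set Ω) := by
    have hall : ∀ᵐ ω ∂P, ∀ j ∈ Finset.range T, A.Sh μ (lv j) ω *
        tot (A.push (lv j) b (A.exitW μ (lv j))) ω ≤ A.Sh μ b ω := by
      rw [Finset.eventually_all]
      intro j hj
      exact Sh_ge1 A hμ ((hlvT j (Finset.mem_range.1 hj).le).trans hab)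
    filter_upwards [hall] with ω hω
    rintro ⟨hωB, hωS⟩
    by_contra hcon
    have hcon' : ¬ ((ω ∈ B ∩ ⋂ l ∈ Finset.range T, (E l)ᶜ) ∨
        (ω ∈ ⋃ j ∈ Finset.range T, (B ∩ Bd j))) := hcon
    rw [not_or] at hcon'
    obtain ⟨hc1, hc2⟩ := hcon'
    have hc3 : ∃ l ∈ Finset.range T, ω ∈ E l := by
      by_contra h
      refine hc1 ⟨hωB, ?_⟩
      simp only [mem_iInter, mem_compl_iff]
      intro l hl hE'
      exact h ⟨l, hl, hE'⟩
    obtain ⟨l, hl, hEl⟩ := hc3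
    have hBl : ω ∉ Bd l := fun h => hc2 (mem_biUnion (by exact_mod_cast hl) ⟨hωB, h⟩)
    have hm : p / 4 ≤ tot (A.push (lv l) b (w l)) ω := by
      by_contra h
      exact hBl ⟨hEl, not_le.1 h⟩
    have h5 := hω l hl
    have h6 : A.Sh μ a ω ≤ A.Sh μ (lv l) ω :=
      Sh_anti (hlvT l (Finset.mem_range.1 hl).le) ω
    have h7 : p / 4 * A.Sh μ a ω ≤ A.Sh μ b ω := by
      calc p / 4 * A.Sh μ a ω ≤
            tot (A.push (lv l) b (w l)) ω * A.Sh μ (lv l) ω := by gcongr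
        _ = A.Sh μ (lv l) ω * tot (A.push (lv l) b (w l)) ω := mul_comm _ _
        _ ≤ _ := h5
    exact absurd hωS (not_lt.2 h7)
  calc P (B ∩ {ω | A.Sh μ b ω < p / 4 * A.Sh μ a ω})
      ≤ P ((B ∩ ⋂ l ∈ Finset.range T, (E l)ᶜ) ∪ ⋃ j ∈ Finset.range T, (B ∩ Bd j)) :=
        measure_mono_ae hsub
    _ ≤ P (B ∩ ⋂ l ∈ Finset.range T, (E l)ᶜ) + P (⋃ j ∈ Finset.range T, (B ∩ Bd j)) :=
        measure_union_le _ _
    _ ≤ (1 - p / 2) ^ T * P B + ∑ j ∈ Finset.range T, P (B ∩ Bd j) := by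
        gcongr
        exact measure_biUnion_finset_le _ _
    _ ≤ (1 - p / 2) ^ T * P B + ∑ j ∈ Finset.range T, (4 * ε / p * P B) := by
        gcongr with j hj
        exact h2 j (Finset.mem_range.1 hj)
    _ = _ := by
        rw [Finset.sum_const, Finset.card_range, nsmul_eq_mul]
        ring

/-- real numbers: the two error terms are `≤ n ^ (-c')` -/
lemma numeric {ρ C c : ℝ} (hρ0 : 0 < ρ) (hρ1 : ρ < 1) (hC : 0 ≤ C) (hc : 0 < c) :
    ∃ c' : ℝ, 0 < c' ∧ ∃ n0 : ℕ, 16 ≤ n0 ∧ ∀ n : ℕ, n0 ≤ n →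
      ρ ^ (Nat.log 2 n) + (Nat.log 2 n) * (C * ((n / Nat.log 2 n : ℕ) : ℝ) ^ (-c)) ≤
        (n : ℝ) ^ (-c') := by
  set c1 : ℝ := - Real.log ρ with hc1
  have hc1p : 0 < c1 := by rw [hc1]; exact neg_pos.2 (Real.log_neg hρ0 hρ1)
  set c' : ℝ := min c1 (c / 4) / 2 with hc'
  have hc'p : 0 < c' := by rw [hc']; positivity
  have hc'1 : 2 * c' ≤ c1 := by
    have : min c1 (c / 4) ≤ c1 := min_le_left _ _
    rw [hc']; linarith
  have hc'2 : 8 * c' ≤ c := by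
    have : min c1 (c / 4) ≤ c / 4 := min_le_right _ _
    rw [hc']; linarith
  -- asymptotic facts
  have hA : ∀ᶠ n : ℕ in atTop, ρ⁻¹ * (n : ℝ) ^ (-(2 * c')) ≤ (n : ℝ) ^ (-c') / 2 := by
    have h1 : Tendsto (fun n : ℕ => (n : ℝ) ^ (-c')) atTop (𝓝 0) :=
      (tendsto_rpow_neg_atTop hc'p).comp tendsto_natCast_atTop_atTop
    have h2 := h1.eventually_le_const (u := ρ / 2) (by positivity)
    filter_upwards [h2, eventually_gt_atTop 0] with n hn hn0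
    have hn0' : (0 : ℝ) < n := by exact_mod_cast hn0
    have e : (n : ℝ) ^ (-(2 * c')) = (n : ℝ) ^ (-c') * (n : ℝ) ^ (-c') := by
      rw [← Real.rpow_add hn0']; congr 1; ring
    rw [e]
    have h3 : 0 ≤ (n : ℝ) ^ (-c') := by positivity
    calc ρ⁻¹ * ((n : ℝ) ^ (-c') * (n : ℝ) ^ (-c')) ≤ ρ⁻¹ * (ρ / 2 * (n : ℝ) ^ (-c')) := by
          gcongr
      _ = _ := by field_simp
  have hB : ∀ᶠ n : ℕ in atTop, 2 * Real.log n * (C * 2 ^ c) * (n : ℝ) ^ (-(c / 2)) ≤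
      (n : ℝ) ^ (-c') / 2 := by
    have h1 : Tendsto (fun x : ℝ => Real.log x / x ^ c') atTop (𝓝 0) :=
      (isLittleO_log_rpow_atTop hc'p).tendsto_div_nhds_zero
    have h1' : Tendsto (fun n : ℕ => Real.log n / (n : ℝ) ^ c') atTop (𝓝 0) :=
      h1.comp tendsto_natCast_atTop_atTop
    have h2 := h1'.eventually_le_const (u := 1 / (4 * (C * 2 ^ c + 1))) (by positivity)
    filter_upwards [h2, eventually_ge_atTop 1] with n hn hn0
    have hn0' : (1 : ℝ) ≤ n := by exact_mod_cast hn0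
    have hnp : (0 : ℝ) < n := by linarith
    have hlog : 0 ≤ Real.log n := Real.log_nonneg hn0'
    have e1 : (n : ℝ) ^ (-(c / 2)) ≤ (n : ℝ) ^ (-(2 * c')) :=
      Real.rpow_le_rpow_of_exponent_le hn0' (by linarith)
    have e : (n : ℝ) ^ (-(2 * c')) = (n : ℝ) ^ (-c') * (n : ℝ) ^ (-c') := by
      rw [← Real.rpow_add hnp]; congr 1; ring
    have h3 : 0 ≤ (n : ℝ) ^ (-c') := by positivity
    have e2 : Real.log n * (n : ℝ) ^ (-c') ≤ 1 / (4 * (C * 2 ^ c + 1)) := by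
      rw [Real.rpow_neg hnp.le, ← div_eq_mul_inv]; exact hn
    have h2c : (0 : ℝ) ≤ C * 2 ^ c := by positivity
    calc 2 * Real.log n * (C * 2 ^ c) * (n : ℝ) ^ (-(c / 2))
        ≤ 2 * Real.log n * (C * 2 ^ c) * ((n : ℝ) ^ (-c') * (n : ℝ) ^ (-c')) := by
          rw [← e]; gcongr
      _ = 2 * (C * 2 ^ c) * (Real.log n * (n : ℝ) ^ (-c')) * (n : ℝ) ^ (-c') := by ring
      _ ≤ 2 * (C * 2 ^ c) * (1 / (4 * (C * 2 ^ c + 1))) * (n : ℝ) ^ (-c') := by gcongr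
      _ ≤ (1 / 2) * (n : ℝ) ^ (-c') := by
          gcongr
          rw [mul_one_div, div_le_div_iff₀ (by positivity) (by norm_num)]
          nlinarith
      _ = _ := by ring
  have hS : ∀ᶠ n : ℕ in atTop, 2 * Real.log n ≤ (n : ℝ) ^ (1 / 2 : ℝ) := by
    have h1 : Tendsto (fun x : ℝ => Real.log x / x ^ (1 / 2 : ℝ)) atTop (𝓝 0) :=
      (isLittleO_log_rpow_atTop (by norm_num)).tendsto_div_nhds_zero
    have h2 := (h1.comp tendsto_natCast_atTop_atTop).eventually_le_const (u := 1 / 2) (by norm_num)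
    filter_upwards [h2, eventually_gt_atTop 0] with n hn hn0
    have hn0' : (0 : ℝ) < n := by exact_mod_cast hn0
    have h3 : Real.log n / (n : ℝ) ^ (1 / 2 : ℝ) ≤ 1 / 2 := hn
    rw [div_le_iff₀ (by positivity)] at h3
    linarith
  obtain ⟨n0, hn0⟩ := ((hA.and hB).and hS).exists_forall_of_atTop
  refine ⟨c', hc'p, max 16 n0, le_max_left _ _, fun n hn => ?_⟩
  obtain ⟨⟨h1, h2⟩, h3⟩ := hn0 n ((le_max_right _ _).trans hn)
  have hn16 : 16 ≤ n := (le_max_left _ _).trans hn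
  have hnp : (0 : ℝ) < n := by exact_mod_cast (by omega : 0 < n)
  have hn1 : (1 : ℝ) ≤ n := by exact_mod_cast (by omega : 1 ≤ n)
  set T := Nat.log 2 n with hT
  have hT4 : 4 ≤ T := by
    rw [hT]
    calc 4 = Nat.log 2 16 := by norm_num
      _ ≤ Nat.log 2 n := Nat.log_mono_right hn16
  have hTp : (0 : ℝ) < T := by exact_mod_cast (by omega : 0 < T)
  have hlog2 : (0.5 : ℝ) ≤ Real.log 2 := by
    have := Real.log_two_gt_d9; linarith
  have hlog2' : Real.log 2 ≤ 1 := by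
    have := Real.log_two_lt_d9; linarith
  have hT1 : (T : ℝ) * Real.log 2 ≤ Real.log n := by
    have h4 : 2 ^ T ≤ n := Nat.pow_log_le_self 2 (by omega)
    have h5 : ((2 : ℝ)) ^ T ≤ n := by exact_mod_cast h4
    have h6 := Real.log_le_log (by positivity) h5
    rwa [Real.log_pow] at h6
  have hT2 : Real.log n ≤ (T + 1) * Real.log 2 := by
    have h4 : n < 2 ^ (T + 1) := Nat.lt_pow_succ_log_self (by norm_num) n
    have h5 : (n : ℝ) ≤ 2 ^ (T + 1) := by exact_mod_cast h4.le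
    have h6 := Real.log_le_log hnp h5
    rw [Real.log_pow] at h6
    push_cast at h6
    exact h6
  have hTlog : (T : ℝ) ≤ 2 * Real.log n := by nlinarith
  have hT3 : Real.log n - 1 ≤ T := by nlinarith
  -- first term
  have g1 : ρ ^ T ≤ (n : ℝ) ^ (-c') / 2 := by
    refine le_trans ?_ h1
    have e1 : ρ ^ T = Real.exp (-(c1 * T)) := by
      rw [← Real.rpow_natCast, Real.rpow_def_of_pos hρ0, hc1]; congr 1; ring
    have e2 : ρ⁻¹ = Real.exp c1 := by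
      rw [hc1, Real.exp_neg, Real.exp_log hρ0]
    have e3 : (n : ℝ) ^ (-(2 * c')) = Real.exp (-(2 * c') * Real.log n) := by
      rw [Real.rpow_def_of_pos hnp, mul_comm]
    rw [e1, e2, e3, ← Real.exp_add, Real.exp_le_exp]
    have hln : 0 ≤ Real.log n := Real.log_nonneg hn1
    nlinarith
  -- second term
  have hs : ((n : ℝ) ^ (1 / 2 : ℝ)) / 2 ≤ ((n / T : ℕ) : ℝ) := by
    have h4 : (n : ℝ) / T - 1 ≤ ((n / T : ℕ) : ℝ) := by
      have h5 : n < (n / T + 1) * T := by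
        rw [mul_comm]; exact Nat.lt_mul_div_succ n (by omega)
      have h6 : (n : ℝ) ≤ ((n / T : ℕ) + 1) * T := by exact_mod_cast h5.le
      rw [sub_le_iff_le_add, div_le_iff₀ hTp]
      exact h6
    have h5 : (n : ℝ) ^ (1 / 2 : ℝ) ≤ (n : ℝ) / T := by
      rw [le_div_iff₀ hTp]
      calc (n : ℝ) ^ (1 / 2 : ℝ) * T ≤ (n : ℝ) ^ (1 / 2 : ℝ) * (n : ℝ) ^ (1 / 2 : ℝ) := by
            gcongr; exact hTlog.trans h3
        _ = n := by
            rw [← Real.rpow_add hnp]; norm_num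
    have h6 : (2 : ℝ) ≤ (n : ℝ) ^ (1 / 2 : ℝ) := by
      have h7 : (16 : ℝ) ≤ n := by exact_mod_cast hn16
      calc (2 : ℝ) ≤ (16 : ℝ) ^ (1 / 2 : ℝ) := by
            rw [show (16 : ℝ) = 4 ^ (2 : ℝ) by norm_num, ← Real.rpow_mul (by norm_num)]
            norm_num
        _ ≤ _ := by gcongr
    linarith
  have g2 : (T : ℝ) * (C * ((n / T : ℕ) : ℝ) ^ (-c)) ≤ (n : ℝ) ^ (-c') / 2 := by
    refine le_trans ?_ h2
    have hsp : (0 : ℝ) < (n : ℝ) ^ (1 / 2 : ℝ) / 2 := by positivity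
    have e1 : ((n / T : ℕ) : ℝ) ^ (-c) ≤ ((n : ℝ) ^ (1 / 2 : ℝ) / 2) ^ (-c) :=
      Real.rpow_le_rpow_of_nonpos hsp hs (by linarith)
    have e2 : ((n : ℝ) ^ (1 / 2 : ℝ) / 2) ^ (-c) = 2 ^ c * (n : ℝ) ^ (-(c / 2)) := by
      rw [Real.div_rpow (by positivity) (by norm_num), ← Real.rpow_mul hnp.le,
        Real.rpow_neg (by norm_num : (0 : ℝ) ≤ 2), div_inv_eq_mul, mul_comm]
      congr 2; ring
    calc (T : ℝ) * (C * ((n / T : ℕ) : ℝ) ^ (-c))
        ≤ (2 * Real.log n) * (C * (2 ^ c * (n : ℝ) ^ (-(c / 2)))) := by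
          rw [← e2]
          gcongr
      _ = _ := by ring
  linarith

/-- **(F) FREE RANGE**: at distance `n` from the past, the relative loss of mass between ANY heights
`a ≤ b` exceeds the factor `p / 4` only with conditional probability `n ^ (-c')`. -/
theorem free_range [IsProbabilityMeasure P] (A : KerSys S P) {p : ℝ≥0∞} (hp0 : p ≠ 0)
    (hp : ∀ n, p ≤ A.h n) (hh : ∀ n, A.h n ≤ 1)
    (hpos : ∀ μ, A.Start μ → ∀ h, ∀ᵐ ω ∂P, A.Sh μ h ω ≠ 0)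
    {C c : ℝ} (hC : 0 ≤ C) (hc : 0 < c)
    (hH : ∀ n m : ℕ, 1 ≤ n → n ≤ m → A.h n ≤ A.h m + ENNReal.ofReal (C * (n : ℝ) ^ (-c))) :
    ∃ c' : ℝ, 0 < c' ∧ ∃ n0 : ℕ, ∀ n : ℕ, n0 ≤ n → ∀ a0 a b : ℕ, a0 + n ≤ a → a ≤ b →
      ∀ μ : S → ℝ≥0∞, A.Start μ → ∀ B, MeasurableSet[A.F a0] B →
        P (B ∩ {ω | A.Sh μ b ω < p / 4 * A.Sh μ a ω}) ≤
          ENNReal.ofReal ((n : ℝ) ^ (-c')) * P B := by
  have hp1 : p ≤ 1 := (hp 0).trans (hh 0)
  have hpt : p ≠ ∞ := ne_top_of_le_ne_top ENNReal.one_ne_top hp1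
  have hpr : 0 < p.toReal := ENNReal.toReal_pos hp0 hpt
  have hpr1 : p.toReal ≤ 1 := ENNReal.toReal_le_of_le_ofReal zero_le_one (by simpa using hp1)
  obtain ⟨c', hc', n0, hn16, hn0⟩ := numeric (ρ := 1 - p.toReal / 2) (C := 4 * C / p.toReal)
    (c := c) (by linarith) (by linarith) (by positivity) hc
  refine ⟨c', hc', n0, fun n hn a0 a b ha hab μ hμ B hB => ?_⟩
  set T := Nat.log 2 n with hT
  have hTs : T * (n / T) ≤ n := Nat.mul_div_le n T
  have hn' : 16 ≤ n := hn16.trans hn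
  have hTpos : 0 < T := Nat.log_pos (by norm_num) (by omega)
  have hTn : T ≤ n := Nat.log_le_self 2 n
  have hs1 : 1 ≤ n / T := (Nat.le_div_iff_mul_le hTpos).2 (by simpa using hTn)
  have key := free_core A hp0 hp hh hpos
    (ε := ENNReal.ofReal (C * ((n / T : ℕ) : ℝ) ^ (-c))) (T := T) (s := n / T) (a0 := a0) (a := a)
    (b := b) (fun m hm _ => hH _ m hs1 hm) (by omega) hab hμ hB
  refine key.trans ?_
  gcongr
  have hs0 : (0 : ℝ) ≤ C * ((n / T : ℕ) : ℝ) ^ (-c) := by positivity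
  have e1 : (1 - p / 2 : ℝ≥0∞) = ENNReal.ofReal (1 - p.toReal / 2) := by
    rw [ENNReal.ofReal_sub _ (by positivity), ENNReal.ofReal_one,
      ENNReal.ofReal_div_of_pos (by norm_num), ENNReal.ofReal_toReal hpt]
    norm_num
  have e2 : (T : ℝ≥0∞) * (4 * ENNReal.ofReal (C * ((n / T : ℕ) : ℝ) ^ (-c)) / p) =
      ENNReal.ofReal (T * (4 * C / p.toReal * ((n / T : ℕ) : ℝ) ^ (-c))) := by
    rw [ENNReal.ofReal_mul (p := (T : ℝ)) (by positivity), ENNReal.ofReal_natCast]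
    congr 1
    have e3 : 4 * C / p.toReal * ((n / T : ℕ) : ℝ) ^ (-c) =
        (4 * (C * ((n / T : ℕ) : ℝ) ^ (-c))) / p.toReal := by ring
    rw [e3, ENNReal.ofReal_div_of_pos hpr, ENNReal.ofReal_mul (p := (4 : ℝ)) (by norm_num),
      ENNReal.ofReal_toReal hpt]
    norm_num
  rw [e1, e2, ← ENNReal.ofReal_pow (by linarith),
    ← ENNReal.ofReal_add (pow_nonneg (by linarith) _) (by positivity)]
  exact ENNReal.ofReal_le_ofReal (hn0 n hn)

/-- real numbers, general `ε` -/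
lemma numeric_eps {ρ K : ℝ} (hρ0 : 0 < ρ) (hρ1 : ρ < 1) (hK : 0 ≤ K) :
    ∃ c' : ℝ, 0 < c' ∧ c' ≤ 1 ∧ ∃ ε0 : ℝ, 0 < ε0 ∧ ε0 ≤ 1 / 2 ∧ ∀ ε : ℝ, 0 < ε → ε ≤ ε0 →
      ρ ^ ⌈Real.log (1 / ε)⌉₊ + (⌈Real.log (1 / ε)⌉₊ : ℝ) * (K * ε) ≤ ε ^ c' := by
  set c1 : ℝ := - Real.log ρ with hc1
  have hc1p : 0 < c1 := by rw [hc1]; exact neg_pos.2 (Real.log_neg hρ0 hρ1)
  set c' : ℝ := min c1 (1 / 2) / 2 with hc'
  have hc'p : 0 < c' := by rw [hc']; positivity
  have hc'1 : 2 * c' ≤ c1 := by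
    have : min c1 (1 / 2) ≤ c1 := min_le_left _ _
    rw [hc']; linarith
  have hc'2 : 4 * c' ≤ 1 := by
    have : min c1 (1 / 2) ≤ 1 / 2 := min_le_right _ _
    rw [hc']; linarith
  -- limits
  have h1 : Tendsto (fun ε : ℝ => ε ^ c') (𝓝[>] 0) (𝓝 0) := by
    have : Tendsto (fun ε : ℝ => ε ^ c') (𝓝 0) (𝓝 ((0 : ℝ) ^ c')) :=
      (Real.continuousAt_rpow_const 0 c' (Or.inr hc'p.le)).tendsto
    rw [Real.zero_rpow hc'p.ne'] at this
    exact this.mono_left nhdsWithin_le_nhds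
  have h2 : Tendsto (fun ε : ℝ => (2 + Real.log (1 / ε)) * K * ε ^ (1 / 2 : ℝ)) (𝓝[>] 0) (𝓝 0) := by
    have h3 : Tendsto (fun ε : ℝ => Real.log ε * ε ^ (1 / 2 : ℝ)) (𝓝[>] 0) (𝓝 0) :=
      tendsto_log_mul_rpow_nhdsGT_zero (by norm_num)
    have h4 : Tendsto (fun ε : ℝ => ε ^ (1 / 2 : ℝ)) (𝓝[>] 0) (𝓝 0) := by
      have : Tendsto (fun ε : ℝ => ε ^ (1 / 2 : ℝ)) (𝓝 0) (𝓝 ((0 : ℝ) ^ (1 / 2 : ℝ))) :=
        (Real.continuousAt_rpow_const 0 _ (Or.inr (by norm_num))).tendsto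
      rw [Real.zero_rpow (by norm_num)] at this
      exact this.mono_left nhdsWithin_le_nhds
    have h5 : Tendsto (fun ε : ℝ => 2 * K * ε ^ (1 / 2 : ℝ) - K * (Real.log ε * ε ^ (1 / 2 : ℝ)))
        (𝓝[>] 0) (𝓝 (2 * K * 0 - K * 0)) := (h4.const_mul _).sub (h3.const_mul _)
    simp only [mul_zero, sub_zero] at h5
    refine h5.congr fun ε => ?_
    have e1 : Real.log (1 / ε) = - Real.log ε := by
      rw [show (1 : ℝ) / ε = ε⁻¹ from one_div ε, Real.log_inv]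
    rw [e1]; ring
  have h6 := (h1.eventually_le_const (u := 1 / 2) (by norm_num)).and
    (h2.eventually_le_const (u := 1 / 2) (by norm_num))
  obtain ⟨ε0, hε0, h7⟩ := mem_nhdsGT_iff_exists_Ioo_subset.1 h6
  have hε0' : (0 : ℝ) < ε0 := hε0
  refine ⟨c', hc'p, by linarith, min (ε0 / 2) (1 / 2), by positivity, min_le_right _ _,
    fun ε hε hεε => ?_⟩
  have hε1 : ε < ε0 := by
    have : min (ε0 / 2) (1 / 2) ≤ ε0 / 2 := min_le_left _ _
    linarith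
  have hεh : ε ≤ 1 / 2 := hεε.trans (min_le_right _ _)
  obtain ⟨h8, h9⟩ := h7 ⟨hε, hε1⟩
  have h8' : ε ^ c' ≤ 1 / 2 := h8
  have h9' : (2 + Real.log (1 / ε)) * K * ε ^ (1 / 2 : ℝ) ≤ 1 / 2 := h9
  have hL : 0 ≤ Real.log (1 / ε) := Real.log_nonneg (by rw [le_div_iff₀ hε]; linarith)
  set T := ⌈Real.log (1 / ε)⌉₊ with hT
  have hT1 : Real.log (1 / ε) ≤ T := Nat.le_ceil _
  have hT2 : (T : ℝ) ≤ 2 + Real.log (1 / ε) := by
    have := (Nat.ceil_lt_add_one hL).le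
    linarith
  have hsq : ε ^ c' * ε ^ c' = ε ^ (2 * c') := by
    rw [← Real.rpow_add hε]; congr 1; ring
  have g1 : ρ ^ T ≤ ε ^ c' / 2 := by
    have e1 : ρ ^ T = Real.exp (-(c1 * T)) := by
      rw [← Real.rpow_natCast, Real.rpow_def_of_pos hρ0, hc1]; congr 1; ring
    have e2 : ε ^ (2 * c') = Real.exp (-(2 * c' * Real.log (1 / ε))) := by
      rw [Real.rpow_def_of_pos hε, one_div, Real.log_inv]; congr 1; ring
    have h10 : ρ ^ T ≤ ε ^ (2 * c') := by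
      rw [e1, e2, Real.exp_le_exp]
      nlinarith
    refine h10.trans ?_
    rw [← hsq]
    have : 0 ≤ ε ^ c' := by positivity
    nlinarith
  have g2 : (T : ℝ) * (K * ε) ≤ ε ^ c' / 2 := by
    have e1 : ε = ε ^ (1 / 2 : ℝ) * ε ^ (1 / 2 : ℝ) := by
      rw [← Real.rpow_add hε]; norm_num
    have e2 : ε ^ (1 / 2 : ℝ) ≤ ε ^ c' :=
      Real.rpow_le_rpow_of_exponent_ge hε (by linarith) (by linarith)
    calc (T : ℝ) * (K * ε) ≤ (2 + Real.log (1 / ε)) * (K * ε) := by gcongr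
      _ = (2 + Real.log (1 / ε)) * K * ε := by ring
      _ = (2 + Real.log (1 / ε)) * K * (ε ^ (1 / 2 : ℝ) * ε ^ (1 / 2 : ℝ)) := by rw [← e1]
      _ = ((2 + Real.log (1 / ε)) * K * ε ^ (1 / 2 : ℝ)) * ε ^ (1 / 2 : ℝ) := by ring
      _ ≤ (1 / 2) * ε ^ c' := by gcongr
      _ = _ := by ring
  linarith

/-- **(F) FREE RANGE, general rate**: if the annealed climb probability varies by at most `ε` between
the heights `s` and `b - a0`, then at distance `⌈log (1/ε)⌉ s` from the past the loss of mass between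
`a ≤ b` exceeds the factor `p / 4` only with conditional probability `≤ ε ^ c'`. -/
theorem free_eps [IsProbabilityMeasure P] (A : KerSys S P) {p : ℝ≥0∞} (hp0 : p ≠ 0)
    (hp : ∀ n, p ≤ A.h n) (hh : ∀ n, A.h n ≤ 1)
    (hpos : ∀ μ, A.Start μ → ∀ h, ∀ᵐ ω ∂P, A.Sh μ h ω ≠ 0) :
    ∃ c' : ℝ, 0 < c' ∧ c' ≤ 1 ∧ ∃ ε0 : ℝ, 0 < ε0 ∧ ε0 ≤ 1 / 2 ∧ ∀ ε : ℝ, 0 < ε → ε ≤ ε0 →
      ∀ s a0 a b : ℕ, (∀ m, s ≤ m → m ≤ b - a0 → A.h s ≤ A.h m + ENNReal.ofReal ε) →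
      a0 + ⌈Real.log (1 / ε)⌉₊ * s ≤ a → a ≤ b →
      ∀ μ : S → ℝ≥0∞, A.Start μ → ∀ B, MeasurableSet[A.F a0] B →
        P (B ∩ {ω | A.Sh μ b ω < p / 4 * A.Sh μ a ω}) ≤ ENNReal.ofReal (ε ^ c') * P B := by
  have hp1 : p ≤ 1 := (hp 0).trans (hh 0)
  have hpt : p ≠ ∞ := ne_top_of_le_ne_top ENNReal.one_ne_top hp1
  have hpr : 0 < p.toReal := ENNReal.toReal_pos hp0 hpt
  have hpr1 : p.toReal ≤ 1 := ENNReal.toReal_le_of_le_ofReal zero_le_one (by simpa using hp1)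
  obtain ⟨c', hc', hc1, ε0, hε0, hε1, hn⟩ := numeric_eps (ρ := 1 - p.toReal / 2)
    (K := 4 / p.toReal) (by linarith) (by linarith) (by positivity)
  refine ⟨c', hc', hc1, ε0, hε0, hε1, fun ε hε hεε s a0 a b hconv ha hab μ hμ B hB => ?_⟩
  have key := free_core A hp0 hp hh hpos (ε := ENNReal.ofReal ε) (T := ⌈Real.log (1 / ε)⌉₊)
    (s := s) (a0 := a0) (a := a) (b := b) hconv ha hab hμ hB
  refine key.trans ?_
  gcongr
  set T := ⌈Real.log (1 / ε)⌉₊ with hT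
  have e1 : (1 - p / 2 : ℝ≥0∞) = ENNReal.ofReal (1 - p.toReal / 2) := by
    rw [ENNReal.ofReal_sub _ (by positivity), ENNReal.ofReal_one,
      ENNReal.ofReal_div_of_pos (by norm_num), ENNReal.ofReal_toReal hpt]
    norm_num
  have e2 : (T : ℝ≥0∞) * (4 * ENNReal.ofReal ε / p) =
      ENNReal.ofReal (T * (4 / p.toReal * ε)) := by
    rw [ENNReal.ofReal_mul (p := (T : ℝ)) (by positivity), ENNReal.ofReal_natCast]
    congr 1
    have e3 : 4 / p.toReal * ε = (4 * ε) / p.toReal := by ring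
    rw [e3, ENNReal.ofReal_div_of_pos hpr, ENNReal.ofReal_mul (p := (4 : ℝ)) (by norm_num),
      ENNReal.ofReal_toReal hpt]
    norm_num
  rw [e1, e2, ← ENNReal.ofReal_pow (by linarith),
    ← ENNReal.ofReal_add (pow_nonneg (by linarith) _) (by positivity)]
  exact ENNReal.ofReal_le_ofReal (hn ε hε hεε)

end Crest.Agent.R154.Free12
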