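import Crest.Agent.R154.Top2_169
import Crest.Agent.R154.Free_12

/-!
Row 154, `d ≥ 3` (helper592): THE CHAIN UP TO A FINITE HEIGHT WITH ONE FIXED RATE (leaf (4) of
helper32's induction on the height).
* `chain1`: 263's chain at one rate;
* `hR_free`: step (R) without (W), from 12's `free_core`;
* `chain_fin`, `fle_fin`: the chain for stopped processes; the constant does not depend on the
  height up to which (W) is known.
-/

set_option autoImplicit false
set_option linter.unusedSectionVars false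

namespace Crest.Agent.R154.ChainFin592

section abs

open MeasureTheory Filter Finset
open scoped ENNReal
open Crest.Agent.R154.KSet Crest.Agent.R154.CompW
open Crest.Agent.R154.Comp (meas_expmax meas_sub meas_setge expmoment_of_tail lintegral_prod_le
  tail_sum_of_overlap M1 M1_ge Mbar Mbar_ge)

variable {Ω : Type*} {m0 : MeasurableSpace Ω}

set_option maxHeartbeats 2000000 in
/-- **THE CHAIN at one rate** (263's proof with the windows at the single rate
`2 * (8 * (8 * (M + 2) / δ))`, `w = 0`). -/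
theorem chain1 (P : Measure Ω) [IsProbabilityMeasure P] (G : Filtration ℕ m0)
    (a : ℕ → ℕ → Ω → ℝ)
    (meas : ∀ n i, Measurable[G i] (a n i))
    (nonneg : ∀ n i ω, 0 ≤ a n i ω)
    (mono : ∀ n ω, Monotone fun i => a n i ω)
    {δ M u0 c : ℝ} (hδ : 0 < δ) (hM : 0 < M) (hc : 0 < c)
    (hWn : ∀ n, WH P G (a n) (2 * (8 * (8 * (M + 2) / δ))) u0 c (fun _ => 0))
    (hR : ∀ ε b : ℝ, 0 < ε → 0 < b → ∃ k0 : ℕ, ∀ k, k0 ≤ k → ∃ i1 : ℕ,
        ∀ n, RH P G (a n) ε b k i1 (fun _ => 0))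
    (init : ∀ b δ' M : ℝ, 0 < b → 0 < δ' → 0 < M → ∃ n1 : ℕ, ∀ n, n1 ≤ n → ∀ J : ℕ,
      (10 : ℝ) ^ J ≤ b * n → P {ω | δ' * n ≤ a n J ω} ≤ ENNReal.ofReal (Real.exp (-(M * n)))) :
    ∃ C : ℝ, ∀ n : ℕ, P {ω | δ * n ≤ a n n ω} ≤ ENNReal.ofReal (C * Real.exp (-(M * n))) := by
  set c0 : ℝ := 8 * (M + 2) / δ with hc0d
  have hc0 : 0 < c0 := by positivity
  obtain ⟨w, hwd⟩ : ∃ w : ℕ → ℝ, w = fun _ => 0 := ⟨_, rfl⟩
  rw [← hwd] at hWn
  have hw0 : ∀ i, 0 ≤ w i := fun i => by rw [hwd]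
  have hwS : ∀ J : ℕ, ∑ i ∈ range J, w i ≤ δ / 64 * J + max u0 0 := fun J => by
    rw [hwd]
    simp only [Finset.sum_const_zero]
    have : (0 : ℝ) ≤ max u0 0 := le_max_right _ _
    positivity
  set ε : ℝ := δ / 8 with hε
  have hε0 : 0 < ε := by positivity
  have hK1 : 0 < K1 u0 c0 := by
    unfold K1
    have h1 : 0 ≤ Real.log (Mbar c0) := Real.log_nonneg (Mbar_ge hc0)
    have h2 : 0 ≤ Real.log (Mbar c0) / c0 := div_nonneg h1 hc0.le
    have h3 : 0 ≤ max u0 0 := le_max_right _ _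
    linarith
  obtain ⟨k0, hk0⟩ := hR ε (c0 * K1 u0 c0) hε0 (by positivity)
  set k : ℕ := max 1 k0 with hkd
  have hk : 0 < k := lt_of_lt_of_le one_pos (le_max_left _ _)
  have hk' : (1 : ℝ) ≤ k := by exact_mod_cast hk
  obtain ⟨i1, hRn⟩ := hk0 k (le_max_right _ _)
  obtain ⟨w', hwd'⟩ : ∃ w' : ℕ → ℝ, w' = fun _ => 0 := ⟨_, rfl⟩
  rw [← hwd'] at hRn
  have hw0' : ∀ i, 0 ≤ w' i := fun i => by rw [hwd']
  have hwS' : ∀ J : ℕ, ∑ i ∈ range J, w' i ≤ δ / 64 * J + i1 := fun J => by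
    rw [hwd']
    simp only [Finset.sum_const_zero]
    positivity
  set I : ℕ := i1 + 1 with hI
  -- total extra cost
  set wt : ℕ → ℝ := fun i => w i + w' i with hwt
  have hwt0 : ∀ i, 0 ≤ wt i := fun i => add_nonneg (hw0 i) (hw0' i)
  have hwtS : ∀ J : ℕ, ∑ i ∈ range J, wt i ≤ δ / 32 * J + (max u0 0 + i1) := by
    intro J
    rw [hwt, sum_add_distrib]
    have := hwS J
    have := hwS' J
    linarith
  set u1 : ℝ := max u0 0 with hu1
  have hu1' : u0 ≤ u1 := le_max_left _ _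
  have hu10 : 0 ≤ u1 := le_max_right _ _
  have hwle : ∀ i : ℕ, wt i ≤ δ / 32 * (i + 1) + (u1 + i1) := by
    intro i
    have h1 := hwtS (i + 1)
    rw [sum_range_succ] at h1
    have h2 : 0 ≤ ∑ j ∈ range i, wt j := sum_nonneg fun j _ => hwt0 j
    push_cast at h1
    linarith
  -- starting height
  set A : ℝ := (δ + u1 + i1 + 1) / c + (δ + u1 + i1 + 1) with hA
  have hA1 : 1 ≤ A := by
    have h1 : 0 ≤ (δ + u1 + i1 + 1) / c := by positivity
    have h2 : (0 : ℝ) ≤ i1 := Nat.cast_nonneg _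
    rw [hA]; linarith
  set b : ℝ := (1 + 10 * A) * 10 ^ I with hb
  have hb0 : 0 < b := by positivity
  obtain ⟨n1, hn1⟩ := init b (δ / 4) M hb0 (by positivity) hM
  -- `J n` grows like `log n`
  have hJex : ∀ n : ℕ, ∃ J : ℕ, A * n ≤ (10 : ℝ) ^ J := fun n =>
    (pow_unbounded_of_one_lt (A * n) (by norm_num : (1 : ℝ) < 10)).imp fun _ h => h.le
  classical
  set J : ℕ → ℕ := fun n => Nat.find (hJex n) with hJd
  have hJ1 : ∀ n, A * n ≤ (10 : ℝ) ^ (J n) := fun n => Nat.find_spec (hJex n)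
  have hJ2 : ∀ n : ℕ, 1 ≤ n → (10 : ℝ) ^ (J n) ≤ (1 + 10 * A) * n := by
    intro n hn
    have hn0 : (1 : ℝ) ≤ n := by exact_mod_cast hn
    rcases Nat.eq_zero_or_pos (J n) with h0 | h0
    · rw [h0, pow_zero]
      nlinarith
    · obtain ⟨j, hj⟩ := Nat.exists_eq_succ_of_ne_zero h0.ne'
      have h1 : ¬ A * n ≤ (10 : ℝ) ^ j := Nat.find_min (hJex n) (by
        have : Nat.find (hJex n) = J n := rfl
        omega)
      rw [not_le] at h1
      rw [hj, pow_succ]
      nlinarith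
  have hJlog : ∀ n : ℕ, 1 ≤ n → (J n : ℝ) ≤ Real.log (1 + 10 * A) + Real.log n := by
    intro n hn
    have hn0 : (1 : ℝ) ≤ n := by exact_mod_cast hn
    have h1 := Real.log_le_log (by positivity) (hJ2 n hn)
    rw [Real.log_pow, Real.log_mul (by positivity) (by positivity)] at h1
    have h10 : (1 : ℝ) ≤ Real.log 10 := by
      have h3 : Real.exp 1 < 2.7182818286 := Real.exp_one_lt_d9
      rw [Real.le_log_iff_exp_le (by norm_num)]
      linarith
    have h2 : (0 : ℝ) ≤ J n := Nat.cast_nonneg _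
    nlinarith
  -- a threshold for `n`
  have hev : ∀ᶠ n : ℕ in atTop, Real.log (1 + 10 * A) + Real.log n + (I + k + u1 + i1) / (δ / 32)
      + (I + k) ≤ n := by
    have h1 : Tendsto (fun n : ℕ => Real.log (n : ℝ) / (n : ℝ)) atTop (nhds 0) := by
      have := Real.isLittleO_log_id_atTop.tendsto_div_nhds_zero
      exact this.comp tendsto_natCast_atTop_atTop
    have h2 : ∀ᶠ n : ℕ in atTop, Real.log (n : ℝ) / (n : ℝ) < 1 / 2 :=
      h1.eventually (gt_mem_nhds (by norm_num))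
    filter_upwards [h2, eventually_ge_atTop 1,
      (tendsto_natCast_atTop_atTop (R := ℝ)).eventually_ge_atTop
        (2 * (Real.log (1 + 10 * A) + (I + k + u1 + i1) / (δ / 32) + (I + k)))] with n h3 h4 h5
    have hn0 : (0 : ℝ) < n := by exact_mod_cast h4
    rw [div_lt_iff₀ hn0] at h3
    linarith
  obtain ⟨n2, hn2⟩ := eventually_atTop.1 hev
  set n3 : ℕ := max (max n1 n2) 1 with hn3
  refine ⟨7 + Real.exp (M * n3), fun n => ?_⟩
  by_cases hn : n < n3
  · refine le_trans prob_le_one ?_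
    rw [← ENNReal.ofReal_one]
    refine ENNReal.ofReal_le_ofReal ?_
    have h1 : (n : ℝ) ≤ n3 := by exact_mod_cast hn.le
    calc (1 : ℝ) = Real.exp (M * n3) * Real.exp (-(M * n3)) := by
          rw [← Real.exp_add]; simp
      _ ≤ (7 + Real.exp (M * n3)) * Real.exp (-(M * n)) := by
          gcongr
          linarith
  rw [not_lt] at hn
  have hn1' : n1 ≤ n := (le_max_left _ _).trans ((le_max_left _ _).trans hn)
  have hn2' : n2 ≤ n := (le_max_right _ _).trans ((le_max_left _ _).trans hn)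
  have hn0' : 1 ≤ n := (le_max_right _ _).trans hn
  have hn0 : (1 : ℝ) ≤ n := by exact_mod_cast hn0'
  have hbig := hn2 n hn2'
  have hJn := hJlog n hn0'
  -- the truncated process
  set T : ℝ := δ * n with hT
  have hT0 : 0 < T := by positivity
  set a' : ℕ → Ω → ℝ := fun j ω => min (a n (J n + j) ω) T with ha'
  set G' : Filtration ℕ m0 :=
    { seq := fun j => G (J n + j)
      mono' := fun i j hij => G.mono (by omega)
      le' := fun j => G.le _ } with hG'
  set wJ : ℕ → ℝ := fun i => wt (J n + i) with hwJ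
  have hwJ0 : ∀ i, 0 ≤ wJ i := fun i => hwt0 _
  set bb : ℕ → Ω → ℝ := fun j ω => a' j ω - W1 wJ j with hbb
  have hainc : ∀ i j : ℕ, i ≤ j → ∀ ω, a' j ω - a' i ω ≤ a n (J n + j) ω - a n (J n + i) ω := by
    intro i j hij ω
    exact min_sub_min_le _ _ _ (mono n ω (by omega))
  have ha'T : ∀ j ω, a' j ω ≤ T := fun j ω => min_le_right _ _
  have ha'0 : ∀ j ω, 0 ≤ a' j ω := fun j ω => le_min (nonneg n _ ω) hT0.le
  have hproc : ProcS (2 * (8 * c0)) u1 P G' bb := by
    refine ⟨fun i => ?_, fun i u hu B hB => ?_⟩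
    · exact ((meas n (J n + i)).min measurable_const).sub_const _
    · have hw1 : W1 wJ (i + 2) = W1 wJ (i + 1) + wJ i := W1_succ wJ i
      by_cases hun : u + w (J n + i) ≤ T
      · refine le_trans (measure_mono (Set.inter_subset_inter_right B fun ω hω => ?_))
          (hWn n (J n + i) u (hu1'.trans hu) ?_ B hB)
        · have h1 : u ≤ bb (i + 2) ω - bb (i + 1) ω := hω
          have h2 := hainc (i + 1) (i + 2) (by omega) ω
          simp only [hbb] at h1
          rw [hw1] at h1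
          have h3 : w (J n + i) ≤ wJ i := by
            simp only [hwJ, hwt]; linarith [hw0' (J n + i)]
          show u + w (J n + i) ≤ a n (J n + (i + 2)) ω - a n (J n + (i + 1)) ω
          linarith
        · have h1 := hJ1 n
          have h2 : (10 : ℝ) ^ (J n) ≤ 10 ^ (J n + i) := pow_le_pow_right₀ (by norm_num) (by omega)
          have h3 : T ≤ c * 10 ^ (J n) := by
            have h4 : T ≤ c * (A * n) := by
              rw [hA, hT, add_mul, mul_add, ← mul_assoc, mul_div_cancel₀ _ hc.ne']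
              have h5 : (0 : ℝ) ≤ i1 := Nat.cast_nonneg _
              have h6 : 0 ≤ c * ((δ + u1 + i1 + 1) * n) := by positivity
              nlinarith
            exact h4.trans (by gcongr)
          calc u + w (J n + i) ≤ T := hun
            _ ≤ c * 10 ^ (J n) := h3
            _ ≤ c * 10 ^ (J n + i) := by gcongr
      · have he : {ω | u ≤ bb (i + 2) ω - bb (i + 1) ω} = ∅ := by
          rw [Set.eq_empty_iff_forall_notMem]
          intro ω hω
          have h1 : u ≤ bb (i + 2) ω - bb (i + 1) ω := hω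
          simp only [hbb] at h1
          rw [hw1] at h1
          have h2 := ha'T (i + 2) ω
          have h3 := ha'0 (i + 1) ω
          have h4 : w (J n + i) ≤ wJ i := by
            simp only [hwJ, hwt]; linarith [hw0' (J n + i)]
          linarith
        rw [he, Set.inter_empty, measure_empty]
        exact zero_le
  -- (R) for the blocks
  have hRbb : ∀ i, I - 1 ≤ i → ∀ B, MeasurableSet[G' i] B →
      P (B ∩ {ω | ε * k ≤ bb (i + 1 + k) ω - bb (i + 1) ω})
        ≤ ENNReal.ofReal (Real.exp (-((c0 * K1 u1 c0) * k))) * P B := by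
    intro i hi B hB
    have hKu : K1 u1 c0 = K1 u0 c0 := by
      unfold K1
      rw [hu1, max_eq_left (le_max_right u0 0)]
    rw [hKu]
    refine le_trans (measure_mono (Set.inter_subset_inter_right B fun ω hω => ?_))
      (hRn n (J n + i) (by omega) B hB)
    have h1 : ε * k ≤ bb (i + 1 + k) ω - bb (i + 1) ω := hω
    have h2 := hainc (i + 1) (i + 1 + k) (by omega) ω
    simp only [hbb] at h1
    have h3 : W1 wJ (i + 1) + wJ i ≤ W1 wJ (i + 1 + k) := by
      rw [← W1_succ]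
      exact W1_mono hwJ0 (by omega)
    have h4 : w' (J n + i) ≤ wJ i := by
      simp only [hwJ, hwt]; linarith [hw0 (J n + i)]
    have e1 : J n + i + 1 + k = J n + (i + 1 + k) := by ring
    have e2 : J n + i + 1 = J n + (i + 1) := by ring
    show ε * k + w' (J n + i) ≤ a n (J n + i + 1 + k) ω - a n (J n + i + 1) ω
    rw [e1, e2]
    linarith
  -- number of blocks
  set N : ℕ := n / k + 1 with hN
  have hN1 : n ≤ N * k := by
    have := Nat.lt_div_mul_add hk (a := n)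
    have h2 : n < N * k := by rw [hN, add_mul, one_mul]; exact this
    omega
  have hN2 : N * k ≤ n + k := by
    have := Nat.div_mul_le_self n k
    rw [hN, add_mul, one_mul]; omega
  have hN2' : (N : ℝ) * k ≤ n + k := by exact_mod_cast hN2
  have hN3 : (N : ℝ) ≤ n + 1 := by
    have : N ≤ n + 1 := by
      have := Nat.div_le_self n k
      rw [hN]; omega
    exact_mod_cast this
  have hmain := chainS hproc hc0 rfl hε0 I k (by omega) hk hRbb N (δ / 4 * n)
  -- total extra cost on the way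
  have hWtot : W1 wJ (I + N * k) ≤ δ / 4 * n := by
    have h1 : W1 wJ (I + N * k) ≤ ∑ i ∈ range (J n + (I + N * k)), wt i := by
      unfold W1
      have h2 : ∑ i ∈ range (I + N * k - 1), wJ i ≤ ∑ i ∈ range (I + N * k), wJ i :=
        sum_le_sum_of_subset_of_nonneg (range_mono (by omega)) fun i _ _ => hwJ0 i
      refine h2.trans ?_
      have h4 : ∑ i ∈ range (J n + (I + N * k)), wt i
          = ∑ i ∈ range (J n), wt i + ∑ i ∈ range (I + N * k), wJ i := sum_range_add _ _ _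
      rw [h4]
      have h3 : 0 ≤ ∑ i ∈ range (J n), wt i := sum_nonneg fun i _ => hwt0 i
      linarith
    have h2 := hwtS (J n + (I + N * k))
    have h3 : ((J n + (I + N * k) : ℕ) : ℝ) ≤ J n + I + n + k := by
      push_cast
      linarith
    have h4 : δ / 32 * ((J n + (I + N * k) : ℕ) : ℝ) ≤ δ / 32 * (J n + I + n + k) :=
      mul_le_mul_of_nonneg_left h3 (by positivity)
    have h5 : u1 + i1 ≤ δ / 32 * ((I + k + u1 + i1) / (δ / 32)) := by
      rw [mul_div_cancel₀ _ (by positivity : δ / 32 ≠ 0)]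
      have h6 : (0 : ℝ) ≤ I := Nat.cast_nonneg _
      linarith
    have h7 : δ / 32 * (J n + I + k + (I + k + u1 + i1) / (δ / 32)) ≤ δ / 32 * n :=
      mul_le_mul_of_nonneg_left (by linarith) (by positivity)
    have h8 : max u0 0 + (i1 : ℝ) ≤ u1 + i1 := le_of_eq (by rw [hu1])
    have h9 : 0 ≤ δ / 32 * (n : ℝ) := by positivity
    rw [mul_add (δ / 32)] at h7
    have h10 : δ / 32 * (J n + I + n + k) = δ / 32 * (J n + I + k) + δ / 32 * n := by ring
    rw [h10] at h4
    have h11 : δ / 4 * (n : ℝ) = 8 * (δ / 32 * n) := by ring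
    rw [h11]
    linarith
  have hsub : {ω | δ * n ≤ a n n ω} ⊆
      {ω | N * (ε * k) + δ / 4 * n ≤ bb (I + N * k) ω - bb I ω} ∪
      {ω | δ / 4 * n ≤ a n (J n + I) ω} := by
    intro ω hω
    simp only [Set.mem_ofPred_eq, Set.mem_union] at hω ⊢
    by_contra hcon
    rw [not_or, not_le, not_le] at hcon
    have h1 : T ≤ a' (I + N * k) ω := by
      refine le_min ?_ le_rfl
      exact hω.trans (mono n ω (by omega))
    have h2 : a' I ω ≤ a n (J n + I) ω := min_le_left _ _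
    have h3 : 0 ≤ W1 wJ I := W1_nonneg hwJ0 I
    have h4 : (N : ℝ) * (ε * k) ≤ δ / 4 * n := by
      have h5 : (N : ℝ) * (ε * k) = ε * (N * k) := by ring
      rw [h5]
      have hkn : (k : ℝ) ≤ n := by
        have h6 : (0 : ℝ) ≤ I := Nat.cast_nonneg _
        have h7 : 0 ≤ Real.log (1 + 10 * A) := Real.log_nonneg (by linarith)
        have h8 : 0 ≤ Real.log (n : ℝ) := Real.log_nonneg hn0
        have h9 : 0 ≤ (I + k + u1 + i1) / (δ / 32) := by positivity
        linarith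
      calc ε * (N * k) ≤ ε * (n + k) := by gcongr
        _ ≤ ε * (n + n) := by gcongr
        _ = δ / 4 * n := by rw [hε]; ring
    have h10 := hcon.1
    simp only [hbb] at h10
    have h11 := hcon.2
    have hTn : T = δ * n := hT
    nlinarith
  refine (measure_mono hsub).trans ((measure_union_le _ _).trans ?_)
  have hlast := hn1 n hn1' (J n + I) (by
    rw [pow_add, hb]
    calc (10 : ℝ) ^ (J n) * 10 ^ I ≤ ((1 + 10 * A) * n) * 10 ^ I := by
          gcongr
          exact hJ2 n hn0'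
      _ = (1 + 10 * A) * 10 ^ I * n := by ring)
  refine (add_le_add hmain hlast).trans ?_
  have hE : (0 : ℝ) ≤ Real.exp (-(M * n)) := (Real.exp_pos _).le
  rw [← ENNReal.ofReal_add (by positivity) hE]
  refine ENNReal.ofReal_le_ofReal ?_
  have h3 : (3 : ℝ) ^ N ≤ 3 * Real.exp (2 * n) := by
    have h4 : (3 : ℝ) ≤ Real.exp 2 := by
      have := Real.add_one_le_exp (2 : ℝ); linarith
    calc (3 : ℝ) ^ N ≤ 3 ^ (n + 1) := by
          refine pow_le_pow_right₀ (by norm_num) ?_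
          exact_mod_cast hN3
      _ = 3 * 3 ^ n := by ring
      _ ≤ 3 * Real.exp 2 ^ n := by gcongr
      _ = 3 * Real.exp (2 * n) := by rw [← Real.exp_nat_mul]; ring_nf
  have hcδ : c0 * (δ / 4 * n) / 2 = (M + 2) * n := by rw [hc0d]; field_simp; ring
  rw [hcδ]
  calc 2 * 3 ^ N * Real.exp (-((M + 2) * n)) + Real.exp (-(M * n))
      ≤ 2 * (3 * Real.exp (2 * n)) * Real.exp (-((M + 2) * n)) + Real.exp (-(M * n)) := by gcongr
    _ = 7 * Real.exp (-(M * n)) := by
        rw [show (2 : ℝ) * (3 * Real.exp (2 * n)) * Real.exp (-((M + 2) * n))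
          = 6 * (Real.exp (2 * n) * Real.exp (-((M + 2) * n))) by ring, ← Real.exp_add]
        ring_nf
    _ ≤ (7 + Real.exp (M * n3)) * Real.exp (-(M * n)) := by
        gcongr
        linarith [Real.exp_pos (M * n3)]


/-- **(W) up to a finite index**: the windows `i` with `i + 2 ≤ I`, one rate, no extra cost. -/
def WHI (P : Measure Ω) (G : Filtration ℕ m0) (a : ℕ → Ω → ℝ) (lam u0 c : ℝ) (I : ℕ) : Prop :=
  ∀ i : ℕ, i + 2 ≤ I → ∀ v : ℝ, u0 ≤ v → v ≤ c * 10 ^ i → ∀ B, MeasurableSet[G i] B →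
    P (B ∩ {ω | v ≤ a (i + 2) ω - a (i + 1) ω}) ≤ ENNReal.ofReal (Real.exp (-(lam * v))) * P B

theorem WHI.mono {P : Measure Ω} {G : Filtration ℕ m0} {a : ℕ → Ω → ℝ} {lam u0 c : ℝ} {I J : ℕ}
    (h : WHI P G a lam u0 c J) (hIJ : I ≤ J) : WHI P G a lam u0 c I :=
  fun i hi => h i (hi.trans hIJ)

/-- (W) for all windows from (W) up to every index -/
theorem wh_of_all {P : Measure Ω} {G : Filtration ℕ m0} {a : ℕ → Ω → ℝ} {lam u0 c : ℝ}
    (h : ∀ I, WHI P G a lam u0 c I) : WH P G a lam u0 c (fun _ => 0) := by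
  intro i v hv hvc B hB
  simp only [add_zero] at hvc ⊢
  exact h (i + 2) i le_rfl v hv hvc B hB

open Classical in
/-- the stopped process, `0` if (W) fails below its index -/
noncomputable def stopped (P : Measure Ω) (G : Filtration ℕ m0) (a : ℕ → ℕ → Ω → ℝ)
    (lam u0 c : ℝ) (n i : ℕ) (ω : Ω) : ℝ :=
  if WHI P G (a n) lam u0 c n then a n (min i n) ω else 0

/-- **the chain, finite heights**: the constant does not depend on where (W) is known. -/
theorem chain_stopped (P : Measure Ω) [IsProbabilityMeasure P] (G : Filtration ℕ m0)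
    (a : ℕ → ℕ → Ω → ℝ)
    (meas : ∀ n i, Measurable[G i] (a n i))
    (nonneg : ∀ n i ω, 0 ≤ a n i ω)
    (mono : ∀ n ω, Monotone fun i => a n i ω)
    {δ M u0 c : ℝ} (hδ : 0 < δ) (hM : 0 < M) (hc : 0 < c)
    (hR : ∀ ε b : ℝ, 0 < ε → 0 < b → ∃ k0 : ℕ, ∀ k, k0 ≤ k → ∃ i1 : ℕ,
        ∀ n, RH P G (a n) ε b k i1 (fun _ => 0))
    (init : ∀ b δ' M : ℝ, 0 < b → 0 < δ' → 0 < M → ∃ n1 : ℕ, ∀ n, n1 ≤ n → ∀ J : ℕ,
      (10 : ℝ) ^ J ≤ b * n → P {ω | δ' * n ≤ a n J ω} ≤ ENNReal.ofReal (Real.exp (-(M * n)))) :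
    ∃ C : ℝ, ∀ n : ℕ, WHI P G (a n) (2 * (8 * (8 * (M + 2) / δ))) u0 c n →
      P {ω | δ * n ≤ a n n ω} ≤ ENNReal.ofReal (C * Real.exp (-(M * n))) := by
  set lam : ℝ := 2 * (8 * (8 * (M + 2) / δ)) with hlam
  have hlam0 : 0 < lam := by positivity
  set st := stopped P G a lam u0 c with hst
  have e1 : ∀ n, WHI P G (a n) lam u0 c n → ∀ i ω, st n i ω = a n (min i n) ω := by
    intro n h i ω
    simp only [hst, stopped, if_pos h]
  have e0 : ∀ n, ¬ WHI P G (a n) lam u0 c n → ∀ i ω, st n i ω = 0 := by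
    intro n h i ω
    simp only [hst, stopped, if_neg h]
  have hinc : ∀ n i j : ℕ, i ≤ j → ∀ ω, st n j ω - st n i ω ≤ a n j ω - a n i ω := by
    intro n i j hij ω
    have hm := mono n ω
    by_cases h : WHI P G (a n) lam u0 c n
    · rw [e1 n h, e1 n h]
      rcases le_total j n with hj | hj
      · rw [min_eq_left hj, min_eq_left (hij.trans hj)]
      · rw [min_eq_right hj]
        rcases le_total i n with hi | hi
        · rw [min_eq_left hi]
          have : a n n ω ≤ a n j ω := hm hj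
          linarith
        · rw [min_eq_right hi]
          have : a n i ω ≤ a n j ω := hm hij
          linarith
    · rw [e0 n h, e0 n h]
      have : a n i ω ≤ a n j ω := hm hij
      linarith
  have hle : ∀ n i ω, st n i ω ≤ a n i ω := by
    intro n i ω
    by_cases h : WHI P G (a n) lam u0 c n
    · rw [e1 n h]
      exact mono n ω (min_le_left _ _)
    · rw [e0 n h]
      exact nonneg n i ω
  obtain ⟨C, hC⟩ := chain1 P G st (δ := δ) (M := M) (u0 := u0) (c := c)
    (fun n i => by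
      by_cases h : WHI P G (a n) lam u0 c n
      · have : st n i = fun ω => a n (min i n) ω := funext fun ω => e1 n h i ω
        rw [this]
        exact (meas n (min i n)).mono (G.mono (min_le_left _ _)) le_rfl
      · have : st n i = fun _ => 0 := funext fun ω => e0 n h i ω
        rw [this]
        exact measurable_const)
    (fun n i ω => by
      by_cases h : WHI P G (a n) lam u0 c n
      · rw [e1 n h]
        exact nonneg n _ ω
      · rw [e0 n h])
    (fun n ω i j hij => by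
      by_cases h : WHI P G (a n) lam u0 c n
      · simp only [e1 n h]
        exact mono n ω (min_le_min_right _ hij)
      · simp only [e0 n h]
        exact le_rfl)
    hδ hM hc
    (fun n i v hv hvc B hB => by
      simp only [add_zero] at hvc ⊢
      rw [← hlam]
      by_cases h : WHI P G (a n) lam u0 c n
      · by_cases hi : i + 2 ≤ n
        · refine le_trans (measure_mono (Set.inter_subset_inter_right B fun ω hω => ?_))
            (h i hi v hv hvc B hB)
          have h1 : v ≤ st n (i + 2) ω - st n (i + 1) ω := hω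
          exact h1.trans (hinc n (i + 1) (i + 2) (by omega) ω)
        · by_cases hv0 : v ≤ 0
          · calc P (B ∩ {ω | v ≤ st n (i + 2) ω - st n (i + 1) ω}) ≤ P B :=
                  measure_mono Set.inter_subset_left
              _ = ENNReal.ofReal 1 * P B := by rw [ENNReal.ofReal_one, one_mul]
              _ ≤ ENNReal.ofReal (Real.exp (-(lam * v))) * P B := by
                  gcongr
                  rw [Real.one_le_exp_iff]
                  nlinarith
          · have he : {ω | v ≤ st n (i + 2) ω - st n (i + 1) ω} = ∅ := by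
              rw [Set.eq_empty_iff_forall_notMem]
              intro ω hω
              have h1 : v ≤ st n (i + 2) ω - st n (i + 1) ω := hω
              rw [e1 n h, e1 n h, min_eq_right (by omega), min_eq_right (by omega), sub_self] at h1
              exact hv0 h1
            rw [he, Set.inter_empty, measure_empty]
            exact zero_le
      · by_cases hv0 : v ≤ 0
        · calc P (B ∩ {ω | v ≤ st n (i + 2) ω - st n (i + 1) ω}) ≤ P B :=
                measure_mono Set.inter_subset_left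
            _ = ENNReal.ofReal 1 * P B := by rw [ENNReal.ofReal_one, one_mul]
            _ ≤ ENNReal.ofReal (Real.exp (-(lam * v))) * P B := by
                gcongr
                rw [Real.one_le_exp_iff]
                nlinarith
        · have he : {ω | v ≤ st n (i + 2) ω - st n (i + 1) ω} = ∅ := by
            rw [Set.eq_empty_iff_forall_notMem]
            intro ω hω
            have h1 : v ≤ st n (i + 2) ω - st n (i + 1) ω := hω
            rw [e0 n h, e0 n h, sub_self] at h1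
            exact hv0 h1
          rw [he, Set.inter_empty, measure_empty]
          exact zero_le)
    (fun ε b hε hb => by
      obtain ⟨k0, hk0⟩ := hR ε b hε hb
      refine ⟨k0, fun k hk => ?_⟩
      obtain ⟨i1, hi1⟩ := hk0 k hk
      refine ⟨i1, fun n i hi B hB => ?_⟩
      refine le_trans (measure_mono (Set.inter_subset_inter_right B fun ω hω => ?_))
        (hi1 n i hi B hB)
      have h1 : ε * k + 0 ≤ st n (i + 1 + k) ω - st n (i + 1) ω := hω
      exact h1.trans (hinc n (i + 1) (i + 1 + k) (by omega) ω))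
    (fun b δ' M' hb hδ' hM' => by
      obtain ⟨n1, hn1⟩ := init b δ' M' hb hδ' hM'
      refine ⟨n1, fun n hn J hJ => le_trans (measure_mono fun ω hω => ?_) (hn1 n hn J hJ)⟩
      have h1 : δ' * n ≤ st n J ω := hω
      exact h1.trans (hle n J ω))
  refine ⟨C, fun n h => ?_⟩
  have h2 := hC n
  have e2 : {ω | δ * n ≤ st n n ω} = {ω | δ * n ≤ a n n ω} := by
    ext ω
    simp only [Set.mem_ofPred_eq]
    rw [e1 n h, min_self]
  rwa [e2] at h2

end abs

section ker

open MeasureTheory ProbabilityTheory Set Filter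
open Crest.Agent.R154.RatioR872 Crest.Agent.R154.RatioR872.KerSys Crest.Agent.R154.RatioS775
open scoped ENNReal Topology

variable {S : Type*} [Countable S] {Ω : Type*} {m0 : MeasurableSpace Ω} {P : Measure Ω}

/-- **(R), multiplicative form, past `10 ^ i`, unconditional, all heights `10 ^ j`.** -/
theorem ratio_free [IsProbabilityMeasure P] (A : KerSys S P) {p : ℝ≥0∞} (hp0 : p ≠ 0)
    (hp : ∀ n, p ≤ A.h n) (hh : ∀ n, A.h n ≤ 1)
    (hpos : ∀ μ, A.Start μ → ∀ h, ∀ᵐ ω ∂P, A.Sh μ h ω ≠ 0) {δ : ℝ≥0∞} (hδ : δ ≠ 0) :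
    ∃ i1 : ℕ, ∀ i, i1 ≤ i → ∀ j, i + 1 ≤ j → ∀ μ, A.Start μ →
      ∀ B, MeasurableSet[A.F (10 ^ i)] B →
      P (B ∩ {ω | A.Sh μ (10 ^ j) ω < p / 4 * A.Sh μ (10 ^ (i + 1)) ω}) ≤ δ * P B := by
  have hpt : p ≠ ∞ := ne_top_of_le_ne_top ENNReal.one_ne_top ((hp 0).trans (hh 0))
  by_cases hne : (A.L 0).Nonempty
  swap
  · refine ⟨0, fun i _ j _ μ hμ => ?_⟩
    exfalso
    have h0 : ∀ x, μ x = 0 := fun x => hμ.supp x (fun hx => hne ⟨x, hx⟩)
    have h1 := hμ.one
    simp [h0] at h1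
  have hδ2 : δ / 2 ≠ 0 := by simp [hδ]
  obtain ⟨T, hT0, hT⟩ := exists_T hp0 hδ2
  set ε : ℝ≥0∞ := (δ / 2) / T * p / 4 with hε
  by_cases hδt : δ = ∞
  · refine ⟨0, ?_⟩
    intro i _ j _ μ _ B _
    by_cases hB : P B = 0
    · rw [hB, mul_zero]
      exact (measure_mono_null inter_subset_left hB).le
    · rw [hδt, ENNReal.top_mul hB]
      exact le_top
  have hTt : (T : ℝ≥0∞) ≠ 0 := by exact_mod_cast hT0.ne'
  have hε0 : ε ≠ 0 := by
    rw [hε]
    refine (ENNReal.div_pos (mul_ne_zero (ENNReal.div_pos hδ2 (ENNReal.natCast_ne_top T)).ne'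
      hp0) (by norm_num)).ne'
  have hεT : T * (4 * ε / p) ≤ δ / 2 := by
    have e1 : 4 * ε = (δ / 2) / T * p := by
      rw [hε]
      exact ENNReal.mul_div_cancel (by norm_num) (by norm_num)
    rw [e1, ENNReal.mul_div_cancel_right hp0 hpt,
      ENNReal.mul_div_cancel hTt (ENNReal.natCast_ne_top T)]
  obtain ⟨n1, hn1⟩ := conv_h A hh hne hε0
  refine ⟨T * n1, ?_⟩
  intro i hi j hj μ hμ B hB
  have hH : 10 ^ i + T * n1 ≤ 10 ^ (i + 1) := by
    have h1 : i ≤ 10 ^ i := (Nat.lt_pow_self (by norm_num)).le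
    rw [pow_succ]
    omega
  refine (Free12.free_core A hp0 hp hh hpos (ε := ε) (T := T) (s := n1) (a0 := 10 ^ i)
    (a := 10 ^ (i + 1)) (b := 10 ^ j) (fun m hm _ => hn1 n1 le_rfl m hm) hH
    (Nat.pow_le_pow_right (by norm_num) hj) hμ hB).trans ?_
  gcongr
  calc (1 - p / 2) ^ T + T * (4 * ε / p) ≤ δ / 2 + δ / 2 := by gcongr
    _ = δ := ENNReal.add_halves δ

/-- **(R) without (W)** -/
theorem hR_free [IsProbabilityMeasure P] (A : KerSys S P) {p : ℝ≥0∞} (hp0 : p ≠ 0)
    (hp : ∀ n, p ≤ A.h n) (hh : ∀ n, A.h n ≤ 1)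
    (hpos : ∀ μ, A.Start μ → ∀ h, ∀ᵐ ω ∂P, A.Sh μ h ω ≠ 0)
    (μ : ℕ → S → ℝ≥0∞) (hμ : ∀ n, A.Start (μ n)) (a : ℕ → ℕ → Ω → ℝ)
    (ha : ∀ n i, ∀ᵐ ω ∂P, a n i ω = - Real.log (A.Sh (μ n) (10 ^ i) ω).toReal) :
    ∀ ε b : ℝ, 0 < ε → 0 < b → ∃ k0 : ℕ, ∀ k, k0 ≤ k → ∃ i1 : ℕ,
      ∀ n, CompW.RH P A.F10 (a n) ε b k i1 (fun _ => 0) := by
  intro ε b hε _
  have hpt : p ≠ ∞ := ne_top_of_le_ne_top ENNReal.one_ne_top ((hp 0).trans (hh 0))
  obtain ⟨K, hK⟩ := exists_nat_gt (lcS p / ε)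
  refine ⟨K, fun k hk => ?_⟩
  have hlk : lcS p < ε * k := by
    have h1 : lcS p / ε < k := hK.trans_le (by exact_mod_cast hk)
    rw [div_lt_iff₀ hε] at h1
    linarith
  obtain ⟨i1, hi1⟩ := ratio_free A hp0 hp hh hpos
    (δ := ENNReal.ofReal (Real.exp (-(b * k)))) (by simp [Real.exp_pos])
  refine ⟨i1, fun n i hi B hB => ?_⟩
  have hτ0 : p / 4 ≠ 0 := (ENNReal.div_pos hp0 (by norm_num)).ne'
  have hτt : p / 4 ≠ ∞ := ENNReal.div_ne_top hpt (by norm_num)
  refine le_trans (measure_mono_ae ?_) (hi1 i hi (i + 1 + k) (by omega) (μ n) (hμ n) B hB)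
  filter_upwards [ha n (i + 1 + k), ha n (i + 1), hpos (μ n) (hμ n) (10 ^ (i + 1 + k)),
    hpos (μ n) (hμ n) (10 ^ (i + 1))] with ω e1 e3 p1 p3
  rintro ⟨hωB, hω⟩
  refine ⟨hωB, ?_⟩
  have hω' : ε * k + 0 ≤ a n (i + 1 + k) ω - a n (i + 1) ω := hω
  show A.Sh (μ n) (10 ^ (i + 1 + k)) ω < p / 4 * A.Sh (μ n) (10 ^ (i + 1)) ω
  by_contra hcon
  rw [not_lt] at hcon
  have t1 : A.Sh (μ n) (10 ^ (i + 1 + k)) ω ≠ ∞ :=
    ne_top_of_le_ne_top ENNReal.one_ne_top (Sh_le_one (hμ n) _ ω)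
  have t3 : A.Sh (μ n) (10 ^ (i + 1)) ω ≠ ∞ :=
    ne_top_of_le_ne_top ENNReal.one_ne_top (Sh_le_one (hμ n) _ ω)
  have q2 : 0 < (A.Sh (μ n) (10 ^ (i + 1)) ω).toReal := ENNReal.toReal_pos p3 t3
  have q3 : 0 < (p / 4).toReal := ENNReal.toReal_pos hτ0 hτt
  have c3 : (p / 4).toReal * (A.Sh (μ n) (10 ^ (i + 1)) ω).toReal
      ≤ (A.Sh (μ n) (10 ^ (i + 1 + k)) ω).toReal := by
    rw [← ENNReal.toReal_mul]
    exact ENNReal.toReal_mono t1 hcon
  have c4 := Real.log_le_log (mul_pos q3 q2) c3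
  rw [Real.log_mul q3.ne' q2.ne'] at c4
  rw [e1, e3] at hω'
  have hl : lcS p = - Real.log (p / 4).toReal := rfl
  linarith

end ker

section sys

open MeasureTheory ProbabilityTheory Set Filter Crest.ProbabilityR.RandomEnvironment
open Crest.Agent.R154 Crest.Agent.R154.Mk561 Crest.Agent.R154.Q561
open Crest.Agent.R154.RatioR872 Crest.Agent.R154.RatioR872.KerSys
open Crest.Agent.R154.Flux132 (lev)
open Crest.Agent.R154.Tile872 (rho rho_le rho_pos rho_shift measurable_rho)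
open Crest.Agent.R154.D2Asm244 (kT N_eq h_ge h_le Sh_pos aa aa_nonneg aa_mono aa_meas aa_eq)
open Crest.Agent.R154.ChainFL (bl mem_bl zero_mem_bl bmu bmu_apply bmu_eq_zero tsum_bmu bmu_start
  Sh_eq mk_le_climb HI HW)
open scoped ENNReal Topology

variable {d : ℕ} {Q : Measure (Environment d)} [IsProbabilityMeasure Q] {κ : ℝ} {R : ℕ}

/-- the rate needed for the cost `δ` and the failure rate `M` -/
noncomputable def lamOf (δ M : ℝ) : ℝ := 2 * (8 * (8 * (M + 2) / δ))

lemma lamOf_pos {δ M : ℝ} (hδ : 0 < δ) (hM : 0 < M) : 0 < lamOf δ M := by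
  unfold lamOf
  positivity

/-- **THE CHAIN UP TO A FINITE HEIGHT, ball start, one rate** -/
theorem chain_fin (F : Bind263.Frame Q κ R) (u : Step d)
    (hA : annealedProb Q 0 (escapeEvent (B2d.dirVec u)) ≠ 0)
    (hI : HI (kT u R κ Q F.stat F.fin) u)
    {η δ M : ℝ} (hη : 0 < η) (hδ : 0 < δ) (hM : 0 < M) {u0 c : ℝ} (hc : 0 < c) :
    ∃ C : ℝ, ∀ n : ℕ,
      WHI Q (kT u R κ Q F.stat F.fin).F10 (aa (kT u R κ Q F.stat F.fin) (bmu u ⌊η * n⌋₊))
        (lamOf δ M) u0 c n →
      Q {ω | δ * n ≤ aa (kT u R κ Q F.stat F.fin) (bmu u ⌊η * n⌋₊) n ω}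
        ≤ ENNReal.ofReal (C * Real.exp (-(M * n))) := by
  set A := kT u R κ Q F.stat F.fin with hAdef
  have hst : ∀ n : ℕ, A.Start (bmu u ⌊η * n⌋₊) := fun n => bmu_start F u _
  have hpos := Sh_pos F u hA
  have hae : ∀ n i, ∀ᵐ ω ∂Q, aa A (bmu u ⌊η * (n : ℕ)⌋₊) i ω
      = - Real.log (A.Sh (bmu u ⌊η * n⌋₊) (10 ^ i) ω).toReal :=
    fun n i => aa_eq (hst n) (hpos _ (hst n)) i
  have hp0 : ∫⁻ ω, rho u R κ ω 0 ∂Q ≠ 0 := by
    rw [Ne, lintegral_eq_zero_iff (measurable_rho u R κ 0)]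
    intro h0
    obtain ⟨ω, h1, h2⟩ := ((rho_pos F u hA).and h0).exists
    exact h1 h2
  have hR := hR_free A hp0 (h_ge F u) (h_le F u) hpos
    (fun n : ℕ => bmu u ⌊η * n⌋₊) hst (fun n : ℕ => aa A (bmu u ⌊η * n⌋₊)) hae
  exact chain_stopped Q A.F10 (fun n : ℕ => aa A (bmu u ⌊η * n⌋₊)) (fun n => aa_meas (hst n))
    (fun n => aa_nonneg (hst n)) (fun _ => aa_mono) hδ hM hc hR
    (fun b δ' M' hb hδ' hM' => hI η b δ' M' hη hb hδ' hM')

/-- **FLe at one finite height from (W) below that height, one rate.** -/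
theorem fle_fin (F : Bind263.Frame Q κ R) (u : Step d)
    (hA : annealedProb Q 0 (escapeEvent (B2d.dirVec u)) ≠ 0)
    (hI : HI (kT u R κ Q F.stat F.fin) u)
    {η δ M : ℝ} (hη : 0 < η) (hδ : 0 < δ) (hM : 0 < M) {u0 c : ℝ} (hc : 0 < c) :
    ∃ C : ℝ, ∀ n : ℕ,
      (∀ μ, (kT u R κ Q F.stat F.fin).Start μ →
        WHI Q (kT u R κ Q F.stat F.fin).F10 (aa (kT u R κ Q F.stat F.fin) μ)
          (lamOf δ M) u0 c n) →
      Q {ω | ∀ z : Site d, lev u z = 0 → (Fin804.nrm z : ℝ) ≤ η * n →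
        quenchedLaw ω z (Fin804.Climb u (10 ^ n)) < ENNReal.ofReal (Real.exp (-(δ * n)))}
        ≤ ENNReal.ofReal (C * Real.exp (-(M * n))) := by
  obtain ⟨C, hC⟩ := chain_fin F u hA hI (u0 := u0) hη hδ hM hc
  refine ⟨C, fun i hWi => le_trans (measure_mono_ae ?_)
    (hC i (hWi _ (bmu_start F u _)))⟩
  set A := kT u R κ Q F.stat F.fin with hAdef
  have hst : A.Start (bmu u ⌊η * i⌋₊) := bmu_start F u _
  have hpos := Sh_pos F u hA
  filter_upwards [mk_le_climb F u, aa_eq hst (hpos _ hst) i, hpos _ hst (10 ^ i)] with ω h1 h2 h3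
  intro hω
  have hω' : ∀ z : Site d, lev u z = 0 → (Fin804.nrm z : ℝ) ≤ η * i →
    quenchedLaw ω z (Fin804.Climb u (10 ^ i)) < ENNReal.ofReal (Real.exp (-(δ * i))) := hω
  change δ * i ≤ aa A (bmu u ⌊η * i⌋₊) i ω
  rw [h2]
  have e1 : A.Sh (bmu u ⌊η * i⌋₊) (10 ^ i) ω ≤ ENNReal.ofReal (Real.exp (-(δ * i))) := by
    rw [Sh_eq F u hst]
    calc ∑' x, bmu u ⌊η * i⌋₊ x * mkLaw κ ω x (ClA u R x ((10 ^ i : ℕ) : ℤ))
        ≤ ∑' x, bmu u ⌊η * i⌋₊ x * ENNReal.ofReal (Real.exp (-(δ * i))) := by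
          refine ENNReal.tsum_le_tsum fun x => ?_
          by_cases hx : x ∈ bl u ⌊η * i⌋₊
          · obtain ⟨g1, g2⟩ := mem_bl.1 hx
            refine mul_le_mul_right ?_ _
            refine (h1 x g2 (10 ^ i)).trans (hω' x g2 ?_).le
            have g3 : (Fin804.nrm x : ℝ) ≤ (⌊η * i⌋₊ : ℝ) := by exact_mod_cast g1
            exact g3.trans (Nat.floor_le (by positivity))
          · rw [bmu_eq_zero hx, zero_mul, zero_mul]
      _ = ENNReal.ofReal (Real.exp (-(δ * i))) := by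
          rw [ENNReal.tsum_mul_right, tsum_bmu, one_mul]
  have t1 : A.Sh (bmu u ⌊η * i⌋₊) (10 ^ i) ω ≠ ∞ := ne_top_of_le_ne_top ENNReal.ofReal_ne_top e1
  have e3 := ENNReal.toReal_pos h3 t1
  have e4 : (A.Sh (bmu u ⌊η * i⌋₊) (10 ^ i) ω).toReal ≤ Real.exp (-(δ * i)) := by
    have := ENNReal.toReal_mono ENNReal.ofReal_ne_top e1
    rwa [ENNReal.toReal_ofReal (Real.exp_pos _).le] at this
  have e5 := (Real.log_le_iff_le_exp e3).2 e4
  linarith

/-- `HW` from (W) up to every finite index, every rate, with constants independent of the index. -/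
theorem hW_of_fin (A : KerSys (Site d) Q)
    (h : ∀ lam : ℝ, 0 < lam → ∃ u0 c : ℝ, 0 ≤ u0 ∧ 0 < c ∧ ∀ μ, A.Start μ →
      (∀ h, ∀ᵐ ω ∂Q, A.Sh μ h ω ≠ 0) → ∀ I, WHI Q A.F10 (aa A μ) lam u0 c I) : HW A := by
  intro lam ε' hlam hε'
  obtain ⟨u0, c, hu0, hc, h1⟩ := h lam hlam
  refine ⟨u0, c, hc, fun _ => 0, fun _ => le_rfl, fun J => ?_, fun μ hμ hpos =>
    wh_of_all (h1 μ hμ hpos)⟩
  simp only [Finset.sum_const_zero]
  positivity

end sys

end Crest.Agent.R154.ChainFin592
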