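import Crest.Agent.R154.CompW_263

/-!
Row 154 (helper845), leaf (4) of helper32's route: THE CHAIN AT ONE FIXED RATE AND FINITE HORIZON.
`CompW.block_tail`, `CompW.block_exp` (helper402, helper263) are used; the step (R) enters only in
its unconditional form (helper775): `P (B ∩ {v0 < a (i+1+k) - a (i+2)}) ≤ δ' P B`.
-/

set_option autoImplicit false

open MeasureTheory Filter Finset
open scoped ENNReal

namespace Crest.Agent.R154.ChainFix845

open Crest.Agent.R154.KSet
open Crest.Agent.R154.Comp (meas_expmax meas_sub meas_setge expmoment_of_tail lintegral_prod_le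
  tail_sum_of_overlap M1 M1_ge Mbar Mbar_ge)
open Crest.Agent.R154.CompW (ProcS K1 block_tail block_exp min_sub_min_le)

variable {Ω : Type*} {m0 : MeasurableSpace Ω}

lemma meas_setgt {f : Ω → ℝ} (hf : Measurable f) (t : ℝ) : MeasurableSet {ω | t < f ω} :=
  measurableSet_lt measurable_const hf

/-- one block of `k` windows: unconditional (R) is enough. -/
theorem block_exp4 {lam u0 : ℝ} {P : Measure Ω}
    {G : Filtration ℕ m0} {a : ℕ → Ω → ℝ} (hp : ProcS lam u0 P G a) {c ε v0 δ' : ℝ} (hc : 0 < c)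
    (hlam : lam = 2 * (8 * c)) (i0 k : ℕ) (hk : 0 < k) (hv0 : 0 ≤ v0) (hδ' : 0 ≤ δ')
    (hs : max u0 0 + Real.log (Mbar c) / (2 * c) + v0 ≤ ε * k)
    (hδk : Real.exp (c * K1 u0 c * k) * δ' ≤ 1)
    (hR : ∀ B, MeasurableSet[G i0] B →
      P (B ∩ {ω | v0 < a (i0 + 1 + k) ω - a (i0 + 2) ω}) ≤ ENNReal.ofReal δ' * P B)
    {B : Set Ω} (hB : MeasurableSet[G i0] B) :
    ∫⁻ ω in B, ENNReal.ofReal (Real.exp (c *
        max ((a (i0 + 1 + k) ω - a (i0 + 1) ω) - ε * k) 0)) ∂P
      ≤ ENNReal.ofReal 4 * P B := by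
  have hBm : MeasurableSet B := G.le _ _ hB
  set V : Ω → ℝ := fun ω => a (i0 + 1 + k) ω - a (i0 + 1) ω with hV
  set Z : Ω → ℝ := fun ω => a (i0 + 1 + 1) ω - a (i0 + 1) ω with hZ
  set Y : Ω → ℝ := fun ω => a (i0 + 1 + k) ω - a (i0 + 2) ω with hY
  have hVm : Measurable V :=
    meas_sub ((hp.meas _).mono (G.le _) le_rfl) ((hp.meas _).mono (G.le _) le_rfl)
  have hZm : Measurable Z :=
    meas_sub ((hp.meas _).mono (G.le _) le_rfl) ((hp.meas _).mono (G.le _) le_rfl)
  have hYm : Measurable Y :=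
    meas_sub ((hp.meas _).mono (G.le _) le_rfl) ((hp.meas _).mono (G.le _) le_rfl)
  have hVZY : ∀ ω, V ω = Z ω + Y ω := by
    intro ω
    simp only [hV, hZ, hY]
    have e : i0 + 1 + 1 = i0 + 2 := rfl
    rw [e]; ring
  set U : ℝ := max u0 0 with hU
  have hU0 : 0 ≤ U := le_max_right _ _
  have hlog : 0 ≤ Real.log (Mbar c) := Real.log_nonneg (Mbar_ge hc)
  have hMpos : 0 < Mbar c := lt_of_lt_of_le one_pos (Mbar_ge hc)
  have hK1 : 0 < K1 u0 c := by
    unfold K1
    have : 0 ≤ Real.log (Mbar c) / c := div_nonneg hlog hc.le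
    positivity
  have hk' : (0 : ℝ) < k := by exact_mod_cast hk
  have hl2 : 0 ≤ Real.log (Mbar c) / (2 * c) := div_nonneg hlog (by positivity)
  set s : ℝ := ε * k - v0 with hsd
  have hsU : U + Real.log (Mbar c) / (2 * c) ≤ s := by rw [hsd]; linarith
  have hεk : 0 ≤ ε * k := by linarith
  set E : Set Ω := {ω | v0 < Y ω} with hE
  have hEm : MeasurableSet E := meas_setgt hYm _
  have hpt : ∀ ω, ENNReal.ofReal (Real.exp (c * max (V ω - ε * k) 0))
      ≤ 1 + ENNReal.ofReal (Real.exp (-(2 * c * (s - U))))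
          * ENNReal.ofReal (Real.exp (2 * c * max (Z ω - (1 : ℕ) * U) 0))
        + ENNReal.ofReal (Real.exp (c * K1 u0 c * k)) * E.indicator 1 ω
        + ENNReal.ofReal (Real.exp (-(c * K1 u0 c * k) + 2 * c * (k * U)))
          * ENNReal.ofReal (Real.exp (2 * c * max (V ω - k * U) 0)) := by
    intro ω
    by_cases h1 : V ω - ε * k < 0
    · rw [max_eq_right h1.le, mul_zero, Real.exp_zero, ENNReal.ofReal_one]
      exact le_self_add.trans (le_self_add.trans le_self_add)
    · rw [not_lt] at h1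
      rw [max_eq_left h1]
      by_cases hmem : ω ∈ E
      · rw [Set.indicator_of_mem hmem]
        simp only [Pi.one_apply, mul_one]
        by_cases h2 : V ω ≤ K1 u0 c * k
        · refine le_trans ?_ (le_self_add)
          refine le_trans ?_ le_add_self
          refine ENNReal.ofReal_le_ofReal (Real.exp_le_exp.2 ?_)
          nlinarith
        · rw [not_le] at h2
          refine le_trans ?_ le_add_self
          rw [← ENNReal.ofReal_mul (Real.exp_pos _).le, ← Real.exp_add]
          refine ENNReal.ofReal_le_ofReal (Real.exp_le_exp.2 ?_)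
          have h3 : V ω - k * U ≤ max (V ω - k * U) 0 := le_max_left _ _
          nlinarith
      · have hYle : Y ω ≤ v0 := not_lt.1 hmem
        refine le_trans ?_ (le_self_add.trans le_self_add)
        refine le_trans ?_ le_add_self
        rw [← ENNReal.ofReal_mul (Real.exp_pos _).le, ← Real.exp_add]
        refine ENNReal.ofReal_le_ofReal (Real.exp_le_exp.2 ?_)
        have h3 : Z ω - (1 : ℕ) * U ≤ max (Z ω - (1 : ℕ) * U) 0 := le_max_left _ _
        have h4 := hVZY ω
        have h5 : V ω - ε * k ≤ Z ω - s := by rw [hsd]; linarith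
        have h6 : 0 ≤ Z ω - s := by linarith
        push_cast at h3 ⊢
        have h7 : c * (Z ω - s) ≤ 2 * c * (Z ω - s) := by nlinarith
        have h8 : c * (V ω - ε * k) ≤ c * (Z ω - s) := by nlinarith
        have h9 : 2 * c * (Z ω - 1 * U) ≤ 2 * c * max (Z ω - 1 * U) 0 := by
          apply mul_le_mul_of_nonneg_left h3; positivity
        have h10 : 2 * c * (Z ω - s) = -(2 * c * (s - U)) + 2 * c * (Z ω - 1 * U) := by ring
        linarith
  have hI := block_exp hp hc hlam i0 k hk hB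
  have hI1 := block_exp hp hc hlam i0 1 one_pos hB
  have hR' := hR B hB
  have hind : ∫⁻ ω in B, E.indicator 1 ω ∂P = P (B ∩ E) := by
    rw [lintegral_indicator_one hEm, Measure.restrict_apply hEm, Set.inter_comm]
  calc ∫⁻ ω in B, ENNReal.ofReal (Real.exp (c * max (V ω - ε * k) 0)) ∂P
      ≤ ∫⁻ ω in B, (1 + ENNReal.ofReal (Real.exp (-(2 * c * (s - U))))
          * ENNReal.ofReal (Real.exp (2 * c * max (Z ω - (1 : ℕ) * U) 0))
        + ENNReal.ofReal (Real.exp (c * K1 u0 c * k)) * E.indicator 1 ω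
        + ENNReal.ofReal (Real.exp (-(c * K1 u0 c * k) + 2 * c * (k * U)))
          * ENNReal.ofReal (Real.exp (2 * c * max (V ω - k * U) 0))) ∂P := lintegral_mono hpt
    _ = P B + ENNReal.ofReal (Real.exp (-(2 * c * (s - U))))
          * ∫⁻ ω in B, ENNReal.ofReal (Real.exp (2 * c * max (Z ω - (1 : ℕ) * U) 0)) ∂P
        + ENNReal.ofReal (Real.exp (c * K1 u0 c * k)) * P (B ∩ E)
        + ENNReal.ofReal (Real.exp (-(c * K1 u0 c * k) + 2 * c * (k * U)))
          * ∫⁻ ω in B, ENNReal.ofReal (Real.exp (2 * c * max (V ω - k * U) 0)) ∂P := by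
        rw [lintegral_add_right _ ((meas_expmax hVm (2 * c) (k * U)).const_mul _),
          lintegral_add_right _ ((measurable_one.indicator hEm).const_mul _),
          lintegral_add_left measurable_const,
          lintegral_const_mul _ (measurable_one.indicator hEm), hind,
          lintegral_const_mul _ (meas_expmax hVm (2 * c) (k * U)),
          lintegral_const_mul _ (meas_expmax hZm (2 * c) ((1 : ℕ) * U))]
        simp
    _ ≤ P B + ENNReal.ofReal (Real.exp (-(2 * c * (s - U))))
          * (ENNReal.ofReal (Mbar c ^ 1) * P B)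
        + ENNReal.ofReal (Real.exp (c * K1 u0 c * k)) * (ENNReal.ofReal δ' * P B)
        + ENNReal.ofReal (Real.exp (-(c * K1 u0 c * k) + 2 * c * (k * U)))
          * (ENNReal.ofReal (Mbar c ^ k) * P B) := by gcongr
    _ ≤ ENNReal.ofReal 4 * P B := by
        have e0 : ENNReal.ofReal (Real.exp (-(2 * c * (s - U))))
            * (ENNReal.ofReal (Mbar c ^ 1) * P B) ≤ P B := by
          rw [← mul_assoc, ← ENNReal.ofReal_mul (Real.exp_pos _).le, pow_one]
          have h1 : Real.exp (-(2 * c * (s - U))) * Mbar c ≤ 1 := by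
            have h2 : Mbar c = Real.exp (Real.log (Mbar c)) := (Real.exp_log hMpos).symm
            rw [h2, ← Real.exp_add, Real.exp_le_one_iff]
            have h3 : Real.log (Mbar c) / (2 * c) ≤ s - U := by linarith
            rw [div_le_iff₀ (by positivity)] at h3
            linarith
          calc ENNReal.ofReal (Real.exp (-(2 * c * (s - U))) * Mbar c) * P B
              ≤ ENNReal.ofReal 1 * P B := by gcongr
            _ = P B := by simp
        have e1 : ENNReal.ofReal (Real.exp (c * K1 u0 c * k))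
            * (ENNReal.ofReal δ' * P B) ≤ P B := by
          rw [← mul_assoc, ← ENNReal.ofReal_mul (Real.exp_pos _).le]
          calc ENNReal.ofReal (Real.exp (c * K1 u0 c * k) * δ') * P B
              ≤ ENNReal.ofReal 1 * P B := by gcongr
            _ = P B := by simp
        have e2 : ENNReal.ofReal (Real.exp (-(c * K1 u0 c * k) + 2 * c * (k * U)))
            * (ENNReal.ofReal (Mbar c ^ k) * P B) ≤ P B := by
          rw [← mul_assoc, ← ENNReal.ofReal_mul (Real.exp_pos _).le]
          have hMb : Mbar c ^ k = Real.exp (k * Real.log (Mbar c)) := by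
            rw [Real.exp_nat_mul, Real.exp_log (lt_of_lt_of_le one_pos (Mbar_ge hc))]
          rw [hMb, ← Real.exp_add]
          have hle : -(c * K1 u0 c * k) + 2 * c * (k * U) + k * Real.log (Mbar c) ≤ 0 := by
            have : c * K1 u0 c = 2 * c * U + Real.log (Mbar c) + c := by
              unfold K1; rw [← hU]; field_simp
            rw [this]
            nlinarith
          calc ENNReal.ofReal (Real.exp (-(c * K1 u0 c * k) + 2 * c * (k * U)
                + k * Real.log (Mbar c))) * P B ≤ ENNReal.ofReal 1 * P B := by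
                gcongr
                exact (Real.exp_le_one_iff).2 hle
            _ = P B := by simp
        calc P B + ENNReal.ofReal (Real.exp (-(2 * c * (s - U))))
              * (ENNReal.ofReal (Mbar c ^ 1) * P B)
            + ENNReal.ofReal (Real.exp (c * K1 u0 c * k)) * (ENNReal.ofReal δ' * P B)
            + ENNReal.ofReal (Real.exp (-(c * K1 u0 c * k) + 2 * c * (k * U)))
              * (ENNReal.ofReal (Mbar c ^ k) * P B) ≤ P B + P B + P B + P B := by gcongr
          _ = ENNReal.ofReal 4 * P B := by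
              rw [show (ENNReal.ofReal 4) = 4 by norm_num]; ring

/-- sum of `N` blocks of `k` windows -/
theorem chainS4 {lam u0 : ℝ} {P : Measure Ω} [IsProbabilityMeasure P]
    {G : Filtration ℕ m0} {a : ℕ → Ω → ℝ} (hp : ProcS lam u0 P G a) {c ε v0 δ' : ℝ} (hc : 0 < c)
    (hlam : lam = 2 * (8 * c)) (I k : ℕ) (hI : 1 ≤ I) (hk : 0 < k) (hv0 : 0 ≤ v0) (hδ' : 0 ≤ δ')
    (hs : max u0 0 + Real.log (Mbar c) / (2 * c) + v0 ≤ ε * k)
    (hδk : Real.exp (c * K1 u0 c * k) * δ' ≤ 1)
    (hR : ∀ i, I - 1 ≤ i → ∀ B, MeasurableSet[G i] B →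
      P (B ∩ {ω | v0 < a (i + 1 + k) ω - a (i + 2) ω}) ≤ ENNReal.ofReal δ' * P B)
    (N : ℕ) (v : ℝ) :
    P {ω | N * (ε * k) + v ≤ a (I + N * k) ω - a I ω}
      ≤ ENNReal.ofReal (2 * 4 ^ N * Real.exp (-(c * v / 2))) := by
  have hT := tail_sum_of_overlap P (fun j => G (I - 1 + j * k)) (fun j => G.le _)
    (fun i j hij => G.mono (Nat.add_le_add_left (Nat.mul_le_mul_right _ hij) _)) N
    (fun j ω => a (I + (j + 1) * k) ω - a (I + j * k) ω)
    (c := c) (s := ε * k) (M := 4) (v := v) hc (by norm_num)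
    (fun j _ => meas_sub
      ((hp.meas _).mono (G.mono (by
        have : 1 ≤ k := hk
        have e : (j + 2) * k = (j + 1) * k + k := by ring
        rw [e]; omega)) le_rfl)
      ((hp.meas _).mono (G.mono (by
        have : 1 ≤ k := hk
        have e : (j + 2) * k = j * k + k + k := by ring
        rw [e]; omega)) le_rfl))
    (fun j _ B hB => by
      have h := block_exp4 hp hc hlam (I - 1 + j * k) k hk hv0 hδ' hs hδk
        (hR _ (by omega)) hB
      have e1 : I - 1 + j * k + 1 + k = I + (j + 1) * k := by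
        have : (j + 1) * k = j * k + k := by ring
        rw [this]; omega
      have e2 : I - 1 + j * k + 1 = I + j * k := by omega
      rw [e1, e2] at h
      exact h)
  rw [measure_univ, mul_one] at hT
  refine le_trans (le_of_eq ?_) hT
  congr 1
  ext ω
  simp only [Set.mem_ofPred_eq]
  have : ∑ j ∈ range N, (a (I + (j + 1) * k) ω - a (I + j * k) ω)
      = a (I + N * k) ω - a I ω := by
    have := Finset.sum_range_sub (fun j => a (I + j * k) ω) N
    simpa using this
  rw [this]

/-- **(W)** at one rate, windows `i + 2 ≤ n` only -/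
def WHn (P : Measure Ω) (G : Filtration ℕ m0) (a : ℕ → Ω → ℝ) (lam u0 c : ℝ) (n : ℕ) : Prop :=
  ∀ i : ℕ, i + 2 ≤ n → ∀ u : ℝ, u0 ≤ u → u ≤ c * 10 ^ i → ∀ B, MeasurableSet[G i] B →
    P (B ∩ {ω | u ≤ a (i + 2) ω - a (i + 1) ω})
      ≤ ENNReal.ofReal (Real.exp (-(lam * u))) * P B

/-- unconditional **(R)**: the rate function `i1` is a parameter. -/
def RHu (P : Measure Ω) (G : Filtration ℕ m0) (a : ℕ → Ω → ℝ) (v0 : ℝ) (i1 : ℕ → ℝ → ℕ) : Prop :=
  ∀ k : ℕ, 1 ≤ k → ∀ δ' : ℝ, 0 < δ' → ∀ i, i1 k δ' ≤ i → ∀ B, MeasurableSet[G i] B →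
    P (B ∩ {ω | v0 < a (i + 1 + k) ω - a (i + 2) ω}) ≤ ENNReal.ofReal δ' * P B

/-- initial heights, rate function `n1` -/
def Ini (P : Measure Ω) (a : ℕ → Ω → ℝ) (n1 : ℝ → ℝ → ℝ → ℕ) (n : ℕ) : Prop :=
  ∀ b δ' M' : ℝ, 0 < b → 0 < δ' → 0 < M' → n1 b δ' M' ≤ n → ∀ J : ℕ,
    (10 : ℝ) ^ J ≤ b * n → P {ω | δ' * n ≤ a J ω} ≤ ENNReal.ofReal (Real.exp (-(M' * n)))

set_option maxHeartbeats 2000000 in
/-- **THE CHAIN AT ONE FIXED RATE**, all windows; the constant depends on the data only. -/
theorem chain_all (P : Measure Ω) [IsProbabilityMeasure P] (G : Filtration ℕ m0) {δ M : ℝ}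
    (hδ : 0 < δ) (hM : 0 < M) {u0 c v0 : ℝ} (hc : 0 < c) (hv0 : 0 ≤ v0) (i1 : ℕ → ℝ → ℕ)
    (n1 : ℝ → ℝ → ℝ → ℕ) :
    ∃ C : ℝ, ∀ (n : ℕ) (a : ℕ → Ω → ℝ), (∀ i, Measurable[G i] (a i)) → (∀ i ω, 0 ≤ a i ω) →
      (∀ ω, Monotone fun i => a i ω) →
      (∀ i : ℕ, ∀ u : ℝ, u0 ≤ u → u ≤ c * 10 ^ i → ∀ B, MeasurableSet[G i] B →
        P (B ∩ {ω | u ≤ a (i + 2) ω - a (i + 1) ω})
          ≤ ENNReal.ofReal (Real.exp (-(2 * (8 * (8 * (M + 2) / δ)) * u))) * P B) →
      RHu P G a v0 i1 → Ini P a n1 n →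
      P {ω | δ * n ≤ a n ω} ≤ ENNReal.ofReal (C * Real.exp (-(M * n))) := by
  set c0 : ℝ := 8 * (M + 2) / δ with hc0d
  have hc0 : 0 < c0 := by positivity
  set ε : ℝ := δ / 8 with hε
  have hε0 : 0 < ε := by positivity
  set u1 : ℝ := max u0 0 with hu1
  have hu1' : u0 ≤ u1 := le_max_left _ _
  have hu10 : 0 ≤ u1 := le_max_right _ _
  obtain ⟨k2, hk2⟩ := exists_nat_gt ((max u1 0 + Real.log (Mbar c0) / (2 * c0) + v0) / ε)
  set k : ℕ := max 1 k2 with hkd
  have hk : 0 < k := lt_of_lt_of_le one_pos (le_max_left _ _)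
  have hk' : (1 : ℝ) ≤ k := by exact_mod_cast hk
  have hs : max u1 0 + Real.log (Mbar c0) / (2 * c0) + v0 ≤ ε * k := by
    have h1 : (k2 : ℝ) ≤ k := by exact_mod_cast le_max_right _ _
    have h2 := hk2.le.trans h1
    rw [div_le_iff₀ hε0] at h2
    linarith
  set δ' : ℝ := Real.exp (-(c0 * K1 u1 c0 * k)) with hδ'd
  have hδ' : 0 < δ' := Real.exp_pos _
  have hδk : Real.exp (c0 * K1 u1 c0 * k) * δ' ≤ 1 := by
    rw [hδ'd, ← Real.exp_add]
    simp
  set I : ℕ := i1 k δ' + 1 with hI
  -- starting height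
  set A : ℝ := δ / c + 1 with hA
  have hA1 : 1 ≤ A := by
    have h1 : 0 ≤ δ / c := by positivity
    rw [hA]; linarith
  set b : ℝ := (1 + 10 * A) * 10 ^ I with hb
  have hb0 : 0 < b := by positivity
  -- `J n` grows like `log n`
  have hJex : ∀ n : ℕ, ∃ J : ℕ, A * n ≤ (10 : ℝ) ^ J := fun n =>
    (pow_unbounded_of_one_lt (A * n) (by norm_num : (1 : ℝ) < 10)).imp fun _ h => h.le
  classical
  set J : ℕ → ℕ := fun n => Nat.find (hJex n) with hJd
  have hJ1 : ∀ n, A * n ≤ (10 : ℝ) ^ (J n) := fun n => Nat.find_spec (hJex n)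
  have hJ2 : ∀ n : ℕ, 1 ≤ n → (10 : ℝ) ^ (J n) ≤ (1 + 10 * A) * n := by
    intro n hn
    have hn0 : (1 : ℝ) ≤ n := by exact_mod_cast hn
    rcases Nat.eq_zero_or_pos (J n) with h0 | h0
    · rw [h0, pow_zero]
      nlinarith
    · obtain ⟨j, hj⟩ := Nat.exists_eq_succ_of_ne_zero h0.ne'
      have h1 : ¬ A * n ≤ (10 : ℝ) ^ j := Nat.find_min (hJex n) (by
        have : Nat.find (hJex n) = J n := rfl
        omega)
      rw [not_le] at h1
      rw [hj, pow_succ]
      nlinarith
  set n3 : ℕ := max (max (n1 b (δ / 4) M) k) 1 with hn3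
  refine ⟨10 + Real.exp (M * n3), fun n a meas nonneg mono hW hRu hIni => ?_⟩
  by_cases hn : n < n3
  · refine le_trans prob_le_one ?_
    rw [← ENNReal.ofReal_one]
    refine ENNReal.ofReal_le_ofReal ?_
    have h1 : (n : ℝ) ≤ n3 := by exact_mod_cast hn.le
    calc (1 : ℝ) = Real.exp (M * n3) * Real.exp (-(M * n3)) := by
          rw [← Real.exp_add]; simp
      _ ≤ (10 + Real.exp (M * n3)) * Real.exp (-(M * n)) := by
          gcongr
          linarith
  rw [not_lt] at hn
  have hn1' : n1 b (δ / 4) M ≤ n := (le_max_left _ _).trans ((le_max_left _ _).trans hn)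
  have hn2' : k ≤ n := (le_max_right _ _).trans ((le_max_left _ _).trans hn)
  have hn0' : 1 ≤ n := (le_max_right _ _).trans hn
  have hn0 : (1 : ℝ) ≤ n := by exact_mod_cast hn0'
  -- the truncated process
  set T : ℝ := δ * n with hT
  have hT0 : 0 < T := by positivity
  set a' : ℕ → Ω → ℝ := fun j ω => min (a (J n + j) ω) T with ha'
  set G' : Filtration ℕ m0 :=
    { seq := fun j => G (J n + j)
      mono' := fun i j hij => G.mono (by omega)
      le' := fun j => G.le _ } with hG'
  have hainc : ∀ i j : ℕ, i ≤ j → ∀ ω, a' j ω - a' i ω ≤ a (J n + j) ω - a (J n + i) ω := by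
    intro i j hij ω
    exact min_sub_min_le _ _ _ (mono ω (by omega))
  have ha'T : ∀ j ω, a' j ω ≤ T := fun j ω => min_le_right _ _
  have ha'0 : ∀ j ω, 0 ≤ a' j ω := fun j ω => le_min (nonneg _ ω) hT0.le
  have hproc : ProcS (2 * (8 * c0)) u1 P G' a' := by
    refine ⟨fun i => ?_, fun i u hu B hB => ?_⟩
    · exact (meas (J n + i)).min measurable_const
    · by_cases hun : u ≤ T
      · refine le_trans (measure_mono (Set.inter_subset_inter_right B fun ω hω => ?_))
          (hW (J n + i) u (hu1'.trans hu) ?_ B hB)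
        · have h1 : u ≤ a' (i + 2) ω - a' (i + 1) ω := hω
          have h2 := hainc (i + 1) (i + 2) (by omega) ω
          show u ≤ a (J n + (i + 2)) ω - a (J n + (i + 1)) ω
          linarith
        · have h1 := hJ1 n
          have h2 : (10 : ℝ) ^ (J n) ≤ 10 ^ (J n + i) := pow_le_pow_right₀ (by norm_num) (by omega)
          have h3 : T ≤ c * 10 ^ (J n) := by
            have h4 : T ≤ c * (A * n) := by
              rw [hA, hT, add_mul, mul_add, ← mul_assoc, mul_div_cancel₀ _ hc.ne']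
              have h6 : 0 ≤ c * (1 * (n : ℝ)) := by positivity
              linarith
            exact h4.trans (by gcongr)
          calc u ≤ T := hun
            _ ≤ c * 10 ^ (J n) := h3
            _ ≤ c * 10 ^ (J n + i) := by gcongr
      · have he : {ω | u ≤ a' (i + 2) ω - a' (i + 1) ω} = ∅ := by
          rw [Set.eq_empty_iff_forall_notMem]
          intro ω hω
          have h1 : u ≤ a' (i + 2) ω - a' (i + 1) ω := hω
          have h2 := ha'T (i + 2) ω
          have h3 := ha'0 (i + 1) ω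
          linarith
        rw [he, Set.inter_empty, measure_empty]
        exact zero_le
  -- (R) for the blocks
  have hRbb : ∀ i, I - 1 ≤ i → ∀ B, MeasurableSet[G' i] B →
      P (B ∩ {ω | v0 < a' (i + 1 + k) ω - a' (i + 2) ω}) ≤ ENNReal.ofReal δ' * P B := by
    intro i hi B hB
    refine le_trans (measure_mono (Set.inter_subset_inter_right B fun ω hω => ?_))
      (hRu k hk δ' hδ' (J n + i) (by omega) B hB)
    have h1 : v0 < a' (i + 1 + k) ω - a' (i + 2) ω := hω
    have h2 := hainc (i + 2) (i + 1 + k) (by omega) ω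
    have e1 : J n + i + 1 + k = J n + (i + 1 + k) := by ring
    have e2 : J n + i + 2 = J n + (i + 2) := by ring
    show v0 < a (J n + i + 1 + k) ω - a (J n + i + 2) ω
    rw [e1, e2]
    linarith
  -- number of blocks
  set N : ℕ := n / k + 1 with hN
  have hN1 : n ≤ N * k := by
    have := Nat.lt_div_mul_add hk (a := n)
    have h2 : n < N * k := by rw [hN, add_mul, one_mul]; exact this
    omega
  have hN2 : N * k ≤ n + k := by
    have := Nat.div_mul_le_self n k
    rw [hN, add_mul, one_mul]; omega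
  have hN2' : (N : ℝ) * k ≤ n + k := by exact_mod_cast hN2
  have hN3 : (N : ℝ) ≤ n + 1 := by
    have : N ≤ n + 1 := by
      have := Nat.div_le_self n k
      rw [hN]; omega
    exact_mod_cast this
  have hmain := chainS4 hproc hc0 rfl I k (by omega) hk hv0 hδ'.le hs hδk hRbb N (δ / 4 * n)
  have hsub : {ω | δ * n ≤ a n ω} ⊆
      {ω | N * (ε * k) + δ / 4 * n ≤ a' (I + N * k) ω - a' I ω} ∪
      {ω | δ / 4 * n ≤ a (J n + I) ω} := by
    intro ω hω
    simp only [Set.mem_ofPred_eq, Set.mem_union] at hω ⊢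
    by_contra hcon
    rw [not_or, not_le, not_le] at hcon
    have h1 : T ≤ a' (I + N * k) ω := by
      refine le_min ?_ le_rfl
      exact hω.trans (mono ω (by omega))
    have h2 : a' I ω ≤ a (J n + I) ω := min_le_left _ _
    have h4 : (N : ℝ) * (ε * k) ≤ δ / 4 * n := by
      have h5 : (N : ℝ) * (ε * k) = ε * (N * k) := by ring
      rw [h5]
      have hkn : (k : ℝ) ≤ n := by exact_mod_cast hn2'
      calc ε * (N * k) ≤ ε * (n + k) := by gcongr
        _ ≤ ε * (n + n) := by gcongr
        _ = δ / 4 * n := by rw [hε]; ring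
    have h10 := hcon.1
    have h11 := hcon.2
    have hTn : T = δ * n := hT
    nlinarith
  refine (measure_mono hsub).trans ((measure_union_le _ _).trans ?_)
  have hlast := hIni b (δ / 4) M hb0 (by positivity) hM hn1' (J n + I) (by
    rw [pow_add, hb]
    calc (10 : ℝ) ^ (J n) * 10 ^ I ≤ ((1 + 10 * A) * n) * 10 ^ I := by
          gcongr
          exact hJ2 n hn0'
      _ = (1 + 10 * A) * 10 ^ I * n := by ring)
  refine (add_le_add hmain hlast).trans ?_
  have hE : (0 : ℝ) ≤ Real.exp (-(M * n)) := (Real.exp_pos _).le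
  rw [← ENNReal.ofReal_add (by positivity) hE]
  refine ENNReal.ofReal_le_ofReal ?_
  have h3 : (4 : ℝ) ^ N ≤ 4 * Real.exp (2 * n) := by
    have h4 : (4 : ℝ) ≤ Real.exp 2 := by
      have h5 : (2.7182818283 : ℝ) < Real.exp 1 := Real.exp_one_gt_d9
      have h6 : Real.exp 2 = Real.exp 1 * Real.exp 1 := by
        rw [← Real.exp_add]; norm_num
      rw [h6]; nlinarith
    calc (4 : ℝ) ^ N ≤ 4 ^ (n + 1) := by
          refine pow_le_pow_right₀ (by norm_num) ?_
          exact_mod_cast hN3
      _ = 4 * 4 ^ n := by ring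
      _ ≤ 4 * Real.exp 2 ^ n := by gcongr
      _ = 4 * Real.exp (2 * n) := by rw [← Real.exp_nat_mul]; ring_nf
  have hcδ : c0 * (δ / 4 * n) / 2 = (M + 2) * n := by rw [hc0d]; field_simp; ring
  rw [hcδ]
  calc 2 * 4 ^ N * Real.exp (-((M + 2) * n)) + Real.exp (-(M * n))
      ≤ 2 * (4 * Real.exp (2 * n)) * Real.exp (-((M + 2) * n)) + Real.exp (-(M * n)) := by gcongr
    _ = 9 * Real.exp (-(M * n)) := by
        rw [show (2 : ℝ) * (4 * Real.exp (2 * n)) * Real.exp (-((M + 2) * n))
          = 8 * (Real.exp (2 * n) * Real.exp (-((M + 2) * n))) by ring, ← Real.exp_add]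
        ring_nf
    _ ≤ (10 + Real.exp (M * n3)) * Real.exp (-(M * n)) := by
        gcongr
        linarith [Real.exp_pos (M * n3)]

/-- **THE CHAIN AT ONE FIXED RATE AND FINITE HORIZON**: only the windows `i + 2 ≤ n` are used and
the constant is uniform in `n`. -/
theorem chain_fix (P : Measure Ω) [IsProbabilityMeasure P] (G : Filtration ℕ m0) {δ M : ℝ}
    (hδ : 0 < δ) (hM : 0 < M) {u0 c v0 : ℝ} (hc : 0 < c) (hv0 : 0 ≤ v0) (i1 : ℕ → ℝ → ℕ)
    (n1 : ℝ → ℝ → ℝ → ℕ) :
    ∃ C : ℝ, ∀ (n : ℕ) (a : ℕ → Ω → ℝ), (∀ i, Measurable[G i] (a i)) → (∀ i ω, 0 ≤ a i ω) →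
      (∀ ω, Monotone fun i => a i ω) →
      WHn P G a (2 * (8 * (8 * (M + 2) / δ))) u0 c n → RHu P G a v0 i1 → Ini P a n1 n →
      P {ω | δ * n ≤ a n ω} ≤ ENNReal.ofReal (C * Real.exp (-(M * n))) := by
  obtain ⟨C, hC⟩ := chain_all P G hδ hM (u0 := u0) hc hv0 i1 n1
  refine ⟨C, fun n a meas nonneg mono hW hRu hIni => ?_⟩
  have h := hC n (fun i ω => a (min i n) ω) (fun i => (meas _).mono (G.mono (min_le_left _ _)) le_rfl)
    (fun i ω => nonneg _ ω) (fun ω i j hij => mono ω (min_le_min hij le_rfl)) ?_ ?_ ?_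
  · simpa using h
  · intro i u hu huc B hB
    by_cases hi : i + 2 ≤ n
    · have e1 : min (i + 2) n = i + 2 := min_eq_left hi
      have e2 : min (i + 1) n = i + 1 := min_eq_left (by omega)
      simp only [e1, e2]
      exact hW i hi u hu huc B hB
    · have e : min (i + 2) n = min (i + 1) n := by omega
      simp only [e, sub_self]
      by_cases hu0 : u ≤ 0
      · calc P (B ∩ {ω | u ≤ 0}) ≤ P B := measure_mono Set.inter_subset_left
          _ = ENNReal.ofReal 1 * P B := by simp
          _ ≤ _ := by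
            gcongr
            refine Real.one_le_exp ?_
            have : 0 ≤ 2 * (8 * (8 * (M + 2) / δ)) := by positivity
            nlinarith
      · have he : {ω : Ω | u ≤ 0} = ∅ := by
          rw [Set.eq_empty_iff_forall_notMem]; exact fun ω hω => hu0 hω
        rw [he, Set.inter_empty, measure_empty]
        exact zero_le
  · intro k hk δ' hδ' i hi B hB
    by_cases hi2 : i + 2 ≤ n
    · refine le_trans (measure_mono (Set.inter_subset_inter_right B fun ω hω => ?_))
        (hRu k hk δ' hδ' i hi B hB)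
      have h1 : v0 < a (min (i + 1 + k) n) ω - a (min (i + 2) n) ω := hω
      have e2 : min (i + 2) n = i + 2 := min_eq_left hi2
      rw [e2] at h1
      have h2 : a (min (i + 1 + k) n) ω ≤ a (i + 1 + k) ω := mono ω (min_le_left _ _)
      show v0 < a (i + 1 + k) ω - a (i + 2) ω
      linarith
    · have e : min (i + 1 + k) n = min (i + 2) n := by omega
      simp only [e, sub_self]
      have he : {ω : Ω | v0 < 0} = ∅ := by
        rw [Set.eq_empty_iff_forall_notMem]; exact fun ω hω => absurd hω (not_lt.2 hv0)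
      rw [he, Set.inter_empty, measure_empty]
      exact zero_le
  · intro b δ' M' hb hδ' hM' hn J hJ
    refine (measure_mono fun ω hω => ?_).trans (hIni b δ' M' hb hδ' hM' hn J hJ)
    have h1 : δ' * n ≤ a (min J n) ω := hω
    exact h1.trans (mono ω (min_le_left _ _))

end Crest.Agent.R154.ChainFix845
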