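import Mathlib

/-! Row 154 (helper247): Markov chains on a countable discrete state space: cylinder formula, extensionality,
projection and Markov property.  Text adapted from `Quenched_850` (same proofs, general state space). -/

set_option autoImplicit false

namespace Crest.Agent.R154.Chain247

open MeasureTheory ProbabilityTheory
open scoped ENNReal

variable {S : Type*}

/-- Paths with values in `S`. -/
abbrev SPath (S : Type*) : Type _ := ℕ → S

/-- `X` and `Y` agree up to time `n` (inclusive). -/
def Agree (n : ℕ) (X Y : SPath S) : Prop := ∀ i, i ≤ n → X i = Y i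

/-- The cylinder of `γ` at time `n`. -/
def cyl (γ : SPath S) (n : ℕ) : Set (SPath S) := {X | Agree n X γ}

/-- The path shifted by `n`. -/
def shift (n : ℕ) (X : SPath S) : SPath S := fun i => X (n + i)

/-- Follow `γ` before time `n`, then `Y`. -/
def splice (n : ℕ) (γ Y : SPath S) : SPath S := fun i => if i < n then γ i else Y (i - n)

lemma agree_refl (n : ℕ) (X : SPath S) : Agree n X X := fun _ _ => rfl

lemma Agree.symm {n : ℕ} {X Y : SPath S} (h : Agree n X Y) : Agree n Y X :=
  fun i hi => (h i hi).symm

lemma Agree.trans {n : ℕ} {X Y Z : SPath S} (h : Agree n X Y) (h' : Agree n Y Z) : Agree n X Z :=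
  fun i hi => (h i hi).trans (h' i hi)

lemma Agree.mono {m n : ℕ} {X Y : SPath S} (h : Agree n X Y) (hmn : m ≤ n) : Agree m X Y :=
  fun i hi => h i (hi.trans hmn)

/-- a finite history, extended by a constant. -/
def ext (n : ℕ) (h : Fin (n + 1) → S) : SPath S := fun i => h ⟨min i n, by omega⟩

/-- the history of a path. -/
def hist (n : ℕ) (X : SPath S) : Fin (n + 1) → S := fun i => X i

lemma ext_hist (n : ℕ) (X : SPath S) : Agree n X (ext n (hist n X)) := by
  intro i hi
  simp [ext, hist, min_eq_left hi]

lemma hist_ext (n : ℕ) (h : Fin (n + 1) → S) : hist n (ext n h) = h := by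
  funext i
  have : min (i : ℕ) n = i := min_eq_left (by omega)
  simp [ext, hist, this]

lemma mem_cyl_ext_iff (n : ℕ) (h : Fin (n + 1) → S) (X : SPath S) :
    X ∈ cyl (ext n h) n ↔ hist n X = h := by
  constructor
  · intro hX
    funext i
    have := hX i (by omega)
    simp only [hist]
    rw [this]
    have h2 : min (i : ℕ) n = i := min_eq_left (by omega)
    simp [ext, h2]
  · rintro rfl
    exact ext_hist n X

lemma shift_splice (n : ℕ) (γ Y : SPath S) : shift n (splice n γ Y) = Y := by
  funext i
  simp [shift, splice]

section meas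

variable [MeasurableSpace S]

lemma measurable_hist (n : ℕ) : Measurable (hist (S := S) n) :=
  measurable_pi_lambda _ fun _ => measurable_pi_apply _

lemma measurable_shift (n : ℕ) : Measurable (shift (S := S) n) :=
  measurable_pi_lambda _ fun _ => measurable_pi_apply _

variable [Countable S] [MeasurableSingletonClass S]

lemma measurableSet_cyl (γ : SPath S) (n : ℕ) : MeasurableSet (cyl γ n) := by
  have : cyl γ n = ⋂ i ∈ Finset.range (n + 1), (fun X : SPath S => X i) ⁻¹' {γ i} := by
    ext X
    simp only [cyl, Agree, Set.mem_ofPred_eq, Finset.mem_range, Set.mem_iInter, Set.mem_preimage,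
      Set.mem_singleton_iff]
    constructor
    · intro h i hi; exact h i (by omega)
    · intro h i hi; exact h i (by omega)
  rw [this]
  exact Finset.measurableSet_biInter _ fun i _ => measurable_pi_apply i (measurableSet_singleton _)

/-- functions determined by the first `n` coordinates are measurable. -/
lemma measurable_of_agree {α : Type*} [MeasurableSpace α] (n : ℕ) (F : SPath S → α)
    (hF : ∀ X Y, Agree n X Y → F X = F Y) : Measurable F := by
  have : F = (fun h => F (ext n h)) ∘ hist n := by
    funext X
    exact hF _ _ (ext_hist n X)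
  rw [this]
  exact (measurable_of_countable _).comp (measurable_hist n)

lemma measurableSet_of_agree (n : ℕ) (A : Set (SPath S))
    (hA : ∀ X Y, Agree n X Y → (X ∈ A ↔ Y ∈ A)) : MeasurableSet A := by
  have : Measurable (fun X : SPath S => X ∈ A) :=
    measurable_of_agree n _ fun X Y h => propext (hA X Y h)
  exact measurableSet_setOfPred.2 this

/-- the π-system of cylinders. -/
def cyls (S : Type*) : Set (Set (SPath S)) := {s | ∃ (γ : SPath S) (n : ℕ), s = cyl γ n}

omit [MeasurableSpace S] [Countable S] [MeasurableSingletonClass S] in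
lemma isPiSystem_cyls : IsPiSystem (cyls S) := by
  rintro _ ⟨γ, n, rfl⟩ _ ⟨δ, m, rfl⟩ ⟨X, hX, hX'⟩
  refine ⟨X, max n m, ?_⟩
  ext Y
  constructor
  · rintro ⟨h1, h2⟩ i hi
    rcases le_total n m with h | h
    · rw [max_eq_right h] at hi
      exact ((hX' i hi).trans (h2 i hi).symm).symm
    · rw [max_eq_left h] at hi
      exact ((hX i hi).trans (h1 i hi).symm).symm
  · intro hY
    exact ⟨fun i hi => (hY i (hi.trans (le_max_left _ _))).trans (hX i hi),
      fun i hi => (hY i (hi.trans (le_max_right _ _))).trans (hX' i hi)⟩

lemma generateFrom_cyls : (inferInstance : MeasurableSpace (SPath S)) =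
    MeasurableSpace.generateFrom (cyls S) := by
  apply le_antisymm
  · change MeasurableSpace.pi ≤ _
    refine iSup_le fun n => ?_
    rw [← measurable_iff_comap_le]
    refine @measurable_to_countable' S (SPath S) _ _ (MeasurableSpace.generateFrom (cyls S))
      (fun X : SPath S => X n) ?_
    intro a
    have : (fun X : SPath S => X n) ⁻¹' {a} =
        ⋃ h : {h : Fin (n + 1) → S // ext n h n = a}, cyl (ext n h.1) n := by
      ext X
      simp only [Set.mem_preimage, Set.mem_singleton_iff, Set.mem_iUnion, Subtype.exists]
      constructor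
      · intro hX
        refine ⟨hist n X, ?_, ext_hist n X⟩
        rw [← ext_hist n X n le_rfl, hX]
      · rintro ⟨h, hh, hX⟩
        rw [hX n le_rfl, hh]
    rw [this]
    exact MeasurableSet.iUnion fun h => MeasurableSpace.measurableSet_generateFrom ⟨_, _, rfl⟩
  · refine MeasurableSpace.generateFrom_le ?_
    rintro _ ⟨γ, n, rfl⟩
    exact measurableSet_cyl γ n

/-- extensionality of finite measures on paths. -/
lemma measure_ext_cyl {μ ν : Measure (SPath S)} [IsFiniteMeasure μ] [IsFiniteMeasure ν]
    (h : ∀ (γ : SPath S) (n : ℕ), μ (cyl γ n) = ν (cyl γ n)) : μ = ν := by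
  refine ext_of_generate_finite (cyls S) generateFrom_cyls isPiSystem_cyls ?_ ?_
  · rintro _ ⟨γ, n, rfl⟩
    exact h γ n
  · have : (Set.univ : Set (SPath S)) = ⋃ h : Fin 1 → S, cyl (ext 0 h) 0 := by
      ext X
      simp only [Set.mem_univ, Set.mem_iUnion, true_iff]
      exact ⟨hist 0 X, ext_hist 0 X⟩
    have hd : Pairwise (Function.onFun Disjoint fun h : Fin 1 → S => cyl (ext 0 h) 0) := by
      intro h h' hne
      rw [Function.onFun, Set.disjoint_left]
      intro X hX hX'
      rw [mem_cyl_ext_iff] at hX hX'
      exact hne (hX.symm.trans hX')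
    rw [this, measure_iUnion hd fun _ => measurableSet_cyl _ _,
      measure_iUnion hd fun _ => measurableSet_cyl _ _]
    exact tsum_congr fun h' => h _ _

/-! ### the chain -/

/-- The kernel at time `n`. -/
noncomputable def histK (K : S → Measure S) (n : ℕ) : Kernel ((_ : Finset.Iic n) → S) S :=
  ⟨fun h => K (h ⟨n, Finset.mem_Iic.2 le_rfl⟩), measurable_of_countable _⟩

instance histK.instMarkov (K : S → Measure S) [∀ s, IsProbabilityMeasure (K s)] (n : ℕ) :
    IsMarkovKernel (histK K n) :=
  ⟨fun h => inferInstanceAs (IsProbabilityMeasure (K (h ⟨n, Finset.mem_Iic.2 le_rfl⟩)))⟩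

/-- The law of the chain with transition probabilities `K` started at `s`. -/
noncomputable def chainLaw (K : S → Measure S) [∀ s, IsProbabilityMeasure (K s)] (s : S) :
    Measure (SPath S) :=
  Kernel.trajMeasure (X := fun _ : ℕ => S) (Measure.dirac s) (histK K)

/-- weight of the first `n` steps. -/
noncomputable def wt (K : S → Measure S) (γ : SPath S) (n : ℕ) : ℝ≥0∞ :=
  ∏ i ∈ Finset.range n, K (γ i) {γ (i + 1)}

variable (K : S → Measure S) [∀ s, IsProbabilityMeasure (K s)]

instance instProbChain (s : S) : IsProbabilityMeasure (chainLaw K s) := by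
  unfold chainLaw
  infer_instance

lemma chain_map_zero (x : S) :
    (chainLaw K x).map (fun X : SPath S => X 0) = Measure.dirac x := by
  have h1 : (chainLaw K x).map (Preorder.frestrictLe 0)
      = (Measure.dirac x).map (MeasurableEquiv.piUnique (fun _ : Finset.Iic 0 => S)).symm := by
    rw [chainLaw, Kernel.trajMeasure, Measure.map_comp _ _ (by fun_prop),
      Kernel.traj_map_frestrictLe, Kernel.partialTraj_self, Measure.id_comp]
  have h2 : (fun X : SPath S => X 0)
      = (fun x : (i : Finset.Iic 0) → S => x ⟨0, by simp⟩) ∘ (Preorder.frestrictLe 0) := by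
    funext π; rfl
  rw [h2, ← Measure.map_map (measurable_pi_apply _) (by fun_prop), h1,
    Measure.map_map (measurable_pi_apply _) (by fun_prop)]
  have h3 : (fun x : (i : Finset.Iic 0) → S => x ⟨0, by simp⟩) ∘
      (MeasurableEquiv.piUnique (fun _ : Finset.Iic 0 => S)).symm = id := by
    funext y
    rfl
  exact (congrArg (fun f => Measure.map f (Measure.dirac x)) h3).trans Measure.map_id

lemma chain_cyl_zero (x : S) (γ : SPath S) [Decidable (γ 0 = x)] :
    chainLaw K x (cyl γ 0) = if γ 0 = x then 1 else 0 := by
  have h : cyl γ 0 = (fun X : SPath S => X 0) ⁻¹' {γ 0} := by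
    ext X
    simp [cyl, Agree]
  rw [h, ← Measure.map_apply (measurable_pi_apply 0) (measurableSet_singleton _),
    chain_map_zero, Measure.dirac_apply' _ (measurableSet_singleton _)]
  by_cases hx : γ 0 = x
  · simp [hx]
  · rw [if_neg hx, Set.indicator_of_notMem]
    simpa [eq_comm] using hx

lemma chain_cyl_succ (x : S) (γ : SPath S) (n : ℕ) :
    chainLaw K x (cyl γ (n + 1)) = chainLaw K x (cyl γ n) * K (γ n) {γ (n + 1)} := by
  set P := chainLaw K x with hP
  have hmap : P.map (Preorder.frestrictLe n) ⊗ₘ histK K n
      = P.map (fun X => (Preorder.frestrictLe n X, X (n + 1))) :=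
    Kernel.map_frestrictLe_trajMeasure_compProd_eq_map_trajMeasure
  have hfl : Measurable (Preorder.frestrictLe (π := fun _ : ℕ => S) n) := by fun_prop
  let h0 : (i : Finset.Iic n) → S := Preorder.frestrictLe (π := fun _ : ℕ => S) n γ
  have e1 : cyl γ (n + 1) = (fun X : SPath S => (Preorder.frestrictLe (π := fun _ : ℕ => S) n X,
      X (n + 1))) ⁻¹' ({h0} ×ˢ {γ (n + 1)}) := by
    ext X
    simp only [cyl, Agree, Set.mem_ofPred_eq, Set.mem_preimage, Set.mem_prod,
      Set.mem_singleton_iff, h0]
    constructor
    · intro h
      refine ⟨?_, h _ le_rfl⟩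
      funext i
      exact h i (by have := Finset.mem_Iic.1 i.2; omega)
    · rintro ⟨h1, h2⟩ i hi
      rcases Nat.lt_or_ge n i with hn | hn
      · have : i = n + 1 := by omega
        rw [this, h2]
      · exact congrFun h1 ⟨i, Finset.mem_Iic.2 hn⟩
  have e2 : cyl γ n = Preorder.frestrictLe (π := fun _ : ℕ => S) n ⁻¹' {h0} := by
    ext X
    simp only [cyl, Agree, Set.mem_ofPred_eq, Set.mem_preimage, Set.mem_singleton_iff, h0]
    constructor
    · intro h
      funext i
      exact h i (Finset.mem_Iic.1 i.2)
    · intro h i hi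
      exact congrFun h ⟨i, Finset.mem_Iic.2 hi⟩
  have hs : MeasurableSet ({h0} : Set ((i : Finset.Iic n) → S)) := measurableSet_singleton _
  have hs2 : MeasurableSet ({γ (n + 1)} : Set S) := measurableSet_singleton _
  rw [e1, ← Measure.map_apply (by fun_prop) (hs.prod hs2), ← hmap,
    Measure.compProd_apply_prod hs hs2, e2, ← Measure.map_apply hfl hs]
  rw [Measure.restrict_singleton, lintegral_smul_measure, lintegral_dirac]
  rfl

/-- **cylinder formula** -/
theorem chain_cyl (x : S) (γ : SPath S) (n : ℕ) [Decidable (γ 0 = x)] :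
    chainLaw K x (cyl γ n) = if γ 0 = x then wt K γ n else 0 := by
  induction n with
  | zero => rw [chain_cyl_zero]; simp [wt]
  | succ n ih =>
    rw [chain_cyl_succ, ih, wt, wt, Finset.prod_range_succ]
    by_cases hx : γ 0 = x <;> simp [hx]

omit [Countable S] [MeasurableSingletonClass S] [∀ s, IsProbabilityMeasure (K s)] in
lemma wt_agree {γ δ : SPath S} {n : ℕ} (h : Agree n γ δ) : wt K γ n = wt K δ n := by
  unfold wt
  refine Finset.prod_congr rfl fun i hi => ?_
  have hi' := Finset.mem_range.1 hi
  rw [h i (by omega), h (i + 1) (by omega)]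

omit [Countable S] [MeasurableSingletonClass S] [∀ s, IsProbabilityMeasure (K s)] in
lemma wt_add (γ : SPath S) (n m : ℕ) :
    wt K γ (n + m) = wt K γ n * wt K (shift n γ) m := by
  unfold wt shift
  rw [Finset.prod_range_add]
  rfl

/-- **Markov property at time `n` on a cylinder (measure form)** -/
theorem markov_cyl (x : S) (γ : SPath S) (n : ℕ) :
    ((chainLaw K x).restrict (cyl γ n)).map (shift n)
      = chainLaw K x (cyl γ n) • chainLaw K (γ n) := by
  classical
  have : IsFiniteMeasure (((chainLaw K x).restrict (cyl γ n)).map (shift n)) :=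
    inferInstance
  have : IsFiniteMeasure (chainLaw K x (cyl γ n) • chainLaw K (γ n)) := by
    refine ⟨?_⟩
    simp only [Measure.smul_apply, measure_univ, smul_eq_mul, mul_one]
    exact measure_lt_top _ _
  refine measure_ext_cyl fun δ m => ?_
  rw [Measure.map_apply (measurable_shift n) (measurableSet_cyl δ m),
    Measure.restrict_apply (measurable_shift n (measurableSet_cyl δ m)), Measure.smul_apply,
    smul_eq_mul]
  by_cases h : δ 0 = γ n
  · have hsp : shift n ⁻¹' cyl δ m ∩ cyl γ n = cyl (splice n γ δ) (n + m) := by
      ext X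
      simp only [Set.mem_inter_iff, Set.mem_preimage, cyl, Set.mem_ofPred_eq, Agree, shift, splice]
      constructor
      · rintro ⟨h1, h2⟩ i hi
        by_cases hin : i < n
        · rw [if_pos hin]; exact h2 i hin.le
        · rw [if_neg hin, ← h1 (i - n) (by omega)]
          congr 1; omega
      · intro hX
        refine ⟨fun i hi => ?_, fun i hi => ?_⟩
        · rw [hX (n + i) (by omega), if_neg (by omega)]
          congr 1; omega
        · rcases Nat.lt_or_ge i n with hin | hin
          · rw [hX i (by omega), if_pos hin]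
          · have : i = n := by omega
            subst this
            rw [hX i (by omega), if_neg (by omega)]
            simpa using h
    rw [hsp, chain_cyl, chain_cyl, chain_cyl, if_pos h, wt_add, shift_splice]
    have h1 : wt K (splice n γ δ) n = wt K γ n := by
      refine wt_agree K ?_
      intro i hi
      rcases Nat.lt_or_ge i n with hin | hin
      · simp [splice, hin]
      · have : i = n := by omega
        subst this
        simp [splice, h]
    rw [h1]
    have h2 : splice n γ δ 0 = γ 0 := by
      rcases Nat.eq_zero_or_pos n with rfl | hn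
      · simp [splice, h]
      · simp [splice, hn]
    rw [h2]
    by_cases hx : γ 0 = x <;> simp [hx]
  · have hsp : shift n ⁻¹' cyl δ m ∩ cyl γ n = ∅ := by
      ext X
      simp only [Set.mem_inter_iff, Set.mem_preimage, cyl, Set.mem_ofPred_eq, Agree, shift,
        Set.mem_empty_iff_false, iff_false, not_and]
      intro h1 h2
      apply h
      rw [← h1 0 (Nat.zero_le _), ← h2 n le_rfl]
      rfl
    rw [hsp, chain_cyl K (γ n) δ m, if_neg h]
    simp

/-- **Markov property at time `n`, integral form.** -/
theorem markov_time (x : S) (n : ℕ) (G : SPath S → ℝ≥0∞)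
    (hG : ∀ X Y, Agree n X Y → G X = G Y) (F : SPath S → ℝ≥0∞) (hF : Measurable F) :
    ∫⁻ X, G X * F (shift n X) ∂(chainLaw K x)
      = ∫⁻ X, G X * (∫⁻ Y, F Y ∂(chainLaw K (X n))) ∂(chainLaw K x) := by
  have hdec : ∀ H : SPath S → ℝ≥0∞, Measurable H →
      ∫⁻ X, G X * H X ∂(chainLaw K x)
        = ∑' h : Fin (n + 1) → S, G (ext n h) *
            ∫⁻ X in cyl (ext n h) n, H X ∂(chainLaw K x) := by
    intro H hH
    have hu : (Set.univ : Set (SPath S)) = ⋃ h : Fin (n + 1) → S, cyl (ext n h) n := by
      ext X
      simp only [Set.mem_univ, Set.mem_iUnion, true_iff]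
      exact ⟨hist n X, ext_hist n X⟩
    have hd : Pairwise (Function.onFun Disjoint
        fun h : Fin (n + 1) → S => cyl (ext n h) n) := by
      intro h h' hne
      rw [Function.onFun, Set.disjoint_left]
      intro X hX hX'
      rw [mem_cyl_ext_iff] at hX hX'
      exact hne (hX.symm.trans hX')
    rw [← setLIntegral_univ, hu, lintegral_iUnion (fun _ => measurableSet_cyl _ _) hd]
    refine tsum_congr fun h => ?_
    rw [← lintegral_const_mul _ hH]
    refine setLIntegral_congr_fun (measurableSet_cyl _ _) fun X hX => ?_
    rw [hG X (ext n h) hX]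
  rw [hdec (fun X => F (shift n X)) (hF.comp (measurable_shift n)), hdec _ ?_]
  · refine tsum_congr fun h => ?_
    congr 1
    have h1 : ∫⁻ X in cyl (ext n h) n, F (shift n X) ∂(chainLaw K x)
        = ∫⁻ Y, F Y ∂(((chainLaw K x).restrict (cyl (ext n h) n)).map (shift n)) := by
      rw [lintegral_map hF (measurable_shift n)]
    rw [h1, markov_cyl, lintegral_smul_measure]
    have h2 : ∫⁻ X in cyl (ext n h) n, (∫⁻ Y, F Y ∂(chainLaw K (X n))) ∂(chainLaw K x)
        = ∫⁻ _ in cyl (ext n h) n, (∫⁻ Y, F Y ∂(chainLaw K (ext n h n))) ∂(chainLaw K x) := by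
      refine setLIntegral_congr_fun (measurableSet_cyl _ _) fun X hX => ?_
      rw [hX n le_rfl]
    rw [h2, setLIntegral_const, mul_comm]
    rfl
  · exact measurable_of_agree n _ fun X Y h => by rw [h n le_rfl]

/-- the law of the first step. -/
lemma chain_map_one (x : S) : (chainLaw K x).map (fun X : SPath S => X 1) = K x := by
  classical
  refine Measure.ext_of_singleton fun t => ?_
  rw [Measure.map_apply (measurable_pi_apply 1) (measurableSet_singleton _)]
  set γ : SPath S := fun i => if i = 0 then x else t with hγ
  have h0 : chainLaw K x {X : SPath S | X 0 = x}ᶜ = 0 := by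
    have h := chain_map_zero K x
    have h1 : (chainLaw K x).map (fun X : SPath S => X 0) {x}ᶜ = 0 := by
      rw [h, Measure.dirac_apply' _ (measurableSet_singleton _).compl]
      simp
    rw [Measure.map_apply (measurable_pi_apply 0) (measurableSet_singleton _).compl] at h1
    exact h1
  have h1 : chainLaw K x ((fun X : SPath S => X 1) ⁻¹' {t}) = chainLaw K x (cyl γ 1) := by
    refine measure_congr ?_
    have h2 : ∀ᵐ X ∂(chainLaw K x), X 0 = x := by
      rw [ae_iff]
      exact h0
    filter_upwards [h2] with X hX
    refine propext ?_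
    change X 1 ∈ ({t} : Set S) ↔ Agree 1 X γ
    constructor
    · intro h i hi
      interval_cases i
      · simpa [hγ] using hX
      · simpa [hγ] using h
    · intro h
      simpa [hγ] using h 1 le_rfl
  rw [h1, chain_cyl]
  simp [hγ, wt]

/-! ### lumping -/

omit [Countable S] [MeasurableSingletonClass S] [∀ s, IsProbabilityMeasure (K s)] in
lemma measurable_mapPath {S' : Type*} [MeasurableSpace S'] {f : S → S'} (hf : Measurable f) :
    Measurable (fun (X : SPath S) (n : ℕ) => f (X n)) :=
  measurable_pi_lambda _ fun n => hf.comp (measurable_pi_apply n)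

/-- **Lumping**: the image of a chain under a map `f` of the state space which intertwines the transition
probabilities is the chain of the image. -/
theorem chainLaw_map {S' : Type*} [MeasurableSpace S'] [Countable S'] [MeasurableSingletonClass S']
    (K' : S' → Measure S') [∀ s, IsProbabilityMeasure (K' s)] (f : S → S') (hf : Measurable f)
    (hK : ∀ s, (K s).map f = K' (f s)) (x : S) :
    (chainLaw K x).map (fun (X : SPath S) (n : ℕ) => f (X n)) = chainLaw K' (f x) := by
  classical
  have hm := measurable_mapPath (S := S) hf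
  have : IsProbabilityMeasure ((chainLaw K x).map (fun (X : SPath S) (n : ℕ) => f (X n))) :=
    Measure.isProbabilityMeasure_map hm.aemeasurable
  refine measure_ext_cyl fun γ n => ?_
  rw [Measure.map_apply hm (measurableSet_cyl γ n), chain_cyl]
  induction n with
  | zero =>
    have h : (fun (X : SPath S) (n : ℕ) => f (X n)) ⁻¹' cyl γ 0
        = (fun X : SPath S => X 0) ⁻¹' (f ⁻¹' {γ 0}) := by
      ext X
      simp [cyl, Agree]
    rw [h, ← Measure.map_apply (measurable_pi_apply 0) (hf (measurableSet_singleton _)),
      chain_map_zero, Measure.dirac_apply' _ (hf (measurableSet_singleton _))]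
    by_cases hx : γ 0 = f x
    · simp [hx, wt]
    · rw [if_neg hx, Set.indicator_of_notMem]
      simpa [eq_comm] using hx
  | succ n ih =>
    set A : Set (SPath S) := (fun (X : SPath S) (n : ℕ) => f (X n)) ⁻¹' cyl γ n with hA
    have hAm : MeasurableSet A := hm (measurableSet_cyl γ n)
    set B : Set (SPath S) := {Y | f (Y 1) = γ (n + 1)} with hB
    have hBm : MeasurableSet B := (hf.comp (measurable_pi_apply 1)) (measurableSet_singleton _)
    have e1 : (fun (X : SPath S) (n : ℕ) => f (X n)) ⁻¹' cyl γ (n + 1) = A ∩ shift n ⁻¹' B := by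
      ext X
      simp only [cyl, Agree, hA, hB, Set.mem_preimage, Set.mem_ofPred_eq, Set.mem_inter_iff, shift]
      constructor
      · intro h
        exact ⟨fun i hi => h i (by omega), h (n + 1) le_rfl⟩
      · rintro ⟨h1, h2⟩ i hi
        rcases Nat.lt_or_ge n i with hn | hn
        · have : i = n + 1 := by omega
          rw [this, h2]
        · exact h1 i hn
    have e2 : ∀ X : SPath S, (A ∩ shift n ⁻¹' B).indicator (1 : SPath S → ℝ≥0∞) X
        = A.indicator 1 X * B.indicator 1 (shift n X) := by
      intro X
      by_cases h1 : X ∈ A <;> by_cases h2 : shift n X ∈ B <;>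
        simp [Set.indicator, h1, h2]
    have h1 := markov_time K x n (A.indicator 1) (by
      intro X Y hXY
      have : X ∈ A ↔ Y ∈ A := by
        simp only [hA, cyl, Agree, Set.mem_preimage, Set.mem_ofPred_eq]
        constructor
        · intro h i hi; rw [← hXY i hi]; exact h i hi
        · intro h i hi; rw [hXY i hi]; exact h i hi
      by_cases hx : X ∈ A
      · have hy := this.1 hx
        simp [Set.indicator, hx, hy]
      · have hy : Y ∉ A := fun h => hx (this.2 h)
        simp [Set.indicator, hx, hy]) (B.indicator 1)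
      (measurable_one.indicator hBm)
    have h2 : chainLaw K x (A ∩ shift n ⁻¹' B)
        = ∫⁻ X, A.indicator 1 X * B.indicator 1 (shift n X) ∂(chainLaw K x) := by
      rw [← lintegral_indicator_one (hAm.inter (measurable_shift n hBm))]
      exact lintegral_congr e2
    have h3 : ∀ s : S, ∫⁻ Y, B.indicator 1 Y ∂(chainLaw K s) = K' (f s) {γ (n + 1)} := by
      intro s
      rw [lintegral_indicator_one hBm, ← hK, Measure.map_apply hf (measurableSet_singleton _),
        ← chain_map_one K s, Measure.map_apply (measurable_pi_apply 1)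
          (hf (measurableSet_singleton _))]
      rfl
    rw [e1, h2, h1]
    have h4 : ∀ X : SPath S, A.indicator (1 : SPath S → ℝ≥0∞) X *
        ∫⁻ Y, B.indicator 1 Y ∂(chainLaw K (X n)) = K' (γ n) {γ (n + 1)} * A.indicator 1 X := by
      intro X
      by_cases hx : X ∈ A
      · have : f (X n) = γ n := hx n le_rfl
        rw [h3, this]
        simp [Set.indicator, hx]
      · simp [Set.indicator, hx]
    rw [lintegral_congr h4, lintegral_const_mul _ (measurable_one.indicator hAm),
      lintegral_indicator_one hAm, ih, wt, wt, Finset.prod_range_succ]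
    by_cases hx : γ 0 = f x
    · simp [hx, mul_comm]
    · simp [hx]

end meas

end Crest.Agent.R154.Chain247
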