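import Crest.Agent.R154.B6Same_872

/-! R154, TILE_RUN, T4 (L) (helper568), abstract part: the number of joint visits of a set of pair
states (same cell) by two natural walkers in the SAME environment is bounded, if (KR) a late first
contact is unlikely and (A') the number of visits without contact is bounded. -/

set_option autoImplicit false
set_option linter.unusedSectionVars false
set_option linter.deprecated false

open MeasureTheory Set Filter Topology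
open scoped BigOperators

namespace Crest.Agent.R154.CollA568

open Crest.Agent.R154.B6_833
open Crest.Agent.R154.B6_833.PairSys

variable {S Ω : Type*} [MeasurableSpace S] [mΩ : MeasurableSpace Ω] {A : PairSys S Ω}

/-- fresh restart with a landing set -/
def FPD (A : PairSys S Ω) : Prop :=
  ∀ (D : Set S) (s : S) (j L n : ℕ), j ≤ L → L ≤ n → ∀ B : Set Ω, MeasurableSet[A.F j] B →
    B ⊆ A.al j →
    (A.P s).real (B ∩ (A.N j n ∩ A.nocs j L ∩ A.st n ⁻¹' D))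
      = ∫ ω in B, (A.P (A.st j ω)).real (A.N 0 (n - j) ∩ A.nocs 0 (L - j) ∩ A.st (n - j) ⁻¹' D)
          ∂(A.P s)

/-- the grid levels up to `n` -/
def gr (N₁ o n : ℕ) : Finset ℕ := (Finset.range (n+1)).filter fun t => N₁ ∣ t + o

lemma mem_gr {N₁ o n t : ℕ} : t ∈ gr N₁ o n ↔ t ≤ n ∧ N₁ ∣ t + o := by
  simp [gr, Nat.lt_succ_iff]

lemma card_lt {N₁ : ℕ} (hN : 1 ≤ N₁) (o n K : ℕ) :
    ((gr N₁ o n).filter (fun t => t < K * N₁)).card ≤ K := by
  have : ((gr N₁ o n).filter (fun t => t < K * N₁)).card ≤ (Finset.range K).card := by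
    refine Finset.card_le_card_of_injOn (fun t => t / N₁) ?_ ?_
    · intro t ht
      have ht' := Finset.mem_filter.1 ht
      simp only [Finset.coe_range, Set.mem_Iio]
      exact Nat.div_lt_of_lt_mul (by rw [mul_comm]; exact ht'.2)
    · intro t ht t' ht' h
      have h1 := (mem_gr.1 (Finset.mem_filter.1 ht).1).2
      have h2 := (mem_gr.1 (Finset.mem_filter.1 ht').1).2
      simp only at h
      have h3 : t % N₁ = t' % N₁ := by
        have e1 : (t + o) ≡ (t' + o) [MOD N₁] := by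
          rw [Nat.ModEq, Nat.mod_eq_zero_of_dvd h1, Nat.mod_eq_zero_of_dvd h2]
        exact Nat.ModEq.add_right_cancel' o e1
      rw [← Nat.div_add_mod t N₁, ← Nat.div_add_mod t' N₁, h, h3]
  simpa using this

variable [DiscreteMeasurableSpace S]
  {a : ℕ} {c₁ cₑ p : ℝ} {β h : ℕ → ℝ} {Far : ℕ → Set S} {χ : ℕ → S → ℝ}

/-- restarts at the levels `i`, summed over the grid -/
lemma sum_restart {n N₁ : ℕ} (s : S) (f : ℕ → S → ℝ) (C : ℝ) (hf0 : ∀ t s, 0 ≤ f t s)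
    (hf1 : ∀ t s, f t s ≤ 1) (hC : ∀ s o, ∑ t ∈ gr N₁ o n, f t s ≤ C) (o l : ℕ)
    (B : ℕ → Set Ω) (hB : ∀ i, MeasurableSet (B i)) :
    ∑ t ∈ gr N₁ o n, ∑ i ∈ Finset.Icc l t, ∫ ω in B i, f (t - i) (A.st i ω) ∂(A.P s)
      ≤ C * ∑ i ∈ Finset.Icc l n, (A.P s).real (B i) := by
  have := A.prob s
  have hint : ∀ t i, Integrable (fun ω => f t (A.st i ω)) (A.P s) := fun t i =>
    integ_st s i (f t) 1 fun x => by rw [abs_of_nonneg (hf0 t x)]; exact hf1 t x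
  have e : ∑ t ∈ gr N₁ o n, ∑ i ∈ Finset.Icc l t, ∫ ω in B i, f (t - i) (A.st i ω) ∂(A.P s)
      = ∑ i ∈ Finset.Icc l n, ∑ t ∈ (gr N₁ o n).filter (fun t => i ≤ t),
          ∫ ω in B i, f (t - i) (A.st i ω) ∂(A.P s) := by
    refine Finset.sum_comm' ?_
    intro t i
    simp only [Finset.mem_Icc, Finset.mem_filter, mem_gr]
    constructor
    · rintro ⟨⟨h1, h2⟩, h3, h4⟩; exact ⟨⟨⟨h1, h2⟩, h4⟩, h3, h4.trans h1⟩
    · rintro ⟨⟨⟨h1, h2⟩, h4⟩, h3, _⟩; exact ⟨⟨h1, h2⟩, h3, h4⟩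
  rw [e, Finset.mul_sum]
  refine Finset.sum_le_sum fun i _ => ?_
  rw [← integral_finset_sum _ (fun t _ => (hint (t - i) i).integrableOn)]
  have hpt : ∀ x : S, ∑ t ∈ (gr N₁ o n).filter (fun t => i ≤ t), f (t - i) x ≤ C := by
    intro x
    refine le_trans ?_ (hC x (o + i))
    have e1 : ∑ t ∈ (gr N₁ o n).filter (fun t => i ≤ t), f (t - i) x
        = ∑ t' ∈ ((gr N₁ o n).filter (fun t => i ≤ t)).image (fun t => t - i), f t' x := by
      rw [Finset.sum_image]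
      intro t ht t' ht' hh
      have h1 := (Finset.mem_filter.1 ht).2
      have h2 := (Finset.mem_filter.1 ht').2
      simp only at hh h1 h2
      omega
    rw [e1]
    refine Finset.sum_le_sum_of_subset_of_nonneg ?_ (fun t _ _ => hf0 t x)
    intro t' ht'
    obtain ⟨t, ht, rfl⟩ := Finset.mem_image.1 ht'
    obtain ⟨h1, h2⟩ := Finset.mem_filter.1 ht
    obtain ⟨h3, h4⟩ := mem_gr.1 h1
    refine mem_gr.2 ⟨by omega, ?_⟩
    have : t - i + (o + i) = t + o := by omega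
    rw [this]; exact h4
  calc ∫ ω in B i, ∑ t ∈ (gr N₁ o n).filter (fun t => i ≤ t), f (t - i) (A.st i ω) ∂(A.P s)
      ≤ ∫ ω in B i, C ∂(A.P s) := by
        refine setIntegral_mono_on ?_ (integrable_const _).integrableOn (hB i)
          (fun ω _ => hpt _)
        exact (integrable_finset_sum _ fun t _ => hint (t - i) i).integrableOn
    _ = C * (A.P s).real (B i) := by rw [setIntegral_const, smul_eq_mul, mul_comm]

lemma none_eq_killed {l i n : ℕ} (hin : i ≤ n) {ω : Ω} (hN : ω ∈ A.N i n)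
    (hk : ω ∈ A.killed l i) : ∀ j, l ≤ j → j < i → ω ∉ A.N j n :=
  fun j h1 h2 h3 => hk j h1 h2 (A.N_left j i n h2.le hin ω h3)

/-- the possible restart levels after `l` -/
lemma starts (H : A.Hyp a c₁ cₑ β h p Far χ) (s : S) {l n : ℕ} (B : Set Ω)
    (hB : MeasurableSet[A.F l] B) :
    c₁ * ∑ i ∈ Finset.Icc l n, (A.P s).real (B ∩ (A.killed l i ∩ A.al i)) ≤ (A.P s).real B := by
  have := A.prob s
  have hm : ∀ i, l ≤ i → MeasurableSet[A.F i] (B ∩ (A.killed l i ∩ A.al i)) := fun i hi =>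
    MeasurableSet.inter (A.F_mono l i hi _ hB) (MeasurableSet.inter (killed_meas l i) (A.al_meas i))
  rw [Finset.mul_sum]
  calc ∑ i ∈ Finset.Icc l n, c₁ * (A.P s).real (B ∩ (A.killed l i ∩ A.al i))
      ≤ ∑ i ∈ Finset.Icc l n, (A.P s).real ((B ∩ (A.killed l i ∩ A.al i)) ∩ A.N i n) := by
        refine Finset.sum_le_sum fun i hi => ?_
        rw [Finset.mem_Icc] at hi
        exact lowerN H s i n hi.2 _ (hm i hi.1) (fun ω hω => hω.2.2)
    _ ≤ (A.P s).real B := by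
        refine sum_disj_le _ _ _ (fun i hi => ?_) (fun i _ ω hω => hω.1.1) ?_
        · rw [Finset.mem_Icc] at hi
          exact (meas i (hm i hi.1)).inter (N_measΩ i n hi.2)
        · intro i hi j hj hij ω h1 h2
          rw [Finset.mem_Icc] at hi hj
          exact none_eq_killed hj.2 h2.2 h2.1.2.1 i hi.1 hij h1.2

/-- first restart level -/
lemma exists_first {l t n : ℕ} (hlt : l ≤ t) (htn : t ≤ n) {ω : Ω} (hN : ω ∈ A.N t n) :
    ∃ i, l ≤ i ∧ i ≤ t ∧ ω ∈ A.N i n ∧ ω ∈ A.killed l i := by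
  classical
  have hex : ∃ i, l ≤ i ∧ ω ∈ A.N i n := ⟨t, hlt, hN⟩
  obtain ⟨h1, h2⟩ := Nat.find_spec hex
  have h3 : Nat.find hex ≤ t := Nat.find_min' hex ⟨hlt, hN⟩
  refine ⟨Nat.find hex, h1, h3, h2, ?_⟩
  intro i hi hi' hNi
  exact Nat.find_min hex hi' ⟨hi, A.N_trans i (Nat.find hex) n hi'.le (h3.trans htn) ω hNi h2⟩

/-- **restart after an event of level `l`** -/
lemma restart_sum (H : A.Hyp a c₁ cₑ β h p Far χ) (hF : FPD A) {n N₁ : ℕ} (D : Set S) (G : ℝ)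
    (hG0 : 0 ≤ G)
    (hG : ∀ s o, ∑ t ∈ gr N₁ o n, (A.P s).real (A.N 0 t ∩ A.st t ⁻¹' D) ≤ G)
    (s : S) (o l : ℕ) (B : Set Ω) (hB : MeasurableSet[A.F l] B) :
    ∑ t ∈ (gr N₁ o n).filter (fun t => l ≤ t),
      (A.P s).real (B ∩ ((A.N 0 t ∩ A.st t ⁻¹' D) ∩ A.N t n)) ≤ G / c₁ * (A.P s).real B := by
  have := A.prob s
  have hc := H.c₁pos
  set Bi : ℕ → Set Ω := fun i => B ∩ (A.killed l i ∩ A.al i) with hBi
  have hBm : ∀ i, l ≤ i → MeasurableSet[A.F i] (Bi i) := fun i hi =>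
    MeasurableSet.inter (A.F_mono l i hi _ hB) (MeasurableSet.inter (killed_meas l i) (A.al_meas i))
  have hBΩ : ∀ i, MeasurableSet (Bi i) := fun i =>
    (meas l hB).inter ((meas i (killed_meas l i)).inter (meas i (A.al_meas i)))
  set f : ℕ → S → ℝ := fun t x => (A.P x).real (A.N 0 t ∩ A.nocs 0 0 ∩ A.st t ⁻¹' D) with hf
  have hf0 : ∀ t x, 0 ≤ f t x := fun t x => measureReal_nonneg
  have hf1 : ∀ t x, f t x ≤ 1 := fun t x => by have := A.prob x; exact measureReal_le_one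
  have hfe : ∀ t x, f t x = (A.P x).real (A.N 0 t ∩ A.st t ⁻¹' D) := by
    intro t x
    simp only [hf, nocs_self, inter_univ]
  have h1 : ∀ t ∈ (gr N₁ o n).filter (fun t => l ≤ t),
      (A.P s).real (B ∩ ((A.N 0 t ∩ A.st t ⁻¹' D) ∩ A.N t n))
        ≤ ∑ i ∈ Finset.Icc l t, ∫ ω in Bi i, f (t - i) (A.st i ω) ∂(A.P s) := by
    intro t ht
    obtain ⟨ht1, hlt⟩ := Finset.mem_filter.1 ht
    have htn := (mem_gr.1 ht1).1
    have hcov : B ∩ ((A.N 0 t ∩ A.st t ⁻¹' D) ∩ A.N t n) ⊆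
        ⋃ i ∈ Finset.Icc l t, (Bi i ∩ (A.N i t ∩ A.nocs i i ∩ A.st t ⁻¹' D)) := by
      rintro ω ⟨hωB, ⟨_, hD⟩, hNt⟩
      obtain ⟨i, hi1, hi2, hNi, hk⟩ := exists_first hlt htn hNt
      refine mem_biUnion (x := i) (by simp [hi1, hi2]) ⟨⟨hωB, hk, ?_⟩, ⟨?_, ?_⟩, hD⟩
      · exact A.al_anti i n (hi2.trans htn) (A.N_al i n (hi2.trans htn) hNi)
      · exact A.N_left i t n hi2 htn ω hNi
      · rw [nocs_self]; trivial
    refine (measureReal_mono hcov (measure_ne_top _ _)).trans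
      ((measureReal_biUnion_finset_le _ _).trans (Finset.sum_le_sum fun i hi => ?_))
    rw [Finset.mem_Icc] at hi
    rw [hF D s i i t le_rfl hi.2 (Bi i) (hBm i hi.1) (fun ω hω => hω.2.2), Nat.sub_self]
  have h2 : ∑ t ∈ (gr N₁ o n).filter (fun t => l ≤ t),
      (A.P s).real (B ∩ ((A.N 0 t ∩ A.st t ⁻¹' D) ∩ A.N t n))
      ≤ ∑ t ∈ gr N₁ o n, ∑ i ∈ Finset.Icc l t, ∫ ω in Bi i, f (t - i) (A.st i ω) ∂(A.P s) := by
    refine (Finset.sum_le_sum h1).trans (Finset.sum_le_sum_of_subset_of_nonneg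
      (Finset.filter_subset _ _) fun t _ _ => Finset.sum_nonneg fun i _ => ?_)
    exact integral_nonneg fun ω => hf0 _ _
  have h3 := sum_restart (A := A) (N₁ := N₁) (n := n) s f G hf0 hf1
    (fun x o => by simp only [hfe]; exact hG x o) o l Bi hBΩ
  have h4 := starts H s (l := l) (n := n) B hB
  have h5 : ∑ i ∈ Finset.Icc l n, (A.P s).real (Bi i) ≤ (A.P s).real B / c₁ := by
    rw [le_div_iff₀ hc, mul_comm]; exact h4
  refine (h2.trans h3).trans ((mul_le_mul_of_nonneg_left h5 hG0).trans (le_of_eq ?_))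
  ring

/-- the first restart level after `M`, natural before -/
def Bs (A : PairSys S Ω) (M j : ℕ) : Set Ω := A.N 0 j ∩ A.killed M j

/-- first contact stage after the first restart level is `l` -/
def Dl (A : PairSys S Ω) (M l : ℕ) : Set Ω :=
  ⋃ j ∈ Finset.Ico M l, (Bs A M j ∩ (A.N j l ∩ A.nocs j (l - 1) ∩ A.cs l))

lemma Bs_meas (M j : ℕ) : MeasurableSet[A.F j] (Bs A M j) :=
  MeasurableSet.inter (A.N_meas 0 j (Nat.zero_le _)) (killed_meas M j)

lemma Bs_al (M j : ℕ) : Bs A M j ⊆ A.al j := fun _ hω => A.N_al 0 j (Nat.zero_le _) hω.1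

lemma Dl_meas (M l : ℕ) : MeasurableSet[A.F l] (Dl A M l) := by
  refine MeasurableSet.biUnion (Finset.countable_toSet _) ?_
  intro j hj
  rw [Finset.mem_coe, Finset.mem_Ico] at hj
  refine MeasurableSet.inter (A.F_mono j l hj.2.le _ (Bs_meas M j))
    (MeasurableSet.inter (MeasurableSet.inter (A.N_meas j l hj.2.le) ?_) (A.cs_meas l))
  exact A.F_mono (l-1) l (by omega) _ (nocs_meas j (l-1))

lemma Dl_al (M l : ℕ) : Dl A M l ⊆ A.al l := by
  intro ω hω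
  obtain ⟨j, hj, h⟩ := mem_iUnion₂.1 hω
  rw [Finset.mem_Ico] at hj
  exact A.N_al j l hj.2.le h.2.1.1

/-- the event of a late contact -/
def Bad (A : PairSys S Ω) (M n : ℕ) : Set Ω :=
  (A.al M ∩ (A.none n M (M + M) ∩ A.al n)) ∪ A.LateG M (4*M) ∪
    ⋃ j ∈ Finset.Icc M (2*M), ((Bs A M j ∩ (A.N j n ∩ A.nocs j (4*M))) \
      (Bs A M j ∩ (A.N j n ∩ A.nocs j n)))

lemma Dl_bad {M l n : ℕ} (hM : 4*M ≤ n) (hl : l ≤ n) : Dl A M l ∩ A.N l n ⊆ Bad A M n := by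
  rintro ω ⟨h1, h2⟩
  obtain ⟨j, hj, hB, ⟨hjl, hno⟩, hcs⟩ := mem_iUnion₂.1 h1
  rw [Finset.mem_Ico] at hj
  have hjn : ω ∈ A.N j n := A.N_trans j l n hj.2.le hl ω hjl h2
  have hjn' : j ≤ n := hj.2.le.trans hl
  have h0n : ω ∈ A.N 0 n := A.N_trans 0 j n (Nat.zero_le _) hjn' ω hB.1 hjn
  have haln : ω ∈ A.al n := A.N_al 0 n (Nat.zero_le _) h0n
  by_cases hj2 : j ≤ 2*M
  · by_cases hc : ω ∈ A.nocs j (4*M)
    · refine Or.inr (mem_biUnion (x := j) (by simp [hj.1, hj2]) ⟨⟨hB, hjn, hc⟩, ?_⟩)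
      rintro ⟨_, _, h3⟩
      exact h3 l hj.2 hl hcs
    · refine Or.inl (Or.inr ⟨A.N_left 0 (4*M) n (Nat.zero_le _) hM ω h0n, ?_⟩)
      unfold PairSys.nocs at hc
      simp only [Set.mem_ofPred_eq] at hc
      push Not at hc
      obtain ⟨l', h3, h4, h5⟩ := hc
      exact ⟨l', lt_of_le_of_lt hj.1 h3, h4, h5⟩
  · refine Or.inl (Or.inl ⟨A.al_anti M n (by omega) haln, ?_, haln⟩)
    intro i hi1 hi2
    exact none_eq_killed hjn' hjn hB.2 i hi1 (by omega)

lemma Dl_disj {M l l' n : ℕ} (hl : l < l') (hl' : l' ≤ n) (ω : Ω) (h1 : ω ∈ Dl A M l ∩ A.N l n)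
    (h2 : ω ∈ Dl A M l' ∩ A.N l' n) : False := by
  obtain ⟨h1, h1'⟩ := h1
  obtain ⟨h2, h2'⟩ := h2
  obtain ⟨j, hj, hB, ⟨hjl, hno⟩, hcs⟩ := mem_iUnion₂.1 h1
  obtain ⟨j', hj', hB', ⟨hjl', hno'⟩, hcs'⟩ := mem_iUnion₂.1 h2
  rw [Finset.mem_Ico] at hj hj'
  have hjn : ω ∈ A.N j n := A.N_trans j l n hj.2.le (hl.le.trans hl') ω hjl h1'
  have hjn' : ω ∈ A.N j' n := A.N_trans j' l' n hj'.2.le hl' ω hjl' h2'
  have hjj : j = j' := by
    rcases lt_trichotomy j j' with h | h | h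
    · exact absurd hjn (none_eq_killed (hj'.2.le.trans hl') hjn' hB'.2 j hj.1 h)
    · exact h
    · exact absurd hjn' (none_eq_killed (hj.2.le.trans (hl.le.trans hl')) hjn hB.2 j' hj'.1 h)
  subst hjj
  exact hno' l hj.2 (by omega) hcs

/-- total mass of the restart levels -/
lemma sum_Bs (H : A.Hyp a c₁ cₑ β h p Far χ) (s : S) (M n : ℕ) :
    ∑ j ∈ Finset.Icc M n, (A.P s).real (Bs A M j) ≤ 1 / c₁ := by
  have := A.prob s
  have hc := H.c₁pos
  have h1 := starts H s (l := M) (n := n) (A.al M) (A.al_meas M)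
  have h2 : ∑ j ∈ Finset.Icc M n, (A.P s).real (Bs A M j) ≤
      ∑ i ∈ Finset.Icc M n, (A.P s).real (A.al M ∩ (A.killed M i ∩ A.al i)) := by
    refine Finset.sum_le_sum fun j hj => measureReal_mono ?_ (measure_ne_top _ _)
    rw [Finset.mem_Icc] at hj
    intro ω hω
    exact ⟨A.al_anti M j hj.1 (Bs_al M j hω), hω.2, Bs_al M j hω⟩
  have h3 : (A.P s).real (A.al M) ≤ 1 := measureReal_le_one
  rw [le_div_iff₀ hc, mul_comm]
  exact (mul_le_mul_of_nonneg_left h2 hc.le).trans (h1.trans h3)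

lemma bad_le (H : A.Hyp a c₁ cₑ β h p Far χ) {M n : ℕ} (hM : 4*M ≤ n) {δ ε η : ℝ} (s : S)
    (hδ : (A.P s).real (A.al M ∩ (A.none n M (M + M) ∩ A.al n)) ≤ δ)
    (hε : (A.P s).real (A.LateG M (4*M)) ≤ ε) (hη0 : 0 ≤ η)
    (hη : ∀ s, A.b (2*M) s - A.b n s ≤ η) :
    (A.P s).real (Bad A M n) ≤ δ + ε + η / c₁ := by
  have := A.prob s
  have hc := H.c₁pos
  refine (measureReal_union_le _ _).trans (add_le_add ((measureReal_union_le _ _).trans
    (add_le_add hδ hε)) ?_)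
  refine (measureReal_biUnion_finset_le _ _).trans ?_
  have h1 : ∀ j ∈ Finset.Icc M (2*M), (A.P s).real ((Bs A M j ∩ (A.N j n ∩ A.nocs j (4*M))) \
      (Bs A M j ∩ (A.N j n ∩ A.nocs j n))) ≤ η * (A.P s).real (Bs A M j) := by
    intro j hj
    rw [Finset.mem_Icc] at hj
    have hjn : j ≤ n := by omega
    have hBm := meas j (Bs_meas (A := A) M j)
    have hsub : Bs A M j ∩ (A.N j n ∩ A.nocs j n) ⊆ Bs A M j ∩ (A.N j n ∩ A.nocs j (4*M)) :=
      fun ω hω => ⟨hω.1, hω.2.1, nocs_anti hM hω.2.2⟩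
    rw [measureReal_diff hsub (hBm.inter ((N_measΩ j n hjn).inter (nocs_measΩ j n))),
      H.FP s j (4*M) n (by omega) hM _ (Bs_meas M j) (Bs_al M j),
      H.FP s j n n hjn le_rfl _ (Bs_meas M j) (Bs_al M j),
      ← integral_sub (integ_φ s j _ _).integrableOn (integ_φ s j _ _).integrableOn]
    calc _ ≤ ∫ ω in Bs A M j, η ∂(A.P s) := by
          refine setIntegral_mono_on ((integ_φ s j _ _).sub (integ_φ s j _ _)).integrableOn
            (integrable_const _).integrableOn hBm ?_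
          intro ω _
          have e1 : A.φ (n - j) (4*M - j) (A.st j ω) ≤ A.b (2*M) (A.st j ω) :=
            φ_anti _ (by omega) (by omega)
          have e2 : A.b n (A.st j ω) ≤ A.φ (n - j) (n - j) (A.st j ω) :=
            φ_anti _ (by omega) (by omega)
          have e3 := hη (A.st j ω)
          linarith
      _ = η * (A.P s).real (Bs A M j) := by rw [setIntegral_const, smul_eq_mul, mul_comm]
  refine (Finset.sum_le_sum h1).trans ?_
  rw [← Finset.mul_sum]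
  have h2 := sum_Bs H s M (2*M)
  calc η * ∑ j ∈ Finset.Icc M (2*M), (A.P s).real (Bs A M j) ≤ η * (1 / c₁) :=
        mul_le_mul_of_nonneg_left h2 hη0
    _ = η / c₁ := by ring

lemma sum_Dl (H : A.Hyp a c₁ cₑ β h p Far χ) {M n : ℕ} (hM : 4*M ≤ n) (s : S) :
    ∑ l ∈ Finset.Icc M n, (A.P s).real (Dl A M l) ≤ (A.P s).real (Bad A M n) / c₁ := by
  have := A.prob s
  have hc := H.c₁pos
  rw [le_div_iff₀ hc, mul_comm, Finset.mul_sum]
  calc ∑ l ∈ Finset.Icc M n, c₁ * (A.P s).real (Dl A M l)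
      ≤ ∑ l ∈ Finset.Icc M n, (A.P s).real (Dl A M l ∩ A.N l n) := by
        refine Finset.sum_le_sum fun l hl => ?_
        rw [Finset.mem_Icc] at hl
        exact lowerN H s l n hl.2 _ (Dl_meas M l) (Dl_al M l)
    _ ≤ (A.P s).real (Bad A M n) := by
        refine sum_disj_le _ _ _ (fun l hl => ?_) (fun l hl => ?_) ?_
        · rw [Finset.mem_Icc] at hl
          exact (meas l (Dl_meas M l)).inter (N_measΩ l n hl.2)
        · rw [Finset.mem_Icc] at hl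
          exact Dl_bad hM hl.2
        · intro l _ l' hl' hll ω h1 h2
          rw [Finset.mem_Icc] at hl'
          exact Dl_disj hll hl'.2 ω h1 h2

/-- **one step of the renewal** -/
theorem coll_step (H : A.Hyp a c₁ cₑ β h p Far χ) (hF : FPD A) {M n N₁ K : ℕ} (hN : 1 ≤ N₁)
    (hK : M = K * N₁) (D : Set S) {δ ε η A' G : ℝ} (hM : 4*M ≤ n) (hη0 : 0 ≤ η) (hA0 : 0 ≤ A')
    (hG0 : 0 ≤ G)
    (hδ : ∀ s, (A.P s).real (A.al M ∩ (A.none n M (M + M) ∩ A.al n)) ≤ δ)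
    (hε : ∀ s, (A.P s).real (A.LateG M (4*M)) ≤ ε)
    (hη : ∀ s, A.b (2*M) s - A.b n s ≤ η)
    (hA' : ∀ s o, ∑ t ∈ gr N₁ o n, (A.P s).real (A.N 0 t ∩ A.nocs 0 t ∩ A.st t ⁻¹' D) ≤ A')
    (hG : ∀ s o, ∑ t ∈ gr N₁ o n, (A.P s).real (A.N 0 t ∩ A.st t ⁻¹' D) ≤ G)
    (s : S) (o : ℕ) :
    ∑ t ∈ gr N₁ o n, (A.P s).real (A.N 0 t ∩ A.st t ⁻¹' D)
      ≤ K + (A' / c₁ + G / c₁ * ((δ + ε + η / c₁) / c₁)) / c₁ := by
  have := A.prob s
  have hc := H.c₁pos
  set q : ℕ → ℝ := fun t => (A.P s).real (A.N 0 t ∩ A.st t ⁻¹' D) with hq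
  set I : ℕ → Set Ω := fun t => (A.N 0 t ∩ A.st t ⁻¹' D) ∩ A.N t n with hI
  have hsplit : ∑ t ∈ gr N₁ o n, q t = ∑ t ∈ (gr N₁ o n).filter (fun t => t < M), q t
      + ∑ t ∈ (gr N₁ o n).filter (fun t => ¬ t < M), q t :=
    (Finset.sum_filter_add_sum_filter_not _ _ _).symm
  have hsmall : ∑ t ∈ (gr N₁ o n).filter (fun t => t < M), q t ≤ K := by
    calc ∑ t ∈ (gr N₁ o n).filter (fun t => t < M), q t
        ≤ ∑ t ∈ (gr N₁ o n).filter (fun t => t < M), (1:ℝ) :=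
          Finset.sum_le_sum fun t _ => measureReal_le_one
      _ = ((gr N₁ o n).filter (fun t => t < M)).card := by simp
      _ ≤ K := by rw [hK]; exact_mod_cast card_lt hN o n K
  -- the large levels
  have hlow : ∀ t ∈ (gr N₁ o n).filter (fun t => ¬ t < M), c₁ * q t ≤ (A.P s).real (I t) := by
    intro t ht
    have htn := (mem_gr.1 (Finset.mem_filter.1 ht).1).1
    refine lowerN H s t n htn _ ?_ (fun ω hω => A.N_al 0 t (Nat.zero_le _) hω.1)
    exact MeasurableSet.inter (A.N_meas 0 t (Nat.zero_le _))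
      (A.st_meas t (MeasurableSet.of_discrete))
  set f : ℕ → S → ℝ := fun t x => (A.P x).real (A.N 0 t ∩ A.nocs 0 t ∩ A.st t ⁻¹' D) with hf
  have hf0 : ∀ t x, 0 ≤ f t x := fun t x => measureReal_nonneg
  have hf1 : ∀ t x, f t x ≤ 1 := fun t x => by have := A.prob x; exact measureReal_le_one
  have hI1 : ∀ t ∈ (gr N₁ o n).filter (fun t => ¬ t < M), (A.P s).real (I t) ≤
      ∑ j ∈ Finset.Icc M t, ∫ ω in Bs A M j, f (t - j) (A.st j ω) ∂(A.P s)
        + ∑ l ∈ Finset.Icc M t, (A.P s).real (Dl A M l ∩ I t) := by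
    intro t ht
    obtain ⟨ht1, ht2⟩ := Finset.mem_filter.1 ht
    have hMt : M ≤ t := not_lt.1 ht2
    have htn := (mem_gr.1 ht1).1
    have hcov : I t ⊆ (⋃ j ∈ Finset.Icc M t, (Bs A M j ∩ (A.N j t ∩ A.nocs j t ∩ A.st t ⁻¹' D))) ∪
        ⋃ l ∈ Finset.Icc M t, (Dl A M l ∩ I t) := by
      rintro ω hω
      obtain ⟨⟨h0t, hD⟩, hNt⟩ := hω
      obtain ⟨j, hj1, hj2, hNj, hk⟩ := exists_first hMt htn hNt
      have hBs : ω ∈ Bs A M j := ⟨A.N_left 0 j t (Nat.zero_le _) hj2 ω h0t, hk⟩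
      have hjt : ω ∈ A.N j t := A.N_left j t n hj2 htn ω hNj
      by_cases hno : ω ∈ A.nocs j t
      · exact Or.inl (mem_biUnion (x := j) (by simp [hj1, hj2]) ⟨hBs, ⟨hjt, hno⟩, hD⟩)
      · right
        unfold PairSys.nocs at hno
        simp only [Set.mem_ofPred_eq] at hno
        push Not at hno
        classical
        have hex : ∃ l, j < l ∧ l ≤ t ∧ ω ∈ A.cs l := hno
        obtain ⟨h3, h4, h5⟩ := Nat.find_spec hex
        set l := Nat.find hex with hl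
        refine mem_biUnion (x := l) (by simp; omega) ⟨?_, ⟨⟨h0t, hD⟩, hNt⟩⟩
        refine mem_biUnion (x := j) (by simp; omega) ⟨hBs, ⟨?_, ?_⟩, h5⟩
        · exact A.N_left j l t h3.le h4 ω hjt
        · intro l' h6 h7 h8
          exact Nat.find_min hex (m := l') (by omega) ⟨h6, by omega, h8⟩
    refine (measureReal_mono hcov (measure_ne_top _ _)).trans ((measureReal_union_le _ _).trans
      (add_le_add ((measureReal_biUnion_finset_le _ _).trans (Finset.sum_le_sum fun j hj => ?_))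
        (measureReal_biUnion_finset_le _ _)))
    rw [Finset.mem_Icc] at hj
    rw [hF D s j t t hj.2 le_rfl _ (Bs_meas M j) (Bs_al M j)]
  have hS1 : ∑ t ∈ (gr N₁ o n).filter (fun t => ¬ t < M),
      ∑ j ∈ Finset.Icc M t, ∫ ω in Bs A M j, f (t - j) (A.st j ω) ∂(A.P s) ≤ A' / c₁ := by
    have h1 := sum_restart (A := A) (N₁ := N₁) (n := n) s f A' hf0 hf1 hA' o M
      (fun j => Bs A M j) (fun j => meas j (Bs_meas M j))
    have h2 : ∑ t ∈ (gr N₁ o n).filter (fun t => ¬ t < M),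
        ∑ j ∈ Finset.Icc M t, ∫ ω in Bs A M j, f (t - j) (A.st j ω) ∂(A.P s)
        ≤ ∑ t ∈ gr N₁ o n, ∑ j ∈ Finset.Icc M t, ∫ ω in Bs A M j, f (t - j) (A.st j ω) ∂(A.P s) :=
      Finset.sum_le_sum_of_subset_of_nonneg (Finset.filter_subset _ _) fun t _ _ =>
        Finset.sum_nonneg fun i _ => integral_nonneg fun ω => hf0 _ _
    refine (h2.trans h1).trans ?_
    calc A' * ∑ i ∈ Finset.Icc M n, (A.P s).real (Bs A M i) ≤ A' * (1 / c₁) :=
          mul_le_mul_of_nonneg_left (sum_Bs H s M n) hA0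
      _ = A' / c₁ := by ring
  have hS2 : ∑ t ∈ (gr N₁ o n).filter (fun t => ¬ t < M),
      ∑ l ∈ Finset.Icc M t, (A.P s).real (Dl A M l ∩ I t)
        ≤ G / c₁ * ((δ + ε + η / c₁) / c₁) := by
    have e : ∑ t ∈ (gr N₁ o n).filter (fun t => ¬ t < M),
        ∑ l ∈ Finset.Icc M t, (A.P s).real (Dl A M l ∩ I t)
        = ∑ l ∈ Finset.Icc M n, ∑ t ∈ (gr N₁ o n).filter (fun t => l ≤ t),
            (A.P s).real (Dl A M l ∩ I t) := by
      refine Finset.sum_comm' ?_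
      intro t i
      simp only [Finset.mem_Icc, Finset.mem_filter, mem_gr]
      constructor
      · rintro ⟨⟨⟨h1, h2⟩, h5⟩, h3, h4⟩; exact ⟨⟨⟨h1, h2⟩, h4⟩, h3, h4.trans h1⟩
      · rintro ⟨⟨⟨h1, h2⟩, h4⟩, h3, _⟩; exact ⟨⟨⟨h1, h2⟩, by omega⟩, h3, h4⟩
    rw [e]
    calc ∑ l ∈ Finset.Icc M n, ∑ t ∈ (gr N₁ o n).filter (fun t => l ≤ t),
            (A.P s).real (Dl A M l ∩ I t)
        ≤ ∑ l ∈ Finset.Icc M n, G / c₁ * (A.P s).real (Dl A M l) :=
          Finset.sum_le_sum fun l _ => restart_sum H hF D G hG0 hG s o l _ (Dl_meas M l)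
      _ = G / c₁ * ∑ l ∈ Finset.Icc M n, (A.P s).real (Dl A M l) := by rw [Finset.mul_sum]
      _ ≤ G / c₁ * ((δ + ε + η / c₁) / c₁) := by
          refine mul_le_mul_of_nonneg_left ((sum_Dl H hM s).trans ?_) (by positivity)
          exact div_le_div_of_nonneg_right (bad_le H hM s (hδ s) (hε s) hη0 hη) hc.le
  have hbig : c₁ * ∑ t ∈ (gr N₁ o n).filter (fun t => ¬ t < M), q t
      ≤ A' / c₁ + G / c₁ * ((δ + ε + η / c₁) / c₁) := by
    rw [Finset.mul_sum]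
    refine (Finset.sum_le_sum fun t ht => (hlow t ht).trans (hI1 t ht)).trans ?_
    rw [Finset.sum_add_distrib]
    exact add_le_add hS1 hS2
  rw [hsplit]
  refine add_le_add hsmall ?_
  rw [le_div_iff₀ hc, mul_comm]
  exact hbig

/-- **(COLL), abstract form**: from (KR) and the count without contact. -/
theorem coll (H : A.Hyp a c₁ cₑ β h p Far χ) (hF : FPD A) :
    ∃ η > (0:ℝ), ∀ K : ℕ, 1 ≤ K → ∃ n₀ : ℕ, ∀ N₁ : ℕ, n₀ ≤ N₁ → ∀ (n : ℕ) (D : Set S) (A' : ℝ),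
      0 ≤ A' → (∀ s, A.b (2*(K*N₁)) s - A.b n s ≤ η) →
      (∀ s o, ∑ t ∈ gr N₁ o n, (A.P s).real (A.N 0 t ∩ A.nocs 0 t ∩ A.st t ⁻¹' D) ≤ A') →
      ∀ s o, ∑ t ∈ gr N₁ o n, (A.P s).real (A.N 0 t ∩ A.st t ⁻¹' D)
        ≤ 2 * (4 * K + A' / c₁^2) := by
  have hc := H.c₁pos
  refine ⟨c₁^4/8, by positivity, fun K hK => ?_⟩
  obtain ⟨k, hk⟩ := delta H (c₁^3/8) (by positivity)
  obtain ⟨n₁, hn₁⟩ := lateG_lim H 2 (c₁^3/8) (by positivity)
  refine ⟨max (max k n₁) 1, fun N₁ hN n D A' hA0 hη hA' => ?_⟩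
  have hk1 : k ≤ N₁ := (le_max_left _ _).trans ((le_max_left _ _).trans hN)
  have hk2 : n₁ ≤ N₁ := (le_max_right _ _).trans ((le_max_left _ _).trans hN)
  have hN1 : 1 ≤ N₁ := (le_max_right _ _).trans hN
  have hKN : N₁ ≤ K * N₁ := Nat.le_mul_of_pos_left _ hK
  have hC0 : 0 ≤ A' / c₁^2 := by positivity
  by_cases hM : 4 * (K * N₁) ≤ n
  swap
  · -- short horizon
    intro s o
    have := A.prob s
    have h1 : ∑ t ∈ gr N₁ o n, (A.P s).real (A.N 0 t ∩ A.st t ⁻¹' D) ≤ (gr N₁ o n).card := by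
      calc _ ≤ ∑ t ∈ gr N₁ o n, (1:ℝ) := Finset.sum_le_sum fun t _ => measureReal_le_one
        _ = _ := by simp
    have h2 : gr N₁ o n = (gr N₁ o n).filter (fun t => t < (4*K) * N₁) := by
      ext t
      simp only [Finset.mem_filter, mem_gr]
      constructor
      · intro ht; exact ⟨ht, by have := ht.1; nlinarith⟩
      · intro ht; exact ht.1
    have h3 : ((gr N₁ o n).card : ℝ) ≤ 4 * K := by
      rw [h2]; exact_mod_cast card_lt hN1 o n (4*K)
    linarith [show (0:ℝ) ≤ 4 * K by positivity]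
  have hstep : ∀ G : ℝ, 0 ≤ G →
      (∀ s o, ∑ t ∈ gr N₁ o n, (A.P s).real (A.N 0 t ∩ A.st t ⁻¹' D) ≤ G) →
      ∀ s o, ∑ t ∈ gr N₁ o n, (A.P s).real (A.N 0 t ∩ A.st t ⁻¹' D)
        ≤ (4 * K + A' / c₁^2) + G/2 := by
    intro G hG0 hG s o
    have h1 := coll_step H hF hN1 rfl D (δ := c₁^3/8) (ε := c₁^3/8) (η := c₁^4/8) (A' := A')
      (G := G) hM (by positivity) hA0 hG0 ?_ ?_ hη hA' hG s o
    · refine h1.trans ?_
      have hK0 : (0:ℝ) ≤ K := by positivity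
      have e1 : (c₁^3/8 + c₁^3/8 + c₁^4/8/c₁) = 3/8 * c₁^3 := by field_simp; ring
      rw [e1]
      have e2 : (A' / c₁ + G / c₁ * (3/8 * c₁^3 / c₁)) / c₁ = A'/c₁^2 + 3/8 * G := by
        field_simp
      rw [e2]
      linarith
    · intro s
      have := A.prob s
      have h2 := hk s (K*N₁) n (A.al (K*N₁)) (by omega) (A.al_meas _) le_rfl
      have h3 : (A.P s).real (A.al (K*N₁)) ≤ 1 := measureReal_le_one
      have h4 : (A.P s).real (A.al (K*N₁) ∩ (A.none n (K*N₁) (K*N₁ + K*N₁) ∩ A.al n))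
          ≤ (A.P s).real (A.al (K*N₁) ∩ (A.none n (K*N₁) (K*N₁ + k) ∩ A.al n)) := by
        refine measureReal_mono ?_ (measure_ne_top _ _)
        rintro ω ⟨h5, h6, h7⟩
        exact ⟨h5, none_anti (by omega) h6, h7⟩
      have h8 : (0:ℝ) ≤ c₁^3/8 := by positivity
      calc _ ≤ _ := h4
        _ ≤ _ := h2
        _ ≤ c₁^3/8 := by nlinarith
    · intro s
      have h5 := hn₁ (K*N₁) (by omega) (3*(K*N₁)) (by omega) s
      have h6 : K*N₁ + 3*(K*N₁) = 4*(K*N₁) := by ring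
      rw [h6] at h5
      exact h5
  have hiter : ∀ k : ℕ, ∀ s o, ∑ t ∈ gr N₁ o n, (A.P s).real (A.N 0 t ∩ A.st t ⁻¹' D)
      ≤ 2 * (4 * K + A' / c₁^2) + (n+1) / 2^k := by
    intro k
    induction k with
    | zero =>
      intro s o
      have := A.prob s
      have h1 : ∑ t ∈ gr N₁ o n, (A.P s).real (A.N 0 t ∩ A.st t ⁻¹' D) ≤ (gr N₁ o n).card := by
        calc _ ≤ ∑ t ∈ gr N₁ o n, (1:ℝ) := Finset.sum_le_sum fun t _ => measureReal_le_one
          _ = _ := by simp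
      have h2 : ((gr N₁ o n).card : ℝ) ≤ n + 1 := by
        have : (gr N₁ o n).card ≤ (Finset.range (n+1)).card := Finset.card_filter_le _ _
        rw [Finset.card_range] at this
        exact_mod_cast this
      have h3 : (0:ℝ) ≤ 4 * K := by positivity
      simp only [pow_zero, div_one]
      linarith
    | succ k ih =>
      intro s o
      have h1 := hstep _ (by positivity) ih s o
      refine h1.trans (le_of_eq ?_)
      rw [pow_succ]
      field_simp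
      ring
  intro s o
  refine le_of_forall_pos_le_add fun e he => ?_
  obtain ⟨k, hk⟩ : ∃ k : ℕ, ((n:ℝ)+1) / 2^k < e := by
    obtain ⟨k, hk⟩ := pow_unbounded_of_one_lt (((n:ℝ)+1)/e) (by norm_num : (1:ℝ) < 2)
    refine ⟨k, ?_⟩
    rw [div_lt_iff₀ he] at hk
    rw [div_lt_iff₀ (by positivity)]
    linarith
  exact (hiter k s o).trans (by linarith)

end Crest.Agent.R154.CollA568
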