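import Mathlib
import Crest.Agent.R154.B6Abs_833

/-!
Row 154 (helper887): T4(L), the renewal bound COLL, abstract form on 833's `PairSys`:
the expected number (same environment) of multiples of `m` up to `T * m` where both walkers are
natural and the state is in `C` is bounded, if late first contacts are rare for independent walkers.
-/

set_option autoImplicit false
set_option linter.unusedSectionVars false
set_option linter.deprecated false
set_option linter.unusedVariables false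

open MeasureTheory Set Filter Topology
open scoped BigOperators

namespace Crest.Agent.R154.Coll887

open Crest.Agent.R154.B6_833 Crest.Agent.R154.B6_833.PairSys

variable {S Ω : Type*} [MeasurableSpace S] [mΩ : MeasurableSpace Ω] [DiscreteMeasurableSpace S]
  {A : PairSys S Ω} {a : ℕ} {c₁ cₑ p : ℝ} {β h : ℕ → ℝ} {Far : ℕ → Set S} {χ : ℕ → S → ℝ}

/-- first joint cut at or above `L` is `j` (relative to any later horizon) -/
def Bf (A : PairSys S Ω) (L j : ℕ) : Set Ω := A.N 0 j ∩ A.killed L j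

lemma Bf_meas (L j : ℕ) : MeasurableSet[A.F j] (Bf A L j) :=
  (A.N_meas 0 j (Nat.zero_le _)).inter (killed_meas L j)

lemma Bf_al (L j : ℕ) : Bf A L j ⊆ A.al j := fun _ hω => A.N_al 0 j (Nat.zero_le _) hω.1

lemma Bf_disj {L n i j : ℕ} (hLi : L ≤ i) (hij : i < j) (hjn : j ≤ n) (ω : Ω)
    (h1 : ω ∈ Bf A L i ∩ A.N i n) : ω ∉ Bf A L j ∩ A.N j n := fun h2 =>
  h2.1.2 i hLi hij (A.N_left i j n hij.le hjn ω h1.2)

/-- the first joint cut exists -/
lemma exists_first {L n i : ℕ} {ω : Ω} (h0 : ω ∈ A.N 0 n) (hLi : L ≤ i) (hin : i ≤ n)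
    (hi : ω ∈ A.N i n) : ∃ j, L ≤ j ∧ j ≤ i ∧ ω ∈ Bf A L j ∧ ω ∈ A.N j n := by
  classical
  have hex : ∃ j, L ≤ j ∧ ω ∈ A.N j n := ⟨i, hLi, hi⟩
  refine ⟨Nat.find hex, (Nat.find_spec hex).1, Nat.find_min' hex ⟨hLi, hi⟩, ?_,
    (Nat.find_spec hex).2⟩
  have hji : Nat.find hex ≤ n := (Nat.find_min' hex ⟨hLi, hi⟩).trans hin
  refine ⟨A.N_left 0 _ n (Nat.zero_le _) hji ω h0, fun j' h1 h2 h3 => ?_⟩
  exact Nat.find_min hex h2 ⟨h1, A.N_trans j' _ n h2.le hji ω h3 (Nat.find_spec hex).2⟩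

/-- events with a fresh continuation have summable probabilities -/
lemma sum_le_of_disj (H : A.Hyp a c₁ cₑ β h p Far χ) (s : S) {n : ℕ} (t : Finset ℕ)
    (lv : ℕ → ℕ) (D : ℕ → Set Ω) (G : Set Ω) (hlv : ∀ j ∈ t, lv j ≤ n)
    (hD : ∀ j ∈ t, MeasurableSet[A.F (lv j)] (D j)) (hDa : ∀ j ∈ t, D j ⊆ A.al (lv j))
    (hG : ∀ j ∈ t, D j ∩ A.N (lv j) n ⊆ G)
    (hdis : ∀ i ∈ t, ∀ j ∈ t, i < j → ∀ ω, ω ∈ D i ∩ A.N (lv i) n → ω ∉ D j ∩ A.N (lv j) n) :
    ∑ j ∈ t, (A.P s).real (D j) ≤ (A.P s).real G / c₁ := by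
  have := A.prob s
  have hc := H.c₁pos
  rw [le_div_iff₀ hc, mul_comm, Finset.mul_sum]
  refine (Finset.sum_le_sum fun j hj =>
    lowerN H s (lv j) n (hlv j hj) (D j) (hD j hj) (hDa j hj)).trans ?_
  refine sum_disj_le t (fun j => D j ∩ A.N (lv j) n) G (fun j hj => ?_) hG hdis
  exact (meas (lv j) (hD j hj)).inter (N_measΩ _ _ (hlv j hj))

lemma sum_Bf (H : A.Hyp a c₁ cₑ β h p Far χ) (s : S) {L n : ℕ} (t : Finset ℕ)
    (ht : ∀ j ∈ t, L ≤ j ∧ j ≤ n) : ∑ j ∈ t, (A.P s).real (Bf A L j) ≤ 1 / c₁ := by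
  have := A.prob s
  have h1 := sum_le_of_disj H s (n := n) t id (Bf A L) univ (fun j hj => (ht j hj).2)
    (fun j _ => Bf_meas L j) (fun j _ => Bf_al L j) (fun j _ => subset_univ _)
    (fun i hi j hj hij ω => Bf_disj (ht i hi).1 hij (ht j hj).2 ω)
  rwa [probReal_univ] at h1

/-- **late contacts**, from any state: horizon unbounded, uses (K) from a fresh joint cut. -/
theorem late_bound (H : A.Hyp a c₁ cₑ β h p Far χ) {K' k k0 K M : ℕ} {eK e1 e2 : ℝ}
    (hk : ∀ s : S, ∀ L n : ℕ, ∀ B : Set Ω, L + k ≤ n → MeasurableSet[A.F L] B → B ⊆ A.al L →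
      (A.P s).real (B ∩ (A.none n L (L + k) ∩ A.al n)) ≤ e2 * (A.P s).real B)
    (hKK : K' + k + k0 ≤ K)
    (hK : ∀ s, ∀ i n, k0 ≤ i → i ≤ n → n ≤ M → A.φ n i s - A.φ n n s ≤ eK)
    (hlate : ∀ s, (A.P s).real (A.N 0 K \ A.nocs K' K) ≤ e1) (he2 : 0 ≤ e2)
    (s : S) {n : ℕ} (hKn : K ≤ n) (hnM : n ≤ M) :
    (A.P s).real (A.N 0 n \ A.nocs K n) ≤ e1 + e2 + eK / c₁ := by
  classical
  have := A.prob s
  have hc := H.c₁pos
  have heK : 0 ≤ eK := by
    have h1 := hK s n n (by omega) le_rfl hnM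
    linarith
  set D : ℕ → Set Ω := fun j =>
    (Bf A K' j ∩ (A.N j n ∩ A.nocs j K)) \ (Bf A K' j ∩ (A.N j n ∩ A.nocs j n)) with hD
  have hsub : A.N 0 n \ A.nocs K n ⊆ (A.N 0 K \ A.nocs K' K) ∪
      ((A.al K' ∩ (A.none n K' (K' + k) ∩ A.al n)) ∪ ⋃ j ∈ Finset.Icc K' (K' + k), D j) := by
    intro ω hω
    by_cases h1 : ω ∈ A.nocs K' K
    · right
      have hal : ω ∈ A.al n := A.N_al 0 n (Nat.zero_le _) hω.1
      by_cases h2 : ω ∈ A.none n K' (K' + k)
      · left
        exact ⟨A.al_anti K' n (by omega) hal, h2, hal⟩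
      · right
        have h3 : ∃ j, K' ≤ j ∧ j ≤ K' + k ∧ ω ∈ A.N j n := by
          by_contra h4
          push Not at h4
          exact h2 h4
        obtain ⟨i, hi1, hi2, hi3⟩ := h3
        obtain ⟨j, hj1, hj2, hj3, hj4⟩ := exists_first (L := K') hω.1 hi1 (by omega) hi3
        have hjm : j ∈ Finset.Icc K' (K' + k) := Finset.mem_Icc.2 ⟨hj1, by omega⟩
        refine mem_iUnion₂.2 ⟨j, hjm, ⟨hj3, hj4, nocs_left hj1 h1⟩, fun h5 => ?_⟩
        exact hω.2 (nocs_left (by omega) h5.2.2)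
    · left
      exact ⟨A.N_left 0 K n (Nat.zero_le _) hKn ω hω.1, h1⟩
  have hDj : ∀ j ∈ Finset.Icc K' (K' + k), (A.P s).real (D j) ≤ eK * (A.P s).real (Bf A K' j) := by
    intro j hj
    rw [Finset.mem_Icc] at hj
    have hBm := meas j (Bf_meas (A := A) K' j)
    have hjK : j ≤ K := by omega
    have hsub2 : Bf A K' j ∩ (A.N j n ∩ A.nocs j n) ⊆ Bf A K' j ∩ (A.N j n ∩ A.nocs j K) :=
      fun ω hω => ⟨hω.1, hω.2.1, nocs_anti hKn hω.2.2⟩
    have hm2 : MeasurableSet (Bf A K' j ∩ (A.N j n ∩ A.nocs j n)) :=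
      hBm.inter ((N_measΩ _ _ (by omega)).inter (nocs_measΩ _ _))
    rw [hD, measureReal_diff hsub2 hm2, H.FP s j K n hjK hKn _ (Bf_meas K' j) (Bf_al K' j),
      H.FP s j n n (by omega) le_rfl _ (Bf_meas K' j) (Bf_al K' j),
      ← integral_sub (integ_φ s j _ _).integrableOn (integ_φ s j _ _).integrableOn]
    calc _ ≤ ∫ ω in Bf A K' j, eK ∂(A.P s) := by
          refine setIntegral_mono_on ((integ_φ s j _ _).sub (integ_φ s j _ _)).integrableOn
            (integrable_const _).integrableOn hBm ?_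
          intro ω _
          exact hK _ _ _ (by omega) (by omega) (by omega)
      _ = _ := by rw [setIntegral_const, smul_eq_mul, mul_comm]
  have h1 := measureReal_mono (μ := A.P s) hsub
  have h2 := measureReal_union_le (μ := A.P s) (A.N 0 K \ A.nocs K' K)
    ((A.al K' ∩ (A.none n K' (K' + k) ∩ A.al n)) ∪ ⋃ j ∈ Finset.Icc K' (K' + k), D j)
  have h3 := measureReal_union_le (μ := A.P s) (A.al K' ∩ (A.none n K' (K' + k) ∩ A.al n))
    (⋃ j ∈ Finset.Icc K' (K' + k), D j)
  have h4 := hk s K' n (A.al K') (by omega) (A.al_meas K') subset_rfl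
  have h5 := real_iUnion_le (μ := A.P s) (Finset.Icc K' (K' + k)) D
  have h6 : ∑ j ∈ Finset.Icc K' (K' + k), (A.P s).real (D j) ≤ eK / c₁ := by
    refine (Finset.sum_le_sum hDj).trans ?_
    rw [← Finset.mul_sum, div_eq_mul_one_div]
    refine mul_le_mul_of_nonneg_left ?_ heK
    refine sum_Bf H s (n := n) _ fun j hj => ?_
    rw [Finset.mem_Icc] at hj
    exact ⟨hj.1, by omega⟩
  have h7 : (A.P s).real (A.al K') ≤ 1 := measureReal_le_one
  have h8 : e2 * (A.P s).real (A.al K') ≤ e2 := by nlinarith [measureReal_nonneg (μ := A.P s) (s := A.al K')]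
  have h9 := hlate s
  linarith

/-- state at level `l` in `C` -/
def Cs (A : PairSys S Ω) (C : Set S) (l : ℕ) : Set Ω := {ω | A.st l ω ∈ C}

lemma Cs_meas (C : Set S) (l : ℕ) : MeasurableSet[A.F l] (Cs A C l) :=
  (A.st_meas l) (MeasurableSet.of_discrete (s := C))

/-- the expected number of `C`-levels -/
noncomputable def g (A : PairSys S Ω) (C : Set S) (m T : ℕ) (s : S) : ℝ :=
  ∑ t ∈ Finset.range (T + 1), (A.P s).real (A.N 0 (t * m) ∩ Cs A C (t * m))

lemma g_nonneg (C : Set S) (m T : ℕ) (s : S) : 0 ≤ g A C m T s :=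
  Finset.sum_nonneg fun _ _ => measureReal_nonneg

lemma g_le (C : Set S) (m T : ℕ) (s : S) : g A C m T s ≤ T + 1 := by
  have := A.prob s
  refine (Finset.sum_le_sum fun t _ => measureReal_le_one).trans ?_
  simp

/-- **COLL, one step**. -/
theorem coll_step (H : A.Hyp a c₁ cₑ β h p Far χ) (C : Set S) {m K T : ℕ} (hm : 0 < m)
    {A' q b : ℝ}
    (hRC : ∀ s j n, j ≤ n → ∀ B, MeasurableSet[A.F j] B → B ⊆ A.al j →
      (A.P s).real (B ∩ (A.N j n ∩ Cs A C n)) ≤
        ∫ ω in B, (A.P (A.st j ω)).real (A.N 0 (n - j) ∩ Cs A C (n - j)) ∂(A.P s))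
    (hRN : ∀ s j n, j ≤ n → ∀ B, MeasurableSet[A.F j] B → B ⊆ A.al j →
      (A.P s).real (B ∩ (A.N j n ∩ A.nocs j n ∩ Cs A C n)) ≤
        ∫ ω in B, (A.P (A.st j ω)).real (A.N 0 (n - j) ∩ A.nocs 0 (n - j) ∩ Cs A C (n - j))
          ∂(A.P s))
    (hA : ∀ s, ∀ r, ∑ t ∈ (Finset.range (T + 1)).filter (fun t => r ≤ t * m),
      (A.P s).real (A.N 0 (t * m - r) ∩ A.nocs 0 (t * m - r) ∩ Cs A C (t * m - r)) ≤ A')
    (hq : ∀ s, ∀ n, K ≤ n → n ≤ T * m → (A.P s).real (A.N 0 n \ A.nocs K n) ≤ q)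
    (hq0 : 0 ≤ q) (hb : ∀ s, g A C m T s ≤ b) (s : S) :
    c₁ * g A C m T s ≤ (K : ℝ) / m + 1 + A' / c₁ + q / c₁ * b := by
  classical
  have := A.prob s
  have hc := H.c₁pos
  have hmR : (0 : ℝ) < m := by exact_mod_cast hm
  have hb0 : 0 ≤ b := (g_nonneg C m T s).trans (hb s)
  have hA0 : 0 ≤ A' := (Finset.sum_nonneg fun _ _ => measureReal_nonneg).trans (hA s 0)
  set n := T * m with hn
  -- joint `C`-cuts
  set D : ℕ → Set Ω := fun t => (A.N 0 (t * m) ∩ Cs A C (t * m)) ∩ A.N (t * m) n with hD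
  have htn : ∀ t ∈ Finset.range (T + 1), t * m ≤ n := fun t ht =>
    Nat.mul_le_mul_right m (Nat.lt_succ_iff.1 (Finset.mem_range.1 ht))
  have hNC : ∀ t, MeasurableSet[A.F (t * m)] (A.N 0 (t * m) ∩ Cs A C (t * m)) := fun t =>
    (A.N_meas 0 (t * m) (Nat.zero_le _)).inter (Cs_meas C (t * m))
  have hNCa : ∀ t, A.N 0 (t * m) ∩ Cs A C (t * m) ⊆ A.al (t * m) := fun t ω hω =>
    A.N_al 0 (t * m) (Nat.zero_le _) hω.1
  have hDm : ∀ t ∈ Finset.range (T + 1), MeasurableSet (D t) := fun t ht =>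
    (meas _ (hNC t)).inter (N_measΩ _ _ (htn t ht))
  have hstep0 : c₁ * g A C m T s ≤ ∑ t ∈ Finset.range (T + 1), (A.P s).real (D t) := by
    unfold g
    rw [Finset.mul_sum]
    exact Finset.sum_le_sum fun t ht =>
      lowerN H s (t * m) n (htn t ht) _ (hNC t) (hNCa t)
  -- split
  set X1 := (Finset.range (T + 1)).filter (fun t => t * m ≤ K) with hX1
  set X2 := (Finset.range (T + 1)).filter (fun t => ¬ t * m ≤ K) with hX2
  have hX2t : ∀ t ∈ X2, t ∈ Finset.range (T + 1) ∧ ¬ t * m ≤ K := fun t ht =>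
    Finset.mem_filter.1 ht
  have hsplit : ∑ t ∈ Finset.range (T + 1), (A.P s).real (D t)
      = ∑ t ∈ X1, (A.P s).real (D t) + ∑ t ∈ X2, (A.P s).real (D t) :=
    (Finset.sum_filter_add_sum_filter_not _ _ _).symm
  have hp1 : ∑ t ∈ X1, (A.P s).real (D t) ≤ (K : ℝ) / m + 1 := by
    have h1 : X1 ⊆ Finset.range (K / m + 1) := by
      intro t ht
      rw [hX1, Finset.mem_filter] at ht
      rw [Finset.mem_range, Nat.lt_succ_iff, Nat.le_div_iff_mul_le hm]
      exact ht.2
    have h2 : ∑ t ∈ X1, (A.P s).real (D t) ≤ (X1.card : ℝ) := by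
      refine (Finset.sum_le_sum fun t _ => measureReal_le_one).trans ?_
      simp
    have h3 : (X1.card : ℝ) ≤ ((K / m : ℕ) : ℝ) + 1 := by
      have := Finset.card_le_card h1
      rw [Finset.card_range] at this
      exact_mod_cast this
    have h4 : ((K / m : ℕ) : ℝ) ≤ (K : ℝ) / m := Nat.cast_div_le
    linarith
  -- no contact since K / contact since K
  set E1 : ℕ → Set Ω := fun t => D t ∩ A.nocs K (t * m) with hE1
  set E2 : ℕ → Set Ω := fun t => D t \ A.nocs K (t * m) with hE2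
  have hp2 : ∑ t ∈ X2, (A.P s).real (D t)
      ≤ ∑ t ∈ X2, (A.P s).real (E1 t) + ∑ t ∈ X2, (A.P s).real (E2 t) := by
    rw [← Finset.sum_add_distrib]
    refine Finset.sum_le_sum fun t _ => ?_
    have h1 : D t ⊆ E1 t ∪ E2 t := fun ω hω => by
      by_cases h : ω ∈ A.nocs K (t * m)
      · exact Or.inl ⟨hω, h⟩
      · exact Or.inr ⟨hω, h⟩
    exact (measureReal_mono h1).trans (measureReal_union_le _ _)
  -- part (i)
  have hi : ∑ t ∈ X2, (A.P s).real (E1 t) ≤ A' / c₁ := by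
    have h1 : ∀ t ∈ X2, (A.P s).real (E1 t) ≤ ∑ j ∈ (Finset.Icc K n).filter (fun j => j ≤ t * m),
        ∫ ω in Bf A K j, (A.P (A.st j ω)).real
          (A.N 0 (t * m - j) ∩ A.nocs 0 (t * m - j) ∩ Cs A C (t * m - j)) ∂(A.P s) := by
      intro t ht
      rw [hX2, Finset.mem_filter] at ht
      have ht1 := htn t ht.1
      have hsub : E1 t ⊆ ⋃ j ∈ (Finset.Icc K n).filter (fun j => j ≤ t * m),
          (Bf A K j ∩ (A.N j (t * m) ∩ A.nocs j (t * m) ∩ Cs A C (t * m))) := by
        intro ω hω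
        have h0 : ω ∈ A.N 0 n :=
          A.N_trans 0 (t * m) n (Nat.zero_le _) ht1 ω hω.1.1.1 hω.1.2
        obtain ⟨j, hj1, hj2, hj3, hj4⟩ := exists_first (L := K) h0 (by omega) ht1 hω.1.2
        refine mem_iUnion₂.2 ⟨j, ?_, hj3, ⟨A.N_left j (t * m) n hj2 ht1 ω hj4,
          nocs_left hj1 hω.2⟩, hω.1.1.2⟩
        rw [Finset.mem_filter, Finset.mem_Icc]
        exact ⟨⟨hj1, by omega⟩, hj2⟩
      have hm1 := measureReal_mono (μ := A.P s) hsub (measure_ne_top _ _)
      refine hm1.trans ((real_iUnion_le _ _).trans ?_)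
      refine Finset.sum_le_sum fun j hj => ?_
      rw [Finset.mem_filter] at hj
      exact hRN s j (t * m) hj.2 _ (Bf_meas K j) (Bf_al K j)
    have hint : ∀ j l : ℕ, Integrable (fun ω => (A.P (A.st j ω)).real
        (A.N 0 l ∩ A.nocs 0 l ∩ Cs A C l)) (A.P s) := fun j l =>
      integ_st s j (fun s' => (A.P s').real (A.N 0 l ∩ A.nocs 0 l ∩ Cs A C l)) 1 fun s' => by
        have := A.prob s'
        rw [abs_of_nonneg measureReal_nonneg]; exact measureReal_le_one
    calc ∑ t ∈ X2, (A.P s).real (E1 t)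
        ≤ ∑ t ∈ X2, ∑ j ∈ (Finset.Icc K n).filter (fun j => j ≤ t * m),
          ∫ ω in Bf A K j, (A.P (A.st j ω)).real
            (A.N 0 (t * m - j) ∩ A.nocs 0 (t * m - j) ∩ Cs A C (t * m - j)) ∂(A.P s) :=
          Finset.sum_le_sum h1
      _ = ∑ j ∈ Finset.Icc K n, ∑ t ∈ X2.filter (fun t => j ≤ t * m),
          ∫ ω in Bf A K j, (A.P (A.st j ω)).real
            (A.N 0 (t * m - j) ∩ A.nocs 0 (t * m - j) ∩ Cs A C (t * m - j)) ∂(A.P s) := by
          simp_rw [Finset.sum_filter]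
          exact Finset.sum_comm
      _ ≤ ∑ j ∈ Finset.Icc K n, A' * (A.P s).real (Bf A K j) := by
          refine Finset.sum_le_sum fun j hj => ?_
          rw [← integral_finset_sum _ fun t _ => (hint j _).integrableOn]
          calc _ ≤ ∫ ω in Bf A K j, A' ∂(A.P s) := by
                refine setIntegral_mono_on
                  (integrable_finset_sum _ fun t _ => (hint j _)).integrableOn
                  (integrable_const _).integrableOn (meas j (Bf_meas K j)) ?_
                intro ω _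
                refine le_trans ?_ (hA (A.st j ω) j)
                refine Finset.sum_le_sum_of_subset_of_nonneg ?_ fun _ _ _ => measureReal_nonneg
                intro t ht
                rw [Finset.mem_filter, hX2, Finset.mem_filter] at ht
                rw [Finset.mem_filter]
                exact ⟨ht.1.1, ht.2⟩
            _ = _ := by rw [setIntegral_const, smul_eq_mul, mul_comm]
      _ ≤ A' / c₁ := by
          rw [← Finset.mul_sum, div_eq_mul_one_div]
          refine mul_le_mul_of_nonneg_left ?_ hA0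
          refine sum_Bf H s (n := n) _ fun j hj => ?_
          rw [Finset.mem_Icc] at hj
          exact hj
  -- part (ii)
  have hii : ∑ t ∈ X2, (A.P s).real (E2 t) ≤ q / c₁ * b := by
    set Fi : ℕ → Set Ω := fun t1 => ((A.N 0 (t1 * m) ∩ Cs A C (t1 * m)) \ A.nocs K (t1 * m)) ∩
      {ω | ∀ t' ∈ X2, t' < t1 →
        ω ∉ ((A.N 0 (t' * m) ∩ Cs A C (t' * m)) \ A.nocs K (t' * m)) ∩ A.N (t' * m) (t1 * m)}
      with hFi
    have hFm : ∀ t1, MeasurableSet[A.F (t1 * m)] (Fi t1) := by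
      intro t1
      refine MeasurableSet.inter (MeasurableSet.diff (hNC t1) (nocs_meas K (t1 * m))) ?_
      have : {ω | ∀ t' ∈ X2, t' < t1 →
          ω ∉ ((A.N 0 (t' * m) ∩ Cs A C (t' * m)) \ A.nocs K (t' * m)) ∩ A.N (t' * m) (t1 * m)}
          = ⋂ t' ∈ {t' : ℕ | t' ∈ X2 ∧ t' < t1},
            (((A.N 0 (t' * m) ∩ Cs A C (t' * m)) \ A.nocs K (t' * m)) ∩
              A.N (t' * m) (t1 * m))ᶜ := by
        ext ω
        simp only [mem_setOf_eq, mem_iInter, mem_compl_iff, and_imp]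
      rw [this]
      refine MeasurableSet.biInter (Set.to_countable _) ?_
      intro t' ht'
      have hle : t' * m ≤ t1 * m := Nat.mul_le_mul_right m ht'.2.le
      exact MeasurableSet.compl (MeasurableSet.inter
        (A.F_mono _ _ hle _ (MeasurableSet.diff (hNC t') (nocs_meas K (t' * m))))
        (A.N_meas _ _ hle))
    have hFa : ∀ t1, Fi t1 ⊆ A.al (t1 * m) := fun t1 ω hω => hNCa t1 hω.1.1
    have hcover : ∀ t ∈ X2, E2 t ⊆ ⋃ t1 ∈ X2.filter (fun t1 => t1 ≤ t),
        (Fi t1 ∩ (A.N (t1 * m) (t * m) ∩ Cs A C (t * m))) := by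
      intro t ht ω hω
      have ht' := ht
      rw [hX2, Finset.mem_filter] at ht'
      have hex : ∃ t1, t1 ∈ X2 ∧ ω ∈ E2 t1 := ⟨t, ht, hω⟩
      have h1 := Nat.find_spec hex
      have h2 : Nat.find hex ≤ t := Nat.find_min' hex ⟨ht, hω⟩
      have h1n : Nat.find hex * m ≤ n := htn _ (hX2t _ h1.1).1
      have hle : Nat.find hex * m ≤ t * m := Nat.mul_le_mul_right m h2
      refine mem_iUnion₂.2 ⟨Nat.find hex, Finset.mem_filter.2 ⟨h1.1, h2⟩,
        ⟨⟨h1.2.1.1, h1.2.2⟩, ?_⟩, A.N_left _ _ n hle (htn t ht'.1) ω h1.2.1.2, hω.1.1.2⟩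
      intro t' ht'X ht'lt hmem
      refine Nat.find_min hex ht'lt ⟨ht'X, ⟨hmem.1.1, ?_⟩, hmem.1.2⟩
      exact A.N_trans _ _ n (Nat.mul_le_mul_right m ht'lt.le) h1n ω hmem.2 h1.2.1.2
    have hint : ∀ j l : ℕ, Integrable (fun ω => (A.P (A.st j ω)).real
        (A.N 0 l ∩ Cs A C l)) (A.P s) := fun j l =>
      integ_st s j (fun s' => (A.P s').real (A.N 0 l ∩ Cs A C l)) 1 fun s' => by
        have := A.prob s'
        rw [abs_of_nonneg measureReal_nonneg]; exact measureReal_le_one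
    calc ∑ t ∈ X2, (A.P s).real (E2 t)
        ≤ ∑ t ∈ X2, ∑ t1 ∈ X2.filter (fun t1 => t1 ≤ t),
          ∫ ω in Fi t1, (A.P (A.st (t1 * m) ω)).real
            (A.N 0 (t * m - t1 * m) ∩ Cs A C (t * m - t1 * m)) ∂(A.P s) := by
          refine Finset.sum_le_sum fun t ht => ?_
          have hm1 := measureReal_mono (μ := A.P s) (hcover t ht) (measure_ne_top _ _)
          refine hm1.trans ((real_iUnion_le _ _).trans ?_)
          refine Finset.sum_le_sum fun t1 ht1 => ?_
          rw [Finset.mem_filter] at ht1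
          exact hRC s (t1 * m) (t * m) (Nat.mul_le_mul_right m ht1.2) _ (hFm t1) (hFa t1)
      _ = ∑ t1 ∈ X2, ∑ t ∈ X2.filter (fun t => t1 ≤ t),
          ∫ ω in Fi t1, (A.P (A.st (t1 * m) ω)).real
            (A.N 0 (t * m - t1 * m) ∩ Cs A C (t * m - t1 * m)) ∂(A.P s) := by
          simp_rw [Finset.sum_filter]
          exact Finset.sum_comm
      _ ≤ ∑ t1 ∈ X2, b * (A.P s).real (Fi t1) := by
          refine Finset.sum_le_sum fun t1 ht1 => ?_
          rw [← integral_finset_sum _ fun t _ => (hint (t1 * m) _).integrableOn]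
          calc _ ≤ ∫ ω in Fi t1, b ∂(A.P s) := by
                refine setIntegral_mono_on
                  (integrable_finset_sum _ fun t _ => (hint (t1 * m) _)).integrableOn
                  (integrable_const _).integrableOn (meas _ (hFm t1)) ?_
                intro ω _
                refine le_trans ?_ (hb (A.st (t1 * m) ω))
                unfold g
                have e1 : ∑ t ∈ X2.filter (fun t => t1 ≤ t), (A.P (A.st (t1 * m) ω)).real
                      (A.N 0 (t * m - t1 * m) ∩ Cs A C (t * m - t1 * m))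
                    = ∑ t' ∈ (X2.filter (fun t => t1 ≤ t)).image (fun t => t - t1),
                      (A.P (A.st (t1 * m) ω)).real (A.N 0 (t' * m) ∩ Cs A C (t' * m)) := by
                  rw [Finset.sum_image]
                  · refine Finset.sum_congr rfl fun t _ => ?_
                    rw [Nat.sub_mul]
                  · intro x hx y hy hxy
                    simp only [Finset.coe_filter, mem_setOf_eq] at hx hy
                    simp only at hxy
                    omega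
                rw [e1]
                refine Finset.sum_le_sum_of_subset_of_nonneg ?_ fun _ _ _ => measureReal_nonneg
                intro t' ht'
                rw [Finset.mem_image] at ht'
                obtain ⟨t, ht, rfl⟩ := ht'
                rw [Finset.mem_filter, hX2, Finset.mem_filter, Finset.mem_range] at ht
                rw [Finset.mem_range]
                omega
            _ = _ := by rw [setIntegral_const, smul_eq_mul, mul_comm]
      _ ≤ q / c₁ * b := by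
          rw [← Finset.mul_sum, mul_comm b]
          refine mul_le_mul_of_nonneg_right ?_ hb0
          by_cases hKn : K ≤ n
          · refine (sum_le_of_disj H s (n := n) X2 (fun t => t * m) Fi
              (A.N 0 n \ A.nocs K n) (fun t ht => ?_) (fun t _ => hFm t) (fun t _ => hFa t)
              (fun t ht ω hω => ?_) ?_).trans ?_
            · exact htn t (hX2t _ ht).1
            · have ht1 := htn t (hX2t _ ht).1
              refine ⟨A.N_trans 0 _ n (Nat.zero_le _) ht1 ω hω.1.1.1.1 hω.2, fun h5 => ?_⟩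
              exact hω.1.1.2 (nocs_anti ht1 h5)
            · intro i hi j hj hij ω h5 h6
              have hj1 := htn j (hX2t _ hj).1
              refine h6.1.2 i hi hij ⟨h5.1.1, ?_⟩
              exact A.N_left _ _ n (Nat.mul_le_mul_right m hij.le) hj1 ω h5.2
            · exact div_le_div_of_nonneg_right (hq s n hKn le_rfl) hc.le
          · have hX2e : X2 = ∅ := by
              rw [hX2, Finset.filter_eq_empty_iff]
              intro t ht
              have := htn t ht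
              omega
            rw [hX2e, Finset.sum_empty]
            positivity
  linarith [hstep0, hsplit, hp1, hp2, hi, hii]

/-- **COLL** (T4(L)), abstract: the expected number of natural levels `t * m`, `t ≤ T`, with state
in `C` is `≤ 2/c₁ (K/m + 1 + A'/c₁)`, from every pair of starts, in the same environment. -/
theorem coll (H : A.Hyp a c₁ cₑ β h p Far χ) (C : Set S) {m K' k k0 K T : ℕ} (hm : 0 < m)
    {A' eK e1 e2 : ℝ}
    (hk : ∀ s : S, ∀ L n : ℕ, ∀ B : Set Ω, L + k ≤ n → MeasurableSet[A.F L] B → B ⊆ A.al L →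
      (A.P s).real (B ∩ (A.none n L (L + k) ∩ A.al n)) ≤ e2 * (A.P s).real B)
    (hKK : K' + k + k0 ≤ K)
    (hRC : ∀ s j n, j ≤ n → ∀ B, MeasurableSet[A.F j] B → B ⊆ A.al j →
      (A.P s).real (B ∩ (A.N j n ∩ Cs A C n)) ≤
        ∫ ω in B, (A.P (A.st j ω)).real (A.N 0 (n - j) ∩ Cs A C (n - j)) ∂(A.P s))
    (hRN : ∀ s j n, j ≤ n → ∀ B, MeasurableSet[A.F j] B → B ⊆ A.al j →
      (A.P s).real (B ∩ (A.N j n ∩ A.nocs j n ∩ Cs A C n)) ≤
        ∫ ω in B, (A.P (A.st j ω)).real (A.N 0 (n - j) ∩ A.nocs 0 (n - j) ∩ Cs A C (n - j))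
          ∂(A.P s))
    (hA : ∀ s, ∀ r, ∑ t ∈ (Finset.range (T + 1)).filter (fun t => r ≤ t * m),
      (A.P s).real (A.N 0 (t * m - r) ∩ A.nocs 0 (t * m - r) ∩ Cs A C (t * m - r)) ≤ A')
    (hK : ∀ s, ∀ i n, k0 ≤ i → i ≤ n → n ≤ T * m → A.φ n i s - A.φ n n s ≤ eK)
    (hlate : ∀ s, (A.P s).real (A.N 0 K \ A.nocs K' K) ≤ e1) (he1 : 0 ≤ e1) (he2 : 0 ≤ e2)
    (heK : 0 ≤ eK) (hsm : e1 + e2 + eK / c₁ ≤ c₁ ^ 2 / 2) (s : S) :
    g A C m T s ≤ 2 / c₁ * ((K : ℝ) / m + 1 + A' / c₁) := by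
  have hc := H.c₁pos
  have hne : Nonempty S := ⟨s⟩
  have hbdd : BddAbove (Set.range (g A C m T)) := ⟨T + 1, by
    rintro _ ⟨s', rfl⟩; exact g_le C m T s'⟩
  set G := ⨆ s', g A C m T s' with hG
  have hle : ∀ s', g A C m T s' ≤ G := fun s' => le_ciSup hbdd s'
  have hG0 : 0 ≤ G := (g_nonneg C m T s).trans (hle s)
  set X := (K : ℝ) / m + 1 + A' / c₁ with hX
  have hq0 : 0 ≤ e1 + e2 + eK / c₁ := by positivity
  have hstep : ∀ s', g A C m T s' ≤ X / c₁ + G / 2 := by
    intro s'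
    have h1 := coll_step H C hm hRC hRN hA
      (fun s n hKn hn => late_bound H hk hKK hK hlate he2 s hKn hn) hq0 hle s'
    have h2 : (e1 + e2 + eK / c₁) / c₁ * G ≤ c₁ / 2 * G := by
      refine mul_le_mul_of_nonneg_right ?_ hG0
      rw [div_le_iff₀ hc]
      nlinarith
    have h3 : g A C m T s' = c₁ * g A C m T s' / c₁ := by field_simp
    rw [h3, div_add_div _ _ hc.ne' two_ne_zero, div_le_div_iff₀ hc (by positivity)]
    nlinarith
  have hfin : G ≤ X / c₁ + G / 2 := ciSup_le hstep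
  have : 2 / c₁ * X = 2 * (X / c₁) := by ring
  rw [this]
  exact (hle s).trans (by linarith)

end Crest.Agent.R154.Coll887
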