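import Crest.Agent.R154.B6Same_872

/-! Row 154, TILE_RUN, leaf T4 part (L) (helper21): the expected number of close unit levels of a
same-environment pair is bounded as soon as contacts above `K` units are rare.
Abstract system `B6_833.PairSys`. -/

set_option autoImplicit false
set_option linter.unusedSectionVars false

open MeasureTheory Set Filter Topology
open scoped BigOperators

namespace Crest.Agent.R154.Coll21

open Crest.Agent.R154.B6_833 Crest.Agent.R154.B6_833.PairSys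

variable {S Ω : Type*} [MeasurableSpace S] [mΩ : MeasurableSpace Ω]

/-- natural up to `m`, at level `m` in `Cl` -/
noncomputable def cc (A : PairSys S Ω) (Cl : Set S) (m : ℕ) (s : S) : ℝ :=
  (A.P s).real (A.N 0 m ∩ A.st m ⁻¹' Cl)

/-- natural up to `m`, no contact, at level `m` in `Cl` -/
noncomputable def psi (A : PairSys S Ω) (Cl : Set S) (m : ℕ) (s : S) : ℝ :=
  (A.P s).real (A.N 0 m ∩ A.nocs 0 m ∩ A.st m ⁻¹' Cl)

/-- restart inequalities with a terminal set -/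
structure RC (A : PairSys S Ω) (Cl : Set S) : Prop where
  refl : ∀ j, A.al j ⊆ A.N j j
  r0 : ∀ s j m, j ≤ m → ∀ B, MeasurableSet[A.F j] B → B ⊆ A.al j →
    (A.P s).real (B ∩ (A.N j m ∩ A.st m ⁻¹' Cl)) ≤ ∫ ω in B, cc A Cl (m - j) (A.st j ω) ∂(A.P s)
  r1 : ∀ s j m, j ≤ m → ∀ B, MeasurableSet[A.F j] B → B ⊆ A.al j →
    (A.P s).real (B ∩ (A.N j m ∩ A.nocs j m ∩ A.st m ⁻¹' Cl)) ≤
      ∫ ω in B, psi A Cl (m - j) (A.st j ω) ∂(A.P s)

variable {A : PairSys S Ω} {Cl : Set S}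

lemma cc_nonneg (m : ℕ) (s : S) : 0 ≤ cc A Cl m s := measureReal_nonneg
lemma psi_nonneg (m : ℕ) (s : S) : 0 ≤ psi A Cl m s := measureReal_nonneg
lemma cc_le_one (m : ℕ) (s : S) : cc A Cl m s ≤ 1 := by
  have := A.prob s
  exact measureReal_le_one
lemma psi_le_one (m : ℕ) (s : S) : psi A Cl m s ≤ 1 := by
  have := A.prob s
  exact measureReal_le_one

/-- first natural level above `M` before any contact after `M` -/
def D1 (A : PairSys S Ω) (M j : ℕ) : Set Ω := A.N 0 j ∩ A.nocs M j ∩ A.killed M j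

/-- first natural level after the first contact stage above `M` -/
def D2 (A : PairSys S Ω) (M j : ℕ) : Set Ω :=
  A.N 0 j ∩ ⋃ l ∈ Finset.Ioc M j, (A.cs l ∩ A.nocs M (l - 1) ∩ A.killed l j)

lemma D1_meas [DiscreteMeasurableSpace S] {M j : ℕ} : MeasurableSet[A.F j] (D1 A M j) :=
  ((A.N_meas 0 j (Nat.zero_le _)).inter (nocs_meas M j)).inter (killed_meas M j)

lemma D2_meas [DiscreteMeasurableSpace S] {M j : ℕ} : MeasurableSet[A.F j] (D2 A M j) := by
  refine (A.N_meas 0 j (Nat.zero_le _)).inter ?_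
  refine MeasurableSet.biUnion (Finset.countable_toSet _) fun l hl => ?_
  have hl' : M < l ∧ l ≤ j := by simpa using hl
  exact (((A.F_mono l j hl'.2) _ (A.cs_meas l)).inter
    ((A.F_mono (l - 1) j (by omega)) _ (nocs_meas M (l - 1)))).inter (killed_meas l j)

lemma D1_al {M j : ℕ} : D1 A M j ⊆ A.al j := fun _ h => A.N_al 0 j (Nat.zero_le _) h.1.1
lemma D2_al {M j : ℕ} : D2 A M j ⊆ A.al j := fun _ h => A.N_al 0 j (Nat.zero_le _) h.1

/-- covering, no contact after `M` -/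
lemma cov1 (hr : ∀ j, A.al j ⊆ A.N j j) {M q : ℕ} (hM : M ≤ q) {ω : Ω} (hN : ω ∈ A.N 0 q)
    (hc : ω ∈ A.nocs M q) : ∃ j, M ≤ j ∧ j ≤ q ∧ ω ∈ D1 A M j ∧ ω ∈ A.N j q ∧ ω ∈ A.nocs j q := by
  classical
  have hex : ∃ i, M ≤ i ∧ i ≤ q ∧ ω ∈ A.N i q :=
    ⟨q, hM, le_rfl, hr q (A.N_al 0 q (Nat.zero_le _) hN)⟩
  obtain ⟨h1, h2, h3⟩ := Nat.find_spec hex
  set j := Nat.find hex with hj
  refine ⟨j, h1, h2, ⟨⟨A.N_left 0 j q (Nat.zero_le _) h2 ω hN, nocs_anti h2 hc⟩, ?_⟩, h3,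
    nocs_left h1 hc⟩
  intro i hi1 hi2 hi3
  exact Nat.find_min hex hi2 ⟨hi1, by omega, A.N_trans i j q hi2.le h2 ω hi3 h3⟩

/-- covering, contact after `M` -/
lemma cov2 (hr : ∀ j, A.al j ⊆ A.N j j) {M q : ℕ} {ω : Ω} (hN : ω ∈ A.N 0 q)
    (hc : ω ∉ A.nocs M q) : ∃ j, M < j ∧ j ≤ q ∧ ω ∈ D2 A M j ∧ ω ∈ A.N j q := by
  classical
  have hex0 : ∃ l, M < l ∧ l ≤ q ∧ ω ∈ A.cs l := by
    by_contra hcon
    exact hc fun l h1 h2 h3 => hcon ⟨l, h1, h2, h3⟩
  obtain ⟨g1, g2, g3⟩ := Nat.find_spec hex0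
  set l := Nat.find hex0 with hl
  have hex : ∃ i, l ≤ i ∧ i ≤ q ∧ ω ∈ A.N i q :=
    ⟨q, g2, le_rfl, hr q (A.N_al 0 q (Nat.zero_le _) hN)⟩
  obtain ⟨h1, h2, h3⟩ := Nat.find_spec hex
  set j := Nat.find hex with hj
  refine ⟨j, by omega, h2, ⟨A.N_left 0 j q (Nat.zero_le _) h2 ω hN, ?_⟩, h3⟩
  refine mem_iUnion₂.2 ⟨l, by simp; omega, ⟨g3, ?_⟩, ?_⟩
  · intro l' h1' h2' h3'
    exact Nat.find_min hex0 (m := l') (by omega) ⟨h1', by omega, h3'⟩
  · intro i hi1 hi2 hi3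
    exact Nat.find_min hex hi2 ⟨hi1, by omega, A.N_trans i j q hi2.le h2 ω hi3 h3⟩

section sums

variable [DiscreteMeasurableSpace S]
variable {a : ℕ} {c₁ cₑ : ℝ} {β : ℕ → ℝ} {h : ℕ → ℝ} {p : ℝ} {Far : ℕ → Set S} {χ : ℕ → S → ℝ}

lemma sum_D1 (H : A.Hyp a c₁ cₑ β h p Far χ) (s : S) (M L : ℕ) :
    ∑ j ∈ Finset.Icc M L, (A.P s).real (D1 A M j) ≤ 1 / c₁ := by
  have := A.prob s
  have hc := H.c₁pos
  have h1 : ∀ j ∈ Finset.Icc M L, c₁ * (A.P s).real (D1 A M j) ≤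
      (A.P s).real (D1 A M j ∩ A.N j L) := fun j hj =>
    lowerN H s j L (Finset.mem_Icc.1 hj).2 _ D1_meas D1_al
  have h2 : ∑ j ∈ Finset.Icc M L, (A.P s).real (D1 A M j ∩ A.N j L) ≤ (A.P s).real univ := by
    refine sum_disj_le _ _ _ ?_ (fun _ _ => subset_univ _) ?_
    · intro j hj
      exact (meas j D1_meas).inter (N_measΩ j L (Finset.mem_Icc.1 hj).2)
    · intro i hi j hj hij ω h1 h2
      have hi' := Finset.mem_Icc.1 hi
      have hj' := Finset.mem_Icc.1 hj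
      exact h2.1.2 i hi'.1 hij (A.N_left i j L hij.le hj'.2 ω h1.2)
  have h3 : c₁ * ∑ j ∈ Finset.Icc M L, (A.P s).real (D1 A M j) ≤ 1 := by
    rw [Finset.mul_sum]
    refine (Finset.sum_le_sum h1).trans (h2.trans measureReal_le_one)
  rw [le_div_iff₀ hc, mul_comm]
  exact h3

lemma sum_D2 (H : A.Hyp a c₁ cₑ β h p Far χ) (s : S) (M L : ℕ) :
    ∑ j ∈ Finset.Ioc M L, (A.P s).real (D2 A M j) ≤ (A.P s).real (A.LateG M L) / c₁ := by
  have := A.prob s
  have hc := H.c₁pos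
  have h1 : ∀ j ∈ Finset.Ioc M L, c₁ * (A.P s).real (D2 A M j) ≤
      (A.P s).real (D2 A M j ∩ A.N j L) := fun j hj =>
    lowerN H s j L (Finset.mem_Ioc.1 hj).2 _ D2_meas D2_al
  have h2 : ∑ j ∈ Finset.Ioc M L, (A.P s).real (D2 A M j ∩ A.N j L) ≤
      (A.P s).real (A.LateG M L) := by
    refine sum_disj_le _ _ _ ?_ ?_ ?_
    · intro j hj
      exact (meas j D2_meas).inter (N_measΩ j L (Finset.mem_Ioc.1 hj).2)
    · rintro j hj ω ⟨⟨hN, hD⟩, hN'⟩
      have hj' := Finset.mem_Ioc.1 hj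
      obtain ⟨l, hl, hD⟩ := mem_iUnion₂.1 hD
      have hl' := Finset.mem_Ioc.1 hl
      exact ⟨A.N_trans 0 j L (Nat.zero_le _) hj'.2 ω hN hN', l, hl'.1, by omega, hD.1.1⟩
    · rintro i hi j hj hij ω ⟨⟨_, hDi⟩, hNi⟩ ⟨⟨_, hDj⟩, hNj⟩
      have hi' := Finset.mem_Ioc.1 hi
      have hj' := Finset.mem_Ioc.1 hj
      obtain ⟨l, hl, hDi⟩ := mem_iUnion₂.1 hDi
      obtain ⟨l', hl', hDj⟩ := mem_iUnion₂.1 hDj
      have e1 := Finset.mem_Ioc.1 hl
      have e2 := Finset.mem_Ioc.1 hl'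
      have e3 : l = l' := by
        rcases lt_trichotomy l l' with h0 | h0 | h0
        · exact absurd hDi.1.1 (hDj.1.2 l e1.1 (by omega))
        · exact h0
        · exact absurd hDj.1.1 (hDi.1.2 l' e2.1 (by omega))
      subst e3
      exact hDj.2 i e1.2 hij (A.N_left i j L hij.le hj'.2 ω hNi)
  have h3 : c₁ * ∑ j ∈ Finset.Ioc M L, (A.P s).real (D2 A M j) ≤ (A.P s).real (A.LateG M L) := by
    rw [Finset.mul_sum]
    exact (Finset.sum_le_sum h1).trans h2
  rw [le_div_iff₀ hc, mul_comm]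
  exact h3

/-- reindexing of the unit levels after a restart -/
lemma reindex {f : ℕ → ℝ} (hf : ∀ m, 0 ≤ f m) (hf1 : f 0 ≤ 1) {n T r j : ℕ} (hn : 0 < n) {C : ℝ}
    (hC : ∀ r' < n, ∑ t ∈ Finset.Icc 1 T, f (t * n - r') ≤ C) :
    ∑ t ∈ (Finset.Icc 1 T).filter (fun t => j ≤ t * n - r ∧ r ≤ t * n), f (t * n - r - j) ≤
      C + 1 := by
  classical
  set t₀ := (r + j) / n with ht₀
  set r' := (r + j) % n with hr'
  have hrn : r' < n := Nat.mod_lt _ hn
  have hdec : t₀ * n + r' = r + j := by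
    rw [ht₀, hr', mul_comm]
    exact Nat.div_add_mod _ _
  set g : ℕ → ℝ := fun t => if t = 0 then f 0 else f (t * n - r') with hg
  have hg0 : ∀ t, 0 ≤ g t := fun t => by
    simp only [hg]; split_ifs <;> exact hf _
  set F := (Finset.Icc 1 T).filter (fun t => j ≤ t * n - r ∧ r ≤ t * n) with hF
  have hmem : ∀ t ∈ F, t₀ ≤ t ∧ t ≤ T ∧ r + j ≤ t * n := by
    intro t ht
    rw [hF, Finset.mem_filter, Finset.mem_Icc] at ht
    have h1 : r + j ≤ t * n := by omega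
    refine ⟨?_, ht.1.2, h1⟩
    exact Nat.div_le_of_le_mul (by rw [mul_comm]; exact h1)
  have h1 : ∀ t ∈ F, f (t * n - r - j) = g (t - t₀) := by
    intro t ht
    obtain ⟨h1, h2, h3⟩ := hmem t ht
    obtain ⟨k, rfl⟩ := Nat.exists_eq_add_of_le h1
    have e1 : (t₀ + k) * n = t₀ * n + k * n := by ring
    simp only [hg, Nat.add_sub_cancel_left]
    split_ifs with hk
    · subst hk
      congr 1
      simp only [Nat.zero_mul, Nat.add_zero] at e1 h3 ⊢
      omega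
    · congr 1
      omega
  have hinj : Set.InjOn (fun t => t - t₀) (F : Set ℕ) := by
    intro x hx y hy hxy
    have e1 := (hmem x hx).1
    have e2 := (hmem y hy).1
    simp only at hxy
    omega
  rw [Finset.sum_congr rfl h1, ← Finset.sum_image (f := g) hinj]
  have hsub : F.image (fun t => t - t₀) ⊆ insert 0 (Finset.Icc 1 T) := by
    intro t ht
    obtain ⟨x, hx, rfl⟩ := Finset.mem_image.1 ht
    obtain ⟨g1, g2, -⟩ := hmem x hx
    rw [Finset.mem_insert, Finset.mem_Icc]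
    show x - t₀ = 0 ∨ 1 ≤ x - t₀ ∧ x - t₀ ≤ T
    clear_value t₀
    omega
  refine (Finset.sum_le_sum_of_subset_of_nonneg hsub fun _ _ _ => hg0 _).trans ?_
  rw [Finset.sum_insert (by simp)]
  have e2 : ∑ t ∈ Finset.Icc 1 T, g t = ∑ t ∈ Finset.Icc 1 T, f (t * n - r') := by
    refine Finset.sum_congr rfl fun t ht => ?_
    have := Finset.mem_Icc.1 ht
    simp only [hg]
    rw [if_neg (by omega)]
  rw [e2]
  have e3 : g 0 = f 0 := by simp [hg]
  rw [e3]
  have := hC r' hrn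
  linarith

/-- **one step of the recursion.** -/
lemma step (H : A.Hyp a c₁ cₑ β h p Far χ) (R : RC A Cl) {n T K : ℕ} (hn : 0 < n) {A' ε G : ℝ}
    (hψ : ∀ s, ∀ r < n, ∑ t ∈ Finset.Icc 1 T, psi A Cl (t * n - r) s ≤ A')
    (hε : ∀ s, (A.P s).real (A.LateG (K * n) (T * n)) ≤ ε)
    (hA' : 0 ≤ A') (hG0 : 0 ≤ G)
    (hG : ∀ s, ∀ r < n, ∑ t ∈ Finset.Icc 1 T, cc A Cl (t * n - r) s ≤ G)
    (s : S) (r : ℕ) (hr : r < n) :
    ∑ t ∈ Finset.Icc 1 T, cc A Cl (t * n - r) s ≤ K + (A' + 1) / c₁ + (G + 1) * (ε / c₁) := by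
  classical
  have := A.prob s
  have hc := H.c₁pos
  set M := K * n with hM
  set L := T * n with hL
  set μ := A.P s with hμ
  have hmeasCl : ∀ m, MeasurableSet (A.st m ⁻¹' Cl) := fun m =>
    A.F_le m _ (A.st_meas m MeasurableSet.of_discrete)
  have hqL : ∀ t ∈ Finset.Icc 1 T, t * n - r ≤ L := fun t ht => by
    have h1 := (Finset.mem_Icc.1 ht).2
    have : t * n ≤ T * n := Nat.mul_le_mul_right n h1
    omega
  -- per level
  have h1 : ∀ t ∈ Finset.Icc 1 T, cc A Cl (t * n - r) s ≤ (if t ≤ K then 1 else 0) +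
      (∑ j ∈ Finset.Icc M L, (if j ≤ t * n - r ∧ r ≤ t * n then
        ∫ ω in D1 A M j, psi A Cl (t * n - r - j) (A.st j ω) ∂μ else 0) +
      ∑ j ∈ Finset.Ioc M L, (if j ≤ t * n - r ∧ r ≤ t * n then
        ∫ ω in D2 A M j, cc A Cl (t * n - r - j) (A.st j ω) ∂μ else 0)) := by
    intro t ht
    have ht1 := Finset.mem_Icc.1 ht
    set q := t * n - r with hq
    have hq1 : q ≤ L := hqL t ht
    have hrt : r ≤ t * n := by
      have : 1 * n ≤ t * n := Nat.mul_le_mul_right n ht1.1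
      omega
    have hnn1 : 0 ≤ ∑ j ∈ Finset.Icc M L, (if j ≤ q ∧ r ≤ t * n then
        ∫ ω in D1 A M j, psi A Cl (q - j) (A.st j ω) ∂μ else 0) := by
      refine Finset.sum_nonneg fun j _ => ?_
      split_ifs
      · exact integral_nonneg fun _ => psi_nonneg _ _
      · exact le_rfl
    have hnn2 : 0 ≤ ∑ j ∈ Finset.Ioc M L, (if j ≤ q ∧ r ≤ t * n then
        ∫ ω in D2 A M j, cc A Cl (q - j) (A.st j ω) ∂μ else 0) := by
      refine Finset.sum_nonneg fun j _ => ?_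
      split_ifs
      · exact integral_nonneg fun _ => cc_nonneg _ _
      · exact le_rfl
    by_cases htK : t ≤ K
    · rw [if_pos htK]
      have := cc_le_one (A := A) (Cl := Cl) q s
      linarith
    rw [if_neg htK, zero_add]
    have hMq : M ≤ q := by
      have : (K + 1) * n ≤ t * n := Nat.mul_le_mul_right n (by omega)
      have e : (K + 1) * n = M + n := by rw [hM]; ring
      omega
    have hcov : A.N 0 q ∩ A.st q ⁻¹' Cl ⊆
        (⋃ j ∈ Finset.Icc M q, (D1 A M j ∩ (A.N j q ∩ A.nocs j q ∩ A.st q ⁻¹' Cl))) ∪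
        ⋃ j ∈ Finset.Ioc M q, (D2 A M j ∩ (A.N j q ∩ A.st q ⁻¹' Cl)) := by
      rintro ω ⟨hN, hCl⟩
      by_cases hcs : ω ∈ A.nocs M q
      · obtain ⟨j, h1, h2, h3, h4, h5⟩ := cov1 R.refl hMq hN hcs
        exact Or.inl (mem_iUnion₂.2 ⟨j, Finset.mem_Icc.2 ⟨h1, h2⟩, h3, ⟨h4, h5⟩, hCl⟩)
      · obtain ⟨j, h1, h2, h3, h4⟩ := cov2 R.refl hN hcs
        exact Or.inr (mem_iUnion₂.2 ⟨j, Finset.mem_Ioc.2 ⟨h1, h2⟩, h3, h4, hCl⟩)
    refine (measureReal_mono hcov (measure_ne_top _ _)).trans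
      ((measureReal_union_le _ _).trans (add_le_add ?_ ?_))
    · refine (real_iUnion_le _ _).trans ?_
      have hsub : Finset.Icc M q ⊆ Finset.Icc M L := Finset.Icc_subset_Icc le_rfl hq1
      calc ∑ j ∈ Finset.Icc M q, μ.real (D1 A M j ∩ (A.N j q ∩ A.nocs j q ∩ A.st q ⁻¹' Cl))
          ≤ ∑ j ∈ Finset.Icc M q, (if j ≤ q ∧ r ≤ t * n then
            ∫ ω in D1 A M j, psi A Cl (q - j) (A.st j ω) ∂μ else 0) := by
            refine Finset.sum_le_sum fun j hj => ?_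
            have hj' := (Finset.mem_Icc.1 hj).2
            rw [if_pos ⟨hj', hrt⟩]
            exact R.r1 s j q hj' _ D1_meas D1_al
        _ ≤ _ := by
            refine Finset.sum_le_sum_of_subset_of_nonneg hsub fun j _ _ => ?_
            split_ifs
            · exact integral_nonneg fun _ => psi_nonneg _ _
            · exact le_rfl
    · refine (real_iUnion_le _ _).trans ?_
      have hsub : Finset.Ioc M q ⊆ Finset.Ioc M L := Finset.Ioc_subset_Ioc le_rfl hq1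
      calc ∑ j ∈ Finset.Ioc M q, μ.real (D2 A M j ∩ (A.N j q ∩ A.st q ⁻¹' Cl))
          ≤ ∑ j ∈ Finset.Ioc M q, (if j ≤ q ∧ r ≤ t * n then
            ∫ ω in D2 A M j, cc A Cl (q - j) (A.st j ω) ∂μ else 0) := by
            refine Finset.sum_le_sum fun j hj => ?_
            have hj' := (Finset.mem_Ioc.1 hj).2
            rw [if_pos ⟨hj', hrt⟩]
            exact R.r0 s j q hj' _ D2_meas D2_al
        _ ≤ _ := by
            refine Finset.sum_le_sum_of_subset_of_nonneg hsub fun j _ _ => ?_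
            split_ifs
            · exact integral_nonneg fun _ => cc_nonneg _ _
            · exact le_rfl
  refine (Finset.sum_le_sum h1).trans ?_
  rw [Finset.sum_add_distrib, Finset.sum_add_distrib, Finset.sum_comm (γ := ℕ) (s := Finset.Icc 1 T)
    (t := Finset.Icc M L), Finset.sum_comm (γ := ℕ) (s := Finset.Icc 1 T) (t := Finset.Ioc M L)]
  have hint : ∀ (f : S → ℝ) (j : ℕ), (∀ t, |f t| ≤ 1) → Integrable (fun ω => f (A.st j ω)) μ :=
    fun f j hf => integ_st s j f 1 hf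
  have h2 : ∑ t ∈ Finset.Icc 1 T, (if t ≤ K then (1:ℝ) else 0) ≤ K := by
    rw [← Finset.sum_filter, Finset.sum_const, nsmul_eq_mul, mul_one]
    have : (Finset.Icc 1 T).filter (fun t => t ≤ K) ⊆ Finset.Icc 1 K := by
      intro t ht
      rw [Finset.mem_filter, Finset.mem_Icc] at ht
      exact Finset.mem_Icc.2 ⟨ht.1.1, ht.2⟩
    have := Finset.card_le_card this
    rw [Nat.card_Icc] at this
    exact_mod_cast (by omega : ((Finset.Icc 1 T).filter (fun t => t ≤ K)).card ≤ K)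
  have h3 : ∑ j ∈ Finset.Icc M L, ∑ t ∈ Finset.Icc 1 T, (if j ≤ t * n - r ∧ r ≤ t * n then
        ∫ ω in D1 A M j, psi A Cl (t * n - r - j) (A.st j ω) ∂μ else 0) ≤ (A' + 1) / c₁ := by
    have e1 : ∀ j ∈ Finset.Icc M L, ∑ t ∈ Finset.Icc 1 T, (if j ≤ t * n - r ∧ r ≤ t * n then
        ∫ ω in D1 A M j, psi A Cl (t * n - r - j) (A.st j ω) ∂μ else 0)
        ≤ (A' + 1) * μ.real (D1 A M j) := by
      intro j hj
      rw [← Finset.sum_filter, ← integral_finsetSum _ fun t _ =>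
        (hint (psi A Cl (t * n - r - j)) j fun x => by
          rw [abs_of_nonneg (psi_nonneg _ _)]; exact psi_le_one _ _).integrableOn]
      have e2 : (A' + 1) * μ.real (D1 A M j) = ∫ ω in D1 A M j, (A' + 1) ∂μ := by
        rw [setIntegral_const, smul_eq_mul, mul_comm]
      rw [e2]
      refine setIntegral_mono_on (integrable_finsetSum _ fun t _ =>
        (hint (psi A Cl (t * n - r - j)) j fun x => by
          rw [abs_of_nonneg (psi_nonneg _ _)]; exact psi_le_one _ _).integrableOn)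
        (integrable_const _).integrableOn (meas j D1_meas) ?_
      intro ω _
      exact reindex (f := fun m => psi A Cl m (A.st j ω)) (fun _ => psi_nonneg _ _)
        (psi_le_one _ _) hn (hψ _)
    refine (Finset.sum_le_sum e1).trans ?_
    rw [← Finset.mul_sum]
    have e3 := sum_D1 H s M L
    have : (A' + 1) * ∑ j ∈ Finset.Icc M L, μ.real (D1 A M j) ≤ (A' + 1) * (1 / c₁) :=
      mul_le_mul_of_nonneg_left e3 (by linarith)
    rwa [mul_one_div] at this
  have h4 : ∑ j ∈ Finset.Ioc M L, ∑ t ∈ Finset.Icc 1 T, (if j ≤ t * n - r ∧ r ≤ t * n then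
        ∫ ω in D2 A M j, cc A Cl (t * n - r - j) (A.st j ω) ∂μ else 0) ≤
        (G + 1) * (ε / c₁) := by
    have e1 : ∀ j ∈ Finset.Ioc M L, ∑ t ∈ Finset.Icc 1 T, (if j ≤ t * n - r ∧ r ≤ t * n then
        ∫ ω in D2 A M j, cc A Cl (t * n - r - j) (A.st j ω) ∂μ else 0)
        ≤ (G + 1) * μ.real (D2 A M j) := by
      intro j hj
      rw [← Finset.sum_filter, ← integral_finsetSum _ fun t _ =>
        (hint (cc A Cl (t * n - r - j)) j fun x => by
          rw [abs_of_nonneg (cc_nonneg _ _)]; exact cc_le_one _ _).integrableOn]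
      have e2 : (G + 1) * μ.real (D2 A M j) = ∫ ω in D2 A M j, (G + 1) ∂μ := by
        rw [setIntegral_const, smul_eq_mul, mul_comm]
      rw [e2]
      refine setIntegral_mono_on (integrable_finsetSum _ fun t _ =>
        (hint (cc A Cl (t * n - r - j)) j fun x => by
          rw [abs_of_nonneg (cc_nonneg _ _)]; exact cc_le_one _ _).integrableOn)
        (integrable_const _).integrableOn (meas j D2_meas) ?_
      intro ω _
      exact reindex (f := fun m => cc A Cl m (A.st j ω)) (fun _ => cc_nonneg _ _)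
        (cc_le_one _ _) hn (hG _)
    refine (Finset.sum_le_sum e1).trans ?_
    rw [← Finset.mul_sum]
    have e3 := (sum_D2 H s M L).trans (div_le_div_of_nonneg_right (hε s) hc.le)
    exact mul_le_mul_of_nonneg_left e3 (by linarith)
  linarith

/-- **(L2) COLL**: bounded expected number of close unit levels, sup outside the sum. -/
theorem coll (H : A.Hyp a c₁ cₑ β h p Far χ) (R : RC A Cl) {n T K : ℕ} (hn : 0 < n) {A' : ℝ}
    (hA' : 0 ≤ A')
    (hψ : ∀ s, ∀ r < n, ∑ t ∈ Finset.Icc 1 T, psi A Cl (t * n - r) s ≤ A')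
    (hε : ∀ s, (A.P s).real (A.LateG (K * n) (T * n)) ≤ c₁ / 4) :
    ∀ s, ∀ r < n, ∑ t ∈ Finset.Icc 1 T, cc A Cl (t * n - r) s ≤
      2 * (K + 1 + (A' + 1) / c₁) := by
  classical
  have hc := H.c₁pos
  set X : Set ℝ := {x | ∃ s : S, ∃ r < n, x = ∑ t ∈ Finset.Icc 1 T, cc A Cl (t * n - r) s} with hX
  have hbd : BddAbove X := by
    refine ⟨T, ?_⟩
    rintro x ⟨s, r, _, rfl⟩
    calc ∑ t ∈ Finset.Icc 1 T, cc A Cl (t * n - r) s ≤ ∑ t ∈ Finset.Icc 1 T, (1:ℝ) :=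
          Finset.sum_le_sum fun t _ => cc_le_one _ _
      _ = T := by simp
  set G := sSup X with hG
  have hle : ∀ s, ∀ r < n, ∑ t ∈ Finset.Icc 1 T, cc A Cl (t * n - r) s ≤ G :=
    fun s r hr => le_csSup hbd ⟨s, r, hr, rfl⟩
  intro s r hr
  have hG0 : 0 ≤ G := (Finset.sum_nonneg fun t _ => cc_nonneg _ _).trans (hle s r hr)
  have hne : X.Nonempty := ⟨_, s, r, hr, rfl⟩
  have hstep : G ≤ K + (A' + 1) / c₁ + (G + 1) * ((c₁ / 4) / c₁) := by
    refine csSup_le hne ?_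
    rintro x ⟨s', r', hr', rfl⟩
    exact step H R hn hψ hε hA' hG0 hle s' r' hr'
  have e1 : (c₁ / 4) / c₁ = 1 / 4 := by field_simp
  rw [e1] at hstep
  have e2 : 0 ≤ (A' + 1) / c₁ := by positivity
  have e3 : (0:ℝ) ≤ K := Nat.cast_nonneg K
  refine (hle s r hr).trans ?_
  nlinarith

end sums

end Crest.Agent.R154.Coll21
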