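import Crest.Agent.R154.B6Abs_833

/-! R154, TILE_RUN (T4), leaf (L) (helper305): the renewal bound (COLL) on 833's abstract pair system.
Two walkers in the same environment; `C` = set of close states at unit levels.  If the no-contact
probabilities `b` lose at most `ε` between `n₀` and `m` (from every start), the expected number of
levels `t ≤ m` with both walkers natural up to `t` and in a state of `C` is at most
`2 (K + A' / c₁²)`. -/

set_option autoImplicit false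
set_option linter.unusedSectionVars false
set_option linter.deprecated false
set_option linter.unusedVariables false

open MeasureTheory Set Filter Topology
open scoped BigOperators

namespace Crest.Agent.R154.Coll305

open Crest.Agent.R154.B6_833 PairSys

variable {S Ω : Type*} [MeasurableSpace S] [mΩ : MeasurableSpace Ω] {A : PairSys S Ω}

section general

variable [DiscreteMeasurableSpace S] {a : ℕ} {c₁ cₑ : ℝ} {β : ℕ → ℝ} {h : ℕ → ℝ} {p : ℝ}
  {Far : ℕ → Set S} {χ : ℕ → S → ℝ}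

/-- first joint natural levels (horizon `m`) above `l` inside a past event: total mass of the
restart sets. -/
lemma sum_first (H : A.Hyp a c₁ cₑ β h p Far χ) (s : S) {l m : ℕ} (t : Finset ℕ)
    (ht : ∀ j ∈ t, l ≤ j ∧ j ≤ m) (B : Set Ω) (D : ℕ → Set Ω)
    (hDm : ∀ j ∈ t, MeasurableSet[A.F j] (D j)) (hDa : ∀ j ∈ t, D j ⊆ A.al j)
    (hDk : ∀ j ∈ t, D j ⊆ A.killed l j) (hDB : ∀ j ∈ t, D j ⊆ B) :
    c₁ * ∑ j ∈ t, (A.P s).real (D j) ≤ (A.P s).real B := by
  have := A.prob s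
  rw [Finset.mul_sum]
  calc ∑ j ∈ t, c₁ * (A.P s).real (D j) ≤ ∑ j ∈ t, (A.P s).real (D j ∩ A.N j m) :=
        Finset.sum_le_sum fun j hj => lowerN H s j m (ht j hj).2 _ (hDm j hj) (hDa j hj)
    _ ≤ (A.P s).real B := by
        refine sum_disj_le _ _ _ ?_ ?_ ?_
        · intro j hj
          exact (meas j (hDm j hj)).inter (N_measΩ j m (ht j hj).2)
        · intro j hj ω hω
          exact hDB j hj hω.1
        · intro i hi j hj hij ω hωi hωj
          exact hDk j hj hωj.1 i (ht i hi).1 hij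
            (A.N_left i j m hij.le (ht j hj).2 ω hωi.2)

/-- **(a) any past**: the expected number of later levels `t` with `D t`. -/
lemma after (H : A.Hyp a c₁ cₑ β h p Far χ) (s : S) {l m : ℕ} (hlm : l ≤ m) {B : Set Ω}
    (hB : MeasurableSet[A.F l] B) (D : ℕ → Set Ω) (E : ℕ → ℕ → Set Ω) (e : ℕ → S → ℝ) {G : ℝ}
    (hDm : ∀ t, l ≤ t → t ≤ m → MeasurableSet[A.F t] (D t))
    (hDa : ∀ t, l ≤ t → t ≤ m → D t ⊆ A.al t)
    (hDE : ∀ j t, l ≤ j → j ≤ t → t ≤ m → D t ∩ A.N j t ⊆ E j t)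
    (he0 : ∀ r s', 0 ≤ e r s') (he1 : ∀ r s', e r s' ≤ 1)
    (hE : ∀ j t, j ≤ t → ∀ B', MeasurableSet[A.F j] B' → B' ⊆ A.al j →
      (A.P s).real (B' ∩ E j t) = ∫ ω in B', e (t - j) (A.st j ω) ∂(A.P s))
    (hG : ∀ s', ∑ r ∈ Finset.range (m + 1), e r s' ≤ G) :
    ∑ t ∈ Finset.Icc l m, (A.P s).real (B ∩ D t) ≤ G / c₁ ^ 2 * (A.P s).real B := by
  classical
  have := A.prob s
  have hc := H.c₁pos
  set μ := A.P s with hμ
  have hG0 : 0 ≤ G := (Finset.sum_nonneg fun r _ => he0 r s).trans (hG s)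
  set Bj : ℕ → Set Ω := fun j => (B ∩ A.killed l j) ∩ A.al j with hBj
  have hBjm : ∀ j, l ≤ j → MeasurableSet[A.F j] (Bj j) := fun j hj =>
    MeasurableSet.inter (MeasurableSet.inter (A.F_mono l j hj _ hB) (killed_meas l j))
      (A.al_meas j)
  have hBja : ∀ j, Bj j ⊆ A.al j := fun j => inter_subset_right
  -- one level
  have h1 : ∀ t ∈ Finset.Icc l m, c₁ * μ.real (B ∩ D t) ≤
      ∑ j ∈ Finset.Icc l t, ∫ ω in Bj j, e (t - j) (A.st j ω) ∂μ := by
    intro t ht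
    rw [Finset.mem_Icc] at ht
    have hm1 : MeasurableSet[A.F t] (B ∩ D t) :=
      MeasurableSet.inter (A.F_mono l t ht.1 _ hB) (hDm t ht.1 ht.2)
    refine (lowerN H s t m ht.2 _ hm1 (fun ω hω => hDa t ht.1 ht.2 hω.2)).trans ?_
    have hcov : (B ∩ D t) ∩ A.N t m ⊆ ⋃ j ∈ Finset.Icc l t, (Bj j ∩ E j t) := by
      rintro ω ⟨⟨hωB, hωD⟩, hωN⟩
      have hex : ∃ j, l ≤ j ∧ j ≤ t ∧ ω ∈ A.N j m := ⟨t, ht.1, le_rfl, hωN⟩
      obtain ⟨e1, e2, e3⟩ := Nat.find_spec hex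
      set j := Nat.find hex with hj
      have hNjt : ω ∈ A.N j t := A.N_left j t m e2 ht.2 ω e3
      refine mem_iUnion₂.mpr ⟨j, Finset.mem_Icc.2 ⟨e1, e2⟩, ⟨⟨hωB, ?_⟩, ?_⟩, ?_⟩
      · intro i hi hij hNi
        exact Nat.find_min hex hij ⟨hi, by omega, A.N_trans i j m hij.le (by omega) ω hNi e3⟩
      · exact A.al_anti j t e2 (hDa t ht.1 ht.2 hωD)
      · exact hDE j t e1 e2 ht.2 ⟨hωD, hNjt⟩
    refine (measureReal_mono hcov (measure_ne_top _ _)).trans ((real_iUnion_le _ _).trans ?_)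
    refine Finset.sum_le_sum fun j hj => ?_
    rw [Finset.mem_Icc] at hj
    rw [hE j t hj.2 _ (hBjm j hj.1) (hBja j)]
  have hint : ∀ j r, Integrable (fun ω => e r (A.st j ω)) μ := fun j r =>
    integ_st s j (e r) 1 fun t => by rw [abs_of_nonneg (he0 r t)]; exact he1 r t
  -- sum over the levels
  have h2 : c₁ * ∑ t ∈ Finset.Icc l m, μ.real (B ∩ D t) ≤
      ∑ j ∈ Finset.Icc l m, G * μ.real (Bj j) := by
    rw [Finset.mul_sum]
    refine (Finset.sum_le_sum h1).trans ?_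
    have hswap : ∑ t ∈ Finset.Icc l m, ∑ j ∈ Finset.Icc l t,
        ∫ ω in Bj j, e (t - j) (A.st j ω) ∂μ =
        ∑ j ∈ Finset.Icc l m, ∑ t ∈ Finset.Icc j m,
          ∫ ω in Bj j, e (t - j) (A.st j ω) ∂μ := by
      refine Finset.sum_comm' fun t j => ?_
      simp only [Finset.mem_Icc]
      omega
    rw [hswap]
    refine Finset.sum_le_sum fun j hj => ?_
    rw [Finset.mem_Icc] at hj
    rw [← integral_finset_sum _ fun t _ => (hint j (t - j)).integrableOn]
    calc ∫ ω in Bj j, ∑ t ∈ Finset.Icc j m, e (t - j) (A.st j ω) ∂μ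
        ≤ ∫ ω in Bj j, G ∂μ := by
          refine setIntegral_mono_on
            (integrable_finset_sum _ fun t _ => (hint j (t - j)).integrableOn)
            (integrable_const _).integrableOn (meas j (hBjm j hj.1)) ?_
          intro ω _
          refine le_trans ?_ (hG (A.st j ω))
          have e1 : ∑ t ∈ Finset.Icc j m, e (t - j) (A.st j ω)
              = ∑ r ∈ Finset.range (m + 1 - j), e r (A.st j ω) := by
            refine Finset.sum_bij' (fun t _ => t - j) (fun r _ => r + j) ?_ ?_ ?_ ?_ ?_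
            · intro t ht
              rw [Finset.mem_Icc] at ht
              rw [Finset.mem_range]; omega
            · intro r hr
              rw [Finset.mem_range] at hr
              rw [Finset.mem_Icc]; omega
            · intro t ht
              rw [Finset.mem_Icc] at ht
              omega
            · intro r hr
              omega
            · intro t ht
              rfl
          rw [e1]
          exact Finset.sum_le_sum_of_subset_of_nonneg
            (by intro r hr; rw [Finset.mem_range] at hr ⊢; omega) fun r _ _ => he0 r _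
      _ = G * μ.real (Bj j) := by rw [setIntegral_const, smul_eq_mul, mul_comm]
  have h3 : c₁ * ∑ j ∈ Finset.Icc l m, μ.real (Bj j) ≤ μ.real B :=
    sum_first H s (l := l) (m := m) (Finset.Icc l m) (fun j hj => Finset.mem_Icc.1 hj) B Bj
      (fun j hj => hBjm j (Finset.mem_Icc.1 hj).1) (fun j _ => hBja j)
      (fun j _ ω hω => hω.1.2) (fun j _ ω hω => hω.1.1)
  rw [← Finset.mul_sum] at h2
  have h4 : c₁ * (c₁ * ∑ t ∈ Finset.Icc l m, μ.real (B ∩ D t)) ≤ G * μ.real B :=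
    calc c₁ * (c₁ * ∑ t ∈ Finset.Icc l m, μ.real (B ∩ D t))
        ≤ c₁ * (G * ∑ j ∈ Finset.Icc l m, μ.real (Bj j)) := mul_le_mul_of_nonneg_left h2 hc.le
      _ = G * (c₁ * ∑ j ∈ Finset.Icc l m, μ.real (Bj j)) := by ring
      _ ≤ G * μ.real B := mul_le_mul_of_nonneg_left h3 hG0
  rw [div_mul_eq_mul_div, le_div_iff₀ (by positivity)]
  calc (∑ t ∈ Finset.Icc l m, μ.real (B ∩ D t)) * c₁ ^ 2
      = c₁ * (c₁ * ∑ t ∈ Finset.Icc l m, μ.real (B ∩ D t)) := by ring
    _ ≤ _ := h4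

/-- **(b) relative form**: absolute smallness of the loss of `b` above `n₀` gives relative
smallness above `4 n₀`. -/
lemma rel (H : A.Hyp a c₁ cₑ β h p Far χ) {ε₁ : ℝ} (hε₁ : 0 < ε₁) :
    ∃ ε > (0:ℝ), ∃ n₁ : ℕ, ∀ n₀ ≥ n₁, ∀ m, (∀ s ∈ A.Dist, A.b n₀ s - A.b m s ≤ ε) →
      ∀ s ∈ A.Dist, ∀ k, 4 * n₀ ≤ k → ∀ m', k ≤ m' → m' ≤ m →
        A.b k s - A.b m' s ≤ ε₁ * A.b k s := by
  classical
  have hc := H.c₁pos
  have ha1 := H.a1
  obtain ⟨kd, hkd⟩ := delta H (ε₁ / 4) (by positivity)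
  obtain ⟨n₂, hn₂⟩ := (svfam H).sv2 3 (1 / 2) (by norm_num)
  refine ⟨c₁ * ε₁ / 4, by positivity, max (kd + 1) (max a n₂) + 1, ?_⟩
  intro n₀ hn₀ m hK s hs k hk m' hkm hm'
  have hn1 : kd + 1 ≤ n₀ := by
    have := le_max_left (kd + 1) (max a n₂); omega
  have hn2 : a ≤ n₀ := by
    have h1 := le_max_right (kd + 1) (max a n₂)
    have h2 := le_max_left a n₂
    omega
  have hn3 : n₂ ≤ n₀ := by
    have h1 := le_max_right (kd + 1) (max a n₂)
    have h2 := le_max_right a n₂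
    omega
  have := A.prob s
  set μ := A.P s with hμ
  set L := k / 2 with hL
  have hLk : L + kd + n₀ ≤ k := by omega
  set B := A.N 0 L ∩ A.nocs 0 L with hBd
  have hBm : MeasurableSet[A.F L] B :=
    MeasurableSet.inter (A.N_meas 0 L (Nat.zero_le _)) (nocs_meas 0 L)
  have hBa : B ⊆ A.al L := fun ω hω => A.N_al 0 L (Nat.zero_le _) hω.1
  have hBb : μ.real B = A.b L s := rfl
  set Ek := A.N 0 k ∩ A.nocs 0 k with hEk
  set Em := A.N 0 m' ∩ A.nocs 0 m' with hEm
  have hEmm : MeasurableSet Em := (N_measΩ 0 _ (Nat.zero_le _)).inter (nocs_measΩ 0 _)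
  have hEsub : Em ⊆ Ek := fun ω hω =>
    ⟨A.N_left 0 k m' (Nat.zero_le _) hkm ω hω.1, nocs_anti hkm hω.2⟩
  have e0 : A.b k s - A.b m' s = μ.real (Ek \ Em) := by
    rw [measureReal_diff hEsub hEmm]; rfl
  set Bj : ℕ → Set Ω := fun j => ((B ∩ A.nocs 0 j) ∩ A.killed L j) ∩ A.al j with hBj
  have hBjm : ∀ j, L ≤ j → MeasurableSet[A.F j] (Bj j) := fun j hj =>
    MeasurableSet.inter (MeasurableSet.inter (MeasurableSet.inter (A.F_mono L j hj _ hBm)
      (nocs_meas 0 j)) (killed_meas L j)) (A.al_meas j)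
  have hBja : ∀ j, Bj j ⊆ A.al j := fun j => inter_subset_right
  set T := Finset.Icc L (L + kd) with hT
  set U : ℕ → Set Ω := fun j =>
    (Bj j ∩ (A.N j k ∩ A.nocs j k)) \ (Bj j ∩ (A.N j m' ∩ A.nocs j m')) with hU
  have hcov : Ek \ Em ⊆ (B ∩ (A.none k L (L + kd) ∩ A.al k)) ∪ ⋃ j ∈ T, U j := by
    rintro ω ⟨⟨hN, hC⟩, hnot⟩
    have hal : ω ∈ A.al k := A.N_al 0 k (Nat.zero_le _) hN
    have hωB : ω ∈ B := ⟨A.N_left 0 L k (Nat.zero_le _) (by omega) ω hN, nocs_anti (by omega) hC⟩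
    by_cases hex : ∃ j, L ≤ j ∧ j ≤ L + kd ∧ ω ∈ A.N j k
    · right
      obtain ⟨e1, e2, e3⟩ := Nat.find_spec hex
      set j := Nat.find hex with hj
      have hωj : ω ∈ Bj j := by
        refine ⟨⟨⟨hωB, nocs_anti (by omega) hC⟩, ?_⟩, A.al_anti j k (by omega) hal⟩
        intro i hi hij hNi
        exact Nat.find_min hex hij ⟨hi, by omega, A.N_trans i j k hij.le (by omega) ω hNi e3⟩
      refine mem_iUnion₂.mpr ⟨j, Finset.mem_Icc.2 ⟨e1, e2⟩, ⟨hωj, e3, nocs_left (Nat.zero_le _) hC⟩, ?_⟩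
      rintro ⟨_, hNm, hCm⟩
      apply hnot
      have hN0j : ω ∈ A.N 0 j := A.N_left 0 j k (Nat.zero_le _) (by omega) ω hN
      refine ⟨A.N_trans 0 j m' (Nat.zero_le _) (by omega) ω hN0j hNm, ?_⟩
      intro i hi1 hi2
      by_cases hik : i ≤ k
      · exact hC i hi1 hik
      · exact hCm i (by omega) hi2
    · left
      push Not at hex
      exact ⟨hωB, fun j h1 h2 => hex j h1 h2, hal⟩
  have h1 : μ.real (Ek \ Em) ≤ μ.real (B ∩ (A.none k L (L + kd) ∩ A.al k)) +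
      ∑ j ∈ T, μ.real (U j) :=
    (measureReal_mono hcov (measure_ne_top _ _)).trans
      ((measureReal_union_le _ _).trans (add_le_add le_rfl (real_iUnion_le _ _)))
  have h2 := hkd s L k B (by omega) hBm hBa
  have h3 : ∀ j ∈ T, μ.real (U j) ≤ c₁ * ε₁ / 4 * μ.real (Bj j) := by
    intro j hj
    rw [hT, Finset.mem_Icc] at hj
    have hjk : j + n₀ ≤ k := by omega
    have hsub : Bj j ∩ (A.N j m' ∩ A.nocs j m') ⊆ Bj j ∩ (A.N j k ∩ A.nocs j k) :=
      fun ω hω => ⟨hω.1, A.N_left j k m' (by omega) hkm ω hω.2.1, nocs_anti hkm hω.2.2⟩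
    have e1 : μ.real (U j) = μ.real (Bj j ∩ (A.N j k ∩ A.nocs j k)) -
        μ.real (Bj j ∩ (A.N j m' ∩ A.nocs j m')) :=
      measureReal_diff hsub ((meas j (hBjm j hj.1)).inter
        ((N_measΩ j m' (by omega)).inter (nocs_measΩ j m')))
    rw [e1, H.FP s j k k (by omega) le_rfl _ (hBjm j hj.1) (hBja j),
      H.FP s j m' m' (by omega) le_rfl _ (hBjm j hj.1) (hBja j),
      ← integral_sub (integ_φ s j _ _).integrableOn (integ_φ s j _ _).integrableOn]
    calc _ ≤ ∫ ω in Bj j, c₁ * ε₁ / 4 ∂μ := by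
          refine setIntegral_mono_on ((integ_φ s j _ _).sub (integ_φ s j _ _)).integrableOn
            (integrable_const _).integrableOn (meas j (hBjm j hj.1)) ?_
          intro ω _
          by_cases hd : A.st j ω ∈ A.Dist
          · have q1 := hK _ hd
            have q2 : A.b (k - j) (A.st j ω) ≤ A.b n₀ (A.st j ω) := b_anti _ (by omega)
            have q3 : A.b m (A.st j ω) ≤ A.b (m' - j) (A.st j ω) := b_anti _ (by omega)
            unfold b at q1 q2 q3
            linarith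
          · have q1 := H.eqz _ hd (k - j) (k - j) (by omega) le_rfl
            have q2 := φ_nonneg (A := A) (m' - j) (m' - j) (A.st j ω)
            have q3 : 0 ≤ c₁ * ε₁ / 4 := by positivity
            rw [q1]; linarith
      _ = c₁ * ε₁ / 4 * μ.real (Bj j) := by rw [setIntegral_const, smul_eq_mul, mul_comm]
  have h4 : c₁ * ∑ j ∈ T, μ.real (Bj j) ≤ μ.real B :=
    sum_first H s (l := L) (m := k) T (fun j hj => by
        rw [hT, Finset.mem_Icc] at hj; omega) B Bj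
      (fun j hj => hBjm j (by rw [hT, Finset.mem_Icc] at hj; omega)) (fun j _ => hBja j)
      (fun j _ ω hω => hω.1.2) (fun j _ ω hω => hω.1.1.1)
  have h5 : ∑ j ∈ T, μ.real (U j) ≤ ε₁ / 4 * μ.real B := by
    refine (Finset.sum_le_sum h3).trans ?_
    rw [← Finset.mul_sum]
    calc c₁ * ε₁ / 4 * ∑ j ∈ T, μ.real (Bj j) = ε₁ / 4 * (c₁ * ∑ j ∈ T, μ.real (Bj j)) := by ring
      _ ≤ ε₁ / 4 * μ.real B := mul_le_mul_of_nonneg_left h4 (by positivity)
  have h6 : A.b L s ≤ 2 * A.b k s := by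
    have q1 := hn₂ L (by omega) (fun r => A.b r s) ⟨s, hs, rfl⟩
    have q2 : A.b (3 * L) s ≤ A.b k s := b_anti s (by omega)
    linarith
  rw [e0]
  rw [hBb] at h2 h5
  have h7 : 0 ≤ A.b L s := b_nonneg _ _
  nlinarith

/-- first new contact after `n`, at stage `l` -/
def Fc (A : PairSys S Ω) (n l : ℕ) : Set Ω := (A.N 0 l ∩ A.nocs n (l - 1)) ∩ A.cs l

lemma Fc_meas (n l : ℕ) : MeasurableSet[A.F l] (Fc A n l) :=
  MeasurableSet.inter (MeasurableSet.inter (A.N_meas 0 l (Nat.zero_le _))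
    (A.F_mono (l - 1) l (Nat.sub_le _ _) _ (nocs_meas n (l - 1)))) (A.cs_meas l)

/-- **(c) late contact, unbounded range** -/
lemma late (H : A.Hyp a c₁ cₑ β h p Far χ) {ε₂ : ℝ} (hε₂ : 0 < ε₂) :
    ∃ ε > (0:ℝ), ∃ n₁ : ℕ, ∀ n₀ ≥ n₁, ∀ m, (∀ s ∈ A.Dist, A.b n₀ s - A.b m s ≤ ε) →
      ∀ s, ∑ l ∈ Finset.Ioc (16 * n₀) m, (A.P s).real (Fc A (16 * n₀) l) ≤ ε₂ := by
  classical
  have hc := H.c₁pos
  have ha1 := H.a1
  obtain ⟨n₂, hn₂⟩ := late_lim H (ε₂ / 3) (by positivity)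
  obtain ⟨kd, hkd⟩ := delta H (ε₂ / 3) (by positivity)
  obtain ⟨ε, hε, n₃, hrel⟩ := rel H (ε₁ := ε₂ / 3) (by positivity)
  refine ⟨ε, hε, max (max n₂ kd) (max n₃ a) + 1, ?_⟩
  intro n₀ hn₀ m hK s
  have hn1 : n₂ ≤ n₀ := by
    have h1 := le_max_left (max n₂ kd) (max n₃ a)
    have h2 := le_max_left n₂ kd
    omega
  have hn2 : kd ≤ n₀ := by
    have h1 := le_max_left (max n₂ kd) (max n₃ a)
    have h2 := le_max_right n₂ kd
    omega
  have hn3 : n₃ ≤ n₀ := by
    have h1 := le_max_right (max n₂ kd) (max n₃ a)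
    have h2 := le_max_left n₃ a
    omega
  have hn4 : a ≤ n₀ := by
    have h1 := le_max_right (max n₂ kd) (max n₃ a)
    have h2 := le_max_right n₃ a
    omega
  have := A.prob s
  set μ := A.P s with hμ
  set n := 16 * n₀ with hn
  rcases lt_or_ge n m with hnm | hnm
  swap
  · rw [Finset.Ioc_eq_empty (by omega), Finset.sum_empty]; exact hε₂.le
  set K := n / 2 + n / 4 with hKd
  set E : ℕ → Set Ω := fun j => A.Bst j ∩ (A.N j n ∩ A.nocs j n) with hE
  set E' : ℕ → Set Ω := fun j => A.Bst j ∩ (A.N j m ∩ A.nocs j m) with hE'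
  set Q := A.al (n/2) ∩ (A.none n (n/2) (n/2 + kd) ∩ A.al n) with hQ
  set V := (A.Late n ∪ Q) ∪ ⋃ j ∈ Finset.range (K + 1), (E j \ E' j) with hV
  have hcov : ∀ l ∈ Finset.Ioc n m, Fc A n l ⊆ V := by
    rintro l hl ω ⟨⟨hN, hno⟩, hcs⟩
    rw [Finset.mem_Ioc] at hl
    have hN0n : ω ∈ A.N 0 n := A.N_left 0 n l (Nat.zero_le _) hl.1.le ω hN
    have haln : ω ∈ A.al n := A.N_al 0 n (Nat.zero_le _) hN0n
    by_cases hLt : ω ∈ A.Late n
    · exact Or.inl (Or.inl hLt)
    by_cases hQt : ω ∈ Q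
    · exact Or.inl (Or.inr hQt)
    right
    have hj0 : ∃ j, n/2 ≤ j ∧ j ≤ n/2 + kd ∧ ω ∈ A.N j n := by
      by_contra hcon
      push Not at hcon
      exact hQt ⟨A.al_anti _ n (by omega) haln, fun j h1 h2 => hcon j h1 h2, haln⟩
    obtain ⟨j₀, hj1, hj2, hj3⟩ := hj0
    obtain ⟨j, hj, hjm⟩ := exists_start n n K le_rfl (by omega) ω hN0n (by
      intro i hi1 hi2 hi3
      refine ⟨j₀, ?_, by omega, hj3⟩
      by_contra hcon
      exact hLt ⟨hN0n, i, by omega, hi2, hi3⟩)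
    refine mem_iUnion₂.mpr ⟨j, Finset.mem_range.2 (by omega), hjm, ?_⟩
    rintro ⟨_, _, hCm⟩
    exact hCm l (by omega) hl.2 hcs
  have hfin : ∑ l ∈ Finset.Ioc n m, μ.real (Fc A n l) ≤ μ.real V := by
    refine sum_disj_le _ _ _ ?_ hcov ?_
    · intro l _
      exact meas l (Fc_meas n l)
    · intro i hi j hj hij ω h1 h2
      rw [Finset.mem_Ioc] at hi hj
      exact h2.1.2 i (by omega) (by omega) h1.2
  have h1 : μ.real V ≤ (μ.real (A.Late n) + μ.real Q) +
      ∑ j ∈ Finset.range (K + 1), μ.real (E j \ E' j) :=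
    (measureReal_union_le _ _).trans (add_le_add (measureReal_union_le _ _) (real_iUnion_le _ _))
  have h3 : μ.real (A.Late n) ≤ ε₂ / 3 := hn₂ n (by omega) s
  have h4 : μ.real Q ≤ ε₂ / 3 := by
    have h5 := hkd s (n/2) n (A.al (n/2)) (by omega) (A.al_meas _) subset_rfl
    have h6 : (A.P s).real (A.al (n/2)) ≤ 1 := measureReal_le_one
    have h7 : 0 < ε₂ / 3 := by positivity
    calc μ.real Q ≤ ε₂ / 3 * (A.P s).real (A.al (n/2)) := h5
      _ ≤ ε₂ / 3 * 1 := mul_le_mul_of_nonneg_left h6 h7.le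
      _ = ε₂ / 3 := mul_one _
  have h5 : ∀ j ∈ Finset.range (K+1), μ.real (E j \ E' j) ≤
      ε₂ / 3 * ∫ ω in A.Bst j, A.b (n-j) (A.st j ω) ∂μ := by
    intro j hj
    rw [Finset.mem_range] at hj
    have hsub : E' j ⊆ E j := fun ω hω =>
      ⟨hω.1, A.N_left j n m (by omega) hnm.le ω hω.2.1, nocs_anti hnm.le hω.2.2⟩
    have hE'm : MeasurableSet (E' j) := (meas j (Bst_meas j)).inter
      ((N_measΩ j m (by omega)).inter (nocs_measΩ j m))
    rw [measureReal_diff hsub hE'm, hE, hE']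
    simp only
    rw [hμ, H.FP s j n n (by omega) le_rfl _ (Bst_meas j) (Bst_al j),
      H.FP s j m m (by omega) le_rfl _ (Bst_meas j) (Bst_al j),
      ← integral_sub (integ_φ s j _ _).integrableOn (integ_φ s j _ _).integrableOn,
      ← integral_const_mul]
    refine setIntegral_mono_on ((integ_φ s j _ _).sub (integ_φ s j _ _)).integrableOn
      ((integ_b s j _).const_mul _).integrableOn (meas j (Bst_meas j)) ?_
    intro ω _
    by_cases hd : A.st j ω ∈ A.Dist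
    · exact hrel n₀ (by omega) m hK _ hd (n - j) (by omega) (m - j) (by omega) (by omega)
    · have q1 := H.eqz _ hd (n - j) (n - j) (by omega) le_rfl
      have q2 := φ_nonneg (A := A) (m - j) (m - j) (A.st j ω)
      have q3 : A.b (n - j) (A.st j ω) = 0 := q1
      rw [q1, q3]; linarith
  have h6 : ∑ j ∈ Finset.range (K+1), μ.real (E j \ E' j) ≤ ε₂ / 3 := by
    refine (Finset.sum_le_sum h5).trans ?_
    rw [← Finset.mul_sum]
    have h7 : ∑ j ∈ Finset.range (K+1), ∫ ω in A.Bst j, A.b (n-j) (A.st j ω) ∂μ ≤ 1 := by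
      refine le_trans (Finset.sum_le_sum_of_subset_of_nonneg ?_ ?_) (sum_start_b H s n)
      · intro j hj; rw [Finset.mem_range] at hj ⊢; omega
      · intro j _ _
        exact integral_nonneg fun ω => b_nonneg _ _
    have h8 : 0 < ε₂ / 3 := by positivity
    calc ε₂ / 3 * _ ≤ ε₂ / 3 * 1 := mul_le_mul_of_nonneg_left h7 h8.le
      _ = ε₂ / 3 := mul_one _
  linarith

end general

section coll

variable [DiscreteMeasurableSpace S] {a : ℕ} {c₁ cₑ : ℝ} {β : ℕ → ℝ} {h : ℕ → ℝ} {p : ℝ}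
  {Far : ℕ → Set S} {χ : ℕ → S → ℝ}

/-- both natural up to `r`, state in `C` -/
noncomputable def ps (A : PairSys S Ω) (C : Set S) (r : ℕ) (s : S) : ℝ :=
  (A.P s).real (A.N 0 r ∩ A.st r ⁻¹' C)

/-- both natural up to `r`, no contact, state in `C` -/
noncomputable def pc (A : PairSys S Ω) (C : Set S) (r : ℕ) (s : S) : ℝ :=
  (A.P s).real ((A.N 0 r ∩ A.nocs 0 r) ∩ A.st r ⁻¹' C)

/-- fresh restart for the events with a final state in `C` -/
structure FPC (A : PairSys S Ω) (C : Set S) : Prop where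
  fp : ∀ s j t, j ≤ t → ∀ B, MeasurableSet[A.F j] B → B ⊆ A.al j →
    (A.P s).real (B ∩ (A.N j t ∩ A.st t ⁻¹' C)) = ∫ ω in B, ps A C (t - j) (A.st j ω) ∂(A.P s)
  fpc : ∀ s j t, j ≤ t → ∀ B, MeasurableSet[A.F j] B → B ⊆ A.al j →
    (A.P s).real (B ∩ ((A.N j t ∩ A.nocs j t) ∩ A.st t ⁻¹' C)) =
      ∫ ω in B, pc A C (t - j) (A.st j ω) ∂(A.P s)

/-- **(COLL)**: expected number of close unit levels, both walkers natural up to the level, from
every pair of starts, in the same environment. -/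
theorem coll (H : A.Hyp a c₁ cₑ β h p Far χ) :
    ∃ ε > (0:ℝ), ∃ n₁ : ℕ, ∀ n₀ ≥ n₁, ∀ m, (∀ s ∈ A.Dist, A.b n₀ s - A.b m s ≤ ε) →
      ∀ C : Set S, FPC A C → ∀ K A' : ℝ,
      (∀ s, ∑ t ∈ Finset.range (16 * n₀ + 1), ps A C t s ≤ K) →
      (∀ s, ∑ t ∈ Finset.range (m + 1), pc A C t s ≤ A') →
      ∀ s, ∑ t ∈ Finset.range (m + 1), ps A C t s ≤ 2 * (K + A' / c₁ ^ 2) := by
  classical
  have hc := H.c₁pos
  obtain ⟨ε, hε, n₁, hlate⟩ := late H (ε₂ := c₁ ^ 2 / 2) (by positivity)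
  refine ⟨ε, hε, n₁, fun n₀ hn₀ m hK C hF K A' hk0 hA s₀ => ?_⟩
  have hl := hlate n₀ hn₀ m hK
  set n := 16 * n₀ with hn
  have hps0 : ∀ r s, 0 ≤ ps A C r s := fun r s => measureReal_nonneg
  have hps1 : ∀ r s, ps A C r s ≤ 1 := fun r s => by
    have := A.prob s
    exact measureReal_le_one
  have hpc0 : ∀ r s, 0 ≤ pc A C r s := fun r s => measureReal_nonneg
  have hpc1 : ∀ r s, pc A C r s ≤ 1 := fun r s => by
    have := A.prob s
    exact measureReal_le_one
  have hA0 : 0 ≤ A' := (Finset.sum_nonneg fun r _ => hpc0 r s₀).trans (hA s₀)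
  set g : S → ℝ := fun s => ∑ t ∈ Finset.range (m + 1), ps A C t s with hg
  have hbdd : BddAbove (Set.range g) := by
    refine ⟨(m + 1 : ℝ), ?_⟩
    rintro x ⟨s, rfl⟩
    calc g s ≤ ∑ t ∈ Finset.range (m + 1), (1:ℝ) := Finset.sum_le_sum fun t _ => hps1 t s
      _ = m + 1 := by simp
  set G := ⨆ s, g s with hG
  have hgG : ∀ s, g s ≤ G := fun s => le_ciSup hbdd s
  have hG0 : 0 ≤ G := (Finset.sum_nonneg fun t _ => hps0 t s₀).trans (hgG s₀)
  have hstm : ∀ t, MeasurableSet[A.F t] (A.st t ⁻¹' C) := fun t =>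
    A.st_meas t MeasurableSet.of_discrete
  -- the recursion
  have hrec : ∀ s, g s ≤ K + A' / c₁ ^ 2 + G / 2 := by
    intro s
    have := A.prob s
    rcases le_or_gt m n with hmn | hmn
    · have h1 : g s ≤ K := by
        refine le_trans ?_ (hk0 s)
        exact Finset.sum_le_sum_of_subset_of_nonneg
          (by intro t ht; rw [Finset.mem_range] at ht ⊢; omega) fun t _ _ => hps0 t s
      have h2 : 0 ≤ A' / c₁ ^ 2 := by positivity
      linarith
    -- split at `n`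
    have hsplit : g s = ∑ t ∈ Finset.range (n + 1), ps A C t s +
        ∑ t ∈ Finset.Ioc n m, ps A C t s := by
      rw [hg]
      simp only
      have e1 : Finset.range (m + 1) = Finset.range (n + 1) ∪ Finset.Ioc n m := by
        ext t; simp only [Finset.mem_range, Finset.mem_union, Finset.mem_Ioc]; omega
      rw [e1, Finset.sum_union]
      rw [Finset.disjoint_left]
      intro t ht ht'
      rw [Finset.mem_range] at ht
      rw [Finset.mem_Ioc] at ht'
      omega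
    -- one level
    have hone : ∀ t ∈ Finset.Ioc n m, ps A C t s ≤
        (A.P s).real (A.N 0 n ∩ ((A.N 0 t ∩ A.nocs n t) ∩ A.st t ⁻¹' C)) +
        ∑ l ∈ Finset.Ioc n t, (A.P s).real (Fc A n l ∩ (A.N 0 t ∩ A.st t ⁻¹' C)) := by
      intro t ht
      rw [Finset.mem_Ioc] at ht
      have hcov : A.N 0 t ∩ A.st t ⁻¹' C ⊆
          (A.N 0 n ∩ ((A.N 0 t ∩ A.nocs n t) ∩ A.st t ⁻¹' C)) ∪
            ⋃ l ∈ Finset.Ioc n t, (Fc A n l ∩ (A.N 0 t ∩ A.st t ⁻¹' C)) := by
        rintro ω ⟨hN, hC⟩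
        by_cases hno : ω ∈ A.nocs n t
        · left
          exact ⟨A.N_left 0 n t (Nat.zero_le _) ht.1.le ω hN, ⟨hN, hno⟩, hC⟩
        · right
          have hex : ∃ l, n < l ∧ l ≤ t ∧ ω ∈ A.cs l := by
            by_contra hcon
            push Not at hcon
            exact hno fun l h1 h2 => hcon l h1 h2
          obtain ⟨e1, e2, e3⟩ := Nat.find_spec hex
          set l := Nat.find hex with hl'
          refine mem_iUnion₂.mpr ⟨l, Finset.mem_Ioc.2 ⟨e1, e2⟩, ⟨⟨A.N_left 0 l t (Nat.zero_le _) e2 ω hN, ?_⟩, e3⟩, hN, hC⟩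
          intro i hi1 hi2 hi3
          exact Nat.find_min hex (m := i) (by omega) ⟨hi1, by omega, hi3⟩
      exact (measureReal_mono hcov (measure_ne_top _ _)).trans
        ((measureReal_union_le _ _).trans (add_le_add le_rfl (real_iUnion_le _ _)))
    -- no contact part
    have hpart1 : ∑ t ∈ Finset.Icc n m,
        (A.P s).real (A.N 0 n ∩ ((A.N 0 t ∩ A.nocs n t) ∩ A.st t ⁻¹' C)) ≤ A' / c₁ ^ 2 := by
      refine (after H s hmn.le (B := A.N 0 n) (A.N_meas 0 n (Nat.zero_le _))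
        (fun t => (A.N 0 t ∩ A.nocs n t) ∩ A.st t ⁻¹' C)
        (fun j t => (A.N j t ∩ A.nocs j t) ∩ A.st t ⁻¹' C) (pc A C) (G := A')
        ?_ ?_ ?_ hpc0 hpc1 (hF.fpc s) hA).trans ?_
      · intro t h1 h2
        exact MeasurableSet.inter (MeasurableSet.inter (A.N_meas 0 t (Nat.zero_le _))
          (nocs_meas n t)) (hstm t)
      · intro t _ _ ω hω
        exact A.N_al 0 t (Nat.zero_le _) hω.1.1
      · rintro j t h1 h2 h3 ω ⟨⟨⟨_, h5⟩, h6⟩, h7⟩
        exact ⟨⟨h7, nocs_left h1 h5⟩, h6⟩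
      · have h1 : (A.P s).real (A.N 0 n) ≤ 1 := measureReal_le_one
        have h2 : 0 ≤ A' / c₁ ^ 2 := by positivity
        nlinarith
    -- after the first contact
    have hpart2 : ∀ l ∈ Finset.Ioc n m,
        ∑ t ∈ Finset.Icc l m, (A.P s).real (Fc A n l ∩ (A.N 0 t ∩ A.st t ⁻¹' C)) ≤
          G / c₁ ^ 2 * (A.P s).real (Fc A n l) := by
      intro l hl'
      rw [Finset.mem_Ioc] at hl'
      refine after H s hl'.2 (B := Fc A n l) (Fc_meas n l)
        (fun t => A.N 0 t ∩ A.st t ⁻¹' C) (fun j t => A.N j t ∩ A.st t ⁻¹' C) (ps A C) (G := G)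
        ?_ ?_ ?_ hps0 hps1 (hF.fp s) hgG
      · intro t h1 h2
        exact MeasurableSet.inter (A.N_meas 0 t (Nat.zero_le _)) (hstm t)
      · intro t _ _ ω hω
        exact A.N_al 0 t (Nat.zero_le _) hω.1
      · rintro j t h1 h2 h3 ω ⟨⟨_, h6⟩, h7⟩
        exact ⟨h7, h6⟩
    have hsum1 : ∑ t ∈ Finset.Ioc n m,
        (A.P s).real (A.N 0 n ∩ ((A.N 0 t ∩ A.nocs n t) ∩ A.st t ⁻¹' C)) ≤ A' / c₁ ^ 2 :=
      le_trans (Finset.sum_le_sum_of_subset_of_nonneg Finset.Ioc_subset_Icc_self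
        fun t _ _ => measureReal_nonneg) hpart1
    have hsum2 : ∑ t ∈ Finset.Ioc n m, ∑ l ∈ Finset.Ioc n t,
        (A.P s).real (Fc A n l ∩ (A.N 0 t ∩ A.st t ⁻¹' C)) ≤ G / 2 := by
      have hswap : ∑ t ∈ Finset.Ioc n m, ∑ l ∈ Finset.Ioc n t,
          (A.P s).real (Fc A n l ∩ (A.N 0 t ∩ A.st t ⁻¹' C)) =
          ∑ l ∈ Finset.Ioc n m, ∑ t ∈ Finset.Icc l m,
            (A.P s).real (Fc A n l ∩ (A.N 0 t ∩ A.st t ⁻¹' C)) := by
        refine Finset.sum_comm' fun t l => ?_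
        simp only [Finset.mem_Ioc, Finset.mem_Icc]
        omega
      rw [hswap]
      refine (Finset.sum_le_sum hpart2).trans ?_
      rw [← Finset.mul_sum]
      calc G / c₁ ^ 2 * ∑ l ∈ Finset.Ioc n m, (A.P s).real (Fc A n l)
          ≤ G / c₁ ^ 2 * (c₁ ^ 2 / 2) := mul_le_mul_of_nonneg_left (hl s) (by positivity)
        _ = G / 2 := by field_simp
    rw [hsplit]
    have h1 := Finset.sum_le_sum hone
    rw [Finset.sum_add_distrib] at h1
    have h2 := hk0 s
    linarith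
  have hne : Nonempty S := ⟨s₀⟩
  have hfin : G ≤ K + A' / c₁ ^ 2 + G / 2 := ciSup_le hrec
  have := hgG s₀
  have e : g s₀ = ∑ t ∈ Finset.range (m + 1), ps A C t s₀ := rfl
  rw [← e]
  linarith

end coll

end Crest.Agent.R154.Coll305
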