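import Crest.Agent.R154.B6Same_872

/-! Row 154, TILE_RUN, T4 (helper804): **COLL from (K)**, in the letters of `PairSys`.  If the
no-contact probabilities `b` lose at most `ζ` between `q` and the horizon `T`, the expected number
of collision levels of two natural walkers in the same environment is bounded, uniformly. -/

set_option autoImplicit false
set_option linter.unusedSectionVars false
set_option linter.deprecated false

open MeasureTheory Set Filter Topology
open scoped BigOperators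

namespace Crest.Agent.R154.B6_833

namespace PairSys

variable {S Ω : Type*} [MeasurableSpace S] [mΩ : MeasurableSpace Ω] {A : PairSys S Ω}
  [DiscreteMeasurableSpace S]
  {a : ℕ} {c₁ cₑ p : ℝ} {β h : ℕ → ℝ} {Far : ℕ → Set S} {χ : ℕ → S → ℝ}

/-- two-step recursion with an arbitrary horizon -/
lemma recursion_run (H : A.Hyp a c₁ cₑ β h p Far χ) (q n : ℕ) (hq : a ≤ q) (hn : 4 * q ≤ n)
    (ζ δ : ℝ)
    (hζ : ∀ s ∈ A.Dist, A.b q s - A.b n s ≤ ζ)
    (hδ : ∀ s : S, ∀ L n : ℕ, ∀ B : Set Ω, L + q ≤ n → MeasurableSet[A.F L] B → B ⊆ A.al L →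
      (A.P s).real (B ∩ (A.none n L (L + q) ∩ A.al n)) ≤ δ * (A.P s).real B)
    (s : S) (hs : s ∈ A.Dist) :
    A.b (4*q) s - A.b n s ≤ (ζ / c₁ + δ) * A.b (2*q) s := by
  have := A.prob s
  have hc := H.c₁pos
  have ha1 := H.a1
  have hζ0 : 0 ≤ ζ := by
    have h1 := hζ s hs
    have h2 := b_anti (A := A) s (show q ≤ n by omega)
    simp only at h2
    linarith
  set μ := A.P s with hμ
  set G := A.N 0 (2*q) ∩ A.nocs 0 (2*q) with hG
  have hGm : MeasurableSet[A.F (2*q)] G :=
    MeasurableSet.inter (A.N_meas 0 (2*q) (Nat.zero_le _)) (nocs_meas 0 (2*q))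
  have hGb : μ.real G = A.b (2*q) s := rfl
  set E1 := A.N 0 (4*q) ∩ A.nocs 0 (4*q) with hE1
  set E2 := A.N 0 n ∩ A.nocs 0 n with hE2
  have hE2m : MeasurableSet E2 := (N_measΩ 0 _ (Nat.zero_le _)).inter (nocs_measΩ 0 _)
  have hsub21 : E2 ⊆ E1 := fun ω hω =>
    ⟨A.N_left 0 (4*q) n (Nat.zero_le _) (by omega) ω hω.1, nocs_anti (by omega) hω.2⟩
  have hdiff : A.b (4*q) s - A.b n s = μ.real (E1 \ E2) := by
    rw [measureReal_diff hsub21 hE2m]; rfl
  set Bj : ℕ → Set Ω := fun j => (A.N 0 j ∩ A.nocs 0 j) ∩ A.killed (2*q) j with hBj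
  have hBjm : ∀ j, MeasurableSet[A.F j] (Bj j) := fun j =>
    MeasurableSet.inter (MeasurableSet.inter (A.N_meas 0 j (Nat.zero_le _)) (nocs_meas 0 j))
      (killed_meas _ _)
  have hBja : ∀ j, Bj j ⊆ A.al j := fun j ω hω => A.N_al 0 j (Nat.zero_le _) hω.1.1
  set t := Finset.Icc (2*q) (3*q) with ht
  set D : ℕ → Set Ω := fun j =>
    (Bj j ∩ (A.N j (4*q) ∩ A.nocs j (4*q))) \ (Bj j ∩ (A.N j n ∩ A.nocs j n)) with hD
  have hcover : E1 \ E2 ⊆ (G ∩ (A.none (4*q) (2*q) (2*q+q) ∩ A.al (4*q))) ∪ ⋃ j ∈ t, D j := by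
    intro ω hω
    obtain ⟨⟨hN, hn'⟩, hnot⟩ := hω
    by_cases hnone : ω ∈ A.none (4*q) (2*q) (2*q+q)
    · left
      exact ⟨⟨A.N_left 0 (2*q) (4*q) (Nat.zero_le _) (by omega) ω hN, nocs_anti (by omega) hn'⟩,
        hnone, A.N_al 0 (4*q) (Nat.zero_le _) hN⟩
    · right
      simp only [none, mem_setOf_eq, not_forall] at hnone
      classical
      have hex : ∃ j, 2*q ≤ j ∧ j ≤ 2*q+q ∧ ω ∈ A.N j (4*q) := by
        obtain ⟨j, h1, h2, h3⟩ := hnone
        exact ⟨j, h1, h2, not_not.mp h3⟩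
      obtain ⟨h1, h2, h3⟩ := Nat.find_spec hex
      set j := Nat.find hex with hj
      have hmin : ∀ i, 2*q ≤ i → i < j → ω ∉ A.N i (4*q) := by
        intro i hi hij hNi
        exact Nat.find_min hex hij ⟨hi, by omega, hNi⟩
      refine mem_iUnion₂.mpr ⟨j, Finset.mem_Icc.mpr ⟨h1, by omega⟩, ?_⟩
      have hNj : ω ∈ A.N 0 j := A.N_left 0 j (4*q) (Nat.zero_le _) (by omega) ω hN
      have hB : ω ∈ Bj j := by
        refine ⟨⟨hNj, nocs_anti (by omega) hn'⟩, ?_⟩
        intro i hi hij hNi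
        exact hmin i hi hij (A.N_trans i j (4*q) hij.le (by omega) ω hNi h3)
      refine ⟨⟨hB, h3, nocs_left (Nat.zero_le _) hn'⟩, ?_⟩
      intro hbad
      apply hnot
      refine ⟨A.N_trans 0 j n (Nat.zero_le _) (by omega) ω hNj hbad.2.1, ?_⟩
      intro l hl1 hl2
      by_cases hl : l ≤ 4*q
      · exact hn' l hl1 hl
      · exact hbad.2.2 l (by omega) hl2
  have h1 := measureReal_mono (μ := μ) hcover
  have h2 := measureReal_union_le (μ := μ)
    (G ∩ (A.none (4*q) (2*q) (2*q+q) ∩ A.al (4*q))) (⋃ j ∈ t, D j)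
  have h3 := hδ s (2*q) (4*q) G (by omega) hGm
    (fun ω hω => A.N_al 0 (2*q) (Nat.zero_le _) hω.1)
  have h4 := real_iUnion_le (μ := μ) t D
  have h5 : ∀ j ∈ t, μ.real (D j) ≤ ζ * μ.real (Bj j) := by
    intro j hj
    rw [ht, Finset.mem_Icc] at hj
    have hsub : Bj j ∩ (A.N j n ∩ A.nocs j n) ⊆ Bj j ∩ (A.N j (4*q) ∩ A.nocs j (4*q)) :=
      fun ω hω => ⟨hω.1, A.N_left j (4*q) n (by omega) (by omega) ω hω.2.1,
        nocs_anti (by omega) hω.2.2⟩
    have e0 : μ.real (D j) = μ.real (Bj j ∩ (A.N j (4*q) ∩ A.nocs j (4*q)))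
        - μ.real (Bj j ∩ (A.N j n ∩ A.nocs j n)) := by
      rw [hD]
      exact measureReal_diff hsub ((meas j (hBjm j)).inter
        ((N_measΩ j _ (by omega)).inter (nocs_measΩ j _)))
    rw [e0, hμ, H.FP s j (4*q) (4*q) (by omega) (by omega) _ (hBjm j) (hBja j),
      H.FP s j n n (by omega) (by omega) _ (hBjm j) (hBja j),
      ← integral_sub (integ_φ s j _ _).integrableOn (integ_φ s j _ _).integrableOn]
    calc _ ≤ ∫ ω in Bj j, ζ ∂(A.P s) := by
          refine setIntegral_mono_on ((integ_φ s j _ _).sub (integ_φ s j _ _)).integrableOn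
            (integrable_const _).integrableOn (meas j (hBjm j)) ?_
          intro ω _
          by_cases hd : A.st j ω ∈ A.Dist
          · have f1 : A.φ (4*q-j) (4*q-j) (A.st j ω) ≤ A.b q (A.st j ω) :=
              b_anti (A := A) (A.st j ω) (show q ≤ 4*q-j by omega)
            have f2 : A.b n (A.st j ω) ≤ A.φ (n-j) (n-j) (A.st j ω) :=
              b_anti (A := A) (A.st j ω) (show n-j ≤ n by omega)
            have f3 := hζ _ hd
            linarith
          · have f1 := H.eqz _ hd (4*q-j) (4*q-j) (by omega) (by omega)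
            have f2 := φ_nonneg (A := A) (n-j) (n-j) (A.st j ω)
            linarith
      _ = ζ * (A.P s).real (Bj j) := by rw [setIntegral_const, smul_eq_mul, mul_comm]
  have h6 : ∑ j ∈ t, μ.real (Bj j ∩ A.N j (4*q)) ≤ μ.real G := by
    refine sum_disj_le t _ G ?_ ?_ ?_
    · intro j hj
      rw [ht, Finset.mem_Icc] at hj
      exact (meas j (hBjm j)).inter (N_measΩ j _ (by omega))
    · intro j hj ω hω
      rw [ht, Finset.mem_Icc] at hj
      exact ⟨A.N_left 0 (2*q) j (Nat.zero_le _) hj.1 ω hω.1.1.1, nocs_anti hj.1 hω.1.1.2⟩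
    · intro i hi j hj hij ω hωi hωj
      rw [ht, Finset.mem_Icc] at hi hj
      exact hωj.1.2 i hi.1 hij (A.N_left i j (4*q) hij.le (by omega) ω hωi.2)
  have h7 : ∀ j ∈ t, c₁ * μ.real (Bj j) ≤ μ.real (Bj j ∩ A.N j (4*q)) := by
    intro j hj
    rw [ht, Finset.mem_Icc] at hj
    exact lowerN H s j (4*q) (by omega) _ (hBjm j) (hBja j)
  have h8 : ∑ j ∈ t, μ.real (Bj j) ≤ μ.real G / c₁ := by
    rw [le_div_iff₀ hc, mul_comm, Finset.mul_sum]
    exact (Finset.sum_le_sum h7).trans h6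
  have h9 : ∑ j ∈ t, μ.real (D j) ≤ ζ * (μ.real G / c₁) := by
    refine (Finset.sum_le_sum h5).trans ?_
    rw [← Finset.mul_sum]
    exact mul_le_mul_of_nonneg_left h8 hζ0
  rw [hdiff, ← hGb]
  have : (ζ / c₁ + δ) * μ.real G = ζ * (μ.real G / c₁) + δ * μ.real G := by ring
  rw [this]
  linarith

/-- wasted levels below `m` -/
lemma waste_run (s : S) (n m k : ℕ) (hmn : m ≤ n) (δ : ℝ)
    (hδ : ∀ L : ℕ, L + k ≤ n → (A.P s).real (A.al L ∩ (A.none n L (L + k) ∩ A.al n)) ≤ δ)
    (hδ0 : 0 ≤ δ) :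
    ∑ L ∈ Finset.range m, (A.P s).real (A.W n L ∩ A.N 0 n) ≤
      m * δ + k * ∑ l ∈ Finset.Icc 1 m, (A.P s).real (A.cs l ∩ A.N 0 l) := by
  have := A.prob s
  set μ := A.P s with hμ
  have h1 : ∀ L ∈ Finset.range m, μ.real (A.W n L ∩ A.N 0 n) ≤
      δ + ∑ l ∈ Finset.Icc 1 m, (if l ≤ L ∧ L < l + k then μ.real (A.cs l ∩ A.N 0 l) else 0) := by
    intro L hL
    rw [Finset.mem_range] at hL
    have hcov : A.W n L ∩ A.N 0 n ⊆
        (if k ≤ L then A.al (L-k) ∩ (A.none n (L-k) (L-k+k) ∩ A.al n) else ∅) ∪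
        ⋃ l ∈ (Finset.Icc 1 m).filter (fun l => l ≤ L ∧ L < l + k), (A.cs l ∩ A.N 0 l) := by
      rintro ω ⟨⟨l, hl1, hl2, hcs, hnone⟩, hN⟩
      by_cases hlk : L < l + k
      · right
        refine mem_iUnion₂.mpr ⟨l, ?_, hcs, A.N_left 0 l n (Nat.zero_le _) (by omega) ω hN⟩
        rw [Finset.mem_filter, Finset.mem_Icc]; omega
      · left
        rw [if_pos (by omega)]
        have hal := A.N_al 0 n (Nat.zero_le _) hN
        refine ⟨A.al_anti _ n (by omega) hal, ?_, hal⟩
        intro j hj1 hj2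
        exact hnone j (by omega) (by omega)
    refine (measureReal_mono hcov).trans ((measureReal_union_le _ _).trans ?_)
    apply add_le_add
    · split_ifs with hk
      · exact hδ (L-k) (by omega)
      · simpa using hδ0
    · refine (real_iUnion_le _ _).trans ?_
      rw [Finset.sum_filter]
  refine (Finset.sum_le_sum h1).trans ?_
  rw [Finset.sum_add_distrib, Finset.sum_const, Finset.card_range, nsmul_eq_mul,
    Finset.sum_comm]
  apply add_le_add le_rfl
  rw [Finset.mul_sum]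
  refine Finset.sum_le_sum fun l _ => ?_
  rw [← Finset.sum_filter, Finset.sum_const, nsmul_eq_mul]
  apply mul_le_mul_of_nonneg_right _ measureReal_nonneg
  have hsub : (Finset.range m).filter (fun L => l ≤ L ∧ L < l + k) ⊆ Finset.Ico l (l+k) := by
    intro L hL
    rw [Finset.mem_filter] at hL
    rw [Finset.mem_Ico]; exact hL.2
  have := Finset.card_le_card hsub
  rw [Nat.card_Ico] at this
  have h2 : l + k - l = k := by omega
  rw [h2] at this
  exact_mod_cast this

/-- contact above `8q`, quantitative -/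
lemma late_run_le (H : A.Hyp a c₁ cₑ β h p Far χ) (s : S) (n q k : ℕ) (hn : 16 * q ≤ n)
    (δ ε η : ℝ)
    (hδ : ∀ L : ℕ, L + k ≤ n → (A.P s).real (A.al L ∩ (A.none n L (L + k) ∩ A.al n)) ≤ δ)
    (hδ0 : 0 ≤ δ) (hε0 : 0 ≤ ε) (hη0 : 0 ≤ η)
    (hsv : ∀ m, 8 * q ≤ m → ∀ s' ∈ A.Dist,
      ∑ i ∈ Finset.range m, (A.b i s' - A.b m s') ≤ ε * m * A.b m s')
    (hrel : ∀ s' ∈ A.Dist, A.b (8*q) s' - A.b n s' ≤ η * A.b (16*q) s') :
    (8 * q : ℝ) * (A.P s).real (A.LateG (8*q) n) ≤ 8 * q * δ +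
      k * ∑ l ∈ Finset.Icc 1 (8*q), (A.P s).real (A.cs l ∩ A.N 0 l) + (ε * (16 * q) + η * (8 * q)) +
      a * ((1/c₁) * (1 + ∑ l ∈ Finset.Icc 1 (8*q), (A.P s).real (A.cs l ∩ A.N 0 l))) := by
  have := A.prob s
  have ha1 := H.a1
  set μ := A.P s with hμ
  set U := ∑ l ∈ Finset.Icc 1 (8*q), μ.real (A.cs l ∩ A.N 0 l) with hU
  set M := 8 * q with hM
  -- per level bound
  have h1 : ∀ L ∈ Finset.range M, μ.real (A.LateG M n) ≤ μ.real (A.W n L ∩ A.N 0 n) +
      ∑ j ∈ Finset.range M, (if j ≤ L then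
        ∫ ω in A.Bst j, (A.φ (n-j) (L-j) (A.st j ω) - A.b (n-j) (A.st j ω)) ∂μ else 0) := by
    intro L hL
    rw [Finset.mem_range] at hL
    have hcov : A.LateG M n ⊆ (A.W n L ∩ A.N 0 n) ∪
        ⋃ j ∈ (Finset.range M).filter (fun j => j ≤ L),
          ((A.Bst j ∩ (A.N j n ∩ A.nocs j L)) \ (A.Bst j ∩ (A.N j n ∩ A.nocs j n))) := by
      rintro ω ⟨hN, l, hl1, hl2, hl3⟩
      by_cases hW : ω ∈ A.W n L
      · exact Or.inl ⟨hW, hN⟩
      · right
        obtain ⟨j, hj, hjm⟩ := exists_start n L L (by omega) le_rfl ω hN (by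
          intro i hi1 hi2 hi3
          by_contra hcon
          apply hW
          refine ⟨i, hi1, hi2, hi3, ?_⟩
          intro j hj1 hj2 hj3
          exact hcon ⟨j, hj1, hj2, hj3⟩)
        refine mem_iUnion₂.mpr ⟨j, by rw [Finset.mem_filter, Finset.mem_range]; omega, hjm, ?_⟩
        intro hbad
        exact hbad.2.2 l (by omega) hl2 hl3
    refine (measureReal_mono hcov (measure_ne_top _ _)).trans
      ((measureReal_union_le _ _).trans ?_)
    apply add_le_add le_rfl
    refine (real_iUnion_le _ _).trans ?_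
    rw [Finset.sum_filter]
    refine Finset.sum_le_sum fun j hj => ?_
    rw [Finset.mem_range] at hj
    split_ifs with hjL
    · have hsub : A.Bst j ∩ (A.N j n ∩ A.nocs j n) ⊆ A.Bst j ∩ (A.N j n ∩ A.nocs j L) :=
        fun ω hω => ⟨hω.1, hω.2.1, nocs_anti (by omega) hω.2.2⟩
      rw [measureReal_diff hsub ((meas j (Bst_meas j)).inter
        ((N_measΩ j n (by omega)).inter (nocs_measΩ j n))), hμ,
        H.FP s j L n hjL (by omega) _ (Bst_meas j) (Bst_al j),
        H.FP s j n n (by omega) le_rfl _ (Bst_meas j) (Bst_al j),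
        ← integral_sub (integ_φ s j _ _).integrableOn (integ_φ s j _ _).integrableOn]
      rfl
    · exact le_rfl
  have h2 := Finset.sum_le_sum h1
  rw [Finset.sum_const, Finset.card_range, nsmul_eq_mul, Finset.sum_add_distrib,
    Finset.sum_comm] at h2
  have h3 : ∑ L ∈ Finset.range M, μ.real (A.W n L ∩ A.N 0 n) ≤ M * δ + k * U :=
    waste_run s n M k (by omega) δ hδ hδ0
  have h4 : ∀ j ∈ Finset.range M, ∑ L ∈ Finset.range M, (if j ≤ L then
        ∫ ω in A.Bst j, (A.φ (n-j) (L-j) (A.st j ω) - A.b (n-j) (A.st j ω)) ∂μ else 0)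
      ≤ (ε * (16 * q) + η * (8 * q)) * ∫ ω in A.Bst j, A.b (16*q-j) (A.st j ω) ∂μ
        + a * μ.real (A.Bst j) := by
    intro j hj
    rw [Finset.mem_range] at hj
    rw [← Finset.sum_filter]
    have hint : ∀ L ∈ (Finset.range M).filter (fun L => j ≤ L),
        IntegrableOn (fun ω => A.φ (n-j) (L-j) (A.st j ω) - A.b (n-j) (A.st j ω)) (A.Bst j) μ :=
      fun L _ => ((integ_φ s j _ _).sub (integ_b s j _)).integrableOn
    rw [← integral_finset_sum _ hint]
    have e1 : (ε * (16 * q) + η * (8 * q)) * ∫ ω in A.Bst j, A.b (16*q-j) (A.st j ω) ∂μ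
          + a * μ.real (A.Bst j)
        = ∫ ω in A.Bst j, ((ε * (16 * q) + η * (8 * q)) * A.b (16*q-j) (A.st j ω) + a) ∂μ := by
      rw [integral_add ((integ_b s j _).const_mul _).integrableOn
        (integrable_const _).integrableOn, integral_const_mul, setIntegral_const, smul_eq_mul,
        mul_comm (μ.real (A.Bst j))]
    rw [e1]
    refine setIntegral_mono_on (integrable_finset_sum _ hint)
      (((integ_b s j _).const_mul _).add (integrable_const _)).integrableOn
      (meas j (Bst_meas j)) ?_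
    intro ω _
    set s' := A.st j ω with hs'
    have hbn := b_nonneg (A := A) (n-j) s'
    have hb16 := b_nonneg (A := A) (16*q-j) s'
    have hcoef : 0 ≤ ε * (16 * q) + η * (8 * q) := by positivity
    have hreindex : ∑ L ∈ (Finset.range M).filter (fun L => j ≤ L),
        (A.φ (n-j) (L-j) s' - A.b (n-j) s')
        = ∑ i ∈ Finset.range (M - j), (A.φ (n-j) i s' - A.b (n-j) s') := by
      refine Finset.sum_bij' (fun L _ => L - j) (fun i _ => i + j) ?_ ?_ ?_ ?_ ?_
      · intro L hL; rw [Finset.mem_filter, Finset.mem_range] at hL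
        rw [Finset.mem_range]; omega
      · intro i hi; rw [Finset.mem_range] at hi
        rw [Finset.mem_filter, Finset.mem_range]; omega
      · intro L hL; rw [Finset.mem_filter, Finset.mem_range] at hL; show L - j + j = L; omega
      · intro i hi; show i + j - j = i; omega
      · intro L hL; rfl
    rw [hreindex]
    by_cases hd : s' ∈ A.Dist
    · have h5 : ∑ i ∈ Finset.range (M - j), (A.φ (n-j) i s' - A.b (n-j) s')
          ≤ ∑ i ∈ Finset.range (M - j), ((A.b i s' - A.b (16*q-j) s')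
            + (A.b (16*q-j) s' - A.b (n-j) s')) := by
        refine Finset.sum_le_sum fun i hi => ?_
        rw [Finset.mem_range] at hi
        have := φ_le_b (A := A) (n := n-j) (k := i) s' (by omega)
        linarith
      have h6 : ∑ i ∈ Finset.range (M - j), (A.b i s' - A.b (16*q-j) s')
          ≤ ∑ i ∈ Finset.range (16*q - j), (A.b i s' - A.b (16*q-j) s') := by
        refine Finset.sum_le_sum_of_subset_of_nonneg (Finset.range_mono (by omega)) ?_
        intro i hi _
        rw [Finset.mem_range] at hi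
        have := b_anti (A := A) s' hi.le
        simp only at this
        linarith
      have h7 := hsv (16*q-j) (by omega) s' hd
      have h8 : ε * ((16*q - j : ℕ) : ℝ) * A.b (16*q-j) s' ≤ ε * (16*q) * A.b (16*q-j) s' := by
        apply mul_le_mul_of_nonneg_right _ hb16
        apply mul_le_mul_of_nonneg_left _ hε0
        have : ((16*q - j : ℕ) : ℝ) ≤ ((16*q : ℕ) : ℝ) := by exact_mod_cast Nat.sub_le _ j
        simpa using this
      have h9 : A.b (16*q-j) s' - A.b (n-j) s' ≤ η * A.b (16*q-j) s' := by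
        have g1 := hrel s' hd
        have g2 : A.b (16*q-j) s' ≤ A.b (8*q) s' := b_anti (A := A) s' (by omega)
        have g3 : A.b n s' ≤ A.b (n-j) s' := b_anti (A := A) s' (by omega)
        have g4 : A.b (16*q) s' ≤ A.b (16*q-j) s' := b_anti (A := A) s' (by omega)
        have g5 := mul_le_mul_of_nonneg_left g4 hη0
        linarith
      have h10 : ∑ i ∈ Finset.range (M - j), (A.b (16*q-j) s' - A.b (n-j) s')
          ≤ (8*q) * (η * A.b (16*q-j) s') := by
        rw [Finset.sum_const, Finset.card_range, nsmul_eq_mul]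
        have g0 : 0 ≤ η * A.b (16*q-j) s' := mul_nonneg hη0 hb16
        have g1 : ((M - j : ℕ) : ℝ) ≤ 8 * q := by
          have : ((M - j : ℕ) : ℝ) ≤ ((8*q : ℕ) : ℝ) := by exact_mod_cast Nat.sub_le _ j
          simpa using this
        calc ((M - j : ℕ) : ℝ) * (A.b (16*q-j) s' - A.b (n-j) s')
            ≤ ((M - j : ℕ) : ℝ) * (η * A.b (16*q-j) s') :=
              mul_le_mul_of_nonneg_left h9 (Nat.cast_nonneg _)
          _ ≤ (8*q) * (η * A.b (16*q-j) s') := mul_le_mul_of_nonneg_right g1 g0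
      rw [Finset.sum_add_distrib] at h5
      have : (0:ℝ) ≤ a := Nat.cast_nonneg _
      nlinarith
    · have h5 : ∀ i ∈ Finset.range (M - j), A.φ (n-j) i s' - A.b (n-j) s'
          ≤ if i < a then 1 else 0 := by
        intro i hi
        rw [Finset.mem_range] at hi
        split_ifs with h0
        · have := φ_le_one (A := A) (n-j) i s'
          linarith
        · have := H.eqz s' hd (n-j) i (by omega) (by omega)
          linarith
      refine (Finset.sum_le_sum h5).trans ?_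
      rw [← Finset.sum_filter, Finset.sum_const, nsmul_eq_mul, mul_one]
      have h6 : ((Finset.range (M-j)).filter (fun i => i < a)).card ≤ a := by
        have : (Finset.range (M-j)).filter (fun i => i < a) ⊆ Finset.range a := by
          intro i hi
          rw [Finset.mem_filter] at hi
          exact Finset.mem_range.mpr hi.2
        simpa using Finset.card_le_card this
      have h7 : (((Finset.range (M-j)).filter (fun i => i < a)).card : ℝ) ≤ a := by
        exact_mod_cast h6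
      have : 0 ≤ (ε * (16 * q) + η * (8 * q)) * A.b (16*q-j) s' := mul_nonneg hcoef hb16
      linarith
  have h9 := Finset.sum_le_sum h4
  rw [Finset.sum_add_distrib, ← Finset.mul_sum, ← Finset.mul_sum] at h9
  have h10 : ∑ j ∈ Finset.range M, ∫ ω in A.Bst j, A.b (16*q-j) (A.st j ω) ∂μ ≤ 1 := by
    refine le_trans (Finset.sum_le_sum_of_subset_of_nonneg (Finset.range_mono (by omega)) ?_)
      (sum_start_b H s (16*q))
    intro j _ _
    exact integral_nonneg fun ω => b_nonneg _ _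
  have h11 : ∑ j ∈ Finset.range M, μ.real (A.Bst j) ≤ (1/c₁) * (1 + U) := by
    refine le_trans (Finset.sum_le_sum_of_subset_of_nonneg (Finset.range_mono (by omega)) ?_)
      (sum_start H s M)
    intro j _ _
    exact measureReal_nonneg
  have hcoef : 0 ≤ ε * (16 * q) + η * (8 * q) := by positivity
  have h12 : (ε * (16 * q) + η * (8 * q)) *
      ∑ j ∈ Finset.range M, ∫ ω in A.Bst j, A.b (16*q-j) (A.st j ω) ∂μ
      ≤ (ε * (16 * q) + η * (8 * q)) * 1 := mul_le_mul_of_nonneg_left h10 hcoef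
  have h11' : (a:ℝ) * ∑ j ∈ Finset.range M, μ.real (A.Bst j) ≤ a * ((1/c₁) * (1 + U)) :=
    mul_le_mul_of_nonneg_left h11 (by positivity)
  have hMr : (M : ℝ) = 8 * q := by rw [hM]; push_cast; ring
  rw [hMr] at h2 h3
  linarith

/-- **(L1)** no contact above `8q`, uniformly in the start, once (K) holds between `q` and `n` -/
lemma late_run (H : A.Hyp a c₁ cₑ β h p Far χ) : ∀ ε > (0:ℝ), ∃ ζ > (0:ℝ), ∃ q₀ : ℕ,
    ∀ q ≥ q₀, ∀ n, (∀ s ∈ A.Dist, A.b q s - A.b n s ≤ ζ) →
      ∀ s : S, (A.P s).real (A.LateG (8*q) n) ≤ ε := by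
  intro ε hε
  have hc := H.c₁pos
  have hce := H.cₑpos
  have HF := svfam H
  obtain ⟨k, hk⟩ := delta H (ε/64) (by positivity)
  obtain ⟨n₁, hn₁⟩ := HF.sv1 (ε/64) (by positivity)
  obtain ⟨n₄, hn₄⟩ := HF.sv2 4 (1/2) (by norm_num)
  obtain ⟨n₅, hn₅⟩ := lateG_lim H 1 ε hε
  set K : ℝ := (k + a/c₁) with hK
  have ha1 : (1:ℝ) ≤ a := by exact_mod_cast H.a1
  have hKpos : 0 < K := by rw [hK]; positivity
  set θ : ℝ := ε / (64 * K * (1 + 1/cₑ)) with hθ
  have hθpos : 0 < θ := by rw [hθ]; positivity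
  obtain ⟨n₂, hn₂⟩ := HF.sv3 θ hθpos
  obtain ⟨n₃, hn₃⟩ := exists_nat_gt (64 * (K * a + a/c₁) / ε)
  refine ⟨ε * c₁ / 64, by positivity, n₁ + n₂ + n₃ + n₄ + n₅ + k + a + 1, fun q hq n hKq s => ?_⟩
  have := A.prob s
  by_cases hn8 : n ≤ 8 * q
  · have : A.LateG (8*q) n = ∅ := by
      ext ω
      simp only [LateG, mem_inter_iff, mem_setOf_eq, mem_empty_iff_false, iff_false, not_and,
        not_exists]
      intro _ l h1 h2
      omega
    rw [this]
    simpa using hε.le
  by_cases hn16 : n ≤ 16 * q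
  · have h1 := hn₅ (8*q) (by omega) (n - 8*q) (by omega) s
    rwa [show 8*q + (n - 8*q) = n by omega] at h1
  push Not at hn8 hn16
  have hdel : ∀ s : S, ∀ L n : ℕ, ∀ B : Set Ω, L + 2*q ≤ n → MeasurableSet[A.F L] B →
      B ⊆ A.al L → (A.P s).real (B ∩ (A.none n L (L + 2*q) ∩ A.al n)) ≤
        ε/64 * (A.P s).real B := by
    intro s L n B hL hB hBa
    have hP := A.prob s
    refine le_trans ?_ (hk s L n B (by omega) hB hBa)
    exact measureReal_mono (inter_subset_inter_right _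
      (inter_subset_inter_left _ (none_anti (by omega))))
  have hrel : ∀ s' ∈ A.Dist, A.b (8*q) s' - A.b n s' ≤ ε/16 * A.b (16*q) s' := by
    intro s' hs'
    have h1 := recursion_run H (2*q) n (by omega) (by omega) (ε * c₁ / 64) (ε/64)
      (fun t ht => by
        have g1 := hKq t ht
        have g2 : A.b (2*q) t ≤ A.b q t := b_anti (A := A) t (by omega)
        linarith) hdel s' hs'
    have e : ε * c₁ / 64 / c₁ + ε / 64 = ε/32 := by field_simp; ring
    rw [e, show 4 * (2*q) = 8*q by ring, show 2 * (2*q) = 4*q by ring] at h1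
    have h2 := hn₄ (4*q) (by omega) _ ⟨s', hs', rfl⟩
    rw [show 4 * (4*q) = 16*q by ring] at h2
    have h3 : A.b (4*q) s' ≤ 2 * A.b (16*q) s' := by linarith
    have h4 := mul_le_mul_of_nonneg_left h3 (show 0 ≤ ε/32 by positivity)
    linarith
  obtain ⟨u, hu, hub, hun⟩ := hn₂ (8*q) (by omega)
  set U := ∑ l ∈ Finset.Icc 1 (8*q), (A.P s).real (A.cs l ∩ A.N 0 l) with hU
  have hU1 : U ≤ (1 + 1/cₑ) * (1/u) + a :=
    contact_few H s (8*q) u hu (fun s' hs' => hub _ ⟨s', hs', rfl⟩)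
  have hδ : ∀ L : ℕ, L + k ≤ n →
      (A.P s).real (A.al L ∩ (A.none n L (L + k) ∩ A.al n)) ≤ ε/64 := by
    intro L hL
    have h1 := hk s L n (A.al L) hL (A.al_meas L) subset_rfl
    have h2 : (A.P s).real (A.al L) ≤ 1 := measureReal_le_one
    nlinarith
  have h1 := late_run_le H s n q k hn16.le (ε/64) (ε/64) (ε/16) hδ (by positivity) (by positivity)
    (by positivity) (by
    intro m hm s' hs'
    exact hn₁ m (by omega) _ ⟨s', hs', rfl⟩) hrel
  have hq1 : (1:ℝ) ≤ q := by exact_mod_cast (by omega : 1 ≤ q)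
  have hqpos : (0:ℝ) < 8 * q := by linarith
  push_cast at hun
  have h2 : 1/u ≤ θ * (8*q) := by
    rw [div_le_iff₀ hu]; linarith
  have h3 : (1 + 1/cₑ) * (1/u) ≤ (1 + 1/cₑ) * (θ * (8*q)) :=
    mul_le_mul_of_nonneg_left h2 (by positivity)
  have h4 : K * ((1 + 1/cₑ) * (θ * (8*q))) = ε/64 * (8*q) := by
    rw [hθ]; field_simp
  have h5 : K * U ≤ ε/64 * (8*q) + K * a := by
    have : K * U ≤ K * ((1 + 1/cₑ) * (θ * (8*q)) + a) :=
      mul_le_mul_of_nonneg_left (by linarith) hKpos.le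
    linarith
  have h6 : 64 * (K * a + a/c₁) < ε * q := by
    rw [div_lt_iff₀ hε] at hn₃
    have : (n₃:ℝ) ≤ q := by exact_mod_cast (by omega : n₃ ≤ q)
    nlinarith
  have h7 : 8 * q * (ε/64) + k * U + (ε/64 * (16 * q) + ε/16 * (8 * q)) + a * ((1/c₁) * (1 + U))
      = 8 * q * (ε/64) + (ε/64 * (16 * q) + ε/16 * (8 * q)) + K * U + a/c₁ := by rw [hK]; ring
  have h8 : (8 * q : ℝ) * (A.P s).real (A.LateG (8*q) n) ≤ (8 * q) * ε := by
    calc _ ≤ 8 * q * (ε/64) + k * U + (ε/64 * (16 * q) + ε/16 * (8 * q))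
          + a * ((1/c₁) * (1 + U)) := h1
      _ = _ := h7
      _ ≤ (8 * q) * ε := by nlinarith
  exact le_of_mul_le_mul_left h8 (by positivity)

/-- natural up to `t`, no contact, state at level `t` in `E` -/
noncomputable def ψE (A : PairSys S Ω) (E : Set S) (t : ℕ) (s : S) : ℝ :=
  (A.P s).real (A.N 0 t ∩ A.nocs 0 t ∩ A.st t ⁻¹' E)

/-- natural up to `t`, state at level `t` in `E`, `t` a joint natural level up to `n` -/
noncomputable def γE (A : PairSys S Ω) (E : Set S) (t n : ℕ) (s : S) : ℝ :=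
  (A.P s).real (A.N 0 t ∩ A.st t ⁻¹' E ∩ A.N t n)

/-- restart without contact -/
def M1 (A : PairSys S Ω) (E : Set S) : Prop :=
  ∀ s j t, j ≤ t → ∀ B, MeasurableSet[A.F j] B → B ⊆ A.al j →
    (A.P s).real (B ∩ (A.N j t ∩ A.nocs j t ∩ A.st t ⁻¹' E)) ≤
      ∫ ω in B, A.ψE E (t - j) (A.st j ω) ∂(A.P s)

/-- restart with a joint natural level -/
def M2 (A : PairSys S Ω) (E : Set S) : Prop :=
  ∀ s j t n, j ≤ t → t ≤ n → ∀ B, MeasurableSet[A.F j] B → B ⊆ A.al j →
    (A.P s).real (B ∩ (A.N j t ∩ A.st t ⁻¹' E ∩ A.N t n)) ≤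
      ∫ ω in B, A.γE E (t - j) (n - j) (A.st j ω) ∂(A.P s)

lemma ψE_nonneg (E : Set S) (t : ℕ) (s : S) : 0 ≤ A.ψE E t s := measureReal_nonneg

lemma ψE_le_φ (E : Set S) (t : ℕ) (s : S) : A.ψE E t s ≤ A.φ t t s := by
  have := A.prob s
  exact measureReal_mono inter_subset_left

lemma ψE_le_one (E : Set S) (t : ℕ) (s : S) : A.ψE E t s ≤ 1 :=
  (ψE_le_φ E t s).trans (φ_le_one _ _ _)

lemma γE_nonneg (E : Set S) (t n : ℕ) (s : S) : 0 ≤ A.γE E t n s := measureReal_nonneg

lemma γE_le_one (E : Set S) (t n : ℕ) (s : S) : A.γE E t n s ≤ 1 := by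
  have := A.prob s
  exact measureReal_le_one

lemma integ_ψE (E : Set S) (s : S) (j t : ℕ) :
    Integrable (fun ω => A.ψE E t (A.st j ω)) (A.P s) :=
  integ_st s j (A.ψE E t) 1 fun r => by
    rw [abs_of_nonneg (ψE_nonneg E t r)]; exact ψE_le_one E t r

lemma integ_γE (E : Set S) (s : S) (j t n : ℕ) :
    Integrable (fun ω => A.γE E t n (A.st j ω)) (A.P s) :=
  integ_st s j (A.γE E t n) 1 fun r => by
    rw [abs_of_nonneg (γE_nonneg E t n r)]; exact γE_le_one E t n r

/-- first joint natural level above `L` -/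
def B1 (A : PairSys S Ω) (L j : ℕ) : Set Ω := A.N 0 j ∩ A.killed L j

/-- `l` is the first contact stage above `L` -/
def fc (A : PairSys S Ω) (L l : ℕ) : Set Ω := A.cs l ∩ A.nocs L (l-1)

/-- first joint natural level above the first contact stage above `L` -/
def B2 (A : PairSys S Ω) (L j : ℕ) : Set Ω :=
  A.N 0 j ∩ ⋃ l ∈ Finset.Icc (L+1) j, (A.fc L l ∩ A.killed l j)

lemma B1_meas (L j : ℕ) : MeasurableSet[A.F j] (A.B1 L j) :=
  MeasurableSet.inter (A.N_meas 0 j (Nat.zero_le _)) (killed_meas L j)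

lemma B1_al (L j : ℕ) : A.B1 L j ⊆ A.al j := fun ω hω => A.N_al 0 j (Nat.zero_le _) hω.1

lemma B2_meas (L j : ℕ) : MeasurableSet[A.F j] (A.B2 L j) := by
  refine MeasurableSet.inter (A.N_meas 0 j (Nat.zero_le _)) ?_
  refine MeasurableSet.biUnion (Finset.countable_toSet _) ?_
  intro l hl
  have hl' : l ≤ j := (Finset.mem_Icc.mp hl).2
  refine MeasurableSet.inter (MeasurableSet.inter ?_ ?_) (killed_meas l j)
  · exact A.F_mono l j hl' _ (A.cs_meas l)
  · exact A.F_mono (l-1) j (by omega) _ (nocs_meas L (l-1))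

lemma B2_al (L j : ℕ) : A.B2 L j ⊆ A.al j := fun ω hω => A.N_al 0 j (Nat.zero_le _) hω.1

lemma sum_B1 (H : A.Hyp a c₁ cₑ β h p Far χ) (s : S) (L n : ℕ) :
    ∑ j ∈ Finset.Icc L n, (A.P s).real (A.B1 L j) ≤ 1 / c₁ := by
  have := A.prob s
  have hc := H.c₁pos
  rw [le_div_iff₀ hc, mul_comm, Finset.mul_sum]
  refine (Finset.sum_le_sum fun j hj => lowerN H s j n (Finset.mem_Icc.mp hj).2 _ (B1_meas L j)
    (B1_al L j)).trans ?_
  have := sum_disj_le (μ := A.P s) (Finset.Icc L n) (fun j => A.B1 L j ∩ A.N j n) univ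
    (fun j hj => (meas j (B1_meas L j)).inter (N_measΩ j n (Finset.mem_Icc.mp hj).2))
    (fun _ _ => subset_univ _) ?_
  · simpa using this
  · intro i hi j hj hij ω hωi hωj
    rw [Finset.mem_Icc] at hi hj
    exact hωj.1.2 i hi.1 hij (A.N_left i j n hij.le hj.2 ω hωi.2)

lemma sum_B2 (H : A.Hyp a c₁ cₑ β h p Far χ) (s : S) (L n : ℕ) :
    ∑ j ∈ Finset.Icc (L+1) n, (A.P s).real (A.B2 L j) ≤ (A.P s).real (A.LateG L n) / c₁ := by
  have := A.prob s
  have hc := H.c₁pos
  rw [le_div_iff₀ hc, mul_comm, Finset.mul_sum]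
  refine (Finset.sum_le_sum fun j hj => lowerN H s j n (Finset.mem_Icc.mp hj).2 _ (B2_meas L j)
    (B2_al L j)).trans ?_
  refine sum_disj_le (μ := A.P s) (Finset.Icc (L+1) n) (fun j => A.B2 L j ∩ A.N j n) _
    (fun j hj => (meas j (B2_meas L j)).inter (N_measΩ j n (Finset.mem_Icc.mp hj).2)) ?_ ?_
  · rintro j hj ω ⟨⟨h1, h2⟩, h3⟩
    rw [Finset.mem_Icc] at hj
    obtain ⟨l, hl, h4⟩ := mem_iUnion₂.mp h2
    rw [Finset.mem_Icc] at hl
    exact ⟨A.N_trans 0 j n (Nat.zero_le _) hj.2 ω h1 h3, l, by omega, by omega, h4.1.1⟩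
  · rintro i hi j hj hij ω ⟨⟨_, h2⟩, h3⟩ ⟨⟨_, g2⟩, _⟩
    rw [Finset.mem_Icc] at hi hj
    obtain ⟨l, hl, h4⟩ := mem_iUnion₂.mp h2
    obtain ⟨l', hl', g4⟩ := mem_iUnion₂.mp g2
    rw [Finset.mem_Icc] at hl hl'
    have hll : l = l' := by
      rcases lt_trichotomy l l' with h | h | h
      · exact absurd h4.1.1 (g4.1.2 l (by omega) (by omega))
      · exact h
      · exact absurd g4.1.1 (h4.1.2 l' (by omega) (by omega))
    subst hll
    exact g4.2 i hl.2 hij (A.N_left i j n hij.le hj.2 ω h3)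

/-- covering by the two types of restarts -/
lemma coll_cover (E : Set S) (L t n : ℕ) (hLt : L < t) (htn : t ≤ n) :
    A.N 0 t ∩ A.st t ⁻¹' E ∩ A.N t n ⊆
      (⋃ j ∈ Finset.Icc L t, (A.B1 L j ∩ (A.N j t ∩ A.nocs j t ∩ A.st t ⁻¹' E))) ∪
      ⋃ j ∈ Finset.Icc (L+1) t, (A.B2 L j ∩ (A.N j t ∩ A.st t ⁻¹' E ∩ A.N t n)) := by
  classical
  rintro ω ⟨⟨hN, hE⟩, hNt⟩
  have htt : ω ∈ A.N t t := A.N_left t t n le_rfl htn ω hNt
  by_cases hno : ω ∈ A.nocs L t
  · left
    have hex : ∃ j, L ≤ j ∧ ω ∈ A.N j t := ⟨t, hLt.le, htt⟩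
    obtain ⟨h1, h2⟩ := Nat.find_spec hex
    set j := Nat.find hex with hj
    have hjt : j ≤ t := Nat.find_le ⟨hLt.le, htt⟩
    refine mem_iUnion₂.mpr ⟨j, Finset.mem_Icc.mpr ⟨h1, hjt⟩, ⟨?_, ?_⟩, ⟨h2, ?_⟩, hE⟩
    · exact A.N_left 0 j t (Nat.zero_le _) hjt ω hN
    · intro i hi hij hNi
      exact Nat.find_min hex hij ⟨hi, A.N_trans i j t hij.le hjt ω hNi h2⟩
    · exact nocs_left h1 hno
  · right
    simp only [nocs, mem_setOf_eq, not_forall, not_not] at hno
    have hexl : ∃ l, L < l ∧ l ≤ t ∧ ω ∈ A.cs l := by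
      obtain ⟨l, h1, h2, h3⟩ := hno
      exact ⟨l, h1, h2, h3⟩
    obtain ⟨f1, f2, f3⟩ := Nat.find_spec hexl
    have hfmin : ∀ i, i < Nat.find hexl → ¬ (L < i ∧ i ≤ t ∧ ω ∈ A.cs i) :=
      fun i hi => Nat.find_min hexl hi
    set l := Nat.find hexl with hl
    have hex : ∃ j, l ≤ j ∧ ω ∈ A.N j t := ⟨t, f2, htt⟩
    obtain ⟨h1, h2⟩ := Nat.find_spec hex
    set j := Nat.find hex with hj
    have hjt : j ≤ t := Nat.find_le ⟨f2, htt⟩
    refine mem_iUnion₂.mpr ⟨j, Finset.mem_Icc.mpr ⟨by omega, hjt⟩, ⟨?_, ?_⟩, ⟨h2, hE⟩, hNt⟩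
    · exact A.N_left 0 j t (Nat.zero_le _) hjt ω hN
    · refine mem_iUnion₂.mpr ⟨l, Finset.mem_Icc.mpr ⟨by omega, h1⟩, ⟨f3, ?_⟩, ?_⟩
      · intro i hi1 hi2 hi3
        exact hfmin i (by omega) ⟨hi1, by omega, hi3⟩
      · intro i hi hij hNi
        exact Nat.find_min hex hij ⟨hi, A.N_trans i j t hij.le hjt ω hNi h2⟩

/-- reindexing of a triangular sum -/
lemma tri_sum (L n : ℕ) (f : ℕ → ℕ → ℝ) :
    ∑ t ∈ Finset.Ioc L n, ∑ j ∈ Finset.Icc L t, f j t
      ≤ ∑ j ∈ Finset.Icc L n, ∑ t ∈ (Finset.Ioc L n).filter (fun t => j ≤ t), f j t := by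
  refine le_of_eq ?_
  simp only [Finset.sum_filter]
  rw [Finset.sum_comm (s := Finset.Icc L n)]
  refine Finset.sum_congr rfl fun t ht => ?_
  rw [Finset.mem_Ioc] at ht
  rw [← Finset.sum_filter]
  refine Finset.sum_congr ?_ fun _ _ => rfl
  ext j
  simp only [Finset.mem_Icc, Finset.mem_filter]
  omega

lemma tri_sum' (L n : ℕ) (f : ℕ → ℕ → ℝ) :
    ∑ t ∈ Finset.Ioc L n, ∑ j ∈ Finset.Icc (L+1) t, f j t
      ≤ ∑ j ∈ Finset.Icc (L+1) n, ∑ t ∈ (Finset.Ioc L n).filter (fun t => j ≤ t), f j t := by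
  refine le_of_eq ?_
  simp only [Finset.sum_filter]
  rw [Finset.sum_comm (s := Finset.Icc (L+1) n)]
  refine Finset.sum_congr rfl fun t ht => ?_
  rw [Finset.mem_Ioc] at ht
  rw [← Finset.sum_filter]
  refine Finset.sum_congr ?_ fun _ _ => rfl
  ext j
  simp only [Finset.mem_Icc, Finset.mem_filter]
  omega

/-- **(L2) = COLL from (K)**: the expected number of levels `t ≤ T` at which two natural walkers in
the same environment are in a state of `E` is bounded, uniformly in the start. -/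
theorem coll (H : A.Hyp a c₁ cₑ β h p Far χ) : ∃ ζ > (0:ℝ), ∃ q₀ : ℕ, ∀ q ≥ q₀, ∀ T : ℕ,
    (∀ s ∈ A.Dist, A.b q s - A.b T s ≤ ζ) → ∀ E : Set S, M1 A E → M2 A E → ∀ K0 A' : ℝ, 0 ≤ A' →
    (∀ s, ∑ t ∈ Finset.range (8*q+1), (A.P s).real (A.N 0 t ∩ A.st t ⁻¹' E) ≤ K0) →
    (∀ s ∈ A.Dist, ∑ t ∈ Finset.range (T+1), A.ψE E t s ≤ A') →
    ∀ s, ∑ t ∈ Finset.range (T+1), (A.P s).real (A.N 0 t ∩ A.st t ⁻¹' E) ≤
      (2 / c₁) * (K0 + (A' + a) / c₁) := by
  have hc := H.c₁pos
  obtain ⟨ζ, hζ, q₀, hq₀⟩ := late_run H (c₁/2) (by positivity)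
  refine ⟨ζ, hζ, q₀, fun q hq T hKT E hM1 hM2 K0 A' hA' hK0 hA => ?_⟩
  -- constant
  set G : ℝ := 2 * (K0 + (A' + a) / c₁) with hG
  have hE0 : ∀ s, 0 ≤ ∑ t ∈ Finset.range (8*q+1), (A.P s).real (A.N 0 t ∩ A.st t ⁻¹' E) :=
    fun s => Finset.sum_nonneg fun _ _ => measureReal_nonneg
  have hlate : ∀ n ≤ T, ∀ s, (A.P s).real (A.LateG (8*q) n) ≤ c₁/2 := by
    intro n hn s
    refine hq₀ q hq n (fun s' hs' => ?_) s
    have g1 := hKT s' hs'
    have g2 : A.b T s' ≤ A.b n s' := b_anti (A := A) s' hn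
    linarith
  -- sum of the `ψ`
  have hψ : ∀ n ≤ T, ∀ s', ∑ i ∈ Finset.range (n+1), A.ψE E i s' ≤ A' + a := by
    intro n hn s'
    have ha : (0:ℝ) ≤ a := Nat.cast_nonneg _
    by_cases hd : s' ∈ A.Dist
    · have h1 := hA s' hd
      have h2 : ∑ i ∈ Finset.range (n+1), A.ψE E i s' ≤ ∑ i ∈ Finset.range (T+1), A.ψE E i s' :=
        Finset.sum_le_sum_of_subset_of_nonneg (Finset.range_mono (by omega))
          fun _ _ _ => ψE_nonneg _ _ _
      linarith
    · have h5 : ∀ i ∈ Finset.range (n+1), A.ψE E i s' ≤ if i < a then (1:ℝ) else 0 := by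
        intro i _
        split_ifs with h0
        · exact ψE_le_one (A := A) E i s'
        · have := H.eqz s' hd i i (by omega) le_rfl
          have h2 := ψE_le_φ (A := A) E i s'
          linarith
      refine (Finset.sum_le_sum h5).trans ?_
      rw [← Finset.sum_filter, Finset.sum_const, nsmul_eq_mul, mul_one]
      have h6 : ((Finset.range (n+1)).filter (fun i => i < a)).card ≤ a := by
        have : (Finset.range (n+1)).filter (fun i => i < a) ⊆ Finset.range a := by
          intro i hi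
          rw [Finset.mem_filter] at hi
          exact Finset.mem_range.mpr hi.2
        simpa using Finset.card_le_card this
      have h7 : (((Finset.range (n+1)).filter (fun i => i < a)).card : ℝ) ≤ a := by
        exact_mod_cast h6
      linarith
  -- main induction
  have hK0' : 0 ≤ K0 ∨ IsEmpty S := by
    by_cases hS : Nonempty S
    · obtain ⟨s₀⟩ := hS
      exact Or.inl ((hE0 s₀).trans (hK0 s₀))
    · exact Or.inr (not_nonempty_iff.mp hS)
  have hmain : ∀ n, n ≤ T → ∀ s, ∑ t ∈ Finset.range (n+1), A.γE E t n s ≤ G := by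
    intro n
    induction n using Nat.strong_induction_on with
    | _ n ih =>
      intro hn s
      have := A.prob s
      have hK00 : 0 ≤ K0 := (hE0 s).trans (hK0 s)
      have hG0 : 0 ≤ G := by rw [hG]; positivity
      have hγle : ∀ t, A.γE E t n s ≤ (A.P s).real (A.N 0 t ∩ A.st t ⁻¹' E) :=
        fun t => measureReal_mono inter_subset_left
      by_cases hn8 : n ≤ 8 * q
      · have h1 : ∑ t ∈ Finset.range (n+1), A.γE E t n s ≤
            ∑ t ∈ Finset.range (8*q+1), (A.P s).real (A.N 0 t ∩ A.st t ⁻¹' E) := by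
          refine (Finset.sum_le_sum fun t _ => hγle t).trans ?_
          exact Finset.sum_le_sum_of_subset_of_nonneg (Finset.range_mono (by omega))
            fun _ _ _ => measureReal_nonneg
        have h2 := hK0 s
        have h3 : 0 ≤ (A' + a)/c₁ := by positivity
        rw [hG]; linarith
      push Not at hn8
      set L := 8 * q with hL
      have hsplit : Finset.range (n+1) = Finset.range (L+1) ∪ Finset.Ioc L n := by
        ext t; simp only [Finset.mem_range, Finset.mem_union, Finset.mem_Ioc]; omega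
      have hdis : Disjoint (Finset.range (L+1)) (Finset.Ioc L n) := by
        rw [Finset.disjoint_left]
        intro t h1 h2
        rw [Finset.mem_range] at h1
        rw [Finset.mem_Ioc] at h2
        omega
      rw [hsplit, Finset.sum_union hdis]
      have hlow : ∑ t ∈ Finset.range (L+1), A.γE E t n s ≤ K0 :=
        (Finset.sum_le_sum fun t _ => hγle t).trans (hK0 s)
      have hterm : ∀ t ∈ Finset.Ioc L n, A.γE E t n s ≤
          (∑ j ∈ Finset.Icc L t, ∫ ω in A.B1 L j, A.ψE E (t-j) (A.st j ω) ∂(A.P s)) +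
          ∑ j ∈ Finset.Icc (L+1) t, ∫ ω in A.B2 L j, A.γE E (t-j) (n-j) (A.st j ω) ∂(A.P s) := by
        intro t ht
        rw [Finset.mem_Ioc] at ht
        refine (measureReal_mono (coll_cover E L t n ht.1 ht.2) (measure_ne_top _ _)).trans
          ((measureReal_union_le _ _).trans (add_le_add ?_ ?_))
        · refine (real_iUnion_le _ _).trans (Finset.sum_le_sum fun j hj => ?_)
          rw [Finset.mem_Icc] at hj
          exact hM1 s j t hj.2 _ (B1_meas L j) (B1_al L j)
        · refine (real_iUnion_le _ _).trans (Finset.sum_le_sum fun j hj => ?_)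
          rw [Finset.mem_Icc] at hj
          exact hM2 s j t n hj.2 ht.2 _ (B2_meas L j) (B2_al L j)
      have hsum := Finset.sum_le_sum hterm
      rw [Finset.sum_add_distrib] at hsum
      have hS1 : ∑ t ∈ Finset.Ioc L n, ∑ j ∈ Finset.Icc L t,
          ∫ ω in A.B1 L j, A.ψE E (t-j) (A.st j ω) ∂(A.P s) ≤ (A' + a) / c₁ := by
        refine (tri_sum L n _).trans ?_
        have hj1 : ∀ j ∈ Finset.Icc L n, ∑ t ∈ (Finset.Ioc L n).filter (fun t => j ≤ t),
            ∫ ω in A.B1 L j, A.ψE E (t-j) (A.st j ω) ∂(A.P s) ≤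
              (A' + a) * (A.P s).real (A.B1 L j) := by
          intro j hj
          rw [Finset.mem_Icc] at hj
          rw [← integral_finset_sum _ fun t _ => (integ_ψE E s j (t-j)).integrableOn]
          calc _ ≤ ∫ ω in A.B1 L j, (A' + a) ∂(A.P s) := by
                refine setIntegral_mono_on
                  (integrable_finset_sum _ fun t _ => (integ_ψE E s j (t-j)).integrableOn)
                  (integrable_const _).integrableOn (meas j (B1_meas L j)) ?_
                intro ω _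
                refine le_trans ?_ (hψ (n-j) (by omega) (A.st j ω))
                have hinj : ∀ x ∈ (Finset.Ioc L n).filter (fun t => j ≤ t),
                    ∀ y ∈ (Finset.Ioc L n).filter (fun t => j ≤ t), x - j = y - j → x = y := by
                  intro x hx y hy hxy
                  rw [Finset.mem_filter] at hx hy
                  omega
                rw [← Finset.sum_image (f := fun i => A.ψE E i (A.st j ω)) hinj]
                refine Finset.sum_le_sum_of_subset_of_nonneg ?_ fun _ _ _ => ψE_nonneg _ _ _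
                intro i hi
                rw [Finset.mem_image] at hi
                obtain ⟨t, ht, rfl⟩ := hi
                rw [Finset.mem_filter, Finset.mem_Ioc] at ht
                rw [Finset.mem_range]; omega
            _ = (A' + a) * (A.P s).real (A.B1 L j) := by
                rw [setIntegral_const, smul_eq_mul, mul_comm]
        refine (Finset.sum_le_sum hj1).trans ?_
        rw [← Finset.mul_sum, div_eq_mul_one_div]
        exact mul_le_mul_of_nonneg_left (sum_B1 H s L n) (by positivity)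
      have hS2 : ∑ t ∈ Finset.Ioc L n, ∑ j ∈ Finset.Icc (L+1) t,
          ∫ ω in A.B2 L j, A.γE E (t-j) (n-j) (A.st j ω) ∂(A.P s) ≤ G / 2 := by
        refine (tri_sum' L n _).trans ?_
        have hj1 : ∀ j ∈ Finset.Icc (L+1) n, ∑ t ∈ (Finset.Ioc L n).filter (fun t => j ≤ t),
            ∫ ω in A.B2 L j, A.γE E (t-j) (n-j) (A.st j ω) ∂(A.P s) ≤
              G * (A.P s).real (A.B2 L j) := by
          intro j hj
          rw [Finset.mem_Icc] at hj
          rw [← integral_finset_sum _ fun t _ => (integ_γE E s j (t-j) (n-j)).integrableOn]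
          calc _ ≤ ∫ ω in A.B2 L j, G ∂(A.P s) := by
                refine setIntegral_mono_on
                  (integrable_finset_sum _ fun t _ => (integ_γE E s j (t-j) (n-j)).integrableOn)
                  (integrable_const _).integrableOn (meas j (B2_meas L j)) ?_
                intro ω _
                refine le_trans ?_ (ih (n-j) (by omega) (by omega) (A.st j ω))
                have hinj : ∀ x ∈ (Finset.Ioc L n).filter (fun t => j ≤ t),
                    ∀ y ∈ (Finset.Ioc L n).filter (fun t => j ≤ t), x - j = y - j → x = y := by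
                  intro x hx y hy hxy
                  rw [Finset.mem_filter] at hx hy
                  omega
                rw [← Finset.sum_image (f := fun i => A.γE E i (n-j) (A.st j ω)) hinj]
                refine Finset.sum_le_sum_of_subset_of_nonneg ?_ fun _ _ _ => γE_nonneg _ _ _ _
                intro i hi
                rw [Finset.mem_image] at hi
                obtain ⟨t, ht, rfl⟩ := hi
                rw [Finset.mem_filter, Finset.mem_Ioc] at ht
                rw [Finset.mem_range]; omega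
            _ = G * (A.P s).real (A.B2 L j) := by
                rw [setIntegral_const, smul_eq_mul, mul_comm]
        refine (Finset.sum_le_sum hj1).trans ?_
        rw [← Finset.mul_sum]
        have h1 := sum_B2 H s L n
        have h2 := hlate n hn s
        have h3 : (A.P s).real (A.LateG L n) / c₁ ≤ 1/2 := by
          rw [div_le_iff₀ hc]; linarith
        calc G * ∑ j ∈ Finset.Icc (L+1) n, (A.P s).real (A.B2 L j) ≤ G * (1/2) :=
              mul_le_mul_of_nonneg_left (h1.trans h3) hG0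
          _ = G/2 := by ring
      have : G = 2 * (K0 + (A' + a) / c₁) := hG
      linarith
  intro s
  have := A.prob s
  have h1 := hmain T le_rfl s
  have h2 : c₁ * ∑ t ∈ Finset.range (T+1), (A.P s).real (A.N 0 t ∩ A.st t ⁻¹' E) ≤ G := by
    rw [Finset.mul_sum]
    refine le_trans (Finset.sum_le_sum fun t ht => ?_) h1
    rw [Finset.mem_range] at ht
    refine lowerN H s t T (by omega) (A.N 0 t ∩ A.st t ⁻¹' E) ?_ ?_
    · exact MeasurableSet.inter (A.N_meas 0 t (Nat.zero_le _))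
        (A.st_meas t (MeasurableSet.of_discrete : MeasurableSet E))
    · exact fun ω hω => A.N_al 0 t (Nat.zero_le _) hω.1
  have h3 : ∑ t ∈ Finset.range (T+1), (A.P s).real (A.N 0 t ∩ A.st t ⁻¹' E) ≤ G / c₁ := by
    rw [le_div_iff₀ hc]; linarith
  have h4 : G / c₁ = (2 / c₁) * (K0 + (A' + a) / c₁) := by rw [hG]; ring
  linarith

end PairSys

end Crest.Agent.R154.B6_833
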