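import Crest.Agent.R154.KerInst_872

/-! Row 154, d ≥ 3, HM2 of 263's HOME MASS route: natural climbs of bounded lateral range
(the confined kernel `gc` of a column), its locality, floor, and its limit as the range grows. -/

set_option autoImplicit false
set_option linter.unusedSectionVars false
set_option linter.deprecated false

namespace Crest.Agent.R154.Cols220

open MeasureTheory ProbabilityTheory Set Filter Crest.ProbabilityR.RandomEnvironment
open Crest.Agent.R154.Ren263 hiding lev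
open Crest.Agent.R154.Mk561 Crest.Agent.R154.Q561 Crest.Agent.R154.RatioR872
open Crest.Agent.R154.Flux132 (lev lev_add lev_neg lev_zero)
open scoped ENNReal

variable {d : ℕ}

/-- lateral range `≤ r` up to time `m` -/
def InR (u : Step d) (r : ℕ) (x : Site d) (m : ℕ) : Set (MPath d) :=
  {M | ∀ i ≤ m, ∀ j, j ≠ u.1 → |pos x M i j - x j| ≤ r}

/-- natural climb of lateral range `≤ r`, hitting time `m` -/
def ClMr (u : Step d) (R r : ℕ) (x : Site d) (b : ℤ) (m : ℕ) : Set (MPath d) :=
  ClM u R x b m ∩ InR u r x m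

/-- with exit site `y` -/
def ClYr (u : Step d) (R r : ℕ) (x : Site d) (b : ℤ) (m : ℕ) (y : Site d) : Set (MPath d) :=
  {M | M ∈ ClMr u R r x b m ∧ pos x M m = y}

def Clr (u : Step d) (R r : ℕ) (x : Site d) (b : ℤ) (y : Site d) : Set (MPath d) :=
  ⋃ m, ClYr u R r x b m y

def ClAr (u : Step d) (R r : ℕ) (x : Site d) (b : ℤ) : Set (MPath d) := ⋃ m, ClMr u R r x b m

/-- the column at `x`, rows between `lev x + R` and `b` -/
def Col (u : Step d) (R r : ℕ) (x : Site d) (b : ℤ) : Set (Site d) :=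
  {z | lev u x + R ≤ lev u z ∧ lev u z < b ∧ ∀ j, j ≠ u.1 → |z j - x j| ≤ r}

section sets

variable (u : Step d) (R r : ℕ)

lemma det_InR (x : Site d) (m : ℕ) : Det m (InR u r x m) := by
  intro s s' h
  unfold InR
  simp only [mem_setOf_eq]
  refine forall_congr' fun i => forall_congr' fun hi => ?_
  rw [pos_congr x h hi]

lemma det_ClMr (x : Site d) (b : ℤ) (m : ℕ) : Det m (ClMr u R r x b m) :=
  (det_ClM u R x b m).inter (det_InR u r x m)

lemma det_ClYr (x : Site d) (b : ℤ) (m : ℕ) (y : Site d) : Det m (ClYr u R r x b m y) := by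
  intro s s' h
  unfold ClYr
  simp only [mem_setOf_eq]
  rw [det_ClMr u R r x b m s s' h, pos_congr x h le_rfl]

lemma meas_ClYr (x : Site d) (b : ℤ) (m : ℕ) (y : Site d) : MeasurableSet (ClYr u R r x b m y) :=
  (det_ClYr u R r x b m y).measurableSet

lemma meas_ClMr (x : Site d) (b : ℤ) (m : ℕ) : MeasurableSet (ClMr u R r x b m) :=
  (det_ClMr u R r x b m).measurableSet

lemma meas_Clr (x : Site d) (b : ℤ) (y : Site d) : MeasurableSet (Clr u R r x b y) :=
  MeasurableSet.iUnion fun m => meas_ClYr u R r x b m y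

lemma meas_ClAr (x : Site d) (b : ℤ) : MeasurableSet (ClAr u R r x b) :=
  MeasurableSet.iUnion fun m => meas_ClMr u R r x b m

lemma ClMr_sub (x : Site d) (b : ℤ) (m : ℕ) : ClMr u R r x b m ⊆ ClM u R x b m :=
  inter_subset_left

lemma ClYr_sub (x : Site d) (b : ℤ) (m : ℕ) (y : Site d) :
    ClYr u R r x b m y ⊆ ClY u R x b m y := fun _ h => ⟨h.1.1, h.2⟩

lemma Clr_sub (x : Site d) (b : ℤ) (y : Site d) : Clr u R r x b y ⊆ Cl u R x b y :=
  iUnion_mono fun m => ClYr_sub u R r x b m y

lemma ClAr_sub (x : Site d) (b : ℤ) : ClAr u R r x b ⊆ ClA u R x b :=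
  iUnion_mono fun m => ClMr_sub u R r x b m

lemma disj_ClMr (x : Site d) (b : ℤ) :
    Pairwise (Function.onFun Disjoint fun m => ClMr u R r x b m) := fun m m' h =>
  (disj_ClM u R x b h).mono (ClMr_sub u R r x b m) (ClMr_sub u R r x b m')

lemma disj_ClYr (x : Site d) (b : ℤ) (y : Site d) :
    Pairwise (Function.onFun Disjoint fun m => ClYr u R r x b m y) := fun m m' h =>
  (disj_ClY u R x b y h).mono (ClYr_sub u R r x b m y) (ClYr_sub u R r x b m' y)

lemma disj_Clr (x : Site d) (b : ℤ) :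
    Pairwise (Function.onFun Disjoint fun y => Clr u R r x b y) := fun y y' h =>
  (disj_Cl u R x b h).mono (Clr_sub u R r x b y) (Clr_sub u R r x b y')

lemma iUnion_Clr (x : Site d) (b : ℤ) : ⋃ y, Clr u R r x b y = ClAr u R r x b := by
  ext M
  simp only [Clr, ClAr, ClYr, mem_iUnion, mem_setOf_eq]
  constructor
  · rintro ⟨y, m, h, _⟩
    exact ⟨m, h⟩
  · rintro ⟨m, h⟩
    exact ⟨_, m, h, rfl⟩

/-- exit sites -/
lemma Clr_exit {x : Site d} {b : ℤ} {y : Site d} (h : (Clr u R r x b y).Nonempty) :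
    lev u y = b ∧ ∀ j, j ≠ u.1 → |y j - x j| ≤ r := by
  obtain ⟨M, hM⟩ := h
  obtain ⟨m, hm⟩ := mem_iUnion.1 hM
  have e : pos x M m = y := hm.2
  refine ⟨e ▸ hm.1.1.1, fun j hj => ?_⟩
  rw [← e]
  exact hm.1.2 m le_rfl j hj

lemma ClMr_read (x : Site d) (b : ℤ) (m : ℕ) :
    ClMr u R r x b m ⊆ RdB (Col u R r x b) x m := by
  rintro M ⟨hM, hr⟩ i hi hf
  have h := ClM_read u R x b m hM i hi hf
  exact ⟨h.1, h.2, fun j hj => hr i hi.le j hj⟩

lemma ClAr_mono {r r' : ℕ} (h : r ≤ r') (x : Site d) (b : ℤ) :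
    ClAr u R r x b ⊆ ClAr u R r' x b := by
  refine iUnion_mono fun m => ?_
  rintro M ⟨h1, h2⟩
  exact ⟨h1, fun i hi j hj => (h2 i hi j hj).trans (by exact_mod_cast h)⟩

/-- every natural climb has a finite range -/
lemma iUnion_ClAr (x : Site d) (b : ℤ) : ⋃ r, ClAr u R r x b = ClA u R x b := by
  refine Subset.antisymm (iUnion_subset fun r => ClAr_sub u R r x b) ?_
  intro M hM
  obtain ⟨m, hm⟩ := mem_iUnion.1 hM
  refine mem_iUnion.2 ⟨∑ i ∈ Finset.range (m + 1), ∑ j, (pos x M i j - x j).natAbs,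
    mem_iUnion.2 ⟨m, hm, fun i hi j _ => ?_⟩⟩
  have h1 : (pos x M i j - x j).natAbs ≤ ∑ j, (pos x M i j - x j).natAbs :=
    Finset.single_le_sum (f := fun j => (pos x M i j - x j).natAbs)
      (fun _ _ => Nat.zero_le _) (Finset.mem_univ j)
  have h2 : ∑ j, (pos x M i j - x j).natAbs
      ≤ ∑ i ∈ Finset.range (m + 1), ∑ j, (pos x M i j - x j).natAbs :=
    Finset.single_le_sum (f := fun i => ∑ j, (pos x M i j - x j).natAbs)
      (fun _ _ => Nat.zero_le _) (Finset.mem_range.2 (by omega))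
  have h3 := h1.trans h2
  rw [Int.abs_eq_natAbs]
  exact_mod_cast h3

lemma ClMr_shift (x z : Site d) (b : ℤ) (m : ℕ) :
    ClMr u R r (x + z) (b + lev u z) m = ClMr u R r x b m := by
  unfold ClMr
  rw [ClM_shift]
  congr 1
  ext M
  unfold InR
  simp only [mem_setOf_eq, pos_add]
  refine forall_congr' fun i => forall_congr' fun _ => forall_congr' fun j =>
    forall_congr' fun _ => ?_
  simp only [Pi.add_apply]
  rw [add_sub_add_right_eq_sub]

lemma ClAr_shift (x z : Site d) (b : ℤ) :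
    ClAr u R r (x + z) (b + lev u z) = ClAr u R r x b := by
  unfold ClAr
  simp_rw [ClMr_shift]

end sets

section kernel

variable (u : Step d) (R r : ℕ) (κ : ℝ)

/-- confined kernel -/
noncomputable def gc (b : ℤ) (ω : Environment d) (x y : Site d) : ℝ≥0∞ :=
  mkLaw κ ω x (Clr u R r x b y)

/-- confined mass -/
noncomputable def nc (b : ℤ) (ω : Environment d) (x : Site d) : ℝ≥0∞ :=
  mkLaw κ ω x (ClAr u R r x b)

lemma tsum_gc (b : ℤ) (ω : Environment d) (x : Site d) :
    ∑' y, gc u R r κ b ω x y = nc u R r κ b ω x := by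
  unfold nc
  rw [← iUnion_Clr, measure_iUnion (disj_Clr u R r x b) fun y => meas_Clr u R r x b y]
  rfl

lemma gc_le (b : ℤ) (ω : Environment d) (x y : Site d) :
    gc u R r κ b ω x y ≤ gk u R κ b ω x y := measure_mono (Clr_sub u R r x b y)

lemma nc_le (b : ℤ) (ω : Environment d) (x : Site d) :
    nc u R r κ b ω x ≤ ∑' y, gk u R κ b ω x y := by
  rw [tsum_gk]
  exact measure_mono (ClAr_sub u R r x b)

lemma nc_le_one (b : ℤ) (ω : Environment d) (x : Site d) : nc u R r κ b ω x ≤ 1 := prob_le_one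

lemma gc_supp {b : ℤ} {ω : Environment d} {x y : Site d} (h : gc u R r κ b ω x y ≠ 0) :
    lev u y = b ∧ ∀ j, j ≠ u.1 → |y j - x j| ≤ r := by
  refine Clr_exit u R r ?_
  by_contra hne
  rw [not_nonempty_iff_eq_empty] at hne
  exact h (by unfold gc; rw [hne, measure_empty])

lemma measurable_gc (b : ℤ) (x y : Site d) : Measurable fun ω => gc u R r κ b ω x y :=
  measurable_mk_apply κ x (meas_Clr u R r x b y)

lemma measurable_nc (b : ℤ) (x : Site d) : Measurable fun ω => nc u R r κ b ω x :=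
  measurable_mk_apply κ x (meas_ClAr u R r x b)

lemma locOn_gc (b : ℤ) (x y : Site d) :
    LocOn (Col u R r x b) fun ω => gc u R r κ b ω x y := by
  have e : ∀ ω : Environment d, gc u R r κ b ω x y = ∑' m, mkLaw κ ω x (ClYr u R r x b m y) :=
    fun ω => measure_iUnion (disj_ClYr u R r x b y) fun m => meas_ClYr u R r x b m y
  intro ω ω' h
  simp only [e]
  refine tsum_congr fun m => ?_
  exact mk_local_det κ h x (det_ClYr u R r x b m y) fun M hM => ClMr_read u R r x b m hM.1

lemma locOn_nc (b : ℤ) (x : Site d) :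
    LocOn (Col u R r x b) fun ω => nc u R r κ b ω x := by
  intro ω ω' h
  simp only [← tsum_gc]
  exact tsum_congr fun y => locOn_gc u R r κ b x y ω ω' h

lemma measCol_nc (b : ℤ) (x : Site d) :
    Measurable[coordSigmaAlgebra (Col u R r x b)] fun ω => nc u R r κ b ω x :=
  measurable_coord (measurable_nc u R r κ b x) (locOn_nc u R r κ b x)

lemma measCol_gc (b : ℤ) (x y : Site d) :
    Measurable[coordSigmaAlgebra (Col u R r x b)] fun ω => gc u R r κ b ω x y :=
  measurable_coord (measurable_gc u R r κ b x y) (locOn_gc u R r κ b x y)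

/-- **floor**: straight up, all letters forced (nothing is read) -/
lemma floor (x : Site d) (n : ℕ) (ω : Environment d) :
    ENNReal.ofReal (kf d κ) ^ n ≤ nc u R r κ (lev u x + n) ω x := by
  set W : MPath d := fun _ => ((u, true) : Mark d) with hW
  have hpos : ∀ M ∈ Cy W n, ∀ k ≤ n, ∀ j, pos x M k j = x j + k * (stepVec u) j := by
    intro M hM k
    induction k with
    | zero => intro _ j; simp [pos_zero]
    | succ k ih =>
      intro hk j
      rw [pos_succ]
      have e : M k = (u, true) := hM k (by omega)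
      rw [Pi.add_apply, ih (by omega) j, e]
      simp only [stp]
      push_cast
      ring
  have hlev : ∀ M ∈ Cy W n, ∀ k ≤ n, lev u (pos x M k) = lev u x + k := by
    intro M hM k
    induction k with
    | zero => intro _; simp [pos_zero]
    | succ k ih =>
      intro hk
      rw [pos_succ, lev_add, ih (by omega)]
      have e : M k = (u, true) := hM k (by omega)
      rw [e]
      have : lev u (stp ((u, true) : Mark d)) = 1 := Flux132.lev_step_self u
      rw [this]
      push_cast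
      ring
  have hsub : Cy W n ⊆ ClAr u R r x (lev u x + n) := by
    intro M hM
    refine mem_iUnion.2 ⟨n, ⟨hlev M hM n le_rfl, fun i hi => ?_, fun i hi _ => hM i hi,
      fun i hR hi => ?_⟩, fun i hi j hj => ?_⟩
    · rw [hlev M hM i hi.le]; omega
    · rw [hlev M hM i hi]; omega
    · rw [hpos M hM i hi j]
      have : stepVec u j = 0 := by
        rcases u with ⟨v, b⟩
        simp only [stepVec]
        exact Pi.single_eq_of_ne hj _
      rw [this]
      simp
  calc ENNReal.ofReal (kf d κ) ^ n = mkLaw κ ω x (Cy W n) := by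
        rw [mk_cyl, wgt]
        rw [Finset.prod_congr rfl fun i _ => mw_forced κ (ω (pos x W i)) u]
        simp
    _ ≤ nc u R r κ (lev u x + n) ω x := measure_mono hsub

variable (Q : Measure (Environment d)) [IsProbabilityMeasure Q]

/-- annealed: as the range grows, the confined mass tends to the natural mass -/
lemma tendsto_ann (n : ℕ) :
    Tendsto (fun r => mkAnn κ Q 0 (ClAr u R r 0 n)) atTop (nhds (hn u R κ Q n)) := by
  have h := tendsto_measure_iUnion_atTop (μ := mkAnn κ Q (0 : Site d))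
    (s := fun r => ClAr u R r 0 n) (fun a b hab => ClAr_mono u R hab 0 n)
  rw [iUnion_ClAr] at h
  exact h

lemma ann_shift (hstat : ∀ z : Site d, MeasurePreserving (shiftEnv z) Q Q) (x : Site d) (n : ℕ) :
    ∫⁻ ω, nc u R r κ (lev u x + n) ω x ∂Q = mkAnn κ Q 0 (ClAr u R r 0 n) := by
  unfold nc
  rw [← mkAnn_apply κ Q x (meas_ClAr u R r x _), mkAnn_stat hstat κ x]
  congr 1
  have h2 := ClAr_shift u R r 0 x (n : ℤ)
  rw [zero_add] at h2
  rw [← h2, add_comm]

/-- **range**: the natural mass lost by the confinement -/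
lemma range (hstat : ∀ z : Site d, MeasurePreserving (shiftEnv z) Q Q) (n : ℕ) {ε : ℝ≥0∞}
    (hε : ε ≠ 0) : ∃ r0, ∀ r, r0 ≤ r → ∀ x : Site d,
      ∫⁻ ω, (∑' y, gk u R κ (lev u x + n) ω x y) - nc u R r κ (lev u x + n) ω x ∂Q ≤ ε := by
  have hfin : hn u R κ Q n ≠ ⊤ := by
    unfold hn
    exact measure_ne_top _ _
  have h := tendsto_ann u R κ Q n
  have h' : Tendsto (fun r => hn u R κ Q n - mkAnn κ Q 0 (ClAr u R r 0 n)) atTop
      (nhds (hn u R κ Q n - hn u R κ Q n)) :=
    ENNReal.Tendsto.sub tendsto_const_nhds h (Or.inl hfin)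
  rw [tsub_self] at h'
  obtain ⟨r0, hr0⟩ := eventually_atTop.1 ((ENNReal.tendsto_nhds_zero.1 h') ε
    (pos_iff_ne_zero.2 hε))
  refine ⟨r0, fun r hr x => ?_⟩
  have h1 : ∫⁻ ω, nc u R r κ (lev u x + n) ω x ∂Q ≠ ⊤ := by
    rw [ann_shift u R r κ Q hstat]
    exact measure_ne_top _ _
  rw [lintegral_sub (measurable_nc u R r κ _ x) h1
    (Eventually.of_forall fun ω => nc_le u R r κ _ ω x)]
  rw [ann_shift u R r κ Q hstat]
  have h2 : ∫⁻ ω, ∑' y, gk u R κ (lev u x + n) ω x y ∂Q = hn u R κ Q n := by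
    simp_rw [tsum_gk]
    rw [← mkAnn_apply κ Q x (meas_ClA u R x _), mkAnn_stat hstat κ x, hn]
    congr 1
    have h2 := ClA_shift u R 0 x (n : ℤ)
    rw [zero_add] at h2
    rw [← h2, add_comm]
  rw [h2]
  exact hr0 r hr

end kernel

end Crest.Agent.R154.Cols220
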