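import Crest.Agent.R154.Comp_804

/-! Row 154, ROAD 801, composition (helper804), part B: the law of the stopped displacement,
recursion, smooth density, quantile. -/

set_option autoImplicit false

namespace Crest.Agent.R154.Comp804

open scoped ENNReal
open Crest.Agent.R154.B5A

variable {B K : Type*} [AddCommGroup K]
variable (Λ : B → ℝ≥0∞) (ht : B → ℕ) (ds : B → K)

/-- total displacement -/
def DL (L : List B) : K := (L.map ds).sum

omit [AddCommGroup K] in
lemma DL_nil [AddCommGroup K] (ds : B → K) : DL ds [] = 0 := by simp [DL]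

lemma DL_cons (b : B) (L : List B) : DL ds (b :: L) = ds b + DL ds L := by simp [DL]

lemma DL_append (L L' : List B) : DL ds (L ++ L') = DL ds L + DL ds L' := by simp [DL]

open Classical in
/-- law of the displacement of the list stopped at height `h` -/
noncomputable def Q (h : ℕ) (x : K) : ℝ≥0∞ := SS Λ ht h (fun S => if DL ds S = x then 1 else 0)

lemma SS_law (h : ℕ) (F : K → ℝ≥0∞) :
    SS Λ ht h (fun S => F (DL ds S)) = ∑' x, Q Λ ht ds h x * F x := by
  classical
  have : ∀ S : List B, F (DL ds S) = ∑' x, F x * (if DL ds S = x then 1 else 0) := fun S => by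
    rw [tsum_eq_single (DL ds S)]
    · simp
    · intro x hx; rw [if_neg (Ne.symm hx), mul_zero]
  rw [SS_congr Λ ht h (fun S _ => this S), SS_tsum]
  refine tsum_congr fun x => ?_
  rw [SS_mul, Q, mul_comm]

lemma Q_sum (h1 : ∀ b, 1 ≤ ht b) (hΛ : ∑' b, Λ b ≤ 1) (h : ℕ) : ∑' x, Q Λ ht ds h x ≤ 1 := by
  have := SS_law Λ ht ds h (fun _ => 1)
  simp only [mul_one] at this
  rw [← this]
  exact SS_one Λ ht h1 hΛ h

lemma Q_rec (h1 : ∀ b, 1 ≤ ht b) (lv : K → ℕ) (hlv : ∀ L : List B, lv (DL ds L) = HT ht L)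
    (h H : ℕ) (hH : h ≤ H) (x : K) :
    Q Λ ht ds H x = ∑' y, Q Λ ht ds h y * Q Λ ht ds (H - lv y) (x - y) := by
  classical
  rw [← SS_law Λ ht ds h (fun y => Q Λ ht ds (H - lv y) (x - y))]
  conv_lhs => rw [Q, split_SS Λ ht h1 h H hH]
  refine SS_congr _ _ _ fun A _ => ?_
  rw [hlv, Q]
  refine SS_congr _ _ _ fun S _ => ?_
  rw [DL_append]
  by_cases e : DL ds A + DL ds S = x
  · rw [if_pos e, if_pos (by rw [← e]; abel)]
  · rw [if_neg e, if_neg (fun h' => e (by rw [h']; abel))]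

/-- **smooth density** as a recursion -/
lemma density (h1 : ∀ b, 1 ≤ ht b) (hΛ : ∑' b, Λ b ≤ 1)
    (lv : K → ℕ) (hlv : ∀ L : List B, lv (DL ds L) = HT ht L)
    (t3 i0 : ℕ) (T ρ e1 : ℝ≥0∞) (Low : K → Prop) [DecidablePred Low]
    (hLow : ∀ x, Low x → lv x ≤ t3 + i0 ∧ Q Λ ht ds t3 x ≤ T)
    (hρ1 : ρ ≤ 1)
    (hρ : ∑' x, (if lv x ≤ t3 + i0 ∧ ¬ Low x then Q Λ ht ds t3 x else 0) ≤ ρ)
    (he1 : ∑' x, (if t3 + i0 < lv x then Q Λ ht ds t3 x else 0) ≤ e1) (J : ℕ) :
    ∀ H, J * (t3 + i0) ≤ H → ∃ g b : K → ℝ≥0∞, (∀ x, Q Λ ht ds H x = g x + b x) ∧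
      (∀ x, g x ≤ ((t3 + i0 + 1 - t3 : ℕ) : ℝ≥0∞) * T * ∑ j ∈ Finset.range J, ρ ^ j) ∧
      ∑' x, b x ≤ ρ ^ J + J * e1 := by
  classical
  induction J with
  | zero =>
    intro H _
    exact ⟨fun _ => 0, Q Λ ht ds H, fun x => by simp, fun x => by simp,
      by simpa using Q_sum Λ ht ds h1 hΛ H⟩
  | succ J ih =>
    intro H hH
    have hH3 : t3 ≤ H := by nlinarith
    have key : ∀ y : K, ∃ g b : K → ℝ≥0∞, lv y ≤ t3 + i0 →
        (∀ x, Q Λ ht ds (H - lv y) x = g x + b x) ∧
        (∀ x, g x ≤ ((t3 + i0 + 1 - t3 : ℕ) : ℝ≥0∞) * T * ∑ j ∈ Finset.range J, ρ ^ j) ∧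
        ∑' x, b x ≤ ρ ^ J + J * e1 := by
      intro y
      by_cases hy : lv y ≤ t3 + i0
      · obtain ⟨g, b, h⟩ := ih (H - lv y) (by
          have : (J + 1) * (t3 + i0) = J * (t3 + i0) + (t3 + i0) := by ring
          omega)
        exact ⟨g, b, fun _ => h⟩
      · exact ⟨0, 0, fun h => absurd h hy⟩
    choose g b hgb using key
    refine ⟨fun x => ∑' y, (if Low y then Q Λ ht ds t3 y * Q Λ ht ds (H - lv y) (x - y) else
        if lv y ≤ t3 + i0 then Q Λ ht ds t3 y * g y (x - y) else 0),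
      fun x => ∑' y, (if Low y then 0 else
        if lv y ≤ t3 + i0 then Q Λ ht ds t3 y * b y (x - y)
        else Q Λ ht ds t3 y * Q Λ ht ds (H - lv y) (x - y)), ?_, ?_, ?_⟩
    · intro x
      rw [Q_rec Λ ht ds h1 lv hlv t3 H hH3, ← ENNReal.tsum_add]
      refine tsum_congr fun y => ?_
      by_cases hL : Low y
      · simp [hL]
      · by_cases hl : lv y ≤ t3 + i0
        · simp only [hL, hl, if_true, if_false]
          rw [(hgb y hl).1, mul_add]
        · simp [hL, hl]
    · intro x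
      have hsplit : ∀ y, (if Low y then Q Λ ht ds t3 y * Q Λ ht ds (H - lv y) (x - y) else
          if lv y ≤ t3 + i0 then Q Λ ht ds t3 y * g y (x - y) else 0)
          ≤ (∑ i ∈ Finset.Icc t3 (t3 + i0), T * Q Λ ht ds (H - i) (x - y))
            + (if lv y ≤ t3 + i0 ∧ ¬ Low y then Q Λ ht ds t3 y else 0) *
              (((t3 + i0 + 1 - t3 : ℕ) : ℝ≥0∞) * T * ∑ j ∈ Finset.range J, ρ ^ j) := by
        intro y
        by_cases hL : Low y
        · rw [if_pos hL]
          by_cases h3 : t3 ≤ lv y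
          · refine le_trans ?_ le_self_add
            refine le_trans ?_ (Finset.single_le_sum (f := fun i => T * Q Λ ht ds (H - i) (x - y))
              (fun _ _ => bot_le) (Finset.mem_Icc.2 ⟨h3, (hLow y hL).1⟩))
            exact mul_le_mul_left (hLow y hL).2 _
          · have : Q Λ ht ds t3 y = 0 := by
              rw [Q, SS]
              refine ENNReal.tsum_eq_zero.2 fun S => ?_
              split_ifs with hS hS'
              · exfalso; rw [← hS', hlv] at h3; exact h3 (Stp_ht ht S t3 hS)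
              · simp
              · rfl
            rw [this, zero_mul]; exact bot_le
        · rw [if_neg hL]
          by_cases hl : lv y ≤ t3 + i0
          · rw [if_pos hl, if_pos ⟨hl, hL⟩]
            exact le_trans (mul_le_mul_right ((hgb y hl).2.1 _) _) le_add_self
          · rw [if_neg hl]; exact bot_le
      refine (ENNReal.tsum_le_tsum hsplit).trans ?_
      rw [ENNReal.tsum_add, ENNReal.tsum_mul_right,
        Summable.tsum_finsetSum (fun _ _ => ENNReal.summable)]
      have hA : ∑ i ∈ Finset.Icc t3 (t3 + i0), ∑' y, T * Q Λ ht ds (H - i) (x - y)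
          ≤ ((t3 + i0 + 1 - t3 : ℕ) : ℝ≥0∞) * T := by
        calc _ ≤ ∑ i ∈ Finset.Icc t3 (t3 + i0), T := by
              refine Finset.sum_le_sum fun i _ => ?_
              rw [ENNReal.tsum_mul_left]
              have e : ∑' y, Q Λ ht ds (H - i) (x - y) = ∑' y, Q Λ ht ds (H - i) y :=
                (Equiv.subLeft x).tsum_eq (Q Λ ht ds (H - i))
              rw [e]
              calc T * _ ≤ T * 1 := mul_le_mul_right (Q_sum Λ ht ds h1 hΛ _) _
                _ = T := mul_one _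
          _ = _ := by rw [Finset.sum_const, Nat.card_Icc, nsmul_eq_mul]
      calc _ ≤ ((t3 + i0 + 1 - t3 : ℕ) : ℝ≥0∞) * T
            + ρ * (((t3 + i0 + 1 - t3 : ℕ) : ℝ≥0∞) * T * ∑ j ∈ Finset.range J, ρ ^ j) :=
            add_le_add hA (mul_le_mul_left hρ _)
        _ = _ := by
            rw [Finset.sum_range_succ']
            simp only [pow_succ, pow_zero]
            rw [← Finset.sum_mul]; ring
    · rw [ENNReal.tsum_comm]
      have hy : ∀ y, ∑' x, (if Low y then 0 else
          if lv y ≤ t3 + i0 then Q Λ ht ds t3 y * b y (x - y)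
          else Q Λ ht ds t3 y * Q Λ ht ds (H - lv y) (x - y))
          ≤ (if lv y ≤ t3 + i0 ∧ ¬ Low y then Q Λ ht ds t3 y else 0) * (ρ ^ J + J * e1)
            + (if t3 + i0 < lv y then Q Λ ht ds t3 y else 0) := by
        intro y
        by_cases hL : Low y
        · simp [hL]
        · by_cases hl : lv y ≤ t3 + i0
          · simp only [hL, hl, if_true, if_false]
            rw [ENNReal.tsum_mul_left]
            have e : ∑' x, b y (x - y) = ∑' x, b y x := (Equiv.subRight y).tsum_eq (b y)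
            rw [e]
            refine le_trans (mul_le_mul_right (hgb y hl).2.2 _) ?_
            simp
          · simp only [hL, hl, if_false]
            rw [ENNReal.tsum_mul_left]
            have e : ∑' x, Q Λ ht ds (H - lv y) (x - y) = ∑' x, Q Λ ht ds (H - lv y) x :=
              (Equiv.subRight y).tsum_eq _
            rw [e, if_pos (not_le.1 hl)]
            refine le_trans ?_ le_add_self
            calc _ ≤ Q Λ ht ds t3 y * 1 := mul_le_mul_right (Q_sum Λ ht ds h1 hΛ _) _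
              _ = _ := mul_one _
      refine (ENNReal.tsum_le_tsum hy).trans ?_
      rw [ENNReal.tsum_add, ENNReal.tsum_mul_right]
      calc _ ≤ ρ * (ρ ^ J + J * e1) + e1 := add_le_add (mul_le_mul_left hρ _) he1
        _ ≤ _ := by
          push_cast
          calc ρ * (ρ ^ J + J * e1) + e1 = ρ ^ (J + 1) + (ρ * (J * e1) + e1) := by ring
            _ ≤ ρ ^ (J + 1) + (1 * (J * e1) + e1) := by gcongr
            _ = _ := by ring

open Classical in
/-- a dyadic quantile -/
lemma quantile {K' : Type*} (p : K' → ℝ≥0∞) (hp : ∑' x, p x ≤ 1) (u : ℝ≥0∞) (hu : u ≠ 0) :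
    ∃ k : ℕ, ∑' x, (if p x < (2⁻¹ : ℝ≥0∞) ^ k then p x else 0) ≤ u ∧
      (u ≤ ∑' x, (if p x ≤ 2 * (2⁻¹ : ℝ≥0∞) ^ k then p x else 0) ∨
        ∑' x, (if p x ≤ 2 * (2⁻¹ : ℝ≥0∞) ^ k then p x else 0) = ∑' x, p x) := by
  have hpt : ∑' x, p x ≠ ⊤ := ne_top_of_le_ne_top ENNReal.one_ne_top hp
  have hex : ∃ k : ℕ, ∑' x, (if p x < (2⁻¹ : ℝ≥0∞) ^ k then p x else 0) ≤ u := by
    have h1 := ENNReal.tendsto_tsum_compl_atTop_zero hpt
    have h2 : ∀ᶠ F : Finset K' in Filter.atTop, ∑' x : {x // x ∉ F}, p x < u :=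
      h1.eventually_lt_const (pos_iff_ne_zero.2 hu)
    obtain ⟨F, hF⟩ := h2.exists
    have h3 : ∀ᶠ k : ℕ in Filter.atTop, ∀ x ∈ F, p x ≠ 0 → (2⁻¹ : ℝ≥0∞) ^ k ≤ p x := by
      rw [Filter.eventually_all_finset]
      intro x _
      by_cases hx : p x = 0
      · exact Filter.Eventually.of_forall fun k h => absurd hx h
      · have := ENNReal.tendsto_pow_atTop_nhds_zero_of_lt_one
          (show (2⁻¹ : ℝ≥0∞) < 1 from ENNReal.inv_lt_one.2 (by norm_num))
        filter_upwards [this.eventually_lt_const (pos_iff_ne_zero.2 hx)] with k hk _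
        exact hk.le
    obtain ⟨k, hk⟩ := h3.exists
    refine ⟨k, le_trans ?_ hF.le⟩
    have e : ∑' x : {x // x ∉ F}, p x = ∑' x, (if x ∉ F then p x else 0) := by
      have := tsum_subtype {x : K' | x ∉ F} p
      refine this.trans (tsum_congr fun x => ?_)
      by_cases hx : x ∈ F <;> simp [Set.indicator, hx]
    rw [e]
    refine ENNReal.tsum_le_tsum fun x => ?_
    by_cases hx : x ∈ F
    · by_cases ha : p x < (2⁻¹ : ℝ≥0∞) ^ k
      · have : p x = 0 := by
          by_contra hx0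
          exact absurd (hk x hx hx0) (not_le.2 ha)
        simp [this]
      · rw [if_neg ha]; exact bot_le
    · rw [if_pos hx]
      split_ifs
      · exact le_rfl
      · exact bot_le
  refine ⟨Nat.find hex, Nat.find_spec hex, ?_⟩
  rcases Nat.eq_zero_or_pos (Nat.find hex) with h0 | h0
  · right
    refine tsum_congr fun x => ?_
    rw [h0, if_pos]
    calc p x ≤ ∑' x, p x := ENNReal.le_tsum x
      _ ≤ 1 := hp
      _ ≤ 2 * (2⁻¹ : ℝ≥0∞) ^ 0 := by norm_num
  · left
    have := Nat.find_min hex (show Nat.find hex - 1 < Nat.find hex by omega)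
    refine (not_le.1 this).le.trans (ENNReal.tsum_le_tsum fun x => ?_)
    have e : (2⁻¹ : ℝ≥0∞) ^ (Nat.find hex - 1) = 2 * (2⁻¹ : ℝ≥0∞) ^ (Nat.find hex) := by
      obtain ⟨m, hm⟩ : ∃ m, Nat.find hex = m + 1 := ⟨Nat.find hex - 1, by omega⟩
      rw [hm, Nat.add_sub_cancel, pow_succ, mul_comm, mul_assoc,
        ENNReal.inv_mul_cancel (by norm_num) (by norm_num), mul_one]
    rw [e]
    by_cases ha : p x < 2 * (2⁻¹ : ℝ≥0∞) ^ (Nat.find hex)
    · rw [if_pos ha, if_pos ha.le]
    · rw [if_neg ha]; exact bot_le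

lemma level_card {K' : Type*} (p : K' → ℝ≥0∞) (hp : ∑' x, p x ≤ 1) (th : ℝ≥0∞) (hth : th ≠ 0) :
    ∃ hf : {x | th ≤ p x}.Finite, (hf.toFinset.card : ℝ≥0∞) ≤ 1 / th := by
  obtain ⟨hf, h⟩ := ENNReal.finset_card_const_le_le_of_tsum_le ENNReal.one_ne_top hp hth
  exact ⟨hf, h⟩

end Crest.Agent.R154.Comp804
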