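import Crest.Agent.R154.CompB_804

/-! Row 154, ROAD 801, composition (helper804), part C: two-stage splitting, one-sided window bound. -/

set_option autoImplicit false

namespace Crest.Agent.R154.Comp804

open scoped ENNReal
open Crest.Agent.R154.B5A

section one
variable {B : Type*} (Λ : B → ℝ≥0∞) (ht : B → ℕ)

open Classical in
lemma Usum (hU1 : ∀ n, U Λ ht n ≤ 1) (T : List B) (n : ℕ) (m : ℝ≥0∞) :
    ∑' R, LW Λ R * (if HT ht (T ++ R) = n then m else 0) ≤ m := by
  by_cases hT : HT ht T ≤ n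
  · calc ∑' R, LW Λ R * (if HT ht (T ++ R) = n then m else 0)
        = U Λ ht (n - HT ht T) * m := by
          rw [U, ← ENNReal.tsum_mul_right]
          refine tsum_congr fun R => ?_
          have e : (HT ht (T ++ R) = n) ↔ (HT ht R = n - HT ht T) := by rw [HT_append]; omega
          by_cases hR : HT ht R = n - HT ht T
          · rw [if_pos (e.2 hR), if_pos hR]
          · rw [if_neg (fun h => hR (e.1 h)), if_neg hR]; simp
      _ ≤ 1 * m := mul_le_mul_left (hU1 _) _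
      _ = m := one_mul _
  · have : ∀ R : List B, LW Λ R * (if HT ht (T ++ R) = n then m else 0) = 0 := fun R => by
      rw [if_neg (by rw [HT_append]; omega), mul_zero]
    simp [this]

open Classical in
lemma two_stage (h1 : ∀ b, 1 ≤ ht b) (hΛ : ∑' b, Λ b ≤ 1) (hU1 : ∀ n, U Λ ht n ≤ 1)
    (a c i n : ℕ) (hn : a + i + c ≤ n) (F : List B → ℝ≥0∞) (hF : ∀ L, F L ≤ 1)
    (Fh : List B → List B → ℝ≥0∞)
    (hFh : ∀ T P R, Stp ht T a → Stp ht P c → HT ht T ≤ a + i → HT ht P ≤ c + i →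
      HT ht (T ++ (P ++ R)) = n → F (T ++ (P ++ R)) ≤ Fh T P) :
    ∑' L, (if HT ht L = n then LW Λ L * F L else 0)
      ≤ SS Λ ht a (fun T => if HT ht T ≤ a + i then
          SS Λ ht c (fun P => if HT ht P ≤ c + i then Fh T P else 0) else 0)
        + 2 * ov Λ ht i := by
  have e1 : ∑' L, (if HT ht L = n then LW Λ L * F L else 0)
      = SS Λ ht a (fun T => ∑' R, LW Λ R * (if HT ht (T ++ R) = n then F (T ++ R) else 0)) := by
    rw [← split_all Λ ht h1 a (fun L => if HT ht L = n then F L else 0)]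
    refine tsum_congr fun L => ?_
    by_cases h : HT ht L = n
    · rw [if_pos h, if_pos (by omega), if_pos h]
    · rw [if_neg h, if_neg h]; simp
  rw [e1]
  have key : ∀ T, Stp ht T a → ∑' R, LW Λ R * (if HT ht (T ++ R) = n then F (T ++ R) else 0)
      ≤ ((if HT ht T ≤ a + i then
          SS Λ ht c (fun P => if HT ht P ≤ c + i then Fh T P else 0) else 0) + ov Λ ht i)
        + (if a + i < HT ht T then 1 else 0) := by
    intro T hT
    by_cases hTi : HT ht T ≤ a + i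
    · rw [if_pos hTi, if_neg (not_lt.2 hTi), add_zero]
      have e2 : ∑' R, LW Λ R * (if HT ht (T ++ R) = n then F (T ++ R) else 0)
          = SS Λ ht c (fun P => ∑' R, LW Λ R *
              (if HT ht (T ++ (P ++ R)) = n then F (T ++ (P ++ R)) else 0)) := by
        rw [← split_all Λ ht h1 c (fun R => if HT ht (T ++ R) = n then F (T ++ R) else 0)]
        refine tsum_congr fun R => ?_
        by_cases h : HT ht (T ++ R) = n
        · rw [if_pos h, if_pos (by rw [HT_append] at h; omega)]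
        · rw [if_neg h]; simp
      rw [e2]
      calc _ ≤ SS Λ ht c (fun P => (if HT ht P ≤ c + i then Fh T P else 0)
            + (if c + i < HT ht P then 1 else 0)) := by
            refine SS_mono _ _ _ fun P hP => ?_
            by_cases hPi : HT ht P ≤ c + i
            · rw [if_pos hPi, if_neg (not_lt.2 hPi), add_zero]
              refine le_trans (ENNReal.tsum_le_tsum fun R => ?_)
                (Usum Λ ht hU1 (T ++ P) n (Fh T P))
              refine mul_le_mul_right ?_ _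
              rw [List.append_assoc]
              split_ifs with h
              · exact hFh T P R hT hP hTi hPi h
              · exact le_rfl
            · rw [if_neg hPi, if_pos (not_le.1 hPi), zero_add]
              refine le_trans (ENNReal.tsum_le_tsum fun R => ?_)
                (Usum Λ ht hU1 (T ++ P) n 1)
              refine mul_le_mul_right ?_ _
              rw [List.append_assoc]
              split_ifs with h
              · exact hF _
              · exact le_rfl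
        _ = _ := SS_add _ _ _ _ _
        _ ≤ _ := add_le_add le_rfl (overshoot Λ ht h1 hU1 c i)
    · rw [if_neg hTi, if_pos (not_le.1 hTi), zero_add]
      refine le_trans ?_ le_add_self
      refine le_trans (ENNReal.tsum_le_tsum fun R => ?_) (Usum Λ ht hU1 T n 1)
      refine mul_le_mul_right ?_ _
      split_ifs with h
      · exact hF _
      · exact le_rfl
  refine (SS_mono _ _ _ key).trans ?_
  rw [SS_add, SS_add]
  calc _ ≤ SS Λ ht a (fun T => if HT ht T ≤ a + i then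
          SS Λ ht c (fun P => if HT ht P ≤ c + i then Fh T P else 0) else 0)
          + ov Λ ht i + ov Λ ht i :=
        add_le_add (add_le_add le_rfl
          (SS_le_const Λ ht h1 hΛ a _ _ fun _ _ => le_rfl)) (overshoot Λ ht h1 hU1 a i)
    _ = _ := by ring

end one

section two
variable {B1 B2 K : Type*} [AddCommGroup K]
variable (Λ1 : B1 → ℝ≥0∞) (ht1 : B1 → ℕ) (d1 : B1 → K)
variable (Λ2 : B2 → ℝ≥0∞) (ht2 : B2 → ℕ) (d2 : B2 → K)

lemma SS_comm (h h' : ℕ) (F : List B1 → List B2 → ℝ≥0∞) :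
    SS Λ1 ht1 h (fun P => SS Λ2 ht2 h' (fun T => F P T))
      = SS Λ2 ht2 h' (fun T => SS Λ1 ht1 h (fun P => F P T)) := by
  classical
  simp only [SS]
  have e1 : ∀ P : List B1, (if Stp ht1 P h then LW Λ1 P *
      ∑' T : List B2, (if Stp ht2 T h' then LW Λ2 T * F P T else 0) else 0)
      = ∑' T : List B2, (if Stp ht1 P h then (if Stp ht2 T h' then LW Λ1 P * (LW Λ2 T * F P T)
        else 0) else 0) := fun P => by
    by_cases hP : Stp ht1 P h
    · simp only [hP, if_true]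
      rw [← ENNReal.tsum_mul_left]
      refine tsum_congr fun T => ?_
      split_ifs <;> simp
    · simp [hP]
  have e2 : ∀ T : List B2, (if Stp ht2 T h' then LW Λ2 T *
      ∑' P : List B1, (if Stp ht1 P h then LW Λ1 P * F P T else 0) else 0)
      = ∑' P : List B1, (if Stp ht1 P h then (if Stp ht2 T h' then LW Λ1 P * (LW Λ2 T * F P T)
        else 0) else 0) := fun T => by
    by_cases hT : Stp ht2 T h'
    · simp only [hT, if_true]
      rw [← ENNReal.tsum_mul_left]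
      refine tsum_congr fun P => ?_
      split_ifs
      · ring
      · simp
    · simp [hT]
  simp_rw [e1, e2]
  rw [ENNReal.tsum_comm]

open Classical in
/-- the window functional -/
noncomputable def Psi (c1 c2 i0 : ℕ) (E : Finset K) (con : K → List B1 → List B2 → Prop) (z : K) :
    ℝ≥0∞ :=
  SS Λ1 ht1 c1 (fun P => if HT ht1 P ≤ c1 + i0 ∧ DL d1 P ∈ E then
    SS Λ2 ht2 c2 (fun P' => if HT ht2 P' ≤ c2 + i0 ∧ con z P P' then 1 else 0) else 0)

open Classical in
/-- **one-sided window bound**: walker 1 local -/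
lemma one_sided (h1 : ∀ b, 1 ≤ ht1 b) (h2 : ∀ b, 1 ≤ ht2 b)
    (hΛ1 : ∑' b, Λ1 b ≤ 1) (hΛ2 : ∑' b, Λ2 b ≤ 1)
    (hU1 : ∀ n, U Λ1 ht1 n ≤ 1) (hU2 : ∀ n, U Λ2 ht2 n ≤ 1)
    (lv1 : K → ℕ) (hlv1 : ∀ L : List B1, lv1 (DL d1 L) = HT ht1 L)
    (lv2 : K → ℕ) (hlv2 : ∀ L : List B2, lv2 (DL d2 L) = HT ht2 L)
    (a1 c1 a2 c2 i0 n : ℕ) (hn1 : a1 + i0 + c1 ≤ n) (hn2 : a2 + i0 + c2 ≤ n)
    (E : Finset K) (con : K → List B1 → List B2 → Prop) (F : List B1 → List B2 → Prop)
    (hF : ∀ T1 P1 R1 T2 P2 R2, Stp ht1 T1 a1 → Stp ht1 P1 c1 → HT ht1 T1 ≤ a1 + i0 →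
      HT ht1 P1 ≤ c1 + i0 → Stp ht2 T2 a2 → Stp ht2 P2 c2 → HT ht2 T2 ≤ a2 + i0 →
      HT ht2 P2 ≤ c2 + i0 → F (T1 ++ (P1 ++ R1)) (T2 ++ (P2 ++ R2)) →
      con (DL d1 T1 + DL d2 T2) P1 P2)
    (hFE : ∀ T1 P1 R1 L2, Stp ht1 T1 a1 → Stp ht1 P1 c1 → HT ht1 T1 ≤ a1 + i0 →
      HT ht1 P1 ≤ c1 + i0 → F (T1 ++ (P1 ++ R1)) L2 → DL d1 P1 ∈ E)
    (g b : K → ℝ≥0∞) (hQ : ∀ x, Q Λ1 ht1 d1 a1 x = g x + b x) (M : ℝ≥0∞) (hg : ∀ x, g x ≤ M)
    (Wb : ℝ≥0∞)
    (hW : ∀ D : K → ℝ≥0∞, (∀ z, D z ≤ M) → ∑' z, D z ≤ 1 →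
      (∀ z, D z ≠ 0 → ∃ x y, z = x + y ∧ (a1 ≤ lv1 x ∧ lv1 x ≤ a1 + i0) ∧
        (∃ L, x = DL d1 L) ∧ (∃ L, y = DL d2 L) ∧ (a2 ≤ lv2 y ∧ lv2 y ≤ a2 + i0)) →
      ∑' z, D z * Psi Λ1 ht1 d1 Λ2 ht2 c1 c2 i0 E con z ≤ Wb) :
    ∑' L1, (if HT ht1 L1 = n then LW Λ1 L1 * ∑' L2, (if HT ht2 L2 = n then
        LW Λ2 L2 * (if F L1 L2 then (1 : ℝ≥0∞) else 0) else 0) else 0)
      ≤ Wb + ∑' x, b x + 2 * ov Λ1 ht1 i0 + 2 * ov Λ2 ht2 i0 := by
  have hin : ∀ L1, ∑' L2, (if HT ht2 L2 = n then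
        LW Λ2 L2 * (if F L1 L2 then (1 : ℝ≥0∞) else 0) else 0) ≤ 1 := by
    intro L1
    refine le_trans (ENNReal.tsum_le_tsum fun L2 => ?_) (hU2 n)
    split_ifs
    · simp
    · simp
    · exact le_rfl
  set Ih : List B1 → List B1 → ℝ≥0∞ := fun T1 P1 => SS Λ2 ht2 a2 (fun T2 =>
      if HT ht2 T2 ≤ a2 + i0 then SS Λ2 ht2 c2 (fun P2 => if HT ht2 P2 ≤ c2 + i0 then
        (if con (DL d1 T1 + DL d2 T2) P1 P2 then 1 else 0) else 0) else 0) with hIh
  have hst := two_stage Λ1 ht1 h1 hΛ1 hU1 a1 c1 i0 n hn1 _ hin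
    (fun T1 P1 => if DL d1 P1 ∈ E then Ih T1 P1 + 2 * ov Λ2 ht2 i0 else 0) (by
      intro T1 P1 R1 hT1 hP1 hT1i hP1i _
      by_cases hE : DL d1 P1 ∈ E
      · rw [if_pos hE]
        refine two_stage Λ2 ht2 h2 hΛ2 hU2 a2 c2 i0 n hn2 _ (fun L => by split_ifs <;> simp) _ ?_
        intro T2 P2 R2 hT2 hP2 hT2i hP2i _
        split_ifs with hf hc
        · exact le_rfl
        · exact absurd (hF T1 P1 R1 T2 P2 R2 hT1 hP1 hT1i hP1i hT2 hP2 hT2i hP2i hf) hc
        · exact bot_le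
        · exact le_rfl
      · rw [if_neg hE]
        refine (ENNReal.tsum_eq_zero.2 fun L2 => ?_).le
        rw [if_neg (fun hf => hE (hFE T1 P1 R1 L2 hT1 hP1 hT1i hP1i hf))]
        simp)
  refine hst.trans ?_
  -- remove the constant
  have hA : SS Λ1 ht1 a1 (fun T => if HT ht1 T ≤ a1 + i0 then
          SS Λ1 ht1 c1 (fun P => if HT ht1 P ≤ c1 + i0 then
            (if DL d1 P ∈ E then Ih T P + 2 * ov Λ2 ht2 i0 else 0) else 0) else 0)
      ≤ SS Λ1 ht1 a1 (fun T => if HT ht1 T ≤ a1 + i0 then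
          SS Λ2 ht2 a2 (fun T2 => if HT ht2 T2 ≤ a2 + i0 then
            Psi Λ1 ht1 d1 Λ2 ht2 c1 c2 i0 E con (DL d1 T + DL d2 T2) else 0) else 0)
        + 2 * ov Λ2 ht2 i0 := by
    calc _ ≤ SS Λ1 ht1 a1 (fun T => (if HT ht1 T ≤ a1 + i0 then
          SS Λ2 ht2 a2 (fun T2 => if HT ht2 T2 ≤ a2 + i0 then
            Psi Λ1 ht1 d1 Λ2 ht2 c1 c2 i0 E con (DL d1 T + DL d2 T2) else 0) else 0)
          + 2 * ov Λ2 ht2 i0) := by
          refine SS_mono _ _ _ fun T hT => ?_
          by_cases hTi : HT ht1 T ≤ a1 + i0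
          · rw [if_pos hTi, if_pos hTi]
            calc SS Λ1 ht1 c1 (fun P => if HT ht1 P ≤ c1 + i0 then
                  (if DL d1 P ∈ E then Ih T P + 2 * ov Λ2 ht2 i0 else 0) else 0)
                ≤ SS Λ1 ht1 c1 (fun P => (if HT ht1 P ≤ c1 + i0 ∧ DL d1 P ∈ E then Ih T P else 0)
                    + 2 * ov Λ2 ht2 i0) := by
                  refine SS_mono _ _ _ fun P hP => ?_
                  by_cases hPi : HT ht1 P ≤ c1 + i0
                  · by_cases hE : DL d1 P ∈ E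
                    · rw [if_pos hPi, if_pos hE, if_pos ⟨hPi, hE⟩]
                    · rw [if_pos hPi, if_neg hE]; exact bot_le
                  · rw [if_neg hPi]; exact bot_le
              _ = SS Λ1 ht1 c1 (fun P => (if HT ht1 P ≤ c1 + i0 ∧ DL d1 P ∈ E then Ih T P else 0))
                    + SS Λ1 ht1 c1 (fun _ => 2 * ov Λ2 ht2 i0) := SS_add _ _ _ _ _
              _ ≤ SS Λ2 ht2 a2 (fun T2 => if HT ht2 T2 ≤ a2 + i0 then
                    Psi Λ1 ht1 d1 Λ2 ht2 c1 c2 i0 E con (DL d1 T + DL d2 T2) else 0)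
                    + 2 * ov Λ2 ht2 i0 := by
                  refine add_le_add ?_ (SS_le_const Λ1 ht1 h1 hΛ1 c1 _ _ fun _ _ => le_rfl)
                  have e1 : ∀ P, (if HT ht1 P ≤ c1 + i0 ∧ DL d1 P ∈ E then Ih T P else 0)
                      = SS Λ2 ht2 a2 (fun T2 => if HT ht1 P ≤ c1 + i0 ∧ DL d1 P ∈ E then
                        (if HT ht2 T2 ≤ a2 + i0 then SS Λ2 ht2 c2 (fun P2 =>
                        if HT ht2 P2 ≤ c2 + i0 then
                        (if con (DL d1 T + DL d2 T2) P P2 then 1 else 0) else 0) else 0)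
                        else 0) := by
                    intro P
                    by_cases hc : HT ht1 P ≤ c1 + i0 ∧ DL d1 P ∈ E
                    · simp only [if_pos hc, hIh]
                    · simp only [if_neg hc]
                      have := SS_mul Λ2 ht2 a2 0 (fun _ => 1)
                      simp only [zero_mul] at this
                      exact this.symm
                  rw [SS_congr Λ1 ht1 c1 (fun P _ => e1 P), SS_comm]
                  refine SS_mono _ _ _ fun T2 _ => ?_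
                  by_cases hT2 : HT ht2 T2 ≤ a2 + i0
                  · simp only [if_pos hT2]
                    rw [Psi]
                    refine SS_mono _ _ _ fun P _ => ?_
                    split_ifs with hc
                    · refine SS_mono _ _ _ fun P2 _ => ?_
                      split_ifs with h3 h4 h5 h5
                      · exact le_rfl
                      · exact absurd ⟨h3, h4⟩ h5
                      · exact bot_le
                      · exact bot_le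
                      · exact bot_le
                      · exact bot_le
                    · exact le_rfl
                  · simp only [if_neg hT2, ite_self]
                    have := SS_mul Λ1 ht1 c1 0 (fun _ => 1)
                    simp only [zero_mul] at this
                    rw [this]
          · rw [if_neg hTi]; exact bot_le
      _ = _ := SS_add _ _ _ _ _
      _ ≤ _ := add_le_add le_rfl (SS_le_const Λ1 ht1 h1 hΛ1 a1 _ _ fun _ _ => le_rfl)
  -- to laws
  set f1 : K → ℝ≥0∞ := fun x => if lv1 x ≤ a1 + i0 then 1 else 0 with hf1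
  set f2 : K → ℝ≥0∞ := fun y => if lv2 y ≤ a2 + i0 then 1 else 0 with hf2
  set Ps := Psi Λ1 ht1 d1 Λ2 ht2 c1 c2 i0 E con with hPs
  have hPs1 : ∀ z, Ps z ≤ 1 := by
    intro z
    refine SS_le_one Λ1 ht1 h1 hΛ1 c1 _ fun P => ?_
    split_ifs
    · exact SS_le_one Λ2 ht2 h2 hΛ2 c2 _ fun P' => by split_ifs <;> simp
    · exact bot_le
  have hlaw : SS Λ1 ht1 a1 (fun T => if HT ht1 T ≤ a1 + i0 then
          SS Λ2 ht2 a2 (fun T2 => if HT ht2 T2 ≤ a2 + i0 then
            Ps (DL d1 T + DL d2 T2) else 0) else 0)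
      = ∑' x, Q Λ1 ht1 d1 a1 x * (f1 x * ∑' y, Q Λ2 ht2 d2 a2 y * (f2 y * Ps (x + y))) := by
    rw [← SS_law Λ1 ht1 d1 a1 (fun x => f1 x * ∑' y, Q Λ2 ht2 d2 a2 y * (f2 y * Ps (x + y)))]
    refine SS_congr _ _ _ fun T _ => ?_
    rw [← SS_law Λ2 ht2 d2 a2 (fun y => f2 y * Ps (DL d1 T + y)), hf1]
    simp only [hlv1]
    split_ifs with hT
    · rw [one_mul]
      refine SS_congr _ _ _ fun T2 _ => ?_
      rw [hf2]; simp only [hlv2]
      split_ifs <;> simp
    · rw [zero_mul]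
  have hin1 : ∀ x, f1 x * ∑' y, Q Λ2 ht2 d2 a2 y * (f2 y * Ps (x + y)) ≤ 1 := by
    intro x
    have : ∑' y, Q Λ2 ht2 d2 a2 y * (f2 y * Ps (x + y)) ≤ 1 := by
      refine le_trans (ENNReal.tsum_le_tsum fun y => ?_) (Q_sum Λ2 ht2 d2 h2 hΛ2 a2)
      calc _ ≤ Q Λ2 ht2 d2 a2 y * (1 * 1) := by
            refine mul_le_mul_right (mul_le_mul' ?_ (hPs1 _)) _
            rw [hf2]; dsimp only; split_ifs <;> simp
        _ = _ := by simp
    refine (mul_le_mul' (?_ : f1 x ≤ 1) this).trans (one_mul 1).le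
    rw [hf1]; dsimp only; split_ifs <;> simp
  have hgQ : ∀ x, g x ≤ Q Λ1 ht1 d1 a1 x := fun x => by rw [hQ]; exact le_self_add
  set D : K → ℝ≥0∞ := fun z => ∑' x, g x * (f1 x * (Q Λ2 ht2 d2 a2 (z - x) * f2 (z - x))) with hD
  have hswap : ∑' x, g x * (f1 x * ∑' y, Q Λ2 ht2 d2 a2 y * (f2 y * Ps (x + y)))
      = ∑' z, D z * Ps z := by
    have e1 : ∀ x, g x * (f1 x * ∑' y, Q Λ2 ht2 d2 a2 y * (f2 y * Ps (x + y)))
        = ∑' z, g x * (f1 x * (Q Λ2 ht2 d2 a2 (z - x) * f2 (z - x))) * Ps z := by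
      intro x
      rw [← (Equiv.subRight x).tsum_eq (fun y => Q Λ2 ht2 d2 a2 y * (f2 y * Ps (x + y))),
        ← ENNReal.tsum_mul_left, ← ENNReal.tsum_mul_left]
      refine tsum_congr fun z => ?_
      simp only [Equiv.subRight_apply, add_sub_cancel]
      ring
    rw [tsum_congr e1, ENNReal.tsum_comm]
    refine tsum_congr fun z => ?_
    rw [ENNReal.tsum_mul_right]
  have hDM : ∀ z, D z ≤ M := by
    intro z
    calc D z ≤ ∑' x, M * Q Λ2 ht2 d2 a2 (z - x) := by
          refine ENNReal.tsum_le_tsum fun x => ?_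
          refine mul_le_mul' (hg x) ?_
          calc _ ≤ 1 * (Q Λ2 ht2 d2 a2 (z - x) * 1) := by
                refine mul_le_mul' ?_ (mul_le_mul_right ?_ _)
                · rw [hf1]; dsimp only; split_ifs <;> simp
                · rw [hf2]; dsimp only; split_ifs <;> simp
            _ = _ := by simp
      _ = M * ∑' x, Q Λ2 ht2 d2 a2 (z - x) := ENNReal.tsum_mul_left
      _ = M * ∑' x, Q Λ2 ht2 d2 a2 x := by
          have e : ∑' x, Q Λ2 ht2 d2 a2 (z - x) = ∑' x, Q Λ2 ht2 d2 a2 x :=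
            (Equiv.subLeft z).tsum_eq (Q Λ2 ht2 d2 a2)
          rw [e]
      _ ≤ M * 1 := mul_le_mul_right (Q_sum Λ2 ht2 d2 h2 hΛ2 a2) _
      _ = M := mul_one _
  have hDs : ∑' z, D z ≤ 1 := by
    rw [hD]
    simp only
    rw [ENNReal.tsum_comm]
    refine le_trans (ENNReal.tsum_le_tsum fun x => ?_) (Q_sum Λ1 ht1 d1 h1 hΛ1 a1)
    calc ∑' z, g x * (f1 x * (Q Λ2 ht2 d2 a2 (z - x) * f2 (z - x)))
        ≤ ∑' z, Q Λ1 ht1 d1 a1 x * Q Λ2 ht2 d2 a2 (z - x) := by
          refine ENNReal.tsum_le_tsum fun z => mul_le_mul' (hgQ x) ?_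
          calc _ ≤ 1 * (Q Λ2 ht2 d2 a2 (z - x) * 1) := by
                refine mul_le_mul' ?_ (mul_le_mul_right ?_ _)
                · rw [hf1]; dsimp only; split_ifs <;> simp
                · rw [hf2]; dsimp only; split_ifs <;> simp
            _ = _ := by simp
      _ = Q Λ1 ht1 d1 a1 x * ∑' z, Q Λ2 ht2 d2 a2 z := by
          have e : ∑' z, Q Λ2 ht2 d2 a2 (z - x) = ∑' z, Q Λ2 ht2 d2 a2 z :=
            (Equiv.subRight x).tsum_eq (Q Λ2 ht2 d2 a2)
          rw [ENNReal.tsum_mul_left, e]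
      _ ≤ Q Λ1 ht1 d1 a1 x * 1 := mul_le_mul_right (Q_sum Λ2 ht2 d2 h2 hΛ2 a2) _
      _ = _ := mul_one _
  have hDW := hW D hDM hDs (by
    intro z hz
    rw [hD] at hz
    simp only [ne_eq, ENNReal.tsum_eq_zero, not_forall] at hz
    obtain ⟨x, hx⟩ := hz
    have hgx : g x ≠ 0 := fun h => hx (by rw [h, zero_mul])
    have hf1x : f1 x ≠ 0 := fun h => hx (by rw [h]; simp)
    have hQ2 : Q Λ2 ht2 d2 a2 (z - x) ≠ 0 := fun h => hx (by rw [h]; simp)
    have hf2x : f2 (z - x) ≠ 0 := fun h => hx (by rw [h]; simp)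
    have hQ1 : Q Λ1 ht1 d1 a1 x ≠ 0 := fun h => hgx (le_antisymm ((hgQ x).trans h.le) bot_le)
    obtain ⟨L, hL, hLx⟩ : ∃ L, Stp ht1 L a1 ∧ DL d1 L = x := by
      by_contra hno
      refine hQ1 ?_
      rw [Q, SS]
      refine ENNReal.tsum_eq_zero.2 fun S => ?_
      by_cases hS : Stp ht1 S a1
      · rw [if_pos hS, if_neg (fun h => hno ⟨S, hS, h⟩), mul_zero]
      · rw [if_neg hS]
    obtain ⟨L', hL', hLx'⟩ : ∃ L, Stp ht2 L a2 ∧ DL d2 L = z - x := by
      by_contra hno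
      refine hQ2 ?_
      rw [Q, SS]
      refine ENNReal.tsum_eq_zero.2 fun S => ?_
      by_cases hS : Stp ht2 S a2
      · rw [if_pos hS, if_neg (fun h => hno ⟨S, hS, h⟩), mul_zero]
      · rw [if_neg hS]
    refine ⟨x, z - x, by abel, ⟨?_, ?_⟩, ⟨L, hLx.symm⟩, ⟨L', hLx'.symm⟩, ?_, ?_⟩
    · rw [← hLx, hlv1]; exact Stp_ht ht1 L a1 hL
    · by_contra h; exact hf1x (by rw [hf1]; dsimp only; rw [if_neg h])
    · rw [← hLx', hlv2]; exact Stp_ht ht2 L' a2 hL'
    · by_contra h; exact hf2x (by rw [hf2]; dsimp only; rw [if_neg h]))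
  have hmain : SS Λ1 ht1 a1 (fun T => if HT ht1 T ≤ a1 + i0 then
          SS Λ2 ht2 a2 (fun T2 => if HT ht2 T2 ≤ a2 + i0 then
            Ps (DL d1 T + DL d2 T2) else 0) else 0) ≤ Wb + ∑' x, b x := by
    rw [hlaw]
    calc _ = ∑' x, (g x * (f1 x * ∑' y, Q Λ2 ht2 d2 a2 y * (f2 y * Ps (x + y)))
          + b x * (f1 x * ∑' y, Q Λ2 ht2 d2 a2 y * (f2 y * Ps (x + y)))) := by
          refine tsum_congr fun x => ?_
          rw [hQ x, add_mul]
      _ = ∑' z, D z * Ps z + ∑' x, b x * (f1 x * ∑' y, Q Λ2 ht2 d2 a2 y * (f2 y * Ps (x + y))) := by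
          rw [ENNReal.tsum_add, hswap]
      _ ≤ Wb + ∑' x, b x := by
          refine add_le_add hDW (ENNReal.tsum_le_tsum fun x => ?_)
          calc _ ≤ b x * 1 := mul_le_mul_right (hin1 x) _
            _ = b x := mul_one _
  calc _ ≤ (Wb + ∑' x, b x) + 2 * ov Λ2 ht2 i0 + 2 * ov Λ1 ht1 i0 :=
        add_le_add (hA.trans (add_le_add hmain le_rfl)) le_rfl
    _ = _ := by ring

end two

end Crest.Agent.R154.Comp804
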