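import Crest.Agent.R154.CompC_804

/-! Row 154, ROAD 801, composition (helper804), part D: one window. -/

set_option autoImplicit false

namespace Crest.Agent.R154.Comp804

open scoped ENNReal
open Crest.Agent.R154.B5A

section two
variable {B1 B2 K : Type*} [AddCommGroup K]
variable (Λ1 : B1 → ℝ≥0∞) (ht1 : B1 → ℕ) (d1 : B1 → K)
variable (Λ2 : B2 → ℝ≥0∞) (ht2 : B2 → ℕ)

open Classical in
lemma Psi_le (c1 c2 i0 : ℕ) (E : Finset K) (con : K → List B1 → List B2 → Prop) (z : K) :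
    Psi Λ1 ht1 d1 Λ2 ht2 c1 c2 i0 E con z ≤ ∑ i ∈ Finset.range (i0 + 1),
      ∑ i' ∈ Finset.range (i0 + 1), ∑' P, ∑' P', (if HT ht1 P = c1 + i ∧ DL d1 P ∈ E ∧
        HT ht2 P' = c2 + i' ∧ con z P P' then LW Λ1 P * LW Λ2 P' else 0) := by
  have e1 : ∑ i ∈ Finset.range (i0 + 1),
      ∑ i' ∈ Finset.range (i0 + 1), ∑' P, ∑' P', (if HT ht1 P = c1 + i ∧ DL d1 P ∈ E ∧
        HT ht2 P' = c2 + i' ∧ con z P P' then LW Λ1 P * LW Λ2 P' else 0)
      = ∑' P, ∑' P', ∑ i ∈ Finset.range (i0 + 1), ∑ i' ∈ Finset.range (i0 + 1),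
        (if HT ht1 P = c1 + i ∧ DL d1 P ∈ E ∧
        HT ht2 P' = c2 + i' ∧ con z P P' then LW Λ1 P * LW Λ2 P' else 0) := by
    have e2 : ∀ i, ∑ i' ∈ Finset.range (i0 + 1), ∑' P, ∑' P', (if HT ht1 P = c1 + i ∧ DL d1 P ∈ E ∧
        HT ht2 P' = c2 + i' ∧ con z P P' then LW Λ1 P * LW Λ2 P' else 0)
        = ∑' P, ∑' P', ∑ i' ∈ Finset.range (i0 + 1), (if HT ht1 P = c1 + i ∧ DL d1 P ∈ E ∧
        HT ht2 P' = c2 + i' ∧ con z P P' then LW Λ1 P * LW Λ2 P' else 0) := fun i => by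
      rw [← Summable.tsum_finsetSum (fun _ _ => ENNReal.summable)]
      refine tsum_congr fun P => ?_
      rw [← Summable.tsum_finsetSum (fun _ _ => ENNReal.summable)]
    rw [Finset.sum_congr rfl (fun i _ => e2 i), ← Summable.tsum_finsetSum (fun _ _ => ENNReal.summable)]
    refine tsum_congr fun P => ?_
    rw [← Summable.tsum_finsetSum (fun _ _ => ENNReal.summable)]
  rw [e1, Psi, SS]
  refine ENNReal.tsum_le_tsum fun P => ?_
  by_cases hP : Stp ht1 P c1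
  swap
  · rw [if_neg hP]; exact bot_le
  rw [if_pos hP]
  by_cases hPc : HT ht1 P ≤ c1 + i0 ∧ DL d1 P ∈ E
  swap
  · rw [if_neg hPc, mul_zero]; exact bot_le
  rw [if_pos hPc, SS, ← ENNReal.tsum_mul_left]
  refine ENNReal.tsum_le_tsum fun P' => ?_
  by_cases hP' : Stp ht2 P' c2
  swap
  · rw [if_neg hP', mul_zero]; exact bot_le
  rw [if_pos hP']
  by_cases hPc' : HT ht2 P' ≤ c2 + i0 ∧ con z P P'
  swap
  · rw [if_neg hPc', mul_zero, mul_zero]; exact bot_le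
  rw [if_pos hPc', mul_one]
  have k1 := Stp_ht ht1 P c1 hP
  have k2 := Stp_ht ht2 P' c2 hP'
  have hi : HT ht1 P - c1 ∈ Finset.range (i0 + 1) := Finset.mem_range.2 (by omega)
  have hi' : HT ht2 P' - c2 ∈ Finset.range (i0 + 1) := Finset.mem_range.2 (by omega)
  refine le_trans ?_ (Finset.single_le_sum (f := fun i => ∑ i' ∈ Finset.range (i0 + 1),
        (if HT ht1 P = c1 + i ∧ DL d1 P ∈ E ∧
        HT ht2 P' = c2 + i' ∧ con z P P' then LW Λ1 P * LW Λ2 P' else 0))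
        (fun _ _ => bot_le) hi)
  refine le_trans ?_ (Finset.single_le_sum (f := fun i' =>
        (if HT ht1 P = c1 + (HT ht1 P - c1) ∧ DL d1 P ∈ E ∧
        HT ht2 P' = c2 + i' ∧ con z P P' then LW Λ1 P * LW Λ2 P' else 0))
        (fun _ _ => bot_le) hi')
  rw [if_pos ⟨by omega, hPc.2, by omega, hPc'.2⟩]

open Classical in
lemma hW_of (c1 c2 i0 : ℕ) (E : Finset K) (con : K → List B1 → List B2 → Prop) (lvz : K → ℤ)
    (lo : ℤ) (N : ℕ) (B0 M : ℝ≥0∞)
    (hB : ∀ i ≤ i0, ∀ i' ≤ i0, ∀ l0 : ℤ, lo ≤ l0 → l0 < lo + N → ∀ D : K → ℝ≥0∞,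
      (∀ z, D z ≤ M) → ∑' z, D z ≤ 1 → (∀ z, D z ≠ 0 → lvz z = l0) →
      ∑' z, D z * ∑' P, ∑' P', (if HT ht1 P = c1 + i ∧ DL d1 P ∈ E ∧
        HT ht2 P' = c2 + i' ∧ con z P P' then LW Λ1 P * LW Λ2 P' else 0) ≤ B0)
    (D : K → ℝ≥0∞) (hDM : ∀ z, D z ≤ M) (hDs : ∑' z, D z ≤ 1)
    (hsup : ∀ z, D z ≠ 0 → lo ≤ lvz z ∧ lvz z < lo + N) :
    ∑' z, D z * Psi Λ1 ht1 d1 Λ2 ht2 c1 c2 i0 E con z
      ≤ N * ((i0 + 1 : ℕ) * ((i0 + 1 : ℕ) * B0)) := by
  set Gf : ℕ → ℕ → K → ℝ≥0∞ := fun i i' z => ∑' P, ∑' P', (if HT ht1 P = c1 + i ∧ DL d1 P ∈ E ∧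
        HT ht2 P' = c2 + i' ∧ con z P P' then LW Λ1 P * LW Λ2 P' else 0) with hGf
  have e1 : ∀ z, D z * Psi Λ1 ht1 d1 Λ2 ht2 c1 c2 i0 E con z
      ≤ ∑ l ∈ Finset.range N, ∑ i ∈ Finset.range (i0 + 1), ∑ i' ∈ Finset.range (i0 + 1),
        (if lvz z = lo + l then D z else 0) * Gf i i' z := by
    intro z
    by_cases hz : D z = 0
    · rw [hz, zero_mul]; exact bot_le
    · obtain ⟨k1, k2⟩ := hsup z hz
      have hl : (lvz z - lo).toNat ∈ Finset.range N := Finset.mem_range.2 (by omega)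
      refine le_trans ?_ (Finset.single_le_sum (f := fun l : ℕ => ∑ i ∈ Finset.range (i0 + 1),
        ∑ i' ∈ Finset.range (i0 + 1),
        (if lvz z = lo + l then D z else 0) * Gf i i' z) (fun _ _ => bot_le) hl)
      rw [if_pos (by omega)]
      refine (mul_le_mul_right (Psi_le Λ1 ht1 d1 Λ2 ht2 c1 c2 i0 E con z) _).trans ?_
      rw [Finset.mul_sum]
      refine Finset.sum_le_sum fun i _ => ?_
      rw [Finset.mul_sum]
  refine (ENNReal.tsum_le_tsum e1).trans ?_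
  rw [Summable.tsum_finsetSum (fun _ _ => ENNReal.summable)]
  have e2 : ∀ l ∈ Finset.range N, ∑' z, ∑ i ∈ Finset.range (i0 + 1),
      ∑ i' ∈ Finset.range (i0 + 1), (if lvz z = lo + l then D z else 0) * Gf i i' z
      ≤ (i0 + 1 : ℕ) * ((i0 + 1 : ℕ) * B0) := by
    intro l hl
    rw [Summable.tsum_finsetSum (fun _ _ => ENNReal.summable)]
    calc _ ≤ ∑ i ∈ Finset.range (i0 + 1), ((i0 + 1 : ℕ) * B0) := by
          refine Finset.sum_le_sum fun i hi => ?_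
          rw [Summable.tsum_finsetSum (fun _ _ => ENNReal.summable)]
          calc _ ≤ ∑ i' ∈ Finset.range (i0 + 1), B0 := by
                refine Finset.sum_le_sum fun i' hi' => ?_
                refine hB i (by have := Finset.mem_range.1 hi; omega) i'
                  (by have := Finset.mem_range.1 hi'; omega) (lo + l) (by omega)
                  (by have := Finset.mem_range.1 hl; omega) _ (fun z => ?_) ?_ (fun z hz => ?_)
                · split_ifs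
                  · exact hDM z
                  · exact bot_le
                · refine le_trans (ENNReal.tsum_le_tsum fun z => ?_) hDs
                  split_ifs
                  · exact le_rfl
                  · exact bot_le
                · by_contra h; exact hz (if_neg h)
            _ = _ := by rw [Finset.sum_const, Finset.card_range, nsmul_eq_mul]
      _ = _ := by rw [Finset.sum_const, Finset.card_range, nsmul_eq_mul]
  calc _ ≤ ∑ l ∈ Finset.range N, ((i0 + 1 : ℕ) * ((i0 + 1 : ℕ) * B0) : ℝ≥0∞) :=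
        Finset.sum_le_sum e2
    _ = _ := by rw [Finset.sum_const, Finset.card_range, nsmul_eq_mul]

end two

/-- geometry of the two block lists -/
structure Geo {BX BY K : Type*} [AddCommGroup K] (htX : BX → ℕ) (dX : BX → K) (htY : BY → ℕ)
    (dY : BY → K) (lv : K →+ ℤ) (XS : List BX → Set K) (YS : List BY → Set K) : Prop where
  X1 : ∀ b, 1 ≤ htX b
  Y1 : ∀ b, 1 ≤ htY b
  Xlv : ∀ L, lv (DL dX L) = HT htX L
  Ylv : ∀ L, lv (DL dY L) = -(HT htY L : ℤ)
  XSlev : ∀ L y, y ∈ XS L → -(HT htX L : ℤ) ≤ lv y ∧ lv y ≤ -1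
  YSlev : ∀ L y, y ∈ YS L → -(HT htY L : ℤ) < lv y ∧ lv y ≤ 0
  XSapp : ∀ T R y, y ∈ XS (T ++ R) ↔ (y ∈ XS T ∨ y + DL dX T ∈ XS R)
  YSapp : ∀ T R y, y ∈ YS (T ++ R) ↔ (y ∈ YS T ∨ y - DL dY T ∈ YS R)

section win
variable {BX BY K : Type*} [AddCommGroup K]
variable (ΛX : BX → ℝ≥0∞) (htX : BX → ℕ) (dX : BX → K)
variable (ΛY : BY → ℝ≥0∞) (htY : BY → ℕ) (dY : BY → K)
variable (lv : K →+ ℤ) (XS : List BX → Set K) (YS : List BY → Set K)

/-- the piece after height `H`, of height `≥ c`, ends in `E` -/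
def Loc {B : Type*} (ht : B → ℕ) (ds : B → K) (H c i0 : ℕ) (E : Finset K) (L : List B) : Prop :=
  ∀ T P R, L = T ++ (P ++ R) → Stp ht T H → Stp ht P c → HT ht T ≤ H + i0 → HT ht P ≤ c + i0 →
    DL ds P ∈ E

/-- first contact at depth in `(H + t, H + 2t]` -/
def Cw (H t : ℕ) (w : K) (LX : List BX) (LY : List BY) : Prop :=
  (∀ y ∈ XS LX, y - w ∈ YS LY → lv y < -((H + t : ℕ) : ℤ)) ∧
    ∃ y ∈ XS LX, y - w ∈ YS LY ∧ -((H + 2 * t : ℕ) : ℤ) ≤ lv y

/-- contact in a slab -/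
def Slab (l r : ℕ) (w : K) (LX : List BX) (LY : List BY) : Prop :=
  ∃ y ∈ XS LX, y - w ∈ YS LY ∧ (l : ℤ) < -lv y ∧ -lv y ≤ ((l + r : ℕ) : ℤ)

/-- X local and first contact in the window -/
def FX (H t i0 : ℕ) (E : Finset K) (w : K) (LX : List BX) (LY : List BY) : Prop :=
  Loc htX dX H (3 * t) i0 E LX ∧ Cw lv XS YS H t w LX LY

/-- Y local and first contact in the window, no contact in the slab -/
def FY (H t i0 s : ℕ) (E : Finset K) (w : K) (LY : List BY) (LX : List BX) : Prop :=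
  Loc htY dY H (3 * t) i0 E LY ∧ Cw lv XS YS H t w LX LY ∧
    ¬ Slab lv XS YS (H + 2 * t - s) (2 * i0 + s) w LX LY

open Classical in
/-- hypothesis: window lemma, X local -/
def HW2 (C : ℝ≥0∞) (us : ℕ → ℝ≥0∞) : Prop :=
  ∀ (h h' s : ℕ) (l0 : ℤ) (E : Finset K) (D : K → ℝ≥0∞) (M lam : ℝ≥0∞), (∀ z, D z ≤ M) →
    ∑' z, D z ≤ 1 → (∀ z, D z ≠ 0 → lv z = l0) → l0 ≤ -1 → lam ≠ 0 → lam ≠ ⊤ →
    ∑' z, D z * ∑' P, ∑' P', (if HT htX P = h ∧ DL dX P ∈ E ∧ HT htY P' = h' ∧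
      ((∃ y ∈ XS P, y - z ∈ YS P') ∧ (∀ y ∈ XS P, y - z ∈ YS P' → lv y + s ≤ lv z))
      then LW ΛX P * LW ΛY P' else 0) ≤ C * (lam + M * E.card * us s / lam + us s)

open Classical in
/-- hypothesis: window lemma, Y local -/
def HW3 (C : ℝ≥0∞) (us : ℕ → ℝ≥0∞) : Prop :=
  ∀ (h h' s : ℕ) (l0 : ℤ) (E : Finset K) (D : K → ℝ≥0∞) (M lam : ℝ≥0∞), (∀ z, D z ≤ M) →
    ∑' z, D z ≤ 1 → (∀ z, D z ≠ 0 → lv z = l0) → l0 + h < h' → lam ≠ 0 → lam ≠ ⊤ →
    ∑' z, D z * ∑' P', ∑' P, (if HT htY P' = h' ∧ DL dY P' ∈ E ∧ HT htX P = h ∧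
      ((∃ y ∈ XS P, y - z ∈ YS P') ∧ (∀ y ∈ XS P, y - z ∈ YS P' → -(HT htX P : ℤ) + s ≤ lv y))
      then LW ΛY P' * LW ΛX P else 0) ≤ C * (lam + M * E.card * us s / lam + us s)

open Classical in
lemma partX (G : Geo htX dX htY dY lv XS YS) (hΛX : ∑' b, ΛX b ≤ 1) (hΛY : ∑' b, ΛY b ≤ 1)
    (hUX : ∀ n, U ΛX htX n ≤ 1) (hUY : ∀ n, U ΛY htY n ≤ 1) (C : ℝ≥0∞) (us : ℕ → ℝ≥0∞)
    (hW2 : HW2 ΛX htX dX ΛY htY lv XS YS C us)
    (H t i0 s n : ℕ) (hts : 2 * i0 + s ≤ t) (hn : H + 3 * t + 2 * i0 ≤ n)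
    (E : Finset K) (w : K) (hw : lv w = -1)
    (g b : K → ℝ≥0∞) (hQ : ∀ x, Q ΛX htX dX H x = g x + b x) (M : ℝ≥0∞) (hg : ∀ x, g x ≤ M)
    (lam : ℝ≥0∞) (hl : lam ≠ 0) (hl' : lam ≠ ⊤) :
    ∑' LX, (if HT htX LX = n then LW ΛX LX * ∑' LY, (if HT htY LY = n then
        LW ΛY LY * (if FX htX dX lv XS YS H t i0 E w LX LY then (1 : ℝ≥0∞)
          else 0) else 0) else 0)
      ≤ ((2 * i0 + 1 : ℕ) * ((i0 + 1 : ℕ) * ((i0 + 1 : ℕ) *
        (C * (lam + M * E.card * us s / lam + us s)))))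
        + ∑' x, b x + 2 * ov ΛX htX i0 + 2 * ov ΛY htY i0 := by
  refine one_sided ΛX htX dX ΛY htY dY G.X1 G.Y1 hΛX hΛY hUX hUY
    (fun x => (lv x).toNat) (fun L => by rw [G.Xlv]; simp)
    (fun x => (-lv x).toNat) (fun L => by rw [G.Ylv]; simp)
    H (3 * t) (H + i0) (2 * t) i0 n (by omega) (by omega) E
    (fun z P P' => (∃ y ∈ XS P, y - (w + z) ∈ YS P') ∧
      (∀ y ∈ XS P, y - (w + z) ∈ YS P' → lv y + s ≤ lv (w + z)))
    (fun LX LY => FX htX dX lv XS YS H t i0 E w LX LY)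
    ?_ ?_ g b hQ M hg _ ?_
  · intro T1 P1 R1 T2 P2 R2 hT1 hP1 hT1i hP1i hT2 hP2 hT2i hP2i hf
    obtain ⟨-, hC1, y, hyX, hyY, hyl⟩ := hf
    have k1 := Stp_ht htX T1 H hT1
    have k2 := Stp_ht htX P1 _ hP1
    have k3 := Stp_ht htY T2 _ hT2
    have k4 := Stp_ht htY P2 _ hP2
    have hlt := hC1 y hyX hyY
    have l1 := G.Xlv T1
    have l2 := G.Xlv P1
    have l3 := G.Ylv T2
    have l4 := G.Ylv P2
    refine ⟨⟨y + DL dX T1, ?_, ?_⟩, ?_⟩
    · rcases (G.XSapp _ _ _).1 hyX with h | h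
      · have := (G.XSlev _ _ h).1
        exfalso; push_cast at hlt; omega
      · rcases (G.XSapp _ _ _).1 h with h | h
        · exact h
        · have := (G.XSlev _ _ h).2
          rw [map_add, map_add, l1, l2] at this
          exfalso; push_cast at hyl; omega
    · rcases (G.YSapp _ _ _).1 hyY with h | h
      · have := (G.YSlev _ _ h).1
        rw [map_sub, hw] at this
        exfalso; push_cast at hlt; omega
      · rcases (G.YSapp _ _ _).1 h with h | h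
        · have e : y + DL dX T1 - (w + (DL dX T1 + DL dY T2)) = y - w - DL dY T2 := by abel
          rw [e]; exact h
        · have := (G.YSlev _ _ h).2
          rw [map_sub, map_sub, map_sub, hw, l3, l4] at this
          exfalso; push_cast at hyl; omega
    · intro y' hy' hyY'
      have e : y' - DL dX T1 + DL dX T1 = y' := by abel
      have m1 : y' - DL dX T1 ∈ XS (T1 ++ (P1 ++ R1)) := by
        rw [G.XSapp, G.XSapp, e]; exact Or.inr (Or.inl hy')
      have m2 : y' - DL dX T1 - w ∈ YS (T2 ++ (P2 ++ R2)) := by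
        rw [G.YSapp, G.YSapp]
        have e2 : y' - (w + (DL dX T1 + DL dY T2)) = y' - DL dX T1 - w - DL dY T2 := by abel
        rw [e2] at hyY'
        exact Or.inr (Or.inl hyY')
      have := hC1 _ m1 m2
      rw [map_sub, l1] at this
      rw [map_add, map_add, hw, l1, l3]
      push_cast at this
      omega
  · intro T1 P1 R1 L2 hT1 hP1 hT1i hP1i hf
    exact hf.1 T1 P1 R1 rfl hT1 hP1 hT1i hP1i
  · intro D hDM hDs hsup
    refine hW_of ΛX htX dX ΛY htY (3 * t) (2 * t) i0 E _ (fun z => lv (w + z)) (-1 - 2 * i0)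
      (2 * i0 + 1) _ M ?_ D hDM hDs ?_
    · intro i hi i' hi' l0 hl0 hl0' D' hD'M hD's hD'l
      have := hW2 (3 * t + i) (2 * t + i') s l0 E (fun z => D' (z - w)) M lam
        (fun z => hD'M _) (by
          have e : ∑' z, D' (z - w) = ∑' z, D' z := (Equiv.subRight w).tsum_eq D'
          rw [e]; exact hD's) (fun z hz => by
          have := hD'l _ hz
          rw [← this]; congr 1; abel) (by push_cast at hl0'; omega) hl hl'
      refine le_trans (le_of_eq ?_) this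
      rw [← (Equiv.subRight w).tsum_eq (fun z => D' z * _)]
      refine tsum_congr fun z => ?_
      simp only [Equiv.subRight_apply]
      congr 1
      refine tsum_congr fun P => tsum_congr fun P' => ?_
      have e : w + (z - w) = z := by abel
      rw [e]
    · intro z hz
      obtain ⟨x, y, hxy, ⟨hx1, hx2⟩, ⟨L, hL⟩, ⟨L', hL'⟩, hy1, hy2⟩ := hsup z hz
      have l1 := G.Xlv L
      have l2 := G.Ylv L'
      rw [← hL] at l1
      rw [← hL'] at l2
      simp only [map_add, hxy, hw]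
      rw [l1] at hx1 hx2 ⊢
      rw [l2] at hy1 hy2 ⊢
      push_cast
      simp only [Int.toNat_natCast, neg_neg] at hx1 hx2 hy1 hy2
      omega

open Classical in
lemma partY (G : Geo htX dX htY dY lv XS YS) (hΛX : ∑' b, ΛX b ≤ 1) (hΛY : ∑' b, ΛY b ≤ 1)
    (hUX : ∀ n, U ΛX htX n ≤ 1) (hUY : ∀ n, U ΛY htY n ≤ 1) (C : ℝ≥0∞) (us : ℕ → ℝ≥0∞)
    (hW3 : HW3 ΛX htX ΛY htY dY lv XS YS C us)
    (H t i0 s n : ℕ) (hts : 2 * i0 + s ≤ t) (hn : H + 3 * t + 2 * i0 ≤ n)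
    (E : Finset K) (w : K) (hw : lv w = -1)
    (g b : K → ℝ≥0∞) (hQ : ∀ x, Q ΛY htY dY H x = g x + b x) (M : ℝ≥0∞) (hg : ∀ x, g x ≤ M)
    (lam : ℝ≥0∞) (hl : lam ≠ 0) (hl' : lam ≠ ⊤) :
    ∑' LY, (if HT htY LY = n then LW ΛY LY * ∑' LX, (if HT htX LX = n then
        LW ΛX LX * (if FY htY dY lv XS YS H t i0 s E w LY LX then (1 : ℝ≥0∞)
          else 0) else 0) else 0)
      ≤ ((2 * i0 + 1 : ℕ) * ((i0 + 1 : ℕ) * ((i0 + 1 : ℕ) *
        (C * (lam + M * E.card * us s / lam + us s)))))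
        + ∑' x, b x + 2 * ov ΛY htY i0 + 2 * ov ΛX htX i0 := by
  refine one_sided ΛY htY dY ΛX htX dX G.Y1 G.X1 hΛY hΛX hUY hUX
    (fun x => (-lv x).toNat) (fun L => by rw [G.Ylv]; simp)
    (fun x => (lv x).toNat) (fun L => by rw [G.Xlv]; simp)
    H (3 * t) H (2 * t) i0 n (by omega) (by omega) E
    (fun z P' P => (∃ y ∈ XS P, y - (w + z) ∈ YS P') ∧
      (∀ y ∈ XS P, y - (w + z) ∈ YS P' → -(HT htX P : ℤ) + s ≤ lv y))
    (fun LY LX => FY htY dY lv XS YS H t i0 s E w LY LX)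
    ?_ ?_ g b hQ M hg _ ?_
  · intro T2 P2 R2 T1 P1 R1 hT2 hP2 hT2i hP2i hT1 hP1 hT1i hP1i hf
    obtain ⟨-, ⟨hC1, y, hyX, hyY, hyl⟩, hS⟩ := hf
    have k1 := Stp_ht htX T1 H hT1
    have k2 := Stp_ht htX P1 _ hP1
    have k3 := Stp_ht htY T2 _ hT2
    have k4 := Stp_ht htY P2 _ hP2
    have hlt := hC1 y hyX hyY
    have l1 := G.Xlv T1
    have l2 := G.Xlv P1
    have l3 := G.Ylv T2
    have l4 := G.Ylv P2
    refine ⟨⟨y + DL dX T1, ?_, ?_⟩, ?_⟩
    · rcases (G.XSapp _ _ _).1 hyX with h | h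
      · have := (G.XSlev _ _ h).1
        exfalso; push_cast at hlt; omega
      · rcases (G.XSapp _ _ _).1 h with h | h
        · exact h
        · have := (G.XSlev _ _ h).2
          rw [map_add, map_add, l1, l2] at this
          exfalso; push_cast at hyl; omega
    · rcases (G.YSapp _ _ _).1 hyY with h | h
      · have := (G.YSlev _ _ h).1
        rw [map_sub, hw] at this
        exfalso; push_cast at hlt; omega
      · rcases (G.YSapp _ _ _).1 h with h | h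
        · have e : y + DL dX T1 - (w + (DL dY T2 + DL dX T1)) = y - w - DL dY T2 := by abel
          rw [e]; exact h
        · have := (G.YSlev _ _ h).2
          rw [map_sub, map_sub, map_sub, hw, l3, l4] at this
          exfalso; push_cast at hyl; omega
    · intro y' hy' hyY'
      have e : y' - DL dX T1 + DL dX T1 = y' := by abel
      have m1 : y' - DL dX T1 ∈ XS (T1 ++ (P1 ++ R1)) := by
        rw [G.XSapp, G.XSapp, e]; exact Or.inr (Or.inl hy')
      have m2 : y' - DL dX T1 - w ∈ YS (T2 ++ (P2 ++ R2)) := by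
        rw [G.YSapp, G.YSapp]
        have e2 : y' - (w + (DL dY T2 + DL dX T1)) = y' - DL dX T1 - w - DL dY T2 := by abel
        rw [e2] at hyY'
        exact Or.inr (Or.inl hyY')
      have hb := (G.XSlev _ _ hy').1
      by_contra hno
      refine hS ⟨_, m1, m2, ?_, ?_⟩
      · rw [map_sub, l1]; omega
      · rw [map_sub, l1]; omega
  · intro T1 P1 R1 L2 hT1 hP1 hT1i hP1i hf
    exact hf.1 T1 P1 R1 rfl hT1 hP1 hT1i hP1i
  · intro D hDM hDs hsup
    refine hW_of ΛY htY dY ΛX htX (3 * t) (2 * t) i0 E _ (fun z => lv (w + z)) (-1 - i0)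
      (2 * i0 + 1) _ M ?_ D hDM hDs ?_
    · intro i hi i' hi' l0 hl0 hl0' D' hD'M hD's hD'l
      have := hW3 (2 * t + i') (3 * t + i) s l0 E (fun z => D' (z - w)) M lam
        (fun z => hD'M _) (by
          have e : ∑' z, D' (z - w) = ∑' z, D' z := (Equiv.subRight w).tsum_eq D'
          rw [e]; exact hD's) (fun z hz => by
          have := hD'l _ hz
          rw [← this]; congr 1; abel) (by push_cast at hl0' ⊢; omega) hl hl'
      refine le_trans (le_of_eq ?_) this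
      rw [← (Equiv.subRight w).tsum_eq (fun z => D' z * _)]
      refine tsum_congr fun z => ?_
      simp only [Equiv.subRight_apply]
      congr 1
      refine tsum_congr fun P => tsum_congr fun P' => ?_
      have e : w + (z - w) = z := by abel
      rw [e]
    · intro z hz
      obtain ⟨x, y, hxy, ⟨hx1, hx2⟩, ⟨L, hL⟩, ⟨L', hL'⟩, hy1, hy2⟩ := hsup z hz
      have l1 := G.Ylv L
      have l2 := G.Xlv L'
      rw [← hL] at l1
      rw [← hL'] at l2
      simp only [map_add, hxy, hw]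
      rw [l1] at hx1 hx2 ⊢
      rw [l2] at hy1 hy2 ⊢
      push_cast
      simp only [Int.toNat_natCast, neg_neg] at hx1 hx2 hy1 hy2
      omega

open Classical in
lemma nonloc {B : Type*} (Λ : B → ℝ≥0∞) (ht : B → ℕ) (ds : B → K) (h1 : ∀ b, 1 ≤ ht b)
    (hΛ : ∑' b, Λ b ≤ 1) (hU1 : ∀ n, U Λ ht n ≤ 1) (lvn : K → ℕ)
    (hlv : ∀ L : List B, lvn (DL ds L) = HT ht L) (H c i0 n : ℕ) (hn : H + i0 + c ≤ n)
    (E : Finset K) (ν : ℝ≥0∞)
    (hν : ∑' x, (if lvn x ≤ c + i0 ∧ x ∉ E then Q Λ ht ds c x else 0) ≤ ν) :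
    ∑' L, (if HT ht L = n then LW Λ L * (if ¬ Loc ht ds H c i0 E L then (1 : ℝ≥0∞) else 0) else 0)
      ≤ ν + 2 * ov Λ ht i0 := by
  refine (two_stage Λ ht h1 hΛ hU1 H c i0 n hn _ (fun L => by split_ifs <;> simp)
    (fun _ P => if DL ds P ∉ E then 1 else 0) ?_).trans (add_le_add ?_ le_rfl)
  · intro T P R hT hP hTi hPi _
    by_cases hE : DL ds P ∈ E
    · rw [if_neg (not_not.2 ?_)]
      · exact bot_le
      · intro T' P' R' he hT' hP' _ _
        obtain ⟨-, h2⟩ := Stp_unique ht T T' _ _ H hT hT' he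
        obtain ⟨h3, -⟩ := Stp_unique ht P P' _ _ c hP hP' h2
        rw [← h3]; exact hE
    · rw [if_pos hE]
      split_ifs <;> simp
  · refine SS_le_const Λ ht h1 hΛ H _ _ fun T _ => ?_
    split_ifs
    · refine le_trans (le_of_eq ?_) hν
      have := SS_law Λ ht ds c (fun x => if lvn x ≤ c + i0 ∧ x ∉ E then (1 : ℝ≥0∞) else 0)
      refine Eq.trans ?_ (this.trans ?_)
      · refine SS_congr _ _ _ fun P _ => ?_
        simp only [hlv]
        by_cases ha : HT ht P ≤ c + i0 <;> by_cases hb : DL ds P ∈ E <;> simp [ha, hb]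
      · refine tsum_congr fun x => ?_
        split_ifs <;> simp
    · exact bot_le

/-- slab hypothesis -/
def HSL (η : ℝ≥0∞) (l r n : ℕ) : Prop := ∀ w : K, lv w = -1 →
  ∑' LX, ∑' LY, (open Classical in if HT htX LX = n ∧ HT htY LY = n ∧ Slab lv XS YS l r w LX LY
    then LW ΛX LX * LW ΛY LY else 0) ≤ η

open Classical in
/-- **one window** -/
lemma one_window (G : Geo htX dX htY dY lv XS YS) (hΛX : ∑' b, ΛX b ≤ 1) (hΛY : ∑' b, ΛY b ≤ 1)
    (hUX : ∀ n, U ΛX htX n ≤ 1) (hUY : ∀ n, U ΛY htY n ≤ 1) (C : ℝ≥0∞) (us : ℕ → ℝ≥0∞)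
    (hW2 : HW2 ΛX htX dX ΛY htY lv XS YS C us) (hW3 : HW3 ΛX htX ΛY htY dY lv XS YS C us)
    (H t i0 s n : ℕ) (hts : 2 * i0 + s ≤ t) (hn : H + 3 * t + 2 * i0 ≤ n)
    (EX EY : Finset K) (w : K) (hw : lv w = -1)
    (gX bX : K → ℝ≥0∞) (hQX : ∀ x, Q ΛX htX dX H x = gX x + bX x) (gY bY : K → ℝ≥0∞)
    (hQY : ∀ x, Q ΛY htY dY H x = gY x + bY x) (MX MY : ℝ≥0∞) (hgX : ∀ x, gX x ≤ MX)
    (hgY : ∀ x, gY x ≤ MY)
    (lam : ℝ≥0∞) (hl : lam ≠ 0) (hl' : lam ≠ ⊤) (νX νY η : ℝ≥0∞)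
    (hνX : ∑' x, (if (lv x).toNat ≤ 3 * t + i0 ∧ x ∉ EX then Q ΛX htX dX (3 * t) x else 0) ≤ νX)
    (hνY : ∑' x, (if (-lv x).toNat ≤ 3 * t + i0 ∧ x ∉ EY then Q ΛY htY dY (3 * t) x else 0) ≤ νY)
    (hSL : HSL ΛX htX ΛY htY lv XS YS η (H + 2 * t - s) (2 * i0 + s) n) :
    ∑' LX, ∑' LY, (if HT htX LX = n ∧ HT htY LY = n ∧ Cw lv XS YS H t w LX LY
        then LW ΛX LX * LW ΛY LY else 0)
      ≤ (νX + 2 * ov ΛX htX i0) * (νY + 2 * ov ΛY htY i0)
        + (((2 * i0 + 1 : ℕ) * ((i0 + 1 : ℕ) * ((i0 + 1 : ℕ) *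
        (C * (lam + MX * EX.card * us s / lam + us s)))))
        + ∑' x, bX x + 2 * ov ΛX htX i0 + 2 * ov ΛY htY i0)
        + (((2 * i0 + 1 : ℕ) * ((i0 + 1 : ℕ) * ((i0 + 1 : ℕ) *
        (C * (lam + MY * EY.card * us s / lam + us s)))))
        + ∑' x, bY x + 2 * ov ΛY htY i0 + 2 * ov ΛX htX i0) + η := by
  have hX := partX ΛX htX dX ΛY htY dY lv XS YS G hΛX hΛY hUX hUY C us hW2 H t i0 s n hts hn
    EX w hw gX bX hQX MX hgX lam hl hl'
  have hY := partY ΛX htX dX ΛY htY dY lv XS YS G hΛX hΛY hUX hUY C us hW3 H t i0 s n hts hn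
    EY w hw gY bY hQY MY hgY lam hl hl'
  have hNX := nonloc ΛX htX dX G.X1 hΛX hUX (fun x => (lv x).toNat)
    (fun L => by rw [G.Xlv]; simp) H (3 * t) i0 n (by omega) EX νX hνX
  have hNY := nonloc ΛY htY dY G.Y1 hΛY hUY (fun x => (-lv x).toNat)
    (fun L => by rw [G.Ylv]; simp) H (3 * t) i0 n (by omega) EY νY hνY
  have hYc : ∑' LY, (if HT htY LY = n then LW ΛY LY * ∑' LX, (if HT htX LX = n then
        LW ΛX LX * (if FY htY dY lv XS YS H t i0 s EY w LY LX then (1 : ℝ≥0∞)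
          else 0) else 0) else 0)
      = ∑' LX, ∑' LY, (if HT htY LY = n then LW ΛY LY * (if HT htX LX = n then
        LW ΛX LX * (if FY htY dY lv XS YS H t i0 s EY w LY LX then (1 : ℝ≥0∞)
          else 0) else 0) else 0) := by
    rw [ENNReal.tsum_comm]
    refine tsum_congr fun LY => ?_
    split_ifs
    · rw [ENNReal.tsum_mul_left]
    · simp
  have hXc : ∑' LX, (if HT htX LX = n then LW ΛX LX * ∑' LY, (if HT htY LY = n then
        LW ΛY LY * (if FX htX dX lv XS YS H t i0 EX w LX LY then (1 : ℝ≥0∞)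
          else 0) else 0) else 0)
      = ∑' LX, ∑' LY, (if HT htX LX = n then LW ΛX LX * (if HT htY LY = n then
        LW ΛY LY * (if FX htX dX lv XS YS H t i0 EX w LX LY then (1 : ℝ≥0∞)
          else 0) else 0) else 0) := by
    refine tsum_congr fun LX => ?_
    split_ifs
    · rw [ENNReal.tsum_mul_left]
    · simp
  have hNc : (∑' L, (if HT htX L = n then LW ΛX L *
        (if ¬ Loc htX dX H (3 * t) i0 EX L then (1 : ℝ≥0∞) else 0) else 0)) *
      (∑' L, (if HT htY L = n then LW ΛY L *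
        (if ¬ Loc htY dY H (3 * t) i0 EY L then (1 : ℝ≥0∞) else 0) else 0))
      = ∑' LX, ∑' LY, (if HT htX LX = n then LW ΛX LX *
        (if ¬ Loc htX dX H (3 * t) i0 EX LX then (1 : ℝ≥0∞) else 0) else 0) *
        (if HT htY LY = n then LW ΛY LY *
        (if ¬ Loc htY dY H (3 * t) i0 EY LY then (1 : ℝ≥0∞) else 0) else 0) := by
    rw [← ENNReal.tsum_mul_right]
    refine tsum_congr fun LX => ?_
    rw [ENNReal.tsum_mul_left]
  rw [hYc] at hY
  rw [hXc] at hX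
  refine le_trans ?_ (add_le_add (add_le_add (add_le_add (mul_le_mul' hNX hNY) hX) hY) (hSL w hw))
  rw [hNc, ← ENNReal.tsum_add, ← ENNReal.tsum_add, ← ENNReal.tsum_add]
  refine ENNReal.tsum_le_tsum fun LX => ?_
  rw [← ENNReal.tsum_add, ← ENNReal.tsum_add, ← ENNReal.tsum_add]
  refine ENNReal.tsum_le_tsum fun LY => ?_
  by_cases h : HT htX LX = n ∧ HT htY LY = n ∧ Cw lv XS YS H t w LX LY
  swap
  · rw [if_neg h]; exact bot_le
  rw [if_pos h]
  obtain ⟨a1, a2, a3⟩ := h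
  by_cases hlx : Loc htX dX H (3 * t) i0 EX LX
  · refine le_trans ?_ le_self_add
    refine le_trans ?_ le_self_add
    refine le_trans ?_ le_add_self
    rw [if_pos a1, if_pos a2, if_pos ⟨hlx, a3⟩, mul_one]
  · by_cases hly : Loc htY dY H (3 * t) i0 EY LY
    · by_cases hs : Slab lv XS YS (H + 2 * t - s) (2 * i0 + s) w LX LY
      · refine le_trans ?_ le_add_self
        rw [if_pos ⟨a1, a2, hs⟩]
      · refine le_trans ?_ le_self_add
        refine le_trans ?_ le_add_self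
        rw [if_pos a1, if_pos a2, if_pos ⟨hly, a3, hs⟩, mul_one, mul_comm]
    · refine le_trans ?_ le_self_add
      refine le_trans ?_ le_self_add
      refine le_trans ?_ le_self_add
      rw [if_pos a1, if_pos a2, if_pos hlx, if_pos hly, mul_one, mul_one]

end win

end Crest.Agent.R154.Comp804
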