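import Crest.Agent.R154.Comp_402

/-!
Row 154, block B8 (helper263): the chain with (W) needed for ONE rate only, and the chain for the
merely elliptic frame ((W) only for heights `>= c u`, initial input on a spread start law).
The proofs `block_tail .. chain1` are helper402's (Comp_402) with `Proc.W` restricted to one rate.
-/

set_option autoImplicit false

open MeasureTheory Filter Finset
open scoped ENNReal

namespace Crest.Agent.R154.CompE

open Crest.Agent.R154.KSet
open Crest.Agent.R154.Comp (meas_expmax meas_sub meas_setge expmoment_of_tail lintegral_prod_le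
  tail_sum_of_overlap M1 M1_ge Mbar Mbar_ge K1)

variable {Ω : Type*} {m0 : MeasurableSpace Ω}

/-- inputs (W) (one rate `lam`, threshold `u0 lam`) and (R) -/
structure Proc1 (lam : ℝ) (u0 : ℝ → ℝ) (k0 : ℝ → ℝ → ℕ) (i1 : ℝ → ℝ → ℕ → ℕ) (P : Measure Ω)
    (G : Filtration ℕ m0) (a : ℕ → Ω → ℝ) : Prop where
  meas : ∀ i, Measurable[G i] (a i)
  nonneg : ∀ i ω, 0 ≤ a i ω
  mono : ∀ ω, Monotone fun i => a i ω
  W : ∀ i : ℕ, ∀ u : ℝ, u0 lam ≤ u → ∀ B, MeasurableSet[G i] B →
    P (B ∩ {ω | u ≤ a (i + 2) ω - a (i + 1) ω}) ≤ ENNReal.ofReal (Real.exp (-(lam * u))) * P B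
  R : ∀ ε b : ℝ, 0 < ε → 0 < b → ∀ k : ℕ, k0 ε b ≤ k → 0 < k → ∀ i : ℕ, i1 ε b k ≤ i →
    ∀ B, MeasurableSet[G i] B →
    P (B ∩ {ω | ε * k ≤ a (i + 1 + k) ω - a (i + 1) ω})
      ≤ ENNReal.ofReal (Real.exp (-(b * k))) * P B

/-- (C1), conditional tail form: `k` consecutive windows. -/
theorem block_tail {lam : ℝ} {u0 : ℝ → ℝ} {k0 : ℝ → ℝ → ℕ} {i1 : ℝ → ℝ → ℕ → ℕ} {P : Measure Ω}
    {G : Filtration ℕ m0} {a : ℕ → Ω → ℝ} (hp : Proc1 lam u0 k0 i1 P G a) {c : ℝ} (hc : 0 < c)
    (hlam : lam = 2 * c) (i0 k : ℕ) {v : ℝ} {B : Set Ω} (hB : MeasurableSet[G i0] B) :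
    P (B ∩ {ω | k * max (u0 (2 * c)) 0 + v ≤ a (i0 + 1 + k) ω - a (i0 + 1) ω})
      ≤ ENNReal.ofReal (2 * M1 c ^ k * Real.exp (-(c * v / 2))) * P B := by
  subst hlam
  have hBm : MeasurableSet B := G.le _ _ hB
  have h := tail_sum_of_overlap (P.restrict B) (fun j => G (i0 + j)) (fun j => G.le _)
    (fun i j hij => G.mono (by omega)) k (fun j ω => a (i0 + 1 + (j + 1)) ω - a (i0 + 1 + j) ω)
    (c := c) (s := max (u0 (2 * c)) 0) (M := M1 c) (v := v) hc (M1_ge hc)
    (fun j _ => meas_sub ((hp.meas _).mono (G.mono (by omega)) le_rfl)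
      ((hp.meas _).mono (G.mono (by omega)) le_rfl))
    (fun j _ B' hB' => by
      have hB'm : MeasurableSet B' := G.le _ _ hB'
      refine (expmoment_of_tail (P.restrict B) (K := 1) ?_ hc zero_le_one (B := B')
        (fun w hw => ?_)).trans (le_of_eq rfl)
      · exact meas_sub ((hp.meas _).mono (G.le _) le_rfl) ((hp.meas _).mono (G.le _) le_rfl)
      · have hBB : MeasurableSet[G (i0 + j)] (B' ∩ B) :=
          MeasurableSet.inter hB' (G.mono (by omega) _ hB)
        have h1 := hp.W (i0 + j) (max (u0 (2 * c)) 0 + w)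
          (le_trans (le_max_left _ _) (by linarith)) (B' ∩ B) hBB
        rw [Measure.restrict_apply' hBm, Measure.restrict_apply' hBm]
        have e1 : (B' ∩ {ω | max (u0 (2 * c)) 0 + w ≤ a (i0 + 1 + (j + 1)) ω - a (i0 + 1 + j) ω}) ∩ B
            = (B' ∩ B) ∩ {ω | max (u0 (2 * c)) 0 + w ≤ a (i0 + j + 2) ω - a (i0 + j + 1) ω} := by
          have e2 : i0 + 1 + (j + 1) = i0 + j + 2 := by ring
          have e3 : i0 + 1 + j = i0 + j + 1 := by ring
          rw [e2, e3, Set.inter_right_comm]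
        rw [e1]
        refine h1.trans ?_
        gcongr
        rw [one_mul]
        refine Real.exp_le_exp.2 ?_
        have : 0 ≤ 2 * c * max (u0 (2 * c)) 0 := by positivity
        nlinarith)
  rw [Measure.restrict_apply' hBm, Measure.restrict_apply MeasurableSet.univ, Set.univ_inter] at h
  refine le_trans (le_of_eq ?_) h
  rw [Set.inter_comm]
  congr 1
  ext ω
  simp only [Set.mem_inter_iff, Set.mem_ofPred_eq, and_congr_left_iff]
  intro _
  have : ∑ j ∈ range k, (a (i0 + 1 + (j + 1)) ω - a (i0 + 1 + j) ω)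
      = a (i0 + 1 + k) ω - a (i0 + 1) ω := by
    have := Finset.sum_range_sub (fun j => a (i0 + 1 + j) ω) k
    simpa using this
  rw [this]

/-- exponential moment of a block of `k` windows. -/
theorem block_exp {lam : ℝ} {u0 : ℝ → ℝ} {k0 : ℝ → ℝ → ℕ} {i1 : ℝ → ℝ → ℕ → ℕ} {P : Measure Ω}
    {G : Filtration ℕ m0} {a : ℕ → Ω → ℝ} (hp : Proc1 lam u0 k0 i1 P G a) {c : ℝ} (hc : 0 < c)
    (hlam : lam = 2 * (8 * c)) (i0 k : ℕ) (hk : 0 < k) {B : Set Ω} (hB : MeasurableSet[G i0] B) :
    ∫⁻ ω in B, ENNReal.ofReal (Real.exp (2 * c *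
        max ((a (i0 + 1 + k) ω - a (i0 + 1) ω) - k * max (u0 (2 * (8 * c))) 0) 0)) ∂P
      ≤ ENNReal.ofReal (Mbar c ^ k) * P B := by
  have hec : Real.exp (-(2 * c)) < 1 := by rw [Real.exp_lt_one_iff]; linarith
  have hG : 0 ≤ (1 - Real.exp (-(2 * c)))⁻¹ := inv_nonneg.2 (by linarith)
  have hM1 := M1_ge (c := 8 * c) (by positivity)
  have h := expmoment_of_tail P (V := fun ω => a (i0 + 1 + k) ω - a (i0 + 1) ω)
    (meas_sub ((hp.meas _).mono (G.le _) le_rfl) ((hp.meas _).mono (G.le _) le_rfl))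
    (c := 2 * c) (s := k * max (u0 (2 * (8 * c))) 0) (K := 2 * M1 (8 * c) ^ k)
    (by positivity) (by positivity) (B := B)
    (fun v _ => by
      refine (block_tail hp (c := 8 * c) (by positivity) hlam i0 k (v := v) hB).trans ?_
      gcongr
      linarith)
  refine h.trans ?_
  gcongr
  unfold Mbar
  rw [mul_pow, mul_pow]
  have hM1k : 1 ≤ M1 (8 * c) ^ k := one_le_pow₀ hM1
  have h1 : Real.exp (2 * c) ≤ Real.exp (2 * c) ^ k :=
    le_self_pow₀ (Real.one_le_exp (by linarith)) hk.ne'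
  have h2 : (1 + 2 * (1 - Real.exp (-(2 * c)))⁻¹) ≤ (1 + 2 * (1 - Real.exp (-(2 * c)))⁻¹) ^ k :=
    le_self_pow₀ (by linarith) hk.ne'
  calc Real.exp (2 * c) * (1 + 2 * M1 (8 * c) ^ k * (1 - Real.exp (-(2 * c)))⁻¹)
      ≤ Real.exp (2 * c) * ((1 + 2 * (1 - Real.exp (-(2 * c)))⁻¹) * M1 (8 * c) ^ k) := by
        gcongr
        nlinarith
    _ = Real.exp (2 * c) * (1 + 2 * (1 - Real.exp (-(2 * c)))⁻¹) * M1 (8 * c) ^ k := by ring
    _ ≤ Real.exp (2 * c) ^ k * (1 + 2 * (1 - Real.exp (-(2 * c)))⁻¹) ^ k * M1 (8 * c) ^ k := by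
        gcongr

/-- (C2), one block: with (R) at rate `b = c * K1` the exponential moment above `ε k` is `≤ 3`. -/
theorem block_exp3 {lam : ℝ} {u0 : ℝ → ℝ} {k0 : ℝ → ℝ → ℕ} {i1 : ℝ → ℝ → ℕ → ℕ} {P : Measure Ω}
    {G : Filtration ℕ m0} {a : ℕ → Ω → ℝ} (hp : Proc1 lam u0 k0 i1 P G a) {c ε : ℝ} (hc : 0 < c)
    (hlam : lam = 2 * (8 * c))
    (hε : 0 < ε) (i0 k : ℕ) (hk : 0 < k) (hk0 : k0 ε (c * K1 u0 c) ≤ k)
    (hi : i1 ε (c * K1 u0 c) k ≤ i0) {B : Set Ω} (hB : MeasurableSet[G i0] B) :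
    ∫⁻ ω in B, ENNReal.ofReal (Real.exp (c *
        max ((a (i0 + 1 + k) ω - a (i0 + 1) ω) - ε * k) 0)) ∂P
      ≤ ENNReal.ofReal 3 * P B := by
  have hBm : MeasurableSet B := G.le _ _ hB
  set V : Ω → ℝ := fun ω => a (i0 + 1 + k) ω - a (i0 + 1) ω with hV
  have hVm : Measurable V :=
    meas_sub ((hp.meas _).mono (G.le _) le_rfl) ((hp.meas _).mono (G.le _) le_rfl)
  have hV0 : ∀ ω, 0 ≤ V ω := fun ω => sub_nonneg.2 (hp.mono ω (by omega))
  set U : ℝ := max (u0 (2 * (8 * c))) 0 with hU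
  have hU0 : 0 ≤ U := le_max_right _ _
  have hlog : 0 ≤ Real.log (Mbar c) := Real.log_nonneg (Mbar_ge hc)
  have hK1 : 0 < K1 u0 c := by
    unfold K1
    have : 0 ≤ Real.log (Mbar c) / c := div_nonneg hlog hc.le
    positivity
  have hk' : (0 : ℝ) < k := by exact_mod_cast hk
  set E : Set Ω := {ω | ε * k ≤ V ω} with hE
  have hEm : MeasurableSet E := meas_setge hVm _
  have hpt : ∀ ω, ENNReal.ofReal (Real.exp (c * max (V ω - ε * k) 0))
      ≤ 1 + ENNReal.ofReal (Real.exp (c * K1 u0 c * k)) * E.indicator 1 ω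
        + ENNReal.ofReal (Real.exp (-(c * K1 u0 c * k) + 2 * c * (k * U)))
          * ENNReal.ofReal (Real.exp (2 * c * max (V ω - k * U) 0)) := by
    intro ω
    by_cases h1 : V ω - ε * k < 0
    · rw [max_eq_right h1.le, mul_zero, Real.exp_zero, ENNReal.ofReal_one]
      exact le_self_add.trans le_self_add
    · rw [not_lt] at h1
      have hmem : ω ∈ E := by simp only [hE, Set.mem_ofPred_eq]; linarith
      rw [max_eq_left h1, Set.indicator_of_mem hmem]
      simp only [Pi.one_apply, mul_one]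
      have hεk : 0 ≤ ε * k := by positivity
      by_cases h2 : V ω ≤ K1 u0 c * k
      · refine le_trans ?_ (le_self_add)
        refine le_trans ?_ le_add_self
        refine ENNReal.ofReal_le_ofReal (Real.exp_le_exp.2 ?_)
        nlinarith
      · rw [not_le] at h2
        refine le_trans ?_ le_add_self
        rw [← ENNReal.ofReal_mul (Real.exp_pos _).le, ← Real.exp_add]
        refine ENNReal.ofReal_le_ofReal (Real.exp_le_exp.2 ?_)
        have h3 : V ω - k * U ≤ max (V ω - k * U) 0 := le_max_left _ _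
        nlinarith
  have hI := block_exp hp hc hlam i0 k hk hB
  have hR := hp.R ε (c * K1 u0 c) hε (by positivity) k hk0 hk i0 hi B hB
  have hind : ∫⁻ ω in B, E.indicator 1 ω ∂P = P (B ∩ E) := by
    rw [lintegral_indicator_one hEm, Measure.restrict_apply hEm, Set.inter_comm]
  calc ∫⁻ ω in B, ENNReal.ofReal (Real.exp (c * max (V ω - ε * k) 0)) ∂P
      ≤ ∫⁻ ω in B, (1 + ENNReal.ofReal (Real.exp (c * K1 u0 c * k)) * E.indicator 1 ω
        + ENNReal.ofReal (Real.exp (-(c * K1 u0 c * k) + 2 * c * (k * U)))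
          * ENNReal.ofReal (Real.exp (2 * c * max (V ω - k * U) 0))) ∂P := lintegral_mono hpt
    _ = P B + ENNReal.ofReal (Real.exp (c * K1 u0 c * k)) * P (B ∩ E)
        + ENNReal.ofReal (Real.exp (-(c * K1 u0 c * k) + 2 * c * (k * U)))
          * ∫⁻ ω in B, ENNReal.ofReal (Real.exp (2 * c * max (V ω - k * U) 0)) ∂P := by
        rw [lintegral_add_right _ ((meas_expmax hVm (2 * c) (k * U)).const_mul _),
          lintegral_add_left measurable_const,
          lintegral_const_mul _ (measurable_one.indicator hEm), hind,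
          lintegral_const_mul _ (meas_expmax hVm (2 * c) (k * U))]
        simp
    _ ≤ P B + ENNReal.ofReal (Real.exp (c * K1 u0 c * k))
          * (ENNReal.ofReal (Real.exp (-(c * K1 u0 c * k))) * P B)
        + ENNReal.ofReal (Real.exp (-(c * K1 u0 c * k) + 2 * c * (k * U)))
          * (ENNReal.ofReal (Mbar c ^ k) * P B) := by gcongr
    _ ≤ ENNReal.ofReal 3 * P B := by
        have e1 : ENNReal.ofReal (Real.exp (c * K1 u0 c * k))
            * (ENNReal.ofReal (Real.exp (-(c * K1 u0 c * k))) * P B) = P B := by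
          rw [← mul_assoc, ← ENNReal.ofReal_mul (Real.exp_pos _).le, ← Real.exp_add]
          simp
        have e2 : ENNReal.ofReal (Real.exp (-(c * K1 u0 c * k) + 2 * c * (k * U)))
            * (ENNReal.ofReal (Mbar c ^ k) * P B) ≤ P B := by
          rw [← mul_assoc, ← ENNReal.ofReal_mul (Real.exp_pos _).le]
          have hMb : Mbar c ^ k = Real.exp (k * Real.log (Mbar c)) := by
            rw [Real.exp_nat_mul, Real.exp_log (lt_of_lt_of_le one_pos (Mbar_ge hc))]
          rw [hMb, ← Real.exp_add]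
          have hle : -(c * K1 u0 c * k) + 2 * c * (k * U) + k * Real.log (Mbar c) ≤ 0 := by
            have : c * K1 u0 c = 2 * c * U + Real.log (Mbar c) + c := by
              unfold K1; rw [← hU]; field_simp
            rw [this]
            nlinarith
          calc ENNReal.ofReal (Real.exp (-(c * K1 u0 c * k) + 2 * c * (k * U)
                + k * Real.log (Mbar c))) * P B ≤ ENNReal.ofReal 1 * P B := by
                gcongr
                exact (Real.exp_le_one_iff).2 hle
            _ = P B := by simp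
        rw [e1]
        calc P B + P B + ENNReal.ofReal (Real.exp (-(c * K1 u0 c * k) + 2 * c * (k * U)))
            * (ENNReal.ofReal (Mbar c ^ k) * P B) ≤ P B + P B + P B := by gcongr
          _ = ENNReal.ofReal 3 * P B := by
              rw [show (ENNReal.ofReal 3) = 3 by norm_num]; ring

/-- **(FL) form of the composition.**  For every `δ, M > 0` there are `C` and a starting index `I`,
depending only on the constants of the process, with
`P (δ i ≤ a_i) ≤ C e^{-M i} + P ((δ/4) i ≤ a_I)` for all `i`. -/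
theorem chain1 (u0 : ℝ → ℝ) (k0 : ℝ → ℝ → ℕ) (i1 : ℝ → ℝ → ℕ → ℕ) {δ M : ℝ} (hδ : 0 < δ)
    (hM : 0 < M) :
    ∃ C : ℝ, ∃ I : ℕ, ∀ {Ω : Type*} {m0 : MeasurableSpace Ω} (P : Measure Ω)
      [IsProbabilityMeasure P] (G : Filtration ℕ m0) (a : ℕ → Ω → ℝ),
      Proc1 (2 * (8 * (8 * (M + 2) / δ))) u0 k0 i1 P G a → ∀ i : ℕ,
      P {ω | δ * i ≤ a i ω} ≤ ENNReal.ofReal (C * Real.exp (-(M * i)))
        + P {ω | δ / 4 * i ≤ a I ω} := by
  set ε : ℝ := δ / 4 with hε
  have hε0 : 0 < ε := by positivity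
  set c : ℝ := 8 * (M + 2) / δ with hcd
  have hc : 0 < c := by positivity
  set k : ℕ := max 1 (k0 ε (c * K1 u0 c)) with hk
  have hk1 : 0 < k := lt_of_lt_of_le one_pos (le_max_left _ _)
  have hkk : k0 ε (c * K1 u0 c) ≤ k := le_max_right _ _
  have hk' : (1 : ℝ) ≤ k := by exact_mod_cast hk1
  set I : ℕ := i1 ε (c * K1 u0 c) k + 1 with hI
  refine ⟨max 6 (Real.exp (M * (k + I))), I, fun {Ω m0} P _ G a hp i => ?_⟩
  by_cases hi : i < k + I
  · refine le_trans prob_le_one (le_trans ?_ le_self_add)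
    rw [← ENNReal.ofReal_one]
    refine ENNReal.ofReal_le_ofReal ?_
    have h1 : (i : ℝ) ≤ k + I := by exact_mod_cast hi.le
    calc (1 : ℝ) = Real.exp (M * (k + I)) * Real.exp (-(M * (k + I))) := by
          rw [← Real.exp_add]; simp
      _ ≤ max 6 (Real.exp (M * (k + I))) * Real.exp (-(M * i)) := by
          gcongr
          exact le_max_right _ _
  rw [not_lt] at hi
  have hi' : (k : ℝ) + I ≤ i := by exact_mod_cast hi
  -- number of blocks
  set N : ℕ := (i - I) / k + 1 with hN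
  have hN1 : i ≤ I + N * k := by
    have := Nat.lt_div_mul_add hk1 (a := i - I)
    have h2 : (i - I) < N * k := by rw [hN, add_mul, one_mul]; exact this
    omega
  have hN2 : N * k ≤ i + k := by
    have := Nat.div_mul_le_self (i - I) k
    rw [hN, add_mul, one_mul]; omega
  have hN2' : (N : ℝ) * k ≤ i + k := by exact_mod_cast hN2
  have hN3 : (N : ℝ) ≤ i + 1 := by
    have : N ≤ i + 1 := by
      have := Nat.div_le_self (i - I) k
      rw [hN]; omega
    exact_mod_cast this
  have hT := tail_sum_of_overlap P (fun j => G (I - 1 + j * k)) (fun j => G.le _)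
    (fun i j hij => G.mono (Nat.add_le_add_left (Nat.mul_le_mul_right _ hij) _)) N
    (fun j ω => a (I + (j + 1) * k) ω - a (I + j * k) ω)
    (c := c) (s := ε * k) (M := 3) (v := δ / 4 * i) hc (by norm_num)
    (fun j _ => meas_sub
      ((hp.meas _).mono (G.mono (by
        have : 1 ≤ k := hk1
        have e : (j + 2) * k = (j + 1) * k + k := by ring
        rw [e]; omega)) le_rfl)
      ((hp.meas _).mono (G.mono (by
        have : 1 ≤ k := hk1
        have e : (j + 2) * k = j * k + k + k := by ring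
        rw [e]; omega)) le_rfl))
    (fun j _ B hB => by
      have h := block_exp3 hp hc rfl hε0 (I - 1 + j * k) k hk1 hkk (by omega) hB
      have e1 : I - 1 + j * k + 1 + k = I + (j + 1) * k := by
        have : (j + 1) * k = j * k + k := by ring
        rw [this]; omega
      have e2 : I - 1 + j * k + 1 = I + j * k := by omega
      rw [e1, e2] at h
      exact h)
  have hsub : {ω | δ * i ≤ a i ω} ⊆
      {ω | N * (ε * k) + δ / 4 * i ≤ ∑ j ∈ range N, (a (I + (j + 1) * k) ω - a (I + j * k) ω)}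
      ∪ {ω | δ / 4 * i ≤ a I ω} := by
    intro ω hω
    simp only [Set.mem_ofPred_eq, Set.mem_union] at hω ⊢
    by_contra hcon
    rw [not_or, not_le, not_le] at hcon
    have hsum : ∑ j ∈ range N, (a (I + (j + 1) * k) ω - a (I + j * k) ω)
        = a (I + N * k) ω - a I ω := by
      have := Finset.sum_range_sub (fun j => a (I + j * k) ω) N
      simpa using this
    have hmon : a i ω ≤ a (I + N * k) ω := hp.mono ω hN1
    rw [hsum] at hcon
    have h5 : (N : ℝ) * (ε * k) ≤ δ / 2 * i := by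
      have : (N : ℝ) * (ε * k) = ε * (N * k) := by ring
      rw [this]
      have hki : (k : ℝ) ≤ i := by
        have : (0 : ℝ) ≤ I := Nat.cast_nonneg I
        linarith
      calc ε * (N * k) ≤ ε * (i + k) := by gcongr
        _ ≤ ε * (i + i) := by gcongr
        _ = δ / 2 * i := by rw [hε]; ring
    linarith [hcon.1, hcon.2]
  refine (measure_mono hsub).trans ((measure_union_le _ _).trans (add_le_add ?_ le_rfl))
  refine hT.trans ?_
  rw [measure_univ, mul_one]
  refine ENNReal.ofReal_le_ofReal ?_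
  have h3 : (3 : ℝ) ^ N ≤ 3 * Real.exp (2 * i) := by
    have h4 : (3 : ℝ) ≤ Real.exp 2 := by
      have := Real.add_one_le_exp (2 : ℝ); linarith
    calc (3 : ℝ) ^ N ≤ 3 ^ (i + 1) := by
          refine pow_le_pow_right₀ (by norm_num) ?_
          exact_mod_cast hN3
      _ = 3 * 3 ^ i := by ring
      _ ≤ 3 * Real.exp 2 ^ i := by gcongr
      _ = 3 * Real.exp (2 * i) := by rw [← Real.exp_nat_mul]; ring_nf
  have hcδ : c * (δ / 4 * i) / 2 = (M + 2) * i := by rw [hcd]; field_simp; ring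
  rw [hcδ]
  calc 2 * 3 ^ N * Real.exp (-((M + 2) * i))
      ≤ 2 * (3 * Real.exp (2 * i)) * Real.exp (-((M + 2) * i)) := by gcongr
    _ = 6 * Real.exp (-(M * i)) := by
        rw [show (2 : ℝ) * (3 * Real.exp (2 * i)) * Real.exp (-((M + 2) * i))
          = 6 * (Real.exp (2 * i) * Real.exp (-((M + 2) * i))) by ring, ← Real.exp_add]
        ring_nf
    _ ≤ max 6 (Real.exp (M * (k + I))) * Real.exp (-(M * i)) := by
        gcongr
        exact le_max_left _ _


theorem min_sub_min_le (x y t : ℝ) (h : y ≤ x) : min x t - min y t ≤ x - y := by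
  rcases le_total x t with h1 | h1
  · rw [min_eq_left h1, min_eq_left (h.trans h1)]
  · rw [min_eq_right h1]
    rcases le_total y t with h2 | h2
    · rw [min_eq_left h2]; linarith
    · rw [min_eq_right h2]; linarith

/-- **the chain for the merely elliptic frame.**  For the final index `n` the process `a n` may
depend on `n` (start law spread over a ball of radius `η n`); (W) is needed only for
`u ≤ cW lam * 10 ^ i`; the initial input says that heights `≤ b n` cost at most `δ' n`. -/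
theorem chain_FLe (P : Measure Ω) [IsProbabilityMeasure P] (G : Filtration ℕ m0)
    (a : ℕ → ℕ → Ω → ℝ) (u0 cW : ℝ → ℝ) (hcW : ∀ lam, 0 < lam → 0 < cW lam)
    (k0 : ℝ → ℝ → ℕ) (i1 : ℝ → ℝ → ℕ → ℕ)
    (meas : ∀ n i, Measurable[G i] (a n i))
    (nonneg : ∀ n i ω, 0 ≤ a n i ω)
    (mono : ∀ n ω, Monotone fun i => a n i ω)
    (W : ∀ n, ∀ lam : ℝ, 0 < lam → ∀ i : ℕ, ∀ u : ℝ, u0 lam ≤ u → u ≤ cW lam * 10 ^ i →
      ∀ B, MeasurableSet[G i] B →
      P (B ∩ {ω | u ≤ a n (i + 2) ω - a n (i + 1) ω})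
        ≤ ENNReal.ofReal (Real.exp (-(lam * u))) * P B)
    (R : ∀ n, ∀ ε b : ℝ, 0 < ε → 0 < b → ∀ k : ℕ, k0 ε b ≤ k → 0 < k → ∀ i : ℕ, i1 ε b k ≤ i →
      ∀ B, MeasurableSet[G i] B →
      P (B ∩ {ω | ε * k ≤ a n (i + 1 + k) ω - a n (i + 1) ω})
        ≤ ENNReal.ofReal (Real.exp (-(b * k))) * P B)
    (init : ∀ b δ' M : ℝ, 0 < b → 0 < δ' → 0 < M → ∃ n1 : ℕ, ∀ n, n1 ≤ n → ∀ J : ℕ,
      (10 : ℝ) ^ J ≤ b * n → P {ω | δ' * n ≤ a n J ω} ≤ ENNReal.ofReal (Real.exp (-(M * n))))
    {δ M : ℝ} (hδ : 0 < δ) (hM : 0 < M) :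
    ∃ C : ℝ, ∀ n : ℕ, P {ω | δ * n ≤ a n n ω} ≤ ENNReal.ofReal (C * Real.exp (-(M * n))) := by
  set lam : ℝ := 2 * (8 * (8 * (M + 2) / δ)) with hlam
  have hlam0 : 0 < lam := by positivity
  obtain ⟨C, I, hC⟩ := chain1 u0 k0 i1 hδ hM
  set c := cW lam with hc
  have hc0 : 0 < c := hcW lam hlam0
  set b : ℝ := (1 + 10 * (δ / c)) * 10 ^ I with hb
  have hb0 : 0 < b := by positivity
  obtain ⟨n1, hn1⟩ := init b (δ / 4) M hb0 (by positivity) hM
  refine ⟨max (C + 1) (Real.exp (M * (n1 + 1))), fun n => ?_⟩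
  by_cases hn : n < n1 + 1
  · refine le_trans prob_le_one ?_
    rw [← ENNReal.ofReal_one]
    refine ENNReal.ofReal_le_ofReal ?_
    have h1 : (n : ℝ) ≤ n1 + 1 := by exact_mod_cast hn.le
    calc (1 : ℝ) = Real.exp (M * (n1 + 1)) * Real.exp (-(M * (n1 + 1))) := by
          rw [← Real.exp_add]; simp
      _ ≤ max (C + 1) (Real.exp (M * (n1 + 1))) * Real.exp (-(M * n)) := by
          gcongr
          exact le_max_right _ _
  rw [not_lt] at hn
  have hn0 : (1 : ℝ) ≤ n := by exact_mod_cast (Nat.le_of_add_left_le hn : 1 ≤ n)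
  -- the starting index
  have hex : ∃ J : ℕ, δ * n / c ≤ (10 : ℝ) ^ J :=
    (pow_unbounded_of_one_lt (δ * n / c) (by norm_num : (1 : ℝ) < 10)).imp fun _ h => h.le
  classical
  set J := Nat.find hex with hJ
  have hJ1 : δ * n / c ≤ (10 : ℝ) ^ J := Nat.find_spec hex
  have hJ2 : (10 : ℝ) ^ J ≤ (1 + 10 * (δ / c)) * n := by
    rcases Nat.eq_zero_or_pos J with h0 | h0
    · rw [h0, pow_zero]
      have : 0 ≤ 10 * (δ / c) := by positivity
      nlinarith
    · obtain ⟨j, hj⟩ := Nat.exists_eq_succ_of_ne_zero h0.ne'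
      have h1 : ¬ δ * n / c ≤ (10 : ℝ) ^ j := Nat.find_min hex (by omega)
      rw [not_le] at h1
      rw [hj, pow_succ]
      have h2 : δ * n / c = δ / c * n := by ring
      rw [h2] at h1
      nlinarith
  have hJI : (10 : ℝ) ^ (J + I) ≤ b * n := by
    rw [pow_add, hb]
    calc (10 : ℝ) ^ J * 10 ^ I ≤ ((1 + 10 * (δ / c)) * n) * 10 ^ I := by gcongr
      _ = (1 + 10 * (δ / c)) * 10 ^ I * n := by ring
  -- the truncated process
  set a' : ℕ → Ω → ℝ := fun j ω => min (a n (J + j) ω) (δ * n) with ha'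
  set G' : Filtration ℕ m0 :=
    { seq := fun j => G (J + j)
      mono' := fun i j hij => G.mono (by omega)
      le' := fun j => G.le _ } with hG'
  have ha'mono : ∀ ω, Monotone fun j => a' j ω := by
    intro ω i j hij
    exact min_le_min_right _ (mono n ω (by omega))
  have hproc : Proc1 lam u0 k0 i1 P G' a' := by
    refine ⟨fun i => ?_, fun i ω => ?_, ha'mono, fun i u hu B hB => ?_,
      fun ε b' hε hb' k hk hk0 i hi B hB => ?_⟩
    · exact (meas n (J + i)).min measurable_const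
    · exact le_min (nonneg n _ ω) (by positivity)
    · by_cases hun : u ≤ δ * n
      · refine le_trans (measure_mono (Set.inter_subset_inter_right B fun ω hω => ?_))
          (W n lam hlam0 (J + i) u hu ?_ B hB)
        · have h1 : u ≤ a' (i + 2) ω - a' (i + 1) ω := hω
          refine h1.trans ?_
          exact min_sub_min_le _ _ _ (mono n ω (by omega))
        · have h1 : δ * n ≤ c * 10 ^ J := by
            rw [div_le_iff₀ hc0] at hJ1
            linarith
          have h2 : (10 : ℝ) ^ J ≤ 10 ^ (J + i) := pow_le_pow_right₀ (by norm_num) (by omega)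
          calc u ≤ δ * n := hun
            _ ≤ c * 10 ^ J := h1
            _ ≤ c * 10 ^ (J + i) := by gcongr
      · have he : {ω | u ≤ a' (i + 2) ω - a' (i + 1) ω} = ∅ := by
          rw [Set.eq_empty_iff_forall_notMem]
          intro ω hω
          have h1 : u ≤ a' (i + 2) ω - a' (i + 1) ω := hω
          have h2 : a' (i + 2) ω ≤ δ * n := min_le_right _ _
          have h3 : 0 ≤ a' (i + 1) ω := le_min (nonneg n _ ω) (by positivity)
          linarith
        rw [he, Set.inter_empty, measure_empty]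
        exact zero_le
    · refine le_trans (measure_mono (Set.inter_subset_inter_right B fun ω hω => ?_))
        (R n ε b' hε hb' k hk hk0 (J + i) (by omega) B hB)
      have h1 : ε * k ≤ a' (i + 1 + k) ω - a' (i + 1) ω := hω
      refine h1.trans ?_
      have e1 : J + i + 1 + k = J + (i + 1 + k) := by ring
      have e2 : J + i + 1 = J + (i + 1) := by ring
      rw [e1, e2]
      have hm : a n (J + (i + 1)) ω ≤ a n (J + (i + 1 + k)) ω := mono n ω (by omega)
      exact min_sub_min_le _ _ _ hm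
  have hmain := hC P G' a' hproc n
  have hs1 : {ω | δ * n ≤ a n n ω} ⊆ {ω | δ * n ≤ a' n ω} := by
    intro ω hω
    have h1 : δ * n ≤ a n n ω := hω
    exact le_min (h1.trans (mono n ω (by omega))) le_rfl
  have hs2 : {ω | δ / 4 * n ≤ a' I ω} ⊆ {ω | δ / 4 * n ≤ a n (J + I) ω} := by
    intro ω hω
    have h1 : δ / 4 * n ≤ a' I ω := hω
    exact h1.trans (min_le_left _ _)
  refine (measure_mono hs1).trans (hmain.trans ?_)
  have h3 := (measure_mono hs2).trans (hn1 n (by omega) (J + I) hJI)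
  have hE : (0 : ℝ) ≤ Real.exp (-(M * n)) := (Real.exp_pos _).le
  calc ENNReal.ofReal (C * Real.exp (-(M * n))) + P {ω | δ / 4 * n ≤ a' I ω}
      ≤ ENNReal.ofReal (C * Real.exp (-(M * n))) + ENNReal.ofReal (Real.exp (-(M * n))) := by
        gcongr
    _ ≤ ENNReal.ofReal (max (C + 1) (Real.exp (M * (n1 + 1))) * Real.exp (-(M * n))) := by
        rcases le_total 0 C with hC0 | hC0
        · rw [← ENNReal.ofReal_add (by positivity) hE]
          refine ENNReal.ofReal_le_ofReal ?_
          have := le_max_left (C + 1) (Real.exp (M * (n1 + 1)))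
          nlinarith
        · rw [ENNReal.ofReal_of_nonpos (mul_nonpos_of_nonpos_of_nonneg hC0 hE), zero_add]
          refine ENNReal.ofReal_le_ofReal ?_
          have h4 : (1 : ℝ) ≤ Real.exp (M * (n1 + 1)) := Real.one_le_exp (by positivity)
          have := le_max_right (C + 1) (Real.exp (M * (n1 + 1)))
          nlinarith

end Crest.Agent.R154.CompE
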