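import Crest.Agent.R154.CompD_804
import Crest.Agent.R154.NumAsm_334

/-! Row 154, ROAD 801, composition (helper804), part E: choice of constants, sum over windows. -/

set_option autoImplicit false

namespace Crest.Agent.R154.Comp804

open scoped ENNReal Topology
open Filter
open Crest.Agent.R154.B5A

section one
variable {B K : Type*} [AddCommGroup K]

open Classical in
/-- quantile + smooth density for one walker -/
lemma setup (Λ : B → ℝ≥0∞) (ht : B → ℕ) (ds : B → K) (h1 : ∀ b, 1 ≤ ht b)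
    (hΛ : ∑' b, Λ b ≤ 1) (hU1 : ∀ n, U Λ ht n ≤ 1) (lvn : K → ℕ)
    (hlv : ∀ L : List B, lvn (DL ds L) = HT ht L) (t i0 J : ℕ) (u : ℝ≥0∞) (hu : u ≠ 0) :
    ∃ (E : Finset K) (M : ℝ≥0∞),
      ∑' x, (if lvn x ≤ 3 * t + i0 ∧ x ∉ E then Q Λ ht ds (3 * t) x else 0) ≤ u ∧
      M * E.card ≤ 2 * (i0 + 1 : ℕ) * J ∧
      ∀ H, J * (3 * t + i0) ≤ H → ∃ g b : K → ℝ≥0∞, (∀ x, Q Λ ht ds H x = g x + b x) ∧
        (∀ x, g x ≤ M) ∧ ∑' x, b x ≤ (1 - u) ^ J + J * ov Λ ht i0 := by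
  have hQ1 := Q_sum Λ ht ds h1 hΛ (3 * t)
  obtain ⟨k, hk1, hk2⟩ := quantile (Q Λ ht ds (3 * t)) hQ1 u hu
  set th : ℝ≥0∞ := (2⁻¹ : ℝ≥0∞) ^ k with hth
  have hth0 : th ≠ 0 := by
    rw [hth]; exact pow_ne_zero _ (ENNReal.inv_ne_zero.2 (by norm_num))
  have htht : th ≠ ⊤ := by
    rw [hth]; exact ENNReal.pow_ne_top (ENNReal.inv_ne_top.2 (by norm_num))
  obtain ⟨hf, hcard⟩ := level_card (Q Λ ht ds (3 * t)) hQ1 th hth0
  refine ⟨hf.toFinset, ((3 * t + i0 + 1 - 3 * t : ℕ) : ℝ≥0∞) * (2 * th) *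
    ∑ j ∈ Finset.range J, (1 - u) ^ j, ?_, ?_, ?_⟩
  · refine le_trans (ENNReal.tsum_le_tsum fun x => ?_) hk1
    by_cases hx : th ≤ Q Λ ht ds (3 * t) x
    · rw [if_neg (fun h => h.2 (by simpa using hx))]; exact bot_le
    · rw [if_pos (not_le.1 hx)]
      split_ifs
      · exact le_rfl
      · exact bot_le
  · have e : 3 * t + i0 + 1 - 3 * t = i0 + 1 := by omega
    rw [e]
    have hs : ∑ j ∈ Finset.range J, (1 - u) ^ j ≤ (J : ℝ≥0∞) := by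
      calc _ ≤ ∑ j ∈ Finset.range J, (1 : ℝ≥0∞) := Finset.sum_le_sum fun j _ =>
            pow_le_one₀ bot_le tsub_le_self
        _ = _ := by simp
    calc ((i0 + 1 : ℕ) : ℝ≥0∞) * (2 * th) * (∑ j ∈ Finset.range J, (1 - u) ^ j)
          * (hf.toFinset.card : ℝ≥0∞)
        ≤ ((i0 + 1 : ℕ) : ℝ≥0∞) * (2 * th) * J * (1 / th) :=
          mul_le_mul' (mul_le_mul_right hs _) hcard
      _ = 2 * ((i0 + 1 : ℕ) : ℝ≥0∞) * J * (th * (1 / th)) := by ring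
      _ = 2 * ((i0 + 1 : ℕ) : ℝ≥0∞) * J := by
          rw [one_div, ENNReal.mul_inv_cancel hth0 htht, mul_one]
  · intro H hH
    refine density Λ ht ds h1 hΛ lvn hlv (3 * t) i0 (2 * th) (1 - u) (ov Λ ht i0)
      (fun x => lvn x ≤ 3 * t + i0 ∧ Q Λ ht ds (3 * t) x ≤ 2 * th) (fun x hx => hx)
      tsub_le_self ?_ ?_ J H hH
    · have hfin : ∑' x, (if Q Λ ht ds (3 * t) x ≤ 2 * th then Q Λ ht ds (3 * t) x else 0) ≠ ⊤ := by
        refine ne_top_of_le_ne_top ENNReal.one_ne_top (le_trans (ENNReal.tsum_le_tsum fun x => ?_) hQ1)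
        split_ifs
        · exact le_rfl
        · exact bot_le
      have hsum : ∑' x, (if lvn x ≤ 3 * t + i0 ∧ ¬ (lvn x ≤ 3 * t + i0 ∧
            Q Λ ht ds (3 * t) x ≤ 2 * th) then Q Λ ht ds (3 * t) x else 0)
          + ∑' x, (if Q Λ ht ds (3 * t) x ≤ 2 * th then Q Λ ht ds (3 * t) x else 0)
          ≤ ∑' x, Q Λ ht ds (3 * t) x := by
        rw [← ENNReal.tsum_add]
        refine ENNReal.tsum_le_tsum fun x => ?_
        by_cases ha : Q Λ ht ds (3 * t) x ≤ 2 * th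
        · rw [if_pos ha, if_neg (fun h => h.2 ⟨h.1, ha⟩), zero_add]
        · rw [if_neg ha, add_zero]
          split_ifs
          · exact le_rfl
          · exact bot_le
      rcases hk2 with hk2 | hk2
      · have h3 := hsum.trans hQ1
        refine (ENNReal.le_sub_of_add_le_right hfin h3).trans ?_
        exact tsub_le_tsub_left hk2 1
      · rw [← hk2] at hsum
        have : ∑' x, (if lvn x ≤ 3 * t + i0 ∧ ¬ (lvn x ≤ 3 * t + i0 ∧
            Q Λ ht ds (3 * t) x ≤ 2 * th) then Q Λ ht ds (3 * t) x else 0) ≤ 0 := by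
          have h4 := (ENNReal.add_le_add_iff_right hfin).1 (hsum.trans (zero_add _).ge)
          exact h4
        exact this.trans bot_le
    · have := overshoot Λ ht h1 hU1 (3 * t) i0
      have h5 := SS_law Λ ht ds (3 * t) (fun x => if 3 * t + i0 < lvn x then (1 : ℝ≥0∞) else 0)
      simp only [hlv] at h5
      rw [h5] at this
      refine le_trans (le_of_eq ?_) this
      refine tsum_congr fun x => ?_
      split_ifs <;> simp

end one

section fin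
variable {BX BY K : Type*} [AddCommGroup K]
variable (ΛX : BX → ℝ≥0∞) (htX : BX → ℕ) (dX : BX → K)
variable (ΛY : BY → ℝ≥0∞) (htY : BY → ℕ) (dY : BY → K)
variable (lv : K →+ ℤ) (XS : List BX → Set K) (YS : List BY → Set K)

lemma numw (u : ℝ≥0∞) (hu1 : u ≤ 1) (oX oY : ℝ≥0∞) (hoX : oX ≤ 1) (J : ℕ) (cc1 C lam us aX aY cd η
    bX bY : ℝ≥0∞) (haX : aX ≤ cd) (haY : aY ≤ cd) (hbX : bX ≤ (1 - u) ^ J + J * oX)
    (hbY : bY ≤ (1 - u) ^ J + J * oY) :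
    (u + 2 * oX) * (u + 2 * oY) + (cc1 * (C * (lam + aX * us / lam + us)) + bX + 2 * oX + 2 * oY)
      + (cc1 * (C * (lam + aY * us / lam + us)) + bY + 2 * oY + 2 * oX) + η
    ≤ (u ^ 2 + 2 * (1 - u) ^ J) + (J + 12) * (oX + oY) + (2 * cc1 * C) * lam
      + (2 * cc1 * C * (cd / lam + 1)) * us + η := by
  have e1 : (u + 2 * oX) * (u + 2 * oY) ≤ u ^ 2 + 8 * (oX + oY) := by
    calc (u + 2 * oX) * (u + 2 * oY) = u ^ 2 + u * (2 * oY) + u * (2 * oX) + oX * (4 * oY) := by ring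
      _ ≤ u ^ 2 + 1 * (2 * oY) + 1 * (2 * oX) + 1 * (4 * oY) := by gcongr
      _ ≤ u ^ 2 + 1 * (2 * oY) + 1 * (2 * oX) + 1 * (4 * oY) + (6 * oX + 2 * oY) := le_self_add
      _ = _ := by ring
  have e2 : ∀ a, a ≤ cd → cc1 * (C * (lam + a * us / lam + us))
      ≤ cc1 * C * lam + cc1 * C * (cd / lam + 1) * us := by
    intro a ha
    calc cc1 * (C * (lam + a * us / lam + us)) ≤ cc1 * (C * (lam + cd * us / lam + us)) := by gcongr
      _ = _ := by simp only [ENNReal.div_eq_inv_mul]; ring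
  calc _ ≤ (u ^ 2 + 8 * (oX + oY)) + ((cc1 * C * lam + cc1 * C * (cd / lam + 1) * us)
        + ((1 - u) ^ J + J * oX) + 2 * oX + 2 * oY)
      + ((cc1 * C * lam + cc1 * C * (cd / lam + 1) * us) + ((1 - u) ^ J + J * oY) + 2 * oY + 2 * oX)
      + η := by
        gcongr
        · exact e2 _ haX
        · exact e2 _ haY
    _ = _ := by ring

open Classical in
theorem kappa_abs (G : Geo htX dX htY dY lv XS YS) (hΛX : ∑' b, ΛX b = 1) (hΛY : ∑' b, ΛY b = 1)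
    (hUX : ∀ n, U ΛX htX n ≤ 1) (hUY : ∀ n, U ΛY htY n ≤ 1)
    (hmX : ∑' b, ΛX b * (htX b : ℝ≥0∞) ≠ ⊤) (hmY : ∑' b, ΛY b * (htY b : ℝ≥0∞) ≠ ⊤)
    (C : ℝ≥0∞) (hC : C ≠ ⊤) (us : ℕ → ℝ≥0∞) (hus : Tendsto us atTop (𝓝 0))
    (hW2 : HW2 ΛX htX dX ΛY htY lv XS YS C us) (hW3 : HW3 ΛX htX ΛY htY dY lv XS YS C us)
    (hSL : ∀ r : ℕ, ∀ η : ℝ≥0∞, η ≠ 0 → ∃ L, ∀ l, L ≤ l → ∃ n0, ∀ n, n0 ≤ n →
      HSL ΛX htX ΛY htY lv XS YS η l r n)
    (ε : ℝ≥0∞) (hε : ε ≠ 0) : ∃ M : ℕ, ∀ m, M ≤ m → ∃ n0, ∀ n, n0 ≤ n → ∀ w, lv w = -1 →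
      ∑' LX, ∑' LY, (if HT htX LX = n ∧ HT htY LY = n ∧
        (∀ y ∈ XS LX, y - w ∈ YS LY → lv y < -(m : ℤ)) ∧
        (∃ y ∈ XS LX, y - w ∈ YS LY ∧ -((2 * m : ℕ) : ℤ) ≤ lv y)
        then LW ΛX LX * LW ΛY LY else 0) ≤ ε := by
  set δ : ℝ≥0∞ := min ε 1 / 5 with hδ
  have hδ0 : δ ≠ 0 := by
    rw [hδ, Ne, ENNReal.div_eq_zero_iff, not_or]
    refine ⟨?_, by norm_num⟩
    intro h; rcases min_eq_bot.1 h with h | h
    · exact hε h
    · exact one_ne_zero h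
  have hδt : δ ≠ ⊤ := ENNReal.div_ne_top (ne_top_of_le_ne_top ENNReal.one_ne_top (min_le_right _ _))
    (by norm_num)
  have hδ5 : 5 * δ ≤ ε := by
    rw [hδ, ENNReal.mul_div_cancel (by norm_num) (by norm_num)]; exact min_le_left _ _
  obtain ⟨N, hN1, hN⟩ := Num334.choose_K hδ0
  set J := N ^ 3 with hJ
  set u : ℝ≥0∞ := ((N : ℝ≥0∞) ^ 2)⁻¹ with hu
  set K' := 4 * J + 1 with hK'
  have hu0 : u ≠ 0 := ENNReal.inv_ne_zero.2 (ENNReal.pow_ne_top (ENNReal.natCast_ne_top N))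
  have hu1 : u ≤ 1 := by
    rw [hu]; apply ENNReal.inv_le_one.2
    apply one_le_pow₀
    exact_mod_cast hN1
  set nw : ℝ≥0∞ := ((4 * J + 3 : ℕ) : ℝ≥0∞) with hnw
  have hnwt : nw ≠ ⊤ := ENNReal.natCast_ne_top _
  have hA : nw * (u ^ 2 + 2 * (1 - u) ^ J) ≤ δ := by
    refine le_trans (mul_le_mul_left ?_ _) hN
    rw [hnw, hJ]
    push_cast
    have h48 : (4 : ℝ≥0∞) * (N : ℝ≥0∞) ^ 3 + 3 ≤ 32 * (N : ℝ≥0∞) ^ 3 + 8 := by
      gcongr <;> norm_num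
    exact h48
  -- i0
  have hov : Tendsto (fun i => ov ΛX htX i + ov ΛY htY i) atTop (𝓝 0) := by
    have := (ov_tendsto ΛX htX hmX hΛX).add (ov_tendsto ΛY htY hmY hΛY)
    simpa using this
  have hJ12 : nw * ((J : ℝ≥0∞) + 12) ≠ ⊤ :=
    ENNReal.mul_ne_top hnwt (by exact_mod_cast ENNReal.natCast_ne_top (J + 12))
  have hev1 := Num334.small_mul hov hJ12 hδ0
  have h01 : (0 : ℝ≥0∞) < 1 := by norm_num
  have hev2 := (ov_tendsto ΛX htX hmX hΛX).eventually (ge_mem_nhds h01)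
  have hev3 := (hev1.and hev2).exists
  obtain ⟨i0, hi0a, hi0b⟩ := hev3
  set cc1 : ℝ≥0∞ := ((2 * i0 + 1 : ℕ) : ℝ≥0∞) * (((i0 + 1 : ℕ) : ℝ≥0∞) * ((i0 + 1 : ℕ) : ℝ≥0∞))
    with hc1
  have hc1t : cc1 ≠ ⊤ := ENNReal.mul_ne_top (ENNReal.natCast_ne_top _)
    (ENNReal.mul_ne_top (ENNReal.natCast_ne_top _) (ENNReal.natCast_ne_top _))
  set cd : ℝ≥0∞ := 2 * (i0 + 1 : ℕ) * J with hcd
  have hcdt : cd ≠ ⊤ := ENNReal.mul_ne_top (ENNReal.mul_ne_top (by norm_num)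
    (ENNReal.natCast_ne_top _)) (ENNReal.natCast_ne_top _)
  have hc2t : nw * (2 * cc1 * C) ≠ ⊤ := ENNReal.mul_ne_top hnwt
    (ENNReal.mul_ne_top (ENNReal.mul_ne_top (by norm_num) hc1t) hC)
  obtain ⟨lam, hl0, hlt, hlam⟩ := Num334.small_const hc2t hδ0 hδt
  have hc3t : nw * (2 * cc1 * C * (cd / lam + 1)) ≠ ⊤ := ENNReal.mul_ne_top hnwt
    (ENNReal.mul_ne_top (ENNReal.mul_ne_top (ENNReal.mul_ne_top (by norm_num) hc1t) hC)
      (ENNReal.add_ne_top.2 ⟨ENNReal.div_ne_top hcdt hl0, ENNReal.one_ne_top⟩))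
  obtain ⟨s, hs⟩ := (Num334.small_mul hus hc3t hδ0).exists
  have hη0 : δ / nw ≠ 0 := by
    rw [Ne, ENNReal.div_eq_zero_iff, not_or]; exact ⟨hδ0, hnwt⟩
  have hnw0 : nw ≠ 0 := by rw [hnw]; exact_mod_cast Nat.succ_ne_zero (4 * J + 2)
  have hη : nw * (δ / nw) ≤ δ := (ENNReal.mul_div_cancel hnw0 hnwt).le
  obtain ⟨L, hL⟩ := hSL (2 * i0 + s) (δ / nw) hη0
  have hK0 : 0 < K' := by omega
  refine ⟨K' * (2 * i0 + s + K' + L + 1), fun m hm => ?_⟩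
  set t := m / K' with ht
  have ht0 : 2 * i0 + s + K' + L + 1 ≤ t :=
    (Nat.le_div_iff_mul_le hK0).2 (by rw [mul_comm]; exact hm)
  have htm : K' * t ≤ m := Nat.mul_div_le m K'
  have htm2 : m < K' * t + K' := by
    have := Nat.lt_mul_div_succ m hK0
    rw [← ht] at this; nlinarith
  obtain ⟨EX, MX, hνX, hMX, hdX⟩ := setup ΛX htX dX G.X1 hΛX.le hUX (fun x => (lv x).toNat)
    (fun L => by rw [G.Xlv]; simp) t i0 J u hu0
  obtain ⟨EY, MY, hνY, hMY, hdY⟩ := setup ΛY htY dY G.Y1 hΛY.le hUY (fun x => (-lv x).toNat)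
    (fun L => by rw [G.Ylv]; simp) t i0 J u hu0
  have hLk : ∀ k : ℕ, ∃ n0, K' ≤ k → ∀ n, n0 ≤ n →
      HSL ΛX htX ΛY htY lv XS YS (δ / nw) ((k - 1) * t + 2 * t - s) (2 * i0 + s) n := by
    intro k
    obtain ⟨n0, h⟩ := hL ((k - 1) * t + 2 * t - s) (by omega)
    exact ⟨n0, fun _ => h⟩
  choose n0f hn0f using hLk
  refine ⟨∑ k ∈ Finset.Icc K' (2 * K' + 1), n0f k + ((2 * K' + 1) * t + 3 * t + 2 * i0),
    fun n hn w hw => ?_⟩
  have hcover : ∀ LX LY, (if HT htX LX = n ∧ HT htY LY = n ∧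
        (∀ y ∈ XS LX, y - w ∈ YS LY → lv y < -(m : ℤ)) ∧
        (∃ y ∈ XS LX, y - w ∈ YS LY ∧ -((2 * m : ℕ) : ℤ) ≤ lv y)
        then LW ΛX LX * LW ΛY LY else 0) ≤ ∑ k ∈ Finset.Icc K' (2 * K' + 1),
        (if HT htX LX = n ∧ HT htY LY = n ∧ Cw lv XS YS ((k - 1) * t) t w LX LY
        then LW ΛX LX * LW ΛY LY else 0) := by
    intro LX LY
    by_cases hc : HT htX LX = n ∧ HT htY LY = n ∧
        (∀ y ∈ XS LX, y - w ∈ YS LY → lv y < -(m : ℤ)) ∧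
        (∃ y ∈ XS LX, y - w ∈ YS LY ∧ -((2 * m : ℕ) : ℤ) ≤ lv y)
    swap
    · rw [if_neg hc]; exact bot_le
    obtain ⟨cc1', c2', c3', y0, hy0, hy0', hy0l⟩ := hc
    have hex : ∃ k : ℕ, ∃ y ∈ XS LX, y - w ∈ YS LY ∧ lv y = -(k : ℤ) :=
      ⟨(-lv y0).toNat, y0, hy0, hy0', by have := (G.XSlev _ _ hy0).2; omega⟩
    obtain ⟨y1, hy1, hy1', hy1l⟩ := Nat.find_spec hex
    set k0 := Nat.find hex with hk0
    have hmin : ∀ y ∈ XS LX, y - w ∈ YS LY → lv y ≤ -(k0 : ℤ) := by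
      intro y hy hy'
      have h1 := (G.XSlev _ _ hy).2
      have : k0 ≤ (-lv y).toNat := Nat.find_min' hex ⟨y, hy, hy', by omega⟩
      omega
    have hk1 : m < k0 := by have := c3' y1 hy1 hy1'; omega
    have hk2 : k0 ≤ 2 * m := by have := hmin y0 hy0 hy0'; omega
    have htpos : 0 < t := by omega
    set k := (k0 - 1) / t with hk
    have hkt : k * t ≤ k0 - 1 := Nat.div_mul_le_self _ _
    have hkt2 : k0 - 1 < (k + 1) * t := by
      have := Nat.lt_mul_div_succ (k0 - 1) htpos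
      rw [← hk] at this; rw [mul_comm]; exact this
    have hkK : K' ≤ k := by
      rw [hk]; exact (Nat.le_div_iff_mul_le htpos).2 (by omega)
    have hkK2 : k ≤ 2 * K' + 1 := by
      have : k < 2 * K' + 2 := by
        rw [hk]; refine (Nat.div_lt_iff_lt_mul htpos).2 ?_
        have : (2 * K' + 2) * t = 2 * (K' * t + t) := by ring
        omega
      omega
    refine le_trans ?_ (Finset.single_le_sum (f := fun k =>
        (if HT htX LX = n ∧ HT htY LY = n ∧ Cw lv XS YS ((k - 1) * t) t w LX LY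
        then LW ΛX LX * LW ΛY LY else 0)) (fun _ _ => bot_le) (Finset.mem_Icc.2 ⟨hkK, hkK2⟩))
    have hkk : (k - 1) * t + t = k * t := by
      obtain ⟨k', hk'⟩ : ∃ k', k = k' + 1 := ⟨k - 1, by omega⟩
      rw [hk']; simp only [Nat.add_sub_cancel]; ring
    have hkk2 : (k + 1) * t = k * t + t := by ring
    split_ifs with ha hb hb
    · exact le_rfl
    · exfalso
      refine hb ⟨cc1', c2', fun y hy hy' => ?_, y1, hy1, hy1', ?_⟩
      · have := hmin y hy hy'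
        rw [hkk]; omega
      · rw [hy1l]; omega
    · exact bot_le
    · exact absurd ⟨cc1', c2', c3', y0, hy0, hy0', hy0l⟩ ha
  refine (ENNReal.tsum_le_tsum fun LX => ENNReal.tsum_le_tsum fun LY => hcover LX LY).trans ?_
  have hsw : ∑' LX, ∑' LY, ∑ k ∈ Finset.Icc K' (2 * K' + 1),
        (if HT htX LX = n ∧ HT htY LY = n ∧ Cw lv XS YS ((k - 1) * t) t w LX LY
        then LW ΛX LX * LW ΛY LY else 0)
      = ∑ k ∈ Finset.Icc K' (2 * K' + 1), ∑' LX, ∑' LY,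
        (if HT htX LX = n ∧ HT htY LY = n ∧ Cw lv XS YS ((k - 1) * t) t w LX LY
        then LW ΛX LX * LW ΛY LY else 0) := by
    rw [← Summable.tsum_finsetSum (fun _ _ => ENNReal.summable)]
    refine tsum_congr fun LX => ?_
    rw [← Summable.tsum_finsetSum (fun _ _ => ENNReal.summable)]
  rw [hsw]
  set Wb : ℝ≥0∞ := (u ^ 2 + 2 * (1 - u) ^ J) + (J + 12) * (ov ΛX htX i0 + ov ΛY htY i0)
      + (2 * cc1 * C) * lam + (2 * cc1 * C * (cd / lam + 1)) * us s + δ / nw with hWb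
  have hwin : ∀ k ∈ Finset.Icc K' (2 * K' + 1), ∑' LX, ∑' LY,
        (if HT htX LX = n ∧ HT htY LY = n ∧ Cw lv XS YS ((k - 1) * t) t w LX LY
        then LW ΛX LX * LW ΛY LY else 0) ≤ Wb := by
    intro k hk
    obtain ⟨hk1, hk2⟩ := Finset.mem_Icc.1 hk
    have hH : J * (3 * t + i0) ≤ (k - 1) * t := by
      have h1 : 4 * J ≤ k - 1 := by omega
      calc J * (3 * t + i0) ≤ J * (4 * t) := Nat.mul_le_mul_left _ (by omega)
        _ = (4 * J) * t := by ring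
        _ ≤ _ := Nat.mul_le_mul_right _ h1
    obtain ⟨gX, bX, hQX, hgX, hbX⟩ := hdX _ hH
    obtain ⟨gY, bY, hQY, hgY, hbY⟩ := hdY _ hH
    have hn0k : n0f k ≤ n := le_trans (le_trans
      (Finset.single_le_sum (f := n0f) (fun _ _ => Nat.zero_le _) hk) (Nat.le_add_right _ _)) hn
    have hkt : (k - 1) * t ≤ (2 * K' + 1) * t := Nat.mul_le_mul_right _ (by omega)
    have h := one_window ΛX htX dX ΛY htY dY lv XS YS G hΛX.le hΛY.le hUX hUY C us hW2 hW3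
      ((k - 1) * t) t i0 s n (by omega) (by omega) EX EY w hw gX bX hQX gY bY hQY MX MY hgX hgY
      lam hl0 hlt u u (δ / nw) hνX hνY (hn0f k hk1 n hn0k)
    refine h.trans (le_trans (le_of_eq ?_) (numw u hu1 (ov ΛX htX i0) (ov ΛY htY i0) hi0b J cc1 C lam
      (us s) (MX * EX.card) (MY * EY.card) cd (δ / nw) (∑' x, bX x) (∑' x, bY x) hMX hMY hbX hbY))
    rw [hc1]; simp only [mul_assoc]
  calc _ ≤ ∑ k ∈ Finset.Icc K' (2 * K' + 1), Wb := Finset.sum_le_sum hwin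
    _ = nw * Wb := by
        rw [Finset.sum_const, Nat.card_Icc, nsmul_eq_mul, hnw]
        congr 2; omega
    _ = nw * (u ^ 2 + 2 * (1 - u) ^ J) + nw * (J + 12) * (ov ΛX htX i0 + ov ΛY htY i0)
      + (nw * (2 * cc1 * C)) * lam + (nw * (2 * cc1 * C * (cd / lam + 1))) * us s
      + nw * (δ / nw) := by rw [hWb]; ring
    _ ≤ δ + δ + δ + δ + δ := by gcongr
    _ = 5 * δ := by ring
    _ ≤ ε := hδ5

end fin

end Crest.Agent.R154.Comp804
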