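import Crest.Agent.R154.B5Rec_566

/-! Row 154, ROAD 801, composition (helper804): lists of blocks stopped at a height, overshoot,
quantile, smooth density. -/

set_option autoImplicit false

namespace Crest.Agent.R154.Comp804

open scoped ENNReal
open Crest.Agent.R154.B5A

variable {B : Type*}

/-- `L` (from the top) is stopped at the first total height `≥ h` -/
def Stp (ht : B → ℕ) : List B → ℕ → Prop
  | [], h => h = 0
  | b :: L, h => 0 < h ∧ Stp ht L (h - ht b)

lemma Stp_ht (ht : B → ℕ) : ∀ (L : List B) (h : ℕ), Stp ht L h → h ≤ HT ht L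
  | [], h, H => by simp only [Stp] at H; omega
  | b :: L, h, H => by
    have := Stp_ht ht L _ H.2
    rw [HT_cons]; omega

lemma Stp_unique (ht : B → ℕ) : ∀ (T T' R R' : List B) (h : ℕ), Stp ht T h → Stp ht T' h →
    T ++ R = T' ++ R' → T = T' ∧ R = R'
  | [], [], R, R', h, _, _, e => ⟨rfl, by simpa using e⟩
  | [], b :: T', R, R', h, H, H', _ => by
    simp only [Stp] at H H'; omega
  | b :: T, [], R, R', h, H, H', _ => by
    simp only [Stp] at H H'; omega
  | b :: T, b' :: T', R, R', h, H, H', e => by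
    simp only [List.cons_append, List.cons.injEq] at e
    obtain ⟨rfl, e⟩ := e
    obtain ⟨h1, h2⟩ := Stp_unique ht T T' R R' _ H.2 H'.2 e
    exact ⟨by rw [h1], h2⟩

variable (Λ : B → ℝ≥0∞) (ht : B → ℕ)

open Classical in
/-- sum over the stopped lists -/
noncomputable def SS (h : ℕ) (F : List B → ℝ≥0∞) : ℝ≥0∞ :=
  ∑' L : List B, if Stp ht L h then LW Λ L * F L else 0

lemma SS_zero (F : List B → ℝ≥0∞) : SS Λ ht 0 F = F [] := by
  rw [SS, tsum_list]
  simp [LW_nil, Stp]

lemma SS_pos (h : ℕ) (hh : 0 < h) (F : List B → ℝ≥0∞) :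
    SS Λ ht h F = ∑' b, Λ b * SS Λ ht (h - ht b) (fun L => F (b :: L)) := by
  rw [SS, tsum_list]
  have : ¬ (h = 0) := by omega
  simp only [Stp, this, if_false, zero_add]
  refine tsum_congr fun b => ?_
  rw [SS, ← ENNReal.tsum_mul_left]
  refine tsum_congr fun L => ?_
  by_cases hL : Stp ht L (h - ht b)
  · simp [hL, hh, LW_cons, mul_assoc]
  · simp [hL]

lemma SS_mono (h : ℕ) {F F' : List B → ℝ≥0∞} (H : ∀ L, Stp ht L h → F L ≤ F' L) :
    SS Λ ht h F ≤ SS Λ ht h F' := by
  refine ENNReal.tsum_le_tsum fun L => ?_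
  split_ifs with h1
  · exact mul_le_mul_right (H L h1) _
  · exact le_rfl

lemma SS_congr (h : ℕ) {F F' : List B → ℝ≥0∞} (H : ∀ L, Stp ht L h → F L = F' L) :
    SS Λ ht h F = SS Λ ht h F' :=
  le_antisymm (SS_mono Λ ht h fun L hL => (H L hL).le) (SS_mono Λ ht h fun L hL => (H L hL).ge)

lemma SS_add (h : ℕ) (F F' : List B → ℝ≥0∞) :
    SS Λ ht h (fun L => F L + F' L) = SS Λ ht h F + SS Λ ht h F' := by
  rw [SS, SS, SS, ← ENNReal.tsum_add]
  refine tsum_congr fun L => ?_
  split_ifs <;> simp [mul_add]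

lemma SS_mul (h : ℕ) (a : ℝ≥0∞) (F : List B → ℝ≥0∞) :
    SS Λ ht h (fun L => a * F L) = a * SS Λ ht h F := by
  rw [SS, SS, ← ENNReal.tsum_mul_left]
  refine tsum_congr fun L => ?_
  split_ifs
  · ring
  · simp

lemma SS_tsum {ι : Type*} (h : ℕ) (F : ι → List B → ℝ≥0∞) :
    SS Λ ht h (fun L => ∑' i, F i L) = ∑' i, SS Λ ht h (F i) := by
  simp only [SS]
  rw [ENNReal.tsum_comm]
  refine tsum_congr fun L => ?_
  split_ifs
  · rw [ENNReal.tsum_mul_left]
  · simp

lemma SS_one (h1 : ∀ b, 1 ≤ ht b) (hΛ : ∑' b, Λ b ≤ 1) (h : ℕ) :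
    SS Λ ht h (fun _ => 1) ≤ 1 := by
  induction h using Nat.strong_induction_on with
  | _ h ih =>
    rcases Nat.eq_zero_or_pos h with rfl | hh
    · rw [SS_zero]
    · rw [SS_pos _ _ _ hh]
      refine le_trans (ENNReal.tsum_le_tsum fun b => ?_) hΛ
      calc Λ b * SS Λ ht (h - ht b) (fun _ => 1) ≤ Λ b * 1 :=
            mul_le_mul_right (ih _ (by have := h1 b; omega)) _
        _ = Λ b := mul_one _

lemma SS_le_one (h1 : ∀ b, 1 ≤ ht b) (hΛ : ∑' b, Λ b ≤ 1) (h : ℕ) (F : List B → ℝ≥0∞)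
    (hF : ∀ L, F L ≤ 1) : SS Λ ht h F ≤ 1 :=
  (SS_mono Λ ht h fun L _ => hF L).trans (SS_one Λ ht h1 hΛ h)

lemma SS_le_const (h1 : ∀ b, 1 ≤ ht b) (hΛ : ∑' b, Λ b ≤ 1) (h : ℕ) (F : List B → ℝ≥0∞)
    (a : ℝ≥0∞) (hF : ∀ L, Stp ht L h → F L ≤ a) : SS Λ ht h F ≤ a := by
  calc SS Λ ht h F ≤ SS Λ ht h (fun L => a * 1) := SS_mono Λ ht h fun L hL => by
        rw [mul_one]; exact hF L hL
    _ = a * SS Λ ht h (fun _ => 1) := SS_mul _ _ _ _ _
    _ ≤ a * 1 := mul_le_mul_right (SS_one Λ ht h1 hΛ h) _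
    _ = a := mul_one _

open Classical in
/-- split a sum over all lists at the stopping height -/
lemma split_all (h1 : ∀ b, 1 ≤ ht b) (h : ℕ) (F : List B → ℝ≥0∞) :
    ∑' L, (if h ≤ HT ht L then LW Λ L * F L else 0)
      = SS Λ ht h (fun S => ∑' R, LW Λ R * F (S ++ R)) := by
  induction h using Nat.strong_induction_on generalizing F with
  | _ h ih =>
    rcases Nat.eq_zero_or_pos h with rfl | hh
    · rw [SS_zero]; simp
    · rw [SS_pos _ _ _ hh, tsum_list, if_neg (by rw [HT_nil]; omega), zero_add]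
      refine tsum_congr fun b => ?_
      have := ih (h - ht b) (by have := h1 b; omega) (fun L => F (b :: L))
      simp only [List.cons_append]
      rw [← this, ← ENNReal.tsum_mul_left]
      refine tsum_congr fun L => ?_
      have e : (h ≤ HT ht (b :: L)) ↔ (h - ht b ≤ HT ht L) := by rw [HT_cons]; omega
      by_cases hL : h - ht b ≤ HT ht L
      · rw [if_pos (e.2 hL), if_pos hL, LW_cons, mul_assoc]
      · rw [if_neg (fun h' => hL (e.1 h')), if_neg hL, mul_zero]

lemma split_SS (h1 : ∀ b, 1 ≤ ht b) (h H : ℕ) (hH : h ≤ H) (F : List B → ℝ≥0∞) :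
    SS Λ ht H F = SS Λ ht h (fun A => SS Λ ht (H - HT ht A) (fun S => F (A ++ S))) := by
  induction h using Nat.strong_induction_on generalizing H F with
  | _ h ih =>
    rcases Nat.eq_zero_or_pos h with rfl | hh
    · rw [SS_zero]; simp [HT_nil]
    · rw [SS_pos _ _ _ hh, SS_pos _ _ _ (lt_of_lt_of_le hh hH)]
      refine tsum_congr fun b => ?_
      rw [ih (h - ht b) (by have := h1 b; omega) (H - ht b) (by omega)]
      congr 1
      refine SS_congr _ _ _ fun A _ => ?_
      rw [HT_cons, Nat.sub_sub]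
      rfl

open Classical in
lemma SS_le_last (h1 : ∀ b, 1 ≤ ht b) (h : ℕ) (hh : 0 < h) (F : List B → ℝ≥0∞) :
    SS Λ ht h F ≤ ∑' S, (if HT ht S < h then LW Λ S * ∑' b, Λ b * F (S ++ [b]) else 0) := by
  induction h using Nat.strong_induction_on generalizing F with
  | _ h ih =>
    rw [SS_pos _ _ _ hh, tsum_list, if_pos (by rw [HT_nil]; exact hh), LW_nil, one_mul,
      ← ENNReal.tsum_add]
    refine ENNReal.tsum_le_tsum fun b => ?_
    rcases Nat.eq_zero_or_pos (h - ht b) with h0 | h0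
    · rw [h0, SS_zero]
      exact le_self_add
    · refine le_trans ?_ le_add_self
      have := ih (h - ht b) (by have := h1 b; omega) h0 (fun L => F (b :: L))
      refine (mul_le_mul_right this _).trans ?_
      rw [← ENNReal.tsum_mul_left]
      refine ENNReal.tsum_le_tsum fun S => ?_
      have e : (HT ht (b :: S) < h) ↔ (HT ht S < h - ht b) := by rw [HT_cons]; omega
      by_cases hS : HT ht S < h - ht b
      · rw [if_pos hS, if_pos (e.2 hS), LW_cons, mul_assoc]
        simp only [List.cons_append]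
        exact le_rfl
      · rw [if_neg hS, mul_zero]; exact bot_le

/-- overshoot tail -/
noncomputable def ov (i : ℕ) : ℝ≥0∞ := ∑' k, tail Λ ht (k + (i + 1))

open Classical in
lemma overshoot (h1 : ∀ b, 1 ≤ ht b) (hU1 : ∀ n, U Λ ht n ≤ 1) (h i : ℕ) :
    SS Λ ht h (fun S => if h + i < HT ht S then 1 else 0) ≤ ov Λ ht i := by
  rcases Nat.eq_zero_or_pos h with rfl | hh
  · rw [SS_zero]; simp [HT_nil]
  · refine (SS_le_last Λ ht h1 h hh _).trans ?_
    calc ∑' S, (if HT ht S < h then LW Λ S * ∑' b, Λ b *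
            (if h + i < HT ht (S ++ [b]) then (1 : ℝ≥0∞) else 0) else 0)
        = ∑' S, ∑ j ∈ Finset.range h, (if HT ht S = j then LW Λ S * tail Λ ht (h + i - j) else 0) := by
          refine tsum_congr fun S => ?_
          rw [Finset.sum_ite_eq (Finset.range h) (HT ht S)
            (fun j => LW Λ S * tail Λ ht (h + i - j))]
          by_cases hS : HT ht S < h
          · rw [if_pos hS, if_pos (Finset.mem_range.2 hS)]
            congr 1
            rw [tail]
            refine tsum_congr fun b => ?_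
            have e : (h + i < HT ht (S ++ [b])) ↔ (h + i - HT ht S < ht b) := by
              rw [HT_append, HT_cons, HT_nil]; omega
            by_cases hb : h + i - HT ht S < ht b
            · rw [if_pos hb, if_pos (e.2 hb), mul_one]
            · rw [if_neg hb, if_neg (fun h' => hb (e.1 h')), mul_zero]
          · rw [if_neg hS, if_neg (fun h' => hS (Finset.mem_range.1 h'))]
      _ = ∑ j ∈ Finset.range h, U Λ ht j * tail Λ ht (h + i - j) := by
          rw [Summable.tsum_finsetSum (fun _ _ => ENNReal.summable)]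
          refine Finset.sum_congr rfl fun j _ => ?_
          rw [U, ← ENNReal.tsum_mul_right]
          refine tsum_congr fun S => ?_
          split_ifs <;> simp
      _ ≤ ∑ j ∈ Finset.range h, tail Λ ht (h + i - j) := by
          refine Finset.sum_le_sum fun j _ => ?_
          calc _ ≤ 1 * tail Λ ht (h + i - j) := mul_le_mul_left (hU1 j) _
            _ = _ := one_mul _
      _ = ∑ j ∈ Finset.range h, tail Λ ht (j + (i + 1)) := by
          rw [← Finset.sum_range_reflect]
          refine Finset.sum_congr rfl fun j hj => ?_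
          have := Finset.mem_range.1 hj
          congr 1; omega
      _ ≤ _ := ENNReal.sum_le_tsum _

lemma ov_tendsto (hfin : ∑' b, Λ b * (ht b : ℝ≥0∞) ≠ ⊤) (hΛ : ∑' b, Λ b = 1) :
    Filter.Tendsto (ov Λ ht) Filter.atTop (nhds 0) := by
  have h2 : ∑' k, tail Λ ht k ≠ ⊤ := by rw [← sum_tail Λ ht hΛ]; exact hfin
  have h3 := ENNReal.tendsto_sum_nat_add (fun k => tail Λ ht k) h2
  exact (Filter.tendsto_add_atTop_iff_nat 1).2 h3

end Crest.Agent.R154.Comp804
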