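import Crest.Agent.R154.B5First_181

/-! Row 154, ROAD 801 (helper818): composition of KAPPA' (list letters of `B5A`).
Windows between joint cuts, pieces of one exact height `H`. -/

set_option autoImplicit false
set_option linter.unusedSectionVars false
set_option linter.unusedVariables false

namespace Crest.Agent.R154.Comp818

open scoped ENNReal
open Crest.Agent.R154.B5A

variable {B W : Type*} (Λ : B → ℝ≥0∞) (ht : B → ℕ) (dl : B → W → W) (cd : W → B → Set ℕ)

/-- minimal prefix of height `≥ T` -/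
def att (T : ℕ) (L : List B) : Prop :=
  T ≤ HT ht L ∧ ∀ i, i < L.length → HT ht (L.take i) < T

open Classical in
/-- piece of exact height `H`: some contact, none in the top and bottom `s` levels -/
noncomputable def WLp (H s : ℕ) (w : W) : ℝ≥0∞ :=
  ∑' L : List B, if HT ht L = H ∧ CD ht dl cd L w ≠ ∅ ∧ (∀ k ∈ CD ht dl cd L w, s < k ∧ k + s ≤ H)
    then LW Λ L else 0

lemma HT_take_mono (L : List B) {i j : ℕ} (hij : i ≤ j) :
    HT ht (L.take i) ≤ HT ht (L.take j) := by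
  have h : L.take i = (L.take j).take i := by rw [List.take_take, min_eq_left hij]
  rw [h]
  conv_rhs => rw [← List.take_append_drop i (L.take j)]
  rw [HT_append]
  exact Nat.le_add_right _ _

/-- every list of height `≥ T` has a minimal prefix of height `≥ T` -/
lemma exists_att (T : ℕ) (L : List B) (hL : T ≤ HT ht L) : ∃ i, att ht T (L.take i) := by
  classical
  have hex : ∃ i, T ≤ HT ht (L.take i) := ⟨L.length, by rwa [List.take_length]⟩
  refine ⟨Nat.find hex, Nat.find_spec hex, fun i hi => ?_⟩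
  have hi' : i < Nat.find hex := lt_of_lt_of_le hi (by rw [List.length_take]; exact min_le_left _ _)
  have h := Nat.find_min hex hi'
  rw [List.take_take, min_eq_left hi'.le]
  omega

/-- the minimal prefixes are prefix free -/
lemma att_unique (T : ℕ) {L1 L2 M1 M2 : List B} (h1 : att ht T L1) (h2 : att ht T M1)
    (h : L1 ++ L2 = M1 ++ M2) : L1 = M1 := by
  rcases lt_trichotomy L1.length M1.length with hl | hl | hl
  · exfalso
    have e : M1.take L1.length = L1 := by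
      have : (M1 ++ M2).take L1.length = L1 := by rw [← h, List.take_left']; rfl
      rwa [List.take_append_of_le_length hl.le] at this
    have := h2.2 _ hl
    rw [e] at this
    exact absurd h1.1 (by omega)
  · exact (List.append_inj h hl).1
  · exfalso
    have e : L1.take M1.length = M1 := by
      have : (L1 ++ L2).take M1.length = M1 := by rw [h, List.take_left']; rfl
      rwa [List.take_append_of_le_length hl.le] at this
    have := h1.2 _ hl
    rw [e] at this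
    exact absurd h2.1 (by omega)

/-- split every list -/
lemma split_le (f : List B → ℝ≥0∞) (g : List B × List B → ℝ≥0∞)
    (h : ∀ L, f L ≠ 0 → ∃ i, f L ≤ g (L.take i, L.drop i)) : ∑' L, f L ≤ ∑' p, g p := by
  classical
  have h' : ∀ L, ∃ i : ℕ, f L ≤ g (L.take i, L.drop i) := by
    intro L
    by_cases h0 : f L = 0
    · exact ⟨0, by rw [h0]; exact zero_le⟩
    · exact h L h0
  choose i hi using h'
  have hinj : Function.Injective (fun L : List B => (L.take (i L), L.drop (i L))) := by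
    intro L M hLM
    simp only [Prod.mk.injEq] at hLM
    rw [← List.take_append_drop (i L) L, ← List.take_append_drop (i M) M, hLM.1, hLM.2]
  calc ∑' L, f L ≤ ∑' L, g (L.take (i L), L.drop (i L)) := ENNReal.tsum_le_tsum hi
    _ ≤ _ := ENNReal.tsum_comp_le_tsum_of_injective hinj g

open Classical in
/-- glue -/
lemma app_le (P : List B → Prop)
    (hP : ∀ L1 L2 M1 M2 : List B, P L1 → P M1 → L1 ++ L2 = M1 ++ M2 → L1 = M1)
    (g : List B → ℝ≥0∞) :
    ∑' L1, ∑' L2, (if P L1 then g (L1 ++ L2) else 0) ≤ ∑' L, g L := by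
  rw [← ENNReal.tsum_prod]
  set S : Set (List B × List B) := {p | P p.1} with hS
  have e : (∑' p : List B × List B, (if P p.1 then g (p.1 ++ p.2) else 0))
      = ∑' p : S, g (p.1.1 ++ p.1.2) := by
    rw [tsum_subtype S (fun p : List B × List B => g (p.1 ++ p.2))]
    refine tsum_congr fun p => ?_
    by_cases h : P p.1
    · rw [if_pos h, Set.indicator_of_mem (show p ∈ S from h)]
    · rw [if_neg h, Set.indicator_of_notMem (show p ∉ S from h)]
  rw [e]
  have hinj : Function.Injective (fun p : S => p.1.1 ++ p.1.2) := by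
    rintro ⟨⟨a, b⟩, ha⟩ ⟨⟨a', b'⟩, ha'⟩ h
    simp only at h
    have h1 : a = a' := hP a b a' b' ha ha' h
    subst h1
    have h2 : b = b' := List.append_cancel_left h
    subst h2
    rfl
  exact ENNReal.tsum_comp_le_tsum_of_injective hinj g

lemma CD_fst {L M : List B} {w : W} {k : ℕ} (hk : k ∈ CD ht dl cd L w) :
    k ∈ CD ht dl cd (L ++ M) w := by rw [CD_append]; exact Or.inl hk

lemma CD_snd {L M : List B} {w : W} {k : ℕ} (hk : k ∈ CD ht dl cd M (act dl L w)) :
    HT ht L + k ∈ CD ht dl cd (L ++ M) w := by rw [CD_append]; exact Or.inr ⟨k, hk, rfl⟩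

open Classical in
/-- first contact in `(a, a + t]` -/
noncomputable def Fst (n a t : ℕ) (w : W) : ℝ≥0∞ :=
  ∑' L : List B, if HT ht L = n ∧ (∀ k ∈ CD ht dl cd L w, a < k) ∧
    (∃ k ∈ CD ht dl cd L w, k ≤ a + t) then LW Λ L else 0

open Classical in
/-- no joint cut in `[a, a + i0]` -/
noncomputable def Gap (n a i0 : ℕ) : ℝ≥0∞ :=
  ∑' L : List B, if HT ht L = n ∧ (∀ i, ¬ (a ≤ HT ht (L.take i) ∧ HT ht (L.take i) ≤ a + i0))
    then LW Λ L else 0

lemma HT_take_lt (h1 : ∀ b, 1 ≤ ht b) (L : List B) {i : ℕ} (hi : i < L.length) :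
    HT ht (L.take i) < HT ht L := by
  conv_rhs => rw [← List.take_append_drop i L]
  rw [HT_append]
  have := length_le_HT ht h1 (L.drop i)
  rw [List.length_drop] at this
  omega

lemma att_eq (h1 : ∀ b, 1 ≤ ht b) {n : ℕ} {L : List B} (h : HT ht L = n) : att ht n L :=
  ⟨h.ge, fun i hi => by have := HT_take_lt ht h1 L hi; omega⟩

open Classical in
/-- completion of a prefix free family to one exact height, price `1 / c` -/
lemma ext_gen (c : ℝ≥0∞) (hc : c ≠ 0) (hc' : c ≠ ⊤) (hU : ∀ n, c ≤ U Λ ht n)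
    (P : List B → Prop)
    (hP : ∀ L1 L2 M1 M2 : List B, P L1 → P M1 → L1 ++ L2 = M1 ++ M2 → L1 = M1)
    (n' : ℕ) (F : List B → Prop) [DecidablePred F] (hF : ∀ L, F L → P L ∧ HT ht L ≤ n') (g : List B → ℝ≥0∞)
    (hg : ∀ L1 L2, F L1 → HT ht L1 + HT ht L2 = n' → LW Λ L1 * LW Λ L2 ≤ g (L1 ++ L2)) :
    ∑' L, (if F L then LW Λ L else 0) ≤ c⁻¹ * ∑' L, g L := by
  have h1 : ∀ L1, (if F L1 then LW Λ L1 else 0)
      ≤ c⁻¹ * ∑' L2, (if P L1 then g (L1 ++ L2) else 0) := by
    intro L1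
    by_cases hL : F L1
    · rw [if_pos hL]
      have h2 : LW Λ L1 * U Λ ht (n' - HT ht L1) ≤ ∑' L2, (if P L1 then g (L1 ++ L2) else 0) := by
        rw [U, ← ENNReal.tsum_mul_left]
        refine ENNReal.tsum_le_tsum fun L2 => ?_
        rw [if_pos (hF L1 hL).1]
        by_cases h : HT ht L2 = n' - HT ht L1
        · rw [if_pos h]
          exact hg L1 L2 hL (by have := (hF L1 hL).2; omega)
        · rw [if_neg h, mul_zero]; exact zero_le
      calc LW Λ L1 = c⁻¹ * (LW Λ L1 * c) := by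
            rw [mul_comm (LW Λ L1), ← mul_assoc, ENNReal.inv_mul_cancel hc hc', one_mul]
        _ ≤ c⁻¹ * (LW Λ L1 * U Λ ht (n' - HT ht L1)) :=
            mul_le_mul_right (mul_le_mul_right (hU _) _) _
        _ ≤ _ := mul_le_mul_right h2 _
    · rw [if_neg hL]; exact zero_le
  calc _ ≤ ∑' L1, c⁻¹ * ∑' L2, (if P L1 then g (L1 ++ L2) else 0) := ENNReal.tsum_le_tsum h1
    _ = c⁻¹ * ∑' L1, ∑' L2, (if P L1 then g (L1 ++ L2) else 0) := ENNReal.tsum_mul_left
    _ ≤ _ := mul_le_mul_right (app_le P hP g) _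

open Classical in
/-- extension by `N` levels -/
lemma ext (h1 : ∀ b, 1 ≤ ht b) (c : ℝ≥0∞) (hc : c ≠ 0) (hc' : c ≠ ⊤)
    (hU : ∀ n, c ≤ U Λ ht n)
    (hcd : ∀ w b k, k ∈ cd w b → 1 ≤ k ∧ k ≤ ht b) (n N a t : ℕ) (w : W) :
    Fst Λ ht dl cd n a t w ≤ c⁻¹ * Fst Λ ht dl cd (n + N) a t w := by
  refine ext_gen Λ ht c hc hc' hU (fun L => HT ht L = n)
    (fun L1 L2 M1 M2 e1 e2 h => att_unique ht n (att_eq ht h1 e1) (att_eq ht h1 e2) h)
    (n + N) (fun L => HT ht L = n ∧ (∀ k ∈ CD ht dl cd L w, a < k) ∧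
    (∃ k ∈ CD ht dl cd L w, k ≤ a + t)) (fun L hL => ⟨hL.1, by have := hL.1; omega⟩)
    (fun L => if HT ht L = n + N ∧ (∀ k ∈ CD ht dl cd L w, a < k) ∧
    (∃ k ∈ CD ht dl cd L w, k ≤ a + t) then LW Λ L else 0) ?_
  rintro L1 L2 ⟨hn, hall, k, hk, hk2⟩ hh
  have hkp := CD_pos ht dl cd hcd L1 _ _ hk
  rw [if_pos, LW_append]
  refine ⟨by rw [HT_append]; exact hh, ?_, k, CD_fst ht dl cd hk, hk2⟩
  intro k1 hk1
  rw [CD_append] at hk1
  rcases hk1 with hk1 | ⟨k2, _, hk2'⟩
  · exact hall k1 hk1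
  · have := hall k hk
    simp only at hk2'
    omega

open Classical in
/-- the piece of exact height `H` -/
noncomputable def Pc (H s : ℕ) (w : W) : ℝ≥0∞ :=
  ∑' L : List B, if HT ht L = H ∧ (∀ k ∈ CD ht dl cd L w, s < k) ∧
    (∃ k ∈ CD ht dl cd L w, k + s ≤ H) then LW Λ L else 0

open Classical in
lemma fst_le (h1 : ∀ b, 1 ≤ ht b) (c : ℝ≥0∞) (hc : c ≠ 0) (hc' : c ≠ ⊤)
    (hU : ∀ n, c ≤ U Λ ht n) (hU1 : ∀ n, U Λ ht n ≤ 1)
    (hcd : ∀ w b k, k ∈ cd w b → 1 ≤ k ∧ k ≤ ht b) (n a a' t s i0 : ℕ) (w : W)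
    (ha : a' + i0 + s = a) (hn : a + t + i0 ≤ n) :
    Fst Λ ht dl cd n a t w ≤ Gap Λ ht n a' i0 + Gap Λ ht n (a + t) i0 +
      c⁻¹ * ∑' L1 : List B, (if att ht a' L1 ∧ HT ht L1 ≤ a' + i0 then
        LW Λ L1 * Pc Λ ht dl cd (t + 2 * s + 2 * i0) s (act dl L1 w) else 0) := by
  set H := t + 2 * s + 2 * i0 with hH
  -- good lists
  set Fc : List B → Prop := fun L => (∀ k ∈ CD ht dl cd L w, a < k) ∧
    (∃ k ∈ CD ht dl cd L w, k ≤ a + t) ∧
    (∃ i, a' ≤ HT ht (L.take i) ∧ HT ht (L.take i) ≤ a' + i0) with hFc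
  set good : List B → ℝ≥0∞ := fun L => if HT ht L = n ∧ Fc L ∧
    (∃ i, a + t ≤ HT ht (L.take i) ∧ HT ht (L.take i) ≤ a + t + i0) then LW Λ L else 0 with hgood
  have step0 : Fst Λ ht dl cd n a t w ≤ Gap Λ ht n a' i0 + Gap Λ ht n (a + t) i0 + ∑' L, good L := by
    rw [Fst, Gap, Gap, ← ENNReal.tsum_add, ← ENNReal.tsum_add]
    refine ENNReal.tsum_le_tsum fun L => ?_
    by_cases hL : HT ht L = n ∧ (∀ k ∈ CD ht dl cd L w, a < k) ∧
        (∃ k ∈ CD ht dl cd L w, k ≤ a + t)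
    · rw [if_pos hL]
      by_cases g1 : ∀ i, ¬ (a' ≤ HT ht (L.take i) ∧ HT ht (L.take i) ≤ a' + i0)
      · rw [if_pos ⟨hL.1, g1⟩, add_assoc]; exact le_self_add
      · by_cases g2 : ∀ i, ¬ (a + t ≤ HT ht (L.take i) ∧ HT ht (L.take i) ≤ a + t + i0)
        · have e : (if HT ht L = n ∧ (∀ i, ¬ (a + t ≤ HT ht (L.take i) ∧
              HT ht (L.take i) ≤ a + t + i0)) then LW Λ L else 0) = LW Λ L := if_pos ⟨hL.1, g2⟩
          rw [e]
          exact le_trans le_add_self le_self_add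
        · push Not at g1 g2
          have : good L = LW Λ L := by
            rw [hgood]
            exact if_pos ⟨hL.1, ⟨hL.2.1, hL.2.2, g1⟩, g2⟩
          rw [this]; exact le_add_self
    · rw [if_neg hL]; exact zero_le
  -- first split at `a + t`
  have step1 : ∑' L, good L ≤ ∑' L : List B, (if att ht (a + t) L ∧ HT ht L ≤ a + t + i0 ∧ Fc L
      then LW Λ L else 0) := by
    refine le_trans (split_le good (fun p => if att ht (a + t) p.1 ∧ HT ht p.1 ≤ a + t + i0 ∧
      Fc p.1 ∧ HT ht p.2 = n - HT ht p.1 then LW Λ p.1 * LW Λ p.2 else 0) ?_) ?_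
    · intro L hL
      have hcond : HT ht L = n ∧ Fc L ∧
          (∃ i, a + t ≤ HT ht (L.take i) ∧ HT ht (L.take i) ≤ a + t + i0) := by
        by_contra hc0
        exact hL (if_neg hc0)
      obtain ⟨hHT, ⟨hall, ⟨k, hk, hk2⟩, i, hi1, hi2⟩, j, hj1, hj2⟩ := hcond
      obtain ⟨r, hr⟩ := exists_att ht (a + t) (L.take j) hj1
      rw [List.take_take] at hr
      set r' := min r j with hr'
      have hle : HT ht (L.take r') ≤ a + t + i0 :=
        (HT_take_mono ht L (min_le_right _ _)).trans hj2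
      have happ : L = L.take r' ++ L.drop r' := (List.take_append_drop r' L).symm
      refine ⟨r', ?_⟩
      have hkk : k ∈ CD ht dl cd (L.take r') w := by
        rw [happ, CD_append] at hk
        rcases hk with hk | ⟨k2, hk2', hk2''⟩
        · exact hk
        · exfalso
          have := CD_pos ht dl cd hcd _ _ _ hk2'
          have h3 := hr.1
          simp only at hk2''
          omega
      have hii : ∃ i, a' ≤ HT ht ((L.take r').take i) ∧ HT ht ((L.take r').take i) ≤ a' + i0 := by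
        refine ⟨i, ?_⟩
        have hir : i ≤ r' := by
          by_contra hlt
          rw [not_le] at hlt
          have h4 := HT_take_mono ht L hlt.le
          have h5 := hr.1
          have h6 : a' + i0 ≤ a := by omega
          have h7 : t = 0 ∧ s = 0 ∨ a' + i0 < a + t := by omega
          rcases h7 with h7 | h7
          · have h8 := hall k hk
            omega
          · omega
        rw [List.take_take, min_eq_left hir]
        exact ⟨hi1, hi2⟩
      rw [hgood]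
      simp only
      rw [if_pos ⟨hHT, ⟨hall, ⟨k, hk, hk2⟩, i, hi1, hi2⟩, j, hj1, hj2⟩, if_pos]
      · rw [← LW_append, List.take_append_drop]
      · refine ⟨hr, hle, ⟨fun k1 hk1 => hall k1 ?_, ⟨k, hkk, hk2⟩, hii⟩, ?_⟩
        · rw [happ]; exact CD_fst ht dl cd hk1
        · have h9 := congrArg (HT ht) happ
          rw [HT_append] at h9
          omega
    · rw [ENNReal.tsum_prod']
      refine ENNReal.tsum_le_tsum fun L1 => ?_
      by_cases hL : att ht (a + t) L1 ∧ HT ht L1 ≤ a + t + i0 ∧ Fc L1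
      · rw [if_pos hL]
        calc _ ≤ ∑' L2 : List B, LW Λ L1 * (if HT ht L2 = n - HT ht L1 then LW Λ L2 else 0) := by
              refine ENNReal.tsum_le_tsum fun L2 => ?_
              by_cases h : HT ht L2 = n - HT ht L1
              · simp only [h, if_true]
                split_ifs <;> simp
              · rw [if_neg h, if_neg (fun h' => h h'.2.2.2)]; simp
          _ = LW Λ L1 * U Λ ht (n - HT ht L1) := by rw [ENNReal.tsum_mul_left, U]
          _ ≤ LW Λ L1 * 1 := mul_le_mul_right (hU1 _) _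
          _ = _ := mul_one _
      · rw [if_neg hL]
        refine le_of_eq ?_
        rw [ENNReal.tsum_eq_zero]
        intro L2
        exact if_neg (fun h' => hL ⟨h'.1, h'.2.1, h'.2.2.1⟩)
  -- second split at `a'`
  have step2 : ∑' L : List B, (if att ht (a + t) L ∧ HT ht L ≤ a + t + i0 ∧ Fc L
      then LW Λ L else 0) ≤ ∑' L1 : List B, ∑' L2 : List B,
      (if att ht a' L1 ∧ HT ht L1 ≤ a' + i0 then LW Λ L1 * (if att ht (a + t - HT ht L1) L2 ∧
        HT ht L2 ≤ a + t + i0 - HT ht L1 ∧ (∀ k ∈ CD ht dl cd L2 (act dl L1 w), s < k) ∧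
        (∃ k ∈ CD ht dl cd L2 (act dl L1 w), k ≤ a + t - HT ht L1) then LW Λ L2 else 0) else 0) := by
    rw [← ENNReal.tsum_prod]
    refine split_le _ (fun p : List B × List B => _) ?_
    intro L hL
    have hcond : att ht (a + t) L ∧ HT ht L ≤ a + t + i0 ∧ Fc L := by
      by_contra hc0
      exact hL (if_neg hc0)
    obtain ⟨hatt, hle, hall, ⟨k, hk, hk2⟩, i, hi1, hi2⟩ := hcond
    obtain ⟨r, hr⟩ := exists_att ht a' (L.take i) hi1
    rw [List.take_take] at hr
    set r' := min r i with hr'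
    have hle1 : HT ht (L.take r') ≤ a' + i0 :=
      (HT_take_mono ht L (min_le_right _ _)).trans hi2
    have happ : L.take r' ++ L.drop r' = L := List.take_append_drop r' L
    set L1 := L.take r' with hL1
    set L2 := L.drop r' with hL2
    have hHT : HT ht L = HT ht L1 + HT ht L2 := by rw [← happ, HT_append]
    refine ⟨r', ?_⟩
    simp only [← hL1, ← hL2]
    rw [if_pos ⟨hatt, hle, hall, ⟨k, hk, hk2⟩, i, hi1, hi2⟩, if_pos ⟨hr, hle1⟩, if_pos]
    · rw [← LW_append, happ]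
    · have hall2 : ∀ k ∈ CD ht dl cd L2 (act dl L1 w), s < k := by
        intro k2 hk2'
        have h3 := hall (HT ht L1 + k2) (by rw [← happ]; exact CD_snd ht dl cd hk2')
        omega
      refine ⟨⟨by have := hatt.1; omega, ?_⟩, by omega, hall2, ?_⟩
      · intro j hj
        by_cases hlen : r' ≤ L.length
        · have hlt : r' + j < L.length := by
            rw [hL2, List.length_drop] at hj; omega
          have h3 := hatt.2 (r' + j) hlt
          have h4 : L.take (r' + j) = L1 ++ L2.take j := by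
            rw [List.take_add]
          rw [h4, HT_append] at h3
          omega
        · rw [hL2, List.length_drop] at hj; omega
      · have hk' := hk
        rw [← happ, CD_append] at hk'
        rcases hk' with hk' | ⟨k2, hk2', hk2''⟩
        · exfalso
          have h3 := CD_pos ht dl cd hcd _ _ _ hk'
          have h4 := hall k hk
          omega
        · refine ⟨k2, hk2', ?_⟩
          simp only at hk2''
          omega
  -- completion of the piece
  have step3 : ∀ L1 : List B, HT ht L1 ≤ a' + i0 → a' ≤ HT ht L1 → ∑' L2 : List B,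
      (if att ht (a + t - HT ht L1) L2 ∧
        HT ht L2 ≤ a + t + i0 - HT ht L1 ∧ (∀ k ∈ CD ht dl cd L2 (act dl L1 w), s < k) ∧
        (∃ k ∈ CD ht dl cd L2 (act dl L1 w), k ≤ a + t - HT ht L1) then LW Λ L2 else 0)
      ≤ c⁻¹ * Pc Λ ht dl cd H s (act dl L1 w) := by
    intro L1 hb hb'
    refine ext_gen Λ ht c hc hc' hU (att ht (a + t - HT ht L1))
      (fun A1 A2 M1 M2 e1 e2 h => att_unique ht _ e1 e2 h) H
      (fun L2 => att ht (a + t - HT ht L1) L2 ∧
        HT ht L2 ≤ a + t + i0 - HT ht L1 ∧ (∀ k ∈ CD ht dl cd L2 (act dl L1 w), s < k) ∧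
        (∃ k ∈ CD ht dl cd L2 (act dl L1 w), k ≤ a + t - HT ht L1))
      (fun L hL => ⟨hL.1, by have := hL.2.1; omega⟩)
      (fun L => if HT ht L = H ∧ (∀ k ∈ CD ht dl cd L (act dl L1 w), s < k) ∧
        (∃ k ∈ CD ht dl cd L (act dl L1 w), k + s ≤ H) then LW Λ L else 0) ?_
    rintro A1 A2 ⟨hatt, hle, hall, k, hk, hk2⟩ hh
    have hkp := CD_pos ht dl cd hcd _ _ _ hk
    rw [if_pos, LW_append]
    refine ⟨by rw [HT_append]; exact hh, ?_, k, CD_fst ht dl cd hk, by omega⟩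
    intro k1 hk1
    rw [CD_append] at hk1
    rcases hk1 with hk1 | ⟨k2, hk2a, hk2'⟩
    · exact hall k1 hk1
    · have h3 := CD_pos ht dl cd hcd _ _ _ hk2a
      have h4 := hatt.1
      simp only at hk2'
      omega
  refine step0.trans (add_le_add le_rfl (step1.trans (step2.trans ?_)))
  rw [← ENNReal.tsum_mul_left]
  refine ENNReal.tsum_le_tsum fun L1 => ?_
  by_cases hL : att ht a' L1 ∧ HT ht L1 ≤ a' + i0
  · simp only [if_pos hL]
    rw [ENNReal.tsum_mul_left]
    calc _ ≤ LW Λ L1 * (c⁻¹ * Pc Λ ht dl cd H s (act dl L1 w)) :=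
          mul_le_mul_right (step3 L1 hL.2 hL.1.1) _
      _ = _ := by ring
  · simp only [if_neg hL, tsum_zero, mul_zero]; exact zero_le

open Classical in
/-- list of exact height `δ` with a contact in the last `s` levels -/
noncomputable def Slb (δ s : ℕ) (w : W) : ℝ≥0∞ :=
  ∑' L : List B, if HT ht L = δ ∧ (∃ k ∈ CD ht dl cd L w, δ < k + s) then LW Λ L else 0

open Classical in
lemma pc_le (H s : ℕ) (w : W) :
    Pc Λ ht dl cd H s w ≤ WLp Λ ht dl cd H s w + Slb Λ ht dl cd H s w := by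
  rw [Pc, WLp, Slb, ← ENNReal.tsum_add]
  refine ENNReal.tsum_le_tsum fun L => ?_
  by_cases hL : HT ht L = H ∧ (∀ k ∈ CD ht dl cd L w, s < k) ∧
    (∃ k ∈ CD ht dl cd L w, k + s ≤ H)
  · rw [if_pos hL]
    obtain ⟨e1, e2, k, hk, hk2⟩ := hL
    by_cases h : ∀ k ∈ CD ht dl cd L w, k + s ≤ H
    · have e : (if HT ht L = H ∧ CD ht dl cd L w ≠ ∅ ∧
          (∀ k ∈ CD ht dl cd L w, s < k ∧ k + s ≤ H) then LW Λ L else 0) = LW Λ L :=
        if_pos ⟨e1, Set.nonempty_iff_ne_empty.1 ⟨k, hk⟩, fun k hk => ⟨e2 k hk, h k hk⟩⟩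
      rw [e]; exact le_self_add
    · push Not at h
      have e : (if HT ht L = H ∧ (∃ k ∈ CD ht dl cd L w, H < k + s) then LW Λ L else 0)
          = LW Λ L := if_pos ⟨e1, h⟩
      rw [e]; exact le_add_self
  · rw [if_neg hL]; exact zero_le

open Classical in
lemma slab_sum (H s a i0 : ℕ) (w : W) :
    ∑' L1 : List B, (if att ht a L1 ∧ HT ht L1 ≤ a + i0 then
        LW Λ L1 * Slb Λ ht dl cd H s (act dl L1 w) else 0)
      ≤ ∑ r ∈ Finset.range (i0 + 1), Slb Λ ht dl cd (a + r + H) s w := by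
  set g : List B → ℝ≥0∞ := fun L => ∑ r ∈ Finset.range (i0 + 1),
    (if HT ht L = a + r + H ∧ (∃ k ∈ CD ht dl cd L w, a + r + H < k + s) then LW Λ L else 0)
    with hg
  have e1 : ∑' L, g L = ∑ r ∈ Finset.range (i0 + 1), Slb Λ ht dl cd (a + r + H) s w := by
    simp only [hg]
    rw [Summable.tsum_finsetSum (fun _ _ => ENNReal.summable)]
    rfl
  rw [← e1]
  refine le_trans ?_ (app_le (fun L1 => att ht a L1 ∧ HT ht L1 ≤ a + i0)
    (fun L1 L2 M1 M2 h1 h2 h => att_unique ht a h1.1 h2.1 h) g)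
  refine ENNReal.tsum_le_tsum fun L1 => ?_
  by_cases hL : att ht a L1 ∧ HT ht L1 ≤ a + i0
  · rw [if_pos hL, Slb, ← ENNReal.tsum_mul_left]
    refine ENNReal.tsum_le_tsum fun L2 => ?_
    rw [if_pos hL]
    by_cases h2 : HT ht L2 = H ∧ (∃ k ∈ CD ht dl cd L2 (act dl L1 w), H < k + s)
    · rw [if_pos h2, ← LW_append]
      obtain ⟨h3, k, hk, hk2⟩ := h2
      have ha := hL.1.1
      have hb := hL.2
      simp only [hg]
      refine le_trans ?_ (Finset.single_le_sum (f := fun r => (if HT ht (L1 ++ L2) = a + r + H ∧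
        (∃ k ∈ CD ht dl cd (L1 ++ L2) w, a + r + H < k + s) then LW Λ (L1 ++ L2) else 0))
        (fun _ _ => zero_le) (Finset.mem_range.2 (show HT ht L1 - a < i0 + 1 by omega)))
      rw [if_pos]
      refine ⟨by rw [HT_append]; omega, HT ht L1 + k, CD_snd ht dl cd hk, by omega⟩
    · rw [if_neg h2, mul_zero]; exact zero_le
  · rw [if_neg hL]; exact zero_le

open Classical in
lemma kap_split (n m K t : ℕ) (hKt : m ≤ K * t) (w : W) :
    Kap1 Λ ht dl cd n m w ≤ ∑ j ∈ Finset.range K, Fst Λ ht dl cd n (m + j * t) t w := by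
  simp only [Fst]
  rw [← Summable.tsum_finsetSum (fun _ _ => ENNReal.summable), Kap1]
  refine ENNReal.tsum_le_tsum fun L => ?_
  by_cases hL : HT ht L = n ∧ (∀ k ∈ CD ht dl cd L w, m < k) ∧ ∃ k ∈ CD ht dl cd L w, k ≤ 2 * m
  · rw [if_pos hL]
    obtain ⟨h1, h2, k', hk', hk2'⟩ := hL
    have hne : (CD ht dl cd L w).Nonempty := ⟨k', hk'⟩
    set k := sInf (CD ht dl cd L w) with hk0
    have hk : k ∈ CD ht dl cd L w := Nat.sInf_mem hne
    have hmin : ∀ k1 ∈ CD ht dl cd L w, k ≤ k1 := fun k1 hk1 => Nat.sInf_le hk1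
    have hmk := h2 k hk
    have hk2 : k ≤ 2 * m := (hmin k' hk').trans hk2'
    have ht0 : 0 < t := by
      rcases Nat.eq_zero_or_pos t with h | h
      · subst h; omega
      · exact h
    set j := (k - m - 1) / t with hj
    have hj1 : j * t ≤ k - m - 1 := Nat.div_mul_le_self _ _
    have hj2 : k - m - 1 < (j + 1) * t := by
      have := Nat.lt_div_mul_add (a := k - m - 1) ht0
      rw [add_mul, one_mul]; exact this
    have hjK : j < K := by
      by_contra hcon
      rw [not_lt] at hcon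
      have : K * t ≤ j * t := Nat.mul_le_mul_right t hcon
      omega
    refine le_trans ?_ (Finset.single_le_sum (f := fun j => (if HT ht L = n ∧
      (∀ k ∈ CD ht dl cd L w, m + j * t < k) ∧ (∃ k ∈ CD ht dl cd L w, k ≤ m + j * t + t)
      then LW Λ L else 0)) (fun _ _ => zero_le) (Finset.mem_range.2 hjK))
    rw [if_pos]
    rw [add_mul, one_mul] at hj2
    exact ⟨h1, fun k1 hk1 => by have := hmin k1 hk1; omega, k, hk, by omega⟩
  · rw [if_neg hL]; exact zero_le

open Classical in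
/-- **COMPOSITION.** 181's `hK` from the window estimate, the gap estimate and the thin slab. -/
theorem comp (h1 : ∀ b, 1 ≤ ht b) (hcd : ∀ w b k, k ∈ cd w b → 1 ≤ k ∧ k ≤ ht b)
    (c : ℝ≥0∞) (hc : c ≠ 0) (hU : ∀ n, c ≤ U Λ ht n) (hU1 : ∀ n, U Λ ht n ≤ 1)
    (hGap : ∀ ε : ℝ≥0∞, ε ≠ 0 → ∃ i0 : ℕ, ∀ a n, a + i0 ≤ n → Gap Λ ht n a i0 ≤ ε)
    (hSlab : ∀ (s : ℕ) (ε : ℝ≥0∞), ε ≠ 0 → ∃ D0 : ℕ, ∀ δ, D0 ≤ δ → ∀ w,
      Slb Λ ht dl cd δ s w ≤ ε)
    (hWin : ∀ ε : ℝ≥0∞, ε ≠ 0 → ∃ K : ℕ, 1 ≤ K ∧ ∀ i0 : ℕ, ∃ s H0 : ℕ, ∀ H, H0 ≤ H →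
      ∀ a, K * H ≤ 8 * a → ∀ w, ∑' L1 : List B, (if att ht a L1 ∧ HT ht L1 ≤ a + i0 then
        LW Λ L1 * WLp Λ ht dl cd H s (act dl L1 w) else 0) ≤ ε / K) :
    ∀ ε : ℝ≥0∞, ε ≠ 0 → ∃ M : ℕ, ∀ m, M ≤ m → ∀ n, 2 * m ≤ n → ∀ w,
      Kap1 Λ ht dl cd n m w ≤ ε := by
  intro ε hε
  have hc1 : c ≤ 1 := (hU 0).trans (hU1 0)
  have hc' : c ≠ ⊤ := ne_top_of_le_ne_top ENNReal.one_ne_top hc1
  have hci1 : 1 ≤ c⁻¹ := ENNReal.one_le_inv.2 hc1
  set C := 4 * (c⁻¹ * c⁻¹) with hC
  have hCt : C ≠ ⊤ := ENNReal.mul_ne_top (by norm_num)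
    (ENNReal.mul_ne_top (ENNReal.inv_ne_top.2 hc) (ENNReal.inv_ne_top.2 hc))
  set δ := ε / C with hδ
  have hδ0 : δ ≠ 0 := (ENNReal.div_pos hε hCt).ne'
  have hCδ : C * δ ≤ ε := ENNReal.mul_div_le
  obtain ⟨K, hK1, hK⟩ := hWin δ hδ0
  have hKt : (K : ℝ≥0∞) ≠ ⊤ := ENNReal.natCast_ne_top K
  obtain ⟨i0, hi0⟩ := hGap (δ / K) (ENNReal.div_pos hδ0 hKt).ne'
  obtain ⟨s, H0, hH⟩ := hK i0
  have hKi : ((K : ℝ≥0∞) * ((i0 : ℝ≥0∞) + 1)) ≠ ⊤ :=
    ENNReal.mul_ne_top hKt (by exact_mod_cast ENNReal.natCast_ne_top (i0 + 1))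
  obtain ⟨D0, hD⟩ := hSlab s (δ / (K * ((i0 : ℝ≥0∞) + 1))) (ENNReal.div_pos hδ0 hKi).ne'
  refine ⟨K * (1 + 2 * s + 2 * i0) + 2 * (s + i0) + K * H0 + K * D0 + 1, fun m hm n hn w => ?_⟩
  set t := m / K + 1 with ht'
  have hKpos : 0 < K := hK1
  have ht1 : K * t ≤ m + K := by
    have := Nat.div_mul_le_self m K
    rw [ht', mul_add, mul_one, mul_comm]
    omega
  have ht2 : m ≤ K * t := by
    have := Nat.lt_div_mul_add (a := m) hKpos
    rw [ht', mul_add, mul_one, mul_comm K (m / K)]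
    omega
  have htH : H0 ≤ t := by
    have : H0 ≤ m / K := (Nat.le_div_iff_mul_le hKpos).2 (by rw [mul_comm]; omega)
    omega
  have htD : D0 ≤ t := by
    have : D0 ≤ m / K := (Nat.le_div_iff_mul_le hKpos).2 (by rw [mul_comm]; omega)
    omega
  have hms : 2 * (s + i0) ≤ m := by omega
  have hmK : K * (1 + 2 * s + 2 * i0) ≤ m := by omega
  have hwin : ∀ j, j < K → Fst Λ ht dl cd n (m + j * t) t w ≤
      c⁻¹ * (δ / K + δ / K + c⁻¹ * (δ / K + (i0 + 1) * (δ / (K * ((i0 : ℝ≥0∞) + 1))))) := by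
    intro j hj
    refine (ext Λ ht dl cd h1 c hc hc' hU hcd n (K + i0) (m + j * t) t w).trans ?_
    refine mul_le_mul_right ?_ _
    have hjt : (j + 1) * t ≤ K * t := Nat.mul_le_mul_right t hj
    have hjt' : j * t + t ≤ m + K := by
      have e : (j + 1) * t = j * t + t := by ring
      omega
    set a := m + j * t with ha
    have hA : s + i0 ≤ m := by omega
    set a' := a - (s + i0) with ha'
    have haa : a' + i0 + s = a := by omega
    refine (fst_le Λ ht dl cd h1 c hc hc' hU hU1 hcd (n + (K + i0)) a a' t s i0 w haa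
      (by omega)).trans ?_
    have g1 := hi0 a' (n + (K + i0)) (by omega)
    have g2 := hi0 (a + t) (n + (K + i0)) (by omega)
    refine add_le_add (add_le_add g1 g2) (mul_le_mul_right ?_ _)
    set H := t + 2 * s + 2 * i0 with hHH
    have hKH : K * H ≤ 8 * a' := by
      have e : K * H = K * t + K * (2 * s + 2 * i0) := by rw [hHH]; ring
      have e2 : K * (1 + 2 * s + 2 * i0) = K + K * (2 * s + 2 * i0) := by ring
      omega
    have w1 := hH H (by omega) a' hKH w
    calc ∑' L1 : List B, (if att ht a' L1 ∧ HT ht L1 ≤ a' + i0 then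
          LW Λ L1 * Pc Λ ht dl cd H s (act dl L1 w) else 0)
        ≤ ∑' L1 : List B, ((if att ht a' L1 ∧ HT ht L1 ≤ a' + i0 then
          LW Λ L1 * WLp Λ ht dl cd H s (act dl L1 w) else 0) +
          (if att ht a' L1 ∧ HT ht L1 ≤ a' + i0 then
          LW Λ L1 * Slb Λ ht dl cd H s (act dl L1 w) else 0)) := by
          refine ENNReal.tsum_le_tsum fun L1 => ?_
          by_cases h : att ht a' L1 ∧ HT ht L1 ≤ a' + i0
          · simp only [if_pos h]
            rw [← mul_add]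
            exact mul_le_mul_right (pc_le Λ ht dl cd H s _) _
          · simp only [if_neg h]; simp
      _ = _ + _ := ENNReal.tsum_add
      _ ≤ δ / K + ∑ r ∈ Finset.range (i0 + 1), Slb Λ ht dl cd (a' + r + H) s w :=
          add_le_add w1 (slab_sum Λ ht dl cd H s a' i0 w)
      _ ≤ δ / K + ∑ r ∈ Finset.range (i0 + 1), (δ / (K * ((i0 : ℝ≥0∞) + 1))) :=
          add_le_add le_rfl (Finset.sum_le_sum fun r _ => hD _ (by omega) w)
      _ = _ := by rw [Finset.sum_const, Finset.card_range, nsmul_eq_mul]; push_cast; rfl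
  calc Kap1 Λ ht dl cd n m w ≤ ∑ j ∈ Finset.range K, Fst Λ ht dl cd n (m + j * t) t w :=
        kap_split Λ ht dl cd n m K t ht2 w
    _ ≤ ∑ j ∈ Finset.range K,
        c⁻¹ * (δ / K + δ / K + c⁻¹ * (δ / K + (i0 + 1) * (δ / (K * ((i0 : ℝ≥0∞) + 1))))) :=
        Finset.sum_le_sum fun j hj => hwin j (Finset.mem_range.1 hj)
    _ = K * (c⁻¹ * (δ / K + δ / K + c⁻¹ * (δ / K +
          (i0 + 1) * (δ / (K * ((i0 : ℝ≥0∞) + 1)))))) := by
        rw [Finset.sum_const, Finset.card_range, nsmul_eq_mul]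
    _ = c⁻¹ * ((K * (δ / K)) + (K * (δ / K)) + c⁻¹ * ((K * (δ / K)) +
          (K * (i0 + 1)) * (δ / (K * ((i0 : ℝ≥0∞) + 1))))) := by ring
    _ ≤ c⁻¹ * (δ + δ + c⁻¹ * (δ + δ)) := by
        gcongr
        · exact ENNReal.mul_div_le
        · exact ENNReal.mul_div_le
        · exact ENNReal.mul_div_le
        · exact ENNReal.mul_div_le
    _ ≤ c⁻¹ * (c⁻¹ * (δ + δ) + c⁻¹ * (δ + δ)) := by
        gcongr
        calc δ + δ = 1 * (δ + δ) := (one_mul _).symm
          _ ≤ c⁻¹ * (δ + δ) := mul_le_mul_left hci1 _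
    _ = C * δ := by rw [hC]; ring
    _ ≤ ε := hCδ

end Crest.Agent.R154.Comp818
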