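import Crest.Agent.R154.Key_850

/-! Row 154, B4, walker side (helper424), part A: first times, read contact, strong Markov
inequalities on a walk space, measurability of open sets of pairs. -/

set_option autoImplicit false

namespace Crest.Agent.R154

open MeasureTheory ProbabilityTheory Crest.ProbabilityR.RandomEnvironment
open scoped ENNReal

namespace Cont

/-! ### first times -/

/-- the first time at which `p` holds. -/
noncomputable def ft (p : ℕ → Prop) : ℕ∞ := ⨅ n : {n : ℕ // p n}, ((n : ℕ) : ℕ∞)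

lemma ft_le {p : ℕ → Prop} {n : ℕ} (h : p n) : ft p ≤ n :=
  iInf_le (fun n : {n : ℕ // p n} => ((n : ℕ) : ℕ∞)) ⟨n, h⟩

lemma le_ft {p : ℕ → Prop} {t : ℕ∞} (h : ∀ n : ℕ, p n → t ≤ n) : t ≤ ft p :=
  le_iInf fun n => h n n.2

lemma ft_lt_iff {p : ℕ → Prop} {t : ℕ∞} : ft p < t ↔ ∃ n : ℕ, p n ∧ (n : ℕ∞) < t := by
  unfold ft
  rw [iInf_lt_iff]
  constructor
  · rintro ⟨⟨n, hn⟩, h⟩
    exact ⟨n, hn, h⟩
  · rintro ⟨n, hn, h⟩
    exact ⟨⟨n, hn⟩, h⟩

lemma not_of_lt_ft {p : ℕ → Prop} {n : ℕ} (h : (n : ℕ∞) < ft p) : ¬ p n := fun hp =>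
  absurd (ft_le hp) (not_le.2 h)

lemma ft_mono {p q : ℕ → Prop} (h : ∀ n, p n → q n) : ft q ≤ ft p :=
  le_ft fun _ hn => ft_le (h _ hn)

lemma ft_spec {p : ℕ → Prop} {n : ℕ} (h : ft p = n) : p n := by
  have h1 : ft p < ((n + 1 : ℕ) : ℕ∞) := by
    rw [h]
    exact_mod_cast Nat.lt_succ_self n
  obtain ⟨m, hm, hlt⟩ := ft_lt_iff.1 h1
  have h2 : m < n + 1 := by exact_mod_cast hlt
  have h3 : (n : ℕ∞) ≤ m := h ▸ ft_le hm
  have h4 : n ≤ m := by exact_mod_cast h3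
  have : m = n := by omega
  rwa [this] at hm

lemma ft_eq_of {p : ℕ → Prop} {n : ℕ} (h : p n) (h' : ∀ i < n, ¬ p i) : ft p = n := by
  refine le_antisymm (ft_le h) (le_ft fun m hm => ?_)
  by_contra hlt
  rw [not_le] at hlt
  exact h' m (by exact_mod_cast hlt) hm

lemma exists_nat_of_lt {a b : ℕ∞} (h : a < b) : ∃ n : ℕ, a = n := by
  obtain ⟨n, hn⟩ := ENat.ne_top_iff_exists.1 (ne_top_of_lt h)
  exact ⟨n, hn.symm⟩

variable {d : ℕ} {Ω : Type} [MeasurableSpace Ω]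

/-- the histories of `X` and `Y` agree up to time `t` (inclusive). -/
def Ag (W : WalkSpace d Ω) (t : ℕ∞) (X Y : Ω) : Prop :=
  ∀ n : ℕ, (n : ℕ∞) ≤ t → W.hist n X = W.hist n Y

lemma Ag.symm {W : WalkSpace d Ω} {t : ℕ∞} {X Y : Ω} (h : Ag W t X Y) : Ag W t Y X :=
  fun n hn => (h n hn).symm

lemma Ag.mono {W : WalkSpace d Ω} {s t : ℕ∞} {X Y : Ω} (h : Ag W t X Y) (hst : s ≤ t) :
    Ag W s X Y := fun n hn => h n (hn.trans hst)

lemma Ag.refl {W : WalkSpace d Ω} {t : ℕ∞} (X : Ω) : Ag W t X X := fun _ _ => rfl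

lemma ag_of_hist {W : WalkSpace d Ω} {n : ℕ} {X Y : Ω} (h : W.hist n X = W.hist n Y) :
    Ag W n X Y := fun m hm => W.mono X Y (by exact_mod_cast hm) h

lemma ag_freeze {W : WalkSpace d Ω} (t : ℕ∞) (X : Ω) : Ag W t X (W.freeze t X) :=
  fun _ hn => (W.hist_freeze_of_le hn X).symm

lemma Ag.pos {W : WalkSpace d Ω} {t : ℕ∞} {X Y : Ω} (h : Ag W t X Y) {n : ℕ}
    (hn : (n : ℕ∞) ≤ t) : W.pos X n = W.pos Y n := W.pos_det n X Y (h n hn)

lemma Ag.stop_eq {W : WalkSpace d Ω} {t : ℕ∞} {X Y : Ω} (h : Ag W t X Y) {T : Ω → ℕ∞}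
    (hT : W.IsStop T) (hle : T X ≤ t) : T Y = T X := by
  rcases eq_or_ne (T X) ⊤ with h1 | h1
  · rw [h1] at hle ⊢
    by_contra h2
    obtain ⟨m, hm⟩ := ENat.ne_top_iff_exists.1 h2
    have h3 := hT Y X m (h m (le_top.trans hle)).symm hm.symm
    rw [h3] at h1
    exact absurd h1 (ENat.natCast_ne_top m)
  · obtain ⟨m, hm⟩ := ENat.ne_top_iff_exists.1 h1
    rw [← hm]
    exact hT X Y m (h m (by rw [hm]; exact hle)) hm.symm

lemma Ag.lt_stop {W : WalkSpace d Ω} {t : ℕ∞} {X Y : Ω} (h : Ag W t X Y) {T : Ω → ℕ∞}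
    (hT : W.IsStop T) (hlt : t < T X) : t < T Y := by
  by_contra h2
  rw [not_lt] at h2
  rw [h.symm.stop_eq hT h2] at hlt
  exact absurd h2 (not_le.2 hlt)

/-- a predicate of path and time decided by the history. -/
def PDet (W : WalkSpace d Ω) (p : Ω → ℕ → Prop) : Prop :=
  ∀ n X Y, W.hist n X = W.hist n Y → (p X n ↔ p Y n)

lemma Ag.pdet {W : WalkSpace d Ω} {t : ℕ∞} {X Y : Ω} (h : Ag W t X Y) {p : Ω → ℕ → Prop}
    (hp : PDet W p) {n : ℕ} (hn : (n : ℕ∞) ≤ t) : p X n ↔ p Y n := hp n X Y (h n hn)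

lemma isStop_ft {W : WalkSpace d Ω} {p : Ω → ℕ → Prop} (hp : PDet W p) :
    W.IsStop (fun X => ft (p X)) := by
  intro X Y n h hn
  have hA := ag_of_hist (W := W) h
  replace hn : ft (p X) = n := hn
  refine ft_eq_of ((hA.pdet hp le_rfl).1 (ft_spec hn)) fun i hi hY => ?_
  have h1 : p X i := (hA.pdet hp (by exact_mod_cast hi.le)).2 hY
  have h2 := ft_le h1
  rw [hn] at h2
  have : n ≤ i := by exact_mod_cast h2
  omega

lemma isStop_min {W : WalkSpace d Ω} {S T : Ω → ℕ∞} (hS : W.IsStop S) (hT : W.IsStop T) :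
    W.IsStop (fun X => min (S X) (T X)) := by
  intro X Y n h hn
  have hA := ag_of_hist (W := W) h
  simp only at hn ⊢
  rcases le_total (S X) (T X) with h1 | h1
  · rw [min_eq_left h1] at hn
    have h2 : S Y = n := by rw [hA.stop_eq hS hn.le, hn]
    rw [h2]
    refine min_eq_left ?_
    by_contra h3
    rw [not_le] at h3
    have h4 := hA.symm.stop_eq hT h3.le
    rw [hn, h4] at h1
    exact absurd h1 (not_le.2 h3)
  · rw [min_eq_right h1] at hn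
    have h2 : T Y = n := by rw [hA.stop_eq hT hn.le, hn]
    rw [h2]
    refine min_eq_right ?_
    by_contra h3
    rw [not_le] at h3
    have h4 := hA.symm.stop_eq hS h3.le
    rw [hn, h4] at h1
    exact absurd h1 (not_le.2 h3)

lemma pdet_lt_stop {W : WalkSpace d Ω} {T : Ω → ℕ∞} (hT : W.IsStop T) :
    PDet W (fun X n => (n : ℕ∞) < T X) := fun n X Y h =>
  ⟨fun h1 => (ag_of_hist h).lt_stop hT h1, fun h1 => (ag_of_hist h.symm).lt_stop hT h1⟩

lemma pdet_stop_le {W : WalkSpace d Ω} {T : Ω → ℕ∞} (hT : W.IsStop T) :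
    PDet W (fun X n => T X ≤ (n : ℕ∞)) := fun n X Y h => by
  have h1 := not_congr (pdet_lt_stop hT n X Y h)
  simp only [not_lt] at h1
  exact h1

/-! ### reading times -/

/-- `rd X n`: the row at the position at time `n` is read at time `n`. -/
structure RdSpace (W : WalkSpace d Ω) (rd : Ω → ℕ → Prop) : Prop where
  det : PDet W rd
  read_iff : ∀ X n z, z ∈ W.read X n ↔ ∃ i, i < n ∧ rd X i ∧ W.pos X i = z

/-- read contact time: the first time `T` reads a row within distance `R` of `V`. -/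
noncomputable def kap (W : WalkSpace d Ω) (rd : Ω → ℕ → Prop) (R : ℕ) (V : Set (Site d))
    (T : Ω) : ℕ∞ := ft fun n => rd T n ∧ W.pos T n ∉ far R V

/-- the rows read by `X` before time `t`. -/
def rows (W : WalkSpace d Ω) (rd : Ω → ℕ → Prop) (X : Ω) (t : ℕ∞) : Set (Site d) :=
  {z | ∃ i : ℕ, (i : ℕ∞) < t ∧ rd X i ∧ W.pos X i = z}

section rd

variable {W : WalkSpace d Ω} {rd : Ω → ℕ → Prop} {R : ℕ}

lemma readE_eq_rows (hW : RdSpace W rd) (X : Ω) (t : ℕ∞) : W.readE X t = rows W rd X t := by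
  ext z
  constructor
  · rintro ⟨n, hn, hz⟩
    obtain ⟨i, hi, h1, h2⟩ := (hW.read_iff X n z).1 hz
    exact ⟨i, lt_of_lt_of_le (by exact_mod_cast hi) hn, h1, h2⟩
  · rintro ⟨i, hi, h1, h2⟩
    refine ⟨i + 1, ?_, (hW.read_iff X (i + 1) z).2 ⟨i, Nat.lt_succ_self i, h1, h2⟩⟩
    have := Order.add_one_le_of_lt hi
    exact_mod_cast this

lemma rows_mono {X : Ω} {s t : ℕ∞} (h : s ≤ t) : rows W rd X s ⊆ rows W rd X t :=
  fun _ ⟨i, hi, h1, h2⟩ => ⟨i, lt_of_lt_of_le hi h, h1, h2⟩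

lemma Ag.rows_subset (hW : PDet W rd) {t : ℕ∞} {X Y : Ω} (h : Ag W t X Y) :
    rows W rd X t ⊆ rows W rd Y t := by
  rintro z ⟨i, hi, h1, h2⟩
  exact ⟨i, hi, (h.pdet hW hi.le).1 h1, by rw [← h.pos hi.le]; exact h2⟩

lemma Ag.rows_eq (hW : PDet W rd) {t : ℕ∞} {X Y : Ω} (h : Ag W t X Y) :
    rows W rd X t = rows W rd Y t :=
  Set.Subset.antisymm (h.rows_subset hW) (h.symm.rows_subset hW)

lemma pdet_kap (hW : PDet W rd) (V : Set (Site d)) :
    PDet W (fun T n => rd T n ∧ W.pos T n ∉ far R V) := fun n X Y h => by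
  have h1 := hW n X Y h
  have h2 := W.pos_det n X Y h
  simp only [h1, h2]

lemma isStop_kap (hW : PDet W rd) (V : Set (Site d)) : W.IsStop (kap W rd R V) :=
  isStop_ft (pdet_kap hW V)

lemma kap_anti {V V' : Set (Site d)} (h : V ⊆ V') (T : Ω) :
    kap W rd R V' T ≤ kap W rd R V T :=
  ft_mono fun _ ⟨h1, h2⟩ => ⟨h1, fun h3 => h2 (far_anti h h3)⟩

lemma not_far_iff {V : Set (Site d)} {z : Site d} :
    z ∉ far R V ↔ ∃ a ∈ V, ∀ i, |a i - z i| ≤ (R : ℤ) := by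
  unfold far
  simp only [Set.mem_ofPred_eq]
  push Not
  rfl

lemma kap_lt_iff {V : Set (Site d)} {T : Ω} {t : ℕ∞} :
    kap W rd R V T < t ↔
      ∃ n : ℕ, (n : ℕ∞) < t ∧ rd T n ∧ ∃ a ∈ V, ∀ i, |a i - W.pos T n i| ≤ (R : ℤ) := by
  unfold kap
  rw [ft_lt_iff]
  constructor
  · rintro ⟨n, ⟨h1, h2⟩, h3⟩
    exact ⟨n, h3, h1, not_far_iff.1 h2⟩
  · rintro ⟨n, h3, h1, h2⟩
    exact ⟨n, ⟨h1, not_far_iff.2 h2⟩, h3⟩

lemma kap_spec {V : Set (Site d)} {T : Ω} {n : ℕ} (h : kap W rd R V T = n) :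
    rd T n ∧ ∃ a ∈ V, ∀ i, |a i - W.pos T n i| ≤ (R : ℤ) := by
  obtain ⟨h1, h2⟩ := ft_spec h
  exact ⟨h1, not_far_iff.1 h2⟩

end rd

/-! ### measurability of open sets -/

lemma measurableSet_of_open (W : WalkSpace d Ω) (A : Set Ω)
    (hA : ∀ X ∈ A, ∃ n : ℕ, ∀ Y, W.hist n X = W.hist n Y → Y ∈ A) : MeasurableSet A := by
  have h : A = ⋃ n : ℕ, {X | ∀ Y, W.hist n X = W.hist n Y → Y ∈ A} := by
    ext X
    simp only [Set.mem_iUnion, Set.mem_ofPred_eq]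
    exact ⟨fun h => hA X h, fun ⟨n, h⟩ => h X rfl⟩
  rw [h]
  refine MeasurableSet.iUnion fun n => W.measurableSet_of_hist n _ fun X Y hXY hX Z hZ => ?_
  exact hX Z (hXY.trans hZ)

lemma measurableSet_of_open_pair (W : WalkSpace d Ω) (A : Set (Ω × Ω))
    (hA : ∀ p ∈ A, ∃ n : ℕ, ∀ q : Ω × Ω, W.hist n p.1 = W.hist n q.1 →
      W.hist n p.2 = W.hist n q.2 → q ∈ A) : MeasurableSet A := by
  have h : A = ⋃ n : ℕ, {p | ∀ q : Ω × Ω, W.hist n p.1 = W.hist n q.1 →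
      W.hist n p.2 = W.hist n q.2 → q ∈ A} := by
    ext p
    simp only [Set.mem_iUnion, Set.mem_ofPred_eq]
    exact ⟨fun h => hA p h, fun ⟨n, h⟩ => h p rfl rfl⟩
  rw [h]
  refine MeasurableSet.iUnion fun n => W.measurableSet_of_hist_pair n _ fun p q h1 h2 hp r h3 h4 => ?_
  exact hp r (h1.trans h3) (h2.trans h4)

/-! ### strong Markov inequalities -/

/-- the future positions. -/
def shp (W : WalkSpace d Ω) (n : ℕ) (X : Ω) : Path d := fun i => W.pos X (n + i)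

lemma measurable_pos (W : WalkSpace d Ω) (n : ℕ) : Measurable fun X : Ω => W.pos X n := by
  refine measurable_to_countable' fun a => ?_
  refine W.measurableSet_of_hist n _ fun X Y h hX => ?_
  simp only [Set.mem_preimage, Set.mem_singleton_iff] at hX ⊢
  rw [← hX]
  exact (W.pos_det n X Y h).symm

lemma measurable_shp (W : WalkSpace d Ω) (n : ℕ) : Measurable (shp W n) :=
  measurable_pi_iff.2 fun i => measurable_pos W (n + i)

/-- upper Markov bound for the positions. -/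
def MU (W : WalkSpace d Ω) (P : Measure Ω) (G : Site d → Measure (Path d)) (C₀ : ℝ≥0∞) : Prop :=
  ∀ (n : ℕ) (h : W.H n) (B : Set (Path d)), MeasurableSet B →
    P (W.hcyl n h ∩ {X | shp W n X ∈ B}) ≤ C₀ * (P (W.hcyl n h) * G (W.pos (W.ext n h) n) B)

/-- lower Markov bound for the positions, at reading times. -/
def ML (W : WalkSpace d Ω) (rd : Ω → ℕ → Prop) (P : Measure Ω) (G : Site d → Measure (Path d))
    (c₀ : ℝ≥0∞) : Prop :=
  ∀ (n : ℕ) (h : W.H n) (B : Set (Path d)), MeasurableSet B → rd (W.ext n h) n →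
    c₀ * (P (W.hcyl n h) * G (W.pos (W.ext n h) n) B) ≤ P (W.hcyl n h ∩ {X | shp W n X ∈ B})

/-- index of the histories at which `S` happens inside `B`. -/
def Idx (W : WalkSpace d Ω) (S : Ω → ℕ∞) (B : Set Ω) : Type :=
  {p : (Σ n, W.H n) // S (W.ext p.1 p.2) = p.1 ∧ W.ext p.1 p.2 ∈ B}

instance (W : WalkSpace d Ω) (S : Ω → ℕ∞) (B : Set Ω) : Countable (Idx W S B) := by
  unfold Idx; infer_instance

section sm

variable {W : WalkSpace d Ω} {S : Ω → ℕ∞} {B : Set Ω}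

lemma stop_of_hist (hS : W.IsStop S) {p : (Σ n, W.H n)} (h : S (W.ext p.1 p.2) = p.1) {X : Ω}
    (hX : W.hist p.1 X = p.2) : S X = p.1 :=
  hS _ X p.1 (by rw [W.hist_ext, hX]) h

lemma pairwise_idx (hS : W.IsStop S) :
    Pairwise (Function.onFun Disjoint fun p : Idx W S B => W.hcyl p.1.1 p.1.2) := by
  rintro ⟨p, hp⟩ ⟨q, hq⟩ hpq
  rw [Function.onFun, Set.disjoint_left]
  intro X hX hX'
  have e1 := stop_of_hist hS hp.1 (show W.hist p.1 X = p.2 from hX)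
  have e2 := stop_of_hist hS hq.1 (show W.hist q.1 X = q.2 from hX')
  rw [e1] at e2
  have e3 : p.1 = q.1 := by exact_mod_cast e2
  obtain ⟨n, h⟩ := p
  obtain ⟨m, h'⟩ := q
  simp only at e3
  subst e3
  have hp' : W.hist n X = h := hX
  have hq' : W.hist n X = h' := hX'
  exact hpq (by subst hp' hq'; rfl)

lemma iUnion_idx (hS : W.IsStop S)
    (hB : ∀ X Y (n : ℕ), W.hist n X = W.hist n Y → S X = n → X ∈ B → Y ∈ B)
    (hfin : ∀ X ∈ B, S X ≠ ⊤) : B = ⋃ p : Idx W S B, W.hcyl p.1.1 p.1.2 := by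
  ext X
  simp only [Set.mem_iUnion]
  constructor
  · intro hX
    obtain ⟨n, hn⟩ := ENat.ne_top_iff_exists.1 (hfin X hX)
    have h1 : S (W.ext n (W.hist n X)) = n := hS X _ n (W.hist_ext n _).symm hn.symm
    exact ⟨⟨⟨n, W.hist n X⟩, h1, hB X _ n (W.hist_ext n _).symm hn.symm hX⟩, rfl⟩
  · rintro ⟨⟨p, hp1, hp2⟩, hX⟩
    have hX' : W.hist p.1 X = p.2 := hX
    exact hB _ X p.1 (by rw [W.hist_ext, hX']) hp1 hp2

lemma measure_idx (hS : W.IsStop S)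
    (hB : ∀ X Y (n : ℕ), W.hist n X = W.hist n Y → S X = n → X ∈ B → Y ∈ B)
    (hfin : ∀ X ∈ B, S X ≠ ⊤) (P : Measure Ω) :
    P B = ∑' p : Idx W S B, P (W.hcyl p.1.1 p.1.2) := by
  conv_lhs => rw [iUnion_idx hS hB hfin]
  exact measure_iUnion (pairwise_idx hS) fun p => W.measurableSet_hcyl _ _

/-- **strong Markov, upper bound** -/
lemma smu (hS : W.IsStop S)
    (hB : ∀ X Y (n : ℕ), W.hist n X = W.hist n Y → S X = n → X ∈ B → Y ∈ B)
    (hfin : ∀ X ∈ B, S X ≠ ⊤) {F : Ω → Set (Path d)}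
    (hF : ∀ X Y (n : ℕ), W.hist n X = W.hist n Y → S X = n → X ∈ B → F X = F Y)
    (hFm : ∀ X, MeasurableSet (F X)) {P : Measure Ω} {G : Site d → Measure (Path d)} {C₀ : ℝ≥0∞}
    (hMU : MU W P G C₀) {a : ℝ≥0∞} (hle : ∀ X ∈ B, G (W.pos X (S X).toNat) (F X) ≤ a) :
    P {X | X ∈ B ∧ shp W (S X).toNat X ∈ F X} ≤ C₀ * a * P B := by
  have h1 : {X | X ∈ B ∧ shp W (S X).toNat X ∈ F X} ⊆ ⋃ p : Idx W S B,
      W.hcyl p.1.1 p.1.2 ∩ {X | shp W p.1.1 X ∈ F (W.ext p.1.1 p.1.2)} := by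
    rintro X ⟨hX, hX2⟩
    have h2 : X ∈ ⋃ p : Idx W S B, W.hcyl p.1.1 p.1.2 := iUnion_idx hS hB hfin ▸ hX
    obtain ⟨p, hp⟩ := Set.mem_iUnion.1 h2
    refine Set.mem_iUnion.2 ⟨p, hp, ?_⟩
    have hp' : W.hist p.1.1 X = p.1.2 := hp
    have e1 := stop_of_hist hS p.2.1 hp'
    rw [e1, ENat.toNat_natCast] at hX2
    have e2 := hF (W.ext p.1.1 p.1.2) X p.1.1 (by rw [W.hist_ext, hp']) p.2.1 p.2.2
    simp only [Set.mem_ofPred_eq]
    rw [e2]
    exact hX2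
  calc P {X | X ∈ B ∧ shp W (S X).toNat X ∈ F X}
      ≤ ∑' p : Idx W S B, P (W.hcyl p.1.1 p.1.2 ∩
          {X | shp W p.1.1 X ∈ F (W.ext p.1.1 p.1.2)}) :=
        (measure_mono h1).trans (measure_iUnion_le _)
    _ ≤ ∑' p : Idx W S B, C₀ * a * P (W.hcyl p.1.1 p.1.2) := by
        refine ENNReal.tsum_le_tsum fun p => ?_
        refine (hMU p.1.1 p.1.2 _ (hFm _)).trans ?_
        have h3 := hle _ p.2.2
        rw [p.2.1, ENat.toNat_natCast] at h3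
        calc C₀ * (P (W.hcyl p.1.1 p.1.2) * G (W.pos (W.ext p.1.1 p.1.2) p.1.1) _)
            ≤ C₀ * (P (W.hcyl p.1.1 p.1.2) * a) := by gcongr
          _ = C₀ * a * P (W.hcyl p.1.1 p.1.2) := by ring
    _ = C₀ * a * P B := by rw [ENNReal.tsum_mul_left, measure_idx hS hB hfin P]

/-- **strong Markov, lower bound** -/
lemma sml (hS : W.IsStop S)
    (hB : ∀ X Y (n : ℕ), W.hist n X = W.hist n Y → S X = n → X ∈ B → Y ∈ B)
    (hfin : ∀ X ∈ B, S X ≠ ⊤) {F : Ω → Set (Path d)}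
    (hF : ∀ X Y (n : ℕ), W.hist n X = W.hist n Y → S X = n → X ∈ B → F X = F Y)
    (hFm : ∀ X, MeasurableSet (F X)) {rd : Ω → ℕ → Prop} (hrd : ∀ X ∈ B, rd X (S X).toNat)
    {P : Measure Ω} {G : Site d → Measure (Path d)} {c₀ : ℝ≥0∞}
    (hML : ML W rd P G c₀) {a : ℝ≥0∞} (hle : ∀ X ∈ B, a ≤ G (W.pos X (S X).toNat) (F X)) :
    c₀ * a * P B ≤ P {X | X ∈ B ∧ shp W (S X).toNat X ∈ F X} := by
  have h1 : (⋃ p : Idx W S B,
      W.hcyl p.1.1 p.1.2 ∩ {X | shp W p.1.1 X ∈ F (W.ext p.1.1 p.1.2)}) ⊆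
      {X | X ∈ B ∧ shp W (S X).toNat X ∈ F X} := by
    intro X hX
    obtain ⟨p, hp, hX2⟩ := Set.mem_iUnion.1 hX
    have hp' : W.hist p.1.1 X = p.1.2 := hp
    have e1 := stop_of_hist hS p.2.1 hp'
    have e2 := hF (W.ext p.1.1 p.1.2) X p.1.1 (by rw [W.hist_ext, hp']) p.2.1 p.2.2
    refine ⟨hB _ X p.1.1 (by rw [W.hist_ext, hp']) p.2.1 p.2.2, ?_⟩
    rw [e1, ENat.toNat_natCast, ← e2]
    exact hX2
  have hd : Pairwise (Function.onFun Disjoint fun p : Idx W S B =>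
      W.hcyl p.1.1 p.1.2 ∩ {X | shp W p.1.1 X ∈ F (W.ext p.1.1 p.1.2)}) := by
    intro p q hpq
    exact (pairwise_idx hS hpq).mono Set.inter_subset_left Set.inter_subset_left
  calc c₀ * a * P B = ∑' p : Idx W S B, c₀ * a * P (W.hcyl p.1.1 p.1.2) := by
        rw [ENNReal.tsum_mul_left, measure_idx hS hB hfin P]
    _ ≤ ∑' p : Idx W S B, P (W.hcyl p.1.1 p.1.2 ∩
          {X | shp W p.1.1 X ∈ F (W.ext p.1.1 p.1.2)}) := by
        refine ENNReal.tsum_le_tsum fun p => ?_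
        have h3 := hle _ p.2.2
        have h4 := hrd _ p.2.2
        rw [p.2.1, ENat.toNat_natCast] at h3 h4
        refine le_trans ?_ (hML p.1.1 p.1.2 _ (hFm _) h4)
        calc c₀ * a * P (W.hcyl p.1.1 p.1.2) = c₀ * (P (W.hcyl p.1.1 p.1.2) * a) := by ring
          _ ≤ _ := by gcongr
    _ = P (⋃ p : Idx W S B, W.hcyl p.1.1 p.1.2 ∩
          {X | shp W p.1.1 X ∈ F (W.ext p.1.1 p.1.2)}) := by
        refine (measure_iUnion hd fun p => ?_).symm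
        exact (W.measurableSet_hcyl _ _).inter (measurable_shp W _ (hFm _))
    _ ≤ _ := measure_mono h1

end sm

end Cont

end Crest.Agent.R154
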