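import Crest.Agent.R154.KExp_402
import Crest.Agent.R154.ContA_424

/-!
Row 154: the read-read contact of helper424 (`Cont.kap`, `Cont.rows`) as a contact rule for the
K-set bounds of `KExp_402`.
-/

set_option autoImplicit false
set_option linter.unusedSectionVars false

namespace Crest.Agent.R154

open MeasureTheory ProbabilityTheory Crest.ProbabilityR.RandomEnvironment
open scoped ENNReal

variable {d : ℕ} {Ω : Type} [MeasurableSpace Ω]

/-- read-read contact (helper424). -/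
noncomputable def Con.kapCon {W : WalkSpace d Ω} {rd : Ω → ℕ → Prop} (hW : Cont.RdSpace W rd)
    (R : ℕ) : Con W R where
  con V X := Cont.kap W rd R V X
  tr X t := Cont.rows W rd X t
  isStop V := Cont.isStop_kap hW.det V
  far V X n hn := by
    intro z hz
    obtain ⟨i, hi, h1, rfl⟩ := (hW.read_iff X n z).1 hz
    by_contra hcon
    have h2 : Cont.kap W rd R V X ≤ i := Cont.ft_le ⟨h1, hcon⟩
    have h3 : n ≤ i := by exact_mod_cast hn.trans h2
    omega
  anti h X := Cont.kap_anti h X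
  union {V V' X t} h := by
    obtain ⟨n, hn, hr, a, ha, hR⟩ := Cont.kap_lt_iff.1 h
    rcases ha with ha | ha
    · exact Or.inl (Cont.kap_lt_iff.2 ⟨n, hn, hr, a, ha, hR⟩)
    · exact Or.inr (Cont.kap_lt_iff.2 ⟨n, hn, hr, a, ha, hR⟩)
  empty X := by
    by_contra h
    obtain ⟨n, -, -, a, ha, -⟩ := Cont.kap_lt_iff.1 (lt_top_iff_ne_top.2 h)
    exact ha
  tr_mono X {_ _} h := Cont.rows_mono h
  tr_zero X := by ext z; simp [Cont.rows]
  tr_read X n := by
    intro z hz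
    obtain ⟨i, hi, h1, h2⟩ := (hW.read_iff X n z).1 hz
    exact ⟨i, by exact_mod_cast hi, h1, h2⟩
  tr_congr {n X Y} h {t} ht := by
    have key : ∀ X Y : Ω, W.hist n X = W.hist n Y → Cont.rows W rd X t ⊆ Cont.rows W rd Y t := by
      intro X Y h z ⟨i, hi, h1, h2⟩
      have hin : i ≤ n := by
        have : i < n + 1 := by exact_mod_cast hi.trans_le ht
        omega
      have h' := W.mono X Y hin h
      exact ⟨i, hi, (hW.det i X Y h').1 h1, by rw [← W.pos_det i X Y h']; exact h2⟩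
    exact Set.Subset.antisymm (key X Y h) (key Y X h.symm)
  single X Y t t' := by
    constructor
    · intro h
      obtain ⟨n, hn, hr, a, ⟨j, hj, h1, h2⟩, hR⟩ := Cont.kap_lt_iff.1 h
      refine ⟨n, j, hn, hj, ?_⟩
      have h3 : Cont.kap W rd R (Cont.rows W rd X ((j + 1 : ℕ) : ℕ∞)) Y < ((n + 1 : ℕ) : ℕ∞) :=
        Cont.kap_lt_iff.2 ⟨n, by exact_mod_cast Nat.lt_succ_self n, hr, a,
          ⟨j, by exact_mod_cast Nat.lt_succ_self j, h1, h2⟩, hR⟩
      obtain ⟨m, hm⟩ := ENat.ne_top_iff_exists.1 h3.ne_top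
      change Cont.kap W rd R (Cont.rows W rd X ((j + 1 : ℕ) : ℕ∞)) Y ≤ (n : ℕ∞)
      rw [← hm] at h3 ⊢
      have : m < n + 1 := by exact_mod_cast h3
      have : m ≤ n := by omega
      exact_mod_cast this
    · rintro ⟨n, j, hn, hj, hc⟩
      refine ((Cont.kap_anti (Cont.rows_mono ?_) Y).trans hc).trans_lt hn
      have := Order.add_one_le_of_lt hj
      exact_mod_cast this

@[simp] lemma Con.kapCon_con {W : WalkSpace d Ω} {rd : Ω → ℕ → Prop} (hW : Cont.RdSpace W rd)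
    (R : ℕ) (V : Set (Site d)) (X : Ω) : (Con.kapCon hW R).con V X = Cont.kap W rd R V X := rfl

@[simp] lemma Con.kapCon_tr {W : WalkSpace d Ω} {rd : Ω → ℕ → Prop} (hW : Cont.RdSpace W rd)
    (R : ℕ) (X : Ω) (t : ℕ∞) : (Con.kapCon hW R).tr X t = Cont.rows W rd X t := rfl

/-- the contact set of two tests is read-read contact. -/
lemma mem_meet_kapCon {ι : Type} {W : WalkSpace d Ω} {rd : Ω → ℕ → Prop}
    (hW : Cont.RdSpace W rd) (R : ℕ) (τ : ι → Ω → ℕ∞) (l l' : ι) (p : Ω × Ω) :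
    p ∈ KExp.meet (Con.kapCon hW R) τ l l' ↔
      ∃ n j : ℕ, (n : ℕ∞) < τ l' p.2 ∧ (j : ℕ∞) < τ l p.1 ∧ rd p.2 n ∧ rd p.1 j ∧
        ∀ i, |W.pos p.1 j i - W.pos p.2 n i| ≤ (R : ℤ) := by
  show Cont.kap W rd R (Cont.rows W rd p.1 (τ l p.1)) p.2 < τ l' p.2 ↔ _
  rw [Cont.kap_lt_iff]
  constructor
  · rintro ⟨n, hn, hr, a, ⟨j, hj, h1, rfl⟩, hR⟩
    exact ⟨n, j, hn, hj, hr, h1, hR⟩
  · rintro ⟨n, j, hn, hj, hr, h1, hR⟩
    exact ⟨n, hn, hr, _, ⟨j, hj, h1, rfl⟩, hR⟩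

end Crest.Agent.R154
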