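import Crest.Agent.R154.ConcD_412
import Crest.Agent.R154.Body_818

/-!
Row 154, block B3: BODY for every symmetric law which is nondegenerate in the plane.
-/

open MeasureTheory ProbabilityTheory Set
open scoped BigOperators ENNReal NNReal

namespace Crest.Agent.R154.Conc412

open Crest.Agent.R154.Body818

theorem partA {μ : Measure (Fin 2 → ℝ)} [IsProbabilityMeasure μ]
    (hs : μ.map (fun x => -x) = μ) (hnd : ∀ v, v ≠ 0 → 0 < gg μ v) : PartA μ := by
  obtain ⟨p, hp0, hp⟩ := exists_lower hnd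
  have hp' : ∀ v : Fin 2 → ℝ, ‖v‖ = 1 → p / 2 ≤ gg (diffLaw μ) v := by
    intro v hv
    have h1 := gg_le_two_diff hs v
    have h2 := hp v hv
    linarith
  intro ε hε R hR
  obtain ⟨m, N₀, h⟩ := body_a hs (half_pos hp0) hp' hε hR
  exact ⟨m, N₀, fun N hN b hb Ω _ P _ X hX y => h N hN b hb P X hX.meas hX.indep hX.law y⟩

/-- **BODY** for every symmetric nondegenerate planar law. -/
theorem bodyProp {μ : Measure (Fin 2 → ℝ)} [IsProbabilityMeasure μ]
    (hs : μ.map (fun x => -x) = μ) (hnd : ∀ v, v ≠ 0 → 0 < gg μ v) : BodyProp μ :=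
  bodyProp_of_partA hs hnd (partA hs hnd)

end Crest.Agent.R154.Conc412
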