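import Crest.Agent.R154.B5Rec_566

/-! Row 154, road 801, leaf (C) (helper919): the position of a renewal of height `n` is not concentrated,
for a list of iid blocks two of which have the same height and a displacement difference of infinite
order. -/

set_option autoImplicit false

namespace Crest.Agent.R154.ConcL919

open scoped ENNReal
open Crest.Agent.R154.B5A

/-! ### the two point convolution on the reals -/

section real

variable {G : Type*} [AddCommGroup G]

/-- `N` steps of the walk `g ↦ g` (prob. `q`), `g ↦ g + δ` (prob. `p`), applied to a function -/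
def RR (q p : ℝ) (δ : G) : ℕ → (G → ℝ) → G → ℝ
  | 0, φ, g => φ g
  | N + 1, φ, g => q * RR q p δ N φ g + p * RR q p δ N φ (g + δ)

variable {q p : ℝ} {δ : G}

lemma RR_mono (hq : 0 ≤ q) (hp : 0 ≤ p) (N : ℕ) {φ ψ : G → ℝ} (h : ∀ g, φ g ≤ ψ g) (g : G) :
    RR q p δ N φ g ≤ RR q p δ N ψ g := by
  induction N generalizing g with
  | zero => exact h g
  | succ N ih =>
    simp only [RR]
    exact add_le_add (mul_le_mul_of_nonneg_left (ih _) hq) (mul_le_mul_of_nonneg_left (ih _) hp)

lemma RR_const (hpq : q + p = 1) (N : ℕ) (c : ℝ) (g : G) : RR q p δ N (fun _ => c) g = c := by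
  induction N generalizing g with
  | zero => rfl
  | succ N ih => simp only [RR, ih]; rw [← add_mul, hpq, one_mul]

lemma RR_sum (N : ℕ) {κ : Type*} (s : Finset κ) (f : κ → G → ℝ) (g : G) :
    RR q p δ N (fun g => ∑ k ∈ s, f k g) g = ∑ k ∈ s, RR q p δ N (f k) g := by
  induction N generalizing g with
  | zero => rfl
  | succ N ih => simp only [RR, ih, Finset.mul_sum, Finset.sum_add_distrib]

lemma RR_shift (N : ℕ) (φ : G → ℝ) (c g : G) :
    RR q p δ N (fun g => φ (g + c)) g = RR q p δ N φ (g + c) := by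
  induction N generalizing g with
  | zero => rfl
  | succ N ih => simp only [RR, ih, add_right_comm g δ c]

lemma RR_semi (N r : ℕ) (φ : G → ℝ) (g : G) :
    RR q p δ (N + r) φ g = RR q p δ r (RR q p δ N φ) g := by
  induction r generalizing g with
  | zero => rfl
  | succ r ih => rw [← add_assoc]; simp only [RR, ih]

lemma RR_le (hq : 0 ≤ q) (hp : 0 ≤ p) (hpq : q + p = 1) (N : ℕ) {φ : G → ℝ} {M : ℝ}
    (h : ∀ g, φ g ≤ M) (g : G) : RR q p δ N φ g ≤ M := by
  have := RR_mono (δ := δ) hq hp N (ψ := fun _ => M) h g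
  rwa [RR_const hpq] at this

/-- each of the points `g + j δ`, `j ≤ r`, is reached with probability at least `c ^ r` -/
lemma RR_coef {c : ℝ} (hc : 0 < c) (hcq : c ≤ q) (hcp : c ≤ p) (hpq : q + p = 1) (r : ℕ)
    {ψ : G → ℝ} {M : ℝ} (hM : ∀ g, ψ g ≤ M) (j : ℕ) (hj : j ≤ r) (g : G) :
    RR q p δ r ψ g ≤ (1 - c ^ r) * M + c ^ r * ψ (g + j • δ) := by
  have hq : 0 ≤ q := hc.le.trans hcq
  have hp : 0 ≤ p := hc.le.trans hcp
  induction r generalizing j g with
  | zero =>
    obtain rfl : j = 0 := by omega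
    simp [RR]
  | succ r ih =>
    simp only [RR]
    have hcr : (0 : ℝ) < c ^ r := pow_pos hc r
    by_cases hjr : j ≤ r
    · have h1 := ih j hjr g
      have h2 : RR q p δ r ψ (g + δ) ≤ M := RR_le hq hp hpq r hM _
      have h3 : 0 ≤ (q - c) * (c ^ r * (M - ψ (g + j • δ))) :=
        mul_nonneg (by linarith) (mul_nonneg hcr.le (by linarith [hM (g + j • δ)]))
      have h4 : q * RR q p δ r ψ g ≤ q * ((1 - c ^ r) * M + c ^ r * ψ (g + j • δ)) :=
        mul_le_mul_of_nonneg_left h1 hq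
      have h5 : p * RR q p δ r ψ (g + δ) ≤ p * M := mul_le_mul_of_nonneg_left h2 hp
      have h6 : (q + p) * M = M := by rw [hpq, one_mul]
      rw [pow_succ]
      nlinarith [h3, h4, h5, h6]
    · obtain rfl : j = r + 1 := by omega
      have h1 := ih r le_rfl (g + δ)
      have h2 : RR q p δ r ψ g ≤ M := RR_le hq hp hpq r hM _
      have e : g + δ + r • δ = g + (r + 1) • δ := by rw [add_assoc, succ_nsmul']
      rw [e] at h1
      have h3 : 0 ≤ (p - c) * (c ^ r * (M - ψ (g + (r + 1) • δ))) :=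
        mul_nonneg (by linarith) (mul_nonneg hcr.le (by linarith [hM (g + (r + 1) • δ)]))
      have h4 : p * RR q p δ r ψ (g + δ) ≤ p * ((1 - c ^ r) * M + c ^ r * ψ (g + (r + 1) • δ)) :=
        mul_le_mul_of_nonneg_left h1 hp
      have h5 : q * RR q p δ r ψ g ≤ q * M := mul_le_mul_of_nonneg_left h2 hq
      have h6 : (q + p) * M = M := by rw [hpq, one_mul]
      rw [pow_succ]
      nlinarith [h3, h4, h5, h6]

open Classical in
lemma RR_total (hq : 0 ≤ q) (hp : 0 ≤ p) (hpq : q + p = 1) (hδ : ∀ k : ℕ, k ≠ 0 → k • δ ≠ 0)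
    (N r : ℕ) (x g : G) :
    ∑ j ∈ Finset.range (r + 1), RR q p δ N (fun g => if g = x then (1 : ℝ) else 0) (g + j • δ)
      ≤ 1 := by
  have h1 : ∀ j ∈ Finset.range (r + 1),
      RR q p δ N (fun g => if g = x then (1 : ℝ) else 0) (g + j • δ)
        = RR q p δ N (fun g => if g + j • δ = x then (1 : ℝ) else 0) g := fun j _ =>
    (RR_shift N (fun g => if g = x then (1 : ℝ) else 0) (j • δ) g).symm
  rw [Finset.sum_congr rfl h1,
    ← RR_sum N (Finset.range (r + 1)) (fun j g => if g + j • δ = x then (1 : ℝ) else 0) g]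
  refine RR_le hq hp hpq N (fun g => ?_) g
  by_cases hex : ∃ j ∈ Finset.range (r + 1), g + j • δ = x
  · obtain ⟨j, hj, hjx⟩ := hex
    rw [Finset.sum_eq_single j]
    · simp [hjx]
    · intro i _ hij
      rw [if_neg]
      intro hi
      have h2 : i • δ = j • δ := add_left_cancel (hi.trans hjx.symm)
      rcases lt_or_gt_of_ne hij with h | h
      · refine hδ (j - i) (by omega) ?_
        have : (j - i) • δ + i • δ = 0 + i • δ := by
          rw [← add_nsmul, Nat.sub_add_cancel h.le, zero_add, h2]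
        exact add_right_cancel this
      · refine hδ (i - j) (by omega) ?_
        have : (i - j) • δ + j • δ = 0 + j • δ := by
          rw [← add_nsmul, Nat.sub_add_cancel h.le, zero_add, h2]
        exact add_right_cancel this
    · intro h; exact absurd hj h
  · push Not at hex
    rw [Finset.sum_eq_zero fun j hj => if_neg (hex j hj)]
    norm_num

open Classical in
lemma RR_small (hq : 0 < q) (hp : 0 < p) (hpq : q + p = 1) (hδ : ∀ k : ℕ, k ≠ 0 → k • δ ≠ 0)
    {ε : ℝ} (hε : 0 < ε) :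
    ∃ N0 : ℕ, ∀ N, N0 ≤ N → ∀ x g, RR q p δ N (fun g => if g = x then (1 : ℝ) else 0) g ≤ ε := by
  set c : ℝ := min q p with hc
  have hc0 : 0 < c := lt_min hq hp
  have hcq : c ≤ q := min_le_left _ _
  have hcp : c ≤ p := min_le_right _ _
  have hc1 : c < 1 := by linarith
  obtain ⟨r, hr⟩ := exists_nat_one_div_lt (half_pos hε)
  have hcr : 0 < c ^ r := pow_pos hc0 r
  have hcr1 : c ^ r ≤ 1 := pow_le_one₀ hc0.le hc1.le
  have hr1 : (0 : ℝ) < (r : ℝ) + 1 := by positivity
  have key : ∀ k : ℕ, ∀ x g, RR q p δ (k * r) (fun g => if g = x then (1 : ℝ) else 0) g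
      ≤ 1 / ((r : ℝ) + 1) + (1 - c ^ r) ^ k := by
    intro k
    induction k with
    | zero =>
      intro x g
      have : (if g = x then (1 : ℝ) else 0) ≤ 1 := by split_ifs <;> norm_num
      simp only [zero_mul, RR, pow_zero]
      have : 0 < 1 / ((r : ℝ) + 1) := by positivity
      linarith
    | succ k ih =>
      intro x g
      set M : ℝ := 1 / ((r : ℝ) + 1) + (1 - c ^ r) ^ k with hM
      set ψ : G → ℝ := RR q p δ (k * r) (fun g => if g = x then (1 : ℝ) else 0) with hψ
      have e : (k + 1) * r = k * r + r := by ring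
      rw [e, RR_semi]
      have h1 : ∀ j ∈ Finset.range (r + 1), RR q p δ r ψ g
          ≤ (1 - c ^ r) * M + c ^ r * ψ (g + j • δ) := fun j hj =>
        RR_coef hc0 hcq hcp hpq r (fun g => ih x g) j (by have := Finset.mem_range.1 hj; omega) g
      have h2 := Finset.sum_le_sum h1
      rw [Finset.sum_const, Finset.sum_add_distrib, Finset.sum_const, ← Finset.mul_sum,
        Finset.card_range, nsmul_eq_mul, nsmul_eq_mul] at h2
      have h3 := RR_total (q := q) (p := p) hq.le hp.le hpq hδ (k * r) r x g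
      have h4 : c ^ r * ∑ j ∈ Finset.range (r + 1), ψ (g + j • δ) ≤ c ^ r * 1 :=
        mul_le_mul_of_nonneg_left h3 hcr.le
      have h5 : ((r : ℝ) + 1) * RR q p δ r ψ g ≤ ((r : ℝ) + 1) * ((1 - c ^ r) * M) + c ^ r := by
        push_cast at h2; linarith
      have h6 : RR q p δ r ψ g ≤ (1 - c ^ r) * M + c ^ r / ((r : ℝ) + 1) := by
        have h7 : ((r : ℝ) + 1) * RR q p δ r ψ g
            ≤ ((r : ℝ) + 1) * ((1 - c ^ r) * M + c ^ r / ((r : ℝ) + 1)) := by
          rw [mul_add, mul_div_cancel₀ _ hr1.ne']; exact h5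
        exact le_of_mul_le_mul_left h7 hr1
      refine h6.trans (le_of_eq ?_)
      rw [hM, pow_succ]
      field_simp
      ring
  have hlim : Filter.Tendsto (fun k : ℕ => (1 - c ^ r) ^ k) Filter.atTop (nhds 0) :=
    tendsto_pow_atTop_nhds_zero_of_lt_one (by linarith) (by linarith)
  obtain ⟨k, hk⟩ := (hlim.eventually_lt_const (half_pos hε)).exists
  refine ⟨k * r, fun N hN x g => ?_⟩
  obtain ⟨s, rfl⟩ := Nat.exists_eq_add_of_le hN
  rw [RR_semi]
  exact RR_le hq.le hp.le hpq s (fun g => (key k x g).trans (by linarith)) g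

end real

/-! ### the two point convolution in `ℝ≥0∞` -/

section enn

variable {G : Type*} [AddCommGroup G]

/-- the same operator with values in `ℝ≥0∞` -/
noncomputable def RN (q p : ℝ≥0∞) (δ : G) : ℕ → (G → ℝ≥0∞) → G → ℝ≥0∞
  | 0, φ, g => φ g
  | N + 1, φ, g => q * RN q p δ N φ g + p * RN q p δ N φ (g + δ)

variable (q p : ℝ≥0∞) (δ : G)

lemma RN_shift (N : ℕ) (φ : G → ℝ≥0∞) (c g : G) :
    RN q p δ N (fun g => φ (c + g)) g = RN q p δ N φ (c + g) := by
  induction N generalizing g with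
  | zero => rfl
  | succ N ih => simp only [RN, ih, add_assoc]

lemma RN_ofReal {q p : ℝ} (hq : 0 ≤ q) (hp : 0 ≤ p) (N : ℕ) (φ : G → ℝ) (hφ : ∀ g, 0 ≤ φ g)
    (g : G) : RN (ENNReal.ofReal q) (ENNReal.ofReal p) δ N (fun g => ENNReal.ofReal (φ g)) g
      = ENNReal.ofReal (RR q p δ N φ g) ∧ 0 ≤ RR q p δ N φ g := by
  induction N generalizing g with
  | zero => exact ⟨rfl, hφ g⟩
  | succ N ih =>
    simp only [RN, RR]
    rw [(ih g).1, (ih (g + δ)).1, ← ENNReal.ofReal_mul hq, ← ENNReal.ofReal_mul hp,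
      ← ENNReal.ofReal_add (mul_nonneg hq (ih g).2) (mul_nonneg hp (ih (g + δ)).2)]
    exact ⟨rfl, add_nonneg (mul_nonneg hq (ih g).2) (mul_nonneg hp (ih (g + δ)).2)⟩

open Classical in
lemma RN_small {q p : ℝ≥0∞} (hq : q ≠ 0) (hp : p ≠ 0) (hpq : q + p = 1)
    (hδ : ∀ k : ℕ, k ≠ 0 → k • δ ≠ 0) {ε : ℝ≥0∞} (hε : ε ≠ 0) :
    ∃ N0 : ℕ, ∀ N, N0 ≤ N → ∀ x g, RN q p δ N (fun g => if g = x then (1 : ℝ≥0∞) else 0) g ≤ ε := by
  have hqt : q ≠ ⊤ := ne_top_of_le_ne_top ENNReal.one_ne_top (hpq ▸ le_self_add)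
  have hpt : p ≠ ⊤ := ne_top_of_le_ne_top ENNReal.one_ne_top (hpq ▸ le_add_self)
  have hqr : 0 < q.toReal := ENNReal.toReal_pos hq hqt
  have hpr : 0 < p.toReal := ENNReal.toReal_pos hp hpt
  have hpqr : q.toReal + p.toReal = 1 := by
    rw [← ENNReal.toReal_add hqt hpt, hpq]; simp
  obtain ⟨e, he0, heε⟩ : ∃ e : ℝ, 0 < e ∧ ENNReal.ofReal e ≤ ε := by
    by_cases ht : ε = ⊤
    · exact ⟨1, one_pos, by rw [ht]; exact le_top⟩
    · exact ⟨ε.toReal, ENNReal.toReal_pos hε ht, by rw [ENNReal.ofReal_toReal ht]⟩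
  obtain ⟨N0, hN0⟩ := RR_small (G := G) (δ := δ) hqr hpr hpqr hδ he0
  refine ⟨N0, fun N hN x g => ?_⟩
  have h := (RN_ofReal δ hqr.le hpr.le N (fun g => if g = x then (1 : ℝ) else 0)
    (fun g => by split_ifs <;> norm_num) g).1
  rw [ENNReal.ofReal_toReal hqt, ENNReal.ofReal_toReal hpt] at h
  have h2 : (fun g : G => ENNReal.ofReal (if g = x then (1 : ℝ) else 0))
      = fun g => if g = x then (1 : ℝ≥0∞) else 0 := by
    funext g; split_ifs <;> simp
  rw [h2] at h
  rw [h]
  exact (ENNReal.ofReal_le_ofReal (hN0 N hN x g)).trans heε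

end enn

/-! ### lists of blocks -/

lemma tsum_ite' (k : ℕ) (X : ℝ≥0∞) : ∑' i, (if k = i then X else 0) = X := by
  rw [tsum_eq_single k]
  · simp
  · intro i hi; simp [hi.symm]

section lists

variable {B G : Type*} [AddCommGroup G] (Λ : B → ℝ≥0∞) (ht : B → ℕ) (dsp : B → G) (b1 b2 : B)

open Classical in
/-- number of marked blocks -/
noncomputable def mk : List B → ℕ
  | [] => 0
  | b :: L => (if b = b1 ∨ b = b2 then 1 else 0) + mk L

open Classical in
/-- displacement with `b2` replaced by `b1` -/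
noncomputable def bs : List B → G
  | [] => 0
  | b :: L => (if b = b2 then dsp b1 else dsp b) + bs L

open Classical in
lemma tsum_two (h12 : b1 ≠ b2) (f g : B → ℝ≥0∞) (h : ∀ b, b ≠ b1 → b ≠ b2 → f b = g b)
    (h' : f b1 + f b2 = g b1 + g b2) : ∑' b, f b = ∑' b, g b := by
  have key : ∀ F : B → ℝ≥0∞, ∑' b, F b
      = (F b1 + F b2) + ∑' b, (if b = b1 ∨ b = b2 then 0 else F b) := by
    intro F
    rw [ENNReal.tsum_eq_add_tsum_ite b1,
      ENNReal.tsum_eq_add_tsum_ite (f := fun b => if b = b1 then 0 else F b) b2,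
      if_neg h12.symm, ← add_assoc]
    congr 1
    refine tsum_congr fun b => ?_
    by_cases h1 : b = b1
    · simp [h1]
    · by_cases h2 : b = b2
      · simp [h2]
      · simp [h1, h2]
  rw [key f, key g, h']
  congr 1
  refine tsum_congr fun b => ?_
  split_ifs with hb
  · rfl
  · push Not at hb; exact h b hb.1 hb.2

open Classical in
lemma resample (hht : ht b1 = ht b2) (h12 : b1 ≠ b2) (h1 : Λ b1 ≠ 0) (h1t : Λ b1 + Λ b2 ≠ ⊤)
    (j N : ℕ) (ψ : ℕ → ℝ≥0∞) (φ : G → ℝ≥0∞) :
    SL Λ j (fun L => if mk b1 b2 L = N then ψ (HT ht L) * φ ((L.map dsp).sum) else 0)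
      = SL Λ j (fun L => if mk b1 b2 L = N then ψ (HT ht L)
          * RN (Λ b1 / (Λ b1 + Λ b2)) (Λ b2 / (Λ b1 + Λ b2)) (dsp b2 - dsp b1) N φ
            (bs dsp b1 b2 L) else 0) := by
  have hs0 : Λ b1 + Λ b2 ≠ 0 := by simp [h1]
  induction j generalizing N ψ φ with
  | zero =>
    rw [SL_zero, SL_zero]
    cases N with
    | zero => simp [mk, bs, RN]
    | succ N => simp [mk]
  | succ j ih =>
    rw [SL_succ, SL_succ]
    refine tsum_two b1 b2 h12 _ _ (fun b hb1 hb2 => ?_) ?_
    · congr 1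
      have hm : ∀ L, mk b1 b2 (b :: L) = mk b1 b2 L := fun L => by simp [mk, hb1, hb2]
      have hb : ∀ L, bs dsp b1 b2 (b :: L) = dsp b + bs dsp b1 b2 L := fun L => by
        simp [bs, hb2]
      have hmap : ∀ L : List B, ((b :: L).map dsp).sum = dsp b + (L.map dsp).sum := fun L => by simp
      simp only [hm, hb, HT_cons, hmap]
      rw [ih N (fun h => ψ (ht b + h)) (fun g => φ (dsp b + g))]
      simp only [RN_shift]
    · cases N with
      | zero =>
        have hm1 : ∀ L, mk b1 b2 (b1 :: L) ≠ 0 := fun L => by simp [mk]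
        have hm2 : ∀ L, mk b1 b2 (b2 :: L) ≠ 0 := fun L => by simp [mk]
        simp only [if_neg (hm1 _), if_neg (hm2 _)]
      | succ N =>
        have hm1 : ∀ L, (mk b1 b2 (b1 :: L) = N + 1) = (mk b1 b2 L = N) := fun L => by
          simp only [mk, true_or, if_true, eq_iff_iff]; omega
        have hm2 : ∀ L, (mk b1 b2 (b2 :: L) = N + 1) = (mk b1 b2 L = N) := fun L => by
          simp only [mk, or_true, if_true, eq_iff_iff]; omega
        have hb1 : ∀ L, bs dsp b1 b2 (b1 :: L) = dsp b1 + bs dsp b1 b2 L := fun L => by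
          simp [bs, h12]
        have hb2 : ∀ L, bs dsp b1 b2 (b2 :: L) = dsp b1 + bs dsp b1 b2 L := fun L => by
          simp [bs]
        have hmap : ∀ (b : B) (L : List B), ((b :: L).map dsp).sum = dsp b + (L.map dsp).sum :=
          fun b L => by simp
        simp only [hm1, hm2, hb1, hb2, HT_cons, hmap, ← hht]
        rw [ih N (fun h => ψ (ht b1 + h)) (fun g => φ (dsp b1 + g)),
          ih N (fun h => ψ (ht b1 + h)) (fun g => φ (dsp b2 + g))]
        simp only [RN_shift]
        set q := Λ b1 / (Λ b1 + Λ b2) with hq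
        set p := Λ b2 / (Λ b1 + Λ b2) with hp
        set δ := dsp b2 - dsp b1 with hδ
        have eq1 : Λ b1 = (Λ b1 + Λ b2) * q := (ENNReal.mul_div_cancel hs0 h1t).symm
        have eq2 : Λ b2 = (Λ b1 + Λ b2) * p := (ENNReal.mul_div_cancel hs0 h1t).symm
        have e3 : ∀ L, dsp b2 + bs dsp b1 b2 L = dsp b1 + bs dsp b1 b2 L + δ := fun L => by
          rw [hδ]; abel
        simp only [e3]
        have e4 : ∀ L, (if mk b1 b2 L = N then ψ (ht b1 + HT ht L)
              * RN q p δ (N + 1) φ (dsp b1 + bs dsp b1 b2 L) else 0)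
            = q * (if mk b1 b2 L = N then ψ (ht b1 + HT ht L)
              * RN q p δ N φ (dsp b1 + bs dsp b1 b2 L) else 0)
            + p * (if mk b1 b2 L = N then ψ (ht b1 + HT ht L)
              * RN q p δ N φ (dsp b1 + bs dsp b1 b2 L + δ) else 0) := fun L => by
          split_ifs
          · simp only [RN]; ring
          · simp
        simp only [e4, SL_add_fun, SL_const_mul]
        set X := SL Λ j (fun L => if mk b1 b2 L = N then ψ (ht b1 + HT ht L)
              * RN q p δ N φ (dsp b1 + bs dsp b1 b2 L) else 0)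
        set Y := SL Λ j (fun L => if mk b1 b2 L = N then ψ (ht b1 + HT ht L)
              * RN q p δ N φ (dsp b1 + bs dsp b1 b2 L + δ) else 0)
        calc Λ b1 * X + Λ b2 * Y = (Λ b1 + Λ b2) * q * X + (Λ b1 + Λ b2) * p * Y := by
              rw [← eq1, ← eq2]
          _ = _ := by ring

open Classical in
/-- mass of the lists with `r` marked blocks is finite -/
lemma mass_mk (hΛ : ∑' b, Λ b = 1) (h12 : b1 ≠ b2) (h1 : Λ b1 ≠ 0) (r : ℕ) :
    ∑' j, SL Λ j (fun L => if mk b1 b2 L = r then 1 else 0) ≤ (Λ b1 + Λ b2)⁻¹ := by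
  set s := Λ b1 + Λ b2 with hs
  set a := ∑' b, (if b = b1 ∨ b = b2 then 0 else Λ b) with ha
  have has : s + a = 1 := by
    rw [← hΛ, hs, ha, ENNReal.tsum_eq_add_tsum_ite b1 (f := Λ),
      ENNReal.tsum_eq_add_tsum_ite (f := fun b => if b = b1 then 0 else Λ b) b2,
      if_neg h12.symm, ← add_assoc]
    congr 1
    refine tsum_congr fun b => ?_
    by_cases h1 : b = b1
    · simp [h1]
    · by_cases h2 : b = b2
      · simp [h2]
      · simp [h1, h2]
  have hs0 : s ≠ 0 := by simp [hs, h1]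
  have hst : s ≠ ⊤ := ne_top_of_le_ne_top ENNReal.one_ne_top (has ▸ le_self_add)
  have hat : a ≠ ⊤ := ne_top_of_le_ne_top ENNReal.one_ne_top (has ▸ le_add_self)
  set t : ℕ → ℕ → ℝ≥0∞ := fun r j => SL Λ j (fun L => if mk b1 b2 L = r then 1 else 0) with ht
  have hle1 : ∀ r j, t r j ≤ 1 := by
    intro r j
    calc t r j ≤ SL Λ j (fun _ => 1) := SL_mono Λ j fun L _ => by split_ifs <;> simp
      _ = 1 := SL_one Λ hΛ j
  have hsum : ∀ X Y : ℝ≥0∞, ∑' b, Λ b * (if b = b1 ∨ b = b2 then X else Y) = s * X + a * Y := by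
    intro X Y
    rw [hs, ha, ENNReal.tsum_eq_add_tsum_ite b1,
      ENNReal.tsum_eq_add_tsum_ite (f := fun b => if b = b1 then 0 else
        Λ b * (if b = b1 ∨ b = b2 then X else Y)) b2, if_neg h12.symm, ← add_assoc,
      ← ENNReal.tsum_mul_right]
    simp only [true_or, or_true, if_true, add_mul]
    congr 1
    refine tsum_congr fun b => ?_
    by_cases h1 : b = b1
    · simp [h1]
    · by_cases h2 : b = b2
      · simp [h2]
      · simp [h1, h2]
  have h0 : ∀ j, t 0 (j + 1) = a * t 0 j := by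
    intro j
    have := hsum 0 (t 0 j)
    rw [mul_zero, zero_add] at this
    rw [← this, ht]
    simp only
    rw [SL_succ]
    refine tsum_congr fun b => ?_
    by_cases hb : b = b1 ∨ b = b2
    · rw [if_pos hb]
      have : ∀ L, mk b1 b2 (b :: L) ≠ 0 := fun L => by simp [mk, hb]
      simp only [if_neg (this _)]
      congr 1
      simp [SL]
    · rw [if_neg hb]
      have : ∀ L, mk b1 b2 (b :: L) = mk b1 b2 L := fun L => by simp [mk, hb]
      simp only [this]
  have hS : ∀ r j, t (r + 1) (j + 1) = s * t r j + a * t (r + 1) j := by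
    intro r j
    rw [← hsum, ht]
    simp only
    rw [SL_succ]
    refine tsum_congr fun b => ?_
    by_cases hb : b = b1 ∨ b = b2
    · rw [if_pos hb]
      have : ∀ L, (mk b1 b2 (b :: L) = r + 1) = (mk b1 b2 L = r) := fun L => by
        simp only [mk, hb, if_true, eq_iff_iff]; omega
      simp only [this]
    · rw [if_neg hb]
      have : ∀ L, mk b1 b2 (b :: L) = mk b1 b2 L := fun L => by simp [mk, hb]
      simp only [this]
  have ht00 : t 0 0 = 1 := by rw [ht]; simp only; rw [SL_zero]; simp [mk]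
  have htr0 : ∀ r, t (r + 1) 0 = 0 := fun r => by rw [ht]; simp only; rw [SL_zero]; simp [mk]
  induction r with
  | zero =>
    have hpow : ∀ j, t 0 j = a ^ j := by
      intro j
      induction j with
      | zero => rw [ht00, pow_zero]
      | succ j ih => rw [h0, ih, pow_succ, mul_comm]
    have e : ∑' j, t 0 j = (1 - a)⁻¹ := by
      rw [← ENNReal.tsum_geometric]; exact tsum_congr hpow
    change ∑' j, t 0 j ≤ s⁻¹
    rw [e]
    have : 1 - a = s := by rw [← has]; exact ENNReal.add_sub_cancel_right hat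
    rw [this]
  | succ r ih =>
    change ∑' j, t (r + 1) j ≤ s⁻¹
    change ∑' j, t r j ≤ s⁻¹ at ih
    rw [ENNReal.tsum_eq_iSup_nat]
    refine iSup_le fun J => ?_
    set x := ∑ j ∈ Finset.range J, t (r + 1) j with hx
    have hxt : x ≠ ⊤ := by
      rw [hx]; exact ENNReal.sum_ne_top.2 fun j _ => ne_top_of_le_ne_top ENNReal.one_ne_top (hle1 _ _)
    have h2 : x ≤ s * (∑' j, t r j) + a * x := by
      calc x ≤ ∑ j ∈ Finset.range (J + 1), t (r + 1) j :=
            Finset.sum_le_sum_of_subset (Finset.range_mono (Nat.le_succ J))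
        _ = ∑ j ∈ Finset.range J, (s * t r j + a * t (r + 1) j) := by
            rw [Finset.sum_range_succ', htr0, add_zero]
            exact Finset.sum_congr rfl fun j _ => hS r j
        _ = s * (∑ j ∈ Finset.range J, t r j) + a * x := by
            rw [Finset.sum_add_distrib, Finset.mul_sum, Finset.mul_sum]
        _ ≤ _ := add_le_add (mul_le_mul_right (ENNReal.sum_le_tsum _) _) le_rfl
    have h3 : s * x + a * x ≤ s * (∑' j, t r j) + a * x := by
      rw [← add_mul, has, one_mul]; exact h2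
    have h4 : s * x ≤ s * (∑' j, t r j) :=
      (ENNReal.add_le_add_iff_right (ENNReal.mul_ne_top hat hxt)).1 h3
    exact ((ENNReal.mul_le_mul_iff_right hs0 hst).1 h4).trans ih

open Classical in
/-- **Leaf (C).** -/
theorem conc (h1 : ∀ b, 1 ≤ ht b) (hΛ : ∑' b, Λ b = 1) (hht : ht b1 = ht b2)
    (hb1 : Λ b1 ≠ 0) (hb2 : Λ b2 ≠ 0)
    (hδ : ∀ k : ℕ, k ≠ 0 → k • (dsp b2 - dsp b1) ≠ 0) :
    ∀ ε : ℝ≥0∞, ε ≠ 0 → ∃ N : ℕ, ∀ n, N ≤ n → ∀ x : G,
      ∑' L : List B, (if HT ht L = n ∧ (L.map dsp).sum = x then LW Λ L else 0) ≤ ε := by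
  intro ε hε
  have h12 : b1 ≠ b2 := by
    rintro rfl; exact hδ 1 one_ne_zero (by simp)
  have hsle : Λ b1 + Λ b2 ≤ 1 := by
    rw [← hΛ, ENNReal.tsum_eq_add_tsum_ite b1 (f := Λ)]
    refine add_le_add le_rfl ?_
    refine le_trans (le_of_eq ?_) (ENNReal.le_tsum b2)
    rw [if_neg h12.symm]
  have hst : Λ b1 + Λ b2 ≠ ⊤ := ne_top_of_le_ne_top ENNReal.one_ne_top hsle
  have hs0 : Λ b1 + Λ b2 ≠ 0 := by simp [hb1]
  set q := Λ b1 / (Λ b1 + Λ b2) with hq
  set p := Λ b2 / (Λ b1 + Λ b2) with hp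
  have hpq : q + p = 1 := by rw [hq, hp, ← ENNReal.add_div, ENNReal.div_self hs0 hst]
  have hq0 : q ≠ 0 := by rw [hq, Ne, ENNReal.div_eq_zero_iff, not_or]; exact ⟨hb1, hst⟩
  have hp0 : p ≠ 0 := by rw [hp, Ne, ENNReal.div_eq_zero_iff, not_or]; exact ⟨hb2, hst⟩
  obtain ⟨N0, hN0⟩ := RN_small (G := G) (dsp b2 - dsp b1) hq0 hp0 hpq hδ (ENNReal.half_pos hε).ne'
  -- the masses
  set D : ℕ → ℕ → ℝ≥0∞ := fun n r =>
    ∑' L : List B, LW Λ L * (if mk b1 b2 L = r then (if HT ht L = n then 1 else 0) else 0) with hD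
  have hU1 : ∀ n, U Λ ht n ≤ 1 := by
    intro n
    have h := renewal_one Λ ht h1 hΛ n
    have h0 : tail Λ ht 0 = 1 := by
      rw [← hΛ, tail]
      refine tsum_congr fun b => ?_
      rw [if_pos (by have := h1 b; omega)]
    calc U Λ ht n = U Λ ht (n - 0) * tail Λ ht 0 := by rw [h0, mul_one, Nat.sub_zero]
      _ ≤ ∑ k ∈ Finset.range (n + 1), U Λ ht (n - k) * tail Λ ht k :=
          Finset.single_le_sum (f := fun k => U Λ ht (n - k) * tail Λ ht k)
            (fun _ _ => zero_le) (Finset.mem_range.2 (Nat.succ_pos n))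
      _ = 1 := h
  have hDsum : ∀ n, ∑' r, D n r ≤ 1 := by
    intro n
    refine le_trans (le_of_eq ?_) (hU1 n)
    rw [hD]
    simp only
    rw [ENNReal.tsum_comm, U]
    refine tsum_congr fun L => ?_
    rw [ENNReal.tsum_mul_left, tsum_ite']
    split_ifs <;> simp
  have hDfin : ∀ r, ∑' n, D n r ≠ ⊤ := by
    intro r
    refine ne_top_of_le_ne_top (ENNReal.inv_ne_top.2 hs0) ?_
    refine le_trans (le_of_eq ?_) (mass_mk Λ b1 b2 hΛ h12 hb1 r)
    rw [← tsum_eq_tsum_SL, hD]
    simp only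
    rw [ENNReal.tsum_comm]
    refine tsum_congr fun L => ?_
    rw [ENNReal.tsum_mul_left]
    congr 1
    split_ifs
    · rw [tsum_ite']
    · simp
  have hlim : Filter.Tendsto (fun n => ∑ r ∈ Finset.range N0, D n r) Filter.atTop (nhds 0) := by
    rw [← Finset.sum_const_zero (s := Finset.range N0)]
    refine tendsto_finsetSum _ fun r _ => ?_
    have := ENNReal.tendsto_cofinite_zero_of_tsum_ne_top (hDfin r)
    rwa [Nat.cofinite_eq_atTop] at this
  obtain ⟨n1, hn1⟩ := (hlim.eventually_le_const (ENNReal.half_pos hε)).exists_forall_of_atTop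
  refine ⟨n1, fun n hn x => ?_⟩
  set φ : G → ℝ≥0∞ := fun g => if g = x then 1 else 0 with hφ
  set ψ : ℕ → ℝ≥0∞ := fun h => if h = n then 1 else 0 with hψ
  have hA : ∀ r, ∑' L : List B, LW Λ L *
      (if mk b1 b2 L = r then ψ (HT ht L) * φ ((L.map dsp).sum) else 0)
      ≤ (if r < N0 then D n r else 0) + ε / 2 * D n r := by
    intro r
    by_cases hr : r < N0
    · rw [if_pos hr]
      refine le_add_right ?_
      refine ENNReal.tsum_le_tsum fun L => mul_le_mul_right ?_ _
      by_cases h : mk b1 b2 L = r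
      · rw [if_pos h, if_pos h]
        simp only [hψ, hφ]
        split_ifs <;> simp
      · rw [if_neg h, if_neg h]
    · rw [if_neg hr, zero_add, tsum_eq_tsum_SL]
      simp only [resample Λ ht dsp b1 b2 hht h12 hb1 hst _ r ψ φ]
      rw [← tsum_eq_tsum_SL, hD]
      simp only
      rw [← ENNReal.tsum_mul_left]
      refine ENNReal.tsum_le_tsum fun L => ?_
      rw [mul_left_comm]
      refine mul_le_mul_right ?_ _
      by_cases h : mk b1 b2 L = r
      · rw [if_pos h, if_pos h]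
        by_cases h' : HT ht L = n
        · simp only [hψ, h', if_true, one_mul, mul_one]
          exact hN0 r (not_lt.1 hr) x _
        · simp [hψ, h']
      · rw [if_neg h, if_neg h, mul_zero]
  calc ∑' L : List B, (if HT ht L = n ∧ (L.map dsp).sum = x then LW Λ L else 0)
      = ∑' L : List B, ∑' r, LW Λ L *
        (if mk b1 b2 L = r then ψ (HT ht L) * φ ((L.map dsp).sum) else 0) := by
        refine tsum_congr fun L => ?_
        rw [ENNReal.tsum_mul_left, tsum_ite']
        simp only [hψ, hφ]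
        by_cases h1 : HT ht L = n <;> by_cases h2 : (L.map dsp).sum = x <;> simp [h1, h2]
    _ = ∑' r, ∑' L : List B, LW Λ L *
        (if mk b1 b2 L = r then ψ (HT ht L) * φ ((L.map dsp).sum) else 0) := ENNReal.tsum_comm
    _ ≤ ∑' r, ((if r < N0 then D n r else 0) + ε / 2 * D n r) := ENNReal.tsum_le_tsum hA
    _ = ∑ r ∈ Finset.range N0, D n r + ε / 2 * ∑' r, D n r := by
        rw [ENNReal.tsum_add, ENNReal.tsum_mul_left]
        congr 1
        rw [tsum_eq_sum (s := Finset.range N0)]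
        · exact Finset.sum_congr rfl fun r hr => if_pos (Finset.mem_range.1 hr)
        · intro r hr; exact if_neg (by simpa using hr)
    _ ≤ ε / 2 + ε / 2 * 1 := add_le_add (hn1 n hn) (mul_le_mul_right (hDsum n) _)
    _ = ε := by rw [mul_one, ENNReal.add_halves]

end lists

end Crest.Agent.R154.ConcL919
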