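import Crest.Agent.R154.B5Abs_566

/-! Row 154, NBProp, leaf (5) (helper82): the point concentration of the displacement of an iid
renewal sequence tends to `0` (no moments, no Fourier). -/

set_option autoImplicit false

namespace Crest.Agent.R154.ConcS82

open Crest.Agent.R154.B5A
open scoped ENNReal

variable {B G : Type*} [AddCommGroup G] (Λ : B → ℝ≥0∞) (ht : B → ℕ) (dsp : B → G)

open Classical in
/-- weight of the block lists of total height `n` and displacement `x` -/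
noncomputable def fc (n : ℕ) (x : G) : ℝ≥0∞ :=
  ∑' L : List B, if HT ht L = n ∧ (L.map dsp).sum = x then LW Λ L else 0

open Classical in
lemma fc_succ (h1 : ∀ b, 1 ≤ ht b) (n : ℕ) (hn : 1 ≤ n) (x : G) :
    fc Λ ht dsp n x = ∑' b, if ht b ≤ n then Λ b * fc Λ ht dsp (n - ht b) (x - dsp b) else 0 := by
  unfold fc
  rw [tsum_list]
  rw [if_neg (by rintro ⟨h, -⟩; rw [HT_nil] at h; omega), zero_add]
  refine tsum_congr fun b => ?_
  by_cases hb : ht b ≤ n
  · rw [if_pos hb, ← ENNReal.tsum_mul_left]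
    refine tsum_congr fun L => ?_
    rw [HT_cons, LW_cons, List.map_cons, List.sum_cons]
    by_cases h : HT ht L = n - ht b ∧ (L.map dsp).sum = x - dsp b
    · rw [if_pos h, if_pos ⟨by omega, by rw [h.2]; abel⟩]
    · rw [if_neg h, if_neg, mul_zero]
      rintro ⟨h2, h3⟩
      exact h ⟨by omega, by rw [← h3]; abel⟩
  · rw [if_neg hb]
    refine ENNReal.tsum_eq_zero.2 fun L => ?_
    rw [if_neg]
    rintro ⟨h2, -⟩
    rw [HT_cons] at h2
    omega

open Classical in
lemma sum_fc (n : ℕ) : ∑' x, fc Λ ht dsp n x = U Λ ht n := by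
  unfold fc U
  rw [ENNReal.tsum_comm]
  refine tsum_congr fun L => ?_
  by_cases h : HT ht L = n
  · rw [if_pos h, tsum_eq_single ((L.map dsp).sum)]
    · rw [if_pos ⟨h, rfl⟩]
    · intro x hx
      rw [if_neg]
      rintro ⟨-, h2⟩
      exact hx h2.symm
  · rw [if_neg h]
    refine ENNReal.tsum_eq_zero.2 fun x => ?_
    rw [if_neg (fun h2 => h h2.1)]

lemma fc_le_U (n : ℕ) (x : G) : fc Λ ht dsp n x ≤ U Λ ht n := by
  rw [← sum_fc Λ ht dsp n]
  exact ENNReal.le_tsum x

/-- real form of the one-step bound -/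
lemma step_bound (h1 : ∀ b, 1 ≤ ht b) (hΛ : ∑' b, Λ b = 1) (hU1 : ∀ n, U Λ ht n ≤ 1) (b0 : B)
    (N n : ℕ) (S : ℝ≥0∞) (hn : N + ht b0 ≤ n) (hS : ∀ m, N ≤ m → ∀ y, fc Λ ht dsp m y ≤ S)
    (x : G) :
    fc Λ ht dsp n x ≤ Λ b0 * fc Λ ht dsp (n - ht b0) (x - dsp b0)
      + (1 - Λ b0) * S + tail Λ ht (n - N) := by
  classical
  have hn1 : 1 ≤ n := le_trans (h1 b0) (by omega)
  rw [fc_succ Λ ht dsp h1 n hn1 x]
  have key : ∀ b, (if ht b ≤ n then Λ b * fc Λ ht dsp (n - ht b) (x - dsp b) else 0)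
      ≤ (if b = b0 then Λ b0 * fc Λ ht dsp (n - ht b0) (x - dsp b0) else 0)
        + (if b = b0 then 0 else Λ b) * S + (if n - N < ht b then Λ b else 0) := by
    intro b
    by_cases hb0 : b = b0
    · subst hb0
      rw [if_pos (by omega : ht b ≤ n), if_pos rfl, if_pos rfl, zero_mul, add_zero]
      exact le_self_add
    · rw [if_neg hb0, if_neg hb0, zero_add]
      by_cases hb : ht b ≤ n
      · rw [if_pos hb]
        by_cases hb2 : n - N < ht b
        · rw [if_pos hb2]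
          refine le_add_left ?_
          calc Λ b * fc Λ ht dsp (n - ht b) (x - dsp b) ≤ Λ b * 1 :=
                mul_le_mul_right ((fc_le_U Λ ht dsp _ _).trans (hU1 _)) _
            _ = Λ b := mul_one _
        · rw [if_neg hb2, add_zero]
          exact mul_le_mul_right (hS _ (by omega) _) _
      · rw [if_neg hb]; exact bot_le
  refine (ENNReal.tsum_le_tsum key).trans ?_
  rw [ENNReal.tsum_add, ENNReal.tsum_add, tsum_ite_eq, ENNReal.tsum_mul_right]
  have h2 : ∑' b, (if b = b0 then 0 else Λ b) = 1 - Λ b0 := by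
    have h3 : ∑' b, Λ b = Λ b0 + ∑' b, (if b = b0 then 0 else Λ b) :=
      ENNReal.tsum_eq_add_tsum_ite b0
    have hfin : Λ b0 ≠ ⊤ := by
      refine ne_top_of_le_ne_top ENNReal.one_ne_top ?_
      rw [← hΛ]; exact ENNReal.le_tsum b0
    rw [hΛ] at h3
    rw [h3, ENNReal.add_sub_cancel_left hfin]
  rw [h2]
  exact le_rfl

/-- a sequence with the one-step property: near-maximal values propagate down -/
lemma propagate (h1 : ∀ b, 1 ≤ ht b) (hΛ : ∑' b, Λ b = 1) (hU1 : ∀ n, U Λ ht n ≤ 1)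
    {b1 b2 : B} (hh : ht b1 = ht b2) (a S η : ℝ) (ha0 : 0 < a) (ha1 : a ≤ (Λ b1).toReal)
    (ha2 : a ≤ (Λ b2).toReal) (hη : 0 < η) (hS0 : 0 ≤ S) (N1 N2 : ℕ)
    (hN1 : ∀ m, N1 ≤ m → ∀ y, (fc Λ ht dsp m y).toReal ≤ S + η)
    (hN2 : ∀ m, N2 ≤ m → (tail Λ ht m).toReal ≤ η) :
    ∀ k : ℕ, ∀ j ≤ k, ∀ n, N1 + N2 + ht b1 + k * ht b1 ≤ n → ∀ x δ, η ≤ δ →
      S - δ ≤ (fc Λ ht dsp n x).toReal →
      S - (3 / a) ^ k * δ ≤
        (fc Λ ht dsp (n - k * ht b1) (x - k • dsp b1 - j • (dsp b2 - dsp b1))).toReal := by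
  have hΛ1 : ∀ b, Λ b ≤ 1 := fun b => by rw [← hΛ]; exact ENNReal.le_tsum b
  have hfin : ∀ n x, fc Λ ht dsp n x ≠ ⊤ := fun n x =>
    ne_top_of_le_ne_top ENNReal.one_ne_top ((fc_le_U Λ ht dsp n x).trans (hU1 n))
  have htail : ∀ m, tail Λ ht m ≤ 1 := by
    intro m
    rw [← hΛ]
    unfold tail
    refine ENNReal.tsum_le_tsum fun b => ?_
    split_ifs <;> simp
  have hstep : ∀ b0, a ≤ (Λ b0).toReal → ∀ n, N1 + N2 + ht b0 ≤ n → ∀ x δ, η ≤ δ →
      S - δ ≤ (fc Λ ht dsp n x).toReal →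
      S - (3 / a) * δ ≤ (fc Λ ht dsp (n - ht b0) (x - dsp b0)).toReal := by
    intro b0 hb0 n hn x δ hδ hx
    have h := step_bound Λ ht dsp h1 hΛ hU1 b0 N1 n (ENNReal.ofReal (S + η)) (by omega)
      (fun m hm y => by
        rw [← ENNReal.ofReal_toReal (hfin m y)]
        exact ENNReal.ofReal_le_ofReal (hN1 m hm y)) x
    have hA : Λ b0 * fc Λ ht dsp (n - ht b0) (x - dsp b0) ≠ ⊤ :=
      ENNReal.mul_ne_top (ne_top_of_le_ne_top ENNReal.one_ne_top (hΛ1 b0)) (hfin _ _)
    have hB : (1 - Λ b0) * ENNReal.ofReal (S + η) ≠ ⊤ :=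
      ENNReal.mul_ne_top (ne_top_of_le_ne_top ENNReal.one_ne_top tsub_le_self)
        ENNReal.ofReal_ne_top
    have hC : tail Λ ht (n - N1) ≠ ⊤ := ne_top_of_le_ne_top ENNReal.one_ne_top (htail _)
    have h2 := ENNReal.toReal_mono (ENNReal.add_ne_top.2 ⟨ENNReal.add_ne_top.2 ⟨hA, hB⟩, hC⟩) h
    rw [ENNReal.toReal_add (ENNReal.add_ne_top.2 ⟨hA, hB⟩) hC, ENNReal.toReal_add hA hB,
      ENNReal.toReal_mul, ENNReal.toReal_mul, ENNReal.toReal_sub_of_le (hΛ1 b0)
        ENNReal.one_ne_top, ENNReal.toReal_ofReal (by linarith)] at h2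
    have h3 := hN2 (n - N1) (by omega)
    set p := (Λ b0).toReal with hp
    set g := (fc Λ ht dsp (n - ht b0) (x - dsp b0)).toReal with hg
    have hp1 : p ≤ 1 := by
      rw [hp, ← ENNReal.toReal_one]
      exact ENNReal.toReal_mono ENNReal.one_ne_top (hΛ1 b0)
    have hp0 : 0 < p := lt_of_lt_of_le ha0 hb0
    have h4 : p * S - δ - 2 * η ≤ p * g := by
      simp only [ENNReal.toReal_one] at h2
      nlinarith [h2, hx, h3, mul_nonneg hp0.le hη.le]
    have h5 : S - (3 * δ) / p ≤ g := by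
      have : p * (S - (3 * δ) / p) ≤ p * g := by
        rw [mul_sub, mul_div_cancel₀ _ hp0.ne']
        linarith
      exact le_of_mul_le_mul_left this hp0
    have h6 : (3 * δ) / p ≤ 3 / a * δ := by
      rw [div_mul_eq_mul_div]
      exact div_le_div_of_nonneg_left (by linarith) ha0 hb0
    linarith
  intro k
  induction k with
  | zero =>
    intro j hj n hn x δ hδ hx
    have : j = 0 := by omega
    subst this
    simpa using hx
  | succ k ih =>
    intro j hj n hn x δ hδ hx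
    have h3a : 1 ≤ (3 / a) ^ k := by
      refine one_le_pow₀ ?_
      rw [le_div_iff₀ ha0]
      have : (Λ b1).toReal ≤ 1 := by
        rw [← ENNReal.toReal_one]; exact ENNReal.toReal_mono ENNReal.one_ne_top (hΛ1 b1)
      linarith
    have hδ' : η ≤ (3 / a) ^ k * δ := by nlinarith
    have hmul : (k + 1) * ht b1 = k * ht b1 + ht b1 := by ring
    by_cases hjk : j ≤ k
    · have hI := ih j hjk n (by omega) x δ hδ hx
      have hJ := hstep b1 ha1 (n - k * ht b1) (by omega) _ _ hδ' hI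
      have e1 : n - k * ht b1 - ht b1 = n - (k + 1) * ht b1 := by omega
      have e2 : x - k • dsp b1 - j • (dsp b2 - dsp b1) - dsp b1
          = x - (k + 1) • dsp b1 - j • (dsp b2 - dsp b1) := by
        rw [succ_nsmul]; abel
      rw [e1, e2] at hJ
      rw [pow_succ]
      calc S - (3 / a) ^ k * (3 / a) * δ = S - 3 / a * ((3 / a) ^ k * δ) := by ring
        _ ≤ _ := hJ
    · have hjk' : j = k + 1 := by omega
      subst hjk'
      have hI := ih k le_rfl n (by omega) x δ hδ hx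
      have hJ := hstep b2 ha2 (n - k * ht b1) (by omega) _ _ hδ' hI
      have e1 : n - k * ht b1 - ht b2 = n - (k + 1) * ht b1 := by omega
      have e2 : x - k • dsp b1 - k • (dsp b2 - dsp b1) - dsp b2
          = x - (k + 1) • dsp b1 - (k + 1) • (dsp b2 - dsp b1) := by
        rw [succ_nsmul, succ_nsmul]; abel
      rw [e1, e2] at hJ
      rw [pow_succ]
      calc S - (3 / a) ^ k * (3 / a) * δ = S - 3 / a * ((3 / a) ^ k * δ) := by ring
        _ ≤ _ := hJ

/-- **the point concentration of an iid renewal sequence tends to `0`** -/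
theorem conc (h1 : ∀ b, 1 ≤ ht b) (hΛ : ∑' b, Λ b = 1) (hU1 : ∀ n, U Λ ht n ≤ 1)
    {b1 b2 : B} (hh : ht b1 = ht b2) (hb1 : Λ b1 ≠ 0) (hb2 : Λ b2 ≠ 0)
    (htf : ∀ k : ℕ, k ≠ 0 → k • (dsp b2 - dsp b1) ≠ 0)
    (htail : ∀ η : ℝ, 0 < η → ∃ N, ∀ m, N ≤ m → (tail Λ ht m).toReal ≤ η) :
    ∀ ε : ℝ≥0∞, ε ≠ 0 → ∃ N, ∀ n, N ≤ n → ∀ x, fc Λ ht dsp n x ≤ ε := by
  classical
  have hΛ1 : ∀ b, Λ b ≤ 1 := fun b => by rw [← hΛ]; exact ENNReal.le_tsum b
  have hfin : ∀ n x, fc Λ ht dsp n x ≠ ⊤ := fun n x =>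
    ne_top_of_le_ne_top ENNReal.one_ne_top ((fc_le_U Λ ht dsp n x).trans (hU1 n))
  set A : Set ℝ := {c | 0 ≤ c ∧ ∃ N, ∀ n, N ≤ n → ∀ x, (fc Λ ht dsp n x).toReal ≤ c} with hA
  have h1A : (1 : ℝ) ∈ A := by
    refine ⟨zero_le_one, 0, fun n _ x => ?_⟩
    rw [← ENNReal.toReal_one]
    exact ENNReal.toReal_mono ENNReal.one_ne_top ((fc_le_U Λ ht dsp n x).trans (hU1 n))
  have hbdd : BddBelow A := ⟨0, fun c hc => hc.1⟩
  set S := sInf A with hS
  have hS0 : 0 ≤ S := le_csInf ⟨1, h1A⟩ fun c hc => hc.1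
  have hup : ∀ η : ℝ, 0 < η → ∃ N, ∀ n, N ≤ n → ∀ x, (fc Λ ht dsp n x).toReal ≤ S + η := by
    intro η hη
    obtain ⟨c, hc, hcS⟩ := exists_lt_of_csInf_lt ⟨1, h1A⟩ (lt_add_of_pos_right S hη)
    obtain ⟨N, hN⟩ := hc.2
    exact ⟨N, fun n hn x => (hN n hn x).trans hcS.le⟩
  -- the claim `S = 0`
  have hSz : S ≤ 0 := by
    by_contra hpos
    push Not at hpos
    obtain ⟨k, hk⟩ := exists_nat_gt (2 / S)
    set a := min (Λ b1).toReal (Λ b2).toReal with ha
    have ha0 : 0 < a := by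
      rw [ha, lt_min_iff]
      constructor
      · exact ENNReal.toReal_pos hb1 (ne_top_of_le_ne_top ENNReal.one_ne_top (hΛ1 _))
      · exact ENNReal.toReal_pos hb2 (ne_top_of_le_ne_top ENNReal.one_ne_top (hΛ1 _))
    have h3a : 0 < (3 / a) ^ k := by positivity
    set η := S / (2 * (3 / a) ^ k) with hη
    have hη0 : 0 < η := by positivity
    have hη1 : (3 / a) ^ k * η = S / 2 := by
      rw [hη]; field_simp
    obtain ⟨N1, hN1⟩ := hup η hη0
    obtain ⟨N2, hN2⟩ := htail η hη0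
    -- a near maximizer
    obtain ⟨n, hn, x, hx⟩ : ∃ n, N1 + N2 + ht b1 + k * ht b1 ≤ n ∧ ∃ x,
        S - η ≤ (fc Λ ht dsp n x).toReal := by
      by_contra hcon
      push Not at hcon
      have hmem : max 0 (S - η) ∈ A := by
        refine ⟨le_max_left _ _, N1 + N2 + ht b1 + k * ht b1, fun n hn x => ?_⟩
        exact (hcon n hn x).le.trans (le_max_right _ _)
      have := csInf_le hbdd hmem
      rw [← hS] at this
      rcases le_total 0 (S - η) with h | h
      · rw [max_eq_right h] at this; linarith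
      · rw [max_eq_left h] at this; linarith
    have hprop := propagate Λ ht dsp h1 hΛ hU1 hh a S η ha0 (min_le_left _ _) (min_le_right _ _)
      hη0 hS0 N1 N2 hN1 hN2 k
    -- sum over the `k + 1` points
    set n' := n - k * ht b1 with hn'
    set pt : ℕ → G := fun j => x - k • dsp b1 - j • (dsp b2 - dsp b1) with hpt
    have hinj : Set.InjOn pt (Finset.range (k + 1)) := by
      intro i hi j hj hij
      by_contra hne
      have hwl : ∀ i j : ℕ, i < j → pt i ≠ pt j := by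
        intro i j hlt heq
        have h2 : j • (dsp b2 - dsp b1) = i • (dsp b2 - dsp b1) := by
          have := heq
          simp only [hpt] at this
          exact (sub_right_inj.1 this).symm
        have h3 : (j - i) • (dsp b2 - dsp b1) = 0 := by
          have e : j = (j - i) + i := by omega
          rw [e, add_nsmul] at h2
          simpa using h2
        exact htf (j - i) (by omega) h3
      rcases lt_or_gt_of_ne hne with h | h
      · exact hwl i j h hij
      · exact hwl j i h hij.symm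
    have hsum : ∑ j ∈ Finset.range (k + 1), fc Λ ht dsp n' (pt j) ≤ 1 := by
      have : ∑ y ∈ (Finset.range (k + 1)).image pt, fc Λ ht dsp n' y ≤ ∑' y, fc Λ ht dsp n' y :=
        ENNReal.sum_le_tsum _
      rw [Finset.sum_image hinj, sum_fc] at this
      exact this.trans (hU1 n')
    have hsum2 : ∑ j ∈ Finset.range (k + 1), (fc Λ ht dsp n' (pt j)).toReal ≤ 1 := by
      rw [← ENNReal.toReal_sum (fun j _ => hfin _ _), ← ENNReal.toReal_one]
      exact ENNReal.toReal_mono ENNReal.one_ne_top hsum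
    have hlow : ∀ j ∈ Finset.range (k + 1), S / 2 ≤ (fc Λ ht dsp n' (pt j)).toReal := by
      intro j hj
      have := hprop j (by rw [Finset.mem_range] at hj; omega) n hn x η le_rfl hx
      rw [hη1] at this
      linarith
    have := Finset.sum_le_sum hlow
    rw [Finset.sum_const, Finset.card_range, nsmul_eq_mul] at this
    have h5 : ((k + 1 : ℕ) : ℝ) * (S / 2) ≤ 1 := this.trans hsum2
    rw [div_lt_iff₀ hpos] at hk
    push_cast at h5
    nlinarith
  intro ε hε
  by_cases hεt : ε = ⊤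
  · exact ⟨0, fun n _ x => by rw [hεt]; exact le_top⟩
  obtain ⟨N, hN⟩ := hup ε.toReal (ENNReal.toReal_pos hε hεt)
  refine ⟨N, fun n hn x => ?_⟩
  rw [← ENNReal.toReal_le_toReal (hfin n x) hεt]
  linarith [hN n hn x]

end Crest.Agent.R154.ConcS82
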