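import Crest.Agent.R154.B5Abs_566

/-! Row 154, ROAD 801, leaf (5) (helper141): point concentration for lists of blocks. -/

set_option autoImplicit false
set_option linter.unusedVariables false

namespace Crest.Agent.R154.Conc141

open Crest.Agent.R154.B5A
open scoped ENNReal

variable {B W : Type*} [AddCommGroup W]

/-- displacement of a list -/
def DS (dl : B → W) (L : List B) : W := (L.map dl).sum

lemma DS_nil (dl : B → W) : DS dl [] = 0 := by simp [DS]

lemma DS_cons (dl : B → W) (b : B) (L : List B) : DS dl (b :: L) = dl b + DS dl L := by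
  simp [DS]

/-! ### the renewal function is at most one -/

lemma U_le_one (Λ : B → ℝ≥0∞) (ht : B → ℕ) (h1 : ∀ b, 1 ≤ ht b) (hΛ : ∑' b, Λ b = 1) (n : ℕ) :
    U Λ ht n ≤ 1 := by
  have h := renewal_one Λ ht h1 hΛ n
  have ht0 : tail Λ ht 0 = 1 := by
    rw [← hΛ, tail]
    refine tsum_congr fun b => ?_
    rw [if_pos (by have := h1 b; omega)]
  rw [← h]
  have := Finset.single_le_sum (f := fun k => U Λ ht (n - k) * tail Λ ht k)
    (fun _ _ => zero_le) (Finset.mem_range.2 (Nat.succ_pos n))
  simpa [ht0] using this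

/-! ### fair coins -/

/-- fair average of the two translates -/
noncomputable def Av (p q : W) (φ : W → ℝ≥0∞) (y : W) : ℝ≥0∞ :=
  (φ (y + p) + φ (y + q)) * 2⁻¹

lemma Av_le (p q : W) {φ : W → ℝ≥0∞} {β : ℝ≥0∞} (h : ∀ y, φ y ≤ β) (y : W) :
    Av p q φ y ≤ β := by
  unfold Av
  calc (φ (y + p) + φ (y + q)) * 2⁻¹ ≤ (β + β) * 2⁻¹ :=
        mul_le_mul_left (add_le_add (h _) (h _)) _
    _ = β := by
        rw [← two_mul, mul_comm 2 β, mul_assoc, ENNReal.mul_inv_cancel (by norm_num) (by norm_num),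
          mul_one]

lemma Av_iter_le (p q : W) {φ : W → ℝ≥0∞} {β : ℝ≥0∞} (h : ∀ y, φ y ≤ β) (n : ℕ) (y : W) :
    (Av p q)^[n] φ y ≤ β := by
  induction n generalizing y with
  | zero => exact h y
  | succ n ih =>
    rw [Function.iterate_succ_apply']
    exact Av_le p q ih y

/-- binomial coefficients over `ℤ` -/
def Cz (N : ℕ) (k : ℤ) : ℕ := if 0 ≤ k then N.choose k.toNat else 0

lemma Cz_zero (k : ℤ) : Cz 0 k = if k = 0 then 1 else 0 := by
  unfold Cz
  rcases lt_trichotomy k 0 with h | h | h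
  · rw [if_neg (by omega), if_neg (by omega)]
  · subst h; simp
  · rw [if_pos h.le, if_neg (by omega)]
    exact Nat.choose_eq_zero_of_lt (by omega)

lemma Cz_succ (N : ℕ) (k : ℤ) : Cz (N + 1) k = Cz N (k - 1) + Cz N k := by
  unfold Cz
  rcases lt_trichotomy k 0 with h | h | h
  · rw [if_neg (by omega), if_neg (by omega), if_neg (by omega)]
  · subst h; simp
  · rw [if_pos h.le, if_pos (by omega), if_pos h.le]
    obtain ⟨m, rfl⟩ : ∃ m : ℕ, k = m + 1 := ⟨(k - 1).toNat, by omega⟩
    have e1 : ((m : ℤ) + 1).toNat = m + 1 := by omega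
    have e2 : ((m : ℤ) + 1 - 1).toNat = m := by omega
    rw [e1, e2, Nat.choose_succ_succ]

lemma Cz_le (N : ℕ) (k : ℤ) : Cz N k ≤ N.choose (N / 2) := by
  unfold Cz
  split_ifs
  · exact Nat.choose_le_middle _ _
  · exact Nat.zero_le _

open Classical in
lemma Av_iter_ind (p q : W) (hd : ∀ k : ℤ, k ≠ 0 → k • (p - q) ≠ 0) (N : ℕ) :
    ∀ y : W, (∀ k : ℤ, y + N • q + k • (p - q) = 0 →
        (Av p q)^[N] (fun x => if x = 0 then (1 : ℝ≥0∞) else 0) y = (Cz N k : ℝ≥0∞) * 2⁻¹ ^ N) ∧
      ((∀ k : ℤ, y + N • q + k • (p - q) ≠ 0) →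
        (Av p q)^[N] (fun x => if x = 0 then (1 : ℝ≥0∞) else 0) y = 0) := by
  induction N with
  | zero =>
    intro y
    refine ⟨fun k hk => ?_, fun h => ?_⟩
    · simp only [Function.iterate_zero, id, pow_zero, mul_one, Cz_zero]
      rw [zero_smul, add_zero] at hk
      by_cases hk0 : k = 0
      · subst hk0
        rw [zero_smul, add_zero] at hk
        simp [hk]
      · have hy : y ≠ 0 := by
          rintro rfl
          rw [zero_add] at hk
          exact hd k hk0 hk
        simp [hk0, hy]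
    · simp only [Function.iterate_zero, id]
      have := h 0
      simp only [zero_smul, add_zero] at this
      rw [if_neg this]
  | succ N ih =>
    intro y
    have e1 : ∀ k : ℤ, y + p + N • q + (k - 1) • (p - q) = y + (N + 1) • q + k • (p - q) := by
      intro k
      rw [sub_smul, one_smul, add_smul, one_smul]
      abel
    have e2 : ∀ k : ℤ, y + q + N • q + k • (p - q) = y + (N + 1) • q + k • (p - q) := by
      intro k
      rw [add_smul, one_smul]
      abel
    refine ⟨fun k hk => ?_, fun h => ?_⟩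
    · rw [Function.iterate_succ_apply']
      unfold Av at ih ⊢
      rw [(ih (y + p)).1 (k - 1) (by rw [e1]; exact hk), (ih (y + q)).1 k (by rw [e2]; exact hk),
        Cz_succ, pow_succ]
      push_cast
      ring
    · rw [Function.iterate_succ_apply']
      unfold Av at ih ⊢
      rw [(ih (y + p)).2 (fun k hk => h (k + 1) (by
          rw [← e1 (k + 1), add_sub_cancel_right]; exact hk)),
        (ih (y + q)).2 (fun k hk => h k (by rw [← e2 k]; exact hk))]
      simp

open Classical in
lemma Av_iter_bound (p q : W) (hd : ∀ k : ℤ, k ≠ 0 → k • (p - q) ≠ 0) (N : ℕ) (y : W) :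
    (Av p q)^[N] (fun x => if x = 0 then (1 : ℝ≥0∞) else 0) y
      ≤ (N.choose (N / 2) : ℝ≥0∞) * 2⁻¹ ^ N := by
  by_cases h : ∃ k : ℤ, y + N • q + k • (p - q) = 0
  · obtain ⟨k, hk⟩ := h
    rw [(Av_iter_ind p q hd N y).1 k hk]
    exact mul_le_mul_left (by exact_mod_cast Cz_le N k) _
  · push Not at h
    rw [(Av_iter_ind p q hd N y).2 h]
    exact zero_le

lemma cb_sq (n : ℕ) : n.centralBinom ^ 2 * (2 * n + 1) ≤ 16 ^ n := by
  induction n with
  | zero => simp
  | succ n ih =>
    have h := Nat.succ_mul_centralBinom_succ n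
    have hpos : 0 < (n + 1) ^ 2 := by positivity
    refine Nat.le_of_mul_le_mul_left ?_ hpos
    calc (n + 1) ^ 2 * ((n + 1).centralBinom ^ 2 * (2 * (n + 1) + 1))
        = ((n + 1) * (n + 1).centralBinom) ^ 2 * (2 * n + 3) := by ring
      _ = (2 * (2 * n + 1) * n.centralBinom) ^ 2 * (2 * n + 3) := by rw [h]
      _ = 4 * (n.centralBinom ^ 2 * (2 * n + 1)) * ((2 * n + 1) * (2 * n + 3)) := by ring
      _ ≤ 4 * 16 ^ n * ((2 * n + 1) * (2 * n + 3)) := by gcongr
      _ ≤ 4 * 16 ^ n * (2 * n + 2) ^ 2 := by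
          refine Nat.mul_le_mul_left _ ?_
          nlinarith
      _ = (n + 1) ^ 2 * 16 ^ (n + 1) := by ring

lemma exists_small (ε : ℝ≥0∞) (hε : ε ≠ 0) :
    ∃ N : ℕ, (N.choose (N / 2) : ℝ≥0∞) * 2⁻¹ ^ N ≤ ε := by
  by_cases hεt : ε = ⊤
  · exact ⟨0, by rw [hεt]; exact le_top⟩
  have he : 0 < ε.toReal := ENNReal.toReal_pos hε hεt
  obtain ⟨n, hn⟩ := exists_nat_gt (1 / ε.toReal ^ 2)
  refine ⟨2 * n, ?_⟩
  have h2 : 2 * n / 2 = n := by omega
  rw [h2]
  have hcb : (2 * n).choose n = n.centralBinom := rfl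
  rw [hcb]
  have hsq := cb_sq n
  have hsq' : (n.centralBinom : ℝ) ^ 2 * (2 * n + 1) ≤ 16 ^ n := by exact_mod_cast hsq
  have hpow : (0 : ℝ) < 16 ^ n := by positivity
  have hn1 : 1 < ε.toReal ^ 2 * n := by
    rw [div_lt_iff₀ (by positivity)] at hn
    linarith
  have key : (n.centralBinom : ℝ) ≤ ε.toReal * 4 ^ n := by
    have h3 : (n.centralBinom : ℝ) ^ 2 ≤ (ε.toReal * 4 ^ n) ^ 2 := by
      have h4 : (0 : ℝ) ≤ (n.centralBinom : ℝ) ^ 2 := by positivity
      have h5 : (1 : ℝ) ≤ ε.toReal ^ 2 * (2 * n + 1) := by nlinarith [sq_nonneg ε.toReal]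
      calc (n.centralBinom : ℝ) ^ 2 = (n.centralBinom : ℝ) ^ 2 * 1 := by ring
        _ ≤ (n.centralBinom : ℝ) ^ 2 * (ε.toReal ^ 2 * (2 * n + 1)) := by gcongr
        _ = ε.toReal ^ 2 * ((n.centralBinom : ℝ) ^ 2 * (2 * n + 1)) := by ring
        _ ≤ ε.toReal ^ 2 * 16 ^ n := by gcongr
        _ = (ε.toReal * 4 ^ n) ^ 2 := by
            rw [mul_pow, ← pow_mul, mul_comm n 2, pow_mul]; norm_num
    exact (pow_le_pow_iff_left₀ (by positivity) (by positivity) (by norm_num)).1 h3
  have h6 : (n.centralBinom : ℝ≥0∞) ≤ ε * 4 ^ n := by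
    have h7 := ENNReal.ofReal_le_ofReal key
    rw [ENNReal.ofReal_natCast, ENNReal.ofReal_mul he.le, ENNReal.ofReal_toReal hεt,
      ENNReal.ofReal_pow (by norm_num)] at h7
    simpa using h7
  calc (n.centralBinom : ℝ≥0∞) * 2⁻¹ ^ (2 * n) ≤ ε * 4 ^ n * 2⁻¹ ^ (2 * n) :=
        mul_le_mul_left h6 _
    _ = ε * (4 ^ n * (4⁻¹) ^ n) := by
        rw [pow_mul, mul_assoc]
        congr 3
        rw [sq, ← ENNReal.mul_inv (by norm_num) (by norm_num)]
        norm_num
    _ = ε := by
        rw [← mul_pow, ENNReal.mul_inv_cancel (by norm_num) (by norm_num), one_pow, mul_one]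

/-! ### the extended alphabet -/

/-- number of coins -/
def st (L : List (Option B)) : ℕ := L.countP (fun b => b.isNone)

lemma st_nil : st ([] : List (Option B)) = 0 := rfl

lemma st_none (L : List (Option B)) : st (none :: L) = st L + 1 := by simp [st]

lemma st_some (b : B) (L : List (Option B)) : st (some b :: L) = st L := by simp [st]

/-- weights of the extended alphabet -/
noncomputable def L0 (Λ0 : B → ℝ≥0∞) (c : ℝ≥0∞) : Option B → ℝ≥0∞
  | none => 2 * c
  | some b => Λ0 b

/-- heights of the extended alphabet -/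
def h0 (ht : B → ℕ) (a : ℕ) : Option B → ℕ
  | none => a
  | some b => ht b

/-- displacements of the extended alphabet -/
def d0 (dl : B → W) : Option B → W
  | none => 0
  | some b => dl b

lemma tsum_opt (f : Option B → ℝ≥0∞) : ∑' b, f b = f none + ∑' b, f (some b) := by
  classical
  rw [ENNReal.tsum_eq_add_tsum_ite (none : Option B)]
  congr 1
  have hinj : Function.Injective (some : B → Option B) := Option.some_injective B
  have hs : Function.support (fun b : Option B => if b = none then 0 else f b)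
      ⊆ Set.range (some : B → Option B) := by
    intro b hb
    cases b with
    | none => simp at hb
    | some b => exact ⟨b, rfl⟩
  have e := hinj.tsum_eq hs
  calc _ = ∑' b : Option B, (if b = none then 0 else f b) :=
        tsum_congr fun b => by by_cases h : b = none <;> simp [h]
    _ = _ := e.symm
    _ = _ := tsum_congr fun b => by simp

open Classical in
/-- exact mixture -/
lemma mix (Λ Λ0 : B → ℝ≥0∞) (c : ℝ≥0∞) (ht : B → ℕ) (dl : B → W) (b1 b2 : B)
    (hh : ht b1 = ht b2)
    (hΛ : ∀ b, Λ b = Λ0 b + (if b = b1 then c else 0) + (if b = b2 then c else 0)) (j : ℕ) :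
    ∀ (h : ℕ) (φ : W → ℝ≥0∞) (z : W),
      SL Λ j (fun L => if HT ht L = h then φ (z + DS dl L) else 0)
        = SL (L0 Λ0 c) j (fun L => if HT (h0 ht (ht b1)) L = h
            then (Av (dl b1) (dl b2))^[st L] φ (z + DS (d0 dl) L) else 0) := by
  induction j with
  | zero =>
    intro h φ z
    rw [SL_zero, SL_zero]
    simp [HT_nil, DS_nil, st_nil]
  | succ j ih =>
    intro h φ z
    have key : ∀ b, SL Λ j (fun L => if HT ht (b :: L) = h then φ (z + DS dl (b :: L)) else 0)
        = if ht b ≤ h then SL (L0 Λ0 c) j (fun L => if HT (h0 ht (ht b1)) L = h - ht b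
            then (Av (dl b1) (dl b2))^[st L] φ (z + dl b + DS (d0 dl) L) else 0) else 0 := by
      intro b
      by_cases hb : ht b ≤ h
      · rw [if_pos hb, ← ih (h - ht b) φ (z + dl b)]
        refine SL_congr Λ j fun L _ => ?_
        rw [HT_cons, DS_cons, ← add_assoc]
        by_cases h2 : HT ht L = h - ht b
        · rw [if_pos (by omega), if_pos h2]
        · rw [if_neg (by omega), if_neg h2]
      · rw [if_neg hb]
        have : ∀ L : List B, (if HT ht (b :: L) = h then φ (z + DS dl (b :: L)) else 0) = 0 := by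
          intro L
          rw [HT_cons, if_neg (by omega)]
        simp_rw [this]
        simpa using SL_const_mul Λ j 0 (fun _ => 0)
    rw [SL_succ, SL_succ]
    simp_rw [key]
    set T : B → ℝ≥0∞ := fun b => if ht b ≤ h then SL (L0 Λ0 c) j
      (fun L => if HT (h0 ht (ht b1)) L = h - ht b
            then (Av (dl b1) (dl b2))^[st L] φ (z + dl b + DS (d0 dl) L) else 0) else 0 with hT
    have e1 : ∑' b, Λ b * T b = (∑' b, Λ0 b * T b) + c * T b1 + c * T b2 := by
      have : ∀ b, Λ b * T b = Λ0 b * T b + (if b = b1 then c * T b1 else 0)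
          + (if b = b2 then c * T b2 else 0) := by
        intro b
        rw [hΛ b]
        clear_value T
        by_cases hb1 : b = b1
        · subst hb1
          by_cases hb2 : b = b2
          · subst hb2; simp [add_mul]
          · simp [hb2, add_mul]
        · by_cases hb2 : b = b2
          · subst hb2; simp [hb1, add_mul]
          · simp [hb1, hb2]
      simp_rw [this]
      rw [ENNReal.tsum_add, ENNReal.tsum_add, tsum_ite_eq, tsum_ite_eq]
    rw [e1, tsum_opt]
    have e2 : ∀ b, SL (L0 Λ0 c) j (fun L => if HT (h0 ht (ht b1)) (some b :: L) = h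
            then (Av (dl b1) (dl b2))^[st (some b :: L)] φ (z + DS (d0 dl) (some b :: L)) else 0)
        = T b := by
      intro b
      rw [hT]
      by_cases hb : ht b ≤ h
      · simp only [if_pos hb]
        refine SL_congr _ j fun L _ => ?_
        rw [HT_cons, DS_cons, st_some, ← add_assoc]
        by_cases h2 : HT (h0 ht (ht b1)) L = h - ht b
        · have h3 : h0 ht (ht b1) (some b) + HT (h0 ht (ht b1)) L = h := by
            change ht b + _ = h; omega
          rw [if_pos h3, if_pos h2]; rfl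
        · have h3 : ¬ (h0 ht (ht b1) (some b) + HT (h0 ht (ht b1)) L = h) := by
            change ¬ (ht b + _ = h); omega
          rw [if_neg h3, if_neg h2]
      · simp only [if_neg hb]
        have : ∀ L : List (Option B), (if HT (h0 ht (ht b1)) (some b :: L) = h
            then (Av (dl b1) (dl b2))^[st (some b :: L)] φ (z + DS (d0 dl) (some b :: L)) else 0)
            = 0 := by
          intro L
          rw [HT_cons]
          have h3 : ¬ (h0 ht (ht b1) (some b) + HT (h0 ht (ht b1)) L = h) := by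
            change ¬ (ht b + _ = h); omega
          rw [if_neg h3]
        simp_rw [this]
        simpa using SL_const_mul (L0 Λ0 c) j 0 (fun _ => 0)
    have e3 : SL (L0 Λ0 c) j (fun L => if HT (h0 ht (ht b1)) (none :: L) = h
            then (Av (dl b1) (dl b2))^[st (none :: L)] φ (z + DS (d0 dl) (none :: L)) else 0)
        = 2⁻¹ * (T b1 + T b2) := by
      rw [hT]
      by_cases hb : ht b1 ≤ h
      · simp only [if_pos hb, ← hh]
        rw [← SL_add_fun, ← SL_const_mul]
        refine SL_congr _ j fun L _ => ?_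
        rw [HT_cons, DS_cons, st_none]
        by_cases h2 : HT (h0 ht (ht b1)) L = h - ht b1
        · have h3 : h0 ht (ht b1) none + HT (h0 ht (ht b1)) L = h := by
            change ht b1 + _ = h; omega
          rw [if_pos h3, if_pos h2, if_pos h2, Function.iterate_succ_apply']
          have h4 : d0 dl none + DS (d0 dl) L = DS (d0 dl) L := zero_add _
          rw [h4]
          have h5 : z + DS (d0 dl) L + dl b1 = z + dl b1 + DS (d0 dl) L := by abel
          have h6 : z + DS (d0 dl) L + dl b2 = z + dl b2 + DS (d0 dl) L := by abel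
          generalize (Av (dl b1) (dl b2))^[st L] φ = ψ
          unfold Av
          rw [h5, h6, mul_comm]
        · have h3 : ¬ (h0 ht (ht b1) none + HT (h0 ht (ht b1)) L = h) := by
            change ¬ (ht b1 + _ = h); omega
          rw [if_neg h3, if_neg h2, if_neg h2]; simp
      · simp only [if_neg hb, ← hh]
        have : ∀ L : List (Option B), (if HT (h0 ht (ht b1)) (none :: L) = h
            then (Av (dl b1) (dl b2))^[st (none :: L)] φ (z + DS (d0 dl) (none :: L)) else 0)
            = 0 := by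
          intro L
          rw [HT_cons]
          have h3 : ¬ (h0 ht (ht b1) none + HT (h0 ht (ht b1)) L = h) := by
            change ¬ (ht b1 + _ = h); omega
          rw [if_neg h3]
        simp_rw [this]
        simpa using SL_const_mul (L0 Λ0 c) j 0 (fun _ => 0)
    rw [e3]
    simp_rw [e2]
    simp only [L0]
    have e4 : (2 : ℝ≥0∞) * c * (2⁻¹ * (T b1 + T b2)) = c * T b1 + c * T b2 := by
      calc (2 : ℝ≥0∞) * c * (2⁻¹ * (T b1 + T b2)) = (2 * 2⁻¹) * (c * (T b1 + T b2)) := by ring
        _ = c * T b1 + c * T b2 := by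
            rw [ENNReal.mul_inv_cancel (by norm_num) (by norm_num), one_mul, mul_add]
    rw [e4, add_comm (c * T b1 + c * T b2), ← add_assoc]

open Classical in
/-- few coins: finite expected number of letters -/
lemma few (Λ0 : B → ℝ≥0∞) (c : ℝ≥0∞) (hc : c ≠ 0) (hc' : c ≠ ⊤)
    (hs : 2 * c + ∑' b, Λ0 b = 1) (J : ℕ) :
    ∀ N : ℕ, ∑ j ∈ Finset.range J, SL (L0 Λ0 c) j (fun L => if st L < N then 1 else 0)
      ≤ N * (2 * c)⁻¹ := by
  induction J with
  | zero => intro N; simp
  | succ J ih =>
    intro N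
    have h2c : (2 * c) ≠ 0 := by simp [hc]
    have h2c' : (2 * c) ≠ ⊤ := ENNReal.mul_ne_top (by norm_num) hc'
    rcases Nat.eq_zero_or_pos N with hN | hN
    · subst hN
      simp only [Nat.not_lt_zero, if_false]
      have : ∀ j, SL (L0 Λ0 c) j (fun _ => 0) = 0 := fun j => by
        simpa using SL_const_mul (L0 Λ0 c) j 0 (fun _ => 0)
      simp [this]
    · obtain ⟨M, rfl⟩ : ∃ M, N = M + 1 := ⟨N - 1, by omega⟩
      rw [Finset.sum_range_succ']
      have e0 : SL (L0 Λ0 c) 0 (fun L => if st L < M + 1 then (1 : ℝ≥0∞) else 0) = 1 := by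
        rw [SL_zero]; simp [st_nil]
      have e1 : ∀ j, SL (L0 Λ0 c) (j + 1) (fun L => if st L < M + 1 then (1 : ℝ≥0∞) else 0)
          = 2 * c * SL (L0 Λ0 c) j (fun L => if st L < M then (1 : ℝ≥0∞) else 0)
            + (∑' b, Λ0 b) * SL (L0 Λ0 c) j (fun L => if st L < M + 1 then (1 : ℝ≥0∞) else 0) := by
        intro j
        rw [SL_succ, tsum_opt]
        congr 1
        · change 2 * c * _ = _
          congr 1
          refine SL_congr _ j fun L _ => ?_
          rw [st_none]
          by_cases h : st L < M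
          · rw [if_pos (by omega), if_pos h]
          · rw [if_neg (by omega), if_neg h]
        · rw [← ENNReal.tsum_mul_right]
          rfl
      rw [e0]
      simp_rw [e1]
      rw [Finset.sum_add_distrib, ← Finset.mul_sum, ← Finset.mul_sum]
      calc 2 * c * _ + (∑' b, Λ0 b) * _ + 1
          ≤ 2 * c * (M * (2 * c)⁻¹) + (∑' b, Λ0 b) * (((M + 1 : ℕ) : ℝ≥0∞) * (2 * c)⁻¹) + 1 :=
            add_le_add (add_le_add (mul_le_mul_right (ih M) _) (mul_le_mul_right (ih (M + 1)) _))
              le_rfl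
        _ = ((M : ℝ≥0∞) + 1) * (2 * c * (2 * c)⁻¹)
              + (∑' b, Λ0 b) * (((M + 1 : ℕ) : ℝ≥0∞) * (2 * c)⁻¹) := by
            rw [ENNReal.mul_inv_cancel h2c h2c']
            have : 2 * c * ((M : ℝ≥0∞) * (2 * c)⁻¹) = M * (2 * c * (2 * c)⁻¹) := by ring
            rw [this, ENNReal.mul_inv_cancel h2c h2c']
            ring
        _ = ((M + 1 : ℕ) : ℝ≥0∞) * (2 * c)⁻¹ * (2 * c + ∑' b, Λ0 b) := by push_cast; ring
        _ = _ := by rw [hs, mul_one]

open Classical in
/-- **(C1)** point concentration of the displacement of lists of a given height -/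
theorem conc (Λ : B → ℝ≥0∞) (ht : B → ℕ) (dl : B → W) (h1 : ∀ b, 1 ≤ ht b)
    (hΛ : ∑' b, Λ b = 1) (b1 b2 : B) (hh : ht b1 = ht b2)
    (hd : ∀ k : ℤ, k ≠ 0 → k • (dl b1 - dl b2) ≠ 0) (hb1 : Λ b1 ≠ 0) (hb2 : Λ b2 ≠ 0)
    (ε : ℝ≥0∞) (hε : ε ≠ 0) :
    ∃ H : ℕ, ∀ h, H ≤ h → ∀ z : W,
      ∑' L : List B, (if HT ht L = h ∧ DS dl L = z then LW Λ L else 0) ≤ ε := by
  have hne : b1 ≠ b2 := by
    rintro rfl
    exact hd 1 one_ne_zero (by simp)
  set c : ℝ≥0∞ := min (Λ b1) (Λ b2) with hc
  have hc0 : c ≠ 0 := by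
    rw [hc]
    rcases min_choice (Λ b1) (Λ b2) with h | h <;> rw [h]
    · exact hb1
    · exact hb2
  have hcle1 : c ≤ Λ b1 := min_le_left _ _
  have hcle2 : c ≤ Λ b2 := min_le_right _ _
  have hct : c ≠ ⊤ := by
    refine ne_top_of_le_ne_top ENNReal.one_ne_top (hcle1.trans ?_)
    rw [← hΛ]; exact ENNReal.le_tsum b1
  set Λ0 : B → ℝ≥0∞ := fun b => Λ b - (if b = b1 then c else 0) - (if b = b2 then c else 0)
    with hΛ0
  have hdec : ∀ b, Λ b = Λ0 b + (if b = b1 then c else 0) + (if b = b2 then c else 0) := by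
    intro b
    simp only [hΛ0]
    by_cases h : b = b1
    · subst h
      rw [if_pos rfl, if_neg hne]
      simp [tsub_add_cancel_of_le hcle1]
    · by_cases h' : b = b2
      · subst h'
        rw [if_pos rfl, if_neg h]
        simp [tsub_add_cancel_of_le hcle2]
      · simp [h, h']
  have hsum : 2 * c + ∑' b, Λ0 b = 1 := by
    rw [← hΛ]
    simp_rw [hdec]
    rw [ENNReal.tsum_add, ENNReal.tsum_add, tsum_ite_eq, tsum_ite_eq]
    ring
  set Λ' := L0 Λ0 c with hΛ'
  set ht' := h0 ht (ht b1) with hht'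
  have h1' : ∀ b, 1 ≤ ht' b := by
    intro b
    cases b with
    | none => exact h1 b1
    | some b => exact h1 b
  have hΛ1 : ∑' b, Λ' b = 1 := by
    rw [tsum_opt]
    exact hsum
  have hε2 : ε / 2 ≠ 0 := by
    rw [Ne, ENNReal.div_eq_zero_iff, not_or]
    exact ⟨hε, by norm_num⟩
  obtain ⟨N0, hN0⟩ := exists_small (ε / 2) hε2
  set φ : W → ℝ≥0∞ := fun x => if x = 0 then (1 : ℝ≥0∞) else 0 with hφ
  have hφ1 : ∀ y, φ y ≤ 1 := fun y => by simp only [hφ]; split_ifs <;> simp
  have hbig : ∀ n, N0 ≤ n → ∀ y, (Av (dl b1) (dl b2))^[n] φ y ≤ ε / 2 := by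
    intro n hn y
    obtain ⟨m, rfl⟩ := Nat.exists_eq_add_of_le hn
    rw [Nat.add_comm, Function.iterate_add_apply]
    refine Av_iter_le _ _ (fun y => ?_) m y
    exact (Av_iter_bound (dl b1) (dl b2) hd N0 y).trans hN0
  set R : ℕ → ℝ≥0∞ := fun h => ∑' L : List (Option B),
    LW Λ' L * (if HT ht' L = h ∧ st L < N0 then 1 else 0) with hR
  have hRsum : ∑' h, R h ≠ ⊤ := by
    have e : ∑' h, R h = ∑' L : List (Option B), LW Λ' L * (if st L < N0 then 1 else 0) := by
      simp only [hR]
      rw [ENNReal.tsum_comm]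
      refine tsum_congr fun L => ?_
      rw [ENNReal.tsum_mul_left]
      congr 1
      rw [tsum_eq_single (HT ht' L)]
      · simp
      · intro j hj; simp [hj.symm]
    rw [e, tsum_eq_tsum_SL]
    have hle : ∑' j, SL Λ' j (fun L => if st L < N0 then 1 else 0) ≤ N0 * (2 * c)⁻¹ :=
      ENNReal.tsum_le_of_sum_range_le fun J => few Λ0 c hc0 hct hsum J N0
    refine ne_top_of_le_ne_top ?_ hle
    refine ENNReal.mul_ne_top (ENNReal.natCast_ne_top _) ?_
    rw [Ne, ENNReal.inv_eq_top]
    simp [hc0]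
  have hR0 := ENNReal.tendsto_atTop_zero_of_tsum_ne_top hRsum
  have hev : ∀ᶠ h in Filter.atTop, R h ≤ ε / 2 :=
    (hR0.eventually_lt_const (pos_iff_ne_zero.2 hε2)).mono fun _ h => h.le
  obtain ⟨H, hH⟩ := Filter.eventually_atTop.1 hev
  refine ⟨H, fun h hh2 z => ?_⟩
  calc ∑' L : List B, (if HT ht L = h ∧ DS dl L = z then LW Λ L else 0)
      = ∑' L : List B, LW Λ L * (if HT ht L = h then φ (-z + DS dl L) else 0) := by
        refine tsum_congr fun L => ?_
        simp only [hφ]
        by_cases hL : HT ht L = h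
        · by_cases hz : DS dl L = z
          · simp [hL, hz]
          · have : -z + DS dl L ≠ 0 := by
              intro h0
              apply hz
              rw [neg_add_eq_zero] at h0
              exact h0.symm
            simp [hL, hz, this]
        · simp [hL]
    _ = ∑' j, SL Λ j (fun L => if HT ht L = h then φ (-z + DS dl L) else 0) :=
        tsum_eq_tsum_SL Λ _
    _ = ∑' j, SL Λ' j (fun L => if HT ht' L = h
            then (Av (dl b1) (dl b2))^[st L] φ (-z + DS (d0 dl) L) else 0) :=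
        tsum_congr fun j => mix Λ Λ0 c ht dl b1 b2 hh hdec j h φ (-z)
    _ = ∑' L : List (Option B), LW Λ' L * (if HT ht' L = h
            then (Av (dl b1) (dl b2))^[st L] φ (-z + DS (d0 dl) L) else 0) :=
        (tsum_eq_tsum_SL Λ' _).symm
    _ ≤ ∑' L : List (Option B), ((ε / 2) * (if HT ht' L = h then LW Λ' L else 0)
          + LW Λ' L * (if HT ht' L = h ∧ st L < N0 then 1 else 0)) := by
        refine ENNReal.tsum_le_tsum fun L => ?_
        by_cases hL : HT ht' L = h
        · by_cases hs : st L < N0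
          · simp only [hL, hs, if_true, and_self]
            exact le_add_left (mul_le_mul_right (Av_iter_le _ _ hφ1 _ _) _)
          · simp only [hL, hs, if_true, and_false, if_false, mul_zero, add_zero]
            rw [mul_comm]
            exact mul_le_mul_left (hbig _ (not_lt.1 hs) _) _
        · simp [hL]
    _ = (ε / 2) * U Λ' ht' h + R h := by
        rw [ENNReal.tsum_add, ENNReal.tsum_mul_left]
        rfl
    _ ≤ (ε / 2) * 1 + ε / 2 :=
        add_le_add (mul_le_mul_right (U_le_one Λ' ht' h1' hΛ1 h) _) (hH h hh2)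
    _ = ε := by rw [mul_one, ENNReal.add_halves]

end Crest.Agent.R154.Conc141
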