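import Crest.Agent.R154.B5Rec_566

/-! Row 154, T0219, ROAD 801 (helper322): point concentration of the position of a renewal list and
the thin slab estimate (input `H5` of helper540's assembly). -/

set_option autoImplicit false

namespace Crest.Agent.R154.Slab322

open scoped ENNReal
open B5A

variable {B G : Type*}

open Classical in
/-- renewal mass function with the position -/
noncomputable def Uz [AddCommGroup G] (Λ : B → ℝ≥0∞) (ht : B → ℕ) (z : B → G) (α : ℕ) (x : G) :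
    ℝ≥0∞ :=
  ∑' L : List B, if HT ht L = α ∧ (L.map z).sum = x then LW Λ L else 0

section conc

variable [AddCommGroup G] (Λ : B → ℝ≥0∞) (ht : B → ℕ) (z : B → G)

lemma U_le_one (h1 : ∀ b, 1 ≤ ht b) (hΛ : ∑' b, Λ b = 1) (n : ℕ) : U Λ ht n ≤ 1 := by
  have h := renewal_one Λ ht h1 hΛ n
  have ht0 : tail Λ ht 0 = 1 := by
    rw [← hΛ, tail]
    refine tsum_congr fun b => ?_
    rw [if_pos (by have := h1 b; omega)]
  calc U Λ ht n = U Λ ht (n - 0) * tail Λ ht 0 := by rw [ht0, mul_one, Nat.sub_zero]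
    _ ≤ ∑ k ∈ Finset.range (n + 1), U Λ ht (n - k) * tail Λ ht k :=
        Finset.single_le_sum (f := fun k => U Λ ht (n - k) * tail Λ ht k)
          (fun _ _ => zero_le) (Finset.mem_range.2 (by omega))
    _ = 1 := h

lemma sum_Uz_le (s : Finset G) (α : ℕ) :
    ∑ x ∈ s, Uz Λ ht z α x ≤ U Λ ht α := by
  classical
  simp only [Uz, U]
  rw [← Summable.tsum_finsetSum (fun _ _ => ENNReal.summable)]
  refine ENNReal.tsum_le_tsum fun L => ?_
  by_cases hL : HT ht L = α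
  · rw [if_pos hL]
    calc ∑ x ∈ s, (if HT ht L = α ∧ (L.map z).sum = x then LW Λ L else 0)
        = ∑ x ∈ s, (if (L.map z).sum = x then LW Λ L else 0) := by
          refine Finset.sum_congr rfl fun x _ => ?_
          simp [hL]
      _ ≤ LW Λ L := by
          rw [Finset.sum_ite_eq]
          split_ifs <;> simp
  · rw [if_neg hL]
    simp [hL]

lemma Uz_le_one (h1 : ∀ b, 1 ≤ ht b) (hΛ : ∑' b, Λ b = 1) (α : ℕ) (x : G) :
    Uz Λ ht z α x ≤ 1 := by
  have := sum_Uz_le Λ ht z {x} α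
  rw [Finset.sum_singleton] at this
  exact this.trans (U_le_one Λ ht h1 hΛ α)

lemma Uz_succ (α : ℕ) (hα : 1 ≤ α) (x : G) :
    Uz Λ ht z α x = ∑' b, if ht b ≤ α then Λ b * Uz Λ ht z (α - ht b) (x - z b) else 0 := by
  classical
  rw [Uz, tsum_list]
  rw [if_neg (by rw [HT_nil]; omega), zero_add]
  refine tsum_congr fun b => ?_
  by_cases hb : ht b ≤ α
  · rw [if_pos hb, Uz, ← ENNReal.tsum_mul_left]
    refine tsum_congr fun L => ?_
    have e : (HT ht (b :: L) = α ∧ ((b :: L).map z).sum = x)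
        ↔ (HT ht L = α - ht b ∧ (L.map z).sum = x - z b) := by
      rw [HT_cons, List.map_cons, List.sum_cons, eq_sub_iff_add_eq, add_comm (z b)]
      constructor
      · rintro ⟨h, h'⟩; exact ⟨by omega, h'⟩
      · rintro ⟨h, h'⟩; exact ⟨by omega, h'⟩
    by_cases h : HT ht L = α - ht b ∧ (L.map z).sum = x - z b
    · rw [if_pos h, if_pos (e.2 h), LW_cons]
    · rw [if_neg h, if_neg (fun h' => h (e.1 h')), mul_zero]
  · rw [if_neg hb]
    refine ENNReal.tsum_eq_zero.2 fun L => ?_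
    rw [if_neg]
    rw [HT_cons]
    rintro ⟨h, -⟩
    omega

lemma step_ineq (h1 : ∀ b, 1 ≤ ht b) (hΛ : ∑' b, Λ b = 1) (b1 : B) (hb1 : ht b1 = 1)
    (N0 : ℕ) (c : ℝ≥0∞) (hc : ∀ α, N0 ≤ α → ∀ x, Uz Λ ht z α x ≤ c)
    (α : ℕ) (hα : N0 + 1 ≤ α) (x : G) :
    Uz Λ ht z α x + Λ b1 * c ≤ Λ b1 * Uz Λ ht z (α - 1) (x - z b1) + (c + tail Λ ht (α - N0)) := by
  classical
  set f : B → ℝ≥0∞ := fun b => if ht b ≤ α then Λ b * Uz Λ ht z (α - ht b) (x - z b) else 0 with hf
  have hfb : ∀ b, f b ≤ Λ b * c + (if α - N0 < ht b then Λ b else 0) := by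
    intro b
    simp only [hf]
    by_cases hb : ht b ≤ α
    · rw [if_pos hb]
      by_cases hb2 : α - N0 < ht b
      · rw [if_pos hb2]
        calc Λ b * Uz Λ ht z (α - ht b) (x - z b) ≤ Λ b * 1 :=
              mul_le_mul_right (Uz_le_one Λ ht z h1 hΛ _ _) _
          _ = Λ b := mul_one _
          _ ≤ _ := le_add_self
      · rw [if_neg hb2, add_zero]
        exact mul_le_mul_right (hc _ (by omega) _) _
    · rw [if_neg hb]; exact zero_le
  have hf1 : f b1 = Λ b1 * Uz Λ ht z (α - 1) (x - z b1) := by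
    simp only [hf]
    rw [hb1, if_pos (by omega)]
  rw [Uz_succ Λ ht z α (by omega) x]
  change ∑' b, f b + Λ b1 * c ≤ _
  rw [ENNReal.tsum_eq_add_tsum_ite b1, ← hf1, add_assoc]
  refine add_le_add le_rfl ?_
  have e : Λ b1 * c = ∑' b, (if b = b1 then Λ b1 * c else 0) := by
    rw [tsum_ite_eq]
  rw [e, ← ENNReal.tsum_add]
  calc ∑' b, ((if b = b1 then 0 else f b) + (if b = b1 then Λ b1 * c else 0))
      ≤ ∑' b, (Λ b * c + (if α - N0 < ht b then Λ b else 0)) := by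
        refine ENNReal.tsum_le_tsum fun b => ?_
        by_cases hb : b = b1
        · rw [if_pos hb, if_pos hb, zero_add, hb]
          exact le_self_add
        · rw [if_neg hb, if_neg hb, add_zero]
          exact hfb b
    _ = c + tail Λ ht (α - N0) := by
        rw [ENNReal.tsum_add, ENNReal.tsum_mul_right, hΛ, one_mul]
        rfl

lemma tail_tendsto (hE : ∑' b, Λ b * (ht b : ℝ≥0∞) ≠ ⊤) (τ : ℝ≥0∞) (hτ : τ ≠ 0) :
    ∃ N : ℕ, ∀ k, N ≤ k → tail Λ ht k ≤ τ := by
  have hk : ∀ k : ℕ, (k : ℝ≥0∞) * tail Λ ht k ≤ ∑' b, Λ b * (ht b : ℝ≥0∞) := by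
    intro k
    rw [tail, ← ENNReal.tsum_mul_left]
    refine ENNReal.tsum_le_tsum fun b => ?_
    by_cases hb : k < ht b
    · rw [if_pos hb, mul_comm]
      exact mul_le_mul_right (by exact_mod_cast hb.le) _
    · rw [if_neg hb, mul_zero]; exact zero_le
  by_cases hτt : τ = ⊤
  · exact ⟨0, fun k _ => hτt ▸ le_top⟩
  obtain ⟨N, hN⟩ := ENNReal.exists_nat_gt (ENNReal.div_ne_top hE hτ)
  refine ⟨N + 1, fun k hk' => ?_⟩
  have h2 : ∑' b, Λ b * (ht b : ℝ≥0∞) ≤ (k : ℝ≥0∞) * τ := by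
    rw [ENNReal.div_lt_iff (Or.inl hτ) (Or.inl hτt)] at hN
    exact hN.le.trans (mul_le_mul_left (by exact_mod_cast (by omega : N ≤ k)) _)
  have h3 := (hk k).trans h2
  have hk0 : (k : ℝ≥0∞) ≠ 0 := by exact_mod_cast (by omega : k ≠ 0)
  exact (ENNReal.mul_le_mul_iff_right hk0 (ENNReal.natCast_ne_top k)).1 h3

/-- one step in reals -/
lemma step_real (h1 : ∀ b, 1 ≤ ht b) (hΛ : ∑' b, Λ b = 1)
    (hE : ∑' b, Λ b * (ht b : ℝ≥0∞) ≠ ⊤) (b1 : B) (hb1 : ht b1 = 1)
    (N0 : ℕ) (c : ℝ) (hc0 : 0 ≤ c) (hc : ∀ α, N0 ≤ α → ∀ x, (Uz Λ ht z α x).toReal ≤ c)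
    (τ : ℝ) (hτ : 0 < τ) :
    ∃ N, ∀ α, N ≤ α → ∀ x, (Uz Λ ht z α x).toReal + (Λ b1).toReal * c
      ≤ (Λ b1).toReal * (Uz Λ ht z (α - 1) (x - z b1)).toReal + (c + τ) := by
  have hfin : ∀ α x, Uz Λ ht z α x ≠ ⊤ := fun α x =>
    ne_top_of_le_ne_top ENNReal.one_ne_top (Uz_le_one Λ ht z h1 hΛ α x)
  have hp : Λ b1 ≠ ⊤ := ne_top_of_le_ne_top ENNReal.one_ne_top
    (hΛ ▸ ENNReal.le_tsum b1)
  obtain ⟨N, hN⟩ := tail_tendsto Λ ht hE (ENNReal.ofReal τ) (by simpa using hτ)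
  refine ⟨N + N0 + 1, fun α hα x => ?_⟩
  have h := step_ineq Λ ht z h1 hΛ b1 hb1 N0 (ENNReal.ofReal c)
    (fun α hα x => by
      rw [← ENNReal.ofReal_toReal (hfin α x)]
      exact ENNReal.ofReal_le_ofReal (hc α hα x)) α (by omega) x
  have h2 : Uz Λ ht z α x + Λ b1 * ENNReal.ofReal c
      ≤ Λ b1 * Uz Λ ht z (α - 1) (x - z b1) + (ENNReal.ofReal c + ENNReal.ofReal τ) :=
    h.trans (add_le_add le_rfl (add_le_add le_rfl (hN _ (by omega))))
  have h3 := ENNReal.toReal_mono (ENNReal.add_ne_top.2 ⟨ENNReal.mul_ne_top hp (hfin _ _),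
    ENNReal.add_ne_top.2 ⟨ENNReal.ofReal_ne_top, ENNReal.ofReal_ne_top⟩⟩) h2
  rw [ENNReal.toReal_add (hfin _ _) (ENNReal.mul_ne_top hp ENNReal.ofReal_ne_top),
    ENNReal.toReal_add (ENNReal.mul_ne_top hp (hfin _ _))
      (ENNReal.add_ne_top.2 ⟨ENNReal.ofReal_ne_top, ENNReal.ofReal_ne_top⟩),
    ENNReal.toReal_add ENNReal.ofReal_ne_top ENNReal.ofReal_ne_top,
    ENNReal.toReal_mul, ENNReal.toReal_mul, ENNReal.toReal_ofReal hc0,
    ENNReal.toReal_ofReal hτ.le] at h3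
  exact h3

/-- **Point concentration of renewal lists** (Choquet–Deny). -/
theorem conc (h1 : ∀ b, 1 ≤ ht b) (hΛ : ∑' b, Λ b = 1)
    (hE : ∑' b, Λ b * (ht b : ℝ≥0∞) ≠ ⊤) (b1 b2 : B) (hb1 : ht b1 = 1) (hb2 : ht b2 = 1)
    (hp1 : Λ b1 ≠ 0) (hp2 : Λ b2 ≠ 0) (hz : ∀ n : ℕ, n ≠ 0 → n • (z b1 - z b2) ≠ 0)
    (η : ℝ≥0∞) (hη : η ≠ 0) :
    ∃ T, ∀ α, T ≤ α → ∀ x, Uz Λ ht z α x ≤ η := by
  have hfin : ∀ α x, Uz Λ ht z α x ≠ ⊤ := fun α x =>
    ne_top_of_le_ne_top ENNReal.one_ne_top (Uz_le_one Λ ht z h1 hΛ α x)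
  have hpt : ∀ b, Λ b ≠ ⊤ := fun b => ne_top_of_le_ne_top ENNReal.one_ne_top
    (hΛ ▸ ENNReal.le_tsum b)
  set u : ℕ → G → ℝ := fun α x => (Uz Λ ht z α x).toReal with hu
  have hu1 : ∀ α x, u α x ≤ 1 := fun α x => by
    have := ENNReal.toReal_mono ENNReal.one_ne_top (Uz_le_one Λ ht z h1 hΛ α x)
    simpa using this
  have hu0 : ∀ α x, 0 ≤ u α x := fun α x => ENNReal.toReal_nonneg
  set S : Set ℝ := {r | 0 ≤ r ∧ ∃ N, ∀ α, N ≤ α → ∀ x, u α x ≤ r} with hS
  have hSne : S.Nonempty := ⟨1, zero_le_one, 0, fun α _ x => hu1 α x⟩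
  have hSb : BddBelow S := ⟨0, fun r hr => hr.1⟩
  set a := sInf S with ha
  have ha0 : 0 ≤ a := le_csInf hSne fun r hr => hr.1
  have L1 : ∀ ε : ℝ, 0 < ε → ∃ N, ∀ α, N ≤ α → ∀ x, u α x ≤ a + ε := by
    intro ε hε
    obtain ⟨r, hr, hra⟩ := exists_lt_of_csInf_lt hSne (show sInf S < a + ε by linarith)
    obtain ⟨N, hN⟩ := hr.2
    exact ⟨N, fun α hα x => (hN α hα x).trans hra.le⟩
  have L2 : ∀ ε : ℝ, 0 < ε → ε ≤ a → ∀ N, ∃ α, N ≤ α ∧ ∃ x, a - ε < u α x := by
    intro ε hε hεa N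
    by_contra hcon
    push Not at hcon
    have : a - ε ∈ S := ⟨by linarith, N, hcon⟩
    have := csInf_le hSb this
    linarith
  -- the step
  have hstep : ∀ b, ht b = 1 → Λ b ≠ 0 → ∀ δ : ℝ, 0 < δ → ∃ ε : ℝ, 0 < ε ∧ ∃ N, ∀ α, N ≤ α →
      ∀ x, a - ε < u α x → a - δ < u (α - 1) (x - z b) := by
    intro b hb hpb δ hδ
    have hp : 0 < (Λ b).toReal := ENNReal.toReal_pos hpb (hpt b)
    set ε := (Λ b).toReal * δ / 4 with hε
    have hε0 : 0 < ε := by positivity
    obtain ⟨N0, hN0⟩ := L1 ε hε0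
    obtain ⟨N, hN⟩ := step_real Λ ht z h1 hΛ hE b hb N0 (a + ε) (by linarith) hN0 ε hε0
    refine ⟨ε, hε0, N, fun α hα x hx => ?_⟩
    have h := hN α hα x
    change u α x + (Λ b).toReal * (a + ε) ≤ (Λ b).toReal * u (α - 1) (x - z b) + (a + ε + ε) at h
    have h5 : (Λ b).toReal * (a - δ) < (Λ b).toReal * u (α - 1) (x - z b) := by
      have : (Λ b).toReal * δ = 4 * ε := by rw [hε]; ring
      have h6 : 0 ≤ (Λ b).toReal * ε := by positivity
      nlinarith
    exact lt_of_mul_lt_mul_left h5 hp.le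
  have hM : ∀ M : ℕ, ∀ δ : ℝ, 0 < δ → ∃ ε : ℝ, 0 < ε ∧ ∃ N, ∀ α, N ≤ α → ∀ x, a - ε < u α x →
      ∀ j, j ≤ M → a - δ < u (α - M) (x - (j • z b1 + (M - j) • z b2)) := by
    intro M
    induction M with
    | zero =>
      intro δ hδ
      refine ⟨δ, hδ, 0, fun α _ x hx j hj => ?_⟩
      have : j = 0 := by omega
      subst this
      simpa using hx
    | succ M ih =>
      intro δ hδ
      obtain ⟨ε1, hε1, N1, hN1⟩ := hstep b1 hb1 hp1 δ hδ
      obtain ⟨ε2, hε2, N2, hN2⟩ := hstep b2 hb2 hp2 δ hδ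
      obtain ⟨ε, hε, N, hN⟩ := ih (min ε1 ε2) (lt_min hε1 hε2)
      refine ⟨ε, hε, N + N1 + N2 + M, fun α hα x hx j hj => ?_⟩
      rcases Nat.lt_or_ge M j with hj2 | hj2
      · have hj3 : j = M + 1 := by omega
        subst hj3
        have h := hN α (by omega) x hx M le_rfl
        have h2 := hN1 (α - M) (by omega) _ (lt_of_le_of_lt
          (by linarith [min_le_left ε1 ε2]) h)
        have e1 : α - M - 1 = α - (M + 1) := by omega
        have e2 : x - (M • z b1 + (M - M) • z b2) - z b1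
            = x - ((M + 1) • z b1 + (M + 1 - (M + 1)) • z b2) := by
          rw [Nat.sub_self, Nat.sub_self, zero_smul, add_zero, add_zero, succ_nsmul]
          abel
        rwa [e1, e2] at h2
      · have h := hN α (by omega) x hx j hj2
        have h2 := hN2 (α - M) (by omega) _ (lt_of_le_of_lt
          (by linarith [min_le_right ε1 ε2]) h)
        have e1 : α - M - 1 = α - (M + 1) := by omega
        have e2 : x - (j • z b1 + (M - j) • z b2) - z b2
            = x - (j • z b1 + (M + 1 - j) • z b2) := by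
          rw [show M + 1 - j = (M - j) + 1 by omega, succ_nsmul]
          abel
        rwa [e1, e2] at h2
  have ha00 : a = 0 := by
    by_contra hne
    have hapos : 0 < a := lt_of_le_of_ne ha0 (Ne.symm hne)
    obtain ⟨M, hMa⟩ := exists_nat_gt (2 / a)
    obtain ⟨ε, hε, N, hN⟩ := hM M (a / 2) (by linarith)
    obtain ⟨α, hα, x, hx⟩ := L2 (min ε a) (lt_min hε hapos) (min_le_right _ _) N
    have h := hN α hα x (lt_of_le_of_lt (by linarith [min_le_left ε a]) hx)
    classical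
    set φ : ℕ → G := fun j => x - (j • z b1 + (M - j) • z b2) with hφ
    have hinj : Set.InjOn φ (Finset.range (M + 1) : Finset ℕ) := by
      intro i hi j hj hij
      have hi' : i ≤ M := by have := Finset.mem_coe.1 hi; simp at this; omega
      have hj' : j ≤ M := by have := Finset.mem_coe.1 hj; simp at this; omega
      simp only [hφ, sub_right_inj] at hij
      by_contra hne'
      rcases Nat.lt_or_ge i j with hlt | hge
      · refine hz (j - i) (by omega) ?_
        have e1 : j • z b1 = (j - i) • z b1 + i • z b1 := by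
          rw [← add_nsmul]; congr 1; omega
        have e2 : (M - i) • z b2 = (M - j) • z b2 + (j - i) • z b2 := by
          rw [← add_nsmul]; congr 1; omega
        rw [e1, e2] at hij
        rw [nsmul_sub]
        have : (j - i) • z b1 - (j - i) • z b2
            = ((j - i) • z b1 + i • z b1 + (M - j) • z b2)
              - (i • z b1 + ((M - j) • z b2 + (j - i) • z b2)) := by abel
        rw [this, ← hij]
        abel
      · refine hz (i - j) (by omega) ?_
        have e1 : i • z b1 = (i - j) • z b1 + j • z b1 := by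
          rw [← add_nsmul]; congr 1; omega
        have e2 : (M - j) • z b2 = (M - i) • z b2 + (i - j) • z b2 := by
          rw [← add_nsmul]; congr 1; omega
        rw [e1, e2] at hij
        rw [nsmul_sub]
        have : (i - j) • z b1 - (i - j) • z b2
            = ((i - j) • z b1 + j • z b1 + (M - i) • z b2)
              - (j • z b1 + ((M - i) • z b2 + (i - j) • z b2)) := by abel
        rw [this, hij]
        abel
    have hsum : ∑ j ∈ Finset.range (M + 1), u (α - M) (φ j) ≤ 1 := by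
      rw [← Finset.sum_image (f := fun y => u (α - M) y) hinj]
      have h7 := (sum_Uz_le Λ ht z ((Finset.range (M + 1)).image φ) (α - M)).trans
        (U_le_one Λ ht h1 hΛ (α - M))
      have h8 := ENNReal.toReal_mono ENNReal.one_ne_top h7
      rw [ENNReal.toReal_sum (fun y _ => hfin _ _)] at h8
      simpa using h8
    have hlow : ∑ j ∈ Finset.range (M + 1), (a / 2) ≤ ∑ j ∈ Finset.range (M + 1), u (α - M) (φ j) := by
      refine Finset.sum_le_sum fun j hj => ?_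
      have := h j (by have := Finset.mem_range.1 hj; omega)
      linarith
    rw [Finset.sum_const, Finset.card_range, nsmul_eq_mul] at hlow
    have h9 : (2 / a) * (a / 2) = 1 := by field_simp
    have h10 : (2 / a) * (a / 2) < (M : ℝ) * (a / 2) :=
      mul_lt_mul_of_pos_right hMa (by linarith)
    push_cast at hlow
    linarith
  by_cases hηt : η = ⊤
  · exact ⟨0, fun α _ x => hηt ▸ le_top⟩
  obtain ⟨T, hT⟩ := L1 η.toReal (ENNReal.toReal_pos hη hηt)
  refine ⟨T, fun α hα x => ?_⟩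
  have := hT α hα x
  rw [ha00, zero_add] at this
  exact (ENNReal.toReal_le_toReal (hfin α x) hηt).1 this

end conc

end Crest.Agent.R154.Slab322
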