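import Crest.Agent.R154.B5Abs_566

/-! Row 154, ROAD 801: concentration of the displacement of a renewal list (helper357). -/

set_option autoImplicit false

namespace Crest.Agent.R154.Conc357

open scoped ENNReal
open Filter
open Crest.Agent.R154.B5A

variable {B G : Type*} [AddCommGroup G] (Λ : B → ℝ≥0∞) (ht : B → ℕ) (dsp : B → G)

open Classical in
/-- weight of the lists of height `n` and displacement `x` -/
noncomputable def V (n : ℕ) (x : G) : ℝ≥0∞ :=
  ∑' L : List B, if HT ht L = n ∧ (L.map dsp).sum = x then LW Λ L else 0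

lemma V_step (h1 : ∀ b, 1 ≤ ht b) (n : ℕ) (hn : n ≠ 0) (x : G) :
    V Λ ht dsp n x = ∑' b, (if ht b ≤ n then Λ b * V Λ ht dsp (n - ht b) (x - dsp b) else 0) := by
  classical
  rw [V, tsum_list]
  rw [if_neg (by rw [HT_nil]; rintro ⟨h, -⟩; exact hn h.symm), zero_add]
  refine tsum_congr fun b => ?_
  by_cases hb : ht b ≤ n
  · rw [if_pos hb, V, ← ENNReal.tsum_mul_left]
    refine tsum_congr fun L => ?_
    rw [HT_cons, LW_cons, List.map_cons, List.sum_cons]
    by_cases h : HT ht L = n - ht b ∧ (L.map dsp).sum = x - dsp b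
    · rw [if_pos h, if_pos ⟨by omega, by rw [h.2]; abel⟩]
    · rw [if_neg h, if_neg, mul_zero]
      rintro ⟨h2, h3⟩
      exact h ⟨by omega, by rw [← h3]; abel⟩
  · rw [if_neg hb]
    rw [ENNReal.tsum_eq_zero]
    intro L
    rw [if_neg]
    rw [HT_cons]
    rintro ⟨h2, -⟩
    omega

lemma V_sum_le {ι : Type*} (s : Finset ι) (f : ι → G) (hf : Set.InjOn f s) (n : ℕ) :
    ∑ i ∈ s, V Λ ht dsp n (f i) ≤ U Λ ht n := by
  classical
  simp only [V, U]
  rw [← Summable.tsum_finsetSum (fun _ _ => ENNReal.summable)]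
  refine ENNReal.tsum_le_tsum fun L => ?_
  by_cases hL : HT ht L = n
  · rw [if_pos hL]
    by_cases hx : ∃ i ∈ s, f i = (L.map dsp).sum
    · obtain ⟨i, hi, hix⟩ := hx
      rw [Finset.sum_eq_single_of_mem i hi]
      · split_ifs <;> simp
      · intro j hj hji
        rw [if_neg]
        rintro ⟨-, h⟩
        exact hji (hf hj hi (by rw [← h, hix]))
    · push Not at hx
      rw [Finset.sum_eq_zero]
      · exact zero_le
      · intro i hi
        rw [if_neg]
        rintro ⟨-, h⟩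
        exact hx i hi h.symm
  · rw [if_neg hL, Finset.sum_eq_zero]
    intro i _
    rw [if_neg]
    exact fun h => hL h.1

lemma U_le_one (h1 : ∀ b, 1 ≤ ht b) (hΛ : ∑' b, Λ b = 1) (n : ℕ) : U Λ ht n ≤ 1 := by
  have ht0 : tail Λ ht 0 = 1 := by
    rw [← hΛ, tail]
    refine tsum_congr fun b => ?_
    rw [if_pos (by have := h1 b; omega)]
  calc U Λ ht n = U Λ ht (n - 0) * tail Λ ht 0 := by rw [ht0, mul_one, Nat.sub_zero]
    _ ≤ ∑ k ∈ Finset.range (n + 1), U Λ ht (n - k) * tail Λ ht k :=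
        Finset.single_le_sum (f := fun k => U Λ ht (n - k) * tail Λ ht k)
          (fun _ _ => zero_le) (Finset.mem_range.2 (by omega))
    _ = 1 := renewal_one Λ ht h1 hΛ n

lemma V_le_one (h1 : ∀ b, 1 ≤ ht b) (hΛ : ∑' b, Λ b = 1) (n : ℕ) (x : G) :
    V Λ ht dsp n x ≤ 1 := by
  have := V_sum_le Λ ht dsp {(0 : Fin 1)} (fun _ => x) (by intro a _ b _ _; exact Subsingleton.elim a b) n
  simp only [Finset.sum_singleton] at this
  exact this.trans (U_le_one Λ ht h1 hΛ n)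

/-- mass of the high blocks -/
lemma tail_small (hΛ : ∑' b, Λ b = 1) (η : ℝ≥0∞) (hη : η ≠ 0) :
    ∃ N : ℕ, ∑' b, (if N < ht b then Λ b else 0) ≤ η := by
  classical
  have hs : ∑' b, Λ b ≠ ⊤ := by rw [hΛ]; exact ENNReal.one_ne_top
  obtain ⟨s, hs'⟩ := (ENNReal.tendsto_tsum_compl_atTop_zero hs).eventually
    (gt_mem_nhds (pos_iff_ne_zero.2 hη)) |>.exists
  refine ⟨s.sup ht, le_trans ?_ hs'.le⟩
  have e : ∑' b : {x // x ∉ s}, Λ b = ∑' b, ({b | b ∉ s} : Set B).indicator Λ b :=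
    tsum_subtype ({b | b ∉ s} : Set B) Λ
  rw [e]
  refine ENNReal.tsum_le_tsum fun b => ?_
  by_cases hb : s.sup ht < ht b
  · rw [if_pos hb, Set.indicator_of_mem]
    intro hbs
    exact absurd (Finset.le_sup (f := ht) hbs) (not_le.2 hb)
  · rw [if_neg hb]; exact zero_le

/-- one step -/
lemma one_step (h1 : ∀ b, 1 ≤ ht b) (hΛ : ∑' b, Λ b = 1) (q : ℝ≥0∞) (hq : q ≤ 1)
    (hlim : ∀ η : ℝ≥0∞, η ≠ 0 → ∃ n0 : ℕ, ∀ n, n0 ≤ n → ∀ x, V Λ ht dsp n x ≤ q + η)
    (b : B) (hb : Λ b ≠ 0) (η : ℝ≥0∞) (hη : η ≠ 0) :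
    ∃ η1 : ℝ≥0∞, η1 ≠ 0 ∧ ∃ n1 : ℕ, ∀ n, n1 ≤ n → ∀ x, q ≤ V Λ ht dsp n x + η1 →
      q ≤ V Λ ht dsp (n - ht b) (x - dsp b) + η := by
  classical
  have hqt : q ≠ ⊤ := ne_top_of_le_ne_top ENNReal.one_ne_top hq
  have hbt : Λ b ≠ ⊤ := ne_top_of_le_ne_top ENNReal.one_ne_top
    (hΛ ▸ ENNReal.le_tsum b)
  set η' : ℝ≥0∞ := min η 1 with hη'
  have hη'0 : η' ≠ 0 := by
    rw [hη']; exact (lt_min (pos_iff_ne_zero.2 hη) one_pos).ne'
  have hη't : η' ≠ ⊤ := ne_top_of_le_ne_top ENNReal.one_ne_top (min_le_right _ _)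
  set η1 : ℝ≥0∞ := Λ b * η' / 4 with hη1
  have hη10 : η1 ≠ 0 := by
    rw [hη1, Ne, ENNReal.div_eq_zero_iff, not_or]
    exact ⟨mul_ne_zero hb hη'0, by norm_num⟩
  have hη1t : η1 ≠ ⊤ := by
    rw [hη1]
    exact ENNReal.div_ne_top (ENNReal.mul_ne_top hbt hη't) (by norm_num)
  have h3 : 3 * η1 < Λ b * η' := by
    have h4 : 4 * η1 = Λ b * η' := by
      rw [hη1]; exact ENNReal.mul_div_cancel (by norm_num) (by norm_num)
    rw [← h4]
    exact (ENNReal.mul_lt_mul_iff_left hη10 hη1t).2 (by norm_num)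
  obtain ⟨n0, hn0⟩ := hlim η1 hη10
  obtain ⟨N, hN⟩ := tail_small Λ ht hΛ η1 hη10
  refine ⟨η1, hη10, n0 + N + ht b + 1, fun n hn x hx => ?_⟩
  by_contra hcon
  rw [not_le] at hcon
  -- upper bound
  set r : ℝ≥0∞ := ∑' b', (if b' = b then 0 else Λ b') with hr
  have hrb : Λ b + r = 1 := by
    rw [← hΛ, hr]
    exact (ENNReal.tsum_eq_add_tsum_ite b).symm
  have key : V Λ ht dsp n x ≤ Λ b * V Λ ht dsp (n - ht b) (x - dsp b) + r * (q + η1) + η1 := by
    rw [V_step Λ ht dsp h1 n (by omega) x, ENNReal.tsum_eq_add_tsum_ite b, if_pos (by omega),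
      add_assoc]
    refine add_le_add_right ?_ _
    calc _ ≤ ∑' b', ((if b' = b then 0 else Λ b') * (q + η1) + (if N < ht b' then Λ b' else 0)) := by
          refine ENNReal.tsum_le_tsum fun b' => ?_
          by_cases hbb : b' = b
          · rw [if_pos hbb]; exact zero_le
          · rw [if_neg hbb, if_neg hbb]
            by_cases hN' : N < ht b'
            · rw [if_pos hN']
              by_cases hh : ht b' ≤ n
              · rw [if_pos hh]
                refine le_trans ?_ le_add_self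
                exact mul_le_of_le_one_right' (V_le_one Λ ht dsp h1 hΛ _ _)
              · rw [if_neg hh]; exact zero_le
            · rw [if_neg hN', if_pos (by omega), add_zero]
              exact mul_le_mul_right (hn0 _ (by omega) _) _
      _ = r * (q + η1) + ∑' b', (if N < ht b' then Λ b' else 0) := by
          rw [ENNReal.tsum_add, ENNReal.tsum_mul_right]
      _ ≤ r * (q + η1) + η1 := add_le_add_right hN _
  have hr1 : r ≤ 1 := by rw [← hrb]; exact le_add_self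
  have hcon' : V Λ ht dsp (n - ht b) (x - dsp b) + η' ≤ q :=
    (add_le_add_right (min_le_left _ _) _).trans hcon.le
  have : q + Λ b * η' ≤ q + 3 * η1 := by
    calc q + Λ b * η' ≤ (V Λ ht dsp n x + η1) + Λ b * η' := add_le_add_left hx _
      _ ≤ ((Λ b * V Λ ht dsp (n - ht b) (x - dsp b) + r * (q + η1) + η1) + η1) + Λ b * η' :=
          add_le_add_left (add_le_add_left key _) _
      _ = Λ b * (V Λ ht dsp (n - ht b) (x - dsp b) + η') + (r * q + r * η1 + 2 * η1) := by ring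
      _ ≤ Λ b * q + (r * q + 1 * η1 + 2 * η1) := by
          gcongr
      _ = (Λ b + r) * q + 3 * η1 := by ring
      _ = q + 3 * η1 := by rw [hrb, one_mul]
  exact absurd ((ENNReal.add_le_add_iff_left hqt).1 this) (not_le.2 h3)

/-- `N` steps -/
lemma n_steps (h1 : ∀ b, 1 ≤ ht b) (hΛ : ∑' b, Λ b = 1) (q : ℝ≥0∞) (hq : q ≤ 1)
    (hlim : ∀ η : ℝ≥0∞, η ≠ 0 → ∃ n0 : ℕ, ∀ n, n0 ≤ n → ∀ x, V Λ ht dsp n x ≤ q + η)
    {b1 b2 : B} (hh : ht b1 = ht b2) (p1 : Λ b1 ≠ 0) (p2 : Λ b2 ≠ 0) (N : ℕ) :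
    ∀ η : ℝ≥0∞, η ≠ 0 → ∃ η1 : ℝ≥0∞, η1 ≠ 0 ∧ ∃ n1 : ℕ, ∀ n, n1 ≤ n → ∀ x,
      q ≤ V Λ ht dsp n x + η1 → ∀ k ≤ N,
      q ≤ V Λ ht dsp (n - N * ht b1) (x - (N - k) • dsp b1 - k • dsp b2) + η := by
  induction N with
  | zero =>
    intro η hη
    refine ⟨η, hη, 0, fun n _ x hx k hk => ?_⟩
    obtain rfl : k = 0 := by omega
    simpa using hx
  | succ N ih =>
    intro η hη
    obtain ⟨η0, hη0, n0, h0⟩ := ih η hη
    obtain ⟨ηa, hηa, na, ha⟩ := one_step Λ ht dsp h1 hΛ q hq hlim b1 p1 η0 hη0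
    obtain ⟨ηb, hηb, nb, hb⟩ := one_step Λ ht dsp h1 hΛ q hq hlim b2 p2 η0 hη0
    refine ⟨min ηa ηb, (lt_min (pos_iff_ne_zero.2 hηa) (pos_iff_ne_zero.2 hηb)).ne',
      n0 + na + nb + ht b1, fun n hn x hx k hk => ?_⟩
    have hxa : q ≤ V Λ ht dsp n x + ηa := hx.trans (add_le_add_right (min_le_left _ _) _)
    have hxb : q ≤ V Λ ht dsp n x + ηb := hx.trans (add_le_add_right (min_le_right _ _) _)
    have e : n - (N + 1) * ht b1 = (n - ht b1) - N * ht b1 := by
      rw [Nat.sub_sub, add_mul, one_mul, add_comm (ht b1)]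
    rcases Nat.eq_zero_or_pos k with rfl | hkpos
    · have h := h0 (n - ht b1) (by omega) (x - dsp b1) (ha n (by omega) x hxa) 0 (Nat.zero_le _)
      rw [e]
      convert h using 3
      simp only [Nat.sub_zero, zero_smul, sub_zero]
      rw [add_smul, one_smul]
      abel
    · obtain ⟨k, rfl⟩ : ∃ k', k = k' + 1 := ⟨k - 1, by omega⟩
      have h := h0 (n - ht b2) (by omega) (x - dsp b2) (hb n (by omega) x hxb) k (by omega)
      rw [← hh] at h
      rw [e]
      convert h using 3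
      rw [show N + 1 - (k + 1) = N - k by omega, add_smul, one_smul]
      abel

/-- **concentration**: the displacement of a renewal list has no large atom. -/
theorem conc (h1 : ∀ b, 1 ≤ ht b) (hΛ : ∑' b, Λ b = 1)
    {b1 b2 : B} (hh : ht b1 = ht b2) (p1 : Λ b1 ≠ 0) (p2 : Λ b2 ≠ 0)
    (hδ : ∀ k : ℕ, k ≠ 0 → k • (dsp b2 - dsp b1) ≠ 0) :
    ∀ ε : ℝ≥0∞, ε ≠ 0 → ∃ N : ℕ, ∀ n, N ≤ n → ∀ x, V Λ ht dsp n x ≤ ε := by
  classical
  set Sp : ℕ → ℝ≥0∞ := fun n => ⨆ x, V Λ ht dsp n x with hSp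
  have hSp1 : ∀ n, Sp n ≤ 1 := fun n => iSup_le fun x => V_le_one Λ ht dsp h1 hΛ n x
  set q : ℝ≥0∞ := limsup Sp atTop with hq
  have hq1 : q ≤ 1 := by
    rw [hq]
    refine limsup_le_of_le ?_ (Eventually.of_forall hSp1)
    isBoundedDefault
  have hqt : q ≠ ⊤ := ne_top_of_le_ne_top ENNReal.one_ne_top hq1
  have hlim : ∀ η : ℝ≥0∞, η ≠ 0 → ∃ n0 : ℕ, ∀ n, n0 ≤ n → ∀ x, V Λ ht dsp n x ≤ q + η := by
    intro η hη
    have : limsup Sp atTop < q + η := ENNReal.lt_add_right hqt hη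
    obtain ⟨n0, hn0⟩ := (eventually_lt_of_limsup_lt this).exists_forall_of_atTop
    exact ⟨n0, fun n hn x => (le_iSup (fun x => V Λ ht dsp n x) x).trans (hn0 n hn).le⟩
  have hq0 : q = 0 := by
    by_contra hne
    obtain ⟨N, hN⟩ : ∃ N : ℕ, 1 < (N + 1 : ℝ≥0∞) * (q / 2) := by
      have hq2 : q / 2 ≠ 0 := by
        rw [Ne, ENNReal.div_eq_zero_iff, not_or]; exact ⟨hne, by norm_num⟩
      obtain ⟨N, hN⟩ := ENNReal.exists_nat_gt (r := (q / 2)⁻¹) (ENNReal.inv_ne_top.2 hq2)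
      refine ⟨N, ?_⟩
      have hq2t : q / 2 ≠ ⊤ := ENNReal.div_ne_top hqt (by norm_num)
      calc (1 : ℝ≥0∞) = (q / 2)⁻¹ * (q / 2) := (ENNReal.inv_mul_cancel hq2 hq2t).symm
        _ < (N + 1 : ℝ≥0∞) * (q / 2) :=
          (ENNReal.mul_lt_mul_iff_left hq2 hq2t).2 (hN.trans_le le_self_add)
    have hq2 : q / 2 ≠ 0 := by
      rw [Ne, ENNReal.div_eq_zero_iff, not_or]; exact ⟨hne, by norm_num⟩
    have hq2t : q / 2 ≠ ⊤ := ENNReal.div_ne_top hqt (by norm_num)
    obtain ⟨η1, hη1, n1, hn1⟩ := n_steps Λ ht dsp h1 hΛ q hq1 hlim hh p1 p2 N (q / 2) hq2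
    have hfr : ∃ᶠ n in atTop, q - η1 < Sp n :=
      frequently_lt_of_lt_limsup (by isBoundedDefault) (ENNReal.sub_lt_self hqt hne hη1)
    obtain ⟨n, hn, hns⟩ := (hfr.and_eventually (eventually_ge_atTop n1)).exists
    obtain ⟨x, hx⟩ := lt_iSup_iff.1 hn
    have hx' : q ≤ V Λ ht dsp n x + η1 := tsub_le_iff_right.1 hx.le
    have hall := hn1 n hns x hx'
    have hge : ∀ k ∈ Finset.range (N + 1),
        q / 2 ≤ V Λ ht dsp (n - N * ht b1) (x - (N - k) • dsp b1 - k • dsp b2) := by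
      intro k hk
      have h := hall k (by have := Finset.mem_range.1 hk; omega)
      have h2 : q / 2 + q / 2 ≤
          V Λ ht dsp (n - N * ht b1) (x - (N - k) • dsp b1 - k • dsp b2) + q / 2 := by
        rw [ENNReal.add_halves]; exact h
      exact (ENNReal.add_le_add_iff_right hq2t).1 h2
    have hsum := V_sum_le Λ ht dsp (Finset.range (N + 1))
      (fun k => x - (N - k) • dsp b1 - k • dsp b2) (by
        have aux : ∀ i j : ℕ, i < N + 1 → j < N + 1 → i < j →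
            x - (N - i) • dsp b1 - i • dsp b2 ≠ x - (N - j) • dsp b1 - j • dsp b2 := by
          intro i j hi hj hij heq
          refine hδ (j - i) (by omega) ?_
          have e1 : (N - i) • dsp b1 = (j - i) • dsp b1 + (N - j) • dsp b1 := by
            rw [← add_smul]; congr 1; omega
          have e2 : j • dsp b2 = (j - i) • dsp b2 + i • dsp b2 := by
            rw [← add_smul]; congr 1; omega
          rw [e1, e2] at heq
          rw [smul_sub]
          have : (j - i) • dsp b2 = (j - i) • dsp b1 := by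
            have h5 : x - ((j - i) • dsp b1 + (N - j) • dsp b1) - i • dsp b2
                - (x - (N - j) • dsp b1 - ((j - i) • dsp b2 + i • dsp b2)) = 0 := by
              rw [heq]; abel
            have h6 : (j - i) • dsp b2 - (j - i) • dsp b1 = 0 := by
              rw [← h5]; abel
            exact sub_eq_zero.1 h6
          rw [this, sub_self]
        intro i hi j hj hij
        simp only [Finset.coe_range, Set.mem_Iio] at hi hj
        rcases lt_trichotomy i j with h | h | h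
        · exact absurd hij (aux i j hi hj h)
        · exact h
        · exact absurd hij.symm (aux j i hj hi h)) (n - N * ht b1)
    have : (N + 1 : ℝ≥0∞) * (q / 2) ≤ 1 := by
      calc (N + 1 : ℝ≥0∞) * (q / 2) = ∑ _k ∈ Finset.range (N + 1), (q / 2) := by
            rw [Finset.sum_const, Finset.card_range, nsmul_eq_mul]; push_cast; rfl
        _ ≤ _ := Finset.sum_le_sum hge
        _ ≤ _ := hsum
        _ ≤ 1 := U_le_one Λ ht h1 hΛ _
    exact absurd this (not_le.2 hN)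
  intro ε hε
  obtain ⟨N, hN⟩ := hlim ε hε
  refine ⟨N, fun n hn x => ?_⟩
  have := hN n hn x
  rwa [hq0, zero_add] at this

end Crest.Agent.R154.Conc357
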