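import Crest.Agent.R154.B5Abs_566

/-! Row 154, ROAD 801 (helper421): point concentration of a renewal walk, by a limsup trick. -/

set_option autoImplicit false

namespace Crest.Agent.R154.Conc421

open scoped ENNReal
open Crest.Agent.R154.B5A

variable {B G : Type*} [AddCommGroup G]

/-- weight of the lists of height `n` and displacement `x` -/
noncomputable def GG (Λ : B → ℝ≥0∞) (ht : B → ℕ) (dsp : B → G) (n : ℕ) (x : G) : ℝ≥0∞ :=
  open Classical in
  ∑' L : List B, if HT ht L = n ∧ (L.map dsp).sum = x then LW Λ L else 0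

variable (Λ : B → ℝ≥0∞) (ht : B → ℕ) (dsp : B → G)

lemma U_le_one (h1 : ∀ b, 1 ≤ ht b) (hΛ : ∑' b, Λ b = 1) (n : ℕ) : U Λ ht n ≤ 1 := by
  have h := renewal_one Λ ht h1 hΛ n
  have ht0 : tail Λ ht 0 = 1 := by
    rw [← hΛ, tail]
    refine tsum_congr fun b => ?_
    rw [if_pos (by have := h1 b; omega)]
  calc U Λ ht n = U Λ ht (n - 0) * tail Λ ht 0 := by rw [ht0]; simp
    _ ≤ ∑ k ∈ Finset.range (n + 1), U Λ ht (n - k) * tail Λ ht k :=
      Finset.single_le_sum (f := fun k => U Λ ht (n - k) * tail Λ ht k)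
        (fun _ _ => zero_le) (Finset.mem_range.2 (by omega))
    _ = 1 := h

lemma tsum_GG (n : ℕ) : ∑' x, GG Λ ht dsp n x = U Λ ht n := by
  classical
  simp only [GG, U]
  rw [ENNReal.tsum_comm]
  refine tsum_congr fun L => ?_
  rw [tsum_eq_single (L.map dsp).sum]
  · by_cases h : HT ht L = n <;> simp [h]
  · intro x hx
    rw [if_neg]
    rintro ⟨_, h⟩
    exact hx h.symm

lemma GG_le_one (h1 : ∀ b, 1 ≤ ht b) (hΛ : ∑' b, Λ b = 1) (n : ℕ) (x : G) :
    GG Λ ht dsp n x ≤ 1 :=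
  (ENNReal.le_tsum x).trans ((tsum_GG Λ ht dsp n).le.trans (U_le_one Λ ht h1 hΛ n))

lemma GG_rec (n : ℕ) (hn : 1 ≤ n) (x : G) :
    GG Λ ht dsp n x = ∑' b, if ht b ≤ n then Λ b * GG Λ ht dsp (n - ht b) (x - dsp b) else 0 := by
  classical
  rw [GG, tsum_list]
  simp only [HT_nil, HT_cons, LW_cons, List.map_cons, List.sum_cons]
  rw [if_neg (by omega), zero_add]
  refine tsum_congr fun b => ?_
  by_cases hb : ht b ≤ n
  · rw [if_pos hb, GG, ← ENNReal.tsum_mul_left]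
    refine tsum_congr fun L => ?_
    by_cases hL : HT ht L = n - ht b ∧ (L.map dsp).sum = x - dsp b
    · rw [if_pos hL, if_pos ⟨by omega, by rw [hL.2]; abel⟩]
    · rw [if_neg hL, mul_zero, if_neg]
      rintro ⟨h, h'⟩
      exact hL ⟨by omega, by rw [← h']; abel⟩
  · rw [if_neg hb]
    refine ENNReal.tsum_eq_zero.2 fun L => ?_
    rw [if_neg]
    rintro ⟨h, _⟩
    omega

/-- limsup of the sup -/
noncomputable def ss : ℝ≥0∞ := ⨅ N : ℕ, ⨆ n : ℕ, ⨆ (_ : N ≤ n), ⨆ x : G, GG Λ ht dsp n x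

lemma ss_le_one (h1 : ∀ b, 1 ≤ ht b) (hΛ : ∑' b, Λ b = 1) : ss Λ ht dsp ≤ 1 :=
  (iInf_le _ 0).trans (iSup_le fun n => iSup_le fun _ => iSup_le fun x =>
    GG_le_one Λ ht dsp h1 hΛ n x)

/-- tails of the heights -/
lemma tail_small (hΛ : ∑' b, Λ b = 1) (η : ℝ≥0∞) (hη : η ≠ 0) : ∃ H : ℕ, tail Λ ht H ≤ η := by
  classical
  by_contra hcon
  push Not at hcon
  have hmono : 1 ≤ 1 - min η 1 := by
    rw [← hΛ]
    have : ∑' b, Λ b = ⨆ N : ℕ, ∑' b, (if ht b ≤ N then Λ b else 0) := by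
      apply le_antisymm
      · rw [ENNReal.tsum_eq_iSup_sum]
        refine iSup_le fun s => ?_
        refine le_iSup_of_le (s.sup ht) ?_
        calc ∑ b ∈ s, Λ b = ∑ b ∈ s, (if ht b ≤ s.sup ht then Λ b else 0) :=
              Finset.sum_congr rfl fun b hb => by rw [if_pos (Finset.le_sup hb)]
          _ ≤ _ := ENNReal.sum_le_tsum s
      · refine iSup_le fun N => ENNReal.tsum_le_tsum fun b => ?_
        split_ifs <;> simp
    conv_lhs => rw [this]
    refine iSup_le fun N => ?_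
    have hsplit : ∑' b, (if ht b ≤ N then Λ b else 0) + tail Λ ht N = 1 := by
      rw [tail, ← ENNReal.tsum_add, ← hΛ]
      refine tsum_congr fun b => ?_
      by_cases h : ht b ≤ N
      · simp [h, not_lt.2 h]
      · simp [h, not_le.1 h]
    have hfin : tail Λ ht N ≠ ⊤ := by
      intro h; rw [h] at hsplit; simp at hsplit
    rw [hΛ]
    calc ∑' b, (if ht b ≤ N then Λ b else 0) = 1 - tail Λ ht N := by
          rw [← hsplit, ENNReal.add_sub_cancel_right hfin]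
      _ ≤ 1 - min η 1 := tsub_le_tsub_left ((min_le_left _ _).trans (hcon N).le) _
  have hlt : 1 - min η 1 < 1 :=
    ENNReal.sub_lt_self ENNReal.one_ne_top one_ne_zero
      (lt_min (pos_iff_ne_zero.2 hη) one_pos).ne'
  exact absurd hmono (not_le.2 hlt)

/-- one step through the block `b` -/
lemma step (h1 : ∀ b, 1 ≤ ht b) (hΛ : ∑' b, Λ b = 1) {s η : ℝ≥0∞} (N1 H : ℕ)
    (hs : ∀ n, N1 ≤ n → ∀ x, GG Λ ht dsp n x ≤ s + η) (hH : tail Λ ht H ≤ η) (b : B) (n : ℕ)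
    (hn : N1 + H + ht b ≤ n) (y : G) :
    GG Λ ht dsp n y ≤ Λ b * GG Λ ht dsp (n - ht b) (y - dsp b) +
      (open Classical in ∑' b', if b' = b then 0 else Λ b') * (s + η) + η := by
  classical
  rw [GG_rec Λ ht dsp n (by have := h1 b; omega)]
  calc ∑' b', (if ht b' ≤ n then Λ b' * GG Λ ht dsp (n - ht b') (y - dsp b') else 0)
      ≤ ∑' b', (((if b' = b then Λ b * GG Λ ht dsp (n - ht b) (y - dsp b) else 0) +
          (if b' = b then 0 else Λ b') * (s + η)) + (if H < ht b' then Λ b' else 0)) := by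
        refine ENNReal.tsum_le_tsum fun b' => ?_
        by_cases hb : b' = b
        · subst hb
          rw [if_pos (by omega), if_pos rfl, if_pos rfl]
          simp only [zero_mul, add_zero]
          exact le_self_add
        · simp only [hb, if_false, zero_add]
          by_cases hH' : H < ht b'
          · rw [if_pos hH']
            refine le_trans ?_ le_add_self
            split_ifs
            · calc Λ b' * GG Λ ht dsp (n - ht b') (y - dsp b') ≤ Λ b' * 1 := by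
                    gcongr; exact GG_le_one Λ ht dsp h1 hΛ _ _
                _ = Λ b' := mul_one _
            · exact zero_le
          · rw [if_neg hH', add_zero, if_pos (by omega)]
            gcongr
            exact hs _ (by omega) _
    _ = Λ b * GG Λ ht dsp (n - ht b) (y - dsp b) +
      (∑' b', if b' = b then 0 else Λ b') * (s + η) + tail Λ ht H := by
        rw [ENNReal.tsum_add, ENNReal.tsum_add, ENNReal.tsum_mul_right]
        congr 2
        rw [tsum_ite_eq]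
    _ ≤ _ := by gcongr

lemma step' (h1 : ∀ b, 1 ≤ ht b) (hΛ : ∑' b, Λ b = 1) {s η θ : ℝ≥0∞} (hs1 : s ≤ 1) (N1 H : ℕ)
    (hs : ∀ n, N1 ≤ n → ∀ x, GG Λ ht dsp n x ≤ s + η) (hH : tail Λ ht H ≤ η) (b : B)
    (hb0 : Λ b ≠ 0) (hθ : 3 * η ≤ Λ b * θ) (n : ℕ)
    (hn : N1 + H + ht b ≤ n) (y : G) (hy : s ≤ GG Λ ht dsp n y + η) :
    s ≤ GG Λ ht dsp (n - ht b) (y - dsp b) + θ := by
  classical
  have h := step Λ ht dsp h1 hΛ N1 H hs hH b n hn y
  set R := (open Classical in ∑' b', if b' = b then 0 else Λ b') with hR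
  have hRb : Λ b + R = 1 := by
    rw [hR, ← hΛ]
    exact (ENNReal.tsum_eq_add_tsum_ite b).symm
  have hR1 : R ≤ 1 := hRb ▸ le_add_self
  have hb1 : Λ b ≤ 1 := hRb ▸ le_self_add
  have hRs : R * s ≠ ⊤ :=
    ENNReal.mul_ne_top (ne_top_of_le_ne_top ENNReal.one_ne_top hR1)
      (ne_top_of_le_ne_top ENNReal.one_ne_top hs1)
  have key : Λ b * s + R * s ≤ (Λ b * GG Λ ht dsp (n - ht b) (y - dsp b) + 3 * η) + R * s := by
    calc Λ b * s + R * s = s := by rw [← add_mul, hRb, one_mul]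
      _ ≤ GG Λ ht dsp n y + η := hy
      _ ≤ (Λ b * GG Λ ht dsp (n - ht b) (y - dsp b) + R * (s + η) + η) + η := by gcongr
      _ = (Λ b * GG Λ ht dsp (n - ht b) (y - dsp b) + (R * η + η + η)) + R * s := by ring
      _ ≤ (Λ b * GG Λ ht dsp (n - ht b) (y - dsp b) + (1 * η + η + η)) + R * s := by gcongr
      _ = _ := by ring
  have key2 : Λ b * s ≤ Λ b * GG Λ ht dsp (n - ht b) (y - dsp b) + 3 * η :=
    (ENNReal.add_le_add_iff_right hRs).1 key
  have key3 : Λ b * s ≤ Λ b * (GG Λ ht dsp (n - ht b) (y - dsp b) + θ) := by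
    rw [mul_add]
    exact key2.trans (by gcongr)
  exact (ENNReal.mul_le_mul_iff_right hb0 (ne_top_of_le_ne_top ENNReal.one_ne_top hb1)).1 key3

lemma chain (h1 : ∀ b, 1 ≤ ht b) (hΛ : ∑' b, Λ b = 1) {b1 b2 : B} (hh : ht b1 = ht b2)
    (hb1 : Λ b1 ≠ 0) (hb2 : Λ b2 ≠ 0) (J : ℕ) :
    ∀ η : ℝ≥0∞, η ≠ 0 → ∀ N : ℕ, ∃ n, N ≤ n ∧ ∃ x : G, ∀ i : ℕ, i ≤ J →
      ss Λ ht dsp ≤ GG Λ ht dsp n (x - i • (dsp b2 - dsp b1)) + η := by
  have hs1 := ss_le_one Λ ht dsp h1 hΛ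
  have hstop : ss Λ ht dsp ≠ ⊤ := ne_top_of_le_ne_top ENNReal.one_ne_top hs1
  induction J with
  | zero =>
    intro η hη N
    by_contra hcon
    push Not at hcon
    have hcon' : ∀ n, N ≤ n → ∀ x : G, GG Λ ht dsp n x + η ≤ ss Λ ht dsp := by
      intro n hn x
      obtain ⟨i, hi, h⟩ := hcon n hn x
      have hi0 : i = 0 := by omega
      subst hi0
      simpa using h.le
    have hηs : η ≤ ss Λ ht dsp := le_add_self.trans (hcon' N le_rfl 0)
    have h2 : (⨆ n : ℕ, ⨆ (_ : N ≤ n), ⨆ x : G, GG Λ ht dsp n x) + η ≤ ss Λ ht dsp := by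
      calc _ ≤ (ss Λ ht dsp - η) + η := by
            gcongr
            exact iSup_le fun n => iSup_le fun hn => iSup_le fun x =>
              ENNReal.le_sub_of_add_le_right (ne_top_of_le_ne_top hstop hηs) (hcon' n hn x)
        _ = _ := tsub_add_cancel_of_le hηs
    have h3 : ss Λ ht dsp ≤ ⨆ n : ℕ, ⨆ (_ : N ≤ n), ⨆ x : G, GG Λ ht dsp n x := iInf_le _ N
    have h4 : ss Λ ht dsp + η ≤ ss Λ ht dsp := (add_le_add_left h3 η).trans h2
    exact absurd h4 (not_le.2 (ENNReal.lt_add_right hstop hη))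
  | succ J ih =>
    intro η hη N
    obtain ⟨η', hη'0, hη'1, hη'2⟩ : ∃ η' : ℝ≥0∞, η' ≠ 0 ∧ 3 * η' ≤ Λ b1 * η ∧ 3 * η' ≤ Λ b2 * η := by
      refine ⟨min (Λ b1 * η) (Λ b2 * η) / 3, ?_, ?_, ?_⟩
      · refine (ENNReal.div_pos ?_ (by norm_num)).ne'
        exact (lt_min (pos_iff_ne_zero.2 (mul_ne_zero hb1 hη))
          (pos_iff_ne_zero.2 (mul_ne_zero hb2 hη))).ne'
      · rw [ENNReal.mul_div_cancel (by norm_num) (by norm_num)]; exact min_le_left _ _
      · rw [ENNReal.mul_div_cancel (by norm_num) (by norm_num)]; exact min_le_right _ _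
    obtain ⟨H, hH⟩ := tail_small Λ ht hΛ η' hη'0
    obtain ⟨N1, hN1⟩ : ∃ N1 : ℕ, ∀ n, N1 ≤ n → ∀ x : G, GG Λ ht dsp n x ≤ ss Λ ht dsp + η' := by
      have hlt : ss Λ ht dsp < ss Λ ht dsp + η' := ENNReal.lt_add_right hstop hη'0
      obtain ⟨N1, hN1⟩ := iInf_lt_iff.1 (show (⨅ N : ℕ, ⨆ n : ℕ, ⨆ (_ : N ≤ n), ⨆ x : G,
        GG Λ ht dsp n x) < ss Λ ht dsp + η' from hlt)
      refine ⟨N1, fun n hn x => le_trans ?_ hN1.le⟩
      exact le_iSup_of_le n (le_iSup_of_le hn (le_iSup (fun x => GG Λ ht dsp n x) x))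
    obtain ⟨n, hn, x, hx⟩ := ih η' hη'0 (N + N1 + H + ht b1)
    refine ⟨n - ht b1, by omega, x - dsp b1, fun i hi => ?_⟩
    rcases Nat.lt_or_ge J i with h | h
    · have hiJ : i = J + 1 := by omega
      subst hiJ
      have := step' Λ ht dsp h1 hΛ hs1 N1 H hN1 hH b2 hb2 hη'2 n (by omega) _ (hx J le_rfl)
      rw [← hh] at this
      convert this using 3
      rw [succ_nsmul]; abel
    · have := step' Λ ht dsp h1 hΛ hs1 N1 H hN1 hH b1 hb1 hη'1 n (by omega) _ (hx i h)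
      convert this using 3
      abel

lemma ss_eq_zero (h1 : ∀ b, 1 ≤ ht b) (hΛ : ∑' b, Λ b = 1) {b1 b2 : B} (hh : ht b1 = ht b2)
    (hb1 : Λ b1 ≠ 0) (hb2 : Λ b2 ≠ 0) (hv : ∀ k : ℕ, k ≠ 0 → k • (dsp b2 - dsp b1) ≠ 0) :
    ss Λ ht dsp = 0 := by
  classical
  by_contra hs0
  have hs1 := ss_le_one Λ ht dsp h1 hΛ
  have hstop : ss Λ ht dsp ≠ ⊤ := ne_top_of_le_ne_top ENNReal.one_ne_top hs1
  set s := ss Λ ht dsp with hs
  have hhalf : s / 2 ≠ 0 := (ENNReal.div_pos hs0 (by norm_num)).ne'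
  have key : ∀ J : ℕ, ((J + 1 : ℕ) : ℝ≥0∞) * (s / 2) ≤ 1 := by
    intro J
    obtain ⟨n, -, x, hx⟩ := chain Λ ht dsp h1 hΛ hh hb1 hb2 J (s / 2) hhalf 0
    have hx' : ∀ i ∈ Finset.range (J + 1), s / 2 ≤ GG Λ ht dsp n (x - i • (dsp b2 - dsp b1)) := by
      intro i hi
      have := hx i (by have := Finset.mem_range.1 hi; omega)
      rw [← hs] at this
      have h2 : s / 2 + s / 2 ≤ GG Λ ht dsp n (x - i • (dsp b2 - dsp b1)) + s / 2 := by
        rwa [ENNReal.add_halves]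
      exact (ENNReal.add_le_add_iff_right (ENNReal.div_ne_top hstop (by norm_num))).1 h2
    have hinj : Set.InjOn (fun i : ℕ => x - i • (dsp b2 - dsp b1)) (Finset.range (J + 1)) := by
      have aux : ∀ i j : ℕ, i < j → x - i • (dsp b2 - dsp b1) ≠ x - j • (dsp b2 - dsp b1) := by
        intro i j hij h
        apply hv (j - i) (by omega)
        have h' : i • (dsp b2 - dsp b1) = j • (dsp b2 - dsp b1) := sub_right_injective h
        have e : j = (j - i) + i := by omega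
        rw [e, add_nsmul] at h'
        simpa using h'.symm
      intro i _ j _ h
      rcases lt_trichotomy i j with hij | hij | hij
      · exact absurd h (aux i j hij)
      · exact hij
      · exact absurd h.symm (aux j i hij)
    calc ((J + 1 : ℕ) : ℝ≥0∞) * (s / 2) = ∑ _i ∈ Finset.range (J + 1), s / 2 := by simp
      _ ≤ ∑ i ∈ Finset.range (J + 1), GG Λ ht dsp n (x - i • (dsp b2 - dsp b1)) :=
        Finset.sum_le_sum hx'
      _ = ∑ y ∈ (Finset.range (J + 1)).image (fun i : ℕ => x - i • (dsp b2 - dsp b1)),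
          GG Λ ht dsp n y := by rw [Finset.sum_image hinj]
      _ ≤ ∑' y, GG Λ ht dsp n y := ENNReal.sum_le_tsum _
      _ = U Λ ht n := tsum_GG Λ ht dsp n
      _ ≤ 1 := U_le_one Λ ht h1 hΛ n
  obtain ⟨J, hJ⟩ := ENNReal.exists_nat_mul_gt hhalf (ENNReal.one_ne_top)
  have h2 : (J : ℝ≥0∞) * (s / 2) ≤ ((J + 1 : ℕ) : ℝ≥0∞) * (s / 2) := by
    gcongr; omega
  exact absurd (h2.trans (key J)) (not_le.2 hJ)

/-- **point concentration**: the weight of the renewals at height `n` at ONE point tends to `0`. -/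
theorem conc (h1 : ∀ b, 1 ≤ ht b) (hΛ : ∑' b, Λ b = 1) {b1 b2 : B} (hh : ht b1 = ht b2)
    (hb1 : Λ b1 ≠ 0) (hb2 : Λ b2 ≠ 0) (hv : ∀ k : ℕ, k ≠ 0 → k • (dsp b2 - dsp b1) ≠ 0) :
    ∀ ε : ℝ≥0∞, ε ≠ 0 → ∃ N : ℕ, ∀ n, N ≤ n → ∀ x : G, GG Λ ht dsp n x ≤ ε := by
  intro ε hε
  have h0 := ss_eq_zero Λ ht dsp h1 hΛ hh hb1 hb2 hv
  have hlt : (⨅ N : ℕ, ⨆ n : ℕ, ⨆ (_ : N ≤ n), ⨆ x : G, GG Λ ht dsp n x) < ε := by
    show ss Λ ht dsp < ε
    rw [h0]; exact pos_iff_ne_zero.2 hε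
  obtain ⟨N, hN⟩ := iInf_lt_iff.1 hlt
  refine ⟨N, fun n hn x => le_trans ?_ hN.le⟩
  exact le_iSup_of_le n (le_iSup_of_le hn (le_iSup (fun x => GG Λ ht dsp n x) x))

end Crest.Agent.R154.Conc421
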