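import Crest.Agent.R154.B5Abs_566

/-! Row 154 (helper467): point concentration of the renewal displacement tends to `0`
(`f n x = Σ_{L : HT L = n, Dp L = x} LW L`), from two blocks of the same height with displacements
differing by an element of infinite order. -/

set_option autoImplicit false

namespace Crest.Agent.R154.Conc467

open scoped ENNReal
open Crest.Agent.R154.B5A Filter

variable {B G : Type*} [AddCommGroup G] (Λ : B → ℝ≥0∞) (ht : B → ℕ) (dsp : B → G)

open Classical in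
/-- mass of the lists of height `n` and displacement `x` -/
noncomputable def f (n : ℕ) (x : G) : ℝ≥0∞ :=
  ∑' L : List B, if HT ht L = n ∧ (L.map dsp).sum = x then LW Λ L else 0

open Classical in
lemma f_le_U (n : ℕ) (x : G) : f Λ ht dsp n x ≤ U Λ ht n := by
  refine ENNReal.tsum_le_tsum fun L => ?_
  by_cases h : HT ht L = n
  · by_cases h2 : (L.map dsp).sum = x
    · simp [h, h2]
    · simp [h, h2]
  · simp [h]

lemma U_rec (h1 : ∀ b, 1 ≤ ht b) (n : ℕ) (hn : 1 ≤ n) :
    U Λ ht n = ∑' b, (if ht b ≤ n then Λ b * U Λ ht (n - ht b) else 0) := by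
  rw [U, tsum_list]
  simp only [HT_nil, HT_cons, LW_cons]
  rw [if_neg (by omega), zero_add]
  refine tsum_congr fun b => ?_
  by_cases h : ht b ≤ n
  · rw [if_pos h, U, ← ENNReal.tsum_mul_left]
    refine tsum_congr fun L => ?_
    by_cases h2 : HT ht L = n - ht b
    · rw [if_pos h2, if_pos (by omega)]
    · rw [if_neg h2, if_neg (by omega), mul_zero]
  · rw [if_neg h]
    rw [ENNReal.tsum_eq_zero]
    intro L
    rw [if_neg (by omega)]

lemma U_le_one (h1 : ∀ b, 1 ≤ ht b) (hΛ : ∑' b, Λ b = 1) (n : ℕ) : U Λ ht n ≤ 1 := by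
  induction n using Nat.strong_induction_on with
  | _ n ih =>
    rcases Nat.eq_zero_or_pos n with rfl | hn
    · exact (U_zero Λ ht h1).le
    · rw [U_rec Λ ht h1 n hn, ← hΛ]
      refine ENNReal.tsum_le_tsum fun b => ?_
      by_cases h : ht b ≤ n
      · rw [if_pos h]
        have := ih (n - ht b) (by have := h1 b; omega)
        calc Λ b * U Λ ht (n - ht b) ≤ Λ b * 1 := mul_le_mul_right this _
          _ = Λ b := mul_one _
      · rw [if_neg h]; exact zero_le

open Classical in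
lemma f_rec (h1 : ∀ b, 1 ≤ ht b) (n : ℕ) (hn : 1 ≤ n) (x : G) :
    f Λ ht dsp n x
      = ∑' b, (if ht b ≤ n then Λ b * f Λ ht dsp (n - ht b) (x - dsp b) else 0) := by
  rw [f, tsum_list]
  simp only [HT_nil, HT_cons, LW_cons, List.map_cons, List.sum_cons]
  rw [if_neg (by omega), zero_add]
  refine tsum_congr fun b => ?_
  by_cases h : ht b ≤ n
  · rw [if_pos h, f, ← ENNReal.tsum_mul_left]
    refine tsum_congr fun L => ?_
    by_cases h2 : HT ht L = n - ht b ∧ (L.map dsp).sum = x - dsp b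
    · rw [if_pos h2, if_pos ⟨by omega, by rw [h2.2]; abel⟩]
    · rw [if_neg h2, if_neg, mul_zero]
      rintro ⟨h3, h4⟩
      exact h2 ⟨by omega, by rw [← h4]; abel⟩
  · rw [if_neg h, ENNReal.tsum_eq_zero]
    intro L
    rw [if_neg (by rintro ⟨h3, _⟩; omega)]

open Classical in
lemma sum_f (n : ℕ) : ∑' x, f Λ ht dsp n x = U Λ ht n := by
  simp only [f]
  rw [ENNReal.tsum_comm, U]
  refine tsum_congr fun L => ?_
  by_cases h : HT ht L = n
  · rw [if_pos h]
    rw [tsum_eq_single (L.map dsp).sum]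
    · simp [h]
    · intro y hy
      rw [if_neg (fun hh => hy hh.2.symm)]
  · simp [h]

/-- the tail of the block law tends to zero -/
lemma tail_tendsto (hΛ : ∑' b, Λ b = 1) (ε : ℝ≥0∞) (hε : ε ≠ 0) :
    ∃ R, ∀ j, R ≤ j → tail Λ ht j ≤ ε := by
  classical
  have h := ENNReal.tendsto_tsum_compl_atTop_zero (f := Λ) (by rw [hΛ]; exact ENNReal.one_ne_top)
  have h2 := (h.eventually (ge_mem_nhds (pos_iff_ne_zero.2 hε))).exists
  obtain ⟨s, hs⟩ := h2
  refine ⟨s.sup ht, fun j hj => ?_⟩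
  refine le_trans ?_ hs
  have e0 : ∑' b : {x // x ∉ s}, Λ b = ∑' b, Set.indicator {x | x ∉ s} Λ b :=
    tsum_subtype {x | x ∉ s} Λ
  rw [tail, e0]
  refine ENNReal.tsum_le_tsum fun b => ?_
  by_cases hb : j < ht b
  · rw [if_pos hb]
    have : b ∉ s := fun hbs => by
      have := Finset.le_sup (f := ht) hbs
      omega
    rw [Set.indicator_of_mem (show b ∈ {x | x ∉ s} from this)]
  · rw [if_neg hb]; exact zero_le

/-- a sequence along which `f` is asymptotically at least `S` -/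
def Good (S : ℝ≥0∞) (ρ : ℕ → ℕ) (ζ : ℕ → G) : Prop :=
  Tendsto ρ atTop atTop ∧ ∀ ε : ℝ≥0∞, ε ≠ 0 → ∀ᶠ k in atTop, S ≤ f Λ ht dsp (ρ k) (ζ k) + ε

variable {Λ ht dsp}

lemma Good.step (h1 : ∀ b, 1 ≤ ht b) (hΛ : ∑' b, Λ b = 1) {S : ℝ≥0∞} (hS : S ≠ ⊤)
    (hsup : ∀ δ : ℝ≥0∞, δ ≠ 0 → ∃ R, ∀ n, R ≤ n → ∀ x, f Λ ht dsp n x ≤ S + δ)
    {ρ : ℕ → ℕ} {ζ : ℕ → G} (h : Good Λ ht dsp S ρ ζ) (b : B) (hb : Λ b ≠ 0) :
    Good Λ ht dsp S (fun k => ρ k - ht b) (fun k => ζ k - dsp b) := by
  classical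
  have hU1 := U_le_one Λ ht h1 hΛ
  have hbt : Λ b ≠ ⊤ := by
    have : Λ b ≤ 1 := by rw [← hΛ]; exact ENNReal.le_tsum b
    exact ne_top_of_le_ne_top ENNReal.one_ne_top this
  refine ⟨?_, ?_⟩
  · have h' := tendsto_atTop.1 h.1
    rw [tendsto_atTop]
    intro a
    filter_upwards [h' (a + ht b)] with k hk
    omega
  · intro ε hε
    by_cases hεt : ε = ⊤
    · subst hεt; exact Eventually.of_forall fun k => by simp
    set κ : ℝ≥0∞ := ∑' b', (if b' = b then 0 else Λ b') with hκ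
    have hsum : Λ b + κ = 1 := by
      rw [hκ, ← hΛ]
      exact (ENNReal.tsum_eq_add_tsum_ite b).symm
    have hκt : κ ≤ 1 := by rw [← hsum]; exact le_add_self
    set δ : ℝ≥0∞ := Λ b * ε / 3 with hδ
    have hδ0 : δ ≠ 0 := by
      rw [hδ, Ne, ENNReal.div_eq_zero_iff, not_or]
      exact ⟨mul_ne_zero hb hε, by norm_num⟩
    have hδ3 : δ + δ + δ = Λ b * ε := by
      rw [hδ, ← ENNReal.add_div, ← ENNReal.add_div]
      have : Λ b * ε + Λ b * ε + Λ b * ε = 3 * (Λ b * ε) := by ring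
      rw [this, mul_comm (3 : ℝ≥0∞), mul_div_assoc, ENNReal.div_self (by norm_num) (by norm_num),
        mul_one]
    obtain ⟨R, hR⟩ := hsup δ hδ0
    obtain ⟨R', hR'⟩ := tail_tendsto Λ ht hΛ δ hδ0
    have ht1 := (tendsto_atTop.1 h.1) (R + R' + ht b + 1)
    filter_upwards [h.2 δ hδ0, ht1] with k hk hρ
    set n := ρ k
    set x := ζ k
    -- upper bound of `f n x`
    have hup : f Λ ht dsp n x ≤ Λ b * f Λ ht dsp (n - ht b) (x - dsp b) + (κ * (S + δ) + δ) := by
      rw [f_rec Λ ht dsp h1 n (by omega), ENNReal.tsum_eq_add_tsum_ite b]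
      refine add_le_add ?_ ?_
      · rw [if_pos (by omega)]
      · have h2 : ∀ b', (if b' = b then 0 else
            (if ht b' ≤ n then Λ b' * f Λ ht dsp (n - ht b') (x - dsp b') else 0))
            ≤ (if b' = b then 0 else Λ b') * (S + δ) + (if n - R < ht b' then Λ b' else 0) := by
          intro b'
          by_cases hbb : b' = b
          · simp [hbb]
          · rw [if_neg hbb, if_neg hbb]
            by_cases h3 : ht b' ≤ n
            · rw [if_pos h3]
              by_cases h4 : n - R < ht b'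
              · rw [if_pos h4]
                refine le_trans ?_ le_add_self
                calc Λ b' * f Λ ht dsp (n - ht b') (x - dsp b') ≤ Λ b' * 1 :=
                      mul_le_mul_right ((f_le_U _ _ _ _ _).trans (hU1 _)) _
                  _ = Λ b' := mul_one _
              · rw [if_neg h4, add_zero]
                exact mul_le_mul_right (hR _ (by omega) _) _
            · rw [if_neg h3]; exact zero_le
        calc _ ≤ ∑' b', ((if b' = b then 0 else Λ b') * (S + δ)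
                + (if n - R < ht b' then Λ b' else 0)) := ENNReal.tsum_le_tsum h2
          _ = κ * (S + δ) + tail Λ ht (n - R) := by
              rw [ENNReal.tsum_add, ENNReal.tsum_mul_right]; rfl
          _ ≤ _ := add_le_add le_rfl (hR' _ (by omega))
    have h5 : Λ b * S + κ * S ≤ Λ b * (f Λ ht dsp (n - ht b) (x - dsp b) + ε) + κ * S := by
      calc Λ b * S + κ * S = S := by rw [← add_mul, hsum, one_mul]
        _ ≤ f Λ ht dsp n x + δ := hk
        _ ≤ Λ b * f Λ ht dsp (n - ht b) (x - dsp b) + (κ * (S + δ) + δ) + δ := add_le_add hup le_rfl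
        _ = Λ b * f Λ ht dsp (n - ht b) (x - dsp b) + (κ * δ + δ + δ) + κ * S := by ring
        _ ≤ Λ b * f Λ ht dsp (n - ht b) (x - dsp b) + (δ + δ + δ) + κ * S := by
            gcongr
            calc κ * δ ≤ 1 * δ := by gcongr
              _ = δ := one_mul _
        _ = _ := by rw [hδ3, mul_add]
    have h6 := (ENNReal.add_le_add_iff_right (ENNReal.mul_ne_top
      (ne_top_of_le_ne_top ENNReal.one_ne_top hκt) hS)).1 h5
    exact (ENNReal.mul_le_mul_iff_right hb hbt).1 h6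

lemma Good.list (h1 : ∀ b, 1 ≤ ht b) (hΛ : ∑' b, Λ b = 1) {S : ℝ≥0∞} (hS : S ≠ ⊤)
    (hsup : ∀ δ : ℝ≥0∞, δ ≠ 0 → ∃ R, ∀ n, R ≤ n → ∀ x, f Λ ht dsp n x ≤ S + δ)
    (L : List B) (hL : ∀ b ∈ L, Λ b ≠ 0) {ρ : ℕ → ℕ} {ζ : ℕ → G} (h : Good Λ ht dsp S ρ ζ) :
    Good Λ ht dsp S (fun k => ρ k - HT ht L) (fun k => ζ k - (L.map dsp).sum) := by
  induction L generalizing ρ ζ with
  | nil => simpa [HT_nil] using h
  | cons b L ih =>
    have h2 := ih (fun b' hb' => hL b' (List.mem_cons_of_mem _ hb'))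
      (h.step h1 hΛ hS hsup b (hL b List.mem_cons_self))
    simp only [HT_cons, List.map_cons, List.sum_cons]
    convert h2 using 2
    · omega
    · abel

/-- **point concentration** -/
theorem conc (h1 : ∀ b, 1 ≤ ht b) (hΛ : ∑' b, Λ b = 1) {b1 b2 : B} (h12 : ht b1 = ht b2)
    (hb1 : Λ b1 ≠ 0) (hb2 : Λ b2 ≠ 0) (hd : ∀ k : ℕ, k ≠ 0 → k • (dsp b2 - dsp b1) ≠ 0) :
    ∀ ε : ℝ≥0∞, ε ≠ 0 → ∃ N, ∀ n, N ≤ n → ∀ x, f Λ ht dsp n x ≤ ε := by
  classical
  have hU1 := U_le_one Λ ht h1 hΛ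
  set m : ℕ → ℝ≥0∞ := fun n => ⨆ x, f Λ ht dsp n x with hm
  set S : ℝ≥0∞ := limsup m atTop with hSdef
  have hm1 : ∀ n, m n ≤ 1 := fun n => iSup_le fun x => (f_le_U _ _ _ _ _).trans (hU1 n)
  have hS1 : S ≤ 1 := by
    rw [hSdef]
    exact limsup_le_of_le (h := Eventually.of_forall hm1)
  have hSt : S ≠ ⊤ := ne_top_of_le_ne_top ENNReal.one_ne_top hS1
  have hsup : ∀ δ : ℝ≥0∞, δ ≠ 0 → ∃ R, ∀ n, R ≤ n → ∀ x, f Λ ht dsp n x ≤ S + δ := by
    intro δ hδ
    have h2 : limsup m atTop < S + δ := ENNReal.lt_add_right hSt hδ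
    obtain ⟨R, hR⟩ := eventually_atTop.1 (eventually_lt_of_limsup_lt h2)
    exact ⟨R, fun n hn x => (le_iSup (fun x => f Λ ht dsp n x) x).trans (hR n hn).le⟩
  -- it suffices that `S = 0`
  suffices hS0 : S = 0 by
    intro ε hε
    obtain ⟨R, hR⟩ := hsup ε hε
    exact ⟨R, fun n hn x => by simpa [hS0] using hR n hn x⟩
  by_contra hS0
  -- a sequence
  have hseq : ∀ k : ℕ, ∃ p : ℕ × G, k ≤ p.1 ∧ S ≤ f Λ ht dsp p.1 p.2 + ((k : ℝ≥0∞) + 1)⁻¹ := by
    intro k
    have hk0 : ((k : ℝ≥0∞) + 1)⁻¹ ≠ 0 := by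
      rw [Ne, ENNReal.inv_eq_zero]
      exact ENNReal.add_ne_top.2 ⟨ENNReal.natCast_ne_top k, ENNReal.one_ne_top⟩
    have h2 : S - ((k : ℝ≥0∞) + 1)⁻¹ < limsup m atTop :=
      ENNReal.sub_lt_self hSt hS0 hk0
    have h3 := frequently_lt_of_lt_limsup (u := m) (f := atTop) (by isBoundedDefault) h2
    obtain ⟨n, hn, hlt⟩ := (frequently_atTop.1 h3) k
    obtain ⟨x, hx⟩ := lt_iSup_iff.1 hlt
    refine ⟨(n, x), hn, ?_⟩
    exact tsub_le_iff_right.1 hx.le
  choose p hp1 hp2 using hseq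
  have hgood : Good Λ ht dsp S (fun k => (p k).1) (fun k => (p k).2) := by
    refine ⟨tendsto_atTop_mono hp1 tendsto_id, fun ε hε => ?_⟩
    have h2 : Tendsto (fun k : ℕ => ((k : ℝ≥0∞) + 1)⁻¹) atTop (nhds 0) := by
      have := ENNReal.tendsto_inv_nat_nhds_zero
      have h3 := (tendsto_add_atTop_iff_nat 1).2 this
      simpa using h3
    filter_upwards [h2.eventually (ge_mem_nhds (pos_iff_ne_zero.2 hε))] with k hk
    exact (hp2 k).trans (add_le_add le_rfl hk)
  -- `(N + 1) S ≤ 2`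
  have hN : ∀ N : ℕ, ((N : ℝ≥0∞) + 1) * S ≤ 2 := by
    intro N
    set LL : ℕ → List B := fun i => List.replicate i b2 ++ List.replicate (N - i) b1 with hLL
    have hHT : ∀ i ∈ Finset.range (N + 1), HT ht (LL i) = N * ht b1 := by
      intro i hi
      have hi' := Finset.mem_range.1 hi
      simp only [hLL, HT, List.map_append, List.map_replicate, List.sum_append, List.sum_replicate,
        smul_eq_mul, ← h12]
      rw [← add_mul]; congr 1; omega
    have hgi : ∀ i, Good Λ ht dsp S (fun k => (p k).1 - HT ht (LL i))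
        (fun k => (p k).2 - ((LL i).map dsp).sum) := by
      intro i
      refine hgood.list h1 hΛ hSt hsup (LL i) ?_
      intro b hb
      rw [hLL, List.mem_append] at hb
      rcases hb with hb | hb
      · rw [List.eq_of_mem_replicate hb]; exact hb2
      · rw [List.eq_of_mem_replicate hb]; exact hb1
    have hN0 : ((N : ℝ≥0∞) + 1)⁻¹ ≠ 0 := by
      rw [Ne, ENNReal.inv_eq_zero]
      exact ENNReal.add_ne_top.2 ⟨ENNReal.natCast_ne_top N, ENNReal.one_ne_top⟩
    have hev : ∀ᶠ k in atTop, ∀ i ∈ Finset.range (N + 1),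
        S ≤ f Λ ht dsp ((p k).1 - HT ht (LL i)) ((p k).2 - ((LL i).map dsp).sum)
          + ((N : ℝ≥0∞) + 1)⁻¹ :=
      (Filter.eventually_all_finset _).2 fun i _ => (hgi i).2 _ hN0
    obtain ⟨k, hk⟩ := hev.exists
    have hsum : ∑ _i ∈ Finset.range (N + 1), S
        ≤ ∑ i ∈ Finset.range (N + 1),
          (f Λ ht dsp ((p k).1 - N * ht b1) ((p k).2 - ((LL i).map dsp).sum)
          + ((N : ℝ≥0∞) + 1)⁻¹) := by
      refine Finset.sum_le_sum fun i hi => ?_
      have := hk i hi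
      rwa [hHT i hi] at this
    have hinj : Set.InjOn (fun i => (p k).2 - ((LL i).map dsp).sum)
        (Finset.range (N + 1) : Set ℕ) := by
      have key : ∀ i j : ℕ, i < j → j ≤ N →
          ((LL i).map dsp).sum ≠ ((LL j).map dsp).sum := by
        intro i j hij hj heq
        simp only [hLL, List.map_append, List.map_replicate, List.sum_append,
          List.sum_replicate] at heq
        apply hd (j - i) (by omega)
        have e1 : j • dsp b2 = i • dsp b2 + (j - i) • dsp b2 := by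
          rw [← add_nsmul]; congr 1; omega
        have e2 : (N - i) • dsp b1 = (N - j) • dsp b1 + (j - i) • dsp b1 := by
          rw [← add_nsmul]; congr 1; omega
        rw [e1, e2] at heq
        rw [nsmul_sub, sub_eq_zero]
        have h7 : i • dsp b2 + (N - j) • dsp b1 + (j - i) • dsp b1
            = i • dsp b2 + (N - j) • dsp b1 + (j - i) • dsp b2 := by
          rw [add_assoc, heq]; abel
        exact (add_left_cancel h7).symm
      intro i hi j hj hij
      have hi' := Finset.mem_range.1 (Finset.mem_coe.1 hi)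
      have hj' := Finset.mem_range.1 (Finset.mem_coe.1 hj)
      have hij' : ((LL i).map dsp).sum = ((LL j).map dsp).sum := by
        have := sub_right_injective hij
        exact this
      rcases lt_trichotomy i j with h | h | h
      · exact absurd hij' (key i j h (by omega))
      · exact h
      · exact absurd hij'.symm (key j i h (by omega))
    have hle1 : ∑ i ∈ Finset.range (N + 1),
        f Λ ht dsp ((p k).1 - N * ht b1) ((p k).2 - ((LL i).map dsp).sum) ≤ 1 := by
      rw [← Finset.sum_image (f := fun y => f Λ ht dsp ((p k).1 - N * ht b1) y) hinj]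
      exact (ENNReal.sum_le_tsum _).trans ((sum_f Λ ht dsp _).le.trans (hU1 _))
    rw [Finset.sum_const, Finset.card_range, nsmul_eq_mul, Finset.sum_add_distrib,
      Finset.sum_const, Finset.card_range, nsmul_eq_mul] at hsum
    have e3 : ((N + 1 : ℕ) : ℝ≥0∞) * ((N : ℝ≥0∞) + 1)⁻¹ = 1 := by
      push_cast
      exact ENNReal.mul_inv_cancel (by simp) (ENNReal.add_ne_top.2
        ⟨ENNReal.natCast_ne_top N, ENNReal.one_ne_top⟩)
    rw [e3] at hsum
    calc ((N : ℝ≥0∞) + 1) * S = ((N + 1 : ℕ) : ℝ≥0∞) * S := by push_cast; ring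
      _ ≤ _ := hsum
      _ ≤ 1 + 1 := add_le_add hle1 le_rfl
      _ = 2 := by norm_num
  -- contradiction
  obtain ⟨N, hNN⟩ := ENNReal.exists_nat_gt (ENNReal.div_ne_top (by norm_num : (2 : ℝ≥0∞) ≠ ⊤) hS0)
  have h8 := hN N
  have h9 : 2 < ((N : ℝ≥0∞) + 1) * S := by
    rw [ENNReal.div_lt_iff (Or.inl hS0) (Or.inl hSt)] at hNN
    refine hNN.trans_le ?_
    gcongr
    exact le_self_add
  exact absurd h8 (not_le.2 h9)

end Crest.Agent.R154.Conc467
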