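import Crest.Agent.R154.B5Abs_566

/-! Row 154, road 801, leaf POINT (helper556, second of 926): the concentration lemma for renewal
lists.  Two blocks of the same height and with displacements whose difference has infinite order
force `sup_x (weight of the lists of height n and displacement x) → 0`. -/

set_option autoImplicit false

namespace Crest.Agent.R154.Conc556

open scoped ENNReal
open Crest.Agent.R154.B5A

variable {B G : Type*} [AddCommGroup G] (Λ : B → ℝ≥0∞) (ht : B → ℕ) (dsp : B → G)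

open Classical in
/-- weight of the lists of height `n` and displacement `x`. -/
noncomputable def a (n : ℕ) (x : G) : ℝ≥0∞ :=
  ∑' L : List B, if HT ht L = n ∧ (L.map dsp).sum = x then LW Λ L else 0

open Classical in
lemma a_le_U (n : ℕ) (x : G) : a Λ ht dsp n x ≤ U Λ ht n := by
  refine ENNReal.tsum_le_tsum fun L => ?_
  by_cases h : HT ht L = n
  · simp only [h, true_and, if_true]
    split_ifs <;> simp
  · simp [h]

/-- distinct points: the masses add up to at most `U n`. -/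
lemma sum_a_le_U (n : ℕ) (s : Finset G) : ∑ x ∈ s, a Λ ht dsp n x ≤ U Λ ht n := by
  classical
  simp only [a, U]
  rw [← Summable.tsum_finsetSum (fun _ _ => ENNReal.summable)]
  refine ENNReal.tsum_le_tsum fun L => ?_
  by_cases h : HT ht L = n
  · simp only [h, true_and, if_true]
    rw [Finset.sum_ite_eq s ((L.map dsp).sum) (fun _ => LW Λ L)]
    split_ifs <;> simp
  · simp [h]

/-- first letter decomposition -/
lemma a_succ (h1 : ∀ b, 1 ≤ ht b) (n : ℕ) (hn : 1 ≤ n) (x : G) :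
    a Λ ht dsp n x = ∑' b, if ht b ≤ n then Λ b * a Λ ht dsp (n - ht b) (x - dsp b) else 0 := by
  classical
  rw [a, tsum_list]
  have e0 : (if HT ht ([] : List B) = n ∧ (([] : List B).map dsp).sum = x then LW Λ ([] : List B)
      else 0) = 0 := by
    rw [if_neg]
    rintro ⟨h, -⟩
    rw [HT_nil] at h
    omega
  rw [e0, zero_add]
  refine tsum_congr fun b => ?_
  by_cases hb : ht b ≤ n
  · rw [if_pos hb, a, ← ENNReal.tsum_mul_left]
    refine tsum_congr fun L => ?_
    have e1 : (HT ht (b :: L) = n ∧ ((b :: L).map dsp).sum = x)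
        ↔ (HT ht L = n - ht b ∧ (L.map dsp).sum = x - dsp b) := by
      rw [HT_cons, List.map_cons, List.sum_cons, eq_sub_iff_add_eq, add_comm (dsp b)]
      constructor
      · rintro ⟨h, h'⟩; exact ⟨by omega, h'⟩
      · rintro ⟨h, h'⟩; exact ⟨by omega, h'⟩
    by_cases hc : HT ht (b :: L) = n ∧ ((b :: L).map dsp).sum = x
    · rw [if_pos hc, if_pos (e1.1 hc), LW_cons]
    · rw [if_neg hc, if_neg (fun h => hc (e1.2 h)), mul_zero]
  · rw [if_neg hb]
    rw [ENNReal.tsum_eq_zero]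
    intro L
    rw [if_neg]
    rintro ⟨h, -⟩
    rw [HT_cons] at h
    omega


/-- mass of the letters different from `b1`, `b2`. -/
noncomputable def q (b1 b2 : B) : ℝ≥0∞ := by
  classical exact ∑' b, if b = b1 ∨ b = b2 then 0 else Λ b

lemma q_add (hΛ : ∑' b, Λ b = 1) {b1 b2 : B} (hne : b1 ≠ b2) :
    Λ b1 + Λ b2 + q Λ b1 b2 = 1 := by
  classical
  have e1 : ∑' b, (if b = b1 then Λ b else 0) = Λ b1 := by
    rw [tsum_eq_single b1]
    · simp
    · intro b hb; simp [hb]
  have e2 : ∑' b, (if b = b2 then Λ b else 0) = Λ b2 := by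
    rw [tsum_eq_single b2]
    · simp
    · intro b hb; simp [hb]
  unfold q
  rw [← hΛ, ← e1, ← e2, ← ENNReal.tsum_add, ← ENNReal.tsum_add]
  refine tsum_congr fun b => ?_
  by_cases h1 : b = b1
  · subst h1; simp [hne]
  · by_cases h2 : b = b2
    · subst h2; simp [h1]
    · simp [h1, h2]

lemma U_le_one (h1 : ∀ b, 1 ≤ ht b) (hΛ : ∑' b, Λ b = 1) (n : ℕ) : U Λ ht n ≤ 1 := by
  have h := renewal_one Λ ht h1 hΛ n
  have ht0 : tail Λ ht 0 = 1 := by
    rw [← hΛ, tail]
    refine tsum_congr fun b => ?_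
    rw [if_pos (by have := h1 b; omega)]
  calc U Λ ht n = U Λ ht (n - 0) * tail Λ ht 0 := by rw [ht0, mul_one, Nat.sub_zero]
    _ ≤ ∑ k ∈ Finset.range (n + 1), U Λ ht (n - k) * tail Λ ht k :=
        Finset.single_le_sum (f := fun k => U Λ ht (n - k) * tail Λ ht k)
          (fun _ _ => zero_le) (Finset.mem_range.2 (Nat.succ_pos n))
    _ = 1 := h

lemma step_enn (h1 : ∀ b, 1 ≤ ht b) (hΛ : ∑' b, Λ b = 1) {b1 b2 : B} (hne : b1 ≠ b2)
    (hb : ht b2 = ht b1) (N0 : ℕ) (M : ℝ≥0∞) (hM : ∀ k, N0 ≤ k → ∀ x, a Λ ht dsp k x ≤ M)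
    (n : ℕ) (hn : N0 + ht b1 ≤ n) (x : G) :
    a Λ ht dsp n x ≤ Λ b1 * a Λ ht dsp (n - ht b1) (x - dsp b1)
      + Λ b2 * a Λ ht dsp (n - ht b1) (x - dsp b2) + q Λ b1 b2 * M + tail Λ ht (n - N0) := by
  classical
  have hn1 : 1 ≤ n := by have := h1 b1; omega
  have e1 : ∑' b, (if b = b1 then Λ b1 * a Λ ht dsp (n - ht b1) (x - dsp b1) else 0)
      = Λ b1 * a Λ ht dsp (n - ht b1) (x - dsp b1) := by
    rw [tsum_eq_single b1]
    · simp
    · intro b hb; simp [hb]
  have e2 : ∑' b, (if b = b2 then Λ b2 * a Λ ht dsp (n - ht b1) (x - dsp b2) else 0)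
      = Λ b2 * a Λ ht dsp (n - ht b1) (x - dsp b2) := by
    rw [tsum_eq_single b2]
    · simp
    · intro b hb; simp [hb]
  have e3 : ∑' b, (if b = b1 ∨ b = b2 then 0 else Λ b) * M = q Λ b1 b2 * M := by
    rw [ENNReal.tsum_mul_right]; rfl
  rw [a_succ Λ ht dsp h1 n hn1 x, ← e1, ← e2, ← e3, tail, ← ENNReal.tsum_add, ← ENNReal.tsum_add,
    ← ENNReal.tsum_add]
  refine ENNReal.tsum_le_tsum fun b => ?_
  by_cases hbn : ht b ≤ n
  · rw [if_pos hbn]
    by_cases hc1 : b = b1
    · subst hc1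
      rw [if_pos rfl]
      exact le_add_right (le_add_right (le_add_right le_rfl))
    · by_cases hc2 : b = b2
      · subst hc2
        rw [if_neg hc1, if_pos rfl, hb, zero_add]
        exact le_add_right (le_add_right le_rfl)
      · rw [if_neg hc1, if_neg hc2, if_neg (by tauto), zero_add, zero_add]
        by_cases ht' : n - N0 < ht b
        · rw [if_pos ht']
          refine le_add_left ?_
          calc Λ b * a Λ ht dsp (n - ht b) (x - dsp b) ≤ Λ b * 1 :=
                mul_le_mul_right ((a_le_U Λ ht dsp _ _).trans (U_le_one Λ ht h1 hΛ _)) _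
            _ = Λ b := mul_one _
        · refine le_add_right ?_
          exact mul_le_mul_right (hM _ (by omega) _) _
  · rw [if_neg hbn]; exact zero_le

lemma tail_small (hΛ : ∑' b, Λ b = 1) (η : ℝ≥0∞) (hη : η ≠ 0) :
    ∃ N, ∀ k, N ≤ k → tail Λ ht k ≤ η := by
  classical
  have h := ENNReal.tendsto_tsum_compl_atTop_zero (f := Λ) (by rw [hΛ]; exact ENNReal.one_ne_top)
  have h2 := (ENNReal.tendsto_nhds_zero.1 h) η (pos_iff_ne_zero.2 hη)
  obtain ⟨s, hs⟩ := h2.exists
  refine ⟨s.sup ht, fun k hk => ?_⟩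
  refine le_trans ?_ hs
  rw [tail]
  have e : ∑' b : {x // x ∉ s}, Λ b = ∑' b, (if b ∉ s then Λ b else 0) := by
    refine (tsum_subtype {x | x ∉ s} Λ).trans ?_
    refine tsum_congr fun b => ?_
    by_cases hb : b ∈ s <;> simp [Set.indicator, hb]
  rw [e]
  refine ENNReal.tsum_le_tsum fun b => ?_
  by_cases hb : b ∈ s
  · rw [if_neg]
    · exact zero_le
    · have := Finset.le_sup (f := ht) hb
      omega
  · rw [if_pos hb]
    split_ifs <;> simp


lemma stepR (h1 : ∀ b, 1 ≤ ht b) (hΛ : ∑' b, Λ b = 1) {b1 b2 : B} (hne : b1 ≠ b2)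
    (hb : ht b2 = ht b1) (N0 : ℕ) (M η : ℝ) (hM0 : 0 ≤ M) (hη : 0 ≤ η)
    (hM : ∀ k, N0 ≤ k → ∀ x, (a Λ ht dsp k x).toReal ≤ M)
    (n : ℕ) (hn : N0 + ht b1 ≤ n) (hT : tail Λ ht (n - N0) ≤ ENNReal.ofReal η) (x : G) :
    (a Λ ht dsp n x).toReal ≤ (Λ b1).toReal * (a Λ ht dsp (n - ht b1) (x - dsp b1)).toReal
      + (Λ b2).toReal * (a Λ ht dsp (n - ht b1) (x - dsp b2)).toReal
      + (q Λ b1 b2).toReal * M + η := by
  have hfin : ∀ k x, a Λ ht dsp k x ≠ ⊤ := fun k x =>
    ne_top_of_le_ne_top ENNReal.one_ne_top ((a_le_U Λ ht dsp k x).trans (U_le_one Λ ht h1 hΛ k))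
  have hq := q_add Λ hΛ hne
  have f1 : Λ b1 ≠ ⊤ := by
    intro h; rw [h] at hq; simp at hq
  have f2 : Λ b2 ≠ ⊤ := by
    intro h; rw [h] at hq; simp at hq
  have f3 : q Λ b1 b2 ≠ ⊤ := by
    intro h; rw [h] at hq; simp at hq
  have hM' : ∀ k, N0 ≤ k → ∀ x, a Λ ht dsp k x ≤ ENNReal.ofReal M := fun k hk x =>
    (ENNReal.le_ofReal_iff_toReal_le (hfin k x) hM0).2 (hM k hk x)
  have h := step_enn Λ ht dsp h1 hΛ hne hb N0 _ hM' n hn x
  refine ENNReal.toReal_le_of_le_ofReal (by positivity) (h.trans ?_)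
  rw [ENNReal.ofReal_add (by positivity) hη, ENNReal.ofReal_add (by positivity) (by positivity),
    ENNReal.ofReal_add (by positivity) (by positivity), ENNReal.ofReal_mul (by positivity),
    ENNReal.ofReal_mul (by positivity), ENNReal.ofReal_mul (by positivity),
    ENNReal.ofReal_toReal f1, ENNReal.ofReal_toReal f2, ENNReal.ofReal_toReal f3,
    ENNReal.ofReal_toReal (hfin _ _), ENNReal.ofReal_toReal (hfin _ _)]
  exact add_le_add le_rfl hT

lemma iter (h1 : ∀ b, 1 ≤ ht b) (hΛ : ∑' b, Λ b = 1) {b1 b2 : B} (hne : b1 ≠ b2)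
    (hb : ht b2 = ht b1) (D : G) (hD : dsp b2 = dsp b1 + D) (lam : ℝ) (hlam : 0 < lam)
    (hl1 : lam ≤ (Λ b1).toReal) (hl2 : lam ≤ (Λ b2).toReal)
    (N0 N1 r : ℕ) (m η : ℝ) (hm : 0 ≤ m) (hη : 0 < η)
    (hM : ∀ k, N0 ≤ k → ∀ x, (a Λ ht dsp k x).toReal ≤ m + η)
    (hT : ∀ k, N1 ≤ k → tail Λ ht k ≤ ENNReal.ofReal η)
    (n : ℕ) (hn : N0 + N1 + (r + 1) * ht b1 ≤ n) (x : G)
    (hx : m - η ≤ (a Λ ht dsp n x).toReal) :
    ∀ i, i ≤ r → ∀ j, j ≤ i →
      m - η * (3 / lam) ^ i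
        ≤ (a Λ ht dsp (n - i * ht b1) (x - i • dsp b1 - j • D)).toReal := by
  have hq := q_add Λ hΛ hne
  have f1 : Λ b1 ≠ ⊤ := by
    intro h; rw [h] at hq; simp at hq
  have f2 : Λ b2 ≠ ⊤ := by
    intro h; rw [h] at hq; simp at hq
  have f3 : q Λ b1 b2 ≠ ⊤ := by
    intro h; rw [h] at hq; simp at hq
  have hqR : (Λ b1).toReal + (Λ b2).toReal + (q Λ b1 b2).toReal = 1 := by
    rw [← ENNReal.toReal_add f1 f2, ← ENNReal.toReal_add (by simp [f1, f2]) f3, hq]
    simp
  have hq0 : 0 ≤ (q Λ b1 b2).toReal := ENNReal.toReal_nonneg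
  have hlam1 : lam ≤ 1 := by linarith
  have h3 : 1 ≤ 3 / lam := by
    rw [le_div_iff₀ hlam]; linarith
  intro i
  induction i with
  | zero =>
    intro _ j hj
    obtain rfl : j = 0 := by omega
    simpa using hx
  | succ i ih =>
    intro hi j hj
    have ih' := ih (by omega)
    have hpow : η ≤ η * (3 / lam) ^ i := le_mul_of_one_le_right hη.le (one_le_pow₀ h3)
    have hnn : N0 + ht b1 ≤ n - i * ht b1 := by
      have : (i + 1) * ht b1 ≤ (r + 1) * ht b1 := Nat.mul_le_mul_right _ (by omega)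
      have e : (i + 1) * ht b1 = i * ht b1 + ht b1 := by ring
      omega
    have hnT : N1 ≤ n - i * ht b1 - N0 := by
      have : i * ht b1 ≤ (r + 1) * ht b1 := Nat.mul_le_mul_right _ (by omega)
      omega
    have esub : n - (i + 1) * ht b1 = n - i * ht b1 - ht b1 := by
      rw [Nat.sub_sub]; congr 1; ring
    have hN0' : N0 ≤ n - i * ht b1 - ht b1 := by omega
    have key : ∀ y : G, m - η * (3 / lam) ^ i ≤ (a Λ ht dsp (n - i * ht b1) y).toReal →
        m - η * (3 / lam) ^ (i + 1) ≤ (a Λ ht dsp (n - i * ht b1 - ht b1) (y - dsp b1)).toReal ∧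
        m - η * (3 / lam) ^ (i + 1)
          ≤ (a Λ ht dsp (n - i * ht b1 - ht b1) (y - dsp b2)).toReal := by
      intro y hy
      have hs := stepR Λ ht dsp h1 hΛ hne hb N0 (m + η) η (by linarith) hη.le hM
        (n - i * ht b1) hnn (hT _ hnT) y
      have hA1 := hM _ hN0' (y - dsp b1)
      have hA2 := hM _ hN0' (y - dsp b2)
      set A1 := (a Λ ht dsp (n - i * ht b1 - ht b1) (y - dsp b1)).toReal with hA1d
      set A2 := (a Λ ht dsp (n - i * ht b1 - ht b1) (y - dsp b2)).toReal with hA2d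
      set p1 := (Λ b1).toReal
      set p2 := (Λ b2).toReal
      set qq := (q Λ b1 b2).toReal
      set δ := η * (3 / lam) ^ i with hδ
      have hδ1 : η * (3 / lam) ^ (i + 1) = 3 * δ / lam := by
        rw [hδ, pow_succ]; ring
      have hp1 : 0 < p1 := lt_of_lt_of_le hlam hl1
      have hp2 : 0 < p2 := lt_of_lt_of_le hlam hl2
      have hδ0 : 0 < δ := lt_of_lt_of_le hη hpow
      have c1 : p1 * (m - A1) ≤ 3 * δ := by
        have : p2 * A2 ≤ p2 * (m + η) := mul_le_mul_of_nonneg_left hA2 hp2.le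
        have e : p1 = 1 - p2 - qq := by linarith
        have : (p2 + qq) * η ≤ 1 * η := mul_le_mul_of_nonneg_right (by linarith) hη.le
        nlinarith
      have c2 : p2 * (m - A2) ≤ 3 * δ := by
        have : p1 * A1 ≤ p1 * (m + η) := mul_le_mul_of_nonneg_left hA1 hp1.le
        have e : p2 = 1 - p1 - qq := by linarith
        have : (p1 + qq) * η ≤ 1 * η := mul_le_mul_of_nonneg_right (by linarith) hη.le
        nlinarith
      rw [hδ1]
      constructor
      · by_contra hcon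
        push Not at hcon
        have h4 : 3 * δ / lam < m - A1 := by linarith
        have h5 : 3 * δ < lam * (m - A1) := by
          rw [div_lt_iff₀ hlam] at h4; linarith
        have h6 : 0 < m - A1 := lt_of_le_of_lt (by positivity) h4
        have h7 : lam * (m - A1) ≤ p1 * (m - A1) := mul_le_mul_of_nonneg_right hl1 h6.le
        linarith
      · by_contra hcon
        push Not at hcon
        have h4 : 3 * δ / lam < m - A2 := by linarith
        have h5 : 3 * δ < lam * (m - A2) := by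
          rw [div_lt_iff₀ hlam] at h4; linarith
        have h6 : 0 < m - A2 := lt_of_le_of_lt (by positivity) h4
        have h7 : lam * (m - A2) ≤ p2 * (m - A2) := mul_le_mul_of_nonneg_right hl2 h6.le
        linarith
    rw [esub]
    by_cases hji : j ≤ i
    · have h := (key _ (ih' j hji)).1
      have e : x - i • dsp b1 - j • D - dsp b1 = x - (i + 1) • dsp b1 - j • D := by
        rw [succ_nsmul]; abel
      rwa [e] at h
    · obtain rfl : j = i + 1 := by omega
      have h := (key _ (ih' i le_rfl)).2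
      have e : x - i • dsp b1 - i • D - dsp b2 = x - (i + 1) • dsp b1 - (i + 1) • D := by
        rw [succ_nsmul, succ_nsmul, hD]; abel
      rwa [e] at h

/-- **concentration**: the weight of the lists of height `n` with displacement `x` tends to `0`
uniformly in `x`. -/
theorem concA (h1 : ∀ b, 1 ≤ ht b) (hΛ : ∑' b, Λ b = 1) {b1 b2 : B} (hb : ht b1 = ht b2)
    (hΛ1 : Λ b1 ≠ 0) (hΛ2 : Λ b2 ≠ 0)
    (htor : ∀ k : ℕ, k ≠ 0 → k • (dsp b2 - dsp b1) ≠ 0) (ε : ℝ≥0∞) (hε : ε ≠ 0) :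
    ∃ N, ∀ n, N ≤ n → ∀ x, a Λ ht dsp n x ≤ ε := by
  classical
  have hne : b1 ≠ b2 := by
    rintro rfl
    exact htor 1 one_ne_zero (by simp)
  have hfin : ∀ k x, a Λ ht dsp k x ≠ ⊤ := fun k x =>
    ne_top_of_le_ne_top ENNReal.one_ne_top ((a_le_U Λ ht dsp k x).trans (U_le_one Λ ht h1 hΛ k))
  have hle1 : ∀ k x, (a Λ ht dsp k x).toReal ≤ 1 := fun k x => by
    have := ENNReal.toReal_mono ENNReal.one_ne_top
      ((a_le_U Λ ht dsp k x).trans (U_le_one Λ ht h1 hΛ k))
    simpa using this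
  have hq := q_add Λ hΛ hne
  have f1 : Λ b1 ≠ ⊤ := by
    intro h; rw [h] at hq; simp at hq
  have f2 : Λ b2 ≠ ⊤ := by
    intro h; rw [h] at hq; simp at hq
  set S : Set ℝ := {c | 0 ≤ c ∧ ∃ N, ∀ n, N ≤ n → ∀ x, (a Λ ht dsp n x).toReal ≤ c} with hS
  have hS1 : (1 : ℝ) ∈ S := ⟨zero_le_one, 0, fun n _ x => hle1 n x⟩
  have hSb : BddBelow S := ⟨0, fun c hc => hc.1⟩
  set m := sInf S with hm
  have hm0 : 0 ≤ m := le_csInf ⟨1, hS1⟩ fun c hc => hc.1
  have hmz : m = 0 := by
    by_contra hmne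
    have hmp : 0 < m := lt_of_le_of_ne hm0 (Ne.symm hmne)
    obtain ⟨r, hr⟩ := exists_nat_gt (4 / m)
    have hr4 : 4 < m * (r : ℝ) := by
      rw [div_lt_iff₀ hmp] at hr; linarith
    set D := dsp b2 - dsp b1 with hD
    set lam := min (Λ b1).toReal (Λ b2).toReal with hlam
    have hlam0 : 0 < lam := lt_min (ENNReal.toReal_pos hΛ1 f1) (ENNReal.toReal_pos hΛ2 f2)
    have hP : 0 < (3 / lam) ^ r := by positivity
    set η := (m / 2) / (1 + (3 / lam) ^ r) with hη
    have hη0 : 0 < η := by positivity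
    have hη1 : η * (3 / lam) ^ r ≤ m / 2 := by
      rw [hη, div_mul_eq_mul_div, div_le_iff₀ (by positivity)]
      nlinarith
    have hη2 : η ≤ m / 2 := by
      rw [hη, div_le_iff₀ (by positivity)]
      nlinarith
    obtain ⟨c, hcS, hcm⟩ := exists_lt_of_csInf_lt ⟨1, hS1⟩ (show sInf S < m + η by linarith)
    obtain ⟨-, N0, hN0⟩ := hcS
    have hM : ∀ k, N0 ≤ k → ∀ x, (a Λ ht dsp k x).toReal ≤ m + η :=
      fun k hk x => (hN0 k hk x).trans hcm.le
    obtain ⟨N1, hN1⟩ := tail_small Λ ht hΛ (ENNReal.ofReal η) (by simpa using hη0)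
    have hnot : m - η ∉ S := fun h => by
      have := csInf_le hSb h
      linarith
    have hnot' : ¬ ∃ N, ∀ n, N ≤ n → ∀ x, (a Λ ht dsp n x).toReal ≤ m - η :=
      fun h => hnot ⟨by linarith, h⟩
    push Not at hnot'
    obtain ⟨n, hn, x, hx⟩ := hnot' (N0 + N1 + (r + 1) * ht b1)
    have hit := iter Λ ht dsp h1 hΛ hne hb.symm D (by rw [hD]; abel) lam hlam0
      (min_le_left _ _) (min_le_right _ _) N0 N1 r m η hm0 hη0 hM hN1 n hn x hx.le r le_rfl
    have hinj : Function.Injective fun j : ℕ => x - r • dsp b1 - j • D := by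
      intro j j' hjj
      have e : j • D = j' • D := sub_right_injective hjj
      by_contra hne'
      rcases lt_or_gt_of_ne hne' with hlt | hlt
      · refine htor (j' - j) (by omega) ?_
        have : j' • D = (j' - j) • D + j • D := by rw [← add_nsmul]; congr 1; omega
        rw [e] at this
        exact add_eq_right.1 this.symm
      · refine htor (j - j') (by omega) ?_
        have : j • D = (j - j') • D + j' • D := by rw [← add_nsmul]; congr 1; omega
        rw [e] at this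
        exact add_eq_right.1 this.symm
    have hsum := sum_a_le_U Λ ht dsp (n - r * ht b1)
      ((Finset.range (r + 1)).image fun j : ℕ => x - r • dsp b1 - j • D)
    rw [Finset.sum_image (fun _ _ _ _ h => hinj h)] at hsum
    have hsum1 := hsum.trans (U_le_one Λ ht h1 hΛ _)
    have hsumR := ENNReal.toReal_mono ENNReal.one_ne_top hsum1
    rw [ENNReal.toReal_sum (fun j _ => hfin _ _)] at hsumR
    have hlow : ∑ j ∈ Finset.range (r + 1), (m / 2)
        ≤ ∑ j ∈ Finset.range (r + 1),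
          (a Λ ht dsp (n - r * ht b1) (x - r • dsp b1 - j • D)).toReal := by
      refine Finset.sum_le_sum fun j hj => ?_
      have := hit j (by have := Finset.mem_range.1 hj; omega)
      linarith
    rw [Finset.sum_const, Finset.card_range, nsmul_eq_mul] at hlow
    push_cast at hlow
    simp only [ENNReal.toReal_one] at hsumR
    nlinarith
  have hεp : 0 < min ε 1 := lt_min (pos_iff_ne_zero.2 hε) one_pos
  have hεR : 0 < (min ε 1).toReal :=
    ENNReal.toReal_pos hεp.ne' (ne_top_of_le_ne_top ENNReal.one_ne_top (min_le_right _ _))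
  obtain ⟨c, hcS, hcm⟩ := exists_lt_of_csInf_lt ⟨1, hS1⟩
    (show sInf S < (min ε 1).toReal by rw [← hm, hmz]; exact hεR)
  obtain ⟨hc0, N, hN⟩ := hcS
  refine ⟨N, fun n hn x => ?_⟩
  have h2 : (a Λ ht dsp n x).toReal ≤ (min ε 1).toReal := (hN n hn x).trans hcm.le
  have h3 := (ENNReal.toReal_le_toReal (hfin n x)
    (ne_top_of_le_ne_top ENNReal.one_ne_top (min_le_right _ _))).1 h2
  exact h3.trans (min_le_left _ _)

open Classical in
/-- helper926's literal. -/
theorem conc (h1 : ∀ b, 1 ≤ ht b) (hΛ : ∑' b, Λ b = 1) {b1 b2 : B} (hb : ht b1 = ht b2)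
    (hΛ1 : Λ b1 ≠ 0) (hΛ2 : Λ b2 ≠ 0)
    (htor : ∀ k : ℕ, k ≠ 0 → k • (dsp b2 - dsp b1) ≠ 0) :
    ∀ ε : ℝ≥0∞, ε ≠ 0 → ∃ N, ∀ n, N ≤ n → ∀ x,
      ∑' L : List B, (if HT ht L = n ∧ (L.map dsp).sum = x then LW Λ L else 0) ≤ ε := by
  intro ε hε
  obtain ⟨N, hN⟩ := concA Λ ht dsp h1 hΛ hb hΛ1 hΛ2 htor ε hε
  refine ⟨N, fun n hn x => ?_⟩
  have := hN n hn x
  unfold a at this
  convert this

end Crest.Agent.R154.Conc556
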