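import Mathlib

/-! Row 154 (helper611), leaf (5) of road 801: concentration of a random walk on a commutative group
(additive), Mathlib only: `sup_z f_N z -> 0`, and the slab inequality. -/

set_option autoImplicit false

namespace Crest.Agent.R154.Conc611

open scoped ENNReal
open Filter Topology

variable {G : Type*} [AddCommGroup G]

section

variable (p : G → ℝ≥0∞) (f : ℕ → G → ℝ≥0∞)

lemma tsum_step (hp : ∑' y, p y ≤ 1) (hf : ∀ N z, f (N + 1) z = ∑' y, p y * f N (z - y))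
    (N : ℕ) : ∑' z, f (N + 1) z ≤ ∑' z, f N z := by
  calc ∑' z, f (N + 1) z = ∑' z, ∑' y, p y * f N (z - y) := by simp_rw [hf]
    _ = ∑' y, ∑' z, p y * f N (z - y) := ENNReal.tsum_comm
    _ = ∑' y, p y * ∑' z, f N z := by
        refine tsum_congr fun y => ?_
        rw [ENNReal.tsum_mul_left]
        congr 1
        exact (Equiv.subRight y).tsum_eq (f N)
    _ = (∑' y, p y) * ∑' z, f N z := ENNReal.tsum_mul_right
    _ ≤ 1 * ∑' z, f N z := mul_le_mul_left hp _
    _ = _ := one_mul _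

lemma tsum_le (hp : ∑' y, p y ≤ 1) (h0 : ∑' z, f 0 z ≤ 1)
    (hf : ∀ N z, f (N + 1) z = ∑' y, p y * f N (z - y)) (N : ℕ) : ∑' z, f N z ≤ 1 := by
  induction N with
  | zero => exact h0
  | succ N ih => exact (tsum_step p f hp hf N).trans ih

lemma sup_step (hp : ∑' y, p y ≤ 1) (hf : ∀ N z, f (N + 1) z = ∑' y, p y * f N (z - y))
    (N : ℕ) : ⨆ z, f (N + 1) z ≤ ⨆ z, f N z := by
  refine iSup_le fun z => ?_
  rw [hf]
  calc ∑' y, p y * f N (z - y) ≤ ∑' y, p y * ⨆ z, f N z :=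
        ENNReal.tsum_le_tsum fun y => mul_le_mul_right (le_iSup (f N) _) _
    _ = (∑' y, p y) * ⨆ z, f N z := ENNReal.tsum_mul_right
    _ ≤ 1 * ⨆ z, f N z := mul_le_mul_left hp _
    _ = _ := one_mul _

lemma sup_anti (hp : ∑' y, p y ≤ 1) (hf : ∀ N z, f (N + 1) z = ∑' y, p y * f N (z - y)) :
    Antitone fun N => ⨆ z, f N z := antitone_nat_of_succ_le fun N => sup_step p f hp hf N

/-- one step of the descent -/
lemma near (hp : ∑' y, p y ≤ 1) (hf : ∀ N z, f (N + 1) z = ∑' y, p y * f N (z - y))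
    {q δ c : ℝ≥0∞} (hq : q ≠ ⊤) (hc : c ≠ 0) {N : ℕ} {z y0 : G}
    (hM : ∀ z, f N z ≤ q + δ) (hy : c ≤ p y0) (hz : q ≤ f (N + 1) z + δ) :
    q ≤ f N (z - y0) + 2 / c * δ := by
  classical
  by_cases hδ : δ = ⊤
  · rw [hδ, ENNReal.mul_top (by
      rw [Ne, ENNReal.div_eq_zero_iff, not_or]
      refine ⟨by norm_num, ?_⟩
      exact ne_top_of_le_ne_top ENNReal.one_ne_top
        (hy.trans ((ENNReal.le_tsum y0).trans hp)))]
    simp
  have hp0 : p y0 ≤ 1 := (ENNReal.le_tsum y0).trans hp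
  have hptop : p y0 ≠ ⊤ := ne_top_of_le_ne_top ENNReal.one_ne_top hp0
  have hpne : p y0 ≠ 0 := fun h => hc (le_antisymm (h ▸ hy) zero_le)
  set r := ∑' y, (if y = y0 then 0 else p y) with hr
  have hsum : p y0 + r = ∑' y, p y := (ENNReal.tsum_eq_add_tsum_ite (f := p) y0).symm
  have h1 : f (N + 1) z ≤ p y0 * f N (z - y0) + r * (q + δ) := by
    rw [hf, ENNReal.tsum_eq_add_tsum_ite y0]
    refine add_le_add le_rfl ?_
    rw [hr, ← ENNReal.tsum_mul_right]
    refine ENNReal.tsum_le_tsum fun y => ?_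
    by_cases h : y = y0
    · simp [h]
    · simp only [h, if_false]
      exact mul_le_mul_right (hM _) _
  have h2 : q + p y0 * (q + δ) ≤ q + (p y0 * f N (z - y0) + 2 * δ) := by
    calc q + p y0 * (q + δ) ≤ (f (N + 1) z + δ) + p y0 * (q + δ) := add_le_add hz le_rfl
      _ ≤ (p y0 * f N (z - y0) + r * (q + δ) + δ) + p y0 * (q + δ) :=
          add_le_add (add_le_add h1 le_rfl) le_rfl
      _ = p y0 * f N (z - y0) + δ + (p y0 + r) * (q + δ) := by ring
      _ ≤ p y0 * f N (z - y0) + δ + 1 * (q + δ) :=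
          add_le_add le_rfl (mul_le_mul_left (hsum ▸ hp) _)
      _ = _ := by ring
  have h3 : p y0 * (q + δ) ≤ p y0 * f N (z - y0) + 2 * δ :=
    (ENNReal.add_le_add_iff_left hq).1 h2
  have h4 : p y0 * q ≤ p y0 * f N (z - y0) + 2 * δ :=
    (mul_le_mul_right le_self_add _).trans h3
  calc q = (p y0)⁻¹ * (p y0 * q) := by
        rw [← mul_assoc, ENNReal.inv_mul_cancel hpne hptop, one_mul]
    _ ≤ (p y0)⁻¹ * (p y0 * f N (z - y0) + 2 * δ) := mul_le_mul_right h4 _
    _ = f N (z - y0) + 2 * (p y0)⁻¹ * δ := by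
        rw [mul_add, ← mul_assoc, ENNReal.inv_mul_cancel hpne hptop, one_mul]; ring
    _ ≤ f N (z - y0) + 2 / c * δ := by
        refine add_le_add le_rfl (mul_le_mul_left ?_ _)
        rw [div_eq_mul_inv]
        exact mul_le_mul_right (ENNReal.inv_le_inv.2 hy) _

/-- L steps of the descent -/
lemma near_iter (hp : ∑' y, p y ≤ 1) (hf : ∀ N z, f (N + 1) z = ∑' y, p y * f N (z - y))
    {q δ c : ℝ≥0∞} (hq : q ≠ ⊤) (hc : c ≠ 0) (hc1 : c ≤ 1) {y1 y2 : G}
    (hy1 : c ≤ p y1) (hy2 : c ≤ p y2) (N : ℕ) (hM : ∀ k z, N ≤ k → f k z ≤ q + δ) :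
    ∀ L : ℕ, ∀ z, q ≤ f (N + L) z + δ → ∀ j ≤ L, ∀ i ≤ j,
      q ≤ f (N + L - j) (z - (i • y1 + (j - i) • y2)) + (2 / c) ^ j * δ := by
  intro L z hz j
  have h2c : (1 : ℝ≥0∞) ≤ 2 / c := by
    rw [ENNReal.le_div_iff_mul_le (Or.inl hc) (Or.inl (ne_top_of_le_ne_top ENNReal.one_ne_top hc1)),
      one_mul]
    exact hc1.trans (by norm_num)
  induction j with
  | zero =>
    intro _ i hi
    have : i = 0 := by omega
    subst this
    simpa using hz
  | succ j ih =>
    intro hj i hi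
    have hδ : δ ≤ (2 / c) ^ j * δ := le_mul_of_one_le_left zero_le (one_le_pow₀ h2c)
    have hN : N + L - j = (N + L - (j + 1)) + 1 := by omega
    have hM' : ∀ z, f (N + L - (j + 1)) z ≤ q + (2 / c) ^ j * δ := fun z =>
      (hM _ z (by omega)).trans (add_le_add le_rfl hδ)
    by_cases h : i ≤ j
    · have h1 := ih (by omega) i h
      rw [hN] at h1
      have h2 := near p f hp hf hq hc hM' hy2 h1
      rw [pow_succ, mul_comm ((2 / c) ^ j), mul_assoc]
      have e : z - (i • y1 + (j - i) • y2) - y2 = z - (i • y1 + (j + 1 - i) • y2) := by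
        rw [show j + 1 - i = (j - i) + 1 by omega, add_smul, one_smul]; abel
      rw [e] at h2
      exact h2
    · have hi' : i = j + 1 := by omega
      subst hi'
      have h1 := ih (by omega) j le_rfl
      rw [hN] at h1
      have h2 := near p f hp hf hq hc hM' hy1 h1
      rw [pow_succ, mul_comm ((2 / c) ^ j), mul_assoc]
      have e : z - (j • y1 + (j - j) • y2) - y1 = z - ((j + 1) • y1 + (j + 1 - (j + 1)) • y2) := by
        simp only [Nat.sub_self, zero_smul, add_zero, add_smul, one_smul]; abel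
      rw [e] at h2
      exact h2

/-- **Concentration tends to zero.** -/
theorem conc (hp : ∑' y, p y ≤ 1) (h0 : ∑' z, f 0 z ≤ 1)
    (hf : ∀ N z, f (N + 1) z = ∑' y, p y * f N (z - y)) {y1 y2 : G}
    (hy1 : p y1 ≠ 0) (hy2 : p y2 ≠ 0) (hord : ∀ n : ℕ, n ≠ 0 → n • (y1 - y2) ≠ 0) :
    Tendsto (fun N => ⨆ z, f N z) atTop (𝓝 0) := by
  classical
  have hanti := sup_anti p f hp hf
  have hlim := tendsto_atTop_iInf hanti
  set q := ⨅ N, ⨆ z, f N z with hqdef
  suffices hq0 : q = 0 by rw [hq0] at hlim; exact hlim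
  by_contra hq0
  have hle1 : ∀ N z, f N z ≤ 1 := fun N z => (ENNReal.le_tsum z).trans (tsum_le p f hp h0 hf N)
  have hq1 : q ≤ 1 := (iInf_le _ 0).trans (iSup_le fun z => hle1 0 z)
  have hqt : q ≠ ⊤ := ne_top_of_le_ne_top ENNReal.one_ne_top hq1
  set c := min (p y1) (p y2) with hc
  have hc0 : c ≠ 0 := by
    rw [hc]; rcases min_choice (p y1) (p y2) with h | h <;> rw [h] <;> assumption
  have hc1 : c ≤ 1 := (min_le_left _ _).trans ((ENNReal.le_tsum y1).trans hp)
  have hct : c ≠ ⊤ := ne_top_of_le_ne_top ENNReal.one_ne_top hc1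
  -- choose `L`
  obtain ⟨L, hL⟩ : ∃ L : ℕ, 2 < (L + 1 : ℕ) * q := by
    obtain ⟨L, hL⟩ := ENNReal.exists_nat_gt (ENNReal.div_ne_top (by norm_num) hq0 : 2 / q ≠ ⊤)
    refine ⟨L, ?_⟩
    have h1 : 2 / q < (L + 1 : ℕ) := hL.trans_le (by exact_mod_cast Nat.le_succ L)
    rwa [ENNReal.div_lt_iff (Or.inl hq0) (Or.inl hqt)] at h1
  set A : ℝ≥0∞ := (L + 1 : ℕ) * (2 / c) ^ L with hA
  have hAt : A ≠ ⊤ := by
    refine ENNReal.mul_ne_top (ENNReal.natCast_ne_top _) (ENNReal.pow_ne_top ?_)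
    exact ENNReal.div_ne_top (by norm_num) hc0
  have hA0 : A ≠ 0 := by
    rw [hA]
    refine mul_ne_zero (by exact_mod_cast Nat.succ_ne_zero L) (pow_ne_zero _ ?_)
    rw [Ne, ENNReal.div_eq_zero_iff, not_or]
    exact ⟨by norm_num, hct⟩
  set δ : ℝ≥0∞ := A⁻¹ with hδ
  have hδ0 : δ ≠ 0 := ENNReal.inv_ne_zero.2 hAt
  have hδt : δ ≠ ⊤ := ENNReal.inv_ne_top.2 hA0
  obtain ⟨N, hN⟩ : ∃ N, (⨆ z, f N z) < q + δ := by
    have : q < q + δ := ENNReal.lt_add_right hqt hδ0
    exact iInf_lt_iff.1 (hqdef ▸ this)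
  have hM : ∀ k z, N ≤ k → f k z ≤ q + δ := fun k z hk =>
    (le_iSup (f k) z).trans ((hanti hk).trans hN.le)
  -- a near maximal point at level `N + L`
  obtain ⟨z, hz⟩ : ∃ z, q ≤ f (N + L) z + δ := by
    by_contra hcon
    push Not at hcon
    have h1 : (⨆ z, f (N + L) z) + δ ≤ q := by
      rw [ENNReal.iSup_add]
      exact iSup_le fun z => (hcon z).le
    have h2 : q ≤ ⨆ z, f (N + L) z := iInf_le _ _
    have h3 : q + δ ≤ q := (add_le_add h2 le_rfl).trans h1
    exact absurd h3 (not_le.2 (ENNReal.lt_add_right hqt hδ0))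
  have hit := near_iter p f hp hf hqt hc0 hc1 (min_le_left _ _) (min_le_right _ _) N hM L z hz L
    le_rfl
  simp only [Nat.add_sub_cancel] at hit
  -- the points
  set pt : Fin (L + 1) → G := fun i => z - ((i : ℕ) • y1 + (L - (i : ℕ)) • y2) with hpt
  have hinj : Function.Injective pt := by
    intro i j hij
    simp only [hpt] at hij
    have h1 : (i : ℕ) • y1 + (L - (i : ℕ)) • y2 = (j : ℕ) • y1 + (L - (j : ℕ)) • y2 :=
      sub_right_injective hij
    have key : ∀ a b : ℕ, a ≤ L → b ≤ L → a ≤ b →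
        a • y1 + (L - a) • y2 = b • y1 + (L - b) • y2 → a = b := by
      intro a b ha hb hab h
      by_contra hne
      refine hord (b - a) (by omega) ?_
      have e1 : b • y1 = a • y1 + (b - a) • y1 := by rw [← add_smul]; congr 1; omega
      have e2 : (L - a) • y2 = (L - b) • y2 + (b - a) • y2 := by rw [← add_smul]; congr 1; omega
      rw [e1, e2] at h
      rw [smul_sub, sub_eq_zero]
      have h' : (a • y1 + (L - b) • y2) + (b - a) • y2 = (a • y1 + (L - b) • y2) + (b - a) • y1 := by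
        calc _ = a • y1 + ((L - b) • y2 + (b - a) • y2) := by abel
          _ = a • y1 + (b - a) • y1 + (L - b) • y2 := h
          _ = _ := by abel
      exact (add_left_cancel h').symm
    have hi := i.2
    have hj := j.2
    rcases le_total (i : ℕ) (j : ℕ) with h | h
    · exact Fin.ext (key _ _ (by omega) (by omega) h h1)
    · exact Fin.ext (key _ _ (by omega) (by omega) h h1.symm).symm
  have hsum : ∑ i : Fin (L + 1), f N (pt i) ≤ 1 := by
    calc ∑ i : Fin (L + 1), f N (pt i) = ∑' i, f N (pt i) := (tsum_fintype _).symm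
      _ ≤ ∑' z, f N z := ENNReal.tsum_comp_le_tsum_of_injective hinj _
      _ ≤ 1 := tsum_le p f hp h0 hf N
  have hbig : ((L + 1 : ℕ) : ℝ≥0∞) * q ≤ 1 + 1 := by
    calc ((L + 1 : ℕ) : ℝ≥0∞) * q = ∑ _i : Fin (L + 1), q := by simp
      _ ≤ ∑ i : Fin (L + 1), (f N (pt i) + (2 / c) ^ L * δ) :=
          Finset.sum_le_sum fun i _ => hit i (by have := i.2; omega)
      _ = ∑ i : Fin (L + 1), f N (pt i) + (L + 1 : ℕ) * ((2 / c) ^ L * δ) := by
          rw [Finset.sum_add_distrib]; simp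
      _ ≤ 1 + 1 := by
          refine add_le_add hsum ?_
          rw [← mul_assoc, ← hA, hδ]
          exact ENNReal.mul_inv_le_one A
  exact absurd (hL.trans_le hbig) (by norm_num)

end

/-- the slab inequality: two finite traces with relative position of density at most `D`. -/
lemma slab (μ : G → ℝ≥0∞) (D : ℝ≥0∞) (hD : ∀ z, μ z ≤ D) (V V' : Finset G) [DecidableEq G] :
    ∑' z, (if ∃ v ∈ V, ∃ v' ∈ V', v = v' + z then μ z else 0) ≤ V.card * V'.card * D := by
  classical
  set S : Finset G := (V ×ˢ V').image (fun t => t.1 - t.2) with hS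
  calc ∑' z, (if ∃ v ∈ V, ∃ v' ∈ V', v = v' + z then μ z else 0)
      ≤ ∑' z, (if z ∈ S then D else 0) := by
        refine ENNReal.tsum_le_tsum fun z => ?_
        by_cases h : ∃ v ∈ V, ∃ v' ∈ V', v = v' + z
        · obtain ⟨v, hv, v', hv', e⟩ := h
          have hz : z ∈ S := by
            rw [hS, Finset.mem_image]
            exact ⟨(v, v'), Finset.mem_product.2 ⟨hv, hv'⟩, by simp [e]⟩
          rw [if_pos ⟨v, hv, v', hv', e⟩, if_pos hz]
          exact hD z
        · rw [if_neg h]; exact zero_le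
    _ = ∑ z ∈ S, D := by
        rw [tsum_eq_sum (s := S)]
        · exact Finset.sum_congr rfl fun z hz => if_pos hz
        · intro z hz; exact if_neg hz
    _ = S.card * D := by simp
    _ ≤ (V.card * V'.card : ℕ) * D := by
        refine mul_le_mul_left ?_ _
        exact_mod_cast Finset.card_image_le.trans (Finset.card_product V V').le
    _ = _ := by push_cast; ring

end Crest.Agent.R154.Conc611
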