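import Crest.Agent.R154.B5Abs_566

/-! Row 154, ROAD 801, leaf (5) (helper865): point concentration of a renewal sequence with
displacements tends to `0` (soft proof: maximal values propagate to `k+1` distinct points). -/

set_option autoImplicit false

namespace Crest.Agent.R154.Conc865

open scoped ENNReal
open Crest.Agent.R154.B5A

variable {B G : Type*} [AddCommGroup G] (Λ : B → ℝ≥0∞) (ht : B → ℕ) (dsp : B → G)

open Classical in
/-- weight of the lists of height `n` and displacement `x` -/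
noncomputable def f (n : ℕ) (x : G) : ℝ≥0∞ :=
  ∑' L : List B, if HT ht L = n ∧ (L.map dsp).sum = x then LW Λ L else 0

lemma tsum_f (n : ℕ) : ∑' x, f Λ ht dsp n x = U Λ ht n := by
  classical
  simp only [f]
  rw [ENNReal.tsum_comm, U]
  refine tsum_congr fun L => ?_
  rw [tsum_eq_single (L.map dsp).sum]
  · simp
  · intro x hx
    rw [if_neg]
    exact fun h => hx h.2.symm

lemma U_le_one (h1 : ∀ b, 1 ≤ ht b) (hΛ : ∑' b, Λ b = 1) (n : ℕ) : U Λ ht n ≤ 1 := by
  have ht0 : tail Λ ht 0 = 1 := by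
    rw [← hΛ, tail]
    refine tsum_congr fun b => ?_
    rw [if_pos (by have := h1 b; omega)]
  have h := renewal_one Λ ht h1 hΛ n
  rw [← h]
  have := Finset.single_le_sum (f := fun k => U Λ ht (n - k) * tail Λ ht k)
    (fun _ _ => zero_le) (Finset.mem_range.2 (Nat.succ_pos n) : 0 ∈ Finset.range (n + 1))
  simpa [ht0] using this

lemma f_le_one (h1 : ∀ b, 1 ≤ ht b) (hΛ : ∑' b, Λ b = 1) (n : ℕ) (x : G) :
    f Λ ht dsp n x ≤ 1 :=
  (ENNReal.le_tsum x).trans ((tsum_f Λ ht dsp n).le.trans (U_le_one Λ ht h1 hΛ n))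

lemma f_rec (n : ℕ) (hn : 1 ≤ n) (x : G) :
    f Λ ht dsp n x = ∑' b, if ht b ≤ n then Λ b * f Λ ht dsp (n - ht b) (x - dsp b) else 0 := by
  classical
  rw [f, tsum_list]
  simp only [HT_nil, HT_cons, LW_cons, List.map_nil, List.sum_nil, List.map_cons, List.sum_cons]
  rw [if_neg (by omega), zero_add]
  refine tsum_congr fun b => ?_
  by_cases hb : ht b ≤ n
  · rw [if_pos hb, f, ← ENNReal.tsum_mul_left]
    refine tsum_congr fun L => ?_
    by_cases h : HT ht L = n - ht b ∧ (L.map dsp).sum = x - dsp b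
    · rw [if_pos h, if_pos ⟨by omega, by rw [h.2]; abel⟩]
    · rw [if_neg h, mul_zero, if_neg]
      rintro ⟨h2, h3⟩
      exact h ⟨by omega, by rw [← h3]; abel⟩
  · rw [if_neg hb]
    have : ∀ L : List B, ¬ (ht b + HT ht L = n ∧ dsp b + (L.map dsp).sum = x) :=
      fun L h => by omega
    simp [this]

lemma tail_small (hΛ : ∑' b, Λ b = 1) (δ : ℝ≥0∞) (hδ : δ ≠ 0) : ∃ k, ∀ k', k ≤ k' →
    tail Λ ht k' ≤ δ := by
  classical
  have hfin : ∑' b, Λ b ≠ ⊤ := by rw [hΛ]; exact ENNReal.one_ne_top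
  have h := ENNReal.tendsto_tsum_compl_atTop_zero hfin
  have h2 := (ENNReal.tendsto_nhds_zero.1 h) δ (pos_iff_ne_zero.2 hδ)
  obtain ⟨s, hs⟩ := h2.exists
  refine ⟨s.sup ht, fun k' hk' => le_trans ?_ hs⟩
  rw [tail, ← tsum_subtype_eq_of_support_subset (s := {b | b ∉ s})]
  · refine ENNReal.tsum_le_tsum fun b => ?_
    split_ifs <;> simp
  · intro b hb
    simp only [Function.mem_support, ne_eq, ite_eq_right_iff, not_forall] at hb
    obtain ⟨hb1, _⟩ := hb
    simp only [Set.mem_setOf_eq]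
    intro hbs
    have : ht b ≤ s.sup ht := Finset.le_sup hbs
    omega

/-- one-step bound -/
lemma f_step (h1 : ∀ b, 1 ≤ ht b) (hΛ : ∑' b, Λ b = 1) (b1 : B) (N0 n : ℕ) (A : ℝ≥0∞)
    (hA : ∀ m, N0 ≤ m → ∀ x, f Λ ht dsp m x ≤ A) (hn : 1 ≤ n) (hn1 : ht b1 ≤ n) (y : G) :
    f Λ ht dsp n y ≤ Λ b1 * f Λ ht dsp (n - ht b1) (y - dsp b1) + (1 - Λ b1) * A
      + tail Λ ht (n - N0 - 1) := by
  classical
  rw [f_rec Λ ht dsp n hn y, ENNReal.tsum_eq_add_tsum_ite b1, if_pos hn1, add_assoc]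
  refine add_le_add le_rfl ?_
  have hsub : (1 : ℝ≥0∞) - Λ b1 = ∑' b, (if b = b1 then 0 else Λ b) := by
    have h := ENNReal.tsum_eq_add_tsum_ite (f := Λ) b1
    rw [hΛ] at h
    rw [h]
    refine ENNReal.add_sub_cancel_left ?_
    refine ne_top_of_le_ne_top ENNReal.one_ne_top ?_
    rw [← hΛ]; exact ENNReal.le_tsum b1
  rw [hsub, ← ENNReal.tsum_mul_right, tail, ← ENNReal.tsum_add]
  refine ENNReal.tsum_le_tsum fun b => ?_
  by_cases hb : b = b1
  · rw [if_pos hb]; exact zero_le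
  · rw [if_neg hb, if_neg hb]
    by_cases hbn : ht b ≤ n
    · rw [if_pos hbn]
      by_cases hbig : n - N0 - 1 < ht b
      · rw [if_pos hbig]
        refine le_add_left ?_
        calc Λ b * f Λ ht dsp (n - ht b) (y - dsp b) ≤ Λ b * 1 :=
              mul_le_mul_right (f_le_one Λ ht dsp h1 hΛ _ _) _
          _ = Λ b := mul_one _
      · rw [if_neg hbig, add_zero]
        have hb1 := h1 b
        exact mul_le_mul_right (hA _ (by omega) _) _
    · rw [if_neg hbn]; exact zero_le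

/-- **point concentration → 0** -/
theorem conc (h1 : ∀ b, 1 ≤ ht b) (hΛ : ∑' b, Λ b = 1) {b1 b2 : B} (hb : ht b1 = ht b2)
    (hb1 : Λ b1 ≠ 0) (hb2 : Λ b2 ≠ 0) (hne : ∀ k : ℤ, k ≠ 0 → k • (dsp b2 - dsp b1) ≠ 0) :
    ∀ ε : ℝ≥0∞, ε ≠ 0 → ∃ N : ℕ, ∀ n, N ≤ n → ∀ x, f Λ ht dsp n x ≤ ε := by
  classical
  set F : ℕ → G → ℝ := fun n x => (f Λ ht dsp n x).toReal with hF
  have hftop : ∀ n x, f Λ ht dsp n x ≠ ⊤ := fun n x =>
    ne_top_of_le_ne_top ENNReal.one_ne_top (f_le_one Λ ht dsp h1 hΛ n x)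
  have hF0 : ∀ n x, 0 ≤ F n x := fun n x => ENNReal.toReal_nonneg
  have hF1 : ∀ n x, F n x ≤ 1 := fun n x => by
    have := ENNReal.toReal_mono ENNReal.one_ne_top (f_le_one Λ ht dsp h1 hΛ n x)
    simpa using this
  set s : ℕ → ℝ := fun N => ⨆ p : {n : ℕ // N ≤ n} × G, F p.1.1 p.2 with hs
  have hbdd : ∀ N, BddAbove (Set.range fun p : {n : ℕ // N ≤ n} × G => F p.1.1 p.2) := by
    intro N
    refine ⟨1, ?_⟩
    rintro _ ⟨p, rfl⟩
    exact hF1 _ _
  have hsle : ∀ N n, N ≤ n → ∀ x, F n x ≤ s N := fun N n hn x =>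
    le_ciSup (hbdd N) (⟨⟨n, hn⟩, x⟩ : {n : ℕ // N ≤ n} × G)
  have hs0 : ∀ N, 0 ≤ s N := fun N => (hF0 N 0).trans (hsle N N le_rfl 0)
  set M : ℝ := ⨅ N, s N with hM
  have hbb : BddBelow (Set.range s) := ⟨0, by rintro _ ⟨N, rfl⟩; exact hs0 N⟩
  have hMs : ∀ N, M ≤ s N := fun N => ciInf_le hbb N
  have hup : ∀ δ : ℝ, 0 < δ → ∃ N0, ∀ n, N0 ≤ n → ∀ x, F n x ≤ M + δ := by
    intro δ hδ
    obtain ⟨N0, hN0⟩ := exists_lt_of_ciInf_lt (show (⨅ N, s N) < M + δ by rw [← hM]; linarith)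
    exact ⟨N0, fun n hn x => (hsle N0 n hn x).trans hN0.le⟩
  have hlow : ∀ δ : ℝ, 0 < δ → ∀ N, ∃ n, N ≤ n ∧ ∃ x, M - δ ≤ F n x := by
    intro δ hδ N
    have hlt : M - δ < s N := by have := hMs N; linarith
    haveI : Nonempty ({n : ℕ // N ≤ n} × G) := ⟨(⟨N, le_rfl⟩, 0)⟩
    obtain ⟨p, hp⟩ := exists_lt_of_lt_ciSup hlt
    exact ⟨p.1.1, p.1.2, p.2, hp.le⟩
  -- the step
  have hstep : ∀ b : B, Λ b ≠ 0 → ∀ δ' : ℝ, 0 < δ' → ∃ δ : ℝ, 0 < δ ∧ ∃ N1, ∀ n, N1 ≤ n →
      ∀ y, M - δ ≤ F n y → M - δ' ≤ F (n - ht b) (y - dsp b) := by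
    intro b hb δ' hδ'
    have hΛb : Λ b ≤ 1 := by rw [← hΛ]; exact ENNReal.le_tsum b
    have hΛbt : Λ b ≠ ⊤ := ne_top_of_le_ne_top ENNReal.one_ne_top hΛb
    set l : ℝ := (Λ b).toReal with hl
    have hl0 : 0 < l := ENNReal.toReal_pos hb hΛbt
    have hl1 : l ≤ 1 := by
      have := ENNReal.toReal_mono ENNReal.one_ne_top hΛb
      simpa using this
    have hM0 : 0 ≤ M := le_ciInf hs0
    refine ⟨l * δ' / 3, by positivity, ?_⟩
    obtain ⟨N0, hN0⟩ := hup (l * δ' / 3) (by positivity)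
    obtain ⟨k, hk⟩ := tail_small Λ ht hΛ (ENNReal.ofReal (l * δ' / 3)) (by
      simp only [ne_eq, ENNReal.ofReal_eq_zero, not_le]; positivity)
    refine ⟨k + N0 + 1 + ht b, fun n hn y hy => ?_⟩
    have hA : ∀ m, N0 ≤ m → ∀ x, f Λ ht dsp m x ≤ ENNReal.ofReal (M + l * δ' / 3) := by
      intro m hm x
      rw [← ENNReal.ofReal_toReal (hftop m x)]
      exact ENNReal.ofReal_le_ofReal (hN0 m hm x)
    have h := f_step Λ ht dsp h1 hΛ b N0 n _ hA (by omega) (by omega) y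
    have h' := h.trans (add_le_add le_rfl (hk (n - N0 - 1) (by omega)))
    have hmul : (1 - Λ b) * ENNReal.ofReal (M + l * δ' / 3) ≠ ⊤ :=
      ENNReal.mul_ne_top (ENNReal.sub_ne_top ENNReal.one_ne_top) ENNReal.ofReal_ne_top
    have hm2 : Λ b * f Λ ht dsp (n - ht b) (y - dsp b) ≠ ⊤ := ENNReal.mul_ne_top hΛbt (hftop _ _)
    have h2 := ENNReal.toReal_mono (ENNReal.add_ne_top.2
      ⟨ENNReal.add_ne_top.2 ⟨hm2, hmul⟩, ENNReal.ofReal_ne_top⟩) h'
    rw [ENNReal.toReal_add (ENNReal.add_ne_top.2 ⟨hm2, hmul⟩) ENNReal.ofReal_ne_top,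
      ENNReal.toReal_add hm2 hmul, ENNReal.toReal_mul, ENNReal.toReal_mul,
      ENNReal.toReal_sub_of_le hΛb ENNReal.one_ne_top, ENNReal.toReal_one,
      ENNReal.toReal_ofReal (by positivity), ENNReal.toReal_ofReal (by positivity)] at h2
    change F n y ≤ l * F (n - ht b) (y - dsp b) + (1 - l) * (M + l * δ' / 3) + l * δ' / 3 at h2
    have h3 : l * (M - δ') ≤ l * F (n - ht b) (y - dsp b) := by
      nlinarith [mul_nonneg hl0.le (by positivity : (0:ℝ) ≤ l * δ' / 3)]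
    exact le_of_mul_le_mul_left h3 hl0
  -- propagation to `k + 1` points
  have hprop : ∀ k : ℕ, ∀ δ : ℝ, 0 < δ → ∀ N, ∃ n, N ≤ n ∧ ∃ x, ∀ i : ℕ, i ≤ k →
      M - δ ≤ F n (x - (i • dsp b1 + (k - i) • dsp b2)) := by
    intro k
    induction k with
    | zero =>
      intro δ hδ N
      obtain ⟨n, hn, x, hx⟩ := hlow δ hδ N
      refine ⟨n, hn, x, fun i hi => ?_⟩
      obtain rfl : i = 0 := by omega
      simpa using hx
    | succ k ih =>
      intro δ hδ N
      obtain ⟨δ1, hδ1, N1, hN1⟩ := hstep b1 hb1 δ hδ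
      obtain ⟨δ2, hδ2, N2, hN2⟩ := hstep b2 hb2 δ hδ
      obtain ⟨n, hn, x, hx⟩ := ih (min δ1 δ2) (lt_min hδ1 hδ2) (N1 + N2 + N + ht b1)
      refine ⟨n - ht b1, by omega, x, fun i hi => ?_⟩
      rcases Nat.eq_zero_or_pos i with rfl | hi0
      · have h2 := hN2 n (by omega) _ (le_trans (by
          have := min_le_right δ1 δ2; linarith) (hx 0 (by omega)))
        rw [← hb] at h2
        refine h2.trans (le_of_eq ?_)
        congr 1
        simp only [zero_smul, zero_add, Nat.sub_zero]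
        rw [succ_nsmul]
        abel
      · have h2 := hN1 n (by omega) _ (le_trans (by
          have := min_le_left δ1 δ2; linarith) (hx (i - 1) (by omega)))
        refine h2.trans (le_of_eq ?_)
        congr 1
        have e1 : i • dsp b1 = (i - 1) • dsp b1 + dsp b1 := by
          rw [← succ_nsmul]; congr 1; omega
        have e2 : k + 1 - i = k - (i - 1) := by omega
        rw [e1, e2]
        abel
  have hMle : M ≤ 0 := by
    by_contra hpos
    rw [not_le] at hpos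
    obtain ⟨k, hk⟩ := exists_nat_gt (2 / M)
    obtain ⟨n, -, x, hx⟩ := hprop k (M / 2) (by positivity) 0
    set pt : ℕ → G := fun i => x - (i • dsp b1 + (k - i) • dsp b2) with hpt
    have hinj : Set.InjOn pt (Finset.range (k + 1) : Set ℕ) := by
      intro i hi j hj hij
      have hi' : i ≤ k := by have := Finset.mem_coe.1 hi; have := Finset.mem_range.1 this; omega
      have hj' : j ≤ k := by have := Finset.mem_coe.1 hj; have := Finset.mem_range.1 this; omega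
      by_contra hne'
      refine hne ((j : ℤ) - i) (by omega) ?_
      have h3 : i • dsp b1 + (k - i) • dsp b2 = j • dsp b1 + (k - j) • dsp b2 := by
        simpa [hpt] using hij
      have e3 : ((k - i : ℕ) : ℤ) = (k : ℤ) - i := by omega
      have e4 : ((k - j : ℕ) : ℤ) = (k : ℤ) - j := by omega
      have h4 : (i : ℤ) • dsp b1 + ((k - i : ℕ) : ℤ) • dsp b2
          = (j : ℤ) • dsp b1 + ((k - j : ℕ) : ℤ) • dsp b2 := by
        simpa only [natCast_zsmul] using h3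
      rw [e3, e4, sub_smul, sub_smul] at h4
      rw [sub_smul, smul_sub, smul_sub]
      have h5 : (i : ℤ) • dsp b1 + ((k : ℤ) • dsp b2 - (i : ℤ) • dsp b2)
          - ((j : ℤ) • dsp b1 + ((k : ℤ) • dsp b2 - (j : ℤ) • dsp b2)) = 0 := sub_eq_zero.2 h4
      rw [← h5]
      abel
    have hsum : ∑ i ∈ Finset.range (k + 1), f Λ ht dsp n (pt i) ≤ 1 := by
      rw [← Finset.sum_image hinj]
      exact (ENNReal.sum_le_tsum _).trans
        ((tsum_f Λ ht dsp n).le.trans (U_le_one Λ ht h1 hΛ n))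
    have hsumR : ∑ i ∈ Finset.range (k + 1), F n (pt i) ≤ 1 := by
      have := ENNReal.toReal_mono ENNReal.one_ne_top hsum
      rw [ENNReal.toReal_sum (fun i _ => hftop _ _)] at this
      simpa using this
    have hlow' : ∑ _i ∈ Finset.range (k + 1), (M / 2) ≤ ∑ i ∈ Finset.range (k + 1), F n (pt i) := by
      refine Finset.sum_le_sum fun i hi => ?_
      have := hx i (by have := Finset.mem_range.1 hi; omega)
      simp only [hpt]
      linarith
    rw [Finset.sum_const, Finset.card_range, nsmul_eq_mul] at hlow'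
    have h6 : 2 < (k : ℝ) * M := by
      rw [div_lt_iff₀ hpos] at hk
      exact hk
    push_cast at hlow'
    nlinarith
  intro ε hε
  by_cases hεt : ε = ⊤
  · exact ⟨0, fun n _ x => by rw [hεt]; exact le_top⟩
  obtain ⟨N0, hN0⟩ := hup ε.toReal (ENNReal.toReal_pos hε hεt)
  refine ⟨N0, fun n hn x => ?_⟩
  have h := hN0 n hn x
  have h2 : F n x ≤ ε.toReal := by linarith
  exact (ENNReal.toReal_le_toReal (hftop n x) hεt).1 h2

end Crest.Agent.R154.Conc865
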