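import Crest.Agent.R154.B5Abs_566

/-! Row 154 (helper926): point concentration for a single walker.
`sup_x (weight of the lists of height `n` and displacement `x`) → 0`. -/

set_option autoImplicit false

namespace Crest.Agent.R154.Conc926

open Filter Crest.Agent.R154.B5A
open scoped ENNReal Topology

variable {B G : Type*} [AddCommGroup G] (Λ : B → ℝ≥0∞) (ht : B → ℕ) (dsp : B → G)

open Classical in
/-- weight of the lists of height `n` and displacement `x` -/
noncomputable def WX (n : ℕ) (x : G) : ℝ≥0∞ :=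
  ∑' L : List B, if HT ht L = n ∧ (L.map dsp).sum = x then LW Λ L else 0

lemma WX_rec {n : ℕ} (hn : 1 ≤ n) (x : G) :
    WX Λ ht dsp n x
      = ∑' b, if ht b ≤ n then Λ b * WX Λ ht dsp (n - ht b) (x - dsp b) else 0 := by
  classical
  rw [WX, tsum_list]
  rw [if_neg (by rw [HT_nil]; omega), zero_add]
  refine tsum_congr fun b => ?_
  by_cases hb : ht b ≤ n
  · rw [if_pos hb, WX, ← ENNReal.tsum_mul_left]
    refine tsum_congr fun L => ?_
    rw [HT_cons, LW_cons, List.map_cons, List.sum_cons]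
    by_cases h : HT ht L = n - ht b ∧ (L.map dsp).sum = x - dsp b
    · rw [if_pos h, if_pos ⟨by omega, by rw [h.2]; abel⟩]
    · rw [if_neg h, if_neg, mul_zero]
      rintro ⟨h1, h2⟩
      exact h ⟨by omega, by rw [← h2]; abel⟩
  · rw [if_neg hb]
    have : ∀ L : List B, (if HT ht (b :: L) = n ∧ ((b :: L).map dsp).sum = x
        then LW Λ (b :: L) else 0) = 0 := by
      intro L
      rw [if_neg]
      rintro ⟨h1, -⟩
      rw [HT_cons] at h1
      omega
    simp only [this, tsum_zero]

lemma sum_WX (n : ℕ) : ∑' x, WX Λ ht dsp n x = U Λ ht n := by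
  classical
  simp only [WX, U]
  rw [ENNReal.tsum_comm]
  refine tsum_congr fun L => ?_
  by_cases h : HT ht L = n
  · rw [if_pos h, tsum_eq_single ((L.map dsp).sum)]
    · rw [if_pos ⟨h, rfl⟩]
    · intro y hy
      rw [if_neg fun hh => hy hh.2.symm]
  · rw [if_neg h]
    have : ∀ x : G, (if HT ht L = n ∧ (L.map dsp).sum = x then LW Λ L else 0) = 0 := fun x => by
      rw [if_neg fun hh => h hh.1]
    simp only [this, tsum_zero]

lemma WX_le_U (n : ℕ) (x : G) : WX Λ ht dsp n x ≤ U Λ ht n := by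
  rw [← sum_WX Λ ht dsp n]
  exact ENNReal.le_tsum x

lemma abs_step (f t : B → ℝ≥0∞) (A : ℝ≥0∞) (hΛ : ∑' b, Λ b = 1) (b0 : B)
    (hfb : ∀ b, f b ≤ A * Λ b + t b) :
    ∑' b, f b + A * Λ b0 ≤ f b0 + (A + ∑' b, t b) := by
  classical
  have hsplit : ∑' b, f b = f b0 + ∑' b, (if b = b0 then 0 else f b) :=
    ENNReal.tsum_eq_add_tsum_ite b0
  have hk : ∑' b, (if b = b0 then A * Λ b0 else 0) = A * Λ b0 := tsum_ite_eq b0 _
  have h2 : ∑' b, (if b = b0 then 0 else f b) + A * Λ b0 ≤ A + ∑' b, t b := by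
    calc ∑' b, (if b = b0 then 0 else f b) + A * Λ b0
        = ∑' b, ((if b = b0 then 0 else f b) + (if b = b0 then A * Λ b0 else 0)) := by
          rw [ENNReal.tsum_add, hk]
      _ ≤ ∑' b, (A * Λ b + t b) := by
          refine ENNReal.tsum_le_tsum fun b => ?_
          by_cases hb : b = b0
          · rw [if_pos hb, if_pos hb, zero_add, hb]
            exact le_self_add
          · rw [if_neg hb, if_neg hb, add_zero]
            exact hfb b
      _ = A + ∑' b, t b := by
          rw [ENNReal.tsum_add, ENNReal.tsum_mul_left, hΛ, mul_one]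
  rw [hsplit, add_assoc]
  exact add_le_add le_rfl h2

lemma step (h1 : ∀ b, 1 ≤ ht b) (hΛ : ∑' b, Λ b = 1) (hU1 : ∀ n, U Λ ht n ≤ 1)
    (N : ℕ) (A : ℝ≥0∞) (hA : ∀ n, N ≤ n → ∀ x, WX Λ ht dsp n x ≤ A)
    (b0 : B) (n : ℕ) (hn : ht b0 ≤ n) (hN : N ≤ n) (y : G) :
    WX Λ ht dsp n y + A * Λ b0
      ≤ Λ b0 * WX Λ ht dsp (n - ht b0) (y - dsp b0) + A + tail Λ ht (n - N) := by
  have hn1 : 1 ≤ n := (h1 b0).trans hn
  rw [WX_rec Λ ht dsp hn1 y]
  have hfb : ∀ b, (if ht b ≤ n then Λ b * WX Λ ht dsp (n - ht b) (y - dsp b) else 0)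
      ≤ A * Λ b + (if n - N < ht b then Λ b else 0) := by
    intro b
    by_cases hb : ht b ≤ n
    · rw [if_pos hb]
      by_cases hb2 : n - N < ht b
      · rw [if_pos hb2]
        refine le_add_left ?_
        calc Λ b * WX Λ ht dsp (n - ht b) (y - dsp b) ≤ Λ b * 1 :=
              mul_le_mul_right ((WX_le_U Λ ht dsp _ _).trans (hU1 _)) _
          _ = Λ b := mul_one _
      · rw [if_neg hb2, add_zero, mul_comm]
        exact mul_le_mul_left (hA _ (by omega) _) _
    · rw [if_neg hb]; exact zero_le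
  have h := abs_step Λ _ _ A hΛ b0 hfb
  rw [if_pos hn] at h
  rw [add_assoc]
  exact h

set_option maxHeartbeats 1000000 in
/-- **point concentration**: the weight of height `n` and displacement `x` tends to `0`,
uniformly in `x`. -/
theorem conc (h1 : ∀ b, 1 ≤ ht b) (hΛ : ∑' b, Λ b = 1) (hU1 : ∀ n, U Λ ht n ≤ 1)
    (hE : ∑' b, Λ b * (ht b : ℝ≥0∞) ≠ ⊤) {b1 b2 : B} (hh : ht b1 = ht b2)
    (hw1 : Λ b1 ≠ 0) (hw2 : Λ b2 ≠ 0)
    (hv : ∀ k : ℕ, k ≠ 0 → k • (dsp b2 - dsp b1) ≠ 0) (ε : ℝ≥0∞) (hε : ε ≠ 0) :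
    ∃ N : ℕ, ∀ n, N ≤ n → ∀ x, WX Λ ht dsp n x ≤ ε := by
  classical
  set a : ℕ → ℝ≥0∞ := fun n => ⨆ x, WX Λ ht dsp n x with ha
  have hW1 : ∀ n x, WX Λ ht dsp n x ≤ 1 := fun n x => (WX_le_U Λ ht dsp n x).trans (hU1 n)
  have ha1 : ∀ n, a n ≤ 1 := fun n => iSup_le fun x => hW1 n x
  set α : ℝ≥0∞ := limsup a atTop with hα
  have hα1 : α ≤ 1 := by
    refine (limsup_le_limsup (Eventually.of_forall ha1)).trans ?_
    simp
  have hαtop : α ≠ ⊤ := ne_top_of_le_ne_top ENNReal.one_ne_top hα1
  have htail : Tendsto (tail Λ ht) atTop (𝓝 0) :=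
    ENNReal.tendsto_atTop_zero_of_tsum_ne_top (by rw [← sum_tail Λ ht hΛ]; exact hE)
  have hΛle : ∀ b, Λ b ≤ 1 := fun b => hΛ ▸ ENNReal.le_tsum b
  have hΛtop : ∀ b, Λ b ≠ ⊤ := fun b => ne_top_of_le_ne_top ENNReal.one_ne_top (hΛle b)
  have hWtop : ∀ n x, WX Λ ht dsp n x ≠ ⊤ := fun n x =>
    ne_top_of_le_ne_top ENNReal.one_ne_top (hW1 n x)
  set v : G := dsp b2 - dsp b1 with hvdef
  set l1 : ℝ := (Λ b1).toReal with hl1
  set l2 : ℝ := (Λ b2).toReal with hl2
  have hl1p : 0 < l1 := ENNReal.toReal_pos hw1 (hΛtop _)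
  have hl2p : 0 < l2 := ENNReal.toReal_pos hw2 (hΛtop _)
  -- upper bound, eventually
  have hup : ∀ δ : ℝ, 0 < δ → ∃ N : ℕ, ∀ n, N ≤ n → ∀ x,
      WX Λ ht dsp n x ≤ ENNReal.ofReal (α.toReal + δ) := by
    intro δ hδ
    have hlt : α < ENNReal.ofReal (α.toReal + δ) := by
      rw [← ENNReal.ofReal_toReal hαtop]
      refine (ENNReal.ofReal_lt_ofReal_iff (by positivity)).2 ?_
      rw [ENNReal.toReal_ofReal ENNReal.toReal_nonneg]
      linarith
    have := eventually_lt_of_limsup_lt hlt
    obtain ⟨N, hN⟩ := eventually_atTop.1 this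
    exact ⟨N, fun n hn x => (le_iSup (fun x => WX Λ ht dsp n x) x).trans (hN n hn).le⟩
  -- the claim
  have claim : ∀ m : ℕ, ∀ δ : ℝ, 0 < δ → ∀ N0 : ℕ, ∃ n, N0 ≤ n ∧ ∃ x : G, ∀ i : ℕ, i ≤ m →
      α.toReal - δ ≤ (WX Λ ht dsp n (x - i • v)).toReal := by
    intro m
    induction m with
    | zero =>
      intro δ hδ N0
      by_cases h0 : α.toReal - δ ≤ 0
      · refine ⟨N0, le_rfl, 0, fun i _ => h0.trans ENNReal.toReal_nonneg⟩
      · have hlt : ENNReal.ofReal (α.toReal - δ) < α := by
          rw [← ENNReal.ofReal_toReal hαtop]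
          refine (ENNReal.ofReal_lt_ofReal_iff ?_).2 ?_
          · linarith
          · simp only [ENNReal.ofReal_toReal hαtop]; linarith
        have hfr := frequently_lt_of_lt_limsup (by isBoundedDefault) hlt
        obtain ⟨n, hn, hlt2⟩ := frequently_atTop.1 hfr N0
        obtain ⟨x, hx⟩ := lt_iSup_iff.1 hlt2
        refine ⟨n, hn, x, fun i hi => ?_⟩
        have hi0 : i = 0 := by omega
        subst hi0
        rw [zero_smul, sub_zero]
        have := (ENNReal.ofReal_lt_iff_lt_toReal (by linarith) (hWtop n x)).1 hx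
        exact this.le
    | succ m ih =>
      intro δ hδ N0
      set l : ℝ := min l1 l2 with hl
      have hlp : 0 < l := lt_min hl1p hl2p
      set δ' : ℝ := δ * l / 4 with hδ'
      have hδ'p : 0 < δ' := by positivity
      obtain ⟨N, hN⟩ := hup δ' hδ'p
      have hT := (ENNReal.tendsto_atTop_zero.1 htail) (ENNReal.ofReal δ')
        (ENNReal.ofReal_pos.2 hδ'p)
      obtain ⟨NT, hNT⟩ := hT
      obtain ⟨n, hn, x, hx⟩ := ih δ' hδ'p (N0 + ht b1 + N + NT)
      have key : ∀ b0 : B, ht b0 = ht b1 → l ≤ (Λ b0).toReal → ∀ i ≤ m,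
          α.toReal - δ ≤ (WX Λ ht dsp (n - ht b1) (x - i • v - dsp b0)).toReal := by
        intro b0 hb0 hlb i hi
        have hst := step Λ ht dsp h1 hΛ hU1 N _ hN b0 n (by omega) (by omega) (x - i • v)
        rw [hb0] at hst
        have hTn : tail Λ ht (n - N) ≤ ENNReal.ofReal δ' := hNT _ (by omega)
        have hst2 := hst.trans (add_le_add le_rfl hTn)
        have hb0top := hΛtop b0
        have hreal := ENNReal.toReal_mono (by
          refine ENNReal.add_ne_top.2 ⟨ENNReal.add_ne_top.2 ⟨ENNReal.mul_ne_top hb0top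
            (hWtop _ _), ENNReal.ofReal_ne_top⟩, ENNReal.ofReal_ne_top⟩) hst2
        rw [ENNReal.toReal_add (hWtop _ _) (ENNReal.mul_ne_top ENNReal.ofReal_ne_top hb0top),
          ENNReal.toReal_add (ENNReal.add_ne_top.2 ⟨ENNReal.mul_ne_top hb0top
            (hWtop _ _), ENNReal.ofReal_ne_top⟩) ENNReal.ofReal_ne_top,
          ENNReal.toReal_add (ENNReal.mul_ne_top hb0top (hWtop _ _)) ENNReal.ofReal_ne_top,
          ENNReal.toReal_mul, ENNReal.toReal_mul,
          ENNReal.toReal_ofReal (by positivity), ENNReal.toReal_ofReal hδ'p.le] at hreal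
        have hxi := hx i hi
        set wv := (WX Λ ht dsp (n - ht b1) (x - i • v - dsp b0)).toReal
        set c := (Λ b0).toReal
        have hc : 0 < c := hlp.trans_le hlb
        -- c * wv ≥ (α + δ') c - 3 δ'
        have h3 : (α.toReal + δ') * c - 3 * δ' ≤ c * wv := by linarith
        have h4 : 3 * δ' ≤ c * δ := by
          have : l * δ ≤ c * δ := mul_le_mul_of_nonneg_right hlb hδ.le
          have : 3 * δ' = 3 / 4 * (l * δ) := by rw [hδ']; ring
          have hlδ : 0 ≤ l * δ := by positivity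
          linarith
        by_contra hcon
        push Not at hcon
        have h5 : c * wv < c * (α.toReal - δ) := mul_lt_mul_of_pos_left hcon hc
        have h6 : 0 ≤ δ' * c := by positivity
        nlinarith
      refine ⟨n - ht b1, by omega, x - dsp b1, fun i hi => ?_⟩
      by_cases him : i ≤ m
      · have := key b1 rfl (min_le_left _ _) i him
        have e : x - dsp b1 - i • v = x - i • v - dsp b1 := by abel
        rw [e]; exact this
      · have hi' : i = m + 1 := by omega
        subst hi'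
        have := key b2 hh.symm (min_le_right _ _) m le_rfl
        have e : x - dsp b1 - (m + 1) • v = x - m • v - dsp b2 := by
          rw [succ_nsmul, hvdef]; abel
        rw [e]; exact this
  -- α = 0
  have hα0 : α = 0 := by
    by_contra hne
    have hαp : 0 < α.toReal := ENNReal.toReal_pos hne hαtop
    obtain ⟨m, hm⟩ := exists_nat_gt (2 / α.toReal)
    obtain ⟨n, -, x, hx⟩ := claim m (α.toReal / 2) (by positivity) 0
    have hinj : Function.Injective fun i : ℕ => x - i • v := by
      intro i j hij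
      simp only at hij
      have hij' : i • v = j • v := sub_right_injective hij
      by_contra hne2
      rcases Nat.lt_or_gt_of_ne hne2 with h | h
      · apply hv (j - i) (by omega)
        have : j • v = (j - i) • v + i • v := by rw [← add_smul]; congr 1; omega
        rw [hij'] at this
        have h9 : (j - i) • v = 0 := by
          have := this.symm
          simpa using this
        exact h9
      · apply hv (i - j) (by omega)
        have : i • v = (i - j) • v + j • v := by rw [← add_smul]; congr 1; omega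
        rw [← hij'] at this
        have h9 : (i - j) • v = 0 := by
          have := this.symm
          simpa using this
        exact h9
    have hsum : ∑ i ∈ Finset.range (m + 1), WX Λ ht dsp n (x - i • v) ≤ 1 := by
      calc ∑ i ∈ Finset.range (m + 1), WX Λ ht dsp n (x - i • v)
          ≤ ∑' i : ℕ, WX Λ ht dsp n (x - i • v) := ENNReal.sum_le_tsum _
        _ ≤ ∑' y, WX Λ ht dsp n y := ENNReal.tsum_comp_le_tsum_of_injective hinj _
        _ ≤ 1 := by rw [sum_WX]; exact hU1 n
    have hsumR : ∑ i ∈ Finset.range (m + 1), (WX Λ ht dsp n (x - i • v)).toReal ≤ 1 := by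
      rw [← ENNReal.toReal_sum (fun i _ => hWtop _ _)]
      have := ENNReal.toReal_mono ENNReal.one_ne_top hsum
      simpa using this
    have hge : ((m : ℝ) + 1) * (α.toReal / 2)
        ≤ ∑ i ∈ Finset.range (m + 1), (WX Λ ht dsp n (x - i • v)).toReal := by
      have : ∑ _i ∈ Finset.range (m + 1), (α.toReal / 2) = ((m : ℝ) + 1) * (α.toReal / 2) := by
        rw [Finset.sum_const, Finset.card_range, nsmul_eq_mul]; push_cast; ring
      rw [← this]
      refine Finset.sum_le_sum fun i hi => ?_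
      have := hx i (by have := Finset.mem_range.1 hi; omega)
      linarith
    have h7 : 2 < (m : ℝ) * α.toReal := by
      rw [div_lt_iff₀ hαp] at hm; exact hm
    nlinarith
  have hlt : limsup a atTop < ε := by
    rw [← hα, hα0]; exact pos_iff_ne_zero.2 hε
  obtain ⟨N, hN⟩ := eventually_atTop.1 (eventually_lt_of_limsup_lt hlt)
  exact ⟨N, fun n hn x => (le_iSup (fun x => WX Λ ht dsp n x) x).trans (hN n hn).le⟩

end Crest.Agent.R154.Conc926
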