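import Crest.Agent.R154.ContA_424

/-! Row 154, B4, walker side (helper424), part B: the grid, deterministic lemmas. -/

set_option autoImplicit false
set_option linter.unusedVariables false

namespace Crest.Agent.R154

open MeasureTheory ProbabilityTheory Crest.ProbabilityR.RandomEnvironment
open scoped ENNReal

namespace Cont

variable {d : ℕ} {Ω : Type} [MeasurableSpace Ω]

/-- data of the contact inequality: walk space with reading times, range `R`, level function,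
grid of levels `Lv 0 ≤ … ≤ Lv M`, death time `D`, a set `E` and centres `c k`. -/
structure Grid (d : ℕ) (Ω : Type) [MeasurableSpace Ω] where
  /-- walk space -/
  W : WalkSpace d Ω
  /-- reading times -/
  rd : Ω → ℕ → Prop
  /-- range -/
  R : ℕ
  /-- level of a site -/
  lev : Site d → ℤ
  /-- grid levels -/
  Lv : ℕ → ℤ
  /-- number of grid levels -/
  M : ℕ
  /-- death time -/
  D : Ω → ℕ∞
  /-- target set for displacements -/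
  E : Set (Site d)
  /-- centres -/
  c : ℕ → Site d

namespace Grid

variable (𝒢 : Grid d Ω)

/-- first time at level `≥ Lv j`. -/
noncomputable def tau (j : ℕ) (X : Ω) : ℕ∞ := ft fun n => 𝒢.Lv j ≤ 𝒢.lev (𝒢.W.pos X n)

/-- stage `j` (stopped at death). -/
noncomputable def S (j : ℕ) (X : Ω) : ℕ∞ := min (𝒢.tau j X) (𝒢.D X)

/-- position at the first hit of level `Lv j`. -/
noncomputable def U (j : ℕ) (X : Ω) : Site d := 𝒢.W.pos X (𝒢.tau j X).toNat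

/-- rows read before stage `j`. -/
def V (j : ℕ) (X : Ω) : Set (Site d) := rows 𝒢.W 𝒢.rd X (𝒢.S j X)

/-- good path: alive at stage `M`, no backtrack over a window. -/
def Gd (X : Ω) : Prop :=
  𝒢.tau 𝒢.M X < 𝒢.D X ∧ ∀ j < 𝒢.M, ∀ n : ℕ, 𝒢.tau (j + 1) X ≤ n → (n : ℕ∞) ≤ 𝒢.tau 𝒢.M X →
    𝒢.Lv j ≤ 𝒢.lev (𝒢.W.pos X n)

/-- alive at stage `1` but not good. -/
def NG (X : Ω) : Prop := 𝒢.tau 1 X < 𝒢.D X ∧ ¬ 𝒢.Gd X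

/-- natural displacement in window `k`. -/
def Nt (k : ℕ) (X : Ω) : Prop := 𝒢.U (k + 7) X - 𝒢.U k X - 𝒢.c k ∈ 𝒢.E

/-- `T` (before `S M T`) reads a row within distance `R` of a row read by `X` before stage `j`. -/
def JS (j : ℕ) (X T : Ω) : Prop := kap 𝒢.W 𝒢.rd 𝒢.R (𝒢.V j X) T < 𝒢.S 𝒢.M T

/-- reach level `Lv (k+7)` inside `y + c k + E` without going below `Lv (k+1)`. -/
def RI (k : ℕ) (y : Site d) : Set (Path d) :=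
  {Y | ∃ m, 𝒢.Lv (k + 7) ≤ 𝒢.lev (Y m) ∧ (∀ i < m, 𝒢.lev (Y i) < 𝒢.Lv (k + 7)) ∧
    (∀ i ≤ m, 𝒢.Lv (k + 1) ≤ 𝒢.lev (Y i)) ∧ Y m - y - 𝒢.c k ∈ 𝒢.E}

/-- closeness of the exit of `X` and the entry of `T` in window `k`, before any contact. -/
def Ek (k : ℕ) (X T : Ω) : Prop :=
  𝒢.tau (k + 7) X < 𝒢.D X ∧ 𝒢.tau k T < 𝒢.D T ∧
    𝒢.tau k T ≤ kap 𝒢.W 𝒢.rd 𝒢.R (𝒢.V (k + 7) X) T ∧ 𝒢.U (k + 7) X - 𝒢.U k T - 𝒢.c k ∈ 𝒢.E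

/-- standing assumptions. -/
structure Ok : Prop where
  hrd : RdSpace 𝒢.W 𝒢.rd
  mono : Monotone 𝒢.Lv
  sep : ∀ a z : Site d, (∀ i, |a i - z i| ≤ (𝒢.R : ℤ)) → ∀ j, 𝒢.Lv (j + 1) ≤ 𝒢.lev a →
    𝒢.Lv j ≤ 𝒢.lev z
  stopD : 𝒢.W.IsStop 𝒢.D
  dead : ∀ (X : Ω) (m : ℕ), 𝒢.D X = m → 𝒢.tau 1 X ≤ m → 𝒢.lev (𝒢.W.pos X m) < 𝒢.Lv 0

variable {𝒢} (h𝒢 : 𝒢.Ok)

include h𝒢 in
lemma tau_mono {i j : ℕ} (h : i ≤ j) (X : Ω) : 𝒢.tau i X ≤ 𝒢.tau j X :=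
  ft_mono fun _ hn => (h𝒢.mono h).trans hn

lemma isStop_tau (j : ℕ) : 𝒢.W.IsStop (𝒢.tau j) :=
  isStop_ft (p := fun X n => 𝒢.Lv j ≤ 𝒢.lev (𝒢.W.pos X n)) fun n X Y h => by
    simp only [𝒢.W.pos_det n X Y h]

include h𝒢 in
lemma isStop_S (j : ℕ) : 𝒢.W.IsStop (𝒢.S j) := isStop_min (isStop_tau j) h𝒢.stopD

include h𝒢 in
lemma S_mono {i j : ℕ} (h : i ≤ j) (X : Ω) : 𝒢.S i X ≤ 𝒢.S j X :=
  min_le_min (tau_mono h𝒢 h X) le_rfl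

lemma S_le_tau (j : ℕ) (X : Ω) : 𝒢.S j X ≤ 𝒢.tau j X := min_le_left _ _

lemma S_le_D (j : ℕ) (X : Ω) : 𝒢.S j X ≤ 𝒢.D X := min_le_right _ _

lemma lev_lt_of_lt_tau {j n : ℕ} {X : Ω} (h : (n : ℕ∞) < 𝒢.tau j X) :
    𝒢.lev (𝒢.W.pos X n) < 𝒢.Lv j := not_le.1 (not_of_lt_ft h)

lemma tau_le_of_le_lev {j n : ℕ} {X : Ω} (h : 𝒢.Lv j ≤ 𝒢.lev (𝒢.W.pos X n)) :
    𝒢.tau j X ≤ n := ft_le h

lemma le_lev_of_tau_eq {j n : ℕ} {X : Ω} (h : 𝒢.tau j X = n) :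
    𝒢.Lv j ≤ 𝒢.lev (𝒢.W.pos X n) := ft_spec (p := fun n => 𝒢.Lv j ≤ 𝒢.lev (𝒢.W.pos X n)) h

include h𝒢 in
lemma S_eq_tau_of_lt {j : ℕ} {X : Ω} (h : 𝒢.tau j X < 𝒢.D X) : 𝒢.S j X = 𝒢.tau j X :=
  min_eq_left h.le

include h𝒢 in
lemma Gd.S_eq {X : Ω} (h : 𝒢.Gd X) {j : ℕ} (hj : j ≤ 𝒢.M) : 𝒢.S j X = 𝒢.tau j X :=
  S_eq_tau_of_lt h𝒢 (lt_of_le_of_lt (tau_mono h𝒢 hj X) h.1)

include h𝒢 in
lemma V_mono {i j : ℕ} (h : i ≤ j) (X : Ω) : 𝒢.V i X ⊆ 𝒢.V j X := rows_mono (S_mono h𝒢 h X)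

include h𝒢 in
lemma JS_mono {i j : ℕ} (h : i ≤ j) {X T : Ω} (hJ : 𝒢.JS i X T) : 𝒢.JS j X T :=
  lt_of_le_of_lt (kap_anti (V_mono h𝒢 h X) T) hJ

/-- the contact made at stage exactly `j + 1`. -/
lemma JS_step {j : ℕ} {X T : Ω} (h1 : 𝒢.JS (j + 1) X T) (h0 : ¬ 𝒢.JS j X T) :
    ∃ n i : ℕ, kap 𝒢.W 𝒢.rd 𝒢.R (𝒢.V (j + 1) X) T = n ∧ (n : ℕ∞) < 𝒢.S 𝒢.M T ∧ 𝒢.rd T n ∧
      𝒢.rd X i ∧ 𝒢.S j X ≤ i ∧ (i : ℕ∞) < 𝒢.S (j + 1) X ∧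
      ∀ l, |𝒢.W.pos X i l - 𝒢.W.pos T n l| ≤ (𝒢.R : ℤ) := by
  obtain ⟨n, hn⟩ := exists_nat_of_lt h1
  obtain ⟨hT, a, ⟨i, hi, hX, rfl⟩, hnear⟩ := kap_spec hn
  have hn' : (n : ℕ∞) < 𝒢.S 𝒢.M T := hn ▸ h1
  refine ⟨n, i, hn, hn', hT, hX, ?_, hi, hnear⟩
  by_contra hlt
  rw [not_le] at hlt
  apply h0
  unfold JS
  rw [kap_lt_iff]
  exact ⟨n, hn', hT, _, ⟨i, hlt, hX, rfl⟩, hnear⟩

lemma alive_of {j i : ℕ} {X : Ω} (h : 𝒢.S j X ≤ i) (h' : (i : ℕ∞) < 𝒢.S (j + 1) X) :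
    𝒢.tau j X ≤ i ∧ (i : ℕ∞) < 𝒢.tau (j + 1) X ∧ (i : ℕ∞) < 𝒢.D X := by
  have h1 : (i : ℕ∞) < 𝒢.D X := lt_of_lt_of_le h' (S_le_D _ _)
  refine ⟨?_, lt_of_lt_of_le h' (S_le_tau _ _), h1⟩
  rcases min_le_iff.1 h with h2 | h2
  · exact h2
  · exact absurd (lt_of_lt_of_le h1 h2) (lt_irrefl _)

include h𝒢 in
/-- a contact at stage `≥ 2` by a bad path makes it `NG`. -/
lemma NG_of {j : ℕ} {X T : Ω} (hj : 1 ≤ j) (h1 : 𝒢.JS (j + 1) X T) (h0 : ¬ 𝒢.JS j X T)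
    (hg : ¬ 𝒢.Gd X) : 𝒢.NG X := by
  obtain ⟨n, i, _, _, _, _, h2, h3, _⟩ := JS_step h1 h0
  obtain ⟨h4, _, h5⟩ := alive_of h2 h3
  exact ⟨lt_of_le_of_lt ((tau_mono h𝒢 hj X).trans h4) h5, hg⟩

include h𝒢 in
/-- geometry of a contact between good paths. -/
lemma geo {k : ℕ} (hk : k + 7 ≤ 𝒢.M) {X T : Ω} (hX : 𝒢.Gd X) (hT : 𝒢.Gd T) {n i : ℕ}
    (hi : 𝒢.tau (k + 4) X ≤ i) (hi' : (i : ℕ∞) < 𝒢.tau (k + 5) X) (hn : (n : ℕ∞) < 𝒢.tau 𝒢.M T)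
    (hnear : ∀ l, |𝒢.W.pos X i l - 𝒢.W.pos T n l| ≤ (𝒢.R : ℤ)) :
    𝒢.Lv (k + 2) ≤ 𝒢.lev (𝒢.W.pos T n) ∧ 𝒢.lev (𝒢.W.pos T n) < 𝒢.Lv (k + 6) ∧
      𝒢.tau (k + 2) T ≤ n ∧ (n : ℕ∞) < 𝒢.tau (k + 7) T := by
  have hnear' : ∀ l, |𝒢.W.pos T n l - 𝒢.W.pos X i l| ≤ (𝒢.R : ℤ) := fun l => by
    rw [abs_sub_comm]; exact hnear l
  have h1 : 𝒢.Lv (k + 3) ≤ 𝒢.lev (𝒢.W.pos X i) :=
    hX.2 (k + 3) (by omega) i hi (hi'.le.trans (tau_mono h𝒢 (by omega) X))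
  have h2 : 𝒢.lev (𝒢.W.pos X i) < 𝒢.Lv (k + 5) := lev_lt_of_lt_tau hi'
  have h3 : 𝒢.Lv (k + 2) ≤ 𝒢.lev (𝒢.W.pos T n) := h𝒢.sep _ _ hnear (k + 2) h1
  have h4 : 𝒢.lev (𝒢.W.pos T n) < 𝒢.Lv (k + 6) := by
    by_contra h
    rw [not_lt] at h
    have := h𝒢.sep _ _ hnear' (k + 5) h
    omega
  refine ⟨h3, h4, tau_le_of_le_lev h3, ?_⟩
  by_contra h
  rw [not_lt] at h
  have := hT.2 (k + 6) (by omega) n h hn.le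
  omega

include h𝒢 in
lemma shp_mem_RI {k : ℕ} (hk : k + 7 ≤ 𝒢.M) {T : Ω} (hT : 𝒢.Gd T) (hN : 𝒢.Nt k T) {n : ℕ}
    (h1 : 𝒢.tau (k + 2) T ≤ n) (h2 : (n : ℕ∞) < 𝒢.tau (k + 7) T) :
    shp 𝒢.W n T ∈ 𝒢.RI k (𝒢.U k T) := by
  have hM : 𝒢.tau (k + 7) T ≤ 𝒢.tau 𝒢.M T := tau_mono h𝒢 hk T
  obtain ⟨m, hm⟩ := exists_nat_of_lt (lt_of_le_of_lt hM hT.1)
  rw [hm] at h2 hM
  have hnm : n < m := by exact_mod_cast h2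
  refine ⟨m - n, ?_, ?_, ?_, ?_⟩
  · have := le_lev_of_tau_eq hm
    simp only [shp]
    rwa [show n + (m - n) = m by omega]
  · intro i hi
    simp only [shp]
    refine lev_lt_of_lt_tau ?_
    rw [hm]
    exact_mod_cast (by omega : n + i < m)
  · intro i hi
    simp only [shp]
    refine hT.2 (k + 1) (by omega) (n + i) (h1.trans ?_) (le_trans ?_ hM)
    · exact_mod_cast Nat.le_add_right n i
    · exact_mod_cast (by omega : n + i ≤ m)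
  · simp only [shp]
    rw [show n + (m - n) = m by omega]
    have : 𝒢.U (k + 7) T = 𝒢.W.pos T m := by
      unfold U
      rw [hm, ENat.toNat_natCast]
    rw [← this]
    exact hN

/-- the state of `X` at time `n` is a success state for window `k`. -/
def Qk (G : Site d → Measure (Path d)) (lam : ℝ≥0∞) (k n : ℕ) (X T : Ω) : Prop :=
  k + 7 ≤ 𝒢.M ∧ 𝒢.rd X n ∧ (n : ℕ∞) < 𝒢.S (k + 5) X ∧ 𝒢.tau k T < 𝒢.D T ∧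
    𝒢.tau k T ≤ kap 𝒢.W 𝒢.rd 𝒢.R (𝒢.W.read X (n + 1)) T ∧
    lam < G (𝒢.W.pos X n) (𝒢.RI k (𝒢.U k T))

include h𝒢 in
lemma Ek_of_Qk {G : Site d → Measure (Path d)} {lam : ℝ≥0∞} {k n : ℕ} {X T : Ω}
    (hQ : 𝒢.Qk G lam k n X T) (hR : shp 𝒢.W n X ∈ 𝒢.RI k (𝒢.U k T)) : 𝒢.Ek k X T := by
  obtain ⟨hk, hrd, hn, hT, hkap, -⟩ := hQ
  obtain ⟨m, hm1, hm2, hm3, hm4⟩ := hR
  simp only [shp] at hm1 hm2 hm3 hm4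
  have hn5 : (n : ℕ∞) < 𝒢.tau (k + 5) X := lt_of_lt_of_le hn (S_le_tau _ _)
  have htau : 𝒢.tau (k + 7) X = ((n + m : ℕ) : ℕ∞) := by
    refine ft_eq_of (p := fun n => 𝒢.Lv (k + 7) ≤ 𝒢.lev (𝒢.W.pos X n)) hm1 fun i hi => ?_
    rw [not_le]
    rcases Nat.lt_or_ge i n with h | h
    · have h1 : (i : ℕ∞) < 𝒢.tau (k + 5) X := lt_trans (by exact_mod_cast h) hn5
      exact lt_of_lt_of_le (lev_lt_of_lt_tau h1) (h𝒢.mono (by omega))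
    · have := hm2 (i - n) (by omega)
      rwa [show n + (i - n) = i by omega] at this
  have hlev : ∀ i, n ≤ i → i ≤ n + m → 𝒢.Lv (k + 1) ≤ 𝒢.lev (𝒢.W.pos X i) := by
    intro i h1 h2
    have := hm3 (i - n) (by omega)
    rwa [show n + (i - n) = i by omega] at this
  have hD : ((n + m : ℕ) : ℕ∞) < 𝒢.D X := by
    by_contra h
    rw [not_lt] at h
    obtain ⟨q, hq⟩ := ENat.ne_top_iff_exists.1 (ne_top_of_le_ne_top (ENat.natCast_ne_top _) h)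
    rw [← hq] at h
    have hqm : q ≤ n + m := by exact_mod_cast h
    have hnq : n < q := by
      have := lt_of_lt_of_le hn (S_le_D _ _)
      rw [← hq] at this
      exact_mod_cast this
    have h1 := hlev q hnq.le hqm
    have h2 : 𝒢.tau 1 X ≤ q := tau_le_of_le_lev ((h𝒢.mono (by omega)).trans h1)
    have h3 := h𝒢.dead X q hq.symm h2
    have h4 := h𝒢.mono (Nat.zero_le (k + 1))
    omega
  refine ⟨htau ▸ hD, hT, ?_, ?_⟩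
  · refine le_ft fun i hi => ?_
    obtain ⟨h1, h2⟩ := hi
    obtain ⟨a, ⟨l, hl, hrl, rfl⟩, hnear⟩ := not_far_iff.1 h2
    rw [S_eq_tau_of_lt h𝒢 (htau ▸ hD), htau] at hl
    have hl' : l < n + m := by exact_mod_cast hl
    rcases Nat.lt_or_ge n l with h3 | h3
    · refine tau_le_of_le_lev ?_
      exact h𝒢.sep _ _ hnear k (hlev l h3.le hl'.le)
    · refine hkap.trans (ft_le ⟨h1, not_far_iff.2 ⟨_, ?_, hnear⟩⟩)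
      exact (h𝒢.hrd.read_iff X (n + 1) _).2 ⟨l, by omega, hrl, rfl⟩
  · have : 𝒢.U (k + 7) X = 𝒢.W.pos X (n + m) := by
      unfold U
      rw [htau, ENat.toNat_natCast]
    rw [this]
    exact hm4

include h𝒢 in
/-- a contact of good paths with `e > lam` gives a success state of `X`. -/
lemma Qk_of_contact {G : Site d → Measure (Path d)} {lam h₀ : ℝ≥0∞} (h0 : h₀ ≠ 0) (h0' : h₀ ≠ ⊤)
    {k : ℕ} (hk : k + 7 ≤ 𝒢.M) {X T : Ω} (hX : 𝒢.Gd X) (hT : 𝒢.Gd T) {n i : ℕ}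
    (hkap : kap 𝒢.W 𝒢.rd 𝒢.R (𝒢.V (k + 5) X) T = n) (hrdX : 𝒢.rd X i)
    (hi : 𝒢.tau (k + 4) X ≤ i) (hi' : (i : ℕ∞) < 𝒢.tau (k + 5) X) (hn : (n : ℕ∞) < 𝒢.tau 𝒢.M T)
    (hnear : ∀ l, |𝒢.W.pos X i l - 𝒢.W.pos T n l| ≤ (𝒢.R : ℤ))
    (hH : ∀ a z : Site d, (∀ l, |a l - z l| ≤ (𝒢.R : ℤ)) → 𝒢.Lv (k + 2) ≤ 𝒢.lev z →
      𝒢.lev z < 𝒢.Lv (k + 6) → ∀ y, h₀ * G z (𝒢.RI k y) ≤ G a (𝒢.RI k y))
    (he : lam < G (𝒢.W.pos T n) (𝒢.RI k (𝒢.U k T))) :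
    𝒢.Qk G (h₀ * lam) k i X T := by
  obtain ⟨g1, g2, g3, g4⟩ := geo h𝒢 hk hX hT hi hi' hn hnear
  have hS5 : 𝒢.S (k + 5) X = 𝒢.tau (k + 5) X := hX.S_eq h𝒢 (by omega)
  refine ⟨hk, hrdX, by rw [hS5]; exact hi', ?_, ?_, ?_⟩
  · exact lt_of_le_of_lt (tau_mono h𝒢 (by omega) T) hT.1
  · have h1 : 𝒢.tau k T ≤ n := (tau_mono h𝒢 (by omega) T).trans g3
    have h2 : kap 𝒢.W 𝒢.rd 𝒢.R (𝒢.V (k + 5) X) T
        ≤ kap 𝒢.W 𝒢.rd 𝒢.R (𝒢.W.read X (i + 1)) T := by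
      refine kap_anti ?_ T
      intro z hz
      obtain ⟨l, hl, hrl, hz⟩ := (h𝒢.hrd.read_iff X (i + 1) z).1 hz
      refine ⟨l, ?_, hrl, hz⟩
      rw [hS5]
      exact lt_of_le_of_lt (by exact_mod_cast (by omega : l ≤ i)) hi'
    rw [hkap] at h2
    exact h1.trans h2
  · calc h₀ * lam < h₀ * G (𝒢.W.pos T n) (𝒢.RI k (𝒢.U k T)) := by
          rw [ENNReal.mul_lt_mul_iff_right h0 h0']
          exact he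
      _ ≤ _ := hH _ _ hnear g1 g2 _

end Grid

end Cont

end Crest.Agent.R154
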