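import Crest.Agent.R154.ContB_424

/-! Row 154, B4, walker side (helper424), part C: the estimate in a fixed environment. -/

set_option autoImplicit false
set_option linter.unusedVariables false
set_option linter.unusedSectionVars false

namespace Crest.Agent.R154

open MeasureTheory ProbabilityTheory Crest.ProbabilityR.RandomEnvironment
open scoped ENNReal

namespace Cont

variable {d : ℕ} {Ω : Type} [MeasurableSpace Ω]

namespace Grid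

variable {𝒢 : Grid d Ω} (h𝒢 : 𝒢.Ok)

/-! ### determinism -/

include h𝒢 in
lemma Gd.congr {X Y : Ω} (hX : 𝒢.Gd X) (h : Ag 𝒢.W (𝒢.tau 𝒢.M X) X Y) : 𝒢.Gd Y := by
  have e1 : 𝒢.tau 𝒢.M Y = 𝒢.tau 𝒢.M X := h.stop_eq (isStop_tau _) le_rfl
  refine ⟨?_, fun j hj n h1 h2 => ?_⟩
  · rw [e1]
    exact h.lt_stop h𝒢.stopD hX.1
  · rw [e1] at h2
    rw [← h.pos h2]
    refine hX.2 j hj n ?_ h2
    exact (h.pdet (pdet_stop_le (isStop_tau (𝒢 := 𝒢) (j + 1))) h2).2 h1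

lemma U_congr {X Y : Ω} {j : ℕ} {t : ℕ∞} (h : Ag 𝒢.W t X Y) (hj : 𝒢.tau j X ≤ t)
    (hfin : 𝒢.tau j X ≠ ⊤) : 𝒢.U j Y = 𝒢.U j X := by
  have e1 : 𝒢.tau j Y = 𝒢.tau j X := h.stop_eq (isStop_tau _) hj
  obtain ⟨m, hm⟩ := ENat.ne_top_iff_exists.1 hfin
  unfold U
  rw [e1, ← hm, ENat.toNat_natCast]
  exact (h.pos (hm ▸ hj)).symm

include h𝒢 in
lemma Gd.U_congr {X Y : Ω} (hX : 𝒢.Gd X) (h : Ag 𝒢.W (𝒢.tau 𝒢.M X) X Y) {j : ℕ}
    (hj : j ≤ 𝒢.M) : 𝒢.U j Y = 𝒢.U j X := by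
  have h1 := tau_mono h𝒢 hj X
  exact Grid.U_congr h h1 (ne_top_of_lt (lt_of_le_of_lt h1 hX.1))

include h𝒢 in
lemma V_congr {X Y : Ω} {j : ℕ} (h : Ag 𝒢.W (𝒢.S j X) X Y) : 𝒢.V j Y = 𝒢.V j X := by
  unfold V
  rw [h.stop_eq (isStop_S h𝒢 j) le_rfl]
  exact (h.rows_eq h𝒢.hrd.det).symm

lemma kap_lt_congr (hrd : PDet 𝒢.W 𝒢.rd) {V : Set (Site d)} {T T' : Ω} {t : ℕ∞}
    (h : Ag 𝒢.W t T T') : kap 𝒢.W 𝒢.rd 𝒢.R V T < t ↔ kap 𝒢.W 𝒢.rd 𝒢.R V T' < t := by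
  constructor
  · intro h1
    rw [h.stop_eq (isStop_kap hrd V) h1.le]
    exact h1
  · intro h1
    rw [h.symm.stop_eq (isStop_kap hrd V) h1.le]
    exact h1

include h𝒢 in
lemma JS_congr {X X' T T' : Ω} {j : ℕ} (h : Ag 𝒢.W (𝒢.S j X) X X')
    (h' : Ag 𝒢.W (𝒢.S 𝒢.M T) T T') : 𝒢.JS j X T ↔ 𝒢.JS j X' T' := by
  unfold JS
  rw [V_congr h𝒢 h, h'.stop_eq (isStop_S h𝒢 𝒢.M) le_rfl]
  exact kap_lt_congr h𝒢.hrd.det h'

include h𝒢 in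
lemma Ek.congr {X X' T T' : Ω} {k : ℕ} (hE : 𝒢.Ek k X T) (h : Ag 𝒢.W (𝒢.S (k + 7) X) X X')
    (h' : Ag 𝒢.W (𝒢.S k T) T T') : 𝒢.Ek k X' T' := by
  obtain ⟨h1, h2, h3, h4⟩ := hE
  have e1 := S_eq_tau_of_lt h𝒢 h1
  have e2 := S_eq_tau_of_lt h𝒢 h2
  rw [e2] at h'
  have e3 : 𝒢.V (k + 7) X' = 𝒢.V (k + 7) X := V_congr h𝒢 h
  rw [e1] at h
  have e4 : 𝒢.tau (k + 7) X' = 𝒢.tau (k + 7) X := h.stop_eq (isStop_tau _) le_rfl
  have e5 : 𝒢.tau k T' = 𝒢.tau k T := h'.stop_eq (isStop_tau _) le_rfl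
  refine ⟨?_, ?_, ?_, ?_⟩
  · rw [e4]; exact h.lt_stop h𝒢.stopD h1
  · rw [e5]; exact h'.lt_stop h𝒢.stopD h2
  · rw [e3, e5]
    rw [← not_lt] at h3 ⊢
    exact fun h6 => h3 ((kap_lt_congr h𝒢.hrd.det h').2 h6)
  · rw [U_congr h le_rfl (ne_top_of_lt h1), U_congr h' le_rfl (ne_top_of_lt h2)]
    exact h4

include h𝒢 in
lemma Qk.congr {G : Site d → Measure (Path d)} {lam : ℝ≥0∞} {k n : ℕ} {X X' T T' : Ω}
    (hQ : 𝒢.Qk G lam k n X T) (h : 𝒢.W.hist n X = 𝒢.W.hist n X')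
    (h' : Ag 𝒢.W (𝒢.S k T) T T') : 𝒢.Qk G lam k n X' T' := by
  obtain ⟨hk, hrd, hn, hT, hkap, hlam⟩ := hQ
  have hA := ag_of_hist (W := 𝒢.W) h
  rw [S_eq_tau_of_lt h𝒢 hT] at h'
  have e5 : 𝒢.tau k T' = 𝒢.tau k T := h'.stop_eq (isStop_tau _) le_rfl
  have er : 𝒢.W.read X' (n + 1) = 𝒢.W.read X (n + 1) := by
    ext z
    rw [h𝒢.hrd.read_iff, h𝒢.hrd.read_iff]
    constructor
    · rintro ⟨i, hi, h1, h2⟩
      have hi' : (i : ℕ∞) ≤ n := by exact_mod_cast (by omega : i ≤ n)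
      exact ⟨i, hi, (hA.pdet h𝒢.hrd.det hi').2 h1, by rw [hA.pos hi']; exact h2⟩
    · rintro ⟨i, hi, h1, h2⟩
      have hi' : (i : ℕ∞) ≤ n := by exact_mod_cast (by omega : i ≤ n)
      exact ⟨i, hi, (hA.pdet h𝒢.hrd.det hi').1 h1, by rw [← hA.pos hi']; exact h2⟩
  refine ⟨hk, (hA.pdet h𝒢.hrd.det le_rfl).1 hrd, hA.lt_stop (isStop_S h𝒢 _) hn, ?_, ?_, ?_⟩
  · rw [e5]; exact h'.lt_stop h𝒢.stopD hT
  · rw [er, e5]
    rw [← not_lt] at hkap ⊢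
    exact fun h6 => hkap ((kap_lt_congr h𝒢.hrd.det h').2 h6)
  · rw [U_congr h' le_rfl (ne_top_of_lt hT), ← hA.pos le_rfl]
    exact hlam

/-! ### the sets -/

/-- contact of good paths at stage `k+5`, `T` natural in window `k`. -/
def UU (𝒢 : Grid d Ω) : Set (Ω × Ω) :=
  {p | ∃ k, k + 7 ≤ 𝒢.M ∧ 𝒢.JS (k + 5) p.1 p.2 ∧ ¬ 𝒢.JS (k + 4) p.1 p.2 ∧ 𝒢.Gd p.1 ∧ 𝒢.Gd p.2 ∧
    𝒢.Nt k p.2}

/-- closeness in some window. -/
def UE (𝒢 : Grid d Ω) : Set (Ω × Ω) := {p | ∃ k, k + 7 ≤ 𝒢.M ∧ 𝒢.Ek k p.1 p.2}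

/-- some success state. -/
def UQ (𝒢 : Grid d Ω) (G : Site d → Measure (Path d)) (lam : ℝ≥0∞) : Set (Ω × Ω) :=
  {p | ∃ k n, 𝒢.Qk G lam k n p.1 p.2}

include h𝒢 in
lemma measurableSet_UU : MeasurableSet 𝒢.UU := by
  refine measurableSet_of_open_pair 𝒢.W _ ?_
  rintro ⟨X, T⟩ ⟨k, hk, h1, h2, h3, h4, h5⟩
  simp only at h1 h2 h3 h4 h5
  obtain ⟨m, hm⟩ := exists_nat_of_lt h3.1
  obtain ⟨m', hm'⟩ := exists_nat_of_lt h4.1
  refine ⟨max m m', ?_⟩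
  rintro ⟨X', T'⟩ hX hT
  simp only at hX hT
  have hA : Ag 𝒢.W (𝒢.tau 𝒢.M X) X X' := by
    rw [hm]; exact (ag_of_hist hX).mono (by exact_mod_cast le_max_left m m')
  have hA' : Ag 𝒢.W (𝒢.tau 𝒢.M T) T T' := by
    rw [hm']; exact (ag_of_hist hT).mono (by exact_mod_cast le_max_right m m')
  have hSM : Ag 𝒢.W (𝒢.S 𝒢.M T) T T' := by rw [h4.S_eq h𝒢 le_rfl]; exact hA'
  have hS : ∀ j ≤ 𝒢.M, Ag 𝒢.W (𝒢.S j X) X X' := fun j hj => by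
    rw [h3.S_eq h𝒢 hj]; exact hA.mono (tau_mono h𝒢 hj X)
  refine ⟨k, hk, ?_, ?_, h3.congr h𝒢 hA, h4.congr h𝒢 hA', ?_⟩
  · exact (JS_congr h𝒢 (hS _ (by omega)) hSM).1 h1
  · exact fun h => h2 ((JS_congr h𝒢 (hS _ (by omega)) hSM).2 h)
  · unfold Nt
    simp only
    rw [h4.U_congr h𝒢 hA' hk, h4.U_congr h𝒢 hA' (by omega)]
    exact h5

include h𝒢 in
lemma measurableSet_UE : MeasurableSet 𝒢.UE := by
  refine measurableSet_of_open_pair 𝒢.W _ ?_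
  rintro ⟨X, T⟩ ⟨k, hk, hE⟩
  simp only at hE
  obtain ⟨m, hm⟩ := exists_nat_of_lt hE.1
  obtain ⟨m', hm'⟩ := exists_nat_of_lt hE.2.1
  refine ⟨max m m', ?_⟩
  rintro ⟨X', T'⟩ hX hT
  simp only at hX hT
  refine ⟨k, hk, hE.congr h𝒢 ?_ ?_⟩
  · rw [S_eq_tau_of_lt h𝒢 hE.1, hm]
    exact (ag_of_hist hX).mono (by exact_mod_cast le_max_left m m')
  · rw [S_eq_tau_of_lt h𝒢 hE.2.1, hm']
    exact (ag_of_hist hT).mono (by exact_mod_cast le_max_right m m')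

include h𝒢 in
lemma measurableSet_UQ (G : Site d → Measure (Path d)) (lam : ℝ≥0∞) :
    MeasurableSet (𝒢.UQ G lam) := by
  refine measurableSet_of_open_pair 𝒢.W _ ?_
  rintro ⟨X, T⟩ ⟨k, n, hQ⟩
  simp only at hQ
  have hT := hQ.2.2.2.1
  obtain ⟨m, hm⟩ := exists_nat_of_lt hT
  refine ⟨max n m, ?_⟩
  rintro ⟨X', T'⟩ hX hT'
  simp only at hX hT'
  refine ⟨k, n, hQ.congr h𝒢 (𝒢.W.mono _ _ (le_max_left n m) hX) ?_⟩
  rw [S_eq_tau_of_lt h𝒢 hT, hm]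
  exact (ag_of_hist hT').mono (by exact_mod_cast le_max_right n m)

lemma measurableSet_RI (k : ℕ) (y : Site d) : MeasurableSet (𝒢.RI k y) := by
  have h : 𝒢.RI k y = ⋃ m : ℕ, {Y | 𝒢.Lv (k + 7) ≤ 𝒢.lev (Y m) ∧
      (∀ i < m, 𝒢.lev (Y i) < 𝒢.Lv (k + 7)) ∧
      (∀ i ≤ m, 𝒢.Lv (k + 1) ≤ 𝒢.lev (Y i)) ∧ Y m - y - 𝒢.c k ∈ 𝒢.E} := by
    ext Y
    simp [RI]
  rw [h]
  refine MeasurableSet.iUnion fun m => measurableSet_of_agree m _ fun X Y hXY => ?_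
  have h0 := hXY m le_rfl
  constructor
  · rintro ⟨h1, h2, h3, h4⟩
    refine ⟨h0 ▸ h1, fun i hi => ?_, fun i hi => ?_, h0 ▸ h4⟩
    · rw [← hXY i hi.le]; exact h2 i hi
    · rw [← hXY i hi]; exact h3 i hi
  · rintro ⟨h1, h2, h3, h4⟩
    refine ⟨h0 ▸ h1, fun i hi => ?_, fun i hi => ?_, h0 ▸ h4⟩
    · rw [hXY i hi.le]; exact h2 i hi
    · rw [hXY i hi]; exact h3 i hi

/-! ### success of `X` -/

include h𝒢 in
lemma success {P : Measure Ω} {G : Site d → Measure (Path d)} {c₀ lam : ℝ≥0∞}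
    (hML : ML 𝒢.W 𝒢.rd P G c₀) (T : Ω) :
    c₀ * lam * P {X | (X, T) ∈ 𝒢.UQ G lam} ≤ P {X | (X, T) ∈ 𝒢.UE} := by
  classical
  set p : Ω → ℕ → Prop := fun X n => ∃ k, 𝒢.Qk G lam k n X T with hp
  have hpd : PDet 𝒢.W p := fun n X Y h =>
    ⟨fun ⟨k, hk⟩ => ⟨k, hk.congr h𝒢 h (Ag.refl T)⟩, fun ⟨k, hk⟩ => ⟨k, hk.congr h𝒢 h.symm (Ag.refl T)⟩⟩
  set ρ : Ω → ℕ∞ := fun X => ft (p X) with hρ
  have hstop : 𝒢.W.IsStop ρ := isStop_ft hpd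
  set B : Set Ω := {X | ρ X ≠ ⊤} with hBdef
  set kk : Ω → ℕ := fun X => sInf {k | 𝒢.Qk G lam k (ρ X).toNat X T} with hkk
  set F : Ω → Set (Path d) := fun X => 𝒢.RI (kk X) (𝒢.U (kk X) T) with hFdef
  have hspec : ∀ X ∈ B, 𝒢.Qk G lam (kk X) (ρ X).toNat X T := by
    intro X hX
    obtain ⟨n, hn⟩ := ENat.ne_top_iff_exists.1 hX
    have h1 : p X n := ft_spec hn.symm
    have h2 : {k | 𝒢.Qk G lam k (ρ X).toNat X T}.Nonempty := by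
      obtain ⟨k, hk⟩ := h1
      refine ⟨k, ?_⟩
      simp only [Set.mem_ofPred_eq]
      rw [← hn, ENat.toNat_natCast]
      exact hk
    exact Nat.sInf_mem h2
  have hB : ∀ X Y (n : ℕ), 𝒢.W.hist n X = 𝒢.W.hist n Y → ρ X = n → X ∈ B → Y ∈ B := by
    intro X Y n h hn _
    have : ρ Y = n := hstop X Y n h hn
    simp only [hBdef, Set.mem_ofPred_eq, this]
    exact ENat.natCast_ne_top n
  have hF : ∀ X Y (n : ℕ), 𝒢.W.hist n X = 𝒢.W.hist n Y → ρ X = n → X ∈ B → F X = F Y := by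
    intro X Y n h hn _
    have hn' : ρ Y = n := hstop X Y n h hn
    have : kk X = kk Y := by
      simp only [hkk, hn, hn', ENat.toNat_natCast]
      congr 1
      ext k
      exact ⟨fun hk => hk.congr h𝒢 h (Ag.refl T), fun hk => hk.congr h𝒢 h.symm (Ag.refl T)⟩
    simp only [hFdef, this]
  have key := sml (W := 𝒢.W) hstop (B := B) hB (fun X hX => hX) (F := F) hF
    (fun X => measurableSet_RI _ _) (rd := 𝒢.rd) (fun X hX => (hspec X hX).2.1) hML (a := lam)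
    (fun X hX => (hspec X hX).2.2.2.2.2.le)
  refine (mul_le_mul_right ?_ (c₀ * lam)).trans (key.trans (measure_mono ?_))
  · refine measure_mono ?_
    rintro X ⟨k, n, hk⟩
    have : ρ X ≤ n := ft_le (p := p X) ⟨k, hk⟩
    exact ne_top_of_le_ne_top (ENat.natCast_ne_top n) this
  · rintro X ⟨hX, hX2⟩
    have h1 := hspec X hX
    exact ⟨kk X, h1.1, Ek_of_Qk h𝒢 h1 hX2⟩

/-! ### naturality of `T` -/

/-- no backtrack up to time `n`. -/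
def PG (𝒢 : Grid d Ω) (T : Ω) (n : ℕ) : Prop :=
  ∀ j < 𝒢.M, ∀ m : ℕ, m ≤ n → 𝒢.tau (j + 1) T ≤ m → 𝒢.Lv j ≤ 𝒢.lev (𝒢.W.pos T m)

lemma pdet_PG : PDet 𝒢.W 𝒢.PG := by
  intro n X Y h
  have hA := ag_of_hist (W := 𝒢.W) h
  constructor
  · intro hX j hj m hm h1
    have hm' : (m : ℕ∞) ≤ n := by exact_mod_cast hm
    rw [← hA.pos hm']
    exact hX j hj m hm ((hA.pdet (pdet_stop_le (isStop_tau (𝒢 := 𝒢) (j + 1))) hm').2 h1)
  · intro hX j hj m hm h1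
    have hm' : (m : ℕ∞) ≤ n := by exact_mod_cast hm
    rw [hA.pos hm']
    exact hX j hj m hm ((hA.pdet (pdet_stop_le (isStop_tau (𝒢 := 𝒢) (j + 1))) hm').1 h1)

/-- the event at the first contact of `T` with the rows of stage `k+5` of `X`. -/
def BB (𝒢 : Grid d Ω) (G : Site d → Measure (Path d)) (lam : ℝ≥0∞) (X : Ω) (k : ℕ) : Set Ω :=
  {T | ∃ n : ℕ, kap 𝒢.W 𝒢.rd 𝒢.R (𝒢.V (k + 5) X) T = n ∧
    (n : ℕ∞) < kap 𝒢.W 𝒢.rd 𝒢.R (𝒢.V (k + 4) X) T ∧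
    𝒢.Lv (k + 2) ≤ 𝒢.lev (𝒢.W.pos T n) ∧ 𝒢.lev (𝒢.W.pos T n) < 𝒢.Lv (k + 6) ∧ 𝒢.PG T n ∧
    G (𝒢.W.pos T n) (𝒢.RI k (𝒢.U k T)) ≤ lam}

include h𝒢 in
lemma BB_congr {G : Site d → Measure (Path d)} {lam : ℝ≥0∞} {X : Ω} {k : ℕ} {T T' : Ω} {n : ℕ}
    (h : 𝒢.W.hist n T = 𝒢.W.hist n T') (hn : kap 𝒢.W 𝒢.rd 𝒢.R (𝒢.V (k + 5) X) T = n)
    (hT : T ∈ 𝒢.BB G lam X k) : T' ∈ 𝒢.BB G lam X k := by
  obtain ⟨m, hm, h1, h2, h3, h4, h5⟩ := hT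
  have hmn : m = n := by
    rw [hn] at hm
    exact_mod_cast hm.symm
  subst hmn
  have hA := ag_of_hist (W := 𝒢.W) h
  have htau : 𝒢.tau k T ≤ m := tau_le_of_le_lev ((h𝒢.mono (by omega)).trans h2)
  refine ⟨m, isStop_kap h𝒢.hrd.det _ T T' m h hm, hA.lt_stop (isStop_kap h𝒢.hrd.det _) h1, ?_, ?_,
    (pdet_PG m T T' h).1 h4, ?_⟩
  · rw [← hA.pos le_rfl]; exact h2
  · rw [← hA.pos le_rfl]; exact h3
  · rw [← hA.pos le_rfl, U_congr hA htau (ne_top_of_le_ne_top (ENat.natCast_ne_top m) htau)]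
    exact h5

include h𝒢 in
lemma measurableSet_BB (G : Site d → Measure (Path d)) (lam : ℝ≥0∞) (X : Ω) (k : ℕ) :
    MeasurableSet (𝒢.BB G lam X k) := by
  refine measurableSet_of_open 𝒢.W _ fun T hT => ?_
  obtain ⟨n, hn, -⟩ := id hT
  exact ⟨n, fun T' h => BB_congr h𝒢 h hn hT⟩

include h𝒢 in
lemma natural {P : Measure Ω} {G : Site d → Measure (Path d)} {C₀ lam : ℝ≥0∞}
    (hMU : MU 𝒢.W P G C₀) (X : Ω) (k : ℕ) :
    P {T | T ∈ 𝒢.BB G lam X k ∧ shp 𝒢.W (kap 𝒢.W 𝒢.rd 𝒢.R (𝒢.V (k + 5) X) T).toNat T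
      ∈ 𝒢.RI k (𝒢.U k T)} ≤ C₀ * lam * P (𝒢.BB G lam X k) := by
  refine smu (W := 𝒢.W) (isStop_kap (R := 𝒢.R) h𝒢.hrd.det (𝒢.V (k + 5) X)) ?_ ?_ ?_
    (fun T => measurableSet_RI _ _) hMU ?_
  · intro T T' n h hn hT
    exact BB_congr h𝒢 h hn hT
  · rintro T ⟨n, hn, -⟩
    rw [hn]
    exact ENat.natCast_ne_top n
  · rintro T T' n h hn ⟨m, hm, h1, h2, -⟩
    have hmn : m = n := by
      rw [hn] at hm
      exact_mod_cast hm.symm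
    subst hmn
    have hA := ag_of_hist (W := 𝒢.W) h
    have htau : 𝒢.tau k T ≤ m := tau_le_of_le_lev ((h𝒢.mono (by omega)).trans h2)
    rw [U_congr hA htau (ne_top_of_le_ne_top (ENat.natCast_ne_top m) htau)]
  · rintro T ⟨n, hn, -, -, -, -, h5⟩
    rw [hn, ENat.toNat_natCast]
    exact h5

include h𝒢 in
/-- the contact stages are localised. -/
lemma BB_close {G : Site d → Measure (Path d)} {lam : ℝ≥0∞} {X T : Ω} {k l : ℕ} (hkl : k < l)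
    (hl : l + 7 ≤ 𝒢.M) (hk : T ∈ 𝒢.BB G lam X k) (hl' : T ∈ 𝒢.BB G lam X l) : l ≤ k + 4 := by
  obtain ⟨n, hn, -, -, h3, h4, -⟩ := hk
  obtain ⟨m, hm, g1, g2, -⟩ := hl'
  by_contra hcon
  rw [not_le] at hcon
  have h1 : kap 𝒢.W 𝒢.rd 𝒢.R (𝒢.V (l + 4) X) T ≤ kap 𝒢.W 𝒢.rd 𝒢.R (𝒢.V (k + 5) X) T :=
    kap_anti (V_mono h𝒢 (by omega) X) T
  rw [hn] at h1
  have h2 : m < n := by exact_mod_cast lt_of_lt_of_le g1 h1
  have h5 : 𝒢.tau (l + 2) T ≤ m := tau_le_of_le_lev g2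
  have h8 : 𝒢.tau (l + 1 + 1) T ≤ n := h5.trans (by exact_mod_cast h2.le)
  have h9 := h4 (l + 1) (by omega) n le_rfl h8
  have := h𝒢.mono (show k + 6 ≤ l + 1 by omega)
  omega

include h𝒢 in
lemma sum_BB (P : Measure Ω) [IsProbabilityMeasure P] (G : Site d → Measure (Path d))
    (lam : ℝ≥0∞) (X : Ω) :
    ∑ k ∈ Finset.range (𝒢.M - 6), P (𝒢.BB G lam X k) ≤ 5 := by
  classical
  have hm := fun k => measurableSet_BB h𝒢 G lam X k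
  calc ∑ k ∈ Finset.range (𝒢.M - 6), P (𝒢.BB G lam X k)
      = ∫⁻ T, ∑ k ∈ Finset.range (𝒢.M - 6), (𝒢.BB G lam X k).indicator 1 T ∂P := by
        rw [lintegral_finset_sum _ fun k _ => measurable_one.indicator (hm k)]
        exact Finset.sum_congr rfl fun k _ => (lintegral_indicator_one (hm k)).symm
    _ ≤ ∫⁻ _, 5 ∂P := by
        refine lintegral_mono fun T => ?_
        have h1 : ∑ k ∈ Finset.range (𝒢.M - 6), (𝒢.BB G lam X k).indicator (1 : Ω → ℝ≥0∞) T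
            = (((Finset.range (𝒢.M - 6)).filter fun k => T ∈ 𝒢.BB G lam X k).card : ℝ≥0∞) := by
          rw [Finset.card_filter]
          push_cast
          refine Finset.sum_congr rfl fun k _ => ?_
          by_cases h : T ∈ 𝒢.BB G lam X k <;> simp [h]
        simp only
        rw [h1]
        have h2 : ((Finset.range (𝒢.M - 6)).filter fun k => T ∈ 𝒢.BB G lam X k).card ≤ 5 := by
          rcases Finset.eq_empty_or_nonempty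
            ((Finset.range (𝒢.M - 6)).filter fun k => T ∈ 𝒢.BB G lam X k) with h | h
          · rw [h]; simp
          · set s := (Finset.range (𝒢.M - 6)).filter fun k => T ∈ 𝒢.BB G lam X k with hs
            have hsub : s ⊆ Finset.Icc (s.min' h) (s.min' h + 4) := by
              intro l hl
              rw [Finset.mem_Icc]
              have h3 := Finset.min'_le s l hl
              refine ⟨h3, ?_⟩
              rcases Nat.lt_or_ge (s.min' h) l with h4 | h4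
              · have h5 := Finset.min'_mem s h
                have h6 := (Finset.mem_filter.1 h5).2
                obtain ⟨h7, h8⟩ := Finset.mem_filter.1 hl
                rw [Finset.mem_range] at h7
                exact BB_close h𝒢 h4 (by omega) h6 h8
              · omega
            refine (Finset.card_le_card hsub).trans ?_
            rw [Nat.card_Icc]
            omega
        calc ((((Finset.range (𝒢.M - 6)).filter fun k => T ∈ 𝒢.BB G lam X k).card : ℕ) : ℝ≥0∞)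
            ≤ ((5 : ℕ) : ℝ≥0∞) := by exact_mod_cast h2
          _ = 5 := by norm_num
    _ = 5 := by simp

include h𝒢 in
/-- **fixed environment estimate** -/
theorem fixed_env {P₁ P₂ : Measure Ω} [IsProbabilityMeasure P₁] [IsProbabilityMeasure P₂]
    {G : Site d → Measure (Path d)} {C₀ c₀ h₀ lam : ℝ≥0∞} (hc : c₀ ≠ 0) (hc' : c₀ ≠ ⊤)
    (h0 : h₀ ≠ 0) (h0' : h₀ ≠ ⊤) (hl : lam ≠ 0) (hl' : lam ≠ ⊤)
    (hMU : MU 𝒢.W P₂ G C₀) (hML : ML 𝒢.W 𝒢.rd P₁ G c₀)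
    (hH : ∀ k, ∀ a z : Site d, (∀ l, |a l - z l| ≤ (𝒢.R : ℤ)) → 𝒢.Lv (k + 2) ≤ 𝒢.lev z →
      𝒢.lev z < 𝒢.Lv (k + 6) → ∀ y, h₀ * G z (𝒢.RI k y) ≤ G a (𝒢.RI k y)) :
    (P₁.prod P₂) 𝒢.UU ≤ 5 * (C₀ * lam) + (c₀ * (h₀ * lam))⁻¹ * (P₁.prod P₂) 𝒢.UE := by
  have mU := measurableSet_UU h𝒢
  have mE := measurableSet_UE h𝒢
  have mQ := measurableSet_UQ h𝒢 G (h₀ * lam)
  have hx : c₀ * (h₀ * lam) ≠ 0 := by
    simp only [ne_eq, mul_eq_zero, not_or]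
    exact ⟨hc, h0, hl⟩
  have hx' : c₀ * (h₀ * lam) ≠ ⊤ := ENNReal.mul_ne_top hc' (ENNReal.mul_ne_top h0' hl')
  have h1 : (P₁.prod P₂) 𝒢.UU ≤ (P₁.prod P₂) (𝒢.UU \ 𝒢.UQ G (h₀ * lam))
      + (P₁.prod P₂) (𝒢.UQ G (h₀ * lam)) := by
    refine le_trans (measure_mono ?_) (measure_union_le _ _)
    intro p hp
    by_cases h : p ∈ 𝒢.UQ G (h₀ * lam)
    · exact Or.inr h
    · exact Or.inl ⟨hp, h⟩
  refine h1.trans (add_le_add ?_ ?_)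
  · -- naturality of `T`
    rw [Measure.prod_apply (mU.diff mQ)]
    have hX : ∀ X : Ω, P₂ (Prod.mk X ⁻¹' (𝒢.UU \ 𝒢.UQ G (h₀ * lam))) ≤ 5 * (C₀ * lam) := by
      intro X
      have hsub : Prod.mk X ⁻¹' (𝒢.UU \ 𝒢.UQ G (h₀ * lam)) ⊆
          ⋃ k ∈ Finset.range (𝒢.M - 6), {T | T ∈ 𝒢.BB G lam X k ∧
            shp 𝒢.W (kap 𝒢.W 𝒢.rd 𝒢.R (𝒢.V (k + 5) X) T).toNat T ∈ 𝒢.RI k (𝒢.U k T)} := by
        rintro T ⟨⟨k, hk, g1, g2, g3, g4, g5⟩, hq⟩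
        simp only at g1 g2 g3 g4 g5
        obtain ⟨n, i, hkap, hn, hrT, hrX, hi, hi', hnear⟩ := JS_step g1 g2
        obtain ⟨e1, e2, -⟩ := alive_of hi hi'
        have hn' : (n : ℕ∞) < 𝒢.tau 𝒢.M T := lt_of_lt_of_le hn (S_le_tau _ _)
        obtain ⟨f1, f2, f3, f4⟩ := geo h𝒢 hk g3 g4 e1 e2 hn' hnear
        have hlam : G (𝒢.W.pos T n) (𝒢.RI k (𝒢.U k T)) ≤ lam := by
          by_contra hcon
          rw [not_le] at hcon
          exact hq ⟨k, i, Qk_of_contact h𝒢 h0 h0' hk g3 g4 hkap hrX e1 e2 hn' hnear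
            (fun a z h2 h3 h4 y => hH k a z h2 h3 h4 y) hcon⟩
        refine Set.mem_biUnion (x := k) (Finset.mem_coe.2 (Finset.mem_range.2 (by omega))) ⟨⟨n, hkap, ?_, f1, f2, ?_, hlam⟩, ?_⟩
        · refine lt_of_lt_of_le hn ?_
          by_contra hcon
          rw [not_le] at hcon
          exact g2 hcon
        · intro j hj m hm h2
          refine g4.2 j hj m h2 (le_trans (by exact_mod_cast hm) hn'.le)
        · rw [hkap, ENat.toNat_natCast]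
          exact shp_mem_RI h𝒢 hk g4 g5 f3 f4
      calc P₂ (Prod.mk X ⁻¹' (𝒢.UU \ 𝒢.UQ G (h₀ * lam)))
          ≤ ∑ k ∈ Finset.range (𝒢.M - 6), P₂ {T | T ∈ 𝒢.BB G lam X k ∧
            shp 𝒢.W (kap 𝒢.W 𝒢.rd 𝒢.R (𝒢.V (k + 5) X) T).toNat T ∈ 𝒢.RI k (𝒢.U k T)} :=
            (measure_mono hsub).trans (measure_biUnion_finset_le _ _)
        _ ≤ ∑ k ∈ Finset.range (𝒢.M - 6), C₀ * lam * P₂ (𝒢.BB G lam X k) :=
            Finset.sum_le_sum fun k _ => natural h𝒢 hMU X k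
        _ = C₀ * lam * ∑ k ∈ Finset.range (𝒢.M - 6), P₂ (𝒢.BB G lam X k) := by
            rw [Finset.mul_sum]
        _ ≤ C₀ * lam * 5 := by gcongr; exact sum_BB h𝒢 P₂ G lam X
        _ = 5 * (C₀ * lam) := by ring
    calc ∫⁻ X, P₂ (Prod.mk X ⁻¹' (𝒢.UU \ 𝒢.UQ G (h₀ * lam))) ∂P₁
        ≤ ∫⁻ _, 5 * (C₀ * lam) ∂P₁ := lintegral_mono hX
      _ = 5 * (C₀ * lam) := by simp
  · -- success of `X`
    rw [Measure.prod_apply_symm mQ, Measure.prod_apply_symm mE]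
    rw [← lintegral_const_mul _ (measurable_measure_prodMk_right mE)]
    refine lintegral_mono fun T => ?_
    have h2 := success h𝒢 (lam := h₀ * lam) hML T
    simp only
    rw [← ENNReal.div_eq_inv_mul, ENNReal.le_div_iff_mul_le (Or.inl hx) (Or.inl hx'), mul_comm]
    exact h2

end Grid

end Cont

end Crest.Agent.R154
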