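import Crest.Agent.R154.B6Laws_833

/-! Row 154, B4 (helper424): the trunk input `Trunk` of the contact estimate KB, in terms of the
marked law `mkAnn κ Q 0`. -/

set_option autoImplicit false

open MeasureTheory ProbabilityTheory Filter Set
open scoped ENNReal Topology

namespace Crest.Agent.R154.KB424

open Crest.ProbabilityR.RandomEnvironment Crest.Agent.R154.Q561 Crest.Agent.R154.Ren263
open Crest.Agent.R154.Mk561 Crest.Agent.R154.B6I

variable {d : ℕ} (u : Step d)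

/-- position, relative to the start, at the first hit of height `l` -/
noncomputable def Up (l : ℕ) (M : MPath d) : Site d := pos 0 M (hn u l M)

/-- never below the start -/
def NS : Set (MPath d) := {M | ∀ n, 0 ≤ zt u M n}

/-- no cut level in `[L, L + t]` -/
def NoCutW (L t : ℕ) (M : MPath d) : Prop :=
  ∀ l n, L ≤ l → l ≤ L + t → Hit u l M n → ∃ i, n ≤ i ∧ zt u M i < l

/-- **the trunk input**: windows `[L, L + 7t]`, displacement set `E` (contains the centre). -/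
def Trunk (κ : ℝ) (Q : Measure (Environment d)) : Prop :=
  ∀ ε : ℝ≥0∞, ε ≠ 0 → ∃ K₀ : ℕ, ∀ K ≥ K₀, ∃ T₀ : ℕ, ∀ t ≥ T₀, ∃ (E : Set (Site d)) (w : ℝ≥0∞),
    (K : ℝ≥0∞) * w ^ 2 ≤ ε ∧
    (∀ L, mkAnn κ Q 0 {M | M ∈ NS u ∧ Up u (L + 7 * t) M - Up u L M ∉ E} ≤ w) ∧
    (∀ y : Site d, ((mkAnn κ Q 0).prod (mkAnn κ Q 0))
      {p | p.1 ∈ NS u ∧ p.2 ∈ NS u ∧ ∃ k, K ≤ 2 * k ∧ k ≤ 3 * K ∧
        Up u ((k + 7) * t) p.1 - Up u (k * t) p.2 - y ∈ E} ≤ ε) ∧
    (∀ L, (K : ℝ≥0∞) * mkAnn κ Q 0 {M | M ∈ NS u ∧ NoCutW u L t M} ≤ ε)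

end Crest.Agent.R154.KB424
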