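import Crest.Agent.R154.Restart_850

/-! Row 154, B0d: instances of `MarkovWS` (unmarked walk, marked walk of 561) and fresh restart at
level hitting times. -/

set_option autoImplicit false

namespace Crest.Agent.R154

open MeasureTheory ProbabilityTheory Crest.ProbabilityR.RandomEnvironment WalkSpace
open scoped ENNReal

variable {d : ℕ}

/-! ### unmarked walk -/

/-- quenched kernel. -/
noncomputable def quK (x : Site d) : Kernel (Environment d) (Path d) := qKF (Measure.dirac x)

lemma quK_apply (x : Site d) (ω : Environment d) : quK x ω = quenchedLaw ω x := qFrom_dirac ω x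

instance (x : Site d) : IsMarkovKernel (quK (d := d) x) :=
  ⟨fun ω => by rw [quK_apply]; infer_instance⟩

/-- the unmarked Markov walk space. -/
noncomputable def pathM (d : ℕ) : MarkovWS (pathWS d) where
  sh := shift
  meas_sh := measurable_shift
  P := quK
  prob := fun x => inferInstance
  markov := by
    intro ω x γ n B hB
    rw [quK_apply, quK_apply, pathWS_cyl]
    have h := congrArg (fun μ : Measure (Path d) => μ B) (markov_cyl ω x γ n)
    simp only [Measure.map_apply (measurable_shift n) hB,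
      Measure.restrict_apply (measurable_shift n hB), Measure.smul_apply, smul_eq_mul] at h
    rw [Set.inter_comm]
    exact h
  pos_sh n X k := rfl
  reads Q x := readsOnly_qKF Q _

/-! ### marked walk -/

/-- marked quenched kernel from `x`. -/
noncomputable def smP (κ : ℝ) (x : Site d) : Kernel (Environment d) (SMPath d) :=
  smK κ (Measure.dirac x)

lemma smP_apply (κ : ℝ) (x : Site d) (ω : Environment d) : smP κ x ω = smLaw κ ω x := by
  refine Measure.ext fun A hA => ?_
  rw [smP, smK_apply κ _ ω hA, tsum_eq_single x]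
  · rw [Measure.dirac_apply' _ (measurableSet_singleton _)]
    simp [smLaw, Measure.map_apply measurable_prodMk_left hA]
  · intro y hy
    rw [Measure.dirac_apply' _ (measurableSet_singleton _)]
    simp [Ne.symm hy]

instance (κ : ℝ) (x : Site d) : IsMarkovKernel (smP (d := d) κ x) := by
  unfold smP; infer_instance

lemma smP_apply' (κ : ℝ) (x : Site d) (ω : Environment d) {A : Set (SMPath d)}
    (hA : MeasurableSet A) :
    smP κ x ω A = Mk561.mkLaw κ ω x {M | (x, M) ∈ A} := by
  rw [smP_apply, smLaw, Measure.map_apply measurable_prodMk_left hA]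
  rfl

/-- shift of a marked path. -/
def mkSh (n : ℕ) (p : SMPath d) : SMPath d := (Mk561.pos p.1 p.2 n, Ren263.shift n p.2)

lemma measurable_mkSh (n : ℕ) : Measurable (mkSh (d := d) n) := by
  refine Measurable.prodMk ?_ ?_
  · refine measurable_from_prod_countable_right fun x => ?_
    have h : Measurable (Mk561.mpath x : Mk561.MPath d → Path d) := Mk561.measurable_mpath x
    exact (measurable_pi_apply n).comp h
  · exact (Ren263.measurable_shift n).comp measurable_snd

/-- the marked Markov walk space. -/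
noncomputable def mkM (κ : ℝ) (m₀ : Mk561.Mark d) : MarkovWS (mkWS m₀) where
  sh := mkSh
  meas_sh := measurable_mkSh
  P := smP κ
  prob := fun x => inferInstance
  markov := by
    intro ω x γ n B hB
    have hc := (mkWS m₀).measurableSet_cyl γ n
    rw [smP_apply' κ x ω (hc.inter (measurable_mkSh n hB)), smP_apply' κ x ω hc,
      smP_apply' κ _ ω hB]
    by_cases hx : x = γ.1
    · subst hx
      have e1 : {M : Mk561.MPath d | (γ.1, M) ∈ (mkWS m₀).cyl γ n} = Mk561.Cy γ.2 n := by
        ext M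
        change mkHist n (γ.1, M) = mkHist n γ ↔ _
        rw [mkHist_eq_iff]
        simp [Mk561.Cy]
      have e2 : {M : Mk561.MPath d | (γ.1, M) ∈ (mkWS m₀).cyl γ n ∩ mkSh n ⁻¹' B}
          = Mk561.Cy γ.2 n ∩ Ren263.shift n ⁻¹' {M | (Mk561.pos γ.1 γ.2 n, M) ∈ B} := by
        ext M
        simp only [Set.mem_ofPred_eq, Set.mem_inter_iff, Set.mem_preimage]
        rw [← Set.mem_ofPred_eq (p := fun M : Mk561.MPath d => (γ.1, M) ∈ (mkWS m₀).cyl γ n), e1]
        refine and_congr_right fun hM => ?_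
        unfold mkSh
        rw [Mk561.pos_congr γ.1 (M := M) (M' := γ.2) hM le_rfl]
      rw [e2, e1]
      have hB' : MeasurableSet {M : Mk561.MPath d | (Mk561.pos γ.1 γ.2 n, M) ∈ B} :=
        measurable_prodMk_left hB
      rw [Mk561.markov_Cy κ ω γ.1 γ.2 n hB', Mk561.mk_cyl]
      rfl
    · have e1 : {M : Mk561.MPath d | (x, M) ∈ (mkWS m₀).cyl γ n} = ∅ := by
        ext M
        simp only [Set.mem_ofPred_eq, Set.mem_empty_iff_false, iff_false]
        intro h
        have h' : mkHist n (x, M) = mkHist n γ := h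
        rw [mkHist_eq_iff] at h'
        exact hx h'.1
      have e2 : {M : Mk561.MPath d | (x, M) ∈ (mkWS m₀).cyl γ n ∩ mkSh n ⁻¹' B} = ∅ := by
        rw [Set.eq_empty_iff_forall_notMem] at e1 ⊢
        intro M hM
        exact e1 M hM.1
      rw [e1, e2]
      simp
  pos_sh n X k := Mk561.pos_shift X.1 X.2 n k
  reads Q x := readsOnly_smK Q κ _ m₀

/-! ### levels -/

/-- a level function: levels that differ by more than `R` are at sup distance more than `R`. -/
def LevFun (L : Site d → ℤ) : Prop := ∀ a b : Site d, ∃ i, |L a - L b| ≤ |a i - b i|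

namespace MarkovWS

variable {Ω : Type} [MeasurableSpace Ω] {W : WalkSpace d Ω} (M : MarkovWS W)

/-- first time at level `≥ j`. -/
noncomputable def hitL (W : WalkSpace d Ω) (L : Site d → ℤ) (j : ℤ) (X : Ω) : ℕ∞ :=
  firstTime (fun z => j ≤ L z) (W.pos X)

lemma isStop_hitL (L : Site d → ℤ) (j : ℤ) : W.IsStop (hitL W L j) :=
  W.isStop_pos (isStop_firstTime _)

lemma read_hitL {L : Site d → ℤ} {j : ℤ} {X : Ω} {z : Site d}
    (hz : z ∈ W.readE X (hitL W L j X)) : L z < j := by
  obtain ⟨i, hi, hz⟩ := hz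
  obtain ⟨k, hk, rfl⟩ := W.read_sub X i hz
  by_contra hcon
  push Not at hcon
  have h1 : hitL W L j X ≤ k := firstTime_le (p := fun z => j ≤ L z) (X := W.pos X) hcon
  have h2 : (i : ℕ∞) ≤ k := hi.trans h1
  have h3 : i ≤ k := by exact_mod_cast h2
  omega

lemma far_of_lev {R : ℕ} {L : Site d → ℤ} (hL : LevFun L) {j : ℤ} {U : Set (Site d)}
    (hU : ∀ a ∈ U, L a < j) {z : Site d} (hz : j + R ≤ L z) : z ∈ far R U := by
  intro a ha
  obtain ⟨i, hi⟩ := hL a z
  refine ⟨i, lt_of_lt_of_le ?_ hi⟩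
  have h1 := hU a ha
  rw [abs_sub_comm, abs_of_pos (by omega)]
  omega

variable {Q : Measure (Environment d)} {R : ℕ}

/-- **fresh restart at level `j`, one walker** (frame, range `R`). -/
theorem freshLev1 (hQ : IndepAt R Q) {L : Site d → ℤ} (hL : LevFun L) (j : ℤ)
    {G : Ω → Ω → ℝ≥0∞} (hG1 : W.DetBy (hitL W L j) G) (hG2 : ∀ X, Measurable (G X))
    (hG3 : ∀ X Y, G X Y ≠ 0 → ∀ n, ∀ z ∈ W.read Y n, j + R ≤ L z) (x : Site d) :
    ∫⁻ X in {X | hitL W L j X < ⊤}, G X (M.sh (hitL W L j X).toNat X) ∂(Q.bind (M.P x))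
      = ∫⁻ X in {X | hitL W L j X < ⊤},
          ∫⁻ Y, G X Y ∂(Q.bind (M.P (W.pos X (hitL W L j X).toNat))) ∂(Q.bind (M.P x)) :=
  M.fresh1 hQ (isStop_hitL L j) hG1 hG2
    (fun X Y _ h n z hz => far_of_lev hL (fun _ ha => read_hitL ha) (hG3 X Y h n z hz)) x

/-- **fresh restart at level `j`, two walkers in the same environment** (frame, range `R`). -/
theorem freshLev2 [Nonempty Ω] (hQ : IndepAt R Q) {L : Site d → ℤ} (hL : LevFun L) (j : ℤ)
    {G : Ω × Ω → Ω × Ω → ℝ≥0∞} (hG1 : Det2 W (hitL W L j) (hitL W L j) G)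
    (hG2 : ∀ p, Measurable (G p))
    (hG3 : ∀ p q, G p q ≠ 0 → ∀ n, ∀ z ∈ W.read q.1 n ∪ W.read q.2 n, j + R ≤ L z)
    (x x' : Site d) :
    ∫⁻ z in {z | hitL W L j z.1 < ⊤ ∧ hitL W L j z.2 < ⊤},
        G z (M.sh (hitL W L j z.1).toNat z.1, M.sh (hitL W L j z.2).toNat z.2)
          ∂(same Q (M.P x) (M.P x'))
      = ∫⁻ z in {z | hitL W L j z.1 < ⊤ ∧ hitL W L j z.2 < ⊤}, ∫⁻ y, G z y
          ∂(same Q (M.P (W.pos z.1 (hitL W L j z.1).toNat))
            (M.P (W.pos z.2 (hitL W L j z.2).toNat)))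
          ∂(same Q (M.P x) (M.P x')) := by
  refine M.fresh2 hQ (isStop_hitL L j) (isStop_hitL L j) hG1 hG2 ?_ x x'
  intro p q _ _ h n z hz
  refine far_of_lev (j := j) hL ?_ (hG3 p q h n z hz)
  rintro a (ha | ha)
  · exact read_hitL ha
  · exact read_hitL ha

/-- event form of `freshLev2`: `A` decided up to the hits of level `j`, `B` reads only levels
`≥ j + R`. -/
theorem freshLev2_event [Nonempty Ω] (hQ : IndepAt R Q) {L : Site d → ℤ} (hL : LevFun L) (j : ℤ)
    {A : Set (Ω × Ω)} (hA : MeasurableSet A)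
    (hA1 : Det2 W (hitL W L j) (hitL W L j) (fun p => p ∈ A))
    (hA2 : ∀ p ∈ A, hitL W L j p.1 < ⊤ ∧ hitL W L j p.2 < ⊤)
    {B : Set (Ω × Ω)} (hB : MeasurableSet B)
    (hB1 : ∀ q ∈ B, ∀ n, ∀ z ∈ W.read q.1 n ∪ W.read q.2 n, j + R ≤ L z) (x x' : Site d) :
    same Q (M.P x) (M.P x')
        (A ∩ {z | (M.sh (hitL W L j z.1).toNat z.1, M.sh (hitL W L j z.2).toNat z.2) ∈ B})
      = ∫⁻ z in A, same Q (M.P (W.pos z.1 (hitL W L j z.1).toNat))
            (M.P (W.pos z.2 (hitL W L j z.2).toNat)) B ∂(same Q (M.P x) (M.P x')) := by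
  classical
  set T := hitL W L j with hTdef
  have hT : W.IsStop T := isStop_hitL L j
  have h := M.freshLev2 hQ hL j
    (G := fun p q => A.indicator (fun _ => (1 : ℝ≥0∞)) p * B.indicator (fun _ => 1) q) ?_ ?_ ?_ x x'
  · set S : Set (Ω × Ω) := {z | T z.1 < ⊤ ∧ T z.2 < ⊤} with hS
    have hSm : MeasurableSet S :=
      ((W.measurableSet_stop_lt hT).prod (W.measurableSet_stop_lt hT))
    have hAS : A ⊆ S := hA2
    have hth : MeasurableSet (A ∩ {z | (M.sh (T z.1).toNat z.1, M.sh (T z.2).toNat z.2) ∈ B}) := by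
      have : A ∩ {z | (M.sh (T z.1).toNat z.1, M.sh (T z.2).toNat z.2) ∈ B}
          = ⋃ n : ℕ, ⋃ m : ℕ, (A ∩ ({z | T z.1 = n} ∩ {z | T z.2 = m})) ∩
              {z | (M.sh n z.1, M.sh m z.2) ∈ B} := by
        ext z
        simp only [Set.mem_inter_iff, Set.mem_ofPred_eq, Set.mem_iUnion]
        constructor
        · rintro ⟨hz, hb⟩
          obtain ⟨h1, h2⟩ := hA2 z hz
          obtain ⟨n, hn⟩ := ENat.ne_top_iff_exists.1 h1.ne
          obtain ⟨m, hm⟩ := ENat.ne_top_iff_exists.1 h2.ne
          refine ⟨n, m, ⟨hz, hn.symm, hm.symm⟩, ?_⟩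
          rwa [← hn, ← hm, ENat.toNat_natCast, ENat.toNat_natCast] at hb
        · rintro ⟨n, m, ⟨hz, hn, hm⟩, hb⟩
          refine ⟨hz, ?_⟩
          rwa [hn, hm, ENat.toNat_natCast, ENat.toNat_natCast]
      rw [this]
      refine MeasurableSet.iUnion fun n => MeasurableSet.iUnion fun m => ?_
      refine (hA.inter (((W.measurableSet_of_hist n {X | T X = n}
        (fun X Y h hX => hT X Y n h hX)).preimage measurable_fst).inter
        ((W.measurableSet_of_hist m {X | T X = m}
        (fun X Y h hX => hT X Y m h hX)).preimage measurable_snd))).inter ?_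
      exact (((M.meas_sh n).comp measurable_fst).prodMk ((M.meas_sh m).comp measurable_snd)) hB
    have e1 : ∫⁻ z in S, A.indicator (fun _ => (1 : ℝ≥0∞)) z *
        B.indicator (fun _ => 1) (M.sh (T z.1).toNat z.1, M.sh (T z.2).toNat z.2)
          ∂(same Q (M.P x) (M.P x'))
        = same Q (M.P x) (M.P x')
          (A ∩ {z | (M.sh (T z.1).toNat z.1, M.sh (T z.2).toNat z.2) ∈ B}) := by
      rw [← lintegral_indicator hSm, ← lintegral_indicator_one hth]
      refine lintegral_congr fun z => ?_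
      by_cases h1 : z ∈ A
      · by_cases h2 : (M.sh (T z.1).toNat z.1, M.sh (T z.2).toNat z.2) ∈ B
        · simp [Set.indicator, h1, h2, hAS h1]
        · simp [Set.indicator, h1, h2, hAS h1]
      · simp [Set.indicator, h1]
    have e2 : ∫⁻ z in S, ∫⁻ y, A.indicator (fun _ => (1 : ℝ≥0∞)) z * B.indicator (fun _ => 1) y
          ∂(same Q (M.P (W.pos z.1 (T z.1).toNat)) (M.P (W.pos z.2 (T z.2).toNat)))
          ∂(same Q (M.P x) (M.P x'))
        = ∫⁻ z in A, same Q (M.P (W.pos z.1 (T z.1).toNat))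
            (M.P (W.pos z.2 (T z.2).toNat)) B ∂(same Q (M.P x) (M.P x')) := by
      rw [← lintegral_indicator hSm, ← lintegral_indicator hA]
      refine lintegral_congr fun z => ?_
      by_cases h1 : z ∈ A
      · simp only [Set.indicator_of_mem (hAS h1), Set.indicator_of_mem h1, one_mul]
        exact lintegral_indicator_one hB
      · simp [Set.indicator, h1]
    exact e1.symm.trans (h.trans e2)
  · intro p q n m h1 h2 h3 h4
    have : (p ∈ A) = (q ∈ A) := hA1 p q n m h1 h2 h3 h4
    funext r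
    simp only [Set.indicator, this]
  · intro p
    exact (measurable_one.indicator hB).const_mul _
  · intro p q hne n z hz
    have hq : q ∈ B := by
      by_contra hq
      exact hne (by simp [Set.indicator, hq])
    exact hB1 q hq n z hz

end MarkovWS

end Crest.Agent.R154
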