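import Crest.Agent.R154.ContK1_424
import Crest.Agent.R154.RestartInst_850
import Crest.Agent.R154.KBDefs_424

/-! Row 154, B4 (helper424): the marked walk as a walk space with READING TIMES (history = marks
before `n` and the flag at time `n`); `ReadsOnly`, `K1P`, the Markov bounds `MU`, `ML`. -/

set_option autoImplicit false
set_option linter.unusedVariables false
set_option linter.unusedSectionVars false

namespace Crest.Agent.R154

open MeasureTheory ProbabilityTheory Crest.ProbabilityR.RandomEnvironment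
open scoped ENNReal

namespace Cont

variable {d : ℕ}

/-- history with the flag of time `n` -/
def fHist (n : ℕ) (p : SMPath d) : (Site d × (Fin n → Mk561.Mark d)) × Bool :=
  (mkHist n p, (p.2 n).2)

/-- extension of a flagged history -/
def fExt (u₀ : Step d) (n : ℕ) (h : (Site d × (Fin n → Mk561.Mark d)) × Bool) : SMPath d :=
  (h.1.1, fun i => if hi : i < n then h.1.2 ⟨i, hi⟩ else (u₀, h.2))

lemma fHist_eq_iff {n : ℕ} {p q : SMPath d} :
    fHist n p = fHist n q ↔ p.1 = q.1 ∧ (∀ i < n, p.2 i = q.2 i) ∧ (p.2 n).2 = (q.2 n).2 := by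
  unfold fHist
  rw [Prod.ext_iff, mkHist_eq_iff, and_assoc]

lemma mkHist_of_fHist {n : ℕ} {p q : SMPath d} (h : fHist n p = fHist n q) :
    mkHist n p = mkHist n q := congrArg Prod.fst h

lemma measurable_fHist (n : ℕ) : Measurable (fHist (d := d) n) :=
  (measurable_mkHist n).prodMk
    ((measurable_of_countable (fun m : Mk561.Mark d => m.2)).comp
      ((measurable_pi_apply n).comp measurable_snd))

lemma f_gen (u₀ : Step d) : (inferInstance : MeasurableSpace (SMPath d))
    = MeasurableSpace.generateFrom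
        {s | ∃ (X : SMPath d) (n : ℕ), s = {Y | fHist n Y = fHist n X}} := by
  apply le_antisymm
  · rw [mk_gen (u₀, false)]
    refine MeasurableSpace.generateFrom_le ?_
    rintro _ ⟨X, n, rfl⟩
    have : {Y : SMPath d | mkHist n Y = mkHist n X} = ⋃ b : Bool,
        {Y | fHist n Y = fHist n (fExt u₀ n (mkHist n X, b))} := by
      ext Y
      simp only [Set.mem_ofPred_eq, Set.mem_iUnion]
      constructor
      · intro h
        refine ⟨(Y.2 n).2, ?_⟩
        rw [mkHist_eq_iff] at h
        rw [fHist_eq_iff]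
        refine ⟨h.1, fun i hi => ?_, ?_⟩
        · simp only [fExt, hi, dif_pos, mkHist]
          exact h.2 i hi
        · simp [fExt]
      · rintro ⟨b, h⟩
        rw [fHist_eq_iff] at h
        rw [mkHist_eq_iff]
        refine ⟨h.1, fun i hi => ?_⟩
        rw [h.2.1 i hi]
        simp [fExt, hi, mkHist]
    rw [this]
    exact MeasurableSet.iUnion fun b => MeasurableSpace.measurableSet_generateFrom ⟨_, n, rfl⟩
  · refine MeasurableSpace.generateFrom_le ?_
    rintro _ ⟨X, n, rfl⟩
    exact measurable_fHist n (measurableSet_singleton (fHist n X))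

/-- **the flagged walk space.** -/
def fWS (u₀ : Step d) : WalkSpace d (SMPath d) where
  H n := (Site d × (Fin n → Mk561.Mark d)) × Bool
  countH n := inferInstance
  hist := fHist
  ext := fExt u₀
  hist_ext := by
    intro n h
    unfold fHist fExt mkHist
    refine Prod.ext (Prod.ext rfl ?_) ?_
    · funext i
      simp
    · simp
  mono := by
    intro m n X Y hmn h
    rw [fHist_eq_iff] at h ⊢
    refine ⟨h.1, fun i hi => h.2.1 i (by omega), ?_⟩
    rcases Nat.lt_or_ge m n with h1 | h1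
    · rw [h.2.1 m h1]
    · obtain rfl : m = n := by omega
      exact h.2.2
  gen := f_gen u₀
  pos p n := Mk561.pos p.1 p.2 n
  pos_det := by
    intro n X Y h
    exact (mkWS (u₀, false)).pos_det n X Y (mkHist_of_fHist h)
  read := mkRead
  read_det := by
    intro n X Y h
    exact (mkWS (u₀, false)).read_det n X Y (mkHist_of_fHist h)
  read_sub := (mkWS (u₀, false)).read_sub
  read_mono := (mkWS (u₀, false)).read_mono

/-- reading times of the marked walk: the unforced times -/
def rdM (X : SMPath d) (n : ℕ) : Prop := (X.2 n).2 = false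

lemma rdSpace_fWS (u₀ : Step d) : RdSpace (fWS u₀) (rdM (d := d)) where
  det := by
    intro n X Y h
    have h' : fHist n X = fHist n Y := h
    rw [fHist_eq_iff] at h'
    unfold rdM
    rw [h'.2.2]
  read_iff X n z := Iff.rfl

/-! ### flag probabilities -/

/-- probability of a flag -/
noncomputable def qf (d : ℕ) (κ : ℝ) (f : Bool) : ℝ≥0∞ :=
  ENNReal.ofReal (if f then 2 * (d : ℝ) * Mk561.kf d κ else 1 - 2 * (d : ℝ) * Mk561.kf d κ)

lemma sum_mw_flag (κ : ℝ) (r : Row d) (f : Bool) : ∑ e : Step d, Mk561.mw κ r (e, f) = qf d κ f := by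
  unfold Mk561.mw qf
  cases f with
  | true =>
    simp only [if_true, Finset.sum_const, Finset.card_univ, Fintype.card_prod, Fintype.card_fin,
      Fintype.card_bool]
    rw [nsmul_eq_mul, ← ENNReal.ofReal_natCast, ← ENNReal.ofReal_mul (Nat.cast_nonneg _)]
    congr 1
    push_cast
    ring
  | false =>
    simp only [Bool.false_eq_true, if_false]
    rw [← ENNReal.ofReal_sum_of_nonneg fun e _ => sub_nonneg.2 (Mk561.le_reg κ r e)]
    congr 1
    rw [Finset.sum_sub_distrib, (Mk561.reg κ r).2.2]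
    simp only [Finset.sum_const, Finset.card_univ, Fintype.card_prod, Fintype.card_fin,
      Fintype.card_bool, nsmul_eq_mul]
    push_cast
    ring

lemma qf_le_one (κ : ℝ) (f : Bool) : qf d κ f ≤ 1 := by
  unfold qf
  rw [ENNReal.ofReal_le_one]
  have h1 := Mk561.kf_le (d := d) κ
  have h2 := Mk561.kf_nonneg (d := d) κ
  have h3 : 0 ≤ 2 * (d : ℝ) * Mk561.kf d κ := by positivity
  split_ifs <;> linarith

/-- law of the path of sites -/
noncomputable def Gp (κ : ℝ) (ω : Environment d) (z : Site d) : Measure (Path d) :=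
  (Mk561.mkLaw κ ω z).map (Mk561.mpath z)

/-- path with a first site added -/
def consP (z : Site d) (Y : Path d) : Path d := fun n => if n = 0 then z else Y (n - 1)

lemma measurable_consP (z : Site d) : Measurable (consP z : Path d → Path d) := by
  refine measurable_pi_lambda _ fun n => ?_
  unfold consP
  by_cases h : n = 0
  · simp only [h, if_true]; exact measurable_const
  · simp only [h, if_false]; exact measurable_pi_apply _

lemma mpath_cons (z : Site d) (M : Mk561.MPath d) :
    Mk561.mpath z M = consP z (Mk561.mpath (z + Mk561.stp (M 0)) (Ren263.shift 1 M)) := by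
  funext n
  unfold consP Mk561.mpath
  by_cases h : n = 0
  · simp [h, Mk561.pos_zero]
  · simp only [h, if_false]
    have h1 : Mk561.pos z M 1 = z + Mk561.stp (M 0) := by
      rw [Mk561.pos_succ, Mk561.pos_zero]
    rw [← h1, Mk561.pos_shift]
    congr 1
    omega

/-- value after the first step -/
noncomputable def gB (κ : ℝ) (ω : Environment d) (z : Site d) (B : Set (Path d)) (e : Step d) :
    ℝ≥0∞ :=
  Mk561.mkLaw κ ω (z + stepVec e) {M | consP z (Mk561.mpath (z + stepVec e) M) ∈ B}

lemma first_step (κ : ℝ) (ω : Environment d) (z : Site d) {B : Set (Path d)}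
    (hB : MeasurableSet B) (f : Bool) :
    Mk561.mkLaw κ ω z {M | (M 0).2 = f ∧ Mk561.mpath z M ∈ B}
      = ∑ e : Step d, Mk561.mw κ (ω z) (e, f) * gB κ ω z B e := by
  have hset : {M : Mk561.MPath d | (M 0).2 = f ∧ Mk561.mpath z M ∈ B}
      = ⋃ e : Step d, (Mk561.Cy (fun _ => (e, f)) 1 ∩ Ren263.shift 1 ⁻¹'
          {M | consP z (Mk561.mpath (z + stepVec e) M) ∈ B}) := by
    ext M
    simp only [Set.mem_ofPred_eq, Set.mem_iUnion, Set.mem_inter_iff, Set.mem_preimage, Mk561.Cy]
    constructor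
    · rintro ⟨h1, h2⟩
      refine ⟨(M 0).1, fun i hi => ?_, ?_⟩
      · obtain rfl : i = 0 := by omega
        exact Prod.ext rfl h1
      · rw [mpath_cons] at h2
        exact h2
    · rintro ⟨e, h1, h2⟩
      have h0 := h1 0 (by omega)
      refine ⟨by rw [h0], ?_⟩
      rw [mpath_cons, h0]
      exact h2
  have hm : ∀ e : Step d, MeasurableSet {M : Mk561.MPath d |
      consP z (Mk561.mpath (z + stepVec e) M) ∈ B} := fun e =>
    ((measurable_consP z).comp (Mk561.measurable_mpath _)) hB
  rw [hset, measure_iUnion]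
  · rw [tsum_fintype]
    refine Finset.sum_congr rfl fun e _ => ?_
    rw [Mk561.markov_Cy κ ω z _ 1 (hm e)]
    have e1 : Mk561.wgt κ ω z (fun _ => ((e, f) : Mk561.Mark d)) 1 = Mk561.mw κ (ω z) (e, f) := by
      simp [Mk561.wgt, Mk561.pos_zero]
    have e2 : Mk561.pos z (fun _ => ((e, f) : Mk561.Mark d)) 1 = z + stepVec e := by
      rw [Mk561.pos_succ, Mk561.pos_zero]; rfl
    rw [e1, e2]
    rfl
  · intro e e' hne
    rw [Function.onFun, Set.disjoint_left]
    rintro M ⟨h1, _⟩ ⟨h2, _⟩
    have h3 := h1 0 (by omega)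
    have h4 := h2 0 (by omega)
    rw [h3] at h4
    exact hne (Prod.ext_iff.1 h4).1
  · intro e
    exact (Mk561.measurableSet_Cy _ _).inter (Ren263.measurable_shift 1 (hm e))

lemma gB_le_one (κ : ℝ) (ω : Environment d) (z : Site d) (B : Set (Path d)) (e : Step d) :
    gB κ ω z B e ≤ 1 := prob_le_one

lemma Gp_eq (κ : ℝ) (ω : Environment d) (z : Site d) {B : Set (Path d)}
    (hB : MeasurableSet B) :
    Gp κ ω z B = ∑ e : Step d, ENNReal.ofReal ((Mk561.reg κ (ω z)).1 e) * gB κ ω z B e := by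
  unfold Gp
  rw [Measure.map_apply (Mk561.measurable_mpath z) hB]
  have hset : Mk561.mpath z ⁻¹' B = {M : Mk561.MPath d | (M 0).2 = true ∧ Mk561.mpath z M ∈ B} ∪
      {M | (M 0).2 = false ∧ Mk561.mpath z M ∈ B} := by
    ext M
    simp only [Set.mem_preimage, Set.mem_union, Set.mem_ofPred_eq]
    cases (M 0).2 <;> simp
  have hm : ∀ f : Bool, MeasurableSet {M : Mk561.MPath d | (M 0).2 = f ∧ Mk561.mpath z M ∈ B} :=
    fun f => by
      have h1 : MeasurableSet {M : Mk561.MPath d | (M 0).2 = f} :=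
        (((measurable_of_countable (fun m : Mk561.Mark d => m.2)).comp
          (measurable_pi_apply 0)) (measurableSet_singleton f))
      exact h1.inter (Mk561.measurable_mpath z hB)
  rw [hset, measure_union _ (hm false), first_step κ ω z hB, first_step κ ω z hB,
    ← Finset.sum_add_distrib]
  · refine Finset.sum_congr rfl fun e _ => ?_
    rw [← add_mul, Mk561.mw_add]
  · rw [Set.disjoint_left]
    rintro M ⟨h1, _⟩ ⟨h2, _⟩
    rw [h1] at h2
    simp at h2

lemma flag_prob (κ : ℝ) (ω : Environment d) (z : Site d) (f : Bool) :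
    Mk561.mkLaw κ ω z {M | (M 0).2 = f} = qf d κ f := by
  have h := first_step κ ω z (B := Set.univ) MeasurableSet.univ f
  simp only [Set.mem_univ, and_true] at h
  rw [h, ← sum_mw_flag κ (ω z) f]
  refine Finset.sum_congr rfl fun e _ => ?_
  unfold gB
  simp

lemma first_le (κ : ℝ) (ω : Environment d) (z : Site d) {B : Set (Path d)}
    (hB : MeasurableSet B) (f : Bool) :
    Mk561.mkLaw κ ω z {M | (M 0).2 = f ∧ Mk561.mpath z M ∈ B} ≤ Gp κ ω z B := by
  unfold Gp
  rw [Measure.map_apply (Mk561.measurable_mpath z) hB]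
  exact measure_mono fun M hM => hM.2

lemma first_ge (κ : ℝ) (ω : Environment d) (z : Site d) {B : Set (Path d)}
    (hB : MeasurableSet B) {c₀ : ℝ≥0∞} (hc : ∀ e : Step d,
      c₀ * ENNReal.ofReal ((Mk561.reg κ (ω z)).1 e) ≤ Mk561.mw κ (ω z) (e, false)) :
    c₀ * Gp κ ω z B ≤ Mk561.mkLaw κ ω z {M | (M 0).2 = false ∧ Mk561.mpath z M ∈ B} := by
  rw [Gp_eq κ ω z hB, first_step κ ω z hB, Finset.mul_sum]
  refine Finset.sum_le_sum fun e _ => ?_
  rw [← mul_assoc]
  gcongr
  exact hc e

/-! ### the laws -/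

lemma shp_fWS (u₀ : Step d) (n : ℕ) (X : SMPath d) :
    shp (fWS u₀) n X = Mk561.mpath (Mk561.pos X.1 X.2 n) (Ren263.shift n X.2) := by
  funext i
  exact (Mk561.pos_shift X.1 X.2 n i).symm

/-- **cylinder formula with a future event** -/
lemma smP_hcyl_future (u₀ : Step d) (κ : ℝ) (x : Site d) (ω : Environment d) (n : ℕ)
    (h : (fWS u₀).H n) {B : Set (Path d)} (hB : MeasurableSet B) :
    smP κ x ω ((fWS u₀).hcyl n h ∩ {X | shp (fWS u₀) n X ∈ B})
      = if h.1.1 = x then Mk561.wgt κ ω x (fExt u₀ n h).2 n *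
          Mk561.mkLaw κ ω ((fWS u₀).pos ((fWS u₀).ext n h) n)
            {M | (M 0).2 = h.2 ∧ Mk561.mpath ((fWS u₀).pos ((fWS u₀).ext n h) n) M ∈ B} else 0 := by
  have hm : MeasurableSet ((fWS u₀).hcyl n h ∩ {X | shp (fWS u₀) n X ∈ B}) :=
    ((fWS u₀).measurableSet_hcyl n h).inter (measurable_shp (fWS u₀) n hB)
  rw [smP_apply' κ x ω hm]
  have hext : ((fWS u₀).hist n ((fWS u₀).ext n h)) = h := (fWS u₀).hist_ext n h
  split_ifs with hx
  · set W : Mk561.MPath d := (fExt u₀ n h).2 with hW
    have hpos : (fWS u₀).pos ((fWS u₀).ext n h) n = Mk561.pos x W n := by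
      change Mk561.pos (fExt u₀ n h).1 (fExt u₀ n h).2 n = _
      rw [show (fExt u₀ n h).1 = x from hx]
    rw [hpos]
    have hset : {M : Mk561.MPath d | (x, M) ∈ (fWS u₀).hcyl n h ∩ {X | shp (fWS u₀) n X ∈ B}}
        = Mk561.Cy W n ∩ Ren263.shift n ⁻¹'
          {M | (M 0).2 = h.2 ∧ Mk561.mpath (Mk561.pos x W n) M ∈ B} := by
      ext M
      have hc : (x, M) ∈ (fWS u₀).hcyl n h ↔ (∀ i < n, M i = W i) ∧ (M n).2 = h.2 := by
        have : (x, M) ∈ (fWS u₀).hcyl n h ↔ fHist n (x, M) = fHist n (fExt u₀ n h) := by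
          change fHist n (x, M) = h ↔ _
          rw [show fHist n (fExt u₀ n h) = h from (fWS u₀).hist_ext n h]
        rw [this, fHist_eq_iff]
        simp only [fExt, hW]
        simp [hx]
      simp only [Set.mem_ofPred_eq, Set.mem_inter_iff, Set.mem_preimage, Mk561.Cy]
      rw [hc, and_assoc]
      refine and_congr_right fun hM => ?_
      have h0 : (Ren263.shift n M 0).2 = (M n).2 := by simp [Ren263.shift]
      rw [h0, shp_fWS]
      simp only
      rw [Mk561.pos_congr x hM le_rfl]
    rw [hset, Mk561.markov_Cy κ ω x W n]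
    have h1 : MeasurableSet {M : Mk561.MPath d | (M 0).2 = h.2} :=
      (((measurable_of_countable (fun m : Mk561.Mark d => m.2)).comp
        (measurable_pi_apply 0)) (measurableSet_singleton h.2))
    exact h1.inter (Mk561.measurable_mpath _ hB)
  · have : {M : Mk561.MPath d | (x, M) ∈ (fWS u₀).hcyl n h ∩ {X | shp (fWS u₀) n X ∈ B}} = ∅ := by
      rw [Set.eq_empty_iff_forall_notMem]
      rintro M ⟨h1, _⟩
      apply hx
      have h2 : fHist n (x, M) = h := h1
      rw [← h2]
      rfl
    rw [this, measure_empty]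

lemma smP_hcyl (u₀ : Step d) (κ : ℝ) (x : Site d) (ω : Environment d) (n : ℕ)
    (h : (fWS u₀).H n) :
    smP κ x ω ((fWS u₀).hcyl n h)
      = if h.1.1 = x then Mk561.wgt κ ω x (fExt u₀ n h).2 n * qf d κ h.2 else 0 := by
  have := smP_hcyl_future u₀ κ x ω n h (B := Set.univ) MeasurableSet.univ
  simp only [Set.mem_univ, and_true, Set.ofPred_true, Set.inter_univ, flag_prob] at this
  exact this

/-- **`ReadsOnly` for the flagged space** -/
lemma readsOnly_smP (u₀ : Step d) (Q : Measure (Environment d)) (κ : ℝ) (x : Site d) :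
    (fWS u₀).ReadsOnly Q (smP κ x) := by
  intro γ n
  have hcyl : (fWS u₀).cyl γ n = (fWS u₀).hcyl n (fHist n γ) := rfl
  have hW : ∀ ω : Environment d, Mk561.wgt κ ω x (fExt u₀ n (fHist n γ)).2 n
      = Mk561.wgt κ ω x γ.2 n := fun ω => by
    refine Mk561.wgt_congr κ ω x fun i hi => ?_
    simp [fExt, hi, fHist, mkHist]
  refine ⟨fun ω => if γ.1 = x then Mk561.wgt κ ω x γ.2 n * qf d κ (γ.2 n).2 else 0, ?_, ?_⟩
  · by_cases hx : γ.1 = x
    · simp only [hx, if_true]
      refine Measurable.mul_const ?_ _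
      unfold Mk561.wgt
      refine Finset.measurable_prod _ fun i hi => ?_
      have hi' := Finset.mem_range.1 hi
      rcases hb : (γ.2 i).2 with _ | _
      · refine (Mk561.measurable_mw κ (γ.2 i)).comp (measurable_row _ ?_)
        exact ⟨i, hi', hb, by rw [hx]⟩
      · have : (fun ω : Environment d => Mk561.mw κ (ω (Mk561.pos x γ.2 i)) (γ.2 i))
            = fun _ => ENNReal.ofReal (Mk561.kf d κ) := by
          funext ω
          simp [Mk561.mw, hb]
        rw [this]
        exact measurable_const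
    · simp only [hx, if_false]
      exact measurable_const
  · refine Filter.Eventually.of_forall fun ω => ?_
    simp only
    rw [hcyl, smP_hcyl, hW]
    rfl

/-- **K1P for two marked walkers** -/
lemma k1p_smP (u₀ : Step d) {R : ℕ} {Q : Measure (Environment d)} [IsProbabilityMeasure Q]
    (hQ : IsFiniteRangeDependent Q R) (κ : ℝ) (x y : Site d) :
    K1P (fWS u₀) rdM R Q (smP κ x) (smP κ y) := by
  have : Nonempty (SMPath d) := ⟨(x, fun _ => (u₀, false))⟩
  exact k1p _ _ (rdSpace_fWS u₀) R Q (indepAt_of_finiteRange hQ) (readsOnly_smP u₀ Q κ x)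
    (readsOnly_smP u₀ Q κ y)

/-- the constant of `MU` -/
noncomputable def cU (d : ℕ) (κ : ℝ) : ℝ≥0∞ :=
  (if qf d κ true = 0 then 1 else (qf d κ true)⁻¹) +
    (if qf d κ false = 0 then 1 else (qf d κ false)⁻¹)

lemma cU_ne_top (κ : ℝ) : cU d κ ≠ ⊤ := by
  unfold cU
  refine ENNReal.add_ne_top.2 ⟨?_, ?_⟩
  · split_ifs with h
    · exact ENNReal.one_ne_top
    · exact ENNReal.inv_ne_top.2 h
  · split_ifs with h
    · exact ENNReal.one_ne_top
    · exact ENNReal.inv_ne_top.2 h

lemma le_cU (κ : ℝ) (f : Bool) (h : qf d κ f ≠ 0) : (qf d κ f)⁻¹ ≤ cU d κ := by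
  unfold cU
  cases f
  · rw [if_neg h]; exact le_add_self
  · rw [if_neg h]; exact le_self_add

lemma mu_smP (u₀ : Step d) (κ : ℝ) (x : Site d) (ω : Environment d) :
    MU (fWS u₀) (smP κ x ω) (Gp κ ω) (cU d κ) := by
  intro n h B hB
  rw [smP_hcyl_future u₀ κ x ω n h hB, smP_hcyl]
  split_ifs with hx
  · set z := (fWS u₀).pos ((fWS u₀).ext n h) n with hz
    have h1 := first_le κ ω z hB h.2
    by_cases hq : qf d κ h.2 = 0
    · have h2 : Mk561.mkLaw κ ω z {M | (M 0).2 = h.2 ∧ Mk561.mpath z M ∈ B} = 0 := by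
        refine le_antisymm ?_ zero_le
        rw [← hq, ← flag_prob κ ω z h.2]
        exact measure_mono fun M hM => hM.1
      rw [h2, mul_zero]
      exact zero_le
    · have hq' : qf d κ h.2 ≠ ⊤ := ne_top_of_le_ne_top ENNReal.one_ne_top (qf_le_one κ h.2)
      have h3 : 1 ≤ cU d κ * qf d κ h.2 := by
        rw [← ENNReal.inv_mul_cancel hq hq']
        gcongr
        exact le_cU κ _ hq
      calc Mk561.wgt κ ω x (fExt u₀ n h).2 n *
            Mk561.mkLaw κ ω z {M | (M 0).2 = h.2 ∧ Mk561.mpath z M ∈ B}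
          ≤ Mk561.wgt κ ω x (fExt u₀ n h).2 n * (1 * Gp κ ω z B) := by
            rw [one_mul]; gcongr
        _ ≤ Mk561.wgt κ ω x (fExt u₀ n h).2 n * (cU d κ * qf d κ h.2 * Gp κ ω z B) := by
            gcongr
        _ = cU d κ * (Mk561.wgt κ ω x (fExt u₀ n h).2 n * qf d κ h.2 * Gp κ ω z B) := by ring
  · exact zero_le

lemma ml_smP (u₀ : Step d) (κ : ℝ) (x : Site d) (ω : Environment d) {c₀ : ℝ≥0∞}
    (hc : ∀ (z : Site d) (e : Step d),
      c₀ * ENNReal.ofReal ((Mk561.reg κ (ω z)).1 e) ≤ Mk561.mw κ (ω z) (e, false)) :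
    ML (fWS u₀) rdM (smP κ x ω) (Gp κ ω) c₀ := by
  intro n h B hB hrd
  have hf : h.2 = false := by
    have h1 : ((fExt u₀ n h).2 n).2 = false := hrd
    simpa [fExt] using h1
  rw [smP_hcyl_future u₀ κ x ω n h hB, smP_hcyl]
  split_ifs with hx
  · set z := (fWS u₀).pos ((fWS u₀).ext n h) n with hz
    have h1 := first_ge κ ω z hB (hc z)
    rw [hf]
    calc c₀ * (Mk561.wgt κ ω x (fExt u₀ n h).2 n * qf d κ false * Gp κ ω z B)
        ≤ c₀ * (Mk561.wgt κ ω x (fExt u₀ n h).2 n * 1 * Gp κ ω z B) := by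
          gcongr
          exact qf_le_one κ false
      _ = Mk561.wgt κ ω x (fExt u₀ n h).2 n * (c₀ * Gp κ ω z B) := by ring
      _ ≤ _ := by gcongr
  · simp

end Cont

end Crest.Agent.R154
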