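import Crest.Agent.R154.Planar_999
import Crest.Agent.R154.DoobQ_804
import Crest.Agent.R154.Strong_541

/-!
# Rivers (d = 2 block of row 154): from fixed starting points to all starting points.

Deterministic (planar) part: `planar_ext`, `strip`, `piece`, `case1`, `case2`.
Quenched part: exit probabilities `Ex`, `river_out`, `river_in`, `back_all`, `mob_all`.
-/

set_option autoImplicit false

namespace Crest.Agent.R154.River916

open Crest.Agent.R154.Planar999

/-! ## Geometry -/

lemma Stp.symm {p q : ℤ × ℤ} (h : Stp p q) : Stp q p := by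
  simp only [Stp] at *
  omega

lemma stp_right {p q : ℤ × ℤ} (h1 : q.1 = p.1 + 1) (h2 : q.2 = p.2) : Stp p q :=
  Or.inr (Or.inl ⟨h1, h2⟩)

/-- The crossing lemma when the ends of `a` are only compared with `b` at their own level. -/
theorem planar_ext (a b : ℕ → ℤ × ℤ) (m n : ℕ)
    (ha : ∀ i < m, Stp (a i) (a (i + 1))) (hb : ∀ j < n, Stp (b j) (b (j + 1)))
    (h1 : ∀ j ≤ n, (b j).2 = (a 0).2 → (a 0).1 ≤ (b j).1)
    (h2 : ∀ j ≤ n, (b j).2 = (a m).2 → (b j).1 ≤ (a m).1)
    (h3 : ∀ i ≤ m, (b 0).2 ≤ (a i).2) (h4 : ∀ i ≤ m, (a i).2 ≤ (b n).2) :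
    ∃ i ≤ m, ∃ j ≤ n, a i = b j := by
  -- a bound for all lateral coordinates
  obtain ⟨K, hKb, hK0, hKm⟩ : ∃ K : ℕ, (∀ j ≤ n, |(b j).1| ≤ K) ∧ |(a 0).1| ≤ K ∧
      |(a m).1| ≤ K := by
    refine ⟨∑ j ∈ Finset.range (n + 1), (b j).1.natAbs + (a 0).1.natAbs + (a m).1.natAbs,
      ?_, ?_, ?_⟩
    · intro j hj
      have h : (b j).1.natAbs ≤ ∑ j ∈ Finset.range (n + 1), (b j).1.natAbs :=
        Finset.single_le_sum (f := fun j => (b j).1.natAbs) (fun _ _ => Nat.zero_le _)
          (Finset.mem_range.2 (Nat.lt_succ_of_le hj))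
      rw [Int.abs_eq_natAbs]
      exact_mod_cast le_trans h (by omega)
    · rw [Int.abs_eq_natAbs]
      exact_mod_cast (by omega : (a 0).1.natAbs ≤
        ∑ j ∈ Finset.range (n + 1), (b j).1.natAbs + (a 0).1.natAbs + (a m).1.natAbs)
    · rw [Int.abs_eq_natAbs]
      exact_mod_cast (by omega : (a m).1.natAbs ≤
        ∑ j ∈ Finset.range (n + 1), (b j).1.natAbs + (a 0).1.natAbs + (a m).1.natAbs)
  obtain ⟨a', ha'⟩ : ∃ a' : ℕ → ℤ × ℤ, ∀ i, a' i =
      if i < 2 * K then ((a 0).1 - (2 * K - i : ℤ), (a 0).2)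
      else if i ≤ 2 * K + m then a (i - 2 * K)
      else ((a m).1 + (i - (2 * K + m) : ℤ), (a m).2) := ⟨_, fun _ => rfl⟩
  have hlo : ∀ i < 2 * K, a' i = ((a 0).1 - (2 * K - i : ℤ), (a 0).2) := by
    intro i hi; rw [ha', if_pos hi]
  have hmid : ∀ i ≤ m, a' (2 * K + i) = a i := by
    intro i hi
    rw [ha', if_neg (by omega), if_pos (by omega)]
    congr 1
    omega
  have hhi : ∀ i, 1 ≤ i → a' (2 * K + m + i) = ((a m).1 + (i : ℤ), (a m).2) := by
    intro i hi
    rw [ha', if_neg (by omega), if_neg (by omega)]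
    ext
    · push_cast; ring
    · rfl
  have h00 : a' 0 = ((a 0).1 - 2 * K, (a 0).2) := by
    rcases Nat.eq_zero_or_pos K with hK | hK
    · have := hmid 0 (Nat.zero_le _)
      rw [hK] at this
      simp only [Nat.mul_zero, Nat.add_zero] at this
      rw [this, hK]
      ext <;> simp
    · rw [hlo 0 (by omega)]
      ext <;> simp
  have hend : a' (2 * K + m + 2 * K) = ((a m).1 + 2 * K, (a m).2) := by
    rcases Nat.eq_zero_or_pos K with hK | hK
    · have := hmid m le_rfl
      rw [hK] at this ⊢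
      simp only [Nat.mul_zero, Nat.add_zero] at this ⊢
      rw [this]
      ext <;> simp
    · rw [hhi (2 * K) (by omega)]
      ext
      · push_cast; ring
      · rfl
  have hlev : ∀ i ≤ 2 * K + m + 2 * K, ∃ i' ≤ m, (a' i).2 = (a i').2 := by
    intro i hi
    rcases Nat.lt_or_ge i (2 * K) with h | h
    · exact ⟨0, Nat.zero_le _, by rw [hlo i h]⟩
    · rcases Nat.lt_or_ge (2 * K + m) i with h' | h'
      · obtain ⟨r, rfl⟩ := Nat.exists_eq_add_of_lt h'
        refine ⟨m, le_rfl, ?_⟩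
        have := hhi (r + 1) (by omega)
        rw [show 2 * K + m + r + 1 = 2 * K + m + (r + 1) by ring, this]
      · obtain ⟨r, rfl⟩ := Nat.exists_eq_add_of_le h
        exact ⟨r, by omega, by rw [hmid r (by omega)]⟩
  obtain ⟨i, hi, j, hj, hij⟩ := planar a' b (2 * K + m + 2 * K) n (by
      intro i hi
      rcases Nat.lt_or_ge (i + 1) (2 * K) with h | h
      · rw [hlo i (by omega), hlo (i + 1) h]
        exact stp_right (by simp only; push_cast; ring) rfl
      · rcases Nat.lt_or_ge i (2 * K) with h' | h'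
        · have he : i + 1 = 2 * K + 0 := by omega
          rw [hlo i h', he, hmid 0 (Nat.zero_le _)]
          refine stp_right ?_ rfl
          have : (i : ℤ) + 1 = 2 * K := by exact_mod_cast (by omega : i + 1 = 2 * K)
          simp only
          linarith
        · rcases Nat.lt_or_ge i (2 * K + m) with h'' | h''
          · obtain ⟨r, rfl⟩ := Nat.exists_eq_add_of_le h'
            rw [hmid r (by omega), show 2 * K + r + 1 = 2 * K + (r + 1) by ring,
              hmid (r + 1) (by omega)]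
            exact ha r (by omega)
          · obtain ⟨r, rfl⟩ := Nat.exists_eq_add_of_le h''
            rw [show 2 * K + m + r + 1 = 2 * K + m + (r + 1) by ring, hhi (r + 1) (by omega)]
            rcases Nat.eq_zero_or_pos r with h0 | h0
            · subst h0
              rw [Nat.add_zero, hmid m le_rfl]
              exact stp_right (by simp) rfl
            · rw [hhi r h0]
              exact stp_right (by simp only; push_cast; ring) rfl)
    hb (by
      intro j hj
      rw [h00]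
      have h := abs_le.1 (hKb j hj)
      have h' := abs_le.1 hK0
      simp only
      omega) (by
      intro j hj
      rw [hend]
      have h := abs_le.1 (hKb j hj)
      have h' := abs_le.1 hKm
      simp only
      omega) (by
      intro i hi
      obtain ⟨i', hi', he⟩ := hlev i hi
      rw [he]
      exact h3 i' hi') (by
      intro i hi
      obtain ⟨i', hi', he⟩ := hlev i hi
      rw [he]
      exact h4 i' hi')
  rcases Nat.lt_or_ge i (2 * K) with h | h
  · exfalso
    rw [hlo i h] at hij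
    have e1 : (b j).1 = (a 0).1 - (2 * K - i : ℤ) := by rw [← hij]
    have e2 : (b j).2 = (a 0).2 := by rw [← hij]
    have := h1 j hj e2
    omega
  · rcases Nat.lt_or_ge (2 * K + m) i with h' | h'
    · exfalso
      obtain ⟨r, rfl⟩ := Nat.exists_eq_add_of_lt h'
      rw [show 2 * K + m + r + 1 = 2 * K + m + (r + 1) by ring, hhi (r + 1) (by omega)] at hij
      have e1 : (b j).1 = (a m).1 + ((r + 1 : ℕ) : ℤ) := by rw [← hij]
      have e2 : (b j).2 = (a m).2 := by rw [← hij]
      have := h2 j hj e2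
      push_cast at e1
      omega
    · obtain ⟨r, rfl⟩ := Nat.exists_eq_add_of_le h
      rw [hmid r (by omega)] at hij
      exact ⟨r, by omega, j, hj, hij⟩

/-- Two paths with the same start inside a horizontal strip, leaving it through the top on both
sides of `t`: one of them meets every path that goes from `(t, s1)` to the level `s0` in the
strip. -/
theorem strip (ρ πL πR : ℕ → ℤ × ℤ) (k nL nR : ℕ) (s0 s1 t : ℤ)
    (hρ : ∀ i < k, Stp (ρ i) (ρ (i + 1))) (h0 : ρ 0 = (t, s1)) (hk : (ρ k).2 = s0)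
    (hmid : ∀ i ≤ k, 0 < i → (ρ i).2 < s1)
    (hL : ∀ i < nL, Stp (πL i) (πL (i + 1))) (hR : ∀ i < nR, Stp (πR i) (πR (i + 1)))
    (hz : πL 0 = πR 0)
    (inL : ∀ i < nL, s0 ≤ (πL i).2 ∧ (πL i).2 ≤ s1) (inR : ∀ i < nR, s0 ≤ (πR i).2 ∧ (πR i).2 ≤ s1)
    (eL : (πL nL).2 = s1) (eL' : (πL nL).1 ≤ t) (eR : (πR nR).2 = s1) (eR' : t ≤ (πR nR).1)
    (hs : s0 ≤ s1) :
    (∃ i ≤ nL, ∃ j ≤ k, πL i = ρ j) ∨ (∃ i ≤ nR, ∃ j ≤ k, πR i = ρ j) := by
  obtain ⟨a, ha⟩ : ∃ a : ℕ → ℤ × ℤ, ∀ i, a i = if i ≤ nL then πL (nL - i) else πR (i - nL) :=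
    ⟨_, fun _ => rfl⟩
  have hlo : ∀ i ≤ nL, a i = πL (nL - i) := fun i hi => by rw [ha, if_pos hi]
  have hhi : ∀ i, a (nL + i) = πR i := by
    intro i
    rw [ha]
    rcases Nat.eq_zero_or_pos i with h | h
    · subst h
      rw [if_pos (by omega), ← hz]
      congr 1
      omega
    · rw [if_neg (by omega)]
      congr 1
      omega
  have hlev : ∀ i ≤ nL + nR, s0 ≤ (a i).2 ∧ (a i).2 ≤ s1 := by
    intro i hi
    rcases Nat.lt_or_ge nL i with h | h
    · obtain ⟨r, rfl⟩ := Nat.exists_eq_add_of_lt h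
      rw [show nL + r + 1 = nL + (r + 1) by ring, hhi]
      rcases Nat.lt_or_ge (r + 1) nR with h' | h'
      · exact inR _ h'
      · have : r + 1 = nR := by omega
        rw [this, eR]; exact ⟨hs, le_rfl⟩
    · rw [hlo i h]
      rcases Nat.eq_zero_or_pos i with h' | h'
      · subst h'; rw [Nat.sub_zero, eL]; exact ⟨hs, le_rfl⟩
      · exact inL _ (by omega)
  have hb0 : ρ (k - k) = (t, s1) := by rw [Nat.sub_self, h0]
  obtain ⟨i, hi, j, hj, hij⟩ := planar_ext a (fun j => ρ (k - j)) (nL + nR) k (by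
      intro i hi
      rcases Nat.lt_or_ge i nL with h | h
      · rw [hlo i h.le, hlo (i + 1) h]
        have := hL (nL - (i + 1)) (by omega)
        rw [show nL - (i + 1) + 1 = nL - i by omega] at this
        exact Stp.symm this
      · obtain ⟨r, rfl⟩ := Nat.exists_eq_add_of_le h
        rw [hhi, show nL + r + 1 = nL + (r + 1) by ring, hhi]
        exact hR r (by omega)) (by
      intro j hj
      have := hρ (k - (j + 1)) (by omega)
      rw [show k - (j + 1) + 1 = k - j by omega] at this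
      exact Stp.symm this) (by
      intro j hj hjl
      rw [hlo 0 (Nat.zero_le _), Nat.sub_zero] at hjl ⊢
      rw [eL] at hjl
      rcases Nat.lt_or_ge j k with h | h
      · exact absurd hjl (ne_of_lt (hmid (k - j) (by omega) (by omega)))
      · have : j = k := by omega
        subst this
        rw [hb0]
        exact eL') (by
      intro j hj hjl
      rw [hhi] at hjl ⊢
      rw [eR] at hjl
      rcases Nat.lt_or_ge j k with h | h
      · exact absurd hjl (ne_of_lt (hmid (k - j) (by omega) (by omega)))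
      · have : j = k := by omega
        subst this
        rw [hb0]
        exact eR') (by
      intro i hi
      rw [Nat.sub_zero, hk]
      exact (hlev i hi).1) (by
      intro i hi
      rw [hb0]
      exact (hlev i hi).2)
  rcases Nat.lt_or_ge nL i with h | h
  · right
    obtain ⟨r, rfl⟩ := Nat.exists_eq_add_of_lt h
    rw [show nL + r + 1 = nL + (r + 1) by ring, hhi] at hij
    exact ⟨r + 1, by omega, k - j, by omega, hij⟩
  · left
    rw [hlo i h] at hij
    exact ⟨nL - i, by omega, k - j, by omega, hij⟩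

/-! ## Exit events -/

open MeasureTheory ProbabilityTheory Crest.ProbabilityR.RandomEnvironment
open Crest.Agent.R154.Doob804
open scoped ENNReal

variable {d : ℕ}

/-- The path reaches `T` and is in `B` before. -/
def Ev (B T : Set (Site d)) : Set (Path d) := {X | ∃ n, X n ∈ T ∧ ∀ i < n, X i ∈ B}

lemma meas_Ev (B T : Set (Site d)) : MeasurableSet (Ev B T) := by
  have : Ev B T = ⋃ n : ℕ, ((fun X : Path d => X n) ⁻¹' T ∩
      ⋂ i ∈ Finset.range n, (fun X : Path d => X i) ⁻¹' B) := by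
    ext X
    simp only [Ev, Set.mem_iUnion, Set.mem_inter_iff, Set.mem_preimage, Set.mem_iInter,
      Finset.mem_range]
    rfl
  rw [this]
  exact MeasurableSet.iUnion fun n => (measurable_pi_apply n (MeasurableSet.of_discrete)).inter
    (Finset.measurableSet_biInter _ fun i _ => measurable_pi_apply i (MeasurableSet.of_discrete))

lemma Ev_inv {B T : Set (Site d)} {z : Site d} (hz : z ∈ B) (hT : z ∉ T) (X : Path d) :
    consP z X ∈ Ev B T ↔ X ∈ Ev B T := by
  constructor
  · rintro ⟨n, hn, hB⟩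
    cases n with
    | zero => exact absurd hn hT
    | succ n => exact ⟨n, hn, fun i hi => hB (i + 1) (by omega)⟩
  · rintro ⟨n, hn, hB⟩
    refine ⟨n + 1, hn, fun i hi => ?_⟩
    cases i with
    | zero => exact hz
    | succ i => exact hB i (by omega)

lemma Ev_one (ω : Environment d) {B T : Set (Site d)} {z : Site d} (hz : z ∈ T) :
    quenchedLaw ω z (Ev B T) = 1 := by
  have h : Ev B T =ᵐ[quenchedLaw ω z] (Set.univ : Set (Path d)) := by
    filter_upwards [quenched_start ω z] with X hX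
    refine propext ⟨fun _ => trivial, fun _ => ?_⟩
    exact ⟨0, by rw [hX]; exact hz, fun i hi => absurd hi (Nat.not_lt_zero i)⟩
  rw [measure_congr h, measure_univ]

lemma Ev_zero (ω : Environment d) {B T : Set (Site d)} {z : Site d} (hz : z ∉ T) (hB : z ∉ B) :
    quenchedLaw ω z (Ev B T) = 0 := by
  have h : Ev B T =ᵐ[quenchedLaw ω z] (∅ : Set (Path d)) := by
    filter_upwards [quenched_start ω z] with X hX
    refine propext ⟨?_, fun h => h.elim⟩
    rintro ⟨n, hn, hi⟩
    cases n with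
    | zero => exact hz (by rw [← hX]; exact hn)
    | succ n => exact hB (by rw [← hX]; exact hi 0 (Nat.succ_pos n))
  rw [measure_congr h, measure_empty]

lemma Ev_mono {B B' T : Set (Site d)} (h : B ⊆ B') : Ev B T ⊆ Ev B' T := by
  rintro X ⟨n, hn, hi⟩
  exact ⟨n, hn, fun i hi' => h (hi i hi')⟩

/-- **The quenched river.**  `E` an event invariant under prepending points of the finite set `B`:
from `x ∈ B` a nearest neighbour path along which `P_ω(E)` is at least its value at `x`, which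
stays in `B` and ends outside `B`. -/
theorem river_q (ω : Environment d) (i0 : Fin d) (B : Set (Site d)) (hB : B.Finite)
    (hw : ∀ z ∈ B, ∀ e, 0 < (ω z).1 e) (E : Set (Path d)) (hE : MeasurableSet E)
    (hinv : ∀ z ∈ B, ∀ X : Path d, consP z X ∈ E ↔ X ∈ E) (x : Site d) (hx : x ∈ B) :
    ∃ (k : ℕ) (p : ℕ → Site d), p 0 = x ∧
      (∀ i < k, p i ∈ B ∧ ∃ e : Step d, p (i + 1) = p i + stepVec e) ∧
      (∀ i ≤ k, quenchedLaw ω x E ≤ quenchedLaw ω (p i) E) ∧ p k ∉ B := by
  have hh := q_harmonic_event ω E hE B hinv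
  have hfin : ∀ z, quenchedLaw ω z E ≠ ⊤ := fun z => measure_ne_top _ _
  obtain ⟨k, p, h0, hp, hu, hk⟩ := river (fun (e : Step d) z => z + stepVec e)
    (fun z e => (ω z).1 e) B hB hw (fun z _ => (ω z).2.2)
    (fun z => (quenchedLaw ω z E).toReal) (by
      intro z hz
      rw [← hh z hz, ENNReal.toReal_sum (fun e _ =>
        ENNReal.mul_ne_top ENNReal.ofReal_ne_top (hfin _))]
      refine le_of_eq (Finset.sum_congr rfl fun e _ => ?_)
      rw [ENNReal.toReal_mul, ENNReal.toReal_ofReal ((ω z).2.1 e)]) (i0, true) (fun z => z i0)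
    (by intro z; simp [stepVec]) x hx
  refine ⟨k, p, h0, hp, fun i hi => ?_, hk⟩
  exact (ENNReal.toReal_le_toReal (hfin _) (hfin _)).1 (hu i hi)

/-- The event: the quenched probability of `E` gets at least `η` while the path is in `B`. -/
def Hit (ω : Environment d) (B : Set (Site d)) (E : Set (Path d)) (η : ℝ≥0∞) : Set (Path d) :=
  {X | ∃ n, (∀ k < n, X k ∈ B) ∧ η ≤ quenchedLaw ω (X n) E}

/-- **Strong Markov at the river.** -/
theorem hit_q (ω : Environment d) (B : Set (Site d)) (E : Set (Path d)) (hE : MeasurableSet E)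
    (hinv : ∀ z ∈ B, ∀ X : Path d, consP z X ∈ E ↔ X ∈ E) {η c : ℝ≥0∞} (h0 : η ≠ 0)
    (ht : η ≠ ⊤) (z : Site d) (h : c ≤ quenchedLaw ω z (Hit ω B E η)) :
    η * c ≤ quenchedLaw ω z E := by
  have h1 := q_doob_event ω E hE B hinv h0 ht z
  have h2 : c ≤ quenchedLaw ω z E / η := le_trans h h1
  rw [ENNReal.le_div_iff_mul_le (Or.inl h0) (Or.inl ht)] at h2
  rwa [mul_comm]

/-- comparison of probabilities of nearest neighbour paths started at `z`. -/
lemma le_of_nn (ω : Environment d) (z : Site d) {A A' : Set (Path d)} {c : ℝ≥0∞}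
    (hc : c ≤ quenchedLaw ω z A)
    (h : ∀ X : Path d, X 0 = z → (∀ n, ∃ e : Step d, X (n + 1) = X n + stepVec e) → X ∈ A →
      X ∈ A') : c ≤ quenchedLaw ω z A' := by
  refine le_trans hc (measure_mono_ae ?_)
  filter_upwards [quenched_start ω z, quenched_nn ω z] with X h0 h1 hX
  exact h X h0 h1 hX

/-! ## The box -/

section Box

variable (φ : Site d → ℤ × ℤ) (v : ℤ → ℤ)

/-- The slanted box: levels in `[l0, l3)`, lateral distance at most `W` to the axis `v`. -/
def Bx (l0 l3 W : ℤ) : Set (Site d) :=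
  {z | l0 ≤ (φ z).2 ∧ (φ z).2 < l3 ∧ |(φ z).1 - v (φ z).2| ≤ W}

/-- The level `l`. -/
def Lv (l : ℤ) : Set (Site d) := {z | (φ z).2 = l}

variable {φ v}

lemma Bx_finite (hφ : Function.Injective φ) (l0 l3 W : ℤ) : (Bx φ v l0 l3 W).Finite := by
  have h1 : (⋃ b ∈ Finset.Ico l0 l3, (fun a : ℤ => (a, b)) '' (Finset.Icc (v b - W) (v b + W) :
      Set ℤ)).Finite := by
    refine Set.Finite.biUnion (Finset.finite_toSet _) fun b _ => ?_
    exact (Finset.finite_toSet _).image _
  refine Set.Finite.subset (h1.preimage (hφ.injOn)) ?_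
  rintro z ⟨hz1, hz2, hz3⟩
  rw [Set.mem_preimage, Set.mem_iUnion₂]
  refine ⟨(φ z).2, Finset.mem_Ico.2 ⟨hz1, hz2⟩, (φ z).1, ?_, rfl⟩
  have := abs_le.1 hz3
  rw [Finset.coe_Icc, Set.mem_Icc]
  constructor <;> omega

lemma not_Lv_of_Bx {l0 l3 W : ℤ} {z : Site d} (hz : z ∈ Bx φ v l0 l3 W) : z ∉ Lv φ l3 :=
  fun h => absurd h (ne_of_lt hz.2.1)

end Box

/-! ## (B) no backtracking for all starting points -/

section Back

variable {φ : Site d → ℤ × ℤ} {v : ℤ → ℤ}

/-- the levels change by at most one -/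
lemma lv_step (hst : ∀ z (e : Step d), Stp (φ z) (φ (z + stepVec e))) {z : Site d} {e : Step d} :
    (φ z).2 - 1 ≤ (φ (z + stepVec e)).2 ∧ (φ (z + stepVec e)).2 ≤ (φ z).2 + 1 := by
  have := hst z e
  simp only [Stp] at this
  omega

/-- **(B)** From fixed starting points to all starting points, no backtracking.
`B` = box with levels `[l0, l3)` and half width `W`; the bad event = not leaving `B` through the
level `l3`. -/
theorem back_all (ω : Environment d) (i0 : Fin d) (hφ : Function.Injective φ)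
    (hst : ∀ z (e : Step d), Stp (φ z) (φ (z + stepVec e)))
    (l0 s0 s1 l3 w W1 W : ℤ) (hl0 : l0 ≤ s0) (hs : s0 < s1) (hw1 : w ≤ W1) (hW : W1 ≤ W)
    (hell : ∀ z ∈ Bx φ v l0 l3 W, ∀ e, 0 < (ω z).1 e) (η c : ℝ≥0∞)
    (H1 : ∀ t : ℤ, |t - v s1| ≤ W1 → ∃ z : Site d,
      c ≤ quenchedLaw ω z (Ev {y | y ∈ Bx φ v l0 l3 W ∧ s0 < (φ y).2 ∧ (φ y).2 < s1}
        {y | (φ y).2 = s1 ∧ (φ y).1 ≤ t}) ∧
      c ≤ quenchedLaw ω z (Ev {y | y ∈ Bx φ v l0 l3 W ∧ s0 < (φ y).2 ∧ (φ y).2 < s1}
        {y | (φ y).2 = s1 ∧ t ≤ (φ y).1}) ∧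
      quenchedLaw ω z (Ev (Bx φ v l0 l3 W) (Lv φ l3))ᶜ < η * c)
    (H2R : ∃ z : Site d, (φ z).2 ≤ s0 ∧
      c ≤ quenchedLaw ω z (Ev {y | y ∈ Bx φ v l0 l3 W ∧ w < (φ y).1 - v (φ y).2 ∧
        (φ y).1 - v (φ y).2 ≤ W1} (Lv φ l3)) ∧
      quenchedLaw ω z (Ev (Bx φ v l0 l3 W) (Lv φ l3))ᶜ < η * c)
    (H2L : ∃ z : Site d, (φ z).2 ≤ s0 ∧
      c ≤ quenchedLaw ω z (Ev {y | y ∈ Bx φ v l0 l3 W ∧ (φ y).1 - v (φ y).2 < -w ∧
        -W1 ≤ (φ y).1 - v (φ y).2} (Lv φ l3)) ∧
      quenchedLaw ω z (Ev (Bx φ v l0 l3 W) (Lv φ l3))ᶜ < η * c)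
    (x : Site d) (hx1 : s1 ≤ (φ x).2) (hx2 : (φ x).2 < l3) (hx3 : |(φ x).1 - v (φ x).2| ≤ w) :
    quenchedLaw ω x (Ev (Bx φ v l0 l3 W) (Lv φ l3))ᶜ < η := by
  by_contra hcon
  rw [not_lt] at hcon
  set B := Bx φ v l0 l3 W with hBdef
  set E := (Ev B (Lv φ l3))ᶜ with hE
  have hEm : MeasurableSet E := (meas_Ev _ _).compl
  have hinv : ∀ z ∈ B, ∀ X : Path d, consP z X ∈ E ↔ X ∈ E := fun z hz X =>
    not_congr (Ev_inv hz (not_Lv_of_Bx hz) X)
  have hηt : η ≠ ⊤ := ne_top_of_le_ne_top ENNReal.one_ne_top (le_trans hcon prob_le_one)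
  have hη0 : η ≠ 0 := by
    rintro rfl
    obtain ⟨z, -, -, h⟩ := H2R
    rw [zero_mul] at h
    exact absurd h not_lt_zero
  have hxB : x ∈ B := ⟨by omega, hx2, by
    have := abs_le.1 hx3
    exact abs_le.2 ⟨by omega, by omega⟩⟩
  obtain ⟨k, p, hp0, hp, hpu, hpk⟩ := river_q ω i0 B (Bx_finite hφ l0 l3 W) hell E hEm hinv x hxB
  have hpη : ∀ i ≤ k, η ≤ quenchedLaw ω (p i) E := fun i hi => le_trans hcon (hpu i hi)
  have hk0 : k ≠ 0 := by
    rintro rfl
    exact hpk (by rw [hp0]; exact hxB)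
  have hpstep : ∀ i < k, Stp (φ (p i)) (φ (p (i + 1))) := by
    intro i hi
    obtain ⟨e, he⟩ := (hp i hi).2
    rw [he]
    exact hst _ _
  have hpkT : (φ (p k)).2 ≠ l3 := by
    intro h
    have h1 : quenchedLaw ω (p k) E = 0 := by
      rw [hE, prob_compl_eq_zero_iff (meas_Ev _ _)]
      exact Ev_one ω h
    have := hpη k le_rfl
    rw [h1] at this
    exact hη0 (nonpos_iff_eq_zero.1 this)
  have hplv : ∀ i ≤ k, (φ (p i)).2 < l3 := by
    intro i hi
    rcases Nat.lt_or_ge i k with h | h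
    · exact (hp i h).1.2.1
    · have hik : i = k := le_antisymm hi h
      subst hik
      obtain ⟨j, rfl⟩ := Nat.exists_eq_succ_of_ne_zero hk0
      have h1 := (hp j (Nat.lt_succ_self j)).1.2.1
      have h2 := hpstep j (Nat.lt_succ_self j)
      simp only [Stp] at h2
      have h3 := hpkT
      simp only [Nat.succ_eq_add_one] at h3 ⊢
      omega
  -- the contradiction
  have key : ∀ z : Site d, quenchedLaw ω z E < η * c → ¬ c ≤ quenchedLaw ω z (Hit ω B E η) := by
    intro z hz h
    exact absurd (hit_q ω B E hEm hinv hη0 hηt z h) (not_le.2 hz)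
  -- the first time at distance or low
  have hex : ∃ j, j ≤ k ∧ ((φ (p j)).2 ≤ s0 ∨ W1 < |(φ (p j)).1 - v (φ (p j)).2|) := by
    refine ⟨k, le_rfl, ?_⟩
    by_contra hno
    push Not at hno
    exact hpk ⟨by omega, hplv k le_rfl, by omega⟩
  classical
  obtain ⟨j1, ⟨hj1k, hj1⟩, hmin⟩ : ∃ j1, (j1 ≤ k ∧ ((φ (p j1)).2 ≤ s0 ∨
      W1 < |(φ (p j1)).1 - v (φ (p j1)).2|)) ∧ ∀ j < j1, s0 < (φ (p j)).2 ∧
        |(φ (p j)).1 - v (φ (p j)).2| ≤ W1 := by
    refine ⟨Nat.find hex, Nat.find_spec hex, fun j hj => ?_⟩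
    have h1 := Nat.find_min hex hj
    have h2 : j ≤ k := le_trans hj.le (Nat.find_spec hex).1
    push Not at h1
    exact h1 h2
  by_cases hlow : (φ (p j1)).2 ≤ s0
  · -- the river reaches the level `s0`
    have hj10 : j1 ≠ 0 := by
      rintro rfl
      rw [hp0] at hlow
      omega
    have hlow' : (φ (p j1)).2 = s0 := by
      obtain ⟨j, rfl⟩ := Nat.exists_eq_succ_of_ne_zero hj10
      have h1 := (hmin j (Nat.lt_succ_self j)).1
      have h2 := hpstep j (by omega)
      simp only [Stp] at h2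
      simp only [Nat.succ_eq_add_one] at hlow ⊢
      omega
    -- the last time at level at least `s1`
    obtain ⟨j0, hj01, hj0, hmax⟩ : ∃ j0, j0 < j1 ∧ s1 ≤ (φ (p j0)).2 ∧
        ∀ j, j0 < j → j ≤ j1 → (φ (p j)).2 < s1 := by
      have h0 : s1 ≤ (φ (p 0)).2 := by rw [hp0]; exact hx1
      refine ⟨Nat.findGreatest (fun j => s1 ≤ (φ (p j)).2) j1, ?_, ?_, ?_⟩
      · refine lt_of_le_of_ne (Nat.findGreatest_le _) fun h => ?_
        have := Nat.findGreatest_spec (P := fun j => s1 ≤ (φ (p j)).2) (Nat.zero_le j1) h0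
        rw [h] at this
        omega
      · exact Nat.findGreatest_spec (P := fun j => s1 ≤ (φ (p j)).2) (Nat.zero_le j1) h0
      · intro j h1 h2
        have := Nat.findGreatest_is_greatest h1 h2
        exact not_le.1 this
    have hj0' : (φ (p j0)).2 = s1 := by
      have h1 := hmax (j0 + 1) (by omega) (by omega)
      have h2 := hpstep j0 (by omega)
      simp only [Stp] at h2
      omega
    obtain ⟨z, hz1, hz2, hz3⟩ := H1 (φ (p j0)).1 (by rw [← hj0']; exact (hmin j0 hj01).2)
    refine key z hz3 ?_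
    -- the piece of the river
    have hmeet : ∀ X : Path d, ∀ n, (∀ i < n, X i ∈ B) →
        (∃ i ≤ n, ∃ j ≤ j1 - j0, φ (X i) = φ (p (j0 + j))) → X ∈ Hit ω B E η := by
      rintro X n hX ⟨i, hi, j, hj, hij⟩
      refine ⟨i, fun k hk => hX k (by omega), ?_⟩
      rw [hφ hij]
      exact hpη _ (by omega)
    have hstrip : ∀ X Y : Path d, X 0 = z → Y 0 = z →
        (∀ n, ∃ e : Step d, X (n + 1) = X n + stepVec e) →
        (∀ n, ∃ e : Step d, Y (n + 1) = Y n + stepVec e) →
        X ∈ Ev {y | y ∈ B ∧ s0 < (φ y).2 ∧ (φ y).2 < s1}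
          {y | (φ y).2 = s1 ∧ (φ y).1 ≤ (φ (p j0)).1} →
        Y ∈ Ev {y | y ∈ B ∧ s0 < (φ y).2 ∧ (φ y).2 < s1}
          {y | (φ y).2 = s1 ∧ (φ (p j0)).1 ≤ (φ y).1} →
        X ∈ Hit ω B E η ∨ Y ∈ Hit ω B E η := by
      rintro X Y hX0 hY0 hXs hYs ⟨nL, ⟨eL, eL'⟩, hL⟩ ⟨nR, ⟨eR, eR'⟩, hR⟩
      rcases strip (fun i => φ (p (j0 + i))) (fun i => φ (X i)) (fun i => φ (Y i)) (j1 - j0) nL nR
        s0 s1 (φ (p j0)).1 (fun i hi => hpstep (j0 + i) (by omega))
        (by ext
            · rfl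
            · exact hj0')
        (by rw [show j0 + (j1 - j0) = j1 by omega]; exact hlow')
        (fun i hi hi0 => hmax (j0 + i) (by omega) (by omega))
        (fun i _ => by obtain ⟨e, he⟩ := hXs i; rw [he]; exact hst _ _)
        (fun i _ => by obtain ⟨e, he⟩ := hYs i; rw [he]; exact hst _ _)
        (by rw [hX0, hY0])
        (fun i hi => ⟨(hL i hi).2.1.le, (hL i hi).2.2.le⟩)
        (fun i hi => ⟨(hR i hi).2.1.le, (hR i hi).2.2.le⟩) eL eL' eR eR' hs.le with h | h
      · exact Or.inl (hmeet X nL (fun i hi => (hL i hi).1) h)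
      · exact Or.inr (hmeet Y nR (fun i hi => (hR i hi).1) h)
    by_cases hall : ∀ X : Path d, X 0 = z → (∀ n, ∃ e : Step d, X (n + 1) = X n + stepVec e) →
        X ∈ Ev {y | y ∈ B ∧ s0 < (φ y).2 ∧ (φ y).2 < s1}
          {y | (φ y).2 = s1 ∧ (φ y).1 ≤ (φ (p j0)).1} → X ∈ Hit ω B E η
    · exact le_of_nn ω z hz1 hall
    · push Not at hall
      obtain ⟨X, hX0, hXs, hXE, hXn⟩ := hall
      refine le_of_nn ω z hz2 fun Y hY0 hYs hYE => ?_
      rcases hstrip X Y hX0 hY0 hXs hYs hXE hYE with h | h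
      · exact absurd h hXn
      · exact h
  · -- the river leaves the lateral window above `s0`
    rw [not_le] at hlow
    have hside : W1 < |(φ (p j1)).1 - v (φ (p j1)).2| := by
      rcases hj1 with h | h
      · omega
      · exact h
    have hlows : ∀ i ≤ j1, s0 < (φ (p i)).2 := by
      intro i hi
      rcases Nat.lt_or_ge i j1 with h | h
      · exact (hmin i h).1
      · rw [le_antisymm hi h]; exact hlow
    have hx3' := abs_le.1 hx3
    rcases lt_abs.1 hside with hs' | hs'
    · obtain ⟨z, hz0, hz1, hz2⟩ := H2R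
      refine key z hz2 (le_of_nn ω z hz1 ?_)
      rintro X hX0 hXs ⟨n, hn, hXi⟩
      obtain ⟨i, hi, j, hj, hij⟩ := planar_ext (fun i => φ (p i)) (fun i => φ (X i)) j1 n
        (fun i hi => hpstep i (by omega))
        (fun i _ => by obtain ⟨e, he⟩ := hXs i; rw [he]; exact hst _ _)
        (by
          intro j hj hjl
          simp only [hp0] at hjl ⊢
          rcases Nat.lt_or_ge j n with h | h
          · have h1 := (hXi j h).2.1
            rw [hjl] at h1
            omega
          · rw [le_antisymm hj h, hn] at hjl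
            omega)
        (by
          intro j hj hjl
          rcases Nat.lt_or_ge j n with h | h
          · have h1 := (hXi j h).2.2
            rw [hjl] at h1
            omega
          · rw [le_antisymm hj h, hn] at hjl
            exact absurd hjl (ne_of_gt (hplv j1 hj1k)))
        (by
          intro i hi
          simp only [hX0]
          have := hlows i hi
          omega)
        (by
          intro i hi
          rw [hn]
          exact (hplv i (by omega)).le)
      exact ⟨j, fun k hk => (hXi k (by omega)).1, by rw [← hφ hij]; exact hpη _ (by omega)⟩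
    · obtain ⟨z, hz0, hz1, hz2⟩ := H2L
      refine key z hz2 (le_of_nn ω z hz1 ?_)
      rintro X hX0 hXs ⟨n, hn, hXi⟩
      obtain ⟨i, hi, j, hj, hij⟩ := planar_ext (fun i => φ (p (j1 - i))) (fun i => φ (X i)) j1 n
        (fun i hi => by
          have := hpstep (j1 - (i + 1)) (by omega)
          rw [show j1 - (i + 1) + 1 = j1 - i by omega] at this
          exact Stp.symm this)
        (fun i _ => by obtain ⟨e, he⟩ := hXs i; rw [he]; exact hst _ _)
        (by
          intro j hj hjl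
          simp only [Nat.sub_zero] at hjl ⊢
          rcases Nat.lt_or_ge j n with h | h
          · have h1 := (hXi j h).2.2
            rw [hjl] at h1
            omega
          · rw [le_antisymm hj h, hn] at hjl
            exact absurd hjl (ne_of_gt (hplv j1 hj1k)))
        (by
          intro j hj hjl
          simp only [Nat.sub_self, hp0] at hjl ⊢
          rcases Nat.lt_or_ge j n with h | h
          · have h1 := (hXi j h).2.1
            rw [hjl] at h1
            omega
          · rw [le_antisymm hj h, hn] at hjl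
            omega)
        (by
          intro i hi
          simp only [hX0]
          have := hlows (j1 - i) (by omega)
          omega)
        (by
          intro i hi
          rw [hn]
          exact (hplv (j1 - i) (by omega)).le)
      exact ⟨j, fun k hk => (hXi k (by omega)).1, by rw [← hφ hij]; exact hpη _ (by omega)⟩

/-- **(C)** From fixed starting points to all starting points, mobility.  `T` any interval of the
level `l3`; rivers in `B' = B ∩ {h ≤ level}` from two fixed points `zL`, `zR` at the left and at the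
right of the window `{|lateral - v| ≤ w'}`; every starting point below `h`. -/
theorem mob_all (ω : Environment d) (i0 : Fin d) (hφ : Function.Injective φ)
    (hst : ∀ z (e : Step d), Stp (φ z) (φ (z + stepVec e)))
    (l0 h l3 w' W t1 t2 : ℤ)
    (hell : ∀ z ∈ Bx φ v l0 l3 W, ∀ e, 0 < (ω z).1 e) (ε p : ℝ≥0∞)
    (zL zR : Site d) (hzL : zL ∈ Bx φ v l0 l3 W) (hzR : zR ∈ Bx φ v l0 l3 W)
    (hL1 : h ≤ (φ zL).2) (hR1 : h ≤ (φ zR).2)
    (hL2 : (φ zL).1 - v (φ zL).2 ≤ -w') (hR2 : w' ≤ (φ zR).1 - v (φ zR).2)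
    (hL3 : ε ≤ quenchedLaw ω zL (Ev {y | y ∈ Bx φ v l0 l3 W ∧ h ≤ (φ y).2}
      {y | (φ y).2 = l3 ∧ t1 ≤ (φ y).1 ∧ (φ y).1 ≤ t2}))
    (hR3 : ε ≤ quenchedLaw ω zR (Ev {y | y ∈ Bx φ v l0 l3 W ∧ h ≤ (φ y).2}
      {y | (φ y).2 = l3 ∧ t1 ≤ (φ y).1 ∧ (φ y).1 ≤ t2}))
    (x : Site d) (hx : (φ x).2 < h)
    (hp : p ≤ quenchedLaw ω x (Ev {y | y ∈ Bx φ v l0 l3 W ∧ |(φ y).1 - v (φ y).2| ≤ w'}
      (Lv φ l3))) :
    ε * p ≤ quenchedLaw ω x (Ev (Bx φ v l0 l3 W)
      {y | (φ y).2 = l3 ∧ t1 ≤ (φ y).1 ∧ (φ y).1 ≤ t2}) := by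
  set B := Bx φ v l0 l3 W with hBdef
  set T : Set (Site d) := {y | (φ y).2 = l3 ∧ t1 ≤ (φ y).1 ∧ (φ y).1 ≤ t2} with hT
  set B' : Set (Site d) := {y | y ∈ B ∧ h ≤ (φ y).2} with hB'
  rcases eq_or_ne ε 0 with hε0 | hε0
  · rw [hε0, zero_mul]
    exact bot_le
  have hεt : ε ≠ ⊤ := ne_top_of_le_ne_top ENNReal.one_ne_top (le_trans hL3 prob_le_one)
  have hε1 : ε ≤ 1 := le_trans hL3 prob_le_one
  have hBT : ∀ z ∈ B, z ∉ T := fun z hz hzT => absurd hzT.1 (ne_of_lt hz.2.1)
  refine hit_q ω B (Ev B T) (meas_Ev _ _) (fun z hz X => Ev_inv hz (hBT z hz) X) hε0 hεt x ?_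
  -- the two rivers
  have hriv : ∀ z : Site d, z ∈ B → h ≤ (φ z).2 → ε ≤ quenchedLaw ω z (Ev B' T) →
      ∃ (k : ℕ) (q : ℕ → Site d), q 0 = z ∧ (∀ i < k, Stp (φ (q i)) (φ (q (i + 1)))) ∧
        (∀ i ≤ k, ε ≤ quenchedLaw ω (q i) (Ev B T)) ∧ (∀ i ≤ k, h ≤ (φ (q i)).2 ∧
          (φ (q i)).2 ≤ l3) ∧ q k ∈ T := by
    intro z hz hzh hzε
    obtain ⟨k, q, hq0, hq, hqu, hqk⟩ := river_q ω i0 B'
      ((Bx_finite hφ l0 l3 W).subset fun y hy => hy.1) (fun y hy => hell y hy.1) (Ev B' T)
      (meas_Ev _ _) (fun y hy X => Ev_inv hy (hBT y hy.1) X) z ⟨hz, hzh⟩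
    have hqT : q k ∈ T := by
      by_contra hno
      have h1 := hqu k le_rfl
      rw [Ev_zero ω hno hqk] at h1
      exact hε0 (nonpos_iff_eq_zero.1 (le_trans hzε h1))
    refine ⟨k, q, hq0, ?_, ?_, ?_, hqT⟩
    · intro i hi
      obtain ⟨e, he⟩ := (hq i hi).2
      rw [he]
      exact hst _ _
    · intro i hi
      exact le_trans (le_trans hzε (hqu i hi)) (measure_mono (Ev_mono fun y hy => hy.1))
    · intro i hi
      rcases Nat.lt_or_ge i k with h' | h'
      · exact ⟨(hq i h').1.2, (hq i h').1.1.2.1.le⟩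
      · rw [le_antisymm hi h', hqT.1]
        exact ⟨le_trans hzh hz.2.1.le, le_rfl⟩
  obtain ⟨kL, qL, hqL0, hqLs, hqLu, hqLl, hqLT⟩ := hriv zL hzL hL1 hL3
  obtain ⟨kR, qR, hqR0, hqRs, hqRu, hqRl, hqRT⟩ := hriv zR hzR hR1 hR3
  have hhl : h < l3 := lt_of_le_of_lt hL1 hzL.2.1
  refine le_of_nn ω x hp ?_
  rintro X hX0 hXs ⟨n, hn, hXi⟩
  have hXn : (φ (X n)).2 = l3 := hn
  have hXst : ∀ i < n, Stp (φ (X i)) (φ (X (i + 1))) := fun i _ => by
    obtain ⟨e, he⟩ := hXs i
    rw [he]
    exact hst _ _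
  by_cases hin : X n ∈ T
  · exact ⟨n, fun k hk => (hXi k hk).1, by rw [Ev_one ω hin]; exact hε1⟩
  rcases lt_or_ge (φ (X n)).1 t1 with hlt | hge
  · -- the path ends at the left of `T`: it meets the left river
    obtain ⟨i, hi, j, hj, hij⟩ := planar_ext (fun i => φ (qL i)) (fun i => φ (X i)) kL n hqLs hXst
      (by
        intro j hj hjl
        simp only [hqL0] at hjl ⊢
        rcases Nat.lt_or_ge j n with h' | h'
        · have h1 := abs_le.1 (hXi j h').2
          rw [hjl] at h1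
          omega
        · rw [le_antisymm hj h', hXn] at hjl
          exact absurd hjl (ne_of_gt hzL.2.1))
      (by
        intro j hj hjl
        rw [hqLT.1] at hjl
        rcases Nat.lt_or_ge j n with h' | h'
        · exact absurd hjl (ne_of_lt (hXi j h').1.2.1)
        · rw [le_antisymm hj h']
          exact le_trans hlt.le hqLT.2.1)
      (by
        intro i hi
        simp only [hX0]
        exact le_trans hx.le (hqLl i hi).1)
      (by
        intro i hi
        simp only [hXn]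
        exact (hqLl i hi).2)
    exact ⟨j, fun k hk => (hXi k (by omega)).1, by rw [← hφ hij]; exact hqLu i hi⟩
  · have hgt : t2 < (φ (X n)).1 := by
      by_contra hno
      exact hin ⟨hXn, hge, not_lt.1 hno⟩
    obtain ⟨i, hi, j, hj, hij⟩ := planar_ext (fun i => φ (qR (kR - i))) (fun i => φ (X i)) kR n
      (fun i hi => by
        have := hqRs (kR - (i + 1)) (by omega)
        rw [show kR - (i + 1) + 1 = kR - i by omega] at this
        exact Stp.symm this)
      hXst
      (by
        intro j hj hjl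
        simp only [Nat.sub_zero] at hjl ⊢
        rw [hqRT.1] at hjl
        rcases Nat.lt_or_ge j n with h' | h'
        · exact absurd hjl (ne_of_lt (hXi j h').1.2.1)
        · rw [le_antisymm hj h']
          exact le_trans hqRT.2.2 hgt.le)
      (by
        intro j hj hjl
        simp only [Nat.sub_self, hqR0] at hjl ⊢
        rcases Nat.lt_or_ge j n with h' | h'
        · have h1 := abs_le.1 (hXi j h').2
          rw [hjl] at h1
          omega
        · rw [le_antisymm hj h', hXn] at hjl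
          exact absurd hjl (ne_of_gt hzR.2.1))
      (by
        intro i hi
        simp only [hX0]
        exact le_trans hx.le (hqRl _ (Nat.sub_le _ _)).1)
      (by
        intro i hi
        simp only [hXn]
        exact (hqRl _ (Nat.sub_le _ _)).2)
    exact ⟨j, fun k hk => (hXi k (by omega)).1, by rw [← hφ hij]; exact hqRu _ (Nat.sub_le _ _)⟩

end Back

end Crest.Agent.R154.River916
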