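import Crest.Agent.R154.ExK_9
import Crest.Agent.R154.River_916

/-!
Row 154, block `d = 2` (helper244): CONTAINMENT OF THE QUENCHED LAW (CONT).

`Sk`   : skeleton event (the first hits of the levels `L j` lie in `C j`);
`Gb`   : the same with weights, as an iterated sum over exit kernels (`Gb_le`, `le_Gb`);
`SB`   : bad slab event (dip below `f` or lateral displacement `> r` between two levels);
`contain` : skeleton and no bad slab ⟹ the path stays in the tube up to the top;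
`cont_fixed` : quenched containment probability from the variance of `Gb` and annealed slab bounds;
`cont` : the asymptotic statement (CONT).
-/

set_option autoImplicit false
set_option linter.unusedVariables false
set_option linter.unusedSectionVars false

namespace Crest.Agent.R154.Cont244

open MeasureTheory ProbabilityTheory Filter Crest.ProbabilityR.RandomEnvironment Crest.Agent.R154
open Crest.Agent.R154.ExK9 (EK exT exit_markov exT_eq_iff exT_eq_top_iff meas_EK tsum_EK_le)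
open Crest.Agent.R154.River916 (Ev meas_Ev le_of_nn)
open Crest.Agent.R154.Doob804 (quenched_start)
open scoped ENNReal Topology

variable {d : ℕ}

section defs

variable (ℓ t : Site d → ℤ) (dr : ℤ → ℤ)

/-- `n` is the first time at a level `≥ l` -/
def FH (l : ℤ) (X : Path d) (n : ℕ) : Prop := l ≤ ℓ (X n) ∧ ∀ i < n, ℓ (X i) < l

/-- sites below the level `l` -/
def Below (l : ℤ) : Set (Site d) := {z | ℓ z < l}

/-- skeleton event: for `k < j ≤ k + m` the first hit of the level `L j` lies in `C j` -/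
def Sk (L : ℕ → ℤ) (C : ℕ → Set (Site d)) (k m : ℕ) : Set (Path d) :=
  {X | ∀ j, k < j → j ≤ k + m → ∃ n, FH ℓ (L j) X n ∧ X n ∈ C j}

/-- the weighted skeleton functional -/
noncomputable def Gb (L : ℕ → ℤ) (χ : ℕ → Site d → ℝ≥0∞) (ω : Environment d) :
    ℕ → ℕ → Site d → ℝ≥0∞
  | 0 => fun _ _ => 1
  | m + 1 => fun k y =>
      ∑' z, EK ω (Below ℓ (L (k + 1))) y z * (χ (k + 1) z * Gb L χ ω m (k + 1) z)

/-- bad slab: between the first hits of `≥ a` and `≥ b` the path is below `f` or moves laterally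
(relative to the slant `dr`) by more than `r`. -/
def SB (a b f r : ℤ) : Set (Path d) :=
  {X | ∃ n m, FH ℓ a X n ∧ n ≤ m ∧ (∀ i, i ≤ m → n ≤ i → ℓ (X i) < b) ∧
    (ℓ (X m) < f ∨ r < |(t (X m) - dr (ℓ (X m))) - (t (X n) - dr (ℓ (X n)))|)}

/-- tube: levels in `[f, N)`, lateral distance `≤ W` to the axis -/
def TB (f N W : ℤ) : Set (Site d) := {z | f ≤ ℓ z ∧ ℓ z < N ∧ |t z - dr (ℓ z)| ≤ W}

/-- top of the tube -/
def TT (N W : ℤ) : Set (Site d) := {z | ℓ z = N ∧ |t z - dr (ℓ z)| ≤ W}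

/-- lateral window at every level -/
def CW (ρ : ℤ) : Set (Site d) := {z | |t z - dr (ℓ z)| ≤ ρ}

end defs

variable {ℓ t : Site d → ℤ} {dr : ℤ → ℤ}

/-! ### paths -/

lemma FH.unique {l : ℤ} {X : Path d} {n n' : ℕ} (h : FH ℓ l X n) (h' : FH ℓ l X n') : n = n' := by
  rcases lt_trichotomy n n' with h1 | h1 | h1
  · exact absurd h.1 (not_le.2 (h'.2 n h1))
  · exact h1
  · exact absurd h'.1 (not_le.2 (h.2 n' h1))

lemma FH.le_of {l l' : ℤ} (hl : l ≤ l') {X : Path d} {n n' : ℕ} (h : FH ℓ l X n)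
    (h' : FH ℓ l' X n') : n ≤ n' := by
  by_contra hcon
  exact absurd (hl.trans h'.1) (not_le.2 (h.2 n' (not_le.1 hcon)))

lemma exT_eq_of_FH {l : ℤ} {X : Path d} {n : ℕ} (h : FH ℓ l X n) :
    exT (Below ℓ l) X = n := by
  rw [exT_eq_iff]
  exact ⟨not_lt.2 h.1, fun i hi => h.2 i hi⟩

lemma FH_of_exT {l : ℤ} {X : Path d} (h : exT (Below ℓ l) X ≠ ⊤) :
    FH ℓ l X (exT (Below ℓ l) X).toNat := by
  obtain ⟨n, hn⟩ := ENat.ne_top_iff_exists.1 h
  have h1 := exT_eq_iff.1 hn.symm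
  rw [← hn, ENat.toNat_natCast]
  exact ⟨not_lt.1 h1.1, fun i hi => h1.2 i hi⟩

lemma FH_shift {l : ℤ} {X : Path d} {n m : ℕ} (hX : ∀ i < n, ℓ (X i) < l) :
    FH ℓ l (shift n X) m ↔ FH ℓ l X (n + m) := by
  constructor
  · rintro ⟨h1, h2⟩
    refine ⟨h1, fun i hi => ?_⟩
    by_cases h : i < n
    · exact hX i h
    · have := h2 (i - n) (by omega)
      rwa [shift, show n + (i - n) = i by omega] at this
  · rintro ⟨h1, h2⟩
    exact ⟨h1, fun i hi => h2 (n + i) (by omega)⟩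

lemma meas_FH (l : ℤ) (n : ℕ) (C : Set (Site d)) :
    MeasurableSet {X : Path d | FH ℓ l X n ∧ X n ∈ C} := by
  refine measurableSet_of_agree n _ fun X Y hXY => ?_
  unfold FH
  simp only [Set.mem_ofPred_eq]
  rw [hXY n le_rfl]
  refine and_congr (and_congr Iff.rfl ?_) Iff.rfl
  refine forall_congr' fun i => forall_congr' fun hi => ?_
  rw [hXY i hi.le]

lemma meas_Sk (L : ℕ → ℤ) (C : ℕ → Set (Site d)) (k m : ℕ) : MeasurableSet (Sk ℓ L C k m) := by
  have : Sk ℓ L C k m = ⋂ j, ⋂ (_ : k < j), ⋂ (_ : j ≤ k + m),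
      ⋃ n, {X : Path d | FH ℓ (L j) X n ∧ X n ∈ C j} := by
    ext X
    simp [Sk]
  rw [this]
  exact MeasurableSet.iInter fun j => MeasurableSet.iInter fun _ => MeasurableSet.iInter fun _ =>
    MeasurableSet.iUnion fun n => meas_FH _ _ _

lemma meas_SB (a b f r : ℤ) : MeasurableSet (SB ℓ t dr a b f r) := by
  have : SB ℓ t dr a b f r = ⋃ n, ⋃ m, {X : Path d | FH ℓ a X n ∧ n ≤ m ∧
      (∀ i, i ≤ m → n ≤ i → ℓ (X i) < b) ∧
      (ℓ (X m) < f ∨ r < |(t (X m) - dr (ℓ (X m))) - (t (X n) - dr (ℓ (X n)))|)} := by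
    ext X
    simp [SB]
  rw [this]
  refine MeasurableSet.iUnion fun n => MeasurableSet.iUnion fun m => ?_
  by_cases hnm : n ≤ m
  · refine measurableSet_of_agree m _ fun X Y hXY => ?_
    unfold FH
    simp only [Set.mem_ofPred_eq]
    rw [hXY n hnm, hXY m le_rfl]
    refine and_congr (and_congr Iff.rfl ?_) (and_congr Iff.rfl (and_congr ?_ Iff.rfl))
    · refine forall_congr' fun i => forall_congr' fun hi => ?_
      rw [hXY i (hi.le.trans hnm)]
    · refine forall_congr' fun i => forall_congr' fun hi => forall_congr' fun _ => ?_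
      rw [hXY i hi]
  · have : {X : Path d | FH ℓ a X n ∧ n ≤ m ∧
      (∀ i, i ≤ m → n ≤ i → ℓ (X i) < b) ∧
      (ℓ (X m) < f ∨ r < |(t (X m) - dr (ℓ (X m))) - (t (X n) - dr (ℓ (X n)))|)} = ∅ := by
      ext X
      simp only [Set.mem_ofPred_eq, Set.mem_empty_iff_false, iff_false]
      rintro ⟨_, h, _⟩
      exact hnm h
    rw [this]
    exact MeasurableSet.empty

/-- one level of the skeleton -/
lemma Sk_succ {L : ℕ → ℤ} (hL : Monotone L) (C : ℕ → Set (Site d)) (k m : ℕ) :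
    Sk ℓ L C k (m + 1) = {X : Path d | exT (Below ℓ (L (k + 1))) X ≠ ⊤ ∧
      shift (exT (Below ℓ (L (k + 1))) X).toNat X ∈
        ({X | X 0 ∈ C (k + 1)} ∩ Sk ℓ L C (k + 1) m : Set (Path d))} := by
  ext X
  constructor
  · intro h
    obtain ⟨n, hn, hnC⟩ := h (k + 1) (by omega) (by omega)
    have e : exT (Below ℓ (L (k + 1))) X = n := exT_eq_of_FH hn
    refine ⟨by rw [e]; exact ENat.natCast_ne_top n, ?_, ?_⟩
    · rw [e, ENat.toNat_natCast]
      exact hnC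
    · rw [e, ENat.toNat_natCast]
      intro j hj1 hj2
      obtain ⟨n', hn', hn'C⟩ := h j (by omega) (by omega)
      have hle : n ≤ n' := hn.le_of (hL (by omega)) hn'
      refine ⟨n' - n, ?_, ?_⟩
      · rw [FH_shift (fun i hi => lt_of_lt_of_le (hn.2 i hi) (hL (by omega)))]
        rwa [show n + (n' - n) = n' by omega]
      · change X (n + (n' - n)) ∈ C j
        rwa [show n + (n' - n) = n' by omega]
  · rintro ⟨h1, h2, h3⟩
    have hn := FH_of_exT h1
    set n := (exT (Below ℓ (L (k + 1))) X).toNat with hnd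
    intro j hj1 hj2
    by_cases hj : j = k + 1
    · subst hj
      exact ⟨n, hn, h2⟩
    · obtain ⟨m', hm', hm'C⟩ := h3 j (by omega) (by omega)
      refine ⟨n + m', ?_, hm'C⟩
      rwa [← FH_shift (fun i hi => lt_of_lt_of_le (hn.2 i hi) (hL (by omega)))]

lemma quenched_inter_start (ω : Environment d) (z : Site d) (C : Set (Site d))
    (E : Set (Path d)) :
    quenchedLaw ω z ({X | X 0 ∈ C} ∩ E) = C.indicator 1 z * quenchedLaw ω z E := by
  by_cases h : z ∈ C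
  · rw [Set.indicator_of_mem h]
    simp only [Pi.one_apply, one_mul]
    refine measure_congr ?_
    filter_upwards [quenched_start ω z] with X hX
    apply propext
    change (X ∈ {X : Path d | X 0 ∈ C} ∩ E) ↔ X ∈ E
    refine ⟨fun h => h.2, fun hE => ⟨?_, hE⟩⟩
    change X 0 ∈ C
    rw [hX]
    exact h
  · rw [Set.indicator_of_notMem h, zero_mul]
    refine le_antisymm ?_ zero_le
    refine (measure_mono Set.inter_subset_left).trans (le_of_eq ?_)
    have : ∀ᵐ X ∂(quenchedLaw ω z), ¬ X 0 ∈ C := by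
      filter_upwards [quenched_start ω z] with X hX
      rw [hX]
      exact h
    have h2 := ae_iff.1 this
    simp only [not_not] at h2
    exact h2

lemma quenched_Sk_succ {L : ℕ → ℤ} (hL : Monotone L) (C : ℕ → Set (Site d)) (k m : ℕ)
    (ω : Environment d) (y : Site d) :
    quenchedLaw ω y (Sk ℓ L C k (m + 1)) = ∑' z, EK ω (Below ℓ (L (k + 1))) y z *
      ((C (k + 1)).indicator 1 z * quenchedLaw ω z (Sk ℓ L C (k + 1) m)) := by
  rw [Sk_succ hL]
  rw [exit_markov ω (Below ℓ (L (k + 1))) y (B := ({X | X 0 ∈ C (k + 1)} ∩ Sk ℓ L C (k + 1) m))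
    (MeasurableSet.inter (measurable_pi_apply 0 (Set.to_countable _).measurableSet)
      (meas_Sk _ _ _ _))]
  exact tsum_congr fun z => by rw [quenched_inter_start]

lemma quenched_Sk_zero (L : ℕ → ℤ) (C : ℕ → Set (Site d)) (k : ℕ) (ω : Environment d)
    (y : Site d) : quenchedLaw ω y (Sk ℓ L C k 0) = 1 := by
  have : Sk ℓ L C k 0 = (Set.univ : Set (Path d)) := by
    ext X
    simp only [Sk, Set.mem_ofPred_eq, Set.mem_univ, iff_true]
    intro j h1 h2
    omega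
  rw [this, measure_univ]

/-- **upper weights** -/
theorem le_Gb {L : ℕ → ℤ} (hL : Monotone L) {C : ℕ → Set (Site d)} {χ : ℕ → Site d → ℝ≥0∞}
    (h : ∀ j z, (C j).indicator 1 z ≤ χ j z) (ω : Environment d) (m : ℕ) :
    ∀ k y, quenchedLaw ω y (Sk ℓ L C k m) ≤ Gb ℓ L χ ω m k y := by
  induction m with
  | zero => intro k y; exact (quenched_Sk_zero L C k ω y).le
  | succ m ih =>
    intro k y
    rw [quenched_Sk_succ hL]
    refine ENNReal.tsum_le_tsum fun z => ?_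
    gcongr
    · exact h _ _
    · exact ih _ _

/-- **lower weights** -/
theorem Gb_le {L : ℕ → ℤ} (hL : Monotone L) {C : ℕ → Set (Site d)} {χ : ℕ → Site d → ℝ≥0∞}
    (h : ∀ j z, χ j z ≤ (C j).indicator 1 z) (ω : Environment d) (m : ℕ) :
    ∀ k y, Gb ℓ L χ ω m k y ≤ quenchedLaw ω y (Sk ℓ L C k m) := by
  induction m with
  | zero => intro k y; exact (quenched_Sk_zero L C k ω y).ge
  | succ m ih =>
    intro k y
    rw [quenched_Sk_succ hL]
    refine ENNReal.tsum_le_tsum fun z => ?_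
    gcongr
    · exact h _ _
    · exact ih _ _

lemma meas_Gb (L : ℕ → ℤ) (χ : ℕ → Site d → ℝ≥0∞) (m : ℕ) :
    ∀ k y, Measurable fun ω : Environment d => Gb ℓ L χ ω m k y := by
  induction m with
  | zero => intro k y; exact measurable_const
  | succ m ih =>
    intro k y
    refine Measurable.tsum fun z => ?_
    exact (meas_EK _ _ _).mul ((ih _ _).const_mul _)

lemma Gb_le_one (L : ℕ → ℤ) {χ : ℕ → Site d → ℝ≥0∞} (h : ∀ j z, χ j z ≤ 1) (ω : Environment d)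
    (m : ℕ) : ∀ k y, Gb ℓ L χ ω m k y ≤ 1 := by
  induction m with
  | zero => intro k y; exact le_rfl
  | succ m ih =>
    intro k y
    refine le_trans (ENNReal.tsum_le_tsum fun z => ?_) (tsum_EK_le ω (Below ℓ (L (k + 1))) y)
    calc EK ω (Below ℓ (L (k + 1))) y z * (χ (k + 1) z * Gb ℓ L χ ω m (k + 1) z)
        ≤ EK ω (Below ℓ (L (k + 1))) y z * (1 * 1) := by
          gcongr
          · exact h _ _
          · exact ih _ _
      _ = _ := by rw [mul_one, mul_one]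

/-! ### containment -/

/-- **skeleton and no bad slab ⟹ containment** -/
theorem contain {L : ℕ → ℤ} {J : ℕ} {f ρ r : ℤ} {X : Path d} (hL : Monotone L)
    (h0 : ℓ (X 0) = L 0) (h0' : |t (X 0) - dr (ℓ (X 0))| ≤ ρ) (hr : 0 ≤ r) (hJ : 1 ≤ J)
    (hsk : X ∈ Sk ℓ L (fun _ => CW ℓ t dr ρ) 0 J)
    (hSB : ∀ j < J, X ∉ SB ℓ t dr (L j) (L (j + 1)) f r)
    (hup : ∀ n, ℓ (X (n + 1)) ≤ ℓ (X n) + 1) :
    X ∈ Ev (TB ℓ t dr f (L J) (ρ + r)) (TT ℓ t dr (L J) ρ) := by
  obtain ⟨n, hn, hnC⟩ := hsk J (by omega) (by omega)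
  have hlev : ℓ (X n) = L J := by
    rcases Nat.eq_zero_or_pos n with hn0 | hn0
    · have h1 := hn.1
      have h2 := hL (Nat.zero_le J)
      rw [hn0] at h1 ⊢
      omega
    · obtain ⟨n', rfl⟩ : ∃ n', n = n' + 1 := ⟨n - 1, by omega⟩
      have h1 := hn.1
      have h2 := hn.2 n' (by omega)
      have h3 := hup n'
      omega
  refine ⟨n, ⟨hlev, hnC⟩, fun i hi => ?_⟩
  have hiN : ℓ (X i) < L J := hn.2 i hi
  -- the current slab
  have hP0 : ∃ n' ≤ i, FH ℓ (L 0) X n' :=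
    ⟨0, Nat.zero_le _, by rw [FH, h0]; exact ⟨le_rfl, fun i hi => absurd hi (Nat.not_lt_zero i)⟩⟩
  have hPJ : ¬ ∃ n' ≤ i, FH ℓ (L J) X n' := by
    rintro ⟨n', hn', hF⟩
    have := hF.unique hn
    omega
  obtain ⟨j, hjJ, hj1, hj2⟩ : ∃ j < J, (∃ n' ≤ i, FH ℓ (L j) X n') ∧
      ¬ ∃ n' ≤ i, FH ℓ (L (j + 1)) X n' := by
    by_contra hcon
    push Not at hcon
    have : ∀ j ≤ J, ∃ n' ≤ i, FH ℓ (L j) X n' := by
      intro j
      induction j with
      | zero => intro _; exact hP0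
      | succ j ih =>
        intro hj
        exact hcon j (by omega) (ih (by omega))
    exact hPJ (this J le_rfl)
  obtain ⟨a, hai, haF⟩ := hj1
  obtain ⟨b, hbF, hbC⟩ := hsk (j + 1) (by omega) (by omega)
  have hib : i < b := by
    by_contra hcon
    exact hj2 ⟨b, not_lt.1 hcon, hbF⟩
  have hno := hSB j hjJ
  have h2 : ¬ (ℓ (X i) < f ∨ r < |(t (X i) - dr (ℓ (X i))) - (t (X a) - dr (ℓ (X a)))|) := by
    intro hbad
    exact hno ⟨a, i, haF, hai, fun i' hi' _ => hbF.2 i' (by omega), hbad⟩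
  rw [not_or, not_lt, not_lt] at h2
  have ha : |t (X a) - dr (ℓ (X a))| ≤ ρ := by
    rcases Nat.eq_zero_or_pos j with hj0 | hj0
    · subst hj0
      have : a = 0 := haF.unique ⟨by rw [h0], fun i hi => absurd hi (Nat.not_lt_zero i)⟩
      rw [this]
      exact h0'
    · obtain ⟨a', ha'F, ha'C⟩ := hsk j hj0 (by omega)
      rw [haF.unique ha'F]
      exact ha'C
  refine ⟨h2.1, hiN, ?_⟩
  have h3 := h2.2
  rw [abs_le] at h3 ha ⊢
  constructor <;> omega

/-- containment ⟹ skeleton -/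
theorem sk_of_tube {L : ℕ → ℤ} {J : ℕ} {f W : ℤ} {X : Path d} (hL : Monotone L)
    (hX : X ∈ Ev (TB ℓ t dr f (L J) W) (TT ℓ t dr (L J) W)) :
    X ∈ Sk ℓ L (fun _ => CW ℓ t dr W) 0 J := by
  obtain ⟨n, hn, hi⟩ := hX
  have hnJ : FH ℓ (L J) X n := ⟨hn.1.ge, fun i h => (hi i h).2.1⟩
  intro j hj1 hj2
  have hjJ : L j ≤ L J := hL (by omega)
  classical
  have hex : ∃ m, L j ≤ ℓ (X m) := ⟨n, hjJ.trans hn.1.ge⟩
  refine ⟨Nat.find hex, ⟨Nat.find_spec hex, fun i h => not_le.1 (Nat.find_min hex h)⟩, ?_⟩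
  have hle : Nat.find hex ≤ n := Nat.find_le (hjJ.trans hn.1.ge)
  rcases Nat.lt_or_ge (Nat.find hex) n with h | h
  · exact (hi _ h).2.2
  · rw [le_antisymm hle h]
    exact hn.2

lemma quenched_contain {L : ℕ → ℤ} {J : ℕ} {f ρ r : ℤ} (hL : Monotone L) {z : Site d}
    (h0 : ℓ z = L 0) (h0' : |t z - dr (ℓ z)| ≤ ρ) (hr : 0 ≤ r) (hJ : 1 ≤ J)
    (hup : ∀ (z : Site d) (e : Step d), ℓ (z + stepVec e) ≤ ℓ z + 1) (ω : Environment d) :
    quenchedLaw ω z (Ev (TB ℓ t dr f (L J) (ρ + r)) (TT ℓ t dr (L J) ρ))ᶜ ≤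
      quenchedLaw ω z (Sk ℓ L (fun _ => CW ℓ t dr ρ) 0 J)ᶜ +
        ∑ j ∈ Finset.range J, quenchedLaw ω z (SB ℓ t dr (L j) (L (j + 1)) f r) := by
  have h1 : quenchedLaw ω z (Ev (TB ℓ t dr f (L J) (ρ + r)) (TT ℓ t dr (L J) ρ))ᶜ ≤
      quenchedLaw ω z ((Sk ℓ L (fun _ => CW ℓ t dr ρ) 0 J)ᶜ ∪
        ⋃ j ∈ Finset.range J, SB ℓ t dr (L j) (L (j + 1)) f r) := by
    refine le_of_nn ω z le_rfl fun X hX0 hXs hX => ?_
    by_contra hcon
    simp only [Set.mem_union, Set.mem_compl_iff, Set.mem_iUnion, Finset.mem_range, not_or,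
      not_not, not_exists] at hcon
    refine hX (contain hL (by rw [hX0]; exact h0) (by rw [hX0]; exact h0') hr hJ hcon.1
      (fun j hj => hcon.2 j hj) fun n => ?_)
    obtain ⟨e, he⟩ := hXs n
    rw [he]
    exact hup _ _
  refine h1.trans ((measure_union_le _ _).trans ?_)
  gcongr
  exact measure_biUnion_finset_le _ _

/-! ### the quantitative statement -/

section fixed

variable {Q : Measure (Environment d)} [IsProbabilityMeasure Q]

lemma annealed_eq (x : Site d) {E : Set (Path d)} :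
    annealedProb Q x E = ∫⁻ ω, quenchedLaw ω x E ∂Q := rfl

/-- Markov for quenched probabilities -/
lemma markov_q (x : Site d) {E : Set (Path d)} (hE : MeasurableSet E) {δ : ℝ} (hδ : 0 < δ) :
    Q {ω | ENNReal.ofReal δ ≤ quenchedLaw ω x E} ≤ annealedProb Q x E / ENNReal.ofReal δ := by
  rw [annealed_eq]
  exact meas_ge_le_lintegral_div (Q561.measurable_quenched_apply x hE).aemeasurable
    (by rw [Ne, ENNReal.ofReal_eq_zero]; linarith) ENNReal.ofReal_ne_top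

/-- **(CONT), quantitative form.** -/
theorem cont_fixed {L : ℕ → ℤ} {J : ℕ} {f ρ r ρ' : ℤ} (hL : Monotone L) {z : Site d}
    (h0 : ℓ z = L 0) (h0' : |t z - dr (ℓ z)| ≤ ρ) (hr : 0 ≤ r) (hJ : 1 ≤ J)
    (hup : ∀ (z : Site d) (e : Step d), ℓ (z + stepVec e) ≤ ℓ z + 1)
    {χ : ℕ → Site d → ℝ≥0∞} (hχ1 : ∀ j z, χ j z ≤ (CW ℓ t dr ρ).indicator 1 z)
    (hχ2 : ∀ j z, (CW ℓ t dr ρ').indicator 1 z ≤ χ j z)
    {δ V : ℝ} (hδ : 0 < δ)
    (hV : ∫ ω, ((Gb ℓ L χ ω J 0 z).toReal - ∫ ω', (Gb ℓ L χ ω' J 0 z).toReal ∂Q) ^ 2 ∂Q ≤ V)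
    (hA : annealedProb Q z (Ev (TB ℓ t dr f (L J) ρ') (TT ℓ t dr (L J) ρ'))ᶜ ≤
      ENNReal.ofReal (δ / 4))
    {S : ℝ} (hS0 : 0 ≤ S)
    (hS : ∑ j ∈ Finset.range J, annealedProb Q z (SB ℓ t dr (L j) (L (j + 1)) f r) ≤
      ENNReal.ofReal S) :
    Q {ω | ENNReal.ofReal δ ≤
        quenchedLaw ω z (Ev (TB ℓ t dr f (L J) (ρ + r)) (TT ℓ t dr (L J) ρ))ᶜ} ≤
      ENNReal.ofReal (16 * V / δ ^ 2 + 2 * S / δ) := by
  set G : Environment d → ℝ := fun ω => (Gb ℓ L χ ω J 0 z).toReal with hG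
  have hχ1' : ∀ j z, χ j z ≤ 1 := fun j z => (hχ1 j z).trans (by
    by_cases h : z ∈ CW ℓ t dr ρ
    · rw [Set.indicator_of_mem h]; rfl
    · rw [Set.indicator_of_notMem h]; exact zero_le)
  have hG1 : ∀ ω, Gb ℓ L χ ω J 0 z ≤ 1 := fun ω => Gb_le_one L hχ1' ω J 0 z
  have hGt : ∀ ω, Gb ℓ L χ ω J 0 z ≠ ∞ := fun ω => ne_top_of_le_ne_top ENNReal.one_ne_top (hG1 ω)
  have hGm : Measurable G := (meas_Gb L χ J 0 z).ennreal_toReal
  have hG0 : ∀ ω, 0 ≤ G ω := fun ω => ENNReal.toReal_nonneg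
  have hG1' : ∀ ω, G ω ≤ 1 := fun ω => by
    have := ENNReal.toReal_mono ENNReal.one_ne_top (hG1 ω)
    simpa using this
  have hGi : Integrable G Q := by
    refine Integrable.of_bound hGm.aestronglyMeasurable 1 (Eventually.of_forall fun ω => ?_)
    rw [Real.norm_eq_abs, abs_of_nonneg (hG0 ω)]
    exact hG1' ω
  set m : ℝ := ∫ ω, G ω ∂Q with hm
  -- mean
  have hmean : 1 - δ / 4 ≤ m := by
    have h1 : ∀ ω, 1 - quenchedLaw ω z (Ev (TB ℓ t dr f (L J) ρ') (TT ℓ t dr (L J) ρ'))ᶜ ≤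
        Gb ℓ L χ ω J 0 z := by
      intro ω
      refine le_trans ?_ (le_Gb hL (C := fun _ => CW ℓ t dr ρ') hχ2 ω J 0 z)
      have h2 : quenchedLaw ω z (Ev (TB ℓ t dr f (L J) ρ') (TT ℓ t dr (L J) ρ')) ≤
          quenchedLaw ω z (Sk ℓ L (fun _ => CW ℓ t dr ρ') 0 J) :=
        measure_mono fun X hX => sk_of_tube hL hX
      refine le_trans ?_ h2
      rw [measure_compl (meas_Ev _ _) (measure_ne_top _ _), measure_univ]
      exact (ENNReal.sub_sub_cancel ENNReal.one_ne_top prob_le_one).le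
    have h2 : ENNReal.ofReal (1 - δ / 4) ≤ ∫⁻ ω, Gb ℓ L χ ω J 0 z ∂Q := by
      calc ENNReal.ofReal (1 - δ / 4) ≤ 1 - ENNReal.ofReal (δ / 4) := by
            rw [ENNReal.ofReal_sub _ (by positivity), ENNReal.ofReal_one]
        _ ≤ 1 - annealedProb Q z (Ev (TB ℓ t dr f (L J) ρ') (TT ℓ t dr (L J) ρ'))ᶜ := by gcongr
        _ = ∫⁻ ω, 1 ∂Q - ∫⁻ ω, quenchedLaw ω z
              (Ev (TB ℓ t dr f (L J) ρ') (TT ℓ t dr (L J) ρ'))ᶜ ∂Q := by
            rw [lintegral_const, measure_univ, mul_one]; rfl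
        _ ≤ ∫⁻ ω, (1 - quenchedLaw ω z
              (Ev (TB ℓ t dr f (L J) ρ') (TT ℓ t dr (L J) ρ'))ᶜ) ∂Q :=
            lintegral_sub_le _ _ (Q561.measurable_quenched_apply z (meas_Ev _ _).compl)
        _ ≤ _ := lintegral_mono h1
    have h3 : ∫⁻ ω, Gb ℓ L χ ω J 0 z ∂Q = ENNReal.ofReal m := by
      rw [hm, ofReal_integral_eq_lintegral_ofReal hGi (Eventually.of_forall hG0)]
      exact lintegral_congr fun ω => (ENNReal.ofReal_toReal (hGt ω)).symm
    rw [h3] at h2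
    have hm0 : 0 ≤ m := integral_nonneg hG0
    exact (ENNReal.ofReal_le_ofReal_iff hm0).1 h2
  -- inclusion
  have hsub : {ω | ENNReal.ofReal δ ≤
      quenchedLaw ω z (Ev (TB ℓ t dr f (L J) (ρ + r)) (TT ℓ t dr (L J) ρ))ᶜ} ⊆
      {ω | ENNReal.ofReal ((δ / 4) ^ 2) ≤ ENNReal.ofReal ((G ω - m) ^ 2)} ∪
      {ω | ENNReal.ofReal (δ / 2) ≤
        ∑ j ∈ Finset.range J, quenchedLaw ω z (SB ℓ t dr (L j) (L (j + 1)) f r)} := by
    intro ω hω
    by_contra hcon
    simp only [Set.mem_union, Set.mem_ofPred_eq, not_or, not_le] at hcon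
    obtain ⟨c1, c2⟩ := hcon
    have c1' : (G ω - m) ^ 2 < (δ / 4) ^ 2 := by
      rwa [ENNReal.ofReal_lt_ofReal_iff (by positivity)] at c1
    have c1'' : |G ω - m| < δ / 4 := by
      rw [← abs_of_pos (show (0:ℝ) < δ / 4 by positivity)]
      exact sq_lt_sq.1 c1'
    have c3 : 1 - δ / 2 < G ω := by
      have := (abs_lt.1 c1'').1
      linarith
    have h1 := quenched_contain (t := t) (dr := dr) (f := f) (r := r) (J := J) hL h0 h0' hr hJ hup ω
    have h2 : quenchedLaw ω z (Sk ℓ L (fun _ => CW ℓ t dr ρ) 0 J)ᶜ ≤ ENNReal.ofReal (δ / 2) := by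
      rw [measure_compl (meas_Sk _ _ _ _) (measure_ne_top _ _), measure_univ]
      have h3 := Gb_le (ℓ := ℓ) hL (C := fun _ => CW ℓ t dr ρ) hχ1 ω J 0 z
      have h4 : ENNReal.ofReal (1 - δ / 2) ≤ Gb ℓ L χ ω J 0 z := by
        rw [← ENNReal.ofReal_toReal (hGt ω)]
        exact ENNReal.ofReal_le_ofReal c3.le
      rw [tsub_le_iff_right]
      calc (1 : ℝ≥0∞) = ENNReal.ofReal 1 := by simp
        _ = ENNReal.ofReal (δ / 2 + (1 - δ / 2)) := by congr 1; ring
        _ ≤ ENNReal.ofReal (δ / 2) + ENNReal.ofReal (1 - δ / 2) := ENNReal.ofReal_add_le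
        _ ≤ _ := by gcongr; exact h4.trans h3
    have h5 : quenchedLaw ω z (Ev (TB ℓ t dr f (L J) (ρ + r)) (TT ℓ t dr (L J) ρ))ᶜ <
        ENNReal.ofReal δ := by
      calc quenchedLaw ω z (Ev (TB ℓ t dr f (L J) (ρ + r)) (TT ℓ t dr (L J) ρ))ᶜ
          ≤ _ := h1
        _ ≤ ENNReal.ofReal (δ / 2) + ∑ j ∈ Finset.range J, quenchedLaw ω z
              (SB ℓ t dr (L j) (L (j + 1)) f r) := by gcongr
        _ < ENNReal.ofReal (δ / 2) + ENNReal.ofReal (δ / 2) := by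
            exact (ENNReal.add_lt_add_iff_left ENNReal.ofReal_ne_top).2 c2
        _ = ENNReal.ofReal δ := by
            rw [← ENNReal.ofReal_add (by positivity) (by positivity)]; congr 1; ring
    exact absurd hω (not_le.2 h5)
  have hV' : ∫⁻ ω, ENNReal.ofReal ((G ω - m) ^ 2) ∂Q ≤ ENNReal.ofReal V := by
    have hi : Integrable (fun ω => (G ω - m) ^ 2) Q := by
      refine Integrable.of_bound ((hGm.sub_const m).pow_const 2).aestronglyMeasurable ((1 + |m|) ^ 2)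
        (Eventually.of_forall fun ω => ?_)
      rw [Real.norm_eq_abs, abs_of_nonneg (sq_nonneg _), ← sq_abs]
      have h1 : |G ω - m| ≤ 1 + |m| := by
        refine (abs_sub _ _).trans ?_
        rw [abs_of_nonneg (hG0 ω)]
        linarith [hG1' ω]
      gcongr
    rw [← ofReal_integral_eq_lintegral_ofReal hi (Eventually.of_forall fun ω => sq_nonneg _)]
    exact ENNReal.ofReal_le_ofReal hV
  have hV0 : 0 ≤ V := le_trans (integral_nonneg fun ω => sq_nonneg _) hV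
  refine (measure_mono hsub).trans ((measure_union_le _ _).trans ?_)
  rw [ENNReal.ofReal_add (by positivity) (by positivity)]
  refine add_le_add ?_ ?_
  · refine (meas_ge_le_lintegral_div
      (((hGm.sub_const m).pow_const 2).ennreal_ofReal).aemeasurable
      (by rw [Ne, ENNReal.ofReal_eq_zero, not_le]; positivity) ENNReal.ofReal_ne_top).trans ?_
    calc (∫⁻ ω, ENNReal.ofReal ((G ω - m) ^ 2) ∂Q) / ENNReal.ofReal ((δ / 4) ^ 2)
        ≤ ENNReal.ofReal V / ENNReal.ofReal ((δ / 4) ^ 2) := by gcongr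
      _ = ENNReal.ofReal (16 * V / δ ^ 2) := by
          rw [← ENNReal.ofReal_div_of_pos (by positivity)]
          congr 1
          field_simp
          ring
  · have hm1 : Measurable fun ω : Environment d =>
        ∑ j ∈ Finset.range J, quenchedLaw ω z (SB ℓ t dr (L j) (L (j + 1)) f r) :=
      Finset.measurable_sum _ fun j _ => Q561.measurable_quenched_apply z (meas_SB _ _ _ _)
    refine (meas_ge_le_lintegral_div hm1.aemeasurable
      (by rw [Ne, ENNReal.ofReal_eq_zero, not_le]; positivity) ENNReal.ofReal_ne_top).trans ?_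
    rw [lintegral_finsetSum _ fun j _ => Q561.measurable_quenched_apply z (meas_SB _ _ _ _)]
    calc (∑ j ∈ Finset.range J, ∫⁻ ω, quenchedLaw ω z (SB ℓ t dr (L j) (L (j + 1)) f r) ∂Q)
          / ENNReal.ofReal (δ / 2) ≤ ENNReal.ofReal S / ENNReal.ofReal (δ / 2) := by
          gcongr
          exact hS
      _ = ENNReal.ofReal (2 * S / δ) := by
          rw [← ENNReal.ofReal_div_of_pos (by positivity)]
          congr 1
          field_simp

end fixed

/-! ### the asymptotic statement -/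

section asym

variable (Q : Measure (Environment d)) [IsProbabilityMeasure Q]
variable (ℓ t : Site d → ℤ) (dr : ℕ → ℤ → ℤ) (b : ℕ → ℕ)

/-- skeleton levels: `J` slabs up to the level `N` -/
def Lk (N J k : ℕ) : ℤ := ((k * N / J : ℕ) : ℤ)

/-- scaled weights -/
noncomputable def chi (N : ℕ) (χ : ℕ → ℝ → ℝ) (k : ℕ) (z : Site d) : ℝ≥0∞ :=
  ENNReal.ofReal (χ k (((t z - dr N (ℓ z) : ℤ) : ℝ) / b N))

/-- **(COVχ)**: the variance of the quenched expectation of a product of Lipschitz functions of the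
positions at finitely many levels tends to `0`. -/
def CovX : Prop :=
  ∀ (J : ℕ) (χ : ℕ → ℝ → ℝ) (Λ : ℝ), 1 ≤ J → (∀ j x, 0 ≤ χ j x ∧ χ j x ≤ 1) →
    (∀ j x y, |χ j x - χ j y| ≤ Λ * |x - y|) → ∀ η : ℝ, 0 < η → ∃ N0 : ℕ, ∀ N, N0 ≤ N →
      ∫ ω, ((Gb ℓ (Lk N J) (chi ℓ t dr b N χ) ω J 0 0).toReal -
        ∫ ω', (Gb ℓ (Lk N J) (chi ℓ t dr b N χ) ω' J 0 0).toReal ∂Q) ^ 2 ∂Q ≤ η

/-- **(NOBACK)**, annealed containment. -/
def NoBack : Prop :=
  ∀ δ : ℝ, 0 < δ → ∃ K : ℕ, ∀ ε : ℝ, 0 < ε → ∃ N0 : ℕ, ∀ N, N0 ≤ N →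
    annealedProb Q 0 (Ev (TB ℓ t (dr N) (-⌊ε * N⌋) N (K * b N)) (TT ℓ t (dr N) N (K * b N)))ᶜ ≤
      ENNReal.ofReal δ

/-- **(SLABSUM)**, annealed bound for the fluctuations inside slabs. -/
def SlabSum : Prop :=
  ∃ K0 : ℕ, ∀ K : ℕ, K0 ≤ K → ∀ ε η : ℝ, 0 < ε → 0 < η → ∃ J N0 : ℕ, 1 ≤ J ∧ ∀ N, N0 ≤ N →
    ∑ j ∈ Finset.range J, annealedProb Q 0
      (SB ℓ t (dr N) (Lk N J j) (Lk N J (j + 1)) (-⌊ε * N⌋) (K * b N)) ≤ ENNReal.ofReal η

/-- **(CONT)**, quenched containment with probability tending to `1`. -/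
def Cont : Prop :=
  ∀ δ : ℝ, 0 < δ → ∃ K : ℕ, ∀ ε η : ℝ, 0 < ε → 0 < η → ∃ N0 : ℕ, ∀ N, N0 ≤ N →
    Q {ω | ENNReal.ofReal δ ≤ quenchedLaw ω 0
      (Ev (TB ℓ t (dr N) (-⌊ε * N⌋) N (K * b N)) (TT ℓ t (dr N) N (K * b N)))ᶜ} ≤
      ENNReal.ofReal η

variable {Q ℓ t dr b}

lemma Lk_mono (N J : ℕ) : Monotone (Lk N J) := by
  intro i j hij
  unfold Lk
  have : i * N / J ≤ j * N / J := Nat.div_le_div_right (Nat.mul_le_mul_right _ hij)
  exact_mod_cast this

lemma Lk_zero (N J : ℕ) : Lk N J 0 = 0 := by simp [Lk]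

lemma Lk_top (N : ℕ) {J : ℕ} (hJ : 1 ≤ J) : Lk N J J = N := by
  unfold Lk
  rw [Nat.mul_div_cancel_left _ (by omega)]

/-- the cutoff: `1` on `|x| ≤ K`, `0` on `|x| ≥ K + 1` -/
noncomputable def cut (K : ℝ) (x : ℝ) : ℝ := max 0 (min 1 (K + 1 - |x|))

lemma cut_mem (K x : ℝ) : 0 ≤ cut K x ∧ cut K x ≤ 1 :=
  ⟨le_max_left _ _, max_le zero_le_one (min_le_left _ _)⟩

lemma cut_one {K x : ℝ} (h : |x| ≤ K) : cut K x = 1 := by
  unfold cut
  rw [min_eq_left (by linarith)]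
  exact max_eq_right zero_le_one

lemma cut_zero {K x : ℝ} (h : K + 1 ≤ |x|) : cut K x = 0 := by
  unfold cut
  refine max_eq_left ?_
  exact (min_le_right _ _).trans (by linarith)

lemma cut_lip (K x y : ℝ) : |cut K x - cut K y| ≤ 1 * |x - y| := by
  rw [one_mul]
  unfold cut
  have h1 : |max 0 (min 1 (K + 1 - |x|)) - max 0 (min 1 (K + 1 - |y|))| ≤
      |min 1 (K + 1 - |x|) - min 1 (K + 1 - |y|)| := by
    refine (abs_max_sub_max_le_max _ _ _ _).trans (le_of_eq ?_)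
    rw [sub_self, abs_zero]
    exact max_eq_right (abs_nonneg _)
  have h2 : |min 1 (K + 1 - |x|) - min 1 (K + 1 - |y|)| ≤ |(K + 1 - |x|) - (K + 1 - |y|)| := by
    refine (abs_min_sub_min_le_max _ _ _ _).trans (le_of_eq ?_)
    rw [sub_self, abs_zero]
    exact max_eq_right (abs_nonneg _)
  have h3 : |(K + 1 - |x|) - (K + 1 - |y|)| ≤ |x - y| := by
    have : (K + 1 - |x|) - (K + 1 - |y|) = -(|x| - |y|) := by ring
    rw [this, abs_neg]
    exact abs_abs_sub_abs_le _ _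
  exact h1.trans (h2.trans h3)

/-- **(CONT) from (COVχ), (NOBACK) and (SLABSUM).** -/
theorem cont (hb : ∀ N, 1 ≤ b N) (hℓ0 : ℓ 0 = 0) (ht0 : ∀ N, t 0 - dr N 0 = 0)
    (hup : ∀ (z : Site d) (e : Step d), ℓ (z + stepVec e) ≤ ℓ z + 1)
    (hcov : CovX Q ℓ t dr b) (hnb : NoBack Q ℓ t dr b) (hss : SlabSum Q ℓ t dr b) :
    Cont Q ℓ t dr b := by
  intro δ hδ
  obtain ⟨K1, hK1⟩ := hnb (δ / 4) (by positivity)
  obtain ⟨K2, hK2⟩ := hss
  refine ⟨K1 + 1 + K2, fun ε η hε hη => ?_⟩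
  obtain ⟨N1, hN1⟩ := hK1 ε hε
  obtain ⟨J, N2, hJ, hN2⟩ := hK2 K2 le_rfl ε (η * δ / 4) hε (by positivity)
  obtain ⟨N3, hN3⟩ := hcov J (fun _ => cut K1) 1 hJ (fun _ x => cut_mem _ x)
    (fun _ x y => cut_lip _ x y) (η * δ ^ 2 / 32) (by positivity)
  refine ⟨max N1 (max N2 N3), fun N hN => ?_⟩
  have h1 := hN1 N ((le_max_left _ _).trans hN)
  have h2 := hN2 N (((le_max_left _ _).trans (le_max_right _ _)).trans hN)
  have h3 := hN3 N (((le_max_right _ _).trans (le_max_right _ _)).trans hN)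
  have hbN : (1 : ℤ) ≤ b N := by exact_mod_cast hb N
  have hbR : (0 : ℝ) < b N := by exact_mod_cast hb N
  have e0 : (0 : Site d) ∈ CW ℓ t (dr N) (((K1 : ℤ) + 1) * b N) := by
    change |t 0 - dr N (ℓ 0)| ≤ _
    rw [hℓ0, ht0 N, abs_zero]
    positivity
  have hχ1 : ∀ (j : ℕ) (z : Site d), chi ℓ t dr b N (fun _ => cut K1) j z ≤
      (CW ℓ t (dr N) (((K1 : ℤ) + 1) * b N)).indicator 1 z := by
    intro j z
    by_cases hz : z ∈ CW ℓ t (dr N) (((K1 : ℤ) + 1) * b N)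
    · rw [Set.indicator_of_mem hz]
      unfold chi
      rw [Pi.one_apply, ← ENNReal.ofReal_one]
      exact ENNReal.ofReal_le_ofReal (cut_mem _ _).2
    · rw [Set.indicator_of_notMem hz]
      unfold chi
      simp only
      rw [cut_zero, ENNReal.ofReal_zero]
      have hz' : ((K1 : ℤ) + 1) * b N < |t z - dr N (ℓ z)| := not_le.1 hz
      rw [abs_div, abs_of_pos hbR, le_div_iff₀ hbR]
      have : ((((K1 : ℤ) + 1) * b N : ℤ) : ℝ) ≤ ((|t z - dr N (ℓ z)| : ℤ) : ℝ) := by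
        exact_mod_cast hz'.le
      push_cast at this ⊢
      exact this
  have hχ2 : ∀ (j : ℕ) (z : Site d), (CW ℓ t (dr N) ((K1 : ℤ) * b N)).indicator 1 z ≤
      chi ℓ t dr b N (fun _ => cut K1) j z := by
    intro j z
    by_cases hz : z ∈ CW ℓ t (dr N) ((K1 : ℤ) * b N)
    · rw [Set.indicator_of_mem hz]
      unfold chi
      simp only
      rw [cut_one, Pi.one_apply, ENNReal.ofReal_one]
      have hz' : |t z - dr N (ℓ z)| ≤ (K1 : ℤ) * b N := hz
      rw [abs_div, abs_of_pos hbR, div_le_iff₀ hbR]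
      have : ((|t z - dr N (ℓ z)| : ℤ) : ℝ) ≤ (((K1 : ℤ) * b N : ℤ) : ℝ) := by
        exact_mod_cast hz'
      push_cast at this ⊢
      exact this
    · rw [Set.indicator_of_notMem hz]
      exact zero_le
  have hLt : Lk N J J = N := Lk_top N hJ
  have main := cont_fixed (Q := Q) (ℓ := ℓ) (t := t) (dr := dr N) (L := Lk N J) (J := J)
    (f := -⌊ε * N⌋) (ρ := ((K1 : ℤ) + 1) * b N) (r := (K2 : ℤ) * b N) (ρ' := (K1 : ℤ) * b N)
    (Lk_mono N J) (z := 0) (by rw [hℓ0, Lk_zero]) e0 (by positivity) hJ hup hχ1 hχ2 hδ h3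
    (by rw [hLt]; exact h1) (S := η * δ / 4) (by positivity) h2
  rw [hLt] at main
  refine le_trans (measure_mono ?_) (main.trans (ENNReal.ofReal_le_ofReal (le_of_eq ?_)))
  · intro ω hω
    refine le_trans hω (measure_mono (Set.compl_subset_compl.2 ?_))
    rintro X ⟨n, hn, hi⟩
    refine ⟨n, ⟨hn.1, hn.2.trans ?_⟩, fun i h => ⟨(hi i h).1, (hi i h).2.1, (hi i h).2.2.trans ?_⟩⟩
    · push_cast
      nlinarith [Nat.zero_le K2, show (0:ℤ) ≤ K2 by positivity]
    · push_cast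
      nlinarith
  · field_simp
    ring

end asym

end Crest.Agent.R154.Cont244
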