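import Crest.Agent.R154.ContC_424

/-! Row 154, B4, walker side (helper424): **the contact inequality**. -/

set_option autoImplicit false
set_option linter.unusedVariables false
set_option linter.unusedSectionVars false

namespace Crest.Agent.R154

open MeasureTheory ProbabilityTheory Crest.ProbabilityR.RandomEnvironment
open scoped ENNReal

namespace Cont

variable {d : ℕ} {Ω : Type} [MeasurableSpace Ω]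

/-- same environment = independent environments without read contact (`X` seen up to `S`, `T` seen
up to `S'`). -/
def K1P (W : WalkSpace d Ω) (rd : Ω → ℕ → Prop) (R : ℕ) (Q : Measure (Environment d))
    (P₁ P₂ : Kernel (Environment d) Ω) : Prop :=
  ∀ S S' : Ω → ℕ∞, W.IsStop S → W.IsStop S' → ∀ C : Set (Ω × Ω), MeasurableSet C →
    (∀ X X' T T', Ag W (S X) X X' → Ag W (S' T) T T' → (X, T) ∈ C → (X', T') ∈ C) →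
    (∀ X T, (X, T) ∈ C → S' T ≤ kap W rd R (rows W rd X (S X)) T) →
    WalkSpace.same Q P₁ P₂ C = WalkSpace.ind Q P₁ P₂ C

namespace Grid

variable {𝒢 : Grid d Ω} (h𝒢 : 𝒢.Ok)

/-- `T` good and natural in window `k`. -/
def GN (𝒢 : Grid d Ω) (k : ℕ) : Set Ω := {T | 𝒢.Gd T ∧ 𝒢.Nt k T}

/-- `T` good and not natural in window `k`. -/
def Bad (𝒢 : Grid d Ω) (k : ℕ) : Set Ω := {T | 𝒢.Gd T ∧ ¬ 𝒢.Nt k T}

/-- contact at stage `k+5`, `T` good and natural in window `k`. -/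
def AK (𝒢 : Grid d Ω) (k : ℕ) : Set (Ω × Ω) :=
  {p | 𝒢.JS (k + 5) p.1 p.2 ∧ ¬ 𝒢.JS (k + 4) p.1 p.2 ∧ p.2 ∈ 𝒢.GN k}

/-- union over the windows. -/
def AA (𝒢 : Grid d Ω) : Set (Ω × Ω) := {p | ∃ k, k + 7 ≤ 𝒢.M ∧ p ∈ 𝒢.AK k}

include h𝒢 in
lemma measurableSet_Gd : MeasurableSet {T | 𝒢.Gd T} := by
  refine measurableSet_of_open 𝒢.W _ fun T hT => ?_
  obtain ⟨m, hm⟩ := exists_nat_of_lt hT.1
  refine ⟨m, fun Y h => hT.congr h𝒢 ?_⟩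
  rw [hm]
  exact ag_of_hist h

include h𝒢 in
lemma measurableSet_GN {k : ℕ} (hk : k + 7 ≤ 𝒢.M) : MeasurableSet (𝒢.GN k) := by
  refine measurableSet_of_open 𝒢.W _ fun T hT => ?_
  obtain ⟨m, hm⟩ := exists_nat_of_lt hT.1.1
  refine ⟨m, fun Y h => ?_⟩
  have hA : Ag 𝒢.W (𝒢.tau 𝒢.M T) T Y := by rw [hm]; exact ag_of_hist h
  refine ⟨hT.1.congr h𝒢 hA, ?_⟩
  have := hT.2
  unfold Nt at this ⊢
  rwa [hT.1.U_congr h𝒢 hA hk, hT.1.U_congr h𝒢 hA (by omega)]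

include h𝒢 in
lemma measurableSet_Bad {k : ℕ} (hk : k + 7 ≤ 𝒢.M) : MeasurableSet (𝒢.Bad k) := by
  have : 𝒢.Bad k = {T | 𝒢.Gd T} \ 𝒢.GN k := by
    ext T
    simp only [Bad, GN, Set.mem_ofPred_eq, Set.mem_sdiff]
    tauto
  rw [this]
  exact (measurableSet_Gd h𝒢).diff (measurableSet_GN h𝒢 hk)

include h𝒢 in
lemma measurableSet_NG : MeasurableSet {X | 𝒢.NG X} := by
  have h1 : MeasurableSet {X | 𝒢.tau 1 X < 𝒢.D X} := by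
    refine measurableSet_of_open 𝒢.W _ fun T hT => ?_
    obtain ⟨m, hm⟩ := exists_nat_of_lt hT
    refine ⟨m, fun Y h => ?_⟩
    have hA : Ag 𝒢.W (𝒢.tau 1 T) T Y := by rw [hm]; exact ag_of_hist h
    simp only [Set.mem_ofPred_eq]
    rw [hA.stop_eq (isStop_tau _) le_rfl]
    exact hA.lt_stop h𝒢.stopD hT
  exact h1.inter (measurableSet_Gd h𝒢).compl

include h𝒢 in
lemma measurableSet_JS (j : ℕ) : MeasurableSet {p : Ω × Ω | 𝒢.JS j p.1 p.2} := by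
  refine measurableSet_of_open_pair 𝒢.W _ ?_
  rintro ⟨X, T⟩ h
  simp only [Set.mem_ofPred_eq, JS, kap_lt_iff] at h
  obtain ⟨n, hn, hr, a, ⟨i, hi, hX, rfl⟩, hnear⟩ := h
  refine ⟨max n i, ?_⟩
  rintro ⟨X', T'⟩ h1 h2
  simp only at h1 h2
  have g1 := ag_of_hist (𝒢.W.mono _ _ (le_max_right n i) h1)
  have g2 := ag_of_hist (𝒢.W.mono _ _ (le_max_left n i) h2)
  simp only [Set.mem_ofPred_eq, JS, kap_lt_iff]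
  refine ⟨n, g2.lt_stop (isStop_S h𝒢 _) hn, (g2.pdet h𝒢.hrd.det le_rfl).1 hr, _,
    ⟨i, g1.lt_stop (isStop_S h𝒢 _) hi, (g1.pdet h𝒢.hrd.det le_rfl).1 hX, rfl⟩, ?_⟩
  rw [← g1.pos le_rfl, ← g2.pos le_rfl]
  exact hnear

include h𝒢 in
lemma measurableSet_AK {k : ℕ} (hk : k + 7 ≤ 𝒢.M) : MeasurableSet (𝒢.AK k) := by
  have : 𝒢.AK k = ({p : Ω × Ω | 𝒢.JS (k + 5) p.1 p.2} \ {p : Ω × Ω | 𝒢.JS (k + 4) p.1 p.2})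
      ∩ {p | p.2 ∈ 𝒢.GN k} := by
    ext p
    simp only [AK, Set.mem_ofPred_eq, Set.mem_inter_iff, Set.mem_sdiff]
    tauto
  rw [this]
  exact ((measurableSet_JS h𝒢 _).diff (measurableSet_JS h𝒢 _)).inter
    (measurable_snd (measurableSet_GN h𝒢 hk))

include h𝒢 in
lemma AA_eq : 𝒢.AA = ⋃ k ∈ Finset.range (𝒢.M - 6), 𝒢.AK k := by
  ext p
  simp only [AA, Set.mem_ofPred_eq, Set.mem_iUnion, Finset.mem_range, exists_prop]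
  constructor
  · rintro ⟨k, hk, h⟩; exact ⟨k, by omega, h⟩
  · rintro ⟨k, hk, h⟩; exact ⟨k, by omega, h⟩

include h𝒢 in
lemma disjoint_AK : Pairwise (Function.onFun Disjoint 𝒢.AK) := by
  have h : ∀ k l, k < l → Disjoint (𝒢.AK k) (𝒢.AK l) := by
    intro k l hkl
    rw [Set.disjoint_left]
    rintro p ⟨h1, -⟩ ⟨-, h2, -⟩
    exact h2 (JS_mono h𝒢 (by omega) h1)
  intro k l hkl
  rcases Nat.lt_or_gt_of_ne hkl with h1 | h1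
  · exact h k l h1
  · exact (h l k h1).symm

include h𝒢 in
lemma measure_AA (μ : Measure (Ω × Ω)) :
    μ 𝒢.AA = ∑ k ∈ Finset.range (𝒢.M - 6), μ (𝒢.AK k) := by
  rw [AA_eq h𝒢]
  refine measure_biUnion_finset (fun k _ l _ hkl => disjoint_AK h𝒢 hkl) fun k hk => ?_
  rw [Finset.mem_range] at hk
  exact measurableSet_AK h𝒢 (by omega)

section laws

variable {Q : Measure (Environment d)} [IsProbabilityMeasure Q]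
  {P₁ P₂ : Kernel (Environment d) Ω} [IsMarkovKernel P₁] [IsMarkovKernel P₂]

include h𝒢 in
/-- KEY for an event of `T` and contact before stage `j`. -/
lemma key_J (hK : K1P 𝒢.W 𝒢.rd 𝒢.R Q P₁ P₂) {k : ℕ} (hk : k + 7 ≤ 𝒢.M) (j : ℕ) :
    WalkSpace.same Q P₁ P₂ ({p | p.2 ∈ 𝒢.GN k} ∩ {p | 𝒢.JS j p.1 p.2})
      = WalkSpace.ind Q P₁ P₂ ({p | p.2 ∈ 𝒢.GN k} ∩ {p | 𝒢.JS j p.1 p.2}) := by
  have mG := measurableSet_GN h𝒢 hk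
  have mC : MeasurableSet {p : Ω × Ω | p.2 ∈ 𝒢.GN k} := measurable_snd mG
  have mJ := measurableSet_JS h𝒢 j
  have h1 : WalkSpace.same Q P₁ P₂ ({p | p.2 ∈ 𝒢.GN k} \ {p | 𝒢.JS j p.1 p.2})
      = WalkSpace.ind Q P₁ P₂ ({p | p.2 ∈ 𝒢.GN k} \ {p | 𝒢.JS j p.1 p.2}) := by
    refine hK (𝒢.S j) (𝒢.S 𝒢.M) (isStop_S h𝒢 j) (isStop_S h𝒢 _) _ (mC.diff mJ) ?_ ?_
    · rintro X X' T T' hX hT ⟨g1, g2⟩
      simp only [Set.mem_ofPred_eq] at g1 g2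
      have hA : Ag 𝒢.W (𝒢.tau 𝒢.M T) T T' := by rw [← g1.1.S_eq h𝒢 le_rfl]; exact hT
      refine ⟨⟨g1.1.congr h𝒢 hA, ?_⟩, fun h => g2 ((JS_congr h𝒢 hX hT).2 h)⟩
      have := g1.2
      unfold Nt at this ⊢
      rwa [g1.1.U_congr h𝒢 hA hk, g1.1.U_congr h𝒢 hA (by omega)]
    · rintro X T ⟨-, g2⟩
      exact not_lt.1 g2
  have e1 := measure_inter_add_sdiff (μ := WalkSpace.same Q P₁ P₂) {p : Ω × Ω | p.2 ∈ 𝒢.GN k} mJ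
  have e2 := measure_inter_add_sdiff (μ := WalkSpace.ind Q P₁ P₂) {p : Ω × Ω | p.2 ∈ 𝒢.GN k} mJ
  have e3 : WalkSpace.same Q P₁ P₂ {p : Ω × Ω | p.2 ∈ 𝒢.GN k} = (Q.bind P₂) (𝒢.GN k) :=
    WalkSpace.same_snd Q mG
  have e4 : WalkSpace.ind Q P₁ P₂ {p : Ω × Ω | p.2 ∈ 𝒢.GN k} = (Q.bind P₂) (𝒢.GN k) :=
    WalkSpace.ind_snd Q
  rw [e3] at e1
  rw [e4, ← h1, ← e1] at e2
  exact ((ENNReal.add_left_inj (measure_ne_top _ _)).1 e2).symm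

include h𝒢 in
lemma same_AK (hK : K1P 𝒢.W 𝒢.rd 𝒢.R Q P₁ P₂) {k : ℕ} (hk : k + 7 ≤ 𝒢.M) :
    WalkSpace.same Q P₁ P₂ (𝒢.AK k) = WalkSpace.ind Q P₁ P₂ (𝒢.AK k) := by
  have h : 𝒢.AK k = ({p | p.2 ∈ 𝒢.GN k} ∩ {p | 𝒢.JS (k + 5) p.1 p.2})
      \ ({p | p.2 ∈ 𝒢.GN k} ∩ {p | 𝒢.JS (k + 4) p.1 p.2}) := by
    ext p
    simp only [AK, Set.mem_ofPred_eq, Set.mem_inter_iff, Set.mem_sdiff]
    tauto
  have hsub : ({p | p.2 ∈ 𝒢.GN k} ∩ {p : Ω × Ω | 𝒢.JS (k + 4) p.1 p.2})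
      ⊆ ({p | p.2 ∈ 𝒢.GN k} ∩ {p | 𝒢.JS (k + 5) p.1 p.2}) :=
    fun p hp => ⟨hp.1, JS_mono h𝒢 (by omega) hp.2⟩
  have hm : MeasurableSet ({p | p.2 ∈ 𝒢.GN k} ∩ {p : Ω × Ω | 𝒢.JS (k + 4) p.1 p.2}) :=
    MeasurableSet.inter (measurable_snd (measurableSet_GN h𝒢 hk)) (measurableSet_JS h𝒢 _)
  rw [h, measure_sdiff hsub hm.nullMeasurableSet (measure_ne_top _ _),
    measure_sdiff hsub hm.nullMeasurableSet (measure_ne_top _ _), key_J h𝒢 hK hk, key_J h𝒢 hK hk]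

/-- first closeness window. -/
def EF (𝒢 : Grid d Ω) (k : ℕ) : Set (Ω × Ω) :=
  {p | 𝒢.Ek k p.1 p.2 ∧ ∀ i < k, ¬ 𝒢.Ek i p.1 p.2}

include h𝒢 in
lemma measurableSet_Ek (k : ℕ) : MeasurableSet {p : Ω × Ω | 𝒢.Ek k p.1 p.2} := by
  refine measurableSet_of_open_pair 𝒢.W _ ?_
  rintro ⟨X, T⟩ hE
  simp only [Set.mem_ofPred_eq] at hE
  obtain ⟨m, hm⟩ := exists_nat_of_lt hE.1
  obtain ⟨m', hm'⟩ := exists_nat_of_lt hE.2.1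
  refine ⟨max m m', ?_⟩
  rintro ⟨X', T'⟩ hX hT
  simp only at hX hT
  refine hE.congr h𝒢 ?_ ?_
  · rw [S_eq_tau_of_lt h𝒢 hE.1, hm]
    exact (ag_of_hist hX).mono (by exact_mod_cast le_max_left m m')
  · rw [S_eq_tau_of_lt h𝒢 hE.2.1, hm']
    exact (ag_of_hist hT).mono (by exact_mod_cast le_max_right m m')

include h𝒢 in
lemma measurableSet_EF (k : ℕ) : MeasurableSet (𝒢.EF k) := by
  have : 𝒢.EF k = {p : Ω × Ω | 𝒢.Ek k p.1 p.2} ∩ ⋂ i ∈ Finset.range k,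
      {p : Ω × Ω | 𝒢.Ek i p.1 p.2}ᶜ := by
    ext p
    simp [EF]
  rw [this]
  exact (measurableSet_Ek h𝒢 k).inter
    (Finset.measurableSet_biInter _ fun i _ => (measurableSet_Ek h𝒢 i).compl)

include h𝒢 in
lemma same_EF (hK : K1P 𝒢.W 𝒢.rd 𝒢.R Q P₁ P₂) (k : ℕ) :
    WalkSpace.same Q P₁ P₂ (𝒢.EF k) = WalkSpace.ind Q P₁ P₂ (𝒢.EF k) := by
  refine hK (𝒢.S (k + 7)) (𝒢.S k) (isStop_S h𝒢 _) (isStop_S h𝒢 _) _ (measurableSet_EF h𝒢 k) ?_ ?_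
  · rintro X X' T T' hX hT ⟨h1, h2⟩
    refine ⟨h1.congr h𝒢 hX hT, fun i hi h3 => h2 i hi ?_⟩
    have e1 : 𝒢.S (k + 7) X' = 𝒢.S (k + 7) X := hX.stop_eq (isStop_S h𝒢 _) le_rfl
    have e2 : 𝒢.S k T' = 𝒢.S k T := hT.stop_eq (isStop_S h𝒢 _) le_rfl
    refine h3.congr h𝒢 (hX.symm.mono ?_) (hT.symm.mono ?_)
    · rw [← e1]; exact S_mono h𝒢 (by omega) X'
    · rw [← e2]; exact S_mono h𝒢 hi.le T'
  · rintro X T ⟨h1, -⟩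
    exact (S_le_tau k T).trans h1.2.2.1

include h𝒢 in
lemma measure_UE (μ : Measure (Ω × Ω)) :
    μ 𝒢.UE = ∑ k ∈ Finset.range (𝒢.M - 6), μ (𝒢.EF k) := by
  classical
  have h : 𝒢.UE = ⋃ k ∈ Finset.range (𝒢.M - 6), 𝒢.EF k := by
    ext p
    simp only [UE, Set.mem_ofPred_eq, Set.mem_iUnion, Finset.mem_range, exists_prop]
    constructor
    · rintro ⟨k, hk, h⟩
      have hex : ∃ k, 𝒢.Ek k p.1 p.2 := ⟨k, h⟩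
      refine ⟨Nat.find hex, ?_, Nat.find_spec hex, fun i hi => Nat.find_min hex hi⟩
      have := Nat.find_min' hex h
      omega
    · rintro ⟨k, hk, h⟩; exact ⟨k, by omega, h.1⟩
  rw [h]
  refine measure_biUnion_finset (fun k _ l _ hkl => ?_) fun k hk => measurableSet_EF h𝒢 k
  have hd : ∀ k l, k < l → Disjoint (𝒢.EF k) (𝒢.EF l) := by
    intro k l hkl
    rw [Set.disjoint_left]
    rintro p ⟨h1, -⟩ ⟨-, h2⟩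
    exact h2 k hkl h1
  rcases Nat.lt_or_gt_of_ne hkl with h1 | h1
  · exact hd k l h1
  · exact (hd l k h1).symm

include h𝒢 in
lemma same_UE (hK : K1P 𝒢.W 𝒢.rd 𝒢.R Q P₁ P₂) :
    WalkSpace.same Q P₁ P₂ 𝒢.UE = WalkSpace.ind Q P₁ P₂ 𝒢.UE := by
  rw [measure_UE h𝒢, measure_UE h𝒢]
  exact Finset.sum_congr rfl fun k _ => same_EF h𝒢 hK k

include h𝒢 in
/-- **ONE-SIDED CONTACT INEQUALITY** -/
theorem one_sided (hK : K1P 𝒢.W 𝒢.rd 𝒢.R Q P₁ P₂)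
    {G : Environment d → Site d → Measure (Path d)} {C₀ c₀ h₀ lam : ℝ≥0∞} (hc : c₀ ≠ 0)
    (hc' : c₀ ≠ ⊤) (h0 : h₀ ≠ 0) (h0' : h₀ ≠ ⊤) (hl : lam ≠ 0) (hl' : lam ≠ ⊤)
    (hMU : ∀ᵐ ω ∂Q, MU 𝒢.W (P₂ ω) (G ω) C₀) (hML : ∀ᵐ ω ∂Q, ML 𝒢.W 𝒢.rd (P₁ ω) (G ω) c₀)
    (hH : ∀ᵐ ω ∂Q, ∀ k, ∀ a z : Site d, (∀ l, |a l - z l| ≤ (𝒢.R : ℤ)) →
      𝒢.Lv (k + 2) ≤ 𝒢.lev z → 𝒢.lev z < 𝒢.Lv (k + 6) → ∀ y,
        h₀ * G ω z (𝒢.RI k y) ≤ G ω a (𝒢.RI k y)) :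
    WalkSpace.ind Q P₁ P₂ 𝒢.AA ≤ (Q.bind P₁) {X | 𝒢.NG X} + 5 * (C₀ * lam)
      + (c₀ * (h₀ * lam))⁻¹ * WalkSpace.ind Q P₁ P₂ 𝒢.UE := by
  have e1 : WalkSpace.ind Q P₁ P₂ 𝒢.AA = WalkSpace.same Q P₁ P₂ 𝒢.AA := by
    rw [measure_AA h𝒢, measure_AA h𝒢]
    refine Finset.sum_congr rfl fun k hk => ?_
    rw [Finset.mem_range] at hk
    exact (same_AK h𝒢 hK (by omega)).symm
  have e2 : 𝒢.AA ⊆ {p | p.1 ∈ {X | 𝒢.NG X}} ∪ 𝒢.UU := by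
    rintro p ⟨k, hk, h1, h2, h3, h4⟩
    by_cases hg : 𝒢.Gd p.1
    · exact Or.inr ⟨k, hk, h1, h2, hg, h3, h4⟩
    · exact Or.inl (NG_of h𝒢 (j := k + 4) (by omega) h1 h2 hg)
  have e3 : WalkSpace.same Q P₁ P₂ 𝒢.UU ≤ 5 * (C₀ * lam)
      + (c₀ * (h₀ * lam))⁻¹ * WalkSpace.same Q P₁ P₂ 𝒢.UE := by
    rw [WalkSpace.same_apply _ _ _ (measurableSet_UU h𝒢),
      WalkSpace.same_apply _ _ _ (measurableSet_UE h𝒢)]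
    calc ∫⁻ ω, ((P₁ ω).prod (P₂ ω)) 𝒢.UU ∂Q
        ≤ ∫⁻ ω, (5 * (C₀ * lam) + (c₀ * (h₀ * lam))⁻¹ * ((P₁ ω).prod (P₂ ω)) 𝒢.UE) ∂Q := by
          refine lintegral_mono_ae ?_
          filter_upwards [hMU, hML, hH] with ω g1 g2 g3
          exact fixed_env h𝒢 hc hc' h0 h0' hl hl' g1 g2 g3
      _ = 5 * (C₀ * lam) + (c₀ * (h₀ * lam))⁻¹ * ∫⁻ ω, ((P₁ ω).prod (P₂ ω)) 𝒢.UE ∂Q := by
          have hx : (c₀ * (h₀ * lam))⁻¹ ≠ ⊤ := by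
            rw [ENNReal.inv_ne_top]
            simp only [ne_eq, mul_eq_zero, not_or]
            exact ⟨hc, h0, hl⟩
          rw [lintegral_add_left measurable_const, lintegral_const, measure_univ, mul_one,
            lintegral_const_mul' _ _ hx]
  rw [e1]
  calc WalkSpace.same Q P₁ P₂ 𝒢.AA
      ≤ WalkSpace.same Q P₁ P₂ {p | p.1 ∈ {X | 𝒢.NG X}} + WalkSpace.same Q P₁ P₂ 𝒢.UU :=
        (measure_mono e2).trans (measure_union_le _ _)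
    _ ≤ (Q.bind P₁) {X | 𝒢.NG X} + (5 * (C₀ * lam)
          + (c₀ * (h₀ * lam))⁻¹ * WalkSpace.same Q P₁ P₂ 𝒢.UE) := by
        refine add_le_add (le_of_eq ?_) e3
        exact WalkSpace.same_fst Q (measurableSet_NG h𝒢)
    _ = _ := by rw [same_UE h𝒢 hK, add_assoc]

/-- contact of two good paths in the middle windows, seen from both sides. -/
def CC (𝒢 : Grid d Ω) : Set (Ω × Ω) :=
  {p | 𝒢.Gd p.1 ∧ 𝒢.Gd p.2 ∧ ¬ 𝒢.JS 4 p.1 p.2 ∧ 𝒢.JS (𝒢.M - 2) p.1 p.2 ∧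
    ¬ 𝒢.JS 4 p.2 p.1 ∧ 𝒢.JS (𝒢.M - 2) p.2 p.1}

include h𝒢 in
lemma exists_stage {X T : Ω} (h0 : ¬ 𝒢.JS 4 X T) (h1 : 𝒢.JS (𝒢.M - 2) X T) :
    ∃ k, k + 7 ≤ 𝒢.M ∧ 𝒢.JS (k + 5) X T ∧ ¬ 𝒢.JS (k + 4) X T := by
  classical
  have hex : ∃ j, 𝒢.JS j X T := ⟨_, h1⟩
  set j := Nat.find hex with hj
  have hjs : 𝒢.JS j X T := Nat.find_spec hex
  have h4 : 4 < j := by
    by_contra h
    exact h0 (JS_mono h𝒢 (by omega) hjs)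
  have h5 : j ≤ 𝒢.M - 2 := Nat.find_min' hex h1
  refine ⟨j - 5, by omega, ?_, ?_⟩
  · rw [show j - 5 + 5 = j by omega]; exact hjs
  · rw [show j - 5 + 4 = j - 1 by omega]
    exact Nat.find_min hex (by omega)

include h𝒢 in
lemma stage_close {X T : Ω} (hX : 𝒢.Gd X) (hT : 𝒢.Gd T) {k l : ℕ} (hk : k + 7 ≤ 𝒢.M)
    (h1 : 𝒢.JS (k + 5) X T) (h2 : ¬ 𝒢.JS (k + 4) X T) (h3 : ¬ 𝒢.JS (l + 4) T X) : l ≤ k + 2 := by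
  obtain ⟨n, i, hkap, hn, hrT, hrX, hi, hi', hnear⟩ := JS_step h1 h2
  obtain ⟨e1, e2, -⟩ := alive_of hi hi'
  have hn' : (n : ℕ∞) < 𝒢.tau 𝒢.M T := lt_of_lt_of_le hn (S_le_tau _ _)
  obtain ⟨f1, f2, f3, f4⟩ := geo h𝒢 hk hX hT e1 e2 hn' hnear
  have h7 : 𝒢.JS (k + 7) T X := by
    unfold JS
    rw [kap_lt_iff]
    refine ⟨i, lt_of_lt_of_le hi' (S_mono h𝒢 (by omega) X), hrX, 𝒢.W.pos T n,
      ⟨n, ?_, hrT, rfl⟩, fun l => by rw [abs_sub_comm]; exact hnear l⟩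
    rw [hT.S_eq h𝒢 hk]
    exact f4
  by_contra h
  exact h3 (JS_mono h𝒢 (by omega) h7)

include h𝒢 in
/-- **THE CONTACT INEQUALITY** -/
theorem contact_inequality (hK : K1P 𝒢.W 𝒢.rd 𝒢.R Q P₁ P₂) (hK' : K1P 𝒢.W 𝒢.rd 𝒢.R Q P₂ P₁)
    {G : Environment d → Site d → Measure (Path d)} {C₀ c₀ h₀ lam : ℝ≥0∞} (hc : c₀ ≠ 0)
    (hc' : c₀ ≠ ⊤) (h0 : h₀ ≠ 0) (h0' : h₀ ≠ ⊤) (hl : lam ≠ 0) (hl' : lam ≠ ⊤)
    (hMU₁ : ∀ᵐ ω ∂Q, MU 𝒢.W (P₁ ω) (G ω) C₀) (hMU₂ : ∀ᵐ ω ∂Q, MU 𝒢.W (P₂ ω) (G ω) C₀)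
    (hML₁ : ∀ᵐ ω ∂Q, ML 𝒢.W 𝒢.rd (P₁ ω) (G ω) c₀)
    (hML₂ : ∀ᵐ ω ∂Q, ML 𝒢.W 𝒢.rd (P₂ ω) (G ω) c₀)
    (hH : ∀ᵐ ω ∂Q, ∀ k, ∀ a z : Site d, (∀ l, |a l - z l| ≤ (𝒢.R : ℤ)) →
      𝒢.Lv (k + 2) ≤ 𝒢.lev z → 𝒢.lev z < 𝒢.Lv (k + 6) → ∀ y,
        h₀ * G ω z (𝒢.RI k y) ≤ G ω a (𝒢.RI k y)) :
    WalkSpace.ind Q P₁ P₂ 𝒢.CC ≤
      ((Q.bind P₁) {X | 𝒢.NG X} + 5 * (C₀ * lam)
        + (c₀ * (h₀ * lam))⁻¹ * WalkSpace.ind Q P₁ P₂ 𝒢.UE)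
      + ((Q.bind P₂) {X | 𝒢.NG X} + 5 * (C₀ * lam)
        + (c₀ * (h₀ * lam))⁻¹ * WalkSpace.ind Q P₂ P₁ 𝒢.UE)
      + ∑ p ∈ (Finset.range (𝒢.M - 6) ×ˢ Finset.range (𝒢.M - 6)).filter
          (fun p => p.1 ≤ p.2 + 2 ∧ p.2 ≤ p.1 + 2),
          (Q.bind P₁) (𝒢.Bad p.1) * (Q.bind P₂) (𝒢.Bad p.2) := by
  classical
  have hAA : MeasurableSet 𝒢.AA := by
    rw [AA_eq h𝒢]
    refine Finset.measurableSet_biUnion _ fun k hk => ?_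
    rw [Finset.mem_range] at hk
    exact measurableSet_AK h𝒢 (by omega)
  have hsub : 𝒢.CC ⊆ (𝒢.AA ∪ Prod.swap ⁻¹' 𝒢.AA) ∪
      ⋃ p ∈ (Finset.range (𝒢.M - 6) ×ˢ Finset.range (𝒢.M - 6)).filter
          (fun p => p.1 ≤ p.2 + 2 ∧ p.2 ≤ p.1 + 2), 𝒢.Bad p.1 ×ˢ 𝒢.Bad p.2 := by
    rintro ⟨X, T⟩ ⟨g1, g2, g3, g4, g5, g6⟩
    simp only at g1 g2 g3 g4 g5 g6
    obtain ⟨k, hk, k1, k2⟩ := exists_stage h𝒢 g3 g4
    obtain ⟨l, hl, l1, l2⟩ := exists_stage h𝒢 g5 g6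
    by_cases hN : 𝒢.Nt k T
    · exact Or.inl (Or.inl ⟨k, hk, k1, k2, g2, hN⟩)
    by_cases hN' : 𝒢.Nt l X
    · exact Or.inl (Or.inr ⟨l, hl, l1, l2, g1, hN'⟩)
    refine Or.inr (Set.mem_biUnion (x := (l, k)) ?_ ⟨⟨g1, hN'⟩, ⟨g2, hN⟩⟩)
    have c1 := stage_close h𝒢 g1 g2 hk k1 k2 l2
    have c2 := stage_close h𝒢 g2 g1 hl l1 l2 k2
    simp only [Finset.coe_filter, Finset.mem_product, Finset.mem_range, Set.mem_ofPred_eq]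
    omega
  have hswap : WalkSpace.ind Q P₁ P₂ (Prod.swap ⁻¹' 𝒢.AA) = WalkSpace.ind Q P₂ P₁ 𝒢.AA := by
    unfold WalkSpace.ind
    rw [← Measure.prod_swap, Measure.map_apply measurable_swap (measurable_swap hAA)]
    congr 1
  calc WalkSpace.ind Q P₁ P₂ 𝒢.CC
      ≤ (WalkSpace.ind Q P₁ P₂ 𝒢.AA + WalkSpace.ind Q P₁ P₂ (Prod.swap ⁻¹' 𝒢.AA)) +
        ∑ p ∈ (Finset.range (𝒢.M - 6) ×ˢ Finset.range (𝒢.M - 6)).filter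
          (fun p => p.1 ≤ p.2 + 2 ∧ p.2 ≤ p.1 + 2),
          WalkSpace.ind Q P₁ P₂ (𝒢.Bad p.1 ×ˢ 𝒢.Bad p.2) := by
        refine (measure_mono hsub).trans ((measure_union_le _ _).trans ?_)
        exact add_le_add (measure_union_le _ _) (measure_biUnion_finset_le _ _)
    _ ≤ _ := by
        refine add_le_add (add_le_add ?_ ?_) (le_of_eq ?_)
        · exact one_sided h𝒢 hK hc hc' h0 h0' hl hl' hMU₂ hML₁ hH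
        · rw [hswap]
          exact one_sided h𝒢 hK' hc hc' h0 h0' hl hl' hMU₁ hML₂ hH
        · refine Finset.sum_congr rfl fun p _ => ?_
          rw [WalkSpace.ind, Measure.prod_prod]

end laws

end Grid

end Cont

end Crest.Agent.R154
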