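import Mathlib

set_option autoImplicit false

/-!
Row 154, block B8 (W): the contour of a finite cluster in 1+1 dimensional oriented percolation by a
deterministic walker (no planar topology), helper748.

`chg N bad k x` = cell `x` of layer `k` is charged from the sources `(0,x)`, `0 ≤ x < n`; children of
a good charged cell `x` are `x` and `x+1`.  Walker at `(x,k)`: charged & bad -> `L` (emit `(k,x)`), charged & good
-> `U`, not charged -> `D`.
-/

namespace Crest.Agent.R154.Contour748

inductive St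
  | L | U | D
  deriving DecidableEq

instance : Fintype St := ⟨{St.L, St.U, St.D}, by intro x; cases x <;> simp⟩

lemma card_St : Fintype.card St = 3 := rfl

/-- charged (wet) cells, sources `[0,n)`. -/
def chg (N : ℕ) (bad : ℕ → ℤ → Prop) : ℕ → ℤ → Prop
  | 0, x => 0 ≤ x ∧ x < N
  | (k+1), x => (chg N bad k x ∧ ¬ bad k x) ∨ (chg N bad k (x-1) ∧ ¬ bad k (x-1))

inductive Path (N : ℕ) (bad : ℕ → ℤ → Prop) : ℤ → ℕ → List St → ℤ → ℕ → Prop
  | nil (x : ℤ) (k : ℕ) : Path N bad x k [] x k
  | L {x : ℤ} {k : ℕ} {w : List St} {y : ℤ} {l : ℕ} (hc : chg N bad k x) (hb : bad k x)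
      (h : Path N bad (x-1) k w y l) : Path N bad x k (St.L :: w) y l
  | U {x : ℤ} {k : ℕ} {w : List St} {y : ℤ} {l : ℕ} (hc : chg N bad k x) (hb : ¬ bad k x)
      (h : Path N bad (x+1) (k+1) w y l) : Path N bad x k (St.U :: w) y l
  | D {x : ℤ} {k : ℕ} {w : List St} {y : ℤ} {l : ℕ} (hc : ¬ chg N bad (k+1) x)
      (h : Path N bad x k w y l) : Path N bad x (k+1) (St.D :: w) y l

variable {N : ℕ} {bad : ℕ → ℤ → Prop}

lemma Path.append {x : ℤ} {k : ℕ} {w : List St} {y : ℤ} {l : ℕ} {w' : List St} {z : ℤ} {m : ℕ}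
    (h : Path N bad x k w y l) (h' : Path N bad y l w' z m) : Path N bad x k (w ++ w') z m := by
  induction h with
  | nil => exact h'
  | L hc hb _ ih => exact Path.L hc hb (ih h')
  | U hc hb _ ih => exact Path.U hc hb (ih h')
  | D hc _ ih => exact Path.D hc (ih h')

def Reach (N : ℕ) (bad : ℕ → ℤ → Prop) (x : ℤ) (k : ℕ) (y : ℤ) (l : ℕ) : Prop :=
  ∃ w, Path N bad x k w y l

lemma Reach.trans {x : ℤ} {k : ℕ} {y : ℤ} {l : ℕ} {z : ℤ} {m : ℕ}
    (h : Reach N bad x k y l) (h' : Reach N bad y l z m) : Reach N bad x k z m := by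
  obtain ⟨w, hw⟩ := h
  obtain ⟨w', hw'⟩ := h'
  exact ⟨_, hw.append hw'⟩

lemma Reach.refl (x : ℤ) (k : ℕ) : Reach N bad x k x k := ⟨[], Path.nil x k⟩

lemma Reach.L {x : ℤ} {k : ℕ} (hc : chg N bad k x) (hb : bad k x) : Reach N bad x k (x-1) k :=
  ⟨_, Path.L hc hb (Path.nil _ _)⟩

lemma Reach.U {x : ℤ} {k : ℕ} (hc : chg N bad k x) (hb : ¬ bad k x) :
    Reach N bad x k (x+1) (k+1) :=
  ⟨_, Path.U hc hb (Path.nil _ _)⟩

lemma Reach.D {x : ℤ} {k : ℕ} (hc : ¬ chg N bad (k+1) x) : Reach N bad x (k+1) x k :=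
  ⟨_, Path.D hc (Path.nil _ _)⟩

/-- greatest charged point below. -/
lemma exists_prev (P : ℤ → Prop) {x y : ℤ} (hyx : y ≤ x) (hy : P y) :
    ∃ m, y ≤ m ∧ m ≤ x ∧ P m ∧ ∀ z, m < z → z ≤ x → ¬ P z := by
  obtain ⟨m, hm, hmax⟩ := Int.exists_greatest_of_bdd (P := fun z => P z ∧ z ≤ x)
    ⟨x, fun z hz => hz.2⟩ ⟨y, hy, hyx⟩
  refine ⟨m, hmax y ⟨hy, hyx⟩, hm.2, hm.1, fun z hz hzx hPz => ?_⟩
  have := hmax z ⟨hPz, hzx⟩
  omega

def GapAt (N : ℕ) (bad : ℕ → ℤ → Prop) (k : ℕ) : Prop :=
  ∀ a b : ℤ, a ≤ b → (∀ x, a ≤ x → x ≤ b → ¬ chg N bad k x) → chg N bad k (a-1) →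
    chg N bad k (b+1) → Reach N bad b k (a-1) k

lemma scan {k : ℕ} (hg : GapAt N bad k) : ∀ (n : ℕ) (x y : ℤ), y ≤ x → x - y ≤ n →
    (∀ z, y < z → z ≤ x → chg N bad k z → bad k z) → chg N bad k y →
    (chg N bad k x ∨ chg N bad k (x+1)) → Reach N bad x k y k := by
  intro n
  induction n with
  | zero =>
    intro x y hyx hn _ _ _
    have : x = y := by push_cast at hn; omega
    subst this
    exact Reach.refl _ _
  | succ n ih =>
    intro x y hyx hn hall hy hx
    rcases eq_or_lt_of_le hyx with rfl | hlt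
    · exact Reach.refl _ _
    by_cases hcx : chg N bad k x
    · have hb := hall x hlt le_rfl hcx
      have hn' : x - 1 - y ≤ (n : ℤ) := by push_cast at hn; omega
      refine (Reach.L hcx hb).trans (ih (x-1) y (by omega) hn'
        (fun z hz hzx => hall z hz (by omega)) hy (Or.inr ?_))
      simpa using hcx
    · have hx1 : chg N bad k (x+1) := by
        rcases hx with h | h
        · exact absurd h hcx
        · exact h
      obtain ⟨m, hym, hmx, hcm, hmax⟩ := exists_prev (fun z => chg N bad k z) hyx hy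
      have hmlt : m < x := by
        rcases eq_or_lt_of_le hmx with rfl | h
        · exact absurd hcm hcx
        · exact h
      have h1 : Reach N bad x k m k := by
        have := hg (m+1) x (by omega) (fun z hz hzx => hmax z (by omega) hzx)
          (by simpa using hcm) hx1
        simpa using this
      have hn' : m - y ≤ (n : ℤ) := by push_cast at hn; omega
      exact h1.trans (ih m y hym hn' (fun z hz hzm => hall z hz (by omega)) hy (Or.inl hcm))

lemma scan' {k : ℕ} (hg : GapAt N bad k) {x y : ℤ} (hyx : y ≤ x)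
    (hall : ∀ z, y < z → z ≤ x → chg N bad k z → bad k z) (hy : chg N bad k y)
    (hx : chg N bad k x ∨ chg N bad k (x+1)) : Reach N bad x k y k :=
  scan hg (x - y).toNat x y hyx (by omega) hall hy hx

lemma chg_succ_self {k : ℕ} {x : ℤ} (hc : chg N bad k x) (hb : ¬ bad k x) : chg N bad (k+1) x :=
  Or.inl ⟨hc, hb⟩

lemma chg_succ_right {k : ℕ} {x : ℤ} (hc : chg N bad k x) (hb : ¬ bad k x) :
    chg N bad (k+1) (x+1) := by
  refine Or.inr ?_
  simpa using ⟨hc, hb⟩

lemma gap (k : ℕ) : GapAt N bad k := by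
  induction k with
  | zero =>
    intro a b hab hno ha hb
    exfalso
    refine hno a le_rfl hab ?_
    simp only [chg] at ha hb ⊢
    omega
  | succ k ih =>
    intro a b hab hno ha hb
    -- b+1 is good at layer k
    have hb1 : chg N bad k (b+1) := by
      rcases hb with h | h
      · exact h.1
      · exfalso
        simp only [add_sub_cancel_right] at h
        exact hno b hab le_rfl (chg_succ_self h.1 h.2)
    have ha2 : chg N bad k (a-2) ∧ ¬ bad k (a-2) := by
      rcases ha with h | h
      · exfalso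
        have := chg_succ_right h.1 h.2
        simp only [sub_add_cancel] at this
        exact hno a le_rfl hab this
      · have e : a - 1 - 1 = a - 2 := by ring
        rwa [e] at h
    have h1 : Reach N bad b (k+1) b k := Reach.D (hno b hab le_rfl)
    have h2 : Reach N bad b k (a-2) k := by
      refine scan' ih (by omega) (fun z hz hzb hcz => ?_) ha2.1 (Or.inr hb1)
      by_contra hgood
      by_cases hza : a ≤ z
      · exact hno z hza hzb (chg_succ_self hcz hgood)
      · have hz' : z = a - 1 := by omega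
        subst hz'
        have := chg_succ_right hcz hgood
        simp only [sub_add_cancel] at this
        exact hno a le_rfl hab this
    have h3 : Reach N bad (a-2) k (a-1) (k+1) := by
      have := Reach.U ha2.1 ha2.2
      have e : a - 2 + 1 = a - 1 := by ring
      rwa [e] at this
    exact (h1.trans h2).trans h3

lemma chg_nonneg : ∀ (k : ℕ) (x : ℤ), chg N bad k x → 0 ≤ x ∧ x < N + k := by
  intro k
  induction k with
  | zero => intro x hx; simp only [chg] at hx; push_cast; omega
  | succ k ih =>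
    intro x hx
    rcases hx with h | h
    · have := ih x h.1; push_cast; omega
    · have := ih (x-1) h.1; push_cast; omega

lemma right_edge : ∀ k : ℕ, (∃ x, chg N bad k x) →
    ∃ x, Reach N bad (N-1) 0 x k ∧ chg N bad k x ∧ ∀ y, x < y → ¬ chg N bad k y := by
  intro k
  induction k with
  | zero =>
    rintro ⟨x, hx⟩
    simp only [chg] at hx
    refine ⟨N-1, Reach.refl _ _, by simp only [chg]; omega, fun y hy => ?_⟩
    simp only [chg]; omega
  | succ k ih =>
    rintro ⟨x, hx⟩
    have hex : ∃ g, chg N bad k g ∧ ¬ bad k g := by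
      rcases hx with h | h
      · exact ⟨_, h⟩
      · exact ⟨_, h⟩
    obtain ⟨g0, hg0⟩ := hex
    obtain ⟨r, hr, hcr, hrmax⟩ := ih ⟨g0, hg0.1⟩
    have hg0r : g0 ≤ r := by
      by_contra h
      exact hrmax g0 (by omega) hg0.1
    obtain ⟨g, _, hgr, hg, hgmax⟩ := exists_prev (fun z => chg N bad k z ∧ ¬ bad k z) hg0r hg0
    have h1 : Reach N bad r k g k := by
      refine scan' (gap k) hgr (fun z hz hzr hcz => ?_) hg.1 (Or.inl hcr)
      by_contra hgood
      exact hgmax z hz hzr ⟨hcz, hgood⟩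
    refine ⟨g+1, (hr.trans h1).trans (Reach.U hg.1 hg.2), chg_succ_right hg.1 hg.2,
      fun y hy hcy => ?_⟩
    rcases hcy with h | h
    · by_cases hyr : y ≤ r
      · exact hgmax y (by omega) hyr h
      · exact hrmax y (by omega) h.1
    · by_cases hyr : y - 1 ≤ r
      · exact hgmax (y-1) (by omega) hyr h
      · exact hrmax (y-1) (by omega) h.1

lemma out : ∀ (k : ℕ) (x : ℤ), (chg N bad k x ∨ chg N bad k (x+1)) →
    (∀ y, y ≤ x → chg N bad k y → bad k y) → Reach N bad x k (-1) 0 := by
  intro k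
  induction k with
  | zero =>
    intro x hx hall
    have key : ∃ m, Reach N bad x 0 m 0 ∧ chg N bad 0 (m+1) ∧
        ∀ y, y ≤ m → ¬ chg N bad 0 y := by
      by_cases hex : ∃ y, y ≤ x ∧ chg N bad 0 y
      · obtain ⟨y0, hy0x, hy0⟩ := hex
        obtain ⟨y, hy, hymin⟩ := Int.exists_least_of_bdd (P := fun z => chg N bad 0 z)
          ⟨0, fun z hz => (chg_nonneg _ _ hz).1⟩ ⟨y0, hy0⟩
        have hyx : y ≤ x := le_trans (hymin y0 hy0) hy0x
        have h1 : Reach N bad x 0 y 0 :=
          scan' (gap 0) hyx (fun z _ hzx hcz => hall z hzx hcz) hy hx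
        refine ⟨y-1, h1.trans (Reach.L hy (hall y hyx hy)), by simpa using hy, fun z hz hcz => ?_⟩
        have := hymin z hcz
        omega
      · push Not at hex
        refine ⟨x, Reach.refl _ _, ?_, hex⟩
        rcases hx with h | h
        · exact absurd h (hex x le_rfl)
        · exact h
    obtain ⟨m, hm, hm1, hmno⟩ := key
    have hm0 : m = -1 := by
      have h2 := hmno 0
      simp only [chg] at hm1 h2
      omega
    rwa [hm0] at hm
  | succ k ih =>
    intro x hx hall
    -- first reach m with m+1 charged, nothing charged in (-∞, m]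
    have key : ∃ m, Reach N bad x (k+1) m (k+1) ∧ chg N bad (k+1) (m+1) ∧
        ∀ y, y ≤ m → ¬ chg N bad (k+1) y := by
      by_cases hex : ∃ y, y ≤ x ∧ chg N bad (k+1) y
      · obtain ⟨y0, hy0x, hy0⟩ := hex
        obtain ⟨y, hy, hymin⟩ := Int.exists_least_of_bdd (P := fun z => chg N bad (k+1) z)
          ⟨0, fun z hz => (chg_nonneg _ _ hz).1⟩ ⟨y0, hy0⟩
        have hyx : y ≤ x := le_trans (hymin y0 hy0) hy0x
        have h1 : Reach N bad x (k+1) y (k+1) :=
          scan' (gap (k+1)) hyx (fun z _ hzx hcz => hall z hzx hcz) hy hx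
        refine ⟨y-1, h1.trans (Reach.L hy (hall y hyx hy)), by simpa using hy, fun z hz hcz => ?_⟩
        have := hymin z hcz
        omega
      · push Not at hex
        refine ⟨x, Reach.refl _ _, ?_, hex⟩
        rcases hx with h | h
        · exact absurd h (hex x le_rfl)
        · exact h
    obtain ⟨m, hm, hm1, hmno⟩ := key
    have h1 : Reach N bad m (k+1) m k := Reach.D (hmno m le_rfl)
    have h2 : chg N bad k (m+1) := by
      rcases hm1 with h | h
      · exact h.1
      · simp only [add_sub_cancel_right] at h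
        exact absurd (chg_succ_self h.1 h.2) (hmno m le_rfl)
    refine (hm.trans h1).trans (ih m (Or.inr h2) fun y hy hcy => ?_)
    by_contra hgood
    exact hmno y hy (chg_succ_self hcy hgood)

lemma Path.disp {x : ℤ} {k : ℕ} {w : List St} {y : ℤ} {l : ℕ} (h : Path N bad x k w y l) :
    y + (w.count St.L : ℤ) = x + (w.count St.U : ℤ) ∧
      (l : ℤ) + (w.count St.D : ℤ) = k + (w.count St.U : ℤ) := by
  induction h with
  | nil => simp
  | L hc hb _ ih => simp; constructor <;> omega
  | U hc hb _ ih => simp; push_cast at ih; constructor <;> omega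
  | D hc _ ih => simp; constructor <;> omega

/-- emitted tiles (layer, cell). -/
def emit : ℤ → ℕ → List St → List (ℕ × ℤ)
  | _, _, [] => []
  | x, k, (St.L :: w) => (k, x) :: emit (x-1) k w
  | x, k, (St.U :: w) => emit (x+1) (k+1) w
  | x, k, (St.D :: w) => emit x (k-1) w

lemma length_emit : ∀ (w : List St) (x : ℤ) (k : ℕ), (emit x k w).length = w.count St.L := by
  intro w
  induction w with
  | nil => intro x k; simp [emit]
  | cons s w ih => intro x k; cases s <;> simp [emit, ih]

lemma Path.emit_bad {x : ℤ} {k : ℕ} {w : List St} {y : ℤ} {l : ℕ} (h : Path N bad x k w y l) :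
    ∀ p ∈ emit x k w, bad p.1 p.2 := by
  induction h with
  | nil => simp [emit]
  | L hc hb _ ih =>
    intro p hp
    simp only [emit, List.mem_cons] at hp
    rcases hp with rfl | hp
    · exact hb
    · exact ih p hp
  | U hc hb _ ih => intro p hp; exact ih p hp
  | D hc _ ih => intro p hp; exact ih p (by simpa [emit] using hp)

lemma Path.emit_chg {x : ℤ} {k : ℕ} {w : List St} {y : ℤ} {l : ℕ} (h : Path N bad x k w y l) :
    ∀ p ∈ emit x k w, chg N bad p.1 p.2 := by
  induction h with
  | nil => simp [emit]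
  | L hc hb _ ih =>
    intro p hp
    simp only [emit, List.mem_cons] at hp
    rcases hp with rfl | hp
    · exact hc
    · exact ih p hp
  | U hc hb _ ih => intro p hp; exact ih p hp
  | D hc _ ih => intro p hp; exact ih p (by simpa [emit] using hp)

lemma dead_of_dead {j : ℕ} (h2 : ∀ x, ¬ chg N bad (j+1) x) (i : ℕ) :
    ∀ x, ¬ chg N bad (j+1+i) x := by
  induction i with
  | zero => exact h2
  | succ i ih =>
    intro x hx
    rcases hx with h | h
    · exact ih _ h.1
    · exact ih _ h.1

lemma Path.split {x : ℤ} {k : ℕ} {w : List St} {y : ℤ} {l : ℕ} (h : Path N bad x k w y l) :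
    ∀ p ∈ emit x k w, ∃ w1 w2, w = w1 ++ w2 ∧ Path N bad x k w1 p.2 p.1 ∧
      Path N bad p.2 p.1 w2 y l := by
  induction h with
  | nil => simp [emit]
  | @L x k w y l hc hb h ih =>
    intro p hp
    simp only [emit, List.mem_cons] at hp
    rcases hp with rfl | hp
    · exact ⟨[], St.L :: w, rfl, Path.nil _ _, Path.L hc hb h⟩
    · obtain ⟨w1, w2, e, h1, h2⟩ := ih p hp
      exact ⟨St.L :: w1, w2, by simp [e], Path.L hc hb h1, h2⟩
  | @U x k w y l hc hb h ih =>
    intro p hp
    obtain ⟨w1, w2, e, h1, h2⟩ := ih p hp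
    exact ⟨St.U :: w1, w2, by simp [e], Path.U hc hb h1, h2⟩
  | @D x k w y l hc h ih =>
    intro p hp
    obtain ⟨w1, w2, e, h1, h2⟩ := ih p (by simpa [emit] using hp)
    exact ⟨St.D :: w1, w2, by simp [e], Path.D hc h1, h2⟩

lemma terminal : ∀ {w : List St} {y : ℤ} {l : ℕ}, Path N bad (-1) 0 w y l → w = [] := by
  intro w y l h
  cases h with
  | nil => rfl
  | L hc _ _ => simp [chg] at hc
  | U hc _ _ => simp [chg] at hc

lemma Path.uniq {x : ℤ} {k : ℕ} {w : List St} {y : ℤ} {l : ℕ} (h : Path N bad x k w y l)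
    (hy : y = -1) (hl : l = 0) : ∀ {w' : List St}, Path N bad x k w' (-1) 0 → w = w' := by
  induction h with
  | nil =>
    subst hy; subst hl
    intro w' h'
    exact (terminal h').symm
  | @L x k w y l hc hb h ih =>
    intro w' h'
    cases h' with
    | nil => simp [chg] at hc
    | L _ _ h' => rw [ih hy hl h']
    | U _ hb' _ => exact absurd hb hb'
    | D hc' _ => exact absurd hc hc'
  | @U x k w y l hc hb h ih =>
    intro w' h'
    cases h' with
    | nil => simp [chg] at hc
    | L _ hb' _ => exact absurd hb' hb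
    | U _ _ h' => rw [ih hy hl h']
    | D hc' _ => exact absurd hc hc'
  | @D x k w y l hc h ih =>
    intro w' h'
    cases h' with
    | L hc' _ _ => exact absurd hc' hc
    | U hc' _ _ => exact absurd hc' hc
    | D _ h' => rw [ih hy hl h']

lemma Path.nodup {x : ℤ} {k : ℕ} {w : List St} {y : ℤ} {l : ℕ} (h : Path N bad x k w y l)
    (hy : y = -1) (hl : l = 0) : (emit x k w).Nodup := by
  induction h with
  | nil => simp [emit]
  | @L x k w y l hc hb h ih =>
    simp only [emit, List.nodup_cons]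
    refine ⟨fun hmem => ?_, ih hy hl⟩
    obtain ⟨w1, w2, e, h1, h2⟩ := h.split _ hmem
    simp only at h1 h2
    subst hy; subst hl
    have hu := h2.uniq rfl rfl (Path.L hc hb h)
    have h3 := congrArg List.length hu
    rw [e] at h3
    simp only [List.length_cons, List.length_append] at h3
    omega
  | @U x k w y l hc hb h ih => exact ih hy hl
  | @D x k w y l hc h ih => simpa [emit] using ih hy hl

/-- **Output 1.** If the cluster of the source dies exactly after layer `j` there is a word. -/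
theorem exists_word {j : ℕ} (h1 : ∃ x, chg N bad j x) (h2 : ∀ x, ¬ chg N bad (j+1) x) :
    ∃ w : List St, N + j ≤ w.count St.L ∧ w.length + 2 * N = 3 * w.count St.L ∧
      (emit (N-1) 0 w).Nodup ∧ (emit (N-1) 0 w).length = w.count St.L ∧
      ∀ p ∈ emit (N-1) 0 w, bad p.1 p.2 ∧ p.1 ≤ j := by
  obtain ⟨r, ⟨w1, hw1⟩, hcr, _⟩ := right_edge j h1
  have hall : ∀ y, y ≤ r → chg N bad j y → bad j y := by
    intro y _ hcy
    by_contra hgood
    exact h2 y (chg_succ_self hcy hgood)
  obtain ⟨w2, hw2⟩ := out j r (Or.inl hcr) hall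
  have hP := hw1.append hw2
  refine ⟨w1 ++ w2, ?_, ?_, hP.nodup rfl rfl, length_emit _ _ _,
    fun p hp => ⟨hP.emit_bad p hp, ?_⟩⟩
  rotate_left 2
  · by_contra hlt
    obtain ⟨i, hi⟩ := Nat.exists_eq_add_of_le (show j + 1 ≤ p.1 by omega)
    have := hP.emit_chg p hp
    rw [hi] at this
    exact dead_of_dead h2 i _ this
  · have d := hP.disp
    have d1 := hw1.disp
    have hc : (w1.count St.U) ≤ (w1 ++ w2).count St.U := by
      rw [List.count_append]; omega
    push_cast at d d1
    omega
  · have d := hP.disp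
    have hlen : ∀ w : List St, w.length = w.count St.L + w.count St.U + w.count St.D := by
      intro w
      induction w with
      | nil => simp
      | cons s w ih => cases s <;> simp [ih] <;> omega
    rw [hlen]
    push_cast at d
    omega

section prob

open MeasureTheory
open scoped ENNReal

variable {Ω : Type*} [MeasurableSpace Ω]

/-- The cluster of the row `[0,N)` dies exactly after layer `j`. -/
def diesAt (N : ℕ) (bad : ℕ → ℤ → Prop) (j : ℕ) : Prop :=
  (∃ x, chg N bad j x) ∧ ∀ x, ¬ chg N bad (j+1) x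

lemma not_diesAt_zero (bad : ℕ → ℤ → Prop) (j : ℕ) : ¬ diesAt 0 bad j := by
  rintro ⟨⟨x, hx⟩, _⟩
  have : ∀ j x, ¬ chg 0 bad j x := by
    intro j
    induction j with
    | zero => intro x hx; simp only [chg] at hx; push_cast at hx; omega
    | succ j ih =>
      intro x hx
      rcases hx with h | h
      · exact ih _ h.1
      · exact ih _ h.1
  exact this j x hx

/-- **Output 2.** -/
theorem dies_le (μ : Measure Ω) (M q : ℝ≥0∞) (hq : 54 * q ≤ 1) (bad : ℕ → ℤ → Ω → Prop)
    (N j : ℕ)
    (hK : ∀ K : Finset (ℕ × ℤ), (∀ p ∈ K, p.1 ≤ j) →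
      μ {ω | ∀ p ∈ K, bad p.1 p.2 ω} ≤ M * q ^ K.card) :
    μ {ω | diesAt N (fun k x => bad k x ω) j} ≤ M * (27 * q) ^ (N + j) := by
  classical
  rcases Nat.eq_zero_or_pos N with rfl | hN
  · have : {ω | diesAt 0 (fun k x => bad k x ω) j} = ∅ := by
      ext ω; simp only [Set.mem_ofPred_eq, Set.mem_empty_iff_false, iff_false]
      exact not_diesAt_zero _ _
    rw [this]; simp
  -- the event of a given word
  let S : (i : ℕ) → (Fin (3 * (N + j + i) - 2 * N) → St) → Set Ω := fun i f =>
    if (emit (N-1) 0 (List.ofFn f)).Nodup ∧ (emit (N-1) 0 (List.ofFn f)).length = N + j + i ∧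
        ∀ p ∈ emit (N-1) 0 (List.ofFn f), p.1 ≤ j then
      {ω | ∀ p ∈ (emit (N-1) 0 (List.ofFn f)).toFinset, bad p.1 p.2 ω} else ∅
  have hS : ∀ i f, μ (S i f) ≤ M * q ^ (N + j + i) := by
    intro i f
    simp only [S]
    split_ifs with h
    · have := hK (emit (N-1) 0 (List.ofFn f)).toFinset (by
        intro p hp; exact h.2.2 p (List.mem_toFinset.1 hp))
      rwa [List.toFinset_card_of_nodup h.1, h.2.1] at this
    · simp
  have hsub : {ω | diesAt N (fun k x => bad k x ω) j} ⊆ ⋃ i, ⋃ f, S i f := by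
    intro ω hω
    obtain ⟨w, h1, h2, h3, h4, h5⟩ := exists_word hω.1 hω.2
    obtain ⟨i, hi⟩ := Nat.exists_eq_add_of_le h1
    have hlen : w.length = 3 * (N + j + i) - 2 * N := by omega
    refine Set.mem_iUnion.2 ⟨i, Set.mem_iUnion.2 ⟨fun t => w.get (t.cast hlen.symm), ?_⟩⟩
    have hof : List.ofFn (fun t : Fin (3 * (N + j + i) - 2 * N) => w.get (t.cast hlen.symm)) = w := by
      apply List.ext_getElem
      · simp [hlen]
      · intro n h h'
        simp
    simp only [S, hof]
    rw [if_pos ⟨h3, by rw [h4, hi], fun p hp => (h5 p hp).2⟩]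
    intro p hp
    exact (h5 p (List.mem_toFinset.1 hp)).1
  have hcard : ∀ i, μ (⋃ f, S i f) ≤ (3:ℝ≥0∞) ^ (3 * (N + j + i) - 2 * N) * (M * q ^ (N + j + i)) := by
    intro i
    refine (measure_iUnion_le _).trans ?_
    rw [tsum_fintype]
    refine (Finset.sum_le_card_nsmul _ _ _ (fun f _ => hS i f)).trans ?_
    rw [nsmul_eq_mul]
    gcongr
    simp [card_St]
  have h2 : 2 * μ {ω | diesAt N (fun k x => bad k x ω) j} ≤ 2 * (M * (27 * q) ^ (N + j)) := by
    calc 2 * μ {ω | diesAt N (fun k x => bad k x ω) j}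
        ≤ 2 * ∑' i, (3:ℝ≥0∞) ^ (3 * (N + j + i) - 2 * N) * (M * q ^ (N + j + i)) := by
          gcongr
          exact (measure_mono hsub).trans ((measure_iUnion_le _).trans (ENNReal.tsum_le_tsum hcard))
      _ = ∑' i, 2 * ((3:ℝ≥0∞) ^ (3 * (N + j + i) - 2 * N) * (M * q ^ (N + j + i))) := by
          rw [ENNReal.tsum_mul_left]
      _ ≤ ∑' i, (M * (27 * q) ^ (N + j)) * (2⁻¹ : ℝ≥0∞) ^ i := by
          refine ENNReal.tsum_le_tsum fun i => ?_
          have e1 : 2 * (3:ℝ≥0∞) ^ (3 * (N + j + i) - 2 * N) ≤ 27 ^ (N + j + i) := by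
            calc 2 * (3:ℝ≥0∞) ^ (3 * (N + j + i) - 2 * N)
                ≤ 3 ^ 2 * (3:ℝ≥0∞) ^ (3 * (N + j + i) - 2 * N) := by
                  gcongr; norm_num
              _ = 3 ^ (2 + (3 * (N + j + i) - 2 * N)) := by rw [pow_add]
              _ ≤ 3 ^ (3 * (N + j + i)) := by
                  apply pow_le_pow_right₀ (by norm_num); omega
              _ = 27 ^ (N + j + i) := by rw [pow_mul]; norm_num
          have e2 : (27 * q) ^ i ≤ (2⁻¹ : ℝ≥0∞) ^ i := by
            have : 27 * q ≤ 2⁻¹ := by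
              rw [← ENNReal.mul_le_mul_iff_right (a := 2) (by norm_num) (by norm_num),
                ENNReal.mul_inv_cancel (by norm_num) (by norm_num)]
              calc 2 * (27 * q) = 54 * q := by rw [← mul_assoc]; norm_num
                _ ≤ 1 := hq
            gcongr
          calc 2 * ((3:ℝ≥0∞) ^ (3 * (N + j + i) - 2 * N) * (M * q ^ (N + j + i)))
              = (2 * (3:ℝ≥0∞) ^ (3 * (N + j + i) - 2 * N)) * (M * q ^ (N + j + i)) := by ring
            _ ≤ 27 ^ (N + j + i) * (M * q ^ (N + j + i)) := by gcongr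
            _ = (M * (27 * q) ^ (N + j)) * (27 * q) ^ i := by
                rw [mul_pow, mul_pow, pow_add (27:ℝ≥0∞), pow_add q]; ring
            _ ≤ _ := by gcongr
      _ = 2 * (M * (27 * q) ^ (N + j)) := by
          rw [ENNReal.tsum_mul_left, ENNReal.tsum_geometric, ENNReal.one_sub_inv_two, inv_inv]
          ring
  exact (ENNReal.mul_le_mul_iff_right (by norm_num) (by norm_num)).1 h2

end prob

end Crest.Agent.R154.Contour748
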