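import Crest.Agent.R154.B5Abs_566

/-! Row 154 (helper225), ROAD 801 line (1): density of the position after `j` iid pieces.
`V = ℕ × G` (height, displacement): no factor for the overshoots, the bad mass is paid once. -/

set_option autoImplicit false

namespace Crest.Agent.R154.Cd225

open scoped ENNReal
open Crest.Agent.R154.B5A

variable {B V : Type*} [AddCancelCommMonoid V]

open Classical in
/-- law of the value of one block -/
noncomputable def pl (Λ : B → ℝ≥0∞) (f : B → V) (v : V) : ℝ≥0∞ := ∑' b, if f b = v then Λ b else 0

open Classical in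
/-- law of the value after `j` blocks -/
noncomputable def Pj (Λ : B → ℝ≥0∞) (f : B → V) (j : ℕ) (v : V) : ℝ≥0∞ :=
  SL Λ j (fun L => if (L.map f).sum = v then 1 else 0)

lemma SL_tsum {ι : Type*} (Λ : B → ℝ≥0∞) (j : ℕ) (F : ι → List B → ℝ≥0∞) :
    SL Λ j (fun L => ∑' i, F i L) = ∑' i, SL Λ j (F i) := by
  simp only [SL]
  rw [ENNReal.tsum_comm]
  refine tsum_congr fun L => ?_
  by_cases h : L.length = j
  · simp only [h, if_true]; rw [ENNReal.tsum_mul_left]
  · simp [h]

open Classical in
lemma tsum_Pj_mul (Λ : B → ℝ≥0∞) (f : B → V) (j : ℕ) (Φ : V → ℝ≥0∞) :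
    SL Λ j (fun L => Φ (L.map f).sum) = ∑' v, Pj Λ f j v * Φ v := by
  have : ∀ L : List B, Φ (L.map f).sum = ∑' v, (if (L.map f).sum = v then 1 else 0) * Φ v := by
    intro L
    rw [tsum_eq_single (L.map f).sum]
    · simp
    · intro v hv; rw [if_neg hv.symm, zero_mul]
  simp_rw [this]
  rw [SL_tsum]
  refine tsum_congr fun v => ?_
  rw [Pj, mul_comm, ← SL_const_mul]
  exact SL_congr Λ j fun L _ => mul_comm _ _

lemma tsum_Pj (Λ : B → ℝ≥0∞) (f : B → V) (j : ℕ) : ∑' v, Pj Λ f j v = (∑' b, Λ b) ^ j := by
  have := tsum_Pj_mul Λ f j (fun _ => 1)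
  simp only [mul_one] at this
  rw [← this, SL_pow]

open Classical in
/-- **density of the position after `j` pieces**. -/
theorem conv_dens (Λ : B → ℝ≥0∞) (f : B → V) (hΛ : ∑' b, Λ b ≤ 1) (th q : ℝ≥0∞)
    (hq : ∑' b, (if th < pl Λ f (f b) then Λ b else 0) ≤ q) (j : ℕ) :
    ∃ A Bb : V → ℝ≥0∞, (∀ v, Pj Λ f j v ≤ A v + Bb v) ∧ (∀ v, A v ≤ Pj Λ f j v) ∧
      (∀ v, A v ≤ th * ∑ l ∈ Finset.range j, q ^ l) ∧ ∑' v, Bb v ≤ q ^ j := by
  suffices h : ∃ A Bb : V → ℝ≥0∞, (∀ v, Pj Λ f j v ≤ A v + Bb v) ∧
      (∀ v, A v ≤ th * ∑ l ∈ Finset.range j, q ^ l) ∧ ∑' v, Bb v ≤ q ^ j by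
    obtain ⟨A, Bb, h1, h2, h3⟩ := h
    refine ⟨fun v => min (A v) (Pj Λ f j v), Bb, fun v => ?_, fun v => min_le_right _ _,
      fun v => (min_le_left _ _).trans (h2 v), h3⟩
    rcases le_total (A v) (Pj Λ f j v) with h | h
    · simp only [min_eq_left h]; exact h1 v
    · simp only [min_eq_right h]; exact le_self_add
  induction j with
  | zero =>
    refine ⟨fun _ => 0, Pj Λ f 0, fun v => by simp, fun v => by simp, ?_⟩
    rw [tsum_Pj]; simp
  | succ j ih =>
    obtain ⟨A, Bb, h1, h2, h3⟩ := ih
    refine ⟨fun v => th + ∑' b, (if th < pl Λ f (f b) then Λ b else 0) *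
        ∑' v', (if f b + v' = v then A v' else 0),
      fun v => ∑' b, (if th < pl Λ f (f b) then Λ b else 0) *
        ∑' v', (if f b + v' = v then Bb v' else 0), fun v => ?_, fun v => ?_, ?_⟩
    · have e0 : Pj Λ f (j + 1) v = ∑' b, Λ b * SL Λ j (fun L =>
          if f b + (L.map f).sum = v then 1 else 0) := by
        rw [Pj, SL_succ]
        simp only [List.map_cons, List.sum_cons]
      have e1 : ∀ b, Λ b * SL Λ j (fun L => if f b + (L.map f).sum = v then 1 else 0)
          = (if th < pl Λ f (f b) then 0 else Λ b) * SL Λ j (fun L =>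
              if f b + (L.map f).sum = v then 1 else 0)
            + (if th < pl Λ f (f b) then Λ b else 0) * SL Λ j (fun L =>
              if f b + (L.map f).sum = v then 1 else 0) := by
        intro b
        by_cases h : th < pl Λ f (f b) <;> simp [h]
      rw [e0, tsum_congr e1, ENNReal.tsum_add]
      have g1 : ∑' b, (if th < pl Λ f (f b) then 0 else Λ b) * SL Λ j (fun L =>
              if f b + (L.map f).sum = v then 1 else 0) ≤ th := by
        have : ∀ b, (if th < pl Λ f (f b) then 0 else Λ b) * SL Λ j (fun L =>
              if f b + (L.map f).sum = v then 1 else 0)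
            = SL Λ j (fun L => (if th < pl Λ f (f b) then 0 else Λ b) *
              if f b + (L.map f).sum = v then 1 else 0) := fun b => (SL_const_mul Λ j _ _).symm
        simp_rw [this]
        rw [← SL_tsum]
        calc SL Λ j (fun L => ∑' b, (if th < pl Λ f (f b) then 0 else Λ b) *
              if f b + (L.map f).sum = v then 1 else 0)
            ≤ SL Λ j (fun _ => th) := by
              refine SL_mono Λ j fun L _ => ?_
              by_cases hex : ∃ b0, f b0 + (L.map f).sum = v ∧ ¬ th < pl Λ f (f b0)
              · obtain ⟨b0, hb0, hb1⟩ := hex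
                rw [not_lt] at hb1
                refine le_trans ?_ hb1
                rw [pl]
                refine ENNReal.tsum_le_tsum fun b => ?_
                by_cases hb : f b + (L.map f).sum = v
                · have : f b = f b0 := by
                    have := hb.trans hb0.symm
                    exact add_right_cancel this
                  rw [if_pos hb, if_pos this]
                  split_ifs <;> simp
                · rw [if_neg hb, mul_zero]; exact zero_le
              · push Not at hex
                rw [ENNReal.tsum_eq_zero.2]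
                · exact zero_le
                · intro b
                  by_cases hb : f b + (L.map f).sum = v
                  · rw [if_pos (hex b hb), zero_mul]
                  · rw [if_neg hb, mul_zero]
          _ = th * SL Λ j (fun _ => 1) := by
              rw [← SL_const_mul]; simp
          _ ≤ th * 1 := by
              refine mul_le_mul_right ?_ _
              rw [SL_pow]
              exact pow_le_one₀ zero_le hΛ
          _ = th := mul_one _
      have g2 : ∀ b, SL Λ j (fun L => if f b + (L.map f).sum = v then (1 : ℝ≥0∞) else 0)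
          ≤ (∑' v', (if f b + v' = v then A v' else 0))
            + ∑' v', (if f b + v' = v then Bb v' else 0) := by
        intro b
        rw [tsum_Pj_mul Λ f j (fun v' => if f b + v' = v then 1 else 0), ← ENNReal.tsum_add]
        refine ENNReal.tsum_le_tsum fun v' => ?_
        by_cases hv : f b + v' = v
        · simp only [hv, if_true, mul_one]; exact h1 v'
        · simp [hv]
      refine (add_le_add g1 (ENNReal.tsum_le_tsum fun b => mul_le_mul_right (g2 b) _)).trans ?_
      rw [add_assoc]
      refine add_le_add le_rfl ?_
      rw [← ENNReal.tsum_add]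
      refine ENNReal.tsum_le_tsum fun b => ?_
      rw [mul_add]
    · rw [Finset.sum_range_succ', pow_zero, mul_add, mul_one,
        add_comm (th * ∑ k ∈ Finset.range j, q ^ (k + 1)) th]
      refine add_le_add le_rfl ?_
      calc ∑' b, (if th < pl Λ f (f b) then Λ b else 0) * ∑' v', (if f b + v' = v then A v' else 0)
          ≤ ∑' b, (if th < pl Λ f (f b) then Λ b else 0) *
            (th * ∑ l ∈ Finset.range j, q ^ l) := by
            refine ENNReal.tsum_le_tsum fun b => mul_le_mul_right ?_ _
            by_cases hex : ∃ v0, f b + v0 = v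
            · obtain ⟨v0, hv0⟩ := hex
              rw [tsum_eq_single v0]
              · rw [if_pos hv0]; exact h2 v0
              · intro v' hv'
                rw [if_neg]
                intro h
                exact hv' (add_left_cancel (h.trans hv0.symm))
            · push Not at hex
              rw [ENNReal.tsum_eq_zero.2 (fun v' => if_neg (hex v'))]
              exact zero_le
        _ = (∑' b, (if th < pl Λ f (f b) then Λ b else 0)) *
            (th * ∑ l ∈ Finset.range j, q ^ l) := ENNReal.tsum_mul_right
        _ ≤ q * (th * ∑ l ∈ Finset.range j, q ^ l) := mul_le_mul_left hq _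
        _ = th * ∑ l ∈ Finset.range j, q ^ (l + 1) := by
            rw [mul_left_comm, Finset.mul_sum]
            congr 1
            refine Finset.sum_congr rfl fun l _ => ?_
            rw [pow_succ, mul_comm]
    · rw [ENNReal.tsum_comm]
      calc ∑' b, ∑' v, (if th < pl Λ f (f b) then Λ b else 0) *
            ∑' v', (if f b + v' = v then Bb v' else 0)
          = ∑' b, (if th < pl Λ f (f b) then Λ b else 0) * ∑' v', Bb v' := by
            refine tsum_congr fun b => ?_
            rw [ENNReal.tsum_mul_left, ENNReal.tsum_comm]
            congr 1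
            refine tsum_congr fun v' => ?_
            rw [tsum_eq_single (f b + v')]
            · simp
            · intro v hv; rw [if_neg hv.symm]
        _ = (∑' b, (if th < pl Λ f (f b) then Λ b else 0)) * ∑' v', Bb v' := ENNReal.tsum_mul_right
        _ ≤ q * q ^ j := mul_le_mul' hq h3
        _ = q ^ (j + 1) := by rw [pow_succ, mul_comm]

end Crest.Agent.R154.Cd225
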