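import Crest.Agent.R154.B5Abs_566

/-! Row 154, ROAD 801 (helper391): law of exactly `j` iid pieces = smooth part + rest,
the rest is paid once. -/

set_option autoImplicit false

namespace Crest.Agent.R154.Conv391

open Crest.Agent.R154.B5A
open scoped ENNReal
open Finset

variable {A S : Type*} [AddCommGroup S] (Λ : A → ℝ≥0∞) (g : A → S)

open Classical in
/-- law of one piece -/
noncomputable def law (x : S) : ℝ≥0∞ := ∑' a, if g a = x then Λ a else 0

open Classical in
/-- law of the sum of exactly `j` pieces -/
noncomputable def cv (j : ℕ) (z : S) : ℝ≥0∞ :=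
  SL Λ j (fun L => if (L.map g).sum = z then 1 else 0)

lemma cv_succ (j : ℕ) (z : S) : cv Λ g (j + 1) z = ∑' a, Λ a * cv Λ g j (z - g a) := by
  classical
  unfold cv
  rw [SL_succ]
  refine tsum_congr fun a => ?_
  congr 1
  refine SL_congr Λ j fun L _ => ?_
  have : ((a :: L).map g).sum = z ↔ (L.map g).sum = z - g a := by
    rw [List.map_cons, List.sum_cons, eq_sub_iff_add_eq, add_comm]
  by_cases h : (L.map g).sum = z - g a
  · rw [if_pos h, if_pos (this.2 h)]
  · rw [if_neg h, if_neg fun h' => h (this.1 h')]

lemma sum_cv_le (hΛ : ∑' a, Λ a ≤ 1) (j : ℕ) : ∑' z, cv Λ g j z ≤ 1 := by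
  classical
  unfold cv SL
  rw [ENNReal.tsum_comm]
  calc ∑' L : List A, ∑' z : S, (if L.length = j then LW Λ L * (if (L.map g).sum = z then 1 else 0) else 0)
      ≤ ∑' L : List A, (if L.length = j then LW Λ L * 1 else 0) := by
        refine ENNReal.tsum_le_tsum fun L => ?_
        by_cases h : L.length = j
        · simp only [h, if_true]
          rw [ENNReal.tsum_mul_left, tsum_ite_eq']
        · simp [h]
    _ = SL Λ j (fun _ => 1) := rfl
    _ = (∑' b, Λ b) ^ j := SL_pow Λ j
    _ ≤ 1 := pow_le_one' hΛ j

open Classical in
lemma cv_zero_le (z : S) : cv Λ g 0 z = if (0 : S) = z then 1 else 0 := by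
  unfold cv
  rw [SL_zero]
  simp

/-- **density split of exactly `j` pieces** -/
theorem conv_split (hΛ : ∑' a, Λ a ≤ 1) (th q : ℝ≥0∞)
    (hq : ∑' a, (if th < law Λ g (g a) then Λ a else 0) ≤ q) (j : ℕ) :
    ∃ b : S → ℝ≥0∞, (∀ z, cv Λ g j z ≤ th * ∑ l ∈ range j, q ^ l + b z) ∧ ∑' z, b z ≤ q ^ j := by
  classical
  induction j with
  | zero =>
    refine ⟨fun z => if (0 : S) = z then 1 else 0, fun z => ?_, ?_⟩
    · rw [cv_zero_le]
      simp
    · rw [tsum_ite_eq']
      simp
  | succ j ih =>
    obtain ⟨b, hb1, hb2⟩ := ih
    refine ⟨fun z => ∑' a, (if th < law Λ g (g a) then Λ a else 0) * b (z - g a), fun z => ?_, ?_⟩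
    · rw [cv_succ]
      have hsplit : ∀ a, Λ a * cv Λ g j (z - g a)
          ≤ (if th < law Λ g (g a) then 0 else Λ a) * cv Λ g j (z - g a)
            + ((if th < law Λ g (g a) then Λ a else 0) * (th * ∑ l ∈ range j, q ^ l)
            + (if th < law Λ g (g a) then Λ a else 0) * b (z - g a)) := by
        intro a
        by_cases h : th < law Λ g (g a)
        · simp only [h, if_true, zero_mul, zero_add]
          rw [← mul_add]
          exact mul_le_mul' le_rfl (hb1 _)
        · simp [h]
      refine (ENNReal.tsum_le_tsum hsplit).trans ?_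
      rw [ENNReal.tsum_add, ENNReal.tsum_add]
      have h1 : ∑' a, (if th < law Λ g (g a) then 0 else Λ a) * cv Λ g j (z - g a) ≤ th := by
        calc ∑' a, (if th < law Λ g (g a) then 0 else Λ a) * cv Λ g j (z - g a)
            = ∑' a, ∑' x : S, (if g a = x then
                (if th < law Λ g x then 0 else Λ a) * cv Λ g j (z - x) else 0) := by
              refine tsum_congr fun a => ?_
              rw [tsum_ite_eq']
          _ = ∑' x : S, ∑' a, (if g a = x then
                (if th < law Λ g x then 0 else Λ a) * cv Λ g j (z - x) else 0) :=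
              ENNReal.tsum_comm
          _ ≤ ∑' x : S, th * cv Λ g j (z - x) := by
              refine ENNReal.tsum_le_tsum fun x => ?_
              by_cases h : th < law Λ g x
              · simp [h]
              · simp only [h, if_false]
                calc ∑' a, (if g a = x then Λ a * cv Λ g j (z - x) else 0)
                    = (∑' a, (if g a = x then Λ a else 0)) * cv Λ g j (z - x) := by
                      rw [← ENNReal.tsum_mul_right]
                      refine tsum_congr fun a => ?_
                      split_ifs <;> simp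
                  _ ≤ th * cv Λ g j (z - x) := mul_le_mul' (not_lt.1 h) le_rfl
          _ = th * ∑' x : S, cv Λ g j (z - x) := ENNReal.tsum_mul_left
          _ = th * ∑' x : S, cv Λ g j x := by
              congr 1
              exact (Equiv.subLeft z).tsum_eq (fun x => cv Λ g j x)
          _ ≤ th * 1 := mul_le_mul' le_rfl (sum_cv_le Λ g hΛ j)
          _ = th := mul_one _
      have h2 : ∑' a, (if th < law Λ g (g a) then Λ a else 0) * (th * ∑ l ∈ range j, q ^ l)
          ≤ q * (th * ∑ l ∈ range j, q ^ l) := by
        rw [ENNReal.tsum_mul_right]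
        exact mul_le_mul' hq le_rfl
      calc _ ≤ th + (q * (th * ∑ l ∈ range j, q ^ l)
            + ∑' a, (if th < law Λ g (g a) then Λ a else 0) * b (z - g a)) := by gcongr
        _ = _ := by
            rw [Finset.sum_range_succ']
            simp only [pow_succ, pow_zero]
            rw [← Finset.sum_mul]
            ring
    · rw [ENNReal.tsum_comm]
      calc ∑' a, ∑' z, (if th < law Λ g (g a) then Λ a else 0) * b (z - g a)
          = ∑' a, (if th < law Λ g (g a) then Λ a else 0) * ∑' z, b z := by
            refine tsum_congr fun a => ?_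
            rw [ENNReal.tsum_mul_left]
            congr 1
            exact (Equiv.subRight (g a)).tsum_eq b
        _ = (∑' a, (if th < law Λ g (g a) then Λ a else 0)) * ∑' z, b z := ENNReal.tsum_mul_right
        _ ≤ q * q ^ j := mul_le_mul' hq hb2
        _ = q ^ (j + 1) := by rw [pow_succ, mul_comm]

end Crest.Agent.R154.Conv391
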