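import Crest.Agent.R154.NBDefs_28

/-! Row 154, kappa = 0 (helper209): `KappaW` from the one-window inequality:
extension to the bottom, covering of `(m, 2m]` by windows, choice of the parameters. -/

set_option autoImplicit false

namespace Crest.Agent.R154.Cover209

open MeasureTheory ProbabilityTheory Crest.ProbabilityR.RandomEnvironment Crest.Agent.R154
open Crest.Agent.R154.Flux132 (lev opp)
open Crest.Agent.R154.Flux566 (lw endp sitesL endp_append endp_eq_add measurable_lw locOn_lw)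
open Crest.Agent.R154.NB28
open Filter
open scoped ENNReal Topology

variable {d : ℕ}

/-! ### words -/

lemma lw_append (ω : Environment d) (x : Site d) (l l' : List (Step d)) :
    lw ω x (l ++ l') = lw ω x l * lw ω (endp x l) l' := by
  induction l generalizing x with
  | nil => simp [lw, endp]
  | cons e l ih => simp only [List.cons_append, lw, endp]; rw [ih, mul_assoc]

lemma sitesL_append (x : Site d) (l l' : List (Step d)) :
    sitesL x (l ++ l') = sitesL x l ++ sitesL (endp x l) l' := by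
  induction l generalizing x with
  | nil => simp [sitesL, endp]
  | cons e l ih => simp only [List.cons_append, sitesL, endp]; rw [ih]

lemma lw_shift (z x : Site d) (ω : Environment d) (l : List (Step d)) :
    lw (shiftEnv z ω) x l = lw ω (x + z) l := by
  induction l generalizing x with
  | nil => rfl
  | cons e l ih =>
    simp only [lw]
    rw [ih, show x + stepVec e + z = x + z + stepVec e by abel]
    rfl

lemma sitesL_add (x z : Site d) (l : List (Step d)) :
    sitesL (x + z) l = (sitesL x l).map (fun y => y + z) := by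
  induction l generalizing x with
  | nil => rfl
  | cons e l ih =>
    simp only [sitesL, List.map_cons]
    rw [← ih, show x + stepVec e + z = x + z + stepVec e by abel]

lemma mem_sitesL_iff (x y : Site d) (l : List (Step d)) :
    y ∈ sitesL x l ↔ y - x ∈ sitesL 0 l := by
  have h := sitesL_add 0 x l
  rw [zero_add] at h
  rw [h, List.mem_map]
  constructor
  · rintro ⟨a, ha, rfl⟩
    simpa using ha
  · intro hy
    exact ⟨y - x, hy, by abel⟩

variable (ν : Measure (Row d)) [IsProbabilityMeasure ν]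

lemma aw_at (x : Site d) (l : List (Step d)) :
    ∫⁻ ω, lw ω x l ∂(iidEnvironmentLaw ν) = aw ν l := by
  have h := (Q561.iid_shift ν x).lintegral_comp (measurable_lw 0 l)
  simp only [lw_shift, zero_add] at h
  exact h

lemma aw_append (l l' : List (Step d))
    (hd : ∀ y ∈ sitesL 0 l, y ∉ sitesL (endp 0 l) l') :
    aw ν (l ++ l') = aw ν l * aw ν l' := by
  unfold aw
  simp only [lw_append]
  rw [Q561.iid_lintegral_mul ν (S := {y | y ∈ sitesL 0 l}) (T := {y | y ∈ sitesL (endp 0 l) l'}) ?_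
    (measurable_lw _ _) (measurable_lw _ _) (locOn_lw _ _) (locOn_lw _ _),
    aw_at ν (endp 0 l) l']
  · rfl
  · rw [Set.disjoint_left]
    exact fun y hy hy' => hd y hy hy'

/-! ### crossings -/

variable {u : Step d}

lemma lev_sub' (x y : Site d) : lev u (x - y) = lev u x - lev u y := by
  unfold lev; split_ifs <;> simp <;> ring

lemma lev_add' (x y : Site d) : lev u (x + y) = lev u x + lev u y := by
  unfold lev; split_ifs <;> simp <;> ring

lemma isUp_append {N n : ℕ} {l2 l : List (Step d)} (h2 : IsUp u N l2) (h : IsUp u n l) :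
    IsUp u (n + N) (l2 ++ l) := by
  refine ⟨?_, ?_⟩
  · intro y hy
    rw [sitesL_append, List.mem_append] at hy
    rcases hy with hy | hy
    · have := h2.1 y hy
      push_cast
      omega
    · rw [mem_sitesL_iff] at hy
      have := h.1 _ hy
      rw [lev_sub', h2.2] at this
      push_cast
      omega
  · rw [endp_append, endp_eq_add, lev_add', h2.2, h.2]
    push_cast
    ring

lemma isDn_append {N n : ℕ} {l l2 : List (Step d)} (h : IsDn u n l) (h2 : IsDn u N l2) :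
    IsDn u (n + N) (l ++ l2) := by
  refine ⟨?_, ?_⟩
  · intro y hy
    rw [sitesL_append, List.mem_append] at hy
    rcases hy with hy | hy
    · have := h.1 y hy
      push_cast
      omega
    · rw [mem_sitesL_iff] at hy
      have := h2.1 _ hy
      rw [lev_sub', h.2] at this
      push_cast
      omega
  · rw [endp_append, endp_eq_add, lev_add', h2.2, h.2]
    push_cast
    ring

lemma mem_sitesL_self_append (x : Site d) (l : List (Step d)) (e : Step d) (l' : List (Step d)) :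
    endp x l ∈ sitesL x (l ++ e :: l') := by
  rw [sitesL_append, List.mem_append]
  exact Or.inr (by simp [sitesL])

lemma isUp_pf {N : ℕ} {l l' m m' : List (Step d)} (h : IsUp u N l) (h' : IsUp u N l')
    (he : l ++ m = l' ++ m') : l = l' ∧ m = m' := by
  rcases List.append_eq_append_iff.1 he with ⟨a, ha, hb⟩ | ⟨a, ha, hb⟩
  · cases a with
    | nil => simp at ha hb; exact ⟨ha.symm, hb⟩
    | cons e a =>
      exfalso
      have := h'.1 (endp 0 l) (by rw [ha]; exact mem_sitesL_self_append 0 l e a)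
      rw [h.2] at this
      omega
  · cases a with
    | nil => simp at ha hb; exact ⟨ha, hb.symm⟩
    | cons e a =>
      exfalso
      have := h.1 (endp 0 l') (by rw [ha]; exact mem_sitesL_self_append 0 l' e a)
      rw [h'.2] at this
      omega

lemma isDn_pf {N : ℕ} {l l' m m' : List (Step d)} (h : IsDn u N l) (h' : IsDn u N l')
    (he : l ++ m = l' ++ m') : l = l' ∧ m = m' := by
  rcases List.append_eq_append_iff.1 he with ⟨a, ha, hb⟩ | ⟨a, ha, hb⟩
  · cases a with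
    | nil => simp at ha hb; exact ⟨ha.symm, hb⟩
    | cons e a =>
      exfalso
      have := h'.1 (endp 0 l) (by rw [ha]; exact mem_sitesL_self_append 0 l e a)
      rw [h.2] at this
      omega
  · cases a with
    | nil => simp at ha hb; exact ⟨ha, hb.symm⟩
    | cons e a =>
      exfalso
      have := h.1 (endp 0 l') (by rw [ha]; exact mem_sitesL_self_append 0 l' e a)
      rw [h'.2] at this
      omega

lemma aw_up {N n : ℕ} {l2 l : List (Step d)} (h2 : IsUp u N l2) (h : IsUp u n l) :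
    aw ν (l2 ++ l) = aw ν l2 * aw ν l := by
  refine aw_append ν l2 l fun y hy hy' => ?_
  rw [mem_sitesL_iff] at hy'
  have h1 := h2.1 y hy
  have h3 := h.1 _ hy'
  rw [lev_sub', h2.2] at h3
  omega

lemma aw_dn {N n : ℕ} {l l2 : List (Step d)} (h : IsDn u n l) (h2 : IsDn u N l2) :
    aw ν (l ++ l2) = aw ν l * aw ν l2 := by
  refine aw_append ν l l2 fun y hy hy' => ?_
  rw [mem_sitesL_iff] at hy'
  have h1 := h.1 y hy
  have h3 := h2.1 _ hy'
  rw [lev_sub', h.2] at h3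
  omega

lemma Cm_ext (w : Site d) (π2 π γ γ2 : List (Step d)) :
    Cm u w π γ ⊆ Cm u w (π2 ++ π) (γ ++ γ2) := by
  rintro k ⟨y, h1, h2, h3⟩
  refine ⟨y, ?_, ?_, h3⟩
  · rw [sitesL_append, List.mem_append]
    right
    have : endp (-endp 0 (π2 ++ π)) π2 = -endp 0 π := by
      rw [endp_eq_add, endp_append, endp_eq_add π (endp 0 π2)]
      abel
    rw [this]
    exact h1
  · rw [sitesL_append, List.mem_append]
    exact Or.inl h2

/-! ### extension -/

lemma tsum_le_of_injOn {ι κ : Type*} (f : ι → ℝ≥0∞) (g : κ → ℝ≥0∞) (i : ι → κ)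
    (hi : Set.InjOn i {x | f x ≠ 0}) (h : ∀ x, f x ≠ 0 → f x ≤ g (i x)) :
    ∑' x, f x ≤ ∑' y, g y := by
  have h1 : ∑' x : {x | f x ≠ 0}, f x = ∑' x, f x :=
    tsum_subtype_eq_of_support_subset (by intro x hx; exact hx)
  rw [← h1]
  calc _ ≤ ∑' x : {x | f x ≠ 0}, g (i x) := ENNReal.tsum_le_tsum fun x => h x x.2
    _ ≤ _ := ENNReal.tsum_comp_le_tsum_of_injective
      (f := fun x : {x | f x ≠ 0} => i x) (Set.injOn_iff_injective.1 hi) g

variable (u)

/-- weight of the up crossings of height `n` -/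
noncomputable def AU (n : ℕ) : ℝ≥0∞ := by
  classical exact ∑' π : List (Step d), if IsUp u n π then aw ν π else 0

/-- weight of the down crossings of height `n` -/
noncomputable def AD (n : ℕ) : ℝ≥0∞ := by
  classical exact ∑' π : List (Step d), if IsDn u n π then aw ν π else 0

open Classical in
/-- weight of the pairs of crossings of height `n` with a contact at depth in `[lo, hi]` -/
noncomputable def CW (n lo hi : ℕ) (w : Site d) : ℝ≥0∞ :=
  ∑' π : List (Step d), ∑' γ : List (Step d),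
    if IsUp u n π ∧ IsDn u n γ ∧ (∃ k ∈ Cm u w π γ, lo ≤ k ∧ k ≤ hi)
    then aw ν π * aw ν γ else 0

lemma CW_ext (n N lo hi : ℕ) (w : Site d) :
    AU ν u N * AD ν u N * CW ν u n lo hi w ≤ CW ν u (n + N) lo hi w := by
  classical
  have e1 : AU ν u N * AD ν u N * CW ν u n lo hi w
      = ∑' q : (List (Step d) × List (Step d)) × (List (Step d) × List (Step d)),
        ((if IsUp u N q.1.1 then aw ν q.1.1 else 0) * (if IsDn u N q.1.2 then aw ν q.1.2 else 0))
          * (if IsUp u n q.2.1 ∧ IsDn u n q.2.2 ∧ (∃ k ∈ Cm u w q.2.1 q.2.2, lo ≤ k ∧ k ≤ hi)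
            then aw ν q.2.1 * aw ν q.2.2 else 0) := by
    rw [ENNReal.tsum_prod']
    simp only [ENNReal.tsum_mul_left]
    rw [ENNReal.tsum_mul_right]
    congr 1
    · rw [ENNReal.tsum_prod']
      simp only [ENNReal.tsum_mul_left]
      rw [ENNReal.tsum_mul_right]
      rfl
    · rw [ENNReal.tsum_prod']
      rfl
  have e2 : CW ν u (n + N) lo hi w = ∑' p : List (Step d) × List (Step d),
      if IsUp u (n + N) p.1 ∧ IsDn u (n + N) p.2 ∧ (∃ k ∈ Cm u w p.1 p.2, lo ≤ k ∧ k ≤ hi)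
        then aw ν p.1 * aw ν p.2 else 0 := by
    rw [ENNReal.tsum_prod']
    rfl
  rw [e1, e2]
  have key : ∀ q : (List (Step d) × List (Step d)) × (List (Step d) × List (Step d)),
      ((if IsUp u N q.1.1 then aw ν q.1.1 else 0) * (if IsDn u N q.1.2 then aw ν q.1.2 else 0))
          * (if IsUp u n q.2.1 ∧ IsDn u n q.2.2 ∧ (∃ k ∈ Cm u w q.2.1 q.2.2, lo ≤ k ∧ k ≤ hi)
            then aw ν q.2.1 * aw ν q.2.2 else 0) ≠ 0 →
      IsUp u N q.1.1 ∧ IsDn u N q.1.2 ∧ IsUp u n q.2.1 ∧ IsDn u n q.2.2 ∧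
        (∃ k ∈ Cm u w q.2.1 q.2.2, lo ≤ k ∧ k ≤ hi) := by
    intro q hq
    have h1 : IsUp u N q.1.1 := by
      by_contra h; exact hq (by rw [if_neg h]; simp)
    have h2 : IsDn u N q.1.2 := by
      by_contra h; exact hq (by rw [if_neg h]; simp)
    have h3 : IsUp u n q.2.1 ∧ IsDn u n q.2.2 ∧ (∃ k ∈ Cm u w q.2.1 q.2.2, lo ≤ k ∧ k ≤ hi) := by
      by_contra h; exact hq (by rw [if_neg h]; simp)
    exact ⟨h1, h2, h3⟩
  refine tsum_le_of_injOn _ _ (fun q => (q.1.1 ++ q.2.1, q.2.2 ++ q.1.2)) ?_ ?_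
  · rintro ⟨⟨a, b⟩, ⟨c, e⟩⟩ hq ⟨⟨a', b'⟩, ⟨c', e'⟩⟩ hq' he
    obtain ⟨h1, h2, h3, h4, _⟩ := key _ hq
    obtain ⟨h1', h2', h3', h4', _⟩ := key _ hq'
    simp only [Prod.mk.injEq] at he
    obtain ⟨ha, hc⟩ := isUp_pf h1 h1' he.1
    obtain ⟨he', hb⟩ := isDn_pf h4 h4' he.2
    subst ha hc he' hb
    rfl
  · intro q hq
    obtain ⟨h1, h2, h3, h4, k, hk, hk1⟩ := key q hq
    rw [if_pos h1, if_pos h2, if_pos ⟨h3, h4, k, hk, hk1⟩,
      if_pos ⟨isUp_append h1 h3, isDn_append h4 h2, k, Cm_ext w _ _ _ _ hk, hk1⟩,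
      aw_up ν h1 h3, aw_dn ν h4 h2]
    exact le_of_eq (by ring)

lemma KW_le_CW (n m : ℕ) (w : Site d) : KW ν u n m w ≤ CW ν u n m (2 * m) w := by
  classical
  refine ENNReal.tsum_le_tsum fun π => ENNReal.tsum_le_tsum fun γ => ?_
  split_ifs with h1 h2 h2
  · exact le_rfl
  · obtain ⟨h3, h4, h5, k, hk, hk2⟩ := h1
    exact absurd ⟨h3, h4, k, hk, (h5 k hk).le, hk2⟩ h2
  · exact zero_le
  · exact le_rfl

/-- covering -/
lemma CW_cover (n m B J : ℕ) (hB : m ≤ J * B) (w : Site d) :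
    CW ν u n m (2 * m) w ≤ ∑ j ∈ Finset.range (J + 1), CW ν u n (m + j * B) (m + j * B + B) w := by
  classical
  unfold CW
  rw [← Summable.tsum_finsetSum fun _ _ => ENNReal.summable]
  refine ENNReal.tsum_le_tsum fun π => ?_
  rw [← Summable.tsum_finsetSum fun _ _ => ENNReal.summable]
  refine ENNReal.tsum_le_tsum fun γ => ?_
  by_cases h : IsUp u n π ∧ IsDn u n γ ∧ (∃ k ∈ Cm u w π γ, m ≤ k ∧ k ≤ 2 * m)
  · rw [if_pos h]
    obtain ⟨h1, h2, k, hk, hk1, hk2⟩ := h
    have hex : ∃ j ≤ J, m + j * B ≤ k ∧ k ≤ m + j * B + B := by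
      rcases Nat.eq_zero_or_pos B with hB0 | hB0
      · subst hB0
        exact ⟨0, by omega, by omega, by omega⟩
      · refine ⟨(k - m) / B, ?_, ?_, ?_⟩
        · have : k - m ≤ J * B := by omega
          calc (k - m) / B ≤ (J * B) / B := Nat.div_le_div_right this
            _ = J := Nat.mul_div_cancel _ hB0
        · have := Nat.div_mul_le_self (k - m) B
          omega
        · have := Nat.lt_div_mul_add (a := k - m) hB0
          omega
    obtain ⟨j, hj, hj1, hj2⟩ := hex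
    have h4 := Finset.single_le_sum (f := fun j => if IsUp u n π ∧ IsDn u n γ ∧
        (∃ k ∈ Cm u w π γ, m + j * B ≤ k ∧ k ≤ m + j * B + B) then aw ν π * aw ν γ else 0)
      (fun _ _ => zero_le) (Finset.mem_range.2 (Nat.lt_succ_of_le hj))
    refine le_trans ?_ h4
    rw [if_pos ⟨h1, h2, k, hk, hj1, hj2⟩]
  · rw [if_neg h]
    exact zero_le

/-! ### the final step -/

/-- the one-window inequality (`η` = price of the thin slabs) -/
def WinIneq : Prop :=
  ∃ (C : ℝ≥0∞) (e us : ℕ → ℝ≥0∞), C ≠ ⊤ ∧ Tendsto e atTop (𝓝 0) ∧ Tendsto us atTop (𝓝 0) ∧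
    ∀ (i0 s : ℕ) (η : ℝ≥0∞), η ≠ 0 → ∃ A : ℕ, ∀ (T a n J : ℕ) (x lam : ℝ≥0∞) (w : Site d),
      A ≤ a → x ≠ 0 → x ≤ 1 → lam ≠ 0 → lam ≠ ⊤ →
      J * (T + i0) ≤ a → a + 2 * (T + i0) ≤ n → lev u w = 0 →
      CW ν u n (a + i0 + s) (a + T - s) w
        ≤ C * (e i0 + x ^ 2 + (1 - x) ^ J + J * e i0
            + ((i0 + 1 : ℕ) : ℝ≥0∞) ^ 4 * (lam + us s / (x * lam)) + η)

lemma exists_J (δ : ℝ) (hδ : 0 < δ) : ∃ J : ℕ, 1 ≤ J ∧ ∃ x : ℝ, 0 < x ∧ x ≤ 1 ∧
    J * x ^ 2 ≤ δ ∧ J * (1 - x) ^ J ≤ δ := by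
  set y : ℝ := min 1 δ with hy
  have hy0 : 0 < y := lt_min one_pos hδ
  have hy1 : y ≤ 1 := min_le_left _ _
  have hyδ : y ≤ δ := min_le_right _ _
  have h1 : Tendsto (fun q : ℝ => q ^ 2 * Real.exp (-(y * q))) atTop (𝓝 0) := by
    have := tendsto_rpow_mul_exp_neg_mul_atTop_nhds_zero 2 y hy0
    refine this.congr fun q => ?_
    rw [neg_mul]
    norm_num
  have h2 : Tendsto (fun q : ℕ => (q : ℝ) ^ 2 * Real.exp (-(y * q))) atTop (𝓝 0) :=
    h1.comp tendsto_natCast_atTop_atTop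
  obtain ⟨q, hq1, hq2⟩ := ((h2.eventually_le_const hδ).and (eventually_ge_atTop 1)).exists
  have hq0 : (1 : ℝ) ≤ q := by exact_mod_cast hq2
  have hqp : (0 : ℝ) < q := by linarith
  refine ⟨q ^ 2, Nat.one_le_pow _ _ hq2, y / q, by positivity, ?_, ?_, ?_⟩
  · rw [div_le_one hqp]; linarith
  · push_cast
    rw [div_pow]
    have : (q : ℝ) ^ 2 * (y ^ 2 / q ^ 2) = y ^ 2 := by field_simp
    rw [this]
    nlinarith
  · push_cast
    have h3 : 1 - y / q ≤ Real.exp (-(y / q)) := by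
      have := Real.add_one_le_exp (-(y / q)); linarith
    have h4 : 0 ≤ 1 - y / q := by
      rw [sub_nonneg, div_le_one hqp]; linarith
    have h5 : (1 - y / q) ^ (q ^ 2) ≤ Real.exp (-(y * q)) := by
      calc (1 - y / q) ^ (q ^ 2) ≤ (Real.exp (-(y / q))) ^ (q ^ 2) :=
            pow_le_pow_left₀ h4 h3 _
        _ = Real.exp (-(y * q)) := by
            rw [← Real.exp_nat_mul]
            congr 1
            push_cast
            field_simp
    calc (q : ℝ) ^ 2 * (1 - y / q) ^ (q ^ 2) ≤ (q : ℝ) ^ 2 * Real.exp (-(y * q)) :=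
          mul_le_mul_of_nonneg_left h5 (by positivity)
      _ ≤ δ := hq1

lemma exists_small (f : ℕ → ℝ≥0∞) (hf : Tendsto f atTop (𝓝 0)) (a b : ℝ≥0∞) (ha : a ≠ ⊤)
    (hb : b ≠ 0) : ∃ i, a * f i ≤ b := by
  have h : Tendsto (fun i => a * f i) atTop (𝓝 (a * 0)) :=
    ENNReal.Tendsto.const_mul hf (Or.inr ha)
  rw [mul_zero] at h
  exact (h.eventually_le_const (pos_iff_ne_zero.2 hb)).exists

theorem kappaW_of_winIneq (c : ℝ≥0∞) (hc : c ≠ 0) (hc' : c ≠ ⊤) (hU : ∀ n, c ≤ AU ν u n)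
    (hD : ∀ n, c ≤ AD ν u n) (h : WinIneq ν u) : KappaW ν u := by
  obtain ⟨C, e, us, hC, he, hus, hwin⟩ := h
  intro ε hε
  -- the target
  set κ : ℝ≥0∞ := (c * c)⁻¹ * (9 * C) with hκ
  have hκt : κ ≠ ⊤ := ENNReal.mul_ne_top (ENNReal.inv_ne_top.2 (mul_ne_zero hc hc))
    (ENNReal.mul_ne_top (by norm_num) hC)
  obtain ⟨δ, hδ0, hδ⟩ : ∃ δ : ℝ≥0∞, δ ≠ 0 ∧ δ ≠ ⊤ ∧ κ * (6 * δ) ≤ ε := by
    rcases eq_or_ne κ 0 with h0 | h0
    · exact ⟨1, one_ne_zero, ENNReal.one_ne_top, by rw [h0, zero_mul]; exact zero_le⟩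
    · refine ⟨min 1 (ε / (κ * 6)), ?_, ?_, ?_⟩
      · rw [Ne, ← nonpos_iff_eq_zero, min_le_iff, not_or]
        refine ⟨by simp, ?_⟩
        rw [nonpos_iff_eq_zero]
        exact (ENNReal.div_ne_zero).2 ⟨hε, ENNReal.mul_ne_top hκt (by norm_num)⟩
      · exact ne_top_of_le_ne_top ENNReal.one_ne_top (min_le_left _ _)
      · rw [← mul_assoc]
        calc κ * 6 * min 1 (ε / (κ * 6)) ≤ κ * 6 * (ε / (κ * 6)) :=
              mul_le_mul_right (min_le_right _ _) _
          _ ≤ ε := ENNReal.mul_div_le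
  obtain ⟨hδt, hδε⟩ := hδ
  obtain ⟨J, hJ1, x, hx0, hx1, hJx, hJe⟩ := exists_J δ.toReal
    (ENNReal.toReal_pos hδ0 hδt)
  set X : ℝ≥0∞ := ENNReal.ofReal x with hX
  have hX0 : X ≠ 0 := by rw [hX, Ne, ENNReal.ofReal_eq_zero, not_le]; exact hx0
  have hX1 : X ≤ 1 := by rw [hX]; exact ENNReal.ofReal_le_one.2 hx1
  have hXt : X ≠ ⊤ := ENNReal.ofReal_ne_top
  have hA : (J : ℝ≥0∞) * X ^ 2 ≤ δ := by
    rw [← ENNReal.ofReal_toReal hδt, hX, ← ENNReal.ofReal_pow hx0.le,
      ← ENNReal.ofReal_natCast, ← ENNReal.ofReal_mul (Nat.cast_nonneg _)]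
    exact ENNReal.ofReal_le_ofReal hJx
  have hB : (J : ℝ≥0∞) * (1 - X) ^ J ≤ δ := by
    rw [← ENNReal.ofReal_toReal hδt, hX, ← ENNReal.ofReal_one, ← ENNReal.ofReal_sub _ hx0.le,
      ← ENNReal.ofReal_pow (by linarith),
      ← ENNReal.ofReal_natCast, ← ENNReal.ofReal_mul (Nat.cast_nonneg _)]
    exact ENNReal.ofReal_le_ofReal hJe
  have hJt : (J : ℝ≥0∞) ≠ ⊤ := ENNReal.natCast_ne_top _
  obtain ⟨i0, hi0⟩ := exists_small e he (J * (1 + J)) δ
    (ENNReal.mul_ne_top hJt (ENNReal.add_ne_top.2 ⟨ENNReal.one_ne_top, hJt⟩)) hδ0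
  set I4 : ℝ≥0∞ := ((i0 + 1 : ℕ) : ℝ≥0∞) ^ 4 with hI4
  have hI4t : I4 ≠ ⊤ := ENNReal.pow_ne_top (ENNReal.natCast_ne_top _)
  have hI40 : I4 ≠ 0 := pow_ne_zero _ (by simp)
  obtain ⟨lam, hlam0, hlamt, hlam⟩ : ∃ lam : ℝ≥0∞, lam ≠ 0 ∧ lam ≠ ⊤ ∧ J * I4 * lam ≤ δ := by
    have hJI : (J : ℝ≥0∞) * I4 ≠ 0 := mul_ne_zero (by simp; omega) hI40
    have hJIt : (J : ℝ≥0∞) * I4 ≠ ⊤ := ENNReal.mul_ne_top hJt hI4t
    refine ⟨δ / (J * I4), ENNReal.div_ne_zero.2 ⟨hδ0, hJIt⟩, ENNReal.div_ne_top hδt hJI,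
      ENNReal.mul_div_le⟩
  obtain ⟨s, hs⟩ := exists_small us hus (J * I4 * (X * lam)⁻¹) δ
    (ENNReal.mul_ne_top (ENNReal.mul_ne_top hJt hI4t)
      (ENNReal.inv_ne_top.2 (mul_ne_zero hX0 hlam0))) hδ0
  obtain ⟨η, hη0, hη⟩ : ∃ η : ℝ≥0∞, η ≠ 0 ∧ J * η ≤ δ :=
    ⟨δ / J, ENNReal.div_ne_zero.2 ⟨hδ0, hJt⟩, ENNReal.mul_div_le⟩
  obtain ⟨A, hwin⟩ := hwin i0 s η hη0
  -- the total per window
  set Wn : ℝ≥0∞ := C * (e i0 + X ^ 2 + (1 - X) ^ J + J * e i0 + I4 * (lam + us s / (X * lam)) + η)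
    with hWn
  have hJWn : (J : ℝ≥0∞) * Wn ≤ C * (6 * δ) := by
    have e1 : (J : ℝ≥0∞) * Wn = C * (J * (1 + J) * e i0 + J * X ^ 2 + J * (1 - X) ^ J
        + J * I4 * lam + J * I4 * (X * lam)⁻¹ * us s + J * η) := by
      rw [hWn, div_eq_mul_inv]
      ring
    rw [e1]
    refine mul_le_mul_right ?_ _
    calc _ ≤ δ + δ + δ + δ + δ + δ :=
          add_le_add (add_le_add (add_le_add (add_le_add (add_le_add hi0 hA) hB) hlam) hs) hη
      _ = 6 * δ := by ring
  -- the scale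
  set K := 2 * J with hK
  refine ⟨K * (2 * (i0 + 2 * s) + 2 * i0 + s + 2 + A), fun m hm n hn w hw => ?_⟩
  set T := m / K with hT
  have hK0 : 0 < K := by omega
  have hT1 : 2 * (i0 + 2 * s) + 2 * i0 + s + 2 + A ≤ T := by
    rw [hT, Nat.le_div_iff_mul_le hK0, mul_comm]
    exact hm
  have hTm : K * T ≤ m := by rw [hT]; exact Nat.mul_div_le m K
  have hTm2 : m < K * T + K := by
    have := Nat.lt_mul_div_succ m hK0
    rw [hT]
    calc m < K * (m / K + 1) := this
      _ = K * (m / K) + K := by ring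
  set B := T - i0 - 2 * s with hB'
  have hBT : T ≤ 2 * B := by omega
  have hcov : m ≤ (4 * K) * B := by
    have h1 : K * T ≤ K * (2 * B) := Nat.mul_le_mul_left K hBT
    have h2 : K ≤ K * (2 * B) := Nat.le_mul_of_pos_right K (by omega)
    nlinarith
  set N := 4 * K * B + 2 * (T + i0) with hN
  have hext : c * c * CW ν u n m (2 * m) w ≤ CW ν u (n + N) m (2 * m) w :=
    (mul_le_mul_left (mul_le_mul' (hU N) (hD N)) _).trans (CW_ext ν u n N m (2 * m) w)
  have hsum : CW ν u (n + N) m (2 * m) w ≤ (4 * K + 1 : ℕ) * Wn := by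
    refine (CW_cover ν u (n + N) m B (4 * K) hcov w).trans ?_
    refine (Finset.sum_le_card_nsmul _ _ Wn ?_).trans ?_
    · intro j hj
      have hj' := Finset.mem_range.1 hj
      have hJ0 : 0 < J := hJ1
      have hsm : i0 + s ≤ m := by
        have : K * T ≥ T := Nat.le_mul_of_pos_left T hK0
        omega
      set a := m + j * B - (i0 + s) with ha
      have e1 : m + j * B = a + i0 + s := by
        have : m ≤ m + j * B := Nat.le_add_right _ _
        omega
      have e2 : m + j * B + B = a + T - s := by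
        have : m ≤ m + j * B := Nat.le_add_right _ _
        omega
      rw [e2, e1]
      refine hwin T a (n + N) J X lam w ?_ hX0 hX1 hlam0 hlamt ?_ ?_ hw
      · have h1 : T ≤ K * T := Nat.le_mul_of_pos_left T hK0
        have : m ≤ m + j * B := Nat.le_add_right _ _
        omega
      · have h1 : J * (T + i0) + (i0 + s) ≤ K * T := by
          have h2 : J * (T + i0) + J * (i0 + s) ≤ K * T := by
            rw [hK, ← Nat.mul_add, show 2 * J * T = J * (2 * T) by ring]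
            exact Nat.mul_le_mul_left J (by omega)
          have h3 : i0 + s ≤ J * (i0 + s) := Nat.le_mul_of_pos_left _ hJ0
          omega
        have : m ≤ m + j * B := Nat.le_add_right _ _
        omega
      · have h1 : j * B ≤ 4 * K * B := Nat.mul_le_mul_right B (by omega)
        omega
    · rw [Finset.card_range, nsmul_eq_mul]
  have hfin : c * c * KW ν u n m w ≤ 9 * (C * (6 * δ)) := by
    calc c * c * KW ν u n m w ≤ c * c * CW ν u n m (2 * m) w :=
          mul_le_mul_right (KW_le_CW ν u n m w) _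
      _ ≤ _ := hext
      _ ≤ (4 * K + 1 : ℕ) * Wn := hsum
      _ ≤ (9 * J : ℕ) * Wn := by
          refine mul_le_mul_left ?_ _
          exact_mod_cast (by omega : 4 * K + 1 ≤ 9 * J)
      _ = 9 * (J * Wn) := by push_cast; ring
      _ ≤ _ := mul_le_mul_right hJWn _
  have hcc : c * c ≠ 0 := mul_ne_zero hc hc
  have hcct : c * c ≠ ⊤ := ENNReal.mul_ne_top hc' hc'
  calc KW ν u n m w = (c * c)⁻¹ * (c * c * KW ν u n m w) := by
        rw [← mul_assoc, ENNReal.inv_mul_cancel hcc hcct, one_mul]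
    _ ≤ (c * c)⁻¹ * (9 * (C * (6 * δ))) := mul_le_mul_right hfin _
    _ = κ * (6 * δ) := by rw [hκ]; ring
    _ ≤ ε := hδε

end Crest.Agent.R154.Cover209
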