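import Crest.Agent.R154.Half_419
import Crest.Agent.R154.B2Frame_719

/-! Row 154, B2 final (helper419, from 719's `Frame.x_bounded`): on `A_ℓ` the walk has an asymptotic
direction; `HalfSpace (annealed Q 0) ℓ` in every frame (S0219, S0220, S0221). -/

set_option autoImplicit false

namespace Crest.Agent.R154.HalfFin

open MeasureTheory ProbabilityTheory Filter Topology Set Crest.ProbabilityR.RandomEnvironment
open Crest.Agent.R154.Half419
open scoped ENNReal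

variable {d : ℕ} {Q : Measure (Environment d)} [IsProbabilityMeasure Q] {κ : ℝ} {R : ℕ}

/-- **asymptotic direction**, every frame -/
theorem direction (F : Bind263.Frame Q κ R) (ℓ : Fin d → ℝ) (hℓ : ℓ ≠ 0)
    (h : annealedProb Q 0 (escapeEvent ℓ) ≠ 0) :
    ∃ v : Fin d → ℝ, 0 < ∑ i, v i * ℓ i ∧
      ∀ᵐ X ∂(annealed Q 0), X ∈ escapeEvent ℓ → Dirc ℓ v X :=
  direction_of F ℓ hℓ h fun i => F.x_bounded ℓ hℓ h (crd i) fun a => Bind263.abs_crd_stp i a

/-- **HalfSpace**, every frame -/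
theorem halfSpace (F : Bind263.Frame Q κ R) (ℓ : Fin d → ℝ) (hℓ : ℓ ≠ 0)
    (h : annealedProb Q 0 (escapeEvent ℓ) ≠ 0) : B2d.HalfSpace (annealed Q 0) ℓ :=
  halfSpace_of F ℓ hℓ h fun i => F.x_bounded ℓ hℓ h (crd i) fun a => Bind263.abs_crd_stp i a

/-- the same with the measure of the event instead of `annealedProb` -/
theorem halfSpace' (F : Bind263.Frame Q κ R) (ℓ : Fin d → ℝ) (hℓ : ℓ ≠ 0)
    (h : annealed Q 0 (escapeEvent ℓ) ≠ 0) : B2d.HalfSpace (annealed Q 0) ℓ :=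
  halfSpace F ℓ hℓ (by rwa [← annealed_apply Q 0 (B2d.measurableSet_escapeEvent ℓ)])

/-- S0219, S0220: iid elliptic environments -/
theorem halfSpace_iid (ν : Measure (Row d)) [IsProbabilityMeasure ν]
    (hν : ∀ᵐ p ∂ν, ∀ e : Step d, 0 < p.1 e) (ℓ : Fin d → ℝ) (hℓ : ℓ ≠ 0)
    (h : annealed (iidEnvironmentLaw ν) 0 (escapeEvent ℓ) ≠ 0) :
    B2d.HalfSpace (annealed (iidEnvironmentLaw ν) 0) ℓ :=
  halfSpace' (Bind263.frame_iid ν hν) ℓ hℓ h

/-- S0221: stationary, uniformly elliptic, finite range -/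
theorem halfSpace_ue
    (hstat : ∀ z : Site d, MeasurePreserving (shiftEnv z) Q Q) (hκ : 0 < κ)
    (hell : ∀ᵐ ω ∂Q, ∀ (x : Site d) (e : Step d), κ ≤ (ω x).1 e)
    (hR : IsFiniteRangeDependent Q R) (ℓ : Fin d → ℝ) (hℓ : ℓ ≠ 0)
    (h : annealed Q 0 (escapeEvent ℓ) ≠ 0) : B2d.HalfSpace (annealed Q 0) ℓ :=
  halfSpace' (Bind263.frame_ue hstat hκ hell hR) ℓ hℓ h

end Crest.Agent.R154.HalfFin
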