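import Crest.Agent.R154.D1A_569
import Crest.Agent.R154.HalfFin_419
import Crest.Agent.R154.Prod_561

/-!
Row 154, block d = 2, (D1) small heights (helper569), part B: bad boxes are rare and independent;
the number of bad boxes.
-/

set_option autoImplicit false

namespace Crest.Agent.R154.D1S

open MeasureTheory ProbabilityTheory Filter Topology Crest.ProbabilityR.RandomEnvironment
open Crest.Agent.R154 Crest.Agent.R154.B2d
open Crest.Agent.R154.Flux132 (lev opp norm1)
open Crest.Agent.R154.Half419 (HH Dirc)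
open scoped ENNReal

variable {d : ℕ}

/-- bad environments for the box with centre `c` -/
def Bd (u : Step d) (v : Fin d → ℝ) (ρ : ℝ) (M s : ℕ) (c : Site d) : Set (Environment d) :=
  {ω | quenchedLaw ω c (Ev u v ρ M s c) < 1 / 2}

theorem measurableSet_bd (u : Step d) (v : Fin d → ℝ) (ρ : ℝ) (M s : ℕ) (c : Site d) :
    MeasurableSet (Bd u v ρ M s c) :=
  measurableSet_lt (measurable_quenched_apply c (measurableSet_ev u v ρ M s c)) measurable_const

lemma tr_ev (u : Step d) (v : Fin d → ℝ) (ρ : ℝ) (M s : ℕ) (c : Site d) :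
    Q561.tr c ⁻¹' Ev u v ρ M s c = Ev u v ρ M s 0 := by
  ext X
  simp only [Ev, Q561.tr, Set.mem_preimage, Set.mem_ofPred_eq, lev_add, lev_zero, zero_add,
    Pi.add_apply, Pi.zero_apply, Int.cast_zero, sub_zero, add_sub_cancel_right, Int.cast_add]
  constructor
  · rintro ⟨h0, n, h1, h2, h3, h4⟩
    refine ⟨by simpa using h0, n, by omega, fun k hk => by have := h2 k hk; omega, h3,
      fun k hk => ⟨(h4 k hk).1, by have := (h4 k hk).2; omega⟩⟩
  · rintro ⟨h0, n, h1, h2, h3, h4⟩
    refine ⟨by rw [h0, zero_add], n, by omega, fun k hk => by have := h2 k hk; omega, h3,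
      fun k hk => ⟨(h4 k hk).1, by have := (h4 k hk).2; omega⟩⟩

lemma bd_shift (u : Step d) (v : Fin d → ℝ) (ρ : ℝ) (M s : ℕ) (c : Site d) :
    Bd u v ρ M s c = shiftEnv c ⁻¹' Bd u v ρ M s 0 := by
  ext ω
  simp only [Bd, Set.mem_preimage, Set.mem_ofPred_eq]
  rw [Q561.quenched_eq_zero_shift ω c (measurableSet_ev u v ρ M s c), tr_ev]

lemma prob_bd {Q : Measure (Environment d)} (hstat : ∀ z : Site d, MeasurePreserving (shiftEnv z) Q Q)
    (u : Step d) (v : Fin d → ℝ) (ρ : ℝ) (M s : ℕ) (c : Site d) :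
    Q (Bd u v ρ M s c) = Q (Bd u v ρ M s 0) := by
  rw [bd_shift]
  exact (hstat c).measure_preimage (measurableSet_bd u v ρ M s 0).nullMeasurableSet

/-- independence of the boxes -/
theorem prob_inter (ν : Measure (Row d)) [IsProbabilityMeasure ν] (u : Step d) (v : Fin d → ℝ)
    (ρ : ℝ) (M s : ℕ) {ι : Type*} (R : Finset ι) (c : ι → Site d)
    (hdisj : (R : Set ι).PairwiseDisjoint fun i => Bx u M s (c i)) {q : ℝ≥0∞}
    (hq : iidEnvironmentLaw ν (Bd u v ρ M s 0) ≤ q) :
    iidEnvironmentLaw ν (⋂ i ∈ R, Bd u v ρ M s (c i)) ≤ q ^ R.card := by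
  classical
  set f : ι → Environment d → ℝ≥0∞ := fun i => (Bd u v ρ M s (c i)).indicator 1 with hf
  have h1 := Q561.iid_lintegral_prod ν R (fun i => Bx u M s (c i)) hdisj f
    (fun i _ => measurable_one.indicator (measurableSet_bd u v ρ M s (c i)))
    (fun i _ => by
      intro ω ω' h
      have h2 : quenchedLaw ω (c i) (Ev u v ρ M s (c i)) = quenchedLaw ω' (c i) (Ev u v ρ M s (c i)) :=
        Q561.locOn_quenched (c i) (measurableSet_ev u v ρ M s (c i)) (dec_ev u v ρ M s (c i)) ω ω' h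
      have h3 : ω ∈ Bd u v ρ M s (c i) ↔ ω' ∈ Bd u v ρ M s (c i) := by
        simp only [Bd, Set.mem_ofPred_eq, h2]
      simp only [hf, Set.indicator, h3, Pi.one_apply])
  have h4 : ∀ i, ∫⁻ ω, f i ω ∂(iidEnvironmentLaw ν) ≤ q := fun i => by
    rw [hf]
    simp only
    rw [lintegral_indicator_one (measurableSet_bd u v ρ M s (c i)), prob_bd (Q561.iid_shift ν)]
    exact hq
  have h5 : ∫⁻ ω, ∏ i ∈ R, f i ω ∂(iidEnvironmentLaw ν)
      = iidEnvironmentLaw ν (⋂ i ∈ R, Bd u v ρ M s (c i)) := by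
    rw [← lintegral_indicator_one (Finset.measurableSet_biInter R fun i _ =>
      measurableSet_bd u v ρ M s (c i))]
    refine lintegral_congr fun ω => ?_
    by_cases h : ∀ i ∈ R, ω ∈ Bd u v ρ M s (c i)
    · rw [Set.indicator_of_mem (by simpa using h), Finset.prod_eq_one]
      · rfl
      · intro i hi
        simp only [hf, Set.indicator_of_mem (h i hi), Pi.one_apply]
    · rw [Set.indicator_of_notMem (by simpa using h)]
      push Not at h
      obtain ⟨i, hi, hi2⟩ := h
      exact Finset.prod_eq_zero hi (by simp only [hf, Set.indicator_of_notMem hi2])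
  rw [← h5, h1]
  calc ∏ i ∈ R, ∫⁻ ω, f i ω ∂(iidEnvironmentLaw ν) ≤ ∏ _i ∈ R, q :=
        Finset.prod_le_prod' fun i _ => h4 i
    _ = q ^ R.card := by rw [Finset.prod_const]

open Classical in
/-- **all `J` tubes contain at least `2 m` bad boxes** -/
theorem prob_tubes (ν : Measure (Row d)) [IsProbabilityMeasure ν] (u : Step d) (v : Fin d → ℝ)
    (ρ : ℝ) (M s : ℕ) (c : ℕ → ℕ → Site d)
    (hdisj : ∀ j k j' k', (j ≠ j' ∨ k + 2 ≤ k' ∨ k' + 2 ≤ k) →
      Disjoint (Bx u M s (c j k)) (Bx u M s (c j' k'))) {q : ℝ≥0∞}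
    (hq : iidEnvironmentLaw ν (Bd u v ρ M s 0) ≤ q) (J K m : ℕ) :
    iidEnvironmentLaw ν {ω | ∀ j < J, 2 * m ≤
      ((Finset.range K).filter fun k => ω ∈ Bd u v ρ M s (c j k)).card}
      ≤ 2 * (2 ^ (J * K) * q ^ (J * m)) := by
  set I : Finset (ℕ × ℕ) := Finset.range J ×ˢ Finset.range K with hI
  set P : ℕ → Finset (ℕ × ℕ) := fun ε => I.filter fun p => p.2 % 2 = ε with hP
  have hsub : {ω | ∀ j < J, 2 * m ≤
      ((Finset.range K).filter fun k => ω ∈ Bd u v ρ M s (c j k)).card}
      ⊆ ⋃ ε ∈ Finset.range 2, ⋃ R ∈ (P ε).powersetCard (J * m),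
        ⋂ p ∈ R, Bd u v ρ M s (c p.1 p.2) := by
    intro ω hω
    simp only [Set.mem_ofPred_eq] at hω
    set T : Finset (ℕ × ℕ) := I.filter fun p => ω ∈ Bd u v ρ M s (c p.1 p.2) with hT
    have hcard : J * (2 * m) ≤ T.card := by
      have h1 : T.card = ∑ j ∈ Finset.range J,
          ((Finset.range K).filter fun k => ω ∈ Bd u v ρ M s (c j k)).card := by
        rw [hT, hI, Finset.card_filter, Finset.sum_product]
        exact Finset.sum_congr rfl fun j _ => by rw [Finset.card_filter]
      rw [h1]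
      calc J * (2 * m) = ∑ _j ∈ Finset.range J, 2 * m := by simp
        _ ≤ _ := Finset.sum_le_sum fun j hj => hω j (Finset.mem_range.1 hj)
    have hsplit : (T.filter fun p => p.2 % 2 = 0).card + (T.filter fun p => p.2 % 2 = 1).card
        = T.card := by
      have h2 := Finset.card_filter_add_card_filter_not (s := T) (fun p : ℕ × ℕ => p.2 % 2 = 0)
      rw [← h2]
      congr 2
      ext p
      simp only [Finset.mem_filter]
      exact and_congr Iff.rfl (by omega)
    obtain ⟨ε, hε, hε2⟩ : ∃ ε ∈ Finset.range 2, J * m ≤ (T.filter fun p => p.2 % 2 = ε).card := by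
      by_contra hcon
      push Not at hcon
      have h3 := hcon 0 (by simp)
      have h4 := hcon 1 (by simp)
      have h5 : J * (2 * m) = J * m + J * m := by ring
      omega
    obtain ⟨R, hR1, hR2⟩ := Finset.exists_subset_card_eq hε2
    simp only [Set.mem_iUnion]
    refine ⟨ε, hε, R, ?_, ?_⟩
    · rw [Finset.mem_powersetCard]
      refine ⟨fun p hp => ?_, hR2⟩
      have := hR1 hp
      simp only [hT, hP, Finset.mem_filter] at this ⊢
      exact ⟨this.1.1, this.2⟩
    · simp only [Set.mem_iInter]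
      intro p hp
      have := hR1 hp
      simp only [hT, Finset.mem_filter] at this
      exact this.1.2
  refine (measure_mono hsub).trans ((measure_biUnion_finset_le _ _).trans ?_)
  have hone : ∀ ε, iidEnvironmentLaw ν (⋃ R ∈ (P ε).powersetCard (J * m),
        ⋂ p ∈ R, Bd u v ρ M s (c p.1 p.2)) ≤ 2 ^ (J * K) * q ^ (J * m) := by
    intro ε
    refine (measure_biUnion_finset_le _ _).trans ?_
    have h1 : ∀ R ∈ (P ε).powersetCard (J * m), iidEnvironmentLaw ν
        (⋂ p ∈ R, Bd u v ρ M s (c p.1 p.2)) ≤ q ^ (J * m) := by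
      intro R hR
      rw [Finset.mem_powersetCard] at hR
      rw [← hR.2]
      refine prob_inter ν u v ρ M s R (fun p => c p.1 p.2) ?_ hq
      intro p hp p' hp' hne
      refine hdisj _ _ _ _ ?_
      have e1 := hR.1 (Finset.mem_coe.1 hp)
      have e2 := hR.1 (Finset.mem_coe.1 hp')
      simp only [hP, Finset.mem_filter] at e1 e2
      by_cases h1 : p.1 = p'.1
      · right
        have h2 : p.2 ≠ p'.2 := fun h2 => hne (Prod.ext h1 h2)
        omega
      · exact Or.inl h1
    calc ∑ R ∈ (P ε).powersetCard (J * m), iidEnvironmentLaw ν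
          (⋂ p ∈ R, Bd u v ρ M s (c p.1 p.2))
        ≤ ∑ _R ∈ (P ε).powersetCard (J * m), q ^ (J * m) := Finset.sum_le_sum h1
      _ = ((P ε).powersetCard (J * m)).card * q ^ (J * m) := by
          rw [Finset.sum_const, nsmul_eq_mul]
      _ ≤ 2 ^ (J * K) * q ^ (J * m) := by
          refine mul_le_mul' ?_ le_rfl
          have h2 : ((P ε).powersetCard (J * m)).card ≤ 2 ^ (J * K) := by
            calc ((P ε).powersetCard (J * m)).card ≤ ((P ε).powerset).card :=
                  Finset.card_le_card fun R hR => Finset.mem_powerset.2 (Finset.mem_powersetCard.1 hR).1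
              _ = 2 ^ (P ε).card := Finset.card_powerset _
              _ ≤ 2 ^ (J * K) := by
                  refine Nat.pow_le_pow_right (by norm_num) ?_
                  refine (Finset.card_filter_le _ _).trans ?_
                  rw [hI, Finset.card_product, Finset.card_range, Finset.card_range]
          exact_mod_cast h2
  calc ∑ ε ∈ Finset.range 2, iidEnvironmentLaw ν (⋃ R ∈ (P ε).powersetCard (J * m),
        ⋂ p ∈ R, Bd u v ρ M s (c p.1 p.2))
      ≤ ∑ _ε ∈ Finset.range 2, 2 ^ (J * K) * q ^ (J * m) := Finset.sum_le_sum fun ε _ => hone ε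
    _ = 2 * (2 ^ (J * K) * q ^ (J * m)) := by
        rw [Finset.sum_const, Finset.card_range, nsmul_eq_mul]; norm_num

/-! ### good boxes have probability close to one -/

lemma HH_dirVec (u : Step d) (z : Site d) : HH (dirVec u) z = (lev u z : ℝ) := by
  unfold HH lev
  simp only [dirVec_apply]
  rw [Finset.sum_eq_single u.1]
  · by_cases hu : u.2 = true
    · simp [hu]
    · simp [hu]
  · intro i _ hi
    simp [hi]
  · simp

lemma lev_stepVec_le (u e : Step d) : lev u (stepVec e) ≤ 1 := by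
  have h1 : |lev u (stepVec e)| ≤ 1 := by
    rw [abs_lev]
    unfold stepVec
    by_cases h : u.1 = e.1
    · rw [h, Pi.single_eq_same]
      split_ifs <;> simp
    · rw [Pi.single_eq_of_ne h]; simp
  exact (abs_le.1 h1).2

/-- pathwise: a path with an asymptotic direction is eventually good -/
theorem eventually_ev (u : Step d) {v : Fin d → ℝ} {X : ℕ → Site d} (h0 : X 0 = 0)
    (hnn : ∀ n, ∃ e : Step d, X (n + 1) = X n + stepVec e) (hdir : Dirc (dirVec u) v X) {η : ℝ}
    (hη : 0 < η) (hη1 : η ≤ 1) {M : ℕ} (hM : ∀ i, |v i| + 1 ≤ M) :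
    ∀ᶠ s : ℕ in atTop, X ∈ Ev u v (η * s) M s 0 := by
  classical
  obtain ⟨hd1, hd2⟩ := hdir
  have hH : ∀ n, HH (dirVec u) (X n) = (lev u (X n) : ℝ) := fun n => HH_dirVec u (X n)
  simp only [hH] at hd1 hd2
  have hev : ∀ᶠ n in atTop, 0 < (lev u (X n) : ℝ) ∧ ∀ i, |(X n i : ℝ) / lev u (X n) - v i| ≤ η := by
    refine (hd1.eventually_gt_atTop 0).and (eventually_all.2 fun i => ?_)
    have := (hd2 i).eventually (Metric.ball_mem_nhds (v i) hη)
    filter_upwards [this] with n hn
    have hn' : dist ((X n i : ℝ) / lev u (X n)) (v i) < η := hn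
    rw [Real.dist_eq] at hn'
    exact hn'.le
  obtain ⟨n0, hn0⟩ := eventually_atTop.1 hev
  have hgood : ∀ n, n0 ≤ n → ∀ i, |(X n i : ℝ) - lev u (X n) * v i| ≤ η * lev u (X n) := by
    intro n hn i
    obtain ⟨h1, h2⟩ := hn0 n hn
    have h3 := h2 i
    have h4 : (X n i : ℝ) - lev u (X n) * v i = ((X n i : ℝ) / lev u (X n) - v i) * lev u (X n) := by
      field_simp
    rw [h4, abs_mul, abs_of_pos h1]
    exact mul_le_mul_of_nonneg_right h3 h1.le
  set C0 : ℕ := ∑ k ∈ Finset.range (n0 + 1), ∑ i, (X k i).natAbs with hC0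
  have hC : ∀ k ≤ n0, ∀ i, |X k i| ≤ C0 := by
    intro k hk i
    have h1 : (X k i).natAbs ≤ C0 := by
      calc (X k i).natAbs ≤ ∑ i, (X k i).natAbs :=
            Finset.single_le_sum (f := fun i => (X k i).natAbs) (fun _ _ => Nat.zero_le _)
              (Finset.mem_univ i)
        _ ≤ C0 := Finset.single_le_sum (f := fun k => ∑ i, (X k i).natAbs)
              (fun _ _ => Nat.zero_le _) (Finset.mem_range.2 (by omega))
    rw [Int.abs_eq_natAbs]
    exact_mod_cast h1
  have hCl : ∀ k ≤ n0, |lev u (X k)| ≤ C0 := fun k hk => by rw [abs_lev]; exact hC k hk _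
  filter_upwards [eventually_gt_atTop C0] with s hs
  have hex : ∃ n, (s : ℤ) ≤ lev u (X n) := by
    obtain ⟨n, hn⟩ := (hd1.eventually_ge_atTop (s : ℝ)).exists
    exact ⟨n, by exact_mod_cast hn⟩
  set n := Nat.find hex with hndef
  have hn1 : (s : ℤ) ≤ lev u (X n) := Nat.find_spec hex
  have hn2 : ∀ k < n, lev u (X k) < s := fun k hk => not_le.1 (Nat.find_min hex hk)
  have hnn0 : n0 < n := by
    by_contra hcon
    push Not at hcon
    have := (abs_le.1 (hCl n hcon)).2
    omega
  have hn3 : lev u (X n) = s := by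
    refine le_antisymm ?_ hn1
    obtain ⟨e, he⟩ := hnn (n - 1)
    have h1 : n - 1 + 1 = n := by omega
    rw [h1] at he
    have h2 := hn2 (n - 1) (by omega)
    rw [he, lev_add]
    have := lev_stepVec_le u e
    omega
  have hsr : (1 : ℝ) ≤ s := by
    have : 1 ≤ s := by omega
    exact_mod_cast this
  refine ⟨h0, n, by rw [lev_zero, zero_add]; exact hn3, fun k hk => by
    rw [lev_zero, zero_add]; exact hn2 k hk, fun i => ?_, fun k hk => ⟨fun i => ?_, ?_⟩⟩
  · have := hgood n hnn0.le i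
    rw [hn3] at this
    simpa using this
  · simp only [Pi.zero_apply, sub_zero]
    rcases Nat.lt_or_ge n0 k with h | h
    · have h1 := hgood k h.le i
      have h2 := (hn0 k h.le).1
      have h3 : (lev u (X k) : ℝ) ≤ s := by exact_mod_cast (hn2 k hk).le
      have h4 : |(X k i : ℝ)| ≤ M * s := by
        have h5 : |(X k i : ℝ)| ≤ |(X k i : ℝ) - lev u (X k) * v i| + |lev u (X k) * v i| := by
          have := abs_add_le ((X k i : ℝ) - lev u (X k) * v i) (lev u (X k) * v i)
          simpa using this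
        have h6 : |(lev u (X k) : ℝ) * v i| = lev u (X k) * |v i| := by
          rw [abs_mul, abs_of_pos h2]
        have h7 := hM i
        have h8 := abs_nonneg (v i)
        nlinarith
      exact_mod_cast h4
    · refine (hC k h i).trans ?_
      have hM1 : (1 : ℝ) ≤ M := by
        have := hM i
        have := abs_nonneg (v i)
        linarith
      have hM2 : 1 ≤ M := by exact_mod_cast hM1
      have : C0 ≤ M * s := by nlinarith
      exact_mod_cast this
  · rw [lev_zero]
    rcases Nat.lt_or_ge n0 k with h | h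
    · have h2 := (hn0 k h.le).1
      have h3 : 0 < lev u (X k) := by exact_mod_cast h2
      omega
    · have := (abs_le.1 (hCl k h)).1
      omega

/-- **bad boxes are rare** -/
theorem tendsto_bd {Q : Measure (Environment d)} [IsProbabilityMeasure Q] (u : Step d)
    {v : Fin d → ℝ} (hdir : ∀ᵐ X ∂(annealed Q 0), Dirc (dirVec u) v X) {η : ℝ}
    (hη : 0 < η) (hη1 : η ≤ 1) {M : ℕ} (hM : ∀ i, |v i| + 1 ≤ M) :
    Tendsto (fun s : ℕ => Q (Bd u v (η * s) M s 0)) atTop (𝓝 0) := by
  have hnn : ∀ᵐ X ∂(annealed Q 0), X 0 = 0 ∧ ∀ n, ∃ e : Step d, X (n + 1) = X n + stepVec e := by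
    refine annealed_ae (A := {X : Path d | X 0 = 0 ∧ ∀ n, ∃ e : Step d, X (n + 1) = X n + stepVec e})
      ?_ (Eventually.of_forall fun ω => ?_)
    · have : {X : Path d | X 0 = 0 ∧ ∀ n, ∃ e : Step d, X (n + 1) = X n + stepVec e}
          = {X | X 0 = 0} ∩ ⋂ n, ⋃ e : Step d, {X | X (n + 1) = X n + stepVec e} := by
        ext X
        simp only [Set.mem_ofPred_eq, Set.mem_inter_iff, Set.mem_iInter, Set.mem_iUnion]
      rw [this]
      refine (measurableSet_of_agree 0 _ fun X Y h => by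
        simp only [Set.mem_ofPred_eq, h 0 le_rfl]).inter
        (MeasurableSet.iInter fun n => MeasurableSet.iUnion fun e =>
          measurableSet_of_agree (n + 1) _ fun X Y h => by
            simp only [Set.mem_ofPred_eq, h (n + 1) le_rfl, h n (Nat.le_succ n)])
    · filter_upwards [quenched_zero_eq ω 0, quenched_nn ω 0] with X h1 h2
      exact ⟨h1, h2⟩
  have hlim : Tendsto (fun s : ℕ => annealed Q 0 (Ev u v (η * s) M s 0)) atTop
      (𝓝 (annealed Q 0 Set.univ)) := by
    refine tendsto_measure_of_ae_tendsto_indicator_of_isFiniteMeasure atTop MeasurableSet.univ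
      (fun s => measurableSet_ev u v (η * s) M s 0) ?_
    filter_upwards [hdir, hnn] with X h1 h2
    filter_upwards [eventually_ev u h2.1 h2.2 h1 hη hη1 hM] with s hs
    simp only [hs, Set.mem_univ]
  rw [measure_univ] at hlim
  have hcompl : Tendsto (fun s : ℕ => 2 * annealed Q 0 (Ev u v (η * s) M s 0)ᶜ) atTop (𝓝 0) := by
    have h1 : ∀ s : ℕ, annealed Q 0 (Ev u v (η * s) M s 0)ᶜ
        = 1 - annealed Q 0 (Ev u v (η * s) M s 0) := fun s => by
      rw [measure_compl (measurableSet_ev u v (η * s) M s 0) (measure_ne_top _ _), measure_univ]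
    simp only [h1]
    have h2 := ENNReal.Tendsto.sub (tendsto_const_nhds (x := (1 : ℝ≥0∞)) (f := (atTop : Filter ℕ)))
      hlim (Or.inl ENNReal.one_ne_top)
    have h3 := ENNReal.Tendsto.const_mul (a := 2) h2 (Or.inr (by norm_num))
    simpa using h3
  refine tendsto_of_tendsto_of_tendsto_of_le_of_le tendsto_const_nhds hcompl
    (fun _ => zero_le) fun s => ?_
  -- Markov inequality
  have hm := measurableSet_ev u v (η * s) M s (0 : Site d)
  have h1 : Bd u v (η * s) M s 0 ⊆ {ω | (1 / 2 : ℝ≥0∞) ≤ quenchedLaw ω 0 (Ev u v (η * s) M s 0)ᶜ} := by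
    intro ω hω
    simp only [Bd, Set.mem_ofPred_eq] at hω ⊢
    rw [measure_compl hm (measure_ne_top _ _), measure_univ]
    refine ENNReal.le_sub_of_add_le_right (measure_ne_top _ _) ?_
    calc (1 / 2 : ℝ≥0∞) + quenchedLaw ω 0 (Ev u v (η * s) M s 0) ≤ 1 / 2 + 1 / 2 :=
          add_le_add le_rfl hω.le
      _ = 1 := by rw [one_div]; exact ENNReal.inv_two_add_inv_two
  have h2 := mul_meas_ge_le_lintegral (μ := Q)
    (measurable_quenched_apply (0 : Site d) hm.compl) (1 / 2 : ℝ≥0∞)
  have h3 : ∫⁻ ω, quenchedLaw ω 0 (Ev u v (η * s) M s 0)ᶜ ∂Q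
      = annealed Q 0 (Ev u v (η * s) M s 0)ᶜ := by
    rw [annealed_apply Q 0 hm.compl]; rfl
  rw [h3] at h2
  have h4 : (1 / 2 : ℝ≥0∞) * Q (Bd u v (η * s) M s 0)
      ≤ annealed Q 0 (Ev u v (η * s) M s 0)ᶜ :=
    (mul_le_mul' le_rfl (measure_mono h1)).trans h2
  calc Q (Bd u v (η * s) M s 0) = 2 * ((1 / 2 : ℝ≥0∞) * Q (Bd u v (η * s) M s 0)) := by
        rw [← mul_assoc, one_div, ENNReal.mul_inv_cancel (by norm_num) (by norm_num), one_mul]
    _ ≤ _ := mul_le_mul' le_rfl h4

end Crest.Agent.R154.D1S
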