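import Crest.Agent.R154.RHbind_872

/-! Row 154, B8, step (R) without any contact / energy input: windows of ratio `R` lose only
`ε log R` by (W) and by the convergence of the annealed natural climb probabilities `h n` alone.

In `[H, 10 H]` the exit laws of `T` levels are tried; one of them climbs the next `n` levels with
quenched mass `≥ p/2` (conditional probability `≥ p/2` each), and the mass which climbs `n` levels
but not to `10^k H` has mean `h n - h (..) → 0`. -/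

set_option autoImplicit false
set_option linter.unusedSectionVars false
set_option linter.deprecated false

namespace Crest.Agent.R154.RatioS775

open MeasureTheory ProbabilityTheory Set Filter Finset
open Crest.Agent.R154.RatioR872 Crest.Agent.R154.RatioR872.KerSys
open scoped ENNReal

variable {S : Type*} [Countable S] {Ω : Type*} {m0 : MeasurableSpace Ω} {P : Measure Ω}

/-- monotonicity of the masses in the height -/
lemma tot_push_anti (A : KerSys S P) {a b c : ℕ} (hab : a ≤ b) (hbc : b ≤ c)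
    (w : Ω → S → ℝ≥0∞) (ω : Ω) : tot (A.push a c w) ω ≤ tot (A.push a b w) ω := by
  rw [tot_push, tot_push]
  refine ENNReal.tsum_le_tsum fun x => ?_
  gcongr
  exact A.anti a b c ω x hab hbc

/-- first moment bound for the mass which reaches level `b` but not level `c` -/
lemma bad_first [IsProbabilityMeasure P] (A : KerSys S P) {a b c : ℕ} (hab : a ≤ b) (hbc : b ≤ c)
    {w : Ω → S → ℝ≥0∞} (hw : A.Wt a w) (hw1 : ∀ ω, tot w ω ≤ 1)
    (hh : ∀ n, A.h n ≤ 1) {p ε : ℝ≥0∞} (hp0 : p ≠ 0) (hpt : p ≠ ∞)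
    (hε : A.h (b - a) ≤ A.h (c - a) + ε)
    {B : Set Ω} (hB : MeasurableSet[A.F a] B) :
    P (B ∩ {ω | p / 2 ≤ tot (A.push a b w) ω ∧ tot (A.push a c w) ω < p / 4})
      ≤ 4 * ε / p * P B := by
  have hac : a ≤ c := hab.trans hbc
  have hB0 : MeasurableSet B := A.F.le a _ hB
  have hφ : Measurable[A.F a] (B.indicator (1 : Ω → ℝ≥0∞)) :=
    (@measurable_one _ _ _ (A.F a) _).indicator hB
  have e1 := first_moment hab hw hφ
  have e2 := first_moment hac hw hφ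
  set s : Ω → ℝ≥0∞ := tot (A.push a b w) with hs
  set t : Ω → ℝ≥0∞ := tot (A.push a c w) with ht
  have hsm : Measurable s := ((hw.push hab).meas_tot).mono (A.F.le b) le_rfl
  have htm : Measurable t := ((hw.push hac).meas_tot).mono (A.F.le c) le_rfl
  have hts : ∀ ω, t ω ≤ s ω := fun ω => tot_push_anti A hab hbc w ω
  have hs1 : ∀ ω, s ω ≤ 1 := fun ω => (A.tot_push_le hab w ω).trans (hw1 ω)
  set E : Set Ω := {ω | p / 2 ≤ s ω ∧ t ω < p / 4} with hE
  have hEm : MeasurableSet E :=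
    (measurableSet_le measurable_const hsm).inter (measurableSet_lt htm measurable_const)
  have hone : Measurable (B.indicator (1 : Ω → ℝ≥0∞)) := measurable_one.indicator hB0
  have hmul : Measurable fun ω => B.indicator (1 : Ω → ℝ≥0∞) ω * t ω := hone.mul htm
  -- total weight
  set W : ℝ≥0∞ := ∫⁻ ω, B.indicator 1 ω * tot w ω ∂P with hW
  have hWB : W ≤ P B := by
    rw [hW, ← lintegral_indicator_one hB0]
    refine lintegral_mono fun ω => ?_
    calc B.indicator 1 ω * tot w ω ≤ B.indicator 1 ω * 1 := by gcongr; exact hw1 ω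
      _ = _ := mul_one _
  have hWt : W ≠ ∞ := ne_top_of_le_ne_top (measure_ne_top _ _) hWB
  have hfin : ∫⁻ ω, B.indicator 1 ω * t ω ∂P ≠ ∞ := by
    rw [e2]
    exact ENNReal.mul_ne_top (ne_top_of_le_ne_top ENNReal.one_ne_top (hh _)) hWt
  have key : ∫⁻ ω, B.indicator 1 ω * t ω ∂P + p / 4 * P (B ∩ E)
      ≤ ∫⁻ ω, B.indicator 1 ω * t ω ∂P + ε * P B := by
    calc ∫⁻ ω, B.indicator 1 ω * t ω ∂P + p / 4 * P (B ∩ E)
        = ∫⁻ ω, (B.indicator 1 ω * t ω + p / 4 * (B ∩ E).indicator 1 ω) ∂P := by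
          rw [lintegral_add_left hmul,
            lintegral_const_mul _ (measurable_one.indicator (hB0.inter hEm)),
            lintegral_indicator_one (hB0.inter hEm)]
      _ ≤ ∫⁻ ω, B.indicator 1 ω * s ω ∂P := by
          refine lintegral_mono fun ω => ?_
          by_cases h1 : ω ∈ B
          · rw [indicator_of_mem h1]
            by_cases h2 : ω ∈ E
            · have h3 : ω ∈ B ∩ E := ⟨h1, h2⟩
              rw [indicator_of_mem h3]
              simp only [Pi.one_apply, one_mul, mul_one]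
              have h4 : t ω ≤ p / 4 := h2.2.le
              calc t ω + p / 4 ≤ p / 4 + p / 4 := by gcongr
                _ = p / 2 := by
                  lift p to NNReal using hpt
                  have h4' : (4 : ℝ≥0∞) = ((4 : NNReal) : ℝ≥0∞) := by norm_cast
                  have h2' : (2 : ℝ≥0∞) = ((2 : NNReal) : ℝ≥0∞) := by norm_cast
                  rw [h4', h2', ← ENNReal.coe_div (by norm_num), ← ENNReal.coe_div (by norm_num),
                    ← ENNReal.coe_add]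
                  congr 1
                  rw [← NNReal.coe_inj]
                  push_cast
                  ring
                _ ≤ s ω := h2.1
            · have h3 : ω ∉ B ∩ E := fun h => h2 h.2
              rw [indicator_of_notMem h3]
              simp only [Pi.one_apply, one_mul, mul_zero, add_zero]
              exact hts ω
          · rw [indicator_of_notMem h1, indicator_of_notMem (fun h => h1 h.1)]
            simp
      _ = A.h (b - a) * W := e1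
      _ ≤ (A.h (c - a) + ε) * W := by gcongr
      _ = A.h (c - a) * W + ε * W := by ring
      _ ≤ ∫⁻ ω, B.indicator 1 ω * t ω ∂P + ε * P B := by
          rw [e2]
          gcongr
  have l1 : p / 4 * P (B ∩ E) ≤ ε * P B := (ENNReal.add_le_add_iff_left hfin).1 key
  calc P (B ∩ E) = p⁻¹ * (p * P (B ∩ E)) := by
        rw [← mul_assoc, ENNReal.inv_mul_cancel hp0 hpt, one_mul]
    _ = p⁻¹ * (4 * (p / 4 * P (B ∩ E))) := by
        congr 1
        rw [← mul_assoc, ENNReal.mul_div_cancel (by norm_num) (by norm_num)]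
    _ ≤ p⁻¹ * (4 * (ε * P B)) := by gcongr
    _ = 4 * ε / p * P B := by
        rw [ENNReal.div_eq_inv_mul]; ring

/-- the composition inequality for the masses, one step -/
lemma Sh_ge1 (A : KerSys S P) {μ : S → ℝ≥0∞} (hμ : A.Start μ) {a c : ℕ} (hac : a ≤ c) :
    ∀ᵐ ω ∂P, A.Sh μ a ω * tot (A.push a c (A.exitW μ a)) ω ≤ A.Sh μ c ω := by
  filter_upwards [A.comp 0 a c (Nat.zero_le _) hac] with ω h1
  have e1 : ∀ y, A.Sh μ a ω * A.push a c (A.exitW μ a) ω y ≤ A.push 0 c (fun _ => μ) ω y := by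
    intro y
    calc A.Sh μ a ω * A.push a c (A.exitW μ a) ω y
        = ∑' x, A.push 0 a (fun _ => μ) ω x * A.G a c ω x y := by
          unfold KerSys.push
          rw [← ENNReal.tsum_mul_left]
          refine tsum_congr fun x => ?_
          rw [← mul_assoc, mul_exitW hμ]
          rfl
      _ = ∑' x, ∑' x0, μ x0 * (A.G 0 a ω x0 x * A.G a c ω x y) := by
          refine tsum_congr fun x => ?_
          unfold KerSys.push
          rw [← ENNReal.tsum_mul_right]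
          exact tsum_congr fun x0 => by ring
      _ = ∑' x0, μ x0 * ∑' x, (A.G 0 a ω x0 x * A.G a c ω x y) := by
          rw [ENNReal.tsum_comm]
          exact tsum_congr fun x0 => ENNReal.tsum_mul_left
      _ ≤ ∑' x0, μ x0 * A.G 0 c ω x0 y := by
          refine ENNReal.tsum_le_tsum fun x0 => ?_
          gcongr
          exact h1 x0 y
      _ = _ := rfl
  calc A.Sh μ a ω * tot (A.push a c (A.exitW μ a)) ω
      = ∑' y, A.Sh μ a ω * A.push a c (A.exitW μ a) ω y := by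
        unfold tot
        rw [← ENNReal.tsum_mul_left]
    _ ≤ ∑' y, A.push 0 c (fun _ => μ) ω y := ENNReal.tsum_le_tsum e1
    _ = A.Sh μ c ω := rfl

/-- **the probabilistic core without energy**: in `[H,10H]` some exit law continues with mass
`≥ p/4` to `10^k H`. -/
lemma coreS [IsProbabilityMeasure P] (A : KerSys S P) {p : ℝ≥0∞} (hp0 : p ≠ 0)
    (hp : ∀ n, p ≤ A.h n) (hh : ∀ n, A.h n ≤ 1)
    (hpos : ∀ μ, A.Start μ → ∀ h, ∀ᵐ ω ∂P, A.Sh μ h ω ≠ 0)
    {ε : ℝ≥0∞} {T n1 : ℕ} (hT : 0 < T)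
    (hconv : ∀ n, n1 ≤ n → ∀ m, n1 ≤ m → A.h n ≤ A.h m + ε)
    {H k : ℕ} (hk : 1 ≤ k) (hH : T * (n1 + 1) ≤ H)
    {μ : S → ℝ≥0∞} (hμ : A.Start μ) {B : Set Ω} (hB : MeasurableSet[A.F H] B) :
    P (B ∩ {ω | A.Sh μ (10 ^ k * H) ω < p / 4 * A.Sh μ (10 * H) ω})
      ≤ ((1 - p / 2) ^ T + T * (4 * ε / p)) * P B := by
  have hpt : p ≠ ∞ := ne_top_of_le_ne_top ENNReal.one_ne_top ((hp 0).trans (hh 0))
  set n : ℕ := H / T with hn
  have hnT : n * T ≤ H := Nat.div_mul_le_self H T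
  have hn0 : n1 + 1 ≤ n := (Nat.le_div_iff_mul_le hT).2 (by rw [mul_comm]; exact hH)
  set lv : ℕ → ℕ := fun j => H + j * n with hlv
  have hlvm : Monotone lv := fun i j hij => by
    simp only [hlv]
    exact Nat.add_le_add_left (Nat.mul_le_mul_right _ hij) _
  have hlv0 : lv 0 = H := by simp [hlv]
  have hlvs : ∀ j, lv (j + 1) = lv j + n := fun j => by simp only [hlv]; ring
  have hlvT : ∀ j, j ≤ T → lv j ≤ 10 * H := by
    intro j hj
    simp only [hlv]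
    have : j * n ≤ T * n := Nat.mul_le_mul_right _ hj
    nlinarith
  set c : ℕ := 10 ^ k * H with hc
  have h10 : 10 * H ≤ c := by
    rw [hc]
    refine Nat.mul_le_mul_right _ ?_
    calc 10 = 10 ^ 1 := (pow_one _).symm
      _ ≤ 10 ^ k := Nat.pow_le_pow_right (by norm_num) hk
  set w : ℕ → Ω → S → ℝ≥0∞ := fun j => A.exitW μ (lv j) with hw
  set E : ℕ → Set Ω := fun j => {ω | p / 2 ≤ tot (A.push (lv j) (lv (j + 1)) (w j)) ω} with hE
  set Bd : ℕ → Set Ω := fun j => {ω | p / 2 ≤ tot (A.push (lv j) (lv (j + 1)) (w j)) ω ∧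
    tot (A.push (lv j) c (w j)) ω < p / 4} with hBd
  have hw1 : ∀ j, ∀ᵐ ω ∂P, tot (w j) ω = 1 := by
    intro j
    filter_upwards [hpos μ hμ (lv j)] with ω hω
    exact tot_exitW_eq hμ _ ω hω
  have hwW : ∀ j, A.Wt (lv j) (w j) := fun j => wt_exitW hμ _
  have hwl : ∀ j ω, tot (w j) ω ≤ 1 := fun j ω => tot_exitW_le μ _ ω
  have hEm : ∀ j, MeasurableSet[A.F (lv (j + 1))] (E j) := by
    intro j
    have hm := ((hwW j).push (hlvm (Nat.le_succ j))).meas_tot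
    exact @measurableSet_le _ _ _ _ _ (A.F (lv (j + 1))) _ _ _ _ _
      (@measurable_const _ _ _ (A.F (lv (j + 1))) _) hm
  have h1 := (all_fail (P := P) A.F lv hlvm E hEm (q := p / 2) T (fun j _ B hB =>
    good_prob (hlvm (Nat.le_succ j)) (hwW j) (hw1 j) (hp _) (hwl j) hB)
    (B := B) (by rw [hlv0]; exact hB) T le_rfl).2
  have h2 : ∀ j, j < T → P (B ∩ Bd j) ≤ 4 * ε / p * P B := by
    intro j hj
    have hjc : lv (j + 1) ≤ c := (hlvT (j + 1) hj).trans h10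
    refine bad_first A (hlvm (Nat.le_succ j)) hjc (hwW j) (hwl j) hh hp0 hpt
      (hconv _ ?_ _ ?_) (A.F.mono (by simp [hlv]) _ hB)
    · rw [hlvs]; omega
    · have := hlvs j; omega
  have hsub : (B ∩ {ω | A.Sh μ c ω < p / 4 * A.Sh μ (10 * H) ω} : Set Ω)
      ≤ᵐ[P] ((B ∩ ⋂ l ∈ Finset.range T, (E l)ᶜ) ∪ ⋃ j ∈ Finset.range T, (B ∩ Bd j) : Set Ω) := by
    have hall : ∀ᵐ ω ∂P, ∀ j ∈ Finset.range T, A.Sh μ (lv j) ω *
        tot (A.push (lv j) c (A.exitW μ (lv j))) ω ≤ A.Sh μ c ω := by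
      rw [Finset.eventually_all]
      intro j hj
      exact Sh_ge1 A hμ ((hlvT j (Finset.mem_range.1 hj).le).trans h10)
    filter_upwards [hall] with ω hω
    rintro ⟨hωB, hωS⟩
    by_contra hcon
    have hcon' : ¬ ((ω ∈ B ∩ ⋂ l ∈ Finset.range T, (E l)ᶜ) ∨
        (ω ∈ ⋃ j ∈ Finset.range T, (B ∩ Bd j))) := hcon
    rw [not_or] at hcon'
    obtain ⟨hc1, hc2⟩ := hcon'
    have hc3 : ∃ l ∈ Finset.range T, ω ∈ E l := by
      by_contra h
      refine hc1 ⟨hωB, ?_⟩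
      simp only [mem_iInter, mem_compl_iff]
      intro l hl hE'
      exact h ⟨l, hl, hE'⟩
    obtain ⟨l, hl, hEl⟩ := hc3
    have hBl : ω ∉ Bd l := fun h => hc2 (mem_biUnion (by exact_mod_cast hl) ⟨hωB, h⟩)
    have hm : p / 4 ≤ tot (A.push (lv l) c (w l)) ω := by
      by_contra h
      exact hBl ⟨hEl, not_le.1 h⟩
    have h5 := hω l hl
    have h6 : A.Sh μ (10 * H) ω ≤ A.Sh μ (lv l) ω :=
      Sh_anti (hlvT l (Finset.mem_range.1 hl).le) ω
    have h7 : p / 4 * A.Sh μ (10 * H) ω ≤ A.Sh μ c ω := by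
      calc p / 4 * A.Sh μ (10 * H) ω ≤
            tot (A.push (lv l) c (w l)) ω * A.Sh μ (lv l) ω := by gcongr
        _ = A.Sh μ (lv l) ω * tot (A.push (lv l) c (w l)) ω := mul_comm _ _
        _ ≤ _ := h5
    exact absurd hωS (not_lt.2 h7)
  calc P (B ∩ {ω | A.Sh μ c ω < p / 4 * A.Sh μ (10 * H) ω})
      ≤ P ((B ∩ ⋂ l ∈ Finset.range T, (E l)ᶜ) ∪ ⋃ j ∈ Finset.range T, (B ∩ Bd j)) :=
        measure_mono_ae hsub
    _ ≤ P (B ∩ ⋂ l ∈ Finset.range T, (E l)ᶜ) + P (⋃ j ∈ Finset.range T, (B ∩ Bd j)) :=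
        measure_union_le _ _
    _ ≤ (1 - p / 2) ^ T * P B + ∑ j ∈ Finset.range T, P (B ∩ Bd j) := by
        gcongr
        exact measure_biUnion_finset_le _ _
    _ ≤ (1 - p / 2) ^ T * P B + ∑ j ∈ Finset.range T, (4 * ε / p * P B) := by
        gcongr with j hj
        exact h2 j (Finset.mem_range.1 hj)
    _ = _ := by
        rw [Finset.sum_const, Finset.card_range, nsmul_eq_mul]
        ring

/-- the annealed climb probabilities converge -/
lemma conv_h (A : KerSys S P) (hh : ∀ n, A.h n ≤ 1) (hne : (A.L 0).Nonempty) {ε : ℝ≥0∞}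
    (hε : ε ≠ 0) : ∃ n1 : ℕ, ∀ n, n1 ≤ n → ∀ m, n1 ≤ m → A.h n ≤ A.h m + ε := by
  obtain ⟨x, hx⟩ := hne
  have hanti : Antitone A.h := by
    intro n m hnm
    have e1 := A.h_eq 0 n x (Nat.zero_le _) hx
    have e2 := A.h_eq 0 m x (Nat.zero_le _) hx
    rw [Nat.sub_zero] at e1 e2
    rw [← e1, ← e2]
    exact lintegral_mono fun ω => A.anti 0 n m ω x (Nat.zero_le _) hnm
  have hlim := tendsto_atTop_iInf hanti
  set l : ℝ≥0∞ := ⨅ n, A.h n with hl
  have hlt : l ≠ ∞ := ne_top_of_le_ne_top ENNReal.one_ne_top ((iInf_le _ 0).trans (hh 0))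
  have h1 : l < l + ε := ENNReal.lt_add_right hlt hε
  obtain ⟨n1, hn1⟩ := eventually_atTop.1 ((tendsto_order.1 hlim).2 _ h1)
  refine ⟨n1, fun n hn m _ => (hn1 n hn).le.trans ?_⟩
  gcongr
  exact iInf_le _ m

/-- **(R), multiplicative form, without energy.** -/
theorem ratio_mulS [IsProbabilityMeasure P] (A : KerSys S P) {p : ℝ≥0∞} (hp0 : p ≠ 0)
    (hp : ∀ n, p ≤ A.h n) (hh : ∀ n, A.h n ≤ 1)
    (hpos : ∀ μ, A.Start μ → ∀ h, ∀ᵐ ω ∂P, A.Sh μ h ω ≠ 0) {δ : ℝ≥0∞}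
    (hδ : δ ≠ 0) (k : ℕ) (hk : 1 ≤ k) :
    ∃ i1 : ℕ, ∀ i, i1 ≤ i → ∀ μ, A.Start μ → ∀ B, MeasurableSet[A.F (10 ^ i)] B →
      P (B ∩ {ω | A.Sh μ (10 ^ (i + 1 + k)) ω < p / 4 * A.Sh μ (10 ^ (i + 2)) ω})
        ≤ δ * P B := by
  have hpt : p ≠ ∞ := ne_top_of_le_ne_top ENNReal.one_ne_top ((hp 0).trans (hh 0))
  by_cases hne : (A.L 0).Nonempty
  swap
  · refine ⟨0, fun i _ μ hμ => ?_⟩
    exfalso
    have h0 : ∀ x, μ x = 0 := fun x => hμ.supp x (fun hx => hne ⟨x, hx⟩)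
    have h1 := hμ.one
    simp [h0] at h1
  have hδ2 : δ / 2 ≠ 0 := by simp [hδ]
  obtain ⟨T, hT0, hT⟩ := exists_T hp0 hδ2
  set ε : ℝ≥0∞ := (δ / 2) / T * p / 4 with hε
  by_cases hδt : δ = ∞
  · refine ⟨0, ?_⟩
    intro i _ μ _ B _
    by_cases hB : P B = 0
    · rw [hB, mul_zero]
      exact (measure_mono_null inter_subset_left hB).le
    · rw [hδt, ENNReal.top_mul hB]
      exact le_top
  have hTt : (T : ℝ≥0∞) ≠ 0 := by exact_mod_cast hT0.ne'
  have hε0 : ε ≠ 0 := by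
    rw [hε]
    refine (ENNReal.div_pos (mul_ne_zero (ENNReal.div_pos hδ2 (ENNReal.natCast_ne_top T)).ne'
      hp0) (by norm_num)).ne'
  have hεT : T * (4 * ε / p) ≤ δ / 2 := by
    have e1 : 4 * ε = (δ / 2) / T * p := by
      rw [hε]
      exact ENNReal.mul_div_cancel (by norm_num) (by norm_num)
    rw [e1, ENNReal.mul_div_cancel_right hp0 hpt,
      ENNReal.mul_div_cancel hTt (ENNReal.natCast_ne_top T)]
  obtain ⟨n1, hn1⟩ := conv_h A hh hne hε0
  refine ⟨T * (n1 + 1), ?_⟩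
  intro i hi μ hμ B hB
  have hH : T * (n1 + 1) ≤ 10 ^ (i + 1) := by
    calc T * (n1 + 1) ≤ i := hi
      _ ≤ i + 1 := Nat.le_succ i
      _ ≤ 10 ^ (i + 1) := (Nat.lt_pow_self (by norm_num)).le
  have hB' : MeasurableSet[A.F (10 ^ (i + 1))] B :=
    A.F.mono (Nat.pow_le_pow_right (by norm_num) (Nat.le_succ i)) _ hB
  have h := coreS A hp0 hp hh hpos hT0 (n1 := n1) (ε := ε) hn1 hk hH hμ hB'
  have e1 : 10 ^ k * 10 ^ (i + 1) = 10 ^ (i + 1 + k) := by rw [← pow_add]; congr 1; ring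
  have e2 : 10 * 10 ^ (i + 1) = 10 ^ (i + 2) := by ring
  rw [e1, e2] at h
  refine h.trans ?_
  gcongr
  calc (1 - p / 2) ^ T + T * (4 * ε / p) ≤ δ / 2 + δ / 2 := by gcongr
    _ = δ := ENNReal.add_halves δ

/-- the constant of `step_RS` -/
noncomputable def lcS (p : ℝ≥0∞) : ℝ := - Real.log (p / 4).toReal

/-- **(R), one-window form, without energy.** -/
theorem step_RS [IsProbabilityMeasure P] (A : KerSys S P) {p : ℝ≥0∞} (hp0 : p ≠ 0)
    (hp : ∀ n, p ≤ A.h n) (hh : ∀ n, A.h n ≤ 1)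
    (hpos : ∀ μ, A.Start μ → ∀ h, ∀ᵐ ω ∂P, A.Sh μ h ω ≠ 0) {δ : ℝ≥0∞}
    (hδ : δ ≠ 0) (k : ℕ) (hk : 1 ≤ k) :
    ∃ i1 : ℕ, ∀ μ, A.Start μ → ∀ a : ℕ → Ω → ℝ,
      (∀ i, ∀ᵐ ω ∂P, a i ω = - Real.log (A.Sh μ (10 ^ i) ω).toReal) →
      ∀ i, i1 ≤ i → ∀ v ℓ : ℝ, lcS p < ℓ → ∀ B, MeasurableSet[A.F (10 ^ i)] B →
      P (B ∩ {ω | v + ℓ ≤ a (i + 1 + k) ω - a (i + 1) ω})
        ≤ P (B ∩ {ω | v ≤ a (i + 2) ω - a (i + 1) ω}) + δ * P B := by
  have hpt : p ≠ ∞ := ne_top_of_le_ne_top ENNReal.one_ne_top ((hp 0).trans (hh 0))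
  obtain ⟨i1, hi1⟩ := ratio_mulS A hp0 hp hh hpos hδ k hk
  refine ⟨i1, ?_⟩
  intro μ hμ a ha i hi v ℓ hℓ B hB
  have hτ0 : p / 4 ≠ 0 := (ENNReal.div_pos hp0 (by norm_num)).ne'
  have hτt : p / 4 ≠ ∞ := ENNReal.div_ne_top hpt (by norm_num)
  have h1 := hi1 i hi μ hμ B hB
  have hsub : (B ∩ {ω | v + ℓ ≤ a (i + 1 + k) ω - a (i + 1) ω} : Set Ω) ≤ᵐ[P]
      ((B ∩ {ω | v ≤ a (i + 2) ω - a (i + 1) ω}) ∪
        (B ∩ {ω | A.Sh μ (10 ^ (i + 1 + k)) ω < p / 4 * A.Sh μ (10 ^ (i + 2)) ω}) : Set Ω) := by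
    filter_upwards [ha (i + 1 + k), ha (i + 2), ha (i + 1), hpos μ hμ (10 ^ (i + 1 + k)),
      hpos μ hμ (10 ^ (i + 2))] with ω e1 e2 e3 p1 p2
    rintro ⟨hωB, hω⟩
    have hω' : v + ℓ ≤ a (i + 1 + k) ω - a (i + 1) ω := hω
    by_contra hcon
    have hcon' : ¬ ((ω ∈ B ∩ {ω | v ≤ a (i + 2) ω - a (i + 1) ω}) ∨
        (ω ∈ B ∩ {ω | A.Sh μ (10 ^ (i + 1 + k)) ω < p / 4 * A.Sh μ (10 ^ (i + 2)) ω})) := hcon
    rw [not_or] at hcon'
    have c1 : a (i + 2) ω - a (i + 1) ω < v := by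
      by_contra h
      exact hcon'.1 ⟨hωB, not_lt.1 h⟩
    have c2 : p / 4 * A.Sh μ (10 ^ (i + 2)) ω ≤ A.Sh μ (10 ^ (i + 1 + k)) ω := by
      by_contra h
      exact hcon'.2 ⟨hωB, not_le.1 h⟩
    have t1 : A.Sh μ (10 ^ (i + 1 + k)) ω ≠ ∞ :=
      ne_top_of_le_ne_top ENNReal.one_ne_top (Sh_le_one hμ _ ω)
    have t2 : A.Sh μ (10 ^ (i + 2)) ω ≠ ∞ :=
      ne_top_of_le_ne_top ENNReal.one_ne_top (Sh_le_one hμ _ ω)
    have q2 : 0 < (A.Sh μ (10 ^ (i + 2)) ω).toReal := ENNReal.toReal_pos p2 t2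
    have q3 : 0 < (p / 4).toReal := ENNReal.toReal_pos hτ0 hτt
    have c3 : (p / 4).toReal * (A.Sh μ (10 ^ (i + 2)) ω).toReal
        ≤ (A.Sh μ (10 ^ (i + 1 + k)) ω).toReal := by
      rw [← ENNReal.toReal_mul]
      exact ENNReal.toReal_mono t1 c2
    have c4 := Real.log_le_log (mul_pos q3 q2) c3
    rw [Real.log_mul q3.ne' q2.ne'] at c4
    rw [e1] at hω'
    rw [e2] at c1
    have hl : lcS p = - Real.log (p / 4).toReal := rfl
    linarith
  calc P (B ∩ {ω | v + ℓ ≤ a (i + 1 + k) ω - a (i + 1) ω})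
      ≤ P (B ∩ {ω | v ≤ a (i + 2) ω - a (i + 1) ω}) +
        P (B ∩ {ω | A.Sh μ (10 ^ (i + 1 + k)) ω < p / 4 * A.Sh μ (10 ^ (i + 2)) ω}) :=
        (measure_mono_ae hsub).trans (measure_union_le _ _)
    _ ≤ P (B ∩ {ω | v ≤ a (i + 2) ω - a (i + 1) ω}) + δ * P B := by gcongr

/-- **`hW` ⇒ `hR`** for `CompW.chain`, without energy (any dimension, also `d = 2`). -/
theorem hR_of_hWS [IsProbabilityMeasure P] (A : KerSys S P) {p : ℝ≥0∞} (hp0 : p ≠ 0)
    (hp : ∀ n, p ≤ A.h n) (hh : ∀ n, A.h n ≤ 1)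
    (hpos : ∀ μ, A.Start μ → ∀ h, ∀ᵐ ω ∂P, A.Sh μ h ω ≠ 0)
    (μ : ℕ → S → ℝ≥0∞) (hμ : ∀ n, A.Start (μ n)) (a : ℕ → ℕ → Ω → ℝ)
    (ha : ∀ n i, ∀ᵐ ω ∂P, a n i ω = - Real.log (A.Sh (μ n) (10 ^ i) ω).toReal)
    (hW : ∀ lam ε' : ℝ, 0 < lam → 0 < ε' → ∃ u0 c : ℝ, 0 < c ∧ ∃ w : ℕ → ℝ, (∀ i, 0 ≤ w i) ∧
      (∀ J : ℕ, ∑ i ∈ range J, w i ≤ ε' * J + u0) ∧ ∀ n, CompW.WH P A.F10 (a n) lam u0 c w) :
    ∀ ε b ε' : ℝ, 0 < ε → 0 < b → 0 < ε' → ∃ k0 : ℕ, ∀ k, k0 ≤ k → ∃ i1 : ℕ,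
      ∃ w : ℕ → ℝ, (∀ i, 0 ≤ w i) ∧ (∀ J : ℕ, ∑ i ∈ range J, w i ≤ ε' * J + i1) ∧
        ∀ n, CompW.RH P A.F10 (a n) ε b k i1 w := by
  intro ε b ε' hε hb hε'
  obtain ⟨u0, c, hc, w, hw0, hwS, hWn⟩ := hW (2 * (b + 1) / ε) ε' (by positivity) hε'
  obtain ⟨K, hK⟩ := exists_nat_gt (max (max u0 (lcS p)) 1 * 2 / ε + 1)
  refine ⟨K, fun k hk => ?_⟩
  have hkR : max (max u0 (lcS p)) 1 * 2 / ε + 1 < k := hK.trans_le (by exact_mod_cast hk)
  have hk1' : (1:ℝ) < k := by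
    have : 0 ≤ max (max u0 (lcS p)) 1 * 2 / ε :=
      div_nonneg (mul_nonneg (le_trans zero_le_one (le_max_right _ _)) (by norm_num)) hε.le
    linarith
  have hk1 : 1 ≤ k := by exact_mod_cast hk1'.le
  have hkε : max (max u0 (lcS p)) 1 < ε * k / 2 := by
    have h1 : max (max u0 (lcS p)) 1 * 2 / ε < k := by linarith
    rw [div_lt_iff₀ hε] at h1
    linarith
  have hu : u0 ≤ ε * k / 2 := ((le_max_left _ _).trans (le_max_left _ _)).trans hkε.le
  have hl : lcS p < ε * k / 2 :=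
    lt_of_le_of_lt ((le_max_right _ _).trans (le_max_left _ _)) hkε
  obtain ⟨i1, hi1⟩ := step_RS A hp0 hp hh hpos
    (δ := ENNReal.ofReal (Real.exp (-((b + 1) * k)))) (by simp [Real.exp_pos]) k hk1
  have hw : ∀ i, w i ≤ ε' * (i + 1) + u0 := by
    intro i
    have h1 := hwS (i + 1)
    rw [sum_range_succ] at h1
    have h2 : 0 ≤ ∑ j ∈ range i, w j := sum_nonneg fun j _ => hw0 j
    push_cast at h1
    linarith
  have hlim : ∀ᶠ i : ℕ in atTop, ε * k / 2 + (ε' * (i + 1) + u0) ≤ c * 10 ^ i := by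
    have h1 : Tendsto (fun i : ℕ => (i : ℝ) ^ 1 / (10:ℝ) ^ i) atTop (nhds 0) :=
      tendsto_pow_const_div_const_pow_of_one_lt 1 (by norm_num)
    have h2 : Tendsto (fun i : ℕ => 1 / (10:ℝ) ^ i) atTop (nhds 0) := by
      have := tendsto_pow_const_div_const_pow_of_one_lt (r := (10:ℝ)) 0 (by norm_num)
      simpa using this
    have h3 : Tendsto (fun i : ℕ => ε' * ((i : ℝ) ^ 1 / (10:ℝ) ^ i)
        + (ε * k / 2 + ε' + u0) * (1 / (10:ℝ) ^ i)) atTop (nhds (ε' * 0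
          + (ε * k / 2 + ε' + u0) * 0)) := (h1.const_mul _).add (h2.const_mul _)
    rw [mul_zero, mul_zero, add_zero] at h3
    filter_upwards [(tendsto_order.1 h3).2 c hc] with i hi
    have h10 : (0:ℝ) < 10 ^ i := by positivity
    have h4 : ε' * ((i : ℝ) ^ 1 / (10:ℝ) ^ i) + (ε * k / 2 + ε' + u0) * (1 / (10:ℝ) ^ i)
        = (ε * k / 2 + (ε' * (i + 1) + u0)) / 10 ^ i := by
      field_simp
      ring
    rw [h4, div_lt_iff₀ h10] at hi
    exact hi.le
  obtain ⟨i2, hi2⟩ := eventually_atTop.1 hlim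
  obtain ⟨i3, hi3⟩ := exists_nat_ge u0
  refine ⟨max (max i1 i2) i3, w, hw0, fun J => ?_, fun n => ?_⟩
  · refine (hwS J).trans ?_
    have : (i3 : ℝ) ≤ (max (max i1 i2) i3 : ℕ) := by exact_mod_cast le_max_right _ _
    linarith
  · intro i hi B hB
    have g1 : i1 ≤ i := ((le_max_left _ _).trans (le_max_left _ _)).trans hi
    have g2 : i2 ≤ i := ((le_max_right _ _).trans (le_max_left _ _)).trans hi
    have hBF : MeasurableSet[A.F (10 ^ i)] B := hB
    have h1 := hi1 (μ n) (hμ n) (a n) (ha n) i g1 (ε * k / 2 + w i) (ε * k / 2) hl B hBF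
    have h2 := hWn n i (ε * k / 2) hu ((by have := hw i; linarith :
      ε * k / 2 + w i ≤ ε * k / 2 + (ε' * (i + 1) + u0)).trans (hi2 i g2)) B hB
    have e1 : 2 * (b + 1) / ε * (ε * k / 2) = (b + 1) * k := by field_simp
    rw [e1] at h2
    have e2 : ε * k / 2 + w i + ε * k / 2 = ε * k + w i := by ring
    rw [e2] at h1
    calc P (B ∩ {ω | ε * k + w i ≤ a n (i + 1 + k) ω - a n (i + 1) ω})
        ≤ P (B ∩ {ω | ε * k / 2 + w i ≤ a n (i + 2) ω - a n (i + 1) ω})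
          + ENNReal.ofReal (Real.exp (-((b + 1) * k))) * P B := h1
      _ ≤ ENNReal.ofReal (Real.exp (-((b + 1) * k))) * P B
          + ENNReal.ofReal (Real.exp (-((b + 1) * k))) * P B := by gcongr
      _ = ENNReal.ofReal (2 * Real.exp (-((b + 1) * k))) * P B := by
          rw [← add_mul, ← ENNReal.ofReal_add (Real.exp_pos _).le (Real.exp_pos _).le, two_mul]
      _ ≤ ENNReal.ofReal (Real.exp (-(b * k))) * P B := by
          gcongr
          have h6 : Real.exp (-((b + 1) * k)) = Real.exp (-(b * k)) * Real.exp (-(k:ℝ)) := by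
            rw [← Real.exp_add]; congr 1; ring
          have h7 : Real.exp (-(k:ℝ)) ≤ 1 / 2 := by
            have h8 : (2:ℝ) ≤ Real.exp k := by
              have := Real.add_one_le_exp (k:ℝ)
              linarith
            rw [Real.exp_neg, one_div]
            exact inv_anti₀ (by norm_num) h8
          rw [h6]
          have := Real.exp_pos (-(b * k))
          nlinarith

end Crest.Agent.R154.RatioS775
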