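import Crest.Agent.R154.TileA_872

/-! Row 154, B8, TILE (748 #29593), part B: moments and the single tile bound. -/

set_option autoImplicit false
set_option linter.unusedSectionVars false
set_option linter.deprecated false

namespace Crest.Agent.R154.Tile872

open MeasureTheory ProbabilityTheory Set Filter Crest.ProbabilityR.RandomEnvironment
open Crest.Agent.R154.Ren263 (Det)
open Crest.Agent.R154.Mk561 Crest.Agent.R154.Q561
open Crest.Agent.R154.Flux132 (lev)
open Crest.Agent.R154.B6I (Hit bf Alv Eqv Nt zt SP PP Om NoC tip th Al Dt PSm PIm ct)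
open Crest.Agent.R154.RatioR872
open scoped ENNReal

/-! ### abstract Chebyshev / Markov in `ℝ≥0∞` -/

section cheb

variable {Ω : Type*} {m0 : MeasurableSpace Ω} {P : Measure Ω}

/-- lower deviations from the second moment -/
lemma cheb [IsProbabilityMeasure P] {F : Ω → ℝ≥0∞} (hF : Measurable F) (hF1 : ∀ ω, F ω ≤ 1)
    {k : ℝ≥0∞} (h2 : ∫⁻ ω, F ω ^ 2 ∂P ≤ (∫⁻ ω, F ω ∂P) ^ 2 + k) {g : ℝ≥0∞} (hg0 : g ≠ 0)
    (hg : g ≤ ∫⁻ ω, F ω ∂P) : P {ω | F ω < g / 2} ≤ k / (g / 2) ^ 2 := by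
  set m := ∫⁻ ω, F ω ∂P with hm
  have hm1 : m ≤ 1 := by
    calc m ≤ ∫⁻ _, 1 ∂P := lintegral_mono fun ω => hF1 ω
      _ = 1 := by simp
  have hmt : m ≠ ∞ := ne_top_of_le_ne_top ENNReal.one_ne_top hm1
  have hgt : g ≠ ∞ := ne_top_of_le_ne_top hmt hg
  have hG : Measurable fun ω => (m - F ω) ^ 2 := (measurable_const.sub hF).pow_const 2
  have key : 2 * m ^ 2 + ∫⁻ ω, (m - F ω) ^ 2 ∂P ≤ 2 * m ^ 2 + k := by
    calc 2 * m ^ 2 + ∫⁻ ω, (m - F ω) ^ 2 ∂P
        = ∫⁻ ω, (2 * (F ω * m) + (m - F ω) ^ 2) ∂P := by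
          rw [lintegral_add_left ((hF.mul_const _).const_mul _),
            lintegral_const_mul _ (hF.mul_const _), lintegral_mul_const _ hF, ← hm, sq]
      _ ≤ ∫⁻ ω, (F ω ^ 2 + m ^ 2) ∂P := lintegral_mono fun ω =>
          KerSys.two_mul_add_sq_le (ne_top_of_le_ne_top ENNReal.one_ne_top (hF1 ω)) hmt
      _ = ∫⁻ ω, F ω ^ 2 ∂P + m ^ 2 := by
          rw [lintegral_add_left (hF.pow_const 2)]
          simp
      _ ≤ (m ^ 2 + k) + m ^ 2 := by gcongr
      _ = 2 * m ^ 2 + k := by ring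
  have key2 : ∫⁻ ω, (m - F ω) ^ 2 ∂P ≤ k :=
    (ENNReal.add_le_add_iff_left (ENNReal.mul_ne_top (by simp) (ENNReal.pow_ne_top hmt))).1 key
  have h3 : (g / 2) ^ 2 * P {ω | (g / 2) ^ 2 ≤ (m - F ω) ^ 2} ≤ ∫⁻ ω, (m - F ω) ^ 2 ∂P :=
    mul_meas_ge_le_lintegral hG _
  have h4 : {ω | F ω < g / 2} ⊆ {ω | (g / 2) ^ 2 ≤ (m - F ω) ^ 2} := by
    intro ω hω
    have hω' : F ω < g / 2 := hω
    have h5 : g / 2 ≤ m - F ω := by
      have h6 : g / 2 + F ω ≤ m := by
        calc g / 2 + F ω ≤ g / 2 + g / 2 := by gcongr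
          _ = g := ENNReal.add_halves g
          _ ≤ m := hg
      exact ENNReal.le_sub_of_add_le_right
        (ne_top_of_le_ne_top ENNReal.one_ne_top (hF1 ω)) h6
    simp only [mem_setOf_eq]
    gcongr
  rw [ENNReal.le_div_iff_mul_le (Or.inl (by simp [hg0])) (Or.inl ?_), mul_comm]
  · exact (mul_le_mul' le_rfl (measure_mono h4)).trans (h3.trans key2)
  · exact ENNReal.pow_ne_top (ENNReal.div_ne_top hgt (by simp))

lemma markov {F : Ω → ℝ≥0∞} (hF : Measurable F) {ε t : ℝ≥0∞} (ht : t ≠ 0) (htt : t ≠ ∞)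
    (h : ∫⁻ ω, F ω ∂P ≤ ε) : P {ω | t < F ω} ≤ ε / t := by
  rw [ENNReal.le_div_iff_mul_le (Or.inl ht) (Or.inl htt), mul_comm]
  refine le_trans ?_ ((mul_meas_ge_le_lintegral hF t).trans h)
  gcongr
  exact fun hω => hω.le

end cheb

variable {d : ℕ}

section moments

variable (u : Step d) (R : ℕ) (κ : ℝ) (Q : Measure (Environment d)) [IsProbabilityMeasure Q]
variable (C : Set (Site d))

/-- second moment of two events decided before the first hits of level `n`, both natural -/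
lemma second_conf (hR : IsFiniteRangeDependent Q R) (s : SP u) {n : ℕ} {A A' : Set (MPath d)}
    (hA : MeasurableSet A) (hA' : MeasurableSet A')
    (hAe : ∀ M M', Eqv u n M M' → M ∈ A → M' ∈ A)
    (hAe' : ∀ M M', Eqv u n M M' → M ∈ A' → M' ∈ A')
    (hAn : ∀ M ∈ A, Nt u R 0 n M) (hAn' : ∀ M ∈ A', Nt u R 0 n M) :
    ∫⁻ ω, mkLaw κ ω s.1.1 A * mkLaw κ ω s.1.2 A' ∂Q
      ≤ mkAnn κ Q s.1.1 A * mkAnn κ Q s.1.2 A' + PSm κ Q s.1.1 s.1.2 (bc u R 0 n s) := by
  have hsub : A ×ˢ A' ⊆ both u R n := fun p hp => ⟨hAn _ hp.1, hAn' _ hp.2⟩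
  have hDt : Dt u n (A ×ˢ A') := fun p q h1 h2 hp => ⟨hAe _ _ h1 hp.1, hAe' _ _ h2 hp.2⟩
  have e2 : A ×ˢ A' ⊆ (A ×ˢ A' ∩ {p | NoC R 0 n ((s, p) : Om u)}) ∪ bc u R 0 n s := by
    intro p hp
    by_cases h : NoC R 0 n ((s, p) : Om u)
    · exact Or.inl ⟨hp, h⟩
    · exact Or.inr ⟨hsub hp, h⟩
  have e3 : PSm κ Q s.1.1 s.1.2 (A ×ˢ A' ∩ {p | NoC R 0 n ((s, p) : Om u)})
      = PIm κ Q s.1.1 s.1.2 (A ×ˢ A' ∩ {p | NoC R 0 n ((s, p) : Om u)}) :=
    B6I.PS_eq_PI_set (κ := κ) hR s (fun p hp => both_al p (hsub hp.1))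
      (hDt.inter (B6I.dt_noC (Nat.zero_le n) s)) (fun p hp => hp.2)
  rw [← B6I.PSm_prod κ Q _ _ hA hA']
  calc PSm κ Q s.1.1 s.1.2 (A ×ˢ A')
      ≤ PSm κ Q s.1.1 s.1.2 (A ×ˢ A' ∩ {p | NoC R 0 n ((s, p) : Om u)})
        + PSm κ Q s.1.1 s.1.2 (bc u R 0 n s) := (measure_mono e2).trans (measure_union_le _ _)
    _ ≤ _ := by
        refine add_le_add ?_ le_rfl
        rw [e3]
        refine (measure_mono inter_subset_left).trans ?_
        rw [B6I.PIm, Measure.prod_prod]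

lemma lev_add_sub {x : Site d} {a b : ℕ} (hab : a ≤ b) (hx : lev u x = a) :
    (b : ℤ) = lev u x + ((b - a : ℕ) : ℤ) := by
  rw [hx]; push_cast [Nat.cast_sub hab]; ring

lemma measurable_gT (b : ℤ) (T : Set (Site d)) (x : Site d) :
    Measurable fun ω => gT u R κ C b T ω x := measurable_mk_apply κ x (meas_CfT u R C x b T)

lemma gT_second (hR : IsFiniteRangeDependent Q R) {a b : ℕ} (hab : a ≤ b) {x x' : Site d}
    (hx : lev u x = a) (hx' : lev u x' = a) (T : Set (Site d)) :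
    ∫⁻ ω, gT u R κ C b T ω x * gT u R κ C b T ω x' ∂Q
      ≤ (∫⁻ ω, gT u R κ C b T ω x ∂Q) * (∫⁻ ω, gT u R κ C b T ω x' ∂Q)
        + Kc u R κ Q a b x x' := by
  classical
  have hs : lev u x = lev u x' := hx.trans hx'.symm
  have h := second_conf u R κ Q hR (⟨(x, x'), hs⟩ : SP u) (n := b - a)
    (meas_CfT u R C x b T) (meas_CfT u R C x' b T)
    (by rw [lev_add_sub u hab hx]; exact fun M M' h => CfT_eqv u R C h)
    (by rw [lev_add_sub u hab hx']; exact fun M M' h => CfT_eqv u R C h)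
    (by rw [lev_add_sub u hab hx]; exact fun M h => CfT_nt u R C h)
    (by rw [lev_add_sub u hab hx']; exact fun M h => CfT_nt u R C h)
  have e : Kc u R κ Q a b x x' = PSm κ Q x x' (bc u R 0 (b - a) ⟨(x, x'), hs⟩) := by
    unfold Kc
    rw [dif_pos hs]
  rw [e]
  refine h.trans (le_of_eq ?_)
  rw [mkAnn_apply κ Q x (meas_CfT u R C x b T), mkAnn_apply κ Q x' (meas_CfT u R C x' b T)]
  rfl

/-- energy of a weight at level `a`, horizon `b` -/
noncomputable def en (a b : ℕ) (w : Site d → ℝ≥0∞) : ℝ≥0∞ :=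
  ∑' x, ∑' x', w x * w x' * Kc u R κ Q a b x x'

/-- quenched mass of the confined climb from the weight `w` into `T` -/
noncomputable def Fm (b : ℤ) (T : Set (Site d)) (w : Site d → ℝ≥0∞) (ω : Environment d) : ℝ≥0∞ :=
  ∑' x, w x * gT u R κ C b T ω x

/-- exit weight -/
noncomputable def outm (b : ℤ) (T : Set (Site d)) (w : Site d → ℝ≥0∞) (ω : Environment d)
    (y : Site d) : ℝ≥0∞ := T.indicator (fun y => ∑' x, w x * gc u R κ C b ω x y) y

/-- normalised exit weight -/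
noncomputable def nrm (b : ℤ) (T : Set (Site d)) (w : Site d → ℝ≥0∞) (ω : Environment d)
    (y : Site d) : ℝ≥0∞ := outm u R κ C b T w ω y / Fm u R κ C b T w ω

lemma tsum_outm (b : ℤ) (T : Set (Site d)) (w : Site d → ℝ≥0∞) (ω : Environment d) :
    ∑' y, outm u R κ C b T w ω y = Fm u R κ C b T w ω := by
  have e : ∀ y, outm u R κ C b T w ω y = ∑' x, w x * T.indicator (gc u R κ C b ω x) y := by
    intro y
    unfold outm
    by_cases hy : y ∈ T
    · simp [indicator_of_mem hy]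
    · simp [indicator_of_notMem hy]
  simp_rw [e]
  rw [ENNReal.tsum_comm]
  unfold Fm
  refine tsum_congr fun x => ?_
  rw [ENNReal.tsum_mul_left, gT_eq]

lemma Fm_le (b : ℤ) (T : Set (Site d)) (w : Site d → ℝ≥0∞) (ω : Environment d) :
    Fm u R κ C b T w ω ≤ ∑' x, w x := by
  unfold Fm
  refine ENNReal.tsum_le_tsum fun x => ?_
  calc w x * gT u R κ C b T ω x ≤ w x * 1 := by gcongr; exact gT_le_one u R κ C b T ω x
    _ = w x := mul_one _

lemma measurable_Fm (b : ℤ) (T : Set (Site d)) (w : Site d → ℝ≥0∞) :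
    Measurable fun ω => Fm u R κ C b T w ω :=
  Measurable.ennreal_tsum fun x => (measurable_gT u R κ C b T x).const_mul _

lemma measurable_outm (b : ℤ) (T : Set (Site d)) (w : Site d → ℝ≥0∞) (y : Site d) :
    Measurable fun ω => outm u R κ C b T w ω y := by
  unfold outm
  by_cases hy : y ∈ T
  · simp only [indicator_of_mem hy]
    exact Measurable.ennreal_tsum fun x => (measurable_gc u R κ C b x y).const_mul _
  · simp only [indicator_of_notMem hy]
    exact measurable_const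

lemma measurable_en (a b : ℕ) : Measurable fun w : Site d → ℝ≥0∞ => en u R κ Q a b w :=
  Measurable.ennreal_tsum fun x => Measurable.ennreal_tsum fun x' =>
    ((measurable_pi_apply x).mul (measurable_pi_apply x')).mul_const _

lemma lint_Fm (b : ℤ) (T : Set (Site d)) (w : Site d → ℝ≥0∞) :
    ∫⁻ ω, Fm u R κ C b T w ω ∂Q = ∑' x, w x * ∫⁻ ω, gT u R κ C b T ω x ∂Q := by
  unfold Fm
  rw [lintegral_tsum fun x => ((measurable_gT u R κ C b T x).const_mul _).aemeasurable]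
  exact tsum_congr fun x => lintegral_const_mul _ (measurable_gT u R κ C b T x)

lemma Fm_second (hR : IsFiniteRangeDependent Q R) {a b : ℕ} (hab : a ≤ b) (T : Set (Site d))
    {w : Site d → ℝ≥0∞} (hw : ∀ x, lev u x ≠ a → w x = 0) :
    ∫⁻ ω, Fm u R κ C b T w ω ^ 2 ∂Q
      ≤ (∫⁻ ω, Fm u R κ C b T w ω ∂Q) ^ 2 + en u R κ Q a b w := by
  have hm : ∀ x x', Measurable fun ω =>
      (w x * w x') * (gT u R κ C b T ω x * gT u R κ C b T ω x') := fun x x' =>
    ((measurable_gT u R κ C b T x).mul (measurable_gT u R κ C b T x')).const_mul _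
  have e1 : ∀ ω, Fm u R κ C b T w ω ^ 2
      = ∑' x, ∑' x', (w x * w x') * (gT u R κ C b T ω x * gT u R κ C b T ω x') := by
    intro ω
    unfold Fm
    rw [sq, ← ENNReal.tsum_mul_right]
    refine tsum_congr fun x => ?_
    rw [← ENNReal.tsum_mul_left]
    exact tsum_congr fun x' => by ring
  simp_rw [e1]
  rw [lint_Fm, sq, ← ENNReal.tsum_mul_right,
    lintegral_tsum fun x => (Measurable.ennreal_tsum fun x' => hm x x').aemeasurable]
  unfold en
  rw [← ENNReal.tsum_add]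
  refine ENNReal.tsum_le_tsum fun x => ?_
  rw [lintegral_tsum fun x' => (hm x x').aemeasurable, ← ENNReal.tsum_mul_left,
    ← ENNReal.tsum_add]
  refine ENNReal.tsum_le_tsum fun x' => ?_
  have hk : Measurable fun ω => gT u R κ C b T ω x * gT u R κ C b T ω x' :=
    (measurable_gT u R κ C b T x).mul (measurable_gT u R κ C b T x')
  rw [lintegral_const_mul _ hk]
  by_cases hx : lev u x = a
  · by_cases hx' : lev u x' = a
    · calc w x * w x' * ∫⁻ ω, gT u R κ C b T ω x * gT u R κ C b T ω x' ∂Q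
          ≤ w x * w x' * ((∫⁻ ω, gT u R κ C b T ω x ∂Q) * (∫⁻ ω, gT u R κ C b T ω x' ∂Q)
            + Kc u R κ Q a b x x') := by
            gcongr
            exact gT_second u R κ Q C hR hab hx hx' T
        _ = _ := by ring
    · simp [hw x' hx']
  · simp [hw x hx]

/-- energy of the exit weight -/
lemma en_outm {a b c : ℕ} {ε : ℝ≥0∞}
    (hε : ∀ x x', lev u x = a → lev u x' = a →
      ∑' z, ∑' z', (∫⁻ ω, gk u R κ b ω x z * gk u R κ b ω x' z' ∂Q) * Kc u R κ Q b c z z' ≤ ε)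
    (T : Set (Site d)) {w : Site d → ℝ≥0∞} (hw : ∀ x, lev u x ≠ a → w x = 0)
    (hw1 : ∑' x, w x ≤ 1) :
    ∫⁻ ω, en u R κ Q b c (outm u R κ C b T w ω) ∂Q ≤ ε := by
  have hg : ∀ x z, Measurable fun ω => gk u R κ b ω x z := fun x z => measurable_gk u R κ b x z
  have hm : ∀ x x' z z', Measurable fun ω =>
      (w x * w x') * ((gk u R κ b ω x z * gk u R κ b ω x' z') * Kc u R κ Q b c z z') :=
    fun x x' z z' => (((hg x z).mul (hg x' z')).mul_const _).const_mul _
  have h1 : ∀ ω, en u R κ Q b c (outm u R κ C b T w ω)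
      ≤ ∑' x, ∑' x', ∑' z, ∑' z', (w x * w x') * ((gk u R κ b ω x z * gk u R κ b ω x' z')
        * Kc u R κ Q b c z z') := by
    intro ω
    have e0 : ∀ z, outm u R κ C b T w ω z ≤ ∑' x, w x * gk u R κ b ω x z := by
      intro z
      unfold outm
      refine (indicator_le_self' (fun _ _ => zero_le) z).trans ?_
      exact ENNReal.tsum_le_tsum fun x => by gcongr; exact gc_le_gk u R κ C b ω x z
    have e1 : ∀ z z', outm u R κ C b T w ω z * outm u R κ C b T w ω z' * Kc u R κ Q b c z z'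
        ≤ ∑' x, ∑' x', (w x * w x') * ((gk u R κ b ω x z * gk u R κ b ω x' z')
          * Kc u R κ Q b c z z') := by
      intro z z'
      calc _ ≤ (∑' x, w x * gk u R κ b ω x z) * (∑' x', w x' * gk u R κ b ω x' z')
            * Kc u R κ Q b c z z' := by gcongr; exact e0 z; exact e0 z'
        _ = _ := by
          rw [← ENNReal.tsum_mul_right, ← ENNReal.tsum_mul_right]
          refine tsum_congr fun x => ?_
          rw [← ENNReal.tsum_mul_left, ← ENNReal.tsum_mul_right]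
          exact tsum_congr fun x' => by ring
    unfold en
    calc _ ≤ ∑' z, ∑' z', ∑' x, ∑' x', (w x * w x') * ((gk u R κ b ω x z * gk u R κ b ω x' z')
          * Kc u R κ Q b c z z') :=
          ENNReal.tsum_le_tsum fun z => ENNReal.tsum_le_tsum fun z' => e1 z z'
      _ = ∑' z, ∑' x, ∑' z', ∑' x', (w x * w x') * ((gk u R κ b ω x z * gk u R κ b ω x' z')
          * Kc u R κ Q b c z z') := tsum_congr fun z => ENNReal.tsum_comm
      _ = ∑' x, ∑' z, ∑' z', ∑' x', (w x * w x') * ((gk u R κ b ω x z * gk u R κ b ω x' z')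
          * Kc u R κ Q b c z z') := ENNReal.tsum_comm
      _ = ∑' x, ∑' z, ∑' x', ∑' z', (w x * w x') * ((gk u R κ b ω x z * gk u R κ b ω x' z')
          * Kc u R κ Q b c z z') := tsum_congr fun x => tsum_congr fun z => ENNReal.tsum_comm
      _ = _ := tsum_congr fun x => ENNReal.tsum_comm
  refine (lintegral_mono h1).trans ?_
  have h2 : ∑' x, ∑' x', (w x * w x') * ε ≤ ε := by
    calc ∑' x, ∑' x', (w x * w x') * ε = (∑' x, w x) * (∑' x', w x') * ε := by
          rw [← ENNReal.tsum_mul_right, ← ENNReal.tsum_mul_right]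
          refine tsum_congr fun x => ?_
          rw [← ENNReal.tsum_mul_left, ← ENNReal.tsum_mul_right]
      _ ≤ 1 * 1 * ε := by gcongr
      _ = ε := by simp
  refine le_trans ?_ h2
  rw [lintegral_tsum fun x => (Measurable.ennreal_tsum fun x' => Measurable.ennreal_tsum fun z =>
    Measurable.ennreal_tsum fun z' => hm x x' z z').aemeasurable]
  refine ENNReal.tsum_le_tsum fun x => ?_
  rw [lintegral_tsum fun x' => (Measurable.ennreal_tsum fun z =>
    Measurable.ennreal_tsum fun z' => hm x x' z z').aemeasurable]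
  refine ENNReal.tsum_le_tsum fun x' => ?_
  by_cases hx : lev u x = a
  · by_cases hx' : lev u x' = a
    · rw [lintegral_tsum fun z => (Measurable.ennreal_tsum fun z' => hm x x' z z').aemeasurable]
      have h5 : ∀ z, ∫⁻ ω, ∑' z', (w x * w x') * ((gk u R κ b ω x z * gk u R κ b ω x' z')
          * Kc u R κ Q b c z z') ∂Q
          = ∑' z', (w x * w x') * ((∫⁻ ω, gk u R κ b ω x z * gk u R κ b ω x' z' ∂Q)
            * Kc u R κ Q b c z z') := by
        intro z
        rw [lintegral_tsum fun z' => (hm x x' z z').aemeasurable]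
        refine tsum_congr fun z' => ?_
        have hk : Measurable fun ω => gk u R κ b ω x z * gk u R κ b ω x' z' :=
          (hg x z).mul (hg x' z')
        have hk' : Measurable fun ω => gk u R κ b ω x z * gk u R κ b ω x' z'
            * Kc u R κ Q b c z z' := hk.mul_const _
        rw [lintegral_const_mul _ hk', lintegral_mul_const _ hk]
      simp_rw [h5, ENNReal.tsum_mul_left]
      gcongr
      exact hε x x' hx hx'
    · simp [hw x' hx']
  · simp [hw x hx]

/-! ### the single tile -/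

/-- the class of states: laws on the set `S` of sites of level `a`, energy at most `κ₁` -/
def Cls (S : Set (Site d)) (a b : ℕ) (κ₁ : ℝ≥0∞) : Set (Site d → ℝ≥0∞) :=
  {w | ∑' x, w x = 1 ∧ (∀ x, x ∉ S → w x = 0) ∧ en u R κ Q a b w ≤ κ₁}

/-- good move of the weight `w` into the target `T` of level `b`: mass at least `θ`, exit energy
(horizon `c`) at most `κ₁ θ²` -/
def GoodT (b c : ℕ) (T : Set (Site d)) (θ κ₁ : ℝ≥0∞) (w : Site d → ℝ≥0∞) : Set (Environment d) :=
  {ω | θ ≤ Fm u R κ C b T w ω ∧ en u R κ Q b c (outm u R κ C b T w ω) ≤ κ₁ * θ ^ 2}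

lemma en_div (a b : ℕ) (w : Site d → ℝ≥0∞) {t : ℝ≥0∞} :
    en u R κ Q a b (fun y => w y / t) = en u R κ Q a b w / t ^ 2 := by
  unfold en
  simp only [div_eq_mul_inv]
  rw [← ENNReal.tsum_mul_right]
  refine tsum_congr fun x => ?_
  rw [← ENNReal.tsum_mul_right]
  refine tsum_congr fun x' => ?_
  rw [ENNReal.inv_pow]
  ring

/-- **a good move produces a state of the class** -/
lemma nrm_mem {b c : ℕ} {T : Set (Site d)} {θ κ₁ : ℝ≥0∞} (hθ : θ ≠ 0) {w : Site d → ℝ≥0∞}
    (hw1 : ∑' x, w x ≤ 1) {ω : Environment d} (h : ω ∈ GoodT u R κ Q C b c T θ κ₁ w) :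
    nrm u R κ C b T w ω ∈ Cls u R κ Q T b c κ₁ := by
  obtain ⟨h1, h2⟩ := h
  set F := Fm u R κ C b T w ω with hF
  have hFt : F ≠ ∞ := ne_top_of_le_ne_top ENNReal.one_ne_top ((Fm_le u R κ C b T w ω).trans hw1)
  have hF0 : F ≠ 0 := fun h0 => hθ (le_antisymm (h0 ▸ h1) zero_le)
  refine ⟨?_, ?_, ?_⟩
  · unfold nrm
    simp only [div_eq_mul_inv]
    rw [ENNReal.tsum_mul_right, tsum_outm, ← hF, ENNReal.mul_inv_cancel hF0 hFt]
  · intro x hx
    unfold nrm outm
    rw [indicator_of_notMem hx, ENNReal.zero_div]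
  · have : nrm u R κ C b T w ω = fun y => outm u R κ C b T w ω y / F := rfl
    rw [this, en_div]
    refine ENNReal.div_le_of_le_mul (h2.trans ?_)
    gcongr

/-- **SINGLE TILE**: from every deterministic state `w` of the class at level `a`, the move into `T`
is good except with probability at most `κ₁/(g/2)² + ε/(κ₁ (g/2)²)`. -/
theorem prob_not_good (hR : IsFiniteRangeDependent Q R) {a b c : ℕ} (hab : a ≤ b)
    {S T : Set (Site d)} (hS : ∀ x ∈ S, lev u x = a) {g κ₁ ε : ℝ≥0∞} (hg0 : g ≠ 0) (hgt : g ≠ ∞)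
    (hκ0 : κ₁ ≠ 0) (hκt : κ₁ ≠ ∞) (hg : ∀ x ∈ S, g ≤ ∫⁻ ω, gT u R κ C b T ω x ∂Q)
    (hε : ∀ x x', lev u x = a → lev u x' = a →
      ∑' z, ∑' z', (∫⁻ ω, gk u R κ b ω x z * gk u R κ b ω x' z' ∂Q) * Kc u R κ Q b c z z' ≤ ε)
    {w : Site d → ℝ≥0∞} (hw : w ∈ Cls u R κ Q S a b κ₁) :
    Q (GoodT u R κ Q C b c T (g / 2) κ₁ w)ᶜ ≤ κ₁ / (g / 2) ^ 2 + ε / (κ₁ * (g / 2) ^ 2) := by
  obtain ⟨hw1, hw2, hw3⟩ := hw
  have hw2' : ∀ x, lev u x ≠ a → w x = 0 := fun x hx => hw2 x fun h => hx (hS x h)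
  have h1 : Q {ω | Fm u R κ C b T w ω < g / 2} ≤ κ₁ / (g / 2) ^ 2 := by
    refine cheb (measurable_Fm u R κ C b T w) (fun ω => (Fm_le u R κ C b T w ω).trans hw1.le)
      ((Fm_second u R κ Q C hR hab T hw2').trans (by gcongr)) hg0 ?_
    rw [lint_Fm]
    calc g = ∑' x, w x * g := by rw [ENNReal.tsum_mul_right, hw1, one_mul]
      _ ≤ _ := ENNReal.tsum_le_tsum fun x => by
          by_cases hx : x ∈ S
          · gcongr; exact hg x hx
          · simp [hw2 x hx]
  have h2 : Q {ω | κ₁ * (g / 2) ^ 2 < en u R κ Q b c (outm u R κ C b T w ω)}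
      ≤ ε / (κ₁ * (g / 2) ^ 2) := by
    refine markov ((measurable_en u R κ Q b c).comp
      (measurable_pi_iff.2 fun y => measurable_outm u R κ C b T w y)) ?_ ?_
      (en_outm u R κ Q C hε T hw2' hw1.le)
    · exact mul_ne_zero hκ0 (pow_ne_zero 2 (by simp [hg0]))
    · exact ENNReal.mul_ne_top hκt (ENNReal.pow_ne_top (ENNReal.div_ne_top hgt (by simp)))
  refine le_trans (measure_mono ?_) ((measure_union_le _ _).trans (add_le_add h1 h2))
  intro ω hω
  by_contra hcon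
  simp only [mem_union, mem_setOf_eq, not_or, not_lt] at hcon
  exact hω ⟨hcon.1, hcon.2⟩

end moments

end Crest.Agent.R154.Tile872
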