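import Crest.Agent.R154.KerP_561
import Crest.Agent.R154.B6P_816
import Crest.Agent.R154.TileB_872

/-! Row 154, B8, (G) of 112: the quenched probability of being natural for ever is a.s. positive;
tightness of the quenched masses of the natural climbs, uniformly in the start and in the height. -/

set_option autoImplicit false
set_option linter.unusedSectionVars false
set_option linter.deprecated false

namespace Crest.Agent.R154.Tile872

open MeasureTheory ProbabilityTheory Set Filter Crest.ProbabilityR.RandomEnvironment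
open Crest.Agent.R154.Ren263 (Det)
open Crest.Agent.R154.Mk561 Crest.Agent.R154.Q561
open Crest.Agent.R154.Flux132 (lev)
open Crest.Agent.R154.B6I (Hit bf Alv Eqv Nt zt SP PP Om NoC tip th Al Dt PSm PIm ct)
open Crest.Agent.R154.RatioR872
open scoped ENNReal Topology

variable {d : ℕ}

/-- natural for ever -/
def NI (u : Step d) (R : ℕ) : Set (MPath d) := {M | ∀ n, Nt u R 0 n M}

lemma NI_eq (u : Step d) (R : ℕ) : NI u R = ⋂ n, {M : MPath d | Nt u R 0 n M} := by
  ext M; simp [NI]

lemma meas_NI (u : Step d) (R : ℕ) : MeasurableSet (NI u R) := by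
  rw [NI_eq]
  exact MeasurableSet.iInter fun n => meas_Nt u R n

/-- quenched probability of being natural for ever -/
noncomputable def rho (u : Step d) (R : ℕ) (κ : ℝ) (ω : Environment d) (x : Site d) : ℝ≥0∞ :=
  mkLaw κ ω x (NI u R)

section det

variable (u : Step d) (R : ℕ) (κ : ℝ)

lemma rho_le (ω : Environment d) (x : Site d) (n : ℕ) :
    rho u R κ ω x ≤ mkLaw κ ω x {M | Nt u R 0 n M} := measure_mono fun _ h => h n

lemma rho_lim (ω : Environment d) (x : Site d) :
    Tendsto (fun n => mkLaw κ ω x {M | Nt u R 0 n M}) atTop (𝓝 (rho u R κ ω x)) := by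
  unfold rho
  rw [NI_eq]
  exact tendsto_measure_iInter_atTop (fun n => (meas_Nt u R n).nullMeasurableSet)
    (fun a b hab M hM => hM.left hab) ⟨0, measure_ne_top _ _⟩

lemma locOn_nt (n : ℕ) (x : Site d) :
    LocOn {z | lev u x + R ≤ lev u z} fun ω => mkLaw κ ω x {M | Nt u R 0 n M} := by
  intro ω ω' h
  simp only [← ClA_eq u R x n, ← tsum_gk]
  refine tsum_congr fun y => ?_
  exact ((locOn_gk u R κ (lev u x + n) x y).mono fun z hz => hz.1) ω ω' h

lemma locOn_rho (x : Site d) : LocOn {z | lev u x + R ≤ lev u z} fun ω => rho u R κ ω x := by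
  intro ω ω' h
  refine tendsto_nhds_unique (rho_lim u R κ ω x) ?_
  have : (fun n => mkLaw κ ω x {M | Nt u R 0 n M}) = fun n => mkLaw κ ω' x {M | Nt u R 0 n M} :=
    funext fun n => locOn_nt u R κ n x ω ω' h
  rw [this]
  exact rho_lim u R κ ω' x

lemma measurable_rho (x : Site d) : Measurable fun ω => rho u R κ ω x :=
  measurable_mk_apply κ x (meas_NI u R)

/-- the constant word -/
def cw (u : Step d) (b : Bool) : MPath d := fun _ => (u, b)

lemma lev_cw (b : Bool) (x : Site d) (k : ℕ) : lev u (pos x (cw u b) k) = lev u x + k := by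
  induction k with
  | zero => simp [pos_zero]
  | succ k ih =>
    rw [pos_succ, Flux132.lev_add, ih]
    have : lev u (stp (cw u b k)) = 1 := Flux132.lev_step_self u
    rw [this]
    push_cast
    ring

lemma cw_sub {b : Bool} (hb : b = true ∨ R = 0) (x : Site d) (k : ℕ) :
    Cy (cw u b) k ∩ Ren263.shift k ⁻¹' NI u R ⊆ NI u R := by
  rintro M ⟨h1, h2⟩ n
  have h3 : M ∈ ClM u R x (lev u x + k) k := cy_subset_ClA u R hb x k h1
  have h4 : Nt u R 0 n (Ren263.shift k M) := h2 n
  obtain ⟨m', hm'⟩ := h4.alv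
  have h5 : Ren263.shift k M ∈ ClM u R (pos x M k) (lev u (pos x M k) + n) m' :=
    (mem_ClM_iff u R).2 ⟨hm', h4⟩
  have h6 : lev u (pos x M k) + n = lev u x + (k + n : ℕ) := by
    have : pos x M k = pos x (cw u b) k := pos_congr x (fun i hi => h1 i hi) le_rfl
    rw [this, lev_cw]
    push_cast
    ring
  rw [h6] at h5
  have h7 := ClM_comp u R (by push_cast; omega : lev u x + (k:ℤ) ≤ lev u x + (k + n : ℕ)) h3 h5
  exact (((mem_ClM_iff u R).1 h7).2).left (by omega)

lemma rho_cw {b : Bool} (hb : b = true ∨ R = 0) (ω : Environment d) (x : Site d) (k : ℕ) :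
    wgt κ ω x (cw u b) k * rho u R κ ω (pos x (cw u b) k) ≤ rho u R κ ω x := by
  unfold rho
  rw [← markov_Cy κ ω x (cw u b) k (meas_NI u R)]
  exact measure_mono (cw_sub u R hb x k)

lemma rho_shift (ω : Environment d) (x : Site d) :
    rho u R κ ω x = rho u R κ (shiftEnv x ω) 0 := by
  unfold rho
  rw [mkLaw_shiftEnv, zero_add]

end det

section prob

variable {Q : Measure (Environment d)} [IsProbabilityMeasure Q] {κ : ℝ} {R : ℕ}

lemma pi_le_iSup (u : Step d) : (MeasurableSpace.pi : MeasurableSpace (Environment d))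
    ≤ ⨆ a : ℕ, Fl u a := by
  refine iSup_le fun z => ?_
  obtain ⟨a, ha⟩ : ∃ a : ℕ, lev u z < (a : ℤ) := ⟨(lev u z).toNat + 1, by
    push_cast
    have := Int.self_le_toNat (lev u z)
    omega⟩
  refine le_trans ?_ (le_iSup (fun a : ℕ => Fl u a) a)
  change _ ≤ coordSigmaAlgebra {z | lev u z < (a : ℤ)}
  rw [coord_eq_iSup]
  exact le_iSup₂_of_le z ha le_rfl

/-- **the quenched probability of being natural for ever is a.s. positive** -/
theorem rho_pos (F : Bind263.Frame Q κ R) (u : Step d)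
    (hA : annealedProb Q 0 (escapeEvent (B2d.dirVec u)) ≠ 0) :
    ∀ᵐ ω ∂Q, rho u R κ ω 0 ≠ 0 := by
  obtain ⟨b, hb, hw⟩ := Bind263.Frame.exists_flag F u
  set y : ℕ → Site d := fun k => pos 0 (cw u b) k with hy
  set Z : ℕ → Set (Environment d) := fun k => {ω | rho u R κ ω (y k) = 0} with hZ
  have hy0 : y 0 = 0 := pos_zero _ _
  have hZm : ∀ k, MeasurableSet (Z k) := fun k => measurable_rho u R κ (y k) (measurableSet_singleton 0)
  have hlev : ∀ k : ℕ, lev u (y k) = k := by
    intro k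
    rw [hy]
    simp only [lev_cw]
    rw [B6I.lev_zero, zero_add]
  have hQZ : ∀ k, Q (Z k) = Q (Z 0) := by
    intro k
    have e : Z k = shiftEnv (y k) ⁻¹' Z 0 := by
      ext ω
      simp only [hZ, mem_setOf_eq, mem_preimage, hy0]
      rw [rho_shift]
    rw [e]
    exact (F.stat (y k)).measure_preimage (hZm 0).nullMeasurableSet
  have hsub : ∀ k, ∀ᵐ ω ∂Q, ω ∈ Z 0 → ω ∈ Z k := by
    intro k
    filter_upwards [hw] with ω hω h0
    have h0' : rho u R κ ω 0 = 0 := by
      have : rho u R κ ω (y 0) = 0 := h0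
      rwa [hy0] at this
    have h1 := rho_cw u R κ hb ω 0 k
    rw [h0'] at h1
    have h2 := le_antisymm h1 zero_le
    rcases mul_eq_zero.1 h2 with h3 | h3
    · rw [wgt, Finset.prod_eq_zero_iff] at h3
      obtain ⟨i, _, hi⟩ := h3
      exact absurd hi (hω _)
    · exact h3
  have hae : ∀ k, Z 0 =ᵐ[Q] Z k := fun k =>
    ae_eq_of_ae_subset_of_measure_ge (hsub k) (hQZ k).le (hZm 0).nullMeasurableSet
      (measure_ne_top _ _)
  -- independence of the past
  have hind : ∀ a : ℕ, Indep (Fl u a) (MeasurableSpace.generateFrom {Z 0}) Q := by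
    intro a
    refine IndepSets.indep ((Fl u).le a) (MeasurableSpace.generateFrom_le fun t ht => by
      rw [mem_singleton_iff.1 ht]; exact hZm 0) (p1 := {s | MeasurableSet[Fl u a] s})
      (p2 := {Z 0}) (@MeasurableSpace.isPiSystem_measurableSet _ (Fl u a))
      (IsPiSystem.singleton _) (@MeasurableSpace.generateFrom_measurableSet _ (Fl u a)).symm rfl ?_
    rw [IndepSets_iff]
    intro B t hB ht
    rw [mem_singleton_iff.1 ht]
    have hI := indep_sep F.fin (sep_lev u R (a : ℤ))
    have hZa : MeasurableSet[coordSigmaAlgebra {z : Site d | (a:ℤ) + R ≤ lev u z}] (Z a) := by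
      have h1 : Measurable[coordSigmaAlgebra {z : Site d | (a:ℤ) + R ≤ lev u z}]
          fun ω => rho u R κ ω (y a) := by
        refine measurable_coord (measurable_rho u R κ (y a)) ?_
        have := locOn_rho u R κ (y a)
        rw [hlev a] at this
        exact this
      exact h1 (measurableSet_singleton 0)
    have h2 := (Indep_iff _ _ _).1 hI B (Z a) hB hZa
    have e1 : Q (B ∩ Z 0) = Q (B ∩ Z a) :=
      measure_congr ((ae_eq_refl B).inter (hae a))
    rw [e1, h2, hQZ a]
  have hall := indep_iSup_of_monotone hind (fun a => (Fl u).le a)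
    (MeasurableSpace.generateFrom_le fun t ht => by
      rw [mem_singleton_iff.1 ht]; exact hZm 0) (fun a b hab => (Fl u).mono hab)
  have hself := (Indep_iff _ _ _).1 hall (Z 0) (Z 0) (pi_le_iSup u _ (hZm 0))
    (MeasurableSpace.measurableSet_generateFrom rfl)
  rw [inter_self] at hself
  have h01 : Q (Z 0) = 0 ∨ Q (Z 0) = 1 := by
    by_cases h0 : Q (Z 0) = 0
    · exact Or.inl h0
    · right
      have h1 : Q (Z 0) * 1 = Q (Z 0) * Q (Z 0) := by rw [mul_one]; exact hself
      exact ((ENNReal.mul_right_inj h0 (measure_ne_top _ _)).1 h1).symm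
  rcases h01 with h0 | h1
  · have : ∀ᵐ ω ∂Q, ω ∉ Z 0 := by
      rw [ae_iff]
      simpa using h0
    filter_upwards [this] with ω hω hω0
    refine hω ?_
    change rho u R κ ω (y 0) = 0
    rw [hy0]
    exact hω0
  · exfalso
    have hpp := Crest.Agent.R154.B6P816.pp_pos F u hA
    have h2 : ∫⁻ ω, rho u R κ ω 0 ∂Q = 0 := by
      have h3 : ∀ᵐ ω ∂Q, ω ∈ Z 0 := by
        rw [← prob_compl_eq_zero_iff (hZm 0)] at h1
        rw [ae_iff]
        exact h1
      rw [lintegral_eq_zero_iff (measurable_rho u R κ 0)]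
      filter_upwards [h3] with ω hω
      have : rho u R κ ω (y 0) = 0 := hω
      rwa [hy0] at this
    have h4 : mkAnn κ Q 0 (NI u R) = 0 := by
      rw [mkAnn_apply κ Q 0 (meas_NI u R)]
      exact h2
    unfold B6I.pp at hpp
    rw [Measure.real] at hpp
    have h5 : {M : MPath d | ∀ m, Nt u R 0 m M} = NI u R := rfl
    rw [h5, h4] at hpp
    simp at hpp

/-- **tightness of the quenched masses** -/
theorem tight (F : Bind263.Frame Q κ R) (u : Step d)
    (hA : annealedProb Q 0 (escapeEvent (B2d.dirVec u)) ≠ 0) {q : ℝ≥0∞} (hq : q ≠ 0) :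
    ∃ σ : ℝ≥0∞, σ ≠ 0 ∧ σ ≤ 1 ∧ ∀ (n : ℕ) (x : Site d),
      Q {ω | mkLaw κ ω x {M | Nt u R 0 n M} < σ} ≤ q := by
  have hlim : Tendsto (fun m : ℕ => Q {ω | rho u R κ ω 0 < ((m : ℝ≥0∞) + 1)⁻¹}) atTop (𝓝 0) := by
    have h := tendsto_measure_iInter_atTop (μ := Q)
      (s := fun m : ℕ => {ω : Environment d | rho u R κ ω 0 < ((m : ℝ≥0∞) + 1)⁻¹})
      (fun m => (measurableSet_lt (measurable_rho u R κ 0) measurable_const).nullMeasurableSet)
      (fun a b hab ω hω => lt_of_lt_of_le hω (ENNReal.inv_le_inv.2 (by gcongr)))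
      ⟨0, measure_ne_top _ _⟩
    have h2 : Q (⋂ m : ℕ, {ω : Environment d | rho u R κ ω 0 < ((m : ℝ≥0∞) + 1)⁻¹}) = 0 := by
      refine measure_mono_null ?_ (ae_iff.1 (rho_pos F u hA))
      intro ω hω
      rw [mem_iInter] at hω
      simp only [mem_setOf_eq, not_not]
      by_contra hne
      obtain ⟨m, hm⟩ := ENNReal.exists_inv_nat_lt hne
      have h3 : rho u R κ ω 0 < ((m : ℝ≥0∞) + 1)⁻¹ := hω m
      have h4 : ((m : ℝ≥0∞) + 1)⁻¹ ≤ (m : ℝ≥0∞)⁻¹ := ENNReal.inv_le_inv.2 le_self_add
      exact absurd (h3.trans_le h4) (not_lt.2 hm.le)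
    rwa [h2] at h
  obtain ⟨m, hm⟩ := ((tendsto_order.1 hlim).2 q (pos_iff_ne_zero.2 hq)).exists
  refine ⟨((m : ℝ≥0∞) + 1)⁻¹, by simp [ENNReal.add_eq_top], ENNReal.inv_le_one.2 le_add_self,
    fun n x => ?_⟩
  have h1 : Q {ω | rho u R κ ω x < ((m : ℝ≥0∞) + 1)⁻¹}
      = Q {ω | rho u R κ ω 0 < ((m : ℝ≥0∞) + 1)⁻¹} := by
    have e : {ω | rho u R κ ω x < ((m : ℝ≥0∞) + 1)⁻¹}
        = shiftEnv x ⁻¹' {ω | rho u R κ ω 0 < ((m : ℝ≥0∞) + 1)⁻¹} := by
      ext ω
      simp only [mem_setOf_eq, mem_preimage]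
      rw [rho_shift]
    rw [e]
    exact (F.stat x).measure_preimage
      (measurableSet_lt (measurable_rho u R κ 0) measurable_const).nullMeasurableSet
  refine le_trans (measure_mono ?_) (h1.le.trans hm.le)
  intro ω hω
  exact lt_of_le_of_lt (rho_le u R κ ω x n) hω

end prob

end Crest.Agent.R154.Tile872
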