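import Crest.Agent.R154.Spine2_796
import Crest.Agent.R154.Tight_872
import Crest.Agent.R154.WindowK_299
import Crest.Agent.R154.RatioS_775

/-!
Row 154, block `d = 2` (helper244): FINAL ASSEMBLY of `Spine.FL2Prop1` from
* tile systems of constant cost (input `hT` of 299's `window_const`), point starts,
* small heights (569): the quenched climb of `h ≤ A t` levels costs `≥ t` with probability
  `≤ exp (- c t ^ 2)`.
(R) comes from 775's `hR_of_hWS` (no energy), positivity from 872's `rho_pos`.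
-/

set_option autoImplicit false
set_option linter.unusedSectionVars false
set_option linter.deprecated false

namespace Crest.Agent.R154.D2Asm244

open MeasureTheory ProbabilityTheory Set Filter Crest.ProbabilityR.RandomEnvironment
open Crest.Agent.R154 Crest.Agent.R154.Mk561 Crest.Agent.R154.Q561
open Crest.Agent.R154.RatioR872 Crest.Agent.R154.RatioR872.KerSys
open Crest.Agent.R154.Flux132 (lev)
open Crest.Agent.R154.B6I (Nt)
open Crest.Agent.R154.Tile872 (rho rho_le rho_pos rho_shift measurable_rho)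
open Crest.Agent.R154.WindowK299 (TileSys)
open scoped ENNReal Topology

variable {d : ℕ}

/-- the kernel system of the natural climbs with the trivial energy -/
noncomputable def kT (u : Step d) (R : ℕ) (κ : ℝ) (Q : Measure (Environment d))
    [IsProbabilityMeasure Q] (hstat : ∀ z : Site d, MeasurePreserving (shiftEnv z) Q Q)
    (hR : IsFiniteRangeDependent Q R) : KerSys (Site d) Q :=
  kerSys u R κ Q hstat hR (fun _ _ _ _ => 1) fun a b x x' _ _ _ => by
    refine le_trans ?_ le_add_self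
    calc ∫⁻ ω, mkLaw κ ω x (ClA u R x b) * mkLaw κ ω x' (ClA u R x' b) ∂Q
        ≤ ∫⁻ _, 1 ∂Q := by
          refine lintegral_mono fun ω => ?_
          calc mkLaw κ ω x (ClA u R x b) * mkLaw κ ω x' (ClA u R x' b) ≤ 1 * 1 := by
                gcongr <;> exact prob_le_one
            _ = 1 := one_mul 1
      _ = 1 := by simp

/-- tile systems do not see the energy -/
theorem tileSys_congr {u : Step d} {R : ℕ} {κ : ℝ} {Q : Measure (Environment d)}
    [IsProbabilityMeasure Q] {hstat : ∀ z : Site d, MeasurePreserving (shiftEnv z) Q Q}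
    {hR : IsFiniteRangeDependent Q R} {K K' : ℕ → ℕ → Site d → Site d → ℝ≥0∞} {hK hK'}
    {N : ℕ} {c1 c θ : ℝ≥0∞} (h : TileSys (kerSys u R κ Q hstat hR K hK) N c1 c θ) :
    TileSys (kerSys u R κ Q hstat hR K' hK') N c1 c θ :=
  ⟨fun L x hx => h.fam L x hx⟩

section sys

variable {Q : Measure (Environment d)} [IsProbabilityMeasure Q] {κ : ℝ} {R : ℕ}

lemma N_eq (F : Bind263.Frame Q κ R) (u : Step d) {a : ℕ} (b : ℕ) (ω : Environment d) {x : Site d}
    (hx : lev u x = a) :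
    (kT u R κ Q F.stat F.fin).N a b ω x = mkLaw κ ω x (ClA u R x b) := by
  rw [← tsum_gk]
  unfold KerSys.N
  refine tsum_congr fun y => ?_
  change (if lev u x = (a : ℤ) then gk u R κ b ω x y else 0) = _
  rw [if_pos hx]

lemma h_ge (F : Bind263.Frame Q κ R) (u : Step d) (n : ℕ) :
    ∫⁻ ω, rho u R κ ω 0 ∂Q ≤ (kT u R κ Q F.stat F.fin).h n := by
  change _ ≤ mkAnn κ Q 0 (ClA u R 0 n)
  rw [mkAnn_apply κ Q 0 (meas_ClA u R 0 n)]
  refine lintegral_mono fun ω => ?_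
  refine (rho_le u R κ ω 0 n).trans (le_of_eq ?_)
  have h := ClA_eq u R (0 : Site d) n
  rw [Flux132.lev_zero, zero_add] at h
  rw [← h]

lemma h_le (F : Bind263.Frame Q κ R) (u : Step d) (n : ℕ) :
    (kT u R κ Q F.stat F.fin).h n ≤ 1 := by
  change mkAnn κ Q 0 (ClA u R 0 n) ≤ 1
  rw [mkAnn_apply κ Q 0 (meas_ClA u R 0 n)]
  calc ∫⁻ ω, mkLaw κ ω 0 (ClA u R 0 n) ∂Q ≤ ∫⁻ _, 1 ∂Q :=
        lintegral_mono fun ω => prob_le_one
    _ = 1 := by simp

lemma rho_pos_all (F : Bind263.Frame Q κ R) (u : Step d)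
    (hA : annealedProb Q 0 (escapeEvent (B2d.dirVec u)) ≠ 0) :
    ∀ᵐ ω ∂Q, ∀ x, rho u R κ ω x ≠ 0 := by
  rw [ae_all_iff]
  intro x
  have h := (F.stat x).quasiMeasurePreserving.ae (rho_pos F u hA)
  filter_upwards [h] with ω hω
  rw [rho_shift]
  exact hω

/-- positivity of the climb masses -/
lemma Sh_pos (F : Bind263.Frame Q κ R) (u : Step d)
    (hA : annealedProb Q 0 (escapeEvent (B2d.dirVec u)) ≠ 0) :
    ∀ μ, (kT u R κ Q F.stat F.fin).Start μ → ∀ h, ∀ᵐ ω ∂Q,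
      (kT u R κ Q F.stat F.fin).Sh μ h ω ≠ 0 := by
  intro μ hμ h
  filter_upwards [rho_pos_all F u hA] with ω hω
  obtain ⟨x, hx⟩ : ∃ x, μ x ≠ 0 := by
    by_contra hcon
    push Not at hcon
    have h1 := hμ.one
    simp [hcon] at h1
  have hxL : x ∈ (kT u R κ Q F.stat F.fin).L 0 := by
    by_contra hcon
    exact hx (hμ.supp x hcon)
  have hx0 : lev u x = ((0 : ℕ) : ℤ) := hxL
  unfold KerSys.Sh
  rw [tot_push]
  refine ne_of_gt (lt_of_lt_of_le ?_ (ENNReal.le_tsum x))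
  refine pos_iff_ne_zero.2 (mul_ne_zero hx ?_)
  rw [N_eq F u h ω hx0]
  have h2 := rho_le u R κ ω x h
  have h3 := ClA_eq u R x h
  rw [hx0, Nat.cast_zero, zero_add] at h3
  rw [← h3] at h2
  intro h0
  rw [h0] at h2
  exact hω x (le_antisymm h2 zero_le)

/-- the point start -/
noncomputable def pt : Site d → ℝ≥0∞ := fun x => by classical exact if x = 0 then 1 else 0

lemma pt_start (F : Bind263.Frame Q κ R) (u : Step d) :
    (kT u R κ Q F.stat F.fin).Start (pt (d := d)) where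
  one := by
    classical
    unfold pt
    exact tsum_ite_eq 0 (fun _ => 1)
  supp x hx := by
    classical
    unfold pt
    rw [if_neg]
    rintro rfl
    refine hx ?_
    change lev u 0 = ((0 : ℕ) : ℤ)
    rw [Flux132.lev_zero]; rfl

lemma Sh_pt (F : Bind263.Frame Q κ R) (u : Step d) (h : ℕ) (ω : Environment d) :
    (kT u R κ Q F.stat F.fin).Sh (pt (d := d)) h ω = mkLaw κ ω 0 (ClA u R 0 h) := by
  classical
  unfold KerSys.Sh
  rw [tot_push, tsum_eq_single (0 : Site d)]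
  · rw [N_eq F u h ω (by rw [Flux132.lev_zero]; rfl)]
    simp [pt]
  · intro x hx
    simp [pt, hx]

/-- running maximum of `- log` of the climb masses at the heights `10 ^ j`, `j ≤ i` -/
noncomputable def aa (A : KerSys (Site d) Q) (μ : Site d → ℝ≥0∞) : ℕ → Environment d → ℝ
  | 0 => fun ω => - Real.log (A.Sh μ (10 ^ 0) ω).toReal
  | (i + 1) => fun ω => max (aa A μ i ω) (- Real.log (A.Sh μ (10 ^ (i + 1)) ω).toReal)

lemma aa_nonneg {A : KerSys (Site d) Q} {μ : Site d → ℝ≥0∞} (hμ : A.Start μ) (i : ℕ)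
    (ω : Environment d) : 0 ≤ aa A μ i ω := by
  have h0 : 0 ≤ aa A μ 0 ω := by
    change 0 ≤ - Real.log _
    rw [neg_nonneg]
    refine Real.log_nonpos ENNReal.toReal_nonneg ?_
    have := ENNReal.toReal_mono ENNReal.one_ne_top (Sh_le_one hμ (10 ^ 0) ω)
    simpa using this
  induction i with
  | zero => exact h0
  | succ i ih => exact le_trans ih (le_max_left _ _)

lemma aa_mono {A : KerSys (Site d) Q} {μ : Site d → ℝ≥0∞} (ω : Environment d) :
    Monotone fun i => aa A μ i ω :=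
  monotone_nat_of_le_succ fun _ => le_max_left _ _

lemma aa_meas {A : KerSys (Site d) Q} {μ : Site d → ℝ≥0∞} (hμ : A.Start μ) (i : ℕ) :
    Measurable[A.F10 i] (aa A μ i) := by
  have hb : ∀ j, Measurable[A.F10 j] fun ω => - Real.log (A.Sh μ (10 ^ j) ω).toReal := by
    intro j
    have h1 : Measurable[A.F (10 ^ j)] (A.Sh μ (10 ^ j)) := meas_Sh hμ _
    exact (Real.measurable_log.comp (ENNReal.measurable_toReal.comp h1)).neg
  induction i with
  | zero => exact hb 0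
  | succ i ih =>
    have h1 : Measurable[A.F10 (i + 1)] (aa A μ i) := ih.mono (A.F10.mono (Nat.le_succ i)) le_rfl
    exact h1.max (hb (i + 1))

lemma aa_eq {A : KerSys (Site d) Q} {μ : Site d → ℝ≥0∞} (hμ : A.Start μ)
    (hpos : ∀ h, ∀ᵐ ω ∂Q, A.Sh μ h ω ≠ 0) (i : ℕ) :
    ∀ᵐ ω ∂Q, aa A μ i ω = - Real.log (A.Sh μ (10 ^ i) ω).toReal := by
  induction i with
  | zero => exact Eventually.of_forall fun _ => rfl
  | succ i ih =>
    filter_upwards [ih, hpos (10 ^ (i + 1))] with ω h1 h2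
    change max (aa A μ i ω) (- Real.log (A.Sh μ (10 ^ (i + 1)) ω).toReal) = _
    refine max_eq_right ?_
    rw [h1]
    have t0 : A.Sh μ (10 ^ i) ω ≠ ∞ :=
      ne_top_of_le_ne_top ENNReal.one_ne_top (Sh_le_one hμ _ ω)
    have t1 : A.Sh μ (10 ^ (i + 1)) ω ≠ ∞ :=
      ne_top_of_le_ne_top ENNReal.one_ne_top (Sh_le_one hμ _ ω)
    have h3 : A.Sh μ (10 ^ (i + 1)) ω ≤ A.Sh μ (10 ^ i) ω :=
      Sh_anti (Nat.pow_le_pow_right (by norm_num) (Nat.le_succ i)) ω
    have h4 := ENNReal.toReal_mono t0 h3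
    have h5 := Real.log_le_log (ENNReal.toReal_pos h2 t1) h4
    linarith

/-- **the chain with a point start** (no energy): every order of every threshold. -/
theorem chain_pt (F : Bind263.Frame Q κ R) (u : Step d)
    (hA : annealedProb Q 0 (escapeEvent (B2d.dirVec u)) ≠ 0)
    (hT : ∀ Λ : ℝ, ∃ (m m1 : ℝ) (n0 : ℕ), 1 ≤ m ∧ ∀ n, n0 ≤ n →
      TileSys (kT u R κ Q F.stat F.fin) (2 ^ n) (ENNReal.ofReal (Real.exp (-m1)))
        (ENNReal.ofReal (Real.exp (-m))) (ENNReal.ofReal (Real.exp (-(Λ * m)))))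
    (hI : ∀ A : ℝ, 0 < A → ∃ c : ℝ, 0 < c ∧ ∃ t0 : ℝ, ∀ t : ℝ, t0 ≤ t → ∀ h : ℕ,
      (h : ℝ) ≤ A * t → Q {ω | mkLaw κ ω 0 (ClA u R 0 h) ≤ ENNReal.ofReal (Real.exp (-t))}
        ≤ ENNReal.ofReal (Real.exp (-(c * t ^ 2)))) :
    ∀ δ M : ℝ, 0 < δ → 0 < M → ∃ C : ℝ, ∀ i : ℕ,
      Q {ω | mkLaw κ ω 0 (ClA u R 0 ((10 ^ i : ℕ) : ℤ)) < ENNReal.ofReal (Real.exp (-(δ * i)))}
        ≤ ENNReal.ofReal (C * Real.exp (-(M * i))) := by
  intro δ M hδ hM
  set A := kT u R κ Q F.stat F.fin with hAdef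
  have hst : A.Start (pt (d := d)) := pt_start F u
  have hpos := Sh_pos F u hA
  have hposp : ∀ h, ∀ᵐ ω ∂Q, A.Sh (pt (d := d)) h ω ≠ 0 := hpos _ hst
  have hae : ∀ i, ∀ᵐ ω ∂Q, aa A pt i ω = - Real.log (A.Sh (pt (d := d)) (10 ^ i) ω).toReal :=
    aa_eq hst hposp
  have hW : ∀ lam ε' : ℝ, 0 < lam → 0 < ε' → ∃ u0 c : ℝ, 0 < c ∧ ∃ w : ℕ → ℝ, (∀ i, 0 ≤ w i) ∧
      (∀ J : ℕ, ∑ i ∈ Finset.range J, w i ≤ ε' * J + u0) ∧
      ∀ _n : ℕ, CompW.WH Q A.F10 (aa A pt) lam u0 c w := by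
    intro lam ε' hlam hε'
    obtain ⟨u0, c, hc, hu0, h⟩ := WindowK299.window_const hT lam hlam
    refine ⟨u0, c, hc, fun _ => 0, fun _ => le_rfl, fun J => ?_, fun _ => ?_⟩
    · simp only [Finset.sum_const_zero]
      have : (0:ℝ) ≤ J := Nat.cast_nonneg J
      nlinarith
    · intro i v hv hvc B hB
      simp only [add_zero] at hvc ⊢
      exact h pt hst hposp (aa A pt) hae i v hv hvc B hB
  have hp0 : ∫⁻ ω, rho u R κ ω 0 ∂Q ≠ 0 := by
    rw [Ne, lintegral_eq_zero_iff (measurable_rho u R κ 0)]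
    intro h0
    obtain ⟨ω, h1, h2⟩ := ((rho_pos F u hA).and h0).exists
    exact h1 h2
  have hR := RatioS775.hR_of_hWS A hp0 (h_ge F u) (h_le F u) hpos (fun _ => pt) (fun _ => hst)
    (fun _ => aa A pt) (fun _ => hae) hW
  obtain ⟨C, hC⟩ := CompW.chain Q A.F10 (fun _ => aa A pt) (fun _ => aa_meas hst)
    (fun _ => aa_nonneg hst) (fun _ => aa_mono) hW hR (by
      intro b δ' M' hb hδ' hM'
      obtain ⟨c, hc, t0, h1⟩ := hI (b / δ') (by positivity)
      obtain ⟨n1, hn1⟩ := exists_nat_ge (max (t0 / δ') (M' / (c * δ' ^ 2)))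
      refine ⟨n1, fun n hn J hJ => ?_⟩
      have hn' : (n1 : ℝ) ≤ n := by exact_mod_cast hn
      have g1 : t0 / δ' ≤ n := (le_max_left _ _).trans (hn1.trans hn')
      have g2 : M' / (c * δ' ^ 2) ≤ n := (le_max_right _ _).trans (hn1.trans hn')
      rw [div_le_iff₀ hδ'] at g1
      rw [div_le_iff₀ (by positivity)] at g2
      have h2 := h1 (δ' * n) (by linarith) (10 ^ J) (by
        push_cast
        calc (10:ℝ) ^ J ≤ b * n := hJ
          _ = b / δ' * (δ' * n) := by field_simp)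
      have hsub : ({ω | δ' * n ≤ aa A pt J ω} : Set (Environment d)) ≤ᵐ[Q]
          {ω | mkLaw κ ω 0 (ClA u R 0 ((10 ^ J : ℕ) : ℤ)) ≤
            ENNReal.ofReal (Real.exp (-(δ' * n)))} := by
        filter_upwards [hae J, hposp (10 ^ J)] with ω e1 e2
        intro hω
        have hω' : δ' * n ≤ aa A pt J ω := hω
        rw [e1, Sh_pt F u] at hω'
        rw [Sh_pt F u] at e2
        have t1 : mkLaw κ ω 0 (ClA u R 0 ((10 ^ J : ℕ) : ℤ)) ≠ ∞ := measure_ne_top _ _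
        have e3 := ENNReal.toReal_pos e2 t1
        change mkLaw κ ω 0 (ClA u R 0 ((10 ^ J : ℕ) : ℤ)) ≤ _
        rw [← ENNReal.ofReal_toReal t1]
        refine ENNReal.ofReal_le_ofReal ?_
        rw [← Real.log_le_iff_le_exp e3]
        linarith
      refine (measure_mono_ae hsub).trans (h2.trans (ENNReal.ofReal_le_ofReal ?_))
      refine Real.exp_le_exp.2 ?_
      have hn0 : (0:ℝ) ≤ n := Nat.cast_nonneg n
      have : M' * n ≤ (n * (c * δ' ^ 2)) * n := by gcongr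
      nlinarith) hδ hM
  refine ⟨C, fun i => le_trans (measure_mono_ae ?_) (hC i)⟩
  filter_upwards [hae i, hposp (10 ^ i)] with ω e1 e2
  intro hω
  have hω' : mkLaw κ ω 0 (ClA u R 0 ((10 ^ i : ℕ) : ℤ)) < ENNReal.ofReal (Real.exp (-(δ * i))) := hω
  change δ * i ≤ aa A pt i ω
  rw [e1, Sh_pt F u]
  rw [Sh_pt F u] at e2
  have t1 : mkLaw κ ω 0 (ClA u R 0 ((10 ^ i : ℕ) : ℤ)) ≠ ∞ := measure_ne_top _ _
  have e3 := ENNReal.toReal_pos e2 t1
  have e4 : (mkLaw κ ω 0 (ClA u R 0 ((10 ^ i : ℕ) : ℤ))).toReal ≤ Real.exp (-(δ * i)) := by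
    have := ENNReal.toReal_mono ENNReal.ofReal_ne_top hω'.le
    rwa [ENNReal.toReal_ofReal (Real.exp_pos _).le] at this
  have e5 := (Real.log_le_iff_le_exp e3).2 e4
  linarith

end sys

/-! ### marked climb and quenched climb -/

/-- the marked natural climb is a climb -/
lemma ClA_subset (u : Step d) (R h : ℕ) :
    ClA u R 0 (h : ℤ) ⊆ mpath (0 : Site d) ⁻¹' Fin804.Climb u h := by
  intro M hM
  obtain ⟨m, hm⟩ := mem_iUnion.1 hM
  obtain ⟨a1, a2, a3, a4⟩ := hm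
  have hz : mpath (0 : Site d) M 0 = 0 := pos_zero _ _
  refine ⟨m, ?_, fun k hk => ?_⟩
  · rw [hz]
    change lev u 0 + (h : ℤ) ≤ lev u (pos 0 M m)
    rw [a1, Flux132.lev_zero, zero_add]
  · rw [hz]
    change lev u 0 ≤ lev u (pos 0 M k)
    by_cases hkR : R ≤ k
    · have := a4 k hkR hk
      omega
    · have hup : ∀ j, j ≤ k → lev u (pos 0 M j) = lev u 0 + j := by
        intro j
        induction j with
        | zero => intro _; simp [pos_zero]
        | succ j ih =>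
          intro hj
          have e1 := ih (by omega)
          have e2 : M j = (u, true) := a3 j (by omega) (by omega)
          rw [pos_succ, Flux132.lev_add, e1, e2]
          have : lev u (stp ((u, true) : Mark d)) = 1 := Flux132.lev_step_self u
          rw [this]
          push_cast
          ring
      rw [hup k le_rfl]
      omega

/-- for `R = 0` they are the same event -/
lemma ClA_eq_climb (u : Step d) (h : ℕ) :
    ClA u 0 0 (h : ℤ) = mpath (0 : Site d) ⁻¹' Fin804.Climb u h := by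
  refine Subset.antisymm (ClA_subset u 0 h) ?_
  rintro M ⟨n, h1, h2⟩
  have hz : mpath (0 : Site d) M 0 = 0 := pos_zero _ _
  rw [hz] at h1 h2
  have h1' : lev u 0 + (h : ℤ) ≤ lev u (pos 0 M n) := h1
  rw [Flux132.lev_zero, zero_add] at h1'
  classical
  have hex : ∃ n, (h : ℤ) ≤ lev u (pos 0 M n) := ⟨n, h1'⟩
  set m := Nat.find hex with hm
  have g1 : (h : ℤ) ≤ lev u (pos 0 M m) := Nat.find_spec hex
  have g2 : ∀ i < m, lev u (pos 0 M i) < h := fun i hi => not_le.1 (Nat.find_min hex hi)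
  have g3 : m ≤ n := Nat.find_le h1'
  have g4 : lev u (pos 0 M m) = h := by
    rcases Nat.eq_zero_or_pos m with h0 | h0
    · rw [h0, pos_zero] at g1 ⊢
      rw [Flux132.lev_zero] at g1 ⊢
      omega
    · obtain ⟨k, hk⟩ : ∃ k, m = k + 1 := ⟨m - 1, by omega⟩
      have e1 := g2 k (by omega)
      have e2 := lev_pos_succ_le u 0 M k
      rw [hk] at g1 ⊢
      omega
  refine mem_iUnion.2 ⟨m, g4, g2, fun i _ hR => absurd hR (Nat.not_lt_zero i), fun i _ hi => ?_⟩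
  have := h2 i (by omega)
  have h5 : lev u (0 : Site d) ≤ lev u (pos 0 M i) := this
  simpa using h5

section fin

variable {Q : Measure (Environment d)} [IsProbabilityMeasure Q] {κ : ℝ} {R : ℕ}

lemma mk_le_climb (F : Bind263.Frame Q κ R) (u : Step d) :
    ∀ᵐ ω ∂Q, ∀ h : ℕ, mkLaw κ ω 0 (ClA u R 0 (h : ℤ)) ≤ quenchedLaw ω 0 (Fin804.Climb u h) := by
  filter_upwards [F.ell] with ω hω h
  rw [← mk_projection_of_le hω 0, Measure.map_apply (measurable_mpath 0)
    (Fin804.measurableSet_climb u h)]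
  exact measure_mono (ClA_subset u R h)

lemma mk_eq_climb (F : Bind263.Frame Q κ 0) (u : Step d) :
    ∀ᵐ ω ∂Q, ∀ h : ℕ, mkLaw κ ω 0 (ClA u 0 0 (h : ℤ)) = quenchedLaw ω 0 (Fin804.Climb u h) := by
  filter_upwards [F.ell] with ω hω h
  rw [← mk_projection_of_le hω 0, Measure.map_apply (measurable_mpath 0)
    (Fin804.measurableSet_climb u h), ClA_eq_climb]

/-- **(FL) from tile systems with point start and small heights**, any frame. -/
theorem FL_of (F : Bind263.Frame Q κ R) (u : Step d)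
    (hA : annealedProb Q 0 (escapeEvent (B2d.dirVec u)) ≠ 0)
    (hT : ∀ Λ : ℝ, ∃ (m m1 : ℝ) (n0 : ℕ), 1 ≤ m ∧ ∀ n, n0 ≤ n →
      TileSys (kT u R κ Q F.stat F.fin) (2 ^ n) (ENNReal.ofReal (Real.exp (-m1)))
        (ENNReal.ofReal (Real.exp (-m))) (ENNReal.ofReal (Real.exp (-(Λ * m)))))
    (hI : ∀ A : ℝ, 0 < A → ∃ c : ℝ, 0 < c ∧ ∃ t0 : ℝ, ∀ t : ℝ, t0 ≤ t → ∀ h : ℕ,
      (h : ℝ) ≤ A * t → Q {ω | mkLaw κ ω 0 (ClA u R 0 h) ≤ ENNReal.ofReal (Real.exp (-t))}
        ≤ ENNReal.ofReal (Real.exp (-(c * t ^ 2)))) : Fin804.FL Q u := by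
  intro δ M hδ hM
  obtain ⟨C, hC⟩ := chain_pt F u hA hT hI δ M hδ hM
  refine ⟨C, fun i => le_trans (measure_mono_ae ?_) (hC i)⟩
  filter_upwards [mk_le_climb F u] with ω h1
  intro hω
  exact lt_of_le_of_lt (h1 (10 ^ i)) hω

end fin

/-! ### the two inputs of `d = 2` -/

/-- **INPUT 1 (TILE, d = 2)**: tile systems of constant cost. -/
def TileD2 : Prop :=
  ∀ (ν : Measure (Row 2)) [IsProbabilityMeasure ν] (κ : ℝ), 0 < κ →
    (∀ᵐ p ∂ν, ∀ e : Step 2, κ ≤ p.1 e) → ∀ u : Step 2,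
    annealed (iidEnvironmentLaw ν) 0 (escapeEvent (B2d.dirVec u)) = 1 →
    ∀ Λ : ℝ, ∃ (m m1 : ℝ) (n0 : ℕ), 1 ≤ m ∧ ∀ n, n0 ≤ n →
      TileSys (kT u 0 0 (iidEnvironmentLaw ν) (Q561.iid_shift ν)
        (Q561.iid_isFiniteRangeDependent ν 0)) (2 ^ n) (ENNReal.ofReal (Real.exp (-m1)))
        (ENNReal.ofReal (Real.exp (-m))) (ENNReal.ofReal (Real.exp (-(Λ * m))))

/-- **INPUT 2 (small heights, d = 2; 569).** -/
def SmallD2 : Prop :=
  ∀ (ν : Measure (Row 2)) [IsProbabilityMeasure ν] (κ : ℝ), 0 < κ →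
    (∀ᵐ p ∂ν, ∀ e : Step 2, κ ≤ p.1 e) → ∀ u : Step 2,
    annealed (iidEnvironmentLaw ν) 0 (escapeEvent (B2d.dirVec u)) = 1 →
    ∀ A : ℝ, 0 < A → ∃ c : ℝ, 0 < c ∧ ∃ t0 : ℝ, ∀ t : ℝ, t0 ≤ t → ∀ h : ℕ, (h : ℝ) ≤ A * t →
      iidEnvironmentLaw ν {ω | quenchedLaw ω 0 (Fin804.Climb u h) ≤ ENNReal.ofReal (Real.exp (-t))}
        ≤ ENNReal.ofReal (Real.exp (-(c * t ^ 2)))

/-- **FINAL ASSEMBLY of `d = 2`.** -/
theorem fl2_of (h1 : TileD2) (h2 : SmallD2) : Spine.FL2Prop1 := by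
  intro ν _ κ hκ hν u hu
  have hpos := Spine.pos_of_ue hκ hν
  have F : Bind263.Frame (iidEnvironmentLaw ν) 0 0 := Bind263.frame_iid ν hpos
  have hA : annealedProb (iidEnvironmentLaw ν) 0 (escapeEvent (B2d.dirVec u)) ≠ 0 := by
    rw [← annealed_apply _ 0 (B2d.measurableSet_escapeEvent _), hu]
    exact one_ne_zero
  refine B9409.FL_of_804 (FL_of F u hA (h1 ν κ hκ hν u hu) ?_) 8
  intro A hA'
  obtain ⟨c, hc, t0, h⟩ := h2 ν κ hκ hν u hu A hA'
  refine ⟨c, hc, t0, fun t ht n hn => le_trans (measure_mono_ae ?_) (h t ht n hn)⟩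
  filter_upwards [mk_eq_climb F u] with ω h1
  intro hω
  have hω' : mkLaw 0 ω 0 (ClA u 0 0 (n : ℤ)) ≤ ENNReal.ofReal (Real.exp (-t)) := hω
  rw [h1 n] at hω'
  exact hω'

end Crest.Agent.R154.D2Asm244
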