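import Crest.Agent.R154.D1Small_569
import Crest.Agent.R154.D2Asm_244

/-! Row 154, d = 2 (helper569): 244's `SmallD2` from `D1S.small_heights`. -/

set_option autoImplicit false

namespace Crest.Agent.R154.D1S

open MeasureTheory Crest.ProbabilityR.RandomEnvironment Crest.Agent.R154

/-- two coordinates -/
lemma exists_other (i : Fin 2) : ∃ i' : Fin 2, i' ≠ i := by
  fin_cases i
  · exact ⟨1, by decide⟩
  · exact ⟨0, by decide⟩

/-- **SmallD2** (input 2 of 244's `fl2_of`). -/
theorem smallD2 : D2Asm244.SmallD2 := by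
  intro ν _ κ hκ hν u hA A hA0
  exact small_heights ν hκ hν u (exists_other u.1) hA hA0

/-- `FL2Prop1` from the tile system alone. -/
theorem fl2_of_tile (h1 : D2Asm244.TileD2) : Spine.FL2Prop1 := D2Asm244.fl2_of h1 smallD2

end Crest.Agent.R154.D1S
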