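import Crest.Agent.R154.D1B_569
import Crest.Agent.R154.B9Fin_409

/-!
Row 154, block d = 2, (D1) small heights (helper569), final form (every `d ≥ 2`): if
`P (A_u) = 1` then for every `A` the quenched probability to climb `h ≤ A t` levels before going
below the start is `≤ e^{-t}` with probability `≤ e^{- c t²}` only.
-/

set_option autoImplicit false

namespace Crest.Agent.R154.D1S

open MeasureTheory ProbabilityTheory Filter Topology Crest.ProbabilityR.RandomEnvironment
open Crest.Agent.R154 Crest.Agent.R154.B2d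
open Crest.Agent.R154.Flux132 (lev opp norm1)
open Crest.Agent.R154.Half419 (HH Dirc)
open Crest.Agent.R154.Fin804 (Climb)
open scoped ENNReal

variable {d : ℕ}

/-- centres of the boxes -/
noncomputable def cc (v : Fin d → ℝ) (i' : Fin d) (s W j k : ℕ) : Site d := fun i =>
  ⌊(((k : ℝ) + 1) * s) * v i⌋ + if i = i' then ((j * W : ℕ) : ℤ) else 0

lemma lev_cc {u : Step d} {v : Fin d → ℝ} (hv : v u.1 = if u.2 then 1 else -1) {i' : Fin d}
    (hi' : i' ≠ u.1) (s W j k : ℕ) : lev u (cc v i' s W j k) = (k + 1) * s := by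
  unfold lev cc
  have h1 : ¬ (u.1 = i') := fun h => hi' h.symm
  simp only [h1, if_false, add_zero, hv]
  by_cases h : u.2 = true
  · simp only [h, if_true, mul_one]
    have : ((k : ℝ) + 1) * s = (((k + 1) * s : ℤ) : ℝ) := by push_cast; ring
    rw [this, Int.floor_intCast]
  · simp only [h, Bool.false_eq_true, if_false, mul_neg, mul_one]
    have : -(((k : ℝ) + 1) * s) = ((-((k + 1) * s) : ℤ) : ℝ) := by push_cast; ring
    rw [this, Int.floor_intCast, neg_neg]

lemma floor_diff (a b : ℝ) : |(⌊a + b⌋ : ℝ) - ⌊a⌋ - b| ≤ 1 := by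
  have h1 := Int.floor_le (a + b)
  have h2 := Int.lt_floor_add_one (a + b)
  have h3 := Int.floor_le a
  have h4 := Int.lt_floor_add_one a
  rw [abs_le]
  constructor <;> linarith

lemma natAbs_le_of {z : ℤ} {n : ℕ} (h : |(z : ℝ)| ≤ n) : z.natAbs ≤ n := by
  have h1 : ((z.natAbs : ℕ) : ℝ) = |(z : ℝ)| := by
    rw [← Int.cast_abs, Int.abs_eq_natAbs]
    simp
  rw [← h1] at h
  exact_mod_cast h

lemma norm1_le {x : Site d} {n : ℕ} (h : ∀ i, |(x i : ℝ)| ≤ n) : norm1 x ≤ d * n := by
  unfold norm1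
  calc ∑ i, (x i).natAbs ≤ ∑ _i : Fin d, n := Finset.sum_le_sum fun i _ => natAbs_le_of (h i)
    _ = d * n := by simp

section geom
variable {u : Step d} {v : Fin d → ℝ} {M : ℕ} (hM : ∀ i, |v i| + 1 ≤ M) {i' : Fin d} {s : ℕ}
  (hs : 1 ≤ s) (W : ℕ)

include hM hs

omit hM hs in
lemma cc_succ (j k : ℕ) (i : Fin d) :
    |((cc v i' s W j (k + 1) i : ℤ) : ℝ) - cc v i' s W j k i - s * v i| ≤ 1 := by
  unfold cc
  have h := floor_diff ((((k : ℝ) + 1) * s) * v i) (s * v i)
  have e : (((k + 1 : ℕ) : ℝ) + 1) * s * v i = (((k : ℝ) + 1) * s) * v i + s * v i := by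
    push_cast; ring
  rw [e]
  push_cast
  convert h using 2
  ring

lemma sv_le (i : Fin d) : |(s : ℝ) * v i| + 1 ≤ M * s := by
  have h1 := hM i
  have h2 : (1 : ℝ) ≤ s := by exact_mod_cast hs
  rw [abs_mul, abs_of_nonneg (by linarith : (0 : ℝ) ≤ s)]
  nlinarith [abs_nonneg (v i)]

omit hM hs in
lemma cc_D (j k : ℕ) {ρ : ℝ} {z : Site d}
    (hz : ∀ i, |((z i : ℤ) : ℝ) - cc v i' s W j k i - s * v i| ≤ ρ) :
    norm1 (cc v i' s W j (k + 1) - z) ≤ d * (⌈ρ⌉₊ + 1) := by
  refine norm1_le fun i => ?_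
  have h1 := cc_succ (v := v) (i' := i') (s := s) W j k i
  have h2 := hz i
  have h3 : ρ ≤ ⌈ρ⌉₊ := Nat.le_ceil ρ
  rw [Pi.sub_apply]
  push_cast
  rw [abs_le] at *
  constructor <;> linarith [h1.1, h1.2, h2.1, h2.2]

lemma cc_D' (j k : ℕ) : norm1 (cc v i' s W j (k + 1) - cc v i' s W j k) ≤ d * (M * s) := by
  refine norm1_le fun i => ?_
  have h1 := cc_succ (v := v) (i' := i') (s := s) W j k i
  have h2 := sv_le hM hs i
  have h3 := abs_le.1 (le_refl |(s : ℝ) * v i|)
  rw [Pi.sub_apply]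
  push_cast
  rw [abs_le] at h1 ⊢
  constructor <;> linarith [h1.1, h1.2, h3.1, h3.2]

lemma cc_zero (j : ℕ) : norm1 (cc v i' s W j 0 - 0) ≤ d * (M * s) + j * W := by
  rw [sub_zero]
  unfold norm1
  calc ∑ i, (cc v i' s W j 0 i).natAbs
      ≤ ∑ i : Fin d, (M * s + if i = i' then j * W else 0) := by
        refine Finset.sum_le_sum fun i _ => ?_
        unfold cc
        refine (Int.natAbs_add_le _ _).trans (add_le_add (natAbs_le_of ?_) ?_)
        · have h1 := sv_le hM hs i
          have h2 := floor_diff 0 ((s : ℝ) * v i)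
          rw [zero_add, Int.floor_zero, Int.cast_zero, sub_zero] at h2
          have e : (((0 : ℕ) : ℝ) + 1) * s * v i = s * v i := by push_cast; ring
          rw [e]
          have h3 := abs_le.1 (le_refl |(s : ℝ) * v i|)
          push_cast
          rw [abs_le] at h2 ⊢
          constructor <;> linarith [h2.1, h2.2, h3.1, h3.2]
        · split_ifs
          · exact (Int.natAbs_natCast _).le
          · simp
    _ = d * (M * s) + j * W := by
        rw [Finset.sum_add_distrib]
        simp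

lemma cc_disj (hv : v u.1 = if u.2 then 1 else -1) (hi' : i' ≠ u.1) (hW : 3 * (M * s) + 1 ≤ W)
    (j k j' k' : ℕ) (h : j ≠ j' ∨ k + 2 ≤ k' ∨ k' + 2 ≤ k) :
    Disjoint (Bx u M s (cc v i' s W j k)) (Bx u M s (cc v i' s W j' k')) := by
  rw [Set.disjoint_left]
  rintro y ⟨h1, h2, h3⟩ ⟨h1', h2', h3'⟩
  rw [lev_cc hv hi'] at h2 h3 h2' h3'
  by_cases hk : k + 2 ≤ k'
  · have : ((k : ℤ) + 2) ≤ k' := by exact_mod_cast hk
    nlinarith
  by_cases hk' : k' + 2 ≤ k
  · have : ((k' : ℤ) + 2) ≤ k := by exact_mod_cast hk'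
    nlinarith
  have hj : j ≠ j' := by
    rcases h with h | h | h
    · exact h
    · exact absurd h hk
    · exact absurd h hk'
  have h4 := h1 i'
  have h4' := h1' i'
  have hdiff : |cc v i' s W j k i' - cc v i' s W j' k' i'| ≤ 2 * (M * s) := by
    rw [abs_le] at h4 h4' ⊢
    constructor <;> omega
  -- the floors are close
  have hfl : |(⌊(((k : ℝ) + 1) * s) * v i'⌋ : ℤ) - ⌊(((k' : ℝ) + 1) * s) * v i'⌋| ≤ M * s := by
    have hsv := sv_le hM hs i'
    have h5 : |((⌊(((k : ℝ) + 1) * s) * v i'⌋ : ℤ) : ℝ) - ⌊(((k' : ℝ) + 1) * s) * v i'⌋|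
        ≤ M * s := by
      have h3a := abs_le.1 (le_refl |(s : ℝ) * v i'|)
      have hcases : k = k' ∨ k = k' + 1 ∨ k' = k + 1 := by omega
      rcases hcases with rfl | rfl | rfl
      · rw [sub_self, abs_zero]; positivity
      · have h6 := floor_diff ((((k' : ℝ) + 1) * s) * v i') (s * v i')
        have e : (((k' + 1 : ℕ) : ℝ) + 1) * s * v i' = (((k' : ℝ) + 1) * s) * v i' + s * v i' := by
          push_cast; ring
        rw [e]
        rw [abs_le] at h6 ⊢
        constructor <;> linarith [h6.1, h6.2, h3a.1, h3a.2]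
      · have h6 := floor_diff ((((k : ℝ) + 1) * s) * v i') (s * v i')
        have e : (((k + 1 : ℕ) : ℝ) + 1) * s * v i' = (((k : ℝ) + 1) * s) * v i' + s * v i' := by
          push_cast; ring
        rw [e]
        rw [abs_le] at h6 ⊢
        constructor <;> linarith [h6.1, h6.2, h3a.1, h3a.2]
    exact_mod_cast h5
  unfold cc at hdiff
  simp only [if_true] at hdiff
  have hW' : 3 * ((M : ℤ) * s) + 1 ≤ W := by exact_mod_cast hW
  have hW0 : (0 : ℤ) ≤ W := by positivity
  rw [abs_le] at hdiff hfl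
  have hP : (0 : ℤ) ≤ (M : ℤ) * s := by positivity
  rcases Nat.lt_or_ge j j' with hlt | hge
  · have h7 : ((j : ℤ) + 1) * W ≤ j' * W := by
      refine mul_le_mul_of_nonneg_right ?_ hW0
      exact_mod_cast hlt
    push_cast at hdiff
    nlinarith [hdiff.1, hdiff.2, hfl.1, hfl.2]
  · have h7 : ((j' : ℤ) + 1) * W ≤ j * W := by
      refine mul_le_mul_of_nonneg_right ?_ hW0
      have : j' < j := by omega
      exact_mod_cast this
    push_cast at hdiff
    nlinarith [hdiff.1, hdiff.2, hfl.1, hfl.2]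

end geom

lemma dirVec_ne_zero (u : Step d) : dirVec u ≠ 0 := by
  intro h
  have := congrFun h u.1
  rw [dirVec_apply] at this
  by_cases hu : u.2 = true <;> simp [hu] at this

/-- the height coordinate of the asymptotic direction -/
lemma dir_height {u : Step d} {v : Fin d → ℝ} {X : ℕ → Site d} (h : Dirc (dirVec u) v X) :
    v u.1 = if u.2 then 1 else -1 := by
  obtain ⟨h1, h2⟩ := h
  have h3 := h2 u.1
  have hc : Tendsto (fun n => (X n u.1 : ℝ) / HH (dirVec u) (X n)) atTop
      (𝓝 (if u.2 then 1 else -1)) := by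
    refine tendsto_const_nhds.congr' ?_
    filter_upwards [h1.eventually_gt_atTop 0] with n hn
    rw [HH_dirVec] at hn ⊢
    unfold lev at hn ⊢
    by_cases hu : u.2 = true
    · simp only [hu, if_true] at hn ⊢
      rw [div_self hn.ne']
    · simp only [hu, Bool.false_eq_true, if_false] at hn ⊢
      push_cast at hn ⊢
      have : (X n u.1 : ℝ) ≠ 0 := fun h => by rw [h] at hn; simp at hn
      field_simp
  exact tendsto_nhds_unique h3 hc

lemma climb_eq (ω : Environment d) (u : Step d) (h : ℕ) :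
    quenchedLaw ω 0 (Climb u h) = quenchedLaw ω 0 (Up0 u h) := by
  refine measure_congr ?_
  filter_upwards [quenched_zero_eq ω 0] with X hX
  refine propext ?_
  change X ∈ Climb u h ↔ X ∈ Up0 u h
  simp only [Climb, Up0, Set.mem_ofPred_eq, hX, lev_zero, zero_add]

lemma ofReal_pow_exp {κ : ℝ} (hκ : 0 < κ) (n : ℕ) :
    ENNReal.ofReal κ ^ n = ENNReal.ofReal (Real.exp (-(n * -Real.log κ))) := by
  rw [← ENNReal.ofReal_pow hκ.le]
  congr 1
  rw [mul_neg, neg_neg, Real.exp_nat_mul, Real.exp_log hκ]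

set_option maxHeartbeats 2000000 in
/-- **(D1) small heights.** -/
theorem small_heights (ν : Measure (Row d)) [IsProbabilityMeasure ν] {κ : ℝ} (hκ : 0 < κ)
    (hν : ∀ᵐ p ∂ν, ∀ e : Step d, κ ≤ p.1 e) (u : Step d) (hd : ∃ i' : Fin d, i' ≠ u.1)
    (hA : annealed (iidEnvironmentLaw ν) 0 (escapeEvent (dirVec u)) = 1) {A : ℝ} (hA0 : 0 < A) :
    ∃ c : ℝ, 0 < c ∧ ∃ t0 : ℝ, ∀ t : ℝ, t0 ≤ t → ∀ h : ℕ, (h : ℝ) ≤ A * t →
      iidEnvironmentLaw ν {ω | quenchedLaw ω 0 (Climb u h) ≤ ENNReal.ofReal (Real.exp (-t))}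
        ≤ ENNReal.ofReal (Real.exp (-(c * t ^ 2))) := by
  classical
  obtain ⟨i', hi'⟩ := hd
  have hdpos : 0 < d := Fin.pos i'
  set Q := iidEnvironmentLaw ν with hQ
  -- uniform ellipticity
  set κ' : ℝ := min κ (1 / 2) with hκ'
  have hκ'0 : 0 < κ' := lt_min hκ (by norm_num)
  have hκ'1 : κ' ≤ 1 := (min_le_right _ _).trans (by norm_num)
  set L : ℝ := -Real.log κ' with hL
  have hL0 : 0 < L := by
    rw [hL, neg_pos]
    exact Real.log_neg hκ'0 (lt_of_le_of_lt (min_le_right _ _) (by norm_num))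
  have hell : ∀ᵐ ω ∂Q, ∀ (x : Site d) (e : Step d), κ' ≤ (ω x).1 e := by
    filter_upwards [B9409.ue_iid ν hν] with ω hω x e using (min_le_left _ _).trans (hω x e)
  -- direction
  have hpos : ∀ᵐ p ∂ν, ∀ e : Step d, 0 < p.1 e := by
    filter_upwards [hν] with p hp e using lt_of_lt_of_le hκ (hp e)
  have hne : annealedProb Q 0 (escapeEvent (dirVec u)) ≠ 0 := by
    rw [← annealed_apply Q 0 (measurableSet_escapeEvent _), hA]; exact one_ne_zero
  obtain ⟨v, _, hdir0⟩ := HalfFin.direction (Bind263.frame_iid ν hpos) (dirVec u)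
    (dirVec_ne_zero u) hne
  have hesc : ∀ᵐ X ∂(annealed Q 0), X ∈ escapeEvent (dirVec u) := by
    rw [ae_iff]
    have h1 := (prob_compl_eq_zero_iff (μ := annealed Q 0)
      (measurableSet_escapeEvent (dirVec u))).2 hA
    exact h1
  have hdir : ∀ᵐ X ∂(annealed Q 0), Dirc (dirVec u) v X := by
    filter_upwards [hdir0, hesc] with X h1 h2 using h1 h2
  have hvu : v u.1 = if u.2 then 1 else -1 := by
    obtain ⟨X, hX⟩ := hdir.exists
    exact dir_height hX
  obtain ⟨M, hM⟩ : ∃ M : ℕ, ∀ i, |v i| + 1 ≤ M := by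
    obtain ⟨M, hM⟩ := exists_nat_ge (∑ i, |v i| + 1)
    refine ⟨M, fun i => le_trans ?_ hM⟩
    have := Finset.single_le_sum (f := fun i => |v i|) (fun i _ => abs_nonneg (v i))
      (Finset.mem_univ i)
    linarith
  have hM1 : (1 : ℝ) ≤ M := by
    have := hM i'
    have := abs_nonneg (v i')
    linarith
  have hdr : (1 : ℝ) ≤ d := by exact_mod_cast hdpos
  -- parameters
  set η : ℝ := min 1 (1 / (16 * d * A * L)) with hη
  have hη0 : 0 < η := lt_min one_pos (by positivity)
  have hη1 : η ≤ 1 := min_le_left _ _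
  have hη2 : d * η * A * L ≤ 1 / 16 := by
    have h1 : η ≤ 1 / (16 * d * A * L) := min_le_right _ _
    rw [le_div_iff₀ (by positivity)] at h1
    linarith
  set Λ : ℝ := 32 * d * M * L * (A + 1) with hΛ
  have hΛ0 : 0 < Λ := by positivity
  have htend := tendsto_bd (Q := Q) u hdir hη0 hη1 hM
  obtain ⟨s, hsq, hs1, hs2, hs3⟩ : ∃ s : ℕ, Q (Bd u v (η * s) M s 0) ≤ ENNReal.ofReal (Real.exp (-Λ))
      ∧ 1 ≤ s ∧ 32 * d * A * L ≤ (s : ℝ) ∧ 16 * A ≤ (s : ℝ) := by
    have e1 := htend.eventually_le_const (u := ENNReal.ofReal (Real.exp (-Λ)))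
      (ENNReal.ofReal_pos.2 (Real.exp_pos _))
    have e2 := (tendsto_natCast_atTop_atTop (R := ℝ)).eventually_ge_atTop (32 * d * A * L)
    have e3 := (tendsto_natCast_atTop_atTop (R := ℝ)).eventually_ge_atTop (16 * A)
    exact (e1.and ((eventually_ge_atTop 1).and (e2.and e3))).exists
  have hsr : (1 : ℝ) ≤ s := by exact_mod_cast hs1
  set W : ℕ := 3 * (M * s) + 1 with hW
  have hWr : (1 : ℝ) ≤ W := by
    rw [hW]; push_cast; nlinarith
  set a : ℝ := 1 / (16 * W * L) with ha
  have ha0 : 0 < a := by positivity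
  set b : ℝ := 1 / (32 * d * M * s * L) with hb
  have hb0 : 0 < b := by positivity
  set ρ : ℝ := η * s with hρ
  set D : ℕ := d * (⌈ρ⌉₊ + 1) with hD
  set D' : ℕ := d * (M * s) with hD'
  refine ⟨a / (8 * s), by positivity, 1 + 16 * d * M * s * L + 2 * s * Λ + 2 / a + 8 * s / a,
    fun t ht h hh => ?_⟩
  have ht1 : 1 ≤ t := by
    have h1 : 0 ≤ 16 * d * M * s * L := by positivity
    have h2 : 0 ≤ 2 * s * Λ := by positivity
    have h3 : 0 ≤ 2 / a := by positivity
    have h4 : 0 ≤ 8 * s / a := by positivity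
    linarith
  have ht2 : 16 * d * M * s * L ≤ t := by
    have h2 : 0 ≤ 2 * s * Λ := by positivity
    have h3 : 0 ≤ 2 / a := by positivity
    have h4 : 0 ≤ 8 * s / a := by positivity
    linarith
  have ht3 : 2 * s * Λ ≤ t := by
    have h1 : 0 ≤ 16 * d * M * s * L := by positivity
    have h3 : 0 ≤ 2 / a := by positivity
    have h4 : 0 ≤ 8 * s / a := by positivity
    linarith
  have ht4 : 2 / a ≤ t := by
    have h1 : 0 ≤ 16 * d * M * s * L := by positivity
    have h2 : 0 ≤ 2 * s * Λ := by positivity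
    have h4 : 0 ≤ 8 * s / a := by positivity
    linarith
  have ht5 : 8 * s / a ≤ t := by
    have h1 : 0 ≤ 16 * d * M * s * L := by positivity
    have h2 : 0 ≤ 2 * s * Λ := by positivity
    have h3 : 0 ≤ 2 / a := by positivity
    linarith
  have ht0 : 0 < t := by linarith
  set J : ℕ := ⌊a * t⌋₊ with hJ
  set m : ℕ := ⌊b * t⌋₊ with hm
  set K : ℕ := h / s with hK
  have hJr : (J : ℝ) ≤ a * t := Nat.floor_le (by positivity)
  have hJr' : a * t - 1 ≤ J := by have := Nat.lt_floor_add_one (a * t); linarith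
  have hmr : (m : ℝ) ≤ b * t := Nat.floor_le (by positivity)
  have hmr' : b * t - 1 ≤ m := by have := Nat.lt_floor_add_one (b * t); linarith
  have hKr : (K : ℝ) * s ≤ A * t := by
    have h1 : K * s ≤ h := Nat.div_mul_le_self h s
    have h2 : ((K * s : ℕ) : ℝ) ≤ h := by exact_mod_cast h1
    push_cast at h2
    linarith
  have hKr2 : (K : ℝ) ≤ A * t / s := by rw [le_div_iff₀ (by positivity)]; exact hKr
  have hKh : (h : ℤ) ≤ (K + 1) * s := by
    have h1 : h < (K + 1) * s := by
      have := Nat.lt_div_mul_add (a := h) (b := s) (by omega)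
      rw [hK]; nlinarith
    exact_mod_cast h1.le
  -- the exceptional event
  set T : Set (Environment d) := {ω | ∀ j < J, 2 * m ≤
      ((Finset.range K).filter fun k => ω ∈ Bd u v ρ M s (cc v i' s W j k)).card} with hT
  have hTle : Q T ≤ 2 * (2 ^ (J * K) * ENNReal.ofReal (Real.exp (-Λ)) ^ (J * m)) :=
    prob_tubes ν u v ρ M s (fun j k => cc v i' s W j k)
      (fun j k j' k' hjk => cc_disj hM hs1 W hvu hi' le_rfl j k j' k' hjk) hsq J K m
  -- inclusion
  have hincl : Q {ω | quenchedLaw ω 0 (Climb u h) ≤ ENNReal.ofReal (Real.exp (-t))} ≤ Q T := by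
    refine measure_mono_ae ?_
    filter_upwards [hell] with ω hω hle
    change ω ∈ T
    by_contra hcon
    rw [hT] at hcon
    simp only [Set.mem_ofPred_eq, not_forall, not_le] at hcon
    obtain ⟨j, hj, hcard⟩ := hcon
    have hle' : quenchedLaw ω 0 (Climb u h) ≤ ENNReal.ofReal (Real.exp (-t)) := hle
    rw [climb_eq] at hle'
    set S : Finset ℕ := (Finset.range K).filter fun k => ω ∈ Bd u v ρ M s (cc v i' s W j k) with hS
    have hlevc : ∀ k, lev u (cc v i' s W j k) = (k + 1) * s := fun k => lev_cc hvu hi' s W j k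
    have hlevs : ∀ k, (s : ℤ) ≤ lev u (cc v i' s W j k) := fun k => by
      rw [hlevc k]
      have : (0 : ℤ) ≤ (k : ℤ) * s := by positivity
      linarith
    have h1 := tube_ge ω hκ'1 hω u v ρ M s h (fun k => cc v i' s W j k) hlevs D D'
      (fun k z _ hz => cc_D W j k hz) (fun k => cc_D' hM hs1 W j k) S K
      (fun k hk hkS => by
        by_contra hcon
        push Not at hcon
        exact hkS (Finset.mem_filter.2 ⟨Finset.mem_range.2 hk, hcon⟩))
      (by rw [hlevc K]; exact hKh) 0 (Nat.zero_le K)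
    have h2 := path_ge ω hω u h (d * (M * s) + j * W) 0 (cc v i' s W j 0)
      (cc_zero hM hs1 W j) hκ'1 (by rw [lev_zero]) (le_trans (by positivity) (hlevs 0))
    have hcard2 : (S.filter (0 ≤ ·)).card ≤ 2 * m := by
      refine (Finset.card_filter_le _ _).trans hcard.le
    have h3 : ENNReal.ofReal (Real.exp (-(K * Real.log 2 + (d * (M * s) + J * W + D * K
        + D' * (2 * m)) * L))) ≤ quenchedLaw ω 0 (Up0 u h) := by
      refine le_trans ?_ ((mul_le_mul' le_rfl h1).trans h2)
      have hk1 : ENNReal.ofReal κ' ≤ 1 := by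
        rw [← ENNReal.ofReal_one]; exact ENNReal.ofReal_le_ofReal hκ'1
      calc ENNReal.ofReal (Real.exp (-(K * Real.log 2 + (d * (M * s) + J * W + D * K
            + D' * (2 * m)) * L)))
          = (1 / 2) ^ K * ENNReal.ofReal κ' ^ (d * (M * s) + J * W + D * K + D' * (2 * m)) := by
            rw [ofReal_pow_exp hκ'0]
            have e1 : ((1 : ℝ≥0∞) / 2) ^ K = ENNReal.ofReal (Real.exp (-(K * Real.log 2))) := by
              have e2 : (1 : ℝ≥0∞) / 2 = ENNReal.ofReal (1 / 2) := by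
                rw [ENNReal.ofReal_div_of_pos (by norm_num)]; simp
              rw [e2, ← ENNReal.ofReal_pow (by norm_num)]
              congr 1
              rw [← mul_neg, Real.exp_nat_mul, Real.exp_neg, Real.exp_log (by norm_num)]
              norm_num
            rw [e1, ← ENNReal.ofReal_mul (Real.exp_pos _).le, ← Real.exp_add]
            congr 2
            push_cast
            ring
        _ ≤ (1 / 2) ^ K * ENNReal.ofReal κ' ^ ((d * (M * s) + j * W) + (D * K
              + D' * (S.filter (0 ≤ ·)).card)) := by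
            refine mul_le_mul' le_rfl (pow_le_pow_right_of_le_one' hk1 ?_)
            have e3 : j * W ≤ J * W := Nat.mul_le_mul_right W hj.le
            have e4 : D' * (S.filter (0 ≤ ·)).card ≤ D' * (2 * m) := Nat.mul_le_mul_left D' hcard2
            omega
        _ = ENNReal.ofReal κ' ^ (d * (M * s) + j * W) * ((1 / 2) ^ (K - 0) *
              ENNReal.ofReal κ' ^ (D * (K - 0) + D' * (S.filter (0 ≤ ·)).card)) := by
            rw [Nat.sub_zero, pow_add _ (d * (M * s) + j * W)]
            ring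
    have h4 := h3.trans hle'
    rw [ENNReal.ofReal_le_ofReal_iff (Real.exp_pos _).le, Real.exp_le_exp, neg_le_neg_iff] at h4
    -- numerical contradiction
    have hlog2 : Real.log 2 ≤ 1 := by
      have := Real.log_two_lt_d9; linarith
    have c1 : (K : ℝ) * Real.log 2 ≤ t / 16 := by
      have e1 : (K : ℝ) ≤ t / 16 := by
        refine hKr2.trans ?_
        rw [div_le_iff₀ (by positivity)]
        have := mul_le_mul_of_nonneg_right hs3 ht0.le
        linarith
      have e2 : (K : ℝ) * Real.log 2 ≤ K * 1 :=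
        mul_le_mul_of_nonneg_left hlog2 (Nat.cast_nonneg K)
      linarith
    have c2 : (d * (M * s)) * L ≤ t / 16 := by linarith
    have c3 : (J * W) * L ≤ t / 16 := by
      have e1 : a * (W * L) = 1 / 16 := by
        rw [ha]; field_simp
      calc (J * W) * L = J * (W * L) := by ring
        _ ≤ (a * t) * (W * L) := mul_le_mul_of_nonneg_right hJr (by positivity)
        _ = (a * (W * L)) * t := by ring
        _ = t / 16 := by rw [e1]; ring
    have c4 : ((D : ℝ) * K) * L ≤ t / 8 := by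
      have e1 : (D : ℝ) ≤ d * (η * s + 2) := by
        rw [hD]
        push_cast
        have := Nat.ceil_lt_add_one (a := ρ) (by positivity)
        refine mul_le_mul_of_nonneg_left ?_ (by linarith)
        linarith
      calc ((D : ℝ) * K) * L ≤ ((d * (η * s + 2)) * K) * L := by gcongr
        _ = (d * η * L) * (K * s) + (2 * d * L) * K := by ring
        _ ≤ (d * η * L) * (A * t) + (2 * d * L) * (A * t / s) := by gcongr
        _ = (d * η * A * L) * t + (2 * d * A * L) * t / s := by ring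
        _ ≤ (1 / 16) * t + (1 / 16) * t := by
            refine add_le_add (mul_le_mul_of_nonneg_right hη2 ht0.le) ?_
            rw [div_le_iff₀ (by positivity)]
            have := mul_le_mul_of_nonneg_right hs2 ht0.le
            linarith
        _ = t / 8 := by ring
    have c5 : ((D' : ℝ) * (2 * m)) * L ≤ t / 16 := by
      have e1 : b * (2 * (d * (M * s)) * L) = 1 / 16 := by
        rw [hb]; field_simp; norm_num
      calc ((D' : ℝ) * (2 * m)) * L = m * (2 * (d * (M * s)) * L) := by rw [hD']; push_cast; ring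
        _ ≤ (b * t) * (2 * (d * (M * s)) * L) := mul_le_mul_of_nonneg_right hmr (by positivity)
        _ = (b * (2 * (d * (M * s)) * L)) * t := by ring
        _ = t / 16 := by rw [e1]; ring
    have c6 : ((d : ℝ) * (M * s) + J * W + D * K + D' * (2 * m)) * L
        = (d * (M * s)) * L + (J * W) * L + ((D : ℝ) * K) * L + ((D' : ℝ) * (2 * m)) * L := by ring
    linarith
  refine hincl.trans (hTle.trans ?_)
  -- final numerical bound
  have hq : ENNReal.ofReal (Real.exp (-Λ)) ^ (J * m)
      = ENNReal.ofReal (Real.exp (-(((J * m : ℕ) : ℝ) * Λ))) := by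
    rw [← ENNReal.ofReal_pow (Real.exp_pos _).le, ← Real.exp_nat_mul]
    congr 2
    ring
  have h2 : (2 : ℝ≥0∞) ^ (J * K) = ENNReal.ofReal (Real.exp (((J * K : ℕ) : ℝ) * Real.log 2)) := by
    rw [Real.exp_nat_mul, Real.exp_log (by norm_num), ENNReal.ofReal_pow (by norm_num)]
    simp
  have h22 : (2 : ℝ≥0∞) = ENNReal.ofReal (Real.exp (Real.log 2)) := by
    rw [Real.exp_log (by norm_num)]; simp
  rw [hq, h2]
  conv_lhs => rw [h22]
  rw [← ENNReal.ofReal_mul (Real.exp_pos _).le, ← ENNReal.ofReal_mul (Real.exp_pos _).le,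
    ← Real.exp_add, ← Real.exp_add]
  refine ENNReal.ofReal_le_ofReal (Real.exp_le_exp.2 ?_)
  have hlog2 : Real.log 2 ≤ 1 := by
    have := Real.log_two_lt_d9; linarith
  have hlog0 : 0 ≤ Real.log 2 := Real.log_nonneg (by norm_num)
  have hJ0 : (0 : ℝ) ≤ J := Nat.cast_nonneg J
  have e1 : (K : ℝ) * Real.log 2 - m * Λ ≤ -(t / (2 * s)) := by
    have e2 : (K : ℝ) * Real.log 2 ≤ A * t / s := by
      calc (K : ℝ) * Real.log 2 ≤ K * 1 := mul_le_mul_of_nonneg_left hlog2 (Nat.cast_nonneg K)
        _ ≤ A * t / s := by rw [mul_one]; exact hKr2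
    have e3 : (b * t - 1) * Λ ≤ m * Λ := mul_le_mul_of_nonneg_right hmr' hΛ0.le
    have e4 : b * Λ = (A + 1) / s := by
      rw [hb, hΛ]; field_simp
    have e5 : (b * t - 1) * Λ = (A + 1) * t / s - Λ := by
      rw [sub_mul, one_mul, mul_right_comm, e4]; ring
    have e6 : Λ ≤ t / (2 * s) := by
      rw [le_div_iff₀ (by positivity)]; linarith
    have e7 : (A + 1) * t / s = A * t / s + 2 * (t / (2 * s)) := by
      field_simp
    linarith
  have e8 : a * t / 2 ≤ J := by
    have : 1 ≤ a * t / 2 := by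
      rw [div_le_iff₀ ha0] at ht4
      linarith
    linarith
  have e9 : (J : ℝ) * (t / (2 * s)) ≥ (a * t / 2) * (t / (2 * s)) :=
    mul_le_mul_of_nonneg_right e8 (by positivity)
  have e10 : (a * t / 2) * (t / (2 * s)) = 2 * (a / (8 * s) * t ^ 2) := by
    field_simp
    norm_num
  have e11 : 1 ≤ a / (8 * s) * t ^ 2 := by
    have h5 : 8 * s / a * 1 ≤ t * t := by
      refine mul_le_mul ht5 ht1 zero_le_one ht0.le
    rw [mul_one, div_le_iff₀ ha0] at h5
    rw [div_mul_eq_mul_div, le_div_iff₀ (by positivity)]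
    have e13 : t * t * a = a * t ^ 2 := by ring
    linarith
  push_cast
  have e12 : (J : ℝ) * ((K : ℝ) * Real.log 2 - m * Λ) ≤ J * (-(t / (2 * s))) :=
    mul_le_mul_of_nonneg_left e1 hJ0
  have e14 : (J : ℝ) * ((K : ℝ) * Real.log 2 - m * Λ)
      = J * K * Real.log 2 + -(J * m * Λ) := by ring
  have e15 : (J : ℝ) * (-(t / (2 * s))) = -(J * (t / (2 * s))) := by ring
  linarith

end Crest.Agent.R154.D1S
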