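import Mathlib

/-!
# Row 154, `d = 2`, D2.9-END (helper36): the pure choice of the constants
-/

set_option autoImplicit false

namespace Crest.Agent.R154.D2V36

open Filter Topology

lemma tendsto_pow_exp {c : ℝ} (hc : 0 < c) (k : ℕ) (K : ℝ) :
    Tendsto (fun t : ℕ => K * ((t : ℝ) ^ k * Real.exp (-(c * t)))) atTop (𝓝 0) := by
  have h1 := (Real.tendsto_pow_mul_exp_neg_atTop_nhds_zero k).comp
    ((tendsto_natCast_atTop_atTop (R := ℝ)).const_mul_atTop hc)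
  have h2 := h1.const_mul (K / c ^ k)
  rw [mul_zero] at h2
  refine h2.congr fun t => ?_
  simp only [Function.comp]
  have hck : c ^ k ≠ 0 := by positivity
  rw [mul_pow]
  field_simp

lemma tendsto_inv_pow' {k : ℕ} (hk : k ≠ 0) (K : ℝ) :
    Tendsto (fun t : ℕ => K / (t : ℝ) ^ k) atTop (𝓝 0) :=
  Tendsto.const_div_atTop ((tendsto_pow_atTop hk).comp (tendsto_natCast_atTop_atTop (R := ℝ))) K

theorem consts36 (m : ℕ) {Λ Cs Cl cl Co c0 : ℝ} (hΛ : 0 < Λ) (hCs : 0 < Cs) (hCl : 0 < Cl)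
    (hcl : 0 < cl) (hCo : 0 < Co) (hc0 : 0 < c0) {ε : ℝ} (hε : 0 < ε) :
    ∃ (A : ℝ) (n : ℕ) (a δ b : ℝ), 1 ≤ A ∧ 2 * m + 2 ≤ n ∧
      0 < a ∧ a ≤ 1 ∧ 2 * (A * (Cs / Real.sqrt n)) ≤ a ∧ Cl * Real.exp (-(cl * A)) < δ ∧
      0 < b ∧ b ≤ 1 ∧ b ≤ ε ∧ m * (Λ * (3 * (A * (Cs / Real.sqrt n))) + δ) ≤ b ∧
      b ^ 2 * (1 + 2 * n * (Co * a ^ c0)) + 6 * n * δ ≤ ε := by
  obtain ⟨P0, hP0⟩ := exists_nat_ge (3 / c0)
  set P : ℕ := P0 + 1 with hP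
  have hP1 : P ≠ 0 := Nat.succ_ne_zero _
  have hPc : 3 ≤ P * c0 := by
    have h1 : 3 / c0 ≤ (P : ℝ) := by rw [hP]; push_cast; linarith
    rwa [div_le_iff₀ hc0] at h1
  set Kb : ℝ := m * (3 * Λ * Cs + 1) + 1 with hKb
  have hm0 : (0 : ℝ) ≤ m := Nat.cast_nonneg m
  have hKb0 : 0 < Kb := by positivity
  set K2 : ℝ := 2 * Kb ^ 2 * Co * (2 * Cs) ^ c0 with hK2
  have hCs2 : 0 < (2 * Cs) ^ c0 := Real.rpow_pos_of_pos (by positivity) _
  have ev1 := (tendsto_pow_exp hcl P (2 * Cl)).eventually (ge_mem_nhds (zero_lt_one))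
  have ev2 := (tendsto_inv_pow' hP1 Kb).eventually
    (ge_mem_nhds (show (0 : ℝ) < min 1 (ε / 3) by positivity))
  have ev3 := (tendsto_inv_pow' one_ne_zero K2).eventually
    (ge_mem_nhds (show (0 : ℝ) < ε / 3 by positivity))
  have ev4 := (tendsto_pow_exp hcl (2 * P + 2) (12 * Cl)).eventually
    (ge_mem_nhds (show (0 : ℝ) < ε / 3 by positivity))
  have ev5 := (tendsto_inv_pow' hP1 (2 * Cs)).eventually (ge_mem_nhds (zero_lt_one))
  obtain ⟨t, h1, h2, h3, h4, h5, h6⟩ := (ev1.and (ev2.and (ev3.and (ev4.and (ev5.and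
    (eventually_ge_atTop (2 * m + 2))))))).exists
  have ht1 : (1 : ℝ) ≤ t := by
    have : 1 ≤ t := by omega
    exact_mod_cast this
  have ht0 : (0 : ℝ) < t := by linarith
  have htP : (0 : ℝ) < (t : ℝ) ^ P := by positivity
  have hsq : Real.sqrt ((t ^ (2 * P + 2) : ℕ) : ℝ) = (t : ℝ) ^ (P + 1) := by
    push_cast
    rw [show 2 * P + 2 = (P + 1) * 2 by ring, pow_mul, Real.sqrt_sq (by positivity)]
  have hq : (t : ℝ) * (Cs / Real.sqrt ((t ^ (2 * P + 2) : ℕ) : ℝ)) = Cs / (t : ℝ) ^ P := by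
    rw [hsq, pow_succ]
    field_simp
  have hexp := Real.exp_pos (-(cl * t))
  refine ⟨t, t ^ (2 * P + 2), 2 * Cs / (t : ℝ) ^ P, 2 * Cl * Real.exp (-(cl * t)),
    Kb / (t : ℝ) ^ P, ht1, ?_, by positivity, h5, ?_, ?_, by positivity,
    h2.trans (min_le_left _ _), ?_, ?_, ?_⟩
  · exact h6.trans (Nat.le_self_pow (by omega) t)
  · rw [hq, mul_div_assoc]
  · nlinarith
  · have := h2.trans (min_le_right _ _)
    linarith
  · rw [hq]
    have e1 : 2 * Cl * Real.exp (-(cl * t)) ≤ 1 / (t : ℝ) ^ P := by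
      rw [le_div_iff₀ htP]
      have : 2 * Cl * ((t : ℝ) ^ P * Real.exp (-(cl * t))) ≤ 1 := h1
      linarith
    have e2 : Λ * (3 * (Cs / (t : ℝ) ^ P)) + 2 * Cl * Real.exp (-(cl * t)) ≤
        (3 * Λ * Cs + 1) / (t : ℝ) ^ P := by
      have e3 : (3 * Λ * Cs + 1) / (t : ℝ) ^ P = Λ * (3 * (Cs / (t : ℝ) ^ P)) + 1 / (t : ℝ) ^ P := by
        field_simp
      rw [e3]
      linarith
    calc m * (Λ * (3 * (Cs / (t : ℝ) ^ P)) + 2 * Cl * Real.exp (-(cl * t)))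
        ≤ m * ((3 * Λ * Cs + 1) / (t : ℝ) ^ P) := mul_le_mul_of_nonneg_left e2 hm0
      _ = (m * (3 * Λ * Cs + 1)) / (t : ℝ) ^ P := by rw [mul_div_assoc]
      _ ≤ Kb / (t : ℝ) ^ P := by
          refine div_le_div_of_nonneg_right ?_ htP.le
          rw [hKb]; linarith
  · have hb1 : Kb / (t : ℝ) ^ P ≤ 1 := h2.trans (min_le_left _ _)
    have hb3 : Kb / (t : ℝ) ^ P ≤ ε / 3 := h2.trans (min_le_right _ _)
    have hb0 : 0 < Kb / (t : ℝ) ^ P := by positivity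
    have hbb : (Kb / (t : ℝ) ^ P) ^ 2 ≤ ε / 3 := by nlinarith
    have hac : (2 * Cs / (t : ℝ) ^ P) ^ c0 ≤ (2 * Cs) ^ c0 / (t : ℝ) ^ 3 := by
      rw [Real.div_rpow (by positivity) (by positivity)]
      refine div_le_div_of_nonneg_left hCs2.le (by positivity) ?_
      rw [← Real.rpow_natCast (t : ℝ) P, ← Real.rpow_mul ht0.le, ← Real.rpow_natCast (t : ℝ) 3]
      refine Real.rpow_le_rpow_of_exponent_le ht1 ?_
      push_cast
      exact hPc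
    have hmain : (Kb / (t : ℝ) ^ P) ^ 2 * (2 * ((t ^ (2 * P + 2) : ℕ) : ℝ) *
        (Co * (2 * Cs / (t : ℝ) ^ P) ^ c0)) ≤ K2 / (t : ℝ) ^ 1 := by
      calc (Kb / (t : ℝ) ^ P) ^ 2 * (2 * ((t ^ (2 * P + 2) : ℕ) : ℝ) *
            (Co * (2 * Cs / (t : ℝ) ^ P) ^ c0))
          ≤ (Kb / (t : ℝ) ^ P) ^ 2 * (2 * ((t ^ (2 * P + 2) : ℕ) : ℝ) *
            (Co * ((2 * Cs) ^ c0 / (t : ℝ) ^ 3))) := by gcongr
        _ = K2 / (t : ℝ) ^ 1 := by
            have e7 : (t : ℝ) ^ (2 * P + 2) = ((t : ℝ) ^ P) ^ 2 * (t : ℝ) ^ 2 := by ring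
            rw [hK2]
            push_cast
            rw [e7]
            field_simp
    have h3' : K2 / (t : ℝ) ^ 1 ≤ ε / 3 := h3
    have h4' : 12 * Cl * ((t : ℝ) ^ (2 * P + 2) * Real.exp (-(cl * t))) ≤ ε / 3 := h4
    have e6 : 6 * ((t ^ (2 * P + 2) : ℕ) : ℝ) * (2 * Cl * Real.exp (-(cl * t))) =
        12 * Cl * ((t : ℝ) ^ (2 * P + 2) * Real.exp (-(cl * t))) := by
      push_cast
      ring
    rw [e6, mul_add, mul_one]
    linarith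

end Crest.Agent.R154.D2V36
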