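import Crest.Agent.R154.D2W_36
import Crest.Agent.R154.D2WK_36

/-!
# Row 154, `d = 2`, D2.9 (helper36): `LLN` from the five literal inputs, no constants left
-/

set_option autoImplicit false

namespace Crest.Agent.R154.D2V36

open MeasureTheory ProbabilityTheory Crest.ProbabilityR.RandomEnvironment Crest.Agent.R154

theorem constsP : ConstsP := fun m _ _ _ _ _ _ hΛ hCs hCl hcl hCo hc0 _ hε =>
  consts36 m hΛ hCs hCl hcl hCo hc0 hε

/-- **D2.9: the quenched law of large numbers of the positions at the marked levels** -/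
theorem lln {u : Step 2} {i : Fin 2} {θ : ℝ} {ν : Measure (Row 2)} [IsProbabilityMeasure ν]
    {wd : ℕ → ℕ} (hO : OccP u i θ ν wd) (hSc : ScaleP wd)
    (hSl : SlabP u i θ ν wd) (hRe : ResidP u i θ ν) (hH : HitP u ν)
    (hwd : Filter.Tendsto wd Filter.atTop Filter.atTop) : LLN u i θ ν wd :=
  lln_of constsP hO hSc hSl hRe hH hwd

end Crest.Agent.R154.D2V36
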