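import Crest.Agent.R154.River_916
import Crest.Agent.R154.FluxDefs_132

/-!
# Row 154, `d = 2`: the literal one-point statements from which 980's `(P2)` is proved.  (helper916)

Linear slant `θ : ℝ`, width function `wd : ℕ → ℕ`, fixed starting point, fresh environment.
-/

set_option autoImplicit false

namespace Crest.Agent.R154.P2916

open MeasureTheory ProbabilityTheory Crest.ProbabilityR.RandomEnvironment
open Crest.Agent.R154.Flux132 (lev)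
open Crest.Agent.R154.River916 (Ev)
open scoped ENNReal

section defs

variable (u : Step 2) (i : Fin 2) (θ : ℝ)

/-- slanted lateral coordinate -/
noncomputable def sl (y : Site 2) : ℝ := (y i : ℝ) - θ * (lev u y : ℝ)

/-- the tube of half width `A * g`, levels in `[-δ H, H)` -/
def Rg (g δ A : ℝ) (H : ℕ) : Set (Site 2) :=
  {y | -(δ * (H : ℝ)) ≤ (lev u y : ℝ) ∧ lev u y < (H : ℤ) ∧ |sl u i θ y| ≤ A * g}

/-- the window `[a g, b g]` of the level `H` -/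
def Tg (g a b : ℝ) (H : ℕ) : Set (Site 2) :=
  {y | lev u y = (H : ℤ) ∧ a * g ≤ sl u i θ y ∧ sl u i θ y ≤ b * g}

/-- the level `H` -/
def Tp (H : ℕ) : Set (Site 2) := {y | lev u y = (H : ℤ)}

variable (Q : Measure (Environment 2)) (wd : ℕ → ℕ)

/-- **(QE)**: quenched endpoint at the first hit of the level `H`, no restriction on the path. -/
def QE : Prop := ∀ a b : ℝ, a < b → ∃ c : ℝ, 0 < c ∧ ∀ ε : ℝ, 0 < ε → ∃ H0 : ℕ, ∀ H ≥ H0,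
  Q {ω | quenchedLaw ω 0 (Ev {y | lev u y < (H : ℤ)} (Tg u i θ (wd H) a b H)) < ENNReal.ofReal c}
    ≤ ENNReal.ofReal ε

/-- **(QT)** = 244's (CONT): quenched confinement to a tube. -/
def QT : Prop := ∀ δ : ℝ, 0 < δ → ∀ κ' : ℝ, 0 < κ' → ∃ A : ℝ, ∀ ε : ℝ, 0 < ε → ∃ H0 : ℕ, ∀ H ≥ H0,
  Q {ω | ENNReal.ofReal κ' < quenchedLaw ω 0 (Ev (Rg u i θ (wd H) δ A H) (Tp u H))ᶜ}
    ≤ ENNReal.ofReal ε

/-- **(MOBFIX)**: quenched mobility inside a tube (follows from QE and QT). -/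
def MOBFIX : Prop := ∀ δ : ℝ, 0 < δ → ∀ a b : ℝ, a < b → ∃ A c : ℝ, 0 < c ∧ ∀ ε : ℝ, 0 < ε →
  ∃ H0 : ℕ, ∀ H ≥ H0,
  Q {ω | quenchedLaw ω 0 (Ev (Rg u i θ (wd H) δ A H) (Tg u i θ (wd H) a b H)) < ENNReal.ofReal c}
    ≤ ENNReal.ofReal ε

/-- regularity of the width function -/
def REG : Prop := (∀ K : ℕ, ∃ N0 : ℕ, ∀ N ≥ N0, K ≤ wd N) ∧ ∃ (C : ℝ) (N0 : ℕ), ∀ N ≥ N0, ∀ H : ℕ,
  N ≤ 8 * H → H ≤ 2 * N → (wd N : ℝ) ≤ C * wd H ∧ (wd H : ℝ) ≤ C * wd N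

/-- **(FixM)**: mobility from every site, every height `H ∈ [N/8, 2N]`, in units of `wd N`. -/
def FixM : Prop := ∀ δ : ℝ, 0 < δ → ∀ a b : ℝ, a < b → ∃ A c : ℝ, 0 < c ∧ ∀ ε : ℝ, 0 < ε →
  ∃ N0 : ℕ, ∀ N ≥ N0, ∀ H : ℕ, N ≤ 8 * H → H ≤ 2 * N → ∀ z : Site 2,
  Q {ω | quenchedLaw ω z (Ev {y | y - z ∈ Rg u i θ (wd N) δ A H}
      {y | y - z ∈ Tg u i θ (wd N) a b H}) < ENNReal.ofReal c} ≤ ENNReal.ofReal ε

/-- **(FixC)**: confinement from every site, every height `H ∈ [N/8, 2N]`, in units of `wd N`. -/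
def FixC : Prop := ∀ δ : ℝ, 0 < δ → ∀ κ' : ℝ, 0 < κ' → ∃ A : ℝ, ∀ ε : ℝ, 0 < ε →
  ∃ N0 : ℕ, ∀ N ≥ N0, ∀ H : ℕ, N ≤ 8 * H → H ≤ 2 * N → ∀ z : Site 2,
  Q {ω | ENNReal.ofReal κ' < quenchedLaw ω z (Ev {y | y - z ∈ Rg u i θ (wd N) δ A H}
      {y | y - z ∈ Tp u H})ᶜ} ≤ ENNReal.ofReal ε

end defs

end Crest.Agent.R154.P2916
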