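import Crest.Agent.R154.Resamp2_9
import Crest.Agent.R154.P2Defs_916

/-!
# Row 154, `d = 2`, D2.9: literal interfaces (helper36, deputy of 606)

Everything is about the walk from `0` in the iid environment, `lev` = level in the direction `u`,
`sl` = slanted lateral coordinate of 916 (slope `θ`), `wd` = width function.

* `FE L χ ω y` = quenched expectation, from `y`, of the product of the functions `χ j` at the sites of
  first visit of the levels `L j`;
* output `LLN` (= 244's COVχ);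
* inputs `OccP`, `ScaleP`, `SlabP`, `ResidP`, `HitP`.
-/

set_option autoImplicit false

namespace Crest.Agent.R154.D2V36

open MeasureTheory ProbabilityTheory Crest.ProbabilityR.RandomEnvironment Crest.Agent.R154
open Crest.Agent.R154.Flux132 (lev)
open Crest.Agent.R154.ExK9 Crest.Agent.R154.Resamp9
open Crest.Agent.R154.River916 (Ev)
open Crest.Agent.R154.P2916 (sl)
open scoped ENNReal

section defs

variable (u : Step 2) (i : Fin 2) (θ : ℝ)

/-- sites strictly below the level `l` -/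
def Sb (l : ℕ) : Set (Site 2) := {y | lev u y < (l : ℤ)}

/-- site of the first visit of the level `l` (junk value when the level is never reached) -/
noncomputable def xT (l : ℕ) (X : Path 2) : Site 2 := X (exT (Sb u l) X).toNat

/-- product of the functions `χ j` at the sites of first visit of the levels `L j` -/
noncomputable def PX {m : ℕ} (L : Fin m → ℕ) (χ : Fin m → Site 2 → ℝ) (X : Path 2) : ℝ :=
  ∏ j, χ j (xT u (L j) X)

/-- its quenched expectation from `y` -/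
noncomputable def FE {m : ℕ} (L : Fin m → ℕ) (χ : Fin m → Site 2 → ℝ) (ω : Environment 2)
    (y : Site 2) : ℝ := ∫ X, PX u L χ X ∂(quenchedLaw ω y)

/-- column of the start site `y` of level `l`: levels in `[l - h, l + g)`, lateral within `r` -/
def Col (l g h : ℕ) (r : ℝ) (y : Site 2) : Set (Site 2) :=
  {z | (l : ℤ) - h ≤ lev u z ∧ lev u z < (l : ℤ) + g ∧ |sl u i θ z - sl u i θ y| ≤ r}

/-- the level `l + g` -/
def Lvl (l : ℕ) : Set (Site 2) := {z | lev u z = (l : ℤ)}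

variable (ν : Measure (Row 2)) [IsProbabilityMeasure ν] (wd : ℕ → ℕ)

/-- **OUTPUT of D2.9** (244's COVχ): products of Lipschitz functions of the positions at the levels
`⌊(j+1) H / m⌋` have deterministic quenched expectations in the limit. -/
def LLN : Prop := ∀ (m : ℕ) (χ : Fin m → ℝ → ℝ) (Λ : ℝ), (∀ j x, 0 ≤ χ j x ∧ χ j x ≤ 1) →
  (∀ j x y, |χ j x - χ j y| ≤ Λ * |x - y|) → ∀ ε : ℝ, 0 < ε → ∃ H0 : ℕ, ∀ H ≥ H0,
  ∫ ω, |FE u (fun j : Fin m => ((j : ℕ) + 1) * H / m) (fun j z => χ j (sl u i θ z / wd H)) ω 0 -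
    ∫ η, FE u (fun j : Fin m => ((j : ℕ) + 1) * H / m) (fun j z => χ j (sl u i θ z / wd H)) η 0
      ∂(iidEnvironmentLaw ν)| ∂(iidEnvironmentLaw ν) ≤ ε

/-- **INPUT Occ** (177 / 546 / 2): near occupation of the same-environment pair from `(0, 0)`. -/
def OccP : Prop := ∃ C c0 : ℝ, 0 < C ∧ 0 < c0 ∧ ∀ a : ℝ, 0 < a → a ≤ 1 → ∃ N0 : ℕ, ∀ N ≥ N0,
  ∑ l ∈ Finset.range N, ∫⁻ ω, ∑' y : Site 2, ∑' y' : Site 2,
    EK ω (Sb u l) 0 y * EK ω (Sb u l) 0 y' *
      {p : Site 2 × Site 2 | |sl u i θ p.1 - sl u i θ p.2| ≤ a * wd N}.indicator 1 (y, y')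
      ∂(iidEnvironmentLaw ν) ≤ ENNReal.ofReal (C * a ^ c0 * N)

/-- **INPUT Scale** (738): width at height `N / n`. -/
def ScaleP : Prop := ∃ C : ℝ, 0 < C ∧ ∀ n : ℕ, 1 ≤ n → ∃ N0 : ℕ, ∀ N ≥ N0,
  (wd (N / n + 1) : ℝ) ≤ C / Real.sqrt n * wd N

/-- **INPUT Slab** (491 / 4 / 28): the walk from `0`, after its first visit of the level `l`, leaves
the column (levels `[l - h, l + g)`, lateral within `A * wd h`) through the top, up to
`C e^{-cA} + ε`. -/
def SlabP : Prop := ∃ C c : ℝ, 0 < C ∧ 0 < c ∧ ∀ A : ℝ, 1 ≤ A → ∀ ε : ℝ, 0 < ε → ∃ h0 : ℕ,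
  ∀ h ≥ h0, ∀ l g : ℕ, g ≤ h →
  ∫⁻ ω, ∑' y : Site 2, EK ω (Sb u l) 0 y *
    quenchedLaw ω y (Ev (Col u i θ l g h (A * wd h) y) (Lvl u (l + g)))ᶜ
      ∂(iidEnvironmentLaw ν) ≤ ENNReal.ofReal (C * Real.exp (-(c * A)) + ε)

/-- **INPUT Resid** (509 / 215): the rows below the level `l` do not matter for the future of the
walk from `0` on the scale `w → ∞`. -/
def ResidP : Prop := ∀ (m : ℕ) (δ : ℝ), 0 < δ → ∃ (l0 : ℕ) (w0 : ℝ), 0 < w0 ∧ ∀ w ≥ w0, ∀ l ≥ l0,
  ∀ L : Fin m → ℕ, Monotone L → (∀ j, l ≤ L j) → ∀ χ : Fin m → Site 2 → ℝ,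
  (∀ j z, 0 ≤ χ j z ∧ χ j z ≤ 1) → (∀ j z z', |χ j z - χ j z'| ≤ |sl u i θ z - sl u i θ z'| / w) →
  ∫ ω, E1 (EK ω (Sb u l) 0) (fun y => |cndR ν (Sb u l) (fun ω => FE u L χ ω y) ω -
    ∫ η, FE u L χ η y ∂(iidEnvironmentLaw ν)|) ∂(iidEnvironmentLaw ν) ≤ δ

/-- every level is reached -/
def HitP : Prop := ∀ᵐ ω ∂(iidEnvironmentLaw ν), ∀ (l : ℕ) (y : Site 2),
  quenchedLaw ω y {X | exT (Sb u l) X = ⊤} = 0

end defs

end Crest.Agent.R154.D2V36
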