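import Crest.Agent.R154.JObj2_132

/-! Row 154, joint blocks of two independent natural walkers: the LAW of the blocks. -/

set_option autoImplicit false
set_option linter.unusedSectionVars false
set_option linter.deprecated false

namespace Crest.Agent.R154.J132

open MeasureTheory ProbabilityTheory Filter Set Crest.ProbabilityR.RandomEnvironment
open Crest.Agent.R154.Mk561 Crest.Agent.R154.Bind263 Crest.Agent.R154.B4Inst797
open Crest.Agent.R154.Ren263 (Word pre hgt Stay Record len_pre hgt_zero hgt_shift Det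
  measurableSet_Stay)
open Crest.Agent.R154.RenG263 (RecSys Reg tau tau_spec tau_min blk0 blks RegInf rest_mem reg_shift
  wordLaw RenewalG measurable_blks)
open Crest.Agent.R154.KB424 (NS)
open scoped ENNReal Topology

variable {d : ℕ} {u : Step d} {κ : ℝ} {R : ℕ} {Q : Measure (Environment d)}
  [IsProbabilityMeasure Q]

/-- law of two independent natural walkers -/
noncomputable abbrev prL (Q : Measure (Environment d)) (κ : ℝ) (u : Step d) :
    Measure (MPath d × MPath d) := (stL Q κ u).prod (stL Q κ u)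

theorem probSt (F : Frame Q κ R) (hA : annealedProb Q 0 (escapeEvent (B2d.dirVec u)) ≠ 0) :
    IsProbabilityMeasure (stL Q κ u) := cond_isProbabilityMeasure (F.hp _ hA)

theorem probPr (F : Frame Q κ R) (hA : annealedProb Q 0 (escapeEvent (B2d.dirVec u)) ≠ 0) :
    IsProbabilityMeasure (prL Q κ u) := by
  have := probSt F hA
  infer_instance

theorem good_ne (F : Frame Q κ R) (hA : annealedProb Q 0 (escapeEvent (B2d.dirVec u)) ≠ 0) :
    pairL (muW Q κ R u) (Good (Yw u))ᶜ = 0 := by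
  have := probW F hA
  exact good_ae _ (one_le_Yw u) (noCut_tendsto' _ (sum_noCut_ne_top F hA))

lemma measurable_bp : Measurable (bp u κ R) :=
  ((measurable_blks _).comp measurable_fst).prodMk ((measurable_blks _).comp measurable_snd)

/-- **the letters of the two walkers are two independent iid sequences** -/
theorem map_bp (F : Frame Q κ R) (hA : annealedProb Q 0 (escapeEvent (B2d.dirVec u)) ≠ 0) :
    (prL Q κ u).map (bp u κ R) = pairL (muW Q κ R u) := by
  have := probSt F hA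
  have hm : Measurable (blks (rhoU u κ R)) := measurable_blks _
  rw [pairL, ← map_blksU F hA, Measure.map_prod_map _ _ hm hm]
  rfl

theorem jg_ae (F : Frame Q κ R) (hA : annealedProb Q 0 (escapeEvent (B2d.dirVec u)) ≠ 0) :
    ∀ᵐ π ∂(prL Q κ u), π ∈ JG u κ R := by
  have := probSt F hA
  have := probW F hA
  have h1 := Measure.quasiMeasurePreserving_fst (μ := stL Q κ u) (ν := stL Q κ u)
    |>.ae (ae_regInfU F hA)
  have h2 := Measure.quasiMeasurePreserving_snd (μ := stL Q κ u) (ν := stL Q κ u)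
    |>.ae (ae_regInfU F hA)
  have h3 : ∀ᵐ π ∂(prL Q κ u), bp u κ R π ∈ AllGood (Yw u) := by
    have h4 : ∀ᵐ p ∂((prL Q κ u).map (bp u κ R)), p ∈ AllGood (Yw u) := by
      rw [map_bp F hA]
      exact allGood_ae _ (one_le_Yw u) (good_ne F hA)
    exact ae_of_ae_map measurable_bp.aemeasurable h4
  filter_upwards [h1, h2, h3] with π a b c
  exact ⟨a, b, c⟩

section any
variable {E : Type*} [MeasurableSpace E]
  (Φ : List (Word (Mark d)) × List (Word (Mark d)) → E)

lemma measurable_jw (k : ℕ) : Measurable fun π => Φ (jw u κ R k π) :=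
  (measurable_wdk Φ (one_le_Yw u) k).comp measurable_bp

/-- law of a functional of the joint word -/
noncomputable def jlawOf (Q : Measure (Environment d)) (κ : ℝ) (R : ℕ) (u : Step d) :
    Measure E := (pairL (muW Q κ R u)).map (fun p => Φ (wd (Yw u) p))

theorem probJ (F : Frame Q κ R) (hA : annealedProb Q 0 (escapeEvent (B2d.dirVec u)) ≠ 0) :
    IsProbabilityMeasure (jlawOf Φ Q κ R u) := by
  have := probW F hA
  exact Measure.isProbabilityMeasure_map (measurable_wd Φ (one_le_Yw u)).aemeasurable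

theorem map_jw (F : Frame Q κ R) (hA : annealedProb Q 0 (escapeEvent (B2d.dirVec u)) ≠ 0) :
    (prL Q κ u).map (fun π (k : ℕ) => Φ (jw u κ R k π))
      = Measure.infinitePi fun _ : ℕ => jlawOf Φ Q κ R u := by
  have := probW F hA
  have h1 := map_wd Φ (muW Q κ R u) (one_le_Yw u) (good_ne F hA)
  rw [← map_bp F hA, Measure.map_map (measurable_pi_lambda _ fun k =>
    measurable_wdk Φ (one_le_Yw u) k) measurable_bp] at h1
  rw [map_bp F hA] at h1
  exact h1

theorem law_jw (F : Frame Q κ R) (hA : annealedProb Q 0 (escapeEvent (B2d.dirVec u)) ≠ 0)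
    (k : ℕ) : (prL Q κ u).map (fun π => Φ (jw u κ R k π)) = jlawOf Φ Q κ R u := by
  have := probW F hA
  have h1 := law_wdk Φ (muW Q κ R u) (one_le_Yw u) (good_ne F hA) k
  unfold jlawOf
  rw [← h1, ← map_bp F hA, Measure.map_map (measurable_wdk Φ (one_le_Yw u) k) measurable_bp]
  rfl

/-- **the joint blocks are independent** -/
theorem indep_jw (F : Frame Q κ R) (hA : annealedProb Q 0 (escapeEvent (B2d.dirVec u)) ≠ 0) :
    iIndepFun (fun (k : ℕ) π => Φ (jw u κ R k π)) (prL Q κ u) := by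
  have := probPr F hA
  rw [iIndepFun_iff_map_fun_eq_infinitePi_map (measurable_jw Φ)]
  simp_rw [law_jw Φ F hA]
  exact map_jw Φ F hA

theorem identDistrib_jw (F : Frame Q κ R)
    (hA : annealedProb Q 0 (escapeEvent (B2d.dirVec u)) ≠ 0) (k : ℕ) :
    IdentDistrib (fun π => Φ (jw u κ R k π)) (fun π => Φ (jw u κ R 0 π)) (prL Q κ u)
      (prL Q κ u) :=
  ⟨(measurable_jw Φ k).aemeasurable, (measurable_jw Φ 0).aemeasurable, by
    rw [law_jw Φ F hA, law_jw Φ F hA]⟩

/-- swap symmetry -/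
theorem swap_jw (F : Frame Q κ R) (hA : annealedProb Q 0 (escapeEvent (B2d.dirVec u)) ≠ 0) :
    jlawOf (fun w => Φ w.swap) Q κ R u = jlawOf Φ Q κ R u := by
  have := probW F hA
  exact swap_wd Φ (muW Q κ R u) (one_le_Yw u) (good_ne F hA)

end any

/-! ### the triple (V, B, R) -/

/-- increment, deviation, height of a joint word -/
noncomputable def tri (u : Step d) (φ : Site d →+ ℝ)
    (w : List (Word (Mark d)) × List (Word (Mark d))) : ℝ × ℝ × ℕ :=
  (Vj φ w, Bj u φ w, Rj u w)

/-- law of the triple -/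
noncomputable def triL (Q : Measure (Environment d)) (κ : ℝ) (R : ℕ) (u : Step d)
    (φ : Site d →+ ℝ) : Measure (ℝ × ℝ × ℕ) := jlawOf (tri u φ) Q κ R u

theorem probTri (F : Frame Q κ R) (hA : annealedProb Q 0 (escapeEvent (B2d.dirVec u)) ≠ 0)
    (φ : Site d →+ ℝ) : IsProbabilityMeasure (triL Q κ R u φ) := probJ _ F hA

theorem ae_tri (F : Frame Q κ R) (hA : annealedProb Q 0 (escapeEvent (B2d.dirVec u)) ≠ 0)
    (φ : Site d →+ ℝ) {p : ℝ × ℝ × ℕ → Prop} (hp : MeasurableSet {t | p t})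
    (h : ∀ π ∈ JG u κ R, p (tri u φ (jw u κ R 0 π))) : ∀ᵐ t ∂(triL Q κ R u φ), p t := by
  unfold triL
  rw [← law_jw (tri u φ) F hA 0]
  rw [ae_map_iff (measurable_jw (tri u φ) 0).aemeasurable hp]
  filter_upwards [jg_ae F hA] with π hπ
  exact h π hπ

/-- `|V| ≤ B` and `1 ≤ R` -/
theorem tri_le (F : Frame Q κ R) (hA : annealedProb Q 0 (escapeEvent (B2d.dirVec u)) ≠ 0)
    (φ : Site d →+ ℝ) : ∀ᵐ t ∂(triL Q κ R u φ), |t.1| ≤ t.2.1 ∧ 1 ≤ t.2.2 := by
  refine ae_tri F hA φ ?_ fun π hπ => ?_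
  · refine (measurableSet_le (measurable_norm.comp measurable_fst)
      (measurable_fst.comp measurable_snd)).inter ?_
    exact (measurable_snd.comp measurable_snd) (measurableSet_Ici (a := (1:ℕ)))
  · obtain ⟨h1, h2, _, _, h5⟩ := first_block hπ
    refine ⟨?_, h5⟩
    have := first_B hπ φ (le_refl (J1 u κ R π).1) (le_refl (J1 u κ R π).2) (by rw [h1.1, h2.1])
    rw [← first_V hπ φ] at this
    exact this

/-- **symmetry** `(V, B, R) ~ (-V, B, R)` -/
theorem tri_symm (F : Frame Q κ R) (hA : annealedProb Q 0 (escapeEvent (B2d.dirVec u)) ≠ 0)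
    (φ : Site d →+ ℝ) :
    (triL Q κ R u φ).map (fun t => (-t.1, t.2)) = triL Q κ R u φ := by
  have := probW F hA
  have hm : Measurable (fun t : ℝ × ℝ × ℕ => (-t.1, t.2)) :=
    measurable_fst.neg.prodMk measurable_snd
  have h1 : (triL Q κ R u φ).map (fun t => (-t.1, t.2))
      = jlawOf (fun w => tri u φ w.swap) Q κ R u := by
    unfold triL jlawOf
    rw [Measure.map_map hm (measurable_wd _ (one_le_Yw u))]
    refine Measure.map_congr ?_
    have hg' : ∀ᵐ p ∂(pairL (muW Q κ R u)), p ∈ Good (Yw u) := good_ne F hA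
    filter_upwards [hg'] with p hp
    simp only [Function.comp_apply, tri, Vj_swap, Bj_swap]
    refine Prod.ext rfl (Prod.ext rfl ?_)
    exact hw_wd' (one_le_Yw u) hp
  rw [h1, swap_jw (tri u φ) F hA]
  rfl

/-- **finite mean height** -/
theorem tri_mean (F : Frame Q κ R) (hA : annealedProb Q 0 (escapeEvent (B2d.dirVec u)) ≠ 0)
    (φ : Site d →+ ℝ) : ∫⁻ t, (t.2.2 : ℝ≥0∞) ∂(triL Q κ R u φ) ≠ ⊤ := by
  have := probW F hA
  have hm : Measurable fun t : ℝ × ℝ × ℕ => (t.2.2 : ℝ≥0∞) :=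
    (measurable_of_countable (fun n : ℕ => (n : ℝ≥0∞))).comp (measurable_snd.comp measurable_snd)
  unfold triL jlawOf
  rw [lintegral_map hm (measurable_wd _ (one_le_Yw u))]
  have h1 : ∀ p : (ℕ → Word (Mark d)) × (ℕ → Word (Mark d)),
      (((tri u φ (wd (Yw u) p)).2.2 : ℕ) : ℝ≥0∞) = (R0 (Yw u) p : ℝ≥0∞) := fun p => by
    simp only [tri, Rj, hw_wd]
  simp_rw [h1]
  rw [mean_R0 _ (one_le_Yw u) (good_ne F hA)]
  exact sum_noCut_ne_top F hA

/-- atoms of the joint word -/
theorem atom_wd (F : Frame Q κ R) (hA : annealedProb Q 0 (escapeEvent (B2d.dirVec u)) ≠ 0)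
    {w w' : Word (Mark d)} (h : Yw u w = Yw u w') :
    muW Q κ R u {w} * muW Q κ R u {w'}
      ≤ pairL (muW Q κ R u) {p | wd (Yw u) p = ([w], [w'])} := by
  have := probW F hA
  rw [← iid_first (muW Q κ R u) w, ← iid_first (muW Q κ R u) w', ← Measure.prod_prod]
  refine measure_mono ?_
  rintro p ⟨h1, h2⟩
  have h1' : p.1 0 = w := h1
  have h2' : p.2 0 = w' := h2
  have hf : p ∈ Fst (Yw u) (1, 1) := by
    refine ⟨le_rfl, ?_, fun i j hi hi' _ => ?_⟩
    · simp [H, h1', h2', h]
    · have hi'' : i < 1 := hi'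
      omega
  have hi := idx_eq (one_le_Yw u) hf
  simp only [mem_setOf_eq, wd]
  rw [hi]
  simp [prf, h1', h2']

/-- **nondegenerate** -/
theorem tri_ne (F : Frame Q κ R) (hA : annealedProb Q 0 (escapeEvent (B2d.dirVec u)) ≠ 0)
    {φ : Site d →+ ℝ} {i : Fin d} (hi : i ≠ u.1) (hφ : φ (stepVec (i, true)) ≠ 0) :
    triL Q κ R u φ {t | t.1 ≠ 0} ≠ 0 := by
  have := probW F hA
  set wa := pre 2 (Wf u κ (i, true)) with hwa
  set wb := pre 2 (Wf u κ (i, false)) with hwb
  have pa : muW Q κ R u {wa} ≠ 0 := word_pos F hi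
  have pb : muW Q κ R u {wb} ≠ 0 := word_pos F hi
  have ya : Yw u wa = 1 := Yw_Wf hi
  have yb : Yw u wb = 1 := Yw_Wf hi
  have hneg : stepVec ((i, false) : Step d) = - stepVec (i, true) := by
    unfold stepVec
    ext j
    by_cases hj : j = i
    · subst hj; simp
    · simp [Pi.single_eq_of_ne hj]
  have hV : Vj φ ([wa], [wb]) = 2 * φ (stepVec (i, true)) := by
    have e1 : ∀ f : Step d, ps (flw [pre 2 (Wf u κ f)]) = stepVec f + stepVec u := by
      intro f
      rw [flw_single]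
      have : ps (pre 2 (Wf u κ f) : List (Mark d)) = pos 0 (Wf u κ f) 2 := ps_prf 2 _
      rw [this]
      unfold pos
      rw [Finset.sum_range_succ, Finset.sum_range_one, zero_add]
      simp [Wf, stp]
    simp only [Vj]
    rw [hwa, hwb, e1, e1, map_add, map_add, hneg, map_neg]
    ring
  have hS : MeasurableSet {t : ℝ × ℝ × ℕ | t.1 ≠ 0} :=
    measurable_fst (measurableSet_singleton (0:ℝ)).compl
  unfold triL jlawOf
  rw [Measure.map_apply (measurable_wd _ (one_le_Yw u)) hS]
  refine ne_of_gt (lt_of_lt_of_le (pos_iff_ne_zero.2 (mul_ne_zero pa pb)) ((atom_wd F hA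
    (ya.trans yb.symm)).trans (measure_mono ?_)))
  intro p hp
  have hp' : wd (Yw u) p = ([wa], [wb]) := hp
  simp only [mem_preimage, mem_setOf_eq, tri]
  rw [hp', hV]
  exact mul_ne_zero two_ne_zero hφ

/-- **back to the annealed law**: two independent walkers, both natural for ever -/
theorem prod_NS (F : Frame Q κ R) (hA : annealedProb Q 0 (escapeEvent (B2d.dirVec u)) ≠ 0)
    (x x' : Site d) (E : Set (MPath d × MPath d)) :
    ((mkAnn κ Q x).prod (mkAnn κ Q x')) {π | π.1 ∈ NS u ∧ π.2 ∈ NS u ∧ π ∈ E}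
      = mkAnn κ Q 0 (NS u) ^ 2 * prL Q κ u E := by
  have := probSt F hA
  have hSm : MeasurableSet (NS u) := by rw [NS_eq]; exact measurableSet_Stay _
  rw [mkAnn_stat F.stat κ x, mkAnn_stat F.stat κ x']
  have e1 : ((mkAnn κ Q 0).prod (mkAnn κ Q 0)) {p | p.1 ∈ NS u ∧ p.2 ∈ NS u ∧ p ∈ E}
      = (((mkAnn κ Q 0).restrict (NS u)).prod ((mkAnn κ Q 0).restrict (NS u))) E := by
    rw [Measure.prod_restrict, Measure.restrict_apply' (hSm.prod hSm)]
    congr 1
    ext p; simp only [mem_setOf_eq, mem_inter_iff, mem_prod]; tauto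
  rw [e1, restrict_eq F hA, Measure.prod_smul_left, Measure.prod_smul_right, smul_smul,
    Measure.smul_apply, smul_eq_mul, sq]

/-- events of the joint words, annealed -/
theorem prod_jw (F : Frame Q κ R) (hA : annealedProb Q 0 (escapeEvent (B2d.dirVec u)) ≠ 0)
    {E : Type*} [MeasurableSpace E] (Φ : List (Word (Mark d)) × List (Word (Mark d)) → E)
    (x x' : Site d) {T : Set (ℕ → E)} (hT : MeasurableSet T) {B : Set (MPath d × MPath d)}
    (h : ∀ π ∈ JG u κ R, (fun k => Φ (jw u κ R k π)) ∈ T → π ∈ B) :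
    mkAnn κ Q 0 (NS u) ^ 2 * (Measure.infinitePi fun _ : ℕ => jlawOf Φ Q κ R u) T
      ≤ ((mkAnn κ Q x).prod (mkAnn κ Q x')) {π | π.1 ∈ NS u ∧ π.2 ∈ NS u ∧ π ∈ B} := by
  rw [prod_NS F hA, ← map_jw Φ F hA,
    Measure.map_apply (measurable_pi_lambda _ fun k => measurable_jw Φ k) hT]
  refine mul_le_mul' le_rfl (measure_mono_ae ?_)
  filter_upwards [jg_ae F hA] with π hπ hπT
  exact h π hπ hπT

end Crest.Agent.R154.J132
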