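import Crest.Agent.R154.J6Fin_24
import Crest.Agent.R154.JObj3_132
import Crest.Agent.R154.Hair_738

/-! Row 154, block `d = 2`, D2.4: NDA for the law `triL` of the joint blocks (V, B, R) of two
independent natural walkers, from the tubes (504). -/

set_option autoImplicit false
set_option linter.unusedSectionVars false
set_option linter.deprecated false

namespace Crest.Agent.R154.NDAObj24

open MeasureTheory ProbabilityTheory Filter Set Crest.ProbabilityR.RandomEnvironment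
open Crest.Agent.R154.Mk561 Crest.Agent.R154.Bind263 Crest.Agent.R154.B4Inst797
open Crest.Agent.R154.J132 Crest.Agent.R154.J6_24
open Crest.Agent.R154.Hair738 (T U Core NDA)
open Crest.Agent.R154.Ren263 (Word Stay)
open scoped ENNReal Topology

/-! ### almost sure versions -/

section ae
variable {Ω : Type*} [MeasurableSpace Ω] {P : Measure Ω} [IsProbabilityMeasure P]
  {V B V' B' : Ω → ℝ} {R R' : Ω → ℕ}

lemma T_congr (hB : B =ᵐ[P] B') : T P B = T P B' := by
  funext w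
  refine measureReal_congr ?_
  filter_upwards [hB] with ω h
  refine propext ?_
  change w < B ω ↔ w < B' ω
  rw [h]

lemma U_congr (hBm : Measurable B) (hBm' : Measurable B') (hV : V =ᵐ[P] V') (hB : B =ᵐ[P] B') : U P V B = U P V' B' := by
  funext w
  unfold U
  rw [← integral_indicator (measurableSet_le hBm measurable_const),
    ← integral_indicator (measurableSet_le hBm' measurable_const)]
  refine integral_congr_ae ?_
  filter_upwards [hV, hB] with ω h1 h2
  by_cases h : B ω ≤ w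
  · rw [indicator_of_mem (show ω ∈ {ω | B ω ≤ w} from h),
      indicator_of_mem (show ω ∈ {ω | B' ω ≤ w} from by rw [mem_setOf_eq, ← h2]; exact h), h1]
  · rw [indicator_of_notMem (show ω ∉ {ω | B ω ≤ w} from h),
      indicator_of_notMem (show ω ∉ {ω | B' ω ≤ w} from by rw [mem_setOf_eq, ← h2]; exact h)]

/-- modified increment -/
noncomputable def Vh (V B : Ω → ℝ) (ω : Ω) : ℝ := ({ω | |V ω| ≤ B ω} : Set Ω).indicator V ω

lemma measurable_Vh (hV : Measurable V) (hB : Measurable B) : Measurable (Vh V B) :=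
  hV.indicator (measurableSet_le (measurable_norm.comp hV) hB)

lemma Vh_le (ω : Ω) : |Vh V B ω| ≤ max (B ω) 0 := by
  unfold Vh
  by_cases h : |V ω| ≤ B ω
  · rw [indicator_of_mem (show ω ∈ {ω | |V ω| ≤ B ω} from h)]
    exact h.trans (le_max_left _ _)
  · rw [indicator_of_notMem (show ω ∉ {ω | |V ω| ≤ B ω} from h), abs_zero]
    exact le_max_right _ _

lemma Vh_ae (h : ∀ᵐ ω ∂P, |V ω| ≤ B ω) : V =ᵐ[P] Vh V B := by
  filter_upwards [h] with ω hω
  unfold Vh
  rw [indicator_of_mem (show ω ∈ {ω | |V ω| ≤ B ω} from hω)]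

lemma Bh_ae (h : ∀ᵐ ω ∂P, |V ω| ≤ B ω) : B =ᵐ[P] fun ω => max (B ω) 0 := by
  filter_upwards [h] with ω hω
  rw [max_eq_left ((abs_nonneg _).trans hω)]

lemma ne_ae (h : ∀ᵐ ω ∂P, |V ω| ≤ B ω) (hne : P {ω | V ω ≠ 0} ≠ 0) :
    P {ω | Vh V B ω ≠ 0} ≠ 0 := by
  have : P {ω | V ω ≠ 0} = P {ω | Vh V B ω ≠ 0} := by
    refine measure_congr ?_
    filter_upwards [Vh_ae h] with ω hω
    refine propext ?_
    change V ω ≠ 0 ↔ Vh V B ω ≠ 0
    rw [hω]
  rwa [← this]

theorem core_ae (hV : Measurable V) (hB : Measurable B) (h : ∀ᵐ ω ∂P, |V ω| ≤ B ω)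
    (hne : P {ω | V ω ≠ 0} ≠ 0) : Core (T P B) (U P V B) := by
  rw [T_congr (Bh_ae h), U_congr hB (hB.max measurable_const) (Vh_ae h)
    (Bh_ae h)]
  exact Hair738.core (measurable_Vh hV hB) (hB.max measurable_const) Vh_le (ne_ae h hne)

theorem nda_ae (hV : Measurable V) (hB : Measurable B) (hR : Measurable R)
    (h : ∀ᵐ ω ∂P, |V ω| ≤ B ω) (h1 : ∀ᵐ ω ∂P, 1 ≤ R ω)
    (hRi : Integrable (fun ω => (R ω : ℝ)) P) (hne : P {ω | V ω ≠ 0} ≠ 0) {C ρ c : ℝ}
    (hC : 0 ≤ C) (hρ0 : 0 ≤ ρ) (hρ : ρ < 1) (hc : 0 < c)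
    (htail : ∀ h : ℕ, 1 ≤ h → ∀ r : ℝ, 0 < r →
      (h:ℝ) * P.real {ω | h ≤ R ω ∧ R ω < 2*h ∧ r ≤ B ω} ≤
        C * ρ ^ ⌊c * r / (Hair738.wd P V B (4*h) : ℝ)⌋₊) :
    NDA (T P B) (U P V B) := by
  have eT := T_congr (Bh_ae h)
  have eU := U_congr hB (hB.max measurable_const) (Vh_ae h) (Bh_ae h)
  have ew : ∀ k, Hair738.wd P V B k = Hair738.wd P (Vh V B) (fun ω => max (B ω) 0) k := by
    intro k
    change Hair738.wdC (T P B) (U P V B) k = Hair738.wdC (T P _) (U P _ _) k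
    rw [eT, eU]
  have hR' : Measurable fun ω => max 1 (R ω) := measurable_const.max hR
  have eR : R =ᵐ[P] fun ω => max 1 (R ω) := by
    filter_upwards [h1] with ω hω
    rw [max_eq_right hω]
  rw [eT, eU]
  refine Hair738.nda_geo_ev (R := fun ω => max 1 (R ω)) (measurable_Vh hV hB)
    (hB.max measurable_const) hR' Vh_le (fun ω => le_max_left _ _) ?_ (ne_ae h hne) hC hρ0 hρ hc
    fun k hk r hr => ?_
  · refine hRi.congr ?_
    filter_upwards [eR] with ω hω
    exact congrArg (fun n : ℕ => (n : ℝ)) hω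
  · rw [← ew]
    refine le_trans (le_of_eq ?_) (htail k hk r hr)
    congr 1
    refine measureReal_congr ?_
    filter_upwards [eR, Bh_ae h] with ω e1 e2
    refine propext ?_
    change (k ≤ max 1 (R ω) ∧ max 1 (R ω) < 2 * k ∧ r ≤ max (B ω) 0) ↔
      (k ≤ R ω ∧ R ω < 2 * k ∧ r ≤ B ω)
    rw [← e1, ← e2]

end ae

/-! ### the joint blocks -/

/-- increment -/
abbrev Vt : ℝ × ℝ × ℕ → ℝ := fun t => t.1
/-- extent -/
abbrev Bt : ℝ × ℝ × ℕ → ℝ := fun t => t.2.1
/-- height -/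
abbrev Rt : ℝ × ℝ × ℕ → ℕ := fun t => t.2.2

variable {d : ℕ} {u : Step d} {κ : ℝ} {R : ℕ} {Q : Measure (Environment d)}
  [IsProbabilityMeasure Q]

lemma phi_step (i : Fin d) : phi i (stepVec ((i, true) : Step d)) ≠ 0 := by
  simp [phi_apply, stepVec]

/-- the width of the joint blocks -/
noncomputable abbrev wdJ (Q : Measure (Environment d)) (κ : ℝ) (R : ℕ) (u : Step d) (i : Fin d)
    (n : ℕ) : ℕ := Hair738.wd (triL Q κ R u (phi i)) Vt Bt n

theorem core_tri (F : Frame Q κ R) (hA : annealedProb Q 0 (escapeEvent (B2d.dirVec u)) ≠ 0)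
    {i : Fin d} (hi : i ≠ u.1) :
    Core (T (triL Q κ R u (phi i)) Bt) (U (triL Q κ R u (phi i)) Vt Bt) := by
  have := probTri F hA (phi i)
  exact core_ae measurable_fst (measurable_fst.comp measurable_snd)
    ((tri_le F hA (phi i)).mono fun t h => h.1) (tri_ne F hA hi (phi_step i))

theorem integrable_Rt (F : Frame Q κ R)
    (hA : annealedProb Q 0 (escapeEvent (B2d.dirVec u)) ≠ 0) (i : Fin d) :
    Integrable (fun t => (Rt t : ℝ)) (triL Q κ R u (phi i)) := by
  have hm : Measurable fun t : ℝ × ℝ × ℕ => (Rt t : ℝ) :=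
    (measurable_of_countable (fun n : ℕ => (n : ℝ))).comp (measurable_snd.comp measurable_snd)
  refine ⟨hm.aestronglyMeasurable, ?_⟩
  rw [hasFiniteIntegral_iff_enorm]
  refine lt_of_le_of_lt (le_of_eq ?_) (lt_top_iff_ne_top.2 (tri_mean F hA (phi i)))
  refine lintegral_congr fun t => ?_
  rw [Real.enorm_eq_ofReal (Nat.cast_nonneg _), ENNReal.ofReal_natCast]

theorem one_le_wdJ (F : Frame Q κ R) (hA : annealedProb Q 0 (escapeEvent (B2d.dirVec u)) ≠ 0)
    {i : Fin d} (hi : i ≠ u.1) (n : ℕ) : 1 ≤ wdJ Q κ R u i n :=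
  ((core_tri F hA hi).wd_spec n).1

section two
variable {u : Step 2} {i : Fin 2}

/-- **NDA for the joint blocks**, from tubes of width `2 wdJ n` for the levels `[0, n)` -/
theorem nda_tri (ν : Measure (Row 2)) [IsProbabilityMeasure ν]
    (hν : ∀ᵐ q ∂ν, ∀ e : Step 2, 0 < q.1 e) (hi : i ≠ u.1)
    (hA : annealedProb (iidEnvironmentLaw ν) 0 (escapeEvent (B2d.dirVec u)) ≠ 0)
    {c : ℝ≥0∞} (hc : c ≠ 0)
    (htube : ∀ n : ℕ, 1 ≤ n → ∃ v : ℤ → ℤ, c ≤ stL (iidEnvironmentLaw ν) 0 u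
      {s | ∀ t, zh u s t < (n : ℤ) → |pos 0 s t i - v (zh u s t)|
        ≤ 2 * wdJ (iidEnvironmentLaw ν) 0 0 u i n}) :
    NDA (T (triL (iidEnvironmentLaw ν) 0 0 u (phi i)) Bt)
      (U (triL (iidEnvironmentLaw ν) 0 0 u (phi i)) Vt Bt) := by
  have F := frame_iid ν hν
  have := probTri F hA (phi i)
  obtain ⟨C, ρ, c', hC, hρ0, hρ, hc', hT⟩ := htail_of_tubes ν hν hi hA hc
    (one_le_wdJ F hA hi) htube
  refine nda_ae measurable_fst (measurable_fst.comp measurable_snd)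
    (measurable_snd.comp measurable_snd) ((tri_le F hA (phi i)).mono fun t h => h.1)
    ((tri_le F hA (phi i)).mono fun t h => h.2) (integrable_Rt F hA i)
    (tri_ne F hA hi (phi_step i)) hC hρ0 hρ hc' fun h hh r hr => ?_
  refine le_trans (le_of_eq ?_) (hT h hh r hr)
  congr 1
  have hS : MeasurableSet {t : ℝ × ℝ × ℕ | h ≤ Rt t ∧ Rt t < 2 * h ∧ r ≤ Bt t} := by
    have h1 : Measurable Rt := measurable_snd.comp measurable_snd
    have h2 : Measurable Bt := measurable_fst.comp measurable_snd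
    exact (h1 measurableSet_Ici).inter ((h1 measurableSet_Iio).inter (h2 measurableSet_Ici))
  change (triL (iidEnvironmentLaw ν) 0 0 u (phi i)).real
    {t : ℝ × ℝ × ℕ | h ≤ Rt t ∧ Rt t < 2 * h ∧ r ≤ Bt t} = _
  unfold triL jlawOf
  rw [measureReal_def, Measure.map_apply (measurable_wd _ (one_le_Yw u)) hS, ← measureReal_def]
  rfl

end two

end Crest.Agent.R154.NDAObj24
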