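import Crest.Agent.R154.EscObj_546
import Crest.Agent.R154.NDAObj_24

/-! Row 154, `d = 2` (helper546): `Gam7.Law` of the real triple of a joint block from 738's NDA. -/

set_option autoImplicit false
set_option linter.unusedSectionVars false
set_option linter.deprecated false

namespace Crest.Agent.R154.LawTri546

open MeasureTheory ProbabilityTheory Filter Set Crest.ProbabilityR.RandomEnvironment
open Crest.Agent.R154.Mk561 Crest.Agent.R154.Bind263
open Crest.Agent.R154.J132 (triL tri jlawOf probTri tri_symm tri_le measurable_wd one_le_Yw)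
open Crest.Agent.R154.J6_24 (phi)
open Crest.Agent.R154.NDAObj24 (Vt Bt Rt core_tri integrable_Rt)
open Crest.Agent.R154.EscObj546 (triR tr3)
open scoped ENNReal Topology

variable {d : ℕ} {u : Step d} {κ : ℝ} {Q : Measure (Environment d)} [IsProbabilityMeasure Q]

/-- cast of the height -/
def cst (t : ℝ × ℝ × ℕ) : ℝ × ℝ × ℝ := (t.1, t.2.1, (t.2.2 : ℝ))

lemma measurable_cst : Measurable cst :=
  measurable_fst.prodMk ((measurable_fst.comp measurable_snd).prodMk
    ((measurable_of_countable (fun n : ℕ => (n : ℝ))).comp (measurable_snd.comp measurable_snd)))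

lemma triR_eq (φ : Site d →+ ℝ) : triR Q κ u φ = (triL Q κ 0 u φ).map cst := by
  unfold triR triL jlawOf
  rw [Measure.map_map measurable_cst (measurable_wd _ (one_le_Yw u))]
  rfl

lemma U_eq (φ : Site d →+ ℝ) (t : ℝ) :
    Gam7.U (triR Q κ u φ) t = Hair738.U (triL Q κ 0 u φ) Vt Bt t := by
  have hm : MeasurableSet {x : ℝ × ℝ × ℝ | x.2.1 ≤ t} :=
    measurableSet_le (measurable_fst.comp measurable_snd) measurable_const
  have hm' : MeasurableSet {x : ℝ × ℝ × ℕ | Bt x ≤ t} :=
    measurableSet_le (measurable_fst.comp measurable_snd) measurable_const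
  unfold Gam7.U Hair738.U
  rw [triR_eq, integral_map measurable_cst.aemeasurable
    ((measurable_fst.pow_const 2).indicator hm).aestronglyMeasurable, ← integral_indicator hm']
  rfl

lemma Tl_eq (φ : Site d →+ ℝ) (t : ℝ) :
    Gam7.Tl (triR Q κ u φ) t = Hair738.T (triL Q κ 0 u φ) Bt t := by
  have hm : MeasurableSet {x : ℝ × ℝ × ℝ | t < x.2.1} :=
    measurableSet_lt measurable_const (measurable_fst.comp measurable_snd)
  unfold Gam7.Tl Hair738.T
  rw [triR_eq, measureReal_def, Measure.map_apply measurable_cst hm, ← measureReal_def]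
  rfl

/-- **`Gam7.Law` of the joint block, from 738's NDA** -/
theorem law (F : Frame Q κ 0) (hA : annealedProb Q 0 (escapeEvent (B2d.dirVec u)) ≠ 0)
    {i : Fin d} (hi : i ≠ u.1)
    (hN : Hair738.NDA (Hair738.T (triL Q κ 0 u (phi i)) Bt)
      (Hair738.U (triL Q κ 0 u (phi i)) Vt Bt)) : Gam7.Law (triR Q κ u (phi i)) where
  symm := by
    have hm : Measurable (fun x : ℝ × ℝ × ℝ => (-x.1, x.2)) :=
      measurable_fst.neg.prodMk measurable_snd
    have hm' : Measurable (fun x : ℝ × ℝ × ℕ => (-x.1, x.2)) :=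
      measurable_fst.neg.prodMk measurable_snd
    rw [triR_eq, Measure.map_map hm measurable_cst]
    have : (fun x : ℝ × ℝ × ℝ => (-x.1, x.2)) ∘ cst = cst ∘ (fun x : ℝ × ℝ × ℕ => (-x.1, x.2)) :=
      rfl
    rw [this, ← Measure.map_map measurable_cst hm', tri_symm F hA]
  bd := by
    have hm : MeasurableSet {x : ℝ × ℝ × ℝ | |x.1| ≤ 2 * x.2.1} :=
      measurableSet_le (measurable_norm.comp measurable_fst)
        ((measurable_fst.comp measurable_snd).const_mul 2)
    rw [triR_eq, ae_map_iff measurable_cst.aemeasurable hm]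
    filter_upwards [tri_le F hA (phi i)] with t ht
    have h0 := (abs_nonneg t.1).trans ht.1
    change |t.1| ≤ 2 * t.2.1
    linarith [ht.1]
  nd := by
    obtain ⟨w, hw⟩ := (core_tri F hA hi).Upos
    exact ⟨w, by rw [U_eq]; exact hw⟩
  nda := by
    have hc := core_tri F hA hi
    obtain ⟨w0, hw0⟩ := hc.Upos
    have hU : ∀ᶠ w : ℝ in atTop, 0 < Gam7.U (triR Q κ u (phi i)) w := by
      filter_upwards [eventually_ge_atTop w0] with w hw
      rw [U_eq]
      exact hw0.trans_le (hc.Umono hw)
    rw [tendsto_order]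
    constructor
    · intro a ha
      filter_upwards [hU] with w hw
      refine ha.trans_le ?_
      rw [Tl_eq]
      exact div_nonneg (mul_nonneg (sq_nonneg _) (hc.T0 w)) hw.le
    · intro a ha
      filter_upwards [hU, hN (a/2) (by positivity)] with w hw h1
      rw [div_lt_iff₀ hw, Tl_eq]
      rw [← U_eq] at h1
      nlinarith

/-- the height is integrable -/
theorem int_R (F : Frame Q κ 0) (hA : annealedProb Q 0 (escapeEvent (B2d.dirVec u)) ≠ 0)
    (i : Fin d) : Integrable (fun x : ℝ × ℝ × ℝ => x.2.2) (triR Q κ u (phi i)) := by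
  rw [triR_eq]
  have hm : Measurable (fun x : ℝ × ℝ × ℝ => x.2.2) := measurable_snd.comp measurable_snd
  exact (integrable_map_measure hm.aestronglyMeasurable measurable_cst.aemeasurable).2
    (integrable_Rt F hA i)

end Crest.Agent.R154.LawTri546
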