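import Mathlib

/-!
Row 154, d = 2 (helper7): **gambler's ruin for truncated symmetric steps, no moment** (Mathlib only).

* `Inc P F X b s2` : increments adapted, fresh, centred, `|X| ≤ b`, second moment `s2`.
* `stop_mean`, `stop_sq` : the stopped sum `Σ_{k<n} X_k 1_{A_k}` (`A_k ∈ F k`).
* `ruin` : the sum leaves `(-a, c)` through the top before time `n` with probability
  `≥ (a - (a + c) ((c+b) ⊔ (a+b))² / (n s2)) / (a + c + b)`.
* `kolm` : Kolmogorov's inequality.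
-/

set_option autoImplicit false
set_option linter.unusedSectionVars false
set_option linter.unusedVariables false
set_option linter.deprecated false

namespace Crest.Agent.R154.Gam7

open MeasureTheory ProbabilityTheory Set Filter Finset
open scoped ENNReal Topology

variable {Ω : Type*} {m0 : MeasurableSpace Ω} {P : Measure Ω}

/-- fresh centred bounded increments -/
structure Inc (P : Measure Ω) (F : ℕ → MeasurableSpace Ω) (X : ℕ → Ω → ℝ) (b s2 : ℝ) : Prop where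
  mono : Monotone F
  le : ∀ k, F k ≤ m0
  meas : ∀ k, Measurable[F (k + 1)] (X k)
  bd : ∀ k ω, |X k ω| ≤ b
  indep : ∀ k, Indep (MeasurableSpace.comap (X k) inferInstance) (F k) P
  mean : ∀ k, ∫ ω, X k ω ∂P = 0
  var : ∀ k, ∫ ω, X k ω ^ 2 ∂P = s2

section core
variable [IsProbabilityMeasure P] {F : ℕ → MeasurableSpace Ω} {X : ℕ → Ω → ℝ} {b s2 : ℝ}

lemma Inc.meas' (h : Inc P F X b s2) (k : ℕ) : Measurable (X k) := (h.meas k).mono (h.le _) le_rfl

lemma Inc.b0 (h : Inc P F X b s2) : 0 ≤ b := by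
  obtain ⟨ω⟩ : Nonempty Ω := by
    by_contra hne
    rw [not_nonempty_iff] at hne
    have h1 : P univ = 0 := by rw [Set.univ_eq_empty_iff.2 hne]; simp
    rw [measure_univ] at h1
    exact one_ne_zero h1
  exact (abs_nonneg _).trans (h.bd 0 ω)

lemma Inc.s0 (h : Inc P F X b s2) : 0 ≤ s2 := by
  rw [← h.var 0]; exact integral_nonneg fun ω => sq_nonneg _

/-- product of a function of the past and a function of the new increment -/
lemma Inc.mul (h : Inc P F X b s2) (k : ℕ) {f : Ω → ℝ} (hf : Measurable[F k] f) {g : ℝ → ℝ}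
    (hg : Measurable g) : ∫ ω, f ω * g (X k ω) ∂P = (∫ ω, f ω ∂P) * ∫ ω, g (X k ω) ∂P := by
  have hi : IndepFun f (fun ω => g (X k ω)) P := by
    rw [IndepFun_iff_Indep]
    refine (indep_of_indep_of_le_right (indep_of_indep_of_le_left (h.indep k) ?_) hf.comap_le).symm
    rintro _ ⟨s, hs, rfl⟩
    exact ⟨g ⁻¹' s, hg hs, rfl⟩
  exact hi.integral_fun_mul_eq_mul_integral (hf.mono (h.le k) le_rfl).aestronglyMeasurable
    (hg.comp (h.meas' k)).aestronglyMeasurable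

/-- stopped sum -/
noncomputable def St (X : ℕ → Ω → ℝ) (A : ℕ → Set Ω) (n : ℕ) (ω : Ω) : ℝ :=
  ∑ k ∈ range n, (A k).indicator (X k) ω

lemma St_succ (X : ℕ → Ω → ℝ) (A : ℕ → Set Ω) (n : ℕ) (ω : Ω) :
    St X A (n + 1) ω = St X A n ω + (A n).indicator (X n) ω := by
  unfold St; rw [sum_range_succ]

variable {A : ℕ → Set Ω}

lemma Inc.meas_St (h : Inc P F X b s2) (hA : ∀ k, MeasurableSet[F k] (A k)) (n : ℕ) :
    Measurable[F n] (St X A n) := by
  unfold St
  refine Finset.measurable_sum _ fun k hk => ?_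
  have hk' : k + 1 ≤ n := mem_range.1 hk
  exact ((h.meas k).mono (h.mono hk') le_rfl).indicator (h.mono (by omega : k ≤ n) _ (hA k))

lemma Inc.bd_St (h : Inc P F X b s2) (n : ℕ) (ω : Ω) : |St X A n ω| ≤ n * b := by
  unfold St
  calc |∑ k ∈ range n, (A k).indicator (X k) ω| ≤ ∑ k ∈ range n, |(A k).indicator (X k) ω| :=
        abs_sum_le_sum_abs _ _
    _ ≤ ∑ k ∈ range n, b := by
        refine sum_le_sum fun k _ => ?_
        by_cases hk : ω ∈ A k
        · rw [indicator_of_mem hk]; exact h.bd k ω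
        · rw [indicator_of_notMem hk]; simpa using h.b0
    _ = n * b := by simp

lemma int_bd {f : Ω → ℝ} (hf : Measurable f) {C : ℝ} (hC : ∀ ω, |f ω| ≤ C) : Integrable f P :=
  Integrable.of_bound hf.aestronglyMeasurable C (Eventually.of_forall fun ω => by
    rw [Real.norm_eq_abs]; exact hC ω)

theorem Inc.stop_mean (h : Inc P F X b s2) (hA : ∀ k, MeasurableSet[F k] (A k)) (n : ℕ) :
    ∫ ω, St X A n ω ∂P = 0 := by
  unfold St
  rw [integral_finset_sum]
  · refine sum_eq_zero fun k _ => ?_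
    have e : (fun ω => (A k).indicator (X k) ω) = fun ω => (A k).indicator (fun _ => (1 : ℝ)) ω *
        id (X k ω) := by
      funext ω
      by_cases hk : ω ∈ A k <;> simp [hk]
    have hm : Measurable[F k] ((A k).indicator fun _ => (1 : ℝ)) := measurable_const.indicator (hA k)
    rw [e, h.mul k hm measurable_id]
    simp only [id]
    rw [h.mean k, mul_zero]
  · intro k _
    refine int_bd ((h.meas' k).indicator (h.le k _ (hA k))) (C := b) fun ω => ?_
    by_cases hk : ω ∈ A k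
    · rw [indicator_of_mem hk]; exact h.bd k ω
    · rw [indicator_of_notMem hk]; simpa using h.b0

theorem Inc.stop_sq (h : Inc P F X b s2) (hA : ∀ k, MeasurableSet[F k] (A k)) (n : ℕ) :
    ∫ ω, St X A n ω ^ 2 ∂P = s2 * ∑ k ∈ range n, P.real (A k) := by
  induction n with
  | zero => simp [St]
  | succ n ih =>
    have hmS := h.meas_St hA n
    have hmS' : Measurable (St X A n) := hmS.mono (h.le n) le_rfl
    have hi : Measurable[F n] ((A n).indicator fun _ => (1 : ℝ)) := measurable_const.indicator (hA n)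
    have hi1 : ∀ ω, |(A n).indicator (fun _ => (1 : ℝ)) ω| ≤ 1 := by
      intro ω; by_cases hk : ω ∈ A n <;> simp [hk]
    have e : (fun ω => St X A (n + 1) ω ^ 2) = fun ω => St X A n ω ^ 2 +
        2 * ((St X A n ω * (A n).indicator (fun _ => (1 : ℝ)) ω) * X n ω) +
        (A n).indicator (fun _ => (1 : ℝ)) ω * X n ω ^ 2 := by
      funext ω
      rw [St_succ]
      by_cases hk : ω ∈ A n
      · rw [indicator_of_mem hk, indicator_of_mem hk]; ring
      · rw [indicator_of_notMem hk, indicator_of_notMem hk]; ring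
    rw [e]
    have i1 : Integrable (fun ω => St X A n ω ^ 2) P := by
      refine int_bd (hmS'.pow_const 2) (C := (n * b) ^ 2) fun ω => ?_
      rw [abs_pow]
      exact pow_le_pow_left₀ (abs_nonneg _) (h.bd_St n ω) 2
    have i2 : Integrable (fun ω => 2 * ((St X A n ω * (A n).indicator (fun _ => (1 : ℝ)) ω) *
        X n ω)) P := by
      refine Integrable.const_mul (int_bd ((hmS'.mul (hi.mono (h.le n) le_rfl)).mul (h.meas' n))
        (C := (n * b) * b) fun ω => ?_) 2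
      show |(St X A n ω * (A n).indicator (fun _ => (1 : ℝ)) ω) * X n ω| ≤ _
      rw [abs_mul, abs_mul]
      have h1 := h.bd_St (A := A) n ω
      have h2 := h.bd n ω
      calc |St X A n ω| * |(A n).indicator (fun _ => (1 : ℝ)) ω| * |X n ω|
          ≤ (n * b) * 1 * b := by
            refine mul_le_mul (mul_le_mul h1 (hi1 ω) (abs_nonneg _) ?_) h2 (abs_nonneg _) ?_
            · exact mul_nonneg (Nat.cast_nonneg _) h.b0
            · exact mul_nonneg (mul_nonneg (Nat.cast_nonneg _) h.b0) zero_le_one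
        _ = (n * b) * b := by ring
    have i3 : Integrable (fun ω => (A n).indicator (fun _ => (1 : ℝ)) ω * X n ω ^ 2) P := by
      refine int_bd ((hi.mono (h.le n) le_rfl).mul ((h.meas' n).pow_const 2)) (C := b ^ 2)
        fun ω => ?_
      have h2 := h.bd n ω
      rw [abs_mul, abs_pow]
      calc |(A n).indicator (fun _ => (1 : ℝ)) ω| * |X n ω| ^ 2 ≤ 1 * b ^ 2 :=
            mul_le_mul (hi1 ω) (pow_le_pow_left₀ (abs_nonneg _) h2 2) (by positivity) zero_le_one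
        _ = b ^ 2 := one_mul _
    have e1 : ∫ ω, St X A n ω * (A n).indicator (fun _ => (1 : ℝ)) ω * X n ω ∂P = 0 := by
      have := h.mul n (hmS.mul hi) measurable_id
      simp only [id] at this
      rw [show (∫ ω, St X A n ω * (A n).indicator (fun _ => (1 : ℝ)) ω * X n ω ∂P) =
        ∫ ω, (St X A n * (A n).indicator fun _ => (1 : ℝ)) ω * X n ω ∂P from rfl, this, h.mean n,
        mul_zero]
    have e2 : ∫ ω, (A n).indicator (fun _ => (1 : ℝ)) ω * X n ω ^ 2 ∂P = P.real (A n) * s2 := by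
      have := h.mul n hi (g := fun x => x ^ 2) (measurable_id.pow_const 2)
      rw [this, h.var n, integral_indicator (h.le n _ (hA n))]
      simp
    have i12 : Integrable (fun ω => St X A n ω ^ 2 +
        2 * ((St X A n ω * (A n).indicator (fun _ => (1 : ℝ)) ω) * X n ω)) P := i1.add i2
    rw [integral_add i12 i3, integral_add i1 i2, ih, integral_const_mul, e1, e2,
      sum_range_succ]
    ring

/-- full sum -/
noncomputable def Sm (X : ℕ → Ω → ℝ) (n : ℕ) (ω : Ω) : ℝ := ∑ k ∈ range n, X k ω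

lemma Sm_zero (X : ℕ → Ω → ℝ) (ω : Ω) : Sm X 0 ω = 0 := by simp [Sm]

lemma Sm_succ (X : ℕ → Ω → ℝ) (n : ℕ) (ω : Ω) : Sm X (n + 1) ω = Sm X n ω + X n ω := by
  unfold Sm; rw [sum_range_succ]

/-- alive up to `n` -/
def Al (X : ℕ → Ω → ℝ) (a c : ℝ) (n : ℕ) : Set Ω :=
  {ω | ∀ j ≤ n, -a < Sm X j ω ∧ Sm X j ω < c}

/-- left through the top by time `n` -/
def Top (X : ℕ → Ω → ℝ) (a c : ℝ) (n : ℕ) : Set Ω :=
  {ω | ∃ k ≤ n, c ≤ Sm X k ω ∧ ∀ j < k, -a < Sm X j ω ∧ Sm X j ω < c}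

/-- left through the bottom by time `n` -/
def Bot (X : ℕ → Ω → ℝ) (a c : ℝ) (n : ℕ) : Set Ω :=
  {ω | ∃ k ≤ n, Sm X k ω ≤ -a ∧ ∀ j < k, -a < Sm X j ω ∧ Sm X j ω < c}

lemma Inc.meas_Sm (h : Inc P F X b s2) {j n : ℕ} (hj : j ≤ n) : Measurable[F n] (Sm X j) := by
  unfold Sm
  refine Finset.measurable_sum _ fun k hk => ?_
  have hk' : k + 1 ≤ n := (mem_range.1 hk).trans_le hj
  exact (h.meas k).mono (h.mono hk') le_rfl

lemma Inc.meas_Al (h : Inc P F X b s2) (a c : ℝ) (n : ℕ) : MeasurableSet[F n] (Al X a c n) := by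
  have e : Al X a c n = ⋂ j ∈ Set.Iic n, Sm X j ⁻¹' Set.Ioo (-a) c := by
    ext ω; simp [Al, Set.mem_iInter]
  rw [e]
  refine MeasurableSet.biInter (Set.to_countable _) fun j hj => ?_
  exact (h.meas_Sm hj) measurableSet_Ioo

lemma Al_anti {a c : ℝ} {j n : ℕ} (hj : j ≤ n) : Al X a c n ⊆ Al X a c j :=
  fun _ hω i hi => hω i (hi.trans hj)

/-- the three cases -/
lemma Inc.three (h : Inc P F X b s2) {a c : ℝ} (ha : 0 < a) (hc : 0 < c) (n : ℕ) (ω : Ω) :
    (ω ∈ Al X a c n ∧ St X (Al X a c) n ω = Sm X n ω) ∨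
    (ω ∈ Top X a c n ∧ c ≤ St X (Al X a c) n ω ∧ St X (Al X a c) n ω ≤ c + b) ∨
    (ω ∈ Bot X a c n ∧ St X (Al X a c) n ω ≤ -a ∧ -(a + b) ≤ St X (Al X a c) n ω) := by
  induction n with
  | zero =>
    left
    refine ⟨fun j hj => ?_, by simp [St, Sm]⟩
    obtain rfl : j = 0 := by omega
    rw [Sm_zero]
    exact ⟨by linarith, hc⟩
  | succ n ih =>
    rcases ih with ⟨h1, h2⟩ | ⟨⟨k, hk, h1, h1'⟩, h2, h3⟩ | ⟨⟨k, hk, h1, h1'⟩, h2, h3⟩
    · have hb := abs_le.1 (h.bd n ω)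
      have e : St X (Al X a c) (n + 1) ω = Sm X (n + 1) ω := by
        rw [St_succ, indicator_of_mem h1, h2, Sm_succ]
      have hn := h1 n le_rfl
      rw [e]
      rcases le_or_gt c (Sm X (n + 1) ω) with h4 | h4
      · right; left
        refine ⟨⟨n + 1, le_rfl, h4, fun j hj => h1 j (by omega)⟩, h4, ?_⟩
        rw [Sm_succ]; linarith [hn.2, hb.2]
      rcases le_or_gt (Sm X (n + 1) ω) (-a) with h5 | h5
      · right; right
        refine ⟨⟨n + 1, le_rfl, h5, fun j hj => h1 j (by omega)⟩, h5, ?_⟩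
        rw [Sm_succ]; linarith [hn.1, hb.1]
      · left
        refine ⟨fun j hj => ?_, rfl⟩
        rcases Nat.lt_or_ge j (n + 1) with h6 | h6
        · exact h1 j (by omega)
        · obtain rfl : j = n + 1 := by omega
          exact ⟨h5, h4⟩
    · have hno : ω ∉ Al X a c n := fun hA => absurd (hA k hk).2 (not_lt.2 h1)
      rw [St_succ, indicator_of_notMem hno, add_zero]
      exact Or.inr (Or.inl ⟨⟨k, by omega, h1, h1'⟩, h2, h3⟩)
    · have hno : ω ∉ Al X a c n := fun hA => absurd (hA k hk).1 (not_lt.2 h1)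
      rw [St_succ, indicator_of_notMem hno, add_zero]
      exact Or.inr (Or.inr ⟨⟨k, by omega, h1, h1'⟩, h2, h3⟩)

lemma Inc.meas_St' (h : Inc P F X b s2) (a c : ℝ) (n : ℕ) : Measurable (St X (Al X a c) n) :=
  (h.meas_St (fun k => h.meas_Al a c k) n).mono (h.le n) le_rfl

lemma Inc.abs_St (h : Inc P F X b s2) {a c : ℝ} (ha : 0 < a) (hc : 0 < c) (n : ℕ) (ω : Ω) :
    |St X (Al X a c) n ω| ≤ max a c + b := by
  have hb := h.b0
  have h1 := le_max_left a c
  have h2 := le_max_right a c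
  rw [abs_le]
  rcases h.three ha hc n ω with ⟨h3, h4⟩ | ⟨_, h3, h4⟩ | ⟨_, h3, h4⟩
  · have := h3 n le_rfl
    rw [h4]; constructor <;> linarith [this.1, this.2]
  · constructor <;> linarith
  · constructor <;> linarith

/-- few paths stay alive for long -/
theorem Inc.alive_le (h : Inc P F X b s2) {a c : ℝ} (ha : 0 < a) (hc : 0 < c) (n : ℕ) :
    n * s2 * P.real (Al X a c n) ≤ (max a c + b) ^ 2 := by
  have h1 := h.stop_sq (fun k => h.meas_Al a c k) n
  have h2 : ∫ ω, St X (Al X a c) n ω ^ 2 ∂P ≤ (max a c + b) ^ 2 := by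
    calc ∫ ω, St X (Al X a c) n ω ^ 2 ∂P ≤ ∫ ω, (max a c + b) ^ 2 ∂P := by
          refine integral_mono ?_ (integrable_const _) fun ω => ?_
          · refine int_bd ((h.meas_St' a c n).pow_const 2) (C := (max a c + b) ^ 2) fun ω => ?_
            rw [abs_pow]
            exact pow_le_pow_left₀ (abs_nonneg _) (h.abs_St ha hc n ω) 2
          · rw [← sq_abs]
            exact pow_le_pow_left₀ (abs_nonneg _) (h.abs_St ha hc n ω) 2
      _ = (max a c + b) ^ 2 := by simp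
  have h3 : (n : ℝ) * P.real (Al X a c n) ≤ ∑ k ∈ range n, P.real (Al X a c k) := by
    calc (n : ℝ) * P.real (Al X a c n) = ∑ k ∈ range n, P.real (Al X a c n) := by simp
      _ ≤ _ := sum_le_sum fun k hk => measureReal_mono (Al_anti (mem_range.1 hk).le)
  calc n * s2 * P.real (Al X a c n) = s2 * (n * P.real (Al X a c n)) := by ring
    _ ≤ s2 * ∑ k ∈ range n, P.real (Al X a c k) := mul_le_mul_of_nonneg_left h3 h.s0
    _ ≤ _ := by rw [← h1]; exact h2

lemma Inc.meas_Top (h : Inc P F X b s2) (a c : ℝ) (n : ℕ) : MeasurableSet (Top X a c n) := by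
  have hS : ∀ j, Measurable (Sm X j) := fun j => (h.meas_Sm le_rfl).mono (h.le j) le_rfl
  have e : Top X a c n = ⋃ k ∈ Set.Iic n, (Sm X k ⁻¹' Set.Ici c ∩
      ⋂ j ∈ Set.Iio k, Sm X j ⁻¹' Set.Ioo (-a) c) := by
    ext ω
    simp only [Top, Set.mem_setOf_eq, Set.mem_iUnion, Set.mem_Iic, Set.mem_inter_iff,
      Set.mem_preimage, Set.mem_Ici, Set.mem_iInter, Set.mem_Iio, Set.mem_Ioo, exists_prop]
  rw [e]
  refine MeasurableSet.biUnion (Set.to_countable _) fun j _ => ?_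
  refine (hS j measurableSet_Ici).inter (MeasurableSet.biInter (Set.to_countable _) fun i _ => ?_)
  exact hS i measurableSet_Ioo

/-- **gambler's ruin** -/
theorem Inc.ruin (h : Inc P F X b s2) {a c : ℝ} (ha : 0 < a) (hc : 0 < c) (n : ℕ) :
    a ≤ (a + b + c) * P.real (Top X a c n) + (a + c) * P.real (Al X a c n) := by
  have h1 := h.stop_mean (fun k => h.meas_Al a c k) n
  have mT := h.meas_Top a c n
  have mA := h.le n _ (h.meas_Al a c n)
  have iT : Integrable ((Top X a c n).indicator fun _ => (a + b + c)) P :=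
    (integrable_const _).indicator mT
  have iA : Integrable ((Al X a c n).indicator fun _ => (a + c)) P :=
    (integrable_const _).indicator mA
  have hb := h.b0
  have h2 : ∫ ω, St X (Al X a c) n ω ∂P ≤
      ∫ ω, ((Top X a c n).indicator (fun _ => (a + b + c)) ω +
        (Al X a c n).indicator (fun _ => (a + c)) ω) - a ∂P := by
    refine integral_mono ?_ ((iT.add iA).sub (integrable_const _)) fun ω => ?_
    · exact int_bd (h.meas_St' a c n) (h.abs_St ha hc n)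
    · have p1 : 0 ≤ (Top X a c n).indicator (fun _ => (a + b + c)) ω :=
        indicator_nonneg (fun _ _ => by positivity) ω
      have p2 : 0 ≤ (Al X a c n).indicator (fun _ => (a + c)) ω :=
        indicator_nonneg (fun _ _ => by positivity) ω
      show St X (Al X a c) n ω ≤ _
      rcases h.three ha hc n ω with ⟨h3, h4⟩ | ⟨h5, h3, h4⟩ | ⟨_, h3, h4⟩
      · rw [indicator_of_mem h3, h4]
        linarith [(h3 n le_rfl).2]
      · rw [indicator_of_mem h5]
        linarith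
      · linarith
  have h3 : ∫ ω, ((Top X a c n).indicator (fun _ => (a + b + c)) ω +
        (Al X a c n).indicator (fun _ => (a + c)) ω) - a ∂P =
      (a + b + c) * P.real (Top X a c n) + (a + c) * P.real (Al X a c n) - a := by
    have iTA : Integrable (fun ω => (Top X a c n).indicator (fun _ => (a + b + c)) ω +
        (Al X a c n).indicator (fun _ => (a + c)) ω) P := iT.add iA
    rw [integral_sub iTA (integrable_const _), integral_add iT iA, integral_indicator mT,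
      integral_indicator mA]
    simp
    ring
  linarith

/-- **Kolmogorov** -/
theorem Inc.kolm (h : Inc P F X b s2) {r : ℝ} (hr : 0 < r) (n : ℕ) :
    r ^ 2 * P.real (Al X r r n)ᶜ ≤ n * s2 := by
  have h1 := h.stop_sq (fun k => h.meas_Al r r k) n
  have mA := h.le n _ (h.meas_Al r r n)
  have h2 : ∫ ω, (Al X r r n)ᶜ.indicator (fun _ => r ^ 2) ω ∂P ≤
      ∫ ω, St X (Al X r r) n ω ^ 2 ∂P := by
    refine integral_mono ((integrable_const _).indicator mA.compl) ?_ fun ω => ?_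
    · refine int_bd ((h.meas_St' r r n).pow_const 2) (C := (max r r + b) ^ 2) fun ω => ?_
      rw [abs_pow]
      exact pow_le_pow_left₀ (abs_nonneg _) (h.abs_St hr hr n ω) 2
    · show (Al X r r n)ᶜ.indicator (fun _ => r ^ 2) ω ≤ St X (Al X r r) n ω ^ 2
      by_cases hω : ω ∈ Al X r r n
      · rw [indicator_of_notMem (show ω ∉ (Al X r r n)ᶜ from fun hc' => hc' hω)]; positivity
      · rw [indicator_of_mem (show ω ∈ (Al X r r n)ᶜ from hω)]
        rcases h.three hr hr n ω with ⟨h3, h4⟩ | ⟨h5, h3, h4⟩ | ⟨_, h3, h4⟩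
        · exact absurd h3 hω
        · nlinarith
        · nlinarith
  rw [integral_indicator mA.compl] at h2
  simp only [integral_const, smul_eq_mul] at h2
  have h3 : ∑ k ∈ range n, P.real (Al X r r k) ≤ n := by
    calc ∑ k ∈ range n, P.real (Al X r r k) ≤ ∑ k ∈ range n, (1 : ℝ) :=
          sum_le_sum fun k _ => measureReal_le_one
      _ = n := by simp
  have h4 := mul_le_mul_of_nonneg_left h3 h.s0
  rw [h1] at h2
  have h5 : (P.restrict (Al X r r n)ᶜ).real univ = P.real (Al X r r n)ᶜ := by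
    simp [Measure.real]
  rw [h5] at h2
  calc r ^ 2 * P.real (Al X r r n)ᶜ = P.real (Al X r r n)ᶜ * r ^ 2 := by ring
    _ ≤ _ := h2
    _ ≤ s2 * n := h4
    _ = n * s2 := by ring

end core

/-! ### blocks `(V, B, R)` with law `μ` -/
section blk

/-- truncated displacement -/
noncomputable def tr (t : ℝ) (x : ℝ × ℝ × ℝ) : ℝ := if x.2.1 ≤ t ∧ |x.1| ≤ 2 * t then x.1 else 0

/-- truncated second moment `E[V^2; B ≤ t]` -/
noncomputable def U (μ : Measure (ℝ × ℝ × ℝ)) (t : ℝ) : ℝ :=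
  ∫ x, {x : ℝ × ℝ × ℝ | x.2.1 ≤ t}.indicator (fun x => x.1 ^ 2) x ∂μ

/-- tail of the extent `P(B > t)` -/
noncomputable def Tl (μ : Measure (ℝ × ℝ × ℝ)) (t : ℝ) : ℝ := μ.real {x | t < x.2.1}

/-- **the hypothesis on the law of a block: symmetric, `|V| ≤ 2B`, nondegenerate, NDA** -/
structure Law (μ : Measure (ℝ × ℝ × ℝ)) : Prop where
  symm : μ.map (fun x => (-x.1, x.2)) = μ
  bd : ∀ᵐ x ∂μ, |x.1| ≤ 2 * x.2.1
  nd : ∃ w, 0 < U μ w
  nda : Tendsto (fun w => w ^ 2 * Tl μ w / U μ w) atTop (𝓝 0)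

lemma meas_tr (t : ℝ) : Measurable (tr t) := by
  unfold tr
  refine Measurable.ite ?_ measurable_fst measurable_const
  have h1 : MeasurableSet {x : ℝ × ℝ × ℝ | x.2.1 ≤ t} :=
    measurableSet_le (measurable_fst.comp measurable_snd) measurable_const
  have h2 : MeasurableSet {x : ℝ × ℝ × ℝ | |x.1| ≤ 2 * t} :=
    measurableSet_le (measurable_fst.abs) measurable_const
  exact h1.inter h2

lemma tr_bd {t : ℝ} (ht : 0 ≤ t) (x : ℝ × ℝ × ℝ) : |tr t x| ≤ 2 * t := by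
  unfold tr
  split_ifs with h
  · exact h.2
  · simpa using ht

variable {μ : Measure (ℝ × ℝ × ℝ)} [IsProbabilityMeasure μ]

lemma tr_mean (hμ : Law μ) (t : ℝ) : ∫ x, tr t x ∂μ = 0 := by
  have hm : Measurable (fun x : ℝ × ℝ × ℝ => (-x.1, x.2)) :=
    (measurable_fst.neg).prodMk measurable_snd
  have h1 : ∫ x, tr t x ∂μ = - ∫ x, tr t x ∂μ := by
    conv_lhs => rw [← hμ.symm]
    rw [integral_map hm.aemeasurable (meas_tr t).aestronglyMeasurable, ← integral_neg]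
    refine integral_congr_ae (Eventually.of_forall fun x => ?_)
    simp only [tr, abs_neg]
    split_ifs <;> simp
  linarith

lemma tr_ae (hμ : Law μ) (t : ℝ) : (fun x => tr t x ^ 2) =ᵐ[μ]
    {x : ℝ × ℝ × ℝ | x.2.1 ≤ t}.indicator (fun x => x.1 ^ 2) := by
  filter_upwards [hμ.bd] with x hx
  by_cases h : x.2.1 ≤ t
  · rw [indicator_of_mem (show x ∈ {x : ℝ × ℝ × ℝ | x.2.1 ≤ t} from h)]
    simp only [tr]
    rw [if_pos ⟨h, by linarith⟩]
  · rw [indicator_of_notMem (show x ∉ {x : ℝ × ℝ × ℝ | x.2.1 ≤ t} from h)]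
    simp only [tr]
    rw [if_neg (fun h' => h h'.1)]
    norm_num

lemma tr_sq (hμ : Law μ) (t : ℝ) : ∫ x, tr t x ^ 2 ∂μ = U μ t := integral_congr_ae (tr_ae hμ t)

lemma int_tr_sq {t : ℝ} (ht : 0 ≤ t) : Integrable (fun x => tr t x ^ 2) μ := by
  refine int_bd ((meas_tr t).pow_const 2) (C := (2 * t) ^ 2) fun x => ?_
  rw [abs_pow]
  exact pow_le_pow_left₀ (abs_nonneg _) (tr_bd ht x) 2

lemma Tl_meas (t : ℝ) : MeasurableSet {x : ℝ × ℝ × ℝ | t < x.2.1} :=
  measurableSet_lt measurable_const (measurable_fst.comp measurable_snd)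

/-- `U t ≤ U s + 4 t² P(B > s)` -/
lemma U_le (hμ : Law μ) {s t : ℝ} (hs : 0 ≤ s) (hst : s ≤ t) :
    U μ t ≤ U μ s + 4 * t ^ 2 * Tl μ s := by
  have ht := hs.trans hst
  rw [← tr_sq hμ t, ← tr_sq hμ s]
  have e : 4 * t ^ 2 * Tl μ s = ∫ x, {x : ℝ × ℝ × ℝ | s < x.2.1}.indicator
      (fun _ => 4 * t ^ 2) x ∂μ := by
    rw [integral_indicator (Tl_meas s)]
    simp [Tl]; ring
  have hI : Integrable ({x : ℝ × ℝ × ℝ | s < x.2.1}.indicator (fun _ => 4 * t ^ 2)) μ :=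
    (integrable_const _).indicator (Tl_meas s)
  rw [e, ← integral_add (int_tr_sq hs) hI]
  refine integral_mono_ae (int_tr_sq ht) ((int_tr_sq hs).add hI) ?_
  filter_upwards [hμ.bd] with x hx
  show tr t x ^ 2 ≤ tr s x ^ 2 + {x : ℝ × ℝ × ℝ | s < x.2.1}.indicator (fun _ => 4 * t ^ 2) x
  by_cases h : s < x.2.1
  · rw [indicator_of_mem (show x ∈ {x : ℝ × ℝ × ℝ | s < x.2.1} from h)]
    have h1 := tr_bd ht x
    have h2 : tr t x ^ 2 ≤ (2 * t) ^ 2 := by
      rw [← sq_abs]; exact pow_le_pow_left₀ (abs_nonneg _) h1 2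
    nlinarith [sq_nonneg (tr s x)]
  · rw [indicator_of_notMem (show x ∉ {x : ℝ × ℝ × ℝ | s < x.2.1} from h), add_zero]
    have h' := not_lt.1 h
    simp only [tr]
    rw [if_pos ⟨h'.trans hst, by linarith⟩, if_pos ⟨h', by linarith⟩]

lemma U_mono (hμ : Law μ) {s t : ℝ} (hs : 0 ≤ s) (hst : s ≤ t) : U μ s ≤ U μ t := by
  have ht := hs.trans hst
  rw [← tr_sq hμ t, ← tr_sq hμ s]
  refine integral_mono_ae (int_tr_sq hs) (int_tr_sq ht) ?_
  filter_upwards [hμ.bd] with x hx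
  show tr s x ^ 2 ≤ tr t x ^ 2
  by_cases h : x.2.1 ≤ s
  · simp only [tr]
    rw [if_pos ⟨h, by linarith⟩, if_pos ⟨h.trans hst, by linarith⟩]
  · have h1 : tr s x = 0 := by
      simp only [tr]
      rw [if_neg (fun h' => h h'.1)]
    have h2 := sq_nonneg (tr t x)
    rw [h1]
    linarith

lemma U_le_sq (hμ : Law μ) {t : ℝ} (ht : 0 ≤ t) : U μ t ≤ 4 * t ^ 2 := by
  rw [← tr_sq hμ t]
  calc ∫ x, tr t x ^ 2 ∂μ ≤ ∫ x, 4 * t ^ 2 ∂μ := by
        refine integral_mono (int_tr_sq ht) (integrable_const _) fun x => ?_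
        have h1 := tr_bd ht x
        have h2 : tr t x ^ 2 ≤ (2 * t) ^ 2 := by
          rw [← sq_abs]; exact pow_le_pow_left₀ (abs_nonneg _) h1 2
        show tr t x ^ 2 ≤ 4 * t ^ 2
        linarith
    _ = 4 * t ^ 2 := by simp

lemma U_nonneg (t : ℝ) : 0 ≤ U μ t := by
  unfold U
  exact integral_nonneg fun x => indicator_nonneg (fun _ _ => sq_nonneg _) x

lemma Tl_nonneg (t : ℝ) : 0 ≤ Tl μ t := measureReal_nonneg

lemma U_pos (hμ : Law μ) : ∃ w0 : ℝ, 0 < w0 ∧ ∀ w, w0 ≤ w → 0 < U μ w := by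
  obtain ⟨w1, h1⟩ := hμ.nd
  have h0 : 0 ≤ w1 := by
    by_contra hn
    have hn' := not_le.1 hn
    have : U μ w1 = 0 := by
      rw [← tr_sq hμ w1]
      have : ∀ x, tr w1 x = 0 := fun x => by
        simp only [tr]
        rw [if_neg]
        rintro ⟨_, h3⟩
        linarith [abs_nonneg x.1]
      simp [this]
    linarith
  refine ⟨max w1 1, by positivity, fun w hw => h1.trans_le (U_mono hμ h0 ((le_max_left _ _).trans hw))⟩

/-- `w² P(B > δ w) ≤ ε U(w)` -/
lemma Tl_small (hμ : Law μ) {δ ε : ℝ} (hδ : 0 < δ) (hδ1 : δ ≤ 1) (hε : 0 < ε) :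
    ∃ w0 : ℝ, 0 < w0 ∧ ∀ w, w0 ≤ w → 0 < U μ (δ * w) ∧ w ^ 2 * Tl μ (δ * w) ≤ ε * U μ (δ * w) := by
  obtain ⟨w1, h1, h1'⟩ := U_pos hμ
  have h2 := (hμ.nda.eventually (gt_mem_nhds (show (0 : ℝ) < ε * δ ^ 2 by positivity)))
  obtain ⟨w2, h2⟩ := eventually_atTop.1 h2
  refine ⟨max (w1 / δ) (max (w2 / δ) 1), by positivity, fun w hw => ?_⟩
  have e1 : w1 ≤ δ * w := by
    have := (le_max_left _ _).trans hw
    rw [div_le_iff₀ hδ] at this; linarith
  have e2 : w2 ≤ δ * w := by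
    have := ((le_max_left _ _).trans (le_max_right _ _)).trans hw
    rw [div_le_iff₀ hδ] at this; linarith
  have hU := h1' _ e1
  refine ⟨hU, ?_⟩
  have h3 := h2 _ e2
  rw [div_lt_iff₀ hU] at h3
  have h4 : δ ^ 2 * (w ^ 2 * Tl μ (δ * w)) ≤ δ ^ 2 * (ε * U μ (δ * w)) := by
    nlinarith
  exact le_of_mul_le_mul_left h4 (by positivity)

/-- `U` is slowly varying -/
lemma U_slow (hμ : Law μ) {δ ε : ℝ} (hδ : 0 < δ) (hδ1 : δ ≤ 1) (hε : 0 < ε) :
    ∃ w0 : ℝ, 0 < w0 ∧ ∀ w, w0 ≤ w → 0 < U μ (δ * w) ∧ U μ w ≤ (1 + ε) * U μ (δ * w) := by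
  obtain ⟨w0, h0, h1⟩ := Tl_small hμ hδ hδ1 (show 0 < ε / 4 by positivity)
  refine ⟨w0, h0, fun w hw => ⟨(h1 w hw).1, ?_⟩⟩
  have hw0 : 0 < w := h0.trans_le hw
  have h2 := U_le hμ (s := δ * w) (t := w) (by positivity) (by nlinarith)
  have h3 := (h1 w hw).2
  linarith

/-- the scale `h(w) = w² / U(w)` tends to infinity -/
lemma h_tendsto (hμ : Law μ) : Tendsto (fun w => w ^ 2 / U μ w) atTop atTop := by
  rw [tendsto_atTop]
  intro C
  set δ : ℝ := 1 / (3 * (|C| + 1)) with hδ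
  have hC := abs_nonneg C
  have hC1 : (1 : ℝ) ≤ |C| + 1 := by linarith
  have hδ0 : 0 < δ := by positivity
  have hδ1 : δ ≤ 1 := by
    rw [hδ, div_le_one (by positivity)]; linarith
  obtain ⟨w0, h0, h1⟩ := U_slow hμ hδ0 hδ1 one_pos
  filter_upwards [eventually_ge_atTop w0] with w hw
  have hw0 : 0 < w := h0.trans_le hw
  obtain ⟨h2, h3⟩ := h1 w hw
  have h4 := U_le_sq hμ (t := δ * w) (by positivity)
  have h5 : U μ w ≤ 8 * (δ * w) ^ 2 := by linarith
  have h6 : 0 < U μ w := h2.trans_le (U_mono hμ (by positivity) (by nlinarith))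
  rw [le_div_iff₀ h6]
  have h7 : (|C| + 1) * U μ w ≤ w ^ 2 := by
    calc (|C| + 1) * U μ w ≤ (|C| + 1) * (8 * (δ * w) ^ 2) :=
          mul_le_mul_of_nonneg_left h5 (by positivity)
      _ = 8 / 9 / (|C| + 1) * w ^ 2 := by
          rw [hδ]; field_simp; ring
      _ ≤ 1 * w ^ 2 := by
          refine mul_le_mul_of_nonneg_right ?_ (sq_nonneg _)
          rw [div_le_one (by positivity)]
          linarith
      _ = w ^ 2 := one_mul _
  have h8 : C ≤ |C| + 1 := by linarith [le_abs_self C]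
  calc C * U μ w ≤ (|C| + 1) * U μ w := mul_le_mul_of_nonneg_right h8 h6.le
    _ ≤ w ^ 2 := h7

/-- `Λ² h(w) ≤ (1 + ε) h(Λ w)` -/
lemma h_grow (hμ : Law μ) {Λ ε : ℝ} (hΛ : 1 ≤ Λ) (hε : 0 < ε) :
    ∃ w0 : ℝ, 0 < w0 ∧ ∀ w, w0 ≤ w → 0 < U μ w ∧
      Λ ^ 2 * (w ^ 2 / U μ w) ≤ (1 + ε) * ((Λ * w) ^ 2 / U μ (Λ * w)) := by
  have hΛ0 : 0 < Λ := by linarith
  obtain ⟨w0, h0, h1⟩ := U_slow hμ (show 0 < 1 / Λ by positivity)
    (by rw [div_le_one hΛ0]; exact hΛ) hε
  refine ⟨w0, h0, fun w hw => ?_⟩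
  have hw0 : 0 < w := h0.trans_le hw
  obtain ⟨h2, h3⟩ := h1 (Λ * w) (by nlinarith)
  rw [show 1 / Λ * (Λ * w) = w by field_simp] at h2 h3
  refine ⟨h2, ?_⟩
  have h4 : 0 < U μ (Λ * w) := h2.trans_le (U_mono hμ hw0.le (by nlinarith))
  rw [mul_pow, mul_div_assoc', mul_div_assoc', div_le_div_iff₀ h2 h4]
  have h5 : 0 ≤ Λ ^ 2 * w ^ 2 := by positivity
  nlinarith [mul_le_mul_of_nonneg_left h3 h5]

/-- a sequence of fresh blocks with law `μ` -/
structure Sq (P : Measure Ω) (F : ℕ → MeasurableSpace Ω) (μ : Measure (ℝ × ℝ × ℝ))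
    (Z : ℕ → Ω → ℝ × ℝ × ℝ) : Prop where
  mono : Monotone F
  le : ∀ k, F k ≤ m0
  meas : ∀ k, Measurable[F (k + 1)] (Z k)
  indep : ∀ k, Indep (MeasurableSpace.comap (Z k) inferInstance) (F k) P
  law : ∀ k, P.map (Z k) = μ

section seq
variable [IsProbabilityMeasure P] {F : ℕ → MeasurableSpace Ω} {Z : ℕ → Ω → ℝ × ℝ × ℝ}

lemma Sq.meas' (h : Sq P F μ Z) (k : ℕ) : Measurable (Z k) := (h.meas k).mono (h.le _) le_rfl

lemma Sq.inc (h : Sq P F μ Z) (hμ : Law μ) {t : ℝ} (ht : 0 ≤ t) :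
    Inc P F (fun k ω => tr t (Z k ω)) (2 * t) (U μ t) where
  mono := h.mono
  le := h.le
  meas k := (meas_tr t).comp (h.meas k)
  bd k ω := tr_bd ht _
  indep k := by
    refine indep_of_indep_of_le_left (h.indep k) ?_
    rintro _ ⟨s, hs, rfl⟩
    exact ⟨tr t ⁻¹' s, meas_tr t hs, rfl⟩
  mean k := by
    rw [← tr_mean hμ t, ← h.law k,
      integral_map (h.meas' k).aemeasurable (meas_tr t).aestronglyMeasurable]
  var k := by
    rw [← tr_sq hμ t, ← h.law k,
      integral_map (h.meas' k).aemeasurable ((meas_tr t).pow_const 2).aestronglyMeasurable]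

/-- the pathwise bound `|V| ≤ 2B` almost surely for all blocks -/
lemma Sq.ae_bd (h : Sq P F μ Z) (hμ : Law μ) : ∀ᵐ ω ∂P, ∀ k, |(Z k ω).1| ≤ 2 * (Z k ω).2.1 := by
  rw [ae_all_iff]
  intro k
  have := hμ.bd
  rw [← h.law k] at this
  exact ae_of_ae_map (h.meas' k).aemeasurable this

/-- one of the first `n` blocks is wide -/
lemma Sq.wide (h : Sq P F μ Z) (t : ℝ) (n : ℕ) :
    P.real {ω | ∃ j < n, t < (Z j ω).2.1} ≤ n * Tl μ t := by
  have e : {ω | ∃ j < n, t < (Z j ω).2.1} = ⋃ j ∈ range n, {ω | t < (Z j ω).2.1} := by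
    ext ω; simp
  rw [e]
  calc P.real (⋃ j ∈ range n, {ω | t < (Z j ω).2.1})
      ≤ ∑ j ∈ range n, P.real {ω | t < (Z j ω).2.1} := measureReal_biUnion_finset_le _ _
    _ = ∑ j ∈ range n, Tl μ t := by
        refine sum_congr rfl fun j _ => ?_
        unfold Tl
        rw [← h.law j, map_measureReal_apply (h.meas' j) (Tl_meas t)]
        rfl
    _ = n * Tl μ t := by simp

/-- truncation changes nothing if no block is wide -/
lemma Sm_tr {t : ℝ} {n k : ℕ} (hk : k ≤ n) {ω : Ω} (hb : ∀ k, |(Z k ω).1| ≤ 2 * (Z k ω).2.1)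
    (hw : ∀ j < n, (Z j ω).2.1 ≤ t) :
    Sm (fun k ω => tr t (Z k ω)) k ω = Sm (fun k ω => (Z k ω).1) k ω := by
  unfold Sm
  refine sum_congr rfl fun j hj => ?_
  have h1 := hw j ((mem_range.1 hj).trans_le hk)
  simp only [tr]
  rw [if_pos ⟨h1, by linarith [hb j]⟩]

/-- total height of `n` blocks: Markov -/
lemma Sq.height (h : Sq P F μ Z) (hR : Integrable (fun x : ℝ × ℝ × ℝ => x.2.2) μ)
    (hR0 : ∀ᵐ x ∂μ, 0 ≤ x.2.2) (n : ℕ) {t : ℝ} (ht : 0 < t) :
    P.real {ω | t < ∑ j ∈ range n, (Z j ω).2.2} ≤ n * (∫ x, x.2.2 ∂μ) / t := by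
  have m2 : Measurable (fun x : ℝ × ℝ × ℝ => x.2.2) := measurable_snd.comp measurable_snd
  have hI : ∀ j, Integrable (fun ω => (Z j ω).2.2) P := fun j => by
    have := hR
    rw [← h.law j] at this
    exact this.comp_measurable (h.meas' j)
  have h0 : ∀ᵐ ω ∂P, ∀ j, 0 ≤ (Z j ω).2.2 := by
    rw [ae_all_iff]
    intro j
    have := hR0
    rw [← h.law j] at this
    exact ae_of_ae_map (h.meas' j).aemeasurable this
  have hS : Integrable (fun ω => ∑ j ∈ range n, (Z j ω).2.2) P :=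
    integrable_finset_sum _ fun j _ => hI j
  have e : ∫ ω, ∑ j ∈ range n, (Z j ω).2.2 ∂P = n * ∫ x, x.2.2 ∂μ := by
    rw [integral_finset_sum _ fun j _ => hI j]
    calc ∑ j ∈ range n, ∫ ω, (Z j ω).2.2 ∂P = ∑ j ∈ range n, ∫ x, x.2.2 ∂μ := by
          refine sum_congr rfl fun j _ => ?_
          rw [← h.law j, integral_map (h.meas' j).aemeasurable m2.aestronglyMeasurable]
      _ = n * ∫ x, x.2.2 ∂μ := by simp
  have hM := mul_meas_ge_le_integral_of_nonneg (μ := P)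
    (f := fun ω => ∑ j ∈ range n, (Z j ω).2.2) (by
      filter_upwards [h0] with ω hω
      exact sum_nonneg fun j _ => hω j) hS t
  rw [e] at hM
  rw [le_div_iff₀ ht, mul_comm]
  refine le_trans (mul_le_mul_of_nonneg_left (measureReal_mono fun ω hω => ?_) ht.le) hM
  exact (show t < ∑ j ∈ range n, (Z j ω).2.2 from hω).le

/-- reflected blocks -/
lemma Sq.neg (h : Sq P F μ Z) (hμ : Law μ) :
    Sq P F μ (fun k ω => (-(Z k ω).1, (Z k ω).2)) where
  mono := h.mono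
  le := h.le
  meas k := ((measurable_fst.neg).prodMk measurable_snd).comp (h.meas k)
  indep k := by
    refine indep_of_indep_of_le_left (h.indep k) ?_
    rintro _ ⟨s, hs, rfl⟩
    exact ⟨(fun x : ℝ × ℝ × ℝ => (-x.1, x.2)) ⁻¹' s,
      ((measurable_fst.neg).prodMk measurable_snd) hs, rfl⟩
  law k := by
    have hm : Measurable (fun x : ℝ × ℝ × ℝ => (-x.1, x.2)) :=
      (measurable_fst.neg).prodMk measurable_snd
    rw [← hμ.symm]
    conv_rhs => rw [← h.law k]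
    rw [Measure.map_map hm (h.meas' k)]
    rfl

/-- from mutual independence -/
lemma Sq.of_iIndep (hm : ∀ k, Measurable (Z k)) (hi : iIndepFun Z P)
    (hl : ∀ k, P.map (Z k) = μ) :
    Sq P (fun k => ⨆ i ∈ Set.Iio k, MeasurableSpace.comap (Z i) inferInstance) μ Z where
  mono j k hjk := biSup_mono fun i hi => lt_of_lt_of_le hi hjk
  le k := iSup₂_le fun i _ => (hm i).comap_le
  meas k := by
    have h1 : MeasurableSpace.comap (Z k) inferInstance ≤
        ⨆ i ∈ Set.Iio (k + 1), MeasurableSpace.comap (Z i) inferInstance :=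
      le_iSup₂_of_le k (Nat.lt_succ_self k) le_rfl
    exact (comap_measurable (Z k)).mono h1 le_rfl
  indep k := by
    have h1 := indep_iSup_of_disjoint (fun i => (hm i).comap_le) hi.iIndep
      (S := {k}) (T := Set.Iio k) (by simp)
    simpa using h1
  law := hl

end seq

/-- blocks `0..n`: the sum climbs by `(Λ-1) w` before falling by `w/2`, no block is wider than
`δ w`, the total height is at most `H` -/
def Climb (Z : ℕ → Ω → ℝ × ℝ × ℝ) (Λ δ w H : ℝ) (n : ℕ) : Set Ω :=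
  {ω | (∃ k ≤ n, (Λ - 1) * w ≤ Sm (fun k ω => (Z k ω).1) k ω ∧ ∀ j < k,
      -(w / 2) < Sm (fun k ω => (Z k ω).1) j ω ∧ Sm (fun k ω => (Z k ω).1) j ω < (Λ - 1) * w) ∧
    (∀ j < n, (Z j ω).2.1 ≤ δ * w) ∧ ∑ j ∈ range n, (Z j ω).2.2 ≤ H}

/-- blocks `0..n`: the sum stays within `ε w`, no block is wider than `ε w` -/
def Stay (Z : ℕ → Ω → ℝ × ℝ × ℝ) (ε w : ℝ) (n : ℕ) : Set Ω :=
  {ω | (∀ k ≤ n, |Sm (fun k ω => (Z k ω).1) k ω| < ε * w) ∧ ∀ j < n, (Z j ω).2.1 ≤ ε * w}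

universe u

/-- **(E1)** -/
theorem E1 (hμ : Law μ) (hR : Integrable (fun x : ℝ × ℝ × ℝ => x.2.2) μ)
    (hR0 : ∀ᵐ x ∂μ, 0 ≤ x.2.2) {Λ δ : ℝ} (hΛ : 1 < Λ) (hδ : 0 < δ) (hδ4 : δ ≤ 1 / 4) :
    ∃ K w0 : ℝ, 0 < K ∧ 0 < w0 ∧ ∀ w, w0 ≤ w → 0 < U μ w ∧ 1 ≤ w ^ 2 / U μ w ∧
      ∃ n : ℕ, (n : ℝ) ≤ K * (w ^ 2 / U μ w) ∧
        ∀ {Ω : Type u} {m0 : MeasurableSpace Ω} (P : Measure Ω) [IsProbabilityMeasure P]
          (F : ℕ → MeasurableSpace Ω) (Z : ℕ → Ω → ℝ × ℝ × ℝ), Sq P F μ Z →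
          1 / (4 * Λ) ≤ P.real (Climb Z Λ δ w (K * (w ^ 2 / U μ w)) n) := by
  have hΛ0 : 0 < Λ := by linarith
  set K0 : ℝ := 24 * Λ ^ 3 with hK0
  have hK0p : 0 < K0 := by positivity
  set ER : ℝ := ∫ x, x.2.2 ∂μ with hER
  have hER0 : 0 ≤ ER := integral_nonneg_of_ae hR0
  set K : ℝ := (K0 + 1) * (12 * Λ * (ER + 1)) with hK
  have hKp : 0 < K := by positivity
  have hKK : K0 + 1 ≤ K := by
    rw [hK]
    have h1 : 1 ≤ 12 * Λ * (ER + 1) := by nlinarith
    nlinarith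
  obtain ⟨wa, ha0, ha⟩ := Tl_small hμ hδ (by linarith) (show 0 < 1 / (12 * Λ * (K0 + 1)) by positivity)
  obtain ⟨wb, hb0, hb⟩ := U_slow hμ hδ (by linarith) one_pos
  obtain ⟨wc, hc⟩ := eventually_atTop.1 ((h_tendsto hμ).eventually_ge_atTop 1)
  refine ⟨K, max wa (max wb wc), hKp, lt_max_of_lt_left ha0, fun w hw => ?_⟩
  have hwa := (le_max_left _ _).trans hw
  have hwb := ((le_max_left _ _).trans (le_max_right _ _)).trans hw
  have hwc := ((le_max_right _ _).trans (le_max_right _ _)).trans hw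
  have hw0 : 0 < w := ha0.trans_le hwa
  obtain ⟨hUd, hT⟩ := ha w hwa
  obtain ⟨_, hS⟩ := hb w hwb
  have hh1 : 1 ≤ w ^ 2 / U μ w := hc w hwc
  have hUm : U μ (δ * w) ≤ U μ w := U_mono hμ (by positivity) (by nlinarith)
  have hU : 0 < U μ w := hUd.trans_le hUm
  set hh : ℝ := w ^ 2 / U μ w with hhd
  have hhU : hh * U μ w = w ^ 2 := by rw [hhd]; field_simp
  set n : ℕ := ⌈K0 * hh⌉₊ with hn
  have hn1 : K0 * hh ≤ n := Nat.le_ceil _
  have hn2 : (n : ℝ) ≤ (K0 + 1) * hh := by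
    have := (Nat.ceil_lt_add_one (show 0 ≤ K0 * hh by positivity)).le
    calc (n : ℝ) ≤ K0 * hh + 1 := this
      _ ≤ _ := by linarith
  refine ⟨hU, hh1, n, hn2.trans (mul_le_mul_of_nonneg_right hKK (by linarith)), ?_⟩
  intro Ω m0 P _ F Z hZ
  have hI := hZ.inc hμ (t := δ * w) (by positivity)
  set X : ℕ → Ω → ℝ := fun k ω => tr (δ * w) (Z k ω) with hX
  have ha' : 0 < w / 2 := by positivity
  have hc' : 0 < (Λ - 1) * w := mul_pos (by linarith) hw0
  have hA := hI.alive_le ha' hc' n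
  have hr := hI.ruin ha' hc' n
  set q := P.real (Al X (w / 2) ((Λ - 1) * w) n) with hq
  set p := P.real (Top X (w / 2) ((Λ - 1) * w) n) with hp
  have hq0 : 0 ≤ q := measureReal_nonneg
  have hp0 : 0 ≤ p := measureReal_nonneg
  -- alive
  have hM : (max (w / 2) ((Λ - 1) * w) + 2 * (δ * w)) ^ 2 ≤ (Λ * w) ^ 2 := by
    refine pow_le_pow_left₀ ?_ ?_ 2
    · have := le_max_left (w / 2) ((Λ - 1) * w)
      nlinarith [mul_pos hδ hw0]
    · have h1 : δ * w ≤ 1 / 4 * w := mul_le_mul_of_nonneg_right hδ4 hw0.le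
      have h2 : max (w / 2) ((Λ - 1) * w) ≤ Λ * w - w / 2 := by
        refine max_le ?_ ?_
        · nlinarith
        · nlinarith
      linarith
  have hnU : K0 / 2 * w ^ 2 ≤ n * U μ (δ * w) := by
    calc K0 / 2 * w ^ 2 = K0 * hh * (U μ w / 2) := by rw [← hhU]; ring
      _ ≤ n * (U μ w / 2) := mul_le_mul_of_nonneg_right hn1 (by linarith)
      _ ≤ n * U μ (δ * w) := mul_le_mul_of_nonneg_left (by linarith) (Nat.cast_nonneg _)
  have hq1 : q ≤ 1 / (12 * Λ) := by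
    have h1 : K0 / 2 * w ^ 2 * q ≤ (Λ * w) ^ 2 :=
      (mul_le_mul_of_nonneg_right hnU hq0).trans (hA.trans hM)
    have h2 : (12 * Λ ^ 3 * w ^ 2) * q ≤ (12 * Λ ^ 3 * w ^ 2) * (1 / (12 * Λ)) := by
      calc (12 * Λ ^ 3 * w ^ 2) * q = K0 / 2 * w ^ 2 * q := by rw [hK0]; ring
        _ ≤ (Λ * w) ^ 2 := h1
        _ = (12 * Λ ^ 3 * w ^ 2) * (1 / (12 * Λ)) := by field_simp
    exact le_of_mul_le_mul_left h2 (by positivity)
  have hp1 : 5 / (12 * Λ) ≤ p := by
    have h1 : w / 2 ≤ (Λ * w) * p + (Λ * w) * q := by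
      have h2 : w / 2 + 2 * (δ * w) + (Λ - 1) * w ≤ Λ * w := by
        have h1 : δ * w ≤ 1 / 4 * w := mul_le_mul_of_nonneg_right hδ4 hw0.le
        linarith
      have h3 : w / 2 + (Λ - 1) * w ≤ Λ * w := by linarith
      calc w / 2 ≤ _ := hr
        _ ≤ _ := add_le_add (mul_le_mul_of_nonneg_right h2 hp0)
            (mul_le_mul_of_nonneg_right h3 hq0)
    have h4 : (Λ * w) * (1 / (2 * Λ)) ≤ (Λ * w) * (p + q) := by
      calc (Λ * w) * (1 / (2 * Λ)) = w / 2 := by field_simp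
        _ ≤ _ := by linarith
    have h5 := le_of_mul_le_mul_left h4 (by positivity)
    have h6 : 1 / (2 * Λ) = 5 / (12 * Λ) + 1 / (12 * Λ) := by field_simp; norm_num
    linarith
  -- the wide blocks
  have hW : P.real {ω | ∃ j < n, δ * w < (Z j ω).2.1} ≤ 1 / (12 * Λ) := by
    refine (hZ.wide (δ * w) n).trans ?_
    have h1 : hh * Tl μ (δ * w) ≤ 1 / (12 * Λ * (K0 + 1)) := by
      have h2 : U μ w * (hh * Tl μ (δ * w)) ≤ U μ w * (1 / (12 * Λ * (K0 + 1))) := by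
        calc U μ w * (hh * Tl μ (δ * w)) = w ^ 2 * Tl μ (δ * w) := by rw [← hhU]; ring
          _ ≤ 1 / (12 * Λ * (K0 + 1)) * U μ (δ * w) := hT
          _ ≤ 1 / (12 * Λ * (K0 + 1)) * U μ w := mul_le_mul_of_nonneg_left hUm (by positivity)
          _ = _ := by ring
      exact le_of_mul_le_mul_left h2 hU
    calc (n : ℝ) * Tl μ (δ * w) ≤ (K0 + 1) * hh * Tl μ (δ * w) :=
          mul_le_mul_of_nonneg_right hn2 (Tl_nonneg _)
      _ = (K0 + 1) * (hh * Tl μ (δ * w)) := by ring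
      _ ≤ (K0 + 1) * (1 / (12 * Λ * (K0 + 1))) := mul_le_mul_of_nonneg_left h1 (by positivity)
      _ = 1 / (12 * Λ) := by field_simp
  -- the height
  have hH : P.real {ω | K * hh < ∑ j ∈ range n, (Z j ω).2.2} ≤ 1 / (12 * Λ) := by
    have hKh : 0 < K * hh := by positivity
    refine (hZ.height hR hR0 n hKh).trans ?_
    rw [div_le_div_iff₀ hKh (by positivity), one_mul]
    calc (n : ℝ) * (∫ x, x.2.2 ∂μ) * (12 * Λ) ≤ ((K0 + 1) * hh) * ER * (12 * Λ) := by
          refine mul_le_mul_of_nonneg_right (mul_le_mul_of_nonneg_right hn2 hER0) (by positivity)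
      _ ≤ ((K0 + 1) * hh) * (ER + 1) * (12 * Λ) := by
          refine mul_le_mul_of_nonneg_right (mul_le_mul_of_nonneg_left (by linarith) (by positivity))
            (by positivity)
      _ = K * hh := by rw [hK]; ring
  -- the null set
  have hN : P.real {ω | ¬ ∀ k, |(Z k ω).1| ≤ 2 * (Z k ω).2.1} = 0 := by
    have := hZ.ae_bd hμ
    rw [ae_iff] at this
    rw [Measure.real, this]; rfl
  have hsub : Top X (w / 2) ((Λ - 1) * w) n ⊆ Climb Z Λ δ w (K * hh) n ∪
      ({ω | ∃ j < n, δ * w < (Z j ω).2.1} ∪ ({ω | K * hh < ∑ j ∈ range n, (Z j ω).2.2} ∪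
        {ω | ¬ ∀ k, |(Z k ω).1| ≤ 2 * (Z k ω).2.1})) := by
    intro ω hω
    by_cases h1 : ∀ k, |(Z k ω).1| ≤ 2 * (Z k ω).2.1
    swap
    · exact Or.inr (Or.inr (Or.inr h1))
    by_cases h2 : ∃ j < n, δ * w < (Z j ω).2.1
    · exact Or.inr (Or.inl h2)
    by_cases h3 : K * hh < ∑ j ∈ range n, (Z j ω).2.2
    · exact Or.inr (Or.inr (Or.inl h3))
    replace h2 : ∀ j < n, (Z j ω).2.1 ≤ δ * w := fun j hj => not_lt.1 fun h => h2 ⟨j, hj, h⟩
    replace h3 := not_lt.1 h3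
    left
    obtain ⟨k, hk, h4, h5⟩ := hω
    refine ⟨⟨k, hk, ?_, fun j hj => ?_⟩, h2, h3⟩
    · rw [← Sm_tr hk h1 h2]; exact h4
    · rw [← Sm_tr (hj.le.trans hk) h1 h2]; exact h5 j hj
  have hfin : p ≤ P.real (Climb Z Λ δ w (K * hh) n) + (1 / (12 * Λ) + (1 / (12 * Λ) + 0)) := by
    refine (measureReal_mono hsub).trans ((measureReal_union_le _ _).trans ?_)
    refine add_le_add_right ((measureReal_union_le _ _).trans ?_) _
    refine add_le_add hW ((measureReal_union_le _ _).trans ?_)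
    exact add_le_add hH hN.le
  have h6 : 5 / (12 * Λ) = 1 / (4 * Λ) + (1 / (12 * Λ) + (1 / (12 * Λ) + 0)) := by
    field_simp; norm_num
  linarith

/-- **(E2)** -/
theorem E2 (hμ : Law μ) {ε η : ℝ} (hε : 0 < ε) (hε1 : ε ≤ 1) (hη : 0 < η) :
    ∃ c w0 : ℝ, 0 < c ∧ 0 < w0 ∧ ∀ w, w0 ≤ w → 0 < U μ w ∧
      ∀ n : ℕ, (n : ℝ) ≤ c * (w ^ 2 / U μ w) →
        ∀ {Ω : Type u} {m0 : MeasurableSpace Ω} (P : Measure Ω) [IsProbabilityMeasure P]
          (F : ℕ → MeasurableSpace Ω) (Z : ℕ → Ω → ℝ × ℝ × ℝ), Sq P F μ Z →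
          1 - η ≤ P.real (Stay Z ε w n) := by
  set c : ℝ := ε ^ 2 * η / 2 with hc
  have hcp : 0 < c := by positivity
  obtain ⟨wa, ha0, ha⟩ := Tl_small hμ hε hε1 (show 0 < η / (2 * c) by positivity)
  refine ⟨c, wa, hcp, ha0, fun w hw => ?_⟩
  have hw0 : 0 < w := ha0.trans_le hw
  obtain ⟨hUd, hT⟩ := ha w hw
  have hUm : U μ (ε * w) ≤ U μ w := U_mono hμ (by positivity) (by nlinarith)
  have hU : 0 < U μ w := hUd.trans_le hUm
  refine ⟨hU, fun n hn => ?_⟩
  set hh : ℝ := w ^ 2 / U μ w with hhd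
  have hhU : hh * U μ w = w ^ 2 := by rw [hhd]; field_simp
  have hh0 : 0 ≤ hh := by positivity
  intro Ω m0 P _ F Z hZ
  have hI := hZ.inc hμ (t := ε * w) (by positivity)
  set X : ℕ → Ω → ℝ := fun k ω => tr (ε * w) (Z k ω) with hX
  have hr : 0 < ε * w := by positivity
  have hk := hI.kolm hr n
  have hA : P.real (Al X (ε * w) (ε * w) n)ᶜ ≤ η / 2 := by
    have h1 : (ε * w) ^ 2 * P.real (Al X (ε * w) (ε * w) n)ᶜ ≤ (ε * w) ^ 2 * (η / 2) := by
      calc _ ≤ _ := hk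
        _ ≤ c * hh * U μ (ε * w) := mul_le_mul_of_nonneg_right hn hUd.le
        _ ≤ c * hh * U μ w := mul_le_mul_of_nonneg_left hUm (by positivity)
        _ = c * w ^ 2 := by rw [← hhU]; ring
        _ = _ := by rw [hc]; ring
    exact le_of_mul_le_mul_left h1 (by positivity)
  have hW : P.real {ω | ∃ j < n, ε * w < (Z j ω).2.1} ≤ η / 2 := by
    refine (hZ.wide (ε * w) n).trans ?_
    have h1 : hh * Tl μ (ε * w) ≤ η / (2 * c) := by
      have h2 : U μ w * (hh * Tl μ (ε * w)) ≤ U μ w * (η / (2 * c)) := by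
        calc U μ w * (hh * Tl μ (ε * w)) = w ^ 2 * Tl μ (ε * w) := by rw [← hhU]; ring
          _ ≤ η / (2 * c) * U μ (ε * w) := hT
          _ ≤ η / (2 * c) * U μ w := mul_le_mul_of_nonneg_left hUm (by positivity)
          _ = _ := by ring
      exact le_of_mul_le_mul_left h2 hU
    calc (n : ℝ) * Tl μ (ε * w) ≤ c * hh * Tl μ (ε * w) :=
          mul_le_mul_of_nonneg_right hn (Tl_nonneg _)
      _ = c * (hh * Tl μ (ε * w)) := by ring
      _ ≤ c * (η / (2 * c)) := mul_le_mul_of_nonneg_left h1 hcp.le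
      _ = η / 2 := by field_simp
  have hN : P.real {ω | ¬ ∀ k, |(Z k ω).1| ≤ 2 * (Z k ω).2.1} = 0 := by
    have := hZ.ae_bd hμ
    rw [ae_iff] at this
    rw [Measure.real, this]; rfl
  have hsub : (univ : Set Ω) ⊆ Stay Z ε w n ∪ ((Al X (ε * w) (ε * w) n)ᶜ ∪
      ({ω | ∃ j < n, ε * w < (Z j ω).2.1} ∪
        {ω | ¬ ∀ k, |(Z k ω).1| ≤ 2 * (Z k ω).2.1})) := by
    intro ω _
    by_cases h1 : ∀ k, |(Z k ω).1| ≤ 2 * (Z k ω).2.1
    swap
    · exact Or.inr (Or.inr (Or.inr h1))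
    by_cases h2 : ∃ j < n, ε * w < (Z j ω).2.1
    · exact Or.inr (Or.inr (Or.inl h2))
    by_cases h3 : ω ∈ Al X (ε * w) (ε * w) n
    swap
    · exact Or.inr (Or.inl h3)
    replace h2 : ∀ j < n, (Z j ω).2.1 ≤ ε * w := fun j hj => not_lt.1 fun h => h2 ⟨j, hj, h⟩
    left
    refine ⟨fun k hk => ?_, h2⟩
    rw [← Sm_tr hk h1 h2, abs_lt]
    exact h3 k hk
  have hfin : P.real (univ : Set Ω) ≤ P.real (Stay Z ε w n) + (η / 2 + (η / 2 + 0)) := by
    refine (measureReal_mono hsub).trans ((measureReal_union_le _ _).trans ?_)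
    refine add_le_add_right ((measureReal_union_le _ _).trans ?_) _
    refine add_le_add hA ((measureReal_union_le _ _).trans ?_)
    exact add_le_add hW hN.le
  rw [probReal_univ] at hfin
  linarith

end blk

end Crest.Agent.R154.Gam7
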