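import Crest.Agent.R154.Esc_177
import Crest.Agent.R154.Gam_7

/-!
Row 154, d = 2 (helper7): **THE CHOICE OF CONSTANTS: (E0), (E1), (E2) at all scales ⟹ occupation
bound with a POWER of the near radius** (abstract adapted process; 177's `occ`).

* `Scale h a1 a2 Λ e K c w1` : the time scale `h`, the numbers of levels `a1` in (E1), `a2` in (E2).
* `Esc3 ...` : (E0) at one distance `w0`, (E1) and (E2) at all `w ≥ w1`, any past.
* `occ_gen` : `Σ_{k<N} P(A ∩ {D k ≤ a wd N}) ≤ C a^c0 N P(A)`, `C`, `c0`, `N0(a)` depend on numbers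
  only (uniform in `(Ω, P, F, D)`).
* `occ_pow` : version for `h(w) = w² / U(w)` of `Gam_7`.
-/

set_option autoImplicit false
set_option linter.unusedSectionVars false
set_option linter.unusedVariables false
set_option linter.deprecated false

namespace Crest.Agent.R154.OccPow7

open MeasureTheory Finset Filter Crest.Agent.R154.Esc177
open Crest.Agent.R154.Gam7 (Law U)
open scoped Topology

universe u

/-- the numbers: time scale `h`, levels `a1` for a step up, `a2` for a stay -/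
structure Scale (h : ℝ → ℝ) (a1 a2 : ℝ → ℕ) (Λ e K c w1 : ℝ) : Prop where
  w1_pos : 0 < w1
  Λ1 : 1 < Λ
  e_pos : 0 < e
  e_le : e ≤ 1
  K_pos : 0 < K
  c_pos : 0 < c
  one : ∀ w, w1 ≤ w → 1 ≤ h w
  grow : ∀ w, w1 ≤ w → 2 * h w ≤ e * h (Λ * w)
  a1_le : ∀ w, w1 ≤ w → (a1 w : ℝ) ≤ K * h w
  a2_ge : ∀ w, w1 ≤ w → c * h w ≤ (a2 w : ℝ) + 1

/-- the process: (E0) at the distance `w0`, (E1), (E2) at all `w ≥ w1`, any past -/
structure Esc3 {Ω : Type u} {m0 : MeasurableSpace Ω} (P : Measure Ω) (F : ℕ → MeasurableSpace Ω)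
    (D : ℕ → Ω → ℝ) (a1 a2 : ℝ → ℕ) (Λ e w1 q' lam w0 e0 : ℝ) (H0 : ℕ) : Prop where
  mono : Monotone F
  le : ∀ k, F k ≤ m0
  meas : ∀ k, Measurable[F k] (D k)
  E0 : ∀ k B, MeasurableSet[F k] B → P.real (B ∩ Miss D w0 k H0) ≤ (1 - e0) * P.real B
  E1 : ∀ w, w1 ≤ w → ∀ k B, MeasurableSet[F k] B → B ⊆ {ω | w ≤ D k ω} →
    e * P.real B ≤ P.real (B ∩ Up D (Λ * w) (lam * w) k (a1 w))
  E2 : ∀ w, w1 ≤ w → ∀ k B, MeasurableSet[F k] B → B ⊆ {ω | w ≤ D k ω} →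
    q' * P.real B ≤ P.real (B ∩ Stay D (lam * w) k (a2 w))

lemma up_mono {Ω : Type u} {D : ℕ → Ω → ℝ} {R r r' : ℝ} {k n n' : ℕ} (h : n ≤ n') (hr : r' ≤ r) :
    Up D R r k n ⊆ Up D R r' k n' := by
  rintro ω ⟨l, hl, h1, h2⟩
  exact ⟨l, hl.trans h, h1, fun j hj => hr.trans (h2 j hj)⟩

lemma stay_anti {Ω : Type u} {D : ℕ → Ω → ℝ} {R r : ℝ} {k n n' : ℕ} (h : r ≤ R) (hn : n' ≤ n) :
    Stay D R k n ⊆ Stay D r k n' :=
  fun _ hω j hj => h.trans (hω j (hj.trans hn))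

section gen

variable {h : ℝ → ℝ} {a1 a2 : ℝ → ℕ} {Λ e K c w1 q' lam w0 e0 : ℝ} {H0 : ℕ}

/-- the bound at the scales `Λ^m w0`, `Λ^(m+n) w0` -/
theorem occ_scale (hS : Scale h a1 a2 Λ e K c w1) (hlam : 0 < lam) (hq' : 0 < q') (hw : w1 ≤ w0)
    (hH0 : 1 ≤ H0) (he0 : 0 < e0) :
    ∃ C1 : ℝ, 0 < C1 ∧ ∀ m n N : ℕ, c * h (Λ ^ (m + n) * w0) ≤ N →
      ∀ {Ω : Type u} {m0 : MeasurableSpace Ω} (P : Measure Ω) [IsProbabilityMeasure P]
        (F : ℕ → MeasurableSpace Ω) (D : ℕ → Ω → ℝ), Esc3 P F D a1 a2 Λ e w1 q' lam w0 e0 H0 →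
        ∀ A, MeasurableSet[F 0] A →
        ∑ k ∈ range N, P.real (A ∩ {ω | D k ω < lam * (Λ ^ m * w0)}) ≤
          C1 * (1 / 2) ^ n * N * P.real A := by
  have hΛ1 := hS.Λ1
  have hΛ0 : 0 < Λ := by linarith
  have hK := hS.K_pos
  have hc := hS.c_pos
  have he := hS.e_pos
  have hw0 : 0 < w0 := hS.w1_pos.trans_le hw
  set ws : ℕ → ℝ := fun i => Λ ^ i * w0 with hws
  have hws0 : ∀ i, w0 ≤ ws i := fun i => by
    have : (1 : ℝ) ≤ Λ ^ i := one_le_pow₀ hΛ1.le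
    simp only [hws]; nlinarith
  have hws1 : ∀ i, w1 ≤ ws i := fun i => hw.trans (hws0 i)
  have hwsS : ∀ i, ws (i + 1) = Λ * ws i := fun i => by simp only [hws]; rw [pow_succ]; ring
  have hwsm : Monotone ws := monotone_nat_of_le_succ fun i => by
    rw [hwsS]; nlinarith [hws0 i]
  have hh1 : ∀ i, 1 ≤ h (ws i) := fun i => hS.one _ (hws1 i)
  have hgr : ∀ i, 2 * h (ws i) ≤ e * h (ws (i + 1)) := fun i => by
    rw [hwsS]; exact hS.grow _ (hws1 i)
  -- the numbers g_i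
  set A : ℝ := max 1 (H0 / (e0 * (K + 1))) with hA
  have hA1 : 1 ≤ A := le_max_left _ _
  have hA2 : H0 / (e0 * (K + 1)) ≤ A := le_max_right _ _
  have hK1 : 0 < K + 1 := by linarith
  set g : ℕ → ℝ := fun i => A * (K + 1) * h (ws i) with hgdef
  have g0 : ∀ i, 0 ≤ g i := fun i => by
    have := hh1 i
    simp only [hgdef]; positivity
  set H : ℕ → ℕ := fun i => a1 (ws i) + 1 with hH
  have hHle : ∀ i, (H i : ℝ) ≤ (K + 1) * h (ws i) := fun i => by
    have h1 := hh1 i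
    have h2 := hS.a1_le _ (hws1 i)
    simp only [hH]; push_cast; linarith
  have hg0 : (H0 : ℝ) ≤ e0 * g 0 := by
    have h1 := hh1 0
    rw [div_le_iff₀ (by positivity)] at hA2
    calc (H0 : ℝ) ≤ A * (e0 * (K + 1)) := hA2
      _ = A * (e0 * (K + 1)) * 1 := (mul_one _).symm
      _ ≤ A * (e0 * (K + 1)) * h (ws 0) := mul_le_mul_of_nonneg_left h1 (by positivity)
      _ = e0 * g 0 := by simp only [hgdef]; ring
  have hgstep : ∀ i, g i + H i ≤ e * g (i + 1) := fun i => by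
    have h1 := hh1 i
    calc g i + H i ≤ A * (K + 1) * h (ws i) + (K + 1) * h (ws i) := by
          have := hHle i
          simp only [hgdef]; linarith
      _ ≤ A * (K + 1) * h (ws i) + A * (K + 1) * h (ws i) := by
          have : (K + 1) * h (ws i) ≤ A * ((K + 1) * h (ws i)) :=
            le_mul_of_one_le_left (by positivity) hA1
          linarith
      _ = A * (K + 1) * (2 * h (ws i)) := by ring
      _ ≤ A * (K + 1) * (e * h (ws (i + 1))) := mul_le_mul_of_nonneg_left (hgr i) (by positivity)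
      _ = e * g (i + 1) := by simp only [hgdef]; ring
  -- power growth
  have hpow : ∀ m n, 2 ^ n * h (ws m) ≤ e ^ n * h (ws (m + n)) := by
    intro m n
    induction n with
    | zero => simp
    | succ n ih =>
      calc 2 ^ (n + 1) * h (ws m) = 2 * (2 ^ n * h (ws m)) := by rw [pow_succ]; ring
        _ ≤ 2 * (e ^ n * h (ws (m + n))) := mul_le_mul_of_nonneg_left ih (by positivity)
        _ = e ^ n * (2 * h (ws (m + n))) := by ring
        _ ≤ e ^ n * (e * h (ws (m + n + 1))) := mul_le_mul_of_nonneg_left (hgr _) (by positivity)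
        _ = _ := by rw [pow_succ]; ring_nf
  -- the bound
  set C1 : ℝ := 4 * (2 * (A * (K + 1)) + 2) / (q' * c) with hC1
  have hC1p : 0 < C1 := by positivity
  refine ⟨C1, hC1p, fun m n N hN => ?_⟩
  intro Ω m0 P _ F D hE Av hAv
  have hyp : Hyp P F D ws (fun i => lam * ws i) H H0 (a2 (ws (m + n))) m (m + n)
      e0 e q' (lam * ws m) :=
    { mono := hE.mono
      le := hE.le
      meas := hE.meas
      w_mono := hwsm
      ms := Nat.le_add_right _ _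
      H0_pos := hH0
      H_pos := fun i => Nat.succ_le_succ (Nat.zero_le _)
      e0_pos := he0
      e_pos := he
      e_le := hS.e_le
      c_pos := hq'
      low_ge := fun i hi _ => mul_le_mul_of_nonneg_left (hwsm hi) hlam.le
      E0 := fun k B hB => by
        have : ws 0 = w0 := by simp [hws]
        rw [this]; exact hE.E0 k B hB
      E1 := fun i _ k B hB hBs => by
        rw [hwsS]
        refine (hE.E1 (ws i) (hws1 i) k B hB hBs).trans (measureReal_mono ?_)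
        exact Set.inter_subset_inter_right _ (up_mono (Nat.le_succ _) le_rfl)
      E2 := fun k B hB hBs => by
        refine (hE.E2 (ws (m + n)) (hws1 _) k B hB hBs).trans (measureReal_mono ?_)
        exact Set.inter_subset_inter_right _
          (stay_anti (mul_le_mul_of_nonneg_left (hwsm (Nat.le_add_right _ _)) hlam.le) le_rfl) }
  have hhm := hh1 m
  have hhs := hh1 (m + n)
  set T1 : ℕ := ⌈2 * g m⌉₊ + 1 with hT1
  have hT1a : 1 ≤ T1 := Nat.succ_le_succ (Nat.zero_le _)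
  have hT1b : 2 * g m ≤ T1 := by
    have := Nat.le_ceil (2 * g m)
    simp only [hT1]; push_cast; linarith
  have hT1c : (T1 : ℝ) ≤ (2 * (A * (K + 1)) + 2) * h (ws m) := by
    have h1 := (Nat.ceil_lt_add_one (show 0 ≤ 2 * g m by have := g0 m; positivity)).le
    calc (T1 : ℝ) = ⌈2 * g m⌉₊ + 1 := by simp only [hT1]; push_cast; ring
      _ ≤ 2 * g m + 2 := by linarith
      _ = 2 * (A * (K + 1)) * h (ws m) + 2 * 1 := by simp only [hgdef]; ring
      _ ≤ _ := by linarith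
  have h1 := occ hyp g0 hg0 (fun i _ => hgstep i) hT1a hT1b N hAv
  simp only [Nat.add_sub_cancel_left] at h1
  set Sg : ℝ := ∑ k ∈ range N, P.real (Av ∩ {ω | D k ω < lam * ws m}) with hSg
  set T : ℕ := a2 (ws (m + n)) with hT
  have hch : 0 < c * h (ws (m + n)) := by positivity
  have hN' : c * h (ws (m + n)) ≤ N := hN
  have hTge : c * h (ws (m + n)) ≤ (T : ℝ) + 1 := hS.a2_ge _ (hws1 _)
  have hPA : 0 ≤ P.real Av := measureReal_nonneg
  have h2 : ((T1 * (N / (T + 1) + 1) : ℕ) : ℝ) ≤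
      (2 * (A * (K + 1)) + 2) * h (ws m) * (2 * N / (c * h (ws (m + n)))) := by
    push_cast
    refine mul_le_mul hT1c ?_ (by positivity) (by positivity)
    have h3 : ((N / (T + 1) : ℕ) : ℝ) ≤ N / (c * h (ws (m + n))) := by
      calc ((N / (T + 1) : ℕ) : ℝ) ≤ (N : ℝ) / ((T + 1 : ℕ) : ℝ) := Nat.cast_div_le
        _ ≤ _ := by
            push_cast
            exact div_le_div_of_nonneg_left (Nat.cast_nonneg _) hch hTge
    have h4 : 1 ≤ N / (c * h (ws (m + n))) := by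
      rw [le_div_iff₀ hch]; linarith
    calc ((N / (T + 1) : ℕ) : ℝ) + 1
        ≤ N / (c * h (ws (m + n))) + N / (c * h (ws (m + n))) := add_le_add h3 h4
      _ = _ := by ring
  have h6 : h (ws m) / h (ws (m + n)) ≤ (e * (1 / 2)) ^ n := by
    rw [div_le_iff₀ (by linarith), mul_pow, one_div, inv_pow]
    have h3 := hpow m n
    have h4 : h (ws m) ≤ (2 ^ n)⁻¹ * (e ^ n * h (ws (m + n))) := by
      rw [inv_mul_eq_div, le_div_iff₀ (by positivity)]; linarith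
    linarith
  have h7 : e ^ n * (q' / 2) * Sg ≤ e ^ n * (q' / 2) * (C1 * (1 / 2) ^ n * N * P.real Av) := by
    calc e ^ n * (q' / 2) * Sg = e ^ n * q' / 2 * Sg := by ring
      _ ≤ _ := h1
      _ ≤ (2 * (A * (K + 1)) + 2) * h (ws m) * (2 * N / (c * h (ws (m + n)))) * P.real Av :=
          mul_le_mul_of_nonneg_right h2 hPA
      _ = (2 * (A * (K + 1)) + 2) * (2 * N / c) * (h (ws m) / h (ws (m + n))) * P.real Av := by
          field_simp
      _ ≤ (2 * (A * (K + 1)) + 2) * (2 * N / c) * (e * (1 / 2)) ^ n * P.real Av :=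
          mul_le_mul_of_nonneg_right (mul_le_mul_of_nonneg_left h6 (by positivity)) hPA
      _ = e ^ n * (q' / 2) * (C1 * (1 / 2) ^ n * N * P.real Av) := by
          rw [mul_pow, hC1]; field_simp; ring
  exact le_of_mul_le_mul_left h7 (by positivity)

/-- **OCCUPATION, POWER FORM, uniform in the process.** -/
theorem occ_gen (hS : Scale h a1 a2 Λ e K c w1) (hlam : 0 < lam) (hq' : 0 < q') (hw : w1 ≤ w0)
    (hH0 : 1 ≤ H0) (he0 : 0 < e0) {wd : ℕ → ℝ} (hwd : Tendsto wd atTop atTop) {ρ : ℝ} (hρ : 0 < ρ)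
    (fit : ∀ᶠ N : ℕ in atTop, ∀ w, ρ * wd N / Λ ≤ w → w ≤ ρ * wd N → c * h w ≤ N) :
    ∃ C c0 : ℝ, 0 < C ∧ 0 < c0 ∧ ∀ a : ℝ, 0 < a → a ≤ 1 → ∃ N0 : ℕ, ∀ N, N0 ≤ N →
      ∀ {Ω : Type u} {m0 : MeasurableSpace Ω} (P : Measure Ω) [IsProbabilityMeasure P]
        (F : ℕ → MeasurableSpace Ω) (D : ℕ → Ω → ℝ), Esc3 P F D a1 a2 Λ e w1 q' lam w0 e0 H0 →
        ∀ A, MeasurableSet[F 0] A →
        ∑ k ∈ range N, P.real (A ∩ {ω | D k ω ≤ a * wd N}) ≤ C * a ^ c0 * N * P.real A := by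
  obtain ⟨C1, hC1, hmain⟩ := occ_scale (h := h) hS hlam hq' hw hH0 he0
  have hΛ1 := hS.Λ1
  have hΛ0 : 0 < Λ := by linarith
  have hw0 : 0 < w0 := hS.w1_pos.trans_le hw
  set c0 : ℝ := Real.logb Λ 2 with hc0
  have hc0p : 0 < c0 := Real.logb_pos hΛ1 one_lt_two
  have hΛc : Λ ^ c0 = 2 := Real.rpow_logb hΛ0 hΛ1.ne' two_pos
  set G : ℝ := Λ ^ 2 / (ρ * lam) with hG
  have hGp : 0 < G := by positivity
  refine ⟨(C1 + 1) * G ^ c0, c0, by positivity, hc0p, fun a ha ha1 => ?_⟩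
  have e1 : ∀ᶠ N : ℕ in atTop, w0 ≤ ρ * wd N := by
    filter_upwards [hwd.eventually_ge_atTop (w0 / ρ)] with N hN
    rw [div_le_iff₀ hρ] at hN; linarith
  have e2 : ∀ᶠ N : ℕ in atTop, lam * w0 ≤ a * wd N := by
    filter_upwards [hwd.eventually_ge_atTop (lam * w0 / a)] with N hN
    rw [div_le_iff₀ ha] at hN; linarith
  obtain ⟨N0, hN0⟩ := eventually_atTop.1 (e1.and (e2.and fit))
  refine ⟨N0, fun N hN => ?_⟩
  intro Ω m0 P _ F D hE Av hAv
  obtain ⟨f1, f2, f3⟩ := hN0 N hN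
  have hPA : 0 ≤ P.real Av := measureReal_nonneg
  have hNn : (0 : ℝ) ≤ N := Nat.cast_nonneg _
  set W := wd N with hW
  have hWp : 0 < W := by
    by_contra hcon
    have := not_lt.1 hcon
    nlinarith
  have hb : (C1 + 1) * G ^ c0 * a ^ c0 = (C1 + 1) * (G * a) ^ c0 := by
    rw [Real.mul_rpow hGp.le ha.le]; ring
  rw [hb]
  obtain ⟨s, hs1, hs2⟩ := exists_nat_pow_near (show 1 ≤ ρ * W / w0 by
    rw [le_div_iff₀ hw0]; linarith) hΛ1
  obtain ⟨m', hm1, hm2⟩ := exists_nat_pow_near (show 1 ≤ a * W / (lam * w0) by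
    rw [le_div_iff₀ (by positivity)]; linarith) hΛ1
  rw [le_div_iff₀ hw0] at hs1
  rw [div_lt_iff₀ hw0] at hs2
  rw [le_div_iff₀ (by positivity)] at hm1
  rw [div_lt_iff₀ (by positivity)] at hm2
  rcases le_or_gt (m' + 1) s with hms | hms
  · -- near radius below the scale `s`
    obtain ⟨n, rfl⟩ := Nat.exists_eq_add_of_le hms
    have k1 := f3 (Λ ^ (m' + 1 + n) * w0) (by
      rw [div_le_iff₀ hΛ0]
      calc ρ * W ≤ Λ ^ (m' + 1 + n + 1) * w0 := hs2.le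
        _ = Λ ^ (m' + 1 + n) * w0 * Λ := by rw [pow_succ]; ring) hs1
    have k2 := hmain (m' + 1) n N k1 P F D hE Av hAv
    have k3 : ∑ k ∈ range N, P.real (Av ∩ {ω | D k ω ≤ a * W}) ≤
        ∑ k ∈ range N, P.real (Av ∩ {ω | D k ω < lam * (Λ ^ (m' + 1) * w0)}) := by
      refine sum_le_sum fun k _ => measureReal_mono ?_
      refine Set.inter_subset_inter_right _ fun ω hω => ?_
      have : D k ω ≤ a * W := hω
      calc D k ω ≤ a * W := this
        _ < Λ ^ (m' + 1) * (lam * w0) := hm2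
        _ = lam * (Λ ^ (m' + 1) * w0) := by ring
    have k4 : (1 / 2 : ℝ) ^ n ≤ (G * a) ^ c0 := by
      have k5 : 1 ≤ Λ ^ n * (G * a) := by
        have k6 : ρ * W < Λ ^ n * (Λ * Λ) * (Λ ^ m' * w0) := by
          calc ρ * W < Λ ^ (m' + 1 + n + 1) * w0 := hs2
            _ = Λ ^ n * (Λ * Λ) * (Λ ^ m' * w0) := by ring
        have k7 : Λ ^ m' * w0 ≤ a * W / lam := by
          rw [le_div_iff₀ hlam]; linarith
        have k8 : ρ * W ≤ Λ ^ n * (Λ * Λ) * (a * W / lam) :=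
          k6.le.trans (mul_le_mul_of_nonneg_left k7 (by positivity))
        have k9 : (ρ * W) * 1 ≤ (ρ * W) * (Λ ^ n * (G * a)) := by
          calc (ρ * W) * 1 = ρ * W := mul_one _
            _ ≤ _ := k8
            _ = (ρ * W) * (Λ ^ n * (G * a)) := by rw [hG]; field_simp
        exact le_of_mul_le_mul_left k9 (by positivity)
      have k6 : 1 ≤ (Λ ^ n * (G * a)) ^ c0 := Real.one_le_rpow k5 hc0p.le
      rw [Real.mul_rpow (by positivity) (by positivity)] at k6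
      have k7 : (Λ ^ n : ℝ) ^ c0 = 2 ^ n := by
        rw [← Real.rpow_natCast, ← Real.rpow_mul hΛ0.le, mul_comm, Real.rpow_mul hΛ0.le, hΛc,
          Real.rpow_natCast]
      rw [k7] at k6
      rw [one_div, inv_pow, inv_le_iff_one_le_mul₀ (by positivity)]
      linarith
    calc ∑ k ∈ range N, P.real (Av ∩ {ω | D k ω ≤ a * W}) ≤ _ := k3
      _ ≤ C1 * (1 / 2) ^ n * N * P.real Av := k2
      _ ≤ C1 * (G * a) ^ c0 * N * P.real Av :=
          mul_le_mul_of_nonneg_right (mul_le_mul_of_nonneg_right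
            (mul_le_mul_of_nonneg_left k4 hC1.le) hNn) hPA
      _ ≤ (C1 + 1) * (G * a) ^ c0 * N * P.real Av := by
          refine mul_le_mul_of_nonneg_right (mul_le_mul_of_nonneg_right
            (mul_le_mul_of_nonneg_right (by linarith) (by positivity)) hNn) hPA
  · -- trivial bound
    have k5 : 1 ≤ G * a := by
      have k6 : Λ ^ s ≤ Λ ^ m' := pow_le_pow_right₀ hΛ1.le (by omega)
      have k7 : ρ * W ≤ (Λ ^ m' * Λ) * w0 := by
        calc ρ * W ≤ Λ ^ (s + 1) * w0 := hs2.le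
          _ = (Λ ^ s * Λ) * w0 := by rw [pow_succ]
          _ ≤ (Λ ^ m' * Λ) * w0 := by
              refine mul_le_mul_of_nonneg_right (mul_le_mul_of_nonneg_right k6 hΛ0.le) hw0.le
      have k8 : Λ ^ m' * w0 ≤ a * W / lam := by
        rw [le_div_iff₀ hlam]; linarith
      have k9 : ρ * W ≤ Λ * Λ * (a * W / lam) := by
        calc ρ * W ≤ (Λ ^ m' * Λ) * w0 := k7
          _ = Λ * 1 * (Λ ^ m' * w0) := by ring
          _ ≤ Λ * Λ * (Λ ^ m' * w0) := by
              refine mul_le_mul_of_nonneg_right (mul_le_mul_of_nonneg_left hΛ1.le hΛ0.le)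
                (by positivity)
          _ ≤ _ := mul_le_mul_of_nonneg_left k8 (by positivity)
      have k10 : (ρ * W) * 1 ≤ (ρ * W) * (G * a) := by
        calc (ρ * W) * 1 = ρ * W := mul_one _
          _ ≤ _ := k9
          _ = (ρ * W) * (G * a) := by rw [hG]; field_simp
      exact le_of_mul_le_mul_left k10 (by positivity)
    have k6 : 1 ≤ (G * a) ^ c0 := Real.one_le_rpow k5 hc0p.le
    calc ∑ k ∈ range N, P.real (Av ∩ {ω | D k ω ≤ a * W})
        ≤ ∑ k ∈ range N, P.real Av := sum_le_sum fun k _ => measureReal_mono Set.inter_subset_left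
      _ = 1 * N * P.real Av := by simp
      _ ≤ (C1 + 1) * (G * a) ^ c0 * N * P.real Av := by
          refine mul_le_mul_of_nonneg_right (mul_le_mul_of_nonneg_right ?_ hNn) hPA
          nlinarith

end gen

/-! ### the scale `h(w) = w² / U(w)` of a block law -/
section law

/-- the time scale `h(w) = w² / U(w)` -/
noncomputable abbrev hh (μ : Measure (ℝ × ℝ × ℝ)) (w : ℝ) : ℝ := w ^ 2 / U μ w

variable {μ : Measure (ℝ × ℝ × ℝ)} [IsProbabilityMeasure μ]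

theorem scale_law (hμ : Law μ) {q K c : ℝ} (hq : 0 < q) (hq1 : q ≤ 1) (hK : 0 < K) (hc : 0 < c) :
    ∃ w1 : ℝ, ∀ w2, w1 ≤ w2 →
      Scale (hh μ) (fun w => ⌊K * hh μ w⌋₊) (fun w => ⌊c * hh μ w⌋₊) (4 / q) (q / (4 / q)) K c w2 := by
  set Λ : ℝ := 4 / q with hΛdef
  have hΛ4 : 4 ≤ Λ := by
    rw [hΛdef, le_div_iff₀ hq]; linarith
  have hΛ1 : 1 < Λ := by linarith
  have hΛ0 : 0 < Λ := by linarith
  have hqΛ : q * Λ = 4 := by rw [hΛdef]; field_simp
  have he1 : q / Λ ≤ 1 := by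
    rw [div_le_one hΛ0]; linarith
  have heΛ : q / Λ * Λ ^ 2 = 4 := by
    rw [← hqΛ]; field_simp
  obtain ⟨w3, h30, hg⟩ := Gam7.h_grow hμ hΛ1.le one_pos
  obtain ⟨w4, h4⟩ := eventually_atTop.1 ((Gam7.h_tendsto hμ).eventually_ge_atTop 1)
  refine ⟨max w3 w4, fun w2 hw2 => ?_⟩
  have a3 : ∀ w, w2 ≤ w → w3 ≤ w := fun w hw => ((le_max_left _ _).trans hw2).trans hw
  have a4 : ∀ w, w2 ≤ w → w4 ≤ w := fun w hw => ((le_max_right _ _).trans hw2).trans hw
  have h1 : ∀ w, w2 ≤ w → 1 ≤ hh μ w := fun w hw => h4 w (a4 w hw)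
  exact
    { w1_pos := h30.trans_le (a3 w2 le_rfl)
      Λ1 := hΛ1
      e_pos := by positivity
      e_le := he1
      K_pos := hK
      c_pos := hc
      one := h1
      grow := fun w hw => by
        have h5 := (hg w (a3 w hw)).2
        have h6 : Λ ^ 2 * hh μ w ≤ 2 * hh μ (Λ * w) := by
          show Λ ^ 2 * (w ^ 2 / U μ w) ≤ 2 * ((Λ * w) ^ 2 / U μ (Λ * w))
          linarith
        have h7 : q / Λ * (Λ ^ 2 * hh μ w) ≤ q / Λ * (2 * hh μ (Λ * w)) :=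
          mul_le_mul_of_nonneg_left h6 (by positivity)
        have h8 : q / Λ * (Λ ^ 2 * hh μ w) = 4 * hh μ w := by rw [← mul_assoc, heΛ]
        linarith
      a1_le := fun w hw => by
        have := h1 w hw
        exact Nat.floor_le (by positivity)
      a2_ge := fun w hw => (Nat.lt_floor_add_one _).le }

theorem fit_law (hμ : Law μ) {wd : ℕ → ℝ} (hwd : Tendsto wd atTop atTop) {c1 : ℝ} (hc1 : 0 < c1)
    (hW : ∀ᶠ N : ℕ in atTop, c1 * wd N ^ 2 ≤ N * U μ (wd N)) {Λ c : ℝ} (hΛ : 1 < Λ) (hc : 0 < c) :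
    ∃ ρ : ℝ, 0 < ρ ∧ ∀ᶠ N : ℕ in atTop, ∀ w, ρ * wd N / Λ ≤ w → w ≤ ρ * wd N →
      c * hh μ w ≤ N := by
  set ρ : ℝ := min 1 (c1 / (2 * c)) with hρ
  have hρ0 : 0 < ρ := by positivity
  have hρ1 : ρ ≤ 1 := min_le_left _ _
  have hρ2 : ρ ^ 2 ≤ c1 / (2 * c) := by
    calc ρ ^ 2 = ρ * ρ := by ring
      _ ≤ 1 * (c1 / (2 * c)) := mul_le_mul hρ1 (min_le_right _ _) hρ0.le zero_le_one
      _ = _ := one_mul _
  have hΛ0 : 0 < Λ := by linarith
  have hδ1 : ρ / Λ ≤ 1 := by rw [div_le_one hΛ0]; linarith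
  obtain ⟨w0, hw0, hs⟩ := Gam7.U_slow hμ (show 0 < ρ / Λ by positivity) hδ1 one_pos
  refine ⟨ρ, hρ0, ?_⟩
  filter_upwards [hwd.eventually_ge_atTop w0, hW] with N hN hWN
  intro w hw1 hw2
  have hWp : 0 < wd N := hw0.trans_le hN
  obtain ⟨k1, k2⟩ := hs _ hN
  have hwp : 0 < w := lt_of_lt_of_le (by positivity) hw1
  have k3 : U μ (ρ / Λ * wd N) ≤ U μ w := Gam7.U_mono hμ (by positivity) (by
    calc ρ / Λ * wd N = ρ * wd N / Λ := by ring
      _ ≤ w := hw1)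
  have hUw : 0 < U μ w := k1.trans_le k3
  have k4 : U μ (wd N) ≤ 2 * U μ w := by linarith
  have k5 : w ^ 2 ≤ c1 / (2 * c) * wd N ^ 2 := by
    calc w ^ 2 ≤ (ρ * wd N) ^ 2 := pow_le_pow_left₀ hwp.le hw2 2
      _ = ρ ^ 2 * wd N ^ 2 := by ring
      _ ≤ _ := mul_le_mul_of_nonneg_right hρ2 (sq_nonneg _)
  show c * (w ^ 2 / U μ w) ≤ N
  rw [← mul_div_assoc, div_le_iff₀ hUw]
  calc c * w ^ 2 ≤ c * (c1 / (2 * c) * wd N ^ 2) := mul_le_mul_of_nonneg_left k5 hc.le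
    _ = (c1 * wd N ^ 2) / 2 := by field_simp
    _ ≤ (N * U μ (wd N)) / 2 := by linarith
    _ ≤ (N * (2 * U μ w)) / 2 := by
        have := mul_le_mul_of_nonneg_left k4 (Nat.cast_nonneg (α := ℝ) N)
        linarith
    _ = N * U μ w := by ring

variable {Ω : Type u} {m0 : MeasurableSpace Ω} {P : Measure Ω} [IsProbabilityMeasure P]
  {F : ℕ → MeasurableSpace Ω} {D : ℕ → Ω → ℝ}

/-- (E0): any distance `W` is reached from any state within `H0` levels with probability `e0` -/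
def HE0 (P : Measure Ω) (F : ℕ → MeasurableSpace Ω) (D : ℕ → Ω → ℝ) : Prop :=
  ∀ W : ℝ, ∃ H0 : ℕ, ∃ e0 : ℝ, 0 < e0 ∧ ∀ k B, MeasurableSet[F k] B →
    P.real (B ∩ Miss D W k H0) ≤ (1 - e0) * P.real B

/-- (E1): from `D k ≥ w` the distance `Λ w` is reached within `K h(w)` levels, staying `≥ lam w`,
with probability `q / Λ` -/
def HE1 (P : Measure Ω) (F : ℕ → MeasurableSpace Ω) (D : ℕ → Ω → ℝ) (μ : Measure (ℝ × ℝ × ℝ))
    (lam q : ℝ) : Prop :=
  ∀ Λ : ℝ, 1 < Λ → ∃ K w1 : ℝ, 0 < K ∧ ∀ w, w1 ≤ w → ∀ k B, MeasurableSet[F k] B →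
    B ⊆ {ω | w ≤ D k ω} →
    q / Λ * P.real B ≤ P.real (B ∩ Up D (Λ * w) (lam * w) k ⌊K * hh μ w⌋₊)

/-- (E2): from `D k ≥ w` the process stays `≥ lam w` for `c h(w)` levels with probability `q'` -/
def HE2 (P : Measure Ω) (F : ℕ → MeasurableSpace Ω) (D : ℕ → Ω → ℝ) (μ : Measure (ℝ × ℝ × ℝ))
    (lam q' : ℝ) : Prop :=
  ∃ c w1 : ℝ, 0 < c ∧ ∀ w, w1 ≤ w → ∀ k B, MeasurableSet[F k] B →
    B ⊆ {ω | w ≤ D k ω} →
    q' * P.real B ≤ P.real (B ∩ Stay D (lam * w) k ⌊c * hh μ w⌋₊)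

/-- **OCCUPATION, POWER FORM, from the three quantifier Props.** -/
theorem occ_pow (hμ : Law μ) (hF : Monotone F) (hle : ∀ k, F k ≤ m0)
    (hD : ∀ k, Measurable[F k] (D k)) {l1 l2 q q' : ℝ} (hl1 : 0 < l1) (hl2 : 0 < l2)
    (hq : 0 < q) (hq1 : q ≤ 1) (hq' : 0 < q')
    (E0 : HE0 P F D) (E1 : HE1 P F D μ l1 q) (E2 : HE2 P F D μ l2 q')
    {wd : ℕ → ℝ} (hwd : Tendsto wd atTop atTop) {c1 : ℝ} (hc1 : 0 < c1)
    (hW : ∀ᶠ N : ℕ in atTop, c1 * wd N ^ 2 ≤ N * U μ (wd N)) :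
    ∃ C c0 : ℝ, 0 < C ∧ 0 < c0 ∧ ∀ a : ℝ, 0 < a → a ≤ 1 → ∃ N0 : ℕ, ∀ N, N0 ≤ N →
      ∀ A, MeasurableSet[F 0] A →
      ∑ k ∈ range N, P.real (A ∩ {ω | D k ω ≤ a * wd N}) ≤ C * a ^ c0 * N * P.real A := by
  have hΛ1 : 1 < 4 / q := by rw [lt_div_iff₀ hq]; linarith
  obtain ⟨K, w1, hK, hE1⟩ := E1 (4 / q) hΛ1
  obtain ⟨c, w2, hc, hE2⟩ := E2
  obtain ⟨w3, hsc⟩ := scale_law hμ hq hq1 hK hc
  set w0 : ℝ := max (max w1 w2) w3 with hw0
  have b1 : w1 ≤ w0 := (le_max_left _ _).trans (le_max_left _ _)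
  have b2 : w2 ≤ w0 := (le_max_right _ _).trans (le_max_left _ _)
  have hS := hsc w0 (le_max_right _ _)
  obtain ⟨H0, e0, he0, hE0⟩ := E0 w0
  obtain ⟨ρ, hρ, hfit⟩ := fit_law hμ hwd hc1 hW hΛ1 hc
  set lam : ℝ := min l1 l2 with hlam
  have hlam0 : 0 < lam := lt_min hl1 hl2
  obtain ⟨C, c0, hC, hc0, hfin⟩ := occ_gen (H0 := H0 + 1) (e0 := e0) (q' := q') (lam := lam) hS
    hlam0 hq' le_rfl (Nat.succ_le_succ (Nat.zero_le _)) he0 hwd hρ hfit
  refine ⟨C, c0, hC, hc0, fun a ha ha1 => ?_⟩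
  obtain ⟨N0, hN0⟩ := hfin a ha ha1
  refine ⟨N0, fun N hN => hN0 N hN P F D ?_⟩
  have hw0p : 0 < w0 := hS.w1_pos
  exact
    { mono := hF
      le := hle
      meas := hD
      E0 := fun k B hB => by
        refine (measureReal_mono ?_).trans (hE0 k B hB)
        refine Set.inter_subset_inter_right _ fun ω hω j hj => hω j (by omega)
      E1 := fun w hw k B hB hBs => by
        refine (hE1 w (b1.trans hw) k B hB hBs).trans (measureReal_mono ?_)
        exact Set.inter_subset_inter_right _ (up_mono le_rfl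
          (mul_le_mul_of_nonneg_right (min_le_left _ _) (hw0p.le.trans hw)))
      E2 := fun w hw k B hB hBs => by
        refine (hE2 w (b2.trans hw) k B hB hBs).trans (measureReal_mono ?_)
        exact Set.inter_subset_inter_right _ (stay_anti
          (mul_le_mul_of_nonneg_right (min_le_right _ _) (hw0p.le.trans hw)) le_rfl) }

end law

end Crest.Agent.R154.OccPow7
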