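import Crest.Agent.R154.Joint3_132
import Crest.Agent.R154.Max_818

/-!
# Row 154, d = 2: joint blocks with deviation, and the tube

Letters of 132 (`H`, `idx`, `rest`, `pairL`).  `Vs a l` is the set of lateral positions visited at
level `l`.  `B0` is the same-level deviation of the difference of the two walkers in the first joint
block.  `tube`: under a truncated second moment bound there is a deterministic tube `v : ℕ → ℤ`
such that one walker stays in it with probability at least `3/4`.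
-/

set_option autoImplicit false
set_option linter.unusedSectionVars false

namespace Crest.Agent.R154.Tube504

open MeasureTheory ProbabilityTheory Set Filter
open Crest.Agent.R154.J132
open scoped ENNReal

variable {A : Type*}

/-- lateral displacement after `n` letters -/
def Dz (v : A → ℤ) (n : ℕ) (a : ℕ → A) : ℤ := ∑ i ∈ Finset.range n, v (a i)

lemma Dz_zero (v : A → ℤ) (a : ℕ → A) : Dz v 0 a = 0 := by simp [Dz]

lemma Dz_add (v : A → ℤ) (n m : ℕ) (a : ℕ → A) :
    Dz v (n + m) a = Dz v n a + Dz v m (sh n a) := by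
  simp [Dz, Finset.sum_range_add, sh]

lemma Dz_congr {v : A → ℤ} {n : ℕ} {a b : ℕ → A} (h : ∀ i < n, a i = b i) :
    Dz v n a = Dz v n b :=
  Finset.sum_congr rfl fun i hi => by rw [h i (Finset.mem_range.1 hi)]

/-- lateral positions visited at level `l` -/
def Vs (Y : A → ℕ) (v : A → ℤ) (vis : A → ℕ → Set ℤ) (a : ℕ → A) (l : ℕ) : Set ℤ :=
  {z | ∃ i, H Y i a ≤ l ∧ l < H Y (i + 1) a ∧ z - Dz v i a ∈ vis (a i) (l - H Y i a)}

lemma mem_Vs_sh {Y : A → ℕ} (hY : ∀ a, 1 ≤ Y a) (v : A → ℤ) (vis : A → ℕ → Set ℤ)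
    {a : ℕ → A} {q l : ℕ} (hq : H Y q a ≤ l) (z : ℤ) :
    z ∈ Vs Y v vis a l ↔ z - Dz v q a ∈ Vs Y v vis (sh q a) (l - H Y q a) := by
  constructor
  · rintro ⟨i, h1, h2, h3⟩
    have hqi : q ≤ i := by
      have : q < i + 1 := (H_strictMono hY a).lt_iff_lt.1 (lt_of_le_of_lt hq h2)
      omega
    obtain ⟨k, rfl⟩ := Nat.exists_eq_add_of_le hqi
    have e1 := H_add Y q k a
    have e2 := H_add Y q (k + 1) a
    rw [← Nat.add_assoc] at e2
    refine ⟨k, by omega, by omega, ?_⟩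
    have e3 : l - H Y q a - H Y k (sh q a) = l - H Y (q + k) a := by omega
    have e4 : sh q a k = a (q + k) := rfl
    have e5 : z - Dz v q a - Dz v k (sh q a) = z - Dz v (q + k) a := by
      rw [Dz_add]; ring
    rw [e3, e4, e5]; exact h3
  · rintro ⟨k, h1, h2, h3⟩
    have e1 := H_add Y q k a
    have e2 := H_add Y q (k + 1) a
    rw [← Nat.add_assoc] at e2
    refine ⟨q + k, by omega, by omega, ?_⟩
    have e3 : l - H Y q a - H Y k (sh q a) = l - H Y (q + k) a := by omega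
    have e4 : sh q a k = a (q + k) := rfl
    have e5 : z - Dz v q a - Dz v k (sh q a) = z - Dz v (q + k) a := by
      rw [Dz_add]; ring
    rw [e3, e4, e5] at h3; exact h3

lemma Vs_congr {Y : A → ℕ} (hY : ∀ a, 1 ≤ Y a) (v : A → ℤ) (vis : A → ℕ → Set ℤ)
    {a b : ℕ → A} {n l : ℕ} (hl : l < H Y n a) (h : ∀ i < n, a i = b i) {z : ℤ}
    (hz : z ∈ Vs Y v vis a l) : z ∈ Vs Y v vis b l := by
  obtain ⟨i, h1, h2, h3⟩ := hz
  have hi : i < n := (H_strictMono hY a).lt_iff_lt.1 (lt_of_le_of_lt h1 hl)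
  have e1 : H Y i a = H Y i b := H_congr fun k hk => h k (by omega)
  have e2 : H Y (i + 1) a = H Y (i + 1) b := H_congr fun k hk => h k (by omega)
  have e3 : Dz v i a = Dz v i b := Dz_congr fun k hk => h k (by omega)
  refine ⟨i, by omega, by omega, ?_⟩
  rw [← e1, ← e3, ← h i hi]; exact h3

lemma Vs_finite {Y : A → ℕ} (hY : ∀ a, 1 ≤ Y a) (v : A → ℤ) {vis : A → ℕ → Set ℤ}
    (hfin : ∀ a l, (vis a l).Finite) (a : ℕ → A) (l : ℕ) : (Vs Y v vis a l).Finite := by
  refine Set.Finite.subset (s := ⋃ i ∈ Finset.range (l + 1),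
    (fun z => z + Dz v i a) '' vis (a i) (l - H Y i a)) ?_ ?_
  · exact (Finset.range (l + 1)).finite_toSet.biUnion fun i _ => (hfin _ _).image _
  · rintro z ⟨i, h1, h2, h3⟩
    simp only [mem_iUnion]
    refine ⟨i, Finset.mem_range.2 ?_, z - Dz v i a, h3, by ring⟩
    have := le_H hY i a
    omega

lemma Vs_nonempty {Y : A → ℕ} (hY : ∀ a, 1 ≤ Y a) (v : A → ℤ) {vis : A → ℕ → Set ℤ}
    (hne : ∀ a l, l < Y a → (vis a l).Nonempty) (a : ℕ → A) (l : ℕ) :
    (Vs Y v vis a l).Nonempty := by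
  classical
  have hex : ∃ i, l < H Y (i + 1) a := ⟨l, lt_of_lt_of_le (Nat.lt_succ_self l) (le_H hY _ _)⟩
  set i := Nat.find hex with hi
  have h2 : l < H Y (i + 1) a := Nat.find_spec hex
  have h1 : H Y i a ≤ l := by
    rcases Nat.eq_zero_or_pos i with h | h
    · rw [h, H_zero]; exact Nat.zero_le _
    · have := Nat.find_min hex (m := i - 1) (by omega)
      rw [Nat.sub_add_cancel h] at this
      omega
  obtain ⟨y, hy⟩ := hne (a i) (l - H Y i a) (by rw [H_succ] at h2; omega)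
  exact ⟨y + Dz v i a, i, h1, h2, by simpa using hy⟩

/-- same-level deviations up to the index pair `q` are at most `r` -/
def DevLe (Y : A → ℕ) (v : A → ℤ) (vis : A → ℕ → Set ℤ) (q : ℕ × ℕ) (r : ℕ)
    (p : (ℕ → A) × (ℕ → A)) : Prop :=
  |Dz v q.1 p.1 - Dz v q.2 p.2| ≤ (r : ℤ) ∧
    ∀ l, l < H Y q.1 p.1 → l < H Y q.2 p.2 → ∀ z ∈ Vs Y v vis p.1 l, ∀ z' ∈ Vs Y v vis p.2 l,
      |z - z'| ≤ (r : ℤ)

lemma det2_DevLe {Y : A → ℕ} (hY : ∀ a, 1 ≤ Y a) (v : A → ℤ) (vis : A → ℕ → Set ℤ)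
    (q : ℕ × ℕ) (r : ℕ) : Det2 q.1 q.2 {p | DevLe Y v vis q r p} := by
  have key : ∀ p p' : (ℕ → A) × (ℕ → A), (∀ k < q.1, p.1 k = p'.1 k) →
      (∀ k < q.2, p.2 k = p'.2 k) → DevLe Y v vis q r p → DevLe Y v vis q r p' := by
    intro p p' h1 h2 ⟨ha, hb⟩
    have e1 : H Y q.1 p.1 = H Y q.1 p'.1 := H_congr h1
    have e2 : H Y q.2 p.2 = H Y q.2 p'.2 := H_congr h2
    refine ⟨?_, fun l hl hl' z hz z' hz' => ?_⟩
    · rw [← Dz_congr h1, ← Dz_congr h2]; exact ha
    · exact hb l (by omega) (by omega) z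
        (Vs_congr hY v vis hl (fun i hi => (h1 i hi).symm) hz) z'
        (Vs_congr hY v vis hl' (fun i hi => (h2 i hi).symm) hz')
  intro p p' h1 h2
  exact ⟨key p p' h1 h2, key p' p (fun k hk => (h1 k hk).symm) fun k hk => (h2 k hk).symm⟩

lemma exists_devLe {Y : A → ℕ} (hY : ∀ a, 1 ≤ Y a) (v : A → ℤ) {vis : A → ℕ → Set ℤ}
    (hfin : ∀ a l, (vis a l).Finite) (q : ℕ × ℕ) (p : (ℕ → A) × (ℕ → A)) :
    ∃ r, DevLe Y v vis q r p := by
  have hS : (⋃ l ∈ Finset.range (H Y q.1 p.1),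
      (image2 (fun z z' : ℤ => |z - z'|) (Vs Y v vis p.1 l) (Vs Y v vis p.2 l))).Finite :=
    (Finset.range _).finite_toSet.biUnion fun l _ =>
      Set.Finite.image2 _ (Vs_finite hY v hfin _ _) (Vs_finite hY v hfin _ _)
  obtain ⟨M, hM⟩ := hS.bddAbove
  refine ⟨(max M |Dz v q.1 p.1 - Dz v q.2 p.2|).toNat, ?_, fun l hl _ z hz z' hz' => ?_⟩
  · exact le_trans (le_max_right _ _) (Int.self_le_toNat _)
  · refine le_trans (le_trans ?_ (le_max_left _ _)) (Int.self_le_toNat _)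
    refine hM ?_
    simp only [mem_iUnion]
    exact ⟨l, Finset.mem_range.2 hl, z, hz, z', hz', rfl⟩

lemma DevLe.mono {Y : A → ℕ} {v : A → ℤ} {vis : A → ℕ → Set ℤ} {q : ℕ × ℕ} {r r' : ℕ}
    {p : (ℕ → A) × (ℕ → A)} (h : DevLe Y v vis q r p) (hr : r ≤ r') : DevLe Y v vis q r' p := by
  have : (r : ℤ) ≤ r' := by exact_mod_cast hr
  exact ⟨h.1.trans this, fun l hl hl' z hz z' hz' => (h.2 l hl hl' z hz z' hz').trans this⟩

/-- deviation up to the index pair `q` -/
noncomputable def Bq (Y : A → ℕ) (v : A → ℤ) (vis : A → ℕ → Set ℤ) (q : ℕ × ℕ)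
    (p : (ℕ → A) × (ℕ → A)) : ℕ := sInf {r | DevLe Y v vis q r p}

lemma Bq_le_iff {Y : A → ℕ} (hY : ∀ a, 1 ≤ Y a) (v : A → ℤ) {vis : A → ℕ → Set ℤ}
    (hfin : ∀ a l, (vis a l).Finite) (q : ℕ × ℕ) (p : (ℕ → A) × (ℕ → A)) (r : ℕ) :
    Bq Y v vis q p ≤ r ↔ DevLe Y v vis q r p := by
  constructor
  · intro h
    have h0 : DevLe Y v vis q (Bq Y v vis q p) p := Nat.sInf_mem (exists_devLe hY v hfin q p)
    exact h0.mono h
  · intro h
    exact Nat.sInf_le h

/-- difference of the lateral displacements over the first joint block -/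
noncomputable def V0 (Y : A → ℕ) (v : A → ℤ) (p : (ℕ → A) × (ℕ → A)) : ℤ :=
  Dz v (idx Y p).1 p.1 - Dz v (idx Y p).2 p.2

/-- same-level deviation of the difference in the first joint block -/
noncomputable def B0 (Y : A → ℕ) (v : A → ℤ) (vis : A → ℕ → Set ℤ)
    (p : (ℕ → A) × (ℕ → A)) : ℕ := Bq Y v vis (idx Y p) p

lemma devLe_B0 {Y : A → ℕ} (hY : ∀ a, 1 ≤ Y a) (v : A → ℤ) {vis : A → ℕ → Set ℤ}
    (hfin : ∀ a l, (vis a l).Finite) (p : (ℕ → A) × (ℕ → A)) :
    DevLe Y v vis (idx Y p) (B0 Y v vis p) p := (Bq_le_iff hY v hfin _ _ _).1 le_rfl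

lemma abs_V0_le {Y : A → ℕ} (hY : ∀ a, 1 ≤ Y a) (v : A → ℤ) {vis : A → ℕ → Set ℤ}
    (hfin : ∀ a l, (vis a l).Finite) (p : (ℕ → A) × (ℕ → A)) :
    |V0 Y v p| ≤ B0 Y v vis p := (devLe_B0 hY v hfin p).1

/-- level of the `k`-th joint cut -/
noncomputable def Lk (Y : A → ℕ) (k : ℕ) (p : (ℕ → A) × (ℕ → A)) : ℕ :=
  ∑ i ∈ Finset.range k, R0 Y ((rest Y)^[i] p)

/-- difference at the `k`-th joint cut -/
noncomputable def Wk (Y : A → ℕ) (v : A → ℤ) (k : ℕ) (p : (ℕ → A) × (ℕ → A)) : ℤ :=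
  ∑ i ∈ Finset.range k, V0 Y v ((rest Y)^[i] p)

lemma Lk_succ' (Y : A → ℕ) (k : ℕ) (p : (ℕ → A) × (ℕ → A)) :
    Lk Y (k + 1) p = Lk Y k (rest Y p) + R0 Y p := by
  unfold Lk
  rw [Finset.sum_range_succ']
  simp only [Function.iterate_succ_apply, Function.iterate_zero_apply]

lemma Wk_succ' (Y : A → ℕ) (v : A → ℤ) (k : ℕ) (p : (ℕ → A) × (ℕ → A)) :
    Wk Y v (k + 1) p = Wk Y v k (rest Y p) + V0 Y v p := by
  unfold Wk
  rw [Finset.sum_range_succ']
  simp only [Function.iterate_succ_apply, Function.iterate_zero_apply]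

/-- **(J4)** all same-level differences in the `k`-th joint block are within `B_k` of `W_k`. -/
theorem dev_block {Y : A → ℕ} (hY : ∀ a, 1 ≤ Y a) (v : A → ℤ) {vis : A → ℕ → Set ℤ}
    (hfin : ∀ a l, (vis a l).Finite) (k : ℕ) :
    ∀ {p : (ℕ → A) × (ℕ → A)}, p ∈ AllGood Y → ∀ {l : ℕ}, Lk Y k p ≤ l → l < Lk Y (k + 1) p →
      ∀ z ∈ Vs Y v vis p.1 l, ∀ z' ∈ Vs Y v vis p.2 l,
        |z - z' - Wk Y v k p| ≤ (B0 Y v vis ((rest Y)^[k] p) : ℤ) := by
  induction k with
  | zero =>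
    intro p hp l _ h2 z hz z' hz'
    have hg := mem_fst_idx hY (hp 0)
    simp only [Function.iterate_zero, id_eq] at hg
    have e : Lk Y (0 + 1) p = H Y (idx Y p).1 p.1 := by
      simp [Lk, R0]
    rw [e] at h2
    have h3 : l < H Y (idx Y p).2 p.2 := by rw [← hg.2.1]; exact h2
    have := (devLe_B0 hY v hfin p).2 l h2 h3 z hz z' hz'
    simpa [Wk] using this
  | succ k ih =>
    intro p hp l h1 h2 z hz z' hz'
    have hg := mem_fst_idx hY (hp 0)
    simp only [Function.iterate_zero, id_eq] at hg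
    rw [Lk_succ'] at h1 h2
    have hR : R0 Y p = H Y (idx Y p).1 p.1 := rfl
    have hle1 : H Y (idx Y p).1 p.1 ≤ l := by omega
    have hle2 : H Y (idx Y p).2 p.2 ≤ l := by rw [← hg.2.1]; exact hle1
    have a1 := (mem_Vs_sh hY v vis hle1 z).1 hz
    have a2 := (mem_Vs_sh hY v vis hle2 z').1 hz'
    rw [← hg.2.1] at a2
    have := ih (allGood_rest hp) (l := l - H Y (idx Y p).1 p.1) (by omega) (by omega)
      _ a1 _ a2
    rw [Wk_succ', Function.iterate_succ_apply]
    have e : z - z' - (Wk Y v k (rest Y p) + V0 Y v p)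
        = z - Dz v (idx Y p).1 p.1 - (z' - Dz v (idx Y p).2 p.2) - Wk Y v k (rest Y p) := by
      unfold V0; ring
    rw [e]; exact this

lemma one_le_R0 {Y : A → ℕ} (hY : ∀ a, 1 ≤ Y a) {p : (ℕ → A) × (ℕ → A)} (hp : p ∈ Good Y) :
    1 ≤ R0 Y p := by
  have hg := mem_fst_idx hY hp
  exact hg.1.trans (le_H hY _ _)

lemma exists_block {Y : A → ℕ} (hY : ∀ a, 1 ≤ Y a) {p : (ℕ → A) × (ℕ → A)}
    (hp : p ∈ AllGood Y) (l : ℕ) : ∃ k ≤ l, Lk Y k p ≤ l ∧ l < Lk Y (k + 1) p := by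
  classical
  have hk : ∀ k, k ≤ Lk Y k p := by
    intro k
    unfold Lk
    calc k = ∑ i ∈ Finset.range k, 1 := by simp
      _ ≤ _ := Finset.sum_le_sum fun i _ => one_le_R0 hY (hp i)
  have hex : ∃ k, l < Lk Y (k + 1) p := ⟨l, lt_of_lt_of_le (Nat.lt_succ_self l) (hk _)⟩
  refine ⟨Nat.find hex, ?_, ?_, Nat.find_spec hex⟩
  · exact Nat.find_min' hex (lt_of_lt_of_le (Nat.lt_succ_self l) (hk _))
  · rcases Nat.eq_zero_or_pos (Nat.find hex) with h | h
    · rw [h]; simp [Lk]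
    · have := Nat.find_min hex (m := Nat.find hex - 1) (by omega)
      rw [Nat.sub_add_cancel h] at this
      omega

/-- deterministic part of the tube -/
theorem dev_all {Y : A → ℕ} (hY : ∀ a, 1 ≤ Y a) (v : A → ℤ) {vis : A → ℕ → Set ℤ}
    (hfin : ∀ a l, (vis a l).Finite) {p : (ℕ → A) × (ℕ → A)} (hp : p ∈ AllGood Y) {n r : ℕ}
    (hB : ∀ k < n, B0 Y v vis ((rest Y)^[k] p) ≤ r) (hW : ∀ k ≤ n, |Wk Y v k p| ≤ (r : ℤ)) :
    ∀ l < n, ∀ z ∈ Vs Y v vis p.1 l, ∀ z' ∈ Vs Y v vis p.2 l, |z - z'| ≤ 2 * (r : ℤ) := by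
  intro l hl z hz z' hz'
  obtain ⟨k, hk, h1, h2⟩ := exists_block hY hp l
  have a1 := dev_block hY v hfin k hp h1 h2 z hz z' hz'
  have a2 := hW k (by omega)
  have a3 : (B0 Y v vis ((rest Y)^[k] p) : ℤ) ≤ r := by exact_mod_cast hB k (by omega)
  rw [abs_le] at *
  constructor <;> linarith [a1.1, a1.2, a2.1, a2.2]

variable [MeasurableSpace A] [MeasurableSingletonClass A] [Countable A] [Inhabited A]

section iid

variable {E : Type*} [MeasurableSpace E] [Countable E] [MeasurableSingletonClass E]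

lemma measurable_of_det2 {q : ℕ × ℕ} {g : (ℕ → A) × (ℕ → A) → E}
    (hg : ∀ T : Set E, Det2 q.1 q.2 {p | g p ∈ T}) : Measurable g := by
  refine measurable_to_countable' fun e => ?_
  exact (hg {e}).measurableSet

variable {Y : A → ℕ} (hY : ∀ a, 1 ≤ Y a) {f : ℕ × ℕ → (ℕ → A) × (ℕ → A) → E}
  (hf : ∀ q (T : Set E), Det2 q.1 q.2 {p | f q p ∈ T})

include hY hf

lemma measurable_F : Measurable fun p => f (idx Y p) p :=
  measurable_idx_comp hY fun q => measurable_of_det2 (hf q)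

theorem stepsF (μ : Measure A) [IsProbabilityMeasure μ] (hg : pairL μ (Good Y)ᶜ = 0) (n : ℕ) :
    ∀ (T : ℕ → Set E),
    ∀ {B : Set ((ℕ → A) × (ℕ → A))}, MeasurableSet B →
    pairL μ {p | (∀ k < n, f (idx Y ((rest Y)^[k] p)) ((rest Y)^[k] p) ∈ T k) ∧
        (rest Y)^[n] p ∈ B}
      = (∏ k ∈ Finset.range n, pairL μ {p | f (idx Y p) p ∈ T k}) * pairL μ B := by
  induction n with
  | zero =>
    intro T B hB
    simp
  | succ n ih =>
    intro T B hB
    have hB' : MeasurableSet {p : (ℕ → A) × (ℕ → A) |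
        (∀ k < n, f (idx Y ((rest Y)^[k] p)) ((rest Y)^[k] p) ∈ T (k + 1)) ∧
          (rest Y)^[n] p ∈ B} := by
      have : {p : (ℕ → A) × (ℕ → A) |
        (∀ k < n, f (idx Y ((rest Y)^[k] p)) ((rest Y)^[k] p) ∈ T (k + 1)) ∧ (rest Y)^[n] p ∈ B}
        = (⋂ k : ℕ, ⋂ _ : k < n, (fun p => f (idx Y ((rest Y)^[k] p)) ((rest Y)^[k] p)) ⁻¹'
          T (k + 1)) ∩ (rest Y)^[n] ⁻¹' B := by
        ext p; simp
      rw [this]
      refine (MeasurableSet.iInter fun k => MeasurableSet.iInter fun _ => ?_).inter ?_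
      · exact ((measurable_F hY hf).comp ((measurable_rest hY).iterate k))
          (Set.to_countable _).measurableSet
      · exact ((measurable_rest hY).iterate n) hB
    have key := step μ hY hg (G := fun q => {p | f q p ∈ T 0}) (fun q => hf q (T 0)) hB'
    simp only [mem_ofPred_eq] at key
    rw [ih (fun k => T (k + 1)) hB] at key
    rw [Finset.prod_range_succ', mul_comm (∏ k ∈ Finset.range n, _) _, mul_assoc, ← key]
    congr 1
    ext p
    simp only [mem_ofPred_eq, Function.iterate_succ_apply]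
    constructor
    · rintro ⟨h1, h2⟩
      refine ⟨h1 0 (by omega), fun k hk => ?_, h2⟩
      have := h1 (k + 1) (by omega)
      rwa [Function.iterate_succ_apply] at this
    · rintro ⟨h0, h1, h2⟩
      refine ⟨fun k hk => ?_, h2⟩
      cases k with
      | zero => exact h0
      | succ k => rw [Function.iterate_succ_apply]; exact h1 k (by omega)

theorem map_blocksF (μ : Measure A) [IsProbabilityMeasure μ] (hg : pairL μ (Good Y)ᶜ = 0) :
    (pairL μ).map (fun p (k : ℕ) => f (idx Y ((rest Y)^[k] p)) ((rest Y)^[k] p))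
      = Measure.infinitePi fun _ : ℕ => (pairL μ).map (fun p => f (idx Y p) p) := by
  have hF := measurable_F hY hf
  have : IsProbabilityMeasure ((pairL μ).map (fun p => f (idx Y p) p)) :=
    Measure.isProbabilityMeasure_map hF.aemeasurable
  classical
  refine Measure.eq_infinitePi _ fun s t ht => ?_
  have hm : Measurable (fun (p : (ℕ → A) × (ℕ → A)) (k : ℕ) =>
      f (idx Y ((rest Y)^[k] p)) ((rest Y)^[k] p)) :=
    measurable_pi_lambda _ fun k => hF.comp ((measurable_rest hY).iterate k)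
  rw [Measure.map_apply hm (MeasurableSet.pi s.countable_toSet fun i _ => ht i)]
  obtain ⟨n, hn⟩ : ∃ n, s ⊆ Finset.range n :=
    ⟨s.sup id + 1, fun i hi => Finset.mem_range.2 (Nat.lt_succ_of_le (Finset.le_sup (f := id) hi))⟩
  have key := stepsF hY hf μ hg n (fun k => if k ∈ s then t k else univ) (B := univ)
    MeasurableSet.univ
  rw [measure_univ, mul_one] at key
  have e1 : (fun (p : (ℕ → A) × (ℕ → A)) (k : ℕ) =>
      f (idx Y ((rest Y)^[k] p)) ((rest Y)^[k] p)) ⁻¹' Set.pi (s : Set ℕ) t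
      = {p | (∀ k < n, f (idx Y ((rest Y)^[k] p)) ((rest Y)^[k] p) ∈
        (if k ∈ s then t k else univ)) ∧ (rest Y)^[n] p ∈ univ} := by
    ext p
    simp only [mem_preimage, Set.mem_pi, Finset.mem_coe, mem_ofPred_eq, mem_univ, and_true]
    constructor
    · intro h k _
      split_ifs with hk
      · exact h k hk
      · trivial
    · intro h k hk
      have := h k (Finset.mem_range.1 (hn hk))
      rwa [if_pos hk] at this
  rw [e1, key]
  rw [← Finset.prod_subset hn]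
  · refine Finset.prod_congr rfl fun k hk => ?_
    rw [if_pos hk, Measure.map_apply hF (ht k)]
    rfl
  · intro k _ hk
    rw [if_neg hk]
    simp

theorem law_F (μ : Measure A) [IsProbabilityMeasure μ] (hg : pairL μ (Good Y)ᶜ = 0) (k : ℕ) :
    (pairL μ).map (fun p => f (idx Y ((rest Y)^[k] p)) ((rest Y)^[k] p))
      = (pairL μ).map (fun p => f (idx Y p) p) := by
  have := ((preserving_rest μ hY hg).iterate k).map_eq
  conv_rhs => rw [← this]
  rw [Measure.map_map (measurable_F hY hf) ((measurable_rest hY).iterate k)]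
  rfl

/-- **iid blocks**, any functional determined by the first joint block -/
theorem indep_F (μ : Measure A) [IsProbabilityMeasure μ] (hg : pairL μ (Good Y)ᶜ = 0) :
    iIndepFun (fun (k : ℕ) p => f (idx Y ((rest Y)^[k] p)) ((rest Y)^[k] p)) (pairL μ) := by
  have hm : ∀ k : ℕ, Measurable (fun p => f (idx Y ((rest Y)^[k] p)) ((rest Y)^[k] p)) :=
    fun k => (measurable_F hY hf).comp ((measurable_rest hY).iterate k)
  rw [iIndepFun_iff_map_fun_eq_infinitePi_map hm]
  simp_rw [law_F hY hf μ hg]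
  exact map_blocksF hY hf μ hg

end iid

/-! ### probability -/

section prob

variable {Y : A → ℕ} (hY : ∀ a, 1 ≤ Y a) (v : A → ℤ) {vis : A → ℕ → Set ℤ}
  (hfin : ∀ a l, (vis a l).Finite)

/-- the pair (difference, deviation) as a function of the index pair -/
noncomputable def f2 (Y : A → ℕ) (v : A → ℤ) (vis : A → ℕ → Set ℤ) (q : ℕ × ℕ)
    (p : (ℕ → A) × (ℕ → A)) : ℤ × ℕ := (Dz v q.1 p.1 - Dz v q.2 p.2, Bq Y v vis q p)

include hY in
lemma f2_congr (vis : A → ℕ → Set ℤ) (q : ℕ × ℕ) {p p' : (ℕ → A) × (ℕ → A)}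
    (h1 : ∀ k < q.1, p.1 k = p'.1 k) (h2 : ∀ k < q.2, p.2 k = p'.2 k) :
    f2 Y v vis q p = f2 Y v vis q p' := by
  unfold f2 Bq
  rw [Dz_congr h1, Dz_congr h2]
  have : {r | DevLe Y v vis q r p} = {r | DevLe Y v vis q r p'} := by
    ext r
    exact det2_DevLe hY v vis q r p p' h1 h2
  rw [this]

include hY in
lemma hf2 (vis : A → ℕ → Set ℤ) (q : ℕ × ℕ) (T : Set (ℤ × ℕ)) :
    Det2 q.1 q.2 {p | f2 Y v vis q p ∈ T} := by
  intro p p' h1 h2
  simp only [mem_ofPred_eq]
  rw [f2_congr hY v vis q h1 h2]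

lemma f2_idx (p : (ℕ → A) × (ℕ → A)) : f2 Y v vis (idx Y p) p = (V0 Y v p, B0 Y v vis p) := rfl

include hY in
lemma measurable_V0 : Measurable (V0 Y v) := by
  have := measurable_F hY (hf2 hY v (fun _ _ => ∅))
  exact measurable_fst.comp this

include hY in
lemma measurable_B0 (vis : A → ℕ → Set ℤ) : Measurable (B0 Y v vis) := by
  have := measurable_F hY (hf2 hY v vis)
  exact measurable_snd.comp this

include hY in
/-- the pairs (difference, deviation) of the joint blocks are independent -/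
theorem indep_VB (μ : Measure A) [IsProbabilityMeasure μ] (hg : pairL μ (Good Y)ᶜ = 0)
    (vis : A → ℕ → Set ℤ) :
    iIndepFun (fun (k : ℕ) p => (V0 Y v ((rest Y)^[k] p), B0 Y v vis ((rest Y)^[k] p)))
      (pairL μ) := indep_F hY (hf2 hY v vis) μ hg

include hY in
theorem law_VB (μ : Measure A) [IsProbabilityMeasure μ] (hg : pairL μ (Good Y)ᶜ = 0)
    (vis : A → ℕ → Set ℤ) (k : ℕ) :
    (pairL μ).map (fun p => (V0 Y v ((rest Y)^[k] p), B0 Y v vis ((rest Y)^[k] p)))
      = (pairL μ).map (fun p => (V0 Y v p, B0 Y v vis p)) := law_F hY (hf2 hY v vis) μ hg k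

include hY in
/-- symmetry of the difference -/
theorem V0_symm (μ : Measure A) [IsProbabilityMeasure μ] (hg : pairL μ (Good Y)ᶜ = 0) :
    (pairL μ).map (fun p => - V0 Y v p) = (pairL μ).map (V0 Y v) := by
  have hs : (pairL μ).map Prod.swap = pairL μ := Measure.prod_swap
  conv_rhs => rw [← hs]
  rw [Measure.map_map (measurable_V0 hY v) measurable_swap]
  refine Measure.map_congr ?_
  have hg' : ∀ᵐ p ∂(pairL μ), p ∈ Good Y := hg
  filter_upwards [hg'] with p hp
  have h1 := mem_fst_idx hY hp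
  have h2 := idx_eq hY (fst_swap hY h1)
  simp only [Function.comp_apply, V0]
  rw [h2]
  simp only [Prod.fst_swap, Prod.snd_swap]
  ring

include hY in
lemma measurableSet_mem_Vs (vis : A → ℕ → Set ℤ) (l : ℕ) (z : ℤ) :
    MeasurableSet {a : ℕ → A | z ∈ Vs Y v vis a l} := by
  have e : {a : ℕ → A | z ∈ Vs Y v vis a l} = ⋃ i : ℕ,
      {a | H Y i a ≤ l ∧ l < H Y (i + 1) a ∧ z - Dz v i a ∈ vis (a i) (l - H Y i a)} := by
    ext a; simp [Vs]
  rw [e]
  refine MeasurableSet.iUnion fun i => ?_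
  have hD : Measurable (Dz v i) := by
    unfold Dz
    exact Finset.measurable_sum _ fun i _ => (measurable_of_countable v).comp
      (measurable_pi_apply i)
  have hm : Measurable fun a : ℕ → A => (a i, H Y i a, H Y (i + 1) a, Dz v i a) :=
    (measurable_pi_apply i).prodMk ((measurable_H Y i).prodMk ((measurable_H Y (i + 1)).prodMk hD))
  exact hm (Set.to_countable {x : A × ℕ × ℕ × ℤ | x.2.1 ≤ l ∧ l < x.2.2.1 ∧
    z - x.2.2.2 ∈ vis x.1 (l - x.2.1)}).measurableSet

/-- all same-level differences below level `n` are at most `r` -/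
def Cl (Y : A → ℕ) (v : A → ℤ) (vis : A → ℕ → Set ℤ) (n : ℕ) (r : ℤ) :
    Set ((ℕ → A) × (ℕ → A)) :=
  {p | ∀ l < n, ∀ z ∈ Vs Y v vis p.1 l, ∀ z' ∈ Vs Y v vis p.2 l, |z - z'| ≤ r}

include hY in
lemma measurableSet_Cl (vis : A → ℕ → Set ℤ) (n : ℕ) (r : ℤ) :
    MeasurableSet (Cl Y v vis n r) := by
  have e : Cl Y v vis n r = ⋂ l : ℕ, ⋂ _ : l < n, ⋂ z : ℤ, ⋂ z' : ℤ,
      {p : (ℕ → A) × (ℕ → A) | z ∈ Vs Y v vis p.1 l → z' ∈ Vs Y v vis p.2 l → |z - z'| ≤ r} := by
    ext p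
    simp only [Cl, mem_ofPred_eq, mem_iInter]
    constructor
    · intro h l hl z z' hz hz'
      exact h l hl z hz z' hz'
    · intro h l hl z hz z' hz'
      exact h l hl z z' hz hz'
  rw [e]
  refine MeasurableSet.iInter fun l => MeasurableSet.iInter fun _ => MeasurableSet.iInter fun z =>
    MeasurableSet.iInter fun z' => ?_
  have m1 : MeasurableSet {p : (ℕ → A) × (ℕ → A) | z ∈ Vs Y v vis p.1 l} :=
    measurable_fst (measurableSet_mem_Vs hY v vis l z)
  have m2 : MeasurableSet {p : (ℕ → A) × (ℕ → A) | z' ∈ Vs Y v vis p.2 l} :=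
    measurable_snd (measurableSet_mem_Vs hY v vis l z')
  have : {p : (ℕ → A) × (ℕ → A) | z ∈ Vs Y v vis p.1 l → z' ∈ Vs Y v vis p.2 l → |z - z'| ≤ r}
      = {p | z ∈ Vs Y v vis p.1 l}ᶜ ∪ {p | z' ∈ Vs Y v vis p.2 l}ᶜ ∪ {_p | |z - z'| ≤ r} := by
    ext p
    simp only [mem_ofPred_eq, mem_union, mem_compl_iff]
    tauto
  rw [this]
  exact (m1.compl.union m2.compl).union (MeasurableSet.const _)

/-- **Kolmogorov for blocks**: partial sums and deviations of iid symmetric pairs. -/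
theorem kol {Ω : Type*} [MeasurableSpace Ω] {P : Measure Ω} [IsProbabilityMeasure P]
    {V B : ℕ → Ω → ℝ} (hV : ∀ k, Measurable (V k)) (hind : iIndepFun V P)
    {ν : Measure ℝ} (hlaw : ∀ k, P.map (V k) = ν) (hs : ν.map (fun x => -x) = ν)
    {β : ℝ} {r : ℝ} (hr : 0 < r) (hB : ∀ k, P.real {ω | r < B k ω} ≤ β) (n : ℕ) :
    P.real ({ω | ∃ j ≤ n, r < |∑ i ∈ Finset.range j, V i ω|} ∪ {ω | ∃ k < n, r < B k ω})
      ≤ 2 * (n * ∫ x, min ((x / r) ^ 2) 1 ∂ν) + n * β := by
  have hdm : Measurable fun x : ℝ => x / r := measurable_id.div_const r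
  set X : ℕ → Ω → ℝ := fun k ω => V k ω / r with hX
  have hXm : ∀ k, Measurable (X k) := fun k => (hV k).div_const r
  have hXi : iIndepFun X P := hind.comp (fun _ x => x / r) (fun _ => hdm)
  have hXl : ∀ k, P.map (X k) = ν.map (fun x => x / r) := by
    intro k
    rw [← hlaw k, Measure.map_map hdm (hV k)]
    rfl
  have hXs : (ν.map (fun x => x / r)).map (fun x => -x) = ν.map (fun x => x / r) := by
    conv_rhs => rw [← hs]
    rw [Measure.map_map measurable_neg hdm, Measure.map_map hdm measurable_neg]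
    congr 1
    funext x
    simp only [Function.comp_apply]
    ring
  have hint : ∫ x, min (x ^ 2) 1 ∂(ν.map (fun x => x / r)) = ∫ x, min ((x / r) ^ 2) 1 ∂ν := by
    rw [integral_map hdm.aemeasurable (by fun_prop)]
  have hmax := Hit818.max_tr hXm hXi hXl hXs n hint.le
  have hBk : P.real {ω | ∃ k < n, r < B k ω} ≤ n * β := by
    have hsub : {ω | ∃ k < n, r < B k ω} ⊆ ⋃ k ∈ Finset.range n, {ω | r < B k ω} := by
      rintro ω ⟨k, hk, h⟩
      simp only [mem_iUnion]
      exact ⟨k, Finset.mem_range.2 hk, h⟩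
    refine (measureReal_mono hsub (measure_ne_top _ _)).trans
      ((measureReal_biUnion_finset_le _ _).trans ?_)
    calc _ ≤ ∑ k ∈ Finset.range n, β := Finset.sum_le_sum fun k _ => hB k
      _ = _ := by simp
  have he : {ω | ∃ j ≤ n, r < |∑ i ∈ Finset.range j, V i ω|} = {ω | ∃ j ≤ n, 1 < |Hit818.S X j ω|}
      := by
    ext ω
    simp only [mem_ofPred_eq]
    refine exists_congr fun j => and_congr Iff.rfl ?_
    have e : Hit818.S X j ω = (∑ i ∈ Finset.range j, V i ω) / r := by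
      unfold Hit818.S
      simp only [hX]
      rw [← Finset.sum_div]
    rw [e, abs_div, abs_of_pos hr, one_lt_div hr]
  rw [he]
  exact (measureReal_union_le _ _).trans (add_le_add hmax hBk)

include hY hfin in
/-- **closeness of two independent walkers** under the truncated second moment bound -/
theorem prob_Cl (μ : Measure A) [IsProbabilityMeasure μ] (hg : pairL μ (Good Y)ᶜ = 0)
    {n r : ℕ} (hr : 0 < r) {η : ℝ}
    (hn : 2 * (n * ∫ p, min (((V0 Y v p : ℝ) / r) ^ 2) 1 ∂(pairL μ))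
      + n * (pairL μ).real {p | r < B0 Y v vis p} ≤ η) :
    1 - η ≤ (pairL μ).real (Cl Y v vis n (2 * r)) := by
  have hr0 : (0:ℝ) < r := by exact_mod_cast hr
  set X : ℕ → ((ℕ → A) × (ℕ → A)) → ℝ := fun k p => (V0 Y v ((rest Y)^[k] p) : ℝ) with hX
  set g : ℤ × ℕ → ℝ := fun x => (x.1 : ℝ) with hgd
  have hgm : Measurable g := measurable_of_countable g
  have hXm : ∀ k, Measurable (X k) := fun k =>
    (measurable_of_countable (fun x : ℤ => (x : ℝ))).comp
      ((measurable_V0 hY v).comp ((measurable_rest hY).iterate k))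
  have hind : iIndepFun X (pairL μ) := (indep_VB hY v μ hg vis).comp (fun _ => g) (fun _ => hgm)
  set ν : Measure ℝ := (pairL μ).map (fun p => (V0 Y v p : ℝ)) with hν
  have hX0m : Measurable fun p => (V0 Y v p : ℝ) := hXm 0
  have hlaw : ∀ k, (pairL μ).map (X k) = ν := by
    intro k
    have := ((preserving_rest μ hY hg).iterate k).map_eq
    rw [hν]
    conv_rhs => rw [← this]
    rw [Measure.map_map hX0m ((measurable_rest hY).iterate k)]
    rfl
  have hsym : ν.map (fun x => -x) = ν := by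
    have h1 := V0_symm hY v μ hg
    set g' : ℤ → ℝ := fun x => (x : ℝ) with hg'
    have hg'm : Measurable g' := measurable_of_countable g'
    have hneg : Measurable fun p => - V0 Y v p := (measurable_V0 hY v).neg
    have h2 : ((pairL μ).map (fun p => - V0 Y v p)).map g' = ((pairL μ).map (V0 Y v)).map g' := by
      rw [h1]
    rw [Measure.map_map hg'm hneg, Measure.map_map hg'm (measurable_V0 hY v)] at h2
    rw [hν, Measure.map_map measurable_neg hX0m]
    have e1 : (fun x : ℝ => -x) ∘ (fun p => (V0 Y v p : ℝ)) = g' ∘ fun p => - V0 Y v p := by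
      funext p
      simp only [Function.comp_apply, hg', Int.cast_neg]
    rw [e1, h2]
    rfl
  have hint : ∫ x, min ((x / r) ^ 2) 1 ∂ν = ∫ p, min (((V0 Y v p : ℝ) / r) ^ 2) 1 ∂(pairL μ) := by
    rw [hν, integral_map hX0m.aemeasurable (by fun_prop)]
  have hBk : ∀ k, (pairL μ).real {p | (r : ℝ) < (B0 Y v vis ((rest Y)^[k] p) : ℝ)}
      ≤ (pairL μ).real {p | r < B0 Y v vis p} := by
    intro k
    have hms : MeasurableSet {p | r < B0 Y v vis p} :=
      measurable_B0 hY v vis (Set.to_countable {b : ℕ | r < b}).measurableSet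
    have e : {p | (r : ℝ) < (B0 Y v vis ((rest Y)^[k] p) : ℝ)}
        = (rest Y)^[k] ⁻¹' {p | r < B0 Y v vis p} := by
      ext p; simp
    rw [e]
    unfold Measure.real
    rw [((preserving_rest μ hY hg).iterate k).measure_preimage hms.nullMeasurableSet]
  have hk := kol hXm hind hlaw hsym hr0 (B := fun k p => (B0 Y v vis ((rest Y)^[k] p) : ℝ)) hBk n
  rw [hint] at hk
  have hbad : (Cl Y v vis n (2 * r))ᶜ ⊆ ({p | ∃ j ≤ n, (r : ℝ) < |∑ i ∈ Finset.range j, X i p|}
      ∪ {p | ∃ k < n, (r : ℝ) < (B0 Y v vis ((rest Y)^[k] p) : ℝ)}) ∪ (AllGood Y)ᶜ := by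
    intro p hp
    by_contra hcon
    simp only [mem_union, mem_ofPred_eq, mem_compl_iff, not_or, not_exists, not_and, not_lt,
      not_not] at hcon
    obtain ⟨⟨h1, h2⟩, h3⟩ := hcon
    apply hp
    refine dev_all hY v hfin h3 (fun k hk => by exact_mod_cast h2 k hk) fun k hk => ?_
    have h4 := h1 k hk
    have e : ∑ i ∈ Finset.range k, X i p = ((Wk Y v k p : ℤ) : ℝ) := by
      unfold Wk
      simp only [hX]
      push_cast
      rfl
    rw [e] at h4
    exact_mod_cast h4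
  have hgood : (pairL μ).real (AllGood Y)ᶜ = 0 := by
    unfold Measure.real
    rw [allGood_ae μ hY hg]; rfl
  have hm := measurableSet_Cl hY v vis n (2 * (r : ℤ))
  have h5 : (pairL μ).real (Cl Y v vis n (2 * r))ᶜ ≤ η := by
    calc _ ≤ _ := measureReal_mono hbad (measure_ne_top _ _)
      _ ≤ _ := measureReal_union_le _ _
      _ ≤ _ := by rw [hgood]; linarith
  have h6 := measureReal_compl (μ := pairL μ) hm
  rw [probReal_univ] at h6
  linarith

include hY hfin in
/-- **THE TUBE**: there is a deterministic `w : ℕ → ℤ` such that one walker stays within `2 r` of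
it below level `n` with probability at least `1 - η`. -/
theorem tube (hne : ∀ a l, l < Y a → (vis a l).Nonempty)
    (μ : Measure A) [IsProbabilityMeasure μ] (hg : pairL μ (Good Y)ᶜ = 0)
    {n r : ℕ} (hr : 0 < r) {η : ℝ}
    (hn : 2 * (n * ∫ p, min (((V0 Y v p : ℝ) / r) ^ 2) 1 ∂(pairL μ))
      + n * (pairL μ).real {p | r < B0 Y v vis p} ≤ η) :
    ∃ w : ℕ → ℤ, ENNReal.ofReal (1 - η)
      ≤ iidL μ {a | ∀ l < n, ∀ z ∈ Vs Y v vis a l, |z - w l| ≤ 2 * (r : ℤ)} := by
  classical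
  have h1 := prob_Cl hY v hfin μ hg hr hn
  set S := Cl Y v vis n (2 * (r : ℤ)) with hS
  have hm : MeasurableSet S := measurableSet_Cl hY v vis n _
  have h2 : ENNReal.ofReal (1 - η) ≤ pairL μ S := by
    rw [← ENNReal.ofReal_toReal (measure_ne_top (pairL μ) S)]
    exact ENNReal.ofReal_le_ofReal h1
  rw [Measure.prod_apply_symm hm] at h2
  obtain ⟨b, hb⟩ : ∃ b : ℕ → A, ENNReal.ofReal (1 - η) ≤ iidL μ ((fun a => (a, b)) ⁻¹' S) := by
    have hne : ∫⁻ b, iidL μ ((fun a => (a, b)) ⁻¹' S) ∂(iidL μ) ≠ ⊤ := by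
      refine ne_top_of_le_ne_top (b := 1) (by simp) ?_
      calc _ ≤ ∫⁻ _, 1 ∂(iidL μ) := lintegral_mono fun b => prob_le_one
        _ = 1 := by simp
    obtain ⟨b, hb⟩ := exists_lintegral_le hne
    exact ⟨b, h2.trans hb⟩
  refine ⟨fun l => (Vs_nonempty hY v hne b l).some, hb.trans (measure_mono ?_)⟩
  intro a ha l hl z hz
  exact ha l hl z hz _ (Vs_nonempty hY v hne b l).some_mem

end prob

end Crest.Agent.R154.Tube504
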