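import Crest.Agent.R154.NDAObj_24
import Crest.Agent.R154.Tube_504

/-! Row 154, block `d = 2`, D2.3 at object level: the second walker is a tube for the first one. -/

set_option autoImplicit false
set_option linter.unusedSectionVars false
set_option linter.deprecated false

namespace Crest.Agent.R154.NDAObj24

open MeasureTheory ProbabilityTheory Filter Set Crest.ProbabilityR.RandomEnvironment
open Crest.Agent.R154.Mk561 Crest.Agent.R154.Bind263 Crest.Agent.R154.B4Inst797
open Crest.Agent.R154.J132 Crest.Agent.R154.J6_24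
open Crest.Agent.R154.Hair738 (T U Core NDA)
open Crest.Agent.R154.Ren263 (Word Stay)
open Crest.Agent.R154.RenG263 (RegInf)
open scoped ENNReal Topology

variable {d : ℕ} {u : Step d} {κ : ℝ} {R : ℕ} {Q : Measure (Environment d)}
  [IsProbabilityMeasure Q]

/-- all same-level differences below the level `n` are at most `ρ` -/
def Cl2 (u : Step d) (i : Fin d) (n : ℕ) (ρ : ℤ) : Set (MPath d × MPath d) :=
  {π | ∀ a b : ℕ, zh u π.1 a = zh u π.2 b → zh u π.1 a < n → |pos 0 π.1 a i - pos 0 π.2 b i| ≤ ρ}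

lemma measurable_zh (u : Step d) (n : ℕ) : Measurable fun s : MPath d => zh u s n := by
  unfold zh
  exact Finset.measurable_sum _ fun j _ => (measurable_of_countable (zht u)).comp
    (measurable_pi_apply j)

lemma measurable_posi (i : Fin d) (n : ℕ) : Measurable fun s : MPath d => pos 0 s n i := by
  have h : Measurable fun s : MPath d => pos 0 s n := by
    unfold pos
    refine Measurable.const_add ?_ 0
    exact Finset.measurable_sum _ fun j _ =>
      (measurable_of_countable stp).comp (measurable_pi_apply j)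
  exact (measurable_pi_apply i).comp h

lemma measurableSet_Cl2 (u : Step d) (i : Fin d) (n : ℕ) (ρ : ℤ) :
    MeasurableSet (Cl2 u i n ρ) := by
  have e : Cl2 u i n ρ = ⋂ a : ℕ, ⋂ b : ℕ, {π : MPath d × MPath d |
      zh u π.1 a = zh u π.2 b → zh u π.1 a < n → |pos 0 π.1 a i - pos 0 π.2 b i| ≤ ρ} := by
    ext π
    simp only [Cl2, mem_setOf_eq, mem_iInter]
  rw [e]
  refine MeasurableSet.iInter fun a => MeasurableSet.iInter fun b => ?_
  have hm : Measurable fun π : MPath d × MPath d =>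
      (zh u π.1 a, zh u π.2 b, pos 0 π.1 a i, pos 0 π.2 b i) :=
    ((measurable_zh u a).comp measurable_fst).prodMk
      (((measurable_zh u b).comp measurable_snd).prodMk
        (((measurable_posi i a).comp measurable_fst).prodMk
          ((measurable_posi i b).comp measurable_snd)))
  exact hm (Set.to_countable {x : ℤ × ℤ × ℤ × ℤ |
    x.1 = x.2.1 → x.1 < n → |x.2.2.1 - x.2.2.2| ≤ ρ}).measurableSet

/-- deterministic step -/
lemma cl2_of {π : MPath d × MPath d} (hπ : π ∈ JG u κ R) (i : Fin d) {n r : ℕ}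
    (hS : ∀ j ≤ n, |Sk (phi i) u κ R j π| ≤ r) (hB : ∀ k < n, Bj u (phi i) (jw u κ R k π) ≤ r) :
    π ∈ Cl2 u i n (2 * r) := by
  intro a b hab hlt
  have h0 : 0 ≤ zh u π.1 a := stay_zh.1 hπ.1.1 a
  obtain ⟨l, hl0⟩ := Int.eq_ofNat_of_zero_le h0
  obtain ⟨k, hk1, hk2⟩ := exists_Hk hπ l
  have hln : l < n := by
    rw [hl0] at hlt
    exact_mod_cast hlt
  have hkn : k < n := lt_of_le_of_lt ((le_Hk hπ k).trans hk1) hln
  have h2 := same_level hπ (phi i) hab (k := k) (by rw [hl0]; exact_mod_cast hk1)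
    (by rw [hl0]; exact_mod_cast hk2)
  have h3 := hS k hkn.le
  have h4 := hB k hkn
  simp only [phi_apply] at h2
  have h5 : |((pos 0 π.1 a i : ℤ) : ℝ) - ((pos 0 π.2 b i : ℤ) : ℝ)| ≤ 2 * r := by
    rw [abs_le] at *
    constructor <;> linarith [h2.1, h2.2, h3.1, h3.2]
  have h6 : ((|pos 0 π.1 a i - pos 0 π.2 b i| : ℤ) : ℝ) ≤ ((2 * r : ℤ) : ℝ) := by
    push_cast
    exact h5
  exact_mod_cast h6

/-- probability of closeness -/
theorem prob_Cl2 (F : Frame Q κ R) (hA : annealedProb Q 0 (escapeEvent (B2d.dirVec u)) ≠ 0)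
    (i : Fin d) {n r : ℕ} (hr : 0 < r) {η : ℝ}
    (hn : 2 * (n * ∫ t, min ((Vt t / r) ^ 2) 1 ∂(triL Q κ R u (phi i)))
      + n * (triL Q κ R u (phi i)).real {t | (r : ℝ) < Bt t} ≤ η) :
    1 - η ≤ (prL Q κ u).real (Cl2 u i n (2 * r)) := by
  have hpr := probPr F hA
  have hr0 : (0:ℝ) < r := by exact_mod_cast hr
  set τ := triL Q κ R u (phi i) with hτ
  set X : ℕ → MPath d × MPath d → ℝ := fun k π => Vj (phi i) (jw u κ R k π) with hX
  set Y : ℕ → MPath d × MPath d → ℝ := fun k π => Bj u (phi i) (jw u κ R k π) with hY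
  have hXm : ∀ k, Measurable (X k) := fun k => measurable_jw (Vj (phi i)) k
  have hind : iIndepFun X (prL Q κ u) := indep_jw (Vj (phi i)) F hA
  have htr : ∀ k, (prL Q κ u).map (fun π => tri u (phi i) (jw u κ R k π)) = τ := fun k =>
    law_jw (tri u (phi i)) F hA k
  have htm : ∀ k, Measurable fun π => tri u (phi i) (jw u κ R k π) := fun k =>
    measurable_jw (tri u (phi i)) k
  have hlaw : ∀ k, (prL Q κ u).map (X k) = τ.map Vt := fun k => by
    rw [← htr k, Measure.map_map measurable_fst (htm k)]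
    rfl
  have hVtm : Measurable Vt := measurable_fst
  have hneg : Measurable (fun t : ℝ × ℝ × ℕ => (-t.1, t.2)) :=
    measurable_fst.neg.prodMk measurable_snd
  have hsym : (τ.map Vt).map (fun x => -x) = τ.map Vt := by
    conv_rhs => rw [hτ, ← tri_symm F hA (phi i)]
    rw [Measure.map_map measurable_neg hVtm, Measure.map_map hVtm hneg]
    rfl
  have hBk : ∀ k, (prL Q κ u).real {π | (r : ℝ) < Y k π} ≤ τ.real {t | (r : ℝ) < Bt t} := by
    intro k
    have hS : MeasurableSet {t : ℝ × ℝ × ℕ | (r : ℝ) < Bt t} :=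
      measurableSet_lt measurable_const (measurable_fst.comp measurable_snd)
    rw [← htr k]
    unfold Measure.real
    rw [Measure.map_apply (htm k) hS]
    exact le_rfl
  have hk := Tube504.kol hXm hind hlaw hsym hr0 hBk n
  rw [integral_map measurable_fst.aemeasurable (by fun_prop)] at hk
  have hbad : (Cl2 u i n (2 * r))ᶜ ⊆ ({π | ∃ j ≤ n, (r : ℝ) < |∑ k ∈ Finset.range j, X k π|}
      ∪ {π | ∃ k < n, (r : ℝ) < Y k π}) ∪ (JG u κ R)ᶜ := by
    intro π hp
    by_contra hcon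
    simp only [mem_union, mem_setOf_eq, mem_compl_iff, not_or, not_exists, not_and, not_lt,
      not_not] at hcon
    obtain ⟨⟨h1, h2⟩, h3⟩ := hcon
    exact hp (cl2_of h3 i (fun j hj => h1 j hj) (fun k hk => h2 k hk))
  have hgood : (prL Q κ u).real (JG u κ R)ᶜ = 0 := by
    have h1 : (prL Q κ u) (JG u κ R)ᶜ = 0 := jg_ae F hA
    unfold Measure.real
    rw [h1]; rfl
  have h5 : (prL Q κ u).real (Cl2 u i n (2 * r))ᶜ ≤ η := by
    calc _ ≤ _ := measureReal_mono hbad (measure_ne_top _ _)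
      _ ≤ _ := measureReal_union_le _ _
      _ ≤ _ := by rw [hgood, add_zero]; exact hk.trans hn
  have h6 := measureReal_compl (μ := prL Q κ u) (measurableSet_Cl2 u i n (2 * (r : ℤ)))
  rw [probReal_univ] at h6
  linarith

/-- **THE TUBE**: one walker stays within `2 r` of a deterministic `v` below the level `n`. -/
theorem tube_obj (F : Frame Q κ R) (hA : annealedProb Q 0 (escapeEvent (B2d.dirVec u)) ≠ 0)
    (i : Fin d) {n r : ℕ} (hr : 0 < r) {η : ℝ}
    (hn : 2 * (n * ∫ t, min ((Vt t / r) ^ 2) 1 ∂(triL Q κ R u (phi i)))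
      + n * (triL Q κ R u (phi i)).real {t | (r : ℝ) < Bt t} ≤ η) :
    ∃ v : ℤ → ℤ, ENNReal.ofReal (1 - η)
      ≤ stL Q κ u {s | ∀ t, zh u s t < (n : ℤ) → |pos 0 s t i - v (zh u s t)| ≤ 2 * r} := by
  classical
  have hpr := probPr F hA
  have hst := probSt F hA
  have h1 := prob_Cl2 F hA i hr hn
  have hm := measurableSet_Cl2 u i n (2 * (r : ℤ))
  set S := Cl2 u i n (2 * (r : ℤ)) with hS
  have h2 : ENNReal.ofReal (1 - η) ≤ prL Q κ u S := by
    rw [← ENNReal.ofReal_toReal (measure_ne_top (prL Q κ u) S)]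
    exact ENNReal.ofReal_le_ofReal h1
  rw [Measure.prod_apply_symm hm] at h2
  obtain ⟨s', hs', hri⟩ : ∃ s' : MPath d, ENNReal.ofReal (1 - η)
      ≤ stL Q κ u ((fun s => (s, s')) ⁻¹' S) ∧ s' ∈ RegInf (rhoU u κ R) := by
    have hne : ∫⁻ b, stL Q κ u ((fun a => (a, b)) ⁻¹' S) ∂(stL Q κ u) ≠ ⊤ := by
      refine ne_top_of_le_ne_top (b := 1) (by simp) ?_
      calc _ ≤ ∫⁻ _, 1 ∂(stL Q κ u) := lintegral_mono fun b => prob_le_one
        _ = 1 := by simp
    have hpos := measure_lintegral_le_pos hne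
    by_contra hcon
    push Not at hcon
    have h3 : stL Q κ u {x | ∫⁻ b, stL Q κ u ((fun a => (a, b)) ⁻¹' S) ∂(stL Q κ u)
        ≤ stL Q κ u ((fun a => (a, x)) ⁻¹' S)} = 0 := by
      refine measure_mono_null ?_ (ae_regInfU F hA)
      intro x hx
      exact hcon x (h2.trans hx)
    exact hpos.ne' h3
  have hex : ∀ l : ℕ, ∃ m, Hit u l m s' := exists_hit_regInf hri
  refine ⟨fun l => pos 0 s' (hex l.toNat).choose i, hs'.trans (measure_mono_ae ?_)⟩
  filter_upwards [ae_regInfU F hA] with s hs hsS t ht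
  have h0 : 0 ≤ zh u s t := stay_zh.1 hs.1 t
  refine hsS t _ ?_ ht
  change zh u s t = zh u s' _
  rw [(hex (zh u s t).toNat).choose_spec.1, Int.toNat_of_nonneg h0]

/-- the two truncated second moments -/
theorem min_le_U (F : Frame Q κ R) (hA : annealedProb Q 0 (escapeEvent (B2d.dirVec u)) ≠ 0)
    (i : Fin d) (r : ℝ) :
    ∫ t, min ((Vt t / r) ^ 2) 1 ∂(triL Q κ R u (phi i))
      ≤ U (triL Q κ R u (phi i)) Vt Bt r / r ^ 2 + T (triL Q κ R u (phi i)) Bt r := by
  have hpt := probTri F hA (phi i)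
  set τ := triL Q κ R u (phi i) with hτ
  have hle := tri_le F hA (phi i)
  have hBm : Measurable Bt := measurable_fst.comp measurable_snd
  have hS : MeasurableSet {t : ℝ × ℝ × ℕ | Bt t ≤ r} := measurableSet_le hBm measurable_const
  have hmi : Measurable fun t : ℝ × ℝ × ℕ => min ((Vt t / r) ^ 2) 1 :=
    ((measurable_fst.div_const r).pow_const 2).min measurable_const
  have hint : Integrable (fun t : ℝ × ℝ × ℕ => min ((Vt t / r) ^ 2) 1) τ := by
    refine Integrable.mono' (integrable_const (1:ℝ)) hmi.aestronglyMeasurable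
      (Eventually.of_forall fun t => ?_)
    rw [Real.norm_eq_abs, abs_of_nonneg (le_min (sq_nonneg _) zero_le_one)]
    exact min_le_right _ _
  rw [← integral_add_compl hS hint]
  refine add_le_add ?_ ?_
  · have hI : IntegrableOn (fun t : ℝ × ℝ × ℕ => (Vt t) ^ 2) {t | Bt t ≤ r} τ := by
      refine Measure.integrableOn_of_bounded (M := r ^ 2) (measure_ne_top _ _)
        (measurable_fst.pow_const 2).aestronglyMeasurable ?_
      rw [ae_restrict_iff' hS]
      filter_upwards [hle] with t ht hB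
      have h1 : |t.1| ≤ r := ht.1.trans hB
      rw [Real.norm_eq_abs, abs_of_nonneg (sq_nonneg _), ← sq_abs]
      exact pow_le_pow_left₀ (abs_nonneg _) h1 2
    have e : U τ Vt Bt r / r ^ 2 = ∫ t in {t | Bt t ≤ r}, (Vt t) ^ 2 / r ^ 2 ∂τ := by
      unfold U
      rw [integral_div]
    rw [e]
    refine integral_mono hint.integrableOn (hI.div_const _) fun t => ?_
    change min ((Vt t / r) ^ 2) 1 ≤ Vt t ^ 2 / r ^ 2
    rw [← div_pow]
    exact min_le_left _ _
  · calc ∫ t in {t | Bt t ≤ r}ᶜ, min ((Vt t / r) ^ 2) 1 ∂τ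
        ≤ ∫ _ in {t | Bt t ≤ r}ᶜ, (1:ℝ) ∂τ := by
          refine integral_mono hint.integrableOn (integrable_const _).integrableOn fun t => ?_
          exact min_le_right _ _
      _ = T τ Bt r := by
          rw [setIntegral_const, smul_eq_mul, mul_one]
          unfold T
          congr 1
          ext t
          simp

/-- **`htube`**: the Kolmogorov width is the width of a tube of probability `3/4`. -/
theorem htube (F : Frame Q κ R) (hA : annealedProb Q 0 (escapeEvent (B2d.dirVec u)) ≠ 0)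
    {i : Fin d} (hi : i ≠ u.1) (n : ℕ) : ∃ v : ℤ → ℤ, ENNReal.ofReal (3 / 4)
      ≤ stL Q κ u {s | ∀ t, zh u s t < (n : ℤ) → |pos 0 s t i - v (zh u s t)|
        ≤ 2 * wdJ Q κ R u i n} := by
  obtain ⟨h1, h2, h3⟩ := (core_tri F hA hi).wd_spec n
  set τ := triL Q κ R u (phi i) with hτ
  set w := wdJ Q κ R u i n with hw
  have hw1 : 0 < w := one_le_wdJ F hA hi n
  have hwr : (0:ℝ) < w := by exact_mod_cast hw1
  have h2' : (n : ℝ) * T τ Bt w ≤ 1 / 16 := h2
  have h3' : (n : ℝ) * U τ Vt Bt w ≤ (w : ℝ) ^ 2 / 64 := h3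
  have hmin := min_le_U F hA i (w : ℝ)
  have key : 2 * (n * ∫ t, min ((Vt t / w) ^ 2) 1 ∂τ) + n * τ.real {t | (w : ℝ) < Bt t}
      ≤ 1 / 4 := by
    have e1 : τ.real {t | (w : ℝ) < Bt t} = T τ Bt w := rfl
    rw [e1]
    have e2 : (n : ℝ) * ∫ t, min ((Vt t / w) ^ 2) 1 ∂τ
        ≤ n * (U τ Vt Bt w / (w:ℝ) ^ 2 + T τ Bt w) :=
      mul_le_mul_of_nonneg_left hmin (Nat.cast_nonneg _)
    have e3 : (n : ℝ) * (U τ Vt Bt w / (w:ℝ) ^ 2) ≤ 1 / 64 := by
      rw [← mul_div_assoc, div_le_iff₀ (by positivity)]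
      linarith
    rw [mul_add] at e2
    linarith
  obtain ⟨v, hv⟩ := tube_obj F hA i hw1 key
  refine ⟨v, ?_⟩
  have e : (1:ℝ) - 1 / 4 = 3 / 4 := by norm_num
  rw [e] at hv
  exact hv

section two
variable {u : Step 2} {i : Fin 2}

/-- **NDA FOR THE JOINT BLOCKS, `d = 2`, unconditional** -/
theorem nda_obj (ν : Measure (Row 2)) [IsProbabilityMeasure ν]
    (hν : ∀ᵐ q ∂ν, ∀ e : Step 2, 0 < q.1 e) (hi : i ≠ u.1)
    (hA : annealedProb (iidEnvironmentLaw ν) 0 (escapeEvent (B2d.dirVec u)) ≠ 0) :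
    NDA (T (triL (iidEnvironmentLaw ν) 0 0 u (phi i)) Bt)
      (U (triL (iidEnvironmentLaw ν) 0 0 u (phi i)) Vt Bt) :=
  nda_tri ν hν hi hA (c := ENNReal.ofReal (3 / 4)) (by simp)
    fun n _ => htube (frame_iid ν hν) hA hi n

end two

end Crest.Agent.R154.NDAObj24
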