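import Crest.Agent.R154.EscObj_546
import Crest.Agent.R154.D2V_36
import Crest.Agent.R154.OccPow_7
import Crest.Agent.R154.LawTri_546
import Crest.Agent.R154.TubeObj_24

/-!
Row 154, `d = 2` (helper2): the near occupation of two walkers from `0` in the same environment in the
letters `EK` (exit kernels of `{lev < l}`, D2V_36), bounded by the law of the distance `Dr` of the
same-environment pair of marked walkers (EscObj_546).

* `ek_le` : quenched, any `d`; `ek_PS` : annealed, any `d`;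
* `ek_sl` : the same with 916's slanted coordinate, `d = 2`;
* `occP_of` : `D2V36.OccP` from the occupation bound of the process `Dr`.
-/

set_option autoImplicit false
set_option linter.unusedSectionVars false
set_option linter.deprecated false

namespace Crest.Agent.R154.OccN2

open MeasureTheory ProbabilityTheory Filter Set Crest.ProbabilityR.RandomEnvironment
open Crest.Agent.R154.Q561 Crest.Agent.R154.Mk561 Crest.Agent.R154.B6I
open Crest.Agent.R154.Bind263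
open Crest.Agent.R154.Flux132 (lev)
open Crest.Agent.R154.PInd546 Crest.Agent.R154.EscObj546
open Crest.Agent.R154.ExK9
open scoped ENNReal Topology

variable {d : ℕ} {u : Step d} {κ : ℝ} {Q : Measure (Environment d)} [IsProbabilityMeasure Q]

/-- both walkers start at `0` -/
def s00 (u : Step d) : SP u := ⟨(0, 0), rfl⟩

/-- sites strictly below the level `l` -/
def Sbd (u : Step d) (l : ℕ) : Set (Site d) := {y | lev u y < (l : ℤ)}

/-- the first exit of `{lev < l}` is the first hit of the level `l` -/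
lemma hit_of_exS {l : ℕ} {y : Site d} {M : MPath d} (h : mpath 0 M ∈ ExS (Sbd u l) y) :
    ∃ n, Hit u l M n ∧ pos 0 M n = y ∧ lev u y = l := by
  obtain ⟨hy, n, hn, hi⟩ := h
  have hn' : pos 0 M n = y := hn
  have hlev : ∀ m, lev u (pos 0 M m) = zt u M m := fun m => by
    rw [lev_pos, B6I.lev_zero, zero_add]
  have hlt : ∀ k < n, zt u M k < l := fun k hk => by
    have := hi k hk
    rw [← hlev k]
    exact this
  have hge : (l : ℤ) ≤ zt u M n := by
    rw [← hlev n, hn']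
    exact not_lt.1 hy
  have heq : zt u M n = l := by
    rcases Nat.eq_zero_or_pos n with h0 | hpos
    · subst h0
      rw [zt_zero] at hge ⊢
      have : (0 : ℤ) ≤ l := Int.natCast_nonneg l
      omega
    · have h1 := hlt (n-1) (by omega)
      have h2 := zt_step u M (n-1)
      rw [show n - 1 + 1 = n by omega] at h2
      have := (abs_le.1 h2).2
      omega
  exact ⟨n, ⟨heq, hlt⟩, hn', by rw [← hn', hlev, heq]⟩

/-- distance at the first hits -/
lemma Dr_of_exS {i : Fin d} {l : ℕ} {y y' : Site d} {p : PP d}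
    (h : mpath 0 p.1 ∈ ExS (Sbd u l) y) (h' : mpath 0 p.2 ∈ ExS (Sbd u l) y') :
    Dr i (s00 u) l p = |(y i : ℝ) - (y' i : ℝ)| ∧ lev u y = l ∧ lev u y' = l := by
  obtain ⟨n, hn, hy, hl⟩ := hit_of_exS h
  obtain ⟨n', hn', hy', hl'⟩ := hit_of_exS h'
  refine ⟨?_, hl, hl'⟩
  have h1 := tip_val (s00 u) hn hn'
  have h2 : (tip l (s00 u) p).1 = (y, y') := by
    rw [h1]
    exact Prod.ext hy hy'
  unfold Dr Dd ldf
  rw [h2]
  push_cast
  rfl

/-- **quenched**: the pair of exits of `{lev < l}`, any set `T` of pairs of sites of the level `l` whose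
distance in the coordinate `i` is at most `r`. -/
theorem ek_le {ω : Environment d} (hω : ∀ z e, kf d κ ≤ (ω z).1 e) (i : Fin d) (l : ℕ) {r : ℝ}
    {T : Set (Site d × Site d)}
    (hT : ∀ y y', (y, y') ∈ T → lev u y = l → lev u y' = l → |(y i : ℝ) - (y' i : ℝ)| ≤ r) :
    ∑' y : Site d, ∑' y' : Site d, EK ω (Sbd u l) 0 y * EK ω (Sbd u l) 0 y' *
        T.indicator 1 (y, y')
      ≤ ((mkLaw κ ω 0).prod (mkLaw κ ω 0)) {p : PP d | Dr i (s00 u) l p ≤ r} := by
  classical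
  set A := Sbd u l with hA
  set E : Site d → Set (MPath d) := fun y => mpath 0 ⁻¹' ExS A y with hE
  have hEm : ∀ y, MeasurableSet (E y) := fun y => measurable_mpath 0 (measurableSet_ExS A y)
  have hEK : ∀ y, EK ω A 0 y = mkLaw κ ω 0 (E y) := fun y => by
    unfold EK
    rw [← mk_projection_of_le hω 0, Measure.map_apply (measurable_mpath 0)
      (measurableSet_ExS A y)]
  have hdis : ∀ y y', y ≠ y' → Disjoint (E y) (E y') := fun y y' h =>
    (ExS_disjoint A h).preimage _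
  -- the sets of pairs
  set G : Site d × Site d → Set (PP d) := fun q => if q ∈ T then E q.1 ×ˢ E q.2 else ∅ with hG
  have hGm : ∀ q, MeasurableSet (G q) := fun q => by
    simp only [hG]
    split_ifs
    · exact (hEm _).prod (hEm _)
    · exact MeasurableSet.empty
  have hGd : Pairwise (Function.onFun Disjoint G) := by
    intro q q' hne
    rw [Function.onFun, Set.disjoint_left]
    intro p hp hp'
    simp only [hG] at hp hp'
    split_ifs at hp hp' with a b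
    · by_cases h1 : q.1 = q'.1
      · have h2 : q.2 ≠ q'.2 := fun h2 => hne (Prod.ext h1 h2)
        exact Set.disjoint_left.1 (hdis _ _ h2) hp.2 hp'.2
      · exact Set.disjoint_left.1 (hdis _ _ h1) hp.1 hp'.1
    · exact hp'
    · exact hp
    · exact hp
  have e1 : ∑' y : Site d, ∑' y' : Site d, EK ω A 0 y * EK ω A 0 y' * T.indicator 1 (y, y')
      = ∑' q : Site d × Site d, ((mkLaw κ ω 0).prod (mkLaw κ ω 0)) (G q) := by
    rw [ENNReal.tsum_prod' (f := fun q => ((mkLaw κ ω 0).prod (mkLaw κ ω 0)) (G q))]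
    refine tsum_congr fun y => tsum_congr fun y' => ?_
    by_cases h : (y, y') ∈ T
    · simp only [hG, if_pos h, Set.indicator_of_mem h, Pi.one_apply, mul_one]
      rw [Measure.prod_prod, hEK, hEK]
    · simp only [hG, if_neg h, Set.indicator_of_notMem h, mul_zero, measure_empty]
  rw [e1, ← measure_iUnion hGd hGm]
  refine measure_mono (Set.iUnion_subset fun q => ?_)
  intro p hp
  simp only [hG] at hp
  split_ifs at hp with h
  · obtain ⟨h1, h2, h3⟩ := Dr_of_exS (i := i) (p := p) hp.1 hp.2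
    change Dr i (s00 u) l p ≤ r
    rw [h1]
    exact hT q.1 q.2 h h2 h3
  · exact hp.elim

/-- **annealed** -/
theorem ek_PS (hell : ∀ᵐ ω ∂Q, ∀ z e, kf d κ ≤ (ω z).1 e) (i : Fin d) (l : ℕ) {r : ℝ}
    {T : Set (Site d × Site d)}
    (hT : ∀ y y', (y, y') ∈ T → lev u y = l → lev u y' = l → |(y i : ℝ) - (y' i : ℝ)| ≤ r) :
    ∫⁻ ω, ∑' y : Site d, ∑' y' : Site d, EK ω (Sbd u l) 0 y * EK ω (Sbd u l) 0 y' *
        T.indicator 1 (y, y') ∂Q
      ≤ PSm κ Q 0 0 {p : PP d | Dr i (s00 u) l p ≤ r} := by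
  have hm : MeasurableSet {p : PP d | Dr i (s00 u) l p ≤ r} :=
    Fl_le l _ (measurableSet_le (Dr_meas i (s00 u) l) (@measurable_const _ _ _ (Fl u l) r))
  rw [PSm_apply κ Q 0 0 hm]
  refine lintegral_mono_ae ?_
  filter_upwards [hell] with ω hω
  exact ek_le hω i l hT

/-! ### the occupation bound for the process `Dr` -/

section occ

variable {i : Fin d}

lemma pn_le_one : pn κ Q u ≤ 1 := by
  unfold pn
  exact measureReal_le_one

/-- 7's three quantifier Props hold for the pair started from `s`; occupation bound, power form. -/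
theorem occ_Dr (F : Frame Q 0 0) (h1 : annealedProb Q 0 (escapeEvent (B2d.dirVec u)) = 1)
    {κ' : ℝ} (hκ : 0 < κ') (hell : ∀ᵐ ω ∂Q, ∀ (z : Site d) (e : Step d), κ' ≤ (ω z).1 e)
    {i : Fin d} (hi : i ≠ u.1) {φ : Site d →+ ℝ} (hφ : ∀ z, φ z = (z i : ℝ))
    (hμ : Gam7.Law (triR Q 0 u φ))
    (hR : Integrable (fun x : ℝ × ℝ × ℝ => x.2.2) (triR Q 0 u φ))
    {wd : ℕ → ℝ} (hwd : Tendsto wd atTop atTop) {c1 : ℝ} (hc1 : 0 < c1)
    (hW : ∀ᶠ N : ℕ in atTop, c1 * wd N ^ 2 ≤ N * Gam7.U (triR Q 0 u φ) (wd N)) (s : SP u) :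
    ∃ C c0 : ℝ, 0 < C ∧ 0 < c0 ∧ ∀ a : ℝ, 0 < a → a ≤ 1 → ∃ N0 : ℕ, ∀ N, N0 ≤ N →
      ∑ k ∈ Finset.range N, (PSm 0 Q s.1.1 s.1.2).real {p : PP d | Dr i s k p ≤ a * wd N}
        ≤ C * a ^ c0 * N := by
  have hA : annealedProb Q 0 (escapeEvent (B2d.dirVec u)) ≠ 0 := by rw [h1]; exact one_ne_zero
  have hpr := J132.probPr F hA
  have hpt : IsProbabilityMeasure (triR Q 0 u φ) := J132.probJ (tr3 u φ) F hA
  have hp : 0 < pn 0 Q u := pn_pos F hA
  have hp1 : pn 0 Q u ≤ 1 := pn_le_one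
  have hpp : pn 0 Q u ^ 2 ≤ 1 := pow_le_one₀ hp.le hp1
  have E0' : OccPow7.HE0 (PSm 0 Q s.1.1 s.1.2) (Fl u) (Dr i s) := by
    intro W
    obtain ⟨H0, e0, _, he0, hE⟩ := EscObj546.E0 F h1 hκ hell hi W
    exact ⟨H0, e0, he0, fun k B hB => hE s k B hB⟩
  have E1' : OccPow7.HE1 (PSm 0 Q s.1.1 s.1.2) (Fl u) (Dr i s) (triR Q 0 u φ) (1/4)
      (pn 0 Q u ^ 2 / 4) := by
    intro Λ hΛ
    obtain ⟨K, w0, hK, _, hE⟩ := EscObj546.E1 F h1 hφ hμ hR hΛ
    refine ⟨K, w0, hK, fun w hw k B hB hBD => ?_⟩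
    have := (hE w hw).2.2 s k B hB hBD
    rw [show 1 / 4 * w = w / 4 by ring]
    exact this
  have E2' : OccPow7.HE2 (PSm 0 Q s.1.1 s.1.2) (Fl u) (Dr i s) (triR Q 0 u φ) (1/2)
      (pn 0 Q u ^ 2 / 2) := by
    obtain ⟨c, w0, hc, _, hE⟩ := EscObj546.E2 F h1 hφ hμ
    refine ⟨c, w0, hc, fun w hw k B hB hBD => ?_⟩
    have := (hE w hw).2 s k B hB hBD
    rw [show 1 / 2 * w = w / 2 by ring]
    exact this
  obtain ⟨C, c0, hC, hc0, hocc⟩ := OccPow7.occ_pow (P := PSm 0 Q s.1.1 s.1.2) (F := Fl u)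
    (D := Dr i s) hμ Fl_mono (fun k => Fl_le k) (Dr_meas i s) (l1 := 1/4) (l2 := 1/2)
    (by norm_num) (by norm_num) (by positivity) (by linarith) (by positivity) E0' E1' E2' hwd hc1 hW
  refine ⟨C, c0, hC, hc0, fun a ha ha1 => ?_⟩
  obtain ⟨N0, hN⟩ := hocc a ha ha1
  refine ⟨N0, fun N hNN => ?_⟩
  have := hN N hNN Set.univ (@MeasurableSet.univ _ (Fl u 0))
  simpa using this

end occ

/-! ### `OccP` -/

section two

variable {u : Step 2} {i : Fin 2}

lemma Sb_eq (l : ℕ) : D2V36.Sb u l = Sbd u l := rfl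

/-- **`OccP` from the occupation bound of the pair.** -/
theorem occP_of {ν : Measure (Row 2)} [IsProbabilityMeasure ν]
    (hν : ∀ᵐ q ∂ν, ∀ e : Step 2, 0 < q.1 e) (θ : ℝ) (wd : ℕ → ℕ)
    (h : ∃ C c0 : ℝ, 0 < C ∧ 0 < c0 ∧ ∀ a : ℝ, 0 < a → a ≤ 1 → ∃ N0 : ℕ, ∀ N, N0 ≤ N →
      ∑ k ∈ Finset.range N, (PSm 0 (iidEnvironmentLaw ν) 0 0).real
        {p : PP 2 | Dr i (s00 u) k p ≤ a * (wd N : ℝ)} ≤ C * a ^ c0 * N) :
    D2V36.OccP u i θ ν wd := by
  obtain ⟨C, c0, hC, hc0, hocc⟩ := h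
  refine ⟨C, c0, hC, hc0, fun a ha ha1 => ?_⟩
  obtain ⟨N0, hN⟩ := hocc a ha ha1
  refine ⟨N0, fun N hNN => ?_⟩
  have h2 := hN N hNN
  refine le_trans ?_ (ENNReal.ofReal_le_ofReal h2)
  rw [ENNReal.ofReal_sum_of_nonneg fun k _ => measureReal_nonneg]
  refine Finset.sum_le_sum fun l _ => ?_
  rw [ofReal_measureReal]
  have h3 := ek_PS (u := u) (κ := 0) (Q := iidEnvironmentLaw ν) (frame_iid ν hν).ell i l
    (r := a * (wd N : ℝ))
    (T := {p : Site 2 × Site 2 | |P2916.sl u i θ p.1 - P2916.sl u i θ p.2| ≤ a * wd N})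
    (fun y y' hyy h4 h5 => by
      have h6 : |P2916.sl u i θ y - P2916.sl u i θ y'| ≤ a * wd N := hyy
      unfold P2916.sl at h6
      rw [h4, h5] at h6
      refine le_trans (le_of_eq ?_) h6
      congr 1
      ring)
  exact h3

/-- 738's width fits `h = w² / U` -/
lemma fitJ (ν : Measure (Row 2)) [IsProbabilityMeasure ν]
    (hν' : ∀ᵐ q ∂ν, ∀ e : Step 2, 0 < q.1 e) (hi : i ≠ u.1)
    (hA' : annealedProb (iidEnvironmentLaw ν) 0 (escapeEvent (B2d.dirVec u)) ≠ 0) :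
    ∀ᶠ N : ℕ in atTop, (1/256 : ℝ) * (NDAObj24.wdJ (iidEnvironmentLaw ν) 0 0 u i N : ℝ) ^ 2 ≤
      N * Gam7.U (triR (iidEnvironmentLaw ν) 0 u (J6_24.phi i))
        (NDAObj24.wdJ (iidEnvironmentLaw ν) 0 0 u i N : ℝ) := by
  have hN := NDAObj24.nda_obj (u := u) ν hν' hi hA'
  have hc := NDAObj24.core_tri (frame_iid ν hν') hA' hi
  filter_upwards [hN.wd_sq_le hc] with N h
  rw [LawTri546.U_eq]
  have h' : (NDAObj24.wdJ (iidEnvironmentLaw ν) 0 0 u i N : ℝ)^2 ≤ 256 * (N *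
    Hair738.U (J132.triL (iidEnvironmentLaw ν) 0 0 u (J6_24.phi i)) NDAObj24.Vt NDAObj24.Bt
      (NDAObj24.wdJ (iidEnvironmentLaw ν) 0 0 u i N : ℝ)) := h
  linarith

lemma tendJ (ν : Measure (Row 2)) [IsProbabilityMeasure ν]
    (hν' : ∀ᵐ q ∂ν, ∀ e : Step 2, 0 < q.1 e) (hi : i ≠ u.1)
    (hA' : annealedProb (iidEnvironmentLaw ν) 0 (escapeEvent (B2d.dirVec u)) ≠ 0) :
    Tendsto (fun N : ℕ => (NDAObj24.wdJ (iidEnvironmentLaw ν) 0 0 u i N : ℝ)) atTop atTop := by
  have hc := NDAObj24.core_tri (frame_iid ν hν') hA' hi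
  have h := Hair738.wd_tendstoR hc
  exact h

/-- **`OccP` with the width of the joint blocks, UNCONDITIONAL.** -/
theorem occP (ν : Measure (Row 2)) [IsProbabilityMeasure ν] {κ' : ℝ} (hκ : 0 < κ')
    (hν : ∀ᵐ q ∂ν, ∀ e : Step 2, κ' ≤ q.1 e) (hi : i ≠ u.1)
    (hA : annealedProb (iidEnvironmentLaw ν) 0 (escapeEvent (B2d.dirVec u)) = 1) (θ : ℝ) :
    D2V36.OccP u i θ ν (NDAObj24.wdJ (iidEnvironmentLaw ν) 0 0 u i) := by
  have hν' : ∀ᵐ q ∂ν, ∀ e : Step 2, 0 < q.1 e := by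
    filter_upwards [hν] with q hq e
    exact hκ.trans_le (hq e)
  have F : Frame (iidEnvironmentLaw ν) 0 0 := frame_iid ν hν'
  have hA' : annealedProb (iidEnvironmentLaw ν) 0 (escapeEvent (B2d.dirVec u)) ≠ 0 := by
    rw [hA]; exact one_ne_zero
  have hell : ∀ᵐ ω ∂(iidEnvironmentLaw ν), ∀ (z : Site 2) (e : Step 2), κ' ≤ (ω z).1 e := by
    rw [ae_all_iff]
    intro x
    have hmap : (iidEnvironmentLaw ν).map (fun ω : Environment 2 => ω x) = ν := by
      rw [iidEnvironmentLaw]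
      exact Measure.infinitePi_map_eval _ _
    have := hν
    rw [← hmap] at this
    exact ae_of_ae_map (measurable_pi_apply x).aemeasurable this
  have hN := NDAObj24.nda_obj (u := u) ν hν' hi hA'
  have hc := NDAObj24.core_tri F hA' hi
  have hμ := LawTri546.law F hA' hi hN
  have hR := LawTri546.int_R (u := u) F hA' i
  exact occP_of hν' θ (NDAObj24.wdJ (iidEnvironmentLaw ν) 0 0 u i)
    (occ_Dr F hA hκ hell hi (φ := J6_24.phi i) (fun z => J6_24.phi_apply i z) hμ hR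
      (wd := fun N => (NDAObj24.wdJ (iidEnvironmentLaw ν) 0 0 u i N : ℝ))
      (tendJ ν hν' hi hA') (c1 := 1/256) (by norm_num) (fitJ ν hν' hi hA') (s00 u))

end two

end Crest.Agent.R154.OccN2
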