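import Crest.Agent.R154.Resamp2_9

/-!
# Row 154, helper9: the exit chain with weights

* `xT A X` the first exit point of `A`, `sh A X` the path after the exit;
* `exit_markov_fun` : strong Markov property at the exit, for functions;
* `wq A χ x n ω z` : quenched law of the exit point of `A n`, with the weights `χ j` at the exit
  points of `A j`, `1 ≤ j ≤ n`; `wChain` : it is a `Chain` of `Resamp2_9`;
* `wq_path` : path form (with the future after the exit).
-/

set_option autoImplicit false
set_option linter.unusedVariables false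
set_option linter.unusedSectionVars false

namespace Crest.Agent.R154.WChain9

open MeasureTheory ProbabilityTheory Crest.ProbabilityR.RandomEnvironment Crest.Agent.R154
open Crest.Agent.R154.ExK9 Crest.Agent.R154.Resamp9
open scoped ENNReal

variable {d : ℕ}

/-- the first exit point -/
noncomputable def xT (A : Set (Site d)) (X : Path d) : Site d := X (exT A X).toNat

/-- the path after the first exit -/
noncomputable def sh (A : Set (Site d)) (X : Path d) : Path d := shift (exT A X).toNat X

lemma meas_sh (A : Set (Site d)) : Measurable (sh A) := by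
  refine measurable_pi_iff.2 fun i => ?_
  have h1 : Measurable fun X : Path d => (exT A X).toNat :=
    (measurable_of_countable ENat.toNat).comp (isStop_exT A).measurable
  have h2 : Measurable fun p : Path d × ℕ => p.1 (p.2 + i) :=
    measurable_from_prod_countable_left fun n => measurable_pi_apply (n + i)
  exact h2.comp (measurable_id.prodMk h1)

lemma meas_xT (A : Set (Site d)) : Measurable (xT A) := by
  have h1 : Measurable fun X : Path d => (exT A X).toNat :=
    (measurable_of_countable ENat.toNat).comp (isStop_exT A).measurable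
  have h2 : Measurable fun p : Path d × ℕ => p.1 p.2 :=
    measurable_from_prod_countable_left fun n => measurable_pi_apply n
  exact h2.comp (measurable_id.prodMk h1)

lemma meas_exit (A : Set (Site d)) : MeasurableSet {X : Path d | exT A X ≠ ⊤} :=
  (isStop_exT A).measurableSet_ne_top

lemma xT_of_mem {A : Set (Site d)} {z : Site d} {X : Path d} (h : X ∈ ExS A z) : xT A X = z :=
  (mem_ExS_iff.1 h).2

lemma exit_eq (A : Set (Site d)) : {X : Path d | exT A X ≠ ⊤} = ⋃ z, ExS A z := by
  ext X
  simp only [Set.mem_ofPred_eq, Set.mem_iUnion]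
  constructor
  · intro h; exact ⟨_, mem_ExS_iff.2 ⟨h, rfl⟩⟩
  · rintro ⟨z, hz⟩; exact (mem_ExS_iff.1 hz).1

lemma xT_notMem {A : Set (Site d)} {X : Path d} (h : exT A X ≠ ⊤) : xT A X ∉ A := by
  have h1 : X ∈ ExS A (xT A X) := mem_ExS_iff.2 ⟨h, rfl⟩
  exact h1.1

/-! ### strong Markov property for functions -/

theorem exit_markov_at (ω : Environment d) (A : Set (Site d)) (x z : Site d) {B : Set (Path d)}
    (hB : MeasurableSet B) :
    quenchedLaw ω x (ExS A z ∩ {X | sh A X ∈ B}) = EK ω A x z * quenchedLaw ω z B := by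
  have hdet : DetBy (exT A) (· ∈ ExS A z) := by
    intro X Y n hXY hn
    have h2 : exT A Y = n := isStop_exT A X Y n hXY hn
    apply propext
    show X ∈ ExS A z ↔ Y ∈ ExS A z
    rw [mem_ExS_iff, mem_ExS_iff, hn, h2, ENat.toNat_natCast, hXY n le_rfl]
  have e : {X : Path d | exT A X ≠ ⊤} ∩ ExS A z = ExS A z := by
    ext X
    constructor
    · exact fun h => h.2
    · exact fun h => ⟨(mem_ExS_iff.1 h).1, h⟩
  have h1 := strong_markov_event ω x (isStop_exT A) hdet (measurableSet_ExS A z) hB
  rw [e] at h1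
  refine h1.trans ?_
  rw [setLIntegral_congr_fun (g := fun _ => quenchedLaw ω z B) (measurableSet_ExS A z),
    setLIntegral_const, mul_comm]
  · rfl
  · intro X hX
    show quenchedLaw ω (X (exT A X).toNat) B = quenchedLaw ω z B
    rw [(mem_ExS_iff.1 hX).2]

/-- the law of the path after the exit at `z` -/
theorem map_sh (ω : Environment d) (A : Set (Site d)) (x z : Site d) :
    ((quenchedLaw ω x).restrict (ExS A z)).map (sh A) = EK ω A x z • quenchedLaw ω z := by
  ext B hB
  rw [Measure.map_apply (meas_sh A) hB, Measure.restrict_apply (meas_sh A hB), Set.inter_comm,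
    Measure.smul_apply, smul_eq_mul]
  exact exit_markov_at ω A x z hB

theorem lint_sh (ω : Environment d) (A : Set (Site d)) (x z : Site d) {G : Path d → ℝ≥0∞}
    (hG : Measurable G) :
    ∫⁻ X in ExS A z, G (sh A X) ∂quenchedLaw ω x
      = EK ω A x z * ∫⁻ X, G X ∂quenchedLaw ω z := by
  rw [← lintegral_map hG (meas_sh A), map_sh, lintegral_smul_measure, smul_eq_mul]

/-- **strong Markov property at the exit of `A`, functions** -/
theorem exit_markov_fun (ω : Environment d) (A : Set (Site d)) (x : Site d) (h : Site d → ℝ≥0∞)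
    {G : Path d → ℝ≥0∞} (hG : Measurable G) :
    ∫⁻ X in {X | exT A X ≠ ⊤}, h (xT A X) * G (sh A X) ∂quenchedLaw ω x
      = ∑' z, EK ω A x z * (h z * ∫⁻ X, G X ∂quenchedLaw ω z) := by
  rw [exit_eq, lintegral_iUnion (fun z => measurableSet_ExS A z) (ExS_disjoint A)]
  refine tsum_congr fun z => ?_
  rw [setLIntegral_congr_fun (g := fun X => h z * G (sh A X)) (measurableSet_ExS A z)]
  · have hm : Measurable fun X : Path d => G (sh A X) := hG.comp (meas_sh A)
    rw [lintegral_const_mul _ hm, lint_sh ω A x z hG]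
    ring
  · intro X hX
    show h (xT A X) * G (sh A X) = h z * G (sh A X)
    rw [xT_of_mem hX]

/-! ### exits of increasing sets -/

lemma exT_shift {A A' : Set (Site d)} (h : A ⊆ A') {X : Path d} (hX : exT A X ≠ ⊤) :
    exT A' X = exT A X + exT A' (sh A X) := by
  obtain ⟨t, ht⟩ := ENat.ne_top_iff_exists.1 hX
  have h1 := exT_eq_iff.1 ht.symm
  have e : sh A X = shift t X := by unfold sh; rw [← ht, ENat.toNat_natCast]
  rw [e, ← ht]
  by_cases h2 : exT A' (shift t X) = ⊤
  · rw [h2]
    have h3 := exT_eq_top_iff.1 h2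
    have : exT A' X = ⊤ := by
      rw [exT_eq_top_iff]
      intro i
      rcases Nat.lt_or_ge i t with h4 | h4
      · exact h (h1.2 i h4)
      · have h5 : X (t + (i - t)) ∈ A' := h3 (i - t)
        rwa [Nat.add_sub_cancel' h4] at h5
    rw [this]; simp
  · obtain ⟨m, hm⟩ := ENat.ne_top_iff_exists.1 h2
    have h3 := exT_eq_iff.1 hm.symm
    rw [← hm, ← Nat.cast_add, exT_eq_iff]
    refine ⟨h3.1, fun i hi => ?_⟩
    rcases Nat.lt_or_ge i t with h4 | h4
    · exact h (h1.2 i h4)
    · have h5 : X (t + (i - t)) ∈ A' := h3.2 (i - t) (by omega)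
      rwa [Nat.add_sub_cancel' h4] at h5

lemma exT_ne_top_of_sub {A A' : Set (Site d)} (h : A ⊆ A') {X : Path d} (hX : exT A' X ≠ ⊤) :
    exT A X ≠ ⊤ := by
  intro h1
  rw [exT_eq_top_iff] at h1
  exact hX (exT_eq_top_iff.2 fun i => h (h1 i))

lemma exT_iff {A A' : Set (Site d)} (h : A ⊆ A') {X : Path d} (hX : exT A X ≠ ⊤) :
    exT A' X ≠ ⊤ ↔ exT A' (sh A X) ≠ ⊤ := by
  rw [exT_shift h hX, Ne, Ne, not_iff_not]
  constructor
  · intro h1
    rcases WithTop.add_eq_top.1 h1 with h2 | h2
    · exact absurd h2 hX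
    · exact h2
  · intro h1; rw [h1]; simp

lemma toNat_shift {A A' : Set (Site d)} (h : A ⊆ A') {X : Path d} (hX : exT A' X ≠ ⊤) :
    (exT A' X).toNat = (exT A X).toNat + (exT A' (sh A X)).toNat := by
  have h1 := exT_ne_top_of_sub h hX
  have h2 := (exT_iff h h1).1 hX
  rw [exT_shift h h1, ENat.toNat_add h1 h2]

lemma xT_shift {A A' : Set (Site d)} (h : A ⊆ A') {X : Path d} (hX : exT A' X ≠ ⊤) :
    xT A' X = xT A' (sh A X) := by
  unfold xT
  rw [toNat_shift h hX]
  rfl

lemma sh_shift {A A' : Set (Site d)} (h : A ⊆ A') {X : Path d} (hX : exT A' X ≠ ⊤) :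
    sh A' X = sh A' (sh A X) := by
  have e : sh A' X = shift ((exT A X).toNat + (exT A' (sh A X)).toNat) X := by
    show shift (exT A' X).toNat X = _
    rw [toNat_shift h hX]
  rw [e]
  funext i
  show X ((exT A X).toNat + (exT A' (sh A X)).toNat + i) =
    X ((exT A X).toNat + ((exT A' (sh A X)).toNat + i))
  rw [add_assoc]

/-! ### the weighted chain -/

/-- weighted kernels -/
noncomputable def wK (A : ℕ → Set (Site d)) (χ : ℕ → Site d → ℝ≥0∞) (k : ℕ) (ω : Environment d)
    (y z : Site d) : ℝ≥0∞ := EK ω (A (k + 1)) y z * χ (k + 1) z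

/-- weighted quenched law of the exit point of `A k` -/
noncomputable def wq (A : ℕ → Set (Site d)) (χ : ℕ → Site d → ℝ≥0∞) (x : Site d) :
    ℕ → Environment d → Site d → ℝ≥0∞
  | 0, ω => EK ω (A 0) x
  | k + 1, ω => fun z => ∑' y, wq A χ x k ω y * wK A χ k ω y z

variable {A : ℕ → Set (Site d)} {χ : ℕ → Site d → ℝ≥0∞} {x : Site d}

lemma wK_le (hχ : ∀ k z, χ k z ≤ 1) (k : ℕ) (ω : Environment d) (y z : Site d) :
    wK A χ k ω y z ≤ EK ω (A (k + 1)) y z := by
  unfold wK
  calc _ ≤ EK ω (A (k + 1)) y z * 1 := by gcongr; exact hχ _ _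
    _ = _ := mul_one _

/-- **the weighted law is below the unweighted one** -/
theorem wq_le (hA : Monotone A) (hχ : ∀ k z, χ k z ≤ 1) (k : ℕ) (ω : Environment d)
    (z : Site d) : wq A χ x k ω z ≤ EK ω (A k) x z := by
  induction k generalizing z with
  | zero => exact le_rfl
  | succ k ih =>
    rw [EK_comp ω (hA (Nat.le_succ k)) x z]
    exact ENNReal.tsum_le_tsum fun y => mul_le_mul' (ih y) (wK_le hχ k ω y z)

lemma wq_tsum_le (hA : Monotone A) (hχ : ∀ k z, χ k z ≤ 1) (k : ℕ) (ω : Environment d) :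
    ∑' z, wq A χ x k ω z ≤ 1 :=
  (ENNReal.tsum_le_tsum fun z => wq_le hA hχ k ω z).trans (tsum_EK_le ω (A k) x)

lemma meas_wK (k : ℕ) (y z : Site d) : Measurable fun ω : Environment d => wK A χ k ω y z :=
  (meas_EK _ _ _).mul_const _

lemma meas_wq (k : ℕ) (z : Site d) : Measurable fun ω : Environment d => wq A χ x k ω z := by
  induction k generalizing z with
  | zero => exact meas_EK _ _ _
  | succ k ih => exact Measurable.tsum fun y => (ih y).mul (meas_wK k y z)

lemma locOn_wq (hA : Monotone A) (k : ℕ) (z : Site d) :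
    Q561.LocOn (A k) fun ω : Environment d => wq A χ x k ω z := by
  induction k generalizing z with
  | zero => exact locOn_EK _ _ _
  | succ k ih =>
    intro ω ω' h
    show ∑' y, wq A χ x k ω y * wK A χ k ω y z = ∑' y, wq A χ x k ω' y * wK A χ k ω' y z
    refine tsum_congr fun y => ?_
    have h1 := ih y ω ω' fun s hs => h s (hA (Nat.le_succ k) hs)
    have h2 := locOn_EK (A (k + 1)) y z ω ω' h
    simp only [wK] at h1 h2 ⊢
    rw [h1, h2]

/-- **the weighted exit chain is a chain** (any increasing sets, any weights `≤ 1`) -/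
theorem wChain (hA : Monotone A) (hχ : ∀ k z, χ k z ≤ 1) (n : ℕ) (x : Site d)
    {v : ℕ → Environment d → Site d → ℝ} (vm : ∀ k y, Measurable fun ω => v k ω y)
    (vl : ∀ k y, Q561.LocOn (A k) fun ω => v k ω y) (v1 : ∀ k ω y, |v k ω y| ≤ 1) :
    Chain n A (wq A χ x) (wK A χ) v where
  pm k y := meas_wq k y
  pl k y := locOn_wq hA k y
  p1 k ω := wq_tsum_le hA hχ k ω
  Km k y z := meas_wK k y z
  K1 k ω y := (ENNReal.tsum_le_tsum fun z => wK_le hχ k ω y z).trans (tsum_EK_le ω (A (k + 1)) y)
  push k _ ω z := rfl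
  vm := vm
  vl := vl
  v1 := v1

/-- the chain with deterministic test functions -/
theorem wChainD (hA : Monotone A) (hχ : ∀ k z, χ k z ≤ 1) (n : ℕ) (x : Site d)
    {v : ℕ → Site d → ℝ} (v1 : ∀ k y, |v k y| ≤ 1) :
    Chain n A (wq A χ x) (wK A χ) (fun k _ => v k) :=
  wChain hA hχ n x (fun k y => measurable_const) (fun k y ω ω' _ => rfl) fun k ω y => v1 k y

lemma wmm_zero (hx : x ∉ A 0) (v : ℕ → Environment d → Site d → ℝ) (ω : Environment d) :
    mm (wq A χ x) v 0 ω = v 0 ω x := mm_zero hx v ω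

/-! ### path form -/

/-- the product of the weights along the path -/
noncomputable def wt (A : ℕ → Set (Site d)) (χ : ℕ → Site d → ℝ≥0∞) (n : ℕ) (X : Path d) :
    ℝ≥0∞ := ∏ j ∈ Finset.range n, χ (j + 1) (xT (A (j + 1)) X)

lemma meas_wt (n : ℕ) : Measurable (wt A χ n) := by
  unfold wt
  exact Finset.measurable_prod _ fun j _ =>
    (measurable_of_countable (χ (j + 1))).comp (meas_xT (A (j + 1)))

/-- **path form of the weighted law, with the future after the last exit** -/
theorem wq_path (hA : Monotone A) (n : ℕ) (ω : Environment d) (x : Site d) (h : Site d → ℝ≥0∞)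
    {G : Path d → ℝ≥0∞} (hG : Measurable G) :
    ∫⁻ X in {X | exT (A n) X ≠ ⊤}, wt A χ n X * (h (xT (A n) X) * G (sh (A n) X))
        ∂quenchedLaw ω x
      = ∑' z, wq A χ x n ω z * (h z * ∫⁻ X, G X ∂quenchedLaw ω z) := by
  induction n generalizing h G with
  | zero =>
    have e : ∀ X : Path d, wt A χ 0 X = 1 := fun X => by simp [wt]
    simp_rw [e, one_mul]
    exact exit_markov_fun ω (A 0) x h hG
  | succ n ih =>
    have hs := hA (Nat.le_succ n)
    set G' : Path d → ℝ≥0∞ := {Y : Path d | exT (A (n + 1)) Y ≠ ⊤}.indicator fun Y =>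
      χ (n + 1) (xT (A (n + 1)) Y) * h (xT (A (n + 1)) Y) * G (sh (A (n + 1)) Y) with hG'
    have mG' : Measurable G' := by
      refine Measurable.indicator ?_ (meas_exit _)
      exact (((measurable_of_countable (χ (n + 1))).comp (meas_xT _)).mul
        ((measurable_of_countable h).comp (meas_xT _))).mul (hG.comp (meas_sh _))
    have h1 := ih (fun _ => 1) mG'
    have e1 : ∫⁻ X in {X | exT (A (n + 1)) X ≠ ⊤},
          wt A χ (n + 1) X * (h (xT (A (n + 1)) X) * G (sh (A (n + 1)) X)) ∂quenchedLaw ω x =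
        ∫⁻ X in {X | exT (A n) X ≠ ⊤}, wt A χ n X * (1 * G' (sh (A n) X)) ∂quenchedLaw ω x := by
      rw [← lintegral_indicator (meas_exit _), ← lintegral_indicator (meas_exit _)]
      refine lintegral_congr fun X => ?_
      by_cases hX : exT (A (n + 1)) X ≠ ⊤
      · have h2 := exT_ne_top_of_sub hs hX
        have h3 := (exT_iff hs h2).1 hX
        rw [Set.indicator_of_mem (by exact hX), Set.indicator_of_mem (by exact h2), hG',
          Set.indicator_of_mem (by exact h3), ← xT_shift hs hX, ← sh_shift hs hX]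
        unfold wt
        rw [Finset.prod_range_succ]
        ring
      · rw [Set.indicator_of_notMem (by exact hX)]
        by_cases h2 : exT (A n) X ≠ ⊤
        · have h3 : ¬ exT (A (n + 1)) (sh (A n) X) ≠ ⊤ := fun h4 => hX ((exT_iff hs h2).2 h4)
          rw [Set.indicator_of_mem (by exact h2), hG', Set.indicator_of_notMem (by exact h3)]
          simp
        · rw [Set.indicator_of_notMem (by exact h2)]
    rw [e1, h1]
    have e2 : ∀ z, ∫⁻ X, G' X ∂quenchedLaw ω z =
        ∑' w, EK ω (A (n + 1)) z w * (χ (n + 1) w * h w * ∫⁻ X, G X ∂quenchedLaw ω w) := by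
      intro z
      rw [hG', lintegral_indicator (meas_exit _)]
      exact exit_markov_fun ω (A (n + 1)) z (fun w => χ (n + 1) w * h w) hG
    simp_rw [e2, one_mul]
    have e3 : ∀ z, wq A χ x n ω z * ∑' w, EK ω (A (n + 1)) z w *
          (χ (n + 1) w * h w * ∫⁻ X, G X ∂quenchedLaw ω w) =
        ∑' w, wq A χ x n ω z * wK A χ n ω z w * (h w * ∫⁻ X, G X ∂quenchedLaw ω w) := by
      intro z
      rw [← ENNReal.tsum_mul_left]
      refine tsum_congr fun w => ?_
      unfold wK
      ring
    simp_rw [e3]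
    rw [ENNReal.tsum_comm]
    refine tsum_congr fun w => ?_
    rw [ENNReal.tsum_mul_right]
    rfl

/-- **path form** -/
theorem wq_path' (hA : Monotone A) (n : ℕ) (ω : Environment d) (x : Site d)
    (h : Site d → ℝ≥0∞) :
    ∫⁻ X in {X | exT (A n) X ≠ ⊤}, wt A χ n X * h (xT (A n) X) ∂quenchedLaw ω x
      = ∑' z, wq A χ x n ω z * h z := by
  have h1 := wq_path (χ := χ) hA n ω x h (G := fun _ => 1) measurable_const
  simpa using h1

/-- the unweighted case, with the future -/
theorem EK_path (B : Set (Site d)) (ω : Environment d) (x : Site d) (h : Site d → ℝ≥0∞) :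
    ∫⁻ X in {X | exT B X ≠ ⊤}, h (xT B X) ∂quenchedLaw ω x = ∑' z, EK ω B x z * h z := by
  have h1 := exit_markov_fun ω B x h (G := fun _ => 1) measurable_const
  simpa using h1

/-- total weighted mass -/
theorem wq_mass (hA : Monotone A) (n : ℕ) (ω : Environment d) (x : Site d) :
    ∫⁻ X in {X | exT (A n) X ≠ ⊤}, wt A χ n X ∂quenchedLaw ω x = ∑' z, wq A χ x n ω z := by
  have h1 := wq_path' (χ := χ) hA n ω x (fun _ => 1)
  simpa using h1

end Crest.Agent.R154.WChain9
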