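import Crest.Agent.R154.D2V_36
import Crest.Agent.R154.WChain_9

/-!
# Row 154, helper9, `d = 2`: the kit of 36's functional `FE`

* `Gb` : 766's backward recursion of the exit kernels with weights (literally); `gb_path` its path
  form;
* `markov_real` : strong Markov property at an exit, real functions with values in `[0,1]`;
* `meas_FE`, `FE_nonneg`, `FE_le_one`, `FE_cons`, `FE_grid` (`FE` = `Gb` on any refined grid);
* `cndR_ae` : `cndR` of a.e. equal functions.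
-/

set_option autoImplicit false
set_option linter.unusedVariables false
set_option linter.unusedSectionVars false

namespace Crest.Agent.R154.FEk9

open MeasureTheory ProbabilityTheory Crest.ProbabilityR.RandomEnvironment Crest.Agent.R154
open Crest.Agent.R154.Flux132 (lev)
open Crest.Agent.R154.ExK9 Crest.Agent.R154.Resamp9 Crest.Agent.R154.WChain9
open scoped ENNReal

section general
variable {d : ℕ}

/-- backward recursion (766's `Gb`) -/
noncomputable def Gb (S : ℕ → Set (Site d)) (χ : ℕ → Site d → ℝ≥0∞) (g : Site d → ℝ≥0∞)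
    (ω : Environment d) : ℕ → ℕ → Site d → ℝ≥0∞
  | 0, _, y => g y
  | m + 1, k, y => ∑' z, EK ω (S (k + 1)) y z * (χ (k + 1) z * Gb S χ g ω m (k + 1) z)

variable {S : ℕ → Set (Site d)} {χ : ℕ → Site d → ℝ≥0∞} {g : Site d → ℝ≥0∞}

lemma meas_Gb (m k : ℕ) (y : Site d) : Measurable fun ω : Environment d => Gb S χ g ω m k y := by
  induction m generalizing k y with
  | zero => exact measurable_const
  | succ m ih =>
    exact Measurable.tsum fun z => (meas_EK _ _ _).mul ((ih (k + 1) z).const_mul _)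

lemma Gb_le_one (hχ : ∀ k z, χ k z ≤ 1) (hg : ∀ z, g z ≤ 1) (ω : Environment d) (m k : ℕ)
    (y : Site d) : Gb S χ g ω m k y ≤ 1 := by
  induction m generalizing k y with
  | zero => exact hg y
  | succ m ih =>
    calc Gb S χ g ω (m + 1) k y ≤ ∑' z, EK ω (S (k + 1)) y z :=
          ENNReal.tsum_le_tsum fun z => by
            calc EK ω (S (k + 1)) y z * (χ (k + 1) z * Gb S χ g ω m (k + 1) z)
                ≤ EK ω (S (k + 1)) y z * (1 * 1) := by
                  gcongr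
                  · exact hχ _ _
                  · exact ih _ _
              _ = _ := by rw [mul_one, mul_one]
      _ ≤ 1 := tsum_EK_le ω _ y

/-- **path form of the backward recursion** -/
theorem gb_path (hS : Monotone S) (ω : Environment d) : ∀ m k n : ℕ, k + m = n → ∀ y : Site d,
    (m = 0 → y ∉ S k) →
    Gb S χ g ω m k y = ∫⁻ X in {X | exT (S n) X ≠ ⊤},
      (∏ j ∈ Finset.Ico (k + 1) (n + 1), χ j (xT (S j) X)) * g (xT (S n) X)
        ∂quenchedLaw ω y := by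
  intro m
  induction m with
  | zero =>
    intro k n hn y hy
    have hk : n = k := by omega
    subst hk
    have e : ∀ X : Path d, (∏ j ∈ Finset.Ico (n + 1) (n + 1), χ j (xT (S j) X)) *
        g (xT (S n) X) = g (xT (S n) X) := fun X => by simp
    simp_rw [e]
    rw [EK_path, tsum_eq_single y]
    · rw [EK_notMem ω (hy rfl), Set.indicator_of_mem (Set.mem_singleton y), one_mul]
      rfl
    · intro z hz
      rw [EK_notMem ω (hy rfl), Set.indicator_of_notMem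
        (fun h => hz (Set.mem_singleton_iff.1 h)), zero_mul]
  | succ m ih =>
    intro k n hn y _
    set G' : Path d → ℝ≥0∞ := {Y : Path d | exT (S n) Y ≠ ⊤}.indicator fun Y =>
      (∏ j ∈ Finset.Ico (k + 1 + 1) (n + 1), χ j (xT (S j) Y)) * g (xT (S n) Y) with hG'
    have mG' : Measurable G' := by
      refine Measurable.indicator ?_ (meas_exit _)
      exact (Finset.measurable_prod _ fun j _ =>
        (measurable_of_countable (χ j)).comp (meas_xT (S j))).mul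
          ((measurable_of_countable g).comp (meas_xT (S n)))
    have e1 : ∫⁻ X in {X | exT (S n) X ≠ ⊤},
          (∏ j ∈ Finset.Ico (k + 1) (n + 1), χ j (xT (S j) X)) * g (xT (S n) X)
            ∂quenchedLaw ω y =
        ∫⁻ X in {X | exT (S (k + 1)) X ≠ ⊤},
          χ (k + 1) (xT (S (k + 1)) X) * G' (sh (S (k + 1)) X) ∂quenchedLaw ω y := by
      rw [← lintegral_indicator (meas_exit _), ← lintegral_indicator (meas_exit _)]
      refine lintegral_congr fun X => ?_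
      have hs : S (k + 1) ⊆ S n := hS (by omega)
      by_cases hX : exT (S n) X ≠ ⊤
      · have h2 := exT_ne_top_of_sub hs hX
        have h3 := (exT_iff hs h2).1 hX
        rw [Set.indicator_of_mem (by exact hX), Set.indicator_of_mem (by exact h2), hG',
          Set.indicator_of_mem (by exact h3), ← xT_shift hs hX,
          Finset.prod_eq_prod_Ico_succ_bot (by omega : k + 1 < n + 1), mul_assoc]
        congr 2
        refine Finset.prod_congr rfl fun j hj => ?_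
        have hj' := Finset.mem_Ico.1 hj
        have hjn : S j ⊆ S n := hS (by omega)
        rw [← xT_shift (hS (by omega : k + 1 ≤ j)) (exT_ne_top_of_sub hjn hX)]
      · rw [Set.indicator_of_notMem (by exact hX)]
        by_cases h2 : exT (S (k + 1)) X ≠ ⊤
        · have h3 : ¬ exT (S n) (sh (S (k + 1)) X) ≠ ⊤ := fun h4 => hX ((exT_iff hs h2).2 h4)
          rw [Set.indicator_of_mem (by exact h2), hG', Set.indicator_of_notMem (by exact h3)]
          simp
        · rw [Set.indicator_of_notMem (by exact h2)]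
    rw [e1, exit_markov_fun ω (S (k + 1)) y (χ (k + 1)) mG']
    show ∑' z, EK ω (S (k + 1)) y z * (χ (k + 1) z * Gb S χ g ω m (k + 1) z) = _
    refine tsum_congr fun z => ?_
    by_cases hz : z ∈ S (k + 1)
    · rw [EK_of_mem hz, zero_mul, zero_mul]
    · rw [ih (k + 1) n (by omega) z (fun _ => hz), hG', lintegral_indicator (meas_exit _)]

/-- path form, all exits finite, `g = 1` -/
theorem gb_one (hS : Monotone S) {ω : Environment d} {n : ℕ}
    (H : ∀ y, quenchedLaw ω y {X | exT (S n) X = ⊤} = 0) {m k : ℕ} (hn : k + m = n)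
    (y : Site d) :
    Gb S χ (fun _ => 1) ω m k y = ∫⁻ X, ∏ j ∈ Finset.Ico (k + 1) (n + 1), χ j (xT (S j) X)
        ∂quenchedLaw ω y := by
  rcases Nat.eq_zero_or_pos m with h0 | h0
  · subst h0
    have hk : n = k := by omega
    subst hk
    simp [Gb]
  · rw [gb_path hS ω m k n hn y (fun h => absurd h (by omega))]
    have hr : (quenchedLaw ω y).restrict {X | exT (S n) X ≠ ⊤} = quenchedLaw ω y := by
      refine Measure.restrict_eq_self_of_ae_mem ?_
      have := H y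
      exact ae_iff.2 (by simpa using this)
    rw [hr]
    simp

/-- forward = backward -/
theorem wq_eq_Gb (hS : Monotone S) (n : ℕ) (ω : Environment d) {x : Site d} (hx : x ∉ S 0) :
    ∑' z, wq S χ x n ω z * g z = Gb S χ g ω n 0 x := by
  rw [gb_path hS ω n 0 n (by omega) x (fun _ => hx), ← wq_path' hS n ω x g]
  refine lintegral_congr fun X => ?_
  congr 1
  unfold WChain9.wt
  rw [Finset.prod_Ico_eq_prod_range]
  refine Finset.prod_congr (by simp) fun j _ => ?_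
  rw [Nat.zero_add, Nat.add_comm 1 j]

/-! ### strong Markov property, real functions -/

theorem markov_real (ω : Environment d) (A : Set (Site d)) (y : Site d)
    (H : quenchedLaw ω y {X | exT A X = ⊤} = 0) {h : Site d → ℝ} (h0 : ∀ z, 0 ≤ h z)
    {G : Path d → ℝ} (hG : Measurable G) (G0 : ∀ X, 0 ≤ G X) (G1 : ∀ X, G X ≤ 1) :
    ∫ X, h (xT A X) * G (sh A X) ∂quenchedLaw ω y =
      E1 (EK ω A y) fun z => h z * ∫ X, G X ∂quenchedLaw ω z := by
  have hr : (quenchedLaw ω y).restrict {X | exT A X ≠ ⊤} = quenchedLaw ω y := by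
    refine Measure.restrict_eq_self_of_ae_mem ?_
    exact ae_iff.2 (by simpa using H)
  have mh : Measurable fun X : Path d => h (xT A X) :=
    (measurable_of_countable h).comp (meas_xT A)
  have mG : Measurable fun X : Path d => G (sh A X) := hG.comp (meas_sh A)
  rw [integral_eq_lintegral_of_nonneg_ae (ae_of_all _ fun X => mul_nonneg (h0 _) (G0 _))
    (mh.mul mG).aestronglyMeasurable]
  have e1 : ∫⁻ X, ENNReal.ofReal (h (xT A X) * G (sh A X)) ∂quenchedLaw ω y =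
      ∑' z, EK ω A y z * (ENNReal.ofReal (h z) * ∫⁻ X, ENNReal.ofReal (G X)
        ∂quenchedLaw ω z) := by
    rw [← exit_markov_fun ω A y (fun z => ENNReal.ofReal (h z)) hG.ennreal_ofReal, hr]
    refine lintegral_congr fun X => ?_
    rw [ENNReal.ofReal_mul (h0 _)]
  have hG1 : ∀ z, ∫⁻ X, ENNReal.ofReal (G X) ∂quenchedLaw ω z ≤ 1 := fun z => by
    calc ∫⁻ X, ENNReal.ofReal (G X) ∂quenchedLaw ω z ≤ ∫⁻ _, 1 ∂quenchedLaw ω z :=
          lintegral_mono fun X => by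
            rw [← ENNReal.ofReal_one]; exact ENNReal.ofReal_le_ofReal (G1 X)
      _ = 1 := by simp
  rw [e1, ENNReal.tsum_toReal_eq]
  · unfold E1
    refine tsum_congr fun z => ?_
    beta_reduce
    rw [ENNReal.toReal_mul, ENNReal.toReal_mul, ENNReal.toReal_ofReal (h0 z),
      integral_eq_lintegral_of_nonneg_ae (ae_of_all _ G0) hG.aestronglyMeasurable]
  · intro z
    refine ENNReal.mul_ne_top (ne_top_of_le_ne_top ENNReal.one_ne_top (EK_le_one ω A y z)) ?_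
    exact ENNReal.mul_ne_top ENNReal.ofReal_ne_top
      (ne_top_of_le_ne_top ENNReal.one_ne_top (hG1 z))

/-! ### `cndR` and null sets -/

theorem cndR_ae {ν : Measure (Row d)} [IsProbabilityMeasure ν] (A : Set (Site d))
    {f g : Environment d → ℝ} (h : f =ᵐ[iidEnvironmentLaw ν] g) :
    ∀ᵐ ω ∂(iidEnvironmentLaw ν), cndR ν A f ω = cndR ν A g ω := by
  have h1 : ∀ᵐ p ∂((iidEnvironmentLaw ν).prod (iidEnvironmentLaw ν)),
      f (glue A p.1 p.2) = g (glue A p.1 p.2) := by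
    have h2 : ∀ᵐ ω ∂(((iidEnvironmentLaw ν).prod (iidEnvironmentLaw ν)).map
        (fun p : Environment d × Environment d => glue A p.1 p.2)), f ω = g ω := by
      rw [map_glue ν A]; exact h
    exact ae_of_ae_map (measurable_glue A).aemeasurable h2
  filter_upwards [Measure.ae_ae_of_ae_prod h1] with ω hω
  exact integral_congr_ae hω

/-- `cnd` of a.e. equal functions -/
theorem cnd_ae {ν : Measure (Row d)} [IsProbabilityMeasure ν] (A : Set (Site d))
    {f g : Environment d → ℝ≥0∞} (h : f =ᵐ[iidEnvironmentLaw ν] g) :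
    ∀ᵐ ω ∂(iidEnvironmentLaw ν), cnd ν A f ω = cnd ν A g ω := by
  have h1 : ∀ᵐ p ∂((iidEnvironmentLaw ν).prod (iidEnvironmentLaw ν)),
      f (glue A p.1 p.2) = g (glue A p.1 p.2) := by
    have h2 : ∀ᵐ ω ∂(((iidEnvironmentLaw ν).prod (iidEnvironmentLaw ν)).map
        (fun p : Environment d × Environment d => glue A p.1 p.2)), f ω = g ω := by
      rw [map_glue ν A]; exact h
    exact ae_of_ae_map (measurable_glue A).aemeasurable h2
  filter_upwards [Measure.ae_ae_of_ae_prod h1] with ω hω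
  exact lintegral_congr_ae hω

end general

/-! ### 36's `FE` -/

section two
variable {u : Step 2} {m : ℕ}

lemma Sb_mono {l l' : ℕ} (h : l ≤ l') : D2V36.Sb u l ⊆ D2V36.Sb u l' := by
  intro y hy
  have h1 : lev u y < (l : ℤ) := hy
  show lev u y < (l' : ℤ)
  have : (l : ℤ) ≤ l' := by exact_mod_cast h
  linarith

lemma Sb_monotone {ℓ : ℕ → ℕ} (hℓ : Monotone ℓ) : Monotone fun k => D2V36.Sb u (ℓ k) :=
  fun _ _ h => Sb_mono (hℓ h)

lemma xT_eq (l : ℕ) (X : Path 2) : D2V36.xT u l X = xT (D2V36.Sb u l) X := rfl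

lemma meas_PX (L : Fin m → ℕ) (χ : Fin m → Site 2 → ℝ) : Measurable (D2V36.PX u L χ) :=
  Finset.measurable_prod _ fun j _ =>
    (measurable_of_countable (χ j)).comp (meas_xT (D2V36.Sb u (L j)))

lemma PX_nonneg {L : Fin m → ℕ} {χ : Fin m → Site 2 → ℝ} (h : ∀ j z, 0 ≤ χ j z ∧ χ j z ≤ 1)
    (X : Path 2) : 0 ≤ D2V36.PX u L χ X := Finset.prod_nonneg fun j _ => (h j _).1

lemma PX_le_one {L : Fin m → ℕ} {χ : Fin m → Site 2 → ℝ} (h : ∀ j z, 0 ≤ χ j z ∧ χ j z ≤ 1)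
    (X : Path 2) : D2V36.PX u L χ X ≤ 1 :=
  Finset.prod_le_one (fun j _ => (h j _).1) fun j _ => (h j _).2

lemma lint_PX_le {L : Fin m → ℕ} {χ : Fin m → Site 2 → ℝ} (h : ∀ j z, 0 ≤ χ j z ∧ χ j z ≤ 1)
    (ω : Environment 2) (y : Site 2) :
    ∫⁻ X, ENNReal.ofReal (D2V36.PX u L χ X) ∂quenchedLaw ω y ≤ 1 := by
  calc _ ≤ ∫⁻ _ : Path 2, 1 ∂quenchedLaw ω y := lintegral_mono fun X => by
        rw [← ENNReal.ofReal_one]; exact ENNReal.ofReal_le_ofReal (PX_le_one h X)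
    _ = 1 := by simp

lemma FE_eq_lint {L : Fin m → ℕ} {χ : Fin m → Site 2 → ℝ}
    (h : ∀ j z, 0 ≤ χ j z ∧ χ j z ≤ 1) (ω : Environment 2) (y : Site 2) :
    D2V36.FE u L χ ω y =
      (∫⁻ X, ENNReal.ofReal (D2V36.PX u L χ X) ∂quenchedLaw ω y).toReal := by
  unfold D2V36.FE
  rw [integral_eq_lintegral_of_nonneg_ae (ae_of_all _ (PX_nonneg h))
    (meas_PX L χ).aestronglyMeasurable]

lemma ofReal_FE {L : Fin m → ℕ} {χ : Fin m → Site 2 → ℝ}
    (h : ∀ j z, 0 ≤ χ j z ∧ χ j z ≤ 1) (ω : Environment 2) (y : Site 2) :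
    ENNReal.ofReal (D2V36.FE u L χ ω y) =
      ∫⁻ X, ENNReal.ofReal (D2V36.PX u L χ X) ∂quenchedLaw ω y := by
  rw [FE_eq_lint h, ENNReal.ofReal_toReal
    (ne_top_of_le_ne_top ENNReal.one_ne_top (lint_PX_le h ω y))]

lemma FE_nonneg {L : Fin m → ℕ} {χ : Fin m → Site 2 → ℝ}
    (h : ∀ j z, 0 ≤ χ j z ∧ χ j z ≤ 1) (ω : Environment 2) (y : Site 2) :
    0 ≤ D2V36.FE u L χ ω y := by
  rw [FE_eq_lint h]; exact ENNReal.toReal_nonneg

lemma FE_le_one {L : Fin m → ℕ} {χ : Fin m → Site 2 → ℝ}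
    (h : ∀ j z, 0 ≤ χ j z ∧ χ j z ≤ 1) (ω : Environment 2) (y : Site 2) :
    D2V36.FE u L χ ω y ≤ 1 := by
  rw [FE_eq_lint h]
  calc _ ≤ (1 : ℝ≥0∞).toReal := ENNReal.toReal_mono ENNReal.one_ne_top (lint_PX_le h ω y)
    _ = 1 := by simp

lemma abs_FE_le {L : Fin m → ℕ} {χ : Fin m → Site 2 → ℝ}
    (h : ∀ j z, 0 ≤ χ j z ∧ χ j z ≤ 1) (ω : Environment 2) (y : Site 2) :
    |D2V36.FE u L χ ω y| ≤ 1 := by
  rw [abs_of_nonneg (FE_nonneg h ω y)]; exact FE_le_one h ω y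

lemma meas_FE {L : Fin m → ℕ} {χ : Fin m → Site 2 → ℝ}
    (h : ∀ j z, 0 ≤ χ j z ∧ χ j z ≤ 1) (y : Site 2) :
    Measurable fun ω : Environment 2 => D2V36.FE u L χ ω y := by
  simp_rw [FE_eq_lint h]
  exact ((Measure.measurable_lintegral (meas_PX L χ).ennreal_ofReal).comp
    (Q561.measurable_quenchedLaw y)).ennreal_toReal

lemma int_FE_le {ν : Measure (Row 2)} [IsProbabilityMeasure ν] {L : Fin m → ℕ}
    {χ : Fin m → Site 2 → ℝ} (h : ∀ j z, 0 ≤ χ j z ∧ χ j z ≤ 1) (y : Site 2) :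
    0 ≤ ∫ ω, D2V36.FE u L χ ω y ∂(iidEnvironmentLaw ν) ∧
      ∫ ω, D2V36.FE u L χ ω y ∂(iidEnvironmentLaw ν) ≤ 1 := by
  refine ⟨integral_nonneg fun ω => FE_nonneg h ω y, ?_⟩
  calc _ ≤ ∫ _, (1 : ℝ) ∂(iidEnvironmentLaw ν) :=
        integral_mono (intg (meas_FE h y) (abs_FE_le h · y)) (integrable_const _)
          fun ω => FE_le_one h ω y
    _ = 1 := by simp

/-- **one level at a time** -/
theorem FE_cons {L : Fin (m + 1) → ℕ} (hL : Monotone L) {χ : Fin (m + 1) → Site 2 → ℝ}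
    (h : ∀ j z, 0 ≤ χ j z ∧ χ j z ≤ 1) {ω : Environment 2}
    (H : ∀ (l : ℕ) (y : Site 2), quenchedLaw ω y {X | exT (D2V36.Sb u l) X = ⊤} = 0)
    (y : Site 2) :
    D2V36.FE u L χ ω y = E1 (EK ω (D2V36.Sb u (L 0)) y) fun z =>
      χ 0 z * D2V36.FE u (fun j => L j.succ) (fun j => χ j.succ) ω z := by
  have h' : ∀ (j : Fin m) z, 0 ≤ χ j.succ z ∧ χ j.succ z ≤ 1 := fun j z => h j.succ z
  have h1 := markov_real ω (D2V36.Sb u (L 0)) y (H _ y) (h := χ 0) (fun z => (h 0 z).1)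
    (meas_PX (u := u) (fun j : Fin m => L j.succ) fun j => χ j.succ) (PX_nonneg h')
    (PX_le_one h')
  refine Eq.trans ?_ h1
  unfold D2V36.FE
  have hae : ∀ᵐ X ∂quenchedLaw ω y, ∀ j, exT (D2V36.Sb u (L j)) X ≠ ⊤ := by
    rw [ae_all_iff]
    intro j
    exact ae_iff.2 (by simpa using H (L j) y)
  refine integral_congr_ae ?_
  filter_upwards [hae] with X hX
  show D2V36.PX u L χ X = _
  unfold D2V36.PX
  rw [Fin.prod_univ_succ]
  congr 1
  refine Finset.prod_congr rfl fun j _ => ?_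
  rw [xT_eq, xT_eq, ← xT_shift (Sb_mono (hL (Fin.zero_le _))) (hX j.succ)]

/-- **refined grid**: marks `j` sit at the grid index `σ j`, `a ≤ σ j < b` -/
theorem PX_grid {L : Fin m → ℕ} {χ : Fin m → Site 2 → ℝ} {ℓ : ℕ → ℕ} {σ : Fin m → ℕ}
    (hσ : ∀ j, ℓ (σ j) = L j) {a b : ℕ} (hr : ∀ j, a ≤ σ j ∧ σ j < b) (X : Path 2) :
    D2V36.PX u L χ X = ∏ k ∈ Finset.Ico a b,
      (∏ j ∈ Finset.univ.filter (fun j => σ j = k), χ j (xT (D2V36.Sb u (ℓ k)) X)) := by
  unfold D2V36.PX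
  rw [← Finset.prod_fiberwise_of_maps_to (s := Finset.univ) (t := Finset.Ico a b) (g := σ)
    (fun j _ => Finset.mem_Ico.2 (hr j))]
  refine Finset.prod_congr rfl fun k _ => Finset.prod_congr rfl fun j hj => ?_
  have hj' := (Finset.mem_filter.1 hj).2
  rw [xT_eq, ← hj', hσ j]

/-- weights of the grid -/
noncomputable def wG (χ : Fin m → Site 2 → ℝ) (σ : Fin m → ℕ) (k : ℕ) (z : Site 2) : ℝ :=
  ∏ j ∈ Finset.univ.filter (fun j => σ j = k), χ j z

lemma wG_mem {χ : Fin m → Site 2 → ℝ} (h : ∀ j z, 0 ≤ χ j z ∧ χ j z ≤ 1) (σ : Fin m → ℕ)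
    (k : ℕ) (z : Site 2) : 0 ≤ wG χ σ k z ∧ wG χ σ k z ≤ 1 :=
  ⟨Finset.prod_nonneg fun j _ => (h j z).1,
    Finset.prod_le_one (fun j _ => (h j z).1) fun j _ => (h j z).2⟩

lemma wG_eq_one (χ : Fin m → Site 2 → ℝ) {σ : Fin m → ℕ} {k : ℕ} (hk : ∀ j, σ j ≠ k)
    (z : Site 2) : wG χ σ k z = 1 := by
  unfold wG
  rw [Finset.filter_false_of_mem (fun j _ => hk j), Finset.prod_empty]

/-- ENNReal weights of the grid -/
noncomputable def wE (χ : Fin m → Site 2 → ℝ) (σ : Fin m → ℕ) (k : ℕ) (z : Site 2) : ℝ≥0∞ :=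
  ENNReal.ofReal (wG χ σ k z)

lemma wE_le_one {χ : Fin m → Site 2 → ℝ} (h : ∀ j z, 0 ≤ χ j z ∧ χ j z ≤ 1) (σ : Fin m → ℕ)
    (k : ℕ) (z : Site 2) : wE χ σ k z ≤ 1 := by
  unfold wE
  rw [← ENNReal.ofReal_one]
  exact ENNReal.ofReal_le_ofReal (wG_mem h σ k z).2

/-- **`FE` is the backward recursion on any refined grid** -/
theorem FE_grid {L : Fin m → ℕ} {χ : Fin m → Site 2 → ℝ}
    (h : ∀ j z, 0 ≤ χ j z ∧ χ j z ≤ 1) {ω : Environment 2}
    (H : ∀ (l : ℕ) (y : Site 2), quenchedLaw ω y {X | exT (D2V36.Sb u l) X = ⊤} = 0)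
    {ℓ : ℕ → ℕ} (hℓ : Monotone ℓ) {σ : Fin m → ℕ} (hσ : ∀ j, ℓ (σ j) = L j) {k p n : ℕ}
    (hn : k + p = n) (hr : ∀ j, k < σ j ∧ σ j ≤ n) (y : Site 2) :
    D2V36.FE u L χ ω y =
      (Gb (fun k => D2V36.Sb u (ℓ k)) (wE χ σ) (fun _ => 1) ω p k y).toReal := by
  rw [FE_eq_lint h, gb_one (Sb_monotone hℓ) (fun y => H (ℓ n) y) hn y]
  congr 1
  refine lintegral_congr fun X => ?_
  rw [PX_grid (χ := χ) hσ (a := k + 1) (b := n + 1) (fun j => by have := hr j; omega) X,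
    ENNReal.ofReal_prod_of_nonneg]
  · rfl
  · intro k' _
    exact (wG_mem h σ k' _).1

/-- in ENNReal -/
theorem ofReal_FE_grid {L : Fin m → ℕ} {χ : Fin m → Site 2 → ℝ}
    (h : ∀ j z, 0 ≤ χ j z ∧ χ j z ≤ 1) {ω : Environment 2}
    (H : ∀ (l : ℕ) (y : Site 2), quenchedLaw ω y {X | exT (D2V36.Sb u l) X = ⊤} = 0)
    {ℓ : ℕ → ℕ} (hℓ : Monotone ℓ) {σ : Fin m → ℕ} (hσ : ∀ j, ℓ (σ j) = L j) {k p n : ℕ}
    (hn : k + p = n) (hr : ∀ j, k < σ j ∧ σ j ≤ n) (y : Site 2) :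
    ENNReal.ofReal (D2V36.FE u L χ ω y) =
      Gb (fun k => D2V36.Sb u (ℓ k)) (wE χ σ) (fun _ => 1) ω p k y := by
  rw [FE_grid h H hℓ hσ hn hr y, ENNReal.ofReal_toReal]
  exact ne_top_of_le_ne_top ENNReal.one_ne_top
    (Gb_le_one (wE_le_one h σ) (fun _ => le_rfl) ω p k y)

/-- marks up to the index `k` removed (36's `ResidP` form: same number of marks, levels moved up,
weight one) -/
noncomputable def cutL (L : Fin m → ℕ) (l : ℕ) : Fin m → ℕ := fun j => max (L j) l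

noncomputable def cutχ (χ : Fin m → Site 2 → ℝ) (σ : Fin m → ℕ) (k : ℕ) :
    Fin m → Site 2 → ℝ := fun j z => if k < σ j then χ j z else 1

lemma cutL_mono {L : Fin m → ℕ} (hL : Monotone L) (l : ℕ) : Monotone (cutL L l) :=
  fun _ _ h => max_le_max (hL h) le_rfl

lemma le_cutL (L : Fin m → ℕ) (l : ℕ) (j : Fin m) : l ≤ cutL L l j := le_max_right _ _

lemma cutχ_mem {χ : Fin m → Site 2 → ℝ} (h : ∀ j z, 0 ≤ χ j z ∧ χ j z ≤ 1) (σ : Fin m → ℕ)
    (k : ℕ) (j : Fin m) (z : Site 2) : 0 ≤ cutχ χ σ k j z ∧ cutχ χ σ k j z ≤ 1 := by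
  unfold cutχ
  split_ifs
  · exact h j z
  · exact ⟨zero_le_one, le_rfl⟩

/-- **the future functional at the grid index `k` is an `FE`** with all levels `≥ ℓ k` -/
theorem FE_cut {L : Fin m → ℕ} {χ : Fin m → Site 2 → ℝ}
    (h : ∀ j z, 0 ≤ χ j z ∧ χ j z ≤ 1) {ω : Environment 2}
    (H : ∀ (l : ℕ) (y : Site 2), quenchedLaw ω y {X | exT (D2V36.Sb u l) X = ⊤} = 0)
    {ℓ : ℕ → ℕ} (hℓ : Monotone ℓ) {σ : Fin m → ℕ} (hσ : ∀ j, ℓ (σ j) = L j) {k p n : ℕ}
    (hn : k + p = n) (hr : ∀ j, σ j ≤ n) (y : Site 2) :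
    D2V36.FE u (cutL L (ℓ k)) (cutχ χ σ k) ω y =
      (Gb (fun k => D2V36.Sb u (ℓ k)) (wE χ σ) (fun _ => 1) ω p k y).toReal := by
  rw [FE_eq_lint (cutχ_mem h σ k), gb_one (Sb_monotone hℓ) (fun y => H (ℓ n) y) hn y]
  congr 1
  refine lintegral_congr fun X => ?_
  have e1 : D2V36.PX u (cutL L (ℓ k)) (cutχ χ σ k) X =
      ∏ j ∈ Finset.univ.filter (fun j => k < σ j), χ j (D2V36.xT u (L j) X) := by
    unfold D2V36.PX
    rw [Finset.prod_filter]
    refine Finset.prod_congr rfl fun j _ => ?_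
    unfold cutχ
    by_cases hj : k < σ j
    · rw [if_pos hj, if_pos hj]
      have : cutL L (ℓ k) j = L j := by
        unfold cutL
        rw [← hσ j]
        exact max_eq_left (hℓ hj.le)
      rw [this]
    · rw [if_neg hj, if_neg hj]
  have e2 : ∏ j ∈ Finset.univ.filter (fun j => k < σ j), χ j (D2V36.xT u (L j) X) =
      ∏ k' ∈ Finset.Ico (k + 1) (n + 1), wG χ σ k' (xT (D2V36.Sb u (ℓ k')) X) := by
    rw [← Finset.prod_fiberwise_of_maps_to (s := Finset.univ.filter (fun j => k < σ j))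
      (t := Finset.Ico (k + 1) (n + 1)) (g := σ) (fun j hj => Finset.mem_Ico.2 (by
        have := (Finset.mem_filter.1 hj).2
        have := hr j
        omega))]
    refine Finset.prod_congr rfl fun k' hk' => ?_
    unfold wG
    rw [Finset.filter_filter]
    refine Finset.prod_congr ?_ fun j hj => ?_
    · ext j
      simp only [Finset.mem_filter, Finset.mem_univ, true_and]
      have := Finset.mem_Ico.1 hk'
      constructor
      · exact fun h => h.2
      · intro h; exact ⟨by omega, h⟩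
    · have hj' := (Finset.mem_filter.1 hj).2
      rw [xT_eq, ← hj', hσ j]
  rw [e1, e2, ENNReal.ofReal_prod_of_nonneg]
  · rfl
  · intro k' _
    exact (wG_mem h σ k' _).1

/-! ### the residual term -/

/-- absolute difference in `ℝ≥0∞` (766) -/
noncomputable def AD (a b : ℝ≥0∞) : ℝ≥0∞ := (a - b) + (b - a)

lemma AD_eq {a b : ℝ≥0∞} (ha : a ≤ 1) (hb : b ≤ 1) :
    AD a b = ENNReal.ofReal |a.toReal - b.toReal| := by
  have ha' : a ≠ ⊤ := ne_top_of_le_ne_top ENNReal.one_ne_top ha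
  have hb' : b ≠ ⊤ := ne_top_of_le_ne_top ENNReal.one_ne_top hb
  unfold AD
  rcases le_total a b with h | h
  · rw [tsub_eq_zero_of_le h, zero_add, abs_sub_comm,
      abs_of_nonneg (sub_nonneg.2 (ENNReal.toReal_mono hb' h)),
      ENNReal.ofReal_sub _ ENNReal.toReal_nonneg, ENNReal.ofReal_toReal ha',
      ENNReal.ofReal_toReal hb']
  · rw [tsub_eq_zero_of_le h, add_zero,
      abs_of_nonneg (sub_nonneg.2 (ENNReal.toReal_mono ha' h)),
      ENNReal.ofReal_sub _ ENNReal.toReal_nonneg, ENNReal.ofReal_toReal ha',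
      ENNReal.ofReal_toReal hb']

/-- a weighted ENNReal sum as `E1` -/
lemma tsum_ofReal_E1 {ι : Type*} [Countable ι] {p : ι → ℝ≥0∞} (hp : ∑' y, p y ≤ 1) {f : ι → ℝ}
    (f0 : ∀ y, 0 ≤ f y) {C : ℝ} (hC : ∀ y, |f y| ≤ C) :
    ∑' y, p y * ENNReal.ofReal (f y) = ENNReal.ofReal (E1 p f) := by
  have hpt : ∀ y, p y ≠ ⊤ := fun y =>
    ne_top_of_le_ne_top ENNReal.one_ne_top ((ENNReal.le_tsum y).trans hp)
  unfold E1
  rw [ENNReal.ofReal_tsum_of_nonneg (fun y => mul_nonneg ENNReal.toReal_nonneg (f0 y))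
    (summable_E1 hp hC)]
  refine tsum_congr fun y => ?_
  rw [ENNReal.ofReal_mul ENNReal.toReal_nonneg, ENNReal.ofReal_toReal (hpt y)]

/-- **766's `e1` is 36's residual integral** -/
theorem e1_eq {ν : Measure (Row 2)} [IsProbabilityMeasure ν] {L : Fin m → ℕ}
    {χ : Fin m → Site 2 → ℝ} (h : ∀ j z, 0 ≤ χ j z ∧ χ j z ≤ 1)
    (HP : D2V36.HitP u ν) {ℓ : ℕ → ℕ} (hℓ : Monotone ℓ) {σ : Fin m → ℕ}
    (hσ : ∀ j, ℓ (σ j) = L j) {k p n : ℕ} (hn : k + p = n) (hr : ∀ j, σ j ≤ n) (x : Site 2)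
    {V : Site 2 → ℝ} (V0 : ∀ y, 0 ≤ V y) (V1 : ∀ y, V y ≤ 1) :
    ∫⁻ ω, ∑' y, EK ω (D2V36.Sb u (ℓ k)) x y *
      AD (cnd ν (D2V36.Sb u (ℓ k)) (fun ω => Gb (fun k => D2V36.Sb u (ℓ k)) (wE χ σ)
        (fun _ => 1) ω p k y) ω) (ENNReal.ofReal (V y)) ∂(iidEnvironmentLaw ν) =
    ENNReal.ofReal (∫ ω, E1 (EK ω (D2V36.Sb u (ℓ k)) x) (fun y =>
      |cndR ν (D2V36.Sb u (ℓ k)) (fun ω => D2V36.FE u (cutL L (ℓ k)) (cutχ χ σ k) ω y) ω -
        V y|) ∂(iidEnvironmentLaw ν)) := by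
  set S := D2V36.Sb u (ℓ k) with hS
  set f : Site 2 → Environment 2 → ℝ := fun y ω =>
    D2V36.FE u (cutL L (ℓ k)) (cutχ χ σ k) ω y with hf
  set G : Site 2 → Environment 2 → ℝ≥0∞ := fun y ω =>
    Gb (fun k => D2V36.Sb u (ℓ k)) (wE χ σ) (fun _ => 1) ω p k y with hG
  have mf : ∀ y, Measurable (f y) := fun y => meas_FE (cutχ_mem h σ k) y
  have mG : ∀ y, Measurable (G y) := fun y => meas_Gb p k y
  have G1 : ∀ y ω, G y ω ≤ 1 := fun y ω =>
    Gb_le_one (wE_le_one h σ) (fun _ => le_rfl) ω p k y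
  have hfG : ∀ y, f y =ᵐ[iidEnvironmentLaw ν] fun ω => (G y ω).toReal := by
    intro y
    filter_upwards [HP] with ω H
    exact FE_cut h H hℓ hσ hn hr y
  have hc : ∀ᵐ ω ∂(iidEnvironmentLaw ν), ∀ y,
      cndR ν S (f y) ω = (cnd ν S (G y) ω).toReal := by
    rw [ae_all_iff]
    intro y
    filter_upwards [cndR_ae S (hfG y)] with ω hω
    rw [hω, cndR_toReal S (mG y) (G1 y)]
  have f1 : ∀ y ω, |f y ω| ≤ 1 := fun y ω => abs_FE_le (cutχ_mem h σ k) ω y
  have hb : ∀ ω y, |(|cndR ν S (f y) ω - V y|)| ≤ 2 := by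
    intro ω y
    rw [abs_abs]
    have h1 := abs_cndR_le (ν := ν) S (f1 y) ω
    have h2 : |V y| ≤ 1 := by rw [abs_of_nonneg (V0 y)]; exact V1 y
    have h3 := abs_sub (cndR ν S (f y) ω) (V y)
    linarith
  have mcnd : ∀ y, Measurable fun ω => |cndR ν S (f y) ω - V y| := fun y =>
    ((meas_cndR S (mf y)).sub_const _).abs
  rw [ofReal_integral_eq_lintegral_ofReal]
  · refine lintegral_congr_ae ?_
    filter_upwards [hc] with ω hω
    rw [← tsum_ofReal_E1 (tsum_EK_le ω S x) (fun y => abs_nonneg _) (hb ω)]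
    refine tsum_congr fun y => ?_
    rw [AD_eq, ENNReal.toReal_ofReal (V0 y), hω y]
    · exact cnd_le_one S (G1 y) ω
    · rw [← ENNReal.ofReal_one]; exact ENNReal.ofReal_le_ofReal (V1 y)
  · refine intg (meas_E1 (fun y => meas_EK S x y) mcnd) (C := 2) fun ω => ?_
    exact abs_E1_le (tsum_EK_le ω S x) (by norm_num) (hb ω)
  · exact ae_of_all _ fun ω => E1_nonneg fun y => abs_nonneg _

end two

end Crest.Agent.R154.FEk9
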