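import Crest.Agent.R154.D2V_36
import Crest.Agent.R154.B2d_419

/-!
Row 154, d = 2 (helper569): `D2V36.HitP` (every level is reached from every site) from the annealed
escape, and `EK_lev` (the first visit of the levels `≥ l` is on the level `l`).
-/

set_option autoImplicit false

namespace Crest.Agent.R154.Hit2569

open MeasureTheory ProbabilityTheory Filter Crest.ProbabilityR.RandomEnvironment Crest.Agent.R154
open Crest.Agent.R154.Flux132 (lev)
open Crest.Agent.R154.ExK9 Crest.Agent.R154.D2V36
open scoped ENNReal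

variable {d : ℕ}

lemma tr_escape (ℓ : Fin d → ℝ) (z : Site d) :
    Q561.tr z ⁻¹' escapeEvent ℓ = escapeEvent ℓ := by
  ext X
  simp only [escapeEvent, Q561.tr, Set.mem_preimage, Set.mem_ofPred_eq]
  have e : ∀ n, ∑ i, (((X n + z) i : ℤ) : ℝ) * ℓ i
      = (∑ i, (z i : ℝ) * ℓ i) + ∑ i, (X n i : ℝ) * ℓ i := fun n => by
    rw [← Finset.sum_add_distrib]
    refine Finset.sum_congr rfl fun i _ => ?_
    rw [Pi.add_apply]; push_cast; ring
  simp only [e]
  exact ⟨fun h => by
      have := tendsto_atTop_add_const_left atTop (-(∑ i, (z i : ℝ) * ℓ i)) h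
      refine this.congr fun n => by ring,
    fun h => tendsto_atTop_add_const_left atTop _ h⟩

/-- **escape from every site, quenched** -/
theorem ae_escape {Q : Measure (Environment d)} [IsProbabilityMeasure Q]
    (hstat : ∀ z : Site d, MeasurePreserving (shiftEnv z) Q Q) {ℓ : Fin d → ℝ}
    (hA : annealed Q 0 (escapeEvent ℓ) = 1) :
    ∀ᵐ ω ∂Q, ∀ y : Site d, quenchedLaw ω y (escapeEvent ℓ)ᶜ = 0 := by
  rw [ae_all_iff]
  intro y
  have hm := (B2d.measurableSet_escapeEvent ℓ).compl
  have h1 : annealedProb Q y (escapeEvent ℓ)ᶜ = 0 := by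
    rw [Q561.annealed_eq_zero_shift hstat y hm, Set.preimage_compl, tr_escape,
      ← annealed_apply Q 0 hm]
    exact (prob_compl_eq_zero_iff (B2d.measurableSet_escapeEvent ℓ)).2 hA
  unfold annealedProb at h1
  rwa [lintegral_eq_zero_iff (measurable_quenched_apply y hm)] at h1

lemma lev_of_escape (u : Step d) {X : Path d} (h : X ∈ escapeEvent (B2d.dirVec u)) (l : ℤ) :
    ∃ n, l ≤ lev u (X n) := by
  have h1 : Tendsto (fun n => ∑ i, (X n i : ℝ) * B2d.dirVec u i) atTop atTop := h
  obtain ⟨n, hn⟩ := (h1.eventually_ge_atTop (l : ℝ)).exists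
  refine ⟨n, ?_⟩
  have e : ∑ i, (X n i : ℝ) * B2d.dirVec u i = (lev u (X n) : ℝ) := by
    unfold lev
    simp only [B2d.dirVec_apply]
    rw [Finset.sum_eq_single u.1]
    · by_cases hu : u.2 = true
      · simp [hu]
      · simp [hu]
    · intro i _ hi
      simp [hi]
    · simp
  rw [e] at hn
  exact_mod_cast hn

/-- **every level is reached from every site**, any dimension, any stationary law -/
theorem hit_all {Q : Measure (Environment d)} [IsProbabilityMeasure Q]
    (hstat : ∀ z : Site d, MeasurePreserving (shiftEnv z) Q Q) {u : Step d}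
    (hA : annealed Q 0 (escapeEvent (B2d.dirVec u)) = 1) :
    ∀ᵐ ω ∂Q, ∀ (l : ℤ) (y : Site d), quenchedLaw ω y {X | ∀ i, lev u (X i) < l} = 0 := by
  filter_upwards [ae_escape hstat hA] with ω hω l y
  refine measure_mono_null ?_ (hω y)
  intro X hX hesc
  obtain ⟨n, hn⟩ := lev_of_escape u hesc l
  exact absurd (hX n) (not_lt.2 hn)

/-- **HitP** of `D2V_36` -/
theorem hitP (ν : Measure (Row 2)) [IsProbabilityMeasure ν] (u : Step 2)
    (hA : annealed (iidEnvironmentLaw ν) 0 (escapeEvent (B2d.dirVec u)) = 1) :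
    D2V36.HitP u ν := by
  unfold D2V36.HitP
  filter_upwards [hit_all (fun z => Q561.iid_shift ν z) hA] with ω hω l y
  refine measure_mono_null ?_ (hω l y)
  intro X hX i
  have hX' : exT (Sb u l) X = ⊤ := hX
  unfold exT at hX'
  rw [firstTime_eq_top_iff] at hX'
  have := hX' i
  rw [not_not] at this
  exact this

lemma abs_lev_stepVec (u e : Step d) : |lev u (stepVec e)| ≤ 1 := by
  have h0 : |lev u (stepVec e)| = |stepVec e u.1| := by
    unfold lev
    split_ifs
    · rfl
    · rw [abs_neg]
  rw [h0]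
  unfold stepVec
  by_cases h : u.1 = e.1
  · rw [h, Pi.single_eq_same]
    split_ifs <;> simp
  · rw [Pi.single_eq_of_ne h]; simp

lemma lev_add' (u : Step d) (x y : Site d) : lev u (x + y) = lev u x + lev u y := by
  unfold lev
  split_ifs
  · rfl
  · rw [Pi.add_apply]; ring

/-- the first visit of `{lev ≥ l}` is on the level `l` -/
theorem EK_lev (ω : Environment d) (u : Step d) {l : ℤ} {x y : Site d} (hx : lev u x ≤ l)
    (hy : lev u y ≠ l) : EK ω {z | lev u z < l} x y = 0 := by
  unfold EK
  have h : ∀ᵐ X ∂quenchedLaw ω x, X ∉ ExS {z | lev u z < l} y := by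
    filter_upwards [quenched_zero_eq ω x, quenched_nn ω x] with X h0 hnn hX
    obtain ⟨hyA, n, hn, hi⟩ := hX
    have hyl : l ≤ lev u y := not_lt.1 hyA
    rcases Nat.eq_zero_or_pos n with rfl | hpos
    · rw [h0] at hn
      rw [hn] at hx
      exact hy (le_antisymm hx hyl)
    · have h1 : lev u (X (n - 1)) < l := hi (n - 1) (by omega)
      obtain ⟨e, he⟩ := hnn (n - 1)
      have h2 : n - 1 + 1 = n := by omega
      rw [h2, hn] at he
      have h3 := (abs_le.1 (abs_lev_stepVec u e)).2
      have h4 : lev u y ≤ l := by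
        rw [he, lev_add']; omega
      exact hy (le_antisymm h4 hyl)
  exact measure_eq_zero_iff_ae_notMem.2 h

/-- the same on `Sb` of `D2V_36` -/
theorem EK_Sb (ω : Environment 2) (u : Step 2) {l : ℕ} {x y : Site 2} (hx : lev u x ≤ l)
    (hy : lev u y ≠ l) : EK ω (Sb u l) x y = 0 := EK_lev ω u hx hy

end Crest.Agent.R154.Hit2569
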