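import Crest.Agent.R154.PhiD_215
import Crest.Agent.R154.FEk_9
import Crest.Agent.R154.Hit2_569
import Crest.Agent.R154.Kal_132

/-!
# Row 154, helper215: (V1) of D2/VARG, part E — `D2V36.ResidP`

* `Loc.cond` : the conditional expectation on the rows below `l` is close to a deterministic
  function at the first hit of level `l`;
* `residP` : `D2V36.ResidP` from the annealed escape in the direction `u`.
-/

set_option autoImplicit false
set_option linter.unusedVariables false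
set_option linter.unusedSectionVars false

namespace Crest.Agent.R154.Phi215

open MeasureTheory ProbabilityTheory Crest.ProbabilityR.RandomEnvironment Crest.Agent.R154
open Crest.Agent.R154.ExK9 Crest.Agent.R154.Resamp9
open Crest.Agent.R154.FEk9 (AD)
open scoped ENNReal

variable {d : ℕ}

section cond
variable {ℓ : Site d →+ ℤ} {ν : Measure (Row d)} [IsProbabilityMeasure ν]

/-- indicator of a local measurable set times the exit kernel -/
lemma loc_ind {S : Set (Environment d)} {A : Set (Site d)} (hS : MeasurableSet S)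
    (hl : ∀ ω ω' : Environment d, (∀ z ∈ A, ω z = ω' z) → (ω ∈ S ↔ ω' ∈ S)) (x y : Site d) :
    Q561.LocOn A (S.indicator fun ω : Environment d => EK ω A x y) ∧
      Measurable (S.indicator fun ω : Environment d => EK ω A x y) := by
  refine ⟨fun ω ω' h => ?_, (meas_EK A x y).indicator hS⟩
  have h1 := locOn_EK A x y ω ω' h
  by_cases hω : ω ∈ S
  · rw [Set.indicator_of_mem hω, Set.indicator_of_mem ((hl ω ω' h).1 hω)]
    exact h1
  · rw [Set.indicator_of_notMem hω, Set.indicator_of_notMem fun h' => hω ((hl ω ω' h).2 h')]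

/-- **conditional expectation against the deterministic centring** -/
theorem Loc.cond (hℓ : ∀ e : Step d, |ℓ (stepVec e)| ≤ 1)
    (hR : annealedProb (iidEnvironmentLaw ν) 0 (Reach ℓ) = 1) (hp : pN ℓ ν ≠ 0)
    {t : ℕ} {β : ℝ≥0∞} (hAP : AP ℓ ν t β) {l : ℤ} (hl : 0 ≤ l) {F : Path d → ℝ≥0∞}
    {err : ℕ → Path d → ℝ≥0∞} (h : Loc ℓ l t F err) {η : ℝ≥0∞}
    (hE1 : ∀ i ≤ t, ∀ y, ℓ y = l → An ν y (err i) ≤ η)
    (hE2 : ∀ i ≤ t, ∑' y, ∫⁻ ω, EK ω (Bl ℓ l) 0 y * ∫⁻ X, err i X ∂quenchedLaw ω y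
      ∂(iidEnvironmentLaw ν) ≤ η) :
    ∫⁻ ω, ∑' y, EK ω (Bl ℓ l) 0 y *
      AD (cnd ν (Bl ℓ l) (fun ω => ∫⁻ X, F X ∂quenchedLaw ω y) ω) (An ν y F)
        ∂(iidEnvironmentLaw ν) ≤ 4 * ((t + 1) * η + β) := by
  set Q := iidEnvironmentLaw ν
  set D := 2 * (((t : ℝ≥0∞) + 1) * η + β) with hD
  set φ : Site d → Environment d → ℝ≥0∞ := fun y ω =>
    cnd ν (Bl ℓ l) (fun ω => ∫⁻ X, F X ∂quenchedLaw ω y) ω with hφ
  have mφ : ∀ y, Measurable (φ y) := fun y => meas_cnd _ (meas_qlint h.mF y)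
  have lφ : ∀ y, Q561.LocOn (Bl ℓ l) (φ y) := fun y => locOn_cnd _ _
  have F1 : ∀ y ω, ∫⁻ X, F X ∂quenchedLaw ω y ≤ 1 := fun y ω =>
    (lintegral_mono h.le1).trans (by simp)
  have v1 : ∀ y, An ν y F ≤ 1 := fun y => An_le_one ν h.le1
  have v1' : ∀ y, An ν y F ≠ ⊤ := fun y => ne_top_of_le_ne_top ENNReal.one_ne_top (v1 y)
  -- general step
  have key : ∀ S : Site d → Set (Environment d), (∀ y, MeasurableSet (S y)) →
      (∀ y (ω ω' : Environment d), (∀ z ∈ Bl ℓ l, ω z = ω' z) → (ω ∈ S y ↔ ω' ∈ S y)) →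
      let a : Site d → Environment d → ℝ≥0∞ := fun y => (S y).indicator fun ω => EK ω (Bl ℓ l) 0 y
      (∑' y, ∫⁻ ω, a y ω * φ y ω ∂Q ≤ ∑' y, ∫⁻ ω, a y ω * An ν y F ∂Q + D) ∧
      (∑' y, ∫⁻ ω, a y ω * An ν y F ∂Q ≤ ∑' y, ∫⁻ ω, a y ω * φ y ω ∂Q + D) ∧
      (∑' y, ∫⁻ ω, a y ω * An ν y F ∂Q ≤ 1) ∧ (∑' y, ∫⁻ ω, a y ω * φ y ω ∂Q ≤ 1) := by
    intro S hS hSl a
    have h1 := fun y => loc_ind (A := Bl ℓ l) (hS y) (hSl y) 0 y
    have ha : ∀ y, Measurable[coordSigmaAlgebra (Bl ℓ l)] (a y) := fun y =>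
      Q561.measurable_coord (h1 y).2 (h1 y).1
    have hae : ∀ y ω, a y ω ≤ EK ω (Bl ℓ l) 0 y := fun y ω => Set.indicator_le_self' (by simp) _
    have e1 : ∀ y, ∫⁻ ω, a y ω * φ y ω ∂Q = ∫⁻ ω, a y ω * ∫⁻ X, F X ∂quenchedLaw ω y ∂Q :=
      fun y => lint_cnd (h1 y).1 (h1 y).2 (meas_qlint h.mF y)
    have e2 : ∀ y, ∫⁻ ω, a y ω * An ν y F ∂Q = (∫⁻ ω, a y ω ∂Q) * An ν y F :=
      fun y => lintegral_mul_const _ (h1 y).2
    have hA1 : ∑' y, ∫⁻ ω, a y ω ∂Q ≤ 1 :=
      (ENNReal.tsum_le_tsum fun y => lintegral_mono fun ω => hae y ω).trans (tsum_EK_int l)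
    simp only [e1, e2]
    refine ⟨h.core hℓ hR hp hAP hl hE1 hE2 ha hae, h.core' hℓ hR hp hAP hl hE1 hE2 ha hae, ?_, ?_⟩
    · refine (ENNReal.tsum_le_tsum fun y => ?_).trans hA1
      exact (mul_le_mul' le_rfl (v1 y)).trans (by rw [mul_one])
    · refine (ENNReal.tsum_le_tsum fun y => lintegral_mono fun ω => ?_).trans hA1
      exact (mul_le_mul' le_rfl (F1 y ω)).trans (by rw [mul_one])
  -- upper half
  have hup : ∑' y, ∫⁻ ω, EK ω (Bl ℓ l) 0 y * (φ y ω - An ν y F) ∂Q ≤ D := by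
    obtain ⟨k1, -, k3, -⟩ := key (fun y => {ω | An ν y F < φ y ω})
      (fun y => measurableSet_lt measurable_const (mφ y))
      (fun y ω ω' hω => by
        have : φ y ω = φ y ω' := lφ y ω ω' hω
        simp only [Set.mem_ofPred_eq, this])
    refine (ENNReal.add_le_add_iff_left (ne_top_of_le_ne_top ENNReal.one_ne_top k3)).1 ?_
    refine le_trans (le_of_eq ?_) k1
    rw [← ENNReal.tsum_add]
    refine tsum_congr fun y => ?_
    have hm : Measurable fun ω : Environment d =>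
        ({ω | An ν y F < φ y ω}.indicator (fun ω => EK ω (Bl ℓ l) 0 y)) ω * An ν y F :=
      (((meas_EK _ 0 y).indicator (measurableSet_lt measurable_const (mφ y))).mul_const _)
    rw [← lintegral_add_left hm]
    refine lintegral_congr fun ω => ?_
    show _ = ({ω | An ν y F < φ y ω}.indicator (fun ω => EK ω (Bl ℓ l) 0 y)) ω * φ y ω
    by_cases hω : An ν y F < φ y ω
    · have h2 : ω ∈ {ω : Environment d | An ν y F < φ y ω} := hω
      rw [Set.indicator_of_mem h2, ← mul_add, add_tsub_cancel_of_le hω.le]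
    · have h2 : ω ∉ {ω : Environment d | An ν y F < φ y ω} := hω
      rw [Set.indicator_of_notMem h2, tsub_eq_zero_of_le (not_lt.1 hω)]
      simp
  have hdn : ∑' y, ∫⁻ ω, EK ω (Bl ℓ l) 0 y * (An ν y F - φ y ω) ∂Q ≤ D := by
    obtain ⟨-, k2, -, k4⟩ := key (fun y => {ω | φ y ω < An ν y F})
      (fun y => measurableSet_lt (mφ y) measurable_const)
      (fun y ω ω' hω => by
        have : φ y ω = φ y ω' := lφ y ω ω' hω
        simp only [Set.mem_ofPred_eq, this])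
    refine (ENNReal.add_le_add_iff_left (ne_top_of_le_ne_top ENNReal.one_ne_top k4)).1 ?_
    refine le_trans (le_of_eq ?_) k2
    rw [← ENNReal.tsum_add]
    refine tsum_congr fun y => ?_
    have hm : Measurable fun ω : Environment d =>
        ({ω | φ y ω < An ν y F}.indicator (fun ω => EK ω (Bl ℓ l) 0 y)) ω * φ y ω :=
      (((meas_EK _ 0 y).indicator (measurableSet_lt (mφ y) measurable_const)).mul (mφ y))
    rw [← lintegral_add_left hm]
    refine lintegral_congr fun ω => ?_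
    show _ = ({ω | φ y ω < An ν y F}.indicator (fun ω => EK ω (Bl ℓ l) 0 y)) ω * An ν y F
    by_cases hω : φ y ω < An ν y F
    · have h2 : ω ∈ {ω : Environment d | φ y ω < An ν y F} := hω
      rw [Set.indicator_of_mem h2, ← mul_add, add_tsub_cancel_of_le hω.le]
    · have h2 : ω ∉ {ω : Environment d | φ y ω < An ν y F} := hω
      rw [Set.indicator_of_notMem h2, tsub_eq_zero_of_le (not_lt.1 hω)]
      simp
  have hm1 : ∀ y, Measurable fun ω : Environment d =>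
      EK ω (Bl ℓ l) 0 y * (φ y ω - An ν y F) := fun y =>
    (meas_EK _ 0 y).mul ((mφ y).sub measurable_const)
  have hm2 : ∀ y, Measurable fun ω : Environment d =>
      EK ω (Bl ℓ l) 0 y * (An ν y F - φ y ω) := fun y =>
    (meas_EK _ 0 y).mul (measurable_const.sub (mφ y))
  have e3 : ∀ y ω, EK ω (Bl ℓ l) 0 y * AD (φ y ω) (An ν y F)
      = EK ω (Bl ℓ l) 0 y * (φ y ω - An ν y F) + EK ω (Bl ℓ l) 0 y * (An ν y F - φ y ω) := by
    intro y ω
    unfold AD
    rw [mul_add]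
  calc ∫⁻ ω, ∑' y, EK ω (Bl ℓ l) 0 y * AD (φ y ω) (An ν y F) ∂Q
      = ∑' y, ∫⁻ ω, (EK ω (Bl ℓ l) 0 y * (φ y ω - An ν y F) +
          EK ω (Bl ℓ l) 0 y * (An ν y F - φ y ω)) ∂Q := by
        simp only [e3]
        exact lintegral_tsum fun y => ((hm1 y).add (hm2 y)).aemeasurable
    _ = ∑' y, ∫⁻ ω, EK ω (Bl ℓ l) 0 y * (φ y ω - An ν y F) ∂Q +
          ∑' y, ∫⁻ ω, EK ω (Bl ℓ l) 0 y * (An ν y F - φ y ω) ∂Q := by
        rw [← ENNReal.tsum_add]
        exact tsum_congr fun y => lintegral_add_left (hm1 y) _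
    _ ≤ D + D := add_le_add hup hdn
    _ = 4 * ((t + 1) * η + β) := by rw [hD]; ring

/-- all distances `≤ t` at once -/
lemma tight_le {σ : Site d →+ ℝ} (hℓ : ∀ e : Step d, |ℓ (stepVec e)| ≤ 1)
    (hR : annealedProb (iidEnvironmentLaw ν) 0 (Reach ℓ) = 1) (hp : pN ℓ ν ≠ 0) (t : ℕ)
    {δ : ℝ≥0∞} (hδ : δ ≠ 0) :
    ∃ ε0 : ℝ, 0 < ε0 ∧ ∀ i ≤ t, ∀ ε ≤ ε0, ∀ m : ℤ, 0 ≤ m → An ν 0 (Psi ℓ σ ε m i) ≤ δ := by
  induction t with
  | zero =>
    obtain ⟨ε0, h0, h1⟩ := tight (σ := σ) hℓ hR hp 0 hδ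
    exact ⟨ε0, h0, fun i hi ε hε m hm => by rw [Nat.le_zero.1 hi]; exact h1 ε hε m hm⟩
  | succ t ih =>
    obtain ⟨ε1, h1, h1'⟩ := ih
    obtain ⟨ε2, h2, h2'⟩ := tight (σ := σ) hℓ hR hp (t + 1) hδ
    refine ⟨min ε1 ε2, lt_min h1 h2, fun i hi ε hε m hm => ?_⟩
    rcases Nat.lt_or_ge t i with h | h
    · have : i = t + 1 := le_antisymm hi h
      subst this
      exact h2' ε (hε.trans (min_le_right _ _)) m hm
    · exact h1' i h ε (hε.trans (min_le_left _ _)) m hm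

/-- the first hit of level `b` of a nearest neighbour path is on level `b` -/
lemma lev_hit (hℓ : ∀ e : Step d, |ℓ (stepVec e)| ≤ 1) {X : Path d} (hnn : NN X) {b : ℤ}
    (h0 : ℓ (X 0) ≤ b) (hX : exT (Bl ℓ b) X ≠ ⊤) : ℓ (xE (Bl ℓ b) X) = b := by
  obtain ⟨n, hn⟩ := ENat.ne_top_iff_exists.1 hX
  unfold xE
  rw [← hn, ENat.toNat_natCast]
  obtain ⟨h1, h2⟩ := exT_eq_iff.1 hn.symm
  have h3 : b ≤ ℓ (X n) := not_lt.1 h1
  rcases Nat.eq_zero_or_pos n with h | h
  · subst h; exact le_antisymm h0 h3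
  · obtain ⟨e, he⟩ := hnn (n - 1)
    rw [Nat.sub_add_cancel h] at he
    have h4 : ℓ (X (n - 1)) < b := h2 (n - 1) (by omega)
    have h5 := (abs_le.1 (hℓ e)).2
    rw [he, map_add] at h3 ⊢
    omega

/-- the sites of first visit of the path with a piece removed -/
lemma xE_cut (hℓ : ∀ e : Step d, |ℓ (stepVec e)| ≤ 1) {X : Path d} (hnn : NN X)
    (hX : X ∈ Reach ℓ) {l : ℤ} (h0 : ℓ (X 0) = l) (i : ℕ) {L : ℤ} (hL : l ≤ L) :
    xE (Bl ℓ L) (ret (X 0) (shift (exT (Bl ℓ (l + i)) X).toNat X))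
      = xE (Bl ℓ (L + i)) X - xE (Bl ℓ (l + i)) X + xE (Bl ℓ l) X := by
  have h1 : ℓ (xE (Bl ℓ (l + i)) X) = l + i := lev_hit hℓ hnn (by rw [h0]; omega) (hX _)
  have h2 : (shift (exT (Bl ℓ (l + i)) X).toNat X) 0 = xE (Bl ℓ (l + i)) X := rfl
  have h3 : xE (Bl ℓ l) X = X 0 := by
    have : exT (Bl ℓ l) X = (0 : ℕ) := exT_eq_iff.2 ⟨fun h => by
      have : ℓ (X 0) < l := h
      omega, fun i hi => absurd hi (Nat.not_lt_zero i)⟩
    unfold xE
    rw [this, ENat.toNat_natCast]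
  rw [ret_eq_tr, xE_tr, h2, map_sub, h1, h0, show L - (l - (l + (i : ℤ))) = L + i by ring,
    xE_shift (Bl_mono ℓ (by omega)) (hX _), h3]
  abel

end cond

/-! ### the literal interface -/

open Crest.Agent.R154.Flux132 (lev)
open Crest.Agent.R154.P2916 (sl)

/-- the level as an additive map -/
def levH (u : Step d) : Site d →+ ℤ where
  toFun := lev u
  map_zero' := by unfold lev; split_ifs <;> simp
  map_add' := Hit2569.lev_add' u

/-- the slanted lateral coordinate as an additive map -/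
noncomputable def slH (u : Step 2) (i : Fin 2) (θ : ℝ) : Site 2 →+ ℝ where
  toFun := sl u i θ
  map_zero' := by
    unfold sl
    have : lev u (0 : Site 2) = 0 := (levH u).map_zero
    rw [this]; simp
  map_add' := by
    intro x y
    unfold sl
    rw [Hit2569.lev_add' u, Pi.add_apply]
    push_cast
    ring

lemma Sb_eq (u : Step 2) (l : ℕ) : D2V36.Sb u l = Bl (levH u) (l : ℤ) := rfl

lemma xT_eq (u : Step 2) (l : ℕ) (X : Path 2) : D2V36.xT u l X = xE (Bl (levH u) (l : ℤ)) X := rfl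

/-- `|∏ a - ∏ b| ≤ ∑ |a - b|` -/
lemma prod_sub_le {ι : Type*} (s : Finset ι) (a b : ι → ℝ) (ha : ∀ i, 0 ≤ a i ∧ a i ≤ 1)
    (hb : ∀ i, 0 ≤ b i ∧ b i ≤ 1) : |∏ i ∈ s, a i - ∏ i ∈ s, b i| ≤ ∑ i ∈ s, |a i - b i| := by
  classical
  induction s using Finset.induction_on with
  | empty => simp
  | insert j s hj ih =>
    rw [Finset.prod_insert hj, Finset.prod_insert hj, Finset.sum_insert hj]
    have h1 : 0 ≤ ∏ i ∈ s, b i := Finset.prod_nonneg fun i _ => (hb i).1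
    have h2 : ∏ i ∈ s, b i ≤ 1 := Finset.prod_le_one (fun i _ => (hb i).1) fun i _ => (hb i).2
    have e : a j * ∏ i ∈ s, a i - b j * ∏ i ∈ s, b i
        = (a j - b j) * ∏ i ∈ s, b i + a j * (∏ i ∈ s, a i - ∏ i ∈ s, b i) := by ring
    rw [e]
    refine (abs_add_le _ _).trans (add_le_add ?_ ?_)
    · rw [abs_mul, abs_of_nonneg h1]
      exact mul_le_of_le_one_right (abs_nonneg _) h2
    · rw [abs_mul, abs_of_nonneg (ha j).1]
      exact (mul_le_of_le_one_left (abs_nonneg _) (ha j).2).trans ih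

/-- the error functional of a product -/
noncomputable def errP (u : Step 2) (i : Fin 2) (θ : ℝ) {m : ℕ} (L : Fin m → ℕ) (l : ℕ) (w : ℝ)
    (k : ℕ) (X : Path 2) : ℝ≥0∞ :=
  ∑ j : Fin m, (Psi (levH u) (slH u i θ) (1 / w) (L j : ℤ) k X +
    Psi (levH u) (slH u i θ) (1 / w) (l : ℤ) k X)

lemma meas_errP (u : Step 2) (i : Fin 2) (θ : ℝ) {m : ℕ} (L : Fin m → ℕ) (l : ℕ) (w : ℝ)
    (k : ℕ) : Measurable (errP u i θ L l w k) :=
  Finset.measurable_fun_sum _ fun j _ => (meas_Psi _ _ _ _ _).add (meas_Psi _ _ _ _ _)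

/-- the product functional is `Loc` -/
lemma loc_PX (u : Step 2) (i : Fin 2) (θ : ℝ) {m : ℕ} {L : Fin m → ℕ} {l : ℕ}
    (hL : ∀ j, l ≤ L j) {w : ℝ} (hw : 0 < w) {χ : Fin m → Site 2 → ℝ}
    (hχ : ∀ j z, 0 ≤ χ j z ∧ χ j z ≤ 1)
    (hlip : ∀ j z z', |χ j z - χ j z'| ≤ |sl u i θ z - sl u i θ z'| / w) (t : ℕ) :
    Loc (levH u) (l : ℤ) t (fun X => ENNReal.ofReal (D2V36.PX u L χ X)) (errP u i θ L l w) := by
  have hℓ : ∀ e : Step 2, |levH u (stepVec e)| ≤ 1 := Hit2569.abs_lev_stepVec u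
  have key : ∀ k X, X ∈ Reach (levH u) → NN X → levH u (X 0) = l →
      |D2V36.PX u L χ X - D2V36.PX u L χ
        (ret (X 0) (shift (exT (Bl (levH u) ((l : ℤ) + (k : ℕ))) X).toNat X))| ≤
        ∑ j : Fin m, |χ j (D2V36.xT u (L j) X) - χ j (D2V36.xT u (L j)
          (ret (X 0) (shift (exT (Bl (levH u) ((l : ℤ) + (k : ℕ))) X).toNat X)))| := by
    intro k X hX hnn h0
    exact prod_sub_le Finset.univ _ _ (fun j => hχ j _) fun j => hχ j _
  have key2 : ∀ (k : ℕ) X, X ∈ Reach (levH u) → NN X → levH u (X 0) = l →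
      ENNReal.ofReal (∑ j : Fin m, |χ j (D2V36.xT u (L j) X) - χ j (D2V36.xT u (L j)
          (ret (X 0) (shift (exT (Bl (levH u) ((l : ℤ) + (k : ℕ))) X).toNat X)))|) ≤
        errP u i θ L l w k X := by
    intro k X hX hnn h0
    unfold errP
    rw [ENNReal.ofReal_sum_of_nonneg fun j _ => abs_nonneg _]
    refine Finset.sum_le_sum fun j _ => ?_
    have h1 := xE_cut hℓ hnn hX h0 k (L := (L j : ℤ)) (by exact_mod_cast hL j)
    rw [xT_eq, xT_eq, h1]
    set x1 := xE (Bl (levH u) (L j : ℤ)) X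
    set x2 := xE (Bl (levH u) ((L j : ℤ) + k)) X with hx2
    set x3 := xE (Bl (levH u) ((l : ℤ) + k)) X with hx3
    set x4 := xE (Bl (levH u) (l : ℤ)) X with hx4
    have h2 : slH u i θ x1 - slH u i θ (x2 - x3 + x4)
        = -(slH u i θ x2 - slH u i θ x1) + (slH u i θ x3 - slH u i θ x4) := by
      rw [map_add, map_sub]; ring
    have h3 : ENNReal.ofReal |χ j x1 - χ j (x2 - x3 + x4)| ≤
        mn (1 / w) (slH u i θ x1 - slH u i θ (x2 - x3 + x4)) := by
      unfold mn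
      refine ENNReal.ofReal_le_ofReal (le_min ?_ ?_)
      · rw [abs_le]
        have := hχ j x1
        have := hχ j (x2 - x3 + x4)
        constructor <;> linarith
      · refine (hlip j _ _).trans (le_of_eq ?_)
        rw [div_eq_inv_mul, one_div]
        rfl
    refine h3.trans ?_
    rw [h2]
    refine (mn_add (by positivity) _ _).trans ?_
    rw [mn_neg]
    exact le_rfl
  refine ⟨(FEk9.meas_PX L χ).ennreal_ofReal, fun X => ?_, meas_errP u i θ L l w, ?_, ?_⟩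
  · exact ENNReal.ofReal_le_one.2 (FEk9.PX_le_one hχ X)
  · intro k _ X hX hnn h0 _
    have h1 := (abs_le.1 (key k X hX hnn h0)).2
    refine (ENNReal.ofReal_le_ofReal (sub_le_iff_le_add'.1 h1)).trans ?_
    rw [ENNReal.ofReal_add (FEk9.PX_nonneg hχ _) (Finset.sum_nonneg fun j _ => abs_nonneg _)]
    exact add_le_add le_rfl (key2 k X hX hnn h0)
  · intro k _ X hX hnn h0 _
    have h1 := key k X hX hnn h0
    rw [abs_sub_comm] at h1
    have h2 := (abs_le.1 h1).2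
    refine (ENNReal.ofReal_le_ofReal (sub_le_iff_le_add'.1 h2)).trans ?_
    rw [ENNReal.ofReal_add (FEk9.PX_nonneg hχ _) (Finset.sum_nonneg fun j _ => abs_nonneg _)]
    exact add_le_add le_rfl (key2 k X hX hnn h0)

/-- **`ResidP` in terms of the two inputs** -/
theorem residP_of {ν : Measure (Row 2)} [IsProbabilityMeasure ν] (u : Step 2) (i : Fin 2) (θ : ℝ)
    (hR : annealedProb (iidEnvironmentLaw ν) 0 (Reach (levH u)) = 1) (hp : pN (levH u) ν ≠ 0) :
    D2V36.ResidP u i θ ν := by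
  intro m δ hδ
  have hℓ : ∀ e : Step 2, |levH u (stepVec e)| ≤ 1 := Hit2569.abs_lev_stepVec u
  have hβ : ENNReal.ofReal (δ / 8) ≠ 0 := by
    rw [Ne, ENNReal.ofReal_eq_zero, not_le]; positivity
  obtain ⟨t, ht⟩ := anyPast (ℓ := levH u) (ν := ν) hℓ hR hp hβ
  have hAP := ht t le_rfl
  set δ' : ℝ := δ / (16 * ((t : ℝ) + 1) * ((m : ℝ) + 1)) with hδ'
  have hδ'0 : 0 < δ' := by positivity
  have hδ'' : ENNReal.ofReal δ' ≠ 0 := by
    rw [Ne, ENNReal.ofReal_eq_zero, not_le]; exact hδ'0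
  obtain ⟨ε0, hε0, hT⟩ := tight_le (ν := ν) (σ := slH u i θ) hℓ hR hp t hδ''
  refine ⟨0, 1 / ε0, by positivity, fun w hw l _ L hmono hL χ hχ hlip => ?_⟩
  have hw0 : 0 < w := lt_of_lt_of_le (by positivity) hw
  have hwε : 1 / w ≤ ε0 := by
    rw [div_le_iff₀ hw0]
    rw [ge_iff_le, div_le_iff₀ hε0] at hw
    linarith
  have hloc := loc_PX u i θ hL hw0 hχ hlip t
  set η : ℝ≥0∞ := m * (2 * ENNReal.ofReal δ') with hη
  have hsum : ∀ f : Fin m → ℝ≥0∞, (∀ j, f j ≤ 2 * ENNReal.ofReal δ') → ∑ j, f j ≤ η := by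
    intro f hf
    calc ∑ j, f j ≤ ∑ _j : Fin m, 2 * ENNReal.ofReal δ' := Finset.sum_le_sum fun j _ => hf j
      _ = η := by simp [hη]
  have hAn : ∀ (y : Site 2) (k : ℕ), An ν y (errP u i θ L l w k) =
      ∑ j : Fin m, (An ν y (Psi (levH u) (slH u i θ) (1 / w) (L j : ℤ) k) +
        An ν y (Psi (levH u) (slH u i θ) (1 / w) (l : ℤ) k)) := by
    intro y k
    unfold An errP
    have e1 : ∀ ω : Environment 2, ∫⁻ X, ∑ j : Fin m, (Psi (levH u) (slH u i θ) (1 / w) (L j : ℤ) k X +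
        Psi (levH u) (slH u i θ) (1 / w) (l : ℤ) k X) ∂quenchedLaw ω y
        = ∑ j : Fin m, (∫⁻ X, Psi (levH u) (slH u i θ) (1 / w) (L j : ℤ) k X ∂quenchedLaw ω y +
          ∫⁻ X, Psi (levH u) (slH u i θ) (1 / w) (l : ℤ) k X ∂quenchedLaw ω y) := by
      intro ω
      have hm : ∀ j : Fin m, Measurable fun X : Path 2 =>
          Psi (levH u) (slH u i θ) (1 / w) (L j : ℤ) k X +
          Psi (levH u) (slH u i θ) (1 / w) (l : ℤ) k X := fun j =>
        (meas_Psi _ _ _ _ _).add (meas_Psi _ _ _ _ _)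
      rw [lintegral_finsetSum _ fun j _ => hm j]
      exact Finset.sum_congr rfl fun j _ => lintegral_add_left (meas_Psi _ _ _ _ _) _
    simp only [e1]
    have hm : ∀ j : Fin m, Measurable fun ω : Environment 2 =>
        ∫⁻ X, Psi (levH u) (slH u i θ) (1 / w) (L j : ℤ) k X ∂quenchedLaw ω y +
          ∫⁻ X, Psi (levH u) (slH u i θ) (1 / w) (l : ℤ) k X ∂quenchedLaw ω y := fun j =>
      (meas_qlint (meas_Psi _ _ _ _ _) y).add (meas_qlint (meas_Psi _ _ _ _ _) y)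
    rw [lintegral_finsetSum _ fun j _ => hm j]
    exact Finset.sum_congr rfl fun j _ => lintegral_add_left (meas_qlint (meas_Psi _ _ _ _ _) y) _
  have hE1 : ∀ k ≤ t, ∀ y, levH u y = (l : ℤ) → An ν y (errP u i θ L l w k) ≤ η := by
    intro k hk y hy
    rw [hAn]
    refine hsum _ fun j => ?_
    have a1 := An_Psi (ν := ν) (ℓ := levH u) (σ := slH u i θ) (1 / w) (L j : ℤ) k y
    have a2 := An_Psi (ν := ν) (ℓ := levH u) (σ := slH u i θ) (1 / w) (l : ℤ) k y
    rw [a1, a2, hy, two_mul]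
    refine add_le_add (hT k hk _ hwε _ ?_) (hT k hk _ hwε _ (by omega))
    have : (l : ℤ) ≤ L j := by exact_mod_cast hL j
    omega
  have hE2 : ∀ k ≤ t, ∑' y, ∫⁻ ω, EK ω (Bl (levH u) (l : ℤ)) 0 y *
      ∫⁻ X, errP u i θ L l w k X ∂quenchedLaw ω y ∂(iidEnvironmentLaw ν) ≤ η := by
    intro k hk
    rw [← An_mark (l := (l : ℤ)) hR (meas_errP u i θ L l w k) fun X hX => ?_, hAn]
    · refine hsum _ fun j => ?_
      rw [two_mul]
      exact add_le_add (hT k hk _ hwε _ (by omega)) (hT k hk _ hwε _ (by omega))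
    · unfold errP
      refine Finset.sum_congr rfl fun j _ => ?_
      rw [Psi_shift (by exact_mod_cast hL j) hX, Psi_shift le_rfl hX]
  have hmain := hloc.cond hℓ hR hp hAP (by omega) hE1 hE2
  -- translate
  have F1 : ∀ (y : Site 2) (ω : Environment 2),
      ∫⁻ X, ENNReal.ofReal (D2V36.PX u L χ X) ∂quenchedLaw ω y ≤ 1 := fun y ω =>
    FEk9.lint_PX_le hχ ω y
  have mF : ∀ y : Site 2, Measurable fun ω : Environment 2 =>
      ∫⁻ X, ENNReal.ofReal (D2V36.PX u L χ X) ∂quenchedLaw ω y := fun y =>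
    meas_qlint (FEk9.meas_PX L χ).ennreal_ofReal y
  have hV : ∀ y : Site 2, ∫ η, D2V36.FE u L χ η y ∂(iidEnvironmentLaw ν)
      = (An ν y fun X => ENNReal.ofReal (D2V36.PX u L χ X)).toReal := by
    intro y
    simp only [FEk9.FE_eq_lint hχ]
    exact integral_toReal (mF y).aemeasurable (Filter.Eventually.of_forall fun ω =>
      lt_of_le_of_lt (F1 y ω) ENNReal.one_lt_top)
  have hφ : ∀ (y : Site 2) (ω : Environment 2), cndR ν (D2V36.Sb u l)
      (fun ω => D2V36.FE u L χ ω y) ω = (cnd ν (Bl (levH u) (l : ℤ))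
        (fun ω => ∫⁻ X, ENNReal.ofReal (D2V36.PX u L χ X) ∂quenchedLaw ω y) ω).toReal := by
    intro y ω
    simp only [FEk9.FE_eq_lint hχ]
    exact cndR_toReal (D2V36.Sb u l) (mF y) (F1 y) ω
  have hb : ∀ (ω : Environment 2) (y : Site 2), |(|cndR ν (D2V36.Sb u l)
      (fun ω => D2V36.FE u L χ ω y) ω - ∫ η, D2V36.FE u L χ η y ∂(iidEnvironmentLaw ν)|)| ≤ 2 := by
    intro ω y
    rw [abs_abs]
    have h1 := abs_cndR_le (ν := ν) (D2V36.Sb u l) (f := fun ω => D2V36.FE u L χ ω y)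
      (fun ω => FEk9.abs_FE_le hχ ω y) ω
    have h2 := FEk9.int_FE_le (ν := ν) (u := u) (L := L) hχ y
    have h3 := abs_sub (cndR ν (D2V36.Sb u l) (fun ω => D2V36.FE u L χ ω y) ω)
      (∫ η, D2V36.FE u L χ η y ∂(iidEnvironmentLaw ν))
    have h4 : |∫ η, D2V36.FE u L χ η y ∂(iidEnvironmentLaw ν)| ≤ 1 := by
      rw [abs_of_nonneg h2.1]; exact h2.2
    linarith
  have mcnd : ∀ y : Site 2, Measurable fun ω : Environment 2 => |cndR ν (D2V36.Sb u l)
      (fun ω => D2V36.FE u L χ ω y) ω - ∫ η, D2V36.FE u L χ η y ∂(iidEnvironmentLaw ν)| := fun y =>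
    ((meas_cndR _ (FEk9.meas_FE hχ y)).sub_const _).abs
  have hE : ENNReal.ofReal (∫ ω, E1 (EK ω (D2V36.Sb u l) 0) (fun y => |cndR ν (D2V36.Sb u l)
      (fun ω => D2V36.FE u L χ ω y) ω - ∫ η, D2V36.FE u L χ η y ∂(iidEnvironmentLaw ν)|)
        ∂(iidEnvironmentLaw ν)) ≤ 4 * ((t + 1) * η + ENNReal.ofReal (δ / 8)) := by
    refine le_trans (le_of_eq ?_) hmain
    rw [ofReal_integral_eq_lintegral_ofReal]
    · refine lintegral_congr fun ω => ?_
      rw [← FEk9.tsum_ofReal_E1 (tsum_EK_le ω _ 0) (fun y => abs_nonneg _) (hb ω)]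
      refine tsum_congr fun y => ?_
      rw [FEk9.AD_eq (cnd_le_one _ (F1 y) ω) (An_le_one ν hloc.le1), hφ y ω, hV y]
      rfl
    · refine intg (meas_E1 (fun y => meas_EK _ 0 y) mcnd) (C := 2) fun ω => ?_
      exact abs_E1_le (tsum_EK_le ω _ 0) (by norm_num) (hb ω)
    · exact Filter.Eventually.of_forall fun ω => E1_nonneg fun y => abs_nonneg _
  have hfin : (4 : ℝ≥0∞) * ((t + 1) * η + ENNReal.ofReal (δ / 8)) ≤ ENNReal.ofReal δ := by
    have e1 : (4 : ℝ≥0∞) * ((t + 1) * η + ENNReal.ofReal (δ / 8))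
        = ENNReal.ofReal (4 * (((t : ℝ) + 1) * (m * (2 * δ')) + δ / 8)) := by
      rw [ENNReal.ofReal_mul (by norm_num), ENNReal.ofReal_add (by positivity) (by positivity),
        ENNReal.ofReal_mul (by positivity), ENNReal.ofReal_mul (by positivity),
        ENNReal.ofReal_mul (by norm_num), ENNReal.ofReal_add (by positivity) (by norm_num)]
      simp [hη]
    rw [e1]
    refine ENNReal.ofReal_le_ofReal ?_
    have h1 : ((t : ℝ) + 1) * (m * (2 * δ')) ≤ δ / 8 := by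
      rw [hδ', show ((t : ℝ) + 1) * (m * (2 * (δ / (16 * ((t : ℝ) + 1) * ((m : ℝ) + 1)))))
        = δ / 8 * (m / ((m : ℝ) + 1)) by field_simp; ring]
      have h2 : (m : ℝ) / ((m : ℝ) + 1) ≤ 1 := by
        rw [div_le_one (by positivity)]; linarith
      have h3 : 0 ≤ δ / 8 := by positivity
      nlinarith
    linarith
  have hnn : 0 ≤ ∫ ω, E1 (EK ω (D2V36.Sb u l) 0) (fun y => |cndR ν (D2V36.Sb u l)
      (fun ω => D2V36.FE u L χ ω y) ω - ∫ η, D2V36.FE u L χ η y ∂(iidEnvironmentLaw ν)|)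
        ∂(iidEnvironmentLaw ν) := integral_nonneg fun ω => E1_nonneg fun y => abs_nonneg _
  exact (ENNReal.ofReal_le_ofReal_iff hδ.le).1 (hE.trans hfin)

lemma reach_of_escape {ν : Measure (Row d)} [IsProbabilityMeasure ν] {u : Step d}
    (hA : annealed (iidEnvironmentLaw ν) 0 (escapeEvent (B2d.dirVec u)) = 1) :
    annealedProb (iidEnvironmentLaw ν) 0 (Reach (levH u)) = 1 := by
  refine le_antisymm ?_ ?_
  · unfold annealedProb
    exact (lintegral_mono fun ω => prob_le_one).trans (by simp)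
  · rw [← hA, ← annealed_apply _ 0 measurableSet_Reach]
    refine measure_mono ?_
    intro X hX l hT
    obtain ⟨n, hn⟩ := Hit2569.lev_of_escape u hX l
    have h1 : lev u (X n) < l := (exT_eq_top_iff.1 hT) n
    omega

lemma pN_of_escape {ν : Measure (Row d)} [IsProbabilityMeasure ν] {u : Step d}
    (hA : annealed (iidEnvironmentLaw ν) 0 (escapeEvent (B2d.dirVec u)) ≠ 0) :
    pN (levH u) ν ≠ 0 := by
  have h := Kal132.pD_pos (Q561.iid_shift ν) (B2d.dirVec u) hA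
  unfold pN
  rw [← annealed_apply _ 0 (measurableSet_Ntl _ 0)]
  intro h0
  apply h
  refine le_antisymm (le_trans (measure_mono_ae ?_) h0.le) zero_le
  have hz : ∀ᵐ X ∂annealed (iidEnvironmentLaw ν) (0 : Site d), X 0 = 0 := by
    have hm : MeasurableSet {X : Path d | X 0 = 0} :=
      measurableSet_of_agree 0 _ fun X Y h => by simp only [Set.mem_ofPred_eq, h 0 le_rfl]
    exact annealed_ae hm (Filter.Eventually.of_forall fun ω => quenched_zero_eq ω 0)
  filter_upwards [hz] with X h0 hX n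
  have h1 : Kal132.L (B2d.dirVec u) (X 0) ≤ Kal132.L (B2d.dirVec u) (X n) := hX n
  have e : ∀ x : Site d, Kal132.L (B2d.dirVec u) x = (lev u x : ℝ) := by
    intro x
    unfold Kal132.L lev
    simp only [B2d.dirVec_apply]
    rw [Finset.sum_eq_single u.1]
    · by_cases hu : u.2 = true
      · simp [hu]
      · simp [hu]
    · intro i _ hi
      simp [hi]
    · simp
  rw [e, e, h0, show lev u (0 : Site d) = 0 from (levH u).map_zero] at h1
  show (0 : ℤ) ≤ lev u (X n)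
  exact_mod_cast h1

/-- **`ResidP` of `D2V_36`** -/
theorem residP (ν : Measure (Row 2)) [IsProbabilityMeasure ν] (u : Step 2)
    (hA : annealed (iidEnvironmentLaw ν) 0 (escapeEvent (B2d.dirVec u)) = 1) (i : Fin 2) (θ : ℝ) :
    D2V36.ResidP u i θ ν :=
  residP_of u i θ (reach_of_escape hA) (pN_of_escape (by rw [hA]; exact one_ne_zero))

end Crest.Agent.R154.Phi215
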