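import Crest.Agent.R154.Hair_738
import Crest.Agent.R154.D2V_36

/-!
# Row 154, d = 2: regularity of the Kolmogorov width (helper738)

From `Core` + `NDA` of `Hair_738`: `wd N / √N` is almost increasing, `wd (2^k N) ≤ 12 (15/8)^k wd N`,
and the literal interface Props `ScaleP` (D2V_36) and `REG` (P2Defs_916).
-/

open MeasureTheory Filter Topology Set

set_option linter.unusedSectionVars false

namespace Crest.Agent.R154.Hair738

section
variable {T U : ℝ → ℝ}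

/-- `wd N / √N` is almost increasing. -/
theorem NDA.wd_sqrt (H : Core T U) (h : NDA T U) :
    ∃ n0 : ℕ, ∀ n N : ℕ, n0 ≤ n → n ≤ N →
      (wdC T U n : ℝ) * Real.sqrt N ≤ 2 * (Real.sqrt n * wdC T U N) := by
  obtain ⟨n0, hn0⟩ := eventually_atTop.1 (h.wd_sq_le H)
  refine ⟨n0, fun n N hn hnN => ?_⟩
  have h1 := hn0 n hn
  have h2 := (H.wd_spec N).2.2
  have h3 : (wdC T U n : ℝ) ≤ wdC T U N := by exact_mod_cast H.wd_mono hnN
  have h4 : U (wdC T U n) ≤ U (wdC T U N) := H.Umono h3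
  have hn0' : (0:ℝ) ≤ n := by positivity
  have hN0' : (0:ℝ) ≤ N := by positivity
  apply le_of_sq_le_sq _ (by positivity)
  rw [mul_pow, mul_pow, mul_pow, Real.sq_sqrt hn0', Real.sq_sqrt hN0']
  have h5 : (wdC T U n : ℝ)^2 * N ≤ 256 * (n * U (wdC T U n)) * N :=
    mul_le_mul_of_nonneg_right h1 hN0'
  have h6 : 256 * ((n:ℝ) * U (wdC T U n)) * N ≤ 256 * (n * U (wdC T U N)) * N := by
    apply mul_le_mul_of_nonneg_right _ hN0'
    apply mul_le_mul_of_nonneg_left _ (by norm_num)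
    exact mul_le_mul_of_nonneg_left h4 hn0'
  have h7 : 256 * (n:ℝ) * (N * U (wdC T U N)) ≤ 256 * n * ((wdC T U N : ℝ)^2/64) :=
    mul_le_mul_of_nonneg_left h2 (by positivity)
  nlinarith

/-- `wd n ≤ 6 √(n/N) wd N` for `n0 ≤ n ≤ 2 N`. -/
theorem NDA.wd_reg2 (H : Core T U) (h : NDA T U) :
    ∃ n0 : ℕ, 1 ≤ n0 ∧ ∀ n N : ℕ, n0 ≤ n → n ≤ 2 * N →
      (wdC T U n : ℝ) ≤ 6 * Real.sqrt ((n:ℝ) / N) * wdC T U N := by
  obtain ⟨n0, hn0⟩ := h.wd_sqrt H
  obtain ⟨n1, hn1⟩ := eventually_atTop.1 (h.wd_upper H 2 (by norm_num))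
  refine ⟨max (max n0 (2 * n1)) 1, le_max_right _ _, fun n N hn hnN => ?_⟩
  have ha : n0 ≤ n := le_trans (le_trans (le_max_left _ _) (le_max_left _ _)) hn
  have hb : 2 * n1 ≤ n := le_trans (le_trans (le_max_right _ _) (le_max_left _ _)) hn
  have hc : 1 ≤ n := le_trans (le_max_right _ _) hn
  have hN1 : 1 ≤ N := by omega
  have hN0 : (0:ℝ) < N := by exact_mod_cast hN1
  have h1 := hn0 n (2 * N) ha hnN
  have h2 := hn1 N (by omega)
  push_cast at h1 h2
  have hs2 : 0 < Real.sqrt 2 := by positivity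
  have hsN : 0 < Real.sqrt (N:ℝ) := Real.sqrt_pos.2 hN0
  rw [Real.sqrt_mul (by norm_num)] at h1
  have h3 : (wdC T U n : ℝ) * Real.sqrt N * Real.sqrt 2 ≤
      6 * Real.sqrt n * wdC T U N * Real.sqrt 2 := by
    have h4 : 2 * (Real.sqrt n * (wdC T U (2 * N) : ℝ)) ≤
        2 * (Real.sqrt n * (3 * (Real.sqrt 2 * wdC T U N))) := by
      apply mul_le_mul_of_nonneg_left _ (by norm_num)
      exact mul_le_mul_of_nonneg_left h2 (Real.sqrt_nonneg _)
    calc (wdC T U n : ℝ) * Real.sqrt N * Real.sqrt 2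
        = (wdC T U n : ℝ) * (Real.sqrt 2 * Real.sqrt N) := by ring
      _ ≤ 2 * (Real.sqrt n * (3 * (Real.sqrt 2 * wdC T U N))) := le_trans h1 h4
      _ = _ := by ring
  have h4 := le_of_mul_le_mul_right h3 hs2
  rw [Real.sqrt_div (by positivity), mul_div_assoc', div_mul_eq_mul_div, le_div_iff₀ hsN]
  exact h4

/-- growth over all dyadic scales, exponent `< 1` -/
theorem NDA.wd_pow (H : Core T U) (h : NDA T U) :
    ∃ n0 : ℕ, ∀ N ≥ n0, ∀ k : ℕ, (wdC T U (2^k * N) : ℝ) ≤ 12 * (15/8)^k * wdC T U N := by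
  obtain ⟨n1, hn1⟩ := eventually_atTop.1 (h.wd_upper H 16 (by norm_num))
  have h16 : Real.sqrt ((16:ℕ):ℝ) = 4 := by
    rw [show ((16:ℕ):ℝ) = 4^2 by norm_num, Real.sqrt_sq (by norm_num)]
  rw [h16] at hn1
  have step : ∀ N ≥ n1, ∀ j : ℕ, (wdC T U (16^j * N) : ℝ) ≤ 12^j * wdC T U N := by
    intro N hN j
    induction j with
    | zero => simp
    | succ j ih =>
      have h1 := hn1 (16^j * N) (le_trans hN (Nat.le_mul_of_pos_left _ (by positivity)))
      have h2 : 16^(j+1) * N = 16 * (16^j * N) := by ring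
      rw [h2, pow_succ]
      linarith
  refine ⟨n1, fun N hN k => ?_⟩
  have hk : 2^k * N ≤ 16^(k/4+1) * N := by
    apply Nat.mul_le_mul_right
    rw [show (16:ℕ) = 2^4 by norm_num, ← pow_mul]
    apply Nat.pow_le_pow_right (by norm_num)
    omega
  have h1 : (wdC T U (2^k * N) : ℝ) ≤ wdC T U (16^(k/4+1) * N) := by
    exact_mod_cast H.wd_mono hk
  have h2 := step N hN (k/4+1)
  have h3 : (12:ℝ)^(k/4+1) ≤ 12 * (15/8)^k := by
    rw [pow_succ, mul_comm]
    apply mul_le_mul_of_nonneg_left _ (by norm_num)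
    calc (12:ℝ)^(k/4) ≤ ((15/8:ℝ)^4)^(k/4) := pow_le_pow_left₀ (by norm_num) (by norm_num) _
      _ = (15/8:ℝ)^(4*(k/4)) := by rw [pow_mul]
      _ ≤ (15/8:ℝ)^k := pow_le_pow_right₀ (by norm_num) (by omega)
  have h4 : (0:ℝ) ≤ wdC T U N := by positivity
  calc (wdC T U (2^k * N) : ℝ) ≤ 12^(k/4+1) * wdC T U N := le_trans h1 h2
    _ ≤ 12 * (15/8)^k * wdC T U N := mul_le_mul_of_nonneg_right h3 h4

/-- 36's `ScaleP`. -/
theorem NDA.scaleP (H : Core T U) (h : NDA T U) : D2V36.ScaleP (wdC T U) := by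
  obtain ⟨n0, hn01, hn0⟩ := h.wd_reg2 H
  refine ⟨9, by norm_num, fun n hn => ⟨n * n0 + n, fun N hN => ?_⟩⟩
  have hnN : n ≤ N := by nlinarith
  have hN1 : 1 ≤ N := by omega
  have hN0 : (0:ℝ) < N := by exact_mod_cast hN1
  have hnpos : (0:ℝ) < n := by exact_mod_cast hn
  have h1 : n0 ≤ N / n := by
    rw [Nat.le_div_iff_mul_le (by omega)]
    nlinarith
  have h2 : N / n + 1 ≤ 2 * N := by
    have := Nat.div_le_self N n
    omega
  have h3 := hn0 (N / n + 1) N (by omega) h2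
  refine le_trans h3 ?_
  apply mul_le_mul_of_nonneg_right _ (by positivity)
  have h4 : ((N / n + 1 : ℕ) : ℝ) / N ≤ 2 / n := by
    rw [div_le_div_iff₀ hN0 hnpos]
    have h5 : n * (N / n) ≤ N := Nat.mul_div_le N n
    have h6 : (N / n + 1) * n ≤ 2 * N := by nlinarith
    exact_mod_cast h6
  have h5 : Real.sqrt (((N / n + 1 : ℕ) : ℝ) / N) ≤ Real.sqrt (2 / n) := Real.sqrt_le_sqrt h4
  rw [Real.sqrt_div (show (0:ℝ) ≤ 2 by norm_num) (n:ℝ)] at h5
  have h6 : Real.sqrt 2 ≤ 3/2 := by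
    rw [Real.sqrt_le_left (by norm_num)]; norm_num
  have hsn : 0 < Real.sqrt (n:ℝ) := Real.sqrt_pos.2 hnpos
  calc 6 * Real.sqrt (((N / n + 1 : ℕ) : ℝ) / N) ≤ 6 * (Real.sqrt 2 / Real.sqrt n) :=
        mul_le_mul_of_nonneg_left h5 (by norm_num)
    _ = (6 * Real.sqrt 2) / Real.sqrt n := by ring
    _ ≤ 9 / Real.sqrt n := by
        apply div_le_div_of_nonneg_right _ hsn.le
        linarith

/-- 916's `REG`. -/
theorem NDA.reg (H : Core T U) (h : NDA T U) : P2916.REG (wdC T U) := by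
  constructor
  · intro K
    obtain ⟨N0, hN0⟩ := eventually_atTop.1 ((wd_tendsto H).eventually (eventually_ge_atTop K))
    exact ⟨N0, hN0⟩
  · obtain ⟨n0, hn01, hn0⟩ := h.wd_reg2 H
    obtain ⟨n1, hn1⟩ := eventually_atTop.1 (h.wd_upper H 8 (by norm_num))
    have h8 : Real.sqrt ((8:ℕ):ℝ) ≤ 3 := by
      rw [Real.sqrt_le_left (by norm_num)]; norm_num
    refine ⟨9, max (8 * n0) (8 * n1), fun N hN n hn8 hn2 => ?_⟩
    have ha : 8 * n0 ≤ N := le_trans (le_max_left _ _) hN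
    have hb : 8 * n1 ≤ N := le_trans (le_max_right _ _) hN
    have hN1 : 1 ≤ N := by omega
    have hNpos : (0:ℝ) < N := by exact_mod_cast hN1
    constructor
    · have h1 : (wdC T U N : ℝ) ≤ wdC T U (8 * n) := by exact_mod_cast H.wd_mono hn8
      have h2 := hn1 n (by omega)
      have h3 : (0:ℝ) ≤ wdC T U n := by positivity
      nlinarith
    · have h1 := hn0 n N (by omega) hn2
      have h2 : Real.sqrt ((n:ℝ) / N) ≤ 3/2 := by
        rw [Real.sqrt_le_left (by norm_num), div_le_iff₀ hNpos]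
        have : (n:ℝ) ≤ 2 * N := by exact_mod_cast hn2
        linarith
      have h3 : (0:ℝ) ≤ wdC T U N := by positivity
      nlinarith

end

end Crest.Agent.R154.Hair738
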