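import Crest.Agent.R154.Theta_4
import Crest.Agent.R154.TubeObj_24
import Crest.Agent.R154.Scale_738

/-!
Row 154, d = 2 (D2.5, helper4).  **THETA, unconditional for iid elliptic environments** of `ℤ²` with
positive annealed escape, and the scale package of the object width
`wdO ν u i := wdJ (iidEnvironmentLaw ν) 0 0 u i`.
-/

set_option autoImplicit false
set_option linter.unusedSectionVars false
set_option linter.deprecated false

namespace Crest.Agent.R154.TubeLin4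

open MeasureTheory ProbabilityTheory Filter Set Crest.ProbabilityR.RandomEnvironment
open Crest.Agent.R154.Mk561 Crest.Agent.R154.Bind263 Crest.Agent.R154.B4Inst797
open Crest.Agent.R154.J132 Crest.Agent.R154.J6_24 Crest.Agent.R154.NDAObj24
open Crest.Agent.R154.Hair738 (T U Core NDA)
open Crest.Agent.R154.Flux132 (lev)
open scoped ENNReal Topology

section two
variable {u : Step 2} {i : Fin 2}

/-- the width of the row-154 object, `d = 2` -/
noncomputable abbrev wdO (ν : Measure (Row 2)) [IsProbabilityMeasure ν] (u : Step 2) (i : Fin 2) :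
    ℕ → ℕ := wdJ (iidEnvironmentLaw ν) 0 0 u i

variable (ν : Measure (Row 2)) [IsProbabilityMeasure ν]
    (hν : ∀ᵐ q ∂ν, ∀ e : Step 2, 0 < q.1 e) (hi : i ≠ u.1)
    (hA : annealedProb (iidEnvironmentLaw ν) 0 (escapeEvent (B2d.dirVec u)) ≠ 0)

include hν hi hA

lemma core_obj : Core (T (triL (iidEnvironmentLaw ν) 0 0 u (phi i)) Bt)
      (U (triL (iidEnvironmentLaw ν) 0 0 u (phi i)) Vt Bt) :=
  core_tri (frame_iid ν hν) hA hi

lemma one_le_wdO (N : ℕ) : 1 ≤ wdO ν u i N := one_le_wdJ (frame_iid ν hν) hA hi N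

lemma wdO_mono : Monotone (wdO ν u i) := fun _ _ h => (core_obj ν hν hi hA).wd_mono h

/-- 36's `ScaleP` for the object width -/
theorem scaleP_obj : D2V36.ScaleP (wdO ν u i) :=
  (nda_obj ν hν hi hA).scaleP (core_obj ν hν hi hA)

/-- 916's `REG` for the object width -/
theorem reg_obj : P2916.REG (wdO ν u i) := (nda_obj ν hν hi hA).reg (core_obj ν hν hi hA)

/-- the object width tends to infinity -/
theorem wdO_top (K : ℕ) : ∃ N0 : ℕ, ∀ N ≥ N0, K ≤ wdO ν u i N := (reg_obj ν hν hi hA).1 K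

/-- doubling -/
theorem wdO_two : ∃ N0 : ℕ, ∀ N ≥ N0, (wdO ν u i (2 * N) : ℝ) ≤ 6 * wdO ν u i N := by
  obtain ⟨N0, hN0⟩ := eventually_atTop.1
    ((nda_obj ν hν hi hA).wd_upper (core_obj ν hν hi hA) 4 (by norm_num))
  refine ⟨N0, fun N hN => ?_⟩
  have h1 := hN0 N hN
  have h2 : Real.sqrt ((4 : ℕ) : ℝ) = 2 := by
    rw [show (((4 : ℕ) : ℝ)) = 2 ^ 2 by norm_num, Real.sqrt_sq (by norm_num)]
  rw [h2] at h1
  have h3 : (wdO ν u i (2 * N) : ℝ) ≤ wdO ν u i (4 * N) := by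
    exact_mod_cast wdO_mono ν hν hi hA (by omega)
  calc (wdO ν u i (2 * N) : ℝ) ≤ wdO ν u i (4 * N) := h3
    _ ≤ 3 * (2 * wdO ν u i N) := h1
    _ = _ := by ring

/-- **THETA**: one real slope, every scale, every probability. -/
theorem theta_obj : ∃ θ : ℝ, ∀ ε : ℝ, 0 < ε → ∃ (A : ℝ) (N1 : ℕ), ∀ N, N1 ≤ N →
      1 - ε ≤ (stL (iidEnvironmentLaw ν) 0 u).real
        (TubeE u i N (A * wdO ν u i N) fun l => θ * l) :=
  theta_tube (frame_iid ν hν) hA hi (nda_obj ν hν hi hA)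

/-- **THETA with 28's `TubeP`** (the same slope) -/
theorem theta_tubeP : ∃ θ : ℝ, (∀ ε : ℝ, 0 < ε → ∃ (A : ℝ) (N1 : ℕ), ∀ N, N1 ≤ N →
      1 - ε ≤ (stL (iidEnvironmentLaw ν) 0 u).real
        (TubeE u i N (A * wdO ν u i N) fun l => θ * l)) ∧
    ∃ A p0 : ℝ, 0 < A ∧ 0 < p0 ∧ ∃ H0 : ℕ, ∀ H ≥ H0,
      ENNReal.ofReal p0 ≤ annealedProb (iidEnvironmentLaw ν) 0
      {X | ∃ n, lev u (X n) = (H : ℤ) ∧ ∀ j < n, 0 ≤ lev u (X j) ∧ lev u (X j) < (H : ℤ) ∧
        |P2916.sl u i θ (X j)| ≤ A * wdO ν u i H} := by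
  obtain ⟨θ, h⟩ := theta_obj ν hν hi hA
  exact ⟨θ, h, tubeP (frame_iid ν hν) hA (one_le_wdO ν hν hi hA) h⟩

end two

end Crest.Agent.R154.TubeLin4
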