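import Crest.Agent.R154.SlabP_28
import Crest.Agent.R154.ThetaFin_4

/-!
# Row 154, block d = 2 (helper28): `D2V36.SlabP` on the object width, no open input
-/

set_option autoImplicit false
set_option linter.unusedVariables false
set_option linter.unusedSectionVars false
set_option linter.deprecated false

namespace Crest.Agent.R154.SlabUse28

open MeasureTheory ProbabilityTheory Filter Topology Crest.ProbabilityR.RandomEnvironment
open Crest.Agent.R154 Crest.Agent.R154.B2d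
open Crest.Agent.R154.TubeLin4 Crest.Agent.R154.Mk561 Crest.Agent.R154.Bind263
  Crest.Agent.R154.B4Inst797 Crest.Agent.R154.J132 Crest.Agent.R154.J6_24
  Crest.Agent.R154.NDAObj24
open Crest.Agent.R154.Flux132 (lev)
open scoped ENNReal

/-- **THETA + SlabP** for the object width, same slope. -/
theorem theta_slabP (ν : Measure (Row 2)) [IsProbabilityMeasure ν]
    (hν : ∀ᵐ q ∂ν, ∀ e : Step 2, 0 < q.1 e) {u : Step 2} {i : Fin 2} (hi : i ≠ u.1)
    (hA : annealedProb (iidEnvironmentLaw ν) 0 (escapeEvent (B2d.dirVec u)) = 1) :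
    ∃ θ : ℝ, (∀ ε : ℝ, 0 < ε → ∃ (A : ℝ) (N1 : ℕ), ∀ N, N1 ≤ N →
      1 - ε ≤ (stL (iidEnvironmentLaw ν) 0 u).real
        (TubeE u i N (A * wdO ν u i N) fun l => θ * l)) ∧
      TubeP u i θ (iidEnvironmentLaw ν) (wdO ν u i) ∧
      D2V36.SlabP u i θ ν (wdO ν u i) := by
  have hA' : annealedProb (iidEnvironmentLaw ν) 0 (escapeEvent (B2d.dirVec u)) ≠ 0 := by
    rw [hA]; exact one_ne_zero
  obtain ⟨θ, h1, h2⟩ := theta_tubeP ν hν hi hA'
  have h3 : TubeP u i θ (iidEnvironmentLaw ν) (wdO ν u i) := h2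
  obtain ⟨N0, hN0⟩ := wdO_two ν hν hi hA'
  exact ⟨θ, h1, h3, slabP ν hν hi hA h3 ⟨0, fun N _ => one_le_wdO ν hν hi hA' N⟩
    ⟨6, N0, fun h hh => hN0 h hh⟩⟩

end Crest.Agent.R154.SlabUse28
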