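import Mathlib

/-! Row 154, `d = 2`, D2.10, half A: the difference of two independent natural walkers is spread at
the scale `wd N` at the last joint cut below level `N`.  Mathlib only. -/

set_option autoImplicit false
set_option linter.unusedSectionVars false

namespace Crest.Agent.R154.SpreadA

open MeasureTheory ProbabilityTheory Set Filter Finset
open scoped ENNReal Topology

/-! ### Rademacher sums, by counting -/

section rad

/-- signed sum: the indices of `t` are flipped -/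
noncomputable def sg (b : ℕ → ℝ) (n : ℕ) (t : Finset ℕ) : ℝ :=
  ∑ i ∈ range n, (if i ∈ t then - b i else b i)

lemma sg_succ_of_subset (b : ℕ → ℝ) {n : ℕ} {t : Finset ℕ} (ht : t ∈ (range n).powerset) :
    sg b (n + 1) t = sg b n t + b n := by
  have : n ∉ t := fun h => by
    have := mem_powerset.1 ht h
    simp at this
  unfold sg
  rw [sum_range_succ, if_neg this]

lemma sg_succ_insert (b : ℕ → ℝ) {n : ℕ} {t : Finset ℕ} :
    sg b (n + 1) (insert n t) = sg b n t - b n := by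
  unfold sg
  rw [sum_range_succ, if_pos (mem_insert_self n t)]
  have : ∀ i ∈ range n, (if i ∈ insert n t then - b i else b i) = if i ∈ t then - b i else b i := by
    intro i hi
    have hi' : i ≠ n := by
      have := mem_range.1 hi
      omega
    simp [hi']
  rw [sum_congr rfl this]
  ring

lemma sum_pow_succ (F : ℝ → ℝ) (b : ℕ → ℝ) (n : ℕ) :
    ∑ t ∈ (range (n + 1)).powerset, F (sg b (n + 1) t)
      = ∑ t ∈ (range n).powerset, (F (sg b n t + b n) + F (sg b n t - b n)) := by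
  rw [range_add_one, sum_powerset_insert (by simp), ← sum_add_distrib]
  refine sum_congr rfl fun t ht => ?_
  rw [sg_succ_of_subset b ht, sg_succ_insert]

/-- second moment -/
lemma mom2 (b : ℕ → ℝ) (n : ℕ) :
    ∑ t ∈ (range n).powerset, (sg b n t) ^ 2 = 2 ^ n * ∑ i ∈ range n, b i ^ 2 := by
  induction n with
  | zero => simp [sg]
  | succ n ih =>
    rw [sum_pow_succ (fun x => x ^ 2), sum_range_succ]
    have : ∀ t ∈ (range n).powerset, (sg b n t + b n) ^ 2 + (sg b n t - b n) ^ 2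
        = 2 * (sg b n t) ^ 2 + 2 * b n ^ 2 := fun t _ => by ring
    rw [sum_congr rfl this, sum_add_distrib, ← mul_sum, ih, sum_const, card_powerset, card_range,
      nsmul_eq_mul]
    push_cast
    ring

/-- fourth moment -/
lemma mom4 (b : ℕ → ℝ) (n : ℕ) :
    ∑ t ∈ (range n).powerset, (sg b n t) ^ 4 ≤ 2 ^ n * (3 * (∑ i ∈ range n, b i ^ 2) ^ 2) := by
  induction n with
  | zero => simp [sg]
  | succ n ih =>
    rw [sum_pow_succ (fun x => x ^ 4), sum_range_succ]
    have : ∀ t ∈ (range n).powerset, (sg b n t + b n) ^ 4 + (sg b n t - b n) ^ 4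
        = 2 * (sg b n t) ^ 4 + 12 * b n ^ 2 * (sg b n t) ^ 2 + 2 * b n ^ 4 := fun t _ => by ring
    rw [sum_congr rfl this, sum_add_distrib, sum_add_distrib, ← mul_sum, ← mul_sum, mom2, sum_const,
      card_powerset, card_range, nsmul_eq_mul]
    push_cast
    set q := ∑ i ∈ range n, b i ^ 2 with hq
    have h2 : (0 : ℝ) < 2 ^ n := by positivity
    have hb : 0 ≤ b n ^ 4 := by positivity
    have : 2 * ∑ t ∈ (range n).powerset, sg b n t ^ 4 ≤ 2 * (2 ^ n * (3 * q ^ 2)) := by linarith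
    have h3 : (2 : ℝ) ^ (n + 1) = 2 * 2 ^ n := by ring
    rw [h3]
    nlinarith [mul_nonneg h2.le hb]

/-- Paley-Zygmund by counting -/
lemma pz (b : ℕ → ℝ) (n : ℕ) :
    (2 : ℝ) ^ n / 12 ≤ (((range n).powerset.filter
      fun t => (∑ i ∈ range n, b i ^ 2) / 2 ≤ (sg b n t) ^ 2).card : ℝ) := by
  classical
  set q := ∑ i ∈ range n, b i ^ 2 with hq
  have hq0 : 0 ≤ q := Finset.sum_nonneg fun i _ => sq_nonneg _
  have h2 : (0 : ℝ) < 2 ^ n := by positivity
  set G := (range n).powerset.filter fun t => q / 2 ≤ (sg b n t) ^ 2 with hG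
  rcases hq0.lt_or_eq with hpos | hz
  · have e1 : ∑ t ∈ (range n).powerset, (sg b n t) ^ 2 ≤ ∑ t ∈ G, (sg b n t) ^ 2
        + 2 ^ n * (q / 2) := by
      rw [← sum_filter_add_sum_filter_not _ (fun t => q / 2 ≤ (sg b n t) ^ 2)]
      refine add_le_add le_rfl ?_
      calc ∑ t ∈ (range n).powerset.filter (fun t => ¬ q / 2 ≤ (sg b n t) ^ 2), (sg b n t) ^ 2
          ≤ ∑ _t ∈ (range n).powerset.filter (fun t => ¬ q / 2 ≤ (sg b n t) ^ 2), q / 2 := by
            refine Finset.sum_le_sum fun t ht => ?_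
            exact (not_le.1 (mem_filter.1 ht).2).le
        _ ≤ ∑ _t ∈ (range n).powerset, q / 2 :=
            Finset.sum_le_sum_of_subset_of_nonneg (filter_subset _ _) fun _ _ _ => by positivity
        _ = 2 ^ n * (q / 2) := by
            rw [sum_const, card_powerset, card_range, nsmul_eq_mul]
            push_cast
            ring
    rw [mom2] at e1
    have e2 : 2 ^ n * (q / 2) ≤ ∑ t ∈ G, (sg b n t) ^ 2 := by
      rw [← hq] at e1
      linarith
    have e3 : (∑ t ∈ G, (sg b n t) ^ 2) ^ 2 ≤ (G.card : ℝ) * (2 ^ n * (3 * q ^ 2)) := by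
      have := Finset.sum_mul_sq_le_sq_mul_sq G (fun _ => (1 : ℝ)) (fun t => (sg b n t) ^ 2)
      simp only [one_mul, one_pow, sum_const, nsmul_eq_mul, mul_one] at this
      refine this.trans ?_
      refine mul_le_mul_of_nonneg_left ?_ (Nat.cast_nonneg _)
      calc ∑ t ∈ G, ((sg b n t) ^ 2) ^ 2 = ∑ t ∈ G, (sg b n t) ^ 4 :=
            sum_congr rfl fun t _ => by ring
        _ ≤ ∑ t ∈ (range n).powerset, (sg b n t) ^ 4 :=
            Finset.sum_le_sum_of_subset_of_nonneg (filter_subset _ _) fun _ _ _ => by positivity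
        _ ≤ _ := mom4 b n
    have e4 : (2 ^ n * (q / 2)) ^ 2 ≤ (G.card : ℝ) * (2 ^ n * (3 * q ^ 2)) :=
      (pow_le_pow_left₀ (by positivity) e2 2).trans e3
    have e5 : (2 : ℝ) ^ n * (2 ^ n * (3 * q ^ 2)) / 12 ≤ (G.card : ℝ) * (2 ^ n * (3 * q ^ 2)) := by
      refine le_trans (le_of_eq ?_) e4
      ring
    have e6 : (0 : ℝ) < 2 ^ n * (3 * q ^ 2) := by positivity
    have e7 : ((2 : ℝ) ^ n / 12) * (2 ^ n * (3 * q ^ 2)) ≤ (G.card : ℝ) * (2 ^ n * (3 * q ^ 2)) := by
      refine le_trans (le_of_eq ?_) e5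
      ring
    exact le_of_mul_le_mul_right e7 e6
  · have : G = (range n).powerset := by
      refine filter_true_of_mem fun t _ => ?_
      rw [← hz]
      simp
      positivity
    rw [this, card_powerset, card_range]
    push_cast
    linarith

end rad

/-! ### the iid triples -/

/-- level of the `k`-th joint cut -/
def H (k : ℕ) (w : ℕ → ℝ × ℝ × ℕ) : ℕ := ∑ i ∈ range k, (w i).2.2

/-- increment of the difference up to the `k`-th joint cut -/
noncomputable def S (k : ℕ) (w : ℕ → ℝ × ℝ × ℕ) : ℝ := ∑ i ∈ range k, (w i).1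

/-- square sum -/
noncomputable def qs (k : ℕ) (w : ℕ → ℝ × ℝ × ℕ) : ℝ := ∑ i ∈ range k, (w i).1 ^ 2

@[fun_prop] lemma measurable_H (k : ℕ) : Measurable (H k) := by
  unfold H
  fun_prop

@[fun_prop] lemma measurable_S (k : ℕ) : Measurable (S k) := by
  unfold S
  fun_prop

@[fun_prop] lemma measurable_qs (k : ℕ) : Measurable (qs k) := by
  unfold qs
  fun_prop

/-- flip the signs in `t` -/
def fl (t : Finset ℕ) (w : ℕ → ℝ × ℝ × ℕ) (i : ℕ) : ℝ × ℝ × ℕ :=
  if i ∈ t then (-(w i).1, (w i).2) else w i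

lemma fl_snd (t : Finset ℕ) (w : ℕ → ℝ × ℝ × ℕ) (i : ℕ) : (fl t w i).2 = (w i).2 := by
  unfold fl
  split_ifs <;> rfl

lemma H_fl (t : Finset ℕ) (k : ℕ) (w : ℕ → ℝ × ℝ × ℕ) : H k (fl t w) = H k w := by
  unfold H
  exact sum_congr rfl fun i _ => by rw [fl_snd]

lemma S_fl (t : Finset ℕ) (k : ℕ) (w : ℕ → ℝ × ℝ × ℕ) :
    S k (fl t w) = sg (fun i => (w i).1) k t := by
  unfold S sg fl
  refine sum_congr rfl fun i _ => ?_
  split_ifs <;> rfl

variable {μ : Measure (ℝ × ℝ × ℕ)} [IsProbabilityMeasure μ]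

lemma map_fl (hsym : μ.map (fun e => (-e.1, e.2)) = μ) (t : Finset ℕ) :
    (Measure.infinitePi (fun _ : ℕ => μ)).map (fl t) = Measure.infinitePi (fun _ : ℕ => μ) := by
  have h := Measure.infinitePi_map_pi (μ := fun _ : ℕ => μ)
    (f := fun i e => if i ∈ t then (-e.1, e.2) else e) (fun i => by
      by_cases hi : i ∈ t
      · simp only [hi, if_true]
        fun_prop
      · simp only [hi, if_false]
        fun_prop)
  have e1 : (fun i : ℕ => μ.map (fun e : ℝ × ℝ × ℕ => if i ∈ t then (-e.1, e.2) else e))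
      = fun _ => μ := by
    funext i
    by_cases hi : i ∈ t
    · simp only [hi, if_true]
      exact hsym
    · simp only [hi, if_false]
      exact Measure.map_id
  have e2 : (fun (x : ℕ → ℝ × ℝ × ℕ) (i : ℕ) => if i ∈ t then (-(x i).1, (x i).2) else x i)
      = fl t := by
    funext x i
    rfl
  rw [e2] at h
  rw [h]
  congr 1
  

/-- the spread event -/
def Ev (a ε x : ℝ) (N : ℕ) : Set (ℕ → ℝ × ℝ × ℕ) :=
  {w | ∃ k ≤ N, H k w ≤ N ∧ N < H (k + 1) w ∧ a * x ≤ |S k w| ∧ (w k).2.1 ≤ ε * x}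

/-- the event of large square sum -/
def Gd (a ε x : ℝ) (N : ℕ) : Set (ℕ → ℝ × ℝ × ℕ) :=
  {w | ∃ k ≤ N, H k w ≤ N ∧ N < H (k + 1) w ∧ 2 * (a * x) ^ 2 ≤ qs k w ∧ (w k).2.1 ≤ ε * x}

lemma measurableSet_Ev (a ε x : ℝ) (N : ℕ) : MeasurableSet (Ev a ε x N) := by
  have : Ev a ε x N = ⋃ k ∈ {k : ℕ | k ≤ N}, {w | H k w ≤ N} ∩ {w | N < H (k + 1) w} ∩
      {w | a * x ≤ |S k w|} ∩ {w | (w k).2.1 ≤ ε * x} := by
    ext w
    simp only [Ev, mem_ofPred_eq, mem_iUnion, mem_inter_iff, exists_prop]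
    constructor
    · rintro ⟨k, h1, h2, h3, h4, h5⟩
      exact ⟨k, h1, ⟨⟨h2, h3⟩, h4⟩, h5⟩
    · rintro ⟨k, h1, ⟨⟨h2, h3⟩, h4⟩, h5⟩
      exact ⟨k, h1, h2, h3, h4, h5⟩
  rw [this]
  refine MeasurableSet.biUnion (Set.to_countable _) fun k _ => ?_
  refine (((measurableSet_le (by fun_prop) measurable_const).inter
    (measurableSet_lt measurable_const (by fun_prop))).inter
    (measurableSet_le measurable_const ?_)).inter
    (measurableSet_le (by fun_prop) measurable_const)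
  exact (measurable_S k).abs

lemma measurableSet_Gd (a ε x : ℝ) (N : ℕ) : MeasurableSet (Gd a ε x N) := by
  have : Gd a ε x N = ⋃ k ∈ {k : ℕ | k ≤ N}, {w | H k w ≤ N} ∩ {w | N < H (k + 1) w} ∩
      {w | 2 * (a * x) ^ 2 ≤ qs k w} ∩ {w | (w k).2.1 ≤ ε * x} := by
    ext w
    simp only [Gd, mem_ofPred_eq, mem_iUnion, mem_inter_iff, exists_prop]
    constructor
    · rintro ⟨k, h1, h2, h3, h4, h5⟩
      exact ⟨k, h1, ⟨⟨h2, h3⟩, h4⟩, h5⟩
    · rintro ⟨k, h1, ⟨⟨h2, h3⟩, h4⟩, h5⟩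
      exact ⟨k, h1, h2, h3, h4, h5⟩
  rw [this]
  refine MeasurableSet.biUnion (Set.to_countable _) fun k _ => ?_
  exact (((measurableSet_le (by fun_prop) measurable_const).inter
    (measurableSet_lt measurable_const (by fun_prop))).inter
    (measurableSet_le measurable_const (by fun_prop))).inter
    (measurableSet_le (by fun_prop) measurable_const)

lemma le_abs_of_sq {y z : ℝ} (h : y ^ 2 ≤ z ^ 2) : y ≤ |z| := by
  by_contra hc
  push Not at hc
  have h1 : |z| ^ 2 < y ^ 2 := pow_lt_pow_left₀ hc (abs_nonneg z) two_ne_zero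
  rw [sq_abs] at h1
  linarith

open Classical in
/-- pointwise count of the good sign vectors -/
lemma count_ge {a ε x : ℝ} {N : ℕ} {w : ℕ → ℝ × ℝ × ℕ} (hw : w ∈ Gd a ε x N) :
    (2 : ℝ) ^ (N + 1) / 12 ≤ (((range (N + 1)).powerset.filter
      fun t => fl t w ∈ Ev a ε x N).card : ℝ) := by
  obtain ⟨k, hk, h1, h2, h3, h4⟩ := hw
  set b : ℕ → ℝ := fun i => if i < k then (w i).1 else 0 with hb
  have hsub : range k ⊆ range (N + 1) := range_subset_range.2 (by omega)
  have hsg : ∀ t, sg b (N + 1) t = S k (fl t w) := by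
    intro t
    rw [S_fl]
    unfold sg
    symm
    refine (Finset.sum_congr rfl fun i hi => ?_).trans
      (Finset.sum_subset hsub fun i _ hi => ?_)
    · simp only [hb, if_pos (mem_range.1 hi)]
    · have : ¬ i < k := fun h => hi (mem_range.2 h)
      simp [hb, this]
  have hq : ∑ i ∈ range (N + 1), b i ^ 2 = qs k w := by
    unfold qs
    symm
    refine (Finset.sum_congr rfl fun i hi => ?_).trans
      (Finset.sum_subset hsub fun i _ hi => ?_)
    · simp only [hb, if_pos (mem_range.1 hi)]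
    · have : ¬ i < k := fun h => hi (mem_range.2 h)
      simp [hb, this]
  refine (pz b (N + 1)).trans ?_
  refine Nat.cast_le.2 (Finset.card_le_card ?_)
  intro t ht
  rw [mem_filter] at ht ⊢
  refine ⟨ht.1, k, hk, ?_, ?_, ?_, ?_⟩
  · rw [H_fl]; exact h1
  · rw [H_fl]; exact h2
  · rw [hq, hsg] at ht
    exact le_abs_of_sq (by linarith [ht.2])
  · rw [fl_snd]; exact h4

/-- **randomisation**: `P(spread) ≥ P(large square sum) / 12`. -/
lemma twelfth (hsym : μ.map (fun e => (-e.1, e.2)) = μ) (a ε x : ℝ) (N : ℕ) :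
    (Measure.infinitePi (fun _ : ℕ => μ)).real (Gd a ε x N) / 12
      ≤ (Measure.infinitePi (fun _ : ℕ => μ)).real (Ev a ε x N) := by
  classical
  set P := Measure.infinitePi (fun _ : ℕ => μ) with hP
  have hfl : ∀ t, Measurable (fl t) := by
    intro t
    refine measurable_pi_lambda _ fun i => ?_
    unfold fl
    by_cases hi : i ∈ t
    · simp only [hi, if_true]
      fun_prop
    · simp only [hi, if_false]
      fun_prop
  have h1 : ∀ t, P.real (fl t ⁻¹' Ev a ε x N) = P.real (Ev a ε x N) := by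
    intro t
    rw [Measure.real, Measure.real, ← Measure.map_apply (hfl t) (measurableSet_Ev a ε x N),
      map_fl hsym t]
  have h2 : ∫ w, ∑ t ∈ (range (N + 1)).powerset,
      (fl t ⁻¹' Ev a ε x N).indicator (fun _ => (1 : ℝ)) w ∂P
      = 2 ^ (N + 1) * P.real (Ev a ε x N) := by
    rw [integral_finsetSum _ fun t _ =>
      (integrable_const (1 : ℝ)).indicator ((hfl t) (measurableSet_Ev a ε x N))]
    have : ∀ t ∈ (range (N + 1)).powerset, ∫ w, (fl t ⁻¹' Ev a ε x N).indicator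
        (fun _ => (1 : ℝ)) w ∂P = P.real (Ev a ε x N) := by
      intro t _
      rw [integral_indicator ((hfl t) (measurableSet_Ev a ε x N)), setIntegral_const, smul_eq_mul,
        mul_one, h1]
    rw [sum_congr rfl this, sum_const, card_powerset, card_range, nsmul_eq_mul]
    push_cast
    ring
  have h3 : ∫ w, (Gd a ε x N).indicator (fun _ => (2 : ℝ) ^ (N + 1) / 12) w ∂P
      ≤ ∫ w, ∑ t ∈ (range (N + 1)).powerset,
        (fl t ⁻¹' Ev a ε x N).indicator (fun _ => (1 : ℝ)) w ∂P := by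
    refine integral_mono ((integrable_const _).indicator (measurableSet_Gd a ε x N))
      (integrable_finsetSum _ fun t _ =>
        (integrable_const (1 : ℝ)).indicator ((hfl t) (measurableSet_Ev a ε x N))) fun w => ?_
    dsimp only
    by_cases hw : w ∈ Gd a ε x N
    · rw [indicator_of_mem hw]
      refine (count_ge hw).trans ?_
      rw [card_filter]
      push_cast
      refine Finset.sum_le_sum fun t _ => ?_
      by_cases ht : fl t w ∈ Ev a ε x N
      · rw [if_pos ht, indicator_of_mem (show w ∈ fl t ⁻¹' Ev a ε x N from ht)]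
      · rw [if_neg ht, indicator_of_notMem (show w ∉ fl t ⁻¹' Ev a ε x N from ht)]
    · rw [indicator_of_notMem hw]
      exact Finset.sum_nonneg fun t _ => indicator_nonneg (fun _ _ => zero_le_one) _
  rw [h2, integral_indicator (measurableSet_Gd a ε x N), setIntegral_const, smul_eq_mul] at h3
  have h4 : (0 : ℝ) < 2 ^ (N + 1) := by positivity
  have h5 : 2 ^ (N + 1) * (P.real (Gd a ε x N) / 12) ≤ 2 ^ (N + 1) * P.real (Ev a ε x N) := by
    refine le_trans (le_of_eq ?_) h3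
    ring
  exact le_of_mul_le_mul_left h5 h4

/-! ### the square sum is large -/

/-- Markov for the heights -/
lemma H_markov (m N : ℕ) :
    (Measure.infinitePi (fun _ : ℕ => μ)) {w | N < H m w} * ((N : ℝ≥0∞) + 1)
      ≤ m * ∫⁻ e, (e.2.2 : ℝ≥0∞) ∂μ := by
  set P := Measure.infinitePi (fun _ : ℕ => μ) with hP
  have h1 : ∫⁻ w, (H m w : ℝ≥0∞) ∂P = m * ∫⁻ e, (e.2.2 : ℝ≥0∞) ∂μ := by
    have : ∀ w : ℕ → ℝ × ℝ × ℕ, (H m w : ℝ≥0∞) = ∑ i ∈ range m, ((w i).2.2 : ℝ≥0∞) := by
      intro w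
      unfold H
      push_cast
      rfl
    simp only [this]
    rw [lintegral_finsetSum _ fun i _ => by fun_prop]
    have h2 : ∀ i ∈ range m, ∫⁻ w, ((w i).2.2 : ℝ≥0∞) ∂P = ∫⁻ e, (e.2.2 : ℝ≥0∞) ∂μ := by
      intro i _
      have := (measurePreserving_eval_infinitePi (fun _ : ℕ => μ) i).lintegral_comp
        (f := fun e : ℝ × ℝ × ℕ => (e.2.2 : ℝ≥0∞)) (by fun_prop)
      exact this
    rw [sum_congr rfl h2, sum_const, card_range, nsmul_eq_mul]
  have h3 := mul_meas_ge_le_lintegral₀ (μ := P) (f := fun w => (H m w : ℝ≥0∞)) (by fun_prop)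
    ((N : ℝ≥0∞) + 1)
  rw [h1] at h3
  refine le_trans ?_ h3
  rw [mul_comm]
  refine mul_le_mul' le_rfl (measure_mono fun w hw => ?_)
  have : N + 1 ≤ H m w := hw
  have h4 : ((N + 1 : ℕ) : ℝ≥0∞) ≤ (H m w : ℝ≥0∞) := by exact_mod_cast this
  simpa using h4

/-- truncated square -/
noncomputable def Z (y : ℝ) (e : ℝ × ℝ × ℕ) : ℝ := if e.2.1 ≤ y then e.1 ^ 2 else 0

@[fun_prop] lemma measurable_Z (y : ℝ) : Measurable (Z y) := by
  unfold Z
  exact Measurable.ite (measurableSet_le (by fun_prop) measurable_const) (by fun_prop)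
    measurable_const

lemma Z_nonneg (y : ℝ) (e : ℝ × ℝ × ℕ) : 0 ≤ Z y e := by
  unfold Z
  split_ifs
  · exact sq_nonneg _
  · exact le_rfl

lemma Z_le_sq (y : ℝ) (e : ℝ × ℝ × ℕ) : Z y e ≤ e.1 ^ 2 := by
  unfold Z
  split_ifs
  · exact le_rfl
  · exact sq_nonneg _

lemma Z_le {y : ℝ} (hVB : ∀ᵐ e ∂μ, |e.1| ≤ e.2.1) : ∀ᵐ e ∂μ, Z y e ≤ y ^ 2 := by
  filter_upwards [hVB] with e he
  unfold Z
  split_ifs with h
  · have h1 : |e.1| ≤ y := he.trans h
    have h2 := pow_le_pow_left₀ (abs_nonneg e.1) h1 2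
    rwa [sq_abs] at h2
  · exact sq_nonneg _

lemma integral_Z (y : ℝ) : ∫ e, Z y e ∂μ = ∫ e in {e | e.2.1 ≤ y}, e.1 ^ 2 ∂μ := by
  rw [← integral_indicator (measurableSet_le (by fun_prop) measurable_const)]
  refine integral_congr_ae (Eventually.of_forall fun e => ?_)
  by_cases h : e.2.1 ≤ y
  · rw [indicator_of_mem (show e ∈ {e : ℝ × ℝ × ℕ | e.2.1 ≤ y} from h)]
    simp [Z, h]
  · rw [indicator_of_notMem (show e ∉ {e : ℝ × ℝ × ℕ | e.2.1 ≤ y} from h)]
    simp [Z, h]

lemma int_eval (i : ℕ) {g : ℝ × ℝ × ℕ → ℝ} (hg : Measurable g) :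
    ∫ w, g (w i) ∂(Measure.infinitePi (fun _ : ℕ => μ)) = ∫ e, g e ∂μ := by
  have h := integral_map (μ := Measure.infinitePi (fun _ : ℕ => μ))
    (φ := fun w : ℕ → ℝ × ℝ × ℕ => w i) (measurable_pi_apply i).aemeasurable (f := g)
    hg.aestronglyMeasurable
  rw [Measure.infinitePi_map_eval] at h
  exact h.symm

/-- **Chebyshev** for the truncated square sum. -/
lemma cheb {y : ℝ} (hVB : ∀ᵐ e ∂μ, |e.1| ≤ e.2.1) (m : ℕ)
    (hm : 0 < (m : ℝ) * ∫ e, Z y e ∂μ) :
    (Measure.infinitePi (fun _ : ℕ => μ)).real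
      {w | ∑ i ∈ range m, Z y (w i) ≤ m * (∫ e, Z y e ∂μ) / 2}
      ≤ 4 * y ^ 2 / (m * ∫ e, Z y e ∂μ) := by
  set P := Measure.infinitePi (fun _ : ℕ => μ) with hP
  set U := ∫ e, Z y e ∂μ with hU
  have hb := Z_le (y := y) hVB
  have hbi : ∀ i : ℕ, ∀ᵐ w ∂P, ‖Z y (w i)‖ ≤ y ^ 2 := by
    intro i
    have := (measurePreserving_eval_infinitePi (fun _ : ℕ => μ) i).quasiMeasurePreserving.ae hb
    filter_upwards [this] with w hw
    rw [Real.norm_eq_abs, abs_of_nonneg (Z_nonneg _ _)]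
    exact hw
  have hmem : ∀ i : ℕ, MemLp (fun w : ℕ → ℝ × ℝ × ℕ => Z y (w i)) 2 P := by
    intro i
    exact MemLp.of_bound ((measurable_Z y).comp (measurable_pi_apply i)).aestronglyMeasurable
      (y ^ 2) (hbi i)
  have hind : iIndepFun (fun (i : ℕ) (w : ℕ → ℝ × ℝ × ℕ) => Z y (w i)) P :=
    iIndepFun_infinitePi (P := fun _ : ℕ => μ) (X := fun _ => Z y) fun _ => measurable_Z y
  have hZi : Integrable (Z y) μ := by
    refine Integrable.mono' (integrable_const (y ^ 2)) (by fun_prop) ?_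
    filter_upwards [hb] with e he
    rw [Real.norm_eq_abs, abs_of_nonneg (Z_nonneg _ _)]
    exact he
  have hvar : variance (∑ i ∈ range m, fun w : ℕ → ℝ × ℝ × ℕ => Z y (w i)) P ≤ m * (y ^ 2 * U) := by
    rw [IndepFun.variance_sum (fun i _ => hmem i) (fun i _ j _ hij => hind.indepFun hij)]
    calc ∑ i ∈ range m, variance (fun w : ℕ → ℝ × ℝ × ℕ => Z y (w i)) P
        ≤ ∑ _i ∈ range m, y ^ 2 * U := by
          refine Finset.sum_le_sum fun i _ => ?_
          refine (variance_le_expectation_sq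
            ((measurable_Z y).comp (measurable_pi_apply i)).aestronglyMeasurable).trans ?_
          have h1 : ∫ w, ((fun w : ℕ → ℝ × ℝ × ℕ => Z y (w i)) ^ 2) w ∂P
              = ∫ e, (Z y e) ^ 2 ∂μ :=
            int_eval (μ := μ) i (g := fun e => (Z y e) ^ 2) ((measurable_Z y).pow_const 2)
          refine (le_of_eq h1).trans ?_
          rw [hU, ← integral_const_mul]
          refine integral_mono_ae ?_ (hZi.const_mul _) ?_
          · refine Integrable.mono' (integrable_const ((y ^ 2) ^ 2)) (by fun_prop) ?_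
            filter_upwards [hb] with e he
            rw [Real.norm_eq_abs, abs_of_nonneg (sq_nonneg _)]
            exact pow_le_pow_left₀ (Z_nonneg _ _) he 2
          · filter_upwards [hb] with e he
            have := Z_nonneg y e
            nlinarith
      _ = m * (y ^ 2 * U) := by
          rw [sum_const, card_range, nsmul_eq_mul]
  have hmean : ∫ w, (∑ i ∈ range m, fun w : ℕ → ℝ × ℝ × ℕ => Z y (w i)) w ∂P = m * U := by
    simp only [Finset.sum_apply]
    rw [integral_finsetSum _ fun i _ => (hmem i).integrable (by norm_num)]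
    rw [Finset.sum_congr rfl fun i _ => int_eval (μ := μ) i (measurable_Z y), sum_const,
      card_range, nsmul_eq_mul]
  have hM : MemLp (∑ i ∈ range m, fun w : ℕ → ℝ × ℝ × ℕ => Z y (w i)) 2 P :=
    memLp_finsetSum' _ fun i _ => hmem i
  have hc : 0 < (m : ℝ) * U / 2 := by positivity
  have h5 := meas_ge_le_variance_div_sq hM hc
  rw [hmean] at h5
  have h6 : P.real {w | ∑ i ∈ range m, Z y (w i) ≤ m * U / 2}
      ≤ variance (∑ i ∈ range m, fun w : ℕ → ℝ × ℝ × ℕ => Z y (w i)) P / ((m : ℝ) * U / 2) ^ 2 := by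
    have h7 : P {w | ∑ i ∈ range m, Z y (w i) ≤ m * U / 2}
        ≤ P {w | (m : ℝ) * U / 2 ≤
          |(∑ i ∈ range m, fun w : ℕ → ℝ × ℝ × ℕ => Z y (w i)) w - m * U|} := by
      refine measure_mono fun w hw => ?_
      have hw' : ∑ i ∈ range m, Z y (w i) ≤ m * U / 2 := hw
      simp only [mem_ofPred_eq, Finset.sum_apply]
      rw [abs_sub_comm]
      refine le_trans ?_ (le_abs_self _)
      linarith
    have h8 := h7.trans h5
    refine (ENNReal.toReal_mono ENNReal.ofReal_ne_top h8).trans (le_of_eq ?_)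
    exact ENNReal.toReal_ofReal (div_nonneg (variance_nonneg _ _) (sq_nonneg _))
  refine h6.trans ?_
  have hm0 : 0 < (m : ℝ) * U := hm
  rw [div_le_div_iff₀ (by positivity) hm0]
  calc variance (∑ i ∈ range m, fun w : ℕ → ℝ × ℝ × ℕ => Z y (w i)) P * (m * U)
      ≤ (m * (y ^ 2 * U)) * (m * U) := mul_le_mul_of_nonneg_right hvar hm0.le
    _ = 4 * y ^ 2 * (m * U / 2) ^ 2 := by ring

lemma H_mono (w : ℕ → ℝ × ℝ × ℕ) : Monotone fun k => H k w := by
  refine monotone_nat_of_le_succ fun k => ?_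
  unfold H
  rw [sum_range_succ]
  omega

lemma le_H {w : ℕ → ℝ × ℝ × ℕ} (hw : ∀ i, 1 ≤ (w i).2.2) (k : ℕ) : k ≤ H k w := by
  induction k with
  | zero => simp
  | succ k ih =>
    unfold H at ih ⊢
    rw [sum_range_succ]
    have := hw k
    omega

/-- the index of the block straddling level `N` -/
lemma exists_k {w : ℕ → ℝ × ℝ × ℕ} (hw : ∀ i, 1 ≤ (w i).2.2) {m N : ℕ} (hm : H m w ≤ N) :
    ∃ k ≤ N, m ≤ k ∧ H k w ≤ N ∧ N < H (k + 1) w := by
  classical
  have hex : ∃ k, N < H (k + 1) w := ⟨N, by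
    have := le_H hw (N + 1)
    omega⟩
  refine ⟨Nat.find hex, ?_, ?_, ?_, Nat.find_spec hex⟩
  · refine Nat.find_le ?_
    have := le_H hw (N + 1)
    omega
  · by_contra hlt
    push Not at hlt
    have h1 : H (Nat.find hex + 1) w ≤ H m w := H_mono w hlt
    have h2 := Nat.find_spec hex
    omega
  · rcases Nat.eq_zero_or_pos (Nat.find hex) with h0 | h0
    · rw [h0]
      simp [H]
    · obtain ⟨j, hj⟩ : ∃ j, Nat.find hex = j + 1 := ⟨Nat.find hex - 1, by omega⟩
      have := Nat.find_min hex (m := j) (by omega)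
      rw [hj]
      omega

/-- the square sum is large with probability at least `13 / 20` -/
lemma Gd_ge (hVB : ∀ᵐ e ∂μ, |e.1| ≤ e.2.1) (hR1 : ∀ᵐ e ∂μ, 1 ≤ e.2.2) {r c x ε : ℝ} (hr : 1 ≤ r)
    (hR : ∫⁻ e, (e.2.2 : ℝ≥0∞) ∂μ = ENNReal.ofReal r) (hc : 0 < c) (hx : 0 < x) {N : ℕ}
    (hN : 8 * r ≤ N) (hA2 : c * x ^ 2 ≤ N * ∫ e, Z (√(c / (640 * r)) * x) e ∂μ)
    (hA1 : (N : ℝ) * μ.real {e | ε * x < e.2.1} ≤ 1 / 40) :
    13 / 20 ≤ (Measure.infinitePi (fun _ : ℕ => μ)).real (Gd (√(c / (32 * r))) ε x N) := by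
  set P := Measure.infinitePi (fun _ : ℕ => μ) with hP
  set y := √(c / (640 * r)) * x with hy
  set U := ∫ e, Z y e ∂μ with hU
  set m := ⌊(N : ℝ) / (4 * r)⌋₊ with hm
  have hr0 : 0 < r := by linarith
  have hN0 : (0 : ℝ) < N := by linarith
  have hN1 : (1 : ℝ) ≤ N := by linarith
  have hm1 : (m : ℝ) ≤ N / (4 * r) := Nat.floor_le (by positivity)
  have hm2 : (N : ℝ) / (8 * r) ≤ m := by
    have h1 : (N : ℝ) / (4 * r) < m + 1 := Nat.lt_floor_add_one _
    have h2 : (N : ℝ) / (8 * r) + 1 ≤ N / (4 * r) := by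
      have h3 : (1 : ℝ) ≤ N / (8 * r) := by
        rw [le_div_iff₀ (by positivity)]
        linarith
      have h4 : (N : ℝ) / (4 * r) = N / (8 * r) + N / (8 * r) := by
        field_simp
        ring
      linarith
    linarith
  have hU0 : 0 < U := by
    have h1 : 0 < c * x ^ 2 := by positivity
    have h2 : 0 < (N : ℝ) * U := lt_of_lt_of_le h1 hA2
    exact (pos_iff_pos_of_mul_pos h2).1 hN0
  have hm0 : (0 : ℝ) < m := lt_of_lt_of_le (by positivity) hm2
  have hmU : c * x ^ 2 / (8 * r) ≤ m * U := by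
    calc c * x ^ 2 / (8 * r) ≤ N * U / (8 * r) := by gcongr
      _ = N / (8 * r) * U := by ring
      _ ≤ m * U := mul_le_mul_of_nonneg_right hm2 hU0.le
  -- bad events
  set b1 : Set (ℕ → ℝ × ℝ × ℕ) := {w | N < H m w} with hb1
  set b2 : Set (ℕ → ℝ × ℝ × ℕ) := {w | ∑ i ∈ range m, Z y (w i) ≤ m * U / 2} with hb2
  set b3 : Set (ℕ → ℝ × ℝ × ℕ) := ⋃ i ∈ range (N + 1), {w | ε * x < (w i).2.1} with hb3
  have p1 : P.real b1 ≤ 1 / 4 := by
    have h1 := H_markov (μ := μ) m N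
    rw [hR] at h1
    have h2 : P.real b1 * (N + 1) ≤ m * r := by
      have h3 := ENNReal.toReal_mono (ENNReal.mul_ne_top (ENNReal.natCast_ne_top m)
        ENNReal.ofReal_ne_top) h1
      rw [ENNReal.toReal_mul, ENNReal.toReal_mul, ENNReal.toReal_ofReal hr0.le,
        ENNReal.toReal_natCast, ENNReal.toReal_add (ENNReal.natCast_ne_top N) ENNReal.one_ne_top,
        ENNReal.toReal_natCast, ENNReal.toReal_one] at h3
      exact h3
    have h4 : (m : ℝ) * r ≤ N / 4 := by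
      calc (m : ℝ) * r ≤ N / (4 * r) * r := mul_le_mul_of_nonneg_right hm1 hr0.le
        _ = N / 4 := by field_simp
    have h5 : P.real b1 * (N + 1) ≤ 1 / 4 * (N + 1) := by linarith
    exact le_of_mul_le_mul_right h5 (by linarith)
  have p2 : P.real b2 ≤ 1 / 20 := by
    refine (cheb hVB m (by positivity)).trans ?_
    have hy2 : y ^ 2 = c / (640 * r) * x ^ 2 := by
      rw [hy, mul_pow, Real.sq_sqrt (by positivity)]
    rw [div_le_iff₀ (by positivity), hy2]
    calc 4 * (c / (640 * r) * x ^ 2) = 1 / 20 * (c * x ^ 2 / (8 * r)) := by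
          field_simp
          ring
      _ ≤ 1 / 20 * (m * U) := by linarith
  have p3 : P.real b3 ≤ 1 / 20 := by
    have h1 : P.real b3 ≤ ∑ i ∈ range (N + 1), P.real {w | ε * x < (w i).2.1} :=
      measureReal_biUnion_finset_le _ _
    have h2 : ∀ i ∈ range (N + 1), P.real {w : ℕ → ℝ × ℝ × ℕ | ε * x < (w i).2.1}
        = μ.real {e | ε * x < e.2.1} := by
      intro i _
      have h3 : MeasurableSet {e : ℝ × ℝ × ℕ | ε * x < e.2.1} :=
        measurableSet_lt measurable_const (by fun_prop)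
      have h4 := Measure.infinitePi_map_eval (fun _ : ℕ => μ) i
      have h5 : P {w : ℕ → ℝ × ℝ × ℕ | ε * x < (w i).2.1} = μ {e | ε * x < e.2.1} := by
        conv_rhs => rw [← h4, Measure.map_apply (measurable_pi_apply i) h3]
        rfl
      rw [Measure.real, Measure.real, h5]
    rw [sum_congr rfl h2, sum_const, card_range, nsmul_eq_mul] at h1
    refine h1.trans ?_
    push_cast
    have h6 : (0 : ℝ) ≤ μ.real {e | ε * x < e.2.1} := measureReal_nonneg
    nlinarith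
  have hae : ∀ᵐ w ∂P, ∀ i, 1 ≤ (w i).2.2 := by
    rw [ae_all_iff]
    intro i
    exact (measurePreserving_eval_infinitePi (fun _ : ℕ => μ) i).quasiMeasurePreserving.ae hR1
  have hsub : P.real univ ≤ P.real (Gd (√(c / (32 * r))) ε x N ∪ b1 ∪ b2 ∪ b3) := by
    refine ENNReal.toReal_mono (measure_ne_top _ _) (measure_mono_ae ?_)
    filter_upwards [hae] with w hw _
    by_contra hcon
    change w ∉ Gd (√(c / (32 * r))) ε x N ∪ b1 ∪ b2 ∪ b3 at hcon
    rw [Set.mem_union, Set.mem_union, Set.mem_union, not_or, not_or, not_or] at hcon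
    obtain ⟨⟨⟨c0, c1⟩, c2⟩, c3⟩ := hcon
    apply c0
    have c1' : H m w ≤ N := not_lt.1 c1
    obtain ⟨k, hk, hmk, hk1, hk2⟩ := exists_k hw c1'
    refine ⟨k, hk, hk1, hk2, ?_, ?_⟩
    · have c2' : m * U / 2 < ∑ i ∈ range m, Z y (w i) := not_le.1 c2
      have d1 : ∑ i ∈ range m, Z y (w i) ≤ qs k w := by
        unfold qs
        calc ∑ i ∈ range m, Z y (w i) ≤ ∑ i ∈ range m, (w i).1 ^ 2 :=
              Finset.sum_le_sum fun i _ => Z_le_sq y (w i)
          _ ≤ ∑ i ∈ range k, (w i).1 ^ 2 :=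
              Finset.sum_le_sum_of_subset_of_nonneg (range_subset_range.2 hmk)
                fun _ _ _ => sq_nonneg _
      have d2 : 2 * (√(c / (32 * r)) * x) ^ 2 = c * x ^ 2 / (8 * r) / 2 := by
        rw [mul_pow, Real.sq_sqrt (by positivity)]
        field_simp
        ring
      linarith
    · by_contra hB
      push Not at hB
      exact c3 (mem_biUnion (mem_range.2 (by omega)) hB)
  have hu : P.real univ = 1 := by simp
  have s1 := measureReal_union_le (μ := P) (Gd (√(c / (32 * r))) ε x N ∪ b1 ∪ b2) b3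
  have s2 := measureReal_union_le (μ := P) (Gd (√(c / (32 * r))) ε x N ∪ b1) b2
  have s3 := measureReal_union_le (μ := P) (Gd (√(c / (32 * r))) ε x N) b1
  rw [hu] at hsub
  linarith

/-- **D2.10, half A** (956's claim): the pair difference at the last joint cut below level `N` is at
least `a * wd N`, and the straddling block is thin, with probability at least `1 / 20`. -/
theorem spread (hsym : μ.map (fun e => (-e.1, e.2)) = μ) (hVB : ∀ᵐ e ∂μ, |e.1| ≤ e.2.1)
    (hR1 : ∀ᵐ e ∂μ, 1 ≤ e.2.2) (hR : ∫⁻ e, (e.2.2 : ℝ≥0∞) ∂μ ≠ ⊤) {wd : ℕ → ℝ}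
    (hwd : ∀ᶠ N in atTop, 0 < wd N)
    (A1 : ∀ ε > 0, Tendsto (fun N : ℕ => (N : ℝ) * μ.real {e | ε * wd N < e.2.1}) atTop (𝓝 0))
    (A2 : ∃ c > 0, ∀ ε > 0, ∀ᶠ N : ℕ in atTop,
      c * wd N ^ 2 ≤ N * ∫ e in {e | e.2.1 ≤ ε * wd N}, e.1 ^ 2 ∂μ) :
    ∃ a > 0, ∀ ε > 0, ∀ᶠ N : ℕ in atTop, 1 / 20 ≤ (Measure.infinitePi (fun _ : ℕ => μ)).real
      {w | ∃ k ≤ N, H k w ≤ N ∧ N < H (k + 1) w ∧ a * wd N ≤ |S k w| ∧
        (w k).2.1 ≤ ε * wd N} := by
  obtain ⟨c, hc, hA2⟩ := A2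
  set r := (∫⁻ e, (e.2.2 : ℝ≥0∞) ∂μ).toReal with hr
  have hR' : ∫⁻ e, (e.2.2 : ℝ≥0∞) ∂μ = ENNReal.ofReal r := (ENNReal.ofReal_toReal hR).symm
  have hr1 : 1 ≤ r := by
    have h1 : (1 : ℝ≥0∞) ≤ ∫⁻ e, (e.2.2 : ℝ≥0∞) ∂μ := by
      calc (1 : ℝ≥0∞) = ∫⁻ _e, 1 ∂μ := by simp
        _ ≤ _ := by
          refine lintegral_mono_ae ?_
          filter_upwards [hR1] with e he
          exact_mod_cast he
    have h2 := ENNReal.toReal_mono hR h1
    simpa using h2
  refine ⟨√(c / (32 * r)), Real.sqrt_pos.2 (by positivity), fun ε hε => ?_⟩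
  have hε' : 0 < √(c / (640 * r)) := Real.sqrt_pos.2 (by positivity)
  have e1 : ∀ᶠ N : ℕ in atTop, (N : ℝ) * μ.real {e | ε * wd N < e.2.1} < 1 / 40 :=
    (A1 ε hε).eventually (gt_mem_nhds (by norm_num))
  have e2 : ∀ᶠ N : ℕ in atTop, 8 * r ≤ (N : ℝ) :=
    tendsto_natCast_atTop_atTop.eventually (eventually_ge_atTop _)
  filter_upwards [hwd, hA2 _ hε', e1, e2] with N h0 h1 h2 h3
  rw [← integral_Z] at h1
  have h4 := Gd_ge hVB hR1 hr1 hR' hc h0 h3 h1 h2.le
  have h5 := twelfth hsym (√(c / (32 * r))) ε (wd N) N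
  change 1 / 20 ≤ (Measure.infinitePi (fun _ : ℕ => μ)).real (Ev (√(c / (32 * r))) ε (wd N) N)
  linarith

end Crest.Agent.R154.SpreadA
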