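import Crest.Agent.R154.ThetaFin_4
import Crest.Agent.R154.SpreadA_8

/-!
Row 154, d = 2 (D2.10, W2, helper4).  **SPREAD ON THE OBJECT**: the position of the natural walk at the
first hit of the level `N` is not concentrated at scale `wdO N` around any point; from the abstract
claim `SpreadA.spread` (8) applied to the joint blocks (132) and NDA (24, 738).
-/

set_option autoImplicit false
set_option linter.unusedSectionVars false
set_option linter.deprecated false

namespace Crest.Agent.R154.TubeLin4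

open MeasureTheory ProbabilityTheory Filter Set Crest.ProbabilityR.RandomEnvironment
open Crest.Agent.R154.Mk561 Crest.Agent.R154.Bind263 Crest.Agent.R154.B4Inst797
open Crest.Agent.R154.J132 Crest.Agent.R154.J6_24 Crest.Agent.R154.NDAObj24
open Crest.Agent.R154.Hair738 (T U Core NDA)
open Crest.Agent.R154.Ren263 (Word)
open Crest.Agent.R154.RenG263 (blks RegInf measurable_blks)
open scoped ENNReal Topology

section gen
variable {d : ℕ} {u : Step d} {κ : ℝ} {R : ℕ} {Q : Measure (Environment d)}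
  [IsProbabilityMeasure Q]

/-- (A1), (A2) of the spread lemma for the joint blocks, and its conclusion -/
theorem spread_tri (F : Frame Q κ R) (hA : annealedProb Q 0 (escapeEvent (B2d.dirVec u)) ≠ 0)
    {i : Fin d} (hi : i ≠ u.1)
    (hN : NDA (T (triL Q κ R u (phi i)) Bt) (U (triL Q κ R u (phi i)) Vt Bt)) :
    ∃ a : ℝ, 0 < a ∧ ∀ ε : ℝ, 0 < ε → ∀ᶠ N : ℕ in atTop, 1 / 20 ≤
      (Measure.infinitePi (fun _ : ℕ => triL Q κ R u (phi i))).real
      {w | ∃ k ≤ N, SpreadA.H k w ≤ N ∧ N < SpreadA.H (k + 1) w ∧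
        a * (wdJ Q κ R u i N : ℝ) ≤ |SpreadA.S k w| ∧ (w k).2.1 ≤ ε * (wdJ Q κ R u i N : ℝ)} := by
  have := probTri F hA (phi i)
  have H := core_tri F hA hi
  have hle := tri_le F hA (phi i)
  have hA2 : ∃ c : ℝ, c > 0 ∧ ∀ ε : ℝ, ε > 0 → ∀ᶠ N : ℕ in atTop,
      c * (wdJ Q κ R u i N : ℝ) ^ 2 ≤
        N * ∫ e in {e | e.2.1 ≤ ε * (wdJ Q κ R u i N : ℝ)}, e.1 ^ 2 ∂(triL Q κ R u (phi i)) := by
    refine ⟨1 / 512, by norm_num, fun ε hε => ?_⟩
    have h1 := hN.wd_sq_le H
    have h2 : ∀ᶠ w : ℝ in atTop, (1 : ℝ) / 2 < U (triL Q κ R u (phi i)) Vt Bt (ε * w) /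
        U (triL Q κ R u (phi i)) Vt Bt w :=
      (tendsto_order.1 (hN.slow_tendsto H ε hε)).1 _ (by norm_num)
    filter_upwards [h1, (Hair738.wd_tendstoR H).eventually h2,
      (Hair738.wd_tendstoR H).eventually (Hair738.ev_Upos H)] with N h1 h2 h3
    rw [lt_div_iff₀ h3] at h2
    have hNN : (0 : ℝ) ≤ N := Nat.cast_nonneg N
    have e : ∫ e in {e | e.2.1 ≤ ε * (wdJ Q κ R u i N : ℝ)}, e.1 ^ 2 ∂(triL Q κ R u (phi i))
        = U (triL Q κ R u (phi i)) Vt Bt
          (ε * (Hair738.wdC (T (triL Q κ R u (phi i)) Bt) (U (triL Q κ R u (phi i)) Vt Bt) N : ℝ)) := rfl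
    rw [e]
    have h4 := mul_le_mul_of_nonneg_left h2.le hNN
    have h1' : (wdJ Q κ R u i N : ℝ) ^ 2 ≤ 256 * (N * U (triL Q κ R u (phi i)) Vt Bt
      (Hair738.wdC (T (triL Q κ R u (phi i)) Bt) (U (triL Q κ R u (phi i)) Vt Bt) N : ℝ)) := h1
    linarith
  exact SpreadA.spread (μ := triL Q κ R u (phi i)) (wd := fun N => (wdJ Q κ R u i N : ℝ))
    (tri_symm F hA (phi i)) (hle.mono fun t h => h.1) (hle.mono fun t h => h.2)
    (tri_mean F hA (phi i))
    (Eventually.of_forall fun N => by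
      have := one_le_wdJ F hA hi N
      have h2 : 0 < wdJ Q κ R u i N := this
      exact_mod_cast h2)
    (fun ε hε => hN.hair H ε hε) hA2

lemma UW_phi (i : Fin d) {s : MPath d} (hs : s ∈ RegInf (rhoU u κ R)) {l n : ℕ}
    (hn : Hit u l n s) : UW u i i l (blks (rhoU u κ R) s) 0 = phi i (pos 0 s n) := by
  rw [← lat_Up i i hs l]
  unfold KB424.Up
  rw [B6I.hn_eq ((hit_iff' l s n).2 hn)]
  rfl

/-- **spread of the pair** -/
theorem spread_pair (F : Frame Q κ R) (hA : annealedProb Q 0 (escapeEvent (B2d.dirVec u)) ≠ 0)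
    {i : Fin d} (hi : i ≠ u.1)
    (hN : NDA (T (triL Q κ R u (phi i)) Bt) (U (triL Q κ R u (phi i)) Vt Bt)) :
    ∃ a : ℝ, 0 < a ∧ ∀ᶠ N : ℕ in atTop, 1 / 20 ≤ (pairL (muW Q κ R u)).real
      {p | a * (wdJ Q κ R u i N : ℝ) ≤ |UW u i i N p.1 0 - UW u i i N p.2 0|} := by
  have hW := probW F hA
  have hP := probPr F hA
  have hprob := probTri F hA (phi i)
  obtain ⟨a, ha, h⟩ := spread_tri F hA hi hN
  refine ⟨a / 2, by positivity, ?_⟩
  filter_upwards [h (a / 2) (by positivity)] with N hN'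
  set w : ℝ := (wdJ Q κ R u i N : ℝ) with hw
  refine hN'.trans ?_
  have hml : ∀ l, Measurable fun a : ℕ → Word (Mark d) => UW u i i l a 0 := fun l =>
    (measurable_pi_apply 0).comp ((posW u i i).meas l)
  have hC : MeasurableSet {p : (ℕ → Word (Mark d)) × (ℕ → Word (Mark d)) |
      a / 2 * w ≤ |UW u i i N p.1 0 - UW u i i N p.2 0|} :=
    measurableSet_le measurable_const
      (measurable_norm.comp (((hml N).comp measurable_fst).sub ((hml N).comp measurable_snd)))
  have hE := SpreadA.measurableSet_Ev a (a / 2) w N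
  have hmj : Measurable fun (π : MPath d × MPath d) (k : ℕ) => tri u (phi i) (jw u κ R k π) :=
    measurable_pi_lambda _ fun k => measurable_jw (tri u (phi i)) k
  change (Measure.infinitePi (fun _ : ℕ => jlawOf (tri u (phi i)) Q κ R u)).real
    (SpreadA.Ev a (a / 2) w N) ≤ _
  rw [← map_jw (tri u (phi i)) F hA, ← map_bp F hA, measureReal_def, measureReal_def,
    Measure.map_apply hmj hE, Measure.map_apply measurable_bp hC]
  refine ENNReal.toReal_mono (measure_ne_top _ _) (measure_mono_ae ?_)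
  filter_upwards [jg_ae F hA] with π hπ hE'
  obtain ⟨k, hk, h1, h2, h3, h4⟩ := hE'
  have hs1 : π.1 ∈ RegInf (rhoU u κ R) := hπ.1
  have hs2 : π.2 ∈ RegInf (rhoU u κ R) := hπ.2.1
  obtain ⟨n, hn⟩ := exists_hit_regInf hs1 N
  obtain ⟨m, hm⟩ := exists_hit_regInf hs2 N
  have e1 : SpreadA.H k (fun k => tri u (phi i) (jw u κ R k π)) = Hk u κ R k π := rfl
  have e2 : SpreadA.H (k + 1) (fun k => tri u (phi i) (jw u κ R k π)) = Hk u κ R (k + 1) π := rfl
  have e3 : SpreadA.S k (fun k => tri u (phi i) (jw u κ R k π)) = Sk (phi i) u κ R k π := rfl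
  have h5 := same_hit hπ (phi i) hn hm (e1 ▸ h1) (le_of_lt (e2 ▸ h2))
  have h3' : a * w ≤ |Sk (phi i) u κ R k π| := h3
  have h4' : Bj u (phi i) (jw u κ R k π) ≤ a / 2 * w := h4
  change a / 2 * w ≤ |UW u i i N (blks (rhoU u κ R) π.1) 0 - UW u i i N (blks (rhoU u κ R) π.2) 0|
  rw [UW_phi i hs1 hn, UW_phi i hs2 hm]
  have h6 := abs_sub_abs_le_abs_sub (Sk (phi i) u κ R k π)
    (phi i (pos 0 π.1 n) - phi i (pos 0 π.2 m))
  rw [abs_sub_comm (Sk (phi i) u κ R k π)] at h6
  linarith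

/-- **the field `spr`** -/
theorem spr_gen (F : Frame Q κ R) (hA : annealedProb Q 0 (escapeEvent (B2d.dirVec u)) ≠ 0)
    {i : Fin d} (hi : i ≠ u.1)
    (hN : NDA (T (triL Q κ R u (phi i)) Bt) (U (triL Q κ R u (phi i)) Vt Bt)) (θ : ℝ) :
    ∃ s p : ℝ, 0 < s ∧ 0 < p ∧ ∀ᶠ N : ℕ in atTop, p ≤ (iidL (muW Q κ R u)).real
      {a | s * (wdJ Q κ R u i N : ℝ) ≤ |UW u i i N a 0 - θ * N|} := by
  have hW := probW F hA
  obtain ⟨a, ha, h⟩ := spread_pair F hA hi hN
  refine ⟨a / 2, 1 / 40, by positivity, by norm_num, ?_⟩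
  filter_upwards [h] with N hN'
  set w : ℝ := (wdJ Q κ R u i N : ℝ) with hw
  set C : Set (ℕ → Word (Mark d)) := {b | a / 2 * w ≤ |UW u i i N b 0 - θ * N|} with hC
  have hml : Measurable fun a : ℕ → Word (Mark d) => UW u i i N a 0 :=
    (measurable_pi_apply 0).comp ((posW u i i).meas N)
  have hCm : MeasurableSet C := measurableSet_le measurable_const
    (measurable_norm.comp (hml.sub measurable_const))
  have hsub : {p : (ℕ → Word (Mark d)) × (ℕ → Word (Mark d)) |
      a * w ≤ |UW u i i N p.1 0 - UW u i i N p.2 0|} ⊆ C ×ˢ univ ∪ univ ×ˢ C := by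
    intro p hp
    by_contra hc
    simp only [mem_union, mem_prod, mem_univ, and_true, true_and, not_or, hC, mem_setOf_eq,
      not_le] at hc
    have hp' : a * w ≤ |UW u i i N p.1 0 - UW u i i N p.2 0| := hp
    have h1 : |UW u i i N p.1 0 - UW u i i N p.2 0|
        ≤ |UW u i i N p.1 0 - θ * N| + |UW u i i N p.2 0 - θ * N| := by
      have := abs_sub (UW u i i N p.1 0 - θ * N) (UW u i i N p.2 0 - θ * N)
      simpa using this
    linarith [hc.1, hc.2]
  have h1 := (measureReal_mono (μ := pairL (muW Q κ R u)) hsub).trans (measureReal_union_le _ _)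
  have e1 : (pairL (muW Q κ R u)).real (C ×ˢ univ) = (iidL (muW Q κ R u)).real C := by
    rw [measureReal_def, Measure.prod_prod, measure_univ, mul_one, measureReal_def]
  have e2 : (pairL (muW Q κ R u)).real (univ ×ˢ C) = (iidL (muW Q κ R u)).real C := by
    rw [measureReal_def, Measure.prod_prod, measure_univ, one_mul, measureReal_def]
  rw [e1, e2] at h1
  have := hN'.trans h1
  linarith

end gen

section two
variable {u : Step 2} {i : Fin 2}

/-- **956's field `spr` on the object** (W2), any slope -/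
theorem spr_obj (ν : Measure (Row 2)) [IsProbabilityMeasure ν]
    (hν : ∀ᵐ q ∂ν, ∀ e : Step 2, 0 < q.1 e) (hi : i ≠ u.1)
    (hA : annealedProb (iidEnvironmentLaw ν) 0 (escapeEvent (B2d.dirVec u)) ≠ 0) (θ : ℝ) :
    ∃ s p : ℝ, 0 < s ∧ 0 < p ∧ ∀ᶠ N : ℕ in atTop, p ≤
      (iidL (muW (iidEnvironmentLaw ν) 0 0 u)).real
      {a | s * (wdO ν u i N : ℝ) ≤ |UW u i i N a 0 - θ * N|} :=
  spr_gen (frame_iid ν hν) hA hi (nda_obj ν hν hi hA) θ

end two

end Crest.Agent.R154.TubeLin4
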