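import Crest.Agent.R154.RatioC_872
import Crest.Agent.R154.Bind_263
import Crest.Agent.R154.FluxDefs_132
import Crest.Agent.R154.Flux1_132

/-! Row 154, B8: the kernel system of the natural climbs of the marked walk (frame, range `R`). -/

set_option autoImplicit false
set_option linter.unusedSectionVars false
set_option linter.deprecated false

namespace Crest.Agent.R154.RatioR872

open MeasureTheory ProbabilityTheory Set Filter Crest.ProbabilityR.RandomEnvironment
open Crest.Agent.R154.Ren263 hiding lev
open Crest.Agent.R154.Mk561 Crest.Agent.R154.Q561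
open Crest.Agent.R154.Flux132 (lev lev_add lev_neg lev_zero)
open scoped ENNReal

variable {d : ℕ}

lemma lev_step_le (u e : Step d) : lev u (stepVec e) ≤ 1 := by
  unfold lev
  rcases e with ⟨i, b⟩
  by_cases h : i = u.1
  · subst h
    simp only [stepVec, Pi.single_eq_same]
    split_ifs <;> simp
  · have : stepVec ((i, b) : Step d) u.1 = 0 := by
      simp only [stepVec]
      exact Pi.single_eq_of_ne (Ne.symm h) _
    rw [this]
    split_ifs <;> simp

lemma lev_pos_succ_le (u : Step d) (x : Site d) (M : MPath d) (n : ℕ) :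
    lev u (pos x M (n + 1)) ≤ lev u (pos x M n) + 1 := by
  rw [pos_succ, lev_add]
  have := lev_step_le u (M n).1
  unfold stp
  omega

/-- **natural climb** from `x` to the level `b`, level `b` hit first at time `m`: the first `R`
letters are forced up, afterwards the levels are `≥ lev x + R` -/
def ClM (u : Step d) (R : ℕ) (x : Site d) (b : ℤ) (m : ℕ) : Set (MPath d) :=
  {M | lev u (pos x M m) = b ∧ (∀ i < m, lev u (pos x M i) < b) ∧
    (∀ i, i < m → i < R → M i = (u, true)) ∧
    ∀ i, R ≤ i → i ≤ m → lev u x + R ≤ lev u (pos x M i)}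

/-- natural climb with exit site `y` -/
def ClY (u : Step d) (R : ℕ) (x : Site d) (b : ℤ) (m : ℕ) (y : Site d) : Set (MPath d) :=
  {M | M ∈ ClM u R x b m ∧ pos x M m = y}

def Cl (u : Step d) (R : ℕ) (x : Site d) (b : ℤ) (y : Site d) : Set (MPath d) :=
  ⋃ m, ClY u R x b m y

def ClA (u : Step d) (R : ℕ) (x : Site d) (b : ℤ) : Set (MPath d) := ⋃ m, ClM u R x b m

section sets

variable (u : Step d) (R : ℕ)

lemma det_ClM (x : Site d) (b : ℤ) (m : ℕ) : Det m (ClM u R x b m) := by
  intro s s' h
  have hp : ∀ i ≤ m, pos x s i = pos x s' i := fun i hi => pos_congr x h hi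
  unfold ClM
  simp only [mem_setOf_eq]
  rw [hp m le_rfl]
  refine and_congr Iff.rfl (and_congr ?_ (and_congr ?_ ?_))
  · refine forall_congr' fun i => forall_congr' fun hi => ?_
    rw [hp i hi.le]
  · refine forall_congr' fun i => forall_congr' fun hi => ?_
    rw [h i hi]
  · refine forall_congr' fun i => forall_congr' fun _ => forall_congr' fun hi => ?_
    rw [hp i hi]

lemma det_ClY (x : Site d) (b : ℤ) (m : ℕ) (y : Site d) : Det m (ClY u R x b m y) := by
  intro s s' h
  have hp : pos x s m = pos x s' m := pos_congr x h le_rfl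
  unfold ClY
  simp only [mem_setOf_eq]
  rw [det_ClM u R x b m s s' h, hp]

lemma meas_ClY (x : Site d) (b : ℤ) (m : ℕ) (y : Site d) : MeasurableSet (ClY u R x b m y) :=
  (det_ClY u R x b m y).measurableSet

lemma meas_ClM (x : Site d) (b : ℤ) (m : ℕ) : MeasurableSet (ClM u R x b m) :=
  (det_ClM u R x b m).measurableSet

lemma meas_Cl (x : Site d) (b : ℤ) (y : Site d) : MeasurableSet (Cl u R x b y) :=
  MeasurableSet.iUnion fun m => meas_ClY u R x b m y

lemma meas_ClA (x : Site d) (b : ℤ) : MeasurableSet (ClA u R x b) :=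
  MeasurableSet.iUnion fun m => meas_ClM u R x b m

lemma ClM_unique {x : Site d} {b : ℤ} {m m' : ℕ} {M : MPath d} (h : M ∈ ClM u R x b m)
    (h' : M ∈ ClM u R x b m') : m = m' := by
  rcases lt_trichotomy m m' with hlt | heq | hlt
  · have := h'.2.1 m hlt
    have := h.1
    omega
  · exact heq
  · have := h.2.1 m' hlt
    have := h'.1
    omega

lemma disj_ClM (x : Site d) (b : ℤ) :
    Pairwise (Function.onFun Disjoint fun m => ClM u R x b m) := by
  intro m m' hne
  rw [Function.onFun, Set.disjoint_left]
  intro M h h'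
  exact hne (ClM_unique u R h h')

lemma disj_ClY (x : Site d) (b : ℤ) (y : Site d) :
    Pairwise (Function.onFun Disjoint fun m => ClY u R x b m y) := by
  intro m m' hne
  rw [Function.onFun, Set.disjoint_left]
  intro M h h'
  exact hne (ClM_unique u R h.1 h'.1)

lemma disj_Cl (x : Site d) (b : ℤ) :
    Pairwise (Function.onFun Disjoint fun y => Cl u R x b y) := by
  intro y y' hne
  rw [Function.onFun, Set.disjoint_left]
  intro M h h'
  obtain ⟨m, hm⟩ := mem_iUnion.1 h
  obtain ⟨m', hm'⟩ := mem_iUnion.1 h'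
  have := ClM_unique u R hm.1 hm'.1
  subst this
  exact hne (hm.2.symm.trans hm'.2)

lemma iUnion_Cl (x : Site d) (b : ℤ) : ⋃ y, Cl u R x b y = ClA u R x b := by
  ext M
  simp only [Cl, ClA, ClY, mem_iUnion, mem_setOf_eq]
  constructor
  · rintro ⟨y, m, h, _⟩
    exact ⟨m, h⟩
  · rintro ⟨m, h⟩
    exact ⟨_, m, h, rfl⟩

lemma Cl_lev {x : Site d} {b : ℤ} {y : Site d} (h : lev u y ≠ b) : Cl u R x b y = ∅ := by
  ext M
  simp only [Cl, ClY, mem_iUnion, mem_setOf_eq, mem_empty_iff_false, iff_false, not_exists]
  rintro m ⟨h1, h2⟩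
  exact h (h2 ▸ h1.1)

lemma ClM_read (x : Site d) (b : ℤ) (m : ℕ) :
    ClM u R x b m ⊆ RdB {z | lev u x + R ≤ lev u z ∧ lev u z < b} x m := by
  rintro M ⟨_, h2, h3, h4⟩ i hi hf
  refine ⟨?_, h2 i hi⟩
  refine h4 i ?_ hi.le
  by_contra hcon
  rw [not_le] at hcon
  rw [h3 i hi hcon] at hf
  exact absurd hf (by simp)

/-- composition of natural climbs -/
lemma ClM_comp {x : Site d} {b c : ℤ} (hbc : b ≤ c) {m m' : ℕ} {M : MPath d}
    (h : M ∈ ClM u R x b m) (h' : Ren263.shift m M ∈ ClM u R (pos x M m) c m') :
    M ∈ ClM u R x c (m + m') := by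
  obtain ⟨a1, a2, a3, a4⟩ := h
  obtain ⟨b1, b2, b3, b4⟩ := h'
  have hp : ∀ k, pos (pos x M m) (Ren263.shift m M) k = pos x M (m + k) :=
    fun k => pos_shift x M m k
  -- levels during the first `R` letters of the second climb
  have hup : ∀ k, k ≤ m' → k ≤ R → lev u (pos x M (m + k)) = b + k := by
    intro k
    induction k with
    | zero => intro _ _; simpa using a1
    | succ k ih =>
      intro h1 h2
      have e1 := ih (by omega) (by omega)
      have e2 : M (m + k) = (u, true) := b3 k (by omega) (by omega)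
      rw [← Nat.add_assoc, pos_succ, lev_add, e1, e2]
      have : lev u (stp ((u, true) : Mark d)) = 1 := Flux132.lev_step_self u
      rw [this]
      push_cast
      ring
  have hup0 : ∀ k, k ≤ m → k ≤ R → lev u (pos x M k) = lev u x + k := by
    intro k
    induction k with
    | zero => intro _ _; simp [pos_zero]
    | succ k ih =>
      intro h1 h2
      have e1 := ih (by omega) (by omega)
      have e2 : M k = (u, true) := a3 k (by omega) (by omega)
      rw [pos_succ, lev_add, e1, e2]
      have : lev u (stp ((u, true) : Mark d)) = 1 := Flux132.lev_step_self u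
      rw [this]
      push_cast
      ring
  refine ⟨?_, ?_, ?_, ?_⟩
  · rw [← hp m']; exact b1
  · intro i hi
    by_cases him : i < m
    · exact lt_of_lt_of_le (a2 i him) hbc
    · obtain ⟨k, rfl⟩ := Nat.exists_eq_add_of_le (not_lt.1 him)
      rw [← hp k]
      exact b2 k (by omega)
  · intro i hi hiR
    by_cases him : i < m
    · exact a3 i him hiR
    · obtain ⟨k, rfl⟩ := Nat.exists_eq_add_of_le (not_lt.1 him)
      exact b3 k (by omega) (by omega)
  · intro i hRi hi
    by_cases him : i ≤ m
    · exact a4 i hRi him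
    · obtain ⟨k, rfl⟩ := Nat.exists_eq_add_of_le (not_le.1 him).le
      by_cases hk : k ≤ R
      · rw [hup k (by omega) hk]
        by_cases hmR : R ≤ m
        · have := a4 m hmR le_rfl
          rw [a1] at this
          omega
        · have := hup0 m le_rfl (by omega)
          rw [a1] at this
          omega
      · have h5 := b4 k (by omega) (by omega)
        rw [hp k, a1] at h5
        by_cases hmR : R ≤ m
        · have := a4 m hmR le_rfl
          rw [a1] at this
          omega
        · have := hup0 m le_rfl (by omega)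
          rw [a1] at this
          omega

lemma ClA_anti {x : Site d} {b c : ℤ} (hb : lev u x ≤ b) (hbc : b ≤ c) :
    ClA u R x c ⊆ ClA u R x b := by
  rintro M hM
  obtain ⟨m, hm⟩ := mem_iUnion.1 hM
  obtain ⟨a1, a2, a3, a4⟩ := hm
  have hex : ∃ n, b ≤ lev u (pos x M n) := ⟨m, by rw [a1]; exact hbc⟩
  classical
  set n := Nat.find hex with hn
  have h1 : b ≤ lev u (pos x M n) := Nat.find_spec hex
  have h2 : ∀ i < n, lev u (pos x M i) < b := fun i hi => not_le.1 (Nat.find_min hex hi)
  have h3 : n ≤ m := Nat.find_le (by rw [a1]; exact hbc)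
  have h4 : lev u (pos x M n) = b := by
    rcases Nat.eq_zero_or_pos n with h0 | h0
    · rw [h0, pos_zero] at h1 ⊢
      omega
    · obtain ⟨k, hk⟩ : ∃ k, n = k + 1 := ⟨n - 1, by omega⟩
      have e1 := h2 k (by omega)
      have e2 := lev_pos_succ_le u x M k
      rw [hk] at h1 ⊢
      omega
  refine mem_iUnion.2 ⟨n, h4, h2, fun i hi hR => a3 i (by omega) hR,
    fun i hR hi => a4 i hR (by omega)⟩

lemma ClM_shift (x z : Site d) (b : ℤ) (m : ℕ) :
    ClM u R (x + z) (b + lev u z) m = ClM u R x b m := by
  ext M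
  unfold ClM
  simp only [mem_setOf_eq, pos_add, lev_add]
  refine and_congr (by omega) (and_congr ?_ (and_congr Iff.rfl ?_))
  · refine forall_congr' fun i => forall_congr' fun _ => ?_
    omega
  · refine forall_congr' fun i => forall_congr' fun _ => forall_congr' fun _ => ?_
    omega

lemma ClA_shift (x z : Site d) (b : ℤ) : ClA u R (x + z) (b + lev u z) = ClA u R x b := by
  unfold ClA
  simp_rw [ClM_shift]

end sets

section kernel

variable (u : Step d) (R : ℕ) (κ : ℝ)

/-- quenched mass of the natural climb from `x` to level `b` with exit site `y` -/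
noncomputable def gk (b : ℤ) (ω : Environment d) (x y : Site d) : ℝ≥0∞ :=
  mkLaw κ ω x (Cl u R x b y)

lemma gk_eq_tsum (b : ℤ) (ω : Environment d) (x y : Site d) :
    gk u R κ b ω x y = ∑' m, mkLaw κ ω x (ClY u R x b m y) :=
  measure_iUnion (disj_ClY u R x b y) fun m => meas_ClY u R x b m y

lemma tsum_gk (b : ℤ) (ω : Environment d) (x : Site d) :
    ∑' y, gk u R κ b ω x y = mkLaw κ ω x (ClA u R x b) := by
  rw [← iUnion_Cl, measure_iUnion (disj_Cl u R x b) fun y => meas_Cl u R x b y]
  rfl

lemma measurable_gk (b : ℤ) (x y : Site d) : Measurable fun ω => gk u R κ b ω x y :=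
  measurable_mk_apply κ x (meas_Cl u R x b y)

lemma locOn_gk (b : ℤ) (x y : Site d) :
    LocOn {z | lev u x + R ≤ lev u z ∧ lev u z < b} fun ω => gk u R κ b ω x y := by
  intro ω ω' h
  simp only [gk_eq_tsum]
  refine tsum_congr fun m => ?_
  exact mk_local_det κ h x (det_ClY u R x b m y) fun M hM => ClM_read u R x b m hM.1

lemma mkLaw_ClY_shift (ω : Environment d) (x : Site d) (b c : ℤ) (m : ℕ) (y z : Site d) :
    mkLaw κ ω x (ClY u R x b m y ∩ Ren263.shift m ⁻¹' Cl u R y c z)
      = mkLaw κ ω x (ClY u R x b m y) * gk u R κ c ω y z := by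
  rw [markov_det κ ω x (det_ClY u R x b m y) (meas_Cl u R y c z)]
  rw [setLIntegral_congr_fun (meas_ClY u R x b m y) (g := fun _ => gk u R κ c ω y z)]
  · rw [setLIntegral_const, mul_comm]
  · intro M hM
    have : pos x M m = y := hM.2
    simp only [this]
    rfl

/-- composition inequality -/
lemma gk_comp {b c : ℤ} (hbc : b ≤ c) (ω : Environment d) (x z : Site d) :
    ∑' y, gk u R κ b ω x y * gk u R κ c ω y z ≤ gk u R κ c ω x z := by
  have h1 : ∀ y, gk u R κ b ω x y * gk u R κ c ω y z
      = ∑' m, mkLaw κ ω x (ClY u R x b m y ∩ Ren263.shift m ⁻¹' Cl u R y c z) := by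
    intro y
    rw [gk_eq_tsum, ← ENNReal.tsum_mul_right]
    exact tsum_congr fun m => (mkLaw_ClY_shift u R κ ω x b c m y z).symm
  simp_rw [h1]
  rw [← ENNReal.tsum_prod]
  rw [← measure_iUnion (f := fun p : Site d × ℕ =>
    ClY u R x b p.2 p.1 ∩ Ren263.shift p.2 ⁻¹' Cl u R p.1 c z)]
  · refine measure_mono ?_
    refine iUnion_subset fun p => ?_
    rintro M ⟨hM1, hM2⟩
    obtain ⟨m', hm'⟩ := mem_iUnion.1 hM2
    have hy : pos x M p.2 = p.1 := hM1.2
    refine mem_iUnion.2 ⟨p.2 + m', ?_, ?_⟩
    · refine ClM_comp u R hbc hM1.1 ?_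
      rw [hy]
      exact hm'.1
    · rw [← pos_shift, hy]
      exact hm'.2
  · intro p q hpq
    rw [Function.onFun, Set.disjoint_left]
    rintro M ⟨hM, _⟩ ⟨hM', _⟩
    have h2 := ClM_unique u R hM.1 hM'.1
    have h3 : p.1 = q.1 := by rw [← hM.2, ← hM'.2, h2]
    exact hpq (Prod.ext h3 h2)
  · intro p
    exact (meas_ClY u R x b p.2 p.1).inter
      (Ren263.measurable_shift p.2 (meas_Cl u R p.1 c z))

end kernel

/-- rows below level `a` -/
def Fl (u : Step d) : Filtration ℕ (MeasurableSpace.pi : MeasurableSpace (Environment d)) where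
  seq a := coordSigmaAlgebra {z | lev u z < (a : ℤ)}
  mono' := by
    intro a b hab
    change coordSigmaAlgebra {z | lev u z < (a : ℤ)} ≤ coordSigmaAlgebra {z | lev u z < (b : ℤ)}
    rw [coord_eq_iSup, coord_eq_iSup]
    refine biSup_mono fun z hz => ?_
    have hz' : lev u z < (a : ℤ) := hz
    have : (a : ℤ) ≤ b := by exact_mod_cast hab
    exact lt_of_lt_of_le hz' this
  le' a := coord_le _

/-- annealed natural climb of height `n` -/
noncomputable def hn (u : Step d) (R : ℕ) (κ : ℝ) (Q : Measure (Environment d)) (n : ℕ) : ℝ≥0∞ :=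
  mkAnn κ Q 0 (ClA u R 0 n)

lemma sep_lev (u : Step d) (R : ℕ) (a : ℤ) :
    SepR R {z : Site d | lev u z < a} {z : Site d | a + R ≤ lev u z} := by
  intro z hz w hw
  refine ⟨u.1, ?_⟩
  simp only [mem_setOf_eq, lev] at hz hw
  split_ifs at hz hw
  · rw [abs_sub_comm, abs_of_pos (by omega)]; omega
  · rw [abs_of_pos (by omega)]; omega

/-- **the kernel system of the natural climbs** (levels in the direction `u`, range `R`, marks with
parameter `κ`), for any pair energy `K` with the second moment property. -/
noncomputable def kerSys (u : Step d) (R : ℕ) (κ : ℝ) (Q : Measure (Environment d))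
    [IsProbabilityMeasure Q] (hstat : ∀ z : Site d, MeasurePreserving (shiftEnv z) Q Q)
    (hR : IsFiniteRangeDependent Q R) (K : ℕ → ℕ → Site d → Site d → ℝ≥0∞)
    (hK : ∀ (a b : ℕ) (x x' : Site d), a ≤ b → lev u x = a → lev u x' = a →
      ∫⁻ ω, mkLaw κ ω x (ClA u R x b) * mkLaw κ ω x' (ClA u R x' b) ∂Q
        ≤ hn u R κ Q (b - a) ^ 2 + K a b x x') : KerSys (Site d) Q where
  F := Fl u
  H a := coordSigmaAlgebra {z | (a : ℤ) + R ≤ lev u z}
  H_le a := coord_le _
  indep a := indep_sep hR (sep_lev u R a)
  L a := {x | lev u x = a}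
  G a b ω x y := if lev u x = a then gk u R κ b ω x y else 0
  measF a b x y hab := by
    by_cases h : lev u x = a
    · simp only [h, if_true]
      refine measurable_coord (measurable_gk u R κ b x y) ?_
      exact (locOn_gk u R κ b x y).mono fun z hz => hz.2
    · simp only [h, if_false]
      exact @measurable_const _ _ _ (Fl u b) _
  measH a b x y hab := by
    by_cases h : lev u x = a
    · simp only [h, if_true]
      refine measurable_coord (measurable_gk u R κ b x y) ?_
      refine (locOn_gk u R κ b x y).mono fun z hz => ?_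
      have := hz.1
      rw [h] at this
      exact this
    · simp only [h, if_false]
      exact @measurable_const _ _ _ (coordSigmaAlgebra _) _
  supp a b ω x y hy := by
    have : Cl u R x b y = ∅ := Cl_lev u R hy
    simp [gk, this]
  mass a b ω x hab := by
    by_cases h : lev u x = a
    · simp only [h, if_true]
      rw [tsum_gk]
      exact prob_le_one
    · simp [h]
  anti a b c ω x hab hbc := by
    by_cases h : lev u x = a
    · simp only [h, if_true]
      rw [tsum_gk, tsum_gk]
      refine measure_mono (ClA_anti u R ?_ (by exact_mod_cast hbc))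
      rw [h]
      exact_mod_cast hab
    · simp [h]
  comp a b c hab hbc := by
    refine Eventually.of_forall fun ω x z => ?_
    by_cases h : lev u x = a
    · simp only [h, if_true]
      refine le_trans (ENNReal.tsum_le_tsum fun y => ?_)
        (gk_comp u R κ (b := b) (c := c) (by exact_mod_cast hbc) ω x z)
      split_ifs
      · exact le_rfl
      · rw [mul_zero]; exact zero_le
    · simp [h]
  h := hn u R κ Q
  h_eq a b x hab hx := by
    have h : lev u x = a := hx
    simp only [h, if_true]
    simp_rw [tsum_gk]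
    rw [← mkAnn_apply κ Q x (meas_ClA u R x b), mkAnn_stat hstat κ x, hn]
    congr 1
    have h2 := ClA_shift u R 0 x ((b - a : ℕ) : ℤ)
    rw [zero_add, h] at h2
    rw [← h2]
    congr 1
    push_cast [Nat.cast_sub hab]
    ring
  K := K
  second a b x x' hab hx hx' := by
    have h : lev u x = a := hx
    have h' : lev u x' = a := hx'
    simp only [h, h', if_true]
    simp_rw [tsum_gk]
    exact hK a b x x' hab h h'

end Crest.Agent.R154.RatioR872
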