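import Crest.Agent.R154.D2V_36
import Crest.Agent.R154.KerInst_872

/-! Row 154, `d = 2`, D2.11 (helper980): `(QE)` (916's literal) from 36's `LLN` and the annealed
window bound `WIN`, by Chebyshev. -/

set_option autoImplicit false
set_option linter.unusedSectionVars false
set_option linter.deprecated false

namespace Crest.Agent.R154.QE980

open MeasureTheory ProbabilityTheory Set Filter Crest.ProbabilityR.RandomEnvironment
open Crest.Agent.R154
open Crest.Agent.R154.Flux132 (lev lev_add lev_neg lev_zero)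
open Crest.Agent.R154.ExK9 Crest.Agent.R154.D2V36
open Crest.Agent.R154.River916 (Ev meas_Ev)
open Crest.Agent.R154.P2916 (sl Rg Tg Tp QE QT REG)
open scoped ENNReal NNReal

/-- **(WIN)**: annealed probability of the window `[a wd, b wd]` at the first hit of level `H`. -/
def WIN (u : Step 2) (i : Fin 2) (θ : ℝ) (Q : Measure (Environment 2)) (wd : ℕ → ℕ) : Prop :=
  ∀ a b : ℝ, a < b → ∃ c : ℝ, 0 < c ∧ ∃ H0 : ℕ, ∀ H ≥ H0,
    ENNReal.ofReal c ≤ annealedProb Q 0 (Ev {y | lev u y < (H : ℤ)} (Tg u i θ (wd H) a b H))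

section meas

variable (u : Step 2)

lemma meas_xT (l : ℕ) : Measurable (xT u l) := by
  refine measurable_to_countable' fun z => ?_
  have e : xT u l ⁻¹' {z} = ({X : Path 2 | exT (Sb u l) X = ⊤} ∩ {X | X 0 = z}) ∪
      ⋃ n : ℕ, ({X : Path 2 | exT (Sb u l) X = n} ∩ {X | X n = z}) := by
    ext X
    simp only [mem_preimage, mem_singleton_iff, mem_union, mem_inter_iff, mem_setOf_eq,
      mem_iUnion, xT]
    constructor
    · intro h
      rcases hX : exT (Sb u l) X with _ | n
      · left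
        refine ⟨rfl, ?_⟩
        rw [hX] at h
        exact h
      · right
        refine ⟨n, rfl, ?_⟩
        rw [hX] at h
        exact h
    · rintro (⟨h1, h2⟩ | ⟨n, h1, h2⟩)
      · rw [h1]; exact h2
      · rw [h1]; exact h2
  rw [e]
  have hstop : Measurable (exT (Sb u l)) := (isStop_exT (Sb u l)).measurable
  refine MeasurableSet.union ?_ (MeasurableSet.iUnion fun n => ?_)
  · exact (hstop (measurableSet_singleton _)).inter
      ((measurable_pi_apply (X := fun _ : ℕ => Site 2) 0) (Set.to_countable {z}).measurableSet)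
  · exact (hstop (measurableSet_singleton _)).inter
      ((measurable_pi_apply (X := fun _ : ℕ => Site 2) n) (Set.to_countable {z}).measurableSet)

lemma meas_PX {m : ℕ} (L : Fin m → ℕ) (χ : Fin m → Site 2 → ℝ) : Measurable (PX u L χ) := by
  unfold PX
  refine Finset.measurable_prod _ fun j _ => ?_
  exact (measurable_of_countable (χ j)).comp (meas_xT u (L j))

lemma PX_nonneg {m : ℕ} (L : Fin m → ℕ) {χ : Fin m → Site 2 → ℝ} (h : ∀ j z, 0 ≤ χ j z)
    (X : Path 2) : 0 ≤ PX u L χ X := Finset.prod_nonneg fun j _ => h j _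

lemma PX_le_one {m : ℕ} (L : Fin m → ℕ) {χ : Fin m → Site 2 → ℝ}
    (h : ∀ j z, 0 ≤ χ j z ∧ χ j z ≤ 1) (X : Path 2) : PX u L χ X ≤ 1 :=
  Finset.prod_le_one (fun j _ => (h j _).1) fun j _ => (h j _).2

lemma int_PX {m : ℕ} (L : Fin m → ℕ) {χ : Fin m → Site 2 → ℝ}
    (h : ∀ j z, 0 ≤ χ j z ∧ χ j z ≤ 1) (μ : Measure (Path 2)) [IsFiniteMeasure μ] :
    Integrable (PX u L χ) μ := by
  refine Integrable.of_bound (meas_PX u L χ).aestronglyMeasurable 1 (ae_of_all _ fun X => ?_)
  rw [Real.norm_eq_abs, abs_of_nonneg (PX_nonneg u L (fun j z => (h j z).1) X)]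
  exact PX_le_one u L h X

lemma meas_FE {m : ℕ} (L : Fin m → ℕ) (χ : Fin m → Site 2 → ℝ) (y : Site 2) :
    StronglyMeasurable fun ω => FE u L χ ω y := by
  have h : StronglyMeasurable fun ω => ∫ X, PX u L χ X ∂(Q561.qK y ω) :=
    StronglyMeasurable.integral_kernel (meas_PX u L χ).stronglyMeasurable
  exact h

lemma FE_nonneg {m : ℕ} (L : Fin m → ℕ) {χ : Fin m → Site 2 → ℝ}
    (h : ∀ j z, 0 ≤ χ j z ∧ χ j z ≤ 1) (ω : Environment 2) (y : Site 2) : 0 ≤ FE u L χ ω y :=
  integral_nonneg fun X => PX_nonneg u L (fun j z => (h j z).1) X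

lemma FE_le_one {m : ℕ} (L : Fin m → ℕ) {χ : Fin m → Site 2 → ℝ}
    (h : ∀ j z, 0 ≤ χ j z ∧ χ j z ≤ 1) (ω : Environment 2) (y : Site 2) : FE u L χ ω y ≤ 1 := by
  unfold FE
  calc ∫ X, PX u L χ X ∂(quenchedLaw ω y) ≤ ∫ _, (1 : ℝ) ∂(quenchedLaw ω y) :=
        integral_mono (int_PX u L h _) (integrable_const _) fun X => PX_le_one u L h X
    _ = 1 := by simp

lemma int_FE {m : ℕ} (L : Fin m → ℕ) {χ : Fin m → Site 2 → ℝ}
    (h : ∀ j z, 0 ≤ χ j z ∧ χ j z ≤ 1) (y : Site 2) (Q : Measure (Environment 2))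
    [IsFiniteMeasure Q] : Integrable (fun ω => FE u L χ ω y) Q := by
  refine Integrable.of_bound (meas_FE u L χ y).aestronglyMeasurable 1 (ae_of_all _ fun ω => ?_)
  rw [Real.norm_eq_abs, abs_of_nonneg (FE_nonneg u L h ω y)]
  exact FE_le_one u L h ω y

end meas

/-- the tent: `1` on `[a', b']`, `0` off `(a, b)`, `a' = a + s`, `b' = b - s`. -/
noncomputable def tent (a b s : ℝ) (x : ℝ) : ℝ := max 0 (min 1 (min ((x - a) / s) ((b - x) / s)))

lemma tent_nonneg (a b s x : ℝ) : 0 ≤ tent a b s x := le_max_left _ _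

lemma tent_le_one (a b s x : ℝ) : tent a b s x ≤ 1 :=
  max_le zero_le_one (min_le_left _ _)

lemma tent_one {a b s x : ℝ} (hs : 0 < s) (h1 : a + s ≤ x) (h2 : x ≤ b - s) :
    tent a b s x = 1 := by
  have h3 : 1 ≤ (x - a) / s := by rw [le_div_iff₀ hs]; linarith
  have h4 : 1 ≤ (b - x) / s := by rw [le_div_iff₀ hs]; linarith
  unfold tent
  rw [min_eq_left (le_min h3 h4)]
  exact max_eq_right zero_le_one

lemma tent_supp {a b s x : ℝ} (hs : 0 < s) (h : tent a b s x ≠ 0) : a ≤ x ∧ x ≤ b := by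
  have hpos : 0 < tent a b s x := lt_of_le_of_ne (tent_nonneg _ _ _ _) (Ne.symm h)
  unfold tent at hpos
  have h1 : 0 < min 1 (min ((x - a) / s) ((b - x) / s)) := by
    rcases lt_max_iff.1 hpos with h | h
    · exact absurd h (lt_irrefl _)
    · exact h
  have h2 : 0 < (x - a) / s := h1.trans_le ((min_le_right _ _).trans (min_le_left _ _))
  have h3 : 0 < (b - x) / s := h1.trans_le ((min_le_right _ _).trans (min_le_right _ _))
  have h4 := (div_pos_iff_of_pos_right hs).1 h2
  have h5 := (div_pos_iff_of_pos_right hs).1 h3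
  constructor <;> linarith

lemma abs_max_sub (c x y : ℝ) : |max c x - max c y| ≤ |x - y| := by
  have := abs_max_sub_max_le_abs x y c
  rwa [max_comm x c, max_comm y c] at this

lemma tent_lip {a b s : ℝ} (hs : 0 < s) (x y : ℝ) :
    |tent a b s x - tent a b s y| ≤ 1 / s * |x - y| := by
  have e1 : |(x - a) / s - (y - a) / s| = 1 / s * |x - y| := by
    rw [← sub_div, abs_div, abs_of_pos hs]
    rw [show x - a - (y - a) = x - y by ring]
    ring
  have e2 : |(b - x) / s - (b - y) / s| = 1 / s * |x - y| := by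
    rw [← sub_div, abs_div, abs_of_pos hs]
    rw [show b - x - (b - y) = -(x - y) by ring, abs_neg]
    ring
  unfold tent
  refine (abs_max_sub _ _ _).trans ?_
  refine (abs_min_sub_min_le_max _ _ _ _).trans (max_le ?_ ?_)
  · simp only [sub_self, abs_zero]; positivity
  · refine (abs_min_sub_min_le_max _ _ _ _).trans (max_le e1.le e2.le)

/-- first visit of level `H` -/
lemma lev_first {u : Step 2} {H : ℕ} {X : Path 2} (h0 : X 0 = 0)
    (hnn : ∀ n, ∃ e : Step 2, X (n + 1) = X n + stepVec e) {n : ℕ}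
    (hn : exT (Sb u H) X = n) : lev u (X n) = (H : ℤ) := by
  obtain ⟨h1, h2⟩ := exT_eq_iff.1 hn
  have h1' : (H : ℤ) ≤ lev u (X n) := not_lt.1 h1
  rcases n with _ | n
  · rw [h0, lev_zero] at h1' ⊢
    have : (0 : ℤ) ≤ H := Nat.cast_nonneg H
    omega
  · obtain ⟨e, he⟩ := hnn n
    have h3 : lev u (X n) < H := h2 n (Nat.lt_succ_self n)
    have h4 := RatioR872.lev_step_le u e
    rw [he, lev_add] at h1' ⊢
    omega

variable (u : Step 2) (i : Fin 2) (θ : ℝ) (ν : Measure (Row 2)) [IsProbabilityMeasure ν]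
  (wd : ℕ → ℕ)

theorem qe (hL : LLN u i θ ν wd) (hW : WIN u i θ (iidEnvironmentLaw ν) wd)
    (hwd : ∃ N1 : ℕ, ∀ N ≥ N1, 1 ≤ wd N) (hH : HitP u ν) :
    QE u i θ (iidEnvironmentLaw ν) wd := by
  intro a b hab
  set s : ℝ := (b - a) / 3 with hs
  have hs0 : 0 < s := by rw [hs]; linarith
  obtain ⟨c0, hc0, H1, hH1⟩ := hW (a + s) (b - s) (by rw [hs]; linarith)
  obtain ⟨N1, hN1⟩ := hwd
  refine ⟨c0 / 2, by positivity, fun ε hε => ?_⟩
  obtain ⟨H2, hH2⟩ := hL 1 (fun _ => tent a b s) (1 / s)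
    (fun _ x => ⟨tent_nonneg _ _ _ _, tent_le_one _ _ _ _⟩) (fun _ x y => tent_lip hs0 x y)
    (ε * (c0 / 2)) (by positivity)
  refine ⟨max (max H1 H2) N1, fun H hHH => ?_⟩
  have hHa : H1 ≤ H := (le_max_left _ _).trans ((le_max_left _ _).trans hHH)
  have hHb : H2 ≤ H := (le_max_right _ _).trans ((le_max_left _ _).trans hHH)
  have hHc : N1 ≤ H := (le_max_right _ _).trans hHH
  have hw : (0 : ℝ) < wd H := by exact_mod_cast hN1 H hHc
  have h3 := hH2 H hHb
  set χ : Fin 1 → Site 2 → ℝ := fun j z => tent a b s (sl u i θ z / wd H) with hχ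
  have hχ01 : ∀ j z, 0 ≤ χ j z ∧ χ j z ≤ 1 := fun j z => ⟨tent_nonneg _ _ _ _, tent_le_one _ _ _ _⟩
  set L : Fin 1 → ℕ := fun j : Fin 1 => ((j : ℕ) + 1) * H / 1 with hLd
  have hL0 : ∀ j, L j = H := by
    intro j
    have : (j : ℕ) = 0 := by omega
    simp [hLd]
  have hPX : ∀ X, PX u L χ X = tent a b s (sl u i θ (xT u H X) / wd H) := by
    intro X
    unfold PX
    rw [Fin.prod_univ_one, hL0]
  -- the quenched upper bound
  have hup : ∀ᵐ ω ∂(iidEnvironmentLaw ν), FE u L χ ω 0 ≤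
      (quenchedLaw ω 0 (Ev {y | lev u y < (H : ℤ)} (Tg u i θ (wd H) a b H))).toReal := by
    filter_upwards [hH] with ω hω
    have hE := meas_Ev {y : Site 2 | lev u y < (H : ℤ)} (Tg u i θ (wd H) a b H)
    have hae : ∀ᵐ X ∂(quenchedLaw ω 0), PX u L χ X ≤
        (Ev {y : Site 2 | lev u y < (H : ℤ)} (Tg u i θ (wd H) a b H)).indicator 1 X := by
      have h4 : ∀ᵐ X ∂(quenchedLaw ω 0), ¬ exT (Sb u H) X = ⊤ := by
        rw [ae_iff]
        simp only [not_not]
        exact hω H 0
      filter_upwards [h4, quenched_zero_eq ω 0, quenched_nn ω 0] with X h5 h6 h7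
      by_cases hX : X ∈ Ev {y : Site 2 | lev u y < (H : ℤ)} (Tg u i θ (wd H) a b H)
      · rw [indicator_of_mem hX]
        exact PX_le_one u L hχ01 X
      · rw [indicator_of_notMem hX, hPX]
        refine le_of_eq ?_
        by_contra hne
        obtain ⟨h8, h9⟩ := tent_supp hs0 hne
        obtain ⟨n, hn⟩ := ENat.ne_top_iff_exists.1 h5
        have h10 := lev_first h6 h7 hn.symm
        obtain ⟨h11, h12⟩ := exT_eq_iff.1 hn.symm
        have h13 : xT u H X = X n := by
          unfold xT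
          rw [← hn]
          rfl
        rw [h13] at h8 h9
        rw [le_div_iff₀ hw] at h8
        rw [div_le_iff₀ hw] at h9
        exact hX ⟨n, ⟨h10, h8, h9⟩, h12⟩
    calc FE u L χ ω 0 ≤ ∫ X, (Ev {y : Site 2 | lev u y < (H : ℤ)}
          (Tg u i θ (wd H) a b H)).indicator (1 : Path 2 → ℝ) X ∂(quenchedLaw ω 0) :=
          integral_mono_ae (int_PX u L hχ01 _) ((integrable_const (1 : ℝ)).indicator hE) hae
      _ = _ := by
          rw [integral_indicator_one hE]
          rfl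
  -- the annealed lower bound
  have hlow : c0 ≤ ∫ η, FE u L χ η 0 ∂(iidEnvironmentLaw ν) := by
    have hE := meas_Ev {y : Site 2 | lev u y < (H : ℤ)} (Tg u i θ (wd H) (a + s) (b - s) H)
    have hq : ∀ η : Environment 2, (quenchedLaw η 0 (Ev {y | lev u y < (H : ℤ)}
        (Tg u i θ (wd H) (a + s) (b - s) H))).toReal ≤ FE u L χ η 0 := by
      intro η
      have hpt : ∀ X, (Ev {y : Site 2 | lev u y < (H : ℤ)}
          (Tg u i θ (wd H) (a + s) (b - s) H)).indicator (1 : Path 2 → ℝ) X ≤ PX u L χ X := by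
        intro X
        by_cases hX : X ∈ Ev {y : Site 2 | lev u y < (H : ℤ)}
            (Tg u i θ (wd H) (a + s) (b - s) H)
        · rw [indicator_of_mem hX, hPX]
          obtain ⟨n, ⟨h5, h6, h7⟩, h8⟩ := hX
          have h9 : exT (Sb u H) X = n := exT_eq_iff.2 ⟨fun h => absurd h5 (ne_of_lt h), h8⟩
          have h13 : xT u H X = X n := by
            unfold xT
            rw [h9]
            rfl
          rw [h13, tent_one hs0 ((le_div_iff₀ hw).2 h6) ((div_le_iff₀ hw).2 h7)]
          exact le_refl 1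
        · rw [indicator_of_notMem hX]
          exact PX_nonneg u L (fun j z => (hχ01 j z).1) X
      calc (quenchedLaw η 0 (Ev {y | lev u y < (H : ℤ)}
            (Tg u i θ (wd H) (a + s) (b - s) H))).toReal
          = ∫ X, (Ev {y : Site 2 | lev u y < (H : ℤ)}
            (Tg u i θ (wd H) (a + s) (b - s) H)).indicator (1 : Path 2 → ℝ) X
              ∂(quenchedLaw η 0) := by
            rw [integral_indicator_one hE]
            rfl
        _ ≤ FE u L χ η 0 :=
            integral_mono ((integrable_const (1 : ℝ)).indicator hE) (int_PX u L hχ01 _) hpt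
    have h4 := hH1 H hHa
    have hm : Measurable fun η : Environment 2 => quenchedLaw η 0 (Ev {y | lev u y < (H : ℤ)}
        (Tg u i θ (wd H) (a + s) (b - s) H)) := Q561.measurable_quenched_apply 0 hE
    have h5 : annealedProb (iidEnvironmentLaw ν) 0 (Ev {y | lev u y < (H : ℤ)}
        (Tg u i θ (wd H) (a + s) (b - s) H)) ≤ ENNReal.ofReal
          (∫ η, FE u L χ η 0 ∂(iidEnvironmentLaw ν)) := by
      unfold annealedProb
      rw [ofReal_integral_eq_lintegral_ofReal (int_FE u L hχ01 0 _)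
        (ae_of_all _ fun η => FE_nonneg u L hχ01 η 0)]
      refine lintegral_mono fun η => ?_
      rw [← ENNReal.ofReal_toReal (measure_ne_top (quenchedLaw η 0) _)]
      exact ENNReal.ofReal_le_ofReal (hq η)
    have h6 := h4.trans h5
    exact (ENNReal.ofReal_le_ofReal_iff (integral_nonneg fun η => FE_nonneg u L hχ01 η 0)).1 h6
  -- Markov
  set m : ℝ := ∫ η, FE u L χ η 0 ∂(iidEnvironmentLaw ν) with hm
  have hint : Integrable (fun ω => |FE u L χ ω 0 - m|) (iidEnvironmentLaw ν) :=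
    ((int_FE u L hχ01 0 _).sub (integrable_const m)).abs
  have hmk := mul_meas_ge_le_integral_of_nonneg (ae_of_all _ fun ω => abs_nonneg _) hint (c0 / 2)
  have h7 : (iidEnvironmentLaw ν).real {ω | c0 / 2 ≤ |FE u L χ ω 0 - m|} ≤ ε := by
    have h8 : c0 / 2 * (iidEnvironmentLaw ν).real {ω | c0 / 2 ≤ |FE u L χ ω 0 - m|} ≤
        ε * (c0 / 2) := hmk.trans h3
    have h9 : 0 < c0 / 2 := by positivity
    nlinarith
  calc iidEnvironmentLaw ν {ω | quenchedLaw ω 0 (Ev {y | lev u y < (H : ℤ)}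
        (Tg u i θ (wd H) a b H)) < ENNReal.ofReal (c0 / 2)}
      ≤ iidEnvironmentLaw ν {ω | c0 / 2 ≤ |FE u L χ ω 0 - m|} := by
        refine measure_mono_ae ?_
        filter_upwards [hup] with ω hω hlt
        have h10 : (quenchedLaw ω 0 (Ev {y | lev u y < (H : ℤ)}
            (Tg u i θ (wd H) a b H))).toReal < c0 / 2 := by
          have h11 := (ENNReal.toReal_lt_toReal (measure_ne_top (quenchedLaw ω 0) _)
            ENNReal.ofReal_ne_top).2 hlt
          rwa [ENNReal.toReal_ofReal (by positivity)] at h11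
        show c0 / 2 ≤ |FE u L χ ω 0 - m|
        rw [abs_sub_comm, le_abs]
        left
        linarith
    _ = ENNReal.ofReal ((iidEnvironmentLaw ν).real {ω | c0 / 2 ≤ |FE u L χ ω 0 - m|}) :=
        (ENNReal.ofReal_toReal (measure_ne_top _ _)).symm
    _ ≤ ENNReal.ofReal ε := ENNReal.ofReal_le_ofReal h7

end Crest.Agent.R154.QE980
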