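import Crest.Agent.R154.WinB_956
import Crest.Agent.R154.ThetaFin_4
import Crest.Agent.R154.QE_980

/-!
# Row 154, `d = 2`, D2.10, part C: the object.  (helper956)

`dat` : the natural walk (132's letters, lateral coordinate `i`) is a `Dat` for 4's slope `θ` and the
width `wdO`; `win_of_spr` : 980's `WIN` from the spread of the natural walk.
-/

set_option autoImplicit false
set_option linter.unusedSectionVars false
set_option linter.deprecated false

namespace Crest.Agent.R154.Win956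

open MeasureTheory ProbabilityTheory Filter Topology Set Crest.ProbabilityR.RandomEnvironment
open Crest.Agent.R154.Mk561 Crest.Agent.R154.Bind263 Crest.Agent.R154.B4Inst797
open Crest.Agent.R154.J132 Crest.Agent.R154.J6_24 Crest.Agent.R154.NDAObj24
open Crest.Agent.R154.TubeLin4 (wdO core_obj one_le_wdO wdO_mono wdO_top wdO_two TubeE)
open Crest.Agent.R154.Ren263 (Word Stay measurableSet_Stay)
open Crest.Agent.R154.RenG263 (blks RegInf measurable_blks)
open Crest.Agent.R154.Flux132 (lev)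
open Crest.Agent.R154.River916 (Ev meas_Ev)
open Crest.Agent.R154.P2916 (sl Rg Tg Tp)
open scoped ENNReal

/-- lateral displacement of a letter -/
noncomputable def XL (i : Fin 2) (w : Word (Mark 2)) : ℝ := Vw i i w 0

/-- lateral position at the first hit of level `l` -/
noncomputable def xL (u : Step 2) (i : Fin 2) (l : ℕ) (a : ℕ → Word (Mark 2)) : ℝ := UW u i i l a 0

lemma meas_xL (u : Step 2) (i : Fin 2) (l : ℕ) : Measurable (xL u i l) :=
  (measurable_pi_apply 0).comp ((posW u i i).meas l)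

lemma cov_xL (u : Step 2) (i : Fin 2) (a : ℕ → Word (Mark 2)) (j l : ℕ) (h : H (Yw u) j a ≤ l) :
    xL u i l a = T (XL i) j a + xL u i (l - H (Yw u) j a) (J132.sh j a) := by
  have h1 := (posW u i i).cov a j l h
  have h2 := congrFun h1 0
  unfold xL
  rw [h2, Pi.add_apply]
  congr 1
  simp [Dd, T, XL]

section mean

variable {A : Type*} [MeasurableSpace A] [MeasurableSingletonClass A] [Countable A] [Inhabited A]
variable (μ : Measure A) [IsProbabilityMeasure μ]

/-- the mean height of a single letter is at most the one of a joint block -/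
theorem lint_Y {Y : A → ℕ} (hY : ∀ a, 1 ≤ Y a) :
    ∫⁻ a, (Y a : ℝ≥0∞) ∂μ ≤ ∑' m : ℕ, pairL μ (NoCut Y m) := by
  rw [lintegral_nat_eq_tsum μ (measurable_of_countable Y)]
  refine ENNReal.tsum_le_tsum fun m => ?_
  have hm : Measurable fun p : (ℕ → A) × (ℕ → A) => p.1 0 :=
    (measurable_pi_apply 0).comp measurable_fst
  have h1 : (pairL μ).map (fun p : (ℕ → A) × (ℕ → A) => p.1 0) = μ := by
    have e : (fun p : (ℕ → A) × (ℕ → A) => p.1 0) = (fun a : ℕ → A => a 0) ∘ Prod.fst := rfl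
    rw [e, ← Measure.map_map (measurable_pi_apply 0) measurable_fst, Measure.map_fst_prod,
      measure_univ, one_smul]
    exact Measure.infinitePi_map_eval (fun _ : ℕ => μ) 0
  have h2 : μ {a | m < Y a} = pairL μ {p | m < Y (p.1 0)} := by
    conv_lhs => rw [← h1]
    rw [Measure.map_apply hm (Set.to_countable _).measurableSet]
    rfl
  rw [h2]
  refine measure_mono ?_
  intro p hp l hl hlm hc
  simp only [mem_ofPred_eq] at hp
  obtain ⟨j, k, hj, hk⟩ := hc
  have hj1 : 1 ≤ j := by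
    rcases Nat.eq_zero_or_pos j with h | h
    · rw [h, H_zero] at hj; omega
    · exact h
  have h3 : H Y 1 p.1 ≤ H Y j p.1 := (H_strictMono hY p.1).monotone hj1
  have h4 : H Y 1 p.1 = Y (p.1 0) := by simp [H]
  omega

theorem int_Y {Y : A → ℕ} (hY : ∀ a, 1 ≤ Y a) (h : ∑' m : ℕ, pairL μ (NoCut Y m) ≠ ⊤) :
    Integrable (fun a => (Y a : ℝ)) μ := by
  refine ⟨(measurable_of_countable _).aestronglyMeasurable, ?_⟩
  rw [hasFiniteIntegral_iff_enorm]
  refine lt_of_le_of_lt ?_ (lt_of_le_of_lt (lint_Y μ hY) (lt_top_iff_ne_top.2 h))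
  refine le_of_eq (lintegral_congr fun a => ?_)
  rw [Real.enorm_eq_ofReal (Nat.cast_nonneg _), ENNReal.ofReal_natCast]

end mean

section two

variable {u : Step 2} {i : Fin 2} (ν : Measure (Row 2)) [IsProbabilityMeasure ν]
    (hν : ∀ᵐ q ∂ν, ∀ e : Step 2, 0 < q.1 e) (hi : i ≠ u.1)
    (hA : annealedProb (iidEnvironmentLaw ν) 0 (escapeEvent (B2d.dirVec u)) ≠ 0)

include hν hA

/-- position of the natural walk at the first hit of level `N` -/
lemma ae_hit (N : ℕ) : ∀ᵐ s ∂(stL (iidEnvironmentLaw ν) 0 u), ∃ n, Hit u N n s ∧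
    (pos 0 s n i : ℝ) = xL u i N (blks (rhoU u 0 0) s) := by
  have F := frame_iid ν hν
  filter_upwards [ae_regInfU F hA] with s hs
  obtain ⟨n, hn⟩ := exists_hit_regInf hs N
  refine ⟨n, hn, ?_⟩
  unfold xL
  have e : UW u i i N (blks (rhoU u 0 0) s) = UU u i i N s := (Uf_congr_ge i i hs).symm
  rw [e, (hit_eq i i hn).2]
  simp [lat]

/-- transfer of events -/
lemma real_le (N : ℕ) {S : Set ℝ} (hS : MeasurableSet S) {B : Set (MPath 2)}
    (h : ∀ s n, Hit u N n s → (pos 0 s n i : ℝ) ∈ S → s ∈ B) :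
    (iidL (muW (iidEnvironmentLaw ν) 0 0 u)).real {a | xL u i N a ∈ S}
      ≤ (stL (iidEnvironmentLaw ν) 0 u).real B := by
  have F := frame_iid ν hν
  have hst : IsProbabilityMeasure (stL (iidEnvironmentLaw ν) 0 u) :=
    cond_isProbabilityMeasure (F.hp _ hA)
  have hm : MeasurableSet {a | xL u i N a ∈ S} := meas_xL u i N hS
  rw [measureReal_def, measureReal_def, ← map_blksU F hA, Measure.map_apply (measurable_blks _) hm]
  refine ENNReal.toReal_mono (measure_ne_top _ _) (measure_mono_ae ?_)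
  filter_upwards [ae_hit (i := i) ν hν hA N] with s ⟨n, hn, hp⟩ hs
  refine h s n hn ?_
  rw [hp]; exact hs

lemma real_ge (N : ℕ) {S : Set ℝ} (hS : MeasurableSet S) {B : Set (MPath 2)}
    (h : ∀ s n, Hit u N n s → s ∈ B → (pos 0 s n i : ℝ) ∈ S) :
    (stL (iidEnvironmentLaw ν) 0 u).real B ≤
      (iidL (muW (iidEnvironmentLaw ν) 0 0 u)).real {a | xL u i N a ∈ S} := by
  have F := frame_iid ν hν
  have hst : IsProbabilityMeasure (stL (iidEnvironmentLaw ν) 0 u) :=
    cond_isProbabilityMeasure (F.hp _ hA)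
  have hm : MeasurableSet {a | xL u i N a ∈ S} := meas_xL u i N hS
  have e : (iidL (muW (iidEnvironmentLaw ν) 0 0 u)).real {a | xL u i N a ∈ S} =
      (stL (iidEnvironmentLaw ν) 0 u).real (blks (rhoU u 0 0) ⁻¹' {a | xL u i N a ∈ S}) := by
    rw [measureReal_def, measureReal_def, ← map_blksU F hA, Measure.map_apply (measurable_blks _) hm]
  rw [e, measureReal_def, measureReal_def]
  refine ENNReal.toReal_mono (measure_ne_top _ _) (measure_mono_ae ?_)
  filter_upwards [ae_hit (i := i) ν hν hA N] with s ⟨n, hn, hp⟩ hs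
  change xL u i N (blks (rhoU u 0 0) s) ∈ S
  rw [← hp]
  exact h s n hn hs

include hi

/-- the natural walk is a `Dat`, given its spread -/
theorem dat {θ : ℝ}
    (hθ : ∀ ε : ℝ, 0 < ε → ∃ (A : ℝ) (N1 : ℕ), ∀ N, N1 ≤ N →
      1 - ε ≤ (stL (iidEnvironmentLaw ν) 0 u).real
        (TubeE u i N (A * wdO ν u i N) fun l => θ * l))
    (hspr : ∃ s p : ℝ, 0 < s ∧ 0 < p ∧ ∀ᶠ N : ℕ in atTop,
      p ≤ (iidL (muW (iidEnvironmentLaw ν) 0 0 u)).real
        {a | s * (wdO ν u i N : ℝ) ≤ |UW u i i N a 0 - θ * N|}) :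
    Dat (muW (iidEnvironmentLaw ν) 0 0 u) (Yw u) (XL i) (xL u i) θ
      (fun N => (wdO ν u i N : ℝ)) := by
  have F := frame_iid ν hν
  have hW := probW F hA
  have hCore := core_obj ν hν hi hA
  have hN := nda_obj ν hν hi hA
  have hst : IsProbabilityMeasure (stL (iidEnvironmentLaw ν) 0 u) :=
    cond_isProbabilityMeasure (F.hp _ hA)
  refine ⟨one_le_Yw u, int_Y _ (one_le_Yw u) (sum_noCut_ne_top F hA), meas_xL u i,
    fun a j l h => cov_xL u i a j l h, ?_, ?_, ?_, ?_, ?_, hspr⟩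
  · intro a b hab
    exact Nat.cast_le.2 (wdO_mono ν hν hi hA hab)
  · refine tendsto_natCast_atTop_atTop.comp (tendsto_atTop.2 fun K => ?_)
    obtain ⟨N0, hN0⟩ := wdO_top ν hν hi hA K
    exact eventually_atTop.2 ⟨N0, hN0⟩
  · refine ⟨3, fun k hk => ?_⟩
    filter_upwards [hN.wd_upper hCore k hk] with N h
    have e : (3 : ℝ) * √(k : ℝ) * (wdO ν u i N : ℝ) = 3 * (√(k : ℝ) * (wdO ν u i N : ℝ)) := by ring
    rw [e]; exact h
  · intro δ hδ
    obtain ⟨K, hK⟩ := exists_nat_ge ((2 / δ) ^ 2 + 1)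
    have hK1r : (1 : ℝ) ≤ K := by nlinarith [sq_nonneg (2 / δ)]
    have hK1 : 1 ≤ K := by exact_mod_cast hK1r
    refine ⟨K, hK1, ?_⟩
    filter_upwards [hN.wd_lower hCore K hK1] with N h
    have h1 : 2 / δ ≤ √(K : ℝ) := Real.le_sqrt_of_sq_le (by linarith)
    have h2 : 2 ≤ √(K : ℝ) * δ := by rwa [div_le_iff₀ hδ] at h1
    have h3 : (0 : ℝ) ≤ wdO ν u i N := Nat.cast_nonneg _
    have h4 : (1 / 2) * (√(K : ℝ) * (wdO ν u i N : ℝ)) ≤ (wdO ν u i (K * N) : ℝ) := h
    calc (wdO ν u i N : ℝ) = 1 / 2 * (2 * (wdO ν u i N : ℝ)) := by ring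
      _ ≤ 1 / 2 * (√(K : ℝ) * δ * (wdO ν u i N : ℝ)) := by
          have := mul_le_mul_of_nonneg_right h2 h3
          linarith
      _ = δ * ((1 / 2) * (√(K : ℝ) * (wdO ν u i N : ℝ))) := by ring
      _ ≤ δ * (wdO ν u i (K * N) : ℝ) := mul_le_mul_of_nonneg_left h4 hδ.le
  · intro ε hε
    obtain ⟨A, N1, hA1⟩ := hθ ε hε
    obtain ⟨N2, hN2⟩ := wdO_two ν hν hi hA
    refine ⟨|A| * 6, ?_⟩
    filter_upwards [eventually_ge_atTop (max (max N1 N2) 1)] with N hNN
    have hN1 : N1 ≤ N + 1 := by omega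
    have hN2' : N2 ≤ N := by omega
    have hN3 : 1 ≤ N := by omega
    have h1 := hA1 (N + 1) hN1
    have h2 := hN2 N hN2'
    have h3 : (wdO ν u i (N + 1) : ℝ) ≤ wdO ν u i (2 * N) :=
      Nat.cast_le.2 (wdO_mono ν hν hi hA (by omega))
    have h4 : A * wdO ν u i (N + 1) ≤ |A| * 6 * wdO ν u i N := by
      calc A * wdO ν u i (N + 1) ≤ |A| * wdO ν u i (N + 1) :=
            mul_le_mul_of_nonneg_right (le_abs_self A) (Nat.cast_nonneg _)
        _ ≤ |A| * (6 * wdO ν u i N) := mul_le_mul_of_nonneg_left (h3.trans h2) (abs_nonneg _)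
        _ = _ := by ring
    have hS : MeasurableSet {t : ℝ | |t - θ * N| ≤ |A| * 6 * (wdO ν u i N : ℝ)} :=
      measurableSet_le (measurable_id.sub_const _).abs measurable_const
    have h5 := real_ge (i := i) ν hν hA N hS (B := TubeE u i (N + 1) (A * wdO ν u i (N + 1))
      fun l => θ * l) (by
        intro s n hn hT
        have h5 : zh u s n < ((N + 1 : ℕ) : ℤ) := by rw [hn.1]; push_cast; omega
        have h6 := hT n h5
        rw [hn.1] at h6
        simp only [Int.toNat_natCast] at h6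
        exact h6.trans h4)
    have hm : MeasurableSet {a | xL u i N a ∈ {t : ℝ | |t - θ * N| ≤
        |A| * 6 * (wdO ν u i N : ℝ)}} := meas_xL u i N hS
    have h6 : {a | |A| * 6 * (wdO ν u i N : ℝ) < |xL u i N a - θ * N|} =
        {a | xL u i N a ∈ {t : ℝ | |t - θ * N| ≤ |A| * 6 * (wdO ν u i N : ℝ)}}ᶜ := by
      ext a
      simp only [mem_ofPred_eq, mem_compl_iff, not_le]
    rw [h6, measureReal_compl hm, probReal_univ]
    linarith

/-- **980's `WIN`** from the spread of the natural walk -/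
theorem win_of_spr {θ : ℝ}
    (hθ : ∀ ε : ℝ, 0 < ε → ∃ (A : ℝ) (N1 : ℕ), ∀ N, N1 ≤ N →
      1 - ε ≤ (stL (iidEnvironmentLaw ν) 0 u).real
        (TubeE u i N (A * wdO ν u i N) fun l => θ * l))
    (hspr : ∃ s p : ℝ, 0 < s ∧ 0 < p ∧ ∀ᶠ N : ℕ in atTop,
      p ≤ (iidL (muW (iidEnvironmentLaw ν) 0 0 u)).real
        {a | s * (wdO ν u i N : ℝ) ≤ |UW u i i N a 0 - θ * N|}) :
    QE980.WIN u i θ (iidEnvironmentLaw ν) (wdO ν u i) := by
  intro α β hαβ
  have F := frame_iid ν hν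
  have hst : IsProbabilityMeasure (stL (iidEnvironmentLaw ν) 0 u) :=
    cond_isProbabilityMeasure (F.hp _ hA)
  have hW := probW F hA
  obtain ⟨c, hc, hev⟩ := (dat ν hν hi hA hθ hspr).window hαβ
  obtain ⟨N0, hN0⟩ := eventually_atTop.1 hev
  set P0 := mkAnn 0 (iidEnvironmentLaw ν) 0 (Stay (mht (B2d.dirVec u))) with hP0
  have hP0n : P0 ≠ 0 := F.hp _ hA
  have hP0t : P0 ≠ ⊤ := measure_ne_top _ _
  have hP0r : 0 < P0.toReal := ENNReal.toReal_pos hP0n hP0t
  refine ⟨P0.toReal * c, by positivity, N0, fun N hN => ?_⟩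
  set C : Set (Path 2) := Ev {y | lev u y < (N : ℤ)} (Tg u i θ (wdO ν u i N) α β N) with hC
  have hCm : MeasurableSet C := meas_Ev _ _
  have hS : MeasurableSet {t : ℝ | α * (wdO ν u i N : ℝ) ≤ t - θ * N ∧
      t - θ * N ≤ β * (wdO ν u i N : ℝ)} :=
    (measurableSet_le measurable_const (measurable_id.sub_const _)).inter
      (measurableSet_le (measurable_id.sub_const _) measurable_const)
  have h1 := real_le (i := i) ν hν hA N hS (B := mpath 0 ⁻¹' C) (by
    intro s n hn hs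
    refine ⟨n, ?_, fun j hj => ?_⟩
    · change pos 0 s n ∈ Tg u i θ (wdO ν u i N) α β N
      have h2 : lev u (pos 0 s n) = (N : ℤ) := by rw [J6_24.lev_pos]; exact hn.1
      refine ⟨h2, ?_, ?_⟩
      · unfold sl
        rw [h2]; exact_mod_cast hs.1
      · unfold sl
        rw [h2]; exact_mod_cast hs.2
    · change lev u (pos 0 s j) < (N : ℤ)
      rw [J6_24.lev_pos]; exact hn.2 j hj)
  have h2 : c ≤ (stL (iidEnvironmentLaw ν) 0 u).real (mpath 0 ⁻¹' C) := (hN0 N hN).trans h1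
  have h3 : stL (iidEnvironmentLaw ν) 0 u (mpath 0 ⁻¹' C) ≤
      P0⁻¹ * annealedProb (iidEnvironmentLaw ν) 0 C := by
    rw [stL, cond_apply (measurableSet_Stay _), ← F.prob_eq hCm]
    gcongr
    exact inter_subset_right
  have h4 : ENNReal.ofReal c ≤ stL (iidEnvironmentLaw ν) 0 u (mpath 0 ⁻¹' C) := by
    rw [← ENNReal.ofReal_toReal (measure_ne_top (stL (iidEnvironmentLaw ν) 0 u) _)]
    exact ENNReal.ofReal_le_ofReal h2
  rw [ENNReal.ofReal_mul hP0r.le, ENNReal.ofReal_toReal hP0t]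
  calc P0 * ENNReal.ofReal c ≤ P0 * (P0⁻¹ * annealedProb (iidEnvironmentLaw ν) 0 C) := by
        gcongr
        exact h4.trans h3
    _ = annealedProb (iidEnvironmentLaw ν) 0 C := by
        rw [← mul_assoc, ENNReal.mul_inv_cancel hP0n hP0t, one_mul]

end two

end Crest.Agent.R154.Win956
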