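import Crest.Agent.R154.D2Joint_244
import Crest.Agent.R154.D2WL_36
import Crest.Agent.R154.PhiE_215
import Crest.Agent.R154.OccN_2
import Crest.Agent.R154.SlabObj_28
import Crest.Agent.R154.WinC_956
import Crest.Agent.R154.SprObj_4

/-!
# Row 154, block `d = 2` (helper36): `TileD2` and `FL2Prop1` with no open input
-/

set_option autoImplicit false
set_option linter.unusedVariables false

namespace Crest.Agent.R154.D2Fin36

open MeasureTheory ProbabilityTheory Filter Crest.ProbabilityR.RandomEnvironment Crest.Agent.R154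
open Crest.Agent.R154.D2V36 Crest.Agent.R154.TubeLin4
open Crest.Agent.R154.NDAObj24 (wdJ)

/-- **everything at one slope** -/
theorem leaves (ν : Measure (Row 2)) [IsProbabilityMeasure ν] {κ : ℝ} (hκ : 0 < κ)
    (hν : ∀ᵐ p ∂ν, ∀ e : Step 2, κ ≤ p.1 e) (u : Step 2)
    (hu : annealed (iidEnvironmentLaw ν) 0 (escapeEvent (B2d.dirVec u)) = 1) (i : Fin 2)
    (hi : i ≠ u.1) :
    ∃ θ : ℝ, LLN u i θ ν (wdJ (iidEnvironmentLaw ν) 0 0 u i) ∧
      SlabP u i θ ν (wdJ (iidEnvironmentLaw ν) 0 0 u i) ∧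
      QE980.WIN u i θ (iidEnvironmentLaw ν) (wdJ (iidEnvironmentLaw ν) 0 0 u i) := by
  have hν' : ∀ᵐ p ∂ν, ∀ e : Step 2, 0 < p.1 e := hν.mono fun p hp e => hκ.trans_le (hp e)
  have hA1 : annealedProb (iidEnvironmentLaw ν) 0 (escapeEvent (B2d.dirVec u)) = 1 := by
    rw [← annealed_apply _ 0 (B2d.measurableSet_escapeEvent _), hu]
  have hA : annealedProb (iidEnvironmentLaw ν) 0 (escapeEvent (B2d.dirVec u)) ≠ 0 := by
    rw [hA1]
    exact one_ne_zero
  obtain ⟨θ, hT, hTP, hS⟩ := SlabUse28.theta_slabP ν hν' hi hA1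
  have hwd : Tendsto (wdO ν u i) atTop atTop := by
    refine tendsto_atTop.2 fun K => ?_
    obtain ⟨N0, hN0⟩ := wdO_top ν hν' hi hA K
    exact eventually_atTop.2 ⟨N0, hN0⟩
  have hO := OccN2.occP ν hκ hν hi hA1 θ
  have hL := lln hO (scaleP_obj ν hν' hi hA) hS (Phi215.residP ν u hu i θ) (Hit2569.hitP ν u hu) hwd
  exact ⟨θ, hL, hS, Win956.win_of_spr ν hν' hi hA hT (spr_obj ν hν' hi hA θ)⟩

/-- **`TileD2`: theorem** -/
theorem tileD2 : D2Asm244.TileD2 :=
  D2Joint244.tileD2_of_wdJ fun ν _ κ hκ hν u hu i hi => leaves ν hκ hν u hu i hi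

/-- **`FL2Prop1`: theorem** -/
theorem fl2 : Spine.FL2Prop1 := D1S.fl2_of_tile tileD2

end Crest.Agent.R154.D2Fin36
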