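import Crest.Agent.R154.TileD2C_980
import Crest.Agent.R154.P2Defs_916
import Crest.Agent.R154.D1Bind_569

/-! Row 154, `d = 2` (helper980): `(LAT)` from 916's `(QT)`, and the joint
`(P2 in 916's slanted frame) + QT ⟹ D2Asm244.TileD2 ⟹ Spine.FL2Prop1`. -/

set_option autoImplicit false
set_option linter.unusedSectionVars false
set_option linter.deprecated false

namespace Crest.Agent.R154.TileD2

open MeasureTheory ProbabilityTheory Set Filter Crest.ProbabilityR.RandomEnvironment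
open Crest.Agent.R154.Flux132 (lev lev_add lev_neg lev_zero)
open Crest.Agent.R154.P2916 (sl Rg Tg Tp QE QT REG)
open scoped ENNReal NNReal

lemma abs_coord_step (z : Site 2) (e : Step 2) (i : Fin 2) : |(z + stepVec e) i - z i| ≤ 1 := by
  rw [Pi.add_apply, add_sub_cancel_left]
  rcases e with ⟨j, b⟩
  by_cases h : i = j
  · subst h
    simp only [stepVec, Pi.single_eq_same]
    split_ifs <;> simp
  · have : stepVec ((j, b) : Step 2) i = 0 := by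
      simp only [stepVec]
      exact Pi.single_eq_of_ne h _
    rw [this]
    simp

lemma abs_lev_step (u : Step 2) (z : Site 2) (e : Step 2) :
    |lev u (z + stepVec e) - lev u z| ≤ 1 := by
  have h := abs_coord_step z e u.1
  unfold lev
  split_ifs
  · exact h
  · rw [← abs_neg]
    have : -(-(z + stepVec e) u.1 - -z u.1) = (z + stepVec e) u.1 - z u.1 := by ring
    rw [this]
    exact h

/-- a path which leaves the tube only through the top hits the top near the axis -/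
lemma top_near (u : Step 2) (i : Fin 2) (θ : ℝ) {A : ℝ} {g r N : ℕ} (hg : 1 ≤ g) (hN : 1 ≤ N)
    (hr : |A| + 2 + |θ| ≤ r) {X : Path 2} (h0 : X 0 = 0)
    (hnn : ∀ n, ∃ e : Step 2, X (n + 1) = X n + stepVec e)
    (hX : X ∈ River916.Ev {z | 0 ≤ lev u z ∧ lev u z < N}
      {y | lev u y = N ∧ ¬ |y i - ⌊θ * N⌋| ≤ (r : ℤ) * g}) :
    X ∉ River916.Ev (Rg u i θ g 1 A N) (Tp u N) := by
  rintro ⟨m, hm1, hm2⟩
  obtain ⟨n, ⟨hn1, hn2⟩, hn3⟩ := hX
  have hm1' : lev u (X m) = (N : ℤ) := hm1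
  have hmn : m = n := by
    rcases lt_trichotomy m n with h | h | h
    · exact absurd hm1' (hn3 m h).2.ne
    · exact h
    · exact absurd hn1 (hm2 n h).2.1.ne
  subst hmn
  have hpos : 0 < m := by
    rcases Nat.eq_zero_or_pos m with h | h
    · subst h
      rw [h0, lev_zero] at hm1'
      have : (1 : ℤ) ≤ N := by exact_mod_cast hN
      omega
    · exact h
  obtain ⟨k, rfl⟩ : ∃ k, m = k + 1 := ⟨m - 1, by omega⟩
  obtain ⟨e, he⟩ := hnn k
  have h1 := (hm2 k (Nat.lt_succ_self k)).2.2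
  have h2 := abs_coord_step (X k) e i
  have h3 := abs_lev_step u (X k) e
  rw [← he] at h2 h3
  apply hn2
  have hgR : (1 : ℝ) ≤ g := by exact_mod_cast hg
  have h2' : |((X (k + 1) i : ℤ) : ℝ) - (X k i : ℝ)| ≤ 1 := by exact_mod_cast h2
  have h3' : |((lev u (X (k + 1)) : ℤ) : ℝ) - (lev u (X k) : ℝ)| ≤ 1 := by exact_mod_cast h3
  rw [hm1'] at h3'
  have h4 : (⌊θ * N⌋ : ℝ) ≤ θ * N := Int.floor_le _
  have h5 : θ * N < (⌊θ * N⌋ : ℝ) + 1 := Int.lt_floor_add_one _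
  have h6 : |θ * ((N : ℤ) : ℝ) - θ * (lev u (X k) : ℝ)| ≤ |θ| := by
    rw [← mul_sub, abs_mul]
    calc |θ| * |((N : ℤ) : ℝ) - (lev u (X k) : ℝ)| ≤ |θ| * 1 :=
          mul_le_mul_of_nonneg_left h3' (abs_nonneg θ)
      _ = |θ| := mul_one _
  simp only [sl] at h1
  have h7 : |((X (k + 1) i : ℤ) : ℝ) - (⌊θ * N⌋ : ℝ)| ≤ |A| * g + 2 + |θ| := by
    have h8 : A * g ≤ |A| * g := mul_le_mul_of_nonneg_right (le_abs_self A) (Nat.cast_nonneg g)
    push_cast at h6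
    rw [abs_le] at h1 h2' h6 ⊢
    constructor <;> linarith
  have h9 : |A| * g + 2 + |θ| ≤ (r : ℝ) * g := by
    have h10 : (|A| + 2 + |θ|) * g ≤ (r : ℝ) * g :=
      mul_le_mul_of_nonneg_right hr (Nat.cast_nonneg g)
    have h11 : (0 : ℝ) ≤ |θ| := abs_nonneg θ
    nlinarith
  have h12 : |((X (k + 1) i : ℤ) : ℝ) - (⌊θ * N⌋ : ℝ)| ≤ (r : ℝ) * g := h7.trans h9
  exact_mod_cast h12

/-- **(LAT) from (QT).** -/
theorem lat_of_QT {Q : Measure (Environment 2)} [IsProbabilityMeasure Q] (u : Step 2) (i : Fin 2)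
    (θ : ℝ) (wd : ℕ → ℕ) (hwd : ∃ N1 : ℕ, ∀ N ≥ N1, 1 ≤ wd N) (h : QT u i θ Q wd) :
    LAT Q u i wd fun N => ⌊θ * N⌋ := by
  intro η hη
  obtain ⟨A, hA⟩ := h 1 one_pos (η / 2) (by positivity)
  obtain ⟨N0, hN0⟩ := hA (η / 2) (by positivity)
  obtain ⟨N1, hN1⟩ := hwd
  obtain ⟨r, hr⟩ := exists_nat_ge (|A| + 2 + |θ|)
  refine ⟨r, max (max N0 N1) 1, fun N hN => ?_⟩
  have hNa : N0 ≤ N := (le_max_left _ _).trans ((le_max_left _ _).trans hN)
  have hNb : N1 ≤ N := (le_max_right _ _).trans ((le_max_left _ _).trans hN)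
  have hNc : 1 ≤ N := (le_max_right _ _).trans hN
  set E : Set (Path 2) := River916.Ev {z | 0 ≤ lev u z ∧ lev u z < N}
      {y | lev u y = N ∧ ¬ |y i - ⌊θ * N⌋| ≤ (r : ℤ) * wd N} with hE
  set G : Set (Path 2) := River916.Ev (Rg u i θ (wd N) 1 A N) (Tp u N) with hG
  have hle : ∀ ω : Environment 2, quenchedLaw ω 0 E ≤ quenchedLaw ω 0 Gᶜ := by
    intro ω
    refine measure_mono_ae ?_
    filter_upwards [quenched_zero_eq ω 0, quenched_nn ω 0] with X h0 h1 hX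
    exact top_near u i θ (hN1 N hNb) hNc hr h0 h1 hX
  have hGm : MeasurableSet Gᶜ := (River916.meas_Ev _ _).compl
  have hm : Measurable fun ω : Environment 2 => quenchedLaw ω 0 Gᶜ :=
    Q561.measurable_quenched_apply 0 hGm
  unfold annealedProb
  calc ∫⁻ ω, quenchedLaw ω 0 E ∂Q ≤ ∫⁻ ω, quenchedLaw ω 0 Gᶜ ∂Q := lintegral_mono hle
    _ ≤ ENNReal.ofReal (η / 2) + Q {ω | ENNReal.ofReal (η / 2) < quenchedLaw ω 0 Gᶜ} := by
        refine Fin804.lintegral_le_add Q (measurableSet_lt measurable_const hm)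
          (fun ω => prob_le_one) fun ω hω => ?_
        simpa using hω
    _ ≤ ENNReal.ofReal (η / 2) + ENNReal.ofReal (η / 2) := add_le_add le_rfl (hN0 N hNa)
    _ = ENNReal.ofReal η := by
        rw [← ENNReal.ofReal_add (by positivity) (by positivity), add_halves]

/-! ### eventual width functions -/

lemma P2_congr {Q : Measure (Environment 2)} {u : Step 2} {i : Fin 2} {wd wd' : ℕ → ℕ}
    {D : ℕ → ℤ} {dr : ℕ → ℤ → ℤ} (hw : ∃ N1, ∀ N ≥ N1, wd' N = wd N) (h : P2 Q u i wd D dr) :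
    P2 Q u i wd' D dr := by
  obtain ⟨N1, hN1⟩ := hw
  obtain ⟨m, hm, k, h⟩ := h
  refine ⟨m, hm, k, fun ε hε => ?_⟩
  obtain ⟨N0, hN0⟩ := h ε hε
  refine ⟨max N0 N1, fun N hN => ?_⟩
  rw [hN1 N ((le_max_right _ _).trans hN)]
  exact hN0 N ((le_max_left _ _).trans hN)

lemma LAT_congr {Q : Measure (Environment 2)} {u : Step 2} {i : Fin 2} {wd wd' : ℕ → ℕ}
    {D : ℕ → ℤ} (hw : ∃ N1, ∀ N ≥ N1, wd' N = wd N) (h : LAT Q u i wd D) :
    LAT Q u i wd' D := by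
  obtain ⟨N1, hN1⟩ := hw
  intro η hη
  obtain ⟨r, N0, h⟩ := h η hη
  refine ⟨r, max N0 N1, fun N hN => ?_⟩
  rw [hN1 N ((le_max_right _ _).trans hN)]
  exact h N ((le_max_left _ _).trans hN)

/-- **JOINT**: `TileD2` from (P2) in the slanted frame and (QT). -/
theorem tileD2_of_P2_QT
    (H : ∀ (ν : Measure (Row 2)) [IsProbabilityMeasure ν] (κ : ℝ), 0 < κ →
      (∀ᵐ p ∂ν, ∀ e : Step 2, κ ≤ p.1 e) → ∀ u : Step 2,
      annealed (iidEnvironmentLaw ν) 0 (escapeEvent (B2d.dirVec u)) = 1 →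
      ∃ (i : Fin 2) (_ : i ≠ u.1) (θ : ℝ) (wd : ℕ → ℕ) (dr : ℕ → ℤ → ℤ),
        (∃ N1, ∀ N ≥ N1, 1 ≤ wd N) ∧
        P2 (iidEnvironmentLaw ν) u i wd (fun N => ⌊θ * N⌋) dr ∧
        QT u i θ (iidEnvironmentLaw ν) wd) : D2Asm244.TileD2 := by
  refine tileD2_of fun ν _ κ hκ hν u hu => ?_
  obtain ⟨i, hi, θ, wd, dr, ⟨N1, hN1⟩, hP, hT⟩ := H ν κ hκ hν u hu
  have hw : ∃ N1, ∀ N ≥ N1, (fun N => max (wd N) 1) N = wd N :=
    ⟨N1, fun N hN => max_eq_left (hN1 N hN)⟩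
  exact ⟨i, hi, fun N => max (wd N) 1, fun N => ⌊θ * N⌋, dr, fun N => le_max_right _ _,
    P2_congr hw hP, LAT_congr hw (lat_of_QT u i θ wd ⟨N1, hN1⟩ hT)⟩

/-- `FL2Prop1` from (P2) and (QT). -/
theorem fl2_of_P2_QT
    (H : ∀ (ν : Measure (Row 2)) [IsProbabilityMeasure ν] (κ : ℝ), 0 < κ →
      (∀ᵐ p ∂ν, ∀ e : Step 2, κ ≤ p.1 e) → ∀ u : Step 2,
      annealed (iidEnvironmentLaw ν) 0 (escapeEvent (B2d.dirVec u)) = 1 →
      ∃ (i : Fin 2) (_ : i ≠ u.1) (θ : ℝ) (wd : ℕ → ℕ) (dr : ℕ → ℤ → ℤ),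
        (∃ N1, ∀ N ≥ N1, 1 ≤ wd N) ∧
        P2 (iidEnvironmentLaw ν) u i wd (fun N => ⌊θ * N⌋) dr ∧
        QT u i θ (iidEnvironmentLaw ν) wd) : Spine.FL2Prop1 :=
  D1S.fl2_of_tile (tileD2_of_P2_QT H)

end Crest.Agent.R154.TileD2
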