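import Crest.Agent.R154.TileD2B_980
import Crest.Agent.R154.D2Asm_244
import Crest.Agent.R154.River_916

/-! Row 154, `d = 2` (helper980): the tile input `D2Asm244.TileD2` from two Props on the UNMARKED
quenched law: `P2` (box at the origin, all points of the cell) and `LAT` (annealed lateral exit). -/

set_option autoImplicit false
set_option linter.unusedSectionVars false
set_option linter.deprecated false

namespace Crest.Agent.R154.TileD2

open MeasureTheory ProbabilityTheory Set Filter Crest.ProbabilityR.RandomEnvironment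
open Crest.Agent.R154.Ren263 hiding lev
open Crest.Agent.R154.Mk561 Crest.Agent.R154.Q561
open Crest.Agent.R154.Flux132 (lev lev_add lev_neg lev_zero)
open Crest.Agent.R154.RatioR872
open scoped ENNReal NNReal

variable {d : ℕ}

/-! ### dictionary -/

lemma hitS_eq (S T : Set (Site d)) (y : Site d) : HitS S T y = mpath y ⁻¹' River916.Ev S T := by
  ext M
  simp only [HitS, HitM, River916.Ev, mem_iUnion, mem_setOf_eq, mem_preimage, mpath]
  constructor
  · rintro ⟨m, h1, h2⟩; exact ⟨m, h2, h1⟩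
  · rintro ⟨m, h2, h1⟩; exact ⟨m, h1, h2⟩

lemma mk_hit (ω : Environment d) (S T : Set (Site d)) (y : Site d) :
    mkLaw 0 ω y (HitS S T y) = quenchedLaw ω y (River916.Ev S T) := by
  rw [hitS_eq, ← Measure.map_apply (measurable_mpath y) (River916.meas_Ev S T), mk_projection,
    regE_zero]

lemma NC_eq_hit (u : Step d) (x : Site d) {b : ℤ} (hb : lev u x ≤ b) (T : Set (Site d)) :
    NC u x b T = HitS {z | lev u x ≤ lev u z ∧ lev u z < b} {y | lev u y = b ∧ y ∈ T} x := by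
  ext M
  simp only [NC, ClM, HitS, HitM, mem_iUnion, mem_setOf_eq, Nat.cast_zero, add_zero]
  constructor
  · rintro ⟨m, ⟨h1, h2, _, h4⟩, h5⟩
    exact ⟨m, fun j hj => ⟨h4 j (Nat.zero_le _) hj.le, h2 j hj⟩, h1, h5⟩
  · rintro ⟨m, h1, h2, h3⟩
    refine ⟨m, ⟨h2, fun j hj => (h1 j hj).2, fun j _ hj => absurd hj (Nat.not_lt_zero j),
      fun j _ hj => ?_⟩, h3⟩
    rcases lt_or_eq_of_le hj with hlt | heq
    · exact (h1 j hlt).1
    · rw [heq, h2]; exact hb

lemma mkAnn_NC (Q : Measure (Environment d)) (u : Step d) (N : ℕ) (T : Set (Site d)) :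
    mkAnn 0 Q 0 (NC u 0 N T) = annealedProb Q 0
      (River916.Ev {z | 0 ≤ lev u z ∧ lev u z < N} {y | lev u y = N ∧ y ∈ T}) := by
  have h0 : lev u (0 : Site d) = 0 := lev_zero u
  rw [NC_eq_hit u 0 (by rw [h0]; positivity) T, h0, hitS_eq,
    mkAnn_projection_zero Q 0 (River916.meas_Ev _ _)]

/-! ### the two open Props -/

/-- **(P2)**: fixed cost `m`, fixed relative width `k`; the box at the origin is good for ALL points
of the cell with probability `→ 1`. -/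
def P2 (Q : Measure (Environment d)) (u : Step d) (i : Fin d) (wd : ℕ → ℕ) (D : ℕ → ℤ)
    (dr : ℕ → ℤ → ℤ) : Prop :=
  ∃ m : ℝ, 1 ≤ m ∧ ∃ k : ℕ, ∀ ε : ℝ, 0 < ε → ∃ N0 : ℕ, ∀ N, N0 ≤ N →
    Q {ω | ¬ ∀ y ∈ Cell u i (wd N) 0 0,
      ENNReal.ofReal (Real.exp (-m)) ≤ quenchedLaw ω y
        (River916.Ev (Dom u i N (wd N) (k * wd N) (dr N) 0 0) (Cell u i (wd N) N (D N))) ∧
      ENNReal.ofReal (Real.exp (-m)) ≤ quenchedLaw ω y
        (River916.Ev (Dom u i N (wd N) (k * wd N) (dr N) 0 0)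
          (Cell u i (wd N) N (D N + wd N)))} ≤ ENNReal.ofReal ε

/-- **(LAT)**: annealed natural climbs of height `N` exit at lateral distance `> r wd N` from the
axis with small probability. -/
def LAT (Q : Measure (Environment d)) (u : Step d) (i : Fin d) (wd : ℕ → ℕ) (D : ℕ → ℤ) : Prop :=
  ∀ η : ℝ, 0 < η → ∃ r N0 : ℕ, ∀ N, N0 ≤ N →
    annealedProb Q 0 (River916.Ev {z | 0 ≤ lev u z ∧ lev u z < N}
      {y | lev u y = N ∧ ¬ |y i - D N| ≤ (r : ℤ) * wd N}) ≤ ENNReal.ofReal η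

lemma boxGood_zero (u : Step d) (i : Fin d) (N a w : ℕ) (dr : ℤ → ℤ) (D : ℤ) (c : ℝ≥0∞) :
    (BoxGood u i N a w dr D 0 c 0 0)ᶜ = {ω | ¬ ∀ y ∈ Cell u i a 0 0,
      c ≤ quenchedLaw ω y (River916.Ev (Dom u i N a w dr 0 0) (Cell u i a N D)) ∧
      c ≤ quenchedLaw ω y (River916.Ev (Dom u i N a w dr 0 0) (Cell u i a N (D + a)))} := by
  ext ω
  simp only [BoxGood, mem_compl_iff, mem_setOf_eq, mk_hit, zero_add]

/-- **TileD2 from (P2) and (LAT).** -/
theorem tileD2_of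
    (H : ∀ (ν : Measure (Row 2)) [IsProbabilityMeasure ν] (κ : ℝ), 0 < κ →
      (∀ᵐ p ∂ν, ∀ e : Step 2, κ ≤ p.1 e) → ∀ u : Step 2,
      annealed (iidEnvironmentLaw ν) 0 (escapeEvent (B2d.dirVec u)) = 1 →
      ∃ (i : Fin 2) (_ : i ≠ u.1) (wd : ℕ → ℕ) (D : ℕ → ℤ) (dr : ℕ → ℤ → ℤ),
        (∀ N, 1 ≤ wd N) ∧ P2 (iidEnvironmentLaw ν) u i wd D dr ∧
          LAT (iidEnvironmentLaw ν) u i wd D) : D2Asm244.TileD2 := by
  intro ν _ κ hκ hν u hu
  have hpos := Spine.pos_of_ue hκ hν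
  have F : Bind263.Frame (iidEnvironmentLaw ν) 0 0 := Bind263.frame_iid ν hpos
  have hA : annealedProb (iidEnvironmentLaw ν) 0 (escapeEvent (B2d.dirVec u)) ≠ 0 := by
    rw [← annealed_apply _ 0 (B2d.measurableSet_escapeEvent _), hu]
    exact one_ne_zero
  obtain ⟨i, hi, wd, D, dr, hwd, ⟨m, hm, k, hP2⟩, hLAT⟩ := H ν κ hκ hν u hu
  have h := windowInput F u hA i hi wd hwd D dr
    ⟨m, hm, k, fun ε hε => by
      obtain ⟨N0, hN0⟩ := hP2 ε hε
      refine ⟨N0, fun N hN => ?_⟩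
      rw [boxGood_zero]
      exact hN0 N hN⟩
    (fun η hη => by
      obtain ⟨r, N0, hN0⟩ := hLAT η hη
      refine ⟨r, N0, fun N hN => ?_⟩
      rw [mkAnn_NC]
      exact hN0 N hN)
  intro Λ
  obtain ⟨m, m1, n0, h1, h2⟩ := h Λ
  exact ⟨m, m1, n0, h1, fun n hn => D2Asm244.tileSys_congr (h2 n hn)⟩

end Crest.Agent.R154.TileD2
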