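import Crest.Agent.R154.P2_916
import Crest.Agent.R154.P2Fix_592
import Crest.Agent.R154.TileD2C_980

/-!
# Row 154, `d = 2`: `QE ∧ QT ⟹ MOBFIX`, and `QE ∧ QT ∧ REG ⟹ (P2)`.  (helper916)
-/

set_option autoImplicit false

namespace Crest.Agent.R154.P2916

open MeasureTheory ProbabilityTheory Crest.ProbabilityR.RandomEnvironment
open Crest.Agent.R154.Flux132 (lev lev_add lev_neg lev_zero)
open Crest.Agent.R154.River916
open scoped ENNReal

variable {u : Step 2} {i : Fin 2} {θ : ℝ} {Q : Measure (Environment 2)} {wd : ℕ → ℕ}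

/-- an unrestricted window event is an event inside the tube or a non confinement event -/
lemma ev_split (g δ A a b : ℝ) (H : ℕ) :
    Ev {y | lev u y < (H : ℤ)} (Tg u i θ g a b H) ⊆
      Ev (Rg u i θ g δ A H) (Tg u i θ g a b H) ∪ (Ev (Rg u i θ g δ A H) (Tp u H))ᶜ := by
  rintro X ⟨n, hn, hX⟩
  by_cases h : X ∈ Ev (Rg u i θ g δ A H) (Tp u H)
  · left
    obtain ⟨n', hn', hX'⟩ := h
    have e : n = n' := by
      rcases lt_trichotomy n n' with h1 | h1 | h1
      · have h2 := (hX' n h1).2.1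
        have h3 : lev u (X n) = H := hn.1
        omega
      · exact h1
      · have h2 : lev u (X n') < H := hX n' h1
        have h3 : lev u (X n') = H := hn'
        omega
    subst e
    exact ⟨n, hn, hX'⟩
  · exact Or.inr h

theorem mobfix_of (hE : QE u i θ Q wd) (hT : QT u i θ Q wd) : MOBFIX u i θ Q wd := by
  intro δ hδ a b hab
  obtain ⟨c, hc, h1⟩ := hE a b hab
  obtain ⟨A, h2⟩ := hT δ hδ (c / 2) (by linarith)
  refine ⟨A, c / 2, by linarith, fun ε hε => ?_⟩
  obtain ⟨H1, hH1⟩ := h1 (ε / 2) (by linarith)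
  obtain ⟨H2, hH2⟩ := h2 (ε / 2) (by linarith)
  refine ⟨max H1 H2, fun H hH => ?_⟩
  have e : ENNReal.ofReal ε = ENNReal.ofReal (ε / 2) + ENNReal.ofReal (ε / 2) := by
    rw [← ENNReal.ofReal_add (by linarith) (by linarith)]
    congr 1; ring
  rw [e]
  refine le_trans (measure_mono ?_) (le_trans (measure_union_le _ _)
    (add_le_add (hH1 H (le_trans (le_max_left _ _) hH)) (hH2 H (le_trans (le_max_right _ _) hH))))
  intro ω hω
  by_contra hno
  have hno1 : ENNReal.ofReal c ≤ quenchedLaw ω 0 (Ev {y | lev u y < (H : ℤ)}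
      (Tg u i θ (wd H) a b H)) := not_lt.1 fun h => hno (Or.inl h)
  have hno2 : quenchedLaw ω 0 (Ev (Rg u i θ (wd H) δ A H) (Tp u H))ᶜ ≤ ENNReal.ofReal (c / 2) :=
    not_lt.1 fun h => hno (Or.inr h)
  have h3 : ENNReal.ofReal c < ENNReal.ofReal (c / 2) + ENNReal.ofReal (c / 2) := by
    refine lt_of_le_of_lt (le_trans hno1 (le_trans (measure_mono (ev_split (wd H) δ A a b H))
      (measure_union_le _ _))) ?_
    exact ENNReal.add_lt_add_of_lt_of_le (ne_top_of_le_ne_top ENNReal.ofReal_ne_top hno2) hω hno2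
  rw [← ENNReal.ofReal_add (by linarith) (by linarith)] at h3
  have h4 : c / 2 + c / 2 = c := by ring
  rw [h4] at h3
  exact lt_irrefl _ h3

/-- `QE ∧ QT ∧ REG ⟹ (P2)`, in 980's letters. -/
theorem p2_of (hi : i ≠ u.1) (hstat : ∀ z : Site 2, MeasurePreserving (shiftEnv z) Q Q)
    (hE : QE u i θ Q wd) (hT : QT u i θ Q wd) (hR : REG wd)
    (help : ∀ᵐ ω ∂Q, ∀ (z : Site 2) (e : Step 2), 0 < (ω z).1 e) :
    TileD2.P2 Q u i wd (fun N => vf θ N) (fun _ => vf θ) := by
  obtain ⟨m, hm, k, h⟩ := p2 (κ := 0) hi (P2Fix592.fixM_of_mobfix hstat (mobfix_of hE hT) hR)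
    (P2Fix592.fixC_of_qt hstat hT hR) hR (by
      rw [Mk561.kf_zero]
      exact Filter.Eventually.of_forall fun ω z e => (ω z).2.1 e) help
  refine ⟨m, hm, k, fun ε hε => ?_⟩
  obtain ⟨N0, hN0⟩ := h ε hε
  refine ⟨N0, fun N hN => ?_⟩
  rw [← TileD2.boxGood_zero]
  exact hN0 N hN

end Crest.Agent.R154.P2916
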