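import Crest.Agent.R154.QT_244
import Crest.Agent.R154.LatQT_980
import Crest.Agent.R154.P2End_916
import Crest.Agent.R154.QE_980
import Crest.Agent.R154.Scale_738
import Crest.Agent.R154.TubeObj_24
import Crest.Agent.R154.Hit2_569

/-!
Row 154, block `d = 2` (helper244): the joint. With the width `wdJ` of the joint blocks (132 / 24 / 738)
everything of the block is a theorem except the three literal Props
`LLN` (36), `SlabP` (28), `WIN` (956) at one real slope `θ`.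
-/

set_option autoImplicit false

namespace Crest.Agent.R154.D2Joint244

open MeasureTheory ProbabilityTheory Filter Crest.ProbabilityR.RandomEnvironment Crest.Agent.R154
open Crest.Agent.R154.Flux132 (lev)
open Crest.Agent.R154.Bind263
open Crest.Agent.R154.P2916 (QE QT REG vf)
open Crest.Agent.R154.D2V36 (LLN SlabP ScaleP HitP OccP ResidP)
open Crest.Agent.R154.QE980 (WIN)
open Crest.Agent.R154.NDAObj24 (wdJ core_tri nda_obj one_le_wdJ)
open scoped ENNReal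

variable {u : Step 2} {i : Fin 2} {θ : ℝ} {ν : Measure (Row 2)} [IsProbabilityMeasure ν]

/-- any width function: (P2) and (QT) from the literal Props -/
theorem p2qt_of {wd : ℕ → ℕ} (hi : i ≠ u.1) (hν : ∀ᵐ p ∂ν, ∀ e : Step 2, 0 < p.1 e)
    (hA : annealed (iidEnvironmentLaw ν) 0 (escapeEvent (B2d.dirVec u)) = 1)
    (hL : LLN u i θ ν wd) (hS : SlabP u i θ ν wd) (hW : WIN u i θ (iidEnvironmentLaw ν) wd)
    (hSc : ScaleP wd) (hR : REG wd) :
    (∃ N1, ∀ N ≥ N1, 1 ≤ wd N) ∧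
      TileD2.P2 (iidEnvironmentLaw ν) u i wd (fun N => ⌊θ * N⌋) (fun _ => vf θ) ∧
      QT u i θ (iidEnvironmentLaw ν) wd := by
  have F := frame_iid ν hν
  have hT : QT u i θ (iidEnvironmentLaw ν) wd := QT244.qt hL hS hSc hR.1
  have hw : ∃ N1, ∀ N ≥ N1, 1 ≤ wd N := hR.1 1
  have hE : QE u i θ (iidEnvironmentLaw ν) wd := QE980.qe u i θ ν wd hL hW hw (Hit2569.hitP ν u hA)
  exact ⟨hw, P2916.p2_of hi F.stat hE hT hR F.elp, hT⟩

/-- **JOINT of the block `d = 2`**, any width function -/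
theorem tileD2_of_leaves
    (H : ∀ (ν : Measure (Row 2)) [IsProbabilityMeasure ν] (κ : ℝ), 0 < κ →
      (∀ᵐ p ∂ν, ∀ e : Step 2, κ ≤ p.1 e) → ∀ u : Step 2,
      annealed (iidEnvironmentLaw ν) 0 (escapeEvent (B2d.dirVec u)) = 1 →
      ∃ (i : Fin 2) (_ : i ≠ u.1) (θ : ℝ) (wd : ℕ → ℕ), ScaleP wd ∧ REG wd ∧
        LLN u i θ ν wd ∧ SlabP u i θ ν wd ∧ WIN u i θ (iidEnvironmentLaw ν) wd) :
    D2Asm244.TileD2 := by
  refine TileD2.tileD2_of_P2_QT fun ν _ κ hκ hν u hu => ?_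
  obtain ⟨i, hi, θ, wd, hSc, hR, hL, hS, hW⟩ := H ν κ hκ hν u hu
  have hν' : ∀ᵐ p ∂ν, ∀ e : Step 2, 0 < p.1 e := hν.mono fun p hp e => hκ.trans_le (hp e)
  exact ⟨i, hi, θ, wd, fun _ => vf θ, p2qt_of hi hν' hu hL hS hW hSc hR⟩

/-- another coordinate -/
lemma exists_other (u : Step 2) : ∃ i : Fin 2, i ≠ u.1 := exists_ne u.1

/-- **JOINT with the width `wdJ` of the joint blocks**: `ScaleP`, `REG` are theorems -/
theorem tileD2_of_wdJ
    (H : ∀ (ν : Measure (Row 2)) [IsProbabilityMeasure ν] (κ : ℝ), 0 < κ →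
      (∀ᵐ p ∂ν, ∀ e : Step 2, κ ≤ p.1 e) → ∀ u : Step 2,
      annealed (iidEnvironmentLaw ν) 0 (escapeEvent (B2d.dirVec u)) = 1 → ∀ i : Fin 2, i ≠ u.1 →
      ∃ θ : ℝ, LLN u i θ ν (wdJ (iidEnvironmentLaw ν) 0 0 u i) ∧
        SlabP u i θ ν (wdJ (iidEnvironmentLaw ν) 0 0 u i) ∧
        WIN u i θ (iidEnvironmentLaw ν) (wdJ (iidEnvironmentLaw ν) 0 0 u i)) :
    D2Asm244.TileD2 := by
  refine tileD2_of_leaves fun ν _ κ hκ hν u hu => ?_
  obtain ⟨i, hi⟩ := exists_other u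
  obtain ⟨θ, hL, hS, hW⟩ := H ν κ hκ hν u hu i hi
  have hν' : ∀ᵐ p ∂ν, ∀ e : Step 2, 0 < p.1 e := hν.mono fun p hp e => hκ.trans_le (hp e)
  have F := frame_iid ν hν'
  have hA : annealedProb (iidEnvironmentLaw ν) 0 (escapeEvent (B2d.dirVec u)) ≠ 0 := by
    rw [← annealed_apply _ 0 (B2d.measurableSet_escapeEvent _), hu]
    exact one_ne_zero
  have hC := core_tri F hA hi
  have hN := nda_obj ν hν' hi hA
  exact ⟨i, hi, θ, wdJ (iidEnvironmentLaw ν) 0 0 u i, hN.scaleP hC, hN.reg hC, hL, hS, hW⟩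

/-- `FL2Prop1` from the three literal Props -/
theorem fl2_of_wdJ
    (H : ∀ (ν : Measure (Row 2)) [IsProbabilityMeasure ν] (κ : ℝ), 0 < κ →
      (∀ᵐ p ∂ν, ∀ e : Step 2, κ ≤ p.1 e) → ∀ u : Step 2,
      annealed (iidEnvironmentLaw ν) 0 (escapeEvent (B2d.dirVec u)) = 1 → ∀ i : Fin 2, i ≠ u.1 →
      ∃ θ : ℝ, LLN u i θ ν (wdJ (iidEnvironmentLaw ν) 0 0 u i) ∧
        SlabP u i θ ν (wdJ (iidEnvironmentLaw ν) 0 0 u i) ∧
        WIN u i θ (iidEnvironmentLaw ν) (wdJ (iidEnvironmentLaw ν) 0 0 u i)) :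
    Spine.FL2Prop1 :=
  D1S.fl2_of_tile (tileD2_of_wdJ H)

end Crest.Agent.R154.D2Joint244
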