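import Mathlib

/-!
Row 154, d = 2, helper786's occupation lemma (test function `sqrt (w^2 + a^2)`), abstract form.
Author: helper8. Mathlib only.
-/

set_option autoImplicit false

open MeasureTheory Filter

namespace Crest.Agent.R154.D2Occ

noncomputable def fa (a w : ℝ) : ℝ := Real.sqrt (w ^ 2 + a ^ 2)

noncomputable def ga (a w : ℝ) : ℝ := w / fa a w

theorem fa_sq (a w : ℝ) : fa a w ^ 2 = w ^ 2 + a ^ 2 := Real.sq_sqrt (by positivity)

theorem fa_pos {a : ℝ} (ha : 0 < a) (w : ℝ) : 0 < fa a w := Real.sqrt_pos.mpr (by positivity)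

theorem abs_le_fa (a w : ℝ) : |w| ≤ fa a w := by
  refine Real.abs_le_sqrt ?_
  nlinarith [sq_nonneg a]

theorem fa_lip {a : ℝ} (ha : 0 < a) (w z : ℝ) : fa a w - fa a z ≤ |w - z| := by
  have h1 := fa_sq a w
  have h2 := fa_sq a z
  have p1 := fa_pos ha w
  have p2 := fa_pos ha z
  by_contra hcon
  push Not at hcon
  have h3 : 0 ≤ |w - z| := abs_nonneg _
  have h4 : fa a z + |w - z| < fa a w := by linarith
  have h5 : (fa a z + |w - z|) ^ 2 < fa a w ^ 2 := by
    refine pow_lt_pow_left₀ h4 (by positivity) (by norm_num)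
  have h6 : |w - z| ^ 2 = (w - z) ^ 2 := sq_abs _
  have h7 : z * (w - z) ≤ fa a z * |w - z| := by
    calc z * (w - z) ≤ |z * (w - z)| := le_abs_self _
      _ = |z| * |w - z| := abs_mul _ _
      _ ≤ _ := mul_le_mul_of_nonneg_right (abs_le_fa a z) h3
  nlinarith

theorem ga_abs_le {a : ℝ} (ha : 0 < a) (w : ℝ) : |ga a w| ≤ 1 := by
  rw [ga, abs_div, abs_of_pos (fa_pos ha w), div_le_one (fa_pos ha w)]
  exact abs_le_fa a w

/-- convexity -/
theorem fa_convex {a : ℝ} (ha : 0 < a) (w D : ℝ) : fa a w + ga a w * D ≤ fa a (w + D) := by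
  have h1 := fa_sq a w
  have h2 := fa_sq a (w + D)
  have p1 := fa_pos ha w
  have p2 := fa_pos ha (w + D)
  have e : fa a w + ga a w * D = (fa a w ^ 2 + w * D) / fa a w := by
    rw [ga]; field_simp
  rw [e, div_le_iff₀ p1]
  by_contra hcon
  push Not at hcon
  have h3 : (fa a (w + D) * fa a w) ^ 2 < (fa a w ^ 2 + w * D) ^ 2 :=
    pow_lt_pow_left₀ hcon (by positivity) (by norm_num)
  rw [mul_pow, h1, h2] at h3
  nlinarith [sq_nonneg (a * D)]

/-- second order gain on `|w| ≤ a`, `|D| ≤ a` -/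
theorem fa_gain {a : ℝ} (ha : 0 < a) {w D : ℝ} (hw : |w| ≤ a) (hD : |D| ≤ a) :
    fa a w + ga a w * D + D ^ 2 / (12 * a) ≤ fa a (w + D) := by
  have h1 := fa_sq a w
  have h2 := fa_sq a (w + D)
  have p1 := fa_pos ha w
  have p2 := fa_pos ha (w + D)
  have hw2 : w ^ 2 ≤ a ^ 2 := by rw [← sq_abs w]; exact pow_le_pow_left₀ (abs_nonneg _) hw 2
  have hD2 : D ^ 2 ≤ a ^ 2 := by rw [← sq_abs D]; exact pow_le_pow_left₀ (abs_nonneg _) hD 2
  have hwD : |w * D| ≤ a ^ 2 := by
    rw [abs_mul, sq]; exact mul_le_mul hw hD (abs_nonneg _) ha.le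
  have hwD' := abs_le.mp hwD
  have hf : fa a w ≤ 3 / 2 * a := by
    by_contra hcon
    push Not at hcon
    have := pow_lt_pow_left₀ hcon (by positivity) (show 2 ≠ 0 by norm_num)
    nlinarith
  set c : ℝ := D ^ 2 / (12 * a) with hc
  have hc0 : 0 ≤ c := by positivity
  have hca : c * (12 * a) = D ^ 2 := by rw [hc]; field_simp
  have e : fa a w + ga a w * D + c = (fa a w ^ 2 + w * D + c * fa a w) / fa a w := by
    rw [ga]; field_simp
  rw [e, div_le_iff₀ p1]
  by_contra hcon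
  push Not at hcon
  have h3 : (fa a (w + D) * fa a w) ^ 2 < (fa a w ^ 2 + w * D + c * fa a w) ^ 2 :=
    pow_lt_pow_left₀ hcon (by positivity) (by norm_num)
  rw [mul_pow, h1, h2] at h3
  have hq : w ^ 2 + a ^ 2 + w * D ≤ 3 * a ^ 2 := by nlinarith
  have hq0 : 0 ≤ w ^ 2 + a ^ 2 + w * D := by nlinarith [sq_nonneg w]
  have hcf : c * fa a w ≤ D ^ 2 / 8 := by
    have : c * fa a w ≤ c * (3 / 2 * a) := mul_le_mul_of_nonneg_left hf hc0
    nlinarith
  have hcf0 : 0 ≤ c * fa a w := by positivity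
  have h4 : 2 * (w ^ 2 + a ^ 2 + w * D) * (c * fa a w) ≤ 3 / 4 * a ^ 2 * D ^ 2 := by
    have := mul_le_mul hq hcf hcf0 (by positivity)
    nlinarith
  have h5 : (c * fa a w) ^ 2 ≤ 1 / 64 * a ^ 2 * D ^ 2 := by
    have h6 : (c * fa a w) ^ 2 ≤ (D ^ 2 / 8) ^ 2 := pow_le_pow_left₀ hcf0 hcf 2
    nlinarith [mul_le_mul_of_nonneg_right hD2 (sq_nonneg D)]
  have h7 : (w ^ 2 + a ^ 2 + w * D + c * fa a w) ^ 2 ≤
      (w ^ 2 + a ^ 2 + w * D) ^ 2 + a ^ 2 * D ^ 2 := by
    nlinarith [mul_nonneg (sq_nonneg a) (sq_nonneg D)]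
  nlinarith

/-- both cases together -/
theorem fa_main {a : ℝ} (ha : 0 < a) (w D : ℝ) :
    fa a w + ga a w * D + (if |w| ≤ a ∧ |D| ≤ a then D ^ 2 / (12 * a) else 0) ≤
      fa a (w + D) := by
  split_ifs with h
  · exact fa_gain ha h.1 h.2
  · simpa using fa_convex ha w D

theorem continuous_fa (a : ℝ) : Continuous (fa a) := by unfold fa; fun_prop

theorem continuous_ga {a : ℝ} (ha : 0 < a) : Continuous (ga a) := by
  unfold ga
  exact continuous_id.div (continuous_fa a) fun w => (fa_pos ha w).ne'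

variable {Ω : Type*} {m0 : MeasurableSpace Ω} {P : Measure Ω} [IsProbabilityMeasure P]

theorem integrable_fa {a : ℝ} (ha : 0 < a) {W : Ω → ℝ} (hW : Integrable W P) :
    Integrable (fun ω => fa a (W ω)) P := by
  have h : Integrable (fun ω => |W ω| + a) P := hW.abs.add (integrable_const a)
  refine h.mono' ((continuous_fa a).comp_aestronglyMeasurable hW.1) (ae_of_all _ fun ω => ?_)
  rw [Real.norm_eq_abs, abs_of_pos (fa_pos ha _)]
  have h1 := fa_lip ha (W ω) 0
  have h2 : fa a 0 = a := by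
    unfold fa; rw [zero_pow two_ne_zero, zero_add, Real.sqrt_sq ha.le]
  rw [h2, sub_zero] at h1
  linarith

omit [IsProbabilityMeasure P] in
theorem integrable_ga_mul {a : ℝ} (ha : 0 < a) {W D : Ω → ℝ} (hW : Integrable W P)
    (hD : Integrable D P) : Integrable (fun ω => ga a (W ω) * D ω) P := by
  refine hD.abs.mono' (((continuous_ga ha).comp_aestronglyMeasurable hW.1).mul hD.1)
    (ae_of_all _ fun ω => ?_)
  rw [Real.norm_eq_abs, abs_mul]
  have := mul_le_mul_of_nonneg_right (ga_abs_le ha (W ω)) (abs_nonneg (D ω))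
  linarith

/-- integrated form of one step -/
theorem one_step {a v b : ℝ} (ha : 0 < a) {W W' : Ω → ℝ} (hW : Integrable W P)
    (hW' : Integrable W' P) (h1 : -b ≤ ∫ ω, ga a (W ω) * (W' ω - W ω) ∂P)
    (h2 : v * P.real {ω | |W ω| ≤ a} ≤
      ∫ ω in {ω | |W ω| ≤ a ∧ |W' ω - W ω| ≤ a}, (W' ω - W ω) ^ 2 ∂P) :
    v / (12 * a) * P.real {ω | |W ω| ≤ a} ≤
      ∫ ω, fa a (W' ω) ∂P - ∫ ω, fa a (W ω) ∂P + b := by
  have hD : Integrable (fun ω => W' ω - W ω) P := hW'.sub hW
  have i1 := integrable_fa ha hW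
  have i2 := integrable_fa ha hW'
  have i3 := integrable_ga_mul ha hW hD
  set S : Set Ω := {ω | |W ω| ≤ a ∧ |W' ω - W ω| ≤ a} with hS
  have hSm : NullMeasurableSet S P :=
    (nullMeasurableSet_le hW.1.norm.aemeasurable aemeasurable_const).inter
      (nullMeasurableSet_le hD.1.norm.aemeasurable aemeasurable_const)
  have i4 : Integrable (S.indicator fun ω => (W' ω - W ω) ^ 2 / (12 * a)) P := by
    refine (integrable_const (a ^ 2 / (12 * a))).mono' ?_ (ae_of_all _ fun ω => ?_)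
    · exact AEStronglyMeasurable.indicator₀
        (((continuous_pow 2).div_const (12 * a)).comp_aestronglyMeasurable hD.1) hSm
    · by_cases h : ω ∈ S
      · rw [Set.indicator_of_mem h, Real.norm_eq_abs, abs_of_nonneg (by positivity)]
        refine div_le_div_of_nonneg_right ?_ (by positivity)
        rw [← sq_abs]
        exact pow_le_pow_left₀ (abs_nonneg _) h.2 2
      · rw [Set.indicator_of_notMem h, norm_zero]; positivity
  have hpt : ∀ ω, fa a (W ω) + ga a (W ω) * (W' ω - W ω) +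
      S.indicator (fun ω => (W' ω - W ω) ^ 2 / (12 * a)) ω ≤ fa a (W' ω) := by
    intro ω
    have h := fa_main ha (W ω) (W' ω - W ω)
    have e : W ω + (W' ω - W ω) = W' ω := by ring
    rw [e] at h
    refine le_trans (le_of_eq ?_) h
    congr 1
    by_cases hm : ω ∈ S
    · rw [Set.indicator_of_mem hm]
      exact (if_pos (show |W ω| ≤ a ∧ |W' ω - W ω| ≤ a from hm)).symm
    · rw [Set.indicator_of_notMem hm]
      exact (if_neg (show ¬ (|W ω| ≤ a ∧ |W' ω - W ω| ≤ a) from hm)).symm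
  have h3 := integral_mono ((i1.add i3).add i4) i2 hpt
  have e1 : ∫ ω, (fa a (W ω) + ga a (W ω) * (W' ω - W ω) +
      S.indicator (fun ω => (W' ω - W ω) ^ 2 / (12 * a)) ω) ∂P =
      ∫ ω, fa a (W ω) ∂P + ∫ ω, ga a (W ω) * (W' ω - W ω) ∂P +
        (∫ ω in S, (W' ω - W ω) ^ 2 ∂P) / (12 * a) := by
    have i13 : Integrable (fun ω => fa a (W ω) + ga a (W ω) * (W' ω - W ω)) P := i1.add i3
    rw [integral_add i13 i4, integral_add i1 i3, integral_indicator₀ hSm, integral_div]
  have h4 : (∫ ω in S, (W' ω - W ω) ^ 2 ∂P) / (12 * a) ≥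
      v / (12 * a) * P.real {ω | |W ω| ≤ a} := by
    rw [ge_iff_le, div_mul_eq_mul_div]
    exact div_le_div_of_nonneg_right h2 (by positivity)
  have h5 : ∫ ω, fa a (W ω) ∂P + ∫ ω, ga a (W ω) * (W' ω - W ω) ∂P +
        (∫ ω in S, (W' ω - W ω) ^ 2 ∂P) / (12 * a) ≤ ∫ ω, fa a (W' ω) ∂P := by
    rw [← e1]; exact h3
  linarith

/-- **Occupation bound**, integrated form. -/
theorem occ {W : ℕ → Ω → ℝ} {n : ℕ} {a v b : ℝ} (ha : 0 < a) (hv : 0 < v)
    (hW : ∀ k ≤ n, Integrable (W k) P)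
    (h1 : ∀ k < n, -b ≤ ∫ ω, ga a (W k ω) * (W (k + 1) ω - W k ω) ∂P)
    (h2 : ∀ k < n, v * P.real {ω | |W k ω| ≤ a} ≤
      ∫ ω in {ω | |W k ω| ≤ a ∧ |W (k + 1) ω - W k ω| ≤ a}, (W (k + 1) ω - W k ω) ^ 2 ∂P) :
    ∑ k ∈ Finset.range n, P.real {ω | |W k ω| ≤ a} ≤
      12 * a / v * (∫ ω, |W n ω - W 0 ω| ∂P + n * b) := by
  have key : ∀ j ≤ n, v / (12 * a) * ∑ k ∈ Finset.range j, P.real {ω | |W k ω| ≤ a} ≤
      ∫ ω, fa a (W j ω) ∂P - ∫ ω, fa a (W 0 ω) ∂P + j * b := by
    intro j hj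
    induction j with
    | zero => simp
    | succ j ih =>
      have hs := one_step ha (hW j (by omega)) (hW (j + 1) hj) (h1 j (by omega)) (h2 j (by omega))
      have := ih (by omega)
      rw [Finset.sum_range_succ, mul_add]
      push_cast
      linarith
  have h3 := key n le_rfl
  have h4 : ∫ ω, fa a (W n ω) ∂P - ∫ ω, fa a (W 0 ω) ∂P ≤ ∫ ω, |W n ω - W 0 ω| ∂P := by
    have i1 := integrable_fa ha (hW n le_rfl)
    have i0 := integrable_fa ha (hW 0 (Nat.zero_le _))
    rw [← integral_sub i1 i0]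
    exact integral_mono (i1.sub i0) ((hW n le_rfl).sub (hW 0 (Nat.zero_le _))).abs
      fun ω => fa_lip ha _ _
  have h5 : v / (12 * a) * ∑ k ∈ Finset.range n, P.real {ω | |W k ω| ≤ a} ≤
      ∫ ω, |W n ω - W 0 ω| ∂P + n * b := by linarith
  have h6 : 12 * a / v * (v / (12 * a)) = 1 := by field_simp
  calc ∑ k ∈ Finset.range n, P.real {ω | |W k ω| ≤ a}
      = 12 * a / v * (v / (12 * a) * ∑ k ∈ Finset.range n, P.real {ω | |W k ω| ≤ a}) := by
        rw [← mul_assoc, h6, one_mul]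
    _ ≤ _ := mul_le_mul_of_nonneg_left h5 (by positivity)

/-- **Occupation bound**, conditional form: `H k` a sequence of sigma-algebras, `W k`
`H k`-measurable. -/
theorem occ_cond {H : ℕ → MeasurableSpace Ω} (hH : ∀ k, H k ≤ m0) {W : ℕ → Ω → ℝ} {n : ℕ}
    {a v b : ℝ} (ha : 0 < a) (hv : 0 < v)
    (hW : ∀ k ≤ n, Integrable (W k) P) (hWm : ∀ k < n, StronglyMeasurable[H k] (W k))
    (hb : ∀ k < n, ∀ᵐ ω ∂P, |(P[fun ω => W (k + 1) ω - W k ω | H k]) ω| ≤ b)
    (hvv : ∀ k < n, ∀ᵐ ω ∂P, |W k ω| ≤ a →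
      v ≤ (P[Set.indicator {ω | |W (k + 1) ω - W k ω| ≤ a}
        (fun ω => (W (k + 1) ω - W k ω) ^ 2) | H k]) ω) :
    ∑ k ∈ Finset.range n, P.real {ω | |W k ω| ≤ a} ≤
      12 * a / v * (∫ ω, |W n ω - W 0 ω| ∂P + n * b) := by
  refine occ ha hv hW (fun k hk => ?_) (fun k hk => ?_)
  · have hD : Integrable (fun ω => W (k + 1) ω - W k ω) P := (hW (k + 1) hk).sub (hW k hk.le)
    have i3 := integrable_ga_mul ha (hW k hk.le) hD
    have hgm : StronglyMeasurable[H k] (fun ω => ga a (W k ω)) :=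
      (continuous_ga ha).comp_stronglyMeasurable (hWm k hk)
    have e1 : ∫ ω, ga a (W k ω) * (W (k + 1) ω - W k ω) ∂P =
        ∫ ω, ga a (W k ω) * (P[fun ω => W (k + 1) ω - W k ω | H k]) ω ∂P := by
      rw [← integral_condExp (hH k)]
      refine integral_congr_ae ?_
      exact condExp_mul_of_aestronglyMeasurable_left hgm.aestronglyMeasurable i3 hD
    rw [e1]
    have e2 : Integrable (fun ω => ga a (W k ω) *
        (P[fun ω => W (k + 1) ω - W k ω | H k]) ω) P :=
      integrable_ga_mul ha (hW k hk.le) integrable_condExp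
    calc -b = ∫ _ω, -b ∂P := by rw [integral_const, probReal_univ, one_smul]
      _ ≤ _ := by
        refine integral_mono_ae (integrable_const _) e2 ?_
        filter_upwards [hb k hk] with ω hω
        have h1 := ga_abs_le ha (W k ω)
        have h2 : |ga a (W k ω) * (P[fun ω => W (k + 1) ω - W k ω | H k]) ω| ≤ 1 * b := by
          rw [abs_mul]
          exact mul_le_mul h1 hω (abs_nonneg _) (by norm_num)
        have := (abs_le.mp h2).1
        linarith
  · have hD : Integrable (fun ω => W (k + 1) ω - W k ω) P := (hW (k + 1) hk).sub (hW k hk.le)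
    set T : Set Ω := {ω | |W (k + 1) ω - W k ω| ≤ a} with hT
    have hTm : NullMeasurableSet T P :=
      nullMeasurableSet_le hD.1.norm.aemeasurable aemeasurable_const
    have iT : Integrable (T.indicator fun ω => (W (k + 1) ω - W k ω) ^ 2) P := by
      refine (integrable_const (a ^ 2)).mono' ?_ (ae_of_all _ fun ω => ?_)
      · exact AEStronglyMeasurable.indicator₀
          ((continuous_pow 2).comp_aestronglyMeasurable hD.1) hTm
      · by_cases h : ω ∈ T
        · rw [Set.indicator_of_mem h, Real.norm_eq_abs, abs_of_nonneg (by positivity)]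
          rw [← sq_abs]
          exact pow_le_pow_left₀ (abs_nonneg _) h 2
        · rw [Set.indicator_of_notMem h, norm_zero]; positivity
    have hAm : MeasurableSet[H k] {ω | |W k ω| ≤ a} :=
      (hWm k hk).norm.measurable measurableSet_Iic
    have hA0 : MeasurableSet {ω | |W k ω| ≤ a} := hH k _ hAm
    have e1 : ∫ ω in {ω | |W k ω| ≤ a ∧ |W (k + 1) ω - W k ω| ≤ a},
        (W (k + 1) ω - W k ω) ^ 2 ∂P =
        ∫ ω in {ω | |W k ω| ≤ a}, T.indicator (fun ω => (W (k + 1) ω - W k ω) ^ 2) ω ∂P := by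
      have hT' : NullMeasurableSet T (P.restrict {ω | |W k ω| ≤ a}) :=
        hTm.mono_ac Measure.restrict_le_self.absolutelyContinuous
      rw [integral_indicator₀ hT', Measure.restrict_restrict₀ hT', Set.inter_comm]
      rfl
    rw [e1, ← setIntegral_condExp (hH k) iT hAm]
    calc v * P.real {ω | |W k ω| ≤ a} = ∫ ω in {ω | |W k ω| ≤ a}, v ∂P := by
          rw [setIntegral_const, smul_eq_mul, mul_comm]
      _ ≤ _ := by
          refine setIntegral_mono_ae_restrict (integrable_const _).integrableOn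
            integrable_condExp.integrableOn ?_
          rw [EventuallyLE, ae_restrict_iff' hA0]
          filter_upwards [hvv k hk] with ω hω hmem
          exact hω hmem

end Crest.Agent.R154.D2Occ
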