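import Crest.Agent.R154.Strong_541
import Crest.Agent.R154.Pair_850
import Crest.Agent.R154.Prod_561
import Crest.Agent.R154.DoobQ_804

/-!
# Row 154, helper9: exit kernels of the (unmarked) quenched law

`EK ω A x y` = quenched probability, from `x`, that the first exit of the set `A` is at the site `y`.

* `meas_EK`, `locOn_EK`, `measA_EK` : measurable, reads only the rows in `A`;
* `tsum_EK_le` : sub-Markov; `EK_notMem` : `δ_x` outside `A`;
* `EK_step` : one step (harmonic);
* `exit_markov`, `EK_comp` : strong Markov property at the exit of `A ⊆ A'`;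
* `EK_shift` : shift covariance; `lint_EK_shift` : law of the shifted kernel;
* `EK_indep` : disjoint sets are independent under the iid law;
* `EK_mono_target`, `EK_ell` : monotonicity, uniform ellipticity;
* slabs of a level function, killed slab kernels.
-/

set_option autoImplicit false
set_option linter.unusedVariables false
set_option linter.unusedSectionVars false

namespace Crest.Agent.R154.ExK9

open MeasureTheory ProbabilityTheory Crest.ProbabilityR.RandomEnvironment Crest.Agent.R154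
open scoped ENNReal

variable {d : ℕ}

/-- the first exit of `A` is at `y` -/
def ExS (A : Set (Site d)) (y : Site d) : Set (Path d) :=
  {X | y ∉ A ∧ ∃ n, X n = y ∧ ∀ i < n, X i ∈ A}

/-- **exit kernel** of `A` -/
noncomputable def EK (ω : Environment d) (A : Set (Site d)) (x y : Site d) : ℝ≥0∞ :=
  quenchedLaw ω x (ExS A y)

/-- first exit time of `A` -/
noncomputable def exT (A : Set (Site d)) (X : Path d) : ℕ∞ := firstTime (fun z => z ∉ A) X

lemma isStop_exT (A : Set (Site d)) : IsStop (exT A) := isStop_firstTime _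

lemma exT_eq_iff {A : Set (Site d)} {X : Path d} {n : ℕ} :
    exT A X = n ↔ X n ∉ A ∧ ∀ i < n, X i ∈ A := by
  unfold exT
  rw [firstTime_eq_iff]
  simp

lemma exT_eq_top_iff {A : Set (Site d)} {X : Path d} : exT A X = ⊤ ↔ ∀ i, X i ∈ A := by
  unfold exT
  rw [firstTime_eq_top_iff]
  simp

lemma mem_ExS_iff {A : Set (Site d)} {y : Site d} {X : Path d} :
    X ∈ ExS A y ↔ exT A X ≠ ⊤ ∧ X (exT A X).toNat = y := by
  constructor
  · rintro ⟨hy, n, hn, hi⟩
    have h : exT A X = n := exT_eq_iff.2 ⟨by rw [hn]; exact hy, hi⟩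
    rw [h]
    exact ⟨ENat.natCast_ne_top n, by rw [ENat.toNat_natCast]; exact hn⟩
  · rintro ⟨h1, h2⟩
    obtain ⟨n, hn⟩ := ENat.ne_top_iff_exists.1 h1
    rw [← hn, ENat.toNat_natCast] at h2
    have h3 := exT_eq_iff.1 hn.symm
    exact ⟨by rw [← h2]; exact h3.1, n, h2, h3.2⟩

lemma ExS_of_mem {A : Set (Site d)} {y : Site d} (hy : y ∈ A) : ExS A y = ∅ := by
  ext X
  simp [ExS, hy]

lemma EK_of_mem {A : Set (Site d)} {y : Site d} (hy : y ∈ A) (ω : Environment d) (x : Site d) :
    EK ω A x y = 0 := by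
  unfold EK
  rw [ExS_of_mem hy, measure_empty]

lemma ExS_eq {A : Set (Site d)} {y : Site d} (hy : y ∉ A) :
    ExS A y = ⋃ n : ℕ, {X : Path d | X n = y ∧ ∀ i < n, X i ∈ A} := by
  ext X
  simp [ExS, hy]

lemma depOn_piece (A : Set (Site d)) (y : Site d) (n : ℕ) :
    Q561.DepOn n {X : Path d | X n = y ∧ ∀ i < n, X i ∈ A} := by
  intro X Y h hX
  refine ⟨by rw [← h n le_rfl]; exact hX.1, fun i hi => ?_⟩
  rw [← h i hi.le]
  exact hX.2 i hi

lemma dec_ExS (A : Set (Site d)) (y : Site d) : Q561.Dec A (ExS A y) := by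
  by_cases hy : y ∈ A
  · rw [ExS_of_mem hy]
    unfold Q561.Dec
    rw [Set.preimage_empty]
  · rw [ExS_eq hy]
    exact Q561.dec_iUnion fun n => Q561.dec_of_depOn (depOn_piece A y n) fun X hX k hk => hX.2 k hk

lemma measurableSet_ExS (A : Set (Site d)) (y : Site d) : MeasurableSet (ExS A y) := by
  by_cases hy : y ∈ A
  · rw [ExS_of_mem hy]; exact MeasurableSet.empty
  · rw [ExS_eq hy]
    exact MeasurableSet.iUnion fun n => (depOn_piece A y n).measurableSet

lemma ExS_disjoint (A : Set (Site d)) : Pairwise (Function.onFun Disjoint (ExS A)) := by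
  intro y y' hne
  refine Set.disjoint_left.2 fun X hX hX' => hne ?_
  rw [mem_ExS_iff] at hX hX'
  exact hX.2.symm.trans hX'.2

/-! ### measurability and locality -/

/-- the environment enters measurably -/
lemma meas_EK (A : Set (Site d)) (x y : Site d) : Measurable fun ω : Environment d => EK ω A x y :=
  Q561.measurable_quenched_apply x (measurableSet_ExS A y)

/-- only the rows of `A` are read -/
lemma locOn_EK (A : Set (Site d)) (x y : Site d) :
    Q561.LocOn A fun ω : Environment d => EK ω A x y :=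
  Q561.locOn_quenched x (measurableSet_ExS A y) (dec_ExS A y)

lemma measA_EK (A : Set (Site d)) (x y : Site d) :
    Measurable[coordSigmaAlgebra A] fun ω : Environment d => EK ω A x y :=
  Q561.measurable_coord (meas_EK A x y) (locOn_EK A x y)

lemma coord_mono {A B : Set (Site d)} (h : A ⊆ B) :
    coordSigmaAlgebra A ≤ coordSigmaAlgebra B := by
  have hm : Measurable fun f : (B → Row d) => fun x : A => f ⟨x.1, h x.2⟩ :=
    measurable_pi_lambda _ fun x => measurable_pi_apply _
  intro s hs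
  obtain ⟨t, ht, rfl⟩ := hs
  exact ⟨_, hm ht, rfl⟩

lemma measA_EK_mono {A B : Set (Site d)} (h : A ⊆ B) (x y : Site d) :
    Measurable[coordSigmaAlgebra B] fun ω : Environment d => EK ω A x y :=
  (measA_EK A x y).mono (coord_mono h) le_rfl

/-! ### mass -/

/-- the sum over a set of exit points is the probability of exit there -/
lemma tsum_EK (ω : Environment d) (A : Set (Site d)) (x : Site d) (T : Set (Site d)) :
    ∑' y, T.indicator (EK ω A x) y =
      quenchedLaw ω x {X | exT A X ≠ ⊤ ∧ X (exT A X).toNat ∈ T} := by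
  classical
  let E : Site d → Set (Path d) := fun y => if y ∈ T then ExS A y else ∅
  have hE1 : ∀ y, y ∈ T → E y = ExS A y := fun y h => if_pos h
  have hE0 : ∀ y, y ∉ T → E y = ∅ := fun y h => if_neg h
  have e : {X : Path d | exT A X ≠ ⊤ ∧ X (exT A X).toNat ∈ T} = ⋃ y : Site d, E y := by
    ext X
    simp only [Set.mem_ofPred_eq, Set.mem_iUnion]
    constructor
    · rintro ⟨h1, h2⟩
      refine ⟨X (exT A X).toNat, ?_⟩
      rw [hE1 _ h2]
      exact mem_ExS_iff.2 ⟨h1, rfl⟩
    · rintro ⟨y, hy⟩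
      by_cases hT : y ∈ T
      · rw [hE1 _ hT] at hy
        obtain ⟨h1, h2⟩ := mem_ExS_iff.1 hy
        exact ⟨h1, by rw [h2]; exact hT⟩
      · rw [hE0 _ hT] at hy
        exact absurd hy (Set.notMem_empty X)
  rw [e, measure_iUnion]
  · refine tsum_congr fun y => ?_
    by_cases hT : y ∈ T
    · rw [Set.indicator_of_mem hT, hE1 _ hT]; rfl
    · rw [Set.indicator_of_notMem hT, hE0 _ hT, measure_empty]
  · intro y y' hne
    show Disjoint (E y) (E y')
    by_cases hT : y ∈ T
    · by_cases hT' : y' ∈ T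
      · rw [hE1 _ hT, hE1 _ hT']
        exact ExS_disjoint A hne
      · rw [hE0 _ hT']
        exact Set.disjoint_empty _
    · rw [hE0 _ hT]
      exact Set.empty_disjoint _
  · intro y
    by_cases hT : y ∈ T
    · rw [hE1 _ hT]; exact measurableSet_ExS A y
    · rw [hE0 _ hT]; exact MeasurableSet.empty

lemma tsum_EK_univ (ω : Environment d) (A : Set (Site d)) (x : Site d) :
    ∑' y, EK ω A x y = quenchedLaw ω x {X | exT A X ≠ ⊤} := by
  have h := tsum_EK ω A x Set.univ
  simpa using h

lemma tsum_EK_le (ω : Environment d) (A : Set (Site d)) (x : Site d) : ∑' y, EK ω A x y ≤ 1 := by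
  rw [tsum_EK_univ]
  exact prob_le_one

lemma EK_le_one (ω : Environment d) (A : Set (Site d)) (x y : Site d) : EK ω A x y ≤ 1 :=
  prob_le_one

/-- outside `A` the kernel is the identity -/
lemma EK_notMem (ω : Environment d) {A : Set (Site d)} {x : Site d} (hx : x ∉ A) (y : Site d) :
    EK ω A x y = Set.indicator {x} (fun _ => (1 : ℝ≥0∞)) y := by
  by_cases hy : y = x
  · subst hy
    rw [Set.indicator_of_mem (Set.mem_singleton y)]
    have h : ∀ᵐ X ∂quenchedLaw ω y, X ∈ ExS A y := by
      filter_upwards [quenched_zero_eq ω y] with X hX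
      exact ⟨hx, 0, hX, fun i hi => absurd hi (Nat.not_lt_zero i)⟩
    unfold EK
    exact (prob_compl_eq_zero_iff (measurableSet_ExS A y)).1 h
  · rw [Set.indicator_of_notMem (fun h => hy (Set.mem_singleton_iff.1 h))]
    have h : ∀ᵐ X ∂quenchedLaw ω x, X ∉ ExS A y := by
      filter_upwards [quenched_zero_eq ω x] with X hX hE
      obtain ⟨hyA, n, hn, hi⟩ := hE
      rcases Nat.eq_zero_or_pos n with h0 | h0
      · subst h0; exact hy (hn.symm.trans hX)
      · have := hi 0 h0
        rw [hX] at this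
        exact hx this
    unfold EK
    have h2 := ae_iff.1 h
    simpa using h2

/-! ### Markov property -/

/-- **strong Markov property at the exit of `A`** -/
theorem exit_markov (ω : Environment d) (A : Set (Site d)) (x : Site d) {B : Set (Path d)}
    (hB : MeasurableSet B) :
    quenchedLaw ω x {X | exT A X ≠ ⊤ ∧ shift (exT A X).toNat X ∈ B} =
      ∑' z, EK ω A x z * quenchedLaw ω z B := by
  have hdet : ∀ z, DetBy (exT A) (· ∈ ExS A z) := by
    intro z X Y n hXY hn
    have h2 : exT A Y = n := isStop_exT A X Y n hXY hn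
    apply propext
    show X ∈ ExS A z ↔ Y ∈ ExS A z
    rw [mem_ExS_iff, mem_ExS_iff, hn, h2, ENat.toNat_natCast, hXY n le_rfl]
  have key : ∀ z, quenchedLaw ω x ({X | exT A X ≠ ⊤} ∩ ExS A z ∩
      {X | shift (exT A X).toNat X ∈ B}) = EK ω A x z * quenchedLaw ω z B := by
    intro z
    rw [strong_markov_event ω x (isStop_exT A) (hdet z) (measurableSet_ExS A z) hB]
    have e : {X : Path d | exT A X ≠ ⊤} ∩ ExS A z = ExS A z := by
      ext X
      constructor
      · exact fun h => h.2
      · exact fun h => ⟨(mem_ExS_iff.1 h).1, h⟩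
    rw [e, setLIntegral_congr_fun (g := fun _ => quenchedLaw ω z B) (measurableSet_ExS A z),
      setLIntegral_const, mul_comm]
    · rfl
    · intro X hX
      show quenchedLaw ω (X (exT A X).toNat) B = quenchedLaw ω z B
      rw [(mem_ExS_iff.1 hX).2]
  have e : {X : Path d | exT A X ≠ ⊤ ∧ shift (exT A X).toNat X ∈ B} =
      ⋃ z, ({X | exT A X ≠ ⊤} ∩ ExS A z ∩ {X | shift (exT A X).toNat X ∈ B}) := by
    ext X
    simp only [Set.mem_ofPred_eq, Set.mem_iUnion, Set.mem_inter_iff]
    constructor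
    · rintro ⟨h1, h2⟩
      exact ⟨X (exT A X).toNat, ⟨h1, mem_ExS_iff.2 ⟨h1, rfl⟩⟩, h2⟩
    · rintro ⟨z, ⟨h1, -⟩, h2⟩
      exact ⟨h1, h2⟩
  have hshift : Measurable fun X : Path d => shift (exT A X).toNat X := by
    refine measurable_pi_iff.2 fun i => ?_
    have h1 : Measurable fun X : Path d => (exT A X).toNat :=
      (measurable_of_countable ENat.toNat).comp (isStop_exT A).measurable
    have h2 : Measurable fun p : Path d × ℕ => p.1 (p.2 + i) :=
      measurable_from_prod_countable_left fun n => measurable_pi_apply (n + i)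
    exact h2.comp (measurable_id.prodMk h1)
  rw [e, measure_iUnion]
  · exact tsum_congr key
  · intro z z' hne
    refine Set.disjoint_left.2 fun X hX hX' => ?_
    exact Set.disjoint_left.1 (ExS_disjoint A hne) hX.1.2 hX'.1.2
  · intro z
    exact ((isStop_exT A).measurableSet_ne_top.inter (measurableSet_ExS A z)).inter (hshift hB)

/-- an exit of the larger set happens after the exit of the smaller one -/
lemma mem_ExS_shift {A A' : Set (Site d)} (h : A ⊆ A') (y : Site d) (X : Path d) :
    X ∈ ExS A' y ↔ exT A X ≠ ⊤ ∧ shift (exT A X).toNat X ∈ ExS A' y := by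
  constructor
  · rintro ⟨hy, n, hn, hi⟩
    have h1 : exT A X ≤ n := firstTime_le (p := fun z => z ∉ A) (by
      show X n ∉ A
      rw [hn]; exact fun h' => hy (h h'))
    have h2 : exT A X ≠ ⊤ := ne_top_of_le_ne_top (ENat.natCast_ne_top n) h1
    obtain ⟨t, ht⟩ := ENat.ne_top_iff_exists.1 h2
    refine ⟨h2, ?_⟩
    rw [← ht, ENat.toNat_natCast]
    have htn : t ≤ n := by rw [← ht] at h1; exact_mod_cast h1
    refine ⟨hy, n - t, ?_, fun i hi' => ?_⟩
    · show X (t + (n - t)) = y
      rw [Nat.add_sub_cancel' htn]; exact hn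
    · show X (t + i) ∈ A'
      exact hi _ (by omega)
  · rintro ⟨h1, hy, m, hm, hi⟩
    obtain ⟨t, ht⟩ := ENat.ne_top_iff_exists.1 h1
    rw [← ht, ENat.toNat_natCast] at hm hi
    refine ⟨hy, t + m, hm, fun i hi' => ?_⟩
    rcases Nat.lt_or_ge i t with h2 | h2
    · exact h ((exT_eq_iff.1 ht.symm).2 i h2)
    · have h3 := hi (i - t) (by omega)
      have h4 : X (t + (i - t)) ∈ A' := h3
      rwa [Nat.add_sub_cancel' h2] at h4

/-- **composition of exit kernels** -/
theorem EK_comp (ω : Environment d) {A A' : Set (Site d)} (h : A ⊆ A') (x y : Site d) :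
    EK ω A' x y = ∑' z, EK ω A x z * EK ω A' z y := by
  refine Eq.trans ?_ (exit_markov ω A x (measurableSet_ExS A' y))
  unfold EK
  congr 1
  ext X
  exact mem_ExS_shift h y X

/-- **one step** -/
theorem EK_step (ω : Environment d) {A : Set (Site d)} {x : Site d} (hx : x ∈ A) (y : Site d) :
    EK ω A x y = ∑ e : Step d, ENNReal.ofReal ((ω x).1 e) * EK ω A (x + stepVec e) y := by
  refine (Doob804.q_harmonic_event ω (ExS A y) (measurableSet_ExS A y) A ?_ x hx).symm
  intro z hz X
  constructor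
  · rintro ⟨hy, n, hn, hi⟩
    cases n with
    | zero =>
      have : z = y := hn
      exact absurd (this ▸ hz) hy
    | succ n =>
      exact ⟨hy, n, hn, fun i hi' => hi (i + 1) (by omega)⟩
  · rintro ⟨hy, n, hn, hi⟩
    refine ⟨hy, n + 1, hn, fun i hi' => ?_⟩
    cases i with
    | zero => exact hz
    | succ i => exact hi i (by omega)

/-- an elliptic step -/
lemma EK_ell_step {κ : ℝ≥0∞} (ω : Environment d) {A : Set (Site d)} {x : Site d} (hx : x ∈ A)
    (e : Step d) (he : κ ≤ ENNReal.ofReal ((ω x).1 e)) (y : Site d) :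
    κ * EK ω A (x + stepVec e) y ≤ EK ω A x y := by
  rw [EK_step ω hx y]
  calc κ * EK ω A (x + stepVec e) y
      ≤ ENNReal.ofReal ((ω x).1 e) * EK ω A (x + stepVec e) y := by gcongr
    _ ≤ _ := Finset.single_le_sum (f := fun e => ENNReal.ofReal ((ω x).1 e) *
        EK ω A (x + stepVec e) y) (fun _ _ => zero_le) (Finset.mem_univ e)

/-- an elliptic path inside `A` -/
lemma EK_ell {κ : ℝ≥0∞} (ω : Environment d) {A : Set (Site d)}
    (hκ : ∀ z ∈ A, ∀ e : Step d, κ ≤ ENNReal.ofReal ((ω z).1 e)) (γ : ℕ → Site d) (s : ℕ → Step d)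
    (k : ℕ) (hs : ∀ i < k, γ (i + 1) = γ i + stepVec (s i)) (hA : ∀ i < k, γ i ∈ A)
    (y : Site d) : κ ^ k * EK ω A (γ k) y ≤ EK ω A (γ 0) y := by
  induction k with
  | zero => simp
  | succ k ih =>
    have h1 := ih (fun i hi => hs i (by omega)) (fun i hi => hA i (by omega))
    have h2 := EK_ell_step ω (hA k (by omega)) (s k) (hκ _ (hA k (by omega)) (s k)) y
    rw [← hs k (by omega)] at h2
    calc κ ^ (k + 1) * EK ω A (γ (k + 1)) y = κ ^ k * (κ * EK ω A (γ (k + 1)) y) := by
          rw [pow_succ]; ring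
      _ ≤ κ ^ k * EK ω A (γ k) y := by gcongr
      _ ≤ _ := h1

/-! ### translations -/

/-- the translated set -/
def trS (z : Site d) (A : Set (Site d)) : Set (Site d) := {x | x - z ∈ A}

lemma mem_trS (z : Site d) (A : Set (Site d)) (x : Site d) : x + z ∈ trS z A ↔ x ∈ A := by
  show x + z - z ∈ A ↔ x ∈ A
  rw [add_sub_cancel_right]

/-- **shift covariance** -/
theorem EK_shift (z : Site d) (ω : Environment d) (A : Set (Site d)) (x y : Site d) :
    EK ω (trS z A) (x + z) (y + z) = EK (shiftEnv z ω) A x y := by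
  unfold EK
  rw [Q561.quenched_shift_apply z ω x (measurableSet_ExS _ _)]
  congr 1
  ext X
  show (y + z ∉ trS z A ∧ ∃ n, X n + z = y + z ∧ ∀ i < n, X i + z ∈ trS z A) ↔
    (y ∉ A ∧ ∃ n, X n = y ∧ ∀ i < n, X i ∈ A)
  simp only [mem_trS, add_left_inj]

/-- expectations of functionals of the kernels of a translated set -/
theorem lint_shift {Q : Measure (Environment d)} {z : Site d}
    (hQ : MeasurePreserving (shiftEnv z) Q Q) {f : Environment d → ℝ≥0∞} (hf : Measurable f) :
    ∫⁻ ω, f (shiftEnv z ω) ∂Q = ∫⁻ ω, f ω ∂Q := hQ.lintegral_comp hf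

/-- the annealed exit law -/
lemma lint_EK (Q : Measure (Environment d)) (A : Set (Site d)) (x y : Site d) :
    ∫⁻ ω, EK ω A x y ∂Q = annealedProb Q x (ExS A y) := rfl

/-! ### independence -/

/-- functionals of disjoint sets of rows, iid law -/
theorem lint_mul (ν : Measure (Row d)) [IsProbabilityMeasure ν] {S T : Set (Site d)}
    (hST : Disjoint S T) {f g : Environment d → ℝ≥0∞}
    (hf : Measurable[coordSigmaAlgebra S] f) (hg : Measurable[coordSigmaAlgebra T] g) :
    ∫⁻ ω, f ω * g ω ∂(iidEnvironmentLaw ν)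
      = (∫⁻ ω, f ω ∂(iidEnvironmentLaw ν)) * ∫⁻ ω, g ω ∂(iidEnvironmentLaw ν) :=
  lintegral_mul_eq_lintegral_mul_lintegral_of_independent_measurableSpace
    (Q561.coord_le S) (Q561.coord_le T) (Q561.indep_iid ν hST) hf hg

/-- exit kernels of disjoint sets are independent -/
theorem EK_indep (ν : Measure (Row d)) [IsProbabilityMeasure ν] {A B : Set (Site d)}
    (hAB : Disjoint A B) (x y x' y' : Site d) :
    ∫⁻ ω, EK ω A x y * EK ω B x' y' ∂(iidEnvironmentLaw ν)
      = (∫⁻ ω, EK ω A x y ∂(iidEnvironmentLaw ν)) * ∫⁻ ω, EK ω B x' y' ∂(iidEnvironmentLaw ν) :=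
  lint_mul ν hAB (measA_EK A x y) (measA_EK B x' y')

/-! ### hitting before leaving -/

/-- `X` hits `T` before it leaves `A` (points of `T` need not be in `A`) -/
def HitS (A T : Set (Site d)) : Set (Path d) := {X | ∃ n, X n ∈ T ∧ ∀ i < n, X i ∈ A}

/-- quenched probability to hit `T` before leaving `A` -/
noncomputable def HK (ω : Environment d) (A : Set (Site d)) (x : Site d) (T : Set (Site d)) :
    ℝ≥0∞ := quenchedLaw ω x (HitS A T)

lemma mem_HitS_iff {A T : Set (Site d)} {X : Path d} :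
    X ∈ HitS A T ↔ exT (A \ T) X ≠ ⊤ ∧ X (exT (A \ T) X).toNat ∈ T := by
  classical
  constructor
  · rintro ⟨n, hn, hi⟩
    have hex : ∃ m, X m ∈ T := ⟨n, hn⟩
    have hm : Nat.find hex ≤ n := Nat.find_min' hex hn
    have h1 : exT (A \ T) X = (Nat.find hex : ℕ) := by
      rw [exT_eq_iff]
      refine ⟨fun h => h.2 (Nat.find_spec hex), fun i hi' => ⟨hi i (by omega), ?_⟩⟩
      exact Nat.find_min hex hi'
    rw [h1]
    exact ⟨ENat.natCast_ne_top _, by rw [ENat.toNat_natCast]; exact Nat.find_spec hex⟩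
  · rintro ⟨h1, h2⟩
    obtain ⟨n, hn⟩ := ENat.ne_top_iff_exists.1 h1
    rw [← hn, ENat.toNat_natCast] at h2
    exact ⟨n, h2, fun i hi => ((exT_eq_iff.1 hn.symm).2 i hi).1⟩

/-- hitting probabilities are sums of exit kernels -/
theorem HK_eq (ω : Environment d) (A T : Set (Site d)) (x : Site d) :
    HK ω A x T = ∑' y, T.indicator (EK ω (A \ T) x) y := by
  rw [tsum_EK]
  unfold HK
  congr 1
  ext X
  exact mem_HitS_iff

lemma HitS_eq (A T : Set (Site d)) :
    HitS A T = ⋃ n : ℕ, {X : Path d | X n ∈ T ∧ ∀ i < n, X i ∈ A} := by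
  ext X; simp [HitS]

lemma depOn_hit (A T : Set (Site d)) (n : ℕ) :
    Q561.DepOn n {X : Path d | X n ∈ T ∧ ∀ i < n, X i ∈ A} := by
  intro X Y h hX
  refine ⟨by rw [← h n le_rfl]; exact hX.1, fun i hi => ?_⟩
  rw [← h i hi.le]
  exact hX.2 i hi

lemma measurableSet_HitS (A T : Set (Site d)) : MeasurableSet (HitS A T) := by
  rw [HitS_eq]
  exact MeasurableSet.iUnion fun n => (depOn_hit A T n).measurableSet

lemma dec_HitS (A T : Set (Site d)) : Q561.Dec A (HitS A T) := by
  rw [HitS_eq]
  exact Q561.dec_iUnion fun n => Q561.dec_of_depOn (depOn_hit A T n) fun X hX k hk => hX.2 k hk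

lemma measA_HK (A T : Set (Site d)) (x : Site d) :
    Measurable[coordSigmaAlgebra A] fun ω : Environment d => HK ω A x T :=
  Q561.measurable_coord_quenched x (measurableSet_HitS A T) (dec_HitS A T)

lemma meas_HK (A T : Set (Site d)) (x : Site d) :
    Measurable fun ω : Environment d => HK ω A x T :=
  Q561.measurable_quenched_apply x (measurableSet_HitS A T)

lemma HK_mono (ω : Environment d) {A A' T T' : Set (Site d)} (hA : A ⊆ A') (hT : T ⊆ T')
    (x : Site d) : HK ω A x T ≤ HK ω A' x T' :=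
  measure_mono fun X hX => by
    obtain ⟨n, hn, hi⟩ := hX
    exact ⟨n, hT hn, fun i h => hA (hi i h)⟩

lemma HK_le_one (ω : Environment d) (A T : Set (Site d)) (x : Site d) : HK ω A x T ≤ 1 :=
  prob_le_one

lemma HK_of_mem (ω : Environment d) (A : Set (Site d)) {T : Set (Site d)} {x : Site d}
    (hx : x ∈ T) : HK ω A x T = 1 := by
  have h : ∀ᵐ X ∂quenchedLaw ω x, X ∈ HitS A T := by
    filter_upwards [quenched_zero_eq ω x] with X hX
    exact ⟨0, by rw [hX]; exact hx, fun i hi => absurd hi (Nat.not_lt_zero i)⟩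
  unfold HK
  exact (prob_compl_eq_zero_iff (measurableSet_HitS A T)).1 h

/-- **chaining of hits**: hit `T` inside `A`, then hit `T'` inside `A'` -/
theorem HK_chain (ω : Environment d) {A A' B T T' : Set (Site d)} (hA : A ⊆ B) (hA' : A' ⊆ B)
    {c c' : ℝ≥0∞} {x : Site d} (h1 : c ≤ HK ω A x T) (h2 : ∀ z ∈ T, c' ≤ HK ω A' z T') :
    c * c' ≤ HK ω B x T' := by
  have e : {X : Path d | exT (A \ T) X ≠ ⊤ ∧ shift (exT (A \ T) X).toNat X ∈ HitS A' T'} ⊆
      HitS B T' := by
    rintro X ⟨h3, m, hm, hi⟩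
    obtain ⟨t, ht⟩ := ENat.ne_top_iff_exists.1 h3
    rw [← ht, ENat.toNat_natCast] at hm hi
    refine ⟨t + m, hm, fun i hi' => ?_⟩
    rcases Nat.lt_or_ge i t with h4 | h4
    · exact hA ((exT_eq_iff.1 ht.symm).2 i h4).1
    · have h5 := hi (i - t) (by omega)
      have h6 : X (t + (i - t)) ∈ A' := h5
      rw [Nat.add_sub_cancel' h4] at h6
      exact hA' h6
  calc c * c' ≤ (∑' y, T.indicator (EK ω (A \ T) x) y) * c' := by
        gcongr; rw [← HK_eq]; exact h1
    _ = ∑' y, T.indicator (EK ω (A \ T) x) y * c' := ENNReal.tsum_mul_right.symm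
    _ ≤ ∑' y, EK ω (A \ T) x y * quenchedLaw ω y (HitS A' T') := by
        refine ENNReal.tsum_le_tsum fun y => ?_
        by_cases hy : y ∈ T
        · rw [Set.indicator_of_mem hy]
          gcongr
          exact h2 y hy
        · rw [Set.indicator_of_notMem hy, zero_mul]
          exact zero_le
    _ = quenchedLaw ω x {X | exT (A \ T) X ≠ ⊤ ∧
          shift (exT (A \ T) X).toNat X ∈ HitS A' T'} :=
        (exit_markov ω (A \ T) x (measurableSet_HitS A' T')).symm
    _ ≤ _ := measure_mono e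

/-! ### slabs -/

section slab
variable (ℓ : Site d → ℤ)

/-- the slab `lo ≤ ℓ < hi` -/
def Slab (lo hi : ℤ) : Set (Site d) := {z | lo ≤ ℓ z ∧ ℓ z < hi}

/-- the levels `≥ hi` -/
def Top (hi : ℤ) : Set (Site d) := {z | hi ≤ ℓ z}

/-- killed slab kernel: first visit of `{ℓ ≥ hi}` is at `y`, before `{ℓ < lo}` -/
noncomputable def SK (ω : Environment d) (lo hi : ℤ) (x y : Site d) : ℝ≥0∞ :=
  (Top ℓ hi).indicator (EK ω (Slab ℓ lo hi) x) y

variable {ℓ}

lemma Slab_mono {lo lo' hi hi' : ℤ} (h : lo' ≤ lo) (h' : hi ≤ hi') :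
    Slab ℓ lo hi ⊆ Slab ℓ lo' hi' := fun z hz => ⟨h.trans hz.1, lt_of_lt_of_le hz.2 h'⟩

lemma tsum_SK_le (ω : Environment d) (lo hi : ℤ) (x : Site d) : ∑' y, SK ℓ ω lo hi x y ≤ 1 :=
  le_trans (ENNReal.tsum_le_tsum fun y => Set.indicator_le_self _ _ _) (tsum_EK_le ω _ x)

lemma measA_SK (lo hi : ℤ) (x y : Site d) :
    Measurable[coordSigmaAlgebra (Slab ℓ lo hi)] fun ω : Environment d => SK ℓ ω lo hi x y := by
  unfold SK
  by_cases hy : y ∈ Top ℓ hi
  · simp only [Set.indicator_of_mem hy]
    exact measA_EK _ x y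
  · simp only [Set.indicator_of_notMem hy]
    exact measurable_const

/-- **composition of the killed slab kernels** -/
theorem SK_comp (ω : Environment d) {lo a b : ℤ} (hlo : lo ≤ a) (hab : a ≤ b) (x y : Site d) :
    SK ℓ ω lo b x y = ∑' z, SK ℓ ω lo a x z * SK ℓ ω lo b z y := by
  unfold SK
  by_cases hy : y ∈ Top ℓ b
  · simp only [Set.indicator_of_mem hy]
    rw [EK_comp ω (Slab_mono (ℓ := ℓ) le_rfl hab) x y]
    refine tsum_congr fun z => ?_
    by_cases hz : z ∈ Top ℓ a
    · rw [Set.indicator_of_mem hz]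
    · rw [Set.indicator_of_notMem hz, zero_mul]
      have hz' : ℓ z < a := not_le.1 hz
      by_cases hz2 : lo ≤ ℓ z
      · have : z ∈ Slab ℓ lo a := ⟨hz2, hz'⟩
        rw [EK_of_mem this, zero_mul]
      · have h1 : z ∉ Slab ℓ lo b := fun h => hz2 h.1
        have h2 : y ∉ ({z} : Set (Site d)) := by
          intro h
          rw [Set.mem_singleton_iff.1 h] at hy
          have : b ≤ ℓ z := hy
          omega
        rw [EK_notMem ω h1, Set.indicator_of_notMem h2, mul_zero]
  · simp only [Set.indicator_of_notMem hy, mul_zero, tsum_zero]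

/-- nearest neighbour level functions: the exit is on the level `hi` -/
lemma SK_level (hℓ : ∀ z (e : Step d), ℓ (z + stepVec e) ≤ ℓ z + 1) (ω : Environment d)
    {lo hi : ℤ} {x : Site d} (hx : ℓ x ≤ hi) {y : Site d} (hy : SK ℓ ω lo hi x y ≠ 0) :
    ℓ y = hi := by
  unfold SK at hy
  by_cases hT : y ∈ Top ℓ hi
  · rw [Set.indicator_of_mem hT] at hy
    by_contra hne
    refine hy ?_
    have h : ∀ᵐ X ∂quenchedLaw ω x, X ∉ ExS (Slab ℓ lo hi) y := by
      filter_upwards [quenched_zero_eq ω x, quenched_nn ω x] with X h0 hnn hE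
      obtain ⟨hyA, n, hn, hi'⟩ := hE
      have hT' : hi ≤ ℓ y := hT
      cases n with
      | zero =>
        rw [h0] at hn
        rw [hn] at hx
        exact hne (le_antisymm hx hT')
      | succ n =>
        obtain ⟨e, he⟩ := hnn n
        have h1 := (hi' n (Nat.lt_succ_self n)).2
        have h2 := hℓ (X n) e
        rw [← he, hn] at h2
        exact hne (by omega)
    have h2 := ae_iff.1 h
    unfold EK
    simpa using h2
  · rw [Set.indicator_of_notMem hT] at hy
    exact absurd rfl hy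

end slab

end Crest.Agent.R154.ExK9
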