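import Crest.Agent.R154.FinB_804
import Crest.Agent.R154.B9Ann_409

/-!
Row 154 (helper804): the output of helper409's `annealed_decay` (S3 of block B9) from the
finite-level statement `FL` instead of the tail (QT) of the quenched escape probability.
The proofs follow B9Quen_409 with `NoRet` replaced by `NoRetL` (climb `L` levels before returning)
and all visits counted before the exit of the slab of `L` levels.
-/

set_option autoImplicit false

namespace Crest.Agent.R154.Fin804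

open MeasureTheory ProbabilityTheory Crest.ProbabilityR.RandomEnvironment Crest.Agent.R154
open Crest.Agent.R154.Flux132 (lev)
open Crest.Agent.R154.B9409
open scoped ENNReal

variable {d : ℕ}

/-- climb `L` heights before going below the start. -/
def ClimbH (ht : Site d →+ ℤ) (L : ℕ) : Set (Path d) :=
  {X | ∃ n, ht (X 0) + L ≤ ht (X n) ∧ ∀ k ≤ n, ht (X 0) ≤ ht (X k)}

/-- climb `L` heights before returning to the starting height. -/
def NoRetL (ht : Site d →+ ℤ) (L : ℕ) : Set (Path d) :=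
  {X | ∃ n, ht (X 0) + L ≤ ht (X n) ∧ ∀ k, 1 ≤ k → k ≤ n → ht (X 0) < ht (X k)}

theorem measurableSet_climbH (ht : Site d →+ ℤ) (L : ℕ) : MeasurableSet (ClimbH ht L) := by
  unfold ClimbH
  rw [Set.ofPred_exists]
  refine MeasurableSet.iUnion fun n => measurableSet_of_agree n _ fun X Y h => ?_
  simp only [Set.mem_ofPred_eq, h 0 (Nat.zero_le _), h n le_rfl]
  refine and_congr Iff.rfl (forall_congr' fun k => forall_congr' fun hk => ?_)
  rw [h k hk]

theorem measurableSet_noRetL (ht : Site d →+ ℤ) (L : ℕ) : MeasurableSet (NoRetL ht L) := by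
  unfold NoRetL
  rw [Set.ofPred_exists]
  refine MeasurableSet.iUnion fun n => measurableSet_of_agree n _ fun X Y h => ?_
  simp only [Set.mem_ofPred_eq, h 0 (Nat.zero_le _), h n le_rfl]
  refine and_congr Iff.rfl (forall_congr' fun k => forall_congr' fun _ => forall_congr' fun hk => ?_)
  rw [h k hk]

theorem noRetL_ge (ht : Site d →+ ℤ) {u : Step d} (hu : ht (stepVec u) = 1) (ω : Environment d)
    (L : ℕ) (y : Site d) :
    ENNReal.ofReal ((ω y).1 u) * quenchedLaw ω (y + stepVec u) (ClimbH ht L)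
      ≤ quenchedLaw ω y (NoRetL ht L) := by
  classical
  set γ : Path d := fun i => if i = 0 then y else y + stepVec u with hγ
  have hg0 : γ 0 = y := by simp [hγ]
  have hg1 : γ 1 = y + stepVec u := by simp [hγ]
  have hc : quenchedLaw ω y (cyl γ 1) = ENNReal.ofReal ((ω y).1 u) := by
    rw [quenched_cyl, if_pos hg0]
    simp only [wt, Finset.range_one, Finset.prod_singleton, zero_add]
    rw [hg0, hg1, stepP_add]
  have hm := markov_event ω y 1 (A := cyl γ 1) (B := ClimbH ht L)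
    (fun X Y h => ⟨fun hX => h.symm.trans hX, fun hY => h.trans hY⟩) (measurableSet_climbH ht L)
  have e1 : ∫⁻ X in cyl γ 1, quenchedLaw ω (X 1) (ClimbH ht L) ∂quenchedLaw ω y
      = ∫⁻ _ in cyl γ 1, quenchedLaw ω (y + stepVec u) (ClimbH ht L) ∂quenchedLaw ω y := by
    refine setLIntegral_congr_fun (measurableSet_cyl _ _) fun X hX => ?_
    rw [hX 1 le_rfl, hg1]
  rw [e1, setLIntegral_const, hc, mul_comm] at hm
  rw [← hm]
  refine measure_mono ?_
  rintro X ⟨hX, n, h2, h3⟩
  have h0 : X 0 = y := by rw [hX 0 (Nat.zero_le _), hg0]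
  have h1 : X 1 = y + stepVec u := by rw [hX 1 le_rfl, hg1]
  simp only [shift, Nat.add_zero] at h2 h3
  rw [h1, map_add, hu] at h2
  refine ⟨1 + n, ?_, fun k hk1 hk2 => ?_⟩
  · rw [h0]; omega
  · have h4 := h3 (k - 1) (by omega)
    rw [Nat.add_sub_cancel' hk1, h1, map_add, hu] at h4
    rw [h0]; omega

/-- expected number of visits to a level before leaving `B`, `B` inside a slab of `L` levels -/
theorem visitsL_le (ht : Site d →+ ℤ) (ω : Environment d) (x : Site d) {B : Set (Site d)} {L : ℕ}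
    (hB : ∀ y ∈ B, 0 ≤ ht y ∧ ht y < L)
    {c : ℝ≥0∞} (hc : ∀ y ∈ B, c ≤ quenchedLaw ω y (NoRetL ht L)) (j : ℤ) (a : ℕ) :
    c * ∑ n ∈ Finset.range a, quenchedLaw ω x {X | (∀ i ≤ n, X i ∈ B) ∧ ht (X n) = j} ≤ 1 := by
  classical
  set E : ℕ → Set (Path d) := fun n =>
    {X | (∀ i ≤ n, X i ∈ B) ∧ ht (X n) = j} ∩ shift n ⁻¹' NoRetL ht L with hE
  have hA : ∀ n, ∀ X Y : Path d, Agree n X Y →
      (X ∈ {X : Path d | (∀ i ≤ n, X i ∈ B) ∧ ht (X n) = j} ↔
        Y ∈ {X : Path d | (∀ i ≤ n, X i ∈ B) ∧ ht (X n) = j}) := by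
    intro n X Y h
    simp only [Set.mem_ofPred_eq, h n le_rfl]
    refine and_congr (forall_congr' fun i => forall_congr' fun hi => ?_) Iff.rfl
    rw [h i hi]
  have hEm : ∀ n, MeasurableSet (E n) := fun n =>
    (measurableSet_of_agree n _ (hA n)).inter (measurable_shift n (measurableSet_noRetL ht L))
  have hdisj : ((Finset.range a : Finset ℕ) : Set ℕ).PairwiseDisjoint E := by
    have key : ∀ n m, n < m → Disjoint (E n) (E m) := by
      intro n m hnm
      rw [Set.disjoint_left]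
      rintro X ⟨h1, k, h2, h3⟩ ⟨h4, _⟩
      simp only [shift, Nat.add_zero] at h2 h3
      rcases le_or_gt (m - n) k with hk | hk
      · have := h3 (m - n) (by omega) hk
        rw [Nat.add_sub_cancel' hnm.le] at this
        rw [h1.2, h4.2] at this
        exact lt_irrefl _ this
      · have h5 := (hB _ (h4.1 (n + k) (by omega))).2
        have h6 := (hB _ (h1.1 n le_rfl)).1
        omega
    intro n _ m _ hnm
    rcases lt_or_gt_of_ne hnm with h | h
    · exact key n m h
    · exact (key m n h).symm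
  have hle : ∀ n, c * quenchedLaw ω x {X | (∀ i ≤ n, X i ∈ B) ∧ ht (X n) = j}
      ≤ quenchedLaw ω x (E n) := by
    intro n
    rw [hE]
    simp only
    rw [markov_event ω x n (hA n) (measurableSet_noRetL ht L), ← setLIntegral_const]
    refine setLIntegral_mono' (measurableSet_of_agree n _ (hA n)) fun X hX => ?_
    exact hc _ (hX.1 n le_rfl)
  rw [Finset.mul_sum]
  calc ∑ n ∈ Finset.range a, c * quenchedLaw ω x {X | (∀ i ≤ n, X i ∈ B) ∧ ht (X n) = j}
      ≤ ∑ n ∈ Finset.range a, quenchedLaw ω x (E n) := Finset.sum_le_sum fun n _ => hle n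
    _ = quenchedLaw ω x (⋃ n ∈ Finset.range a, E n) :=
        (measure_biUnion_finset hdisj fun n _ => hEm n).symm
    _ ≤ 1 := prob_le_one

/-- the time spent in a set with few levels -/
theorem stayL_le (ht : Site d →+ ℤ) (ω : Environment d) (x : Site d) {B : Set (Site d)} {L : ℕ}
    (hB : ∀ y ∈ B, 0 ≤ ht y ∧ ht y < L)
    {c : ℝ≥0∞} (hc : ∀ y ∈ B, c ≤ quenchedLaw ω y (NoRetL ht L)) (a : ℕ) :
    c * (a * quenchedLaw ω x (StayIn B a)) ≤ L := by
  classical
  set J : Finset ℤ := Finset.Ico 0 (L : ℤ) with hJd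
  have hJ : ∀ y ∈ B, ht y ∈ J := fun y hy => Finset.mem_Ico.2 (hB y hy)
  have hcard : (J.card : ℝ≥0∞) = L := by
    rw [hJd, Int.card_Ico, sub_zero, Int.toNat_natCast]
  have h1 : (a : ℝ≥0∞) * quenchedLaw ω x (StayIn B a)
      ≤ ∑ n ∈ Finset.range a, ∑ j ∈ J,
          quenchedLaw ω x {X | (∀ i ≤ n, X i ∈ B) ∧ ht (X n) = j} := by
    have h2 : ∀ n ∈ Finset.range a, quenchedLaw ω x (StayIn B a)
        ≤ ∑ j ∈ J, quenchedLaw ω x {X | (∀ i ≤ n, X i ∈ B) ∧ ht (X n) = j} := by
      intro n hn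
      refine le_trans (measure_mono ?_) (measure_biUnion_finset_le J _)
      intro X hX
      have hn' := Finset.mem_range.1 hn
      have h3 := hX n hn'
      simp only [Set.mem_iUnion, Set.mem_ofPred_eq]
      exact ⟨ht (X n), hJ _ h3, fun i hi => hX i (by omega), rfl⟩
    calc (a : ℝ≥0∞) * quenchedLaw ω x (StayIn B a)
        = ∑ _n ∈ Finset.range a, quenchedLaw ω x (StayIn B a) := by
          rw [Finset.sum_const, Finset.card_range, nsmul_eq_mul]
      _ ≤ _ := Finset.sum_le_sum h2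
  calc c * (a * quenchedLaw ω x (StayIn B a))
      ≤ c * ∑ n ∈ Finset.range a, ∑ j ∈ J,
          quenchedLaw ω x {X | (∀ i ≤ n, X i ∈ B) ∧ ht (X n) = j} := by
        gcongr
    _ = ∑ j ∈ J, c * ∑ n ∈ Finset.range a,
          quenchedLaw ω x {X | (∀ i ≤ n, X i ∈ B) ∧ ht (X n) = j} := by
        rw [Finset.sum_comm, Finset.mul_sum]
    _ ≤ ∑ _j ∈ J, 1 := Finset.sum_le_sum fun j _ => visitsL_le ht ω x hB hc j a
    _ = L := by rw [Finset.sum_const, nsmul_eq_mul, mul_one, hcard]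

/-- descend by `N` levels inside `S`, `S` inside a slab of `L` levels -/
theorem descL_le (ht : Site d →+ ℤ) (ω : Environment d) {S : Set (Site d)} {L : ℕ}
    (hB : ∀ y ∈ S, 0 ≤ ht y ∧ ht y < L) {c : ℝ≥0∞}
    (hc : ∀ y ∈ S, c ≤ quenchedLaw ω y (NoRetL ht L)) (N : ℕ) (y : Site d) :
    quenchedLaw ω y (Desc ht S N) ≤ (1 - c) ^ N := by
  classical
  induction N generalizing y with
  | zero => simpa using prob_le_one
  | succ N ih =>
    set A : ℕ → Set (Path d) := fun n =>
      {X | X 0 ∈ S ∧ ht (X n) < ht (X 0) ∧ ∀ i, i < n → ht (X 0) ≤ ht (X i) ∧ X i ∈ S} with hAdef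
    have hA : ∀ n, ∀ X Y : Path d, Agree n X Y → (X ∈ A n ↔ Y ∈ A n) := by
      intro n X Y h
      simp only [hAdef, Set.mem_ofPred_eq, h 0 (Nat.zero_le _), h n le_rfl]
      refine and_congr Iff.rfl (and_congr Iff.rfl (forall_congr' fun i => forall_congr' fun hi => ?_))
      rw [h i hi.le]
    have hdisj : Pairwise (Function.onFun Disjoint A) := by
      have key : ∀ n m, n < m → Disjoint (A n) (A m) := by
        intro n m hnm
        rw [Set.disjoint_left]
        rintro X ⟨_, h1, _⟩ ⟨_, _, h2⟩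
        exact absurd (h2 n hnm).1 (not_le.2 h1)
      intro n m hnm
      rcases lt_or_gt_of_ne hnm with h | h
      · exact key n m h
      · exact (key m n h).symm
    have hsub : Desc ht S (N + 1) ⊆ ⋃ n, A n ∩ shift n ⁻¹' Desc ht S N := by
      rintro X ⟨hNN, m, hm1, hm2⟩
      have hm1' : ht (X m) + N + 1 ≤ ht (X 0) := by push_cast at hm1; linarith
      have hex : ∃ n, ht (X n) < ht (X 0) := ⟨m, by omega⟩
      set n := Nat.find hex with hn
      have hn1 : ht (X n) < ht (X 0) := Nat.find_spec hex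
      have hn2 : ∀ i, i < n → ht (X 0) ≤ ht (X i) := fun i hi => not_lt.1 (Nat.find_min hex hi)
      have hnm : n ≤ m := Nat.find_min' hex (by omega)
      have hn0 : n ≠ 0 := by
        intro h0; rw [h0] at hn1; exact lt_irrefl _ hn1
      have hm0 : 0 < m := lt_of_lt_of_le (Nat.pos_of_ne_zero hn0) hnm
      have hdown : ht (X 0) ≤ ht (X n) + 1 := by
        have h1 := hn2 (n - 1) (by omega)
        have h2 := hNN (n - 1)
        rw [Nat.sub_add_cancel (Nat.pos_of_ne_zero hn0)] at h2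
        exact h1.trans h2
      simp only [Set.mem_iUnion]
      refine ⟨n, ⟨hm2 0 hm0, hn1, fun i hi => ⟨hn2 i hi, hm2 i (by omega)⟩⟩,
        fun i => ?_, m - n, ?_, fun i hi => ?_⟩
      · have := hNN (n + i)
        simpa [shift, add_assoc] using this
      · simp only [shift, Nat.add_zero]
        rw [Nat.add_sub_cancel' hnm]
        linarith
      · simp only [shift]
        exact hm2 (n + i) (by omega)
    have hle := sum_first_le ω y hA hdisj (measurableSet_Desc ht S N) ih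
    have hU : quenchedLaw ω y (⋃ n, A n) ≤ 1 - c := by
      by_cases hy : y ∈ S
      · have h1 : (⋃ n, A n) ⊆ (NoRetL ht L)ᶜ := by
          intro X hX
          simp only [Set.mem_iUnion] at hX
          obtain ⟨n, h0, h2, h3⟩ := hX
          rintro ⟨k, hk1, hk2⟩
          have hn0 : n ≠ 0 := by
            rintro rfl; exact lt_irrefl _ h2
          have h5 := (hB _ h0).1
          rcases le_or_gt n k with hnk | hnk
          · have := hk2 n (Nat.pos_of_ne_zero hn0) hnk
            exact lt_irrefl _ (h2.trans this)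
          · have := (hB _ (h3 k hnk).2).2
            omega
        refine (measure_mono h1).trans ?_
        rw [prob_compl_eq_one_sub (measurableSet_noRetL ht L)]
        exact tsub_le_tsub_left (hc y hy) 1
      · have h1 : quenchedLaw ω y (⋃ n, A n) = 0 := by
          have h2 : ∀ᵐ X ∂quenchedLaw ω y, X ∉ ⋃ n, A n := by
            filter_upwards [quenched_zero_eq ω y] with X hX
            simp only [Set.mem_iUnion, not_exists]
            rintro n ⟨h3, _⟩
            rw [hX] at h3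
            exact hy h3
          exact measure_eq_zero_iff_ae_notMem.2 h2
        rw [h1]; exact zero_le
    calc quenchedLaw ω y (Desc ht S (N + 1))
        ≤ quenchedLaw ω y (⋃ n, A n ∩ shift n ⁻¹' Desc ht S N) := measure_mono hsub
      _ ≤ (1 - c) ^ N * quenchedLaw ω y (⋃ n, A n) := hle
      _ ≤ (1 - c) ^ N * (1 - c) := by gcongr
      _ = (1 - c) ^ (N + 1) := by rw [pow_succ]

/-- quenched form: the probability of `Back` from the origin -/
theorem backL_le {ht : Site d →+ ℤ} (h1 : ∀ e : Step d, |ht (stepVec e)| ≤ 1) (ω : Environment d)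
    {c : ℝ≥0∞} {n0 : ℕ} (K L : ℕ)
    (hc : ∀ y ∈ slab ht n0 L, c ≤ quenchedLaw ω y (NoRetL ht L)) :
    quenchedLaw ω 0 (Back ht K L)
      ≤ quenchedLaw ω 0 (StayIn (slab ht n0 L) n0) + (1 - c) ^ K := by
  classical
  set S : Set (Site d) := slab ht n0 L with hS
  set A : ℕ → Set (Path d) := fun n =>
    {X | (K : ℤ) ≤ ht (X n) ∧ ∀ i, i < n → ht (X i) < K} with hAdef
  have hA : ∀ n, ∀ X Y : Path d, Agree n X Y → (X ∈ A n ↔ Y ∈ A n) := by
    intro n X Y h
    simp only [hAdef, Set.mem_ofPred_eq, h n le_rfl]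
    refine and_congr Iff.rfl (forall_congr' fun i => forall_congr' fun hi => ?_)
    rw [h i hi.le]
  have hdisj : Pairwise (Function.onFun Disjoint A) := by
    have key : ∀ n m, n < m → Disjoint (A n) (A m) := by
      intro n m hnm
      rw [Set.disjoint_left]
      rintro X ⟨h1, _⟩ ⟨_, h2⟩
      exact absurd (h2 n hnm) (not_lt.2 h1)
    intro n m hnm
    rcases lt_or_gt_of_ne hnm with h | h
    · exact key n m h
    · exact (key m n h).symm
  have hle := sum_first_le ω 0 hA hdisj (measurableSet_Desc ht S K)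
    (descL_le ht ω (fun y hy => hy.2) hc K)
  have hmain : ∀ᵐ X ∂quenchedLaw ω 0, X ∈ Back ht K L →
      X ∈ StayIn S n0 ∪ ⋃ n, A n ∩ shift n ⁻¹' Desc ht S K := by
    filter_upwards [quenched_zero_eq ω 0, ae_box ω, ae_NN h1 ω 0] with X h0 hbox hNN hX
    obtain ⟨m, hm1, hm2, ⟨n', hn1, hn2⟩, hm3⟩ := hX
    rw [h0, map_zero] at hm1 hn2
    simp only [h0, map_zero] at hm2 hm3
    rcases le_or_gt n0 m with hcase | hcase
    · left
      intro i hi
      refine ⟨fun k => (hbox i k).trans (by exact_mod_cast hi.le), hm2 i (by omega), ?_⟩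
      have := hm3 i (by omega)
      simpa using this
    · right
      have hex : ∃ n, (K : ℤ) ≤ ht (X n) := ⟨n', by simpa using hn2⟩
      set n := Nat.find hex with hn
      have hn3 : (K : ℤ) ≤ ht (X n) := Nat.find_spec hex
      have hn4 : ∀ i, i < n → ht (X i) < K := fun i hi => not_le.1 (Nat.find_min hex hi)
      have hnn : n ≤ n' := Nat.find_min' hex (by simpa using hn2)
      simp only [Set.mem_iUnion]
      refine ⟨n, ⟨hn3, hn4⟩, fun i => ?_, m - n, ?_, fun i hi => ?_⟩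
      · have := hNN (n + i)
        simpa [shift, add_assoc] using this
      · simp only [shift, Nat.add_zero]
        rw [Nat.add_sub_cancel' (by omega : n ≤ m)]
        linarith
      · simp only [shift]
        refine ⟨fun k => (hbox (n + i) k).trans (by push_cast; omega), hm2 (n + i) (by omega), ?_⟩
        have := hm3 (n + i) (by omega)
        simpa using this
  calc quenchedLaw ω 0 (Back ht K L)
      ≤ quenchedLaw ω 0 (StayIn S n0 ∪ ⋃ n, A n ∩ shift n ⁻¹' Desc ht S K) :=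
        measure_mono_ae hmain
    _ ≤ _ := measure_union_le _ _
    _ ≤ quenchedLaw ω 0 (StayIn S n0) + (1 - c) ^ K := by
        gcongr
        refine hle.trans ?_
        calc (1 - c) ^ K * quenchedLaw ω 0 (⋃ n, A n) ≤ (1 - c) ^ K * 1 := by
              gcongr; exact prob_le_one
          _ = (1 - c) ^ K := mul_one _

/-- numbers: in the slab for `m * a` steps -/
theorem slabL_le {ht : Site d →+ ℤ} (ω : Environment d)
    {c : ℝ≥0∞} {n0 : ℕ} (L : ℕ) (hc : ∀ y ∈ slab ht n0 L, c ≤ quenchedLaw ω y (NoRetL ht L))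
    {a m : ℕ}
    (ha : 2 * (L : ℝ≥0∞) ≤ c * a) (hc0 : c ≠ 0) (hct : c ≠ ⊤) (ha0 : a ≠ 0) :
    quenchedLaw ω 0 (StayIn (slab ht n0 L) (m * a)) ≤ 2⁻¹ ^ m := by
  refine stay_pow ω (fun x => ?_) m 0
  have h := stayL_le ht ω x (B := slab ht n0 L) (c := c) (fun y hy => hy.2) hc a
  rw [← mul_assoc] at h
  have hca0 : c * (a : ℝ≥0∞) ≠ 0 := mul_ne_zero hc0 (by exact_mod_cast ha0)
  have hcat : c * (a : ℝ≥0∞) ≠ ⊤ := ENNReal.mul_ne_top hct (ENNReal.natCast_ne_top a)
  have h2 : 2 * (c * (a : ℝ≥0∞) * quenchedLaw ω x (StayIn (slab ht n0 L) a)) ≤ c * a :=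
    (mul_le_mul_right h 2).trans ha
  have h3 : c * (a : ℝ≥0∞) * (2 * quenchedLaw ω x (StayIn (slab ht n0 L) a)) ≤ c * a * 1 := by
    rw [mul_one]
    calc c * (a : ℝ≥0∞) * (2 * quenchedLaw ω x (StayIn (slab ht n0 L) a))
        = 2 * (c * (a : ℝ≥0∞) * quenchedLaw ω x (StayIn (slab ht n0 L) a)) := by ring
      _ ≤ _ := h2
  have h4 := (ENNReal.mul_le_mul_iff_right hca0 hcat).1 h3
  rw [mul_comm] at h4
  calc quenchedLaw ω x (StayIn (slab ht n0 L) a) ≤ 1 / 2 :=
        (ENNReal.le_div_iff_mul_le (Or.inl two_ne_zero) (Or.inl ENNReal.ofNat_ne_top)).2 h4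
    _ = 2⁻¹ := one_div _

/-! ### annealed -/

/-- some site of the box has small quenched probability of climbing `L` levels -/
def BadL (ht : Site d →+ ℤ) (r k L : ℕ) : Set (Environment d) :=
  {ω | ∃ y ∈ box d r, quenchedLaw ω y (ClimbH ht L) < ENNReal.ofReal (1 / (k : ℝ))}

theorem tr_climbH (ht : Site d →+ ℤ) (L : ℕ) (z : Site d) :
    Q561.tr z ⁻¹' ClimbH ht L = ClimbH ht L := by
  ext X
  simp only [Q561.tr, ClimbH, Set.mem_preimage, Set.mem_ofPred_eq, map_add]
  constructor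
  · rintro ⟨n, h1, h2⟩
    exact ⟨n, by omega, fun k hk => by have := h2 k hk; omega⟩
  · rintro ⟨n, h1, h2⟩
    exact ⟨n, by omega, fun k hk => by have := h2 k hk; omega⟩

theorem quenched_climbH_shift (ht : Site d →+ ℤ) (L : ℕ) (ω : Environment d) (x : Site d) :
    quenchedLaw ω x (ClimbH ht L) = quenchedLaw (shiftEnv x ω) 0 (ClimbH ht L) := by
  rw [Q561.quenched_eq_zero_shift ω x (measurableSet_climbH ht L), tr_climbH]

theorem measurableSet_climbH_lt (ht : Site d →+ ℤ) (L : ℕ) (x : Site d) (t : ℝ≥0∞) :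
    MeasurableSet {ω : Environment d | quenchedLaw ω x (ClimbH ht L) < t} := by
  have hf : Measurable fun ω : Environment d => quenchedLaw ω x (ClimbH ht L) :=
    measurable_quenched_apply x (measurableSet_climbH ht L)
  exact measurableSet_lt hf measurable_const

theorem badL_le {Q : Measure (Environment d)}
    (hQ : ∀ z : Site d, MeasurePreserving (shiftEnv z) Q Q) (ht : Site d →+ ℤ) (r k L : ℕ) :
    Q (BadL ht r k L) ≤ ((2 * r + 1 : ℕ) : ℝ≥0∞) ^ d *
      Q {ω | quenchedLaw ω 0 (ClimbH ht L) < ENNReal.ofReal (1 / (k : ℝ))} := by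
  set t : ℝ≥0∞ := ENNReal.ofReal (1 / (k : ℝ)) with ht'
  have h1 : BadL ht r k L ⊆ ⋃ y ∈ B9409.boxF d r, {ω | quenchedLaw ω y (ClimbH ht L) < t} := by
    rintro ω ⟨y, hy, h⟩
    simp only [Set.mem_iUnion]
    exact ⟨y, B9409.mem_boxF.2 hy, h⟩
  refine (measure_mono h1).trans ((measure_biUnion_finset_le _ _).trans ?_)
  have h2 : ∑ y ∈ B9409.boxF d r, Q {ω | quenchedLaw ω y (ClimbH ht L) < t}
      = ∑ _y ∈ B9409.boxF d r, Q {ω | quenchedLaw ω 0 (ClimbH ht L) < t} := by
    refine Finset.sum_congr rfl fun y _ => ?_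
    have h3 := (hQ y).measure_preimage (measurableSet_climbH_lt ht L 0 t).nullMeasurableSet
    rw [← h3]
    refine congrArg Q ?_
    ext ω
    simp only [Set.mem_ofPred_eq, Set.mem_preimage, quenched_climbH_shift ht L ω y]
  rw [h2, Finset.sum_const, B9409.card_boxF, nsmul_eq_mul]
  push_cast
  exact le_rfl

theorem measurableSet_BadL (ht : Site d →+ ℤ) (r k L : ℕ) : MeasurableSet (BadL ht r k L) := by
  have : BadL ht r k L = ⋃ y ∈ B9409.boxF d r,
      {ω | quenchedLaw ω y (ClimbH ht L) < ENNReal.ofReal (1 / (k : ℝ))} := by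
    ext ω
    simp only [BadL, Set.mem_ofPred_eq, Set.mem_iUnion, exists_prop, B9409.mem_boxF]
  rw [this]
  exact Finset.measurableSet_biUnion _ fun y _ => measurableSet_climbH_lt ht L y _

theorem noRetL_of_good {ht : Site d →+ ℤ} {u : Step d} (hu : ht (stepVec u) = 1) {κ : ℝ}
    (hκ : 0 < κ) {ω : Environment d} (hell : ∀ (x : Site d) (e : Step d), κ ≤ (ω x).1 e)
    {r k L : ℕ} (hω : ω ∉ BadL ht (r + 1) k L) (y : Site d) (hy : y ∈ box d r) :
    ENNReal.ofReal (κ / k) ≤ quenchedLaw ω y (NoRetL ht L) := by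
  refine le_trans ?_ (noRetL_ge ht hu ω L y)
  have h1 : y + stepVec u ∈ box d (r + 1) := by
    intro i
    rw [Pi.add_apply]
    have h2 : |stepVec u i| ≤ 1 := by
      simp only [stepVec, Pi.single_apply]
      split_ifs <;> simp
    have h3 := abs_add_le (y i) (stepVec u i)
    have h4 := hy i
    push_cast
    linarith
  have h2 : ENNReal.ofReal (1 / (k : ℝ)) ≤ quenchedLaw ω (y + stepVec u) (ClimbH ht L) := by
    by_contra hcon
    exact hω ⟨_, h1, not_le.1 hcon⟩
  have h3 : ENNReal.ofReal (κ / k) = ENNReal.ofReal κ * ENNReal.ofReal (1 / (k : ℝ)) := by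
    rw [← ENNReal.ofReal_mul hκ.le]; congr 1; ring
  rw [h3]
  exact mul_le_mul' (ENNReal.ofReal_le_ofReal (hell y u)) h2

/-- quenched bounds on good environments -/
theorem quenched_goodL {ht : Site d →+ ℤ} {u : Step d} (hu : ht (stepVec u) = 1)
    (h1 : ∀ e : Step d, |ht (stepVec e)| ≤ 1) {κ : ℝ} (hκ : 0 < κ)
    {ω : Environment d} (hell : ∀ (x : Site d) (e : Step d), κ ≤ (ω x).1 e) {n : ℕ} (hn : 1 ≤ n)
    (hω : ω ∉ BadL ht (nn κ n + 1) (Nat.sqrt n) (2 * n)) :
    quenchedLaw ω 0 (SlabP ht (2 * n) (nn κ n)) ≤ 2⁻¹ ^ Nat.sqrt n ∧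
    quenchedLaw ω 0 (Back ht n (2 * n)) ≤
      2⁻¹ ^ Nat.sqrt n + (1 - ENNReal.ofReal (κ / (Nat.sqrt n : ℝ))) ^ n := by
  have hc := fun y (hy : y ∈ slab ht (nn κ n) (2 * n)) => noRetL_of_good hu hκ hell hω y hy.1
  obtain ⟨hs1, _, _⟩ := sqrt_facts hn
  have hs1' : (0 : ℝ) < (Nat.sqrt n : ℝ) := by exact_mod_cast hs1
  have hn' : (0 : ℝ) < n := by exact_mod_cast hn
  have hapos : 0 < 4 * (n : ℝ) * (Nat.sqrt n : ℝ) / κ := by positivity
  have ha : 2 * ((2 * n : ℕ) : ℝ≥0∞) ≤ ENNReal.ofReal (κ / (Nat.sqrt n : ℝ)) * (aa κ n : ℝ≥0∞) := by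
    have e1 : (2 * ((2 * n : ℕ) : ℝ≥0∞)) = ENNReal.ofReal (4 * n) := by
      rw [show (4 * (n : ℝ)) = ((4 * n : ℕ) : ℝ) by push_cast; ring, ENNReal.ofReal_natCast]
      push_cast; ring
    have e2 : (aa κ n : ℝ≥0∞) = ENNReal.ofReal (aa κ n : ℝ) := (ENNReal.ofReal_natCast _).symm
    rw [e1, e2, ← ENNReal.ofReal_mul (by positivity)]
    refine ENNReal.ofReal_le_ofReal ?_
    have h2 : 4 * (n : ℝ) * (Nat.sqrt n : ℝ) / κ ≤ (aa κ n : ℝ) := Nat.le_ceil _
    calc 4 * (n : ℝ) = κ / (Nat.sqrt n : ℝ) * (4 * (n : ℝ) * (Nat.sqrt n : ℝ) / κ) := by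
          field_simp
      _ ≤ κ / (Nat.sqrt n : ℝ) * (aa κ n : ℝ) := by gcongr
  have ha0 : aa κ n ≠ 0 := by
    have : 0 < aa κ n := Nat.ceil_pos.2 hapos
    exact this.ne'
  have hc0 : ENNReal.ofReal (κ / (Nat.sqrt n : ℝ)) ≠ 0 := by
    simp only [Ne, ENNReal.ofReal_eq_zero, not_le]; positivity
  have hslab := slabL_le (ht := ht) ω (2 * n) hc (a := aa κ n) (m := Nat.sqrt n) ha hc0
    ENNReal.ofReal_ne_top ha0
  refine ⟨(slabP_le ht ω _ _).trans hslab, ?_⟩
  refine (backL_le h1 ω n (2 * n) hc).trans ?_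
  exact add_le_add hslab le_rfl

theorem climbH_anti (ht : Site d →+ ℤ) {L L' : ℕ} (h : L ≤ L') : ClimbH ht L' ⊆ ClimbH ht L := by
  rintro X ⟨n, h1, h2⟩
  exact ⟨n, by omega, h2⟩

/-- `FL` for a height function. -/
def FLH (Q : Measure (Environment d)) (ht : Site d →+ ℤ) : Prop :=
  ∀ δ M : ℝ, 0 < δ → 0 < M → ∃ C : ℝ, ∀ i : ℕ,
    Q {ω | quenchedLaw ω 0 (ClimbH ht (10 ^ i)) < ENNReal.ofReal (Real.exp (-(δ * i)))}
      ≤ ENNReal.ofReal (C * Real.exp (-(M * i)))

/-- polynomial decay of the probability that the quenched probability of climbing `2n` levels is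
below `1/√n`. -/
theorem climb_decay {Q : Measure (Environment d)} [IsProbabilityMeasure Q] {ht : Site d →+ ℤ}
    (hFL : FLH Q ht) (A : ℕ) :
    ∃ C : ℝ, 0 ≤ C ∧ ∀ n : ℕ, 1 ≤ n →
      Q {ω | quenchedLaw ω 0 (ClimbH ht (2 * n)) < ENNReal.ofReal (1 / (Nat.sqrt n : ℝ))}
        ≤ ENNReal.ofReal (C / (n : ℝ) ^ A) := by
  obtain ⟨C, hC⟩ := hFL (1 / 8) (3 * A + 1) (by norm_num) (by positivity)
  refine ⟨|C| * 1 + 20 ^ A, by positivity, fun n hn => ?_⟩
  have hn1 : (1 : ℝ) ≤ n := by exact_mod_cast hn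
  rcases lt_or_ge n 20 with hsmall | hbig
  · -- trivial bound
    refine prob_le_one.trans ?_
    rw [← ENNReal.ofReal_one]
    refine ENNReal.ofReal_le_ofReal ?_
    rw [le_div_iff₀ (by positivity), one_mul]
    have h1 : (n : ℝ) ^ A ≤ 20 ^ A := by
      have : (n : ℝ) ≤ 20 := by exact_mod_cast hsmall.le
      gcongr
    have h2 : 0 ≤ |C| * 1 := by positivity
    linarith
  · -- choose i with 2n ≤ 10^i < 20 n
    obtain ⟨i, hi1, hi2⟩ : ∃ i : ℕ, 2 * n ≤ 10 ^ i ∧ 10 ^ i ≤ 20 * n := by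
      classical
      have hex : ∃ i : ℕ, 2 * n ≤ 10 ^ i := ⟨2 * n, (Nat.lt_pow_self (by norm_num)).le⟩
      refine ⟨Nat.find hex, Nat.find_spec hex, ?_⟩
      rcases Nat.eq_zero_or_pos (Nat.find hex) with h0 | h0
      · rw [h0, pow_zero]; omega
      · have h1 := Nat.find_min hex (m := Nat.find hex - 1) (by omega)
        have h2 : 10 ^ Nat.find hex = 10 * 10 ^ (Nat.find hex - 1) := by
          rw [← pow_succ']
          congr 1
          omega
        rw [h2]
        omega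
    have hi1' : (2 * (n : ℝ)) ≤ 10 ^ i := by exact_mod_cast hi1
    have hi2' : (10 : ℝ) ^ i ≤ 20 * n := by exact_mod_cast hi2
    obtain ⟨hs1, hs2, hs3⟩ := sqrt_facts hn
    have hs1' : (0 : ℝ) < (Nat.sqrt n : ℝ) := by exact_mod_cast hs1
    have hs3' : (n : ℝ) ≤ 4 * (Nat.sqrt n : ℝ) ^ 2 := by exact_mod_cast hs3
    have hs4 : (4 : ℝ) ≤ (Nat.sqrt n : ℝ) := by
      have : 4 ≤ Nat.sqrt n := by rw [Nat.le_sqrt]; omega
      exact_mod_cast this
    -- threshold
    have hthr : 1 / (Nat.sqrt n : ℝ) ≤ Real.exp (-(1 / 8 * i)) := by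
      rw [Real.exp_neg, ← one_div]
      refine one_div_le_one_div_of_le (Real.exp_pos _) ?_
      refine le_of_pow_le_pow_left₀ (n := 8) (by norm_num) hs1'.le ?_
      have h8 : Real.exp (1 / 8 * i) ^ 8 = Real.exp 1 ^ i := by
        rw [← Real.exp_nat_mul, ← Real.exp_nat_mul]
        congr 1
        push_cast
        ring
      rw [h8]
      have he : Real.exp 1 ≤ 10 := by
        have := Real.exp_one_lt_d9
        linarith
      calc Real.exp 1 ^ i ≤ (10 : ℝ) ^ i := by gcongr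
        _ ≤ 20 * n := hi2'
        _ ≤ 20 * (4 * (Nat.sqrt n : ℝ) ^ 2) := by gcongr
        _ = 80 * (Nat.sqrt n : ℝ) ^ 2 := by ring
        _ ≤ (Nat.sqrt n : ℝ) ^ 6 * (Nat.sqrt n : ℝ) ^ 2 := by
            gcongr
            calc (80 : ℝ) ≤ 4 ^ 6 := by norm_num
              _ ≤ (Nat.sqrt n : ℝ) ^ 6 := by gcongr
        _ = (Nat.sqrt n : ℝ) ^ 8 := by ring
    have hmono : Q {ω | quenchedLaw ω 0 (ClimbH ht (2 * n)) < ENNReal.ofReal (1 / (Nat.sqrt n : ℝ))}
        ≤ Q {ω | quenchedLaw ω 0 (ClimbH ht (10 ^ i)) < ENNReal.ofReal (Real.exp (-(1 / 8 * i)))} := by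
      refine measure_mono fun ω hω => ?_
      simp only [Set.mem_ofPred_eq] at hω ⊢
      exact (measure_mono (climbH_anti ht hi1)).trans_lt
        (hω.trans_le (ENNReal.ofReal_le_ofReal hthr))
    refine hmono.trans ((hC i).trans (ENNReal.ofReal_le_ofReal ?_))
    have hM : Real.exp (-((3 * A + 1) * i)) ≤ 1 / (n : ℝ) ^ A := by
      rw [Real.exp_neg, ← one_div]
      refine one_div_le_one_div_of_le (by positivity) ?_
      have h10 : (10 : ℝ) ≤ Real.exp 3 := by
        have h1 : Real.exp 3 = Real.exp 1 ^ 3 := by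
          rw [← Real.exp_nat_mul]; norm_num
        have h2 := Real.exp_one_gt_d9
        rw [h1]
        have h3 : (2.7 : ℝ) ^ 3 ≤ Real.exp 1 ^ 3 := by
          gcongr
          linarith
        norm_num at h3
        linarith
      calc (n : ℝ) ^ A ≤ ((10 : ℝ) ^ i) ^ A := by
            gcongr
            linarith
        _ ≤ ((Real.exp 3) ^ i) ^ A := by gcongr
        _ = Real.exp (3 * A * i) := by
            rw [← Real.exp_nat_mul, ← Real.exp_nat_mul]
            congr 1
            ring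
        _ ≤ Real.exp ((3 * A + 1) * i) := by
            refine Real.exp_le_exp.2 ?_
            have : (0 : ℝ) ≤ i := Nat.cast_nonneg i
            nlinarith
    calc C * Real.exp (-((3 * A + 1) * i)) ≤ |C| * Real.exp (-((3 * A + 1) * i)) := by
          gcongr
          exact le_abs_self C
      _ ≤ |C| * (1 / (n : ℝ) ^ A) := by gcongr
      _ ≤ (|C| * 1 + 20 ^ A) / (n : ℝ) ^ A := by
          rw [mul_one_div]
          gcongr
          have : (0 : ℝ) ≤ 20 ^ A := by positivity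
          linarith

/-- the bad environments have polynomially small probability of every order -/
theorem badL_decay {Q : Measure (Environment d)} [IsProbabilityMeasure Q]
    (hQ : ∀ z : Site d, MeasurePreserving (shiftEnv z) Q Q) {ht : Site d →+ ℤ} {κ : ℝ} (hκ : 0 < κ)
    (hFL : FLH Q ht) : PolyDecay fun n => Q (BadL ht (nn κ n + 1) (Nat.sqrt n) (2 * n)) := by
  intro A
  obtain ⟨C, hC0, hC⟩ := climb_decay hFL (2 * d + A)
  set c1 : ℝ := 2 * (4 / κ + 1) + 3 with hc1
  refine ⟨c1 ^ d * C, by positivity, fun n hn => ?_⟩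
  have hn1 : (1 : ℝ) ≤ n := by exact_mod_cast hn
  have hn' : (0 : ℝ) < n := by linarith
  have h1 : ((2 * (nn κ n + 1) + 1 : ℕ) : ℝ) ≤ c1 * (n : ℝ) ^ 2 := by
    have h2 := nn_le hκ hn
    push_cast
    have h3 : (1 : ℝ) ≤ (n : ℝ) ^ 2 := one_le_pow₀ hn1
    calc 2 * ((nn κ n : ℝ) + 1) + 1 = 2 * (nn κ n : ℝ) + 3 := by ring
      _ ≤ 2 * ((4 / κ + 1) * (n : ℝ) ^ 2) + 3 * (n : ℝ) ^ 2 := by linarith
      _ = c1 * (n : ℝ) ^ 2 := by rw [hc1]; ring
  have h4 : ((2 * (nn κ n + 1) + 1 : ℕ) : ℝ≥0∞) ^ d ≤ ENNReal.ofReal ((c1 * (n : ℝ) ^ 2) ^ d) := by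
    rw [← ENNReal.ofReal_natCast, ENNReal.ofReal_pow (by positivity)]
    gcongr
  calc Q (BadL ht (nn κ n + 1) (Nat.sqrt n) (2 * n)) ≤ _ := badL_le hQ ht _ _ _
    _ ≤ ENNReal.ofReal ((c1 * (n : ℝ) ^ 2) ^ d) *
          ENNReal.ofReal (C / (n : ℝ) ^ (2 * d + A)) := mul_le_mul' h4 (hC n hn)
    _ = ENNReal.ofReal (c1 ^ d * C / (n : ℝ) ^ A) := by
        rw [← ENNReal.ofReal_mul (by positivity)]
        congr 1
        rw [mul_pow, ← pow_mul]
        field_simp
        ring

/-- **S3 of B9 from the finite-level statement.** -/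
theorem annealed_decay_FL {Q : Measure (Environment d)} [IsProbabilityMeasure Q]
    (hQ : ∀ z : Site d, MeasurePreserving (shiftEnv z) Q Q) {ht : Site d →+ ℤ} {u : Step d}
    (hu : ht (stepVec u) = 1) (h1 : ∀ e : Step d, |ht (stepVec e)| ≤ 1) {κ : ℝ} (hκ : 0 < κ)
    (hell : ∀ᵐ ω ∂Q, ∀ (x : Site d) (e : Step d), κ ≤ (ω x).1 e) (hFL : FLH Q ht) :
    PolyDecay (fun n => annealed Q 0 (Back ht n (2 * n))) ∧
    PolyDecay (fun n => annealed Q 0 (SlabP ht (2 * n) (nn κ n))) := by
  have hbad := badL_decay hQ hκ hFL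
  have hhalf := polyDecay_exp (Real.log_pos one_lt_two)
  have hexp := polyDecay_exp hκ
  constructor
  · refine (hbad.add (hhalf.add hexp)).mono fun n hn => ?_
    refine annealed_le_of_good (measurableSet_Back ht _ _) (measurableSet_BadL ht _ _ _) ?_
    filter_upwards [hell] with ω hω hB
    refine (quenched_goodL hu h1 hκ hω hn hB).2.trans ?_
    exact add_le_add (half_pow_eq _).le (B9409.one_sub_pow_le hκ hn)
  · refine (hbad.add hhalf).mono fun n hn => ?_
    refine annealed_le_of_good (measurableSet_SlabP ht _ _) (measurableSet_BadL ht _ _ _) ?_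
    filter_upwards [hell] with ω hω hB
    exact (quenched_goodL hu h1 hκ hω hn hB).1.trans (half_pow_eq _).le

/-- the level as an additive homomorphism. -/
def levH (u : Step d) : Site d →+ ℤ where
  toFun := lev u
  map_zero' := by simp [lev]
  map_add' := lev_add u

theorem climbH_levH (u : Step d) (h : ℕ) : ClimbH (levH u) h = Climb u h := rfl

theorem FL.toH {Q : Measure (Environment d)} {u : Step d} (h : FL Q u) : FLH Q (levH u) := h

end Crest.Agent.R154.Fin804
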