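import Crest.Agent.R154.RiverQ_999
import Crest.Agent.R154.ExK_9
import Crest.Agent.R154.River_916
import Crest.Agent.R154.FinC_804
import Crest.Agent.R154.Bind_263

/-!
# Row 154, `d = 2` block, helper491: the slab lemma (lateral exits of a slanted slab)

`sl z = lt z - v (lv z)` = slanted lateral coordinate, `v : ℤ → ℤ` ARBITRARY.  Slab `l0 ≤ lv < l1`.
* `slant_cross` : quenched planar inequality `climb of the column + lateral crossing ≤ 1`;
* `slab_right`, `slab_left`, `slab_two` : annealed geometric decay of the lateral exits, with any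
  past read outside the part of the slab which has to be crossed.
-/

set_option autoImplicit false

namespace Crest.Agent.R154.Slab491

open MeasureTheory ProbabilityTheory Crest.ProbabilityR.RandomEnvironment
open Crest.Agent.R154 Crest.Agent.R154.Planar999 Crest.Agent.R154.ExK9
open scoped ENNReal

variable {d : ℕ}

section geo

variable (lt lv : Site d →+ ℤ) (v : ℤ → ℤ) (l0 l1 : ℤ)

/-- slanted lateral coordinate -/
def sl (z : Site d) : ℤ := lt z - v (lv z)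

/-- part of the slab on the left of `r` -/
def LeftOf (r : ℤ) : Set (Site d) := {z | l0 ≤ lv z ∧ lv z < l1 ∧ sl lt lv v z < r}

/-- part of the slab on the right of `r` -/
def RightOf (r : ℤ) : Set (Site d) := {z | l0 ≤ lv z ∧ lv z < l1 ∧ r ≤ sl lt lv v z}

/-- slanted column of half width `A` around `a` -/
def Col (a A : ℤ) : Set (Site d) :=
  {z | l0 ≤ lv z ∧ lv z < l1 ∧ a - A < sl lt lv v z ∧ sl lt lv v z < a + A}

/-- the level `l1` -/
def TopS : Set (Site d) := {z | lv z = l1}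

lemma Col_finite (hinj : ∀ z z', lt z = lt z' → lv z = lv z' → z = z') (a A : ℤ) :
    (Col lt lv v l0 l1 a A).Finite := by
  have hφ : Function.Injective fun z : Site d => (lt z, lv z) := by
    intro z z' h
    rw [Prod.mk.injEq] at h
    exact hinj _ _ h.1 h.2
  have hfin : ((⋃ l ∈ Set.Ico l0 l1, (Set.Ioo (a - A + v l) (a + A + v l) ×ˢ {l})) :
      Set (ℤ × ℤ)).Finite :=
    Set.Finite.biUnion (Set.finite_Ico l0 l1) fun l _ =>
      (Set.finite_Ioo _ _).prod (Set.finite_singleton l)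
  refine (hfin.preimage hφ.injOn).subset ?_
  rintro z ⟨h0, h1, h2, h3⟩
  simp only [sl] at h2 h3
  simp only [Set.mem_preimage, Set.mem_iUnion, Set.mem_prod, Set.mem_Ioo, Set.mem_Ico,
    Set.mem_singleton_iff, exists_prop]
  exact ⟨lv z, ⟨h0, h1⟩, ⟨by omega, by omega⟩, rfl⟩

end geo

/-! ## The quenched planar inequality -/

section cross

variable {lt lv : Site d →+ ℤ} {v : ℤ → ℤ} {l0 l1 : ℤ}

/-- **the quenched planar inequality in a slanted slab** -/
theorem slant_cross (i0 : Fin d) (ω : Environment d) (hω : ∀ z e, 0 < (ω z).1 e)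
    (hstp : ∀ z (e : Step d), Stp (lt z, lv z) (lt (z + stepVec e), lv (z + stepVec e)))
    (hinj : ∀ z z', lt z = lt z' → lv z = lv z' → z = z')
    {a A r : ℤ} (har : a + A ≤ r) {x y : Site d} (hx : x ∈ Col lt lv v l0 l1 a A)
    (hxl : lv x = l0) (hy : y ∈ LeftOf lt lv v l0 l1 r) (hya : sl lt lv v y ≤ a - A) :
    HK ω (Col lt lv v l0 l1 a A) x (TopS lv l1) +
      HK ω (LeftOf lt lv v l0 l1 r) y (RightOf lt lv v l0 l1 r) ≤ 1 := by
  refine RiverQ999.ex_add_le_one i0 ω hω (Col lt lv v l0 l1 a A) (LeftOf lt lv v l0 l1 r)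
    (TopS lv l1) (RightOf lt lv v l0 l1 r) (Col_finite lt lv v l0 l1 hinj a A) ?_ ?_ ?_ ?_ x y
    hx hy ?_
  · rintro z ⟨h0, h1, h2, h3⟩
    exact ⟨h0, h1, by omega⟩
  · intro z hz h
    have h1 : lv z = l1 := hz
    have h2 := h.2.1
    omega
  · intro z hz h
    have h1 : lv z = l1 := hz
    have h2 := h.2.1
    omega
  · intro z hz h
    have h1 := hz.2.2
    have h2 := h.2.2
    omega
  · intro n m p q hp0 hps hpn hq0 hqs hqm
    have hP : ∀ i ≤ n, l0 ≤ lv (p i) ∧ lv (p i) < l1 := by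
      intro i hi
      rcases Nat.lt_or_ge i n with h | h
      · exact ⟨(hps i h).1.1, (hps i h).1.2.1⟩
      · rw [le_antisymm hi h]; exact ⟨hpn.1, hpn.2.1⟩
    have hqm' : lv (q m) = l1 := hqm
    obtain ⟨i, hi, j, hj, hij⟩ := River916.planar_ext (fun i => (lt (p i), lv (p i)))
      (fun j => (lt (q j), lv (q j))) n m
      (fun i hi => by obtain ⟨e, he⟩ := (hps i hi).2; simp only [he]; exact hstp _ _)
      (fun j hj => by obtain ⟨e, he⟩ := (hqs j hj).2; simp only [he]; exact hstp _ _)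
      (fun j hj hl => by
        simp only [hp0] at hl ⊢
        rcases Nat.lt_or_ge j m with h | h
        · have h1 := (hqs j h).1.2.2.1
          simp only [sl] at h1 hya
          rw [hl] at h1
          omega
        · have h2 := hy.2.1
          rw [le_antisymm hj h, hqm'] at hl
          omega)
      (fun j hj hl => by
        simp only at hl ⊢
        rcases Nat.lt_or_ge j m with h | h
        · have h1 := (hqs j h).1.2.2.2
          have h2 := hpn.2.2
          simp only [sl] at h1 h2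
          rw [hl] at h1
          omega
        · have h2 := hpn.2.1
          rw [le_antisymm hj h, hqm'] at hl
          omega)
      (fun i hi => by simp only [hq0, hxl]; exact (hP i hi).1)
      (fun i hi => by simp only [hqm']; exact (hP i hi).2.le)
    simp only [Prod.mk.injEq] at hij
    exact ⟨i, hi, j, hj, hinj _ _ hij.1 hij.2⟩

end cross

/-! ## Composition of hitting kernels -/

/-- hitting after the exit of a smaller set -/
theorem HK_comp (ω : Environment d) {A A' T : Set (Site d)} (h : A ⊆ A') (hT : Disjoint A' T)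
    (x : Site d) : HK ω A' x T = ∑' z, EK ω A x z * HK ω A' z T := by
  have hA : A' \ T = A' := hT.sdiff_eq_left
  have e1 : ∀ z, HK ω A' z T = ∑' y, T.indicator (EK ω A' z) y := by
    intro z
    rw [HK_eq, hA]
  rw [e1]
  simp only [e1]
  calc ∑' y, T.indicator (EK ω A' x) y
      = ∑' y, ∑' z, EK ω A x z * T.indicator (EK ω A' z) y := by
        refine tsum_congr fun y => ?_
        by_cases hy : y ∈ T
        · simp only [Set.indicator_of_mem hy]
          exact EK_comp ω h x y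
        · simp only [Set.indicator_of_notMem hy, mul_zero, tsum_zero]
    _ = ∑' z, ∑' y, EK ω A x z * T.indicator (EK ω A' z) y := ENNReal.tsum_comm
    _ = _ := by
        refine tsum_congr fun z => ?_
        rw [ENNReal.tsum_mul_left]

lemma HK_zero (ω : Environment d) {A T : Set (Site d)} {x : Site d} (hA : x ∉ A) (hT : x ∉ T) :
    HK ω A x T = 0 := RiverQ999.Ex_zero ω hA hT

/-! ## Jumps of the slant -/

section jump

variable {lt lv : Site d →+ ℤ} {v : ℤ → ℤ} {l0 l1 : ℤ}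

/-- a quenched event of positive probability contains a nearest neighbour path -/
lemma exists_path (ω : Environment d) (x : Site d) {B : Set (Path d)}
    (hB : quenchedLaw ω x B ≠ 0) :
    ∃ X ∈ B, X 0 = x ∧ ∀ n, ∃ e : Step d, X (n + 1) = X n + stepVec e := by
  by_contra hcon
  push Not at hcon
  refine hB (measure_eq_zero_iff_ae_notMem.2 ?_)
  filter_upwards [quenched_zero_eq ω x, quenched_nn ω x] with X h0 hnn hX
  obtain ⟨n, hn⟩ := hcon X hX h0
  obtain ⟨e, he⟩ := hnn n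
  exact hn e he

/-- if the slanted column can be climbed, the slant has jumps `< 2 A` -/
lemma jump_lt (ω : Environment d)
    (hstp : ∀ z (e : Step d), Stp (lt z, lv z) (lt (z + stepVec e), lv (z + stepVec e)))
    {a A : ℤ} {x : Site d} (hxl : lv x = l0)
    (hc : HK ω (Col lt lv v l0 l1 a A) x (TopS lv l1) ≠ 0) {l : ℤ} (hl0 : l0 ≤ l)
    (hl1 : l + 1 < l1) : |v (l + 1) - v l| < 2 * A := by
  obtain ⟨X, ⟨n, hn, hi⟩, h0, hnn⟩ := exists_path ω x hc
  classical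
  have hn' : lv (X n) = l1 := hn
  have hex : ∃ j, l + 1 ≤ lv (X j) := ⟨n, by omega⟩
  set j := Nat.find hex with hj
  have hj1 : l + 1 ≤ lv (X j) := Nat.find_spec hex
  have hjn : j ≤ n := Nat.find_min' hex (by omega)
  have hj0 : j ≠ 0 := by
    intro h
    rw [h, h0, hxl] at hj1
    omega
  obtain ⟨k, hk⟩ := Nat.exists_eq_succ_of_ne_zero hj0
  have hk1 : ¬ (l + 1 ≤ lv (X k)) := Nat.find_min hex (by omega)
  obtain ⟨e, he⟩ := hnn k
  have hs := hstp (X k) e
  rw [← he] at hs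
  rw [hk] at hj1 hjn
  change l + 1 ≤ lv (X (k + 1)) at hj1
  change k + 1 ≤ n at hjn
  simp only [Stp] at hs
  have hlk : lv (X k) = l := by omega
  have hlk1 : lv (X (k + 1)) = l + 1 := by omega
  have hlt : lt (X (k + 1)) = lt (X k) := by omega
  have hkn : k + 1 < n := by
    rcases Nat.lt_or_ge (k + 1) n with h | h
    · exact h
    · have : k + 1 = n := le_antisymm hjn h
      rw [this] at hlk1
      omega
  have h1 := hi k (by omega)
  have h2 := hi (k + 1) hkn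
  obtain ⟨-, -, h3, h4⟩ := h1
  obtain ⟨-, -, h5, h6⟩ := h2
  simp only [sl, hlk, hlk1, hlt] at h3 h4 h5 h6
  rw [abs_lt]
  constructor <;> omega

/-- exit points of the left part into the right part -/
lemma exit_le (ω : Environment d)
    (hstp : ∀ z (e : Step d), Stp (lt z, lv z) (lt (z + stepVec e), lv (z + stepVec e)))
    {A r : ℤ} (hv : ∀ l, l0 ≤ l → l + 1 < l1 → |v (l + 1) - v l| < 2 * A) (hA : 0 < A)
    {x z : Site d} (hx : x ∈ LeftOf lt lv v l0 l1 r)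
    (hz : EK ω (LeftOf lt lv v l0 l1 r) x z ≠ 0) (hzr : z ∈ RightOf lt lv v l0 l1 r) :
    sl lt lv v z < r + 2 * A := by
  obtain ⟨X, ⟨hzA, n, hn, hi⟩, h0, hnn⟩ := exists_path ω x hz
  cases n with
  | zero =>
    rw [h0] at hn
    exact absurd (hn ▸ hx) hzA
  | succ n =>
    obtain ⟨e, he⟩ := hnn n
    have hs := hstp (X n) e
    rw [← he, hn] at hs
    obtain ⟨g0, g1, g2⟩ := hi n (Nat.lt_succ_self n)
    obtain ⟨k0, k1, k2⟩ := hzr
    simp only [Stp] at hs
    simp only [sl] at g2 k2 ⊢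
    rcases hs with h | h | h | h | h
    · rw [h.1, h.2]; omega
    · rw [h.1, h.2]; omega
    · rw [h.1, h.2]; omega
    · have h3 := hv (lv (X n)) g0 (by omega)
      rw [abs_lt] at h3
      rw [h.1, h.2]
      omega
    · have h3 := hv (lv (X n) - 1) (by omega) (by omega)
      rw [abs_lt] at h3
      rw [sub_add_cancel] at h3
      rw [h.1, h.2]
      omega

end jump

/-! ## One crossing step -/

section step

variable {lt lv : Site d →+ ℤ} {v : ℤ → ℤ} {l0 l1 : ℤ}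

/-- **quenched step**: crossing `4 A` more columns costs the factor `1 - (climb of the column)` -/
theorem step_le (i0 : Fin d) (ω : Environment d) (hω : ∀ z e, 0 < (ω z).1 e)
    (hstp : ∀ z (e : Step d), Stp (lt z, lv z) (lt (z + stepVec e), lv (z + stepVec e)))
    (hinj : ∀ z z', lt z = lt z' → lv z = lv z' → z = z')
    {A r : ℤ} (hA : 0 < A) {x x0 : Site d} (hl : l0 < l1) (hxl : lv x = l0)
    (hxs : sl lt lv v x = r + 3 * A) (hx0 : x0 ∈ LeftOf lt lv v l0 l1 r) :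
    HK ω (LeftOf lt lv v l0 l1 (r + 4 * A)) x0 (RightOf lt lv v l0 l1 (r + 4 * A)) ≤
      HK ω (LeftOf lt lv v l0 l1 r) x0 (RightOf lt lv v l0 l1 r) *
        (1 - HK ω (Col lt lv v l0 l1 (r + 3 * A) A) x (TopS lv l1)) := by
  have hsub : LeftOf lt lv v l0 l1 r ⊆ LeftOf lt lv v l0 l1 (r + 4 * A) := by
    rintro z ⟨h0, h1, h2⟩
    exact ⟨h0, h1, by omega⟩
  have hdis : ∀ s, Disjoint (LeftOf lt lv v l0 l1 s) (RightOf lt lv v l0 l1 s) := by
    intro s
    refine Set.disjoint_left.2 fun z h1 h2 => ?_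
    have := h1.2.2
    have := h2.2.2
    omega
  have hx : x ∈ Col lt lv v l0 l1 (r + 3 * A) A :=
    ⟨hxl.ge, by omega, by omega, by omega⟩
  rw [HK_comp ω hsub (hdis _) x0]
  have hGk : HK ω (LeftOf lt lv v l0 l1 r) x0 (RightOf lt lv v l0 l1 r) =
      ∑' z, (RightOf lt lv v l0 l1 r).indicator (EK ω (LeftOf lt lv v l0 l1 r) x0) z := by
    rw [HK_eq, (hdis r).sdiff_eq_left]
  rw [hGk, ← ENNReal.tsum_mul_right]
  refine ENNReal.tsum_le_tsum fun z => ?_
  by_cases hz : z ∈ RightOf lt lv v l0 l1 r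
  · rw [Set.indicator_of_mem hz]
    by_cases hE : EK ω (LeftOf lt lv v l0 l1 r) x0 z = 0
    · rw [hE]; simp
    · refine mul_le_mul_right ?_ _
      by_cases hc : HK ω (Col lt lv v l0 l1 (r + 3 * A) A) x (TopS lv l1) = 0
      · rw [hc, tsub_zero]
        exact HK_le_one _ _ _ _
      · have hv : ∀ l, l0 ≤ l → l + 1 < l1 → |v (l + 1) - v l| < 2 * A :=
          fun l h0 h1 => jump_lt ω hstp hxl hc h0 h1
        have hzs := exit_le ω hstp hv hA hx0 hE hz
        have hzL : z ∈ LeftOf lt lv v l0 l1 (r + 4 * A) := ⟨hz.1, hz.2.1, by omega⟩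
        have := slant_cross i0 ω hω hstp hinj (a := r + 3 * A) (A := A) (r := r + 4 * A)
          (by omega) hx hxl hzL (by omega)
        rw [add_comm] at this
        exact ENNReal.le_sub_of_add_le_right (ne_top_of_le_ne_top ENNReal.one_ne_top
          (HK_le_one _ _ _ _)) this
  · rw [Set.indicator_of_notMem hz, zero_mul]
    by_cases hE : EK ω (LeftOf lt lv v l0 l1 r) x0 z = 0
    · rw [hE, zero_mul]
    · have hzL : z ∉ LeftOf lt lv v l0 l1 r := fun h => hE (EK_of_mem h ω x0)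
      have hzs : ¬ (l0 ≤ lv z ∧ lv z < l1) := by
        rintro ⟨h0, h1⟩
        rcases lt_or_ge (sl lt lv v z) r with h | h
        · exact hzL ⟨h0, h1, h⟩
        · exact hz ⟨h0, h1, h⟩
      rw [HK_zero ω (fun h => hzs ⟨h.1, h.2.1⟩) (fun h => hzs ⟨h.1, h.2.1⟩), mul_zero]

end step

/-! ## Shift of the climbs -/

section shift

/-- **shift covariance** -/
theorem HK_shift (z : Site d) (ω : Environment d) (A T : Set (Site d)) (x : Site d) :
    HK ω (trS z A) (x + z) (trS z T) = HK (shiftEnv z ω) A x T := by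
  unfold HK
  rw [Q561.quenched_shift_apply z ω x (measurableSet_HitS _ _)]
  congr 1
  ext X
  show (∃ n, X n + z ∈ trS z T ∧ ∀ i < n, X i + z ∈ trS z A) ↔
    (∃ n, X n ∈ T ∧ ∀ i < n, X i ∈ A)
  simp only [mem_trS]

variable {lt lv : Site d →+ ℤ} {v : ℤ → ℤ} {l0 l1 : ℤ}

lemma trS_Col {e1 : Site d} (h1 : lt e1 = 1) (h2 : lv e1 = 0) (b a A : ℤ) :
    trS (b • e1) (Col lt lv v l0 l1 a A) = Col lt lv v l0 l1 (a + b) A := by
  ext z
  have hl : lv (z - b • e1) = lv z := by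
    rw [map_sub, map_zsmul, h2, smul_zero, sub_zero]
  have ht : lt (z - b • e1) = lt z - b := by
    rw [map_sub, map_zsmul, h1, smul_eq_mul, mul_one]
  show (l0 ≤ lv (z - b • e1) ∧ lv (z - b • e1) < l1 ∧ a - A < lt (z - b • e1) -
    v (lv (z - b • e1)) ∧ lt (z - b • e1) - v (lv (z - b • e1)) < a + A) ↔
    (l0 ≤ lv z ∧ lv z < l1 ∧ a + b - A < lt z - v (lv z) ∧ lt z - v (lv z) < a + b + A)
  rw [hl, ht]
  omega

lemma trS_TopS {e1 : Site d} (h2 : lv e1 = 0) (b : ℤ) :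
    trS (b • e1) (TopS lv l1) = TopS lv l1 := by
  ext z
  show lv (z - b • e1) = l1 ↔ lv z = l1
  rw [map_sub, map_zsmul, h2, smul_zero, sub_zero]

/-- the annealed climbing probability of the column does not depend on the column -/
lemma lint_climb (ν : Measure (Row d)) [IsProbabilityMeasure ν] {e1 : Site d} (h1 : lt e1 = 1)
    (h2 : lv e1 = 0) (b A : ℤ) (x : Site d) :
    ∫⁻ ω, HK ω (Col lt lv v l0 l1 b A) (x + b • e1) (TopS lv l1) ∂(iidEnvironmentLaw ν) =
      ∫⁻ ω, HK ω (Col lt lv v l0 l1 0 A) x (TopS lv l1) ∂(iidEnvironmentLaw ν) := by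
  rw [← lint_shift (Q561.iid_shift ν (b • e1)) (meas_HK (Col lt lv v l0 l1 0 A) (TopS lv l1) x)]
  refine lintegral_congr fun ω => ?_
  rw [← HK_shift, trS_Col h1 h2, trS_TopS h2, zero_add]

end shift

/-! ## Geometric decay -/

section decay

variable {lt lv : Site d →+ ℤ} {v : ℤ → ℤ} {l0 l1 : ℤ}

lemma lint_one_sub {Q : Measure (Environment d)} [IsProbabilityMeasure Q] {f : Environment d → ℝ≥0∞}
    (hf : Measurable f) (hf1 : ∀ ω, f ω ≤ 1) : ∫⁻ ω, (1 - f ω) ∂Q = 1 - ∫⁻ ω, f ω ∂Q := by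
  rw [lintegral_sub hf ?_ (Filter.Eventually.of_forall hf1), lintegral_one, measure_univ]
  refine ne_top_of_le_ne_top ENNReal.one_ne_top ?_
  calc ∫⁻ ω, f ω ∂Q ≤ ∫⁻ _, 1 ∂Q := lintegral_mono hf1
    _ = 1 := by simp

/-- **one annealed step**, with a past `Φ` which does not read the column -/
theorem ann_step (i0 : Fin d) (ν : Measure (Row d)) [IsProbabilityMeasure ν]
    (hν : ∀ᵐ ω ∂(iidEnvironmentLaw ν), ∀ z e, 0 < (ω z).1 e)
    (hstp : ∀ z (e : Step d), Stp (lt z, lv z) (lt (z + stepVec e), lv (z + stepVec e)))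
    (hinj : ∀ z z', lt z = lt z' → lv z = lv z' → z = z')
    {e1 : Site d} (h1 : lt e1 = 1) (h2 : lv e1 = 0)
    {A r : ℤ} (hA : 0 < A) {xb x0 : Site d} (hl : l0 < l1) (hxl : lv xb = l0)
    (hxs : sl lt lv v xb = 0) (hx0 : x0 ∈ LeftOf lt lv v l0 l1 r)
    {S : Set (Site d)} (hS : ∀ z ∈ S, z ∉ RightOf lt lv v l0 l1 r) {Φ : Environment d → ℝ≥0∞}
    (hΦ : Measurable[coordSigmaAlgebra S] Φ) :
    ∫⁻ ω, Φ ω * HK ω (LeftOf lt lv v l0 l1 (r + 4 * A)) x0 (RightOf lt lv v l0 l1 (r + 4 * A))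
      ∂(iidEnvironmentLaw ν) ≤
    (∫⁻ ω, Φ ω * HK ω (LeftOf lt lv v l0 l1 r) x0 (RightOf lt lv v l0 l1 r)
      ∂(iidEnvironmentLaw ν)) *
      (1 - ∫⁻ ω, HK ω (Col lt lv v l0 l1 0 A) xb (TopS lv l1) ∂(iidEnvironmentLaw ν)) := by
  set x : Site d := xb + (r + 3 * A) • e1 with hx
  have hlx : lv x = l0 := by
    rw [hx, map_add, map_zsmul, h2, smul_zero, add_zero, hxl]
  have htx : sl lt lv v x = r + 3 * A := by
    simp only [sl] at hxs ⊢
    rw [hlx, hx, map_add, map_zsmul, h1, smul_eq_mul, mul_one, ← hxl]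
    omega
  set U : Set (Site d) := S ∪ LeftOf lt lv v l0 l1 r with hU
  set C : Set (Site d) := Col lt lv v l0 l1 (r + 3 * A) A with hC
  have hdis : Disjoint U C := by
    refine Set.disjoint_left.2 ?_
    rintro z (hz | hz) ⟨c0, c1, c2, c3⟩
    · exact hS z hz ⟨c0, c1, by omega⟩
    · have := hz.2.2
      omega
  calc ∫⁻ ω, Φ ω * HK ω (LeftOf lt lv v l0 l1 (r + 4 * A)) x0
        (RightOf lt lv v l0 l1 (r + 4 * A)) ∂(iidEnvironmentLaw ν)
      ≤ ∫⁻ ω, (Φ ω * HK ω (LeftOf lt lv v l0 l1 r) x0 (RightOf lt lv v l0 l1 r)) *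
          (1 - HK ω C x (TopS lv l1)) ∂(iidEnvironmentLaw ν) := by
        refine lintegral_mono_ae ?_
        filter_upwards [hν] with ω hω
        rw [mul_assoc]
        exact mul_le_mul_right (step_le i0 ω hω hstp hinj hA hl hlx htx hx0) _
    _ = (∫⁻ ω, Φ ω * HK ω (LeftOf lt lv v l0 l1 r) x0 (RightOf lt lv v l0 l1 r)
          ∂(iidEnvironmentLaw ν)) *
          ∫⁻ ω, (1 - HK ω C x (TopS lv l1)) ∂(iidEnvironmentLaw ν) := by
        refine lint_mul ν hdis ?_ ?_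
        · exact (hΦ.mono (coord_mono Set.subset_union_left) le_rfl).mul
            ((measA_HK _ _ _).mono (coord_mono Set.subset_union_right) le_rfl)
        · exact Measurable.const_sub (measA_HK _ _ _) _
    _ = _ := by
        rw [lint_one_sub (meas_HK _ _ _) (fun ω => HK_le_one _ _ _ _), hC, hx,
          lint_climb ν h1 h2]

/-- **geometric decay of the crossings to the right, any past** -/
theorem ann_pow (i0 : Fin d) (ν : Measure (Row d)) [IsProbabilityMeasure ν]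
    (hν : ∀ᵐ ω ∂(iidEnvironmentLaw ν), ∀ z e, 0 < (ω z).1 e)
    (hstp : ∀ z (e : Step d), Stp (lt z, lv z) (lt (z + stepVec e), lv (z + stepVec e)))
    (hinj : ∀ z z', lt z = lt z' → lv z = lv z' → z = z')
    {e1 : Site d} (h1 : lt e1 = 1) (h2 : lv e1 = 0)
    {A r : ℤ} (hA : 0 < A) {xb x0 : Site d} (hl : l0 < l1) (hxl : lv xb = l0)
    (hxs : sl lt lv v xb = 0) (hx0 : x0 ∈ LeftOf lt lv v l0 l1 r)
    {S : Set (Site d)} (hS : ∀ z ∈ S, z ∉ RightOf lt lv v l0 l1 r) {Φ : Environment d → ℝ≥0∞}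
    (hΦ : Measurable[coordSigmaAlgebra S] Φ) (K : ℕ) :
    ∫⁻ ω, Φ ω * HK ω (LeftOf lt lv v l0 l1 (r + 4 * A * K)) x0
      (RightOf lt lv v l0 l1 (r + 4 * A * K)) ∂(iidEnvironmentLaw ν) ≤
    (1 - ∫⁻ ω, HK ω (Col lt lv v l0 l1 0 A) xb (TopS lv l1) ∂(iidEnvironmentLaw ν)) ^ K *
      ∫⁻ ω, Φ ω ∂(iidEnvironmentLaw ν) := by
  have hmono : ∀ s, r ≤ s → LeftOf lt lv v l0 l1 r ⊆ LeftOf lt lv v l0 l1 s := by
    rintro s hs z ⟨g0, g1, g2⟩
    exact ⟨g0, g1, by omega⟩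
  have hS' : ∀ s, r ≤ s → ∀ z ∈ S, z ∉ RightOf lt lv v l0 l1 s := by
    rintro s hs z hz ⟨g0, g1, g2⟩
    exact hS z hz ⟨g0, g1, by omega⟩
  induction K with
  | zero =>
    simp only [Nat.cast_zero, mul_zero, add_zero, pow_zero, one_mul]
    refine lintegral_mono fun ω => ?_
    calc Φ ω * HK ω _ x0 _ ≤ Φ ω * 1 := mul_le_mul_right (HK_le_one _ _ _ _) _
      _ = Φ ω := mul_one _
  | succ K ih =>
    have hK : r ≤ r + 4 * A * K := by
      have : 0 ≤ 4 * A * K := by positivity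
      omega
    have he : r + 4 * A * ((K + 1 : ℕ) : ℤ) = (r + 4 * A * K) + 4 * A := by
      push_cast; ring
    rw [he]
    refine (ann_step i0 ν hν hstp hinj h1 h2 hA hl hxl hxs (hmono _ hK hx0) (hS' _ hK) hΦ).trans
      ((mul_le_mul_left ih _).trans (le_of_eq ?_))
    rw [pow_succ]
    ring

/-- reaching `r` inside the slab -/
def Reach (lt lv : Site d →+ ℤ) (v : ℤ → ℤ) (l0 l1 r : ℤ) : Set (Path d) :=
  {X | ∃ n, r ≤ sl lt lv v (X n) ∧ ∀ i ≤ n, l0 ≤ lv (X i) ∧ lv (X i) < l1}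

/-- reaching distance `r` on either side, inside the slab -/
def ReachAbs (lt lv : Site d →+ ℤ) (v : ℤ → ℤ) (l0 l1 r : ℤ) : Set (Path d) :=
  {X | ∃ n, r ≤ |sl lt lv v (X n)| ∧ ∀ i ≤ n, l0 ≤ lv (X i) ∧ lv (X i) < l1}

lemma Reach_sub (r : ℤ) : Reach lt lv v l0 l1 r ⊆
    HitS (LeftOf lt lv v l0 l1 r) (RightOf lt lv v l0 l1 r) := by
  classical
  rintro X ⟨n, hn, hi⟩
  have hex : ∃ n, X n ∈ RightOf lt lv v l0 l1 r := ⟨n, (hi n le_rfl).1, (hi n le_rfl).2, hn⟩
  have hle : Nat.find hex ≤ n := Nat.find_min' hex ⟨(hi n le_rfl).1, (hi n le_rfl).2, hn⟩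
  refine ⟨Nat.find hex, Nat.find_spec hex, fun i hi' => ?_⟩
  have h1 := Nat.find_min hex hi'
  have h2 := hi i (by omega)
  refine ⟨h2.1, h2.2, ?_⟩
  by_contra h
  exact h1 ⟨h2.1, h2.2, by omega⟩

end decay

/-! ## The slab lemma -/

section main

variable {lt lv : Site d →+ ℤ} {v : ℤ → ℤ} {l0 l1 : ℤ}

/-- climbing from the bottom of the slab to the level `l1` inside the tube of half width `A` -/
def Tube (lt lv : Site d →+ ℤ) (v : ℤ → ℤ) (l0 l1 A : ℤ) : Set (Path d) :=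
  {X | ∃ n, lv (X n) = l1 ∧ ∀ i < n, l0 ≤ lv (X i) ∧ lv (X i) < l1 ∧ |sl lt lv v (X i)| < A}

lemma Tube_eq (A : ℤ) : Tube lt lv v l0 l1 A = HitS (Col lt lv v l0 l1 0 A) (TopS lv l1) := by
  ext X
  show (∃ n, lv (X n) = l1 ∧ ∀ i < n, l0 ≤ lv (X i) ∧ lv (X i) < l1 ∧ |sl lt lv v (X i)| < A) ↔
    (∃ n, lv (X n) = l1 ∧ ∀ i < n, l0 ≤ lv (X i) ∧ lv (X i) < l1 ∧
      0 - A < sl lt lv v (X i) ∧ sl lt lv v (X i) < 0 + A)
  refine exists_congr fun n => and_congr Iff.rfl (forall_congr' fun i => forall_congr' fun _ =>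
    and_congr Iff.rfl (and_congr Iff.rfl ?_))
  rw [abs_lt]
  constructor <;> rintro ⟨h1, h2⟩ <;> constructor <;> omega

/-- **SLAB LEMMA, right side**, any past `Φ` which does not read the part `r ≤ sl` of the slab -/
theorem slab_right (i0 : Fin d) (ν : Measure (Row d)) [IsProbabilityMeasure ν]
    (hν : ∀ᵐ ω ∂(iidEnvironmentLaw ν), ∀ z e, 0 < (ω z).1 e)
    (hstp : ∀ z (e : Step d), Stp (lt z, lv z) (lt (z + stepVec e), lv (z + stepVec e)))
    (hinj : ∀ z z', lt z = lt z' → lv z = lv z' → z = z')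
    {e1 : Site d} (h1 : lt e1 = 1) (h2 : lv e1 = 0)
    {A r : ℤ} (hA : 0 < A) {xb x0 : Site d} (hl : l0 < l1) (hxl : lv xb = l0)
    (hxs : sl lt lv v xb = 0) {p : ℝ≥0∞}
    (hp : p ≤ annealedProb (iidEnvironmentLaw ν) xb (Tube lt lv v l0 l1 A))
    (h0 : l0 ≤ lv x0) (h0' : lv x0 < l1) (hx0 : sl lt lv v x0 < r)
    {S : Set (Site d)} (hS : ∀ z ∈ S, l0 ≤ lv z → lv z < l1 → sl lt lv v z < r)
    {Φ : Environment d → ℝ≥0∞} (hΦ : Measurable[coordSigmaAlgebra S] Φ) (K : ℕ) :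
    ∫⁻ ω, Φ ω * quenchedLaw ω x0 (Reach lt lv v l0 l1 (r + 4 * A * K)) ∂(iidEnvironmentLaw ν) ≤
      (1 - p) ^ K * ∫⁻ ω, Φ ω ∂(iidEnvironmentLaw ν) := by
  have hp' : p ≤ ∫⁻ ω, HK ω (Col lt lv v l0 l1 0 A) xb (TopS lv l1) ∂(iidEnvironmentLaw ν) := by
    refine hp.trans (le_of_eq ?_)
    unfold annealedProb HK
    rw [Tube_eq]
  calc ∫⁻ ω, Φ ω * quenchedLaw ω x0 (Reach lt lv v l0 l1 (r + 4 * A * K)) ∂(iidEnvironmentLaw ν)
      ≤ ∫⁻ ω, Φ ω * HK ω (LeftOf lt lv v l0 l1 (r + 4 * A * K)) x0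
          (RightOf lt lv v l0 l1 (r + 4 * A * K)) ∂(iidEnvironmentLaw ν) := by
        refine lintegral_mono fun ω => mul_le_mul_right (measure_mono (Reach_sub _)) _
    _ ≤ (1 - ∫⁻ ω, HK ω (Col lt lv v l0 l1 0 A) xb (TopS lv l1) ∂(iidEnvironmentLaw ν)) ^ K *
          ∫⁻ ω, Φ ω ∂(iidEnvironmentLaw ν) :=
        ann_pow i0 ν hν hstp hinj h1 h2 hA hl hxl hxs ⟨h0, h0', hx0⟩
          (fun z hz h => absurd (hS z hz h.1 h.2.1) (not_lt.2 h.2.2)) hΦ K
    _ ≤ _ := by gcongr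

lemma stp_neg {a b a' b' : ℤ} (h : Stp (a, b) (a', b')) : Stp (-a, b) (-a', b') := by
  simp only [Stp] at *
  omega

lemma sl_neg (z : Site d) : sl (-lt) lv (-v) z = - sl lt lv v z := by
  simp only [sl, AddMonoidHom.neg_apply, Pi.neg_apply]
  ring

lemma Tube_neg (A : ℤ) : Tube (-lt) lv (-v) l0 l1 A = Tube lt lv v l0 l1 A := by
  ext X
  show (∃ n, lv (X n) = l1 ∧ ∀ i < n, l0 ≤ lv (X i) ∧ lv (X i) < l1 ∧
      |sl (-lt) lv (-v) (X i)| < A) ↔
    (∃ n, lv (X n) = l1 ∧ ∀ i < n, l0 ≤ lv (X i) ∧ lv (X i) < l1 ∧ |sl lt lv v (X i)| < A)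
  simp only [sl_neg, abs_neg]

/-- **SLAB LEMMA, left side** -/
theorem slab_left (i0 : Fin d) (ν : Measure (Row d)) [IsProbabilityMeasure ν]
    (hν : ∀ᵐ ω ∂(iidEnvironmentLaw ν), ∀ z e, 0 < (ω z).1 e)
    (hstp : ∀ z (e : Step d), Stp (lt z, lv z) (lt (z + stepVec e), lv (z + stepVec e)))
    (hinj : ∀ z z', lt z = lt z' → lv z = lv z' → z = z')
    {e1 : Site d} (h1 : lt e1 = 1) (h2 : lv e1 = 0)
    {A r : ℤ} (hA : 0 < A) {xb x0 : Site d} (hl : l0 < l1) (hxl : lv xb = l0)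
    (hxs : sl lt lv v xb = 0) {p : ℝ≥0∞}
    (hp : p ≤ annealedProb (iidEnvironmentLaw ν) xb (Tube lt lv v l0 l1 A))
    (h0 : l0 ≤ lv x0) (h0' : lv x0 < l1) (hx0 : -r < sl lt lv v x0)
    {S : Set (Site d)} (hS : ∀ z ∈ S, l0 ≤ lv z → lv z < l1 → -r < sl lt lv v z)
    {Φ : Environment d → ℝ≥0∞} (hΦ : Measurable[coordSigmaAlgebra S] Φ) (K : ℕ) :
    ∫⁻ ω, Φ ω * quenchedLaw ω x0 {X | ∃ n, sl lt lv v (X n) ≤ -(r + 4 * A * K) ∧
        ∀ i ≤ n, l0 ≤ lv (X i) ∧ lv (X i) < l1} ∂(iidEnvironmentLaw ν) ≤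
      (1 - p) ^ K * ∫⁻ ω, Φ ω ∂(iidEnvironmentLaw ν) := by
  have e1' : (-lt) (-e1) = 1 := by simp [h1]
  have e2' : lv (-e1) = 0 := by simp [h2]
  have key := slab_right (lt := -lt) (lv := lv) (v := -v) i0 ν hν
    (fun z e => stp_neg (hstp z e))
    (fun z z' ha hb => hinj z z' (by simpa using ha) hb) e1' e2' (r := r) hA hl hxl
    (by rw [sl_neg, hxs, neg_zero]) (p := p) (by rw [Tube_neg]; exact hp) h0 h0'
    (by rw [sl_neg]; omega) (S := S)
    (fun z hz ha hb => by rw [sl_neg]; have := hS z hz ha hb; omega) hΦ K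
  refine le_trans (lintegral_mono fun ω => mul_le_mul_right (measure_mono ?_) _) key
  rintro X ⟨n, hn, hi⟩
  refine ⟨n, ?_, hi⟩
  rw [sl_neg]
  omega

/-- **SLAB LEMMA, both sides** -/
theorem slab_two (i0 : Fin d) (ν : Measure (Row d)) [IsProbabilityMeasure ν]
    (hν : ∀ᵐ ω ∂(iidEnvironmentLaw ν), ∀ z e, 0 < (ω z).1 e)
    (hstp : ∀ z (e : Step d), Stp (lt z, lv z) (lt (z + stepVec e), lv (z + stepVec e)))
    (hinj : ∀ z z', lt z = lt z' → lv z = lv z' → z = z')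
    {e1 : Site d} (h1 : lt e1 = 1) (h2 : lv e1 = 0)
    {A r : ℤ} (hA : 0 < A) {xb x0 : Site d} (hl : l0 < l1) (hxl : lv xb = l0)
    (hxs : sl lt lv v xb = 0) {p : ℝ≥0∞}
    (hp : p ≤ annealedProb (iidEnvironmentLaw ν) xb (Tube lt lv v l0 l1 A))
    (h0 : l0 ≤ lv x0) (h0' : lv x0 < l1) (hx0 : |sl lt lv v x0| < r)
    {S : Set (Site d)} (hS : ∀ z ∈ S, l0 ≤ lv z → lv z < l1 → |sl lt lv v z| < r)
    {Φ : Environment d → ℝ≥0∞} (hΦ : Measurable[coordSigmaAlgebra S] Φ) (K : ℕ) :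
    ∫⁻ ω, Φ ω * quenchedLaw ω x0 (ReachAbs lt lv v l0 l1 (r + 4 * A * K))
        ∂(iidEnvironmentLaw ν) ≤
      2 * (1 - p) ^ K * ∫⁻ ω, Φ ω ∂(iidEnvironmentLaw ν) := by
  have hR := slab_right i0 ν hν hstp hinj h1 h2 hA hl hxl hxs hp h0 h0' (abs_lt.1 hx0).2
    (fun z hz ha hb => (abs_lt.1 (hS z hz ha hb)).2) hΦ K
  have hL := slab_left i0 ν hν hstp hinj h1 h2 hA hl hxl hxs hp h0 h0' (abs_lt.1 hx0).1
    (fun z hz ha hb => (abs_lt.1 (hS z hz ha hb)).1) hΦ K
  have hΦm : Measurable Φ := hΦ.mono (Q561.coord_le S) le_rfl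
  have hmR : Measurable fun ω : Environment d =>
      quenchedLaw ω x0 (Reach lt lv v l0 l1 (r + 4 * A * K)) := by
    refine Q561.measurable_quenched_apply x0 ?_
    have : Reach lt lv v l0 l1 (r + 4 * A * K) = ⋃ n : ℕ, {X : Path d |
        r + 4 * A * K ≤ sl lt lv v (X n) ∧ ∀ i ≤ n, l0 ≤ lv (X i) ∧ lv (X i) < l1} := by
      ext X; simp [Reach]
    rw [this]
    refine MeasurableSet.iUnion fun n => Q561.DepOn.measurableSet (n := n) ?_
    intro X Y h hX
    refine ⟨by rw [← h n le_rfl]; exact hX.1, fun i hi => ?_⟩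
    rw [← h i hi]
    exact hX.2 i hi
  calc ∫⁻ ω, Φ ω * quenchedLaw ω x0 (ReachAbs lt lv v l0 l1 (r + 4 * A * K))
        ∂(iidEnvironmentLaw ν)
      ≤ ∫⁻ ω, (Φ ω * quenchedLaw ω x0 (Reach lt lv v l0 l1 (r + 4 * A * K)) +
          Φ ω * quenchedLaw ω x0 {X | ∃ n, sl lt lv v (X n) ≤ -(r + 4 * A * K) ∧
            ∀ i ≤ n, l0 ≤ lv (X i) ∧ lv (X i) < l1}) ∂(iidEnvironmentLaw ν) := by
        refine lintegral_mono fun ω => ?_
        rw [← mul_add]
        refine mul_le_mul_right ((measure_mono ?_).trans (measure_union_le _ _)) _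
        rintro X ⟨n, hn, hi⟩
        rcases le_abs.1 hn with h | h
        · exact Or.inl ⟨n, h, hi⟩
        · exact Or.inr ⟨n, by omega, hi⟩
    _ = _ + _ := lintegral_add_left (hΦm.mul hmR) _
    _ ≤ _ := add_le_add hR hL
    _ = _ := by ring

end main

/-! ## `d = 2` -/

section two

open Crest.Agent.R154.Flux132 (lev)

/-- the coordinate `i` as an additive homomorphism -/
def latH (i : Fin d) : Site d →+ ℤ := Pi.evalAddMonoidHom (fun _ => ℤ) i

lemma latH_apply (i : Fin d) (z : Site d) : latH i z = z i := rfl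

lemma stp_two {u : Step 2} {i : Fin 2} (hi : i ≠ u.1) (z : Site 2) (e : Step 2) :
    Stp (latH i z, Fin804.levH u z) (latH i (z + stepVec e), Fin804.levH u (z + stepVec e)) := by
  obtain ⟨a, b⟩ := u
  obtain ⟨a', b'⟩ := e
  simp only at hi
  show Stp (z i, lev (a, b) z) ((z + stepVec (a', b')) i, lev (a, b) (z + stepVec (a', b')))
  fin_cases i <;> fin_cases a <;> fin_cases a' <;> cases b <;> cases b' <;>
    simp [lev, stepVec, Stp] at hi ⊢ <;> omega

lemma inj_two {u : Step 2} {i : Fin 2} (hi : i ≠ u.1) (z z' : Site 2) (h : latH i z = latH i z')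
    (h' : Fin804.levH u z = Fin804.levH u z') : z = z' := by
  obtain ⟨a, b⟩ := u
  simp only at hi
  have h1 : z i = z' i := h
  have h2 : lev (a, b) z = lev (a, b) z' := h'
  have h3 : z a = z' a := by
    cases b <;> simp [lev] at h2 <;> exact h2
  funext j
  fin_cases i <;> fin_cases a <;> fin_cases j <;> simp_all

lemma lev_lat {u : Step 2} {i : Fin 2} (hi : i ≠ u.1) :
    Fin804.levH u (Pi.single i 1 : Site 2) = 0 := by
  show lev u (Pi.single i 1 : Site 2) = 0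
  unfold lev
  rw [Pi.single_eq_of_ne hi.symm]
  simp

/-- **SLAB LEMMA, `d = 2`**: iid elliptic law, direction `u`, lateral coordinate `i`, arbitrary
slant `v`; `p` = a lower bound for the annealed probability of climbing the tube of half width `A`
around the slant.  Any start in the slab, any past `Φ` read at distance `< r` (or off the slab). -/
theorem slab2 (ν : Measure (Row 2)) [IsProbabilityMeasure ν]
    (hν : ∀ᵐ q ∂ν, ∀ e : Step 2, 0 < q.1 e) (u : Step 2) {i : Fin 2} (hi : i ≠ u.1) (v : ℤ → ℤ)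
    {l0 l1 A r : ℤ} (hA : 0 < A) (hl : l0 < l1) {xb x0 : Site 2} (hxl : lev u xb = l0)
    (hxs : xb i = v l0) {p : ℝ≥0∞}
    (hp : p ≤ annealedProb (iidEnvironmentLaw ν) xb {X | ∃ n, lev u (X n) = l1 ∧
      ∀ j < n, l0 ≤ lev u (X j) ∧ lev u (X j) < l1 ∧ |X j i - v (lev u (X j))| < A})
    (h0 : l0 ≤ lev u x0) (h0' : lev u x0 < l1) (hx0 : |x0 i - v (lev u x0)| < r)
    {S : Set (Site 2)} (hS : ∀ z ∈ S, l0 ≤ lev u z → lev u z < l1 → |z i - v (lev u z)| < r)
    {Φ : Environment 2 → ℝ≥0∞} (hΦ : Measurable[coordSigmaAlgebra S] Φ) (K : ℕ) :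
    ∫⁻ ω, Φ ω * quenchedLaw ω x0 {X | ∃ n, r + 4 * A * K ≤ |X n i - v (lev u (X n))| ∧
        ∀ j ≤ n, l0 ≤ lev u (X j) ∧ lev u (X j) < l1} ∂(iidEnvironmentLaw ν) ≤
      2 * (1 - p) ^ K * ∫⁻ ω, Φ ω ∂(iidEnvironmentLaw ν) := by
  have F := Bind263.frame_iid ν hν
  exact slab_two (lt := latH i) (lv := Fin804.levH u) (v := v) i ν F.elp (stp_two hi)
    (inj_two hi) (e1 := Pi.single i 1) (by rw [latH_apply, Pi.single_eq_same]) (lev_lat hi) hA hl
    (xb := xb) (x0 := x0) hxl (by show xb i - v (lev u xb) = 0; rw [hxl, hxs, sub_self]) hp h0 h0'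
    hx0 hS hΦ K

/-- no past, start `x0` at slanted distance `< r` -/
theorem slab2' (ν : Measure (Row 2)) [IsProbabilityMeasure ν]
    (hν : ∀ᵐ q ∂ν, ∀ e : Step 2, 0 < q.1 e) (u : Step 2) {i : Fin 2} (hi : i ≠ u.1) (v : ℤ → ℤ)
    {l0 l1 A r : ℤ} (hA : 0 < A) (hl : l0 < l1) {xb x0 : Site 2} (hxl : lev u xb = l0)
    (hxs : xb i = v l0) {p : ℝ≥0∞}
    (hp : p ≤ annealedProb (iidEnvironmentLaw ν) xb {X | ∃ n, lev u (X n) = l1 ∧
      ∀ j < n, l0 ≤ lev u (X j) ∧ lev u (X j) < l1 ∧ |X j i - v (lev u (X j))| < A})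
    (h0 : l0 ≤ lev u x0) (h0' : lev u x0 < l1) (hx0 : |x0 i - v (lev u x0)| < r) (K : ℕ) :
    annealedProb (iidEnvironmentLaw ν) x0 {X | ∃ n, r + 4 * A * K ≤ |X n i - v (lev u (X n))| ∧
        ∀ j ≤ n, l0 ≤ lev u (X j) ∧ lev u (X j) < l1} ≤ 2 * (1 - p) ^ K := by
  have := slab2 ν hν u hi v hA hl hxl hxs hp h0 h0' hx0 (S := ∅) (by simp)
    (Φ := fun _ => 1) measurable_const K
  simpa [annealedProb] using this

end two

end Crest.Agent.R154.Slab491
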