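import Crest.Agent.R154.SlabUse_28
import Crest.Agent.R154.Slab_491
import Crest.Agent.R154.D2V_36
import Crest.Agent.R154.Kal_132

/-!
# Row 154, block d = 2 (helper28): the literal `D2V36.SlabP`

Input: `TubeP` (tube of half width `A * wd H` around the line of slope `θ`, at every height).
-/

set_option autoImplicit false
set_option linter.unusedVariables false
set_option linter.unusedSectionVars false
set_option linter.deprecated false

namespace Crest.Agent.R154.SlabUse28

open MeasureTheory ProbabilityTheory Filter Topology Crest.ProbabilityR.RandomEnvironment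
open Crest.Agent.R154 Crest.Agent.R154.B2d Crest.Agent.R154.ExK9
open Crest.Agent.R154.Flux132 (lev)
open Crest.Agent.R154.Half419 (HH)
open Crest.Agent.R154.P2916 (sl)
open Crest.Agent.R154.River916 (Ev)
open scoped ENNReal

section gen

variable {d : ℕ}

/-- the first attempt succeeds with positive probability -/
lemma down_lt_one {Q : Measure (Environment d)} [IsProbabilityMeasure Q]
    (hQ : ∀ z : Site d, MeasurePreserving (shiftEnv z) Q Q) (u : Step d)
    (hA : annealedProb Q 0 (escapeEvent (dirVec u)) = 1) :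
    annealedProb Q 0 (Down u (-1)) < 1 := by
  have h0 : annealed Q 0 (escapeEvent (dirVec u)) ≠ 0 := by
    rw [annealed_apply Q 0 (measurableSet_escapeEvent _), hA]; exact one_ne_zero
  have h1 := Kal132.pD_pos hQ (dirVec u) h0
  have h2 : ∀ᵐ X ∂annealed Q 0, X 0 = 0 := by
    refine annealed_ae (A := {X : Path d | X 0 = 0}) ?_ (Eventually.of_forall fun ω => ?_)
    · exact measurableSet_of_agree 0 _ fun X Y h => by simp only [Set.mem_setOf_eq, h 0 le_rfl]
    · exact quenched_zero_eq ω 0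
  rw [← annealed_apply Q 0 (measurableSet_Down u _)]
  by_contra hcon
  have h3 : annealed Q 0 (Down u (-1)) = 1 := le_antisymm prob_le_one (not_lt.1 hcon)
  apply h1
  have h4 : annealed Q 0 (Down u (-1))ᶜ = 0 :=
    (prob_compl_eq_zero_iff (measurableSet_Down u _)).2 h3
  refine measure_mono_null_ae ?_ h4
  filter_upwards [h2] with X hX hS
  have hS' : X ∈ Kal132.Stay (dirVec u) := hS
  show X ∈ (Down u (-1))ᶜ
  rintro ⟨n, hn⟩
  have h5 := hS' n
  rw [hX] at h5
  have h6 : ∀ x : Site d, Kal132.L (dirVec u) x = (lev u x : ℝ) := fun x => by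
    rw [← D1S.HH_dirVec]; rfl
  rw [h6, h6, D1S.lev_zero] at h5
  have : (0 : ℤ) ≤ lev u (X n) := by exact_mod_cast h5
  omega

/-- the levels are reached almost surely -/
lemma hit_ae {Q : Measure (Environment d)} [IsProbabilityMeasure Q]
    (hQ : ∀ z : Site d, MeasurePreserving (shiftEnv z) Q Q) (u : Step d)
    (hA : annealedProb Q 0 (escapeEvent (dirVec u)) = 1) (l : ℤ) (y : Site d) :
    ∀ᵐ ω ∂Q, quenchedLaw ω y {X | exT (Lo u l) X = ⊤} = 0 := by
  have h1 := esc_site hQ u hA y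
  have hme := measurableSet_escapeEvent (d := d) (dirVec u)
  have h2 : ∫⁻ ω, quenchedLaw ω y (escapeEvent (dirVec u))ᶜ ∂Q = 0 := by
    have h3 : annealed Q y (escapeEvent (dirVec u)) = 1 := by rw [annealed_apply Q y hme, h1]
    have h4 : annealed Q y (escapeEvent (dirVec u))ᶜ = 0 := (prob_compl_eq_zero_iff hme).2 h3
    rw [annealed_apply Q y hme.compl] at h4
    exact h4
  rw [lintegral_eq_zero_iff (Q561.measurable_quenched_apply y hme.compl)] at h2
  filter_upwards [h2] with ω hω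
  refine measure_mono_null (fun X hX => ?_) hω
  show X ∉ escapeEvent (dirVec u)
  intro hesc
  obtain ⟨n, hn⟩ := ((esc_lev hesc).eventually_ge_atTop l).exists
  have h5 : ∀ i, X i ∈ Lo u l := exT_eq_top_iff.1 hX
  exact absurd hn (not_le.2 (h5 n))

/-- the mass of the failures is `< 1` -/
lemma sum_tz_lt {Q : Measure (Environment d)} [IsProbabilityMeasure Q]
    (hQ : ∀ z : Site d, MeasurePreserving (shiftEnv z) Q Q) (u : Step d)
    (hA : annealedProb Q 0 (escapeEvent (dirVec u)) = 1) : ∑' z, tz Q u z < 1 :=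
  (sum_tz_le u).trans_lt (down_lt_one hQ u hA)

lemma one_add_mul {q : ℝ≥0∞} (hq : q < 1) : 1 + q * (1 - q)⁻¹ ≤ (1 - q)⁻¹ := by
  have h1 : (1 - q) ≠ 0 := (tsub_pos_of_lt hq).ne'
  have h2 : (1 - q) ≠ ⊤ := ne_top_of_le_ne_top ENNReal.one_ne_top tsub_le_self
  have h3 : (1 - q) * (1 - q)⁻¹ = 1 := ENNReal.mul_inv_cancel h1 h2
  calc 1 + q * (1 - q)⁻¹ = (1 - q) * (1 - q)⁻¹ + q * (1 - q)⁻¹ := by rw [h3]
    _ = (1 - q + q) * (1 - q)⁻¹ := by rw [add_mul]
    _ = 1 * (1 - q)⁻¹ := by rw [tsub_add_cancel_of_le hq.le]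
    _ ≤ _ := by rw [one_mul]

/-- **dips and displacements after `T_a` for the annealed walk**: constants first -/
theorem exists_km (ν : Measure (Row d)) [IsProbabilityMeasure ν] (u : Step d)
    (hA : annealedProb (iidEnvironmentLaw ν) 0 (escapeEvent (dirVec u)) = 1) {ε : ℝ≥0∞}
    (hε : ε ≠ 0) : ∃ M : ℕ, ∀ (s : Site d → ℝ) (a b : ℤ) (r : ℝ) (g : ℝ≥0∞), a ≤ b →
      (∀ x : Site d, a - M ≤ lev u x → lev u x ≤ a →
        annealedProb (iidEnvironmentLaw ν) x (Wd u s (lev u x) b r) ≤ g) →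
      ∀ x : Site d, lev u x ≤ a - M →
      annealedProb (iidEnvironmentLaw ν) x (BadE u s a b (a - M) r) ≤
        (1 - ∑' z, tz (iidEnvironmentLaw ν) u z)⁻¹ * g + ε := by
  set Q := iidEnvironmentLaw ν with hQ
  have hstat : ∀ z : Site d, MeasurePreserving (shiftEnv z) Q Q := fun z => Q561.iid_shift ν z
  set q := ∑' z, tz Q u z with hqdef
  have hq1 : q < 1 := sum_tz_lt hstat u hA
  set c := (1 - q)⁻¹ with hc
  have hcpos : (1 - q) ≠ 0 := (tsub_pos_of_lt hq1).ne'
  have hctop : c ≠ ⊤ := ENNReal.inv_ne_top.2 hcpos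
  have hε2 : ε / 2 ≠ 0 := by simp [hε]
  obtain ⟨k, hk⟩ : ∃ k : ℕ, q ^ k ≤ ε / 2 := by
    have h1 := ENNReal.tendsto_pow_atTop_nhds_zero_of_lt_one hq1
    exact ((h1.eventually_le_const (pos_iff_ne_zero.2 hε2))).exists
  obtain ⟨m, hm⟩ : ∃ m : ℕ, c * ∑' z, tz Q u (z + m) ≤ ε / 2 := by
    have h1 := ENNReal.tendsto_sum_nat_add (tz Q u) (ne_top_of_lt hq1)
    have h2 : Tendsto (fun m => c * ∑' z, tz Q u (z + m)) atTop (𝓝 (c * 0)) :=
      ENNReal.Tendsto.const_mul h1 (Or.inr hctop)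
    rw [mul_zero] at h2
    exact (h2.eventually_le_const (pos_iff_ne_zero.2 hε2)).exists
  refine ⟨k * m, fun s a b r g hab hg x hx => ?_⟩
  set l0 : ℤ := a - (k * m : ℕ) with hl0
  have hbad := bad_le ν (u := u) (s := s) (a := a) (b := b) (f := l0) (r := r) (g := g) (m := m)
    (fun y hy1 hy2 => hg y hy1 hy2) (c := c) (q := q) (T := ∑' z, tz Q u (z + m)) le_rfl le_rfl
    (one_add_mul hq1) k
  have hBm := measurableSet_BadE u s a b l0 r
  have h1 : ∀ ω, quenchedLaw ω x (BadE u s a b l0 r) ≤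
      ∑' z, EK ω (Lo u l0) x z * quenchedLaw ω z (BadE u s a b l0 r) := by
    intro ω
    rw [← exit_markov ω (Lo u l0) x hBm]
    refine measure_mono fun X hX => BadE_shift (by rw [hl0]; omega) hX
  have h2 : ∀ z, ∫⁻ ω, EK ω (Lo u l0) x z * quenchedLaw ω z (BadE u s a b l0 r) ∂Q ≤
      (c * (g + ∑' z, tz Q u (z + m)) + q ^ k) * ∫⁻ ω, EK ω (Lo u l0) x z ∂Q := by
    intro z
    by_cases hz : lev u z = l0
    · refine hbad z (by rw [hz]) (by rw [hz, hl0]; push_cast; omega) (fun ω => EK ω (Lo u l0) x z) ?_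
      rw [hz]
      exact measA_EK _ x z
    · have h3 : ∀ ω : Environment d, EK ω (Lo u l0) x z = 0 := fun ω => EK_Lo u ω hx hz
      simp [h3]
  calc annealedProb Q x (BadE u s a b l0 r)
      = ∫⁻ ω, quenchedLaw ω x (BadE u s a b l0 r) ∂Q := rfl
    _ ≤ ∫⁻ ω, ∑' z, EK ω (Lo u l0) x z * quenchedLaw ω z (BadE u s a b l0 r) ∂Q :=
        lintegral_mono h1
    _ = ∑' z, ∫⁻ ω, EK ω (Lo u l0) x z * quenchedLaw ω z (BadE u s a b l0 r) ∂Q := by
        rw [lintegral_tsum]
        exact fun z => ((meas_EK _ x z).mul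
          (Q561.measurable_quenched_apply z hBm)).aemeasurable
    _ ≤ ∑' z, (c * (g + ∑' z, tz Q u (z + m)) + q ^ k) * ∫⁻ ω, EK ω (Lo u l0) x z ∂Q :=
        ENNReal.tsum_le_tsum h2
    _ = (c * (g + ∑' z, tz Q u (z + m)) + q ^ k) * ∫⁻ ω, ∑' z, EK ω (Lo u l0) x z ∂Q := by
        rw [ENNReal.tsum_mul_left, ← lintegral_tsum fun z => (meas_EK _ x z).aemeasurable]
    _ ≤ (c * (g + ∑' z, tz Q u (z + m)) + q ^ k) * 1 := by
        refine mul_le_mul' le_rfl ?_
        calc ∫⁻ ω, ∑' z, EK ω (Lo u l0) x z ∂Q ≤ ∫⁻ _, 1 ∂Q :=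
              lintegral_mono fun ω => tsum_EK_le ω _ x
          _ = 1 := by simp
    _ = c * g + (c * ∑' z, tz Q u (z + m) + q ^ k) := by ring
    _ ≤ c * g + (ε / 2 + ε / 2) := by gcongr
    _ = _ := by rw [ENNReal.add_halves]

end gen

section two

/-- tube of half width `A * wd H` around the line of slope `θ`, natural climb of height `H` -/
def TubeP (u : Step 2) (i : Fin 2) (θ : ℝ) (Q : Measure (Environment 2)) (wd : ℕ → ℕ) : Prop :=
  ∃ A p0 : ℝ, 0 < A ∧ 0 < p0 ∧ ∃ H0 : ℕ, ∀ H ≥ H0, ENNReal.ofReal p0 ≤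
    annealedProb Q 0 {X | ∃ n, lev u (X n) = H ∧ ∀ j < n, 0 ≤ lev u (X j) ∧
      lev u (X j) < H ∧ |sl u i θ (X j)| ≤ A * wd H}

lemma exists_site {u : Step 2} {i : Fin 2} (hi : i ≠ u.1) (l t : ℤ) :
    ∃ x : Site 2, lev u x = l ∧ x i = t := by
  classical
  refine ⟨fun j => if j = i then t else (if u.2 then l else -l), ?_, by simp⟩
  unfold Flux132.lev
  by_cases h : u.2
  · simp [h, hi.symm]
  · simp [h, hi.symm]

lemma sl_diff (u : Step 2) (i : Fin 2) (θ : ℝ) (x y : Site 2) :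
    sl u i θ (x + y) = sl u i θ x + sl u i θ y := by
  unfold P2916.sl
  rw [D1S.lev_add]
  push_cast [Pi.add_apply]
  ring

lemma meas_tube (u : Step 2) (i : Fin 2) (l0 l1 : ℤ) (v : ℤ → ℤ) (A : ℤ) :
    MeasurableSet {X : Path 2 | ∃ n, lev u (X n) = l1 ∧
      ∀ j < n, l0 ≤ lev u (X j) ∧ lev u (X j) < l1 ∧ |X j i - v (lev u (X j))| < A} := by
  have e : {X : Path 2 | ∃ n, lev u (X n) = l1 ∧
      ∀ j < n, l0 ≤ lev u (X j) ∧ lev u (X j) < l1 ∧ |X j i - v (lev u (X j))| < A} =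
      ⋃ n : ℕ, {X : Path 2 | lev u (X n) = l1 ∧
      ∀ j < n, l0 ≤ lev u (X j) ∧ lev u (X j) < l1 ∧ |X j i - v (lev u (X j))| < A} := by
    ext X; simp
  rw [e]
  refine MeasurableSet.iUnion fun n => Q561.DepOn.measurableSet (n := n) ?_
  rintro X Y h ⟨h1, h2⟩
  refine ⟨by rw [← h n le_rfl]; exact h1, fun j hj => ?_⟩
  rw [← h j hj.le]
  exact h2 j hj

/-- displacement in a slab of height `H`, from ANY start in the slab -/
theorem slab_from (ν : Measure (Row 2)) [IsProbabilityMeasure ν]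
    (hν : ∀ᵐ q ∂ν, ∀ e : Step 2, 0 < q.1 e) {u : Step 2} {i : Fin 2} (hi : i ≠ u.1) {θ : ℝ}
    {a p0 : ℝ} (ha : 0 ≤ a) {H : ℕ} (hH : 0 < H)
    (htube : ENNReal.ofReal p0 ≤ annealedProb (iidEnvironmentLaw ν) 0 {X | ∃ n, lev u (X n) = H ∧
      ∀ j < n, 0 ≤ lev u (X j) ∧ lev u (X j) < H ∧ |sl u i θ (X j)| ≤ a})
    (x : Site 2) {l0 : ℤ} (h0 : l0 ≤ lev u x) (h1 : lev u x < l0 + H) (K : ℕ) {r : ℝ}
    (hr : 2 * (2 + 4 * (a + 3) * K) ≤ r) :
    annealedProb (iidEnvironmentLaw ν) x (Wd u (sl u i θ) l0 (l0 + H) r) ≤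
      2 * (1 - ENNReal.ofReal p0) ^ K := by
  set Q := iidEnvironmentLaw ν with hQ
  have hstat : ∀ z : Site 2, MeasurePreserving (shiftEnv z) Q Q := fun z => Q561.iid_shift ν z
  set v : ℤ → ℤ := fun l' => x i + ⌊θ * ((l' - lev u x : ℤ) : ℝ)⌋ with hv
  obtain ⟨xb, hxb1, hxb2⟩ := exists_site hi l0 (v l0)
  set A' : ℤ := ⌈a⌉ + 2 with hA'
  have hceil : (0 : ℤ) ≤ ⌈a⌉ := Int.ceil_nonneg ha
  have hA'pos : 0 < A' := by omega
  -- the tube from `xb`
  have hp : ENNReal.ofReal p0 ≤ annealedProb Q xb {X | ∃ n, lev u (X n) = l0 + H ∧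
      ∀ j < n, l0 ≤ lev u (X j) ∧ lev u (X j) < l0 + H ∧ |X j i - v (lev u (X j))| < A'} := by
    have hsh := annProb_shift (x := 0) (hstat xb) (meas_tube u i l0 (l0 + H) v A')
    rw [zero_add] at hsh
    rw [hsh]
    refine htube.trans ?_
    unfold annealedProb
    refine lintegral_mono fun ω => measure_mono ?_
    rintro X ⟨n, hn, hj⟩
    refine ⟨n, ?_, fun j hjn => ?_⟩
    · show lev u (X n + xb) = l0 + H
      rw [D1S.lev_add, hn, hxb1]; ring
    · obtain ⟨q1, q2, q3⟩ := hj j hjn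
      have q4 : lev u (X j + xb) = lev u (X j) + l0 := by rw [D1S.lev_add, hxb1]
      refine ⟨?_, ?_, ?_⟩
      · show l0 ≤ lev u (X j + xb); rw [q4]; omega
      · show lev u (X j + xb) < l0 + H; rw [q4]; omega
      · show |(X j + xb) i - v (lev u (X j + xb))| < A'
        rw [q4]
        have q5 : (X j + xb) i = X j i + v l0 := by rw [Pi.add_apply, hxb2]
        rw [q5]
        have q6 : |(((X j i + v l0 - v (lev u (X j) + l0) : ℤ)) : ℝ)| < a + 2 := by
          have f1 := Int.floor_le (θ * ((l0 - lev u x : ℤ) : ℝ))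
          have f2 := Int.lt_floor_add_one (θ * ((l0 - lev u x : ℤ) : ℝ))
          have f3 := Int.floor_le (θ * ((lev u (X j) + l0 - lev u x : ℤ) : ℝ))
          have f4 := Int.lt_floor_add_one (θ * ((lev u (X j) + l0 - lev u x : ℤ) : ℝ))
          have e1 : (((X j i + v l0 - v (lev u (X j) + l0) : ℤ)) : ℝ) = (X j i : ℝ) +
              (⌊θ * ((l0 - lev u x : ℤ) : ℝ)⌋ : ℝ) -
              (⌊θ * ((lev u (X j) + l0 - lev u x : ℤ) : ℝ)⌋ : ℝ) := by
            simp only [hv]
            push_cast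
            ring
          rw [e1]
          have e2 : sl u i θ (X j) = (X j i : ℝ) - θ * (lev u (X j) : ℝ) := rfl
          rw [e2] at q3
          have q3' := abs_le.1 q3
          have e3 : θ * ((lev u (X j) + l0 - lev u x : ℤ) : ℝ) =
              θ * (lev u (X j) : ℝ) + θ * ((l0 - lev u x : ℤ) : ℝ) := by
            push_cast; ring
          rw [abs_lt]
          constructor <;> linarith [q3'.1, q3'.2]
        have q7 : |X j i + v l0 - v (lev u (X j) + l0)| < A' := by
          have : ((|X j i + v l0 - v (lev u (X j) + l0)| : ℤ) : ℝ) < (A' : ℝ) := by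
            rw [Int.cast_abs]
            refine q6.trans_le ?_
            rw [hA']
            push_cast
            linarith [Int.le_ceil a]
          exact_mod_cast this
        exact q7
  have hmain := Slab491.slab2' ν hν u hi v (l0 := l0) (l1 := l0 + H) (A := A') (r := 1) hA'pos
    (by omega) (xb := xb) (x0 := x) hxb1 hxb2 hp h0 h1 (by simp [hv]) K
  refine le_trans ?_ hmain
  unfold annealedProb
  refine lintegral_mono fun ω => measure_mono ?_
  rintro X ⟨k, m, hkm, hslab, hdis⟩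
  -- one of the two sites is far from `x`
  have hfar : r / 2 < |sl u i θ (X m) - sl u i θ x| ∨ r / 2 < |sl u i θ (X k) - sl u i θ x| := by
    by_contra hcon
    push Not at hcon
    have h3 : |sl u i θ (X m) - sl u i θ (X k)| ≤
        |sl u i θ (X m) - sl u i θ x| + |sl u i θ (X k) - sl u i θ x| := by
      have := abs_sub_le (sl u i θ (X m)) (sl u i θ x) (sl u i θ (X k))
      rwa [abs_sub_comm (sl u i θ x)] at this
    linarith [hcon.1, hcon.2]
  have key : ∀ n, r / 2 < |sl u i θ (X n) - sl u i θ x| →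
      1 + 4 * A' * K ≤ |X n i - v (lev u (X n))| := by
    intro n hn
    have f1 := Int.floor_le (θ * ((lev u (X n) - lev u x : ℤ) : ℝ))
    have f2 := Int.lt_floor_add_one (θ * ((lev u (X n) - lev u x : ℤ) : ℝ))
    have e1 : (((X n i - v (lev u (X n)) : ℤ)) : ℝ) = (sl u i θ (X n) - sl u i θ x) +
        (θ * ((lev u (X n) - lev u x : ℤ) : ℝ) - (⌊θ * ((lev u (X n) - lev u x : ℤ) : ℝ)⌋ : ℝ)) := by
      unfold P2916.sl
      simp only [hv]
      push_cast
      ring
    have h3 : r / 2 - 1 ≤ |(((X n i - v (lev u (X n)) : ℤ)) : ℝ)| := by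
      rw [e1]
      have h4 := abs_sub_abs_le_abs_sub (sl u i θ (X n) - sl u i θ x)
        (-(θ * ((lev u (X n) - lev u x : ℤ) : ℝ) - (⌊θ * ((lev u (X n) - lev u x : ℤ) : ℝ)⌋ : ℝ)))
      rw [sub_neg_eq_add, abs_neg] at h4
      have h5 : |θ * ((lev u (X n) - lev u x : ℤ) : ℝ) -
          (⌊θ * ((lev u (X n) - lev u x : ℤ) : ℝ)⌋ : ℝ)| ≤ 1 := by
        rw [abs_le]; constructor <;> linarith
      linarith
    have h6 : ((1 + 4 * A' * K : ℤ) : ℝ) ≤ ((|X n i - v (lev u (X n))| : ℤ) : ℝ) := by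
      rw [Int.cast_abs]
      refine le_trans ?_ h3
      push_cast [hA']
      have h7 := Int.ceil_lt_add_one a
      have h8 : (⌈a⌉ : ℝ) + 2 ≤ a + 3 := by linarith
      have h9 : 4 * ((⌈a⌉ : ℝ) + 2) * K ≤ 4 * (a + 3) * K := by gcongr
      linarith
    exact_mod_cast h6
  rcases hfar with h | h
  · exact ⟨m, key m h, fun j hj => hslab j hj⟩
  · exact ⟨k, key k h, fun j hj => hslab j (hj.trans hkm)⟩

lemma Wd_mono {u : Step 2} {s : Site 2 → ℝ} {l b b' : ℤ} {r : ℝ} (h : b ≤ b') :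
    Wd u s l b r ⊆ Wd u s l b' r := by
  rintro X ⟨k, m, hkm, h1, h2⟩
  exact ⟨k, m, hkm, fun i hi => ⟨(h1 i hi).1, (h1 i hi).2.trans_le h⟩, h2⟩

lemma BadE_mono {u : Step 2} {s : Site 2 → ℝ} {a b f f' : ℤ} {r : ℝ} (h : f ≤ f') :
    BadE u s a b f r ⊆ BadE u s a b f' r := by
  rintro X ⟨k, m, hkm, h1, h2, h3, h4⟩
  exact ⟨k, m, hkm, h1, h2, h3, h4.imp (fun h5 => lt_of_lt_of_le h5 h) id⟩

lemma BadE_low {u : Step 2} {s : Site 2 → ℝ} {a b f : ℤ} {r : ℝ} :
    BadE u s a b f r ⊆ Down u (f - 1) ∪ Wd u s f b r := by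
  rintro X ⟨k, m, hkm, h1, h2, h3, h4⟩
  by_cases hlow : ∃ i ≤ m, lev u (X i) < f
  · obtain ⟨i, -, hi⟩ := hlow
    exact Or.inl ⟨i, by omega⟩
  · push Not at hlow
    refine Or.inr ⟨k, m, hkm, fun i hi => ⟨hlow i hi, h3 i hi⟩, ?_⟩
    rcases h4 with h4 | h4
    · exact absurd (hlow m le_rfl) (not_le.2 h4)
    · exact h4

lemma BadE_unshift {u : Step 2} {s : Site 2 → ℝ} {a b f : ℤ} {r : ℝ} (hab : a ≤ b) {X : Path 2}
    (hX : exT (Lo u a) X ≠ ⊤) (hs : shift (exT (Lo u a) X).toNat X ∈ BadE u s a b f r) :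
    X ∈ BadE u s a b f r := by
  obtain ⟨n, hn⟩ := ENat.ne_top_iff_exists.1 hX
  rw [← hn, ENat.toNat_natCast] at hs
  have hT := exT_eq_iff.1 hn.symm
  obtain ⟨k, m, hkm, h1, h2, h3, h4⟩ := hs
  refine ⟨n + k, n + m, by omega, h1, fun i hi => ?_, fun i hi => ?_, h4⟩
  · rcases Nat.lt_or_ge i n with h | h
    · exact hT.2 i h
    · have := h2 (i - n) (by omega)
      have e : shift n X (i - n) = X i := by
        show X (n + (i - n)) = X i
        rw [show n + (i - n) = i by omega]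
      rw [← e]; exact this
  · rcases Nat.lt_or_ge i n with h | h
    · exact lt_of_lt_of_le (hT.2 i h) hab
    · have := h3 (i - n) (by omega)
      have e : shift n X (i - n) = X i := by
        show X (n + (i - n)) = X i
        rw [show n + (i - n) = i by omega]
      rw [← e]; exact this

/-- the walk from a site of level `l` which reaches the level `l + g` leaves the column through
the top, unless `BadE` happens -/
lemma col_cases {u : Step 2} {i : Fin 2} {θ : ℝ} {l g h : ℕ} {r : ℝ} {y : Site 2}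
    (hy : lev u y = l) {X : Path 2} (h0 : X 0 = y) (hnn : ∀ n, ∃ e : Step 2, X (n + 1) = X n + stepVec e)
    (hX : X ∈ (Ev (D2V36.Col u i θ l g h r y) (D2V36.Lvl u (l + g)))ᶜ) :
    exT (Lo u ((l + g : ℕ) : ℤ)) X = ⊤ ∨
      X ∈ BadE u (sl u i θ) l ((l + g : ℕ) : ℤ) ((l : ℤ) - h) r := by
  classical
  by_cases hT : exT (Lo u ((l + g : ℕ) : ℤ)) X = ⊤
  · exact Or.inl hT
  right
  obtain ⟨n, hn⟩ := ENat.ne_top_iff_exists.1 hT
  have hTn := exT_eq_iff.1 hn.symm
  have h1 : ((l + g : ℕ) : ℤ) ≤ lev u (X n) := not_lt.1 hTn.1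
  have h2 : ∀ j < n, lev u (X j) < ((l + g : ℕ) : ℤ) := hTn.2
  have h3 : lev u (X n) = ((l + g : ℕ) : ℤ) := by
    cases n with
    | zero =>
      refine le_antisymm ?_ h1
      rw [h0, hy]; push_cast; omega
    | succ n =>
      refine le_antisymm ?_ h1
      obtain ⟨e, he⟩ := hnn n
      have h4 := h2 n (Nat.lt_succ_self n)
      have h5 := D1S.lev_stepVec_le u e
      have h6 : lev u (X (n + 1)) = lev u (X n) + lev u (stepVec e) := by
        rw [← D1S.lev_add, he]
      omega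
  by_cases hcol : ∀ j < n, X j ∈ D2V36.Col u i θ l g h r y
  · exact absurd (show X ∈ Ev (D2V36.Col u i θ l g h r y) (D2V36.Lvl u (l + g)) from
      ⟨n, h3, hcol⟩) hX
  · push Not at hcol
    obtain ⟨j, hj, hjc⟩ := hcol
    refine ⟨0, j, Nat.zero_le _, by rw [h0, hy], fun i hi => absurd hi (Nat.not_lt_zero i),
      fun i hi => h2 i (by omega), ?_⟩
    by_contra hcon
    push Not at hcon
    refine hjc ⟨hcon.1, ?_, ?_⟩
    · have := h2 j hj
      push_cast at this
      exact this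
    · rw [h0] at hcon
      exact hcon.2

/-- **`D2V36.SlabP`** -/
theorem slabP (ν : Measure (Row 2)) [IsProbabilityMeasure ν]
    (hν : ∀ᵐ q ∂ν, ∀ e : Step 2, 0 < q.1 e) {u : Step 2} {i : Fin 2} (hi : i ≠ u.1) {θ : ℝ}
    (hA : annealedProb (iidEnvironmentLaw ν) 0 (escapeEvent (dirVec u)) = 1) {wd : ℕ → ℕ}
    (hT : TubeP u i θ (iidEnvironmentLaw ν) wd) (hwd1 : ∃ N1, ∀ N ≥ N1, 1 ≤ wd N)
    (hwd2 : ∃ C2 : ℝ, ∃ N1 : ℕ, ∀ h ≥ N1, (wd (2 * h) : ℝ) ≤ C2 * wd h) :
    D2V36.SlabP u i θ ν wd := by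
  obtain ⟨A, p0, hA0, hp0, H0, htube⟩ := hT
  obtain ⟨N1, hN1⟩ := hwd1
  obtain ⟨C2, N2, hN2⟩ := hwd2
  set Q := iidEnvironmentLaw ν with hQ
  have hstat : ∀ z : Site 2, MeasurePreserving (shiftEnv z) Q Q := fun z => Q561.iid_shift ν z
  have hp1 : p0 ≤ 1 := by
    have h1 := htube H0 le_rfl
    have h2 : annealedProb Q 0 {X | ∃ n, lev u (X n) = H0 ∧ ∀ j < n, 0 ≤ lev u (X j) ∧
        lev u (X j) < H0 ∧ |sl u i θ (X j)| ≤ A * wd H0} ≤ 1 := by
      calc _ ≤ ∫⁻ _, 1 ∂Q := lintegral_mono fun ω => prob_le_one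
        _ = 1 := by simp
    have h3 := h1.trans h2
    rwa [← ENNReal.ofReal_one, ENNReal.ofReal_le_ofReal_iff (by norm_num)] at h3
  set q := ∑' z, tz Q u z with hqdef
  have hq1 : q < 1 := sum_tz_lt hstat u hA
  set cE := (1 - q)⁻¹ with hcE
  have hcpos : (1 - q) ≠ 0 := (tsub_pos_of_lt hq1).ne'
  have hctop : cE ≠ ⊤ := ENNReal.inv_ne_top.2 hcpos
  have hc1 : 1 ≤ cE := ENNReal.one_le_inv.2 tsub_le_self
  set C2' := max C2 1 with hC2'
  have hC2p : 1 ≤ C2' := le_max_right _ _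
  set B := A * C2' + 3 with hB
  have hBpos : 3 ≤ B := by
    rw [hB]
    have : 0 ≤ A * C2' := by positivity
    linarith
  set cc := p0 / (8 * B) with hcc
  have hccpos : 0 < cc := by rw [hcc]; positivity
  set Cf := cE.toReal * (2 * Real.exp (cc * (4 + 8 * B))) with hCf
  have hcEr : 1 ≤ cE.toReal := by
    rw [← ENNReal.toReal_one]
    exact ENNReal.toReal_mono hctop hc1
  refine ⟨Cf, cc, by rw [hCf]; positivity, hccpos, fun As hAs ε hε => ?_⟩
  -- constants
  have hε2 : ENNReal.ofReal (ε / 2) ≠ 0 := by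
    rw [Ne, ENNReal.ofReal_eq_zero, not_le]; positivity
  obtain ⟨M, hM⟩ := exists_km ν u hA hε2
  obtain ⟨r0, hr0⟩ : ∃ r0 : ℕ, annealedProb Q 0 (Down u (-(r0 : ℤ))) ≤ ENNReal.ofReal (ε / 2) := by
    have := (tendsto_down u hA).eventually_le_const (pos_iff_ne_zero.2 hε2)
    exact this.exists
  refine ⟨M + r0 + N1 + N2 + H0 + 1, fun h hh l g hg => ?_⟩
  have hhM : M ≤ h := by omega
  have hh0 : 0 < h := by omega
  have hwdh : (1 : ℝ) ≤ wd h := by exact_mod_cast hN1 h (by omega)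
  have hwd2h : (wd (2 * h) : ℝ) ≤ C2' * wd h :=
    (hN2 h (by omega)).trans (by gcongr; exact le_max_left _ _)
  set K : ℕ := ⌊(As - 4) / (8 * B)⌋₊ with hK
  set gv : ℝ≥0∞ := 2 * (1 - ENNReal.ofReal p0) ^ K with hgv
  set r := As * (wd h : ℝ) with hr
  -- the slab bound
  have hslab : ∀ (x : Site 2) (l0 b : ℤ), l0 ≤ lev u x → lev u x < l0 + (2 * h : ℕ) →
      b ≤ l0 + (2 * h : ℕ) → annealedProb Q x (Wd u (sl u i θ) l0 b r) ≤ gv := by
    intro x l0 b h1 h2 h3
    by_cases hAs4 : As < 4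
    · have hK0 : K = 0 := by
        rw [hK, Nat.floor_eq_zero]
        have : (As - 4) / (8 * B) < 0 := div_neg_of_neg_of_pos (by linarith) (by positivity)
        linarith
      rw [hgv, hK0, pow_zero, mul_one]
      calc annealedProb Q x (Wd u (sl u i θ) l0 b r) ≤ ∫⁻ _, 1 ∂Q :=
            lintegral_mono fun ω => prob_le_one
        _ = 1 := by simp
        _ ≤ 2 := by norm_num
    · push Not at hAs4
      refine le_trans (lintegral_mono fun ω => measure_mono (Wd_mono h3)) ?_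
      refine slab_from ν hν hi (a := A * wd (2 * h)) (by positivity) (H := 2 * h) (by omega)
        (htube (2 * h) (by omega)) x h1 h2 K ?_
      have h4 : (K : ℝ) ≤ (As - 4) / (8 * B) :=
        Nat.floor_le (div_nonneg (by linarith) (by positivity))
      have h5 : (K : ℝ) * (8 * B) ≤ As - 4 := by
        rwa [le_div_iff₀ (by positivity)] at h4
      have h6 : A * (wd (2 * h) : ℝ) + 3 ≤ B * wd h := by
        calc A * (wd (2 * h) : ℝ) + 3 ≤ A * (C2' * wd h) + 3 * wd h := by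
              gcongr; linarith
          _ = B * wd h := by rw [hB]; ring
      calc 2 * (2 + 4 * (A * (wd (2 * h) : ℝ) + 3) * K)
          ≤ 2 * (2 * wd h + 4 * (B * wd h) * K) := by gcongr; linarith
        _ = (4 + K * (8 * B)) * wd h := by ring
        _ ≤ (4 + (As - 4)) * wd h := by gcongr
        _ = r := by rw [hr]; ring
  -- numbers
  have hnum : cE * gv + ENNReal.ofReal (ε / 2) ≤
      ENNReal.ofReal (Cf * Real.exp (-(cc * As)) + ε) := by
    have h1 : (1 - ENNReal.ofReal p0) ^ K ≤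
        ENNReal.ofReal (Real.exp (cc * (4 + 8 * B)) * Real.exp (-(cc * As))) := by
      rw [← ENNReal.ofReal_one, ← ENNReal.ofReal_sub 1 hp0.le,
        ← ENNReal.ofReal_pow (by linarith)]
      refine ENNReal.ofReal_le_ofReal ?_
      have h2 : 1 - p0 ≤ Real.exp (-p0) := by
        have := Real.add_one_le_exp (-p0)
        linarith
      have h3 : (As - 4) / (8 * B) - 1 ≤ K := by
        have := Nat.lt_floor_add_one ((As - 4) / (8 * B))
        rw [hK]; linarith
      calc (1 - p0) ^ K ≤ Real.exp (-p0) ^ K := by gcongr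
        _ = Real.exp (-(p0 * K)) := by rw [← Real.exp_nat_mul]; ring_nf
        _ ≤ Real.exp (-(p0 * ((As - 4) / (8 * B) - 1))) := by
            apply Real.exp_le_exp.2
            nlinarith
        _ = Real.exp (cc * (4 + 8 * B)) * Real.exp (-(cc * As)) := by
            rw [← Real.exp_add]
            congr 1
            rw [hcc]
            field_simp
            ring
    have h4 : cE * gv ≤ ENNReal.ofReal (Cf * Real.exp (-(cc * As))) := by
      have h5 : cE = ENNReal.ofReal cE.toReal := (ENNReal.ofReal_toReal hctop).symm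
      calc cE * gv ≤ ENNReal.ofReal cE.toReal * (ENNReal.ofReal 2 *
            ENNReal.ofReal (Real.exp (cc * (4 + 8 * B)) * Real.exp (-(cc * As)))) := by
            rw [← h5, hgv]
            gcongr
            simp
        _ = ENNReal.ofReal (Cf * Real.exp (-(cc * As))) := by
            rw [← ENNReal.ofReal_mul (by norm_num), ← ENNReal.ofReal_mul (by linarith), hCf]
            congr 1
            ring
    calc cE * gv + ENNReal.ofReal (ε / 2)
        ≤ ENNReal.ofReal (Cf * Real.exp (-(cc * As))) + ENNReal.ofReal ε := by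
          refine add_le_add h4 (ENNReal.ofReal_le_ofReal (by linarith))
      _ = _ := by
          rw [← ENNReal.ofReal_add (by positivity) hε.le]
  -- annealed bound for the bad event
  have hbad : annealedProb Q 0 (BadE u (sl u i θ) l ((l + g : ℕ) : ℤ) ((l : ℤ) - h) r) ≤
      cE * gv + ENNReal.ofReal (ε / 2) := by
    rcases Nat.lt_or_ge l M with hlM | hlM
    · calc annealedProb Q 0 (BadE u (sl u i θ) l ((l + g : ℕ) : ℤ) ((l : ℤ) - h) r)
          ≤ annealedProb Q 0 (Down u (((l : ℤ) - h) - 1)) +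
            annealedProb Q 0 (Wd u (sl u i θ) ((l : ℤ) - h) ((l + g : ℕ) : ℤ) r) := by
            unfold annealedProb
            rw [← lintegral_add_left (Q561.measurable_quenched_apply 0 (measurableSet_Down u _))]
            exact lintegral_mono fun ω => (measure_mono BadE_low).trans (measure_union_le _ _)
        _ ≤ ENNReal.ofReal (ε / 2) + gv := by
            refine add_le_add ?_ ?_
            · refine le_trans (lintegral_mono fun ω => measure_mono (Down_mono u ?_)) hr0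
              push_cast; omega
            · refine hslab 0 _ _ ?_ ?_ ?_
              · rw [D1S.lev_zero]; omega
              · rw [D1S.lev_zero]; push_cast; omega
              · push_cast; omega
        _ ≤ ENNReal.ofReal (ε / 2) + cE * gv := by
            gcongr
            calc gv = 1 * gv := (one_mul _).symm
              _ ≤ cE * gv := by gcongr
        _ = _ := add_comm _ _
    · refine le_trans (lintegral_mono fun ω => measure_mono (BadE_mono (f' := (l : ℤ) - M) ?_))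
        (hM (sl u i θ) l ((l + g : ℕ) : ℤ) r gv (by push_cast; omega) (fun x hx1 hx2 => ?_) 0 ?_)
      · omega
      · refine hslab x _ _ le_rfl ?_ ?_
        · push_cast; omega
        · push_cast; omega
      · rw [D1S.lev_zero]; omega
  -- conclusion
  refine le_trans ?_ (hbad.trans hnum)
  have hae : ∀ᵐ ω ∂Q, ∀ y : Site 2,
      quenchedLaw ω y {X | exT (Lo u ((l + g : ℕ) : ℤ)) X = ⊤} = 0 :=
    ae_all_iff.2 fun y => hit_ae hstat u hA _ y
  have hBm := measurableSet_BadE u (sl u i θ) l ((l + g : ℕ) : ℤ) ((l : ℤ) - h) r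
  calc ∫⁻ ω, ∑' y : Site 2, EK ω (D2V36.Sb u l) 0 y * quenchedLaw ω y
        (Ev (D2V36.Col u i θ l g h (As * wd h) y) (D2V36.Lvl u (l + g)))ᶜ ∂Q
      ≤ ∫⁻ ω, ∑' y : Site 2, EK ω (Lo u l) 0 y * quenchedLaw ω y
          (BadE u (sl u i θ) l ((l + g : ℕ) : ℤ) ((l : ℤ) - h) r) ∂Q := by
        refine lintegral_mono_ae ?_
        filter_upwards [hae] with ω hω
        refine ENNReal.tsum_le_tsum fun y => ?_
        by_cases hy : lev u y = (l : ℤ)
        · refine mul_le_mul' le_rfl ?_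
          calc quenchedLaw ω y (Ev (D2V36.Col u i θ l g h (As * wd h) y)
                (D2V36.Lvl u (l + g)))ᶜ
              ≤ quenchedLaw ω y ({X | exT (Lo u ((l + g : ℕ) : ℤ)) X = ⊤} ∪
                BadE u (sl u i θ) l ((l + g : ℕ) : ℤ) ((l : ℤ) - h) r) := by
                refine measure_mono_ae ?_
                filter_upwards [quenched_zero_eq ω y, quenched_nn ω y] with X h0 hnn hX
                exact col_cases hy h0 hnn hX
            _ ≤ quenchedLaw ω y {X | exT (Lo u ((l + g : ℕ) : ℤ)) X = ⊤} +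
                quenchedLaw ω y (BadE u (sl u i θ) l ((l + g : ℕ) : ℤ) ((l : ℤ) - h) r) :=
                measure_union_le _ _
            _ = _ := by rw [hω y, zero_add]
        · have h3 : EK ω (D2V36.Sb u l) 0 y = 0 := by
            have := EK_Lo u ω (l := (l : ℤ)) (x := (0 : Site 2)) (by rw [D1S.lev_zero]; omega) hy
            exact this
          rw [h3, zero_mul]
          exact zero_le
    _ ≤ annealedProb Q 0 (BadE u (sl u i θ) l ((l + g : ℕ) : ℤ) ((l : ℤ) - h) r) := by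
        refine lintegral_mono fun ω => ?_
        rw [← exit_markov ω (Lo u l) 0 hBm]
        refine measure_mono ?_
        rintro X ⟨h1, h2⟩
        exact BadE_unshift (by push_cast; omega) h1 h2

end two

end Crest.Agent.R154.SlabUse28
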