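import Crest.Agent.R154.ThetaFin_4
import Crest.Agent.R154.SlabP_28
import Crest.Agent.R154.D2Joint_244

/-!
# Row 154, `d = 2`: the composition of the block.  (helper606)

`Dat ν u i θ` = the standing data of the block: uniform ellipticity, annealed escape `= 1`, and the
real slope `θ` of 4's `theta_tubeP` for the width `wdO ν u i` (= 24's `wdJ`).
`ScaleP`, `REG`, `HitP`, `SlabP` are theorems for `Dat`; `tileD2_of` = `TileD2` from the four leaves
`ResidP`, `OccP`, assembly of `LLN`, `WIN`.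
-/

set_option autoImplicit false

namespace Crest.Agent.R154.D2Top606

open MeasureTheory ProbabilityTheory Crest.ProbabilityR.RandomEnvironment Crest.Agent.R154
open Crest.Agent.R154.Flux132 (lev)
open Crest.Agent.R154.D2V36 (LLN SlabP ScaleP HitP OccP ResidP)
open Crest.Agent.R154.P2916 (REG)
open Crest.Agent.R154.QE980 (WIN)
open Crest.Agent.R154.TubeLin4 (wdO)
open scoped ENNReal

/-- the standing data -/
structure Dat (ν : Measure (Row 2)) [IsProbabilityMeasure ν] (u : Step 2) (i : Fin 2) (θ : ℝ) :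
    Prop where
  ue : ∃ κ : ℝ, 0 < κ ∧ ∀ᵐ q ∂ν, ∀ e : Step 2, κ ≤ q.1 e
  pos : ∀ᵐ q ∂ν, ∀ e : Step 2, 0 < q.1 e
  ne : i ≠ u.1
  ann : annealed (iidEnvironmentLaw ν) 0 (escapeEvent (B2d.dirVec u)) = 1
  annP : annealedProb (iidEnvironmentLaw ν) 0 (escapeEvent (B2d.dirVec u)) = 1
  annNe : annealedProb (iidEnvironmentLaw ν) 0 (escapeEvent (B2d.dirVec u)) ≠ 0
  frame : Bind263.Frame (iidEnvironmentLaw ν) 0 0
  tube : ∀ ε : ℝ, 0 < ε → ∃ (A : ℝ) (N1 : ℕ), ∀ N, N1 ≤ N →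
    1 - ε ≤ (J132.stL (iidEnvironmentLaw ν) 0 u).real
      (TubeLin4.TubeE u i N (A * wdO ν u i N) fun l => θ * l)
  tubeP : SlabUse28.TubeP u i θ (iidEnvironmentLaw ν) (wdO ν u i)
  one_le : ∀ n, 1 ≤ wdO ν u i n
  mono : Monotone (wdO ν u i)
  top : ∀ K : ℕ, ∃ N0 : ℕ, ∀ N ≥ N0, K ≤ wdO ν u i N
  two : ∃ N0 : ℕ, ∀ N ≥ N0, (wdO ν u i (2 * N) : ℝ) ≤ 6 * wdO ν u i N
  scaleP : ScaleP (wdO ν u i)
  reg : REG (wdO ν u i)
  hitP : HitP u ν

variable {ν : Measure (Row 2)} [IsProbabilityMeasure ν] {u : Step 2} {i : Fin 2} {θ : ℝ}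

theorem Dat.slabP (D : Dat ν u i θ) : SlabP u i θ ν (wdO ν u i) :=
  SlabUse28.slabP ν D.pos D.ne D.annP D.tubeP ⟨0, fun N _ => D.one_le N⟩ ⟨6, D.two⟩

/-- existence of the data for every lateral coordinate -/
theorem exists_dat (ν : Measure (Row 2)) [IsProbabilityMeasure ν] {κ : ℝ} (hκ : 0 < κ)
    (hν : ∀ᵐ p ∂ν, ∀ e : Step 2, κ ≤ p.1 e) (u : Step 2)
    (hu : annealed (iidEnvironmentLaw ν) 0 (escapeEvent (B2d.dirVec u)) = 1)
    (i : Fin 2) (hi : i ≠ u.1) : ∃ θ : ℝ, Dat ν u i θ := by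
  have hpos : ∀ᵐ p ∂ν, ∀ e : Step 2, 0 < p.1 e := hν.mono fun p hp e => hκ.trans_le (hp e)
  have F : Bind263.Frame (iidEnvironmentLaw ν) 0 0 := Bind263.frame_iid ν hpos
  have hA1 : annealedProb (iidEnvironmentLaw ν) 0 (escapeEvent (B2d.dirVec u)) = 1 := by
    rw [← annealed_apply _ 0 (B2d.measurableSet_escapeEvent _), hu]
  have hA : annealedProb (iidEnvironmentLaw ν) 0 (escapeEvent (B2d.dirVec u)) ≠ 0 := by
    rw [hA1]; exact one_ne_zero
  obtain ⟨θ, hθ, hT⟩ := TubeLin4.theta_tubeP ν hpos hi hA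
  exact ⟨θ, {
    ue := ⟨κ, hκ, hν⟩
    pos := hpos
    ne := hi
    ann := hu
    annP := hA1
    annNe := hA
    frame := F
    tube := hθ
    tubeP := hT
    one_le := TubeLin4.one_le_wdO ν hpos hi hA
    mono := TubeLin4.wdO_mono ν hpos hi hA
    top := TubeLin4.wdO_top ν hpos hi hA
    two := TubeLin4.wdO_two ν hpos hi hA
    scaleP := TubeLin4.scaleP_obj ν hpos hi hA
    reg := TubeLin4.reg_obj ν hpos hi hA
    hitP := Hit2569.hitP ν u hu }⟩

/-- `ResidP` for the block (509 / 215) -/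
def LResid : Prop := ∀ (ν : Measure (Row 2)) [IsProbabilityMeasure ν] (u : Step 2) (i : Fin 2)
  (θ : ℝ), Dat ν u i θ → ResidP u i θ ν

/-- `OccP` for the block (7 / 546 / 2) -/
def LOcc : Prop := ∀ (ν : Measure (Row 2)) [IsProbabilityMeasure ν] (u : Step 2) (i : Fin 2)
  (θ : ℝ), Dat ν u i θ → OccP u i θ ν (wdO ν u i)

/-- the assembly (36) -/
def LLln : Prop := ∀ (ν : Measure (Row 2)) [IsProbabilityMeasure ν] (u : Step 2) (i : Fin 2)
  (θ : ℝ), Dat ν u i θ → OccP u i θ ν (wdO ν u i) → ResidP u i θ ν → LLN u i θ ν (wdO ν u i)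

/-- the annealed windows (8 / 956) -/
def LWin : Prop := ∀ (ν : Measure (Row 2)) [IsProbabilityMeasure ν] (u : Step 2) (i : Fin 2)
  (θ : ℝ), Dat ν u i θ → WIN u i θ (iidEnvironmentLaw ν) (wdO ν u i)

/-- **`TileD2` from the four open leaves of the block `d = 2`** -/
theorem tileD2_of (h2 : LResid) (h3 : LOcc) (h4 : LLln) (h5 : LWin) : D2Asm244.TileD2 := by
  refine D2Joint244.tileD2_of_wdJ fun ν _ κ hκ hν u hu i hi => ?_
  obtain ⟨θ, D⟩ := exists_dat ν hκ hν u hu i hi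
  exact ⟨θ, h4 ν u i θ D (h3 ν u i θ D) (h2 ν u i θ D), D.slabP, h5 ν u i θ D⟩

end Crest.Agent.R154.D2Top606
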