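import Mathlib

/-!
Row 154, d = 2, helper786's (VAR) identity, abstract form. Author: helper8. Mathlib only.

`F j` = environment below level `j`, `G j` = `F j` and the path up to `T_j`, `x` = final position.
-/

set_option autoImplicit false

open MeasureTheory Filter

namespace Crest.Agent.R154.D2Var

variable {Ω : Type*} {m m0 : MeasurableSpace Ω} {P : Measure Ω} [IsProbabilityMeasure P]

theorem orth (hm : m ≤ m0) {f g : Ω → ℝ} (hf : MemLp f 2 P)
    (hg : MemLp g 2 P) (hgm : StronglyMeasurable[m] g) (hz : P[f | m] =ᵐ[P] 0) :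
    ∫ ω, f ω * g ω ∂P = 0 := by
  have hfg : Integrable (f * g) P := hf.integrable_mul hg
  have h1 : ∫ ω, (P[f * g | m]) ω ∂P = ∫ ω, (f * g) ω ∂P := integral_condExp hm
  have h2 : P[f * g | m] =ᵐ[P] P[f | m] * g :=
    condExp_mul_of_aestronglyMeasurable_right hgm.aestronglyMeasurable hfg
      (hf.integrable (by norm_num))
  have h3 : ∫ ω, (P[f * g | m]) ω ∂P = 0 := by
    rw [integral_congr_ae h2]
    have : P[f | m] * g =ᵐ[P] 0 := by
      filter_upwards [hz] with ω h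
      simp [h]
    rw [integral_congr_ae this]
    simp
  have : ∫ ω, f ω * g ω ∂P = ∫ ω, (f * g) ω ∂P := rfl
  rw [this, ← h1, h3]

/-- Pythagoras on a set `B ∈ m`. -/
theorem pyth (hm : m ≤ m0) {B : Set Ω} (hB : MeasurableSet[m] B)
    {a c : Ω → ℝ} (ha : MemLp a 2 P) (hc : MemLp c 2 P) (hcm : StronglyMeasurable[m] c)
    (hz : P[a | m] =ᵐ[P] 0) :
    ∫ ω in B, (a ω + c ω) ^ 2 ∂P = ∫ ω in B, (a ω) ^ 2 ∂P + ∫ ω in B, (c ω) ^ 2 ∂P := by
  have hB0 : MeasurableSet B := hm B hB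
  have hcross : ∫ ω in B, a ω * c ω ∂P = 0 := by
    rw [← integral_indicator hB0]
    have e : B.indicator (fun ω => a ω * c ω) = fun ω => a ω * (B.indicator c) ω := by
      funext ω
      by_cases h : ω ∈ B <;> simp [h]
    rw [e]
    exact orth hm ha (hc.indicator hB0) (hcm.indicator hB) hz
  have i1 : Integrable (fun ω => (a ω) ^ 2) P := ha.integrable_sq
  have i2 : Integrable (fun ω => (c ω) ^ 2) P := hc.integrable_sq
  have i3 : Integrable (fun ω => a ω * c ω) P := ha.integrable_mul hc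
  have e : ∀ ω, (a ω + c ω) ^ 2 = (a ω) ^ 2 + (c ω) ^ 2 + 2 * (a ω * c ω) := fun ω => by ring
  have j12 : Integrable (fun ω => (a ω) ^ 2 + (c ω) ^ 2) (P.restrict B) :=
    i1.integrableOn.add i2.integrableOn
  have j3 : Integrable (fun ω => 2 * (a ω * c ω)) (P.restrict B) := i3.integrableOn.const_mul 2
  simp_rw [e]
  rw [integral_add j12 j3, integral_add i1.integrableOn i2.integrableOn, integral_const_mul,
    hcross]
  ring

/-- projection on a larger sigma-algebra `K` decreases: `∫_B (N - N_K)^2 ≤ ∫_B Δ^2` whenever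
`Δ - N` is `K`-measurable. -/
theorem proj_le (hm : m ≤ m0) {B : Set Ω} (hB : MeasurableSet[m] B)
    {N Δ : Ω → ℝ} (hN : MemLp N 2 P) (hΔ : MemLp Δ 2 P)
    (hd : StronglyMeasurable[m] (fun ω => Δ ω - N ω)) :
    ∫ ω in B, (N ω - (P[N | m]) ω) ^ 2 ∂P ≤ ∫ ω in B, (Δ ω) ^ 2 ∂P := by
  have hNK : MemLp (P[N | m]) 2 P := hN.condExp (by norm_num)
  have hNi : Integrable N P := hN.integrable (by norm_num)
  have hNKi : Integrable (P[N | m]) P := hNK.integrable (by norm_num)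
  have hA2 : MemLp (fun ω => N ω - (P[N | m]) ω) 2 P := hN.sub hNK
  have hC2 : MemLp (fun ω => (Δ ω - N ω) + (P[N | m]) ω) 2 P := (hΔ.sub hN).add hNK
  have hCm : StronglyMeasurable[m] (fun ω => (Δ ω - N ω) + (P[N | m]) ω) :=
    hd.add stronglyMeasurable_condExp
  have hAz : P[fun ω => N ω - (P[N | m]) ω | m] =ᵐ[P] 0 := by
    have e2 : P[N - P[N | m] | m] =ᵐ[P] P[N | m] - P[P[N | m] | m] := condExp_sub hNi hNKi _
    have e3 : P[P[N | m] | m] = P[N | m] :=
      condExp_of_stronglyMeasurable hm stronglyMeasurable_condExp hNKi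
    have e4 : (fun ω => N ω - (P[N | m]) ω) = N - P[N | m] := rfl
    rw [e4]
    filter_upwards [e2] with ω a1
    rw [a1, e3]
    simp
  have p2 := pyth hm hB hA2 hC2 hCm hAz
  have e6 : ∀ ω, (N ω - (P[N | m]) ω) + ((Δ ω - N ω) + (P[N | m]) ω) = Δ ω := fun ω => by ring
  simp_rw [e6] at p2
  have p3 : 0 ≤ ∫ ω in B, ((Δ ω - N ω) + (P[N | m]) ω) ^ 2 ∂P :=
    integral_nonneg fun ω => sq_nonneg _
  linarith

structure Setup (P : Measure Ω) (F G : ℕ → MeasurableSpace Ω) (h : ℕ) (x : Ω → ℝ) : Prop where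
  monoF : Monotone F
  monoG : Monotone G
  le : ∀ j, F j ≤ G j
  leG : ∀ j, G j ≤ m0
  fresh : ∀ j, ∀ Z : Ω → ℝ, StronglyMeasurable[F (j + 1)] Z → MemLp Z 2 P →
    P[Z | G j] =ᵐ[P] P[Z | F j]
  L2 : MemLp x 2 P
  meas : StronglyMeasurable[G h] x

variable {F G : ℕ → MeasurableSpace Ω} {h : ℕ} {x : Ω → ℝ}

/-- difference `N_j - M_j` -/
noncomputable def D (P : Measure Ω) (F G : ℕ → MeasurableSpace Ω) (x : Ω → ℝ) (j : ℕ) : Ω → ℝ :=
  fun ω => (P[x | G j]) ω - (P[x | F j]) ω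

omit [IsProbabilityMeasure P] in
theorem memLp_condExp (m : MeasurableSpace Ω) {f : Ω → ℝ} (hf : MemLp f 2 P) :
    MemLp (P[f | m]) 2 P := hf.condExp (by norm_num)

theorem step (S : Setup P F G h x) {B : Set Ω} (hB : MeasurableSet[F 0] B) (j : ℕ) :
    ∫ ω in B, (D P F G x (j + 1) ω) ^ 2 ∂P ≥ ∫ ω in B, (D P F G x j ω) ^ 2 ∂P +
      ∫ ω in B, ((P[x | G (j + 1)]) ω -
        (P[P[x | G (j + 1)] | G j ⊔ F (j + 1)]) ω) ^ 2 ∂P := by
  have hF0 : ∀ j, F j ≤ m0 := fun j => (S.le j).trans (S.leG j)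
  have hN : ∀ j, MemLp (P[x | G j]) 2 P := fun j => memLp_condExp (G j) S.L2
  have hM : ∀ j, MemLp (P[x | F j]) 2 P := fun j => memLp_condExp (F j) S.L2
  have hx1 : Integrable x P := S.L2.integrable (by norm_num)
  have hNi := fun j => (hN j).integrable (show (1 : ENNReal) ≤ 2 by norm_num)
  have hMi := fun j => (hM j).integrable (show (1 : ENNReal) ≤ 2 by norm_num)
  have hsN : ∀ j, StronglyMeasurable[G j] (P[x | G j]) := fun j => stronglyMeasurable_condExp
  have hsM : ∀ j, StronglyMeasurable[F j] (P[x | F j]) := fun j => stronglyMeasurable_condExp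
  have hBG : ∀ j, MeasurableSet[G j] B := fun j => (S.monoG (Nat.zero_le j)) B ((S.le 0) B hB)
  -- conditional expectations
  have hN1 : P[P[x | G (j + 1)] | G j] =ᵐ[P] P[x | G j] :=
    condExp_condExp_of_le (S.monoG (Nat.le_succ j)) (S.leG (j + 1))
  have hM1 : P[P[x | F (j + 1)] | G j] =ᵐ[P] P[x | F j] :=
    (S.fresh j _ (hsM (j + 1)) (hM (j + 1))).trans
      (condExp_condExp_of_le (S.monoF (Nat.le_succ j)) (hF0 (j + 1)))
  -- increment
  set Δ : Ω → ℝ := fun ω => D P F G x (j + 1) ω - D P F G x j ω with hΔ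
  have hD : ∀ j, MemLp (D P F G x j) 2 P := fun j => (hN j).sub (hM j)
  have hΔ2 : MemLp Δ 2 P := (hD (j + 1)).sub (hD j)
  have hDm : StronglyMeasurable[G j] (D P F G x j) := (hsN j).sub ((hsM j).mono (S.le j))
  have hΔz : P[Δ | G j] =ᵐ[P] 0 := by
    have e1 : Δ = (P[x | G (j + 1)] - P[x | F (j + 1)]) - D P F G x j := rfl
    have e2 : P[Δ | G j] =ᵐ[P] P[P[x | G (j + 1)] - P[x | F (j + 1)] | G j] -
        P[D P F G x j | G j] := by
      rw [e1]
      exact condExp_sub ((hNi (j + 1)).sub (hMi (j + 1)))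
        ((hD j).integrable (by norm_num)) _
    have e3 : P[P[x | G (j + 1)] - P[x | F (j + 1)] | G j] =ᵐ[P]
        P[P[x | G (j + 1)] | G j] - P[P[x | F (j + 1)] | G j] :=
      condExp_sub (hNi (j + 1)) (hMi (j + 1)) _
    have e4 : P[D P F G x j | G j] = D P F G x j :=
      condExp_of_stronglyMeasurable (S.leG j) hDm ((hD j).integrable (by norm_num))
    filter_upwards [e2, e3, hN1, hM1] with ω a1 a2 a3 a4
    rw [a1, Pi.sub_apply, a2, Pi.sub_apply, a3, a4, e4]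
    simp [D]
  have p1 := pyth (S.leG j) (hBG j) hΔ2 (hD j) hDm hΔz
  have e5 : ∀ ω, Δ ω + D P F G x j ω = D P F G x (j + 1) ω := fun ω => by simp [hΔ]
  simp_rw [e5] at p1
  -- lower bound of the increment
  have hKm : G j ⊔ F (j + 1) ≤ m0 := sup_le (S.leG j) (hF0 (j + 1))
  have hd : StronglyMeasurable[G j ⊔ F (j + 1)] (fun ω => Δ ω - (P[x | G (j + 1)]) ω) := by
    have e : (fun ω => Δ ω - (P[x | G (j + 1)]) ω) =
        fun ω => -(P[x | F (j + 1)]) ω - D P F G x j ω := by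
      funext ω; simp only [hΔ, D]; ring
    rw [e]
    exact (((hsM (j + 1)).mono le_sup_right).neg).sub (hDm.mono le_sup_left)
  have p2 := proj_le hKm ((le_sup_left : G j ≤ G j ⊔ F (j + 1)) B (hBG j)) (hN (j + 1)) hΔ2 hd
  linarith

/-- helper786's (VAR), conditionally on any past `B ∈ F 0`. -/
theorem var_ge (S : Setup P F G h x) {B : Set Ω} (hB : MeasurableSet[F 0] B) :
    ∑ j ∈ Finset.range h, ∫ ω in B, ((P[x | G (j + 1)]) ω -
        (P[P[x | G (j + 1)] | G j ⊔ F (j + 1)]) ω) ^ 2 ∂P ≤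
      ∫ ω in B, (x ω - (P[x | F h]) ω) ^ 2 ∂P := by
  have key : ∀ n, ∑ j ∈ Finset.range n, ∫ ω in B, ((P[x | G (j + 1)]) ω -
        (P[P[x | G (j + 1)] | G j ⊔ F (j + 1)]) ω) ^ 2 ∂P ≤
      ∫ ω in B, (D P F G x n ω) ^ 2 ∂P := by
    intro n
    induction n with
    | zero => simpa using integral_nonneg (μ := P.restrict B) fun ω => sq_nonneg (D P F G x 0 ω)
    | succ n ih =>
      rw [Finset.sum_range_succ]
      have := step S hB n
      linarith
  have h1 : P[x | G h] = x :=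
    condExp_of_stronglyMeasurable (S.leG h) S.meas (S.L2.integrable (by norm_num))
  have := key h
  simpa [D, h1] using this

/-- two points charged with probability `≥ p`: the second moment around any `c`. -/
theorem two_point {p a b c : ℝ} (hp : 0 ≤ p) : p * (a - b) ^ 2 / 2 ≤
    p * (a - c) ^ 2 + p * (b - c) ^ 2 := by
  nlinarith [mul_nonneg hp (sq_nonneg (a + b - 2 * c))]

/-- A random variable which is near `a` with probability `≥ p` and equal `b` with
probability `≥ p` has variance `≥ p (a-b)^2/2` (discrete or not). -/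
theorem var_two_point {μ : Measure Ω} [IsProbabilityMeasure μ] {X : Ω → ℝ} (hX : MemLp X 2 μ)
    {a b p : ℝ} (hp : 0 ≤ p) (hab : a ≠ b) (ha : p ≤ μ.real {ω | X ω = a})
    (hb : p ≤ μ.real {ω | X ω = b}) (c : ℝ) :
    p * (a - b) ^ 2 / 2 ≤ ∫ ω, (X ω - c) ^ 2 ∂μ := by
  have hXc : MemLp (fun ω => X ω - c) 2 μ := hX.sub (memLp_const c)
  have hint : Integrable (fun ω => (X ω - c) ^ 2) μ := hXc.integrable_sq
  obtain ⟨Y, hYm, hXY⟩ := hX.1
  have hms : ∀ t : ℝ, MeasurableSet {ω | Y ω = t} := fun t =>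
    hYm.measurable (measurableSet_singleton t)
  have hreal : ∀ t : ℝ, μ.real {ω | X ω = t} = μ.real {ω | Y ω = t} := by
    intro t
    refine measureReal_congr ?_
    filter_upwards [hXY] with ω hω
    exact propext (by show X ω = t ↔ Y ω = t; rw [hω])
  rw [hreal] at ha hb
  have hdis : Disjoint {ω | Y ω = a} {ω | Y ω = b} := by
    rw [Set.disjoint_left]
    intro ω h1 h2
    exact hab (h1.symm.trans h2)
  have e0 : ∫ ω, (X ω - c) ^ 2 ∂μ = ∫ ω, (Y ω - c) ^ 2 ∂μ := by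
    refine integral_congr_ae ?_
    filter_upwards [hXY] with ω hω
    rw [hω]
  have hintY : Integrable (fun ω => (Y ω - c) ^ 2) μ := by
    refine hint.congr ?_
    filter_upwards [hXY] with ω hω
    rw [hω]
  rw [e0]
  have e1 : ∫ ω in {ω | Y ω = a} ∪ {ω | Y ω = b}, (Y ω - c) ^ 2 ∂μ ≤
      ∫ ω, (Y ω - c) ^ 2 ∂μ := by
    exact setIntegral_le_integral hintY (ae_of_all _ fun ω => sq_nonneg _)
  have e2 : ∫ ω in {ω | Y ω = a} ∪ {ω | Y ω = b}, (Y ω - c) ^ 2 ∂μ =
      ∫ ω in {ω | Y ω = a}, (Y ω - c) ^ 2 ∂μ + ∫ ω in {ω | Y ω = b}, (Y ω - c) ^ 2 ∂μ :=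
    setIntegral_union hdis (hms b) hintY.integrableOn hintY.integrableOn
  have e3 : ∀ t : ℝ, ∫ ω in {ω | Y ω = t}, (Y ω - c) ^ 2 ∂μ =
      μ.real {ω | Y ω = t} * (t - c) ^ 2 := by
    intro t
    have : ∫ ω in {ω | Y ω = t}, (Y ω - c) ^ 2 ∂μ = ∫ ω in {ω | Y ω = t}, (t - c) ^ 2 ∂μ :=
      setIntegral_congr_fun (hms t) fun ω hω => by
        have hω' : Y ω = t := hω
        simp only [hω']
    rw [this, setIntegral_const, smul_eq_mul]
  rw [e2, e3, e3] at e1
  have := two_point (a := a) (b := b) (c := c) hp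
  nlinarith [mul_le_mul_of_nonneg_right ha (sq_nonneg (a - c)),
    mul_le_mul_of_nonneg_right hb (sq_nonneg (b - c))]

end Crest.Agent.R154.D2Var
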