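import Crest.Agent.R154.D2V_36
import Crest.Agent.R154.Loc_561
import Crest.Agent.R154.Flux1_132

/-!
# Row 154, `d = 2`, D2.9-END, part A (helper36): path level facts about first visits of levels
-/

set_option autoImplicit false
set_option linter.unusedVariables false
set_option linter.unusedSectionVars false

namespace Crest.Agent.R154.D2V36

open MeasureTheory ProbabilityTheory Crest.ProbabilityR.RandomEnvironment Crest.Agent.R154
open Crest.Agent.R154.Flux132 (lev)
open Crest.Agent.R154.ExK9 Crest.Agent.R154.Resamp9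
open Crest.Agent.R154.River916 (Ev)
open Crest.Agent.R154.P2916 (sl)
open scoped ENNReal

/-! ### exits -/

section gen
variable {d : ℕ}

lemma measurable_exP (A : Set (Site d)) : Measurable fun X : Path d => X (exT A X).toNat := by
  have h1 : Measurable fun X : Path d => (exT A X).toNat :=
    (measurable_of_countable ENat.toNat).comp (isStop_exT A).measurable
  have h2 : Measurable fun p : Path d × ℕ => p.1 p.2 :=
    measurable_from_prod_countable_left fun n => measurable_pi_apply n
  exact h2.comp (measurable_id.prodMk h1)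

lemma measurable_exSh (A : Set (Site d)) : Measurable fun X : Path d => shift (exT A X).toNat X := by
  refine measurable_pi_iff.2 fun i => ?_
  have h1 : Measurable fun X : Path d => (exT A X).toNat :=
    (measurable_of_countable ENat.toNat).comp (isStop_exT A).measurable
  have h2 : Measurable fun p : Path d × ℕ => p.1 (p.2 + i) :=
    measurable_from_prod_countable_left fun n => measurable_pi_apply (n + i)
  exact h2.comp (measurable_id.prodMk h1)

lemma measurableSet_fin (A : Set (Site d)) : MeasurableSet {X : Path d | exT A X ≠ ⊤} :=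
  (isStop_exT A).measurableSet_ne_top

/-- exit law -/
lemma lint_exit (ω : Environment d) (A : Set (Site d)) (x : Site d) (G : Site d → ℝ≥0∞) :
    ∫⁻ X in {X | exT A X ≠ ⊤}, G (X (exT A X).toNat) ∂quenchedLaw ω x =
      ∑' z, EK ω A x z * G z := by
  have e : {X : Path d | exT A X ≠ ⊤} = ⋃ z, ExS A z := by
    ext X
    simp only [Set.mem_ofPred_eq, Set.mem_iUnion]
    exact ⟨fun h => ⟨_, mem_ExS_iff.2 ⟨h, rfl⟩⟩, fun ⟨z, hz⟩ => (mem_ExS_iff.1 hz).1⟩
  rw [e, lintegral_iUnion (fun z => measurableSet_ExS A z) (ExS_disjoint A)]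
  refine tsum_congr fun z => ?_
  rw [setLIntegral_congr_fun (g := fun _ => G z) (measurableSet_ExS A z), setLIntegral_const,
    mul_comm]
  · rfl
  · intro X hX
    show G (X (exT A X).toNat) = G z
    rw [(mem_ExS_iff.1 hX).2]

/-- strong Markov property at the exit of `A`, functional form -/
lemma lint_markov (ω : Environment d) (A : Set (Site d)) (x : Site d) {Φ : Path d → ℝ≥0∞}
    (hΦ : Measurable Φ) :
    ∫⁻ X in {X | exT A X ≠ ⊤}, Φ (shift (exT A X).toNat X) ∂quenchedLaw ω x =
      ∑' z, EK ω A x z * ∫⁻ X, Φ X ∂quenchedLaw ω z := by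
  rw [strong_markov ω x (isStop_exT A) (F := fun _ Y => Φ Y) (fun _ _ _ _ _ => rfl) fun _ => hΦ]
  exact lint_exit ω A x fun z => ∫⁻ Y, Φ Y ∂quenchedLaw ω z

/-- the annealed law from `y` is the translated annealed law -/
lemma annealed_tr {Q : Measure (Environment d)} [IsProbabilityMeasure Q]
    (hQ : ∀ z : Site d, MeasurePreserving (shiftEnv z) Q Q) (y : Site d) :
    annealed Q y = (annealed Q 0).map (Q561.tr y) := by
  ext B hB
  rw [Measure.map_apply (Q561.measurable_tr y) hB, annealed_apply Q y hB,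
    annealed_apply Q 0 (Q561.measurable_tr y hB), Q561.annealed_eq_zero_shift hQ y hB]

lemma annealed_zero (Q : Measure (Environment d)) [IsProbabilityMeasure Q] (y : Site d) :
    ∀ᵐ X ∂annealed Q y, X 0 = y := by
  have hm : MeasurableSet {X : Path d | X 0 = y} :=
    measurableSet_eq_fun (measurable_pi_apply 0) measurable_const
  exact annealed_ae (A := {X | X 0 = y}) hm
    (Filter.Eventually.of_forall fun ω => quenched_zero_eq ω y)

lemma annealed_nn (Q : Measure (Environment d)) [IsProbabilityMeasure Q] (y : Site d) :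
    ∀ᵐ X ∂annealed Q y, ∀ n, ∃ e : Step d, X (n + 1) = X n + stepVec e := by
  have hm : MeasurableSet {X : Path d | ∀ n, ∃ e : Step d, X (n + 1) = X n + stepVec e} := by
    have : {X : Path d | ∀ n, ∃ e : Step d, X (n + 1) = X n + stepVec e} =
        ⋂ n, ⋃ e : Step d, {X : Path d | X (n + 1) = X n + stepVec e} := by
      ext X; simp
    rw [this]
    refine MeasurableSet.iInter fun n => MeasurableSet.iUnion fun e => ?_
    exact measurableSet_eq_fun (measurable_pi_apply _)
      ((measurable_pi_apply n).add_const _)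
  exact annealed_ae (A := {X | ∀ n, ∃ e : Step d, X (n + 1) = X n + stepVec e}) hm
    (Filter.Eventually.of_forall fun ω => quenched_nn ω y)

end gen

/-! ### levels -/

variable {u : Step 2} {i : Fin 2} {θ : ℝ}

lemma mem_Sb {l : ℕ} {y : Site 2} : y ∈ Sb u l ↔ lev u y < (l : ℤ) := Iff.rfl

lemma Sb_mono {l l' : ℕ} (h : l ≤ l') : Sb u l ⊆ Sb u l' := fun y hy => by
  have h1 : lev u y < (l : ℤ) := hy
  have h2 : (l : ℤ) ≤ l' := by exact_mod_cast h
  exact lt_of_lt_of_le h1 h2

lemma measurable_xT (l : ℕ) : Measurable (xT u l) := measurable_exP _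

lemma fin_mono {l l' : ℕ} (h : l ≤ l') {X : Path 2} (h2 : exT (Sb u l') X ≠ ⊤) :
    exT (Sb u l) X ≠ ⊤ :=
  ((mem_ExS_shift (Sb_mono h) (xT u l' X) X).1 (mem_ExS_iff.2 ⟨h2, rfl⟩)).1

/-- the first visit of a higher level is seen after the first visit of the lower one -/
lemma xT_shift {l l' : ℕ} (h : l ≤ l') {X : Path 2} (h2 : exT (Sb u l') X ≠ ⊤) :
    xT u l' (shift (exT (Sb u l) X).toNat X) = xT u l' X := by
  have h3 := ((mem_ExS_shift (Sb_mono h) (xT u l' X) X).1 (mem_ExS_iff.2 ⟨h2, rfl⟩)).2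
  exact (mem_ExS_iff.1 h3).2

lemma exT_zero {A : Set (Site 2)} {X : Path 2} (h : X 0 ∉ A) : exT A X = 0 := by
  have : exT A X = ((0 : ℕ) : ℕ∞) := exT_eq_iff.2 ⟨h, fun i hi => absurd hi (Nat.not_lt_zero i)⟩
  simpa using this

lemma xT_start {l : ℕ} {X : Path 2} (h : X 0 ∉ Sb u l) : xT u l X = X 0 := by
  unfold xT
  rw [exT_zero h]
  rfl

lemma sl_add (x y : Site 2) : sl u i θ (x + y) = sl u i θ x + sl u i θ y := by
  unfold sl
  rw [Flux132.lev_add]
  simp only [Pi.add_apply]
  push_cast
  ring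

lemma abs_lev_step (e : Step 2) : |(lev u (stepVec e) : ℝ)| ≤ 1 := by
  have h : |lev u (stepVec e)| ≤ 1 := by
    unfold lev
    rcases e with ⟨j, b⟩
    by_cases h : j = u.1
    · subst h
      simp only [stepVec, Pi.single_eq_same]
      cases b <;> cases u.2 <;> simp
    · have : stepVec ((j, b) : Step 2) u.1 = 0 := by
        simp only [stepVec]
        exact Pi.single_eq_of_ne (Ne.symm h) _
      rw [this]
      split_ifs <;> simp
  rw [← Int.cast_abs]
  exact_mod_cast h

lemma abs_coord_step (j : Fin 2) (e : Step 2) : |((stepVec e j : ℤ) : ℝ)| ≤ 1 := by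
  have h : |stepVec e j| ≤ 1 := by
    rcases e with ⟨k, b⟩
    by_cases h : j = k
    · subst h
      simp only [stepVec, Pi.single_eq_same]
      cases b <;> simp
    · have : stepVec ((k, b) : Step 2) j = 0 := by
        simp only [stepVec]
        exact Pi.single_eq_of_ne h _
      rw [this]
      simp
  rw [← Int.cast_abs]
  exact_mod_cast h

lemma abs_sl_step (e : Step 2) : |sl u i θ (stepVec e)| ≤ 1 + |θ| := by
  unfold sl
  calc |((stepVec e i : ℤ) : ℝ) - θ * (lev u (stepVec e) : ℝ)|
      ≤ |((stepVec e i : ℤ) : ℝ)| + |θ * (lev u (stepVec e) : ℝ)| := abs_sub _ _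
    _ ≤ 1 + |θ| * 1 := by
        rw [abs_mul]
        exact add_le_add (abs_coord_step i e)
          (mul_le_mul_of_nonneg_left (abs_lev_step e) (abs_nonneg θ))
    _ = 1 + |θ| := by ring

/-- bad event of the slab started at the current site -/
def BadC (u : Step 2) (i : Fin 2) (θ : ℝ) (l g h : ℕ) (r : ℝ) : Set (Path 2) :=
  {X | X ∉ Ev (Col u i θ l g h r (X 0)) (Lvl u (l + g))}

lemma measurableSet_BadC (l g h : ℕ) (r : ℝ) : MeasurableSet (BadC u i θ l g h r) := by
  have : BadC u i θ l g h r = ⋃ y : Site 2, ({X | X 0 = y} ∩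
      (Ev (Col u i θ l g h r y) (Lvl u (l + g)))ᶜ) := by
    ext X
    simp only [BadC, Set.mem_iUnion, Set.mem_inter_iff, Set.mem_ofPred_eq, Set.mem_compl_iff]
    constructor
    · exact fun hX => ⟨X 0, rfl, hX⟩
    · rintro ⟨y, rfl, hX⟩; exact hX
  rw [this]
  exact MeasurableSet.iUnion fun y =>
    (measurableSet_eq_fun (measurable_pi_apply 0) measurable_const).inter
      (River916.meas_Ev _ _).compl

lemma quenched_BadC (ω : Environment 2) (y : Site 2) (l g h : ℕ) (r : ℝ) :
    quenchedLaw ω y (BadC u i θ l g h r) =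
      quenchedLaw ω y (Ev (Col u i θ l g h r y) (Lvl u (l + g)))ᶜ := by
  refine measure_congr ?_
  filter_upwards [quenched_zero_eq ω y] with X hX
  apply propext
  show X ∉ Ev (Col u i θ l g h r (X 0)) (Lvl u (l + g)) ↔ X ∉ Ev (Col u i θ l g h r y) (Lvl u (l + g))
  rw [hX]

/-- the slab integral of `SlabP` -/
noncomputable def pb (u : Step 2) (i : Fin 2) (θ : ℝ) (Q : Measure (Environment 2))
    (l g h : ℕ) (r : ℝ) : ℝ≥0∞ :=
  ∫⁻ ω, ∑' y : Site 2, EK ω (Sb u l) 0 y *
    quenchedLaw ω y (Ev (Col u i θ l g h r y) (Lvl u (l + g)))ᶜ ∂Q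

lemma pb_eq (Q : Measure (Environment 2)) [IsProbabilityMeasure Q] (l g h : ℕ) (r : ℝ) :
    annealed Q 0 {X | exT (Sb u l) X ≠ ⊤ ∧
      shift (exT (Sb u l) X).toNat X ∈ BadC u i θ l g h r} = pb u i θ Q l g h r := by
  have hm : MeasurableSet {X : Path 2 | exT (Sb u l) X ≠ ⊤ ∧
      shift (exT (Sb u l) X).toNat X ∈ BadC u i θ l g h r} := by
    have h1 := measurable_exSh (Sb u l) (measurableSet_BadC (u := u) (i := i) (θ := θ) l g h r)
    exact MeasurableSet.inter (measurableSet_fin (Sb u l)) h1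
  rw [annealed_apply Q 0 hm]
  unfold annealedProb pb
  refine lintegral_congr fun ω => ?_
  rw [exit_markov ω (Sb u l) 0 (measurableSet_BadC l g h r)]
  exact tsum_congr fun y => by rw [quenched_BadC]

/-- deterministic: a path which leaves its column through the top moves little -/
lemma sl_of_Ev {l g h : ℕ} {r : ℝ} (hr : 0 ≤ r) {X : Path 2}
    (hnn : ∀ n, ∃ e : Step 2, X (n + 1) = X n + stepVec e)
    (hX : X ∈ Ev (Col u i θ l g h r (X 0)) (Lvl u (l + g))) :
    |sl u i θ (xT u (l + g) X) - sl u i θ (X 0)| ≤ r + (1 + |θ|) := by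
  obtain ⟨n, hn, hi⟩ := hX
  have h1 : exT (Sb u (l + g)) X = n := by
    refine exT_eq_iff.2 ⟨?_, fun j hj => ?_⟩
    · intro hc
      have a1 : lev u (X n) = ((l + g : ℕ) : ℤ) := hn
      have a2 : lev u (X n) < ((l + g : ℕ) : ℤ) := hc
      omega
    · have a1 := (hi j hj).2.1
      show lev u (X j) < ((l + g : ℕ) : ℤ)
      push_cast
      exact a1
  have h2 : xT u (l + g) X = X n := by
    unfold xT
    rw [h1, ENat.toNat_natCast]
  rw [h2]
  have hθ := abs_nonneg θ
  cases n with
  | zero => rw [sub_self, abs_zero]; linarith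
  | succ n =>
    obtain ⟨e, he⟩ := hnn n
    have a1 := (hi n (Nat.lt_succ_self n)).2.2
    rw [he, sl_add]
    have a2 := abs_sl_step (u := u) (i := i) (θ := θ) e
    have : sl u i θ (X n) + sl u i θ (stepVec e) - sl u i θ (X 0) =
        (sl u i θ (X n) - sl u i θ (X 0)) + sl u i θ (stepVec e) := by ring
    rw [this]
    exact (abs_add_le _ _).trans (add_le_add a1 a2)

variable {ν : Measure (Row 2)} [IsProbabilityMeasure ν]

lemma annealed_hit (hH : HitP u ν) (y : Site 2) :
    ∀ᵐ X ∂annealed (iidEnvironmentLaw ν) y, ∀ l : ℕ, exT (Sb u l) X ≠ ⊤ := by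
  rw [ae_all_iff]
  intro l
  refine annealed_ae (A := {X | exT (Sb u l) X ≠ ⊤}) (measurableSet_fin _) ?_
  filter_upwards [hH] with ω hω
  rw [ae_iff]
  have h := hω l y
  convert h using 2
  ext X
  simp

/-- **displacement between two levels** -/
theorem disp (hH : HitP u ν) (l g h : ℕ) {r : ℝ} (hr : 0 ≤ r) :
    annealed (iidEnvironmentLaw ν) 0
      {X | r + (1 + |θ|) < |sl u i θ (xT u (l + g) X) - sl u i θ (xT u l X)|} ≤
      pb u i θ (iidEnvironmentLaw ν) l g h r := by
  rw [← pb_eq]
  refine measure_mono_ae ?_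
  filter_upwards [annealed_hit hH 0, annealed_nn (iidEnvironmentLaw ν) 0] with X hX hnn
  intro hlt
  refine ⟨hX l, ?_⟩
  intro hE
  have hnn' : ∀ n, ∃ e : Step 2, shift (exT (Sb u l) X).toNat X (n + 1) =
      shift (exT (Sb u l) X).toNat X n + stepVec e := fun n => hnn _
  have h1 := sl_of_Ev hr hnn' hE
  rw [xT_shift (Nat.le_add_right l g) (hX (l + g))] at h1
  have h2 : shift (exT (Sb u l) X).toNat X 0 = xT u l X := rfl
  rw [h2] at h1
  exact absurd hlt (not_lt.2 h1)

end Crest.Agent.R154.D2V36
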