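import Crest.Agent.R154.D2WA_36

/-!
# Row 154, `d = 2`, D2.9-END, part B (helper36): products of functions of first visits, comparison
-/

set_option autoImplicit false
set_option linter.unusedVariables false
set_option linter.unusedSectionVars false

namespace Crest.Agent.R154.D2V36

open MeasureTheory ProbabilityTheory Crest.ProbabilityR.RandomEnvironment Crest.Agent.R154
open Crest.Agent.R154.Flux132 (lev)
open Crest.Agent.R154.ExK9 Crest.Agent.R154.Resamp9
open Crest.Agent.R154.River916 (Ev)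
open Crest.Agent.R154.P2916 (sl)
open scoped ENNReal

/-! ### products of numbers of `[0,1]` -/

lemma prod_mem {ι : Type*} (s : Finset ι) {a : ι → ℝ} (ha : ∀ j, 0 ≤ a j ∧ a j ≤ 1) :
    0 ≤ ∏ j ∈ s, a j ∧ ∏ j ∈ s, a j ≤ 1 :=
  ⟨Finset.prod_nonneg fun j _ => (ha j).1, Finset.prod_le_one (fun j _ => (ha j).1) fun j _ => (ha j).2⟩

lemma abs_prod_sub_le {ι : Type*} (s : Finset ι) {a b : ι → ℝ} (ha : ∀ j, 0 ≤ a j ∧ a j ≤ 1)
    (hb : ∀ j, 0 ≤ b j ∧ b j ≤ 1) : |∏ j ∈ s, a j - ∏ j ∈ s, b j| ≤ ∑ j ∈ s, |a j - b j| := by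
  classical
  induction s using Finset.induction_on with
  | empty => simp
  | insert x s hx ih =>
    rw [Finset.prod_insert hx, Finset.prod_insert hx, Finset.sum_insert hx]
    have e : a x * ∏ j ∈ s, a j - b x * ∏ j ∈ s, b j =
        (a x - b x) * ∏ j ∈ s, a j + b x * (∏ j ∈ s, a j - ∏ j ∈ s, b j) := by ring
    rw [e]
    refine (abs_add_le _ _).trans ?_
    rw [abs_mul, abs_mul]
    have h1 := prod_mem s ha
    have h2 : |∏ j ∈ s, a j| ≤ 1 := abs_le.2 ⟨by linarith [h1.1], h1.2⟩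
    have h3 : |b x| ≤ 1 := abs_le.2 ⟨by linarith [(hb x).1], (hb x).2⟩
    have h4 : |a x - b x| * |∏ j ∈ s, a j| ≤ |a x - b x| * 1 :=
      mul_le_mul_of_nonneg_left h2 (abs_nonneg _)
    have h5 : |b x| * |∏ j ∈ s, a j - ∏ j ∈ s, b j| ≤ 1 * |∏ j ∈ s, a j - ∏ j ∈ s, b j| :=
      mul_le_mul_of_nonneg_right h3 (abs_nonneg _)
    linarith

section cmp
variable {Ω : Type*} [MeasurableSpace Ω] {P : Measure Ω} [IsProbabilityMeasure P]

lemma integrable_unit {f : Ω → ℝ} (hf : Measurable f) (h : ∀ ω, 0 ≤ f ω ∧ f ω ≤ 1) :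
    Integrable f P :=
  Integrable.of_bound hf.aestronglyMeasurable 1 (Filter.Eventually.of_forall fun ω => by
    rw [Real.norm_eq_abs, abs_le]; exact ⟨by linarith [(h ω).1], (h ω).2⟩)

/-- products, in mean -/
lemma cmp_prod {m : ℕ} {a b : Fin m → Ω → ℝ} (ham : ∀ j, Measurable (a j))
    (hbm : ∀ j, Measurable (b j)) (ha : ∀ j ω, 0 ≤ a j ω ∧ a j ω ≤ 1)
    (hb : ∀ j ω, 0 ≤ b j ω ∧ b j ω ≤ 1) {β : ℝ} (hβ : ∀ j, ∫ ω, |a j ω - b j ω| ∂P ≤ β) :
    ∫ ω, |∏ j, a j ω - ∏ j, b j ω| ∂P ≤ m * β := by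
  have i1 : ∀ j, Integrable (fun ω => |a j ω - b j ω|) P := fun j =>
    ((integrable_unit (ham j) (ha j)).sub (integrable_unit (hbm j) (hb j))).abs
  calc ∫ ω, |∏ j, a j ω - ∏ j, b j ω| ∂P
      ≤ ∫ ω, ∑ j, |a j ω - b j ω| ∂P := by
        refine integral_mono_of_nonneg (Filter.Eventually.of_forall fun ω => abs_nonneg _)
          (integrable_finset_sum _ fun j _ => i1 j) (Filter.Eventually.of_forall fun ω => ?_)
        exact abs_prod_sub_le _ (fun j => ha j ω) fun j => hb j ω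
    _ = ∑ j, ∫ ω, |a j ω - b j ω| ∂P := integral_finset_sum _ fun j _ => i1 j
    _ ≤ ∑ _j : Fin m, β := Finset.sum_le_sum fun j _ => hβ j
    _ = m * β := by rw [Finset.sum_const, Finset.card_univ, Fintype.card_fin, nsmul_eq_mul]

/-- truncation at a rare event -/
lemma cmp_rare {f : Ω → ℝ} (hf : Measurable f) (hf1 : ∀ ω, 0 ≤ f ω ∧ f ω ≤ 1) {B : Set Ω}
    (hB : MeasurableSet B) {c δ : ℝ} (hc : ∀ᵐ ω ∂P, ω ∉ B → f ω ≤ c) (hc0 : 0 ≤ c)
    (hδ : P.real B ≤ δ) : ∫ ω, f ω ∂P ≤ c + δ := by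
  have i2 : Integrable (fun ω => c + B.indicator (fun _ => (1 : ℝ)) ω) P :=
    (integrable_const c).add ((integrable_const (1 : ℝ)).indicator hB)
  calc ∫ ω, f ω ∂P ≤ ∫ ω, (c + B.indicator (fun _ => (1 : ℝ)) ω) ∂P := by
        refine integral_mono_ae (integrable_unit hf hf1) i2 ?_
        filter_upwards [hc] with ω hω
        by_cases hωB : ω ∈ B
        · show f ω ≤ c + B.indicator (fun _ => (1 : ℝ)) ω
          rw [Set.indicator_of_mem hωB]
          linarith [(hf1 ω).2]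
        · show f ω ≤ c + B.indicator (fun _ => (1 : ℝ)) ω
          rw [Set.indicator_of_notMem hωB, add_zero]
          exact hω hωB
    _ = c + P.real B := by
        rw [integral_add (integrable_const c) ((integrable_const (1 : ℝ)).indicator hB),
          integral_const, integral_indicator hB]
        simp
    _ ≤ c + δ := by linarith

end cmp

/-! ### displacement in mean -/

variable {u : Step 2} {i : Fin 2} {θ : ℝ} {ν : Measure (Row 2)} [IsProbabilityMeasure ν]

lemma measurable_sl_xT (l : ℕ) : Measurable fun X : Path 2 => sl u i θ (xT u l X) :=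
  (measurable_of_countable (sl u i θ)).comp (measurable_xT l)

lemma pb_le_one (l g h : ℕ) (r : ℝ) : pb u i θ (iidEnvironmentLaw ν) l g h r ≤ 1 := by
  rw [← pb_eq]
  exact prob_le_one

/-- two functions of the positions at levels `t`, `t + g` -/
theorem disp_mean (hH : HitP u ν) {t g h : ℕ} {r w c δ : ℝ} (hr : 0 ≤ r) (hw : 0 < w)
    (hc : 0 ≤ c) (hδ : pb u i θ (iidEnvironmentLaw ν) t g h r ≤ ENNReal.ofReal δ) (hδ0 : 0 ≤ δ)
    {f₁ f₂ : Path 2 → ℝ} (h1 : Measurable f₁) (h2 : Measurable f₂)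
    (h1b : ∀ X, 0 ≤ f₁ X ∧ f₁ X ≤ 1) (h2b : ∀ X, 0 ≤ f₂ X ∧ f₂ X ≤ 1)
    (hf : ∀ᵐ X ∂annealed (iidEnvironmentLaw ν) 0, |f₁ X - f₂ X| ≤
      (c + |sl u i θ (xT u (t + g) X) - sl u i θ (xT u t X)|) / w) :
    ∫ X, |f₁ X - f₂ X| ∂annealed (iidEnvironmentLaw ν) 0 ≤ (c + (r + (1 + |θ|))) / w + δ := by
  have hθ := abs_nonneg θ
  refine cmp_rare (B := {X | r + (1 + |θ|) < |sl u i θ (xT u (t + g) X) - sl u i θ (xT u t X)|})
    (h1.sub h2).abs (fun X => ⟨abs_nonneg _, ?_⟩) ?_ ?_ (by positivity) ?_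
  · have a1 := h1b X
    have a2 := h2b X
    show |f₁ X - f₂ X| ≤ 1
    rw [abs_le]
    constructor <;> linarith [a1.1, a1.2, a2.1, a2.2]
  · exact measurableSet_lt measurable_const ((measurable_sl_xT (t + g)).sub (measurable_sl_xT t)).abs
  · filter_upwards [hf] with X hX hXB
    have hX' : ¬ r + (1 + |θ|) < |sl u i θ (xT u (t + g) X) - sl u i θ (xT u t X)| := hXB
    refine hX.trans ?_
    gcongr
    exact not_lt.1 hX'
  · have h3 := (disp hH t g h hr).trans hδ
    rw [measureReal_def]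
    exact ENNReal.toReal_le_of_le_ofReal hδ0 h3

/-! ### the products along a grid -/

/-- translated path -/
lemma xT_tr {l L : ℕ} (hl : l ≤ L) {y : Site 2} (hy : lev u y = l) (X : Path 2) :
    xT u L (Q561.tr y X) = xT u (L - l) X + y := by
  have h1 : exT (Sb u L) (Q561.tr y X) = exT (Sb u (L - l)) X := by
    have hmem : ∀ n, (Q561.tr y X n ∈ Sb u L ↔ X n ∈ Sb u (L - l)) := by
      intro n
      show lev u (X n + y) < (L : ℤ) ↔ lev u (X n) < ((L - l : ℕ) : ℤ)
      rw [Flux132.lev_add, hy, Nat.cast_sub hl]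
      constructor <;> intro h <;> linarith
    by_cases htop : exT (Sb u (L - l)) X = ⊤
    · rw [htop, exT_eq_top_iff]
      intro n
      exact (hmem n).2 (exT_eq_top_iff.1 htop n)
    · obtain ⟨n, hn⟩ := ENat.ne_top_iff_exists.1 htop
      rw [← hn]
      have h2 := exT_eq_iff.1 hn.symm
      exact exT_eq_iff.2 ⟨fun h => h2.1 ((hmem n).1 h), fun j hj => (hmem j).2 (h2.2 j hj)⟩
  unfold xT
  rw [h1]
  rfl

section grid

variable {m : ℕ} (lvl : ℕ → ℕ) (kk : Fin m → ℕ) (χ : Fin m → Site 2 → ℝ)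

/-- product of the `χ j` at the first visits of the levels `lvl (kk j)`, over the `j` with `k < kk j` -/
noncomputable def Ph (u : Step 2) (k : ℕ) (X : Path 2) : ℝ :=
  ∏ j, if k < kk j then χ j (xT u (lvl (kk j)) X) else 1

/-- weight at the grid index `k` -/
noncomputable def Wt (k : ℕ) (z : Site 2) : ℝ := ∏ j, if kk j = k then χ j z else 1

/-- quenched expectation -/
noncomputable def Fk (u : Step 2) (k : ℕ) (ω : Environment 2) (y : Site 2) : ℝ≥0∞ :=
  ∫⁻ X, ENNReal.ofReal (Ph lvl kk χ u k X) ∂quenchedLaw ω y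

/-- annealed expectation -/
noncomputable def vk (u : Step 2) (ν : Measure (Row 2)) (k : ℕ) (y : Site 2) : ℝ :=
  ∫ X, Ph lvl kk χ u k X ∂annealed (iidEnvironmentLaw ν) y

variable {lvl kk χ}

lemma measurable_Ph (k : ℕ) : Measurable (Ph lvl kk χ u k) := by
  refine Finset.measurable_prod _ fun j _ => ?_
  by_cases h : k < kk j
  · simp only [h, if_true]
    exact (measurable_of_countable _).comp (measurable_xT _)
  · simp only [h, if_false]
    exact measurable_const

lemma Ph_mem (hχ : ∀ j z, 0 ≤ χ j z ∧ χ j z ≤ 1) (k : ℕ) (X : Path 2) :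
    0 ≤ Ph lvl kk χ u k X ∧ Ph lvl kk χ u k X ≤ 1 := by
  refine prod_mem _ fun j => ?_
  split_ifs
  · exact hχ _ _
  · exact ⟨zero_le_one, le_rfl⟩

lemma Wt_mem (hχ : ∀ j z, 0 ≤ χ j z ∧ χ j z ≤ 1) (k : ℕ) (z : Site 2) :
    0 ≤ Wt kk χ k z ∧ Wt kk χ k z ≤ 1 := by
  refine prod_mem _ fun j => ?_
  split_ifs
  · exact hχ _ _
  · exact ⟨zero_le_one, le_rfl⟩

lemma vk_mem (hχ : ∀ j z, 0 ≤ χ j z ∧ χ j z ≤ 1) (k : ℕ) (y : Site 2) :
    0 ≤ vk lvl kk χ u ν k y ∧ vk lvl kk χ u ν k y ≤ 1 := by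
  unfold vk
  refine ⟨integral_nonneg fun X => (Ph_mem hχ k X).1, ?_⟩
  calc ∫ X, Ph lvl kk χ u k X ∂annealed (iidEnvironmentLaw ν) y
      ≤ ∫ _, (1 : ℝ) ∂annealed (iidEnvironmentLaw ν) y :=
        integral_mono (integrable_unit (measurable_Ph k) (Ph_mem hχ k)) (integrable_const _)
          fun X => (Ph_mem hχ k X).2
    _ = 1 := by simp

lemma Fk_le_one (hχ : ∀ j z, 0 ≤ χ j z ∧ χ j z ≤ 1) (k : ℕ) (ω : Environment 2) (y : Site 2) :
    Fk lvl kk χ u k ω y ≤ 1 := by
  unfold Fk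
  calc ∫⁻ X, ENNReal.ofReal (Ph lvl kk χ u k X) ∂quenchedLaw ω y
      ≤ ∫⁻ _, 1 ∂quenchedLaw ω y := lintegral_mono fun X => by
        have := ENNReal.ofReal_le_ofReal (Ph_mem (u := u) (lvl := lvl) (kk := kk) hχ k X).2
        rwa [ENNReal.ofReal_one] at this
    _ = 1 := by simp

lemma measurable_Fk (k : ℕ) (y : Site 2) : Measurable fun ω => Fk lvl kk χ u k ω y := by
  unfold Fk
  exact (Measure.measurable_lintegral (measurable_Ph k).ennreal_ofReal).comp
    (Q561.measurable_quenchedLaw y)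

/-- annealed expectation of the quenched one -/
lemma lint_Fk (hχ : ∀ j z, 0 ≤ χ j z ∧ χ j z ≤ 1) (k : ℕ) (y : Site 2) :
    ∫⁻ ω, Fk lvl kk χ u k ω y ∂(iidEnvironmentLaw ν) = ENNReal.ofReal (vk lvl kk χ u ν k y) := by
  unfold Fk vk
  rw [← lintegral_annealed (iidEnvironmentLaw ν) y (measurable_Ph k).ennreal_ofReal,
    ofReal_integral_eq_lintegral_ofReal (integrable_unit (measurable_Ph k) (Ph_mem hχ k))
      (Filter.Eventually.of_forall fun X => (Ph_mem hχ k X).1)]

/-- **(L)**: the annealed expectations are slowly varying -/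
theorem vk_lip (hH : HitP u ν) (hl : Monotone lvl) (hχ : ∀ j z, 0 ≤ χ j z ∧ χ j z ≤ 1)
    {w : ℝ} (hw : 0 < w) (hLip : ∀ j z z', |χ j z - χ j z'| ≤ |sl u i θ z - sl u i θ z'| / w)
    {h : ℕ} {r δ : ℝ} (hr : 0 ≤ r) (hδ0 : 0 ≤ δ) {k : ℕ}
    (hδ : ∀ t, pb u i θ (iidEnvironmentLaw ν) t (lvl (k + 1) - lvl k) h r ≤ ENNReal.ofReal δ)
    {y z : Site 2} (hy : lev u y = lvl k) (hz : lev u z = lvl (k + 1)) {ρ : ℝ}
    (hρ : |sl u i θ z - sl u i θ y| ≤ ρ) :
    |Wt kk χ (k + 1) z * vk lvl kk χ u ν (k + 1) z - vk lvl kk χ u ν k y| ≤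
      m * ((ρ + (r + (1 + |θ|))) / w + δ) := by
  have hst := Q561.iid_shift ν
  have hkk : lvl k ≤ lvl (k + 1) := hl (Nat.le_succ k)
  -- both sides as integrals under the law from `0`
  let a : Fin m → Path 2 → ℝ := fun j X =>
    if k < kk j then χ j (xT u (lvl (kk j) - lvl (k + 1)) X + z) else 1
  let b : Fin m → Path 2 → ℝ := fun j X =>
    if k < kk j then χ j (xT u (lvl (kk j) - lvl k) X + y) else 1
  have ham : ∀ j, Measurable (a j) := fun j => by
    by_cases h : k < kk j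
    · simp only [a, h, if_true]
      exact (measurable_of_countable fun x : Site 2 => χ j (x + z)).comp (measurable_xT _)
    · simp only [a, h, if_false]; exact measurable_const
  have hbm : ∀ j, Measurable (b j) := fun j => by
    by_cases h : k < kk j
    · simp only [b, h, if_true]
      exact (measurable_of_countable fun x : Site 2 => χ j (x + y)).comp (measurable_xT _)
    · simp only [b, h, if_false]; exact measurable_const
  have ha : ∀ j X, 0 ≤ a j X ∧ a j X ≤ 1 := fun j X => by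
    simp only [a]; split_ifs
    · exact hχ _ _
    · exact ⟨zero_le_one, le_rfl⟩
  have hb : ∀ j X, 0 ≤ b j X ∧ b j X ≤ 1 := fun j X => by
    simp only [b]; split_ifs
    · exact hχ _ _
    · exact ⟨zero_le_one, le_rfl⟩
  have ez : Wt kk χ (k + 1) z * vk lvl kk χ u ν (k + 1) z =
      ∫ X, ∏ j, a j X ∂annealed (iidEnvironmentLaw ν) 0 := by
    unfold vk
    rw [annealed_tr hst z, integral_map (Q561.measurable_tr z).aemeasurable
      (measurable_Ph (k + 1)).aestronglyMeasurable, ← integral_const_mul]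
    refine integral_congr_ae ?_
    filter_upwards [annealed_zero (iidEnvironmentLaw ν) 0] with X hX
    show Wt kk χ (k + 1) z * Ph lvl kk χ u (k + 1) (Q561.tr z X) = ∏ j, a j X
    unfold Wt Ph
    rw [← Finset.prod_mul_distrib]
    refine Finset.prod_congr rfl fun j _ => ?_
    simp only [a]
    rcases lt_trichotomy (kk j) (k + 1) with h1 | h1 | h1
    · rw [if_neg (by omega), if_neg (by omega), if_neg (by omega), one_mul]
    · rw [if_pos h1, if_neg (by omega), if_pos (by omega), mul_one, h1, Nat.sub_self]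
      have h2 : xT u 0 X = X 0 := xT_start (by
        rw [hX]
        show ¬ lev u 0 < ((0 : ℕ) : ℤ)
        rw [Flux132.lev_zero]; simp)
      rw [h2, hX, zero_add]
    · rw [if_neg (by omega), if_pos h1, if_pos (by omega), one_mul,
        xT_tr (hl h1.le) hz]
  have ey : vk lvl kk χ u ν k y = ∫ X, ∏ j, b j X ∂annealed (iidEnvironmentLaw ν) 0 := by
    unfold vk
    rw [annealed_tr hst y, integral_map (Q561.measurable_tr y).aemeasurable
      (measurable_Ph k).aestronglyMeasurable]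
    refine integral_congr_ae (Filter.Eventually.of_forall fun X => ?_)
    show Ph lvl kk χ u k (Q561.tr y X) = ∏ j, b j X
    unfold Ph
    refine Finset.prod_congr rfl fun j _ => ?_
    simp only [b]
    by_cases h1 : k < kk j
    · rw [if_pos h1, if_pos h1, xT_tr (hl h1.le) hy]
    · rw [if_neg h1, if_neg h1]
  have iA : Integrable (fun X => ∏ j, a j X) (annealed (iidEnvironmentLaw ν) 0) :=
    integrable_unit (Finset.measurable_prod _ fun j _ => ham j) fun X => prod_mem _ fun j => ha j X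
  have iB : Integrable (fun X => ∏ j, b j X) (annealed (iidEnvironmentLaw ν) 0) :=
    integrable_unit (Finset.measurable_prod _ fun j _ => hbm j) fun X => prod_mem _ fun j => hb j X
  rw [ez, ey, ← integral_sub iA iB]
  refine abs_integral_le_integral_abs.trans ?_
  have hρ0 : 0 ≤ ρ := (abs_nonneg _).trans hρ
  have hθ := abs_nonneg θ
  refine cmp_prod ham hbm ha hb fun j => ?_
  by_cases h1 : k < kk j
  · have hle : lvl (k + 1) ≤ lvl (kk j) := hl h1
    have hsum : lvl (kk j) - lvl k = (lvl (kk j) - lvl (k + 1)) + (lvl (k + 1) - lvl k) := by omega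
    refine disp_mean hH (t := lvl (kk j) - lvl (k + 1)) (g := lvl (k + 1) - lvl k) hr hw hρ0
      (hδ _) hδ0 (ham j) (hbm j) (ha j) (hb j) (Filter.Eventually.of_forall fun X => ?_)
    simp only [a, b, h1, if_true]
    rw [hsum]
    refine (hLip j _ _).trans ?_
    gcongr
    rw [sl_add, sl_add]
    have e : sl u i θ (xT u (lvl (kk j) - lvl (k + 1)) X) + sl u i θ z -
        (sl u i θ (xT u (lvl (kk j) - lvl (k + 1) + (lvl (k + 1) - lvl k)) X) + sl u i θ y) =
        (sl u i θ z - sl u i θ y) - (sl u i θ (xT u (lvl (kk j) - lvl (k + 1) +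
          (lvl (k + 1) - lvl k)) X) - sl u i θ (xT u (lvl (kk j) - lvl (k + 1)) X)) := by ring
    rw [e]
    exact (abs_sub _ _).trans (add_le_add hρ le_rfl)
  · simp only [a, b, h1, if_false, sub_self, abs_zero, integral_zero]
    positivity

end grid

end Crest.Agent.R154.D2V36
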