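import Crest.Agent.R154.Resamp_9

/-!
# Row 154, helper766: object-level quenched variance theorem (D2.9)

`f ω = E_ω^x [Π_k χ k (x_k) * g (x_n)]`, `x_k` the exit site of `S k`, for an iid environment and
increasing row sets `S 0 ⊆ S 1 ⊆ … ⊆ S n`.  Fresh windows `C k y`, good exits `G k y`,
`lv` = quenched probability not to leave the window through the good exits, `v k` arbitrary
deterministic functions.
`∫ f² ≤ (∫ f)² + Σ (β k ² * NN k + 6 (e2 k + e1 (k+1)) + e1 k) + 2 e1 0`.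
-/

set_option autoImplicit false
set_option linter.unusedVariables false
set_option linter.unusedSectionVars false

namespace Crest.Agent.R154.QV766

open MeasureTheory ProbabilityTheory Crest.ProbabilityR.RandomEnvironment Crest.Agent.R154
open Crest.Agent.R154.ExK9 Crest.Agent.R154.Resamp9
open scoped ENNReal NNReal

/-! ### absolute difference in `ℝ≥0∞` -/

/-- absolute difference -/
noncomputable def AD (a b : ℝ≥0∞) : ℝ≥0∞ := (a - b) + (b - a)

lemma le_add_AD (a b : ℝ≥0∞) : a ≤ b + AD a b :=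
  le_add_tsub.trans (add_le_add le_rfl le_self_add)

lemma le_add_AD' (a b : ℝ≥0∞) : b ≤ a + AD a b :=
  le_add_tsub.trans (add_le_add le_rfl (le_add_of_nonneg_left zero_le))

lemma AD_le_one {a b : ℝ≥0∞} (ha : a ≤ 1) (hb : b ≤ 1) : AD a b ≤ 1 := by
  unfold AD
  rcases le_total a b with h | h
  · rw [tsub_eq_zero_of_le h, zero_add]; exact tsub_le_self.trans hb
  · rw [tsub_eq_zero_of_le h, add_zero]; exact tsub_le_self.trans ha

lemma AD_le {a b c : ℝ≥0∞} (h1 : a ≤ b + c) (h2 : b ≤ a + c) : AD a b ≤ c := by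
  unfold AD
  rcases le_total a b with h | h
  · rw [tsub_eq_zero_of_le h, zero_add]; exact tsub_le_iff_left.2 h2
  · rw [tsub_eq_zero_of_le h, add_zero]; exact tsub_le_iff_left.2 h1

lemma prod_le {a a' u u' δ δ' : ℝ≥0∞} (ha : a ≠ ⊤) (ha' : a' ≠ ⊤) (hu : u ≠ ⊤) (hu' : u' ≠ ⊤)
    (hδ : δ ≠ ⊤) (hδ' : δ' ≠ ⊤) (h1 : u ≤ a + δ) (h2 : a ≤ u + δ) (h1' : u' ≤ a' + δ')
    (h2' : a' ≤ u' + δ') : u * u' + a * a' ≤ a * u' + a' * u + δ * δ' := by
  lift a to ℝ≥0 using ha
  lift a' to ℝ≥0 using ha'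
  lift u to ℝ≥0 using hu
  lift u' to ℝ≥0 using hu'
  lift δ to ℝ≥0 using hδ
  lift δ' to ℝ≥0 using hδ'
  norm_cast at h1 h2 h1' h2' ⊢
  rw [← NNReal.coe_le_coe] at h1 h2 h1' h2' ⊢
  push_cast at h1 h2 h1' h2' ⊢
  have e1 : |(u : ℝ) - a| ≤ δ := abs_le.2 ⟨by linarith, by linarith⟩
  have e2 : |(u' : ℝ) - a'| ≤ δ' := abs_le.2 ⟨by linarith, by linarith⟩
  have e3 : ((u : ℝ) - a) * (u' - a') ≤ δ * δ' := by
    calc ((u : ℝ) - a) * (u' - a') ≤ |((u : ℝ) - a) * (u' - a')| := le_abs_self _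
      _ = |(u : ℝ) - a| * |(u' : ℝ) - a'| := abs_mul _ _
      _ ≤ _ := mul_le_mul e1 e2 (abs_nonneg _) δ.2
  nlinarith

lemma prod_le' {a a' u u' δ δ' : ℝ≥0∞} (ha : a ≠ ⊤) (ha' : a' ≠ ⊤) (hu : u ≠ ⊤) (hu' : u' ≠ ⊤)
    (hδ : δ ≠ ⊤) (hδ' : δ' ≠ ⊤) (h1 : u ≤ a + δ) (h2 : a ≤ u + δ) (h1' : u' ≤ a' + δ')
    (h2' : a' ≤ u' + δ') : a * u' + a' * u ≤ u * u' + a * a' + δ * δ' := by
  lift a to ℝ≥0 using ha
  lift a' to ℝ≥0 using ha'
  lift u to ℝ≥0 using hu
  lift u' to ℝ≥0 using hu'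
  lift δ to ℝ≥0 using hδ
  lift δ' to ℝ≥0 using hδ'
  norm_cast at h1 h2 h1' h2' ⊢
  rw [← NNReal.coe_le_coe] at h1 h2 h1' h2' ⊢
  push_cast at h1 h2 h1' h2' ⊢
  have e1 : |(u : ℝ) - a| ≤ δ := abs_le.2 ⟨by linarith, by linarith⟩
  have e2 : |(u' : ℝ) - a'| ≤ δ' := abs_le.2 ⟨by linarith, by linarith⟩
  have e3 : -(((u : ℝ) - a) * (u' - a')) ≤ δ * δ' := by
    calc -(((u : ℝ) - a) * (u' - a')) ≤ |((u : ℝ) - a) * (u' - a')| := neg_le_abs _
      _ = |(u : ℝ) - a| * |(u' : ℝ) - a'| := abs_mul _ _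
      _ ≤ _ := mul_le_mul e1 e2 (abs_nonneg _) δ.2
  nlinarith

variable {d : ℕ} {ν : Measure (Row d)} [IsProbabilityMeasure ν]

/-! ### far pairs: frozen rows and disjoint fresh rows -/

lemma locOn_glue_right {S C : Set (Site d)} {f : Environment d → ℝ≥0∞}
    (hf : Q561.LocOn (S ∪ C) f) (ω : Environment d) : Q561.LocOn C fun ω' => f (glue S ω ω') := by
  intro ω₁ ω₂ h
  refine hf _ _ fun z hz => ?_
  by_cases hS : z ∈ S
  · rw [glue_mem _ _ hS, glue_mem _ _ hS]
  · rw [glue_notMem _ _ hS, glue_notMem _ _ hS]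
    exact h z (hz.resolve_left hS)

/-- **exact factorisation** given the rows of `S` -/
theorem cnd_mul_of_disj {S C C' : Set (Site d)} (hC : Disjoint C C')
    {f f' : Environment d → ℝ≥0∞} (hf : Q561.LocOn (S ∪ C) f) (hf' : Q561.LocOn (S ∪ C') f')
    (hm : Measurable f) (hm' : Measurable f') (ω : Environment d) :
    cnd ν S (fun ω => f ω * f' ω) ω = cnd ν S f ω * cnd ν S f' ω := by
  unfold cnd
  exact lint_mul ν hC
    (Q561.measurable_coord (hm.comp (measurable_glue_right S ω)) (locOn_glue_right hf ω))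
    (Q561.measurable_coord (hm'.comp (measurable_glue_right S ω)) (locOn_glue_right hf' ω))

/-! ### the set-up -/

/-- fresh windows, good exits and weights -/
structure Win (d : ℕ) where
  S : ℕ → Set (Site d)
  mono : ∀ k, S k ⊆ S (k + 1)
  C : ℕ → Site d → Set (Site d)
  CS : ∀ k y, C k y ⊆ S (k + 1)
  G : ℕ → Site d → Set (Site d)
  GS : ∀ k y z, z ∈ G k y → z ∉ S (k + 1)
  χ : ℕ → Site d → ℝ≥0∞
  χ_le : ∀ k z, χ k z ≤ 1

lemma measurable_AD {f : Environment d → ℝ≥0∞} (hf : Measurable f) (c : ℝ≥0∞) :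
    Measurable fun ω => AD (f ω) c :=
  (hf.sub measurable_const).add (measurable_const.sub hf)

lemma mul_le_one' {a b : ℝ≥0∞} (ha : a ≤ 1) (hb : b ≤ 1) : a * b ≤ 1 := by
  calc a * b ≤ 1 * 1 := by gcongr
    _ = 1 := one_mul _

namespace Win

variable (W : Win d)

/-- rows seen from `y`: the frozen ones and the window -/
def B (k : ℕ) (y : Site d) : Set (Site d) := W.S k ∪ W.C k y

lemma B_sub (k : ℕ) (y : Site d) : W.B k y ⊆ W.S (k + 1) :=
  Set.union_subset (W.mono k) (W.CS k y)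

lemma S_mono {k m : ℕ} (h : k ≤ m) : W.S k ⊆ W.S m := monotone_nat_of_le_succ W.mono h

/-- mass of the good exits -/
noncomputable def gd (k : ℕ) (ω : Environment d) (y : Site d) : ℝ≥0∞ :=
  ∑' z, (W.G k y).indicator (EK ω (W.B k y) y) z

/-- **quenched probability to miss the good exits of the window** -/
noncomputable def lv (k : ℕ) (ω : Environment d) (y : Site d) : ℝ≥0∞ := 1 - W.gd k ω y

/-- quenched mean of `h` on the good exits -/
noncomputable def gm (k : ℕ) (h : Site d → ℝ≥0∞) (ω : Environment d) (y : Site d) : ℝ≥0∞ :=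
  ∑' z, (W.G k y).indicator (fun z => EK ω (W.B k y) y z * h z) z

lemma gd_le_one (k : ℕ) (ω : Environment d) (y : Site d) : W.gd k ω y ≤ 1 := by
  refine le_trans (ENNReal.tsum_le_tsum fun z => ?_) (tsum_EK_le ω (W.B k y) y)
  exact Set.indicator_le_self _ _ z

lemma gd_add_lv (k : ℕ) (ω : Environment d) (y : Site d) : W.gd k ω y + W.lv k ω y = 1 :=
  add_tsub_cancel_of_le (W.gd_le_one k ω y)

lemma lv_le_one (k : ℕ) (ω : Environment d) (y : Site d) : W.lv k ω y ≤ 1 := tsub_le_self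

lemma gm_le_one (k : ℕ) {h : Site d → ℝ≥0∞} (hh : ∀ z, h z ≤ 1) (ω : Environment d)
    (y : Site d) : W.gm k h ω y ≤ 1 := by
  refine le_trans (ENNReal.tsum_le_tsum fun z => ?_) (tsum_EK_le ω (W.B k y) y)
  by_cases hz : z ∈ W.G k y
  · rw [Set.indicator_of_mem hz]
    calc EK ω (W.B k y) y z * h z ≤ EK ω (W.B k y) y z * 1 := by gcongr; exact hh z
      _ = _ := mul_one _
  · rw [Set.indicator_of_notMem hz]; exact zero_le

lemma meas_gm (k : ℕ) (h : Site d → ℝ≥0∞) (y : Site d) :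
    Measurable fun ω : Environment d => W.gm k h ω y := by
  refine Measurable.tsum fun z => ?_
  by_cases hz : z ∈ W.G k y
  · simp only [Set.indicator_of_mem hz]
    exact (meas_EK _ _ _).mul measurable_const
  · simp only [Set.indicator_of_notMem hz]
    exact measurable_const

lemma locOn_gm (k : ℕ) (h : Site d → ℝ≥0∞) (y : Site d) :
    Q561.LocOn (W.B k y) fun ω : Environment d => W.gm k h ω y := by
  intro ω₁ ω₂ hω
  show ∑' z, _ = ∑' z, _
  refine tsum_congr fun z => ?_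
  by_cases hz : z ∈ W.G k y
  · simp only [Set.indicator_of_mem hz]
    have h1 : EK ω₁ (W.B k y) y z = EK ω₂ (W.B k y) y z := locOn_EK _ y z ω₁ ω₂ hω
    rw [h1]
  · simp only [Set.indicator_of_notMem hz]

lemma meas_gd (k : ℕ) (y : Site d) : Measurable fun ω : Environment d => W.gd k ω y := by
  refine Measurable.tsum fun z => ?_
  by_cases hz : z ∈ W.G k y
  · simp only [Set.indicator_of_mem hz]
    exact meas_EK _ _ _
  · simp only [Set.indicator_of_notMem hz]
    exact measurable_const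

lemma meas_lv (k : ℕ) (y : Site d) : Measurable fun ω : Environment d => W.lv k ω y :=
  measurable_const.sub (W.meas_gd k y)

/-- the mean at the exit of `S (k+1)`, upper bound by the good exits -/
lemma fE_le (k : ℕ) {h : Site d → ℝ≥0∞} (hh : ∀ z, h z ≤ 1) (ω : Environment d) (y : Site d) :
    fE (W.S (k + 1)) h ω y ≤ W.gm k h ω y + W.lv k ω y := by
  rw [fE_comp (W.B_sub k y) h ω y]
  have h1 : ∀ z, EK ω (W.B k y) y z * fE (W.S (k + 1)) h ω z ≤
      (W.G k y).indicator (fun z => EK ω (W.B k y) y z * h z) z +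
        ((W.G k y)ᶜ).indicator (EK ω (W.B k y) y) z := by
    intro z
    by_cases hz : z ∈ W.G k y
    · rw [Set.indicator_of_mem hz, Set.indicator_of_notMem (Set.notMem_compl_iff.2 hz), add_zero]
      have : fE (W.S (k + 1)) h ω z = h z := by
        unfold fE
        rw [tsum_eq_single z]
        · rw [EK_notMem ω (W.GS k y z hz), Set.indicator_of_mem (Set.mem_singleton z), one_mul]
        · intro z' hz'
          rw [EK_notMem ω (W.GS k y z hz),
            Set.indicator_of_notMem fun h => hz' (Set.mem_singleton_iff.1 h), zero_mul]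
      rw [this]
    · rw [Set.indicator_of_notMem hz, Set.indicator_of_mem (Set.mem_compl hz), zero_add]
      calc EK ω (W.B k y) y z * fE (W.S (k + 1)) h ω z ≤ EK ω (W.B k y) y z * 1 := by
            gcongr; exact fE_le_one hh _ ω z
        _ = _ := mul_one _
  refine (ENNReal.tsum_le_tsum h1).trans ?_
  rw [ENNReal.tsum_add]
  gcongr
  · exact le_rfl
  · refine ENNReal.le_sub_of_add_le_left (ne_top_of_le_ne_top ENNReal.one_ne_top
      (W.gd_le_one k ω y)) ?_
    unfold gd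
    rw [← ENNReal.tsum_add]
    refine le_trans (ENNReal.tsum_le_tsum fun z => ?_) (tsum_EK_le ω (W.B k y) y)
    by_cases hz : z ∈ W.G k y
    · rw [Set.indicator_of_mem hz, Set.indicator_of_notMem (Set.notMem_compl_iff.2 hz), add_zero]
    · rw [Set.indicator_of_notMem hz, Set.indicator_of_mem (Set.mem_compl hz), zero_add]

/-- lower bound -/
lemma le_fE (k : ℕ) (h : Site d → ℝ≥0∞) (ω : Environment d) (y : Site d) :
    W.gm k h ω y ≤ fE (W.S (k + 1)) h ω y := by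
  rw [fE_comp (W.B_sub k y) h ω y]
  refine ENNReal.tsum_le_tsum fun z => ?_
  by_cases hz : z ∈ W.G k y
  · rw [Set.indicator_of_mem hz]
    have : fE (W.S (k + 1)) h ω z = h z := by
      unfold fE
      rw [tsum_eq_single z]
      · rw [EK_notMem ω (W.GS k y z hz), Set.indicator_of_mem (Set.mem_singleton z), one_mul]
      · intro z' hz'
        rw [EK_notMem ω (W.GS k y z hz),
          Set.indicator_of_notMem fun h => hz' (Set.mem_singleton_iff.1 h), zero_mul]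
    rw [this]
  · rw [Set.indicator_of_notMem hz]; exact zero_le

/-! ### the quenched functional and the conditional value functions -/

/-- backward quenched functional, `m` stages from stage `k` -/
noncomputable def Gb (g : Site d → ℝ≥0∞) (ω : Environment d) : ℕ → ℕ → Site d → ℝ≥0∞
  | 0 => fun _ y => g y
  | m + 1 => fun k y => ∑' z, EK ω (W.S (k + 1)) y z * (W.χ (k + 1) z * Gb g ω m (k + 1) z)

variable {g : Site d → ℝ≥0∞} {n : ℕ} {v : ℕ → Site d → ℝ≥0∞} {β : ℕ → ℝ≥0∞}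

lemma Gb_le_one (hg : ∀ z, g z ≤ 1) (ω : Environment d) (m k : ℕ) (y : Site d) :
    W.Gb g ω m k y ≤ 1 := by
  induction m generalizing k y with
  | zero => exact hg y
  | succ m ih =>
    exact fE_le_one (fun z => mul_le_one' (W.χ_le _ z) (ih (k + 1) z)) (W.S (k + 1)) ω y

lemma meas_Gb (m k : ℕ) (y : Site d) : Measurable fun ω : Environment d => W.Gb g ω m k y := by
  induction m generalizing k y with
  | zero => exact measurable_const
  | succ m ih =>
    exact Measurable.tsum fun z => (meas_EK _ _ _).mul (measurable_const.mul (ih (k + 1) z))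

variable (ν) in
/-- conditional value function at stage `k` -/
noncomputable def ph (n : ℕ) (g : Site d → ℝ≥0∞) (k : ℕ) (ω : Environment d) (y : Site d) :
    ℝ≥0∞ := cnd ν (W.S k) (fun ω => W.Gb g ω (n - k) k y) ω

variable (ν) in
/-- error of the deterministic approximation -/
noncomputable def rho (n : ℕ) (g : Site d → ℝ≥0∞) (v : ℕ → Site d → ℝ≥0∞) (k : ℕ)
    (ω : Environment d) (y : Site d) : ℝ≥0∞ := AD (W.ph ν n g k ω y) (v k y)

lemma meas_ph (k : ℕ) (y : Site d) : Measurable fun ω => W.ph ν n g k ω y :=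
  meas_cnd _ (W.meas_Gb _ _ _)

lemma ph_le_one (hg : ∀ z, g z ≤ 1) (k : ℕ) (ω : Environment d) (y : Site d) :
    W.ph ν n g k ω y ≤ 1 := cnd_le_one _ (fun ω => W.Gb_le_one hg ω _ _ y) ω

lemma meas_rho (k : ℕ) (y : Site d) : Measurable fun ω => W.rho ν n g v k ω y :=
  measurable_AD (W.meas_ph k y) _

lemma rho_le_one (hg : ∀ z, g z ≤ 1) (hv : ∀ k z, v k z ≤ 1) (k : ℕ) (ω : Environment d)
    (y : Site d) : W.rho ν n g v k ω y ≤ 1 := AD_le_one (W.ph_le_one hg k ω y) (hv k y)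

variable (ν) in
/-- one step: `U k ω y = ∑ z, EK (S (k+1)) y z * (χ (k+1) z * φ (k+1) z)` -/
noncomputable def U (n : ℕ) (g : Site d → ℝ≥0∞) (k : ℕ) (ω : Environment d) (y : Site d) :
    ℝ≥0∞ := ∑' z, EK ω (W.S (k + 1)) y z * (W.χ (k + 1) z * W.ph ν n g (k + 1) ω z)

variable (ν) in
/-- `r k ω y = ∑ z, EK (S (k+1)) y z * ρ (k+1) z` -/
noncomputable def rr (n : ℕ) (g : Site d → ℝ≥0∞) (v : ℕ → Site d → ℝ≥0∞) (k : ℕ)
    (ω : Environment d) (y : Site d) : ℝ≥0∞ :=
  ∑' z, EK ω (W.S (k + 1)) y z * W.rho ν n g v (k + 1) ω z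

lemma tsum_EK_mul_le {h : Site d → ℝ≥0∞} (hh : ∀ z, h z ≤ 1) (ω : Environment d)
    (A : Set (Site d)) (y : Site d) : ∑' z, EK ω A y z * h z ≤ 1 := fE_le_one hh A ω y

lemma U_le_one (hg : ∀ z, g z ≤ 1) (k : ℕ) (ω : Environment d) (y : Site d) :
    W.U ν n g k ω y ≤ 1 :=
  tsum_EK_mul_le (fun z => mul_le_one' (W.χ_le _ z) (W.ph_le_one hg _ ω z)) ω _ y

lemma rr_le_one (hg : ∀ z, g z ≤ 1) (hv : ∀ k z, v k z ≤ 1) (k : ℕ) (ω : Environment d)
    (y : Site d) : W.rr ν n g v k ω y ≤ 1 :=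
  tsum_EK_mul_le (fun z => W.rho_le_one hg hv _ ω z) ω _ y

lemma meas_U (k : ℕ) (y : Site d) : Measurable fun ω => W.U ν n g k ω y :=
  Measurable.tsum fun z => (meas_EK _ _ _).mul (measurable_const.mul (W.meas_ph _ z))

lemma meas_rr (k : ℕ) (y : Site d) : Measurable fun ω => W.rr ν n g v k ω y :=
  Measurable.tsum fun z => (meas_EK _ _ _).mul (W.meas_rho _ z)

/-- backward step -/
lemma ph_step {k : ℕ} (hk : k < n) (ω : Environment d) (y : Site d) :
    W.ph ν n g k ω y = cnd ν (W.S k) (fun ω => W.U ν n g k ω y) ω := by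
  obtain ⟨m, hm⟩ : ∃ m, n - k = m + 1 := ⟨n - k - 1, by omega⟩
  have h1 : n - (k + 1) = m := by omega
  unfold ph
  rw [hm, ← cnd_tower (W.mono k) (W.meas_Gb (m + 1) k y) ω]
  congr 1
  funext ω
  show cnd ν (W.S (k + 1)) (fun ω => ∑' z, EK ω (W.S (k + 1)) y z *
    (W.χ (k + 1) z * W.Gb g ω m (k + 1) z)) ω = _
  rw [cnd_tsum (W.S (k + 1)) (f := fun z ω => EK ω (W.S (k + 1)) y z *
    (W.χ (k + 1) z * W.Gb g ω m (k + 1) z))
    (fun z => (meas_EK _ _ _).mul (measurable_const.mul (W.meas_Gb m (k + 1) z)))]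
  unfold U
  refine tsum_congr fun z => ?_
  rw [cnd_pull (w := fun ω => EK ω (W.S (k + 1)) y z)
    (f := fun ω => W.χ (k + 1) z * W.Gb g ω m (k + 1) z) (locOn_EK _ y z)
    (measurable_const.mul (W.meas_Gb m (k + 1) z)),
    cnd_pull (w := fun _ => W.χ (k + 1) z) (f := fun ω => W.Gb g ω m (k + 1) z)
    (fun _ _ _ => rfl) (W.meas_Gb m (k + 1) z)]
  unfold ph
  rw [h1]

/-- replacing `φ` by `v`, upper -/
lemma U_le (k : ℕ) (ω : Environment d) (y : Site d) :
    W.U ν n g k ω y ≤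
      fE (W.S (k + 1)) (fun z => W.χ (k + 1) z * v (k + 1) z) ω y + W.rr ν n g v k ω y := by
  unfold U fE rr
  rw [← ENNReal.tsum_add]
  refine ENNReal.tsum_le_tsum fun z => ?_
  rw [← mul_add]
  gcongr
  calc W.χ (k + 1) z * W.ph ν n g (k + 1) ω z
      ≤ W.χ (k + 1) z * (v (k + 1) z + W.rho ν n g v (k + 1) ω z) := by
        gcongr; exact le_add_AD _ _
    _ = W.χ (k + 1) z * v (k + 1) z + W.χ (k + 1) z * W.rho ν n g v (k + 1) ω z := mul_add _ _ _
    _ ≤ W.χ (k + 1) z * v (k + 1) z + 1 * W.rho ν n g v (k + 1) ω z := by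
        gcongr; exact W.χ_le _ z
    _ = _ := by rw [one_mul]

lemma le_U (k : ℕ) (ω : Environment d) (y : Site d) :
    fE (W.S (k + 1)) (fun z => W.χ (k + 1) z * v (k + 1) z) ω y ≤
      W.U ν n g k ω y + W.rr ν n g v k ω y := by
  unfold U fE rr
  rw [← ENNReal.tsum_add]
  refine ENNReal.tsum_le_tsum fun z => ?_
  rw [← mul_add]
  gcongr
  calc W.χ (k + 1) z * v (k + 1) z
      ≤ W.χ (k + 1) z * (W.ph ν n g (k + 1) ω z + W.rho ν n g v (k + 1) ω z) := by
        gcongr; exact le_add_AD' _ _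
    _ = W.χ (k + 1) z * W.ph ν n g (k + 1) ω z + W.χ (k + 1) z * W.rho ν n g v (k + 1) ω z :=
        mul_add _ _ _
    _ ≤ W.χ (k + 1) z * W.ph ν n g (k + 1) ω z + 1 * W.rho ν n g v (k + 1) ω z := by
        gcongr; exact W.χ_le _ z
    _ = _ := by rw [one_mul]

/-- total error -/
noncomputable def ee (ν : Measure (Row d)) [IsProbabilityMeasure ν] (n : ℕ) (g : Site d → ℝ≥0∞)
    (v : ℕ → Site d → ℝ≥0∞) (k : ℕ) (ω : Environment d) (y : Site d) : ℝ≥0∞ :=
  W.lv k ω y + W.rr ν n g v k ω y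

lemma meas_ee (k : ℕ) (y : Site d) : Measurable fun ω => W.ee ν n g v k ω y :=
  (W.meas_lv k y).add (W.meas_rr k y)

lemma ee_le_two (hg : ∀ z, g z ≤ 1) (hv : ∀ k z, v k z ≤ 1) (k : ℕ) (ω : Environment d)
    (y : Site d) : W.ee ν n g v k ω y ≤ 2 := by
  have h1 := W.lv_le_one k ω y
  have h2 := W.rr_le_one (ν := ν) (n := n) hg hv k ω y
  calc W.ee ν n g v k ω y ≤ 1 + 1 := add_le_add h1 h2
    _ = 2 := one_add_one_eq_two

/-- `gm` of a function close to a constant -/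
lemma gm_le_const {k : ℕ} {y : Site d} {h : Site d → ℝ≥0∞} {a b : ℝ≥0∞}
    (hβ : ∀ z ∈ W.G k y, h z ≤ a + b) (ω : Environment d) : W.gm k h ω y ≤ a + b := by
  calc W.gm k h ω y ≤ ∑' z, (a + b) * (W.G k y).indicator (EK ω (W.B k y) y) z := by
        refine ENNReal.tsum_le_tsum fun z => ?_
        by_cases hz : z ∈ W.G k y
        · rw [Set.indicator_of_mem hz, Set.indicator_of_mem hz, mul_comm]
          gcongr
          exact hβ z hz
        · rw [Set.indicator_of_notMem hz]; exact zero_le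
    _ = (a + b) * W.gd k ω y := ENNReal.tsum_mul_left
    _ ≤ (a + b) * 1 := by gcongr; exact W.gd_le_one k ω y
    _ = _ := mul_one _

lemma const_le_gm {k : ℕ} {y : Site d} {h : Site d → ℝ≥0∞} {a b : ℝ≥0∞} (ha : a ≤ 1)
    (hβ : ∀ z ∈ W.G k y, a ≤ h z + b) (ω : Environment d) :
    a ≤ W.gm k h ω y + b + W.lv k ω y := by
  calc a = a * (W.gd k ω y + W.lv k ω y) := by rw [W.gd_add_lv, mul_one]
    _ = a * W.gd k ω y + a * W.lv k ω y := mul_add _ _ _
    _ ≤ (W.gm k h ω y + b) + W.lv k ω y := by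
        gcongr
        · calc a * W.gd k ω y
              = ∑' z, a * (W.G k y).indicator (EK ω (W.B k y) y) z := ENNReal.tsum_mul_left.symm
            _ ≤ ∑' z, ((W.G k y).indicator (fun z => EK ω (W.B k y) y z * h z) z +
                  b * (W.G k y).indicator (EK ω (W.B k y) y) z) := by
                refine ENNReal.tsum_le_tsum fun z => ?_
                by_cases hz : z ∈ W.G k y
                · rw [Set.indicator_of_mem hz, Set.indicator_of_mem hz, mul_comm a,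
                    mul_comm b, ← mul_add]
                  gcongr
                  exact hβ z hz
                · rw [Set.indicator_of_notMem hz, mul_zero]; exact zero_le
            _ = W.gm k h ω y + b * W.gd k ω y := by
                rw [ENNReal.tsum_add, ENNReal.tsum_mul_left]; rfl
            _ ≤ W.gm k h ω y + b * 1 := by gcongr; exact W.gd_le_one k ω y
            _ = _ := by rw [mul_one]
        · calc a * W.lv k ω y ≤ 1 * W.lv k ω y := by gcongr
            _ = _ := one_mul _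

/-- the Lipschitz hypothesis on the windows -/
structure Lip (n : ℕ) (v : ℕ → Site d → ℝ≥0∞) (β : ℕ → ℝ≥0∞) : Prop where
  le_one : ∀ k, β k ≤ 1
  up : ∀ k < n, ∀ y, ∀ z ∈ W.G k y, W.χ (k + 1) z * v (k + 1) z ≤ v k y + β k
  dn : ∀ k < n, ∀ y, ∀ z ∈ W.G k y, v k y ≤ W.χ (k + 1) z * v (k + 1) z + β k

/-- `|U - v k y| ≤ β + e` -/
lemma U_near (hg : ∀ z, g z ≤ 1) (hv : ∀ k z, v k z ≤ 1) (hL : W.Lip n v β) {k : ℕ} (hk : k < n)
    (ω : Environment d) (y : Site d) : W.U ν n g k ω y ≤ v k y + (β k + W.ee ν n g v k ω y) ∧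
      v k y ≤ W.U ν n g k ω y + (β k + W.ee ν n g v k ω y) := by
  have hh : ∀ z, W.χ (k + 1) z * v (k + 1) z ≤ 1 := fun z => mul_le_one' (W.χ_le _ z) (hv _ z)
  constructor
  · calc W.U ν n g k ω y
        ≤ fE (W.S (k + 1)) (fun z => W.χ (k + 1) z * v (k + 1) z) ω y + W.rr ν n g v k ω y :=
          W.U_le k ω y
      _ ≤ (W.gm k (fun z => W.χ (k + 1) z * v (k + 1) z) ω y + W.lv k ω y) +
            W.rr ν n g v k ω y := by
          gcongr; exact W.fE_le k hh ω y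
      _ ≤ ((v k y + β k) + W.lv k ω y) + W.rr ν n g v k ω y := by
          gcongr; exact W.gm_le_const (hL.up k hk y) ω
      _ = _ := by unfold ee; ring
  · calc v k y ≤ W.gm k (fun z => W.χ (k + 1) z * v (k + 1) z) ω y + β k + W.lv k ω y :=
          W.const_le_gm (hv k y) (hL.dn k hk y) ω
      _ ≤ (W.U ν n g k ω y + W.rr ν n g v k ω y) + β k + W.lv k ω y := by
          gcongr
          exact (W.le_fE k _ ω y).trans (W.le_U k ω y)
      _ = _ := by unfold ee; ring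

/-- **all pairs (used for the near ones)** -/
theorem pair_near (hg : ∀ z, g z ≤ 1) (hv : ∀ k z, v k z ≤ 1) (hL : W.Lip n v β) {k : ℕ}
    (hk : k < n) (ω : Environment d) (y y' : Site d) :
    cnd ν (W.S k) (fun ω => W.U ν n g k ω y * W.U ν n g k ω y') ω ≤
      W.ph ν n g k ω y * W.ph ν n g k ω y' + β k ^ 2 +
        3 * (cnd ν (W.S k) (fun ω => W.ee ν n g v k ω y) ω +
          cnd ν (W.S k) (fun ω => W.ee ν n g v k ω y') ω) + W.rho ν n g v k ω y := by
  have hβ : β k ≤ 1 := hL.le_one k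
  have hβt : β k ≠ ⊤ := ne_top_of_le_ne_top ENNReal.one_ne_top hβ
  have hvt : ∀ k z, v k z ≠ ⊤ := fun k z => ne_top_of_le_ne_top ENNReal.one_ne_top (hv k z)
  have hUt : ∀ ω z, W.U ν n g k ω z ≠ ⊤ :=
    fun ω z => ne_top_of_le_ne_top ENNReal.one_ne_top (W.U_le_one hg k ω z)
  have het : ∀ ω z, W.ee ν n g v k ω z ≠ ⊤ :=
    fun ω z => ne_top_of_le_ne_top ENNReal.ofNat_ne_top (W.ee_le_two hg hv k ω z)
  have hpt : ∀ ω z, W.ph ν n g k ω z ≠ ⊤ :=
    fun ω z => ne_top_of_le_ne_top ENNReal.one_ne_top (W.ph_le_one hg k ω z)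
  have hrt : ∀ ω z, W.rho ν n g v k ω z ≠ ⊤ :=
    fun ω z => ne_top_of_le_ne_top ENNReal.one_ne_top (W.rho_le_one hg hv k ω z)
  -- pointwise
  have h1 : ∀ ω, W.U ν n g k ω y * W.U ν n g k ω y' + v k y * v k y' ≤
      (v k y * W.U ν n g k ω y' + v k y' * W.U ν n g k ω y) +
        (β k ^ 2 + 3 * (W.ee ν n g v k ω y + W.ee ν n g v k ω y')) := by
    intro ω
    obtain ⟨a1, a2⟩ := W.U_near (ν := ν) (n := n) hg hv hL hk ω y
    obtain ⟨b1, b2⟩ := W.U_near (ν := ν) (n := n) hg hv hL hk ω y'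
    have := prod_le (hvt k y) (hvt k y') (hUt ω y) (hUt ω y')
      (ENNReal.add_ne_top.2 ⟨hβt, het ω y⟩) (ENNReal.add_ne_top.2 ⟨hβt, het ω y'⟩) a1 a2 b1 b2
    refine this.trans ?_
    gcongr
    set e := W.ee ν n g v k ω y
    set e' := W.ee ν n g v k ω y'
    have he : e ≤ 2 := W.ee_le_two hg hv k ω y
    calc (β k + e) * (β k + e') = β k ^ 2 + β k * e' + e * β k + e * e' := by ring
      _ ≤ β k ^ 2 + 1 * e' + e * 1 + 2 * e' := by gcongr
      _ = β k ^ 2 + (e + 3 * e') := by ring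
      _ ≤ β k ^ 2 + (3 * e + 3 * e') := by
          gcongr
          calc e = 1 * e := (one_mul _).symm
            _ ≤ 3 * e := by gcongr; norm_num
      _ = _ := by rw [mul_add]
  -- conditional expectation
  have hmU : ∀ z, Measurable fun ω => W.U ν n g k ω z := W.meas_U k
  have hme : ∀ z, Measurable fun ω => W.ee ν n g v k ω z := W.meas_ee k
  have cmul : ∀ (c : ℝ≥0∞) (f : Environment d → ℝ≥0∞), Measurable f →
      cnd ν (W.S k) (fun ω => c * f ω) ω = c * cnd ν (W.S k) f ω := fun c f hf =>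
    cnd_pull (w := fun _ => c) (fun _ _ _ => rfl) hf ω
  have h2 : cnd ν (W.S k) (fun ω => W.U ν n g k ω y * W.U ν n g k ω y') ω + v k y * v k y' ≤
      (v k y * W.ph ν n g k ω y' + v k y' * W.ph ν n g k ω y) +
        (β k ^ 2 + 3 * (cnd ν (W.S k) (fun ω => W.ee ν n g v k ω y) ω +
          cnd ν (W.S k) (fun ω => W.ee ν n g v k ω y') ω)) := by
    have e1 : cnd ν (W.S k) (fun ω => W.U ν n g k ω y * W.U ν n g k ω y' + v k y * v k y') ω =
        cnd ν (W.S k) (fun ω => W.U ν n g k ω y * W.U ν n g k ω y') ω + v k y * v k y' := by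
      rw [cnd_add (W.S k) (f := fun ω => W.U ν n g k ω y * W.U ν n g k ω y')
        (g := fun _ => v k y * v k y') ((hmU y).mul (hmU y')), cnd_const]
    have e2 : cnd ν (W.S k) (fun ω => (v k y * W.U ν n g k ω y' + v k y' * W.U ν n g k ω y) +
        (β k ^ 2 + 3 * (W.ee ν n g v k ω y + W.ee ν n g v k ω y'))) ω =
        (v k y * W.ph ν n g k ω y' + v k y' * W.ph ν n g k ω y) +
        (β k ^ 2 + 3 * (cnd ν (W.S k) (fun ω => W.ee ν n g v k ω y) ω +
          cnd ν (W.S k) (fun ω => W.ee ν n g v k ω y') ω)) := by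
      rw [cnd_add (W.S k) (f := fun ω => v k y * W.U ν n g k ω y' + v k y' * W.U ν n g k ω y)
          (g := fun ω => β k ^ 2 + 3 * (W.ee ν n g v k ω y + W.ee ν n g v k ω y'))
          ((measurable_const.mul (hmU y')).add (measurable_const.mul (hmU y))),
        cnd_add (W.S k) (f := fun ω => v k y * W.U ν n g k ω y')
          (g := fun ω => v k y' * W.U ν n g k ω y) (measurable_const.mul (hmU y')),
        cnd_add (W.S k) (f := fun _ => β k ^ 2)
          (g := fun ω => 3 * (W.ee ν n g v k ω y + W.ee ν n g v k ω y')) measurable_const,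
        cmul _ _ (hmU y'), cmul _ _ (hmU y),
        cmul _ (fun ω => W.ee ν n g v k ω y + W.ee ν n g v k ω y') ((hme y).add (hme y')),
        cnd_const, cnd_add (W.S k) (f := fun ω => W.ee ν n g v k ω y)
          (g := fun ω => W.ee ν n g v k ω y') (hme y), W.ph_step hk ω y, W.ph_step hk ω y']
    rw [← e1, ← e2]
    exact cnd_mono _ h1 ω
  have h3 := prod_le' (hvt k y) (hvt k y') (hpt ω y) (hpt ω y') (hrt ω y) (hrt ω y')
    (le_add_AD _ _) (le_add_AD' _ _) (le_add_AD _ _) (le_add_AD' _ _)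
  have h4 : W.rho ν n g v k ω y * W.rho ν n g v k ω y' ≤ W.rho ν n g v k ω y := by
    calc _ ≤ W.rho ν n g v k ω y * 1 := by gcongr; exact W.rho_le_one hg hv k ω y'
      _ = _ := mul_one _
  have h5 := h2.trans (add_le_add_left h3 _)
  have hvv : v k y * v k y' ≠ ⊤ := ENNReal.mul_ne_top (hvt k y) (hvt k y')
  refine (ENNReal.add_le_add_iff_right hvv).1 (h5.trans ?_)
  set P := W.ph ν n g k ω y * W.ph ν n g k ω y'
  set V := v k y * v k y'
  set E := 3 * (cnd ν (W.S k) (fun ω => W.ee ν n g v k ω y) ω +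
          cnd ν (W.S k) (fun ω => W.ee ν n g v k ω y') ω)
  calc P + V + W.rho ν n g v k ω y * W.rho ν n g v k ω y' + (β k ^ 2 + E)
      ≤ P + V + W.rho ν n g v k ω y + (β k ^ 2 + E) := by gcongr
    _ = P + β k ^ 2 + E + W.rho ν n g v k ω y + V := by ring

/-- **far pairs**: disjoint fresh windows -/
theorem pair_far (hg : ∀ z, g z ≤ 1) (hv : ∀ k z, v k z ≤ 1) {k : ℕ}
    (hk : k < n) (ω : Environment d) (y y' : Site d) (hd : Disjoint (W.C k y) (W.C k y')) :
    cnd ν (W.S k) (fun ω => W.U ν n g k ω y * W.U ν n g k ω y') ω ≤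
      W.ph ν n g k ω y * W.ph ν n g k ω y' +
        3 * (cnd ν (W.S k) (fun ω => W.ee ν n g v k ω y) ω +
          cnd ν (W.S k) (fun ω => W.ee ν n g v k ω y') ω) := by
  set h : Site d → ℝ≥0∞ := fun z => W.χ (k + 1) z * v (k + 1) z with hh0
  have hh : ∀ z, h z ≤ 1 := fun z => mul_le_one' (W.χ_le _ z) (hv _ z)
  have hmU : ∀ z, Measurable fun ω => W.U ν n g k ω z := W.meas_U k
  have hme : ∀ z, Measurable fun ω => W.ee ν n g v k ω z := W.meas_ee k
  have hmr : ∀ z, Measurable fun ω => W.rr ν n g v k ω z := W.meas_rr k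
  have hmX : ∀ z, Measurable fun ω => W.gm k h ω z := W.meas_gm k h
  have hUX : ∀ ω z, W.U ν n g k ω z ≤ W.gm k h ω z + W.ee ν n g v k ω z := by
    intro ω z
    calc W.U ν n g k ω z ≤ fE (W.S (k + 1)) h ω z + W.rr ν n g v k ω z := W.U_le k ω z
      _ ≤ (W.gm k h ω z + W.lv k ω z) + W.rr ν n g v k ω z := by
          gcongr; exact W.fE_le k hh ω z
      _ = _ := by unfold ee; ring
  have hXU : ∀ ω z, W.gm k h ω z ≤ W.U ν n g k ω z + W.rr ν n g v k ω z := fun ω z =>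
    (W.le_fE k h ω z).trans (W.le_U k ω z)
  -- pointwise
  have h1 : ∀ ω, W.U ν n g k ω y * W.U ν n g k ω y' ≤
      W.gm k h ω y * W.gm k h ω y' + (W.ee ν n g v k ω y + W.ee ν n g v k ω y') := by
    intro ω
    calc W.U ν n g k ω y * W.U ν n g k ω y'
        ≤ (W.gm k h ω y + W.ee ν n g v k ω y) * W.U ν n g k ω y' := by gcongr; exact hUX ω y
      _ = W.gm k h ω y * W.U ν n g k ω y' + W.ee ν n g v k ω y * W.U ν n g k ω y' := add_mul _ _ _
      _ ≤ W.gm k h ω y * (W.gm k h ω y' + W.ee ν n g v k ω y') + W.ee ν n g v k ω y * 1 := by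
          gcongr
          · exact hUX ω y'
          · exact W.U_le_one hg k ω y'
      _ = W.gm k h ω y * W.gm k h ω y' + (W.gm k h ω y * W.ee ν n g v k ω y' +
            W.ee ν n g v k ω y) := by ring
      _ ≤ W.gm k h ω y * W.gm k h ω y' + (1 * W.ee ν n g v k ω y' + W.ee ν n g v k ω y) := by
          gcongr; exact W.gm_le_one k hh ω y
      _ = _ := by ring
  set c1 := cnd ν (W.S k) (fun ω => W.ee ν n g v k ω y) ω
  set c2 := cnd ν (W.S k) (fun ω => W.ee ν n g v k ω y') ω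
  have hX : ∀ z, cnd ν (W.S k) (fun ω => W.gm k h ω z) ω ≤
      W.ph ν n g k ω z + cnd ν (W.S k) (fun ω => W.ee ν n g v k ω z) ω := by
    intro z
    calc cnd ν (W.S k) (fun ω => W.gm k h ω z) ω
        ≤ cnd ν (W.S k) (fun ω => W.U ν n g k ω z + W.rr ν n g v k ω z) ω :=
          cnd_mono _ (fun ω => hXU ω z) ω
      _ = cnd ν (W.S k) (fun ω => W.U ν n g k ω z) ω +
            cnd ν (W.S k) (fun ω => W.rr ν n g v k ω z) ω :=
          cnd_add (W.S k) (f := fun ω => W.U ν n g k ω z) (g := fun ω => W.rr ν n g v k ω z)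
            (hmU z) ω
      _ ≤ _ := by
          rw [← W.ph_step hk ω z]
          gcongr
          exact cnd_mono _ (fun ω => le_add_of_nonneg_left zero_le) ω
  have hX1 : ∀ z, cnd ν (W.S k) (fun ω => W.gm k h ω z) ω ≤ 1 := fun z =>
    cnd_le_one _ (fun ω => W.gm_le_one k hh ω z) ω
  have h2 : cnd ν (W.S k) (fun ω => W.gm k h ω y * W.gm k h ω y') ω =
      cnd ν (W.S k) (fun ω => W.gm k h ω y) ω * cnd ν (W.S k) (fun ω => W.gm k h ω y') ω :=
    cnd_mul_of_disj hd (W.locOn_gm k h y) (W.locOn_gm k h y') (hmX y) (hmX y') ω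
  have h3 : cnd ν (W.S k) (fun ω => W.gm k h ω y) ω * cnd ν (W.S k) (fun ω => W.gm k h ω y') ω ≤
      W.ph ν n g k ω y * W.ph ν n g k ω y' + (c1 + c2) := by
    calc _ ≤ cnd ν (W.S k) (fun ω => W.gm k h ω y) ω * (W.ph ν n g k ω y' + c2) := by
          gcongr; exact hX y'
      _ = cnd ν (W.S k) (fun ω => W.gm k h ω y) ω * W.ph ν n g k ω y' +
            cnd ν (W.S k) (fun ω => W.gm k h ω y) ω * c2 := mul_add _ _ _
      _ ≤ (W.ph ν n g k ω y + c1) * W.ph ν n g k ω y' + 1 * c2 := by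
          gcongr
          · exact hX y
          · exact hX1 y
      _ = W.ph ν n g k ω y * W.ph ν n g k ω y' + (c1 * W.ph ν n g k ω y' + c2) := by ring
      _ ≤ W.ph ν n g k ω y * W.ph ν n g k ω y' + (c1 * 1 + c2) := by
          gcongr; exact W.ph_le_one hg k ω y'
      _ = _ := by rw [mul_one]
  calc cnd ν (W.S k) (fun ω => W.U ν n g k ω y * W.U ν n g k ω y') ω
      ≤ cnd ν (W.S k) (fun ω => W.gm k h ω y * W.gm k h ω y' +
          (W.ee ν n g v k ω y + W.ee ν n g v k ω y')) ω := cnd_mono _ h1 ω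
    _ = cnd ν (W.S k) (fun ω => W.gm k h ω y * W.gm k h ω y') ω + (c1 + c2) := by
        rw [cnd_add (W.S k) (f := fun ω => W.gm k h ω y * W.gm k h ω y')
          (g := fun ω => W.ee ν n g v k ω y + W.ee ν n g v k ω y') ((hmX y).mul (hmX y')),
          cnd_add (W.S k) (f := fun ω => W.ee ν n g v k ω y)
            (g := fun ω => W.ee ν n g v k ω y') (hme y)]
    _ ≤ (W.ph ν n g k ω y * W.ph ν n g k ω y' + (c1 + c2)) + (c1 + c2) := by
        rw [h2]; gcongr
    _ = W.ph ν n g k ω y * W.ph ν n g k ω y' + 2 * (c1 + c2) := by ring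
    _ ≤ _ := by gcongr; norm_num

/-! ### the weighted walk and the second moment recursion -/

/-- weighted law of the walker at stage `k` -/
noncomputable def qw (x : Site d) (ω : Environment d) : ℕ → Site d → ℝ≥0∞
  | 0 => fun y => EK ω (W.S 0) x y
  | k + 1 => fun z => (∑' y, qw x ω k y * EK ω (W.S (k + 1)) y z) * W.χ (k + 1) z

lemma qw_le (x : Site d) (ω : Environment d) (k : ℕ) (y : Site d) :
    W.qw x ω k y ≤ EK ω (W.S k) x y := by
  induction k generalizing y with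
  | zero => exact le_rfl
  | succ k ih =>
    calc W.qw x ω (k + 1) y = (∑' y', W.qw x ω k y' * EK ω (W.S (k + 1)) y' y) * W.χ (k + 1) y :=
          rfl
      _ ≤ (∑' y', EK ω (W.S k) x y' * EK ω (W.S (k + 1)) y' y) * 1 := by
          gcongr with y'
          · exact ih y'
          · exact W.χ_le _ _
      _ = _ := by rw [mul_one, ← EK_comp ω (W.mono k) x y]

lemma tsum_qw_le (x : Site d) (ω : Environment d) (k : ℕ) : ∑' y, W.qw x ω k y ≤ 1 :=
  (ENNReal.tsum_le_tsum fun y => W.qw_le x ω k y).trans (tsum_EK_le ω _ x)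

lemma meas_qw (x : Site d) (k : ℕ) (y : Site d) :
    Measurable fun ω : Environment d => W.qw x ω k y := by
  induction k generalizing y with
  | zero => exact meas_EK _ _ _
  | succ k ih =>
    exact (Measurable.tsum fun y' => (ih y').mul (meas_EK _ _ _)).mul measurable_const

lemma locOn_qw (x : Site d) (k : ℕ) (y : Site d) :
    Q561.LocOn (W.S k) fun ω : Environment d => W.qw x ω k y := by
  induction k generalizing y with
  | zero => exact locOn_EK _ _ _
  | succ k ih =>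
    intro ω₁ ω₂ h
    show (∑' y', W.qw x ω₁ k y' * EK ω₁ (W.S (k + 1)) y' y) * W.χ (k + 1) y =
      (∑' y', W.qw x ω₂ k y' * EK ω₂ (W.S (k + 1)) y' y) * W.χ (k + 1) y
    congr 1
    refine tsum_congr fun y' => ?_
    have h1 : W.qw x ω₁ k y' = W.qw x ω₂ k y' := ih y' ω₁ ω₂ fun z hz => h z (W.mono k hz)
    have h2 : EK ω₁ (W.S (k + 1)) y' y = EK ω₂ (W.S (k + 1)) y' y := locOn_EK _ y' y ω₁ ω₂ h
    rw [h1, h2]

variable (ν) in
/-- the martingale -/
noncomputable def M (n : ℕ) (g : Site d → ℝ≥0∞) (x : Site d) (k : ℕ) (ω : Environment d) :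
    ℝ≥0∞ := ∑' y, W.qw x ω k y * W.ph ν n g k ω y

lemma meas_M (x : Site d) (k : ℕ) : Measurable (W.M ν n g x k) :=
  Measurable.tsum fun y => (W.meas_qw x k y).mul (W.meas_ph k y)

lemma M_succ (x : Site d) (k : ℕ) (ω : Environment d) :
    W.M ν n g x (k + 1) ω = ∑' y, W.qw x ω k y * W.U ν n g k ω y := by
  unfold M U
  simp_rw [← ENNReal.tsum_mul_left]
  rw [ENNReal.tsum_comm]
  refine tsum_congr fun z => ?_
  show (∑' y, W.qw x ω k y * EK ω (W.S (k + 1)) y z) * W.χ (k + 1) z * W.ph ν n g (k + 1) ω z = _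
  rw [← ENNReal.tsum_mul_right, ← ENNReal.tsum_mul_right]
  exact tsum_congr fun y => by ring

/-- the functional is the last value of the martingale -/
lemma sum_Gb (x : Site d) (ω : Environment d) {k : ℕ} (hk : k ≤ n) :
    ∑' y, W.qw x ω k y * W.Gb g ω (n - k) k y = ∑' y, W.qw x ω 0 y * W.Gb g ω n 0 y := by
  induction k with
  | zero => rfl
  | succ k ih =>
    rw [← ih (by omega)]
    obtain ⟨m, hm⟩ : ∃ m, n - k = m + 1 := ⟨n - k - 1, by omega⟩
    have h1 : n - (k + 1) = m := by omega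
    rw [hm, h1]
    show ∑' z, (∑' y, W.qw x ω k y * EK ω (W.S (k + 1)) y z) * W.χ (k + 1) z *
      W.Gb g ω m (k + 1) z = ∑' y, W.qw x ω k y *
        ∑' z, EK ω (W.S (k + 1)) y z * (W.χ (k + 1) z * W.Gb g ω m (k + 1) z)
    simp_rw [← ENNReal.tsum_mul_left, ← ENNReal.tsum_mul_right]
    rw [ENNReal.tsum_comm]
    exact tsum_congr fun y => tsum_congr fun z => by ring

lemma ph_last (ω : Environment d) (y : Site d) : W.ph ν n g n ω y = g y := by
  unfold ph
  rw [Nat.sub_self]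
  exact cnd_const _ _ _

lemma M_last (x : Site d) (ω : Environment d) (hx : x ∉ W.S 0) :
    W.M ν n g x n ω = W.Gb g ω n 0 x := by
  unfold M
  have h1 : ∀ y, W.qw x ω n y * W.ph ν n g n ω y = W.qw x ω n y * W.Gb g ω (n - n) n y := by
    intro y
    rw [W.ph_last, Nat.sub_self]
    rfl
  rw [tsum_congr h1, W.sum_Gb x ω le_rfl]
  show ∑' y, EK ω (W.S 0) x y * W.Gb g ω n 0 y = _
  rw [tsum_eq_single x]
  · rw [EK_notMem ω hx, Set.indicator_of_mem (Set.mem_singleton x), one_mul]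
  · intro z hz
    rw [EK_notMem ω hx, Set.indicator_of_notMem fun h => hz (Set.mem_singleton_iff.1 h), zero_mul]

lemma M_zero (x : Site d) (ω : Environment d) (hx : x ∉ W.S 0) :
    W.M ν n g x 0 ω = W.ph ν n g 0 ω x := by
  unfold M
  rw [tsum_eq_single x]
  · show EK ω (W.S 0) x x * _ = _
    rw [EK_notMem ω hx, Set.indicator_of_mem (Set.mem_singleton x), one_mul]
  · intro z hz
    show EK ω (W.S 0) x z * _ = _
    rw [EK_notMem ω hx, Set.indicator_of_notMem fun h => hz (Set.mem_singleton_iff.1 h), zero_mul]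

/-! ### the three annealed error terms -/

variable (ν) in
/-- `e1 k = ∫ ∑ y, q_k(y) |φ_k(y) - v_k(y)|`, unweighted walk -/
noncomputable def e1 (n : ℕ) (g : Site d → ℝ≥0∞) (v : ℕ → Site d → ℝ≥0∞) (x : Site d) (k : ℕ) :
    ℝ≥0∞ := ∫⁻ ω, ∑' y, EK ω (W.S k) x y * W.rho ν n g v k ω y ∂(iidEnvironmentLaw ν)

variable (ν) in
/-- `e2 k = ∫ ∑ y, q_k(y) lv k y`, unweighted walk -/
noncomputable def e2 (x : Site d) (k : ℕ) : ℝ≥0∞ :=
  ∫⁻ ω, ∑' y, EK ω (W.S k) x y * W.lv k ω y ∂(iidEnvironmentLaw ν)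

open Classical in
variable (ν) in
/-- the near pairs, unweighted walk -/
noncomputable def NN (x : Site d) (k : ℕ) : ℝ≥0∞ :=
  ∫⁻ ω, ∑' y, ∑' y', (if Disjoint (W.C k y) (W.C k y') then 0
    else EK ω (W.S k) x y * EK ω (W.S k) x y') ∂(iidEnvironmentLaw ν)

lemma rr_sum (x : Site d) (k : ℕ) (ω : Environment d) :
    ∑' y, EK ω (W.S k) x y * W.rr ν n g v k ω y =
      ∑' z, EK ω (W.S (k + 1)) x z * W.rho ν n g v (k + 1) ω z := by
  unfold rr
  simp_rw [EK_comp ω (W.mono k) x, ← ENNReal.tsum_mul_left, ← ENNReal.tsum_mul_right]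
  rw [ENNReal.tsum_comm]
  exact tsum_congr fun z => tsum_congr fun y => by ring

open Classical in
/-- conditional second moment of one step, pointwise -/
theorem cnd_sq_le (hg : ∀ z, g z ≤ 1) (hv : ∀ k z, v k z ≤ 1) (hL : W.Lip n v β) (x : Site d)
    {k : ℕ} (hk : k < n) (ω : Environment d) :
    cnd ν (W.S k) (fun ω => W.M ν n g x (k + 1) ω ^ 2) ω ≤
      W.M ν n g x k ω ^ 2 +
      β k ^ 2 * (∑' y, ∑' y', (if Disjoint (W.C k y) (W.C k y') then 0
        else EK ω (W.S k) x y * EK ω (W.S k) x y')) +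
      6 * cnd ν (W.S k) (fun ω => ∑' y, EK ω (W.S k) x y * W.ee ν n g v k ω y) ω +
      ∑' y, EK ω (W.S k) x y * W.rho ν n g v k ω y := by
  have hmU : ∀ z, Measurable fun ω => W.U ν n g k ω z := W.meas_U k
  have hme : ∀ z, Measurable fun ω => W.ee ν n g v k ω z := W.meas_ee k
  have hq := W.meas_qw x k
  have hql := W.locOn_qw x k
  -- expansion
  have e1 : (fun ω => W.M ν n g x (k + 1) ω ^ 2) = fun ω => ∑' y, ∑' y',
      (W.qw x ω k y * W.qw x ω k y') * (W.U ν n g k ω y * W.U ν n g k ω y') := by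
    funext ω
    rw [W.M_succ, sq, ← ENNReal.tsum_mul_right]
    refine tsum_congr fun y => ?_
    rw [← ENNReal.tsum_mul_left]
    exact tsum_congr fun y' => by ring
  have e2 : cnd ν (W.S k) (fun ω => W.M ν n g x (k + 1) ω ^ 2) ω = ∑' y, ∑' y',
      (W.qw x ω k y * W.qw x ω k y') *
        cnd ν (W.S k) (fun ω => W.U ν n g k ω y * W.U ν n g k ω y') ω := by
    rw [e1, cnd_tsum (W.S k) (f := fun y ω => ∑' y', (W.qw x ω k y * W.qw x ω k y') *
      (W.U ν n g k ω y * W.U ν n g k ω y'))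
      (fun y => Measurable.tsum fun y' => ((hq y).mul (hq y')).mul ((hmU y).mul (hmU y')))]
    refine tsum_congr fun y => ?_
    rw [cnd_tsum (W.S k) (f := fun y' ω => (W.qw x ω k y * W.qw x ω k y') *
      (W.U ν n g k ω y * W.U ν n g k ω y'))
      (fun y' => ((hq y).mul (hq y')).mul ((hmU y).mul (hmU y')))]
    refine tsum_congr fun y' => ?_
    refine cnd_pull (S := W.S k) (w := fun ω => W.qw x ω k y * W.qw x ω k y') ?_
      ((hmU y).mul (hmU y')) ω
    intro ω₁ ω₂ h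
    have h1 : W.qw x ω₁ k y = W.qw x ω₂ k y := hql y ω₁ ω₂ h
    have h2 : W.qw x ω₁ k y' = W.qw x ω₂ k y' := hql y' ω₁ ω₂ h
    show W.qw x ω₁ k y * W.qw x ω₁ k y' = W.qw x ω₂ k y * W.qw x ω₂ k y'
    rw [h1, h2]
  -- abbreviations
  set c : Site d → ℝ≥0∞ := fun y => cnd ν (W.S k) (fun ω => W.ee ν n g v k ω y) ω with hc
  set q : Site d → ℝ≥0∞ := fun y => W.qw x ω k y with hqq
  set p : Site d → ℝ≥0∞ := fun y => EK ω (W.S k) x y with hpp
  set φ : Site d → ℝ≥0∞ := fun y => W.ph ν n g k ω y with hφ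
  set ρ : Site d → ℝ≥0∞ := fun y => W.rho ν n g v k ω y with hρ
  have hqp : ∀ y, q y ≤ p y := W.qw_le x ω k
  have hq1 : ∑' y, q y ≤ 1 := W.tsum_qw_le x ω k
  have hpair : ∀ y y', (q y * q y') *
      cnd ν (W.S k) (fun ω => W.U ν n g k ω y * W.U ν n g k ω y') ω ≤
      (q y * φ y) * (q y' * φ y') + β k ^ 2 * (if Disjoint (W.C k y) (W.C k y') then 0
        else p y * p y') + 3 * ((q y * c y) * q y' + q y * (q y' * c y')) + (q y * ρ y) * q y' := by
    intro y y'
    by_cases hd : Disjoint (W.C k y) (W.C k y')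
    · rw [if_pos hd, mul_zero, add_zero]
      calc (q y * q y') * cnd ν (W.S k) (fun ω => W.U ν n g k ω y * W.U ν n g k ω y') ω
          ≤ (q y * q y') * (φ y * φ y' + 3 * (c y + c y')) := by
            gcongr; exact W.pair_far hg hv hk ω y y' hd
        _ = (q y * φ y) * (q y' * φ y') + 3 * ((q y * c y) * q y' + q y * (q y' * c y')) := by ring
        _ ≤ _ := le_self_add
    · rw [if_neg hd]
      calc (q y * q y') * cnd ν (W.S k) (fun ω => W.U ν n g k ω y * W.U ν n g k ω y') ω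
          ≤ (q y * q y') * (φ y * φ y' + β k ^ 2 + 3 * (c y + c y') + ρ y) := by
            gcongr; exact W.pair_near hg hv hL hk ω y y'
        _ = (q y * φ y) * (q y' * φ y') + β k ^ 2 * (q y * q y') +
              3 * ((q y * c y) * q y' + q y * (q y' * c y')) + (q y * ρ y) * q y' := by ring
        _ ≤ _ := by gcongr <;> exact hqp _
  rw [e2]
  -- sum over the pairs
  calc ∑' y, ∑' y', (q y * q y') *
        cnd ν (W.S k) (fun ω => W.U ν n g k ω y * W.U ν n g k ω y') ω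
      ≤ ∑' y, ∑' y', ((q y * φ y) * (q y' * φ y') +
          β k ^ 2 * (if Disjoint (W.C k y) (W.C k y') then 0 else p y * p y') +
          3 * ((q y * c y) * q y' + q y * (q y' * c y')) + (q y * ρ y) * q y') :=
        ENNReal.tsum_le_tsum fun y => ENNReal.tsum_le_tsum fun y' => hpair y y'
    _ = (∑' y, q y * φ y) * (∑' y, q y * φ y) +
          β k ^ 2 * (∑' y, ∑' y', (if Disjoint (W.C k y) (W.C k y') then 0 else p y * p y')) +
          3 * ((∑' y, q y * c y) * (∑' y, q y) + (∑' y, q y) * (∑' y, q y * c y)) +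
          (∑' y, q y * ρ y) * (∑' y, q y) := by
        simp only [ENNReal.tsum_add, ENNReal.tsum_mul_left, ENNReal.tsum_mul_right]
    _ ≤ (∑' y, q y * φ y) * (∑' y, q y * φ y) +
          β k ^ 2 * (∑' y, ∑' y', (if Disjoint (W.C k y) (W.C k y') then 0 else p y * p y')) +
          3 * ((∑' y, p y * c y) * 1 + 1 * (∑' y, p y * c y)) + (∑' y, p y * ρ y) * 1 := by
        gcongr with y y y <;> exact hqp _
    _ = _ := by
        have h6 : cnd ν (W.S k) (fun ω => ∑' y, EK ω (W.S k) x y * W.ee ν n g v k ω y) ω =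
            ∑' y, p y * c y := by
          rw [cnd_tsum (W.S k) (f := fun y ω => EK ω (W.S k) x y * W.ee ν n g v k ω y)
            (fun y => (meas_EK _ _ _).mul (hme y))]
          exact tsum_congr fun y => cnd_pull (w := fun ω => EK ω (W.S k) x y)
            (f := fun ω => W.ee ν n g v k ω y) (locOn_EK _ x y) (hme y) ω
        rw [h6]
        have h7 : W.M ν n g x k ω = ∑' y, q y * φ y := rfl
        rw [h7]
        ring

/-- one step of the second moment recursion -/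
theorem sq_step (hg : ∀ z, g z ≤ 1) (hv : ∀ k z, v k z ≤ 1) (hL : W.Lip n v β) (x : Site d)
    {k : ℕ} (hk : k < n) :
    ∫⁻ ω, W.M ν n g x (k + 1) ω ^ 2 ∂(iidEnvironmentLaw ν) ≤
      ∫⁻ ω, W.M ν n g x k ω ^ 2 ∂(iidEnvironmentLaw ν) +
      (β k ^ 2 * W.NN ν x k + 6 * (W.e2 ν x k + W.e1 ν n g v x (k + 1)) + W.e1 ν n g v x k) := by
  classical
  have hmM : ∀ j, Measurable fun ω => W.M ν n g x j ω ^ 2 := fun j => (W.meas_M x j).pow_const 2
  have hmE : Measurable fun ω => ∑' y, EK ω (W.S k) x y * W.ee ν n g v k ω y :=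
    Measurable.tsum fun y => (meas_EK _ _ _).mul (W.meas_ee k y)
  have hmN : Measurable fun ω : Environment d => ∑' y, ∑' y',
      (if Disjoint (W.C k y) (W.C k y') then 0 else EK ω (W.S k) x y * EK ω (W.S k) x y') := by
    refine Measurable.tsum fun y => Measurable.tsum fun y' => ?_
    by_cases hd : Disjoint (W.C k y) (W.C k y')
    · simp only [if_pos hd]; exact measurable_const
    · simp only [if_neg hd]; exact (meas_EK _ _ _).mul (meas_EK _ _ _)
  have hmR : Measurable fun ω => ∑' y, EK ω (W.S k) x y * W.rho ν n g v k ω y :=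
    Measurable.tsum fun y => (meas_EK _ _ _).mul (W.meas_rho k y)
  have hee : ∫⁻ ω, cnd ν (W.S k) (fun ω => ∑' y, EK ω (W.S k) x y * W.ee ν n g v k ω y) ω
      ∂(iidEnvironmentLaw ν) = W.e2 ν x k + W.e1 ν n g v x (k + 1) := by
    rw [lint_cnd_one hmE]
    unfold e2 e1
    have hmL : Measurable fun ω : Environment d => ∑' y, EK ω (W.S k) x y * W.lv k ω y :=
      Measurable.tsum fun y => (meas_EK _ _ _).mul (W.meas_lv k y)
    rw [← lintegral_add_left hmL]
    refine lintegral_congr fun ω => ?_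
    rw [← W.rr_sum x k ω, ← ENNReal.tsum_add]
    exact tsum_congr fun y => mul_add _ _ _
  calc ∫⁻ ω, W.M ν n g x (k + 1) ω ^ 2 ∂(iidEnvironmentLaw ν)
      = ∫⁻ ω, cnd ν (W.S k) (fun ω => W.M ν n g x (k + 1) ω ^ 2) ω ∂(iidEnvironmentLaw ν) :=
        (lint_cnd_one (hmM (k + 1))).symm
    _ ≤ ∫⁻ ω, (W.M ν n g x k ω ^ 2 +
      β k ^ 2 * (∑' y, ∑' y', (if Disjoint (W.C k y) (W.C k y') then 0
        else EK ω (W.S k) x y * EK ω (W.S k) x y')) +
      6 * cnd ν (W.S k) (fun ω => ∑' y, EK ω (W.S k) x y * W.ee ν n g v k ω y) ω +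
      ∑' y, EK ω (W.S k) x y * W.rho ν n g v k ω y) ∂(iidEnvironmentLaw ν) :=
        lintegral_mono fun ω => W.cnd_sq_le hg hv hL x hk ω
    _ = _ := by
        rw [lintegral_add_right _ hmR, lintegral_add_right _ ((meas_cnd _ hmE).const_mul 6),
          lintegral_add_right _ (hmN.const_mul _), lintegral_const_mul _ hmN,
          lintegral_const_mul _ (meas_cnd _ hmE), hee]
        unfold NN e1
        ring

/-- **quenched variance theorem** -/
theorem qv (hg : ∀ z, g z ≤ 1) (hv : ∀ k z, v k z ≤ 1) (hL : W.Lip n v β) {x : Site d}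
    (hx : x ∉ W.S 0) :
    ∫⁻ ω, W.Gb g ω n 0 x ^ 2 ∂(iidEnvironmentLaw ν) ≤
      (∫⁻ ω, W.Gb g ω n 0 x ∂(iidEnvironmentLaw ν)) ^ 2 +
      ∑ k ∈ Finset.range n, (β k ^ 2 * W.NN ν x k +
        6 * (W.e2 ν x k + W.e1 ν n g v x (k + 1)) + W.e1 ν n g v x k) +
      2 * W.e1 ν n g v x 0 := by
  have h1 : ∀ m ≤ n, ∫⁻ ω, W.M ν n g x m ω ^ 2 ∂(iidEnvironmentLaw ν) ≤
      ∫⁻ ω, W.M ν n g x 0 ω ^ 2 ∂(iidEnvironmentLaw ν) +
      ∑ k ∈ Finset.range m, (β k ^ 2 * W.NN ν x k +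
        6 * (W.e2 ν x k + W.e1 ν n g v x (k + 1)) + W.e1 ν n g v x k) := by
    intro m
    induction m with
    | zero => intro _; simp
    | succ m ih =>
      intro hm
      refine (W.sq_step hg hv hL x (by omega)).trans ?_
      rw [Finset.sum_range_succ]
      refine le_trans (add_le_add (ih (by omega)) le_rfl) (le_of_eq ?_)
      ring
  have h2 : ∀ ω, W.M ν n g x n ω = W.Gb g ω n 0 x := fun ω => W.M_last x ω hx
  have h3 : ∀ ω, W.M ν n g x 0 ω = W.ph ν n g 0 ω x := fun ω => W.M_zero x ω hx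
  have hm0 : Measurable fun ω => W.ph ν n g 0 ω x := W.meas_ph 0 x
  have hmr : Measurable fun ω => W.rho ν n g v 0 ω x := W.meas_rho 0 x
  -- the mean
  have h4 : ∫⁻ ω, W.ph ν n g 0 ω x ∂(iidEnvironmentLaw ν) =
      ∫⁻ ω, W.Gb g ω n 0 x ∂(iidEnvironmentLaw ν) := by
    unfold ph
    rw [lint_cnd_one (W.meas_Gb _ _ _), Nat.sub_zero]
  have h5 : ∫⁻ ω, W.rho ν n g v 0 ω x ∂(iidEnvironmentLaw ν) = W.e1 ν n g v x 0 := by
    unfold e1
    refine lintegral_congr fun ω => ?_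
    rw [tsum_eq_single x]
    · rw [EK_notMem ω hx, Set.indicator_of_mem (Set.mem_singleton x), one_mul]
    · intro z hz
      rw [EK_notMem ω hx, Set.indicator_of_notMem fun h => hz (Set.mem_singleton_iff.1 h), zero_mul]
  set m0 := ∫⁻ ω, W.Gb g ω n 0 x ∂(iidEnvironmentLaw ν) with hm0'
  have hm01 : m0 ≤ 1 := by
    rw [← h4]
    calc ∫⁻ ω, W.ph ν n g 0 ω x ∂(iidEnvironmentLaw ν)
        ≤ ∫⁻ _, 1 ∂(iidEnvironmentLaw ν) := lintegral_mono fun ω => W.ph_le_one hg 0 ω x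
      _ = 1 := by simp
  -- second moment at stage 0
  have h6 : ∫⁻ ω, W.M ν n g x 0 ω ^ 2 ∂(iidEnvironmentLaw ν) ≤ m0 ^ 2 + 2 * W.e1 ν n g v x 0 := by
    have hv0 : v 0 x ≤ m0 + W.e1 ν n g v x 0 := by
      have : v 0 x = ∫⁻ _, v 0 x ∂(iidEnvironmentLaw ν) := by simp
      rw [this, ← h4, ← h5, ← lintegral_add_left hm0]
      exact lintegral_mono fun ω => le_add_AD' _ _
    calc ∫⁻ ω, W.M ν n g x 0 ω ^ 2 ∂(iidEnvironmentLaw ν)
        = ∫⁻ ω, W.ph ν n g 0 ω x * W.ph ν n g 0 ω x ∂(iidEnvironmentLaw ν) := by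
          refine lintegral_congr fun ω => ?_
          rw [h3, sq]
      _ ≤ ∫⁻ ω, (v 0 x * W.ph ν n g 0 ω x + W.rho ν n g v 0 ω x) ∂(iidEnvironmentLaw ν) := by
          refine lintegral_mono fun ω => ?_
          calc W.ph ν n g 0 ω x * W.ph ν n g 0 ω x
              ≤ (v 0 x + W.rho ν n g v 0 ω x) * W.ph ν n g 0 ω x := by
                gcongr; exact le_add_AD _ _
            _ = v 0 x * W.ph ν n g 0 ω x + W.rho ν n g v 0 ω x * W.ph ν n g 0 ω x := add_mul _ _ _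
            _ ≤ v 0 x * W.ph ν n g 0 ω x + W.rho ν n g v 0 ω x * 1 := by
                gcongr; exact W.ph_le_one hg 0 ω x
            _ = _ := by rw [mul_one]
      _ = v 0 x * m0 + W.e1 ν n g v x 0 := by
          rw [lintegral_add_right _ hmr, lintegral_const_mul _ hm0, h4, h5]
      _ ≤ (m0 + W.e1 ν n g v x 0) * m0 + W.e1 ν n g v x 0 := by gcongr
      _ = m0 ^ 2 + W.e1 ν n g v x 0 * m0 + W.e1 ν n g v x 0 := by ring
      _ ≤ m0 ^ 2 + W.e1 ν n g v x 0 * 1 + W.e1 ν n g v x 0 := by gcongr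
      _ = _ := by ring
  calc ∫⁻ ω, W.Gb g ω n 0 x ^ 2 ∂(iidEnvironmentLaw ν)
      = ∫⁻ ω, W.M ν n g x n ω ^ 2 ∂(iidEnvironmentLaw ν) :=
        lintegral_congr fun ω => by rw [h2]
    _ ≤ _ := h1 n le_rfl
    _ ≤ (m0 ^ 2 + 2 * W.e1 ν n g v x 0) + ∑ k ∈ Finset.range n, (β k ^ 2 * W.NN ν x k +
        6 * (W.e2 ν x k + W.e1 ν n g v x (k + 1)) + W.e1 ν n g v x k) := by gcongr
    _ = _ := by ring

end Win

/-! ### consequences of a variance bound -/

section cons
variable {Ω : Type*} [MeasurableSpace Ω] {P : Measure Ω} [IsProbabilityMeasure P]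

lemma AD_sq {a m : ℝ≥0∞} (ha : a ≠ ⊤) (hm : m ≠ ⊤) : AD a m ^ 2 + 2 * m * a = a ^ 2 + m ^ 2 := by
  lift a to ℝ≥0 using ha
  lift m to ℝ≥0 using hm
  unfold AD
  rcases le_total a m with h | h
  · have e : ((a : ℝ≥0∞) - m) = 0 := tsub_eq_zero_of_le (by exact_mod_cast h)
    obtain ⟨t, rfl⟩ := exists_add_of_le h
    rw [e, zero_add]
    have e2 : (((a + t : ℝ≥0) : ℝ≥0∞) - a) = t := by
      rw [ENNReal.coe_add]
      exact ENNReal.add_sub_cancel_left ENNReal.coe_ne_top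
    rw [e2, ENNReal.coe_add]
    ring
  · have e : ((m : ℝ≥0∞) - a) = 0 := tsub_eq_zero_of_le (by exact_mod_cast h)
    obtain ⟨t, rfl⟩ := exists_add_of_le h
    rw [e, add_zero]
    have e2 : (((m + t : ℝ≥0) : ℝ≥0∞) - m) = t := by
      rw [ENNReal.coe_add]
      exact ENNReal.add_sub_cancel_left ENNReal.coe_ne_top
    rw [e2, ENNReal.coe_add]
    ring

/-- variance in `ℝ≥0∞` -/
theorem var_le {f : Ω → ℝ≥0∞} (hf : Measurable f) (h1 : ∀ ω, f ω ≤ 1) {E : ℝ≥0∞}
    (h : ∫⁻ ω, f ω ^ 2 ∂P ≤ (∫⁻ ω, f ω ∂P) ^ 2 + E) :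
    ∫⁻ ω, AD (f ω) (∫⁻ ω, f ω ∂P) ^ 2 ∂P ≤ E := by
  set m := ∫⁻ ω, f ω ∂P with hm
  have hm1 : m ≤ 1 := by
    calc m ≤ ∫⁻ _, 1 ∂P := lintegral_mono h1
      _ = 1 := by simp
  have hmt : m ≠ ⊤ := ne_top_of_le_ne_top ENNReal.one_ne_top hm1
  have hft : ∀ ω, f ω ≠ ⊤ := fun ω => ne_top_of_le_ne_top ENNReal.one_ne_top (h1 ω)
  have hmAD : Measurable fun ω => AD (f ω) m ^ 2 :=
    ((hf.sub measurable_const).add (measurable_const.sub hf)).pow_const 2
  have e1 : ∫⁻ ω, AD (f ω) m ^ 2 ∂P + 2 * m * m = ∫⁻ ω, f ω ^ 2 ∂P + m ^ 2 := by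
    have e2 : ∫⁻ ω, 2 * m * f ω ∂P = 2 * m * m := lintegral_const_mul _ hf
    have e3 : ∫⁻ _ : Ω, m ^ 2 ∂P = m ^ 2 := by simp
    rw [← e2, ← lintegral_add_left hmAD]
    conv_rhs => rw [← e3]
    rw [← lintegral_add_left (hf.pow_const 2)]
    exact lintegral_congr fun ω => AD_sq (hft ω) hmt
  have h2 : ∫⁻ ω, AD (f ω) m ^ 2 ∂P + 2 * m * m ≤ E + 2 * m * m := by
    rw [e1]
    calc ∫⁻ ω, f ω ^ 2 ∂P + m ^ 2 ≤ m ^ 2 + E + m ^ 2 := by gcongr
      _ = _ := by ring
  exact (ENNReal.add_le_add_iff_right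
    (ENNReal.mul_ne_top (ENNReal.mul_ne_top ENNReal.ofNat_ne_top hmt) hmt)).1 h2

/-- Chebyshev -/
theorem cheb {f : Ω → ℝ≥0∞} (hf : Measurable f) (h1 : ∀ ω, f ω ≤ 1) {E c : ℝ≥0∞}
    (h : ∫⁻ ω, f ω ^ 2 ∂P ≤ (∫⁻ ω, f ω ∂P) ^ 2 + E) (hc : 2 * c ≤ ∫⁻ ω, f ω ∂P) :
    c ^ 2 * P {ω | f ω < c} ≤ E := by
  refine le_trans ?_ (var_le hf h1 h)
  set m := ∫⁻ ω, f ω ∂P
  have hms : MeasurableSet {ω | f ω < c} := measurableSet_lt hf measurable_const
  rw [← setLIntegral_const, ← lintegral_indicator hms]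
  refine lintegral_mono fun ω => ?_
  by_cases hω : ω ∈ {ω | f ω < c}
  · rw [Set.indicator_of_mem hω]
    have hlt : f ω < c := hω
    have : c ≤ AD (f ω) m := by
      refine le_trans ?_ (le_add_of_nonneg_left zero_le : m - f ω ≤ AD (f ω) m)
      refine ENNReal.le_sub_of_add_le_left
        (ne_top_of_le_ne_top ENNReal.one_ne_top (h1 ω)) ?_
      calc f ω + c ≤ c + c := by gcongr
        _ = 2 * c := (two_mul c).symm
        _ ≤ m := hc
    gcongr
  · rw [Set.indicator_of_notMem hω]; exact zero_le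

/-- deviation -/
theorem dev {f : Ω → ℝ≥0∞} (hf : Measurable f) (h1 : ∀ ω, f ω ≤ 1) {E t : ℝ≥0∞}
    (h : ∫⁻ ω, f ω ^ 2 ∂P ≤ (∫⁻ ω, f ω ∂P) ^ 2 + E) :
    t ^ 2 * P {ω | t ≤ AD (f ω) (∫⁻ ω, f ω ∂P)} ≤ E := by
  refine le_trans ?_ (var_le hf h1 h)
  set m := ∫⁻ ω, f ω ∂P
  have hmAD : Measurable fun ω => AD (f ω) m :=
    (hf.sub measurable_const).add (measurable_const.sub hf)
  have hms : MeasurableSet {ω | t ≤ AD (f ω) m} := measurableSet_le measurable_const hmAD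
  rw [← setLIntegral_const, ← lintegral_indicator hms]
  refine lintegral_mono fun ω => ?_
  by_cases hω : ω ∈ {ω | t ≤ AD (f ω) m}
  · rw [Set.indicator_of_mem hω]
    have hlt : t ≤ AD (f ω) m := hω
    gcongr
  · rw [Set.indicator_of_notMem hω]; exact zero_le

/-- `L¹` form: `∫ |f - E f| ≤ t + E / t` -/
theorem l1_le {f : Ω → ℝ≥0∞} (hf : Measurable f) (h1 : ∀ ω, f ω ≤ 1) {E t : ℝ≥0∞}
    (ht : t ≠ 0) (ht' : t ≠ ⊤)
    (h : ∫⁻ ω, f ω ^ 2 ∂P ≤ (∫⁻ ω, f ω ∂P) ^ 2 + E) :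
    ∫⁻ ω, AD (f ω) (∫⁻ ω, f ω ∂P) ∂P ≤ t + E / t := by
  have hv := var_le hf h1 h
  set m := ∫⁻ ω, f ω ∂P
  have hmAD : Measurable fun ω => AD (f ω) m :=
    (hf.sub measurable_const).add (measurable_const.sub hf)
  calc ∫⁻ ω, AD (f ω) m ∂P ≤ ∫⁻ ω, (t + AD (f ω) m ^ 2 * t⁻¹) ∂P := by
        refine lintegral_mono fun ω => ?_
        rcases le_total (AD (f ω) m) t with h | h
        · exact h.trans le_self_add
        · refine le_trans ?_ (le_add_of_nonneg_left zero_le)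
          calc AD (f ω) m = AD (f ω) m * 1 := (mul_one _).symm
            _ = AD (f ω) m * (t * t⁻¹) := by rw [ENNReal.mul_inv_cancel ht ht']
            _ = (AD (f ω) m * t) * t⁻¹ := by ring
            _ ≤ (AD (f ω) m * AD (f ω) m) * t⁻¹ := by gcongr
            _ = _ := by rw [sq]
    _ = t + (∫⁻ ω, AD (f ω) m ^ 2 ∂P) * t⁻¹ := by
        rw [lintegral_add_left measurable_const, lintegral_mul_const _ (hmAD.pow_const 2)]
        simp
    _ ≤ t + E * t⁻¹ := by gcongr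
    _ = _ := by rw [ENNReal.div_eq_inv_mul, mul_comm]

end cons

end Crest.Agent.R154.QV766
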