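import Crest.Agent.R154.D2WB_36
import Crest.Agent.R154.FEk_9
import Crest.Agent.R154.Hit2_569
import Crest.Agent.R154.QV_766

/-!
# Row 154, `d = 2`, D2.9-END, part C (helper36): 766's quenched variance theorem on the grid
-/

set_option autoImplicit false
set_option linter.unusedVariables false
set_option linter.unusedSectionVars false

namespace Crest.Agent.R154.D2V36

open MeasureTheory ProbabilityTheory Crest.ProbabilityR.RandomEnvironment Crest.Agent.R154
open Crest.Agent.R154.Flux132 (lev)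
open Crest.Agent.R154.ExK9 Crest.Agent.R154.Resamp9
open Crest.Agent.R154.River916 (Ev)
open Crest.Agent.R154.P2916 (sl)
open Crest.Agent.R154.FEk9 (wE wG wE_le_one wG_mem cutL cutχ)
open scoped ENNReal

variable {u : Step 2} {i : Fin 2} {θ : ℝ} {ν : Measure (Row 2)} [IsProbabilityMeasure ν]
variable {m : ℕ} {lvl : ℕ → ℕ} {kk : Fin m → ℕ} {χ : Fin m → Site 2 → ℝ}

lemma wG_eq (k : ℕ) (z : Site 2) : wG χ kk k z = Wt kk χ k z := by
  unfold wG Wt
  rw [Finset.prod_filter]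

/-- 36's product `Ph` is a cut functional of the kit -/
lemma PX_cut (hl : Monotone lvl) (k : ℕ) (X : Path 2) :
    PX u (cutL (fun j => lvl (kk j)) (lvl k)) (cutχ χ kk k) X = Ph lvl kk χ u k X := by
  unfold PX Ph
  refine Finset.prod_congr rfl fun j _ => ?_
  unfold cutχ cutL
  by_cases h : k < kk j
  · rw [if_pos h, if_pos h, max_eq_left (hl h.le)]
  · rw [if_neg h, if_neg h]

lemma FE_cut_Fk (hl : Monotone lvl) (hχ : ∀ j z, 0 ≤ χ j z ∧ χ j z ≤ 1) (k : ℕ)
    (ω : Environment 2) (y : Site 2) :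
    FE u (cutL (fun j => lvl (kk j)) (lvl k)) (cutχ χ kk k) ω y =
      (Fk lvl kk χ u k ω y).toReal := by
  rw [FEk9.FE_eq_lint (FEk9.cutχ_mem hχ kk k)]
  unfold Fk
  congr 1
  exact lintegral_congr fun X => by rw [PX_cut hl]

/-- the annealed mean of the cut functional -/
lemma int_FE_cut (hl : Monotone lvl) (hχ : ∀ j z, 0 ≤ χ j z ∧ χ j z ≤ 1) (k : ℕ) (y : Site 2) :
    ∫ ω, FE u (cutL (fun j => lvl (kk j)) (lvl k)) (cutχ χ kk k) ω y ∂(iidEnvironmentLaw ν) =
      vk lvl kk χ u ν k y := by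
  simp_rw [FE_cut_Fk hl hχ]
  rw [integral_toReal (measurable_Fk k y).aemeasurable
    (Filter.Eventually.of_forall fun ω =>
      lt_of_le_of_lt (Fk_le_one hχ k ω y) ENNReal.one_lt_top), lint_Fk hχ,
    ENNReal.toReal_ofReal (vk_mem hχ k y).1]

variable (u i θ) in
/-- fresh windows of the grid -/
noncomputable def WW (hl : Monotone lvl) (kk : Fin m → ℕ) (hχ : ∀ j z, 0 ≤ χ j z ∧ χ j z ≤ 1)
    (r : ℝ) : QV766.Win 2 where
  S := fun k => if k = 0 then ∅ else Sb u (lvl k)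
  mono := fun k => by
    by_cases h : k = 0
    · rw [if_pos h]; exact Set.empty_subset _
    · rw [if_neg h, if_neg (Nat.succ_ne_zero k)]
      exact Sb_mono (hl (Nat.le_succ k))
  C := fun k y => {z | lev u z < (lvl (k + 1) : ℤ) ∧ (k ≠ 0 → (lvl k : ℤ) ≤ lev u z) ∧
    |sl u i θ z - sl u i θ y| ≤ r}
  CS := fun k y z hz => by
    rw [if_neg (Nat.succ_ne_zero k)]
    exact hz.1
  G := fun k y => {z | lev u y = (lvl k : ℤ) ∧ lev u z = (lvl (k + 1) : ℤ) ∧
    |sl u i θ z - sl u i θ y| ≤ r + (1 + |θ|)}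
  GS := fun k y z hz h => by
    rw [if_neg (Nat.succ_ne_zero k)] at h
    have h1 : lev u z < (lvl (k + 1) : ℤ) := h
    have h2 := hz.2.1
    omega
  χ := wE χ kk
  χ_le := wE_le_one hχ kk

variable {hl : Monotone lvl} {hχ : ∀ j z, 0 ≤ χ j z ∧ χ j z ≤ 1} {r : ℝ}

lemma WW_S {k : ℕ} (hk : k ≠ 0) : (WW u i θ hl kk hχ r).S k = Sb u (lvl k) := by
  show (if k = 0 then (∅ : Set (Site 2)) else Sb u (lvl k)) = _
  rw [if_neg hk]

lemma WW_S0 : (WW u i θ hl kk hχ r).S 0 = ∅ := by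
  show (if (0 : ℕ) = 0 then (∅ : Set (Site 2)) else Sb u (lvl 0)) = _
  rw [if_pos rfl]

lemma WW_Gb (ω : Environment 2) (p k : ℕ) (y : Site 2) :
    (WW u i θ hl kk hχ r).Gb (fun _ => 1) ω p k y =
      FEk9.Gb (fun k => Sb u (lvl k)) (wE χ kk) (fun _ => 1) ω p k y := by
  induction p generalizing k y with
  | zero => rfl
  | succ p ih =>
    show ∑' z, EK ω ((WW u i θ hl kk hχ r).S (k + 1)) y z *
      (wE χ kk (k + 1) z * (WW u i θ hl kk hχ r).Gb (fun _ => 1) ω p (k + 1) z) =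
      ∑' z, EK ω (Sb u (lvl (k + 1))) y z *
      (wE χ kk (k + 1) z * FEk9.Gb (fun k => Sb u (lvl k)) (wE χ kk) (fun _ => 1) ω p (k + 1) z)
    rw [WW_S (Nat.succ_ne_zero k)]
    exact tsum_congr fun z => by rw [ih]

/-! ### (L) -/

theorem WW_lip (hH : HitP u ν) {n : ℕ} {w : ℝ} (hw : 0 < w)
    (hLip : ∀ j z z', |χ j z - χ j z'| ≤ |sl u i θ z - sl u i θ z'| / w)
    {h : ℕ} {δ b : ℝ} (hr : 0 ≤ r) (hδ0 : 0 ≤ δ)
    (hδ : ∀ k < n, ∀ t, pb u i θ (iidEnvironmentLaw ν) t (lvl (k + 1) - lvl k) h r ≤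
      ENNReal.ofReal δ)
    (hb : m * ((r + (1 + |θ|) + (r + (1 + |θ|))) / w + δ) ≤ b) (hb1 : b ≤ 1) :
    (WW u i θ hl kk hχ r).Lip n (fun k y => ENNReal.ofReal (vk lvl kk χ u ν k y))
      (fun _ => ENNReal.ofReal b) := by
  have hθ := abs_nonneg θ
  have hb0 : 0 ≤ b := le_trans (by positivity) hb
  have key : ∀ k < n, ∀ y, ∀ z ∈ (WW u i θ hl kk hχ r).G k y,
      |Wt kk χ (k + 1) z * vk lvl kk χ u ν (k + 1) z - vk lvl kk χ u ν k y| ≤ b := by
    intro k hk y z hz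
    exact (vk_lip hH hl hχ hw hLip hr hδ0 (hδ k hk) hz.1 hz.2.1 hz.2.2).trans hb
  refine ⟨fun _ => by rw [← ENNReal.ofReal_one]; exact ENNReal.ofReal_le_ofReal hb1, ?_, ?_⟩
  · intro k hk y z hz
    show wE χ kk (k + 1) z * ENNReal.ofReal (vk lvl kk χ u ν (k + 1) z) ≤ _
    unfold wE
    rw [wG_eq, ← ENNReal.ofReal_mul (Wt_mem hχ _ _).1,
      ← ENNReal.ofReal_add (vk_mem hχ k y).1 hb0]
    refine ENNReal.ofReal_le_ofReal ?_
    have := (abs_le.1 (key k hk y z hz)).2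
    linarith
  · intro k hk y z hz
    show _ ≤ wE χ kk (k + 1) z * ENNReal.ofReal (vk lvl kk χ u ν (k + 1) z) + _
    unfold wE
    rw [wG_eq, ← ENNReal.ofReal_mul (Wt_mem hχ _ _).1,
      ← ENNReal.ofReal_add (mul_nonneg (Wt_mem hχ _ _).1 (vk_mem hχ _ _).1) hb0]
    refine ENNReal.ofReal_le_ofReal ?_
    have := (abs_le.1 (key k hk y z hz)).1
    linarith

/-! ### `e1` -/

theorem WW_e1 (hH : HitP u ν) {n k : ℕ} (hk0 : k ≠ 0) (hk : k ≤ n) (hkk : ∀ j, kk j ≤ n)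
    {η : ℝ} (hη : ∫ ω, E1 (EK ω (Sb u (lvl k)) 0) (fun y =>
      |cndR ν (Sb u (lvl k)) (fun ω => FE u (cutL (fun j => lvl (kk j)) (lvl k))
        (cutχ χ kk k) ω y) ω -
        ∫ η, FE u (cutL (fun j => lvl (kk j)) (lvl k)) (cutχ χ kk k) η y
          ∂(iidEnvironmentLaw ν)|) ∂(iidEnvironmentLaw ν) ≤ η) :
    (WW u i θ hl kk hχ r).e1 ν n (fun _ => 1)
      (fun k y => ENNReal.ofReal (vk lvl kk χ u ν k y)) 0 k ≤ ENNReal.ofReal η := by
  have h1 := FEk9.e1_eq (u := u) (L := fun j => lvl (kk j)) hχ hH hl (σ := kk) (fun j => rfl)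
    (k := k) (p := n - k) (n := n) (by omega) hkk 0 (V := vk lvl kk χ u ν k)
    (fun y => (vk_mem hχ k y).1) (fun y => (vk_mem hχ k y).2)
  simp_rw [int_FE_cut hl hχ] at hη
  refine le_trans (le_of_eq ?_) (ENNReal.ofReal_le_ofReal hη)
  rw [← h1]
  unfold QV766.Win.e1 QV766.Win.rho QV766.Win.ph
  rw [WW_S hk0]
  simp_rw [WW_Gb]
  rfl

theorem WW_e1_zero {n : ℕ} (hH : HitP u ν) (hl0 : lvl 0 = 0) (hkk : ∀ j, kk j ≤ n) :
    (WW u i θ hl kk hχ r).e1 ν n (fun _ => 1)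
      (fun k y => ENNReal.ofReal (vk lvl kk χ u ν k y)) 0 0 = 0 := by
  have h0 : ∀ ω : Environment 2, (WW u i θ hl kk hχ r).rho ν n (fun _ => 1)
      (fun k y => ENNReal.ofReal (vk lvl kk χ u ν k y)) 0 ω 0 = 0 := by
    intro ω
    unfold QV766.Win.rho QV766.Win.ph
    have h1 : cnd ν ((WW u i θ hl kk hχ r).S 0)
        (fun ω => (WW u i θ hl kk hχ r).Gb (fun _ => 1) ω (n - 0) 0 0) ω =
        ENNReal.ofReal (vk lvl kk χ u ν 0 0) := by
      rw [← lint_Fk hχ]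
      unfold cnd
      refine lintegral_congr_ae ?_
      filter_upwards [hH] with ω' hω'
      rw [WW_S0, WW_Gb]
      have h2 : glue (∅ : Set (Site 2)) ω ω' = ω' := by
        funext z
        exact glue_notMem ω ω' (Set.notMem_empty z)
      rw [h2, Nat.sub_zero]
      have h3 := FEk9.FE_cut (u := u) (L := fun j => lvl (kk j)) hχ hω' hl (σ := kk)
        (fun j => rfl) (k := 0) (p := n) (n := n) (by omega) hkk 0
      rw [FE_cut_Fk hl hχ] at h3
      have h4 : FEk9.Gb (fun k => Sb u (lvl k)) (wE χ kk) (fun _ => 1) ω' n 0 0 ≤ 1 :=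
        FEk9.Gb_le_one (wE_le_one hχ kk) (fun _ => le_rfl) ω' n 0 0
      exact ((ENNReal.toReal_eq_toReal_iff' (ne_top_of_le_ne_top ENNReal.one_ne_top
        (Fk_le_one hχ 0 ω' 0)) (ne_top_of_le_ne_top ENNReal.one_ne_top h4)).1 h3).symm
    rw [h1]
    unfold QV766.AD
    rw [tsub_self, add_zero]
  unfold QV766.Win.e1
  have h1 : ∀ ω : Environment 2, ∑' y, EK ω ((WW u i θ hl kk hχ r).S 0) 0 y *
      (WW u i θ hl kk hχ r).rho ν n (fun _ => 1)
        (fun k y => ENNReal.ofReal (vk lvl kk χ u ν k y)) 0 ω y = 0 := by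
    intro ω
    rw [ENNReal.tsum_eq_zero]
    intro y
    rw [WW_S0]
    by_cases hy : y = 0
    · rw [hy, h0, mul_zero]
    · rw [EK_notMem ω (Set.notMem_empty _), Set.indicator_of_notMem
        (fun h => hy (Set.mem_singleton_iff.1 h)), zero_mul]
  simp_rw [h1]
  exact lintegral_zero

/-! ### `e2` -/

/-- leaving the column through the top = a good exit of the window -/
lemma WW_lv {k : ℕ} (hr : 0 ≤ r) {g h : ℕ} (hg : lvl k + g = lvl (k + 1)) (ω : Environment 2)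
    {y : Site 2} (hy : lev u y = lvl k) :
    (WW u i θ hl kk hχ r).lv k ω y ≤
      quenchedLaw ω y (Ev (Col u i θ (lvl k) g h r y) (Lvl u (lvl k + g)))ᶜ := by
  set W := WW u i θ hl kk hχ r with hW
  set E := Ev (Col u i θ (lvl k) g h r y) (Lvl u (lvl k + g)) with hE
  have hmE : MeasurableSet E := River916.meas_Ev _ _
  have hgd : quenchedLaw ω y E ≤ W.gd k ω y := by
    have h1 : W.gd k ω y = quenchedLaw ω y (⋃ z : W.G k y, ExS (W.B k y) z.1) := by
      rw [measure_iUnion (fun z z' hzz' => by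
        have := ExS_disjoint (W.B k y) (fun h => hzz' (Subtype.ext h))
        exact this) fun z => measurableSet_ExS _ _]
      unfold QV766.Win.gd
      rw [← tsum_subtype]
      rfl
    rw [h1]
    refine measure_mono_ae ?_
    filter_upwards [quenched_zero_eq ω y, quenched_nn ω y] with X hX0 hnn
    intro hXE
    obtain ⟨n, hn, hi⟩ := hXE
    have hln : lev u (X n) = (lvl (k + 1) : ℤ) := by
      have h2 : lev u (X n) = ((lvl k + g : ℕ) : ℤ) := hn
      rw [h2, hg]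
    have hsl : |sl u i θ (X n) - sl u i θ y| ≤ r + (1 + |θ|) := by
      have hθ := abs_nonneg θ
      cases n with
      | zero => rw [hX0, sub_self, abs_zero]; linarith
      | succ n =>
        obtain ⟨e, he⟩ := hnn n
        have a1 := (hi n (Nat.lt_succ_self n)).2.2
        rw [he, sl_add]
        have a2 := abs_sl_step (u := u) (i := i) (θ := θ) e
        have : sl u i θ (X n) + sl u i θ (stepVec e) - sl u i θ y =
            (sl u i θ (X n) - sl u i θ y) + sl u i θ (stepVec e) := by ring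
        rw [this]
        exact (abs_add_le _ _).trans (add_le_add a1 a2)
    have hzG : X n ∈ W.G k y := ⟨hy, hln, hsl⟩
    refine Set.mem_iUnion.2 ⟨⟨X n, hzG⟩, ?_⟩
    refine ⟨?_, n, rfl, fun j hj => ?_⟩
    · rintro (hS | hC)
      · exact W.GS k y _ hzG (W.mono k hS)
      · have h5 : lev u (X n) < (lvl (k + 1) : ℤ) := hC.1
        omega
    · have a1 := (hi j hj)
      by_cases hk0 : k = 0
      · refine Or.inr ⟨?_, fun h => absurd hk0 h, a1.2.2⟩
        have := a1.2.1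
        have h3 : ((lvl k + g : ℕ) : ℤ) = lvl (k + 1) := by rw [hg]
        push_cast at h3
        omega
      · by_cases hlow : lev u (X j) < lvl k
        · refine Or.inl ?_
          rw [WW_S hk0]
          exact hlow
        · refine Or.inr ⟨?_, fun _ => not_lt.1 hlow, a1.2.2⟩
          have := a1.2.1
          have h3 : ((lvl k + g : ℕ) : ℤ) = lvl (k + 1) := by rw [hg]
          push_cast at h3
          omega
  unfold QV766.Win.lv
  rw [prob_compl_eq_one_sub hmE]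
  exact tsub_le_tsub_left hgd 1

theorem WW_e2 {k : ℕ} (hr : 0 ≤ r) (hl0 : lvl 0 = 0) (h : ℕ) :
    (WW u i θ hl kk hχ r).e2 ν 0 k ≤
      pb u i θ (iidEnvironmentLaw ν) (lvl k) (lvl (k + 1) - lvl k) h r := by
  have hg : lvl k + (lvl (k + 1) - lvl k) = lvl (k + 1) := by
    have h1 : lvl k ≤ lvl (k + 1) := hl (Nat.le_succ k)
    omega
  unfold QV766.Win.e2 pb
  refine lintegral_mono fun ω => ENNReal.tsum_le_tsum fun y => ?_
  have hEK : EK ω ((WW u i θ hl kk hχ r).S k) 0 y = EK ω (Sb u (lvl k)) 0 y := by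
    by_cases hk0 : k = 0
    · subst hk0
      have h0 : (0 : Site 2) ∉ Sb u (lvl 0) := by
        show ¬ lev u 0 < ((lvl 0 : ℕ) : ℤ)
        rw [Flux132.lev_zero, hl0]; simp
      rw [WW_S0, EK_notMem ω (Set.notMem_empty _), EK_notMem ω h0]
    · rw [WW_S hk0]
  rw [hEK]
  by_cases hy : lev u y = lvl k
  · gcongr
    exact WW_lv hr hg ω hy
  · rw [Hit2569.EK_Sb ω u (by rw [Flux132.lev_zero]; exact_mod_cast Nat.zero_le _) hy, zero_mul,
      zero_mul]

/-! ### near pairs -/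

/-- near occupation of the level `l` -/
noncomputable def occ (u : Step 2) (i : Fin 2) (θ : ℝ) (Q : Measure (Environment 2)) (R : ℝ)
    (l : ℕ) : ℝ≥0∞ := ∫⁻ ω, ∑' y : Site 2, ∑' y' : Site 2,
    EK ω (Sb u l) 0 y * EK ω (Sb u l) 0 y' *
      {p : Site 2 × Site 2 | |sl u i θ p.1 - sl u i θ p.2| ≤ R}.indicator 1 (y, y') ∂Q

theorem WW_NN {k : ℕ} (hk : k ≠ 0) {R : ℝ} (hR : 2 * r ≤ R) :
    (WW u i θ hl kk hχ r).NN ν 0 k ≤ occ u i θ (iidEnvironmentLaw ν) R (lvl k) := by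
  classical
  unfold QV766.Win.NN occ
  refine lintegral_mono fun ω => ENNReal.tsum_le_tsum fun y => ENNReal.tsum_le_tsum fun y' => ?_
  rw [WW_S hk]
  by_cases hd : Disjoint ((WW u i θ hl kk hχ r).C k y) ((WW u i θ hl kk hχ r).C k y')
  · rw [if_pos hd]; exact zero_le
  · rw [if_neg hd]
    obtain ⟨z, hz, hz'⟩ := Set.not_disjoint_iff.1 hd
    have h1 := hz.2.2
    have h2 := hz'.2.2
    have h3 : |sl u i θ y - sl u i θ y'| ≤ R := by
      have e : sl u i θ y - sl u i θ y' =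
        (sl u i θ z - sl u i θ y') - (sl u i θ z - sl u i θ y) := by ring
      rw [e]
      refine (abs_sub _ _).trans ?_
      linarith
    rw [Set.indicator_of_mem (by exact h3), Pi.one_apply, mul_one]

theorem WW_NN_one (k : ℕ) : (WW u i θ hl kk hχ r).NN ν 0 k ≤ 1 := by
  classical
  unfold QV766.Win.NN
  calc _ ≤ ∫⁻ _, 1 ∂(iidEnvironmentLaw ν) := by
        refine lintegral_mono fun ω => ?_
        calc _ ≤ ∑' y : Site 2, ∑' y' : Site 2, EK ω ((WW u i θ hl kk hχ r).S k) 0 y *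
              EK ω ((WW u i θ hl kk hχ r).S k) 0 y' := by
              refine ENNReal.tsum_le_tsum fun y => ENNReal.tsum_le_tsum fun y' => ?_
              split_ifs
              · exact zero_le
              · exact le_rfl
          _ = (∑' y : Site 2, EK ω ((WW u i θ hl kk hχ r).S k) 0 y) *
              ∑' y' : Site 2, EK ω ((WW u i θ hl kk hχ r).S k) 0 y' := by
              simp_rw [ENNReal.tsum_mul_left, ENNReal.tsum_mul_right]
          _ ≤ 1 * 1 := mul_le_mul' (tsum_EK_le ω _ 0) (tsum_EK_le ω _ 0)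
          _ = 1 := one_mul 1
    _ = 1 := by simp

/-! ### the theorem on the grid -/

theorem grid_l1 (hH : HitP u ν) (hl : Monotone lvl) (hl0 : lvl 0 = 0)
    (hχ : ∀ j z, 0 ≤ χ j z ∧ χ j z ≤ 1) {n : ℕ} (hkk : ∀ j, 0 < kk j ∧ kk j ≤ n)
    {w : ℝ} (hw : 0 < w)
    (hLip : ∀ j z z', |χ j z - χ j z'| ≤ |sl u i θ z - sl u i θ z'| / w)
    {h : ℕ} {r δ b : ℝ} (hr : 0 ≤ r) (hδ0 : 0 ≤ δ)
    (hδ : ∀ k < n, ∀ t, pb u i θ (iidEnvironmentLaw ν) t (lvl (k + 1) - lvl k) h r ≤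
      ENNReal.ofReal δ)
    (hb : m * ((r + (1 + |θ|) + (r + (1 + |θ|))) / w + δ) ≤ b) (hb1 : b ≤ 1)
    {η : ℝ} (hη0 : 0 ≤ η) (hη : ∀ k, k ≠ 0 → k ≤ n → ∫ ω, E1 (EK ω (Sb u (lvl k)) 0) (fun y =>
      |cndR ν (Sb u (lvl k)) (fun ω => FE u (cutL (fun j => lvl (kk j)) (lvl k))
        (cutχ χ kk k) ω y) ω -
        ∫ η, FE u (cutL (fun j => lvl (kk j)) (lvl k)) (cutχ χ kk k) η y
          ∂(iidEnvironmentLaw ν)|) ∂(iidEnvironmentLaw ν) ≤ η)
    {R K : ℝ} (hR : 2 * r ≤ R) (hK0 : 0 ≤ K)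
    (hocc : ∑ k ∈ Finset.range (n - 1), occ u i θ (iidEnvironmentLaw ν) R (lvl (k + 1)) ≤
      ENNReal.ofReal K) {s : ℝ} (hs : 0 < s) :
    ∫ ω, |FE u (fun j => lvl (kk j)) χ ω 0 - ∫ η, FE u (fun j => lvl (kk j)) χ η 0
      ∂(iidEnvironmentLaw ν)| ∂(iidEnvironmentLaw ν) ≤
      s + (b ^ 2 * (1 + K) + 6 * n * δ + 7 * n * η) / s := by
  have hθ := abs_nonneg θ
  have hb0 : 0 ≤ b := le_trans (by positivity) hb
  set W := WW u i θ hl kk hχ r with hW
  set v : ℕ → Site 2 → ℝ≥0∞ := fun k y => ENNReal.ofReal (vk lvl kk χ u ν k y) with hv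
  set G : Environment 2 → ℝ≥0∞ := fun ω => W.Gb (fun _ => 1) ω n 0 0 with hGd
  have hG1 : ∀ ω, G ω ≤ 1 := fun ω => W.Gb_le_one (fun _ => le_rfl) ω n 0 0
  have hGm : Measurable G := W.meas_Gb n 0 0
  have hFE : ∀ᵐ ω ∂(iidEnvironmentLaw ν), FE u (fun j => lvl (kk j)) χ ω 0 = (G ω).toReal := by
    filter_upwards [hH] with ω hω
    rw [FEk9.FE_grid hχ hω hl (σ := kk) (fun j => rfl) (k := 0) (p := n) (n := n) (zero_add n)
      (fun j => hkk j) 0, ← WW_Gb (i := i) (θ := θ) (hl := hl) (hχ := hχ) (r := r)]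
  have hmean : ∫ η, FE u (fun j => lvl (kk j)) χ η 0 ∂(iidEnvironmentLaw ν) =
      (∫⁻ ω, G ω ∂(iidEnvironmentLaw ν)).toReal := by
    rw [integral_congr_ae hFE, integral_toReal hGm.aemeasurable
      (Filter.Eventually.of_forall fun ω => lt_of_le_of_lt (hG1 ω) ENNReal.one_lt_top)]
  have hv1 : ∀ k z, v k z ≤ 1 := fun k z => by
    rw [← ENNReal.ofReal_one]
    exact ENNReal.ofReal_le_ofReal (vk_mem hχ k z).2
  have hL : W.Lip n v (fun _ => ENNReal.ofReal b) := WW_lip hH hw hLip hr hδ0 hδ hb hb1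
  have hx : (0 : Site 2) ∉ W.S 0 := by
    rw [WW_S0]
    exact Set.notMem_empty _
  have hqv := W.qv (ν := ν) (g := fun _ => 1) (n := n) (fun _ => le_rfl) hv1 hL hx
  set Er : ℝ := b ^ 2 * (1 + K) + 6 * n * δ + 7 * n * η with hEr
  have hEr0 : 0 ≤ Er := by positivity
  have he1 : ∀ k ≤ n, W.e1 ν n (fun _ => 1) v 0 k ≤ ENNReal.ofReal η := by
    intro k hk
    by_cases hk0 : k = 0
    · subst hk0
      rw [hW, hv, WW_e1_zero hH hl0 (fun j => (hkk j).2)]
      exact zero_le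
    · exact WW_e1 hH hk0 hk (fun j => (hkk j).2) (hη k hk0 hk)
  have he0 : W.e1 ν n (fun _ => 1) v 0 0 = 0 := WW_e1_zero hH hl0 fun j => (hkk j).2
  have he2 : ∀ k < n, W.e2 ν 0 k ≤ ENNReal.ofReal δ := fun k hk =>
    (WW_e2 hr hl0 h).trans (hδ k hk _)
  have hNN : ∑ k ∈ Finset.range n, W.NN ν 0 k ≤ 1 + ENNReal.ofReal K := by
    rcases Nat.eq_zero_or_pos n with h0 | h0
    · rw [h0, Finset.range_zero, Finset.sum_empty]; exact zero_le
    · obtain ⟨n', rfl⟩ : ∃ n', n = n' + 1 := ⟨n - 1, by omega⟩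
      rw [Finset.sum_range_succ', add_comm]
      refine add_le_add (WW_NN_one 0) (le_trans ?_ hocc)
      rw [Nat.add_sub_cancel]
      exact Finset.sum_le_sum fun k _ => WW_NN (Nat.succ_ne_zero k) hR
  have hE : ∫⁻ ω, G ω ^ 2 ∂(iidEnvironmentLaw ν) ≤ (∫⁻ ω, G ω ∂(iidEnvironmentLaw ν)) ^ 2 +
      ENNReal.ofReal Er := by
    refine hqv.trans ?_
    rw [he0, mul_zero, add_zero]
    gcongr
    calc ∑ k ∈ Finset.range n, (ENNReal.ofReal b ^ 2 * W.NN ν 0 k +
          6 * (W.e2 ν 0 k + W.e1 ν n (fun _ => 1) v 0 (k + 1)) + W.e1 ν n (fun _ => 1) v 0 k)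
        ≤ ∑ k ∈ Finset.range n, (ENNReal.ofReal b ^ 2 * W.NN ν 0 k +
          (6 * (ENNReal.ofReal δ + ENNReal.ofReal η) + ENNReal.ofReal η)) := by
          refine Finset.sum_le_sum fun k hk => ?_
          have hk' := Finset.mem_range.1 hk
          rw [add_assoc]
          gcongr
          · exact he2 k hk'
          · exact he1 (k + 1) hk'
          · exact he1 k hk'.le
      _ = ENNReal.ofReal b ^ 2 * ∑ k ∈ Finset.range n, W.NN ν 0 k +
          n * (6 * (ENNReal.ofReal δ + ENNReal.ofReal η) + ENNReal.ofReal η) := by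
          rw [Finset.sum_add_distrib, ← Finset.mul_sum, Finset.sum_const, Finset.card_range,
            nsmul_eq_mul]
      _ ≤ ENNReal.ofReal b ^ 2 * (1 + ENNReal.ofReal K) +
          n * (6 * (ENNReal.ofReal δ + ENNReal.ofReal η) + ENNReal.ofReal η) := by
          gcongr
      _ = ENNReal.ofReal Er := by
          rw [hEr]
          have e6 : (6 : ℝ≥0∞) = ENNReal.ofReal 6 := by
            rw [ENNReal.ofReal_ofNat]
          have en : (n : ℝ≥0∞) = ENNReal.ofReal n := by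
            rw [ENNReal.ofReal_natCast]
          rw [e6, en, ← ENNReal.ofReal_one, ← ENNReal.ofReal_pow hb0,
            ← ENNReal.ofReal_add zero_le_one hK0, ← ENNReal.ofReal_mul (by positivity),
            ← ENNReal.ofReal_add hδ0 hη0, ← ENNReal.ofReal_mul (by norm_num),
            ← ENNReal.ofReal_add (by positivity) hη0, ← ENNReal.ofReal_mul (by positivity),
            ← ENNReal.ofReal_add (by positivity) (by positivity)]
          congr 1
          ring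
  have hl1 := QV766.l1_le (P := iidEnvironmentLaw ν) hGm hG1 (t := ENNReal.ofReal s)
    (by rwa [Ne, ENNReal.ofReal_eq_zero, not_le]) ENNReal.ofReal_ne_top hE
  have hm1 : ∫⁻ ω, G ω ∂(iidEnvironmentLaw ν) ≤ 1 := by
    calc ∫⁻ ω, G ω ∂(iidEnvironmentLaw ν) ≤ ∫⁻ _, 1 ∂(iidEnvironmentLaw ν) := lintegral_mono hG1
      _ = 1 := by simp
  have hint : ∫ ω, |FE u (fun j => lvl (kk j)) χ ω 0 - ∫ η, FE u (fun j => lvl (kk j)) χ η 0
      ∂(iidEnvironmentLaw ν)| ∂(iidEnvironmentLaw ν) =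
      (∫⁻ ω, QV766.AD (G ω) (∫⁻ ω, G ω ∂(iidEnvironmentLaw ν))
        ∂(iidEnvironmentLaw ν)).toReal := by
    rw [hmean, integral_eq_lintegral_of_nonneg_ae (Filter.Eventually.of_forall fun ω =>
      abs_nonneg _) (((FEk9.meas_FE hχ 0).sub_const _).abs).aestronglyMeasurable]
    congr 1
    refine lintegral_congr_ae ?_
    filter_upwards [hFE] with ω hω
    rw [hω]
    exact (FEk9.AD_eq (hG1 ω) hm1).symm
  rw [hint]
  refine ENNReal.toReal_le_of_le_ofReal (by positivity) (hl1.trans (le_of_eq ?_))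
  rw [← ENNReal.ofReal_div_of_pos hs, ← ENNReal.ofReal_add hs.le (by positivity)]

end Crest.Agent.R154.D2V36
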