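import Crest.Agent.R154.D2WC_36

/-!
# Row 154, `d = 2`, D2.9-END, part D (helper36): marked levels against grid levels; the LLN from the
pure choice of constants
-/

set_option autoImplicit false
set_option linter.unusedVariables false
set_option linter.unusedSectionVars false

namespace Crest.Agent.R154.D2V36

open MeasureTheory ProbabilityTheory Crest.ProbabilityR.RandomEnvironment Crest.Agent.R154
open Crest.Agent.R154.Flux132 (lev)
open Crest.Agent.R154.ExK9 Crest.Agent.R154.Resamp9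
open Crest.Agent.R154.River916 (Ev)
open Crest.Agent.R154.P2916 (sl)
open Crest.Agent.R154.FEk9 (wE wG wE_le_one wG_mem cutL cutχ meas_FE meas_PX abs_FE_le)
open scoped ENNReal

variable {u : Step 2} {i : Fin 2} {θ : ℝ} {ν : Measure (Row 2)} [IsProbabilityMeasure ν]
variable {m : ℕ} {χ : Fin m → Site 2 → ℝ}

lemma PX_mem (hχ : ∀ j z, 0 ≤ χ j z ∧ χ j z ≤ 1) (L : Fin m → ℕ) (X : Path 2) :
    0 ≤ PX u L χ X ∧ PX u L χ X ≤ 1 := prod_mem _ fun j => hχ j _

/-- quenched expectations are close in mean if the products are close under the annealed law -/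
lemma FE_sub_le (hχ : ∀ j z, 0 ≤ χ j z ∧ χ j z ≤ 1) (L L' : Fin m → ℕ) :
    ∫ ω, |FE u L χ ω 0 - FE u L' χ ω 0| ∂(iidEnvironmentLaw ν) ≤
      ∫ X, |PX u L χ X - PX u L' χ X| ∂annealed (iidEnvironmentLaw ν) 0 := by
  have mD : Measurable fun X : Path 2 => |PX u L χ X - PX u L' χ X| :=
    ((meas_PX L χ).sub (meas_PX L' χ)).abs
  have hD : ∀ X : Path 2, 0 ≤ |PX u L χ X - PX u L' χ X| ∧ |PX u L χ X - PX u L' χ X| ≤ 1 := by
    intro X
    refine ⟨abs_nonneg _, ?_⟩
    have a1 := PX_mem (u := u) hχ L X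
    have a2 := PX_mem (u := u) hχ L' X
    rw [abs_le]
    constructor <;> linarith [a1.1, a1.2, a2.1, a2.2]
  have mF : Measurable fun ω : Environment 2 => |FE u L χ ω 0 - FE u L' χ ω 0| :=
    ((meas_FE hχ 0).sub (meas_FE hχ 0)).abs
  rw [integral_eq_lintegral_of_nonneg_ae (Filter.Eventually.of_forall fun ω => abs_nonneg _)
    mF.aestronglyMeasurable,
    integral_eq_lintegral_of_nonneg_ae (Filter.Eventually.of_forall fun X => abs_nonneg _)
    mD.aestronglyMeasurable]
  refine ENNReal.toReal_mono ?_ ?_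
  · refine ne_top_of_le_ne_top ENNReal.one_ne_top ?_
    calc ∫⁻ X, ENNReal.ofReal |PX u L χ X - PX u L' χ X| ∂annealed (iidEnvironmentLaw ν) 0
        ≤ ∫⁻ _, 1 ∂annealed (iidEnvironmentLaw ν) 0 := lintegral_mono fun X => by
          rw [← ENNReal.ofReal_one]
          exact ENNReal.ofReal_le_ofReal (hD X).2
      _ = 1 := by simp
  · rw [lintegral_annealed (iidEnvironmentLaw ν) 0 mD.ennreal_ofReal]
    refine lintegral_mono fun ω => ?_
    have i1 : Integrable (PX u L χ) (quenchedLaw ω 0) :=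
      integrable_unit (meas_PX L χ) (PX_mem hχ L)
    have i2 : Integrable (PX u L' χ) (quenchedLaw ω 0) :=
      integrable_unit (meas_PX L' χ) (PX_mem hχ L')
    rw [← ofReal_integral_eq_lintegral_ofReal (integrable_unit mD hD)
      (Filter.Eventually.of_forall fun X => abs_nonneg _)]
    refine ENNReal.ofReal_le_ofReal ?_
    unfold FE
    rw [← integral_sub i1 i2]
    exact abs_integral_le_integral_abs

/-- **T5**: marked levels against grid levels below them -/
theorem grid_cmp (hH : HitP u ν) (hχ : ∀ j z, 0 ≤ χ j z ∧ χ j z ≤ 1) {w : ℝ} (hw : 0 < w)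
    (hLip : ∀ j z z', |χ j z - χ j z'| ≤ |sl u i θ z - sl u i θ z'| / w) {L L' : Fin m → ℕ}
    (hLL : ∀ j, L' j ≤ L j) {h : ℕ} {r δ : ℝ} (hr : 0 ≤ r) (hδ0 : 0 ≤ δ)
    (hδ : ∀ j, pb u i θ (iidEnvironmentLaw ν) (L' j) (L j - L' j) h r ≤ ENNReal.ofReal δ) :
    ∫ ω, |FE u L χ ω 0 - FE u L' χ ω 0| ∂(iidEnvironmentLaw ν) ≤
      m * ((0 + (r + (1 + |θ|))) / w + δ) := by
  refine (FE_sub_le hχ L L').trans ?_
  unfold PX
  refine cmp_prod (a := fun j X => χ j (xT u (L j) X)) (b := fun j X => χ j (xT u (L' j) X))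
    (fun j => (measurable_of_countable (χ j)).comp (measurable_xT _))
    (fun j => (measurable_of_countable (χ j)).comp (measurable_xT _))
    (fun j X => hχ j _) (fun j X => hχ j _) fun j => ?_
  refine disp_mean hH (t := L' j) (g := L j - L' j) hr hw le_rfl (hδ j) hδ0
    ((measurable_of_countable (χ j)).comp (measurable_xT _))
    ((measurable_of_countable (χ j)).comp (measurable_xT _))
    (fun X => hχ j _) (fun X => hχ j _) (Filter.Eventually.of_forall fun X => ?_)
  have e : L' j + (L j - L' j) = L j := by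
    have := hLL j
    omega
  rw [e, zero_add]
  exact hLip j _ _

/-- triangle inequality for the `L¹` distance to the mean -/
lemma l1_tri {Ω : Type*} [MeasurableSpace Ω] {P : Measure Ω} [IsProbabilityMeasure P]
    {F F' : Ω → ℝ} (iF : Integrable F P) (iF' : Integrable F' P) {b c : ℝ}
    (h1 : ∫ ω, |F ω - F' ω| ∂P ≤ b) (h2 : ∫ ω, |F' ω - ∫ η, F' η ∂P| ∂P ≤ c) :
    ∫ ω, |F ω - ∫ η, F η ∂P| ∂P ≤ b + c + b := by
  have h3 : |∫ η, F' η ∂P - ∫ η, F η ∂P| ≤ b := by
    rw [← integral_sub iF' iF]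
    refine abs_integral_le_integral_abs.trans ?_
    simp_rw [abs_sub_comm (F' _) (F _)]
    exact h1
  have i1 : Integrable (fun ω => |F ω - F' ω|) P := (iF.sub iF').abs
  have i2 : Integrable (fun ω => |F' ω - ∫ η, F' η ∂P|) P := (iF'.sub (integrable_const _)).abs
  calc ∫ ω, |F ω - ∫ η, F η ∂P| ∂P
      ≤ ∫ ω, (|F ω - F' ω| + |F' ω - ∫ η, F' η ∂P| + b) ∂P := by
        refine integral_mono_of_nonneg (Filter.Eventually.of_forall fun ω => abs_nonneg _)
          ((i1.add i2).add (integrable_const _)) (Filter.Eventually.of_forall fun ω => ?_)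
        show |F ω - ∫ η, F η ∂P| ≤ |F ω - F' ω| + |F' ω - ∫ η, F' η ∂P| + b
        have e : F ω - ∫ η, F η ∂P = (F ω - F' ω) + (F' ω - ∫ η, F' η ∂P) +
            (∫ η, F' η ∂P - ∫ η, F η ∂P) := by ring
        rw [e]
        have a1 := abs_add_le ((F ω - F' ω) + (F' ω - ∫ η, F' η ∂P))
          (∫ η, F' η ∂P - ∫ η, F η ∂P)
        have a2 := abs_add_le (F ω - F' ω) (F' ω - ∫ η, F' η ∂P)
        linarith
    _ = ∫ ω, |F ω - F' ω| ∂P + ∫ ω, |F' ω - ∫ η, F' η ∂P| ∂P + b := by
        have i3 : Integrable (fun ω => |F ω - F' ω| + |F' ω - ∫ η, F' η ∂P|) P := i1.add i2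
        have e1 := integral_add i3 (integrable_const (μ := P) b)
        have e2 := integral_add i1 i2
        rw [e1, e2, integral_const]
        simp
    _ ≤ b + c + b := by linarith

/-! ### the grid -/

/-- grid levels -/
def gl (o h k : ℕ) : ℕ := if k = 0 then 0 else o + (k - 1) * h

lemma gl_zero (o h : ℕ) : gl o h 0 = 0 := rfl

lemma gl_succ (o h k : ℕ) : gl o h (k + 1) = o + k * h := by
  unfold gl
  rw [if_neg (Nat.succ_ne_zero k), Nat.add_sub_cancel]

lemma gl_mono (o h : ℕ) : Monotone (gl o h) := by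
  refine monotone_nat_of_le_succ fun k => ?_
  cases k with
  | zero => rw [gl_zero]; exact Nat.zero_le _
  | succ k =>
    rw [gl_succ, gl_succ, Nat.succ_mul]
    omega

lemma gl_step {o h : ℕ} (ho : o ≤ h) (k : ℕ) : gl o h (k + 1) - gl o h k ≤ h := by
  cases k with
  | zero => rw [gl_zero, gl_succ]; omega
  | succ k =>
    rw [gl_succ, gl_succ, Nat.succ_mul]
    omega

lemma gl_ge {o h k : ℕ} (hk : k ≠ 0) : o ≤ gl o h k := by
  unfold gl
  rw [if_neg hk]
  omega

/-- grid index below the level `l` -/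
def gi (o h l : ℕ) : ℕ := (l - o) / h + 1

lemma gi_le {o h l : ℕ} (ho : o ≤ l) : gl o h (gi o h l) ≤ l := by
  unfold gi
  rw [gl_succ]
  have := Nat.div_mul_le_self (l - o) h
  omega

lemma gi_sub {o h l : ℕ} (ho : o ≤ l) (hh : 0 < h) : l - gl o h (gi o h l) ≤ h := by
  unfold gi
  rw [gl_succ]
  have h1 := Nat.lt_div_mul_add (a := l - o) hh
  omega

lemma gi_mono (o h : ℕ) : Monotone (gi o h) := fun a b hab =>
  Nat.succ_le_succ (Nat.div_le_div_right (Nat.sub_le_sub_right hab o))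

lemma gi_le_n {o h l n : ℕ} (hh : 0 < h) (hl : l < n * h) : gi o h l ≤ n := by
  unfold gi
  have : (l - o) / h < n := (Nat.div_lt_iff_lt_mul hh).2 (lt_of_le_of_lt (Nat.sub_le _ _) hl)
  omega

end Crest.Agent.R154.D2V36
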