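import Mathlib

/-!
# Row 154, helper9, `d = 2`: choice of the offset of a grid by averaging (36's (P3))
-/

set_option autoImplicit false
set_option linter.unusedVariables false

namespace Crest.Agent.R154.Off9

open scoped ENNReal

theorem offset (f : ℕ → ENNReal) {h n N : ℕ} (hh : 1 ≤ h) (hn : 1 ≤ n) (hN : (n - 1) * h < N) :
    ∃ o : ℕ, h < 2 * o ∧ o ≤ h ∧
      (h : ENNReal) * ∑ k ∈ Finset.range (n - 1), f (o + k * h) ≤
        2 * ∑ l ∈ Finset.range N, f l := by
  classical
  set T : ENNReal := ∑ l ∈ Finset.range N, f l with hT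
  set O : Finset ℕ := Finset.Ioc (h / 2) h with hO
  have hmem : ∀ o ∈ O, h < 2 * o ∧ o ≤ h := by
    intro o ho
    have := Finset.mem_Ioc.1 ho
    omega
  have hcard : h ≤ 2 * O.card := by
    rw [hO, Nat.card_Ioc]
    omega
  have hne : O.Nonempty := ⟨h, Finset.mem_Ioc.2 ⟨by omega, le_rfl⟩⟩
  -- the double sum is below `T`
  have hsum : ∑ o ∈ O, ∑ k ∈ Finset.range (n - 1), f (o + k * h) ≤ T := by
    rw [← Finset.sum_product']
    have hinj : Set.InjOn (fun p : ℕ × ℕ => p.1 + p.2 * h) (O ×ˢ Finset.range (n - 1) : Finset _) := by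
      rintro ⟨o, k⟩ hp ⟨o', k'⟩ hp' he
      have h1 := Finset.mem_product.1 (Finset.mem_coe.1 hp)
      have h2 := Finset.mem_product.1 (Finset.mem_coe.1 hp')
      have a1 := Finset.mem_Ioc.1 h1.1
      have a2 := Finset.mem_Ioc.1 h2.1
      simp only at he a1 a2
      have e1 : o + k * h = o' + k' * h := he
      have hkk : k = k' := by
        rcases lt_trichotomy k k' with hlt | heq | hgt
        · exfalso
          have : (k + 1) * h ≤ k' * h := Nat.mul_le_mul_right h hlt
          have : k * h + h ≤ k' * h := by rw [Nat.succ_mul] at this; exact this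
          omega
        · exact heq
        · exfalso
          have : (k' + 1) * h ≤ k * h := Nat.mul_le_mul_right h hgt
          have : k' * h + h ≤ k * h := by rw [Nat.succ_mul] at this; exact this
          omega
      subst hkk
      have : o = o' := by omega
      rw [this]
    rw [← Finset.sum_image (f := f) hinj]
    refine Finset.sum_le_sum_of_subset ?_
    intro l hl
    obtain ⟨⟨o, k⟩, hp, rfl⟩ := Finset.mem_image.1 hl
    have h1 := Finset.mem_product.1 hp
    have a1 := Finset.mem_Ioc.1 h1.1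
    have a2 := Finset.mem_range.1 h1.2
    simp only at a1 a2
    refine Finset.mem_range.2 ?_
    show o + k * h < N
    have : (k + 1) * h ≤ (n - 1) * h := Nat.mul_le_mul_right h a2
    have : k * h + h ≤ (n - 1) * h := by rw [Nat.succ_mul] at this; exact this
    omega
  by_contra hcon
  push Not at hcon
  have hlt : ∑ _o ∈ O, 2 * T < ∑ o ∈ O, (h : ENNReal) * ∑ k ∈ Finset.range (n - 1),
      f (o + k * h) :=
    ENNReal.sum_lt_sum_of_nonempty hne fun o ho => hcon o (hmem o ho).1 (hmem o ho).2
  rw [Finset.sum_const, nsmul_eq_mul, ← Finset.mul_sum] at hlt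
  have h1 : (h : ENNReal) * T ≤ (O.card : ENNReal) * (2 * T) := by
    rw [← mul_assoc]
    gcongr
    have : ((h : ℕ) : ENNReal) ≤ ((2 * O.card : ℕ) : ENNReal) := by exact_mod_cast hcard
    calc (h : ENNReal) ≤ ((2 * O.card : ℕ) : ENNReal) := this
      _ = (O.card : ENNReal) * 2 := by push_cast; ring
  have h2 : (h : ENNReal) * ∑ o ∈ O, ∑ k ∈ Finset.range (n - 1), f (o + k * h) ≤
      (h : ENNReal) * T := by gcongr
  exact absurd (lt_of_lt_of_le hlt h2) (not_lt.2 h1)

end Crest.Agent.R154.Off9
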