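import Crest.Agent.R154.D2WD_36
import Crest.Agent.R154.Off_9

/-!
# Row 154, `d = 2`, D2.9-END (helper36): the quenched law of large numbers `LLN`
-/

set_option autoImplicit false
set_option linter.unusedVariables false
set_option linter.unusedSectionVars false

namespace Crest.Agent.R154.D2V36

open MeasureTheory ProbabilityTheory Crest.ProbabilityR.RandomEnvironment Crest.Agent.R154
open Crest.Agent.R154.Flux132 (lev)
open Crest.Agent.R154.ExK9 Crest.Agent.R154.Resamp9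
open Crest.Agent.R154.River916 (Ev)
open Crest.Agent.R154.P2916 (sl)
open Crest.Agent.R154.FEk9 (wE wG wE_le_one wG_mem cutL cutχ meas_FE meas_PX abs_FE_le)
open scoped ENNReal

variable {u : Step 2} {i : Fin 2} {θ : ℝ} {ν : Measure (Row 2)} [IsProbabilityMeasure ν]

/-- the pure choice of the constants -/
def ConstsP : Prop := ∀ (m : ℕ) {Λ Cs Cl cl Co c0 : ℝ}, 0 < Λ → 0 < Cs → 0 < Cl → 0 < cl →
  0 < Co → 0 < c0 → ∀ {ε : ℝ}, 0 < ε → ∃ (A : ℝ) (n : ℕ) (a δ b : ℝ), 1 ≤ A ∧ 2 * m + 2 ≤ n ∧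
  0 < a ∧ a ≤ 1 ∧ 2 * (A * (Cs / Real.sqrt n)) ≤ a ∧ Cl * Real.exp (-(cl * A)) < δ ∧
  0 < b ∧ b ≤ 1 ∧ b ≤ ε ∧ m * (Λ * (3 * (A * (Cs / Real.sqrt n))) + δ) ≤ b ∧
  b ^ 2 * (1 + 2 * n * (Co * a ^ c0)) + 6 * n * δ ≤ ε

lemma aux7 {n ε : ℝ} (hn : 0 < n) : 7 * n * (ε ^ 2 / (32 * (7 * n))) = ε ^ 2 / 32 := by
  field_simp

lemma aux8 {x W Λ : ℝ} (hW : 0 < W) (hΛ : 0 < Λ) : Λ * (x / W) = x / (W / Λ) := by
  field_simp

set_option maxHeartbeats 1000000 in
theorem lln_of (hC : ConstsP) {wd : ℕ → ℕ} (hO : OccP u i θ ν wd) (hSc : ScaleP wd)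
    (hSl : SlabP u i θ ν wd) (hRe : ResidP u i θ ν) (hH : HitP u ν)
    (hwd : Filter.Tendsto wd Filter.atTop Filter.atTop) : LLN u i θ ν wd := by
  intro m χ Λ hχ hΛ ε hε
  have hθ := abs_nonneg θ
  obtain ⟨Co, c0, hCo, hc0, hO⟩ := hO
  obtain ⟨Cs, hCs, hSc⟩ := hSc
  obtain ⟨Cl, cl, hCl, hcl, hSl⟩ := hSl
  set Λ' : ℝ := |Λ| + 1 with hΛ'd
  have hΛ' : 0 < Λ' := by positivity
  have hε' : 0 < min (ε ^ 2 / 32) (ε / 8) := by positivity
  obtain ⟨A, n, a, δ, b, hA, hn, ha, ha1, h2a, hδ, hb0, hb1, hbε, hmb, hE⟩ :=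
    hC m hΛ' hCs hCl hcl hCo hc0 hε'
  have hn1 : 1 ≤ n := by omega
  have hn0 : (0 : ℝ) < n := by exact_mod_cast hn1
  have hsn : 0 < Real.sqrt n := Real.sqrt_pos.2 hn0
  have hδ0 : 0 ≤ δ := le_trans (by positivity) hδ.le
  set η : ℝ := ε ^ 2 / (32 * (7 * n)) with hη
  have hη0 : 0 < η := by positivity
  set q : ℝ := A * (Cs / Real.sqrt n) with hq
  have hq0 : 0 < q := by positivity
  obtain ⟨h0, hSl⟩ := hSl A hA (δ - Cl * Real.exp (-(cl * A))) (by linarith)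
  have hSl' : ∀ h ≥ h0, ∀ l g : ℕ, g ≤ h →
      pb u i θ (iidEnvironmentLaw ν) l g h (A * wd h) ≤ ENNReal.ofReal δ := by
    intro h hh l g hg
    have h1 := hSl h hh l g hg
    rw [show Cl * Real.exp (-(cl * A)) + (δ - Cl * Real.exp (-(cl * A))) = δ by ring] at h1
    exact h1
  obtain ⟨N1, hSc⟩ := hSc n hn1
  obtain ⟨N2, hO⟩ := hO a ha ha1
  obtain ⟨l0, w0, hw0, hRe⟩ := hRe m η hη0
  obtain ⟨N3, hN3⟩ := Filter.eventually_atTop.1 ((Filter.tendsto_atTop.1
    (tendsto_natCast_atTop_atTop.comp hwd : Filter.Tendsto (fun N => ((wd N : ℕ) : ℝ))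
      Filter.atTop Filter.atTop)) (max (Λ' * w0) (max (2 * (1 + |θ|) / q) 1)))
  refine ⟨max (max N1 N2) (max N3 (n * max (max h0 (2 * l0)) n)), fun H hHH => ?_⟩
  have hHN1 : N1 ≤ H := le_trans (le_trans (le_max_left _ _) (le_max_left _ _)) hHH
  have hHN2 : N2 ≤ H := le_trans (le_trans (le_max_right _ _) (le_max_left _ _)) hHH
  have hHN3 : N3 ≤ H := le_trans (le_trans (le_max_left _ _) (le_max_right _ _)) hHH
  have hHn : n * max (max h0 (2 * l0)) n ≤ H :=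
    le_trans (le_trans (le_max_right _ _) (le_max_right _ _)) hHH
  have hq' : max (max h0 (2 * l0)) n ≤ H / n := by
    rw [Nat.le_div_iff_mul_le (by omega), mul_comm]
    exact hHn
  have hqh0 : h0 ≤ H / n := le_trans (le_trans (le_max_left _ _) (le_max_left _ _)) hq'
  have hql0 : 2 * l0 ≤ H / n := le_trans (le_trans (le_max_right _ _) (le_max_left _ _)) hq'
  have hqn : n ≤ H / n := le_trans (le_max_right _ _) hq'
  -- the width
  have hw3 := hN3 H hHN3
  have hW1 : Λ' * w0 ≤ (wd H : ℝ) := le_trans (le_max_left _ _) hw3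
  have hW2 : 2 * (1 + |θ|) / q ≤ (wd H : ℝ) :=
    le_trans (le_trans (le_max_left _ _) (le_max_right _ _)) hw3
  have hW3 : (1 : ℝ) ≤ (wd H : ℝ) :=
    le_trans (le_trans (le_max_right _ _) (le_max_right _ _)) hw3
  have hW0 : (0 : ℝ) < (wd H : ℝ) := by linarith
  have hW2' : 2 * (1 + |θ|) ≤ q * wd H := by
    rw [div_le_iff₀ hq0] at hW2
    linarith
  -- slabs
  set h : ℕ := H / n + 1 with hh
  have hh1 : 1 ≤ h := by omega
  have hHnh : H < n * h := Nat.lt_mul_div_succ H (by omega)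
  have hnH : n * (H / n) ≤ H := Nat.mul_div_le H n
  have hN : (n - 1) * h < H := by
    obtain ⟨n', rfl⟩ : ∃ n', n = n' + 1 := ⟨n - 1, by omega⟩
    rw [Nat.add_sub_cancel, hh]
    have e1 : (n' + 1) * (H / (n' + 1)) = n' * (H / (n' + 1)) + H / (n' + 1) := by ring
    have e2 : n' * (H / (n' + 1) + 1) = n' * (H / (n' + 1)) + n' := by ring
    omega
  obtain ⟨o, ho1, ho2, hoff⟩ := Off9.offset
    (fun l => occ u i θ (iidEnvironmentLaw ν) (a * wd H) l) hh1 hn1 hN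
  have hol0 : l0 ≤ o := by omega
  set r : ℝ := A * wd h with hr
  have hr0 : 0 ≤ r := by positivity
  have hrq : r ≤ q * wd H := by
    have h1 := hSc H hHN1
    rw [hr, hq, mul_assoc]
    exact mul_le_mul_of_nonneg_left h1 (by linarith)
  set w : ℝ := wd H / Λ' with hw
  have hw0' : 0 < w := by positivity
  have hww : w0 ≤ w := by
    rw [hw, le_div_iff₀ hΛ', mul_comm]
    exact hW1
  -- functions
  set ψ : Fin m → Site 2 → ℝ := fun j z => χ j (sl u i θ z / wd H) with hψ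
  have hψ1 : ∀ j z, 0 ≤ ψ j z ∧ ψ j z ≤ 1 := fun j z => hχ j _
  have hψL : ∀ j z z', |ψ j z - ψ j z'| ≤ |sl u i θ z - sl u i θ z'| / w := by
    intro j z z'
    have h1 := hΛ j (sl u i θ z / wd H) (sl u i θ z' / wd H)
    have h2 : Λ * |sl u i θ z / wd H - sl u i θ z' / wd H| ≤
        Λ' * |sl u i θ z / wd H - sl u i θ z' / wd H| :=
      mul_le_mul_of_nonneg_right (le_trans (le_abs_self Λ) (by rw [hΛ'd]; linarith))
        (abs_nonneg _)
    refine h1.trans (h2.trans (le_of_eq ?_))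
    rw [← sub_div, abs_div, abs_of_pos hW0, hw]
    exact aux8 hW0 hΛ'
  -- marks
  set L : Fin m → ℕ := fun j => ((j : ℕ) + 1) * H / m with hL
  have hLmono : Monotone L := by
    intro j j' hjj
    have : (j : ℕ) ≤ j' := hjj
    exact Nat.div_le_div_right (Nat.mul_le_mul_right H (by omega))
  have hLo : ∀ j, o ≤ L j := by
    intro j
    have hm : 0 < m := Fin.pos j
    refine ho2.trans ?_
    rw [hL, Nat.le_div_iff_mul_le hm, hh]
    calc (H / n + 1) * m ≤ (H / n + H / n) * m := by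
          refine Nat.mul_le_mul_right m ?_
          omega
      _ = 2 * m * (H / n) := by ring
      _ ≤ n * (H / n) := Nat.mul_le_mul_right _ (by omega)
      _ ≤ H := hnH
      _ ≤ ((j : ℕ) + 1) * H := Nat.le_mul_of_pos_left H (Nat.succ_pos _)
  have hLH : ∀ j, L j ≤ H := by
    intro j
    have hm : 0 < m := Fin.pos j
    rw [hL]
    refine Nat.div_le_of_le_mul ?_
    exact Nat.mul_le_mul_right H (by have := j.2; omega)
  set kk : Fin m → ℕ := fun j => gi o h (L j) with hkk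
  have hkkn : ∀ j, 0 < kk j ∧ kk j ≤ n := fun j =>
    ⟨Nat.succ_pos _, gi_le_n (by omega) (lt_of_le_of_lt (hLH j) hHnh)⟩
  have hkkm : Monotone kk := fun j j' hjj => gi_mono o h (hLmono hjj)
  -- the grid theorem
  have hpb : ∀ k < n, ∀ t, pb u i θ (iidEnvironmentLaw ν) t (gl o h (k + 1) - gl o h k) h r ≤
      ENNReal.ofReal δ := fun k _ t => hSl' h (by omega) t _ (gl_step ho2 k)
  have hb' : m * ((r + (1 + |θ|) + (r + (1 + |θ|))) / w + δ) ≤ b := by
    refine le_trans ?_ hmb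
    have h1 : (r + (1 + |θ|) + (r + (1 + |θ|))) / w ≤ Λ' * (3 * q) := by
      rw [hw, div_div_eq_mul_div, div_le_iff₀ hW0]
      have h2 : r + (1 + |θ|) + (r + (1 + |θ|)) ≤ 3 * (q * wd H) := by linarith
      calc (r + (1 + |θ|) + (r + (1 + |θ|))) * Λ' ≤ 3 * (q * wd H) * Λ' :=
            mul_le_mul_of_nonneg_right h2 hΛ'.le
        _ = Λ' * (3 * q) * wd H := by ring
    have hm0 : (0 : ℝ) ≤ m := Nat.cast_nonneg m
    exact mul_le_mul_of_nonneg_left (by linarith) hm0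
  have hocc : ∑ k ∈ Finset.range (n - 1), occ u i θ (iidEnvironmentLaw ν) (a * wd H)
      (gl o h (k + 1)) ≤ ENNReal.ofReal (2 * n * (Co * a ^ c0)) := by
    have h1 := hO H hHN2
    have h1' : ∑ l ∈ Finset.range H, occ u i θ (iidEnvironmentLaw ν) (a * wd H) l ≤
        ENNReal.ofReal (Co * a ^ c0 * H) := h1
    have hhR : (0 : ℝ) < h := by exact_mod_cast hh1
    have hh0 : (h : ℝ≥0∞) ≠ 0 := by exact_mod_cast (by omega : h ≠ 0)
    have hac : 0 ≤ a ^ c0 := Real.rpow_nonneg ha.le c0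
    simp_rw [gl_succ]
    refine (ENNReal.mul_le_mul_iff_right hh0 (ENNReal.natCast_ne_top h)).1 ?_
    refine hoff.trans ?_
    calc 2 * ∑ l ∈ Finset.range H, occ u i θ (iidEnvironmentLaw ν) (a * wd H) l
        ≤ 2 * ENNReal.ofReal (Co * a ^ c0 * H) := by gcongr
      _ = ENNReal.ofReal (2 * (Co * a ^ c0 * H)) := by
          rw [ENNReal.ofReal_mul (p := 2) (by norm_num), ENNReal.ofReal_ofNat]
      _ ≤ ENNReal.ofReal (h * (2 * n * (Co * a ^ c0))) := by
          refine ENNReal.ofReal_le_ofReal ?_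
          have h2 : (H : ℝ) ≤ n * h := by exact_mod_cast hHnh.le
          have h3 : 0 ≤ 2 * (Co * a ^ c0) := by positivity
          nlinarith
      _ = h * ENNReal.ofReal (2 * n * (Co * a ^ c0)) := by
          rw [ENNReal.ofReal_mul hhR.le, ENNReal.ofReal_natCast]
  have hgrid := grid_l1 (u := u) (i := i) (θ := θ) (ν := ν) hH (gl_mono o h) (gl_zero o h)
    hψ1 hkkn hw0' hψL hr0 hδ0 hpb hb' hb1 hη0.le (fun k hk0 hkn => by
      refine hRe w hww (gl o h k) (hol0.trans (gl_ge hk0)) _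
        (FEk9.cutL_mono ((gl_mono o h).comp hkkm) _) (FEk9.le_cutL _ _) _
        (FEk9.cutχ_mem hψ1 kk k) fun j z z' => ?_
      unfold cutχ
      split_ifs
      · exact hψL j z z'
      · rw [sub_self, abs_zero]
        positivity)
    (R := a * wd H) (K := 2 * n * (Co * a ^ c0)) (by
      have : 2 * r ≤ 2 * q * wd H := by linarith
      exact this.trans (mul_le_mul_of_nonneg_right h2a hW0.le)) (by positivity) hocc
    (s := ε / 4) (by linarith)
  have hcmp : ∫ ω, |FE u L ψ ω 0 - FE u (fun j => gl o h (kk j)) ψ ω 0|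
      ∂(iidEnvironmentLaw ν) ≤ b := by
    refine (grid_cmp (L := L) (L' := fun j => gl o h (kk j)) (h := h) hH hψ1 hw0' hψL
      (fun j => gi_le (hLo j)) hr0 hδ0
      (fun j => hSl' h (by omega) _ _ (gi_sub (hLo j) (by omega)))).trans (le_trans ?_ hb')
    have hm0 : (0 : ℝ) ≤ m := Nat.cast_nonneg m
    refine mul_le_mul_of_nonneg_left ?_ hm0
    gcongr
    linarith
  have iF : ∀ L : Fin m → ℕ, Integrable (fun ω => FE u L ψ ω 0) (iidEnvironmentLaw ν) := fun L =>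
    integrable_unit (meas_FE hψ1 0) fun ω => ⟨FEk9.FE_nonneg hψ1 ω 0, FEk9.FE_le_one hψ1 ω 0⟩
  have hfin := l1_tri (iF L) (iF fun j => gl o h (kk j)) hcmp hgrid
  refine hfin.trans ?_
  have hb8 : b ≤ ε / 8 := hbε.trans (min_le_right _ _)
  have h7 : 7 * n * η = ε ^ 2 / 32 := aux7 hn0
  have hE' : b ^ 2 * (1 + 2 * n * (Co * a ^ c0)) + 6 * n * δ + 7 * n * η ≤ ε ^ 2 / 16 := by
    have := hE.trans (min_le_left _ _)
    rw [h7]
    linarith
  have hq4 : (b ^ 2 * (1 + 2 * n * (Co * a ^ c0)) + 6 * n * δ + 7 * n * η) / (ε / 4) ≤ ε / 4 := by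
    rw [div_le_iff₀ (by linarith)]
    linarith [sq ε]
  linarith

end Crest.Agent.R154.D2V36
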