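import Crest.Agent.R154.RatioA_872

/-!
Row 154, `d ≥ 3` (helper903), route 263 #36390: THE HOME MASS LEMMA in `KerSys` letters.

A law `w` at level `a` (rows below `a` known) is pushed by the natural climbs.  `rpush D a b w` is
the part of the push whose (start, exit) satisfies the relation `D`.

* `nonhome`: a part of the push satisfying `C b` ("hair") can be `≥ T` at some level `b ∈ [a,c]` only
  with price `(ν/p)`: linear first moment, stopping at the first such LEVEL (fresh above).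
* `survive`: the total mass loses a factor `2` between the levels `s` and `c` only with price
  `(h(s-a) - h(c-a))/2`.
* `late`: union of the two: the home mass drops below `T` although the mass at `s` was `≥ 4T`.
* `early`: first moment for the confined mass.
-/

set_option autoImplicit false
set_option linter.unusedSectionVars false

namespace Crest.Agent.R154.Home903

open MeasureTheory ProbabilityTheory Set
open Crest.Agent.R154.RatioR872 Crest.Agent.R154.RatioR872.KerSys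
open scoped ENNReal Classical

variable {S : Type*} [Countable S] {Ω : Type*} {m0 : MeasurableSpace Ω} {P : Measure Ω}
variable (A : KerSys S P)

/-- push restricted to a relation (start, exit) -/
noncomputable def rpush (D : S → S → Prop) (a b : ℕ) (w : Ω → S → ℝ≥0∞) (ω : Ω) (y : S) : ℝ≥0∞ :=
  ∑' x, w ω x * (if D x y then A.G a b ω x y else 0)

variable {A}

lemma rpush_wt {D : S → S → Prop} {a b : ℕ} (hab : a ≤ b) {w : Ω → S → ℝ≥0∞} (hw : A.Wt a w) :
    A.Wt b (rpush A D a b w) where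
  meas y := by
    unfold rpush
    refine Measurable.ennreal_tsum fun x => ?_
    refine ((hw.meas x).mono (A.F.mono hab) le_rfl).mul ?_
    by_cases h : D x y
    · simpa [h] using A.measF a b x y hab
    · simp [h]
  supp ω y hy := by
    unfold rpush
    simp [A.supp a b ω _ y hy]

lemma tot_rpush (D : S → S → Prop) (a b : ℕ) (w : Ω → S → ℝ≥0∞) (ω : Ω) :
    tot (rpush A D a b w) ω = ∑' x, w ω x * ∑' y, (if D x y then A.G a b ω x y else 0) := by
  unfold tot rpush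
  rw [ENNReal.tsum_comm]
  exact tsum_congr fun x => ENNReal.tsum_mul_left

lemma tot_rpush_add (D : S → S → Prop) (a b : ℕ) (w : Ω → S → ℝ≥0∞) (ω : Ω) :
    tot (rpush A D a b w) ω + tot (rpush A (fun x y => ¬ D x y) a b w) ω = tot (A.push a b w) ω := by
  rw [tot_rpush, tot_rpush, tot_push, ← ENNReal.tsum_add]
  refine tsum_congr fun x => ?_
  rw [← mul_add, ← ENNReal.tsum_add]
  unfold KerSys.N
  congr 1
  refine tsum_congr fun y => ?_
  by_cases h : D x y <;> simp [h]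

lemma tot_rpush_le (D : S → S → Prop) (a b : ℕ) (w : Ω → S → ℝ≥0∞) (ω : Ω) :
    tot (rpush A D a b w) ω ≤ tot (A.push a b w) ω := by
  rw [← tot_rpush_add D a b w ω]
  exact le_self_add

/-- the total of a push decreases with the top level -/
lemma tot_push_anti {a b c : ℕ} (hab : a ≤ b) (hbc : b ≤ c) (w : Ω → S → ℝ≥0∞) (ω : Ω) :
    tot (A.push a c w) ω ≤ tot (A.push a b w) ω := by
  rw [tot_push, tot_push]
  exact ENNReal.tsum_le_tsum fun x => mul_le_mul_right (A.anti a b c ω x hab hbc) _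

lemma ite_not_ker {C : Prop} (g : ℝ≥0∞) :
    (@ite _ (¬ C) (Classical.propDecidable _) g 0) = if C then 0 else g := by
  by_cases h : C <;> simp [h]

/-- **hair is expensive**: at the first LEVEL where the `C`-part of the push is `≥ T`, everything
above is fresh, so it survives to the level `c` with annealed probability `≥ p`. -/
theorem nonhome {a c : ℕ} {C : ℕ → S → S → Prop} {w : Ω → S → ℝ≥0∞} (hw : A.Wt a w)
    {φ T : Ω → ℝ≥0∞} (hφ : Measurable[A.F a] φ) (hT : Measurable[A.F a] T)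
    {Bd : S → Ω → ℝ≥0∞} {ν p : ℝ≥0∞} (hBm : ∀ x, Measurable[A.H a] (Bd x))
    (hBi : ∀ x ∈ A.L a, ∫⁻ ω, Bd x ω ∂P ≤ ν)
    (hB : ∀ b, a ≤ b → b ≤ c → ∀ᵐ ω ∂P, ∀ x,
      ∑' y, (if C b x y then A.G a b ω x y else 0) * A.N b c ω y ≤ Bd x ω)
    (hp : ∀ n, n ≤ c - a → p ≤ A.h n) :
    p * ∫⁻ ω in {ω | ∃ b, a ≤ b ∧ b ≤ c ∧ T ω ≤ tot (rpush A (C b) a b w) ω}, φ ω * T ω ∂P
      ≤ ν * ∫⁻ ω, φ ω * tot w ω ∂P := by
  classical
  set X : ℕ → Ω → ℝ≥0∞ := fun b ω => tot (rpush A (C b) a b w) ω with hX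
  set E : ℕ → Set Ω := fun b => {ω | T ω ≤ X b ω ∧ ∀ b' ∈ Finset.Ico a b, ¬ (T ω ≤ X b' ω)}
    with hE
  have hXm : ∀ b, a ≤ b → Measurable[A.F b] (X b) := fun b hb => (rpush_wt hb hw).meas_tot
  have hEm : ∀ b, a ≤ b → MeasurableSet[A.F b] (E b) := by
    intro b hb
    have h1 : ∀ b', a ≤ b' → b' ≤ b → MeasurableSet[A.F b] {ω | T ω ≤ X b' ω} := fun b' h h' =>
      measurableSet_le (hT.mono (A.F.mono hb) le_rfl) ((hXm b' h).mono (A.F.mono h') le_rfl)
    have h2 : E b = {ω | T ω ≤ X b ω} ∩ ⋂ b' ∈ Finset.Ico a b, {ω | T ω ≤ X b' ω}ᶜ := by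
      ext ω
      simp [hE]
    rw [h2]
    refine (h1 b hb le_rfl).inter ?_
    refine Finset.measurableSet_biInter _ fun b' hb' => ?_
    rw [Finset.mem_Ico] at hb'
    exact (h1 b' hb'.1 hb'.2.le).compl
  have hEm0 : ∀ b ∈ Finset.Icc a c, MeasurableSet (E b) := fun b hb =>
    A.F.le b _ (hEm b (Finset.mem_Icc.1 hb).1)
  have hdisj : Set.PairwiseDisjoint (↑(Finset.Icc a c)) E := by
    intro b hb b' hb' hne
    rw [Finset.coe_Icc, Set.mem_Icc] at hb hb'
    refine Set.disjoint_left.2 fun ω h h' => ?_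
    rcases lt_or_gt_of_ne hne with hlt | hlt
    · exact h'.2 b (Finset.mem_Ico.2 ⟨hb.1, hlt⟩) h.1
    · exact h.2 b' (Finset.mem_Ico.2 ⟨hb'.1, hlt⟩) h'.1
  have hU : {ω | ∃ b, a ≤ b ∧ b ≤ c ∧ T ω ≤ X b ω} = ⋃ b ∈ Finset.Icc a c, E b := by
    ext ω
    simp only [Set.mem_ofPred_eq, mem_iUnion, Finset.mem_Icc, hE, Finset.mem_Ico]
    constructor
    · intro h
      have hex : ∃ b, a ≤ b ∧ b ≤ c ∧ T ω ≤ X b ω := h
      refine ⟨Nat.find hex, ⟨(Nat.find_spec hex).1, (Nat.find_spec hex).2.1⟩,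
        (Nat.find_spec hex).2.2, fun b' hb' hT' => ?_⟩
      exact Nat.find_min hex hb'.2 ⟨hb'.1, hb'.2.le.trans (Nat.find_spec hex).2.1, hT'⟩
    · rintro ⟨b, hb, hb', -⟩
      exact ⟨b, hb.1, hb.2, hb'⟩
  set V : Ω → ℝ≥0∞ := fun ω => ∑' x, w ω x * Bd x ω with hV
  have hφ0 : Measurable φ := hφ.mono (A.F.le a) le_rfl
  have hw0 : ∀ x, Measurable fun ω => w ω x := fun x => (hw.meas x).mono (A.F.le a) le_rfl
  have hB0 : ∀ x, Measurable (Bd x) := fun x => (hBm x).mono (A.H_le a) le_rfl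
  have hpw : ∀ x, Measurable fun ω => φ ω * w ω x := fun x => hφ0.mul (hw0 x)
  have hpwF : ∀ x, Measurable[A.F a] fun ω => φ ω * w ω x := fun x => hφ.mul (hw.meas x)
  have hpwB : ∀ x, Measurable fun ω => φ ω * w ω x * Bd x ω := fun x => (hpw x).mul (hB0 x)
  -- one level
  have hone : ∀ b ∈ Finset.Icc a c, p * ∫⁻ ω in E b, φ ω * T ω ∂P ≤ ∫⁻ ω in E b, φ ω * V ω ∂P := by
    intro b hb
    obtain ⟨h1, h2⟩ := Finset.mem_Icc.1 hb
    have hwb : A.Wt b (rpush A (C b) a b w) := rpush_wt h1 hw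
    have hφb : Measurable[A.F b] ((E b).indicator φ) :=
      (hφ.mono (A.F.mono h1) le_rfl).indicator (hEm b h1)
    have hfm := first_moment (A := A) h2 hwb hφb
    have e1 : ∫⁻ ω in E b, φ ω * T ω ∂P ≤ ∫⁻ ω, (E b).indicator φ ω * tot (rpush A (C b) a b w) ω ∂P := by
      rw [← lintegral_indicator (hEm0 b hb)]
      refine lintegral_mono fun ω => ?_
      by_cases hω : ω ∈ E b
      · simp only [indicator_of_mem hω]
        exact mul_le_mul_right hω.1 _
      · simp [indicator_of_notMem hω]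
    calc p * ∫⁻ ω in E b, φ ω * T ω ∂P
        ≤ A.h (c - b) * ∫⁻ ω, (E b).indicator φ ω * tot (rpush A (C b) a b w) ω ∂P :=
          mul_le_mul' (hp _ (by omega)) e1
      _ = ∫⁻ ω, (E b).indicator φ ω * tot (A.push b c (rpush A (C b) a b w)) ω ∂P := hfm.symm
      _ ≤ ∫⁻ ω, (E b).indicator φ ω * V ω ∂P := by
          refine lintegral_mono_ae ?_
          filter_upwards [hB b h1 h2] with ω hω
          refine mul_le_mul_right ?_ _
          rw [tot_push]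
          have e2 : ∀ y, rpush A (C b) a b w ω y * A.N b c ω y
              = ∑' x, w ω x * ((if C b x y then A.G a b ω x y else 0) * A.N b c ω y) := by
            intro y
            unfold rpush
            rw [← ENNReal.tsum_mul_right]
            exact tsum_congr fun x => by ring
          simp_rw [e2]
          rw [ENNReal.tsum_comm]
          refine ENNReal.tsum_le_tsum fun x => ?_
          rw [ENNReal.tsum_mul_left]
          exact mul_le_mul_right (hω x) _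
      _ = ∫⁻ ω in E b, φ ω * V ω ∂P := by
          rw [← lintegral_indicator (hEm0 b hb)]
          refine lintegral_congr fun ω => ?_
          by_cases hω : ω ∈ E b
          · simp only [indicator_of_mem hω]
          · simp [indicator_of_notMem hω]
  rw [hU, lintegral_biUnion_finset hdisj hEm0, Finset.mul_sum]
  calc ∑ b ∈ Finset.Icc a c, p * ∫⁻ ω in E b, φ ω * T ω ∂P
      ≤ ∑ b ∈ Finset.Icc a c, ∫⁻ ω in E b, φ ω * V ω ∂P := Finset.sum_le_sum hone
    _ = ∫⁻ ω in ⋃ b ∈ Finset.Icc a c, E b, φ ω * V ω ∂P :=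
        (lintegral_biUnion_finset hdisj hEm0 _).symm
    _ ≤ ∫⁻ ω, φ ω * V ω ∂P := setLIntegral_le_lintegral _ _
    _ = ∑' x, ∫⁻ ω, (φ ω * w ω x) * Bd x ω ∂P := by
        rw [← lintegral_tsum fun x => (hpwB x).aemeasurable]
        refine lintegral_congr fun ω => ?_
        rw [hV, ← ENNReal.tsum_mul_left]
        exact tsum_congr fun x => by ring
    _ ≤ ∑' x, ν * ∫⁻ ω, φ ω * w ω x ∂P := by
        refine ENNReal.tsum_le_tsum fun x => ?_
        rw [A.indep_mul (hpwF x) (hBm x), mul_comm]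
        by_cases hx : x ∈ A.L a
        · exact mul_le_mul_left (hBi x hx) _
        · simp [hw.supp _ x hx]
    _ = ν * ∫⁻ ω, φ ω * tot w ω ∂P := by
        rw [ENNReal.tsum_mul_left]
        congr 1
        rw [← lintegral_tsum fun x => (hpw x).aemeasurable]
        refine lintegral_congr fun ω => ?_
        rw [tot, ← ENNReal.tsum_mul_left]

/-- **the mass loses a factor two after level `s` only with price `(h(s-a) - h(c-a))/2`**: no
rate needed. -/
theorem survive {a s c : ℕ} (has : a ≤ s) (hsc : s ≤ c) {w : Ω → S → ℝ≥0∞} (hw : A.Wt a w)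
    {φ T : Ω → ℝ≥0∞} (hφ : Measurable[A.F a] φ) (hT : Measurable[A.F a] T)
    (hfin : ∫⁻ ω, φ ω * tot w ω ∂P ≠ ∞) :
    2 * ∫⁻ ω in {ω | 4 * T ω ≤ tot (A.push a s w) ω ∧
        ∃ b, s ≤ b ∧ b ≤ c ∧ tot (A.push a b w) ω < 2 * T ω}, φ ω * T ω ∂P
      ≤ (A.h (s - a) - A.h (c - a)) * ∫⁻ ω, φ ω * tot w ω ∂P := by
  have hac := has.trans hsc
  have hφ0 : Measurable φ := hφ.mono (A.F.le a) le_rfl
  have hT0 : Measurable T := hT.mono (A.F.le a) le_rfl
  have hm : ∀ b, a ≤ b → Measurable fun ω => tot (A.push a b w) ω := fun b hb =>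
    ((hw.push hb).meas_tot).mono (A.F.le b) le_rfl
  have h1 := first_moment (A := A) has hw hφ
  have h2 := first_moment (A := A) hac hw hφ
  set I := ∫⁻ ω, φ ω * tot w ω ∂P with hI
  set Z : Set Ω := {ω | 4 * T ω ≤ tot (A.push a s w) ω ∧ tot (A.push a c w) ω < 2 * T ω} with hZ
  have hZm : MeasurableSet Z := by
    refine MeasurableSet.inter ?_ ?_
    · exact measurableSet_le (hT0.const_mul _) (hm s has)
    · exact measurableSet_lt (hm c hac) (hT0.const_mul _)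
  have hsub : {ω | 4 * T ω ≤ tot (A.push a s w) ω ∧
      ∃ b, s ≤ b ∧ b ≤ c ∧ tot (A.push a b w) ω < 2 * T ω} ⊆ Z := by
    rintro ω ⟨e1, b, e2, e3, e4⟩
    exact ⟨e1, (tot_push_anti (has.trans e2) e3 w ω).trans_lt e4⟩
  have hkey : ∫⁻ ω, φ ω * tot (A.push a c w) ω ∂P + 2 * ∫⁻ ω in Z, φ ω * T ω ∂P
      ≤ ∫⁻ ω, φ ω * tot (A.push a s w) ω ∂P := by
    have hpT : Measurable fun ω => φ ω * T ω := hφ0.mul hT0
    have hpc : Measurable fun ω => φ ω * tot (A.push a c w) ω := hφ0.mul (hm c hac)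
    rw [← lintegral_const_mul _ hpT, ← lintegral_indicator hZm, ← lintegral_add_left hpc]
    refine lintegral_mono fun ω => ?_
    by_cases hω : ω ∈ Z
    · simp only [indicator_of_mem hω]
      have h3 : tot (A.push a c w) ω + 2 * T ω ≤ 4 * T ω := by
        have h4 := hω.2.le
        calc tot (A.push a c w) ω + 2 * T ω ≤ 2 * T ω + 2 * T ω := by gcongr
          _ = 4 * T ω := by ring
      calc φ ω * tot (A.push a c w) ω + 2 * (φ ω * T ω)
          = φ ω * (tot (A.push a c w) ω + 2 * T ω) := by ring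
        _ ≤ φ ω * tot (A.push a s w) ω := by gcongr; exact h3.trans hω.1
    · simp only [indicator_of_notMem hω, add_zero]
      exact mul_le_mul_right (tot_push_anti has hsc w ω) _
  rw [h1, h2] at hkey
  have hc1 : A.h (c - a) * I ≠ ∞ := by
    by_cases h0 : I = 0
    · simp [h0]
    · rw [← h2]
      refine ne_top_of_le_ne_top hfin ?_
      exact lintegral_mono fun ω => mul_le_mul_right (A.tot_push_le hac w ω) _
  calc 2 * ∫⁻ ω in {ω | 4 * T ω ≤ tot (A.push a s w) ω ∧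
        ∃ b, s ≤ b ∧ b ≤ c ∧ tot (A.push a b w) ω < 2 * T ω}, φ ω * T ω ∂P
      ≤ 2 * ∫⁻ ω in Z, φ ω * T ω ∂P := by gcongr
    _ ≤ A.h (s - a) * I - A.h (c - a) * I := ENNReal.le_sub_of_add_le_left hc1 hkey
    _ = (A.h (s - a) - A.h (c - a)) * I := (ENNReal.sub_mul fun _ _ => hfin).symm

/-- **LATE FAILURE**: if the mass at level `s` is still `≥ 4T`, the home mass (exit related by
`D b`) stays `≥ T` at every level of `[s, c]`, off a set of price
`(h(s-a) - h(c-a))/2 + ν/p`. -/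
theorem late {a s c : ℕ} (has : a ≤ s) (hsc : s ≤ c) {D : ℕ → S → S → Prop}
    {w : Ω → S → ℝ≥0∞} (hw : A.Wt a w)
    {φ T : Ω → ℝ≥0∞} (hφ : Measurable[A.F a] φ) (hT : Measurable[A.F a] T)
    (hfin : ∫⁻ ω, φ ω * tot w ω ∂P ≠ ∞)
    {Bd : S → Ω → ℝ≥0∞} {ν p : ℝ≥0∞} (hBm : ∀ x, Measurable[A.H a] (Bd x))
    (hBi : ∀ x ∈ A.L a, ∫⁻ ω, Bd x ω ∂P ≤ ν)
    (hB : ∀ b, a ≤ b → b ≤ c → ∀ᵐ ω ∂P, ∀ x,
      ∑' y, (if D b x y then 0 else A.G a b ω x y) * A.N b c ω y ≤ Bd x ω)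
    (hp0 : p ≠ 0) (hp1 : p ≠ ∞) (hp : ∀ n, n ≤ c - a → p ≤ A.h n) :
    ∫⁻ ω in {ω | 4 * T ω ≤ tot (A.push a s w) ω ∧
        ∃ b, s ≤ b ∧ b ≤ c ∧ tot (rpush A (D b) a b w) ω < T ω}, φ ω * T ω ∂P
      ≤ ((A.h (s - a) - A.h (c - a)) / 2 + ν / p) * ∫⁻ ω, φ ω * tot w ω ∂P := by
  have h1 := survive has hsc hw hφ hT hfin
  have h2 := nonhome (C := fun b x y => ¬ D b x y) hw hφ hT hBm hBi
    (fun b e1 e2 => by simpa only [ite_not_ker] using hB b e1 e2) hp
  have hsub : {ω | 4 * T ω ≤ tot (A.push a s w) ω ∧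
      ∃ b, s ≤ b ∧ b ≤ c ∧ tot (rpush A (D b) a b w) ω < T ω}
      ⊆ {ω | 4 * T ω ≤ tot (A.push a s w) ω ∧
          ∃ b, s ≤ b ∧ b ≤ c ∧ tot (A.push a b w) ω < 2 * T ω}
        ∪ {ω | ∃ b, a ≤ b ∧ b ≤ c ∧ T ω ≤ tot (rpush A (fun x y => ¬ D b x y) a b w) ω} := by
    rintro ω ⟨e1, b, e2, e3, e4⟩
    by_cases h : tot (A.push a b w) ω < 2 * T ω
    · exact Or.inl ⟨e1, b, e2, e3, h⟩
    · refine Or.inr ⟨b, has.trans e2, e3, ?_⟩
      by_contra h'
      rw [not_le] at h'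
      refine h ?_
      rw [← tot_rpush_add (D b) a b w ω, two_mul]
      exact ENNReal.add_lt_add e4 h'
  refine (lintegral_mono_set hsub).trans ((lintegral_union_le _ _ _).trans ?_)
  rw [add_mul]
  refine add_le_add ?_ ?_
  · rw [← ENNReal.mul_div_right_comm,
      ENNReal.le_div_iff_mul_le (Or.inl two_ne_zero) (Or.inl ENNReal.ofNat_ne_top), mul_comm]
    exact h1
  · rw [← ENNReal.mul_div_right_comm, ENNReal.le_div_iff_mul_le (Or.inl hp0) (Or.inl hp1), mul_comm]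
    exact h2

/-- the weights used in the conditional forms -/
lemma norm_int {a : ℕ} {w : Ω → S → ℝ≥0∞} (hw : A.Wt a w) {B : Set Ω}
    (hBF : MeasurableSet[A.F a] B) (h0 : ∀ ω ∈ B, tot w ω ≠ 0) (h1 : ∀ ω ∈ B, tot w ω ≠ ∞) :
    Measurable[A.F a] (B.indicator fun ω => (tot w ω)⁻¹) ∧
    ∫⁻ ω, (B.indicator fun ω => (tot w ω)⁻¹) ω * tot w ω ∂P = P B ∧
    ∀ (θ : ℝ≥0∞) (L : Set Ω),
      ∫⁻ ω in L, (B.indicator fun ω => (tot w ω)⁻¹) ω * (θ * tot w ω) ∂P = θ * P (B ∩ L) := by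
  have hB0 : MeasurableSet B := A.F.le a _ hBF
  refine ⟨(hw.meas_tot.inv).indicator hBF, ?_, fun θ L => ?_⟩
  · rw [← lintegral_indicator_one hB0]
    refine lintegral_congr fun ω => ?_
    by_cases hω : ω ∈ B
    · simp only [indicator_of_mem hω, Pi.one_apply]
      exact ENNReal.inv_mul_cancel (h0 ω hω) (h1 ω hω)
    · simp [indicator_of_notMem hω]
  · have e : ∀ ω, (B.indicator fun ω => (tot w ω)⁻¹) ω * (θ * tot w ω)
        = B.indicator (fun _ => θ) ω := by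
      intro ω
      by_cases hω : ω ∈ B
      · simp only [indicator_of_mem hω]
        rw [mul_left_comm, ENNReal.inv_mul_cancel (h0 ω hω) (h1 ω hω), mul_one]
      · simp [indicator_of_notMem hω]
    simp_rw [e]
    rw [lintegral_indicator_const hB0, Measure.restrict_apply hB0]

/-- **LATE FAILURE, conditional form.** -/
theorem late_norm {a s c : ℕ} (has : a ≤ s) (hsc : s ≤ c) {D : ℕ → S → S → Prop}
    {w : Ω → S → ℝ≥0∞} (hw : A.Wt a w) {B : Set Ω} (hBF : MeasurableSet[A.F a] B)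
    (h0 : ∀ ω ∈ B, tot w ω ≠ 0) (h1 : ∀ ω ∈ B, tot w ω ≠ ∞) (hPB : P B ≠ ∞)
    {θ : ℝ≥0∞} (hθ0 : θ ≠ 0) (hθ1 : θ ≠ ∞)
    {Bd : S → Ω → ℝ≥0∞} {ν p : ℝ≥0∞} (hBm : ∀ x, Measurable[A.H a] (Bd x))
    (hBi : ∀ x ∈ A.L a, ∫⁻ ω, Bd x ω ∂P ≤ ν)
    (hB : ∀ b, a ≤ b → b ≤ c → ∀ᵐ ω ∂P, ∀ x,
      ∑' y, (if D b x y then 0 else A.G a b ω x y) * A.N b c ω y ≤ Bd x ω)
    (hp0 : p ≠ 0) (hp1 : p ≠ ∞) (hp : ∀ n, n ≤ c - a → p ≤ A.h n) :
    P (B ∩ {ω | 4 * (θ * tot w ω) ≤ tot (A.push a s w) ω ∧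
        ∃ b, s ≤ b ∧ b ≤ c ∧ tot (rpush A (D b) a b w) ω < θ * tot w ω})
      ≤ ((A.h (s - a) - A.h (c - a)) / 2 + ν / p) / θ * P B := by
  obtain ⟨n1, n2, n3⟩ := norm_int hw hBF h0 h1
  have hT : Measurable[A.F a] fun ω => θ * tot w ω := hw.meas_tot.const_mul θ
  have h := late has hsc hw n1 hT (by rw [n2]; exact hPB) hBm hBi hB hp0 hp1 hp
  rw [n2, n3] at h
  rw [← ENNReal.mul_div_right_comm, ENNReal.le_div_iff_mul_le (Or.inl hθ0) (Or.inl hθ1), mul_comm]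
  exact h

/-- **HOME MASS, conditional form**: the home mass stays `≥ θ tot w` at all levels of `[a, c]`
off the event that the total mass at `c` is `< 2θ tot w` and a set of price `ν/(p θ)`. -/
theorem home_norm {a c : ℕ} {D : ℕ → S → S → Prop}
    {w : Ω → S → ℝ≥0∞} (hw : A.Wt a w) {B : Set Ω} (hBF : MeasurableSet[A.F a] B)
    (h0 : ∀ ω ∈ B, tot w ω ≠ 0) (h1 : ∀ ω ∈ B, tot w ω ≠ ∞)
    {θ : ℝ≥0∞} (hθ0 : θ ≠ 0) (hθ1 : θ ≠ ∞)
    {Bd : S → Ω → ℝ≥0∞} {ν p : ℝ≥0∞} (hBm : ∀ x, Measurable[A.H a] (Bd x))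
    (hBi : ∀ x ∈ A.L a, ∫⁻ ω, Bd x ω ∂P ≤ ν)
    (hB : ∀ b, a ≤ b → b ≤ c → ∀ᵐ ω ∂P, ∀ x,
      ∑' y, (if D b x y then 0 else A.G a b ω x y) * A.N b c ω y ≤ Bd x ω)
    (hp0 : p ≠ 0) (hp1 : p ≠ ∞) (hp : ∀ n, n ≤ c - a → p ≤ A.h n) :
    P (B ∩ {ω | ∃ b, a ≤ b ∧ b ≤ c ∧ tot (rpush A (D b) a b w) ω < θ * tot w ω})
      ≤ P (B ∩ {ω | tot (A.push a c w) ω < 2 * (θ * tot w ω)}) + ν / p / θ * P B := by
  obtain ⟨n1, n2, n3⟩ := norm_int hw hBF h0 h1
  have hT : Measurable[A.F a] fun ω => θ * tot w ω := hw.meas_tot.const_mul θ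
  have h := nonhome (C := fun b x y => ¬ D b x y) hw n1 hT hBm hBi
    (fun b e1 e2 => by simpa only [ite_not_ker] using hB b e1 e2) hp
  rw [n2, n3] at h
  have hsub : B ∩ {ω | ∃ b, a ≤ b ∧ b ≤ c ∧ tot (rpush A (D b) a b w) ω < θ * tot w ω}
      ⊆ (B ∩ {ω | tot (A.push a c w) ω < 2 * (θ * tot w ω)}) ∪
        (B ∩ {ω | ∃ b, a ≤ b ∧ b ≤ c ∧
          θ * tot w ω ≤ tot (rpush A (fun x y => ¬ D b x y) a b w) ω}) := by
    rintro ω ⟨hω, b, e2, e3, e4⟩
    by_cases h : tot (A.push a b w) ω < 2 * (θ * tot w ω)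
    · exact Or.inl ⟨hω, (tot_push_anti e2 e3 w ω).trans_lt h⟩
    · refine Or.inr ⟨hω, b, e2, e3, ?_⟩
      by_contra h'
      rw [not_le] at h'
      refine h ?_
      rw [← tot_rpush_add (D b) a b w ω, two_mul]
      exact ENNReal.add_lt_add e4 h'
  refine (measure_mono hsub).trans ((measure_union_le _ _).trans (add_le_add le_rfl ?_))
  rw [← ENNReal.mul_div_right_comm, ENNReal.le_div_iff_mul_le (Or.inl hθ0) (Or.inl hθ1),
    ← ENNReal.mul_div_right_comm, ENNReal.le_div_iff_mul_le (Or.inl hp0) (Or.inl hp1)]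
  calc P (B ∩ _) * θ * p = p * (θ * P (B ∩ _)) := by ring
    _ ≤ _ := h

/-- **EARLY PHASE, first moment**: a sub-kernel `g x ≤ 1` of the rows above `a` with annealed
mass `≥ p'` catches `≥ θ tot w` with conditional probability `≥ (p' - θ)/(1 - θ)`. -/
theorem early {a : ℕ} {w : Ω → S → ℝ≥0∞} (hw : A.Wt a w) {B : Set Ω}
    (hBF : MeasurableSet[A.F a] B) (h0 : ∀ ω ∈ B, tot w ω ≠ 0) (h1 : ∀ ω ∈ B, tot w ω ≠ ∞)
    (hPB : P B ≠ ∞) {g : S → Ω → ℝ≥0∞} (hgm : ∀ x, Measurable[A.H a] (g x))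
    (hg1 : ∀ x ω, g x ω ≤ 1) {p' θ : ℝ≥0∞} (hgp : ∀ x ∈ A.L a, p' ≤ ∫⁻ ω, g x ω ∂P) :
    (1 - θ) * P (B ∩ {ω | ∑' x, w ω x * g x ω < θ * tot w ω}) ≤ (1 - p') * P B := by
  classical
  obtain ⟨n1, n2, -⟩ := norm_int hw hBF h0 h1
  set φ : Ω → ℝ≥0∞ := B.indicator fun ω => (tot w ω)⁻¹ with hφdef
  have hB0 : MeasurableSet B := A.F.le a _ hBF
  have hφ0 : Measurable φ := n1.mono (A.F.le a) le_rfl
  have hw0 : ∀ x, Measurable fun ω => w ω x := fun x => (hw.meas x).mono (A.F.le a) le_rfl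
  have hg0 : ∀ x, Measurable (g x) := fun x => (hgm x).mono (A.H_le a) le_rfl
  have ht0 : Measurable fun ω => tot w ω := hw.meas_tot.mono (A.F.le a) le_rfl
  set Y : Ω → ℝ≥0∞ := fun ω => ∑' x, w ω x * g x ω with hY
  have hY0 : Measurable Y := Measurable.tsum fun x => (hw0 x).mul (hg0 x)
  set Z : Set Ω := {ω | Y ω < θ * tot w ω} with hZ
  have hZm : MeasurableSet Z := measurableSet_lt hY0 (ht0.const_mul _)
  have hpw : ∀ x, Measurable[A.F a] fun ω => φ ω * w ω x := fun x => n1.mul (hw.meas x)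
  have hpw0 : ∀ x, Measurable fun ω => φ ω * w ω x := fun x => hφ0.mul (hw0 x)
  have hpg0 : ∀ x, Measurable fun ω => φ ω * w ω x * g x ω := fun x => (hpw0 x).mul (hg0 x)
  have k1 : p' * P B ≤ ∫⁻ ω, φ ω * Y ω ∂P := by
    calc p' * P B = ∑' x, p' * ∫⁻ ω, φ ω * w ω x ∂P := by
          rw [ENNReal.tsum_mul_left, ← lintegral_tsum fun x => (hpw0 x).aemeasurable, ← n2]
          congr 1
          refine lintegral_congr fun ω => ?_
          rw [tot, ← ENNReal.tsum_mul_left]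
      _ ≤ ∑' x, ∫⁻ ω, φ ω * w ω x * g x ω ∂P := by
          refine ENNReal.tsum_le_tsum fun x => ?_
          rw [A.indep_mul (hpw x) (hgm x), mul_comm]
          by_cases hx : x ∈ A.L a
          · exact mul_le_mul_right (hgp x hx) _
          · simp [hw.supp _ x hx]
      _ = ∫⁻ ω, φ ω * Y ω ∂P := by
          rw [← lintegral_tsum fun x => (hpg0 x).aemeasurable]
          refine lintegral_congr fun ω => ?_
          rw [hY, ← ENNReal.tsum_mul_left]
          exact tsum_congr fun x => by ring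
  have hYt : ∀ ω, Y ω ≤ tot w ω := fun ω =>
    ENNReal.tsum_le_tsum fun x => (mul_le_mul_right (hg1 x ω) _).trans (mul_one _).le
  have k2 : ∫⁻ ω, φ ω * Y ω ∂P ≤ P (B \ Z) + θ * P (B ∩ Z) := by
    rw [← lintegral_indicator_one (hB0.diff hZm), ← lintegral_indicator_const (hB0.inter hZm) θ,
      ← lintegral_add_left (measurable_one.indicator (hB0.diff hZm))]
    refine lintegral_mono fun ω => ?_
    by_cases hω : ω ∈ B
    · by_cases hz : ω ∈ Z
      · have e1 : ω ∈ B ∩ Z := ⟨hω, hz⟩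
        have e2 : ω ∉ B \ Z := fun h => h.2 hz
        simp only [hφdef, indicator_of_mem hω, indicator_of_mem e1, indicator_of_notMem e2,
          zero_add]
        calc (tot w ω)⁻¹ * Y ω ≤ (tot w ω)⁻¹ * (θ * tot w ω) :=
              mul_le_mul_right (le_of_lt hz) _
          _ = θ := by rw [mul_left_comm, ENNReal.inv_mul_cancel (h0 ω hω) (h1 ω hω), mul_one]
      · have e1 : ω ∉ B ∩ Z := fun h => hz h.2
        have e2 : ω ∈ B \ Z := ⟨hω, hz⟩
        simp only [hφdef, indicator_of_mem hω, indicator_of_notMem e1, indicator_of_mem e2,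
          add_zero, Pi.one_apply]
        calc (tot w ω)⁻¹ * Y ω ≤ (tot w ω)⁻¹ * tot w ω := mul_le_mul_right (hYt ω) _
          _ = 1 := ENNReal.inv_mul_cancel (h0 ω hω) (h1 ω hω)
    · simp [hφdef, indicator_of_notMem hω]
  have k3 : P (B ∩ Z) + P (B \ Z) = P B := measure_inter_add_sdiff B hZm
  have hf1 : P (B ∩ Z) ≠ ∞ := ne_top_of_le_ne_top hPB (measure_mono inter_subset_left)
  have hf2 : P (B \ Z) ≠ ∞ := ne_top_of_le_ne_top hPB (measure_mono sdiff_subset)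
  rw [ENNReal.sub_mul fun _ _ => hf1, ENNReal.sub_mul fun _ _ => hPB, one_mul, one_mul]
  have k4 := k1.trans k2
  rw [tsub_le_iff_right]
  by_cases hp : p' * P B = ∞
  · rw [hp, top_le_iff, ENNReal.add_eq_top] at k4
    rcases k4 with k4 | k4
    · exact absurd k4 hf2
    · rw [k4]; simp
  have hle : p' * P B ≤ P B := by
    have : p' * P B ≤ ∫⁻ ω, φ ω * Y ω ∂P := k1
    refine this.trans ?_
    calc ∫⁻ ω, φ ω * Y ω ∂P ≤ ∫⁻ ω, φ ω * tot w ω ∂P :=
          lintegral_mono fun ω => mul_le_mul_right (hYt ω) _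
      _ = P B := n2
  calc P (B ∩ Z) = P (B ∩ Z) := rfl
    _ ≤ P B - p' * P B + θ * P (B ∩ Z) := by
        have k5 : P (B ∩ Z) + p' * P B ≤ P B + θ * P (B ∩ Z) := by
          calc P (B ∩ Z) + p' * P B ≤ P (B ∩ Z) + (P (B \ Z) + θ * P (B ∩ Z)) := by gcongr
            _ = P B + θ * P (B ∩ Z) := by rw [← add_assoc, k3]
        rw [ENNReal.sub_add_eq_add_sub hle hp]
        exact ENNReal.le_sub_of_add_le_right hp k5

end Crest.Agent.R154.Home903
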