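import Crest.Agent.R154.TileA_872
import Crest.Agent.R154.MkC_561

/-! Row 154, HWPos (263's HOME MASS route), leaf (IND)/(M): conditional independence of `k` units
started from random laws with separated supports, and the product moment of confined masses. -/

set_option autoImplicit false
set_option linter.unusedSectionVars false
set_option linter.deprecated false

namespace Crest.Agent.R154.Ind104

open MeasureTheory ProbabilityTheory Set Filter Crest.ProbabilityR.RandomEnvironment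
open Crest.Agent.R154.Ren263 (Det)
open Crest.Agent.R154.Mk561 Crest.Agent.R154.Q561
open Crest.Agent.R154.Flux132 (lev)
open Crest.Agent.R154.RatioR872 Crest.Agent.R154.Tile872
open scoped ENNReal

variable {d : ℕ}

/-! ### freezing -/

theorem freeze {Ω α β : Type*} [MeasurableSpace α] [MeasurableSpace β] {F H m0 : MeasurableSpace Ω}
    {P : Measure Ω} [IsProbabilityMeasure P] (hF : F ≤ m0) (hH : H ≤ m0) (hind : Indep F H P)
    {f : Ω → α} (hf : Measurable[F] f) {g : Ω → β} (hg : Measurable[H] g)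
    {Φ : α × β → ℝ≥0∞} (hΦ : Measurable Φ) :
    ∫⁻ ω, Φ (f ω, g ω) ∂P = ∫⁻ ω, ∫⁻ ω', Φ (f ω, g ω') ∂P ∂P := by
  have hfm : Measurable f := hf.mono hF le_rfl
  have hgm : Measurable g := hg.mono hH le_rfl
  have hfg : IndepFun f g P := by
    rw [IndepFun_iff_Indep]
    exact indep_of_indep_of_le_left (indep_of_indep_of_le_right hind hg.comap_le) hf.comap_le
  have hmap := (indepFun_iff_map_prod_eq_prod_map_map hfm.aemeasurable hgm.aemeasurable).1 hfg
  calc ∫⁻ ω, Φ (f ω, g ω) ∂P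
      = ∫⁻ z, Φ z ∂(P.map fun ω => (f ω, g ω)) := (lintegral_map hΦ (hfm.prodMk hgm)).symm
    _ = ∫⁻ x, ∫⁻ y, Φ (x, y) ∂(P.map g) ∂(P.map f) := by
        rw [hmap, lintegral_prod _ hΦ.aemeasurable]
    _ = ∫⁻ ω, ∫⁻ y, Φ (f ω, y) ∂(P.map g) ∂P := by
        rw [lintegral_map (Measurable.lintegral_prod_right' hΦ) hfm]
    _ = _ := by
        refine lintegral_congr fun ω => ?_
        exact lintegral_map (hΦ.comp measurable_prodMk_left) hgm

/-! ### products of local functions on separated sets -/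

theorem prod_sep {Q : Measure (Environment d)} [IsProbabilityMeasure Q] {R : ℕ}
    (hR : IsFiniteRangeDependent Q R) {ι : Type*} (s : Finset ι) (S : ι → Set (Site d))
    (hS : ∀ a ∈ s, ∀ b ∈ s, a ≠ b → SepR R (S a) (S b)) (f : ι → Environment d → ℝ≥0∞)
    (hf : ∀ a ∈ s, Measurable (f a)) (hloc : ∀ a ∈ s, LocOn (S a) (f a)) :
    ∫⁻ ω, ∏ a ∈ s, f a ω ∂Q = ∏ a ∈ s, ∫⁻ ω, f a ω ∂Q := by
  classical
  induction s using Finset.induction_on with
  | empty => simp
  | insert a s ha ih =>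
    simp only [Finset.prod_insert ha]
    have hsub : ∀ b ∈ s, b ∈ insert a s := fun b hb => Finset.mem_insert_of_mem hb
    have hsep : SepR R (S a) (⋃ b ∈ s, S b) := by
      intro z hz w hw
      obtain ⟨b, hb, hwb⟩ := mem_iUnion₂.1 hw
      exact hS a (Finset.mem_insert_self a s) b (hsub b hb) (fun h => ha (h ▸ hb)) z hz w hwb
    rw [lintegral_mul_sep hR hsep (hf a (Finset.mem_insert_self a s))
      (Finset.measurable_prod _ fun i hi => hf i (hsub i hi))
      (hloc a (Finset.mem_insert_self a s))]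
    · rw [ih (fun a ha b hb => hS a (hsub a ha) b (hsub b hb)) (fun b hb => hf b (hsub b hb))
        (fun b hb => hloc b (hsub b hb))]
    · intro ω ω' h
      refine Finset.prod_congr rfl fun i hi => ?_
      exact hloc i (hsub i hi) ω ω' fun z hz => h z (Set.mem_biUnion hi hz)

/-! ### (IND): conditional independence of the units, random laws -/

/-- replace the rows outside `T` -/
noncomputable def rst (T : Set (Site d)) (ω₀ ω : Environment d) : Environment d := by
  classical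
  exact fun z => if z ∈ T then ω z else ω₀ z

lemma rst_of_mem {T : Set (Site d)} (ω₀ ω : Environment d) {z : Site d} (hz : z ∈ T) :
    rst T ω₀ ω z = ω z := by
  unfold rst; rw [if_pos hz]

lemma measurable_rst (T : Set (Site d)) (ω₀ : Environment d) :
    Measurable[coordSigmaAlgebra T] (rst T ω₀) := by
  classical
  refine measurable_coord ?_ ?_
  · refine measurable_pi_lambda _ fun z => ?_
    by_cases hz : z ∈ T
    · simp only [rst, hz, if_true]; exact measurable_pi_apply z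
    · simp only [rst, hz, if_false]; exact measurable_const
  · intro ω ω' h
    funext z
    by_cases hz : z ∈ T
    · simp only [rst, hz, if_true]; exact h z hz
    · simp only [rst, hz, if_false]

/-- **(IND)** the `k` units started from random (past-measurable) laws with separated boxes are
conditionally independent -/
theorem ind {Q : Measure (Environment d)} [IsProbabilityMeasure Q] {R : ℕ}
    (hR : IsFiniteRangeDependent Q R) {S0 T : Set (Site d)} (hST : SepR R S0 T)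
    {ι : Type*} [Fintype ι] (Lv : Set (Site d)) (box : Site d → Set (Site d))
    (hbox : ∀ x ∈ Lv, box x ⊆ T)
    (U : ι → (Site d → ℝ≥0∞) → Environment d → ℝ≥0∞)
    (hU : ∀ a, Measurable fun p : (Site d → ℝ≥0∞) × Environment d => U a p.1 p.2)
    (hloc : ∀ a v, (∀ x, v x ≠ 0 → x ∈ Lv) → LocOn (⋃ x ∈ {x | v x ≠ 0}, box x) (U a v))
    (w : ι → Environment d → Site d → ℝ≥0∞)
    (hw : ∀ a x, Measurable[coordSigmaAlgebra S0] fun ω => w a ω x)
    {Z : Environment d → ℝ≥0∞} (hZ : Measurable[coordSigmaAlgebra S0] Z)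
    (hsupp : ∀ ω, Z ω ≠ 0 → ∀ a x, w a ω x ≠ 0 → x ∈ Lv)
    (hsep : ∀ ω, Z ω ≠ 0 → ∀ a b, a ≠ b → ∀ x y, w a ω x ≠ 0 → w b ω y ≠ 0 →
      SepR R (box x) (box y)) :
    ∫⁻ ω, Z ω * ∏ a, U a (w a ω) ω ∂Q
      = ∫⁻ ω, Z ω * ∏ a, ∫⁻ ω', U a (w a ω) ω' ∂Q ∂Q := by
  classical
  have hne : (Set.univ : Set (Environment d)).Nonempty := by
    by_contra h
    rw [Set.not_nonempty_iff_eq_empty] at h
    have : Q (Set.univ) = 1 := measure_univ
    rw [h, measure_empty] at this
    exact zero_ne_one this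
  obtain ⟨ω₀, -⟩ := hne
  set f : Environment d → (ι → Site d → ℝ≥0∞) × ℝ≥0∞ := fun ω => (fun a => w a ω, Z ω) with hf
  have hfF : Measurable[coordSigmaAlgebra S0] f := by
    refine Measurable.prodMk ?_ hZ
    refine @measurable_pi_lambda _ _ _ (coordSigmaAlgebra S0) _ _ fun a => ?_
    exact @measurable_pi_lambda _ _ _ (coordSigmaAlgebra S0) _ _ fun x => hw a x
  set Φ : ((ι → Site d → ℝ≥0∞) × ℝ≥0∞) × Environment d → ℝ≥0∞ :=
    fun p => p.1.2 * ∏ a, U a (p.1.1 a) p.2 with hΦ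
  have hΦm : Measurable Φ := by
    refine (measurable_snd.comp measurable_fst).mul ?_
    refine Finset.measurable_prod _ fun a _ => ?_
    have h1 : Measurable fun p : ((ι → Site d → ℝ≥0∞) × ℝ≥0∞) × Environment d => p.1.1 a :=
      (measurable_pi_apply a).comp (measurable_fst.comp measurable_fst)
    exact (hU a).comp (h1.prodMk measurable_snd)
  have key : ∀ ω, Z ω ≠ 0 → ∀ a ω', U a (w a ω) (rst T ω₀ ω') = U a (w a ω) ω' := by
    intro ω hω a ω'
    refine hloc a (w a ω) (hsupp ω hω a) _ _ fun z hz => ?_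
    obtain ⟨x, hx, hzx⟩ := mem_iUnion₂.1 hz
    exact rst_of_mem ω₀ ω' (hbox x (hsupp ω hω a x hx) hzx)
  have h1 := freeze (P := Q) (coord_le S0) (coord_le T) (indep_sep hR hST) hfF
    (measurable_rst T ω₀) hΦm
  have e1 : ∀ ω ω', Φ (f ω, rst T ω₀ ω') = Z ω * ∏ a, U a (w a ω) ω' := by
    intro ω ω'
    by_cases hω : Z ω = 0
    · simp [hΦ, hf, hω]
    · simp only [hΦ, hf]
      congr 1
      exact Finset.prod_congr rfl fun a _ => key ω hω a ω'
  simp only [e1] at h1
  rw [h1]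
  refine lintegral_congr fun ω => ?_
  by_cases hω : Z ω = 0
  · simp [hω]
  have hUm : ∀ a, Measurable fun ω' => U a (w a ω) ω' := fun a =>
    (hU a).comp (measurable_const.prodMk measurable_id)
  rw [lintegral_const_mul _ (Finset.measurable_prod _ fun a _ => hUm a)]
  congr 1
  refine prod_sep hR Finset.univ (fun a => ⋃ x ∈ {x | w a ω x ≠ 0}, box x) ?_
    (fun a ω' => U a (w a ω) ω') (fun a _ => hUm a) (fun a _ => hloc a _ (hsupp ω hω a))
  intro a _ b _ hab z hz z' hz'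
  obtain ⟨x, hx, hzx⟩ := mem_iUnion₂.1 hz
  obtain ⟨y, hy, hzy⟩ := mem_iUnion₂.1 hz'
  exact hsep ω hω a b hab x y hx hy z hzx z' hzy

/-- corollary: bound of the conditional product -/
theorem ind_le {Q : Measure (Environment d)} [IsProbabilityMeasure Q] {R : ℕ}
    (hR : IsFiniteRangeDependent Q R) {S0 T : Set (Site d)} (hST : SepR R S0 T)
    {ι : Type*} [Fintype ι] (Lv : Set (Site d)) (box : Site d → Set (Site d))
    (hbox : ∀ x ∈ Lv, box x ⊆ T)
    (U : ι → (Site d → ℝ≥0∞) → Environment d → ℝ≥0∞)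
    (hU : ∀ a, Measurable fun p : (Site d → ℝ≥0∞) × Environment d => U a p.1 p.2)
    (hloc : ∀ a v, (∀ x, v x ≠ 0 → x ∈ Lv) → LocOn (⋃ x ∈ {x | v x ≠ 0}, box x) (U a v))
    (w : ι → Environment d → Site d → ℝ≥0∞)
    (hw : ∀ a x, Measurable[coordSigmaAlgebra S0] fun ω => w a ω x)
    {Z : Environment d → ℝ≥0∞} (hZ : Measurable[coordSigmaAlgebra S0] Z)
    (hsupp : ∀ ω, Z ω ≠ 0 → ∀ a x, w a ω x ≠ 0 → x ∈ Lv)
    (hsep : ∀ ω, Z ω ≠ 0 → ∀ a b, a ≠ b → ∀ x y, w a ω x ≠ 0 → w b ω y ≠ 0 →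
      SepR R (box x) (box y))
    {c : ι → ℝ≥0∞} (hc : ∀ ω, Z ω ≠ 0 → ∀ a, ∫⁻ ω', U a (w a ω) ω' ∂Q ≤ c a) :
    ∫⁻ ω, Z ω * ∏ a, U a (w a ω) ω ∂Q ≤ (∏ a, c a) * ∫⁻ ω, Z ω ∂Q := by
  rw [ind hR hST Lv box hbox U hU hloc w hw hZ hsupp hsep,
    ← lintegral_const_mul _ (hZ.mono (coord_le S0) le_rfl)]
  refine lintegral_mono fun ω => ?_
  by_cases hω : Z ω = 0
  · simp [hω]
  · simp only
    rw [mul_comm (∏ a, c a)]
    gcongr with a _
    exact hc ω hω a

/-! ### Jensen -/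

theorem jensen {S : Type*} [Countable S] (v e : S → ℝ≥0∞) (hv : ∑' x, v x = 1)
    (he : ∀ x, e x ≠ ∞) {θ : ℝ} (hθ : 0 ≤ θ) :
    (∑' x, v x * e x) ^ (-θ) ≤ ∑' x, v x * e x ^ (-θ) := by
  classical
  rcases hθ.eq_or_lt with h0 | h0
  · subst h0; simp [hv]
  by_cases hz : ∃ x, v x ≠ 0 ∧ e x = 0
  · obtain ⟨x, hx, hex⟩ := hz
    have : v x * e x ^ (-θ) = ∞ := by
      rw [hex, ENNReal.zero_rpow_of_neg (by linarith), ENNReal.mul_top hx]
    refine le_trans le_top (le_trans this.ge (ENNReal.le_tsum x))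
  push Not at hz
  let _ : MeasurableSpace S := ⊤
  set μ : Measure S := Measure.sum fun x => v x • Measure.dirac x with hμ
  have hint : ∀ g : S → ℝ≥0∞, ∫⁻ x, g x ∂μ = ∑' x, v x * g x := by
    intro g
    rw [hμ, lintegral_sum_measure]
    refine tsum_congr fun x => ?_
    rw [lintegral_smul_measure, lintegral_dirac' _ measurable_from_top, smul_eq_mul]
  have hpq : ((1 + θ) / θ).HolderConjugate (1 + θ) := by
    rw [Real.holderConjugate_iff]
    constructor
    · rw [lt_div_iff₀ h0]; linarith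
    · field_simp
      ring
  have hH := ENNReal.lintegral_mul_le_Lp_mul_Lq μ hpq
    (f := fun x => e x ^ (θ / (1 + θ))) (g := fun x => e x ^ (-(θ / (1 + θ))))
    measurable_from_top.aemeasurable measurable_from_top.aemeasurable
  have hθ1 : 0 < θ / (1 + θ) := by positivity
  rw [hint] at hH
  have e1 : ∑' x, v x * ((fun x => e x ^ (θ / (1 + θ))) * fun x => e x ^ (-(θ / (1 + θ)))) x
      = 1 := by
    rw [← hv]
    refine tsum_congr fun x => ?_
    by_cases hx : v x = 0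
    · simp [hx]
    · have h1 : e x ≠ 0 := hz x hx
      simp only [Pi.mul_apply]
      rw [← ENNReal.rpow_add _ _ h1 (he x)]
      simp
  rw [e1, hint, hint] at hH
  have e2 : ∑' x, v x * (e x ^ (θ / (1 + θ))) ^ ((1 + θ) / θ) = ∑' x, v x * e x := by
    refine tsum_congr fun x => ?_
    rw [← ENNReal.rpow_mul]
    have : θ / (1 + θ) * ((1 + θ) / θ) = 1 := by field_simp
    rw [this, ENNReal.rpow_one]
  have e3 : ∑' x, v x * (e x ^ (-(θ / (1 + θ)))) ^ (1 + θ) = ∑' x, v x * e x ^ (-θ) := by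
    refine tsum_congr fun x => ?_
    rw [← ENNReal.rpow_mul]
    have : -(θ / (1 + θ)) * (1 + θ) = -θ := by field_simp
    rw [this]
  rw [e2, e3] at hH
  set A := ∑' x, v x * e x with hA
  set B := ∑' x, v x * e x ^ (-θ) with hB
  have h5 : 1 ≤ A ^ θ * B := by
    have h6 : (1 : ℝ≥0∞) ^ (1 + θ) ≤ (A ^ (1 / ((1 + θ) / θ)) * B ^ (1 / (1 + θ))) ^ (1 + θ) :=
      ENNReal.rpow_le_rpow hH (by linarith)
    rw [ENNReal.one_rpow, ENNReal.mul_rpow_of_nonneg _ _ (by linarith : (0:ℝ) ≤ 1 + θ),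
      ← ENNReal.rpow_mul, ← ENNReal.rpow_mul] at h6
    have h7 : 1 / ((1 + θ) / θ) * (1 + θ) = θ := by field_simp
    have h8 : 1 / (1 + θ) * (1 + θ) = 1 := by field_simp
    rwa [h7, h8, ENNReal.rpow_one] at h6
  have hA0 : A ≠ 0 := by
    intro h
    rw [h, ENNReal.zero_rpow_of_pos h0, zero_mul] at h5
    exact absurd h5 (by simp)
  by_cases hAt : A = ∞
  · rw [hAt, ENNReal.top_rpow_of_neg (by linarith)]; exact zero_le
  rw [ENNReal.rpow_neg]
  have hAθ0 : A ^ θ ≠ 0 := (ENNReal.rpow_pos (pos_iff_ne_zero.2 hA0) hAt).ne'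
  have hAθt : A ^ θ ≠ ∞ := ENNReal.rpow_ne_top_of_nonneg hθ hAt
  rw [ENNReal.inv_le_iff_le_mul (fun _ => hAθ0) (fun h => absurd h hAθt)]
  exact h5

/-! ### the confined kernel about the start -/

/-- sup-ball -/
def bl (D : ℕ) (x : Site d) : Set (Site d) := {z | ∀ i, |z i - x i| ≤ (D : ℤ)}

lemma mem_bl_self (D : ℕ) (x : Site d) : x ∈ bl D x := by
  intro i; simp

/-- rows read by the confined climb -/
def rd (u : Step d) (R D : ℕ) (b : ℤ) (x : Site d) : Set (Site d) :=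
  {z | z ∈ bl D x ∧ lev u x + R ≤ lev u z ∧ lev u z < b}

section ker

variable (u : Step d) (R : ℕ) (κ : ℝ) (D : ℕ)

/-- confined kernel: natural climb from `x` to level `b`, inside the ball of radius `D` about `x` -/
noncomputable def gcb (b : ℤ) (ω : Environment d) (x y : Site d) : ℝ≥0∞ :=
  gc u R κ (bl D x) b ω x y

/-- confined mass -/
noncomputable def Nc (b : ℤ) (ω : Environment d) (x : Site d) : ℝ≥0∞ :=
  ∑' y, gcb u R κ D b ω x y

/-- confined push of a law -/
noncomputable def pc (b : ℤ) (v : Site d → ℝ≥0∞) (ω : Environment d) (y : Site d) : ℝ≥0∞ :=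
  ∑' x, v x * gcb u R κ D b ω x y

lemma measurable_gcb (b : ℤ) (x y : Site d) : Measurable fun ω => gcb u R κ D b ω x y :=
  measurable_gc u R κ (bl D x) b x y

lemma measurable_Nc (b : ℤ) (x : Site d) : Measurable fun ω => Nc u R κ D b ω x :=
  Measurable.ennreal_tsum fun y => measurable_gcb u R κ D b x y

lemma gcb_le_gk (b : ℤ) (ω : Environment d) (x y : Site d) :
    gcb u R κ D b ω x y ≤ gk u R κ b ω x y := gc_le_gk u R κ (bl D x) b ω x y

lemma Nc_le_tsum_gk (b : ℤ) (ω : Environment d) (x : Site d) :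
    Nc u R κ D b ω x ≤ ∑' y, gk u R κ b ω x y :=
  ENNReal.tsum_le_tsum fun y => gcb_le_gk u R κ D b ω x y

lemma Nc_le (b : ℤ) (ω : Environment d) (x : Site d) :
    Nc u R κ D b ω x ≤ mkLaw κ ω x (ClA u R x b) := by
  rw [← tsum_gk]; exact Nc_le_tsum_gk u R κ D b ω x

lemma Nc_le_one (b : ℤ) (ω : Environment d) (x : Site d) : Nc u R κ D b ω x ≤ 1 :=
  (Nc_le u R κ D b ω x).trans prob_le_one

lemma gcb_supp {b : ℤ} (ω : Environment d) (x : Site d) {y : Site d} (hy : lev u y ≠ b) :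
    gcb u R κ D b ω x y = 0 := by
  have h1 : gk u R κ b ω x y = 0 := by simp [gk, Cl_lev u R hy]
  exact le_antisymm ((gcb_le_gk u R κ D b ω x y).trans h1.le) zero_le

lemma locOn_gcb (b : ℤ) (x y : Site d) :
    LocOn (rd u R D b x) fun ω => gcb u R κ D b ω x y := locOn_gc u R κ (bl D x) b x y

lemma locOn_Nc (b : ℤ) (x : Site d) : LocOn (rd u R D b x) fun ω => Nc u R κ D b ω x := by
  intro ω ω' h
  exact tsum_congr fun y => locOn_gcb u R κ D b x y ω ω' h

lemma locOn_pc (b : ℤ) (v : Site d → ℝ≥0∞) :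
    LocOn (⋃ x ∈ {x | v x ≠ 0}, rd u R D b x) fun ω => pc u R κ D b v ω := by
  intro ω ω' h
  funext y
  refine tsum_congr fun x => ?_
  by_cases hx : v x = 0
  · simp [hx]
  · have := locOn_gcb u R κ D b x y ω ω' fun z hz => h z (mem_iUnion₂.2 ⟨x, hx, hz⟩)
    simp only at this
    rw [this]

lemma tot_pc (b : ℤ) (v : Site d → ℝ≥0∞) (ω : Environment d) :
    ∑' y, pc u R κ D b v ω y = ∑' x, v x * Nc u R κ D b ω x := by
  unfold pc Nc
  rw [ENNReal.tsum_comm]
  exact tsum_congr fun x => ENNReal.tsum_mul_left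

lemma measurable_pc (b : ℤ) :
    Measurable fun p : (Site d → ℝ≥0∞) × Environment d => pc u R κ D b p.1 p.2 := by
  refine measurable_pi_lambda _ fun y => ?_
  refine Measurable.ennreal_tsum fun x => ?_
  exact ((measurable_pi_apply x).comp measurable_fst).mul
    ((measurable_gcb u R κ D b x y).comp measurable_snd)

lemma sep_rd {b : ℤ} {x y : Site d} (h : ∃ i, (2 * D + R : ℤ) < |x i - y i|) :
    SepR R (rd u R D b x) (rd u R D b y) := by
  obtain ⟨i, hi⟩ := h
  intro z hz w hw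
  refine ⟨i, ?_⟩
  have h1 := hz.1 i
  have h2 := hw.1 i
  rw [abs_le] at h1 h2
  rcases abs_cases (x i - y i) with ⟨h3, _⟩ | ⟨h3, _⟩ <;> rw [h3] at hi
  · exact lt_of_lt_of_le (by omega) (le_abs_self _)
  · exact lt_of_lt_of_le (by omega) (neg_le_abs _)

lemma rd_subset {a b : ℤ} {x : Site d} (hx : lev u x = a) :
    rd u R D b x ⊆ {z | a + R ≤ lev u z} := by
  intro z hz
  have := hz.2.1
  rw [hx] at this
  exact this

end ker

/-- **(IND) for the confined kernel**: any functionals of the law and the confined push -/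
theorem ind_push {Q : Measure (Environment d)} [IsProbabilityMeasure Q] {R : ℕ}
    (hR : IsFiniteRangeDependent Q R) (u : Step d) (κ : ℝ) (D : ℕ) (a : ℕ) (b : ℤ)
    {ι : Type*} [Fintype ι] (φ : ι → (Site d → ℝ≥0∞) → (Site d → ℝ≥0∞) → ℝ≥0∞)
    (hφ : ∀ j, Measurable fun p : (Site d → ℝ≥0∞) × (Site d → ℝ≥0∞) => φ j p.1 p.2)
    (w : ι → Environment d → Site d → ℝ≥0∞)
    (hw : ∀ j x, Measurable[Fl u a] fun ω => w j ω x)
    {Z : Environment d → ℝ≥0∞} (hZ : Measurable[Fl u a] Z)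
    (hsupp : ∀ ω, Z ω ≠ 0 → ∀ j x, w j ω x ≠ 0 → lev u x = a)
    (hsep : ∀ ω, Z ω ≠ 0 → ∀ i j, i ≠ j → ∀ x y, w i ω x ≠ 0 → w j ω y ≠ 0 →
      ∃ l, (2 * D + R : ℤ) < |x l - y l|) :
    ∫⁻ ω, Z ω * ∏ j, φ j (w j ω) (pc u R κ D b (w j ω) ω) ∂Q
      = ∫⁻ ω, Z ω * ∏ j, ∫⁻ ω', φ j (w j ω) (pc u R κ D b (w j ω) ω') ∂Q ∂Q := by
  refine ind hR (sep_lev u R (a : ℤ)) {x | lev u x = (a : ℤ)} (rd u R D b)
    (fun x hx => rd_subset u R D hx) (fun j v ω => φ j v (pc u R κ D b v ω)) ?_ ?_ w hw hZ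
    hsupp ?_
  · intro j
    exact (hφ j).comp (measurable_fst.prodMk (measurable_pc u R κ D b))
  · intro j v _ ω ω' h
    have := locOn_pc u R κ D b v ω ω' h
    simp only at this
    simp only [this]
  · intro ω hω i j hij x y hx hy
    exact sep_rd u R D (hsep ω hω i j hij x y hx hy)

/-- **(P) = (M)**: the product moment of the confined masses -/
theorem hprod {Q : Measure (Environment d)} [IsProbabilityMeasure Q] {R : ℕ}
    (hR : IsFiniteRangeDependent Q R) (u : Step d) (κ : ℝ) (D : ℕ) (a : ℕ) (b : ℤ)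
    {θ : ℝ} (hθ : 0 ≤ θ) {K : ℝ≥0∞}
    (hK : ∀ x : Site d, lev u x = a → ∫⁻ ω, Nc u R κ D b ω x ^ (-θ) ∂Q ≤ K)
    {ι : Type*} [Fintype ι] (w : ι → Environment d → Site d → ℝ≥0∞)
    (hw : ∀ j x, Measurable[Fl u a] fun ω => w j ω x)
    {Z : Environment d → ℝ≥0∞} (hZ : Measurable[Fl u a] Z)
    (htot : ∀ ω, Z ω ≠ 0 → ∀ j, ∑' x, w j ω x = 1)
    (hsupp : ∀ ω, Z ω ≠ 0 → ∀ j x, w j ω x ≠ 0 → lev u x = a)
    (hsep : ∀ ω, Z ω ≠ 0 → ∀ i j, i ≠ j → ∀ x y, w i ω x ≠ 0 → w j ω y ≠ 0 →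
      ∃ l, (2 * D + R : ℤ) < |x l - y l|) :
    ∫⁻ ω, Z ω * ∏ j, (∑' x, w j ω x * Nc u R κ D b ω x) ^ (-θ) ∂Q
      ≤ K ^ Fintype.card ι * ∫⁻ ω, Z ω ∂Q := by
  have h := ind_push hR u κ D a b (ι := ι) (fun _ _ q => (∑' y, q y) ^ (-θ)) ?_ w hw hZ hsupp hsep
  · simp only [tot_pc] at h
    rw [h, ← lintegral_const_mul _ (hZ.mono ((Fl u).le a) le_rfl)]
    refine lintegral_mono fun ω => ?_
    by_cases hω : Z ω = 0
    · simp [hω]
    simp only
    rw [mul_comm (K ^ Fintype.card ι)]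
    gcongr
    rw [← Finset.card_univ, ← Finset.prod_const]
    refine Finset.prod_le_prod' fun j _ => ?_
    calc ∫⁻ ω', (∑' x, w j ω x * Nc u R κ D b ω' x) ^ (-θ) ∂Q
        ≤ ∫⁻ ω', ∑' x, w j ω x * Nc u R κ D b ω' x ^ (-θ) ∂Q := by
          refine lintegral_mono fun ω' => ?_
          exact jensen _ _ (htot ω hω j)
            (fun x => ((Nc_le_one u R κ D b ω' x).trans_lt ENNReal.one_lt_top).ne) hθ
      _ = ∑' x, w j ω x * ∫⁻ ω', Nc u R κ D b ω' x ^ (-θ) ∂Q := by
          rw [lintegral_tsum fun x =>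
            (((measurable_Nc u R κ D b x).pow_const (-θ)).const_mul _).aemeasurable]
          exact tsum_congr fun x =>
            lintegral_const_mul _ ((measurable_Nc u R κ D b x).pow_const (-θ))
      _ ≤ ∑' x, w j ω x * K := by
          refine ENNReal.tsum_le_tsum fun x => ?_
          by_cases hx : w j ω x = 0
          · simp [hx]
          · gcongr
            exact hK x (hsupp ω hω j x hx)
      _ = K := by rw [ENNReal.tsum_mul_right, htot ω hω j, one_mul]
  · intro _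
    exact (Measurable.ennreal_tsum fun y => (measurable_pi_apply y).comp measurable_snd).pow_const _

end Crest.Agent.R154.Ind104
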