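import Crest.Agent.R154.Rate_582
import Crest.Agent.R154.D2Asm_244
import Crest.Agent.R154.KerP_561

/-! Row 154 (helper582): the exponential rate `lam0` for ANY law at ANY level and ANY height on the
kernel system `kT` of natural climbs (forced letter has positive weight). -/

set_option autoImplicit false
set_option linter.unusedSectionVars false
set_option linter.deprecated false

namespace Crest.Agent.R154.RateT582

open MeasureTheory ProbabilityTheory Set Filter Crest.ProbabilityR.RandomEnvironment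
open Crest.Agent.R154 Crest.Agent.R154.Mk561 Crest.Agent.R154.Q561
open Crest.Agent.R154.RatioR872 Crest.Agent.R154.RatioR872.KerSys
open Crest.Agent.R154.Flux132 (lev)
open Crest.Agent.R154.B6I (Nt)
open Crest.Agent.R154.D2Asm244 (kT N_eq)
open Crest.Agent.R154.Rate582
open scoped ENNReal Topology

variable {d : ℕ} {Q : Measure (Environment d)} [IsProbabilityMeasure Q] {κ : ℝ} {R : ℕ}

/-- one level costs at most the weight of the forced letter -/
theorem ue1 (F : Bind263.Frame Q κ R) (u : Step d) :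
    UE1 (kT u R κ Q F.stat F.fin) (ENNReal.ofReal (kf d κ)) := by
  refine Eventually.of_forall fun ω a x hx => ?_
  have hx' : lev u x = (a : ℤ) := hx
  rw [N_eq F u (a + 1) ω hx']
  have h1 := cy_subset_ClA u R (b := true) (Or.inl rfl) x 1
  have h2 : mkLaw κ ω x (Cy (fun _ => ((u, true) : Mark d)) 1) = ENNReal.ofReal (kf d κ) := by
    rw [mk_cyl, wgt]
    simp [mw_forced]
  rw [← h2]
  refine measure_mono (h1.trans ?_)
  have h3 : lev u x + ((1 : ℕ) : ℤ) = ((a + 1 : ℕ) : ℤ) := by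
    rw [hx']; push_cast; ring
  rw [h3]
  exact subset_iUnion (fun m => ClM u R x (((a + 1 : ℕ) : ℤ)) m) 1

/-- **point tightness** for `kT`, uniformly in the height -/
theorem point (F : Bind263.Frame Q κ R) (u : Step d)
    (hA : annealedProb Q 0 (escapeEvent (B2d.dirVec u)) ≠ 0) {q : ℝ≥0∞} (hq : q ≠ 0) :
    ∃ y : ℝ≥0∞, y ≠ 0 ∧ y ≤ 1 ∧ ∀ (n a : ℕ), ∀ x ∈ (kT u R κ Q F.stat F.fin).L a,
      Q {ω | (kT u R κ Q F.stat F.fin).N a (a + n) ω x ≤ y} ≤ q := by
  obtain ⟨σ, h0, h1, h⟩ := Tile872.tight F u hA hq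
  refine ⟨σ / 2, ?_, ?_, fun n a x hx => ?_⟩
  · exact (ENNReal.div_pos h0 ENNReal.ofNat_ne_top).ne'
  · exact (ENNReal.half_le_self).trans h1
  · have hx' : lev u x = (a : ℤ) := hx
    refine le_trans (measure_mono ?_) (h n x)
    intro ω hω
    simp only [mem_setOf_eq] at hω ⊢
    rw [N_eq F u (a + n) ω hx', ClA_eq' u R hx' (Nat.le_add_right a n)] at hω
    rw [Nat.add_sub_cancel_left] at hω
    refine lt_of_le_of_lt hω ?_
    exact ENNReal.half_lt_self h0 (ne_top_of_le_ne_top ENNReal.one_ne_top h1)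

/-- **the rate**: geometric form, every law, every level, every height -/
theorem rate (F : Bind263.Frame Q κ R) (u : Step d)
    (hA : annealedProb Q 0 (escapeEvent (B2d.dirVec u)) ≠ 0) (hk : 0 < kf d κ) {q : ℝ≥0∞}
    (hq : q ≠ 0) :
    ∃ ε : ℝ≥0∞, ε ≠ 0 ∧ ε < 1 ∧ ∀ (n : ℕ), ∀ k : ℕ,
      TL (kT u R κ Q F.stat F.fin) n (ε ^ (k + 1)) (q ^ (k + 1)) := by
  obtain ⟨y, hy0, hy1, hy⟩ := point F u hA (q := q / 2)
    (ENNReal.div_pos hq ENNReal.ofNat_ne_top).ne'
  have hkap : ENNReal.ofReal (kf d κ) ≠ 0 := by simpa using hk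
  have hk1 : ENNReal.ofReal (kf d κ) ≤ 1 := by
    have h1 := ue1 F u
    obtain ⟨ω, hω⟩ := h1.exists
    have h2 := hω 0 0 (by
      change lev u 0 = ((0 : ℕ) : ℤ)
      rw [Flux132.lev_zero]; rfl)
    exact h2.trans ((kT u R κ Q F.stat F.fin).N_le_one (Nat.zero_le _) ω 0)
  have hyt : y ≠ ∞ := ne_top_of_le_ne_top ENNReal.one_ne_top hy1
  have hy2 : y / 2 ≠ 0 := (ENNReal.div_pos hy0 ENNReal.ofNat_ne_top).ne'
  have hy3 : y / 2 < 1 := (ENNReal.half_lt_self hy0 hyt).trans_le hy1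
  have hq2 : 2 * (q / 2) = q := ENNReal.mul_div_cancel (by norm_num) (by norm_num)
  refine ⟨ENNReal.ofReal (kf d κ) * (y / 2), mul_ne_zero hkap hy2, ?_, fun n' k => ?_⟩
  · calc ENNReal.ofReal (kf d κ) * (y / 2) ≤ 1 * (y / 2) := by gcongr
      _ < 1 := by rwa [one_mul]
  · obtain ⟨n, hn, hn'⟩ : ∃ n, 1 ≤ n ∧ n' ≤ n := ⟨max n' 1, le_max_right _ _, le_max_left _ _⟩
    refine TL.mono ?_ hn' le_rfl le_rfl
    have h1 := TL.of_point (A := kT u R κ Q F.stat F.fin) (n := n) hy0 hyt (fun a x hx => hy n a x hx)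
    rw [hq2] at h1
    exact TL.rate hn (ue1 F u) hkap hk1 hy2 hy3 h1 k

/-- **real form**: `lam0` and `C` do not depend on the height, the level or the law -/
theorem rate_real (F : Bind263.Frame Q κ R) (u : Step d)
    (hA : annealedProb Q 0 (escapeEvent (B2d.dirVec u)) ≠ 0) (hk : 0 < kf d κ) :
    ∃ lam0 C : ℝ, 0 < lam0 ∧ 1 ≤ C ∧ ∀ (n : ℕ), ∀ x : ℝ, 0 ≤ x →
      TL (kT u R κ Q F.stat F.fin) n (ENNReal.ofReal (Real.exp (-x)))
        (ENNReal.ofReal (C * Real.exp (-lam0 * x))) := by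
  obtain ⟨ε, h0, h1, h⟩ := rate F u hA hk (q := 1 / 2) (by simp)
  have hεt : ε ≠ ∞ := (h1.trans ENNReal.one_lt_top).ne
  set e : ℝ := ε.toReal with he
  have he0 : 0 < e := ENNReal.toReal_pos h0 hεt
  have he1 : e < 1 := by
    rw [he, ← ENNReal.toReal_one]
    exact (ENNReal.toReal_lt_toReal hεt ENNReal.one_ne_top).2 h1
  have hεe : ε = ENNReal.ofReal e := (ENNReal.ofReal_toReal hεt).symm
  set b : ℝ := - Real.log e with hb
  have hb0 : 0 < b := by
    rw [hb]; have := Real.log_neg he0 he1; linarith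
  refine ⟨Real.log 2 / b, 2, div_pos (Real.log_pos (by norm_num)) hb0, by norm_num,
    fun n x hx => ?_⟩
  -- k = floor (x / b)
  set k : ℕ := ⌊x / b⌋₊ with hkk
  have hk1 : (k : ℝ) ≤ x / b := Nat.floor_le (div_nonneg hx hb0.le)
  have hk2 : x / b < k + 1 := Nat.lt_floor_add_one _
  rcases Nat.eq_zero_or_pos k with hz | hz
  · -- trivial bound
    intro a w hw hw1 B hB
    refine le_trans (measure_mono inter_subset_left) ?_
    have hx1 : x < b := by
      rw [hz] at hk2
      rw [div_lt_iff₀ hb0] at hk2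
      simpa using hk2
    have h3 : (1 : ℝ) ≤ 2 * Real.exp (-(Real.log 2 / b) * x) := by
      have h4 : Real.exp (-(Real.log 2)) ≤ Real.exp (-(Real.log 2 / b) * x) := by
        apply Real.exp_le_exp.2
        have h5 : Real.log 2 / b * x ≤ Real.log 2 := by
          rw [div_mul_eq_mul_div, div_le_iff₀ hb0]
          have : 0 ≤ Real.log 2 := Real.log_nonneg (by norm_num)
          nlinarith
        linarith
      rw [Real.exp_neg, Real.exp_log (by norm_num)] at h4
      linarith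
    calc Q B = 1 * Q B := (one_mul _).symm
      _ ≤ ENNReal.ofReal (2 * Real.exp (-(Real.log 2 / b) * x)) * Q B := by
        gcongr
        rw [← ENNReal.ofReal_one]
        exact ENNReal.ofReal_le_ofReal h3
  · obtain ⟨j, hj⟩ : ∃ j, k = j + 1 := ⟨k - 1, by omega⟩
    refine (h n j).mono le_rfl ?_ ?_
    · rw [← hj, hεe, ← ENNReal.ofReal_pow he0.le]
      apply ENNReal.ofReal_le_ofReal
      have h3 : e = Real.exp (-b) := by rw [hb, neg_neg, Real.exp_log he0]
      rw [h3, ← Real.exp_nat_mul]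
      apply Real.exp_le_exp.2
      rw [le_div_iff₀ hb0] at hk1
      linarith
    · rw [← hj]
      have h3 : ((1 : ℝ≥0∞) / 2) = ENNReal.ofReal (1 / 2) := by
        rw [ENNReal.ofReal_div_of_pos (by norm_num)]; simp
      rw [h3, ← ENNReal.ofReal_pow (by norm_num)]
      apply ENNReal.ofReal_le_ofReal
      have h4 : ((1 : ℝ) / 2) = Real.exp (-(Real.log 2)) := by
        rw [Real.exp_neg, Real.exp_log (by norm_num)]; norm_num
      have h5 : (2 : ℝ) * Real.exp (-(Real.log 2 / b) * x)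
          = Real.exp (Real.log 2 + (-(Real.log 2 / b) * x)) := by
        rw [Real.exp_add, Real.exp_log (by norm_num)]
      rw [h5, h4, ← Real.exp_nat_mul]
      apply Real.exp_le_exp.2
      have h6 : Real.log 2 / b * x = Real.log 2 * (x / b) := by ring
      have h7 : 0 < Real.log 2 := Real.log_pos (by norm_num)
      nlinarith

/-- the point law -/
noncomputable def ptz (z : Site d) : Environment d → Site d → ℝ≥0∞ :=
  fun _ x => by classical exact if x = z then 1 else 0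

lemma tot_ptz (z : Site d) (ω : Environment d) : tot (ptz z) ω = 1 := by
  classical
  unfold tot ptz
  exact tsum_ite_eq z (fun _ => 1)

lemma tot_push_ptz (A : KerSys (Site d) Q) (a b : ℕ) (z : Site d) (ω : Environment d) :
    tot (A.push a b (ptz z)) ω = A.N a b ω z := by
  classical
  rw [tot_push, tsum_eq_single z]
  · simp [ptz]
  · intro x hx
    simp [ptz, hx]

lemma wt_ptz {A : KerSys (Site d) Q} {a : ℕ} {z : Site d} (hz : z ∈ A.L a) : A.Wt a (ptz z) where
  meas x := by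
    unfold ptz
    exact measurable_const
  supp ω x hx := by
    classical
    unfold ptz
    rw [if_neg]
    rintro rfl
    exact hx hz

/-- a law statement gives the point statement -/
lemma point_of {A : KerSys (Site d) Q} {n : ℕ} {ε q : ℝ≥0∞} (h : TL A n ε q) (a : ℕ)
    {z : Site d} (hz : z ∈ A.L a) : Q {ω | A.N a (a + n) ω z ≤ ε} ≤ q := by
  have h1 := h a (ptz z) (wt_ptz hz) (fun ω => (tot_ptz z ω).le) univ MeasurableSet.univ
  rw [univ_inter, measure_univ, mul_one] at h1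
  refine le_trans (measure_mono ?_) h1
  intro ω hω
  refine ⟨?_, ?_⟩
  · rw [tot_ptz]; exact one_ne_zero
  · rw [tot_push_ptz, tot_ptz, mul_one]
    exact hω

/-- **the rate from a point**, every level, every height -/
theorem rate_point (F : Bind263.Frame Q κ R) (u : Step d)
    (hA : annealedProb Q 0 (escapeEvent (B2d.dirVec u)) ≠ 0) (hk : 0 < kf d κ) :
    ∃ lam0 C : ℝ, 0 < lam0 ∧ 1 ≤ C ∧ ∀ (n : ℕ) (x : ℝ), 0 ≤ x → ∀ a,
      ∀ z ∈ (kT u R κ Q F.stat F.fin).L a,
      Q {ω | (kT u R κ Q F.stat F.fin).N a (a + n) ω z ≤ ENNReal.ofReal (Real.exp (-x))}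
        ≤ ENNReal.ofReal (C * Real.exp (-lam0 * x)) := by
  obtain ⟨l, C, h1, h2, h⟩ := rate_real F u hA hk
  exact ⟨l, C, h1, h2, fun n x hx a z hz => point_of (h n x hx) a hz⟩

/-- the same in `mkLaw` letters, every site -/
theorem rate_mk (F : Bind263.Frame Q κ R) (u : Step d)
    (hA : annealedProb Q 0 (escapeEvent (B2d.dirVec u)) ≠ 0) (hk : 0 < kf d κ) :
    ∃ lam0 C : ℝ, 0 < lam0 ∧ 1 ≤ C ∧ ∀ (n : ℕ) (x : ℝ), 0 ≤ x → ∀ z : Site d,
      Q {ω | mkLaw κ ω z (ClA u R z (lev u z + n)) ≤ ENNReal.ofReal (Real.exp (-x))}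
        ≤ ENNReal.ofReal (C * Real.exp (-lam0 * x)) := by
  obtain ⟨l, C, h1, h2, h⟩ := rate_point F u hA hk
  refine ⟨l, C, h1, h2, fun n x hx z => ?_⟩
  have h3 := h n x hx 0 0 (by
    change lev u 0 = ((0 : ℕ) : ℤ)
    rw [Flux132.lev_zero]; rfl)
  have e0 : ∀ ω : Environment d, (kT u R κ Q F.stat F.fin).N 0 (0 + n) ω 0
      = mkLaw κ ω 0 {M | Nt u R 0 n M} := by
    intro ω
    rw [N_eq F u (0 + n) ω (a := 0) (by rw [Flux132.lev_zero]; rfl),
      ClA_eq' u R (x := (0 : Site d)) (a := 0) (b := 0 + n)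
        (by rw [Flux132.lev_zero]; rfl) (Nat.zero_le _)]
    simp
  have e1 : {ω | mkLaw κ ω z (ClA u R z (lev u z + n)) ≤ ENNReal.ofReal (Real.exp (-x))}
      = shiftEnv z ⁻¹' {ω | (kT u R κ Q F.stat F.fin).N 0 (0 + n) ω 0
          ≤ ENNReal.ofReal (Real.exp (-x))} := by
    ext ω
    simp only [mem_setOf_eq, mem_preimage]
    rw [e0, ClA_eq, mkLaw_shiftEnv, zero_add]
  rw [e1, (F.stat z).measure_preimage]
  · exact h3
  · refine (measurableSet_le ?_ measurable_const).nullMeasurableSet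
    simp only [e0]
    exact measurable_mk_apply κ 0 (meas_Nt u R n)

/-- the literal input `Mom220.Rate` -/
theorem rate_pt (F : Bind263.Frame Q κ R) (u : Step d)
    (hA : annealedProb Q 0 (escapeEvent (B2d.dirVec u)) ≠ 0) (hk : 0 < kf d κ) :
    ∃ lam0 C : ℝ, 0 < lam0 ∧ 1 ≤ C ∧ ∀ (x : Site d) (n : ℕ) (t : ℝ), 0 ≤ t →
      Q {ω | ∑' y, gk u R κ (lev u x + n) ω x y ≤ ENNReal.ofReal (Real.exp (-t))}
        ≤ ENNReal.ofReal (C * Real.exp (-(lam0 * t))) := by
  obtain ⟨l, C, h1, h2, h⟩ := rate_mk F u hA hk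
  refine ⟨l, C, h1, h2, fun x n t ht => ?_⟩
  have h3 := h n t ht x
  simp only [tsum_gk]
  rwa [neg_mul] at h3

end Crest.Agent.R154.RateT582
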