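import Crest.Agent.R154.Mom_220
import Crest.Agent.R154.Ind_104
import Crest.Agent.R154.HomeDoc_74
import Crest.Agent.R154.RateT_582

/-! Row 154, d ≥ 3, HM3b inputs on `kT` (263's HOME MASS route): confined kernel `gcL`, the slope of
the home coordinate is controlled by the home tail, product moment for separated laws. -/

set_option autoImplicit false
set_option linter.unusedSectionVars false
set_option linter.deprecated false

namespace Crest.Agent.R154.DatK220

open MeasureTheory ProbabilityTheory Set Filter Crest.ProbabilityR.RandomEnvironment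
open Crest.Agent.R154.Ren263 hiding lev
open Crest.Agent.R154.Mk561 Crest.Agent.R154.Q561 Crest.Agent.R154.RatioR872
open Crest.Agent.R154.RatioR872.KerSys
open Crest.Agent.R154.Cols220
open Crest.Agent.R154.Flux132 (lev lev_add lev_neg lev_zero)
open scoped ENNReal

variable {d : ℕ}

section ker

variable (u : Step d) (R : ℕ) (κ : ℝ)

/-- straight up -/
lemma cy_sub (x : Site d) (n : ℕ) :
    Cy (fun _ => ((u, true) : Mark d)) n ⊆ ClY u R x (lev u x + n) n (x + n • stepVec u) := by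
  intro M hM
  have hpos : ∀ k ≤ n, pos x M k = x + k • stepVec u := by
    intro k
    induction k with
    | zero => intro _; simp [pos_zero]
    | succ k ih =>
      intro hk
      rw [pos_succ, ih (by omega)]
      have e : M k = (u, true) := hM k (by omega)
      rw [e, succ_nsmul, add_assoc]
      rfl
  have hlev : ∀ k ≤ n, lev u (pos x M k) = lev u x + k := by
    intro k
    induction k with
    | zero => intro _; simp [pos_zero]
    | succ k ih =>
      intro hk
      rw [pos_succ, lev_add, ih (by omega)]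
      have e : M k = (u, true) := hM k (by omega)
      rw [e]
      have : lev u (stp ((u, true) : Mark d)) = 1 := Flux132.lev_step_self u
      rw [this]
      push_cast
      ring
  refine ⟨⟨hlev n le_rfl, fun i hi => ?_, fun i hi _ => hM i hi, fun i hR hi => ?_⟩,
    hpos n le_rfl⟩
  · rw [hlev i hi.le]; omega
  · rw [hlev i hi]; omega

/-- **floor at a site** (forced letters read nothing) -/
lemma floor_pt (x : Site d) (n : ℕ) (ω : Environment d) :
    ENNReal.ofReal (kf d κ) ^ n ≤ gk u R κ (lev u x + n) ω x (x + n • stepVec u) := by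
  calc ENNReal.ofReal (kf d κ) ^ n = mkLaw κ ω x (Cy (fun _ => ((u, true) : Mark d)) n) := by
        rw [mk_cyl, wgt]
        rw [Finset.prod_congr rfl fun i _ => mw_forced κ _ u]
        simp
    _ ≤ gk u R κ (lev u x + n) ω x (x + n • stepVec u) :=
        measure_mono ((cy_sub u R x n).trans
          (subset_iUnion (fun m => ClY u R x (lev u x + n) m (x + n • stepVec u)) n))

variable (D0 s0 : ℕ)

/-- confined kernel of the early phase, level by level -/
noncomputable def gcL (L : ℕ) (ω : Environment d) (x y : Site d) : ℝ≥0∞ :=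
  if lev u x = L then Ind104.gcb u R κ D0 ((L + s0 : ℕ) : ℤ) ω x y else 0

lemma gcL_meas (L : ℕ) (x y : Site d) :
    Measurable[Fl u (L + s0)] fun ω => gcL u R κ D0 s0 L ω x y := by
  unfold gcL
  by_cases h : lev u x = L
  · simp only [h, if_true]
    refine measurable_coord (Ind104.measurable_gcb u R κ D0 _ x y) ?_
    exact (Ind104.locOn_gcb u R κ D0 _ x y).mono fun z hz => hz.2.2
  · simp only [h, if_false]
    exact @measurable_const _ _ _ (Fl u (L + s0)) _

lemma sum_gcL {L : ℕ} {x : Site d} (hx : lev u x = L) (ω : Environment d) :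
    ∑' y, gcL u R κ D0 s0 L ω x y = Ind104.Nc u R κ D0 ((L + s0 : ℕ) : ℤ) ω x := by
  unfold gcL Ind104.Nc
  simp only [hx, if_true]

lemma Nc_eq (b : ℤ) (ω : Environment d) (x : Site d) :
    Ind104.Nc u R κ D0 b ω x = Mom220.Nc u R κ D0 b ω x := rfl

lemma gcL_floor {L : ℕ} {x : Site d} (hx : lev u x = L) (hD : s0 ≤ D0) (ω : Environment d) :
    ENNReal.ofReal (kf d κ) ^ s0 ≤ ∑' y, gcL u R κ D0 s0 L ω x y := by
  rw [sum_gcL u R κ D0 s0 hx, Nc_eq]
  have e : ((L + s0 : ℕ) : ℤ) = lev u x + s0 := by rw [hx]; push_cast; rfl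
  rw [e]
  exact (Cols220.floor u R D0 κ x s0 ω).trans (Mom220.nc_le_Nc u R D0 D0 κ x s0 le_rfl hD ω)

lemma gcL_pos {L : ℕ} {x : Site d} (hx : lev u x = L) (hD : s0 ≤ D0) (hk : 0 < kf d κ)
    (ω : Environment d) : ∑' y, gcL u R κ D0 s0 L ω x y ≠ 0 := by
  intro h0
  have h1 := gcL_floor u R κ D0 s0 hx hD ω
  rw [h0] at h1
  have h2 : (0 : ℝ≥0∞) < ENNReal.ofReal (kf d κ) ^ s0 :=
    pos_iff_ne_zero.2 (pow_ne_zero s0 (by rw [Ne, ENNReal.ofReal_eq_zero, not_le]; exact hk))
  exact absurd h1 (not_le.2 h2)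

lemma abs_stepVec_le (e : Step d) (i : Fin d) : |stepVec e i| ≤ 1 := by
  rcases e with ⟨v, b⟩
  simp only [stepVec]
  by_cases h : i = v
  · subst h
    rw [Pi.single_eq_same]
    split_ifs <;> simp
  · rw [Pi.single_eq_of_ne h]
    simp

/-- exit sites of the confined kernel -/
lemma gcL_supp {L : ℕ} {ω : Environment d} {x y : Site d} (h : gcL u R κ D0 s0 L ω x y ≠ 0) :
    lev u x = L ∧ lev u y = L + s0 ∧ ∀ i, |y i - x i| ≤ D0 + 1 := by
  unfold gcL at h
  by_cases hx : lev u x = L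
  · rw [if_pos hx] at h
    have hne : (Tile872.Cf u R (Ind104.bl D0 x) x ((L + s0 : ℕ) : ℤ) y).Nonempty := by
      by_contra hne
      rw [not_nonempty_iff_eq_empty] at hne
      exact h (by unfold Ind104.gcb Tile872.gc; rw [hne, measure_empty])
    obtain ⟨M, hM⟩ := hne
    obtain ⟨m, hm⟩ := mem_iUnion.1 hM
    obtain ⟨⟨h1, h2⟩, h3⟩ := hm
    refine ⟨hx, ?_, fun i => ?_⟩
    · rw [← h3, h1.1]; push_cast; rfl
    · rcases Nat.eq_zero_or_pos m with h0 | h0
      · subst h0
        rw [← h3, pos_zero, sub_self, abs_zero]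
        positivity
      · obtain ⟨k, rfl⟩ : ∃ k, m = k + 1 := ⟨m - 1, by omega⟩
        have h4 : |pos x M k i - x i| ≤ (D0 : ℤ) := h2 k (by omega) i
        have h5 : |stp (M k) i| ≤ 1 := abs_stepVec_le _ i
        rw [← h3, pos_succ, Pi.add_apply]
        rw [abs_le] at *
        constructor <;> omega
  · rw [if_neg hx] at h
    exact absurd rfl h

variable {Q : Measure (Environment d)} [IsProbabilityMeasure Q]

lemma gcL_le (F : Bind263.Frame Q κ R) (L : ℕ) (ω : Environment d) (x y : Site d) :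
    gcL u R κ D0 s0 L ω x y ≤ (D2Asm244.kT u R κ Q F.stat F.fin).G L (L + s0) ω x y := by
  change gcL u R κ D0 s0 L ω x y
    ≤ if lev u x = L then gk u R κ ((L + s0 : ℕ) : ℤ) ω x y else 0
  unfold gcL
  split_ifs
  · exact Ind104.gcb_le_gk u R κ D0 _ ω x y
  · exact le_rfl

/-- lateral coordinate and level -/
noncomputable def lat (i : Fin d) (x : Site d) : ℝ := (x i : ℝ)

noncomputable def lv (u : Step d) (x : Site d) : ℝ := (lev u x : ℝ)

/-- **the slope of the home coordinate** -/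
theorem slope (F : Bind263.Frame Q κ R) (hk : 0 < kf d κ) {i : Fin d} (hi : i ≠ u.1) {α : ℝ} {N : ℕ}
    {D : ℝ} {ν : ℝ≥0∞}
    (hT : Doc74.TailH (D2Asm244.kT u R κ Q F.stat F.fin) (Doc74.ph (lat i) (lv u) α) N D ν)
    {n : ℕ} (hn : n ≤ N) (hν : ν < ENNReal.ofReal (kf d κ) ^ n) : |α| * n ≤ D := by
  classical
  by_contra hcon
  rw [not_le] at hcon
  set A := D2Asm244.kT u R κ Q F.stat F.fin with hA
  obtain ⟨Bd, _, h2, h3⟩ := hT 0 n (Nat.zero_le n) (by omega)
  have hx0 : (0 : Site d) ∈ A.L 0 := by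
    change lev u (0 : Site d) = ((0 : ℕ) : ℤ)
    simp [Flux132.lev_zero]
  set y : Site d := 0 + n • stepVec u with hy
  have hly : lev u y = n := by
    have h := (Cl_lev u R (x := (0 : Site d)) (b := (n : ℤ)) (y := y))
    by_contra hne
    have h5 := cy_sub u R (0 : Site d) n
    have h6 : (Cy (fun _ => ((u, true) : Mark d)) n).Nonempty := ⟨fun _ => (u, true), fun i _ => rfl⟩
    obtain ⟨M, hM⟩ := h6
    have h7 := h5 hM
    have h8 : pos 0 M n = y := h7.2
    have h9 := h7.1.1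
    rw [h8, Flux132.lev_zero] at h9
    exact hne (by rw [h9]; simp)
  have hyi : y i = 0 := by
    rw [hy]
    have : stepVec u i = 0 := by
      rcases u with ⟨v, b⟩
      simp only [stepVec]
      exact Pi.single_eq_of_ne hi _
    simp [this]
  have hnH : ¬ Doc74.Hm (Doc74.ph (lat i) (lv u) α) D (0 : Site d) y := by
    unfold Doc74.Hm Doc74.ph lat lv
    rw [hly, hyi, Flux132.lev_zero]
    simp only [Pi.zero_apply, Int.cast_zero, Int.cast_natCast, mul_zero, sub_zero, zero_sub,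
      abs_neg, abs_mul, Nat.abs_cast, not_le]
    exact hcon
  have h4 : ∀ᵐ ω ∂Q, ENNReal.ofReal (kf d κ) ^ n ≤ Bd 0 ω := by
    filter_upwards [h3 n (Nat.zero_le n) le_rfl] with ω hω
    refine le_trans ?_ (hω 0 hx0)
    refine le_trans ?_ (ENNReal.le_tsum y)
    rw [if_neg hnH]
    have e1 : ENNReal.ofReal (kf d κ) ^ n ≤ A.G 0 n ω 0 y := by
      change _ ≤ if lev u (0 : Site d) = ((0 : ℕ) : ℤ) then gk u R κ (n : ℤ) ω 0 y else 0
      rw [if_pos (by simp [Flux132.lev_zero])]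
      have := floor_pt u R κ (0 : Site d) n ω
      rw [Flux132.lev_zero, zero_add] at this
      exact this
    have e2 : (1 : ℝ≥0∞) ≤ A.N n n ω y := by
      have h5 := floor_pt u R κ y 0 ω
      rw [pow_zero] at h5
      refine h5.trans ?_
      have e3 : (lev u y + ((0 : ℕ) : ℤ)) = (n : ℤ) := by rw [hly]; simp
      rw [e3, zero_smul, add_zero]
      have e4 : gk u R κ (n : ℤ) ω y y = A.G n n ω y y := by
        change _ = if lev u y = ((n : ℕ) : ℤ) then gk u R κ (n : ℤ) ω y y else 0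
        rw [if_pos hly]
      rw [e4]
      exact ENNReal.le_tsum y
    calc ENNReal.ofReal (kf d κ) ^ n = ENNReal.ofReal (kf d κ) ^ n * 1 := (mul_one _).symm
      _ ≤ A.G 0 n ω 0 y * A.N n n ω y := mul_le_mul' e1 e2
  have h5 : ENNReal.ofReal (kf d κ) ^ n ≤ ν := by
    calc ENNReal.ofReal (kf d κ) ^ n = ∫⁻ _, ENNReal.ofReal (kf d κ) ^ n ∂Q := by simp
      _ ≤ ∫⁻ ω, Bd 0 ω ∂Q := lintegral_mono_ae h4
      _ ≤ ν := h2 0 hx0
  exact absurd hν (not_lt.2 h5)

/-- the confined kernel stays at home -/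
theorem gcL_Hm (F : Bind263.Frame Q κ R) (hk : 0 < kf d κ) {i : Fin d} (hi : i ≠ u.1) {α : ℝ}
    {N : ℕ} {D : ℝ} {ν : ℝ≥0∞}
    (hT : Doc74.TailH (D2Asm244.kT u R κ Q F.stat F.fin) (Doc74.ph (lat i) (lv u) α) N D ν)
    (hn : s0 ≤ N) (hν : ν < ENNReal.ofReal (kf d κ) ^ s0) (hD : (D0 : ℝ) + 1 ≤ D)
    {L : ℕ} {ω : Environment d} {x y : Site d} (h : gcL u R κ D0 s0 L ω x y ≠ 0) :
    Doc74.Hm (Doc74.ph (lat i) (lv u) α) (2 * D) x y := by
  obtain ⟨h1, h2, h3⟩ := gcL_supp u R κ D0 s0 h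
  have h4 := slope u R κ F hk hi hT hn hν
  unfold Doc74.Hm Doc74.ph lat lv
  rw [h1, h2]
  push_cast
  have h5 : |(y i : ℝ) - x i| ≤ D0 + 1 := by exact_mod_cast h3 i
  have e : (y i : ℝ) - α * ((L : ℝ) + s0) - ((x i : ℝ) - α * L)
      = ((y i : ℝ) - x i) - α * s0 := by ring
  rw [e]
  refine (abs_sub _ _).trans ?_
  rw [abs_mul, Nat.abs_cast]
  linarith

/-- the up-step stays at home -/
theorem up_Hm (F : Bind263.Frame Q κ R) (hk : 0 < kf d κ) {i : Fin d} (hi : i ≠ u.1) {α : ℝ}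
    {N : ℕ} {D : ℝ} {ν : ℝ≥0∞}
    (hT : Doc74.TailH (D2Asm244.kT u R κ Q F.stat F.fin) (Doc74.ph (lat i) (lv u) α) N D ν)
    (hn : 1 ≤ N) (hν : ν < ENNReal.ofReal (kf d κ)) (x : Site d) :
    Doc74.Hm (Doc74.ph (lat i) (lv u) α) D x (x + stepVec u) := by
  have h4 := slope u R κ F hk hi hT hn (by rwa [pow_one])
  unfold Doc74.Hm Doc74.ph lat lv
  have h5 : stepVec u i = 0 := by
    rcases u with ⟨v, b⟩
    simp only [stepVec]
    exact Pi.single_eq_of_ne hi _
  have h6 : lev u (stepVec u) = 1 := Flux132.lev_step_self u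
  rw [lev_add, h6, Pi.add_apply, h5]
  push_cast
  have e : (x i : ℝ) + 0 - α * ((lev u x : ℝ) + 1) - ((x i : ℝ) - α * lev u x) = -α := by ring
  rw [e, abs_neg]
  simpa using h4

end ker

section prod

variable (u : Step d) (R : ℕ) (κ : ℝ) {Q : Measure (Environment d)} [IsProbabilityMeasure Q]

/-- **the product moment of the early phase**, separated laws -/
theorem prod_kT (F : Bind263.Frame Q κ R)
    (hA : annealedProb Q 0 (escapeEvent (B2d.dirVec u)) ≠ 0) (hk : 0 < kf d κ) :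
    ∃ θ : ℝ, 0 < θ ∧ ∃ K : ℝ≥0∞, K ≠ ∞ ∧ ∀ s0 : ℕ, ∃ D1 : ℕ, ∀ D0, D1 ≤ D0 →
      ∀ (ι : Type) [Fintype ι] (i : Fin d) (α : ℝ) (L : ℕ)
        (w : ι → Environment d → Site d → ℝ≥0∞) (B : Set (Environment d)),
        MeasurableSet[Fl u L] B →
        (∀ a, (D2Asm244.kT u R κ Q F.stat F.fin).Wt L (w a)) →
        (∀ ω ∈ B, ∀ a, tot (w a) ω = 1) →
        (∀ ω ∈ B, ∀ a b, a ≠ b → ∀ x y, w a ω x ≠ 0 → w b ω y ≠ 0 →
          ((2 * D0 + R + 1 : ℕ) : ℝ) ≤ |Doc74.ph (lat i) (lv u) α x - Doc74.ph (lat i) (lv u) α y|) →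
        ∀ Z : Environment d → ℝ≥0∞, Measurable[Fl u L] Z →
          ∫⁻ ω in B, Z ω * ∏ a, (∑' x, w a ω x * ∑' y, gcL u R κ D0 s0 L ω x y) ^ (-(2 * θ)) ∂Q
            ≤ K ^ Fintype.card ι * ∫⁻ ω in B, Z ω ∂Q := by
  obtain ⟨lam0, C, hl, hC, hr⟩ := RateT582.rate_pt F u hA hk
  obtain ⟨θ, hθ, K, hK, hm⟩ := Mom220.moment u R κ Q F.stat hk hl hC hr
  refine ⟨θ, hθ, K, hK, fun s0 => ?_⟩
  obtain ⟨D1, hD1⟩ := hm s0
  refine ⟨D1, fun D0 hD0 ι _ i α L w B hB hw htot hsep Z hZ => ?_⟩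
  classical
  have hBm : MeasurableSet B := (Fl u).le L B hB
  have hZB : Measurable[Fl u L] (B.indicator Z) := hZ.indicator hB
  have hsupp : ∀ ω a x, w a ω x ≠ 0 → lev u x = L := by
    intro ω a x h
    by_contra hne
    exact h ((hw a).supp ω x hne)
  have hmem : ∀ ω, B.indicator Z ω ≠ 0 → ω ∈ B := fun ω h => mem_of_indicator_ne_zero h
  have key := Ind104.hprod (Q := Q) F.fin u κ D0 L ((L + s0 : ℕ) : ℤ) (θ := 2 * θ) (by linarith)
    (K := K) (fun x hx => by
      have h := hD1 D0 hD0 (L : ℤ) x hx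
      push_cast
      exact h)
    w (fun j x => (hw j).meas x) hZB
    (fun ω hω j => htot ω (hmem ω hω) j)
    (fun ω _ j x hx => hsupp ω j x hx)
    (fun ω hω a b hab x y hx hy => by
      have h := hsep ω (hmem ω hω) a b hab x y hx hy
      refine ⟨i, ?_⟩
      unfold Doc74.ph lat lv at h
      rw [hsupp ω a x hx, hsupp ω b y hy] at h
      have e : (x i : ℝ) - α * (((L : ℤ) : ℝ)) - ((y i : ℝ) - α * (((L : ℤ) : ℝ)))
          = ((x i - y i : ℤ) : ℝ) := by push_cast; ring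
      rw [e] at h
      have h2 : ((2 * D0 + R + 1 : ℕ) : ℤ) ≤ |x i - y i| := by
        have h3 : (((2 * D0 + R + 1 : ℕ) : ℤ) : ℝ) ≤ ((|x i - y i| : ℤ) : ℝ) := by
          rw [Int.cast_abs]
          exact_mod_cast h
        exact_mod_cast h3
      push_cast at h2
      omega)
  rw [← lintegral_indicator hBm, ← lintegral_indicator hBm]
  refine le_trans (le_of_eq ?_) key
  refine lintegral_congr fun ω => ?_
  by_cases hω : ω ∈ B
  · rw [indicator_of_mem hω, indicator_of_mem hω]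
    congr 1
    refine Finset.prod_congr rfl fun a _ => ?_
    congr 1
    refine tsum_congr fun x => ?_
    by_cases hx : w a ω x = 0
    · rw [hx, zero_mul, zero_mul]
    · rw [sum_gcL u R κ D0 s0 (hsupp ω a x hx)]
  · rw [indicator_of_notMem hω, indicator_of_notMem hω, zero_mul]

end prod

end Crest.Agent.R154.DatK220
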