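import Crest.Agent.R154.Flux2_566
import Crest.Agent.R154.FluxDefs_132

/-! Row 154, NBProp (S0219) from KAPPA' in single-walker words: definitions (helper28). -/

set_option autoImplicit false

namespace Crest.Agent.R154.NB28

open MeasureTheory ProbabilityTheory Crest.ProbabilityR.RandomEnvironment Crest.Agent.R154
open Crest.Agent.R154.Flux132 (lev opp)
open Crest.Agent.R154.Flux566 (lw endp sitesL)
open scoped ENNReal

variable {d : ℕ}

/-- up crossing of `n` levels -/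
def IsUp (u : Step d) (n : ℕ) (l : List (Step d)) : Prop :=
  (∀ y ∈ sitesL 0 l, 0 ≤ lev u y ∧ lev u y < n) ∧ lev u (endp 0 l) = n

/-- down crossing of `n` levels -/
def IsDn (u : Step d) (n : ℕ) (l : List (Step d)) : Prop :=
  (∀ y ∈ sitesL 0 l, -(n : ℤ) < lev u y ∧ lev u y ≤ 0) ∧ lev u (endp 0 l) = -(n : ℤ)

/-- annealed weight of a word -/
noncomputable def aw (ν : Measure (Row d)) [IsProbabilityMeasure ν] (l : List (Step d)) : ℝ≥0∞ :=
  ∫⁻ ω, lw ω 0 l ∂(iidEnvironmentLaw ν)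

/-- contact depths of `π` hung at `0` and `γ` started at `w - u` -/
def Cm (u : Step d) (w : Site d) (π γ : List (Step d)) : Set ℕ :=
  {k | ∃ y, y ∈ sitesL (-endp 0 π) π ∧ y ∈ sitesL (w + stepVec (opp u)) γ ∧ lev u y = -(k : ℤ)}

open Classical in
/-- weight of the pairs of crossings of height `n` with no contact at depth `≤ m` and some
contact at depth in `(m, 2m]` -/
noncomputable def KW (ν : Measure (Row d)) [IsProbabilityMeasure ν] (u : Step d) (n m : ℕ)
    (w : Site d) : ℝ≥0∞ :=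
  ∑' π : List (Step d), ∑' γ : List (Step d),
    if IsUp u n π ∧ IsDn u n γ ∧ (∀ k ∈ Cm u w π γ, m < k) ∧ (∃ k ∈ Cm u w π γ, k ≤ 2 * m)
    then aw ν π * aw ν γ else 0

/-- **KAPPA'** in words -/
def KappaW (ν : Measure (Row d)) [IsProbabilityMeasure ν] (u : Step d) : Prop :=
  ∀ ε : ℝ≥0∞, ε ≠ 0 → ∃ M : ℕ, ∀ m, M ≤ m → ∀ n, 2 * m ≤ n → ∀ w : Site d, lev u w = 0 →
    KW ν u n m w ≤ ε

end Crest.Agent.R154.NB28
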