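import Crest.Agent.R154.B5Rec_566
import Crest.Agent.R154.Flux2_566
import Crest.Agent.R154.NBDefs_28

/-! Row 154 (helper346): generic unique factorisation of words into irreducible words
(single-walker renewals). -/

set_option autoImplicit false
set_option linter.unusedSectionVars false

namespace Crest.Agent.R154.Fact346

open scoped ENNReal

/-- words with a height, closed under concatenation, with refinement of splittings -/
structure Fac {α : Type*} (P : ℕ → List α → Prop) : Prop where
  nil : P 0 []
  zero : ∀ l, P 0 l → l = []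
  uniq : ∀ m n l, P m l → P n l → m = n
  add : ∀ m n a b, P m a → P n b → P (m + n) (a ++ b)
  ref : ∀ m n m' n' a b c e, P m a → P n b → P m' c → P n' e → a ++ b = c ++ e → m ≤ m' →
    ∃ f, c = a ++ f ∧ P (m' - m) f

variable {α : Type*} {P : ℕ → List α → Prop}

/-- irreducible words -/
def Irr (P : ℕ → List α → Prop) : Type _ :=
  {l : List α // ∃ h, 1 ≤ h ∧ P h l ∧ ∀ m n a b, l = a ++ b → P m a → P n b → m = 0 ∨ n = 0}

/-- height -/
noncomputable def ht (b : Irr P) : ℕ := b.2.choose

lemma ht_pos (b : Irr P) : 1 ≤ ht b := b.2.choose_spec.1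

lemma ht_spec (b : Irr P) : P (ht b) b.1 := b.2.choose_spec.2.1

lemma irr_spec (b : Irr P) : ∀ m n a c, b.1 = a ++ c → P m a → P n c → m = 0 ∨ n = 0 :=
  b.2.choose_spec.2.2

/-- concatenation -/
def fl : List (Irr P) → List α
  | [] => []
  | b :: L => b.1 ++ fl L

lemma fl_append (L L' : List (Irr P)) : fl (L ++ L') = fl L ++ fl L' := by
  induction L with
  | nil => rfl
  | cons b L ih => simp [fl, ih]

lemma P_fl (h : Fac P) (L : List (Irr P)) : P (B5A.HT ht L) (fl L) := by
  induction L with
  | nil => exact h.nil
  | cons b L ih =>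
    rw [B5A.HT_cons]
    exact h.add _ _ _ _ (ht_spec b) ih

lemma fl_ne_nil (h : Fac P) (b : Irr P) : b.1 ≠ [] := by
  intro hb
  have h1 := ht_spec b
  rw [hb] at h1
  have := h.uniq _ _ _ h1 h.nil
  have := ht_pos b
  omega

lemma fl_inj (h : Fac P) : Function.Injective (fl : List (Irr P) → List α) := by
  have key : ∀ (b b' : Irr P) (x y : List (Irr P)), ht b ≤ ht b' →
      b.1 ++ fl x = b'.1 ++ fl y → b = b' := by
    intro b b' x y hle he
    obtain ⟨f, hf1, hf2⟩ := h.ref _ _ _ _ _ _ _ _ (ht_spec b) (P_fl h x) (ht_spec b')
      (P_fl h y) he hle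
    rcases irr_spec b' _ _ _ _ hf1 (ht_spec b) hf2 with h0 | h0
    · have := ht_pos b; omega
    · rw [h0] at hf2
      have := h.zero _ hf2
      subst this
      exact Subtype.ext (by rw [hf1, List.append_nil])
  intro L
  induction L with
  | nil =>
    intro L' he
    cases L' with
    | nil => rfl
    | cons b L' =>
      exfalso
      have : b.1 = [] := (List.append_eq_nil_iff.1 he.symm).1
      exact fl_ne_nil h b this
  | cons b L ih =>
    intro L' he
    cases L' with
    | nil =>
      exfalso
      have : b.1 = [] := (List.append_eq_nil_iff.1 he).1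
      exact fl_ne_nil h b this
    | cons b' L' =>
      have he' : b.1 ++ fl L = b'.1 ++ fl L' := he
      have hbb : b = b' := by
        rcases le_total (ht b) (ht b') with hle | hle
        · exact key b b' L L' hle he'
        · exact (key b' b L' L hle he'.symm).symm
      subst hbb
      rw [ih (List.append_cancel_left he')]

lemma exists_fl (h : Fac P) (n : ℕ) : ∀ l, P n l → ∃ L : List (Irr P), fl L = l := by
  induction n using Nat.strong_induction_on with
  | _ n ih =>
    intro l hl
    rcases Nat.eq_zero_or_pos n with hn | hn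
    · subst hn
      exact ⟨[], (h.zero l hl).symm⟩
    · by_cases hirr : ∀ m k a b, l = a ++ b → P m a → P k b → m = 0 ∨ k = 0
      · exact ⟨[⟨l, n, hn, hl, hirr⟩], by simp [fl]⟩
      · push Not at hirr
        obtain ⟨m, k, a, b, hab, ha, hb, hm, hk⟩ := hirr
        have hmk : m + k = n := by
          have := h.add _ _ _ _ ha hb
          rw [← hab] at this
          exact h.uniq _ _ _ this hl
        obtain ⟨La, hLa⟩ := ih m (by omega) a ha
        obtain ⟨Lb, hLb⟩ := ih k (by omega) b hb
        exact ⟨La ++ Lb, by rw [fl_append, hLa, hLb, hab]⟩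

lemma P_fl_iff (h : Fac P) (n : ℕ) (L : List (Irr P)) : P n (fl L) ↔ B5A.HT ht L = n := by
  constructor
  · intro hn
    exact h.uniq _ _ _ (P_fl h L) hn
  · rintro rfl
    exact P_fl h L

open Classical in
/-- **unique factorisation**, as a sum identity -/
theorem tsum_fact (h : Fac P) (n : ℕ) (G : List α → ℝ≥0∞) :
    ∑' l, (if P n l then G l else 0)
      = ∑' L : List (Irr P), (if B5A.HT ht L = n then G (fl L) else 0) := by
  have hs : Function.support (fun l => if P n l then G l else 0) ⊆ Set.range (fl (P := P)) := by
    intro l hl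
    by_cases hP : P n l
    · exact exists_fl h n l hP
    · simp [hP] at hl
  rw [← (fl_inj h).tsum_eq hs]
  refine tsum_congr fun L => ?_
  by_cases hL : B5A.HT ht L = n
  · rw [if_pos hL, if_pos ((P_fl_iff h n L).2 hL)]
  · rw [if_neg hL, if_neg (fun hc => hL ((P_fl_iff h n L).1 hc))]

/-- multiplicative weights -/
lemma weight_fl (h : Fac P) (w : List α → ℝ≥0∞) (w0 : w [] = 1)
    (wa : ∀ m n a b, P m a → P n b → w (a ++ b) = w a * w b) (L : List (Irr P)) :
    w (fl L) = B5A.LW (fun b : Irr P => w b.1) L := by
  induction L with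
  | nil => rw [B5A.LW_nil]; exact w0
  | cons b L ih =>
    rw [B5A.LW_cons, ← ih]
    exact wa _ _ _ _ (ht_spec b) (P_fl h L)

/-! ### the instance: crossing words -/

open Crest.ProbabilityR.RandomEnvironment Crest.Agent.R154.Flux566
open Crest.Agent.R154.Flux566 (lw endp sitesL)

section words

variable {d : ℕ}

lemma sitesL_append (l l' : List (Step d)) (x : Site d) :
    sitesL x (l ++ l') = sitesL x l ++ sitesL (endp x l) l' := by
  induction l generalizing x with
  | nil => rfl
  | cons e l ih => simp only [List.cons_append, sitesL, endp, ih]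

lemma sitesL_add (l : List (Step d)) (x z : Site d) :
    sitesL (x + z) l = (sitesL x l).map (fun y => y + z) := by
  induction l generalizing x with
  | nil => rfl
  | cons e l ih =>
    simp only [sitesL, List.map_cons]
    rw [← ih, show x + z + stepVec e = x + stepVec e + z by abel]

open NB28 (IsUp IsDn aw)

lemma lev_a (u : Step d) (x y : Site d) : Flux132.lev u (x + y) = Flux132.lev u x + Flux132.lev u y := by
  unfold Flux132.lev; split_ifs <;> simp [Pi.add_apply]; ring

lemma lev_z (u : Step d) : Flux132.lev u (0 : Site d) = 0 := by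
  unfold Flux132.lev; split_ifs <;> simp

lemma lev_opp (u : Step d) (x : Site d) : Flux132.lev (Flux132.opp u) x = - Flux132.lev u x := by
  unfold Flux132.lev Flux132.opp; cases u.2 <;> simp

lemma opp_opp (u : Step d) : Flux132.opp (Flux132.opp u) = u := by
  unfold Flux132.opp; ext <;> simp

lemma up_from (u : Step d) (n : ℕ) (l : List (Step d)) (x : Site d) :
    IsUp u n l ↔ (∀ y ∈ sitesL x l, Flux132.lev u x ≤ Flux132.lev u y
      ∧ Flux132.lev u y < Flux132.lev u x + n) ∧
      Flux132.lev u (endp x l) = Flux132.lev u x + n := by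
  have e1 : sitesL x l = (sitesL 0 l).map (fun y => y + x) := by
    rw [← sitesL_add, zero_add]
  have e2 : endp x l = x + endp 0 l := endp_eq_add l x
  unfold IsUp
  rw [e1, e2, lev_a]
  constructor
  · rintro ⟨h1, h2⟩
    refine ⟨fun y hy => ?_, by omega⟩
    obtain ⟨z, hz, rfl⟩ := List.mem_map.1 hy
    have := h1 z hz
    rw [lev_a]
    omega
  · rintro ⟨h1, h2⟩
    refine ⟨fun y hy => ?_, by omega⟩
    have := h1 (y + x) (List.mem_map.2 ⟨y, hy, rfl⟩)
    rw [lev_a] at this
    omega

theorem fac_up (u : Step d) : Fac (IsUp u) where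
  nil := ⟨by simp [sitesL], by simp [endp, lev_z]⟩
  zero l h := by
    cases l with
    | nil => rfl
    | cons e l =>
      have := h.1 0 (by simp [sitesL])
      simp at this
      omega
  uniq m n l h h' := by
    have := h.2.symm.trans h'.2
    exact_mod_cast this
  add m n a b ha hb := by
    have hb' := (up_from u n b (endp 0 a)).1 hb
    rw [ha.2] at hb'
    refine ⟨?_, ?_⟩
    · intro y hy
      rw [sitesL_append, List.mem_append] at hy
      rcases hy with hy | hy
      · have := ha.1 y hy; push_cast; omega
      · have := hb'.1 y hy; push_cast; omega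
    · rw [endp_append, hb'.2]; push_cast; rfl
  ref m n m' n' a b c e ha hb hc he heq hle := by
    have key : ∀ f, c = a ++ f → b = f ++ e → IsUp u (m' - m) f := by
      intro f hcf hbf
      rw [up_from u (m' - m) f (endp 0 a), ha.2]
      have hb' := (up_from u n b (endp 0 a)).1 hb
      rw [ha.2, hbf, sitesL_append] at hb'
      have hc' := hc
      rw [hcf] at hc'
      unfold IsUp at hc'
      rw [sitesL_append, endp_append] at hc'
      refine ⟨fun y hy => ?_, ?_⟩
      · have h1 := hb'.1 y (List.mem_append_left _ hy)
        have h2 := hc'.1 y (List.mem_append_right _ hy)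
        rw [Nat.cast_sub hle]
        omega
      · rw [hc'.2, Nat.cast_sub hle]
        omega
    rcases List.append_eq_append_iff.1 heq with ⟨f, h1, h2⟩ | ⟨f, h1, h2⟩
    · exact ⟨f, h1, key f h1 h2⟩
    · -- `a = c ++ f`
      have hf : f = [] := by
        cases f with
        | nil => rfl
        | cons s f =>
          exfalso
          have : endp 0 c ∈ sitesL 0 a := by
            rw [h1, sitesL_append]
            exact List.mem_append_right _ (by simp [sitesL])
          have h3 := ha.1 _ this
          rw [hc.2] at h3
          omega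
      subst hf
      rw [List.append_nil] at h1
      refine ⟨[], by rw [h1, List.append_nil], ?_⟩
      exact key [] (by rw [h1, List.append_nil]) (by simpa using h2.symm)

end words

end Crest.Agent.R154.Fact346
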