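import Crest.Agent.R154.Flux2_566
import Crest.Agent.R154.B5Abs_566

/-! Row 154 (helper956): basics on words (letters `lw endp sitesL` of `Flux2_566`):
prefix-free sums, first-hit factorisation, same = ind for disjoint words. -/

set_option autoImplicit false

open MeasureTheory ProbabilityTheory Crest.ProbabilityR.RandomEnvironment
open Crest.Agent.R154.Flux566
open scoped ENNReal

namespace Crest.Agent.R154.WordB956

variable {d : ℕ}

lemma lw_append (ω : Environment d) (x : Site d) (l l' : List (Step d)) :
    lw ω x (l ++ l') = lw ω x l * lw ω (endp x l) l' := by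
  induction l generalizing x with
  | nil => simp [lw, endp]
  | cons e l ih => simp only [List.cons_append, lw, endp, ih, mul_assoc]

lemma sitesL_append (x : Site d) (l l' : List (Step d)) :
    sitesL x (l ++ l') = sitesL x l ++ sitesL (endp x l) l' := by
  induction l generalizing x with
  | nil => simp [sitesL, endp]
  | cons e l ih => simp only [List.cons_append, sitesL, endp, ih]

lemma endp_nil (x : Site d) : endp x [] = x := rfl

lemma endp_add (x z : Site d) (l : List (Step d)) : endp (x + z) l = endp x l + z := by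
  rw [endp_eq_add, endp_eq_add l x]; abel

lemma mem_sitesL {x y : Site d} {l : List (Step d)} :
    y ∈ sitesL x l ↔ ∃ l1 e l2, l = l1 ++ e :: l2 ∧ endp x l1 = y := by
  induction l generalizing x with
  | nil => simp [sitesL]
  | cons e l ih =>
    simp only [sitesL, List.mem_cons, ih]
    constructor
    · rintro (rfl | ⟨l1, e', l2, rfl, h⟩)
      · exact ⟨[], e, l, rfl, rfl⟩
      · exact ⟨e :: l1, e', l2, rfl, h⟩
    · rintro ⟨l1, e', l2, h, h'⟩
      cases l1 with
      | nil => left; simpa [endp] using h'.symm
      | cons a l1 =>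
        simp only [List.cons_append, List.cons.injEq] at h
        obtain ⟨rfl, rfl⟩ := h
        exact Or.inr ⟨l1, e', l2, rfl, h'⟩

lemma lw_shift (ω : Environment d) (x z : Site d) (l : List (Step d)) :
    lw ω (x + z) l = lw (shiftEnv z ω) x l := by
  induction l generalizing x with
  | nil => rfl
  | cons e l ih =>
    simp only [lw]
    rw [show x + z + stepVec e = x + stepVec e + z by abel, ih]
    rfl

lemma sum_row (ω : Environment d) (x : Site d) :
    ∑' e : Step d, ENNReal.ofReal ((ω x).1 e) = 1 := by
  rw [tsum_fintype, ← ENNReal.ofReal_sum_of_nonneg (fun e _ => (ω x).2.1 e), (ω x).2.2,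
    ENNReal.ofReal_one]

/-! ### prefix-free sums -/

/-- prefix-free set of words -/
def PF (S : Set (List (Step d))) : Prop := ∀ l ∈ S, ∀ l', l ++ l' ∈ S → l' = []

lemma PF.mono {S T : Set (List (Step d))} (h : PF T) (hST : S ⊆ T) : PF S :=
  fun l hl l' hl' => h l (hST hl) l' (hST hl')

open Classical in
/-- **(B2)** a prefix-free set of words has total quenched weight at most one. -/
theorem pf_sum_le (ω : Environment d) (x : Site d) {S : Set (List (Step d))} (hS : PF S) :
    ∑' l : List (Step d), (if l ∈ S then lw ω x l else 0) ≤ 1 := by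
  have key : ∀ (n : ℕ) (x : Site d) (S : Set (List (Step d))), PF S →
      ∑' l : List (Step d), (if l ∈ S ∧ l.length ≤ n then lw ω x l else 0) ≤ 1 := by
    intro n
    induction n with
    | zero =>
      intro x S _
      rw [tsum_eq_single []]
      · split_ifs <;> simp [lw]
      · intro l hl
        rw [if_neg]
        rintro ⟨_, h⟩
        exact hl (List.length_eq_zero_iff.1 (Nat.le_zero.1 h))
    | succ n ih =>
      intro x S hS
      by_cases h0 : ([] : List (Step d)) ∈ S
      · rw [tsum_eq_single []]
        · split_ifs <;> simp [lw]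
        · intro l hl
          rw [if_neg]
          rintro ⟨h, _⟩
          exact hl (hS [] h0 l (by simpa using h))
      · rw [B5A.tsum_list]
        simp only [h0, false_and, if_false, zero_add]
        calc ∑' e : Step d, ∑' l : List (Step d),
              (if e :: l ∈ S ∧ (e :: l).length ≤ n + 1 then lw ω x (e :: l) else 0)
            = ∑' e : Step d, ENNReal.ofReal ((ω x).1 e) * ∑' l : List (Step d),
              (if l ∈ {l | e :: l ∈ S} ∧ l.length ≤ n then lw ω (x + stepVec e) l else 0) := by
              refine tsum_congr fun e => ?_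
              rw [← ENNReal.tsum_mul_left]
              refine tsum_congr fun l => ?_
              simp only [Set.mem_ofPred_eq, List.length_cons, Nat.succ_le_succ_iff,
                lw, mul_ite, mul_zero]
          _ ≤ ∑' e : Step d, ENNReal.ofReal ((ω x).1 e) * 1 := by
              refine ENNReal.tsum_le_tsum fun e => mul_le_mul_right ?_ _
              refine ih _ _ fun l hl l' hl' => ?_
              exact hS (e :: l) hl l' (by simpa using hl')
          _ = 1 := by simp only [mul_one, sum_row]
  rw [ENNReal.tsum_eq_iSup_sum]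
  refine iSup_le fun s => ?_
  calc ∑ l ∈ s, (if l ∈ S then lw ω x l else 0)
      = ∑ l ∈ s, (if l ∈ S ∧ l.length ≤ s.sup List.length then lw ω x l else 0) := by
        refine Finset.sum_congr rfl fun l hl => ?_
        have : l.length ≤ s.sup List.length := Finset.le_sup hl
        simp [this]
    _ ≤ _ := ENNReal.sum_le_tsum s
    _ ≤ 1 := key _ x S hS

/-! ### first hits -/

/-- words which end at their first visit of `D` -/
def FH (D : Set (Site d)) (x : Site d) : Set (List (Step d)) :=
  {l | endp x l ∈ D ∧ ∀ l1 l2, l = l1 ++ l2 → l2 ≠ [] → endp x l1 ∉ D}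

/-- words which visit `D` (endpoint included) -/
def Vis (D : Set (Site d)) (x : Site d) : Set (List (Step d)) :=
  {l | ∃ l1 l2, l = l1 ++ l2 ∧ endp x l1 ∈ D}

lemma pf_FH (D : Set (Site d)) (x : Site d) : PF (FH D x) := by
  intro l hl l' hl'
  by_contra h
  exact hl'.2 l l' rfl h hl.1

lemma exists_FH {D : Set (Site d)} {x : Site d} {l : List (Step d)} (h : l ∈ Vis D x) :
    ∃ l1 l2, l = l1 ++ l2 ∧ l1 ∈ FH D x := by
  induction l generalizing x with
  | nil =>
    obtain ⟨l1, l2, h1, h2⟩ := h
    obtain ⟨rfl, rfl⟩ := List.append_eq_nil_iff.1 h1.symm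
    refine ⟨[], [], rfl, h2, fun a b hab hb => ?_⟩
    exact absurd (List.append_eq_nil_iff.1 hab.symm).2 hb
  | cons e l ih =>
    by_cases hx : x ∈ D
    · refine ⟨[], e :: l, rfl, hx, fun a b hab hb => ?_⟩
      exact absurd (List.append_eq_nil_iff.1 hab.symm).2 hb
    · obtain ⟨l1, l2, h1, h2⟩ := h
      cases l1 with
      | nil => exact absurd h2 hx
      | cons a l1 =>
        simp only [List.cons_append, List.cons.injEq] at h1
        obtain ⟨rfl, h1⟩ := h1
        obtain ⟨m1, m2, h3, h4⟩ := ih (x := x + stepVec e) ⟨l1, l2, h1, h2⟩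
        refine ⟨e :: m1, m2, by rw [h3]; rfl, h4.1, fun a b hab hb => ?_⟩
        cases a with
        | nil => exact hx
        | cons a' a =>
          simp only [List.cons_append, List.cons.injEq] at hab
          obtain ⟨rfl, hab⟩ := hab
          exact h4.2 a b hab hb

lemma FH_unique {D : Set (Site d)} {x : Site d} {l1 l2 m1 m2 : List (Step d)}
    (h : l1 ++ l2 = m1 ++ m2) (h1 : l1 ∈ FH D x) (h2 : m1 ∈ FH D x) : l1 = m1 ∧ l2 = m2 := by
  have hh : l1 = m1 := by
    rcases List.append_eq_append_iff.1 h with ⟨a, ha, _⟩ | ⟨a, ha, _⟩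
    · have : a = [] := pf_FH D x l1 h1 a (ha ▸ h2)
      rw [ha, this, List.append_nil]
    · have : a = [] := pf_FH D x m1 h2 a (ha ▸ h1)
      rw [ha, this, List.append_nil]
  subst hh
  exact ⟨rfl, List.append_cancel_left h⟩

open Classical in
/-- **(B3)** first-hit factorisation of a sum over the words which visit `D`. -/
theorem tsum_vis (D : Set (Site d)) (x : Site d) (F : List (Step d) → ℝ≥0∞) :
    ∑' l : List (Step d), (if l ∈ Vis D x then F l else 0)
      = ∑' l1 : List (Step d), (if l1 ∈ FH D x then ∑' l2 : List (Step d), F (l1 ++ l2)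
          else 0) := by
  have e1 : ∑' l1 : List (Step d), (if l1 ∈ FH D x then ∑' l2 : List (Step d), F (l1 ++ l2)
      else 0) = ∑' p : List (Step d) × List (Step d),
        (if p.1 ∈ FH D x then F (p.1 ++ p.2) else 0) := by
    rw [ENNReal.tsum_prod (f := fun a b : List (Step d) => if a ∈ FH D x then F (a ++ b) else 0)]
    refine tsum_congr fun l1 => ?_
    by_cases h : l1 ∈ FH D x <;> simp [h]
  rw [e1]
  have e2 : ∑' p : List (Step d) × List (Step d),
        (if p.1 ∈ FH D x then F (p.1 ++ p.2) else 0)
      = ∑' q : {p : List (Step d) × List (Step d) // p.1 ∈ FH D x}, F (q.1.1 ++ q.1.2) := by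
    rw [← tsum_subtype_eq_of_support_subset (s := {p : List (Step d) × List (Step d) |
      p.1 ∈ FH D x})]
    · refine tsum_congr fun q => ?_
      exact if_pos q.2
    · intro p hp
      by_contra h
      exact hp (if_neg h)
  rw [e2]
  set g : {p : List (Step d) × List (Step d) // p.1 ∈ FH D x} → List (Step d) :=
    fun q => q.1.1 ++ q.1.2 with hg
  have hinj : Function.Injective g := by
    rintro ⟨⟨a, b⟩, ha⟩ ⟨⟨a', b'⟩, ha'⟩ h
    obtain ⟨h1, h2⟩ := FH_unique (D := D) (x := x) h ha ha'
    simp only at h1 h2
    subst h1; subst h2; rfl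
  have hs : Function.support (fun l : List (Step d) => if l ∈ Vis D x then F l else 0)
      ⊆ Set.range g := by
    intro l hl
    have hv : l ∈ Vis D x := by
      by_contra h
      exact hl (if_neg h)
    obtain ⟨l1, l2, h1, h2⟩ := exists_FH hv
    exact ⟨⟨(l1, l2), h2⟩, h1.symm⟩
  rw [← hinj.tsum_eq hs]
  refine tsum_congr fun q => ?_
  rw [if_pos]
  exact ⟨q.1.1, q.1.2, rfl, q.2.1⟩

open Classical in
/-- **strong Markov for words**: total quenched weight, over a set `S` of words, of those which
visit `D`, when the continuation from every `v ∈ D` weighs at most `lam`. -/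
theorem vis_le (ω : Environment d) (x : Site d) (S : Set (List (Step d))) (D : Set (Site d))
    (lam : ℝ≥0∞)
    (h : ∀ l1 ∈ FH D x, ∑' l2 : List (Step d),
      (if l1 ++ l2 ∈ S then lw ω (endp x l1) l2 else 0) ≤ lam) :
    ∑' l : List (Step d), (if l ∈ S ∧ l ∈ Vis D x then lw ω x l else 0) ≤ lam := by
  have e : ∑' l : List (Step d), (if l ∈ S ∧ l ∈ Vis D x then lw ω x l else 0)
      = ∑' l : List (Step d), (if l ∈ Vis D x then (if l ∈ S then lw ω x l else 0) else 0) := by
    refine tsum_congr fun l => ?_
    by_cases h1 : l ∈ S <;> by_cases h2 : l ∈ Vis D x <;> simp [h1, h2]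
  rw [e, tsum_vis D x (fun l => if l ∈ S then lw ω x l else 0)]
  calc ∑' l1 : List (Step d), (if l1 ∈ FH D x then ∑' l2 : List (Step d),
        (if l1 ++ l2 ∈ S then lw ω x (l1 ++ l2) else 0) else 0)
      ≤ ∑' l1 : List (Step d), (if l1 ∈ FH D x then lw ω x l1 else 0) * lam := by
        refine ENNReal.tsum_le_tsum fun l1 => ?_
        by_cases h1 : l1 ∈ FH D x
        · rw [if_pos h1, if_pos h1]
          calc ∑' l2 : List (Step d), (if l1 ++ l2 ∈ S then lw ω x (l1 ++ l2) else 0)
              = lw ω x l1 * ∑' l2 : List (Step d),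
                (if l1 ++ l2 ∈ S then lw ω (endp x l1) l2 else 0) := by
                rw [← ENNReal.tsum_mul_left]
                refine tsum_congr fun l2 => ?_
                rw [lw_append, mul_ite, mul_zero]
            _ ≤ _ := mul_le_mul_right (h l1 h1) _
        · rw [if_neg h1, if_neg h1, zero_mul]
    _ = (∑' l1 : List (Step d), (if l1 ∈ FH D x then lw ω x l1 else 0)) * lam :=
        ENNReal.tsum_mul_right
    _ ≤ 1 * lam := mul_le_mul_left (pf_sum_le ω x (pf_FH D x)) _
    _ = lam := one_mul _

open Classical in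
/-- **turning lemma for words**: if from every `v ∈ D` the words of `T v` weigh more than `lam`,
then the walk visits `D` with probability at most `lam⁻¹` times the weight of (first hit of `D`,
then a word of `T`). -/
theorem hit_le (ω : Environment d) (x : Site d) (D : Set (Site d))
    (T : Site d → Set (List (Step d))) (lam : ℝ≥0∞)
    (h : ∀ v ∈ D, lam ≤ ∑' l2 : List (Step d), (if l2 ∈ T v then lw ω v l2 else 0)) :
    lam * ∑' l : List (Step d), (if l ∈ FH D x then lw ω x l else 0)
      ≤ ∑' l1 : List (Step d), (if l1 ∈ FH D x then ∑' l2 : List (Step d),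
          (if l2 ∈ T (endp x l1) then lw ω x (l1 ++ l2) else 0) else 0) := by
  rw [← ENNReal.tsum_mul_left]
  refine ENNReal.tsum_le_tsum fun l1 => ?_
  by_cases h1 : l1 ∈ FH D x
  · rw [if_pos h1, if_pos h1, mul_comm]
    calc lw ω x l1 * lam
        ≤ lw ω x l1 * ∑' l2 : List (Step d),
            (if l2 ∈ T (endp x l1) then lw ω (endp x l1) l2 else 0) :=
          mul_le_mul_right (h _ h1.1) _
      _ = _ := by
          rw [← ENNReal.tsum_mul_left]
          refine tsum_congr fun l2 => ?_
          rw [lw_append, mul_ite, mul_zero]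
  · rw [if_neg h1, if_neg h1, mul_zero]

/-! ### annealed weights -/

/-- annealed weight of a word -/
noncomputable def aw (Q : Measure (Environment d)) (x : Site d) (l : List (Step d)) : ℝ≥0∞ :=
  ∫⁻ ω, lw ω x l ∂Q

lemma aw_nil (Q : Measure (Environment d)) [IsProbabilityMeasure Q] (x : Site d) :
    aw Q x [] = 1 := by simp [aw, lw]

/-- the annealed weight does not depend on the start -/
lemma aw_shift (Q : Measure (Environment d)) (hstat : ∀ z : Site d, MeasurePreserving (shiftEnv z) Q Q)
    (x : Site d) (l : List (Step d)) : aw Q x l = aw Q 0 l := by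
  unfold aw
  have h : ∀ ω : Environment d, lw ω x l = lw (shiftEnv x ω) 0 l := fun ω => by
    rw [← lw_shift, zero_add]
  simp_rw [h]
  exact (hstat x).lintegral_comp (measurable_lw 0 l)

/-- **(B4)** same = ind for words at disjoint sites -/
lemma aw_mul (ν : Measure (Row d)) [IsProbabilityMeasure ν] (x y : Site d)
    (l l' : List (Step d)) (h : ∀ z ∈ sitesL x l, z ∉ sitesL y l') :
    ∫⁻ ω, lw ω x l * lw ω y l' ∂(iidEnvironmentLaw ν)
      = aw (iidEnvironmentLaw ν) x l * aw (iidEnvironmentLaw ν) y l' := by
  refine Q561.iid_lintegral_mul ν (S := {z | z ∈ sitesL x l}) (T := {z | z ∈ sitesL y l'}) ?_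
    (measurable_lw _ _) (measurable_lw _ _) (locOn_lw _ _) (locOn_lw _ _)
  exact Set.disjoint_left.2 h

/-- concatenation of words reading disjoint sites -/
lemma aw_append (ν : Measure (Row d)) [IsProbabilityMeasure ν] (x : Site d)
    (l l' : List (Step d)) (h : ∀ z ∈ sitesL x l, z ∉ sitesL (endp x l) l') :
    aw (iidEnvironmentLaw ν) x (l ++ l')
      = aw (iidEnvironmentLaw ν) x l * aw (iidEnvironmentLaw ν) (endp x l) l' := by
  rw [← aw_mul ν _ _ _ _ h]
  unfold aw
  simp_rw [lw_append]

open Classical in
/-- annealed form of (B2) -/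
theorem pf_aw_le (Q : Measure (Environment d)) [IsProbabilityMeasure Q] (x : Site d)
    {S : Set (List (Step d))} (hS : PF S) :
    ∑' l : List (Step d), (if l ∈ S then aw Q x l else 0) ≤ 1 := by
  have e : ∑' l : List (Step d), (if l ∈ S then aw Q x l else 0)
      = ∫⁻ ω : Environment d, ∑' l : List (Step d), (if l ∈ S then lw ω x l else 0) ∂Q := by
    rw [lintegral_tsum]
    · refine tsum_congr fun l => ?_
      by_cases h : l ∈ S
      · simp [h, aw]
      · simp [h]
    · intro l
      by_cases h : l ∈ S
      · simp only [h, if_true]; exact (measurable_lw x l).aemeasurable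
      · simp only [h, if_false]; exact measurable_const.aemeasurable
  rw [e]
  calc _ ≤ ∫⁻ _ : Environment d, (1 : ℝ≥0∞) ∂Q := lintegral_mono fun ω => pf_sum_le ω x hS
    _ = 1 := by simp

open Classical in
/-- continuations weigh at most the word itself -/
theorem pf_ext_le (Q : Measure (Environment d)) (x : Site d) (l : List (Step d))
    {S : Set (List (Step d))} (hS : PF S) :
    ∑' l' : List (Step d), (if l' ∈ S then aw Q x (l ++ l') else 0) ≤ aw Q x l := by
  have e : ∑' l' : List (Step d), (if l' ∈ S then aw Q x (l ++ l') else 0)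
      = ∫⁻ ω : Environment d, lw ω x l * ∑' l' : List (Step d), (if l' ∈ S then lw ω (endp x l) l' else 0) ∂Q := by
    simp_rw [← ENNReal.tsum_mul_left]
    rw [lintegral_tsum]
    · refine tsum_congr fun l' => ?_
      by_cases h : l' ∈ S
      · simp [h, aw, lw_append]
      · simp [h]
    · intro l'
      by_cases h : l' ∈ S
      · simp only [h, if_true]
        exact ((measurable_lw x l).mul (measurable_lw _ l')).aemeasurable
      · simp only [h, if_false, mul_zero]; exact measurable_const.aemeasurable
  rw [e]
  unfold aw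
  refine lintegral_mono fun ω => ?_
  calc _ ≤ lw ω x l * 1 := mul_le_mul_right (pf_sum_le ω _ hS) _
    _ = lw ω x l := mul_one _

end Crest.Agent.R154.WordB956
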