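import Crest.Agent.R154.B5Rec_566
import Crest.Agent.R154.Fact_346
import Crest.Agent.R154.WordB_956

/-! Row 154 (helper624): renewal data of the single walker blocks (irreducible crossing words):
`U n` = weight of the crossings of `n` levels, total mass one, finite mean height. -/

set_option autoImplicit false

namespace Crest.Agent.R154.Data624

open MeasureTheory ProbabilityTheory Crest.ProbabilityR.RandomEnvironment Crest.Agent.R154
open Crest.Agent.R154.Flux132 (lev opp)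
open Crest.Agent.R154.Flux566 (lw endp sitesL endp_append endp_eq_add)
open Crest.Agent.R154.NB28 (IsUp IsDn)
open Crest.Agent.R154.Fact346
open scoped ENNReal

variable {d : ℕ}

lemma isDn_iff (u : Step d) (n : ℕ) (l : List (Step d)) : IsDn u n l ↔ IsUp (opp u) n l := by
  unfold IsDn IsUp
  simp only [lev_opp]
  constructor
  · rintro ⟨h1, h2⟩
    exact ⟨fun y hy => by have := h1 y hy; omega, by omega⟩
  · rintro ⟨h1, h2⟩
    exact ⟨fun y hy => by have := h1 y hy; omega, by omega⟩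

lemma isDn_eq (u : Step d) : IsDn u = IsUp (opp u) := by
  funext n l
  exact propext (isDn_iff u n l)

theorem fac_dn (u : Step d) : Fac (IsDn u) := by
  rw [isDn_eq]; exact fac_up (opp u)

lemma aw_app (ν : Measure (Row d)) [IsProbabilityMeasure ν] (u : Step d) (m n : ℕ)
    (a b : List (Step d)) (ha : IsUp u m a) (hb : IsUp u n b) :
    NB28.aw ν (a ++ b) = NB28.aw ν a * NB28.aw ν b := by
  have h := WordB956.aw_append ν 0 a b (by
    intro z hz hz'
    have h1 := ha.1 z hz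
    have h2 := ((up_from u n b (endp 0 a)).1 hb).1 z hz'
    rw [ha.2] at h2
    omega)
  rw [WordB956.aw_shift (iidEnvironmentLaw ν) (Q561.iid_shift ν) (endp 0 a) b] at h
  exact h

lemma aw_app_dn (ν : Measure (Row d)) [IsProbabilityMeasure ν] (u : Step d) (m n : ℕ)
    (a b : List (Step d)) (ha : IsDn u m a) (hb : IsDn u n b) :
    NB28.aw ν (a ++ b) = NB28.aw ν a * NB28.aw ν b :=
  aw_app ν (opp u) m n a b ((isDn_iff u m a).1 ha) ((isDn_iff u n b).1 hb)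

lemma aw_nil (ν : Measure (Row d)) [IsProbabilityMeasure ν] :
    NB28.aw ν ([] : List (Step d)) = 1 := by
  simp [NB28.aw, lw]

/-- crossings of `n` levels are prefix free -/
lemma pf_up (u : Step d) (n : ℕ) : WordB956.PF {l | IsUp u n l} := by
  intro l hl l' hl'
  have h1 : IsUp u n l := hl
  have h2 : IsUp u n (l ++ l') := hl'
  cases l' with
  | nil => rfl
  | cons e l' =>
    exfalso
    have : endp 0 l ∈ sitesL 0 (l ++ e :: l') := by
      rw [sitesL_append]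
      exact List.mem_append_right _ (by simp [sitesL])
    have h3 := h2.1 _ this
    rw [h1.2] at h3
    omega

open Classical in
lemma up_le_one (ν : Measure (Row d)) [IsProbabilityMeasure ν] (u : Step d) (n : ℕ) :
    ∑' l, (if IsUp u n l then NB28.aw ν l else 0) ≤ 1 :=
  WordB956.pf_aw_le (iidEnvironmentLaw ν) 0 (pf_up u n)

section generic

variable (ν : Measure (Row d)) [IsProbabilityMeasure ν] {P : ℕ → List (Step d) → Prop}

/-- weight of a block -/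
noncomputable def Lam (b : Irr P) : ℝ≥0∞ := NB28.aw ν b.1

open Classical in
lemma U_eq (hF : Fac P) (hm : ∀ m n a b, P m a → P n b →
      NB28.aw ν (a ++ b) = NB28.aw ν a * NB28.aw ν b) (n : ℕ) :
    B5A.U (Lam ν : Irr P → ℝ≥0∞) ht n = ∑' l, (if P n l then NB28.aw ν l else 0) := by
  rw [tsum_fact hF n (NB28.aw ν)]
  refine tsum_congr fun L => ?_
  by_cases h : B5A.HT ht L = n
  · rw [if_pos h, if_pos h]
    exact (weight_fl hF (NB28.aw ν) (aw_nil ν) hm L).symm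
  · rw [if_neg h, if_neg h]

open Classical in
/-- **renewal data** of a family of crossing words -/
theorem data (hF : Fac P) (hm : ∀ m n a b, P m a → P n b →
      NB28.aw ν (a ++ b) = NB28.aw ν a * NB28.aw ν b)
    (h1 : ∀ n, ∑' l, (if P n l then NB28.aw ν l else 0) ≤ 1) (c : ℝ≥0∞) (hc : c ≠ 0)
    (hU : ∀ n, c ≤ ∑' l, (if P n l then NB28.aw ν l else 0)) :
    (∀ b : Irr P, 1 ≤ ht b) ∧ (∑' b : Irr P, Lam ν b = 1) ∧
      (∀ n, B5A.U (Lam ν : Irr P → ℝ≥0∞) ht n ≤ 1) ∧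
      (∀ n, c ≤ B5A.U (Lam ν : Irr P → ℝ≥0∞) ht n) ∧
      (∑' b : Irr P, Lam ν b * (ht b : ℝ≥0∞) ≤ c⁻¹) ∧
      (∑' b : Irr P, Lam ν b * (ht b : ℝ≥0∞) ≠ ⊤) := by
  have hb : ∀ b : Irr P, 1 ≤ ht b := ht_pos
  have hU1 : ∀ n, B5A.U (Lam ν : Irr P → ℝ≥0∞) ht n ≤ 1 := fun n => by
    rw [U_eq ν hF hm]; exact h1 n
  have hUc : ∀ n, c ≤ B5A.U (Lam ν : Irr P → ℝ≥0∞) ht n := fun n => by
    rw [U_eq ν hF hm]; exact hU n
  have hct : c ≠ ⊤ := ne_top_of_le_ne_top ENNReal.one_ne_top ((hUc 0).trans (hU1 0))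
  have hsum : ∑' b : Irr P, Lam ν b = 1 :=
    le_antisymm (B5A.mass_le_one (Lam ν) ht hb hU1)
      (B5A.mass_ge_one (Lam ν) ht c hc 0 fun n _ => hUc n)
  have hmean := B5A.mean_le (Lam ν : Irr P → ℝ≥0∞) ht hb hsum c hc hct 0 fun n _ => hUc n
  exact ⟨hb, hsum, hU1, hUc, hmean, ne_top_of_le_ne_top (ENNReal.inv_ne_top.2 hc) hmean⟩

end generic

open Classical in
/-- up blocks -/
theorem data_up (ν : Measure (Row d)) [IsProbabilityMeasure ν] (u : Step d) (c : ℝ≥0∞) (hc : c ≠ 0)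
    (hU : ∀ n, c ≤ ∑' l, (if IsUp u n l then NB28.aw ν l else 0)) :
    (∀ b : Irr (IsUp u), 1 ≤ ht b) ∧ (∑' b : Irr (IsUp u), Lam ν b = 1) ∧
      (∀ n, B5A.U (Lam ν : Irr (IsUp u) → ℝ≥0∞) ht n ≤ 1) ∧
      (∀ n, c ≤ B5A.U (Lam ν : Irr (IsUp u) → ℝ≥0∞) ht n) ∧
      (∑' b : Irr (IsUp u), Lam ν b * (ht b : ℝ≥0∞) ≤ c⁻¹) ∧
      (∑' b : Irr (IsUp u), Lam ν b * (ht b : ℝ≥0∞) ≠ ⊤) :=
  data ν (fac_up u) (aw_app ν u) (up_le_one ν u) c hc hU

open Classical in
/-- down blocks -/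
theorem data_dn (ν : Measure (Row d)) [IsProbabilityMeasure ν] (u : Step d) (c : ℝ≥0∞) (hc : c ≠ 0)
    (hU : ∀ n, c ≤ ∑' l, (if IsDn u n l then NB28.aw ν l else 0)) :
    (∀ b : Irr (IsDn u), 1 ≤ ht b) ∧ (∑' b : Irr (IsDn u), Lam ν b = 1) ∧
      (∀ n, B5A.U (Lam ν : Irr (IsDn u) → ℝ≥0∞) ht n ≤ 1) ∧
      (∀ n, c ≤ B5A.U (Lam ν : Irr (IsDn u) → ℝ≥0∞) ht n) ∧
      (∑' b : Irr (IsDn u), Lam ν b * (ht b : ℝ≥0∞) ≤ c⁻¹) ∧
      (∑' b : Irr (IsDn u), Lam ν b * (ht b : ℝ≥0∞) ≠ ⊤) := by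
  refine data ν (fac_dn u) (aw_app_dn ν u) (fun n => ?_) c hc hU
  have h := up_le_one ν (opp u) n
  calc _ = ∑' l, (if IsUp (opp u) n l then NB28.aw ν l else 0) :=
        tsum_congr fun l => by simp only [isDn_iff]
    _ ≤ 1 := h

end Crest.Agent.R154.Data624
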