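import Mathlib
import Crest.Prelude.Def_RWRE

/-! Row 154, B0: definitions (paths, cylinders, shifts, stopping times, hitting and exit times). -/

set_option autoImplicit false

namespace Crest.Agent.R154

open MeasureTheory ProbabilityTheory Crest.ProbabilityR.RandomEnvironment
open scoped ENNReal

/-- Paths. -/
abbrev Path (d : ℕ) : Type := ℕ → Site d

variable {d : ℕ}

/-- `X` and `Y` agree up to time `n` (inclusive). -/
def Agree (n : ℕ) (X Y : Path d) : Prop := ∀ i, i ≤ n → X i = Y i

/-- The cylinder of `γ` at time `n`. -/
def cyl (γ : Path d) (n : ℕ) : Set (Path d) := {X | Agree n X γ}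

/-- The path shifted by `n`. -/
def shift (n : ℕ) (X : Path d) : Path d := fun i => X (n + i)

/-- Follow `γ` before time `n`, then `Y` (with `Y 0` at time `n`). -/
def splice (n : ℕ) (γ Y : Path d) : Path d := fun i => if i < n then γ i else Y (i - n)

/-- One-step probability from `x` to `y`. -/
noncomputable def stepP (ω : Environment d) (x y : Site d) : ℝ≥0∞ := oneStepLaw ω x {y}

/-- Quenched weight of `γ` up to time `n` (rows of `γ 0, …, γ (n-1)` are used). -/
noncomputable def wt (ω : Environment d) (γ : Path d) (n : ℕ) : ℝ≥0∞ :=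
  ∏ i ∈ Finset.range n, stepP ω (γ i) (γ (i + 1))

/-- Stopping times of the canonical filtration, for all paths simultaneously. -/
def IsStop (T : Path d → ℕ∞) : Prop :=
  ∀ (X Y : Path d) (n : ℕ), Agree n X Y → T X = n → T Y = n

/-- `F` is determined by the path up to time `T` on `{T < ∞}`. -/
def DetBy {α : Type*} (T : Path d → ℕ∞) (F : Path d → α) : Prop :=
  ∀ (X Y : Path d) (n : ℕ), Agree n X Y → T X = n → F X = F Y

/-- The first time the path satisfies the (site) predicate `p` (`⊤` if never). -/
noncomputable def firstTime (p : Site d → Prop) (X : Path d) : ℕ∞ :=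
  ⨅ n : {n : ℕ // p (X n)}, ((n : ℕ) : ℕ∞)

/-- Hitting time of a set of sites. -/
noncomputable def hit (A : Set (Site d)) (X : Path d) : ℕ∞ := firstTime (fun z => z ∈ A) X

/-- `A` is decided inside `U`: if `X, Y` agree up to and including the first exit point of `U`, then
`X ∈ A ↔ Y ∈ A`. -/
def DetIn (U : Set (Site d)) (A : Set (Path d)) : Prop :=
  ∀ X Y : Path d, (∀ n, (∀ i, i < n → X i ∈ U) → X n = Y n) → (X ∈ A ↔ Y ∈ A)

/-- functional version of `DetIn`. -/
def DetInF {α : Type*} (U : Set (Site d)) (F : Path d → α) : Prop :=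
  ∀ X Y : Path d, (∀ n, (∀ i, i < n → X i ∈ U) → X n = Y n) → F X = F Y

/-- Two site sets are `R`-separated. `R = 0` means disjoint. -/
def Sep (R : ℕ) (U V : Set (Site d)) : Prop := ∀ a ∈ U, ∀ b ∈ V, ∃ i, (R : ℤ) < |a i - b i|

/-- the sites whose rows are used by `X` before time `n`. -/
def usedBefore (X : Path d) (n : ℕ) : Set (Site d) := {z | ∃ i, i < n ∧ X i = z}

/-- the whole trace. -/
def trace (X : Path d) : Set (Site d) := Set.range X

/-- The annealed path law. -/
noncomputable def annealed (Q : Measure (Environment d)) (x : Site d) : Measure (Path d) :=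
  Q.bind (fun ω => quenchedLaw ω x)

/-- Two walkers in the same environment. -/
noncomputable def sameLaw (Q : Measure (Environment d)) (x y : Site d) :
    Measure (Path d × Path d) :=
  Q.bind (fun ω => (quenchedLaw ω x).prod (quenchedLaw ω y))

/-- Two walkers in independent environments. -/
noncomputable def indLaw (Q : Measure (Environment d)) (x y : Site d) :
    Measure (Path d × Path d) :=
  (annealed Q x).prod (annealed Q y)

end Crest.Agent.R154
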