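import Crest.Agent.R154.FPL_32
import Crest.Agent.R154.Dens_616

/-! Row 154, KAPPA' (801 #38888): density of first passage lists (helper32); `dens2` is 616's
`dens` with a truncated remainder. -/

set_option autoImplicit false

namespace Crest.Agent.R154.Den32

open Crest.Agent.R154.B5A Crest.Agent.R154.FPL32
open scoped ENNReal
open Classical

section
variable {Z : Type*} [AddCommGroup Z]

/-- **density lemma**: `f r z` = weight of the part above the window (`r` levels to go, displacement
`z`), `p i z` = law of one attempt (`T + i` levels, displacement `z`). -/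
theorem dens2 (p f : ℕ → Z → ℝ≥0∞) (T i0 : ℕ) (th q ε G : ℝ≥0∞)
    (hrec : ∀ r, T ≤ r → ∀ z, f r z ≤
      ∑' i, ∑' z', p i z' * f (r - T - i) (z - z'))
    (hf : ∀ r, ∑' z, f r z ≤ 1)
    (hε : ∑' i, ∑' z', (if i0 < i then p i z' else 0) ≤ ε)
    (hq : ∑' i, ∑' z', (if i ≤ i0 ∧ th < p i z' then p i z' else 0) ≤ q) (hq1 : q ≤ 1)
    (hG : (i0 + 1 : ℕ) * th + q * G ≤ G) :
    ∀ J r, J * (T + i0) ≤ r → ∃ b : Z → ℝ≥0∞, (∑' z, b z ≤ q ^ J + J * ε) ∧
      ∀ z, f r z ≤ G + b z := by
  intro J
  induction J with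
  | zero =>
    intro r _
    exact ⟨f r, by simpa using hf r, fun z => le_add_self⟩
  | succ J ih =>
    intro r hr
    have hTr : T ≤ r := by nlinarith
    -- remaining levels after an attempt with overshoot `i ≤ i0`
    have hrem : ∀ i, i ≤ i0 → J * (T + i0) ≤ r - T - i := by
      intro i hi
      have : J * (T + i0) + (T + i0) ≤ r := by nlinarith
      omega
    choose! b hb1 hb2 using fun i (hi : i ≤ i0) => ih (r - T - i) (hrem i hi)
    refine ⟨fun z => (∑' i, ∑' z', if i0 < i then p i z' * f (r - T - i) (z - z') else 0) +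
      ∑' i, ∑' z', if i ≤ i0 ∧ th < p i z' then p i z' * b i (z - z') else 0, ?_, ?_⟩
    · -- total mass of the bad part
      rw [ENNReal.tsum_add]
      have e1 : ∑' z, ∑' i, ∑' z', (if i0 < i then p i z' * f (r - T - i) (z - z') else 0) ≤ ε := by
        calc ∑' z, ∑' i, ∑' z', (if i0 < i then p i z' * f (r - T - i) (z - z') else 0)
            = ∑' i, ∑' z', ∑' z, (if i0 < i then p i z' * f (r - T - i) (z - z') else 0) := by
              rw [ENNReal.tsum_comm]
              refine tsum_congr fun i => ?_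
              rw [ENNReal.tsum_comm]
          _ ≤ ∑' i, ∑' z', (if i0 < i then p i z' else 0) := by
              refine ENNReal.tsum_le_tsum fun i => ENNReal.tsum_le_tsum fun z' => ?_
              split_ifs with h
              · rw [ENNReal.tsum_mul_left]
                have : ∑' z, f (r - T - i) (z - z') = ∑' z, f (r - T - i) z :=
                  (Equiv.subRight z').tsum_eq fun z => f (r - T - i) z
                rw [this]
                calc p i z' * ∑' z, f (r - T - i) z ≤ p i z' * 1 := by gcongr; exact hf _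
                  _ = p i z' := mul_one _
              · simp
          _ ≤ ε := hε
      have e2 : ∑' z, ∑' i, ∑' z', (if i ≤ i0 ∧ th < p i z' then p i z' * b i (z - z') else 0)
          ≤ q * (q ^ J + J * ε) := by
        calc ∑' z, ∑' i, ∑' z', (if i ≤ i0 ∧ th < p i z' then p i z' * b i (z - z') else 0)
            = ∑' i, ∑' z', ∑' z, (if i ≤ i0 ∧ th < p i z' then p i z' * b i (z - z') else 0) := by
              rw [ENNReal.tsum_comm]
              refine tsum_congr fun i => ?_
              rw [ENNReal.tsum_comm]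
          _ ≤ ∑' i, ∑' z', (if i ≤ i0 ∧ th < p i z' then p i z' else 0) * (q ^ J + J * ε) := by
              refine ENNReal.tsum_le_tsum fun i => ENNReal.tsum_le_tsum fun z' => ?_
              split_ifs with h
              · rw [ENNReal.tsum_mul_left]
                have : ∑' z, b i (z - z') = ∑' z, b i z :=
                  (Equiv.subRight z').tsum_eq fun z => b i z
                rw [this]
                gcongr
                exact hb1 i h.1
              · simp
          _ = (∑' i, ∑' z', (if i ≤ i0 ∧ th < p i z' then p i z' else 0)) * (q ^ J + J * ε) := by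
              simp_rw [ENNReal.tsum_mul_right]
          _ ≤ _ := by gcongr
      calc _ ≤ ε + q * (q ^ J + J * ε) := add_le_add e1 e2
        _ = q ^ (J + 1) + (ε + q * (J * ε)) := by ring
        _ ≤ q ^ (J + 1) + (ε + 1 * (J * ε)) := by gcongr
        _ = q ^ (J + 1) + ((J + 1 : ℕ) : ℝ≥0∞) * ε := by push_cast; ring
    · intro z
      -- pointwise splitting
      have hterm : ∀ i z', (p i z' * f (r - T - i) (z - z')) ≤
          ((if i0 < i then p i z' * f (r - T - i) (z - z') else 0) +
            (if i ≤ i0 then th * f (r - T - i) (z - z') else 0)) +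
          ((if i ≤ i0 ∧ th < p i z' then p i z' * b i (z - z') else 0) +
            (if i ≤ i0 ∧ th < p i z' then p i z' else 0) * G) := by
        intro i z'
        by_cases hi : i ≤ i0
        · have hi' : ¬ i0 < i := by omega
          simp only [hi, hi', if_false, if_true, true_and, zero_add]
          by_cases hp : th < p i z'
          · simp only [hp, if_true]
            have h1 : (p i z' * f (r - T - i) (z - z')) ≤
                p i z' * f (r - T - i) (z - z') := le_rfl
            calc _ ≤ p i z' * f (r - T - i) (z - z') := h1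
              _ ≤ p i z' * (G + b i (z - z')) := by gcongr; exact hb2 i hi _
              _ = p i z' * b i (z - z') + p i z' * G := by ring
              _ ≤ _ := le_add_self
          · simp only [hp, if_false, zero_mul, add_zero]
            have h1 : (p i z' * f (r - T - i) (z - z')) ≤
                p i z' * f (r - T - i) (z - z') := le_rfl
            refine h1.trans ?_
            gcongr
            exact not_lt.1 hp
        · have hi' : i0 < i := by omega
          simp only [hi, hi', if_false, if_true, false_and, zero_mul, add_zero, le_refl]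
      calc f r z ≤ ∑' i, ∑' z', (p i z' * f (r - T - i) (z - z')) :=
            hrec r hTr z
        _ ≤ ∑' i, ∑' z', (((if i0 < i then p i z' * f (r - T - i) (z - z') else 0) +
            (if i ≤ i0 then th * f (r - T - i) (z - z') else 0)) +
          ((if i ≤ i0 ∧ th < p i z' then p i z' * b i (z - z') else 0) +
            (if i ≤ i0 ∧ th < p i z' then p i z' else 0) * G)) :=
            ENNReal.tsum_le_tsum fun i => ENNReal.tsum_le_tsum fun z' => hterm i z'
        _ = ((∑' i, ∑' z', (if i0 < i then p i z' * f (r - T - i) (z - z') else 0)) +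
            (∑' i, ∑' z', (if i ≤ i0 then th * f (r - T - i) (z - z') else 0))) +
          ((∑' i, ∑' z', (if i ≤ i0 ∧ th < p i z' then p i z' * b i (z - z') else 0)) +
            (∑' i, ∑' z', (if i ≤ i0 ∧ th < p i z' then p i z' else 0)) * G) := by
            simp_rw [ENNReal.tsum_add, ENNReal.tsum_mul_right]
        _ ≤ ((∑' i, ∑' z', (if i0 < i then p i z' * f (r - T - i) (z - z') else 0)) +
            ((i0 + 1 : ℕ) * th)) +
          ((∑' i, ∑' z', (if i ≤ i0 ∧ th < p i z' then p i z' * b i (z - z') else 0)) + q * G) := by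
            gcongr
            calc ∑' i, ∑' z', (if i ≤ i0 then th * f (r - T - i) (z - z') else 0)
                ≤ ∑' i, (if i ≤ i0 then th else 0) := by
                  refine ENNReal.tsum_le_tsum fun i => ?_
                  split_ifs with h
                  · rw [ENNReal.tsum_mul_left]
                    have : ∑' z', f (r - T - i) (z - z') = ∑' z', f (r - T - i) z' :=
                      (Equiv.subLeft z).tsum_eq fun z' => f (r - T - i) z'
                    rw [this]
                    calc th * ∑' z', f (r - T - i) z' ≤ th * 1 := by gcongr; exact hf _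
                      _ = th := mul_one _
                  · simp
              _ = ∑ i ∈ Finset.range (i0 + 1), th := by
                  rw [tsum_eq_sum (s := Finset.range (i0 + 1))]
                  · refine Finset.sum_congr rfl fun i hi => ?_
                    rw [if_pos (by have := Finset.mem_range.1 hi; omega)]
                  · intro i hi
                    rw [if_neg (by intro h; exact hi (Finset.mem_range.2 (by omega)))]
              _ = _ := by simp
        _ = ((i0 + 1 : ℕ) * th + q * G) +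
            ((∑' i, ∑' z', (if i0 < i then p i z' * f (r - T - i) (z - z') else 0)) +
            ∑' i, ∑' z', (if i ≤ i0 ∧ th < p i z' then p i z' * b i (z - z') else 0)) := by ring
        _ ≤ _ := by gcongr


end

section

variable {B Z : Type*} [AddCommGroup Z] (Λ : B → ℝ≥0∞) (ht : B → ℕ) (dp : B → Z)

/-- displacement of a list -/
def Ds (L : List B) : Z := (L.map dp).sum

lemma Ds_append (L L' : List B) : Ds dp (L ++ L') = Ds dp L + Ds dp L' := by simp [Ds]

/-- law of the displacement of the first passage list of depth `a` -/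
noncomputable def D (a : ℕ) (ζ : Z) : ℝ≥0∞ :=
  ∑' A : List B, if FP ht a A ∧ Ds dp A = ζ then LW Λ A else 0

/-- law of one attempt of height `T + i` -/
noncomputable def pT (T i : ℕ) (ζ : Z) : ℝ≥0∞ :=
  ∑' P : List B, if FP ht T P ∧ HT ht P = T + i ∧ Ds dp P = ζ then LW Λ P else 0

lemma sum_D (a : ℕ) (w : Z → ℝ≥0∞) :
    ∑' ζ, D Λ ht dp a ζ * w ζ = ∑' A : List B, if FP ht a A then LW Λ A * w (Ds dp A) else 0 := by
  simp only [D]
  simp_rw [← ENNReal.tsum_mul_right]
  rw [ENNReal.tsum_comm]
  refine tsum_congr fun A => ?_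
  rw [tsum_eq_single (Ds dp A)]
  · by_cases h : FP ht a A <;> simp [h]
  · intro ζ hζ
    rw [if_neg (fun h => hζ h.2.symm), zero_mul]

lemma sum_pT (T : ℕ) (w : ℕ → Z → ℝ≥0∞) :
    ∑' i, ∑' ζ, pT Λ ht dp T i ζ * w i ζ =
      ∑' P : List B, if FP ht T P then LW Λ P * w (HT ht P - T) (Ds dp P) else 0 := by
  simp only [pT]
  simp_rw [← ENNReal.tsum_mul_right]
  calc _ = ∑' i, ∑' P : List B, ∑' ζ, (if FP ht T P ∧ HT ht P = T + i ∧ Ds dp P = ζ
        then LW Λ P else 0) * w i ζ := by
        refine tsum_congr fun i => ?_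
        rw [ENNReal.tsum_comm]
    _ = ∑' P : List B, ∑' i, ∑' ζ, (if FP ht T P ∧ HT ht P = T + i ∧ Ds dp P = ζ
        then LW Λ P else 0) * w i ζ := by
        rw [ENNReal.tsum_comm]
    _ = _ := by
        refine tsum_congr fun P => ?_
        by_cases h : FP ht T P
        · have hle := FP_le ht h
          rw [if_pos h, tsum_eq_single (HT ht P - T), tsum_eq_single (Ds dp P)]
          · rw [if_pos ⟨h, by omega, rfl⟩]
          · intro ζ hζ
            rw [if_neg (fun h => hζ h.2.2.symm), zero_mul]
          · intro i hi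
            refine (ENNReal.tsum_eq_zero).2 fun ζ => ?_
            rw [if_neg (fun h => hi (by have := h.2.1; omega)), zero_mul]
        · rw [if_neg h]
          simp [h]

lemma D_mass (h1 : ∀ b, 1 ≤ ht b) (hΛ : ∑' b, Λ b = 1) (a : ℕ) : ∑' ζ, D Λ ht dp a ζ = 1 := by
  have := sum_D Λ ht dp a (fun _ => 1)
  simp only [mul_one] at this
  rw [this, fp_mass Λ ht h1 hΛ a]

lemma pT_mass (h1 : ∀ b, 1 ≤ ht b) (hΛ : ∑' b, Λ b = 1) (T : ℕ) :
    ∑' i, ∑' ζ, pT Λ ht dp T i ζ = 1 := by
  have := sum_pT Λ ht dp T (fun _ _ => 1)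
  simp only [mul_one] at this
  rw [this, fp_mass Λ ht h1 hΛ T]

lemma D_rec (h1 : ∀ b, 1 ≤ ht b) (T r : ℕ) (hT : T ≤ r) (ζ : Z) :
    D Λ ht dp r ζ ≤ ∑' i, ∑' z', pT Λ ht dp T i z' * D Λ ht dp (r - T - i) (ζ - z') := by
  rw [sum_pT Λ ht dp T (fun i z' => D Λ ht dp (r - T - i) (ζ - z'))]
  have e0 : D Λ ht dp r ζ = ∑' A : List B, if FP ht r A then
      (if Ds dp A = ζ then LW Λ A else 0) else 0 := by
    rw [D]
    refine tsum_congr fun A => ?_
    by_cases h : FP ht r A <;> simp [h]
  rw [e0, fp_comp ht h1 T r hT]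
  refine ENNReal.tsum_le_tsum fun P => ?_
  by_cases h : FP ht T P
  · have hle := FP_le ht h
    rw [if_pos h, if_pos h, D, ← ENNReal.tsum_mul_left]
    refine ENNReal.tsum_le_tsum fun L => ?_
    have e1 : r - T - (HT ht P - T) = r - HT ht P := by omega
    rw [e1]
    by_cases h2 : FP ht (r - HT ht P) L
    · by_cases h3 : Ds dp (P ++ L) = ζ
      · have h4 : Ds dp L = ζ - Ds dp P := by
          rw [← h3, Ds_append]; abel
        rw [if_pos h2, if_pos h3, if_pos ⟨h2, h4⟩, LW_append]
      · rw [if_pos h2, if_neg h3]; exact zero_le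
    · rw [if_neg h2]; exact zero_le
  · rw [if_neg h, if_neg h]

/-- **density theorem** -/
theorem density (h1 : ∀ b, 1 ≤ ht b) (hΛ : ∑' b, Λ b = 1) (u : ℝ≥0∞) (hu0 : u ≠ 0) (hu1 : u < 1)
    (T i0 : ℕ) : ∃ (E : ℕ → Finset Z) (Gm : ℝ≥0∞),
      (∀ i, Gm * ((E i).card : ℝ≥0∞) ≤ ((i0 + 1 : ℕ) : ℝ≥0∞) / u) ∧
      (∑' P : List B, (if FP ht T P ∧ Ds dp P ∉ E (HT ht P - T) then LW Λ P else 0) ≤ u) ∧
      ∀ J a, J * (T + i0) ≤ a → ∃ b : Z → ℝ≥0∞, (∑' ζ, b ζ ≤ (1 - u) ^ J + J * ov Λ ht i0) ∧
        ∀ ζ, D Λ ht dp a ζ ≤ Gm + b ζ := by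
  have hm : ∑' x : ℕ × Z, pT Λ ht dp T x.1 x.2 = 1 := by
    rw [ENNReal.tsum_prod (f := fun i ζ => pT Λ ht dp T i ζ)]
    exact pT_mass Λ ht dp h1 hΛ T
  obtain ⟨th, hth0, hth1, hq1, hq2⟩ := Dens616.quantile (fun x : ℕ × Z => pT Λ ht dp T x.1 x.2)
    hm hu0 hu1
  have hu : u ≠ ⊤ := hu1.ne_top
  have htht : th ≠ ⊤ := ne_top_of_le_ne_top ENNReal.one_ne_top hth1
  have hpi : ∀ i, ∑' ζ, pT Λ ht dp T i ζ ≤ 1 := fun i => by
    rw [← pT_mass Λ ht dp h1 hΛ T]; exact ENNReal.le_tsum (f := fun i => ∑' ζ, pT Λ ht dp T i ζ) i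
  have hfin : ∀ i, {ζ | th ≤ pT Λ ht dp T i ζ}.Finite := fun i =>
    Dens616.finite_local _ (ne_top_of_le_ne_top ENNReal.one_ne_top (hpi i)) hth0
  refine ⟨fun i => (hfin i).toFinset, ((i0 + 1 : ℕ) : ℝ≥0∞) * th / u, fun i => ?_, ?_, ?_⟩
  · have hc := Dens616.card_mul_le (pT Λ ht dp T i) th (hfin i).toFinset
      (fun x hx => by simpa using hx)
    calc ((i0 + 1 : ℕ) : ℝ≥0∞) * th / u * (((hfin i).toFinset).card : ℝ≥0∞)
        = ((i0 + 1 : ℕ) : ℝ≥0∞) * ((((hfin i).toFinset).card : ℝ≥0∞) * th) / u := by
          simp only [div_eq_mul_inv]; ring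
      _ ≤ ((i0 + 1 : ℕ) : ℝ≥0∞) * 1 / u := by gcongr; exact hc.trans (hpi i)
      _ = _ := by rw [mul_one]
  · refine le_trans (le_of_eq ?_) hq1
    rw [ENNReal.tsum_prod (f := fun i ζ => if pT Λ ht dp T i ζ < th then pT Λ ht dp T i ζ else 0)]
    have := sum_pT Λ ht dp T (fun i ζ => if pT Λ ht dp T i ζ < th then 1 else 0)
    calc _ = ∑' P : List B, if FP ht T P then LW Λ P *
          (if pT Λ ht dp T (HT ht P - T) (Ds dp P) < th then 1 else 0) else 0 := by
          refine tsum_congr fun P => ?_
          by_cases h : FP ht T P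
          · by_cases h2 : pT Λ ht dp T (HT ht P - T) (Ds dp P) < th
            · simp [h, h2]
            · simp [h, h2]
          · simp [h]
      _ = _ := by
          rw [← this]
          refine tsum_congr fun i => tsum_congr fun ζ => ?_
          split_ifs <;> simp
  · intro J a hJ
    have hqq : ∑' x : ℕ × Z, (if th < pT Λ ht dp T x.1 x.2 then pT Λ ht dp T x.1 x.2 else 0)
        ≤ 1 - u := by
      refine ENNReal.le_sub_of_add_le_right hu ?_
      calc _ ≤ (∑' x : ℕ × Z, (if th < pT Λ ht dp T x.1 x.2 then pT Λ ht dp T x.1 x.2 else 0)) +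
            ∑' x : ℕ × Z, (if pT Λ ht dp T x.1 x.2 ≤ th then pT Λ ht dp T x.1 x.2 else 0) := by
            gcongr
        _ = ∑' x : ℕ × Z, pT Λ ht dp T x.1 x.2 := by
            rw [← ENNReal.tsum_add]
            refine tsum_congr fun x => ?_
            by_cases h : th < pT Λ ht dp T x.1 x.2
            · rw [if_pos h, if_neg (not_le.2 h), add_zero]
            · rw [if_neg h, if_pos (not_lt.1 h), zero_add]
        _ = 1 := hm
    refine dens2 (pT Λ ht dp T) (D Λ ht dp) T i0 th (1 - u) (ov Λ ht i0)
      (((i0 + 1 : ℕ) : ℝ≥0∞) * th / u) (fun r hr z => D_rec Λ ht dp h1 T r hr z)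
      (fun r => (D_mass Λ ht dp h1 hΛ r).le) ?_ ?_ tsub_le_self ?_ J a hJ
    · have := sum_pT Λ ht dp T (fun i _ => if i0 < i then 1 else 0)
      refine le_trans (le_of_eq ?_) (fp_over Λ ht h1 hΛ i0 T)
      calc _ = ∑' i, ∑' ζ, pT Λ ht dp T i ζ * (if i0 < i then 1 else 0) := by
            refine tsum_congr fun i => tsum_congr fun ζ => ?_
            split_ifs <;> simp
        _ = _ := by
            rw [this]
            refine tsum_congr fun P => ?_
            by_cases h : FP ht T P
            · have hle := FP_le ht h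
              by_cases h2 : T + i0 < HT ht P
              · have h3 : i0 < HT ht P - T := by omega
                simp only [h, h2, h3, and_self, if_true, mul_one]
              · have h3 : ¬ i0 < HT ht P - T := by omega
                simp only [h, h2, h3, and_false, if_false, if_true, mul_zero]
            · rw [if_neg h, if_neg (fun h' => h h'.1)]
    · refine le_trans ?_ hqq
      rw [ENNReal.tsum_prod
        (f := fun i ζ => if th < pT Λ ht dp T i ζ then pT Λ ht dp T i ζ else 0)]
      refine ENNReal.tsum_le_tsum fun i => ENNReal.tsum_le_tsum fun ζ => ?_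
      by_cases h : th < pT Λ ht dp T i ζ
      · rw [if_pos h]; split_ifs <;> simp
      · rw [if_neg h, if_neg (fun h' => h h'.2)]
    · have e1 : ((i0 + 1 : ℕ) : ℝ≥0∞) * th = u * (((i0 + 1 : ℕ) : ℝ≥0∞) * th / u) := by
        rw [ENNReal.mul_div_cancel hu0 hu]
      calc _ = u * (((i0 + 1 : ℕ) : ℝ≥0∞) * th / u) +
            (1 - u) * (((i0 + 1 : ℕ) : ℝ≥0∞) * th / u) := by rw [← e1]
        _ = (u + (1 - u)) * (((i0 + 1 : ℕ) : ℝ≥0∞) * th / u) := by ring
        _ ≤ _ := by rw [add_tsub_cancel_of_le hu1.le, one_mul]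

end

end Crest.Agent.R154.Den32
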