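import Mathlib

/-! Row 154, KAPPA' (801 #38888), (W2): the smooth density lemma with an error term
(helper256; the proof is helper616's `Dens616.dens`). Use it with `Z := ℤ × G` and
`f r (i, z)` = mass of the first passage lists of height `r` with overshoot `i`. -/

set_option autoImplicit false

namespace Crest.Agent.R154.DensFP256

open scoped ENNReal

variable {Z : Type*} [AddCommGroup Z]

/-- **density lemma with error**. -/
theorem densE (p f er : ℕ → Z → ℝ≥0∞) (T i0 : ℕ) (th q ε ε' G : ℝ≥0∞)
    (hrec : ∀ r, T + i0 ≤ r → ∀ z, f r z ≤
      (∑' i, ∑' z', if T + i ≤ r then p i z' * f (r - T - i) (z - z') else 0) + er r z)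
    (her : ∀ r, T + i0 ≤ r → ∑' z, er r z ≤ ε')
    (hf : ∀ r, ∑' z, f r z ≤ 1)
    (hε : ∑' i, ∑' z', (if i0 < i then p i z' else 0) ≤ ε)
    (hq : ∑' i, ∑' z', (if i ≤ i0 ∧ th < p i z' then p i z' else 0) ≤ q) (hq1 : q ≤ 1)
    (hG : (i0 + 1 : ℕ) * th + q * G ≤ G) :
    ∀ J r, J * (T + i0) ≤ r → ∃ b : Z → ℝ≥0∞, (∑' z, b z ≤ q ^ J + J * (ε + ε')) ∧
      ∀ z, f r z ≤ G + b z := by
  intro J
  induction J with
  | zero =>
    intro r _
    exact ⟨f r, by simpa using hf r, fun z => le_add_self⟩
  | succ J ih =>
    intro r hr
    have hTr : T + i0 ≤ r := by nlinarith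
    -- remaining levels after an attempt with overshoot `i ≤ i0`
    have hrem : ∀ i, i ≤ i0 → J * (T + i0) ≤ r - T - i := by
      intro i hi
      have : J * (T + i0) + (T + i0) ≤ r := by nlinarith
      omega
    choose! b hb1 hb2 using fun i (hi : i ≤ i0) => ih (r - T - i) (hrem i hi)
    refine ⟨fun z => ((∑' i, ∑' z', if i0 < i then p i z' * f (r - T - i) (z - z') else 0) +
      ∑' i, ∑' z', if i ≤ i0 ∧ th < p i z' then p i z' * b i (z - z') else 0) + er r z, ?_, ?_⟩
    · -- total mass of the bad part
      rw [ENNReal.tsum_add, ENNReal.tsum_add]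
      have e1 : ∑' z, ∑' i, ∑' z', (if i0 < i then p i z' * f (r - T - i) (z - z') else 0) ≤ ε := by
        calc ∑' z, ∑' i, ∑' z', (if i0 < i then p i z' * f (r - T - i) (z - z') else 0)
            = ∑' i, ∑' z', ∑' z, (if i0 < i then p i z' * f (r - T - i) (z - z') else 0) := by
              rw [ENNReal.tsum_comm]
              refine tsum_congr fun i => ?_
              rw [ENNReal.tsum_comm]
          _ ≤ ∑' i, ∑' z', (if i0 < i then p i z' else 0) := by
              refine ENNReal.tsum_le_tsum fun i => ENNReal.tsum_le_tsum fun z' => ?_
              split_ifs with h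
              · rw [ENNReal.tsum_mul_left]
                have : ∑' z, f (r - T - i) (z - z') = ∑' z, f (r - T - i) z :=
                  (Equiv.subRight z').tsum_eq fun z => f (r - T - i) z
                rw [this]
                calc p i z' * ∑' z, f (r - T - i) z ≤ p i z' * 1 := by gcongr; exact hf _
                  _ = p i z' := mul_one _
              · simp
          _ ≤ ε := hε
      have e2 : ∑' z, ∑' i, ∑' z', (if i ≤ i0 ∧ th < p i z' then p i z' * b i (z - z') else 0)
          ≤ q * (q ^ J + J * (ε + ε')) := by
        calc ∑' z, ∑' i, ∑' z', (if i ≤ i0 ∧ th < p i z' then p i z' * b i (z - z') else 0)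
            = ∑' i, ∑' z', ∑' z, (if i ≤ i0 ∧ th < p i z' then p i z' * b i (z - z') else 0) := by
              rw [ENNReal.tsum_comm]
              refine tsum_congr fun i => ?_
              rw [ENNReal.tsum_comm]
          _ ≤ ∑' i, ∑' z', (if i ≤ i0 ∧ th < p i z' then p i z' else 0) *
              (q ^ J + J * (ε + ε')) := by
              refine ENNReal.tsum_le_tsum fun i => ENNReal.tsum_le_tsum fun z' => ?_
              split_ifs with h
              · rw [ENNReal.tsum_mul_left]
                have : ∑' z, b i (z - z') = ∑' z, b i z :=
                  (Equiv.subRight z').tsum_eq fun z => b i z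
                rw [this]
                gcongr
                exact hb1 i h.1
              · simp
          _ = (∑' i, ∑' z', (if i ≤ i0 ∧ th < p i z' then p i z' else 0)) *
              (q ^ J + J * (ε + ε')) := by
              simp_rw [ENNReal.tsum_mul_right]
          _ ≤ _ := by gcongr
      calc _ ≤ ε + q * (q ^ J + J * (ε + ε')) + ε' := add_le_add (add_le_add e1 e2) (her r hTr)
        _ = q ^ (J + 1) + (ε + ε' + q * (J * (ε + ε'))) := by ring
        _ ≤ q ^ (J + 1) + (ε + ε' + 1 * (J * (ε + ε'))) := by gcongr
        _ = q ^ (J + 1) + ((J + 1 : ℕ) : ℝ≥0∞) * (ε + ε') := by push_cast; ring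
    · intro z
      -- pointwise splitting
      have hterm : ∀ i z', (if T + i ≤ r then p i z' * f (r - T - i) (z - z') else 0) ≤
          ((if i0 < i then p i z' * f (r - T - i) (z - z') else 0) +
            (if i ≤ i0 then th * f (r - T - i) (z - z') else 0)) +
          ((if i ≤ i0 ∧ th < p i z' then p i z' * b i (z - z') else 0) +
            (if i ≤ i0 ∧ th < p i z' then p i z' else 0) * G) := by
        intro i z'
        by_cases hi : i ≤ i0
        · have hi' : ¬ i0 < i := by omega
          simp only [hi, hi', if_false, if_true, true_and, zero_add]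
          by_cases hp : th < p i z'
          · simp only [hp, if_true]
            have h1 : (if T + i ≤ r then p i z' * f (r - T - i) (z - z') else 0) ≤
                p i z' * f (r - T - i) (z - z') := by split_ifs <;> simp
            calc _ ≤ p i z' * f (r - T - i) (z - z') := h1
              _ ≤ p i z' * (G + b i (z - z')) := by gcongr; exact hb2 i hi _
              _ = p i z' * b i (z - z') + p i z' * G := by ring
              _ ≤ _ := le_add_self
          · simp only [hp, if_false, zero_mul, add_zero]
            have h1 : (if T + i ≤ r then p i z' * f (r - T - i) (z - z') else 0) ≤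
                p i z' * f (r - T - i) (z - z') := by split_ifs <;> simp
            refine h1.trans ?_
            gcongr
            exact not_lt.1 hp
        · have hi' : i0 < i := by omega
          simp only [hi, hi', if_false, if_true, false_and, zero_mul, add_zero]
          split_ifs <;> simp
      calc f r z ≤ (∑' i, ∑' z', (if T + i ≤ r then p i z' * f (r - T - i) (z - z') else 0)) +
            er r z := hrec r hTr z
        _ ≤ (∑' i, ∑' z', (((if i0 < i then p i z' * f (r - T - i) (z - z') else 0) +
            (if i ≤ i0 then th * f (r - T - i) (z - z') else 0)) +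
          ((if i ≤ i0 ∧ th < p i z' then p i z' * b i (z - z') else 0) +
            (if i ≤ i0 ∧ th < p i z' then p i z' else 0) * G))) + er r z := by
            gcongr
            exact hterm _ _
        _ = (((∑' i, ∑' z', (if i0 < i then p i z' * f (r - T - i) (z - z') else 0)) +
            (∑' i, ∑' z', (if i ≤ i0 then th * f (r - T - i) (z - z') else 0))) +
          ((∑' i, ∑' z', (if i ≤ i0 ∧ th < p i z' then p i z' * b i (z - z') else 0)) +
            (∑' i, ∑' z', (if i ≤ i0 ∧ th < p i z' then p i z' else 0)) * G)) + er r z := by
            simp_rw [ENNReal.tsum_add, ENNReal.tsum_mul_right]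
        _ ≤ (((∑' i, ∑' z', (if i0 < i then p i z' * f (r - T - i) (z - z') else 0)) +
            ((i0 + 1 : ℕ) * th)) +
          ((∑' i, ∑' z', (if i ≤ i0 ∧ th < p i z' then p i z' * b i (z - z') else 0)) +
            q * G)) + er r z := by
            gcongr
            calc ∑' i, ∑' z', (if i ≤ i0 then th * f (r - T - i) (z - z') else 0)
                ≤ ∑' i, (if i ≤ i0 then th else 0) := by
                  refine ENNReal.tsum_le_tsum fun i => ?_
                  split_ifs with h
                  · rw [ENNReal.tsum_mul_left]
                    have : ∑' z', f (r - T - i) (z - z') = ∑' z', f (r - T - i) z' :=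
                      (Equiv.subLeft z).tsum_eq fun z' => f (r - T - i) z'
                    rw [this]
                    calc th * ∑' z', f (r - T - i) z' ≤ th * 1 := by gcongr; exact hf _
                      _ = th := mul_one _
                  · simp
              _ = ∑ i ∈ Finset.range (i0 + 1), th := by
                  rw [tsum_eq_sum (s := Finset.range (i0 + 1))]
                  · refine Finset.sum_congr rfl fun i hi => ?_
                    rw [if_pos (by have := Finset.mem_range.1 hi; omega)]
                  · intro i hi
                    rw [if_neg (by intro h; exact hi (Finset.mem_range.2 (by omega)))]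
              _ = _ := by simp
        _ = ((i0 + 1 : ℕ) * th + q * G) +
            (((∑' i, ∑' z', (if i0 < i then p i z' * f (r - T - i) (z - z') else 0)) +
            ∑' i, ∑' z', (if i ≤ i0 ∧ th < p i z' then p i z' * b i (z - z') else 0)) +
            er r z) := by ring
        _ ≤ _ := by gcongr

/-- split a law into a part `≤ G` and a part `≤ b` -/
theorem split_min {ι : Type*} (mu b : ι → ℝ≥0∞) (G : ℝ≥0∞) (h : ∀ x, mu x ≤ G + b x) :
    ∃ ms mb : ι → ℝ≥0∞, (∀ x, mu x = ms x + mb x) ∧ (∀ x, ms x ≤ G) ∧ (∀ x, ms x ≤ mu x) ∧
      ∀ x, mb x ≤ b x := by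
  refine ⟨fun x => min (mu x) G, fun x => mu x - min (mu x) G, fun x => ?_, fun x => min_le_right _ _,
    fun x => min_le_left _ _, fun x => ?_⟩
  · exact (add_tsub_cancel_of_le (min_le_left _ _)).symm
  · rcases le_total (mu x) G with h1 | h1
    · simp [min_eq_left h1]
    · show mu x - min (mu x) G ≤ b x
      rw [min_eq_right h1]
      exact tsub_le_iff_left.2 (h x)

end Crest.Agent.R154.DensFP256
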