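import Crest.Agent.R154.FP_178

/-! Row 154, ROAD 801, line (1) (helper706): density of the JOINT law (overshoot, displacement) of a
first passage list; the non-smooth part is paid once for all heights. -/

set_option autoImplicit false

namespace Crest.Agent.R154.DensFP706

open scoped ENNReal
open Crest.Agent.R154.B5A Crest.Agent.R154.FP178

section abs

variable {κ Z : Type*} [AddCommGroup Z]

theorem densK (p : ℕ → Z → ℝ≥0∞) (f : ℕ → κ → Z → ℝ≥0∞) (T i0 : ℕ) (th q ε G : ℝ≥0∞)
    (hrec : ∀ r, T + i0 ≤ r → ∃ e : κ → Z → ℝ≥0∞, ∑' o, ∑' z, e o z ≤ ε ∧ ∀ o z, f r o z ≤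
      e o z + ∑' h, ∑' z', if T ≤ h ∧ h ≤ T + i0 then p h z' * f (r - h) o (z - z') else 0)
    (hf : ∀ r, ∑' o, ∑' z, f r o z ≤ 1)
    (hq : ∑' h, ∑' z', (if (T ≤ h ∧ h ≤ T + i0) ∧ th < p h z' then p h z' else 0) ≤ q)
    (hq1 : q ≤ 1) (hG : (i0 + 1 : ℕ) * th + q * G ≤ G) :
    ∀ J r, J * (T + i0) ≤ r → ∃ b : κ → Z → ℝ≥0∞, (∑' o, ∑' z, b o z ≤ q ^ J + J * ε) ∧
      ∀ o z, f r o z ≤ G + b o z := by
  intro J
  induction J with
  | zero =>
    intro r _
    exact ⟨f r, by simpa using hf r, fun o z => le_add_self⟩
  | succ J ih =>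
    intro r hr
    have hr' : J * (T + i0) + (T + i0) ≤ r := by rw [Nat.succ_mul] at hr; exact hr
    obtain ⟨e, he1, he2⟩ := hrec r (by omega)
    have hrem : ∀ h, T ≤ h ∧ h ≤ T + i0 → J * (T + i0) ≤ r - h := by
      intro h hh
      omega
    choose! b hb1 hb2 using fun h (hh : T ≤ h ∧ h ≤ T + i0) => ih (r - h) (hrem h hh)
    have hf1 : ∀ r o, ∑' z, f r o z ≤ 1 := fun r o =>
      (ENNReal.le_tsum o).trans (hf r)
    refine ⟨fun o z => e o z +
      ∑' h, ∑' z', if (T ≤ h ∧ h ≤ T + i0) ∧ th < p h z' then p h z' * b h o (z - z') else 0,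
      ?_, ?_⟩
    · have e2 : ∑' o, ∑' z, ∑' h, ∑' z',
          (if (T ≤ h ∧ h ≤ T + i0) ∧ th < p h z' then p h z' * b h o (z - z') else 0)
          ≤ q * (q ^ J + J * ε) := by
        calc ∑' o, ∑' z, ∑' h, ∑' z',
              (if (T ≤ h ∧ h ≤ T + i0) ∧ th < p h z' then p h z' * b h o (z - z') else 0)
            = ∑' h, ∑' z', ∑' o, ∑' z,
              (if (T ≤ h ∧ h ≤ T + i0) ∧ th < p h z' then p h z' * b h o (z - z') else 0) := by
              calc _ = ∑' o, ∑' h, ∑' z', ∑' z, (if (T ≤ h ∧ h ≤ T + i0) ∧ th < p h z' then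
                      p h z' * b h o (z - z') else 0) := by
                    refine tsum_congr fun o => ?_
                    rw [ENNReal.tsum_comm]
                    refine tsum_congr fun h => ?_
                    rw [ENNReal.tsum_comm]
                _ = _ := by
                    rw [ENNReal.tsum_comm]
                    refine tsum_congr fun h => ?_
                    rw [ENNReal.tsum_comm]
          _ ≤ ∑' h, ∑' z', (if (T ≤ h ∧ h ≤ T + i0) ∧ th < p h z' then p h z' else 0) *
                (q ^ J + J * ε) := by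
              refine ENNReal.tsum_le_tsum fun h => ENNReal.tsum_le_tsum fun z' => ?_
              split_ifs with hh
              · simp_rw [ENNReal.tsum_mul_left]
                have : ∀ o, ∑' z, b h o (z - z') = ∑' z, b h o z := fun o =>
                  (Equiv.subRight z').tsum_eq fun z => b h o z
                simp_rw [this]
                gcongr
                exact hb1 h hh.1
              · simp
          _ = (∑' h, ∑' z', (if (T ≤ h ∧ h ≤ T + i0) ∧ th < p h z' then p h z' else 0)) *
                (q ^ J + J * ε) := by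
              simp_rw [ENNReal.tsum_mul_right]
          _ ≤ _ := by gcongr
      calc ∑' o, ∑' z, (e o z + ∑' h, ∑' z',
              if (T ≤ h ∧ h ≤ T + i0) ∧ th < p h z' then p h z' * b h o (z - z') else 0)
          = ∑' o, ∑' z, e o z + ∑' o, ∑' z, ∑' h, ∑' z',
              (if (T ≤ h ∧ h ≤ T + i0) ∧ th < p h z' then p h z' * b h o (z - z') else 0) := by
            simp_rw [ENNReal.tsum_add]
        _ ≤ ε + q * (q ^ J + J * ε) := add_le_add he1 e2
        _ = q ^ (J + 1) + (ε + q * (J * ε)) := by ring
        _ ≤ q ^ (J + 1) + (ε + 1 * (J * ε)) := by gcongr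
        _ = q ^ (J + 1) + ((J + 1 : ℕ) : ℝ≥0∞) * ε := by push_cast; ring
    · intro o z
      have hterm : ∀ h z', (if T ≤ h ∧ h ≤ T + i0 then p h z' * f (r - h) o (z - z') else 0) ≤
          (if T ≤ h ∧ h ≤ T + i0 then th * f (r - h) o (z - z') else 0) +
          ((if (T ≤ h ∧ h ≤ T + i0) ∧ th < p h z' then p h z' * b h o (z - z') else 0) +
            (if (T ≤ h ∧ h ≤ T + i0) ∧ th < p h z' then p h z' else 0) * G) := by
        intro h z'
        by_cases hh : T ≤ h ∧ h ≤ T + i0
        · by_cases hp : th < p h z'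
          · simp only [hh, hp, and_self, if_true]
            calc _ ≤ p h z' * (G + b h o (z - z')) := by gcongr; exact hb2 h hh _ _
              _ = p h z' * b h o (z - z') + p h z' * G := by ring
              _ ≤ _ := le_add_self
          · simp only [hh, hp, and_self, and_false, if_true, if_false, zero_mul, add_zero]
            gcongr
            exact not_lt.1 hp
        · simp only [hh, false_and, if_false, zero_mul, add_zero, le_refl]
      calc f r o z ≤ e o z + ∑' h, ∑' z',
              (if T ≤ h ∧ h ≤ T + i0 then p h z' * f (r - h) o (z - z') else 0) := he2 o z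
        _ ≤ e o z + ∑' h, ∑' z', ((if T ≤ h ∧ h ≤ T + i0 then th * f (r - h) o (z - z') else 0) +
          ((if (T ≤ h ∧ h ≤ T + i0) ∧ th < p h z' then p h z' * b h o (z - z') else 0) +
            (if (T ≤ h ∧ h ≤ T + i0) ∧ th < p h z' then p h z' else 0) * G)) := by
            gcongr with h z'
            exact hterm h z'
        _ = e o z + ((∑' h, ∑' z', (if T ≤ h ∧ h ≤ T + i0 then th * f (r - h) o (z - z') else 0)) +
          ((∑' h, ∑' z', (if (T ≤ h ∧ h ≤ T + i0) ∧ th < p h z' then
              p h z' * b h o (z - z') else 0)) +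
            (∑' h, ∑' z', (if (T ≤ h ∧ h ≤ T + i0) ∧ th < p h z' then p h z' else 0)) * G)) := by
            simp_rw [ENNReal.tsum_add, ENNReal.tsum_mul_right]
        _ ≤ e o z + ((i0 + 1 : ℕ) * th +
          ((∑' h, ∑' z', (if (T ≤ h ∧ h ≤ T + i0) ∧ th < p h z' then
              p h z' * b h o (z - z') else 0)) + q * G)) := by
            gcongr
            calc ∑' h, ∑' z', (if T ≤ h ∧ h ≤ T + i0 then th * f (r - h) o (z - z') else 0)
                ≤ ∑' h, (if T ≤ h ∧ h ≤ T + i0 then th else 0) := by
                  refine ENNReal.tsum_le_tsum fun h => ?_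
                  split_ifs with hh
                  · rw [ENNReal.tsum_mul_left]
                    have : ∑' z', f (r - h) o (z - z') = ∑' z', f (r - h) o z' :=
                      (Equiv.subLeft z).tsum_eq fun z' => f (r - h) o z'
                    rw [this]
                    calc th * ∑' z', f (r - h) o z' ≤ th * 1 := by gcongr; exact hf1 _ _
                      _ = th := mul_one _
                  · simp
              _ = ∑ h ∈ Finset.Icc T (T + i0), th := by
                  rw [tsum_eq_sum (s := Finset.Icc T (T + i0))]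
                  · refine Finset.sum_congr rfl fun h hh => ?_
                    rw [if_pos (Finset.mem_Icc.1 hh)]
                  · intro h hh
                    rw [if_neg (by rwa [Finset.mem_Icc] at hh)]
              _ = _ := by
                  rw [Finset.sum_const, Nat.card_Icc, nsmul_eq_mul]
                  congr 2
                  omega
        _ = ((i0 + 1 : ℕ) * th + q * G) + (e o z +
            ∑' h, ∑' z', (if (T ≤ h ∧ h ≤ T + i0) ∧ th < p h z' then
              p h z' * b h o (z - z') else 0)) := by ring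
        _ ≤ _ := by gcongr

end abs

/-! ### lists -/

variable {B G : Type*} [AddCommGroup G] (Λ : B → ℝ≥0∞) (ht : B → ℕ) (z : B → G)

/-- displacement of a list -/
def Dp (L : List B) : G := (L.map z).sum

lemma Dp_append (L L' : List B) : Dp z (L ++ L') = Dp z L + Dp z L' := by
  simp [Dp]

open Classical in
/-- law of one piece: height `h`, displacement `x` -/
noncomputable def pp (T h : ℕ) (x : G) : ℝ≥0∞ :=
  ∑' L, if fp ht T L ∧ HT ht L = h ∧ Dp z L = x then LW Λ L else 0

open Classical in
/-- joint law of (overshoot, displacement) of the first passage of `a` -/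
noncomputable def ff (a o : ℕ) (x : G) : ℝ≥0∞ :=
  ∑' L, if fp ht a L ∧ HT ht L = a + o ∧ Dp z L = x then LW Λ L else 0

open Classical in
/-- sums over pieces through their law -/
lemma fiber (T : ℕ) (φ : ℕ → G → ℝ≥0∞) :
    ∑' L, (if fp ht T L then LW Λ L * φ (HT ht L) (Dp z L) else 0)
      = ∑' h, ∑' x, pp Λ ht z T h x * φ h x := by
  have e : ∀ L : List B, (if fp ht T L then LW Λ L * φ (HT ht L) (Dp z L) else 0)
      = ∑' h, ∑' x, (if fp ht T L ∧ HT ht L = h ∧ Dp z L = x then LW Λ L else 0) * φ h x := by
    intro L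
    rw [tsum_eq_single (HT ht L), tsum_eq_single (Dp z L)]
    · by_cases h : fp ht T L <;> simp [h]
    · intro x hx
      rw [if_neg (fun h => hx h.2.2.symm), zero_mul]
    · intro h hh
      refine ENNReal.tsum_eq_zero.2 fun x => ?_
      rw [if_neg (fun h' => hh h'.2.1.symm), zero_mul]
  rw [tsum_congr e, ENNReal.tsum_comm]
  refine tsum_congr fun h => ?_
  rw [ENNReal.tsum_comm]
  refine tsum_congr fun x => ?_
  rw [ENNReal.tsum_mul_right, pp]

open Classical in
lemma ff_sum_le (h1 : ∀ b, 1 ≤ ht b) (hΛ : ∑' b, Λ b ≤ 1) (a : ℕ) :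
    ∑' o, ∑' x, ff Λ ht z a o x ≤ 1 := by
  refine le_trans ?_ (sum_FP Λ ht h1 hΛ a)
  have e : ∀ L : List B, ∑' o, ∑' x, (if fp ht a L ∧ HT ht L = a + o ∧ Dp z L = x then
      LW Λ L else 0) ≤ if fp ht a L then LW Λ L else 0 := by
    intro L
    by_cases h : fp ht a L
    · rw [if_pos h, tsum_eq_single (HT ht L - a), tsum_eq_single (Dp z L)]
      · split_ifs <;> simp
      · intro x hx
        rw [if_neg (fun h => hx h.2.2.symm)]
      · intro o ho
        refine ENNReal.tsum_eq_zero.2 fun x => ?_
        rw [if_neg (fun h' => ho (by omega))]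
    · simp [h]
  calc ∑' o, ∑' x, ff Λ ht z a o x
      = ∑' L, ∑' o, ∑' x, (if fp ht a L ∧ HT ht L = a + o ∧ Dp z L = x then
          LW Λ L else 0) := by
        unfold ff
        calc _ = ∑' o, ∑' L, ∑' x, (if fp ht a L ∧ HT ht L = a + o ∧ Dp z L = x then
              LW Λ L else 0) := by
              refine tsum_congr fun o => ?_
              rw [ENNReal.tsum_comm]
          _ = _ := by rw [ENNReal.tsum_comm]
    _ ≤ _ := ENNReal.tsum_le_tsum e

open Classical in
lemma ff_rec (h1 : ∀ b, 1 ≤ ht b) (hΛ : ∑' b, Λ b ≤ 1) (hU1 : ∀ n, U Λ ht n ≤ 1) (T i0 r : ℕ)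
    (hr : T + i0 ≤ r) : ∃ e : ℕ → G → ℝ≥0∞, ∑' o, ∑' x, e o x ≤ ∑' k, tail Λ ht (i0 + k) ∧
      ∀ o x, ff Λ ht z r o x ≤ e o x + ∑' h, ∑' x', if T ≤ h ∧ h ≤ T + i0 then
        pp Λ ht z T h x' * ff Λ ht z (r - h) o (x - x') else 0 := by
  refine ⟨fun o x => ∑' A, (if fp ht T A ∧ T + i0 < HT ht A then LW Λ A *
    ∑' L, (if fp ht (r - HT ht A) L ∧ HT ht A + HT ht L = r + o ∧ Dp z A + Dp z L = x then
      LW Λ L else 0) else 0), ?_, ?_⟩
  · calc ∑' o, ∑' x, ∑' A, (if fp ht T A ∧ T + i0 < HT ht A then LW Λ A *
          ∑' L, (if fp ht (r - HT ht A) L ∧ HT ht A + HT ht L = r + o ∧ Dp z A + Dp z L = x then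
            LW Λ L else 0) else 0)
        = ∑' A, (if fp ht T A ∧ T + i0 < HT ht A then LW Λ A *
          ∑' L, ∑' o, ∑' x, (if fp ht (r - HT ht A) L ∧ HT ht A + HT ht L = r + o ∧
            Dp z A + Dp z L = x then LW Λ L else 0) else 0) := by
          calc _ = ∑' A, ∑' o, ∑' x, (if fp ht T A ∧ T + i0 < HT ht A then LW Λ A *
                ∑' L, (if fp ht (r - HT ht A) L ∧ HT ht A + HT ht L = r + o ∧
                  Dp z A + Dp z L = x then LW Λ L else 0) else 0) := by
                calc _ = ∑' o, ∑' A, ∑' x, (if fp ht T A ∧ T + i0 < HT ht A then LW Λ A *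
                      ∑' L, (if fp ht (r - HT ht A) L ∧ HT ht A + HT ht L = r + o ∧
                        Dp z A + Dp z L = x then LW Λ L else 0) else 0) := by
                      refine tsum_congr fun o => ?_
                      rw [ENNReal.tsum_comm]
                  _ = _ := by rw [ENNReal.tsum_comm]
            _ = _ := by
                refine tsum_congr fun A => ?_
                by_cases hA : fp ht T A ∧ T + i0 < HT ht A
                · simp only [hA, and_self, if_true, ENNReal.tsum_mul_left]
                  congr 1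
                  calc _ = ∑' o, ∑' L, ∑' x, (if fp ht (r - HT ht A) L ∧
                        HT ht A + HT ht L = r + o ∧ Dp z A + Dp z L = x then LW Λ L else 0) := by
                        refine tsum_congr fun o => ?_
                        rw [ENNReal.tsum_comm]
                    _ = _ := by rw [ENNReal.tsum_comm]
                · simp [hA]
      _ ≤ ∑' A, (if fp ht T A ∧ T + i0 < HT ht A then LW Λ A else 0) := by
          refine ENNReal.tsum_le_tsum fun A => ?_
          split_ifs with hA
          · refine le_trans (mul_le_mul_right ?_ _) (mul_one _).le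
            refine le_trans (ENNReal.tsum_le_tsum (g := fun L =>
              if fp ht (r - HT ht A) L then LW Λ L else 0) fun L => ?_)
              (sum_FP Λ ht h1 hΛ _)
            by_cases h : fp ht (r - HT ht A) L
            · rw [if_pos h, tsum_eq_single (HT ht A + HT ht L - r),
                tsum_eq_single (Dp z A + Dp z L)]
              · split_ifs <;> simp
              · intro x hx
                rw [if_neg (fun h => hx h.2.2.symm)]
              · intro o ho
                refine ENNReal.tsum_eq_zero.2 fun x => ?_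
                rw [if_neg (fun h' => ho (by omega))]
            · simp [h]
          · exact le_rfl
      _ ≤ _ := overshoot Λ ht h1 hU1 i0 T
  · intro o x
    have hfp : ff Λ ht z r o x = ∑' L, (if fp ht r L then LW Λ L *
        (if HT ht L = r + o ∧ Dp z L = x then 1 else 0) else 0) := by
      refine tsum_congr fun L => ?_
      by_cases h : fp ht r L <;> by_cases h' : HT ht L = r + o ∧ Dp z L = x <;> simp [h, h']
    rw [hfp, fp_split Λ ht h1 T r (by omega)]
    have key : ∀ A : List B, (if fp ht T A then LW Λ A *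
        ∑' L, (if fp ht (r - HT ht A) L then LW Λ L *
          (if HT ht (A ++ L) = r + o ∧ Dp z (A ++ L) = x then 1 else 0) else 0) else 0)
        ≤ (if fp ht T A ∧ T + i0 < HT ht A then LW Λ A *
            ∑' L, (if fp ht (r - HT ht A) L ∧ HT ht A + HT ht L = r + o ∧
              Dp z A + Dp z L = x then LW Λ L else 0) else 0)
          + (if fp ht T A then LW Λ A * (fun h x' => if T ≤ h ∧ h ≤ T + i0 then
              ff Λ ht z (r - h) o (x - x') else 0) (HT ht A) (Dp z A) else 0) := by
      intro A
      by_cases hA : fp ht T A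
      · have hin : ∀ L : List B, (if fp ht (r - HT ht A) L then LW Λ L *
            (if HT ht (A ++ L) = r + o ∧ Dp z (A ++ L) = x then 1 else 0) else 0)
            = (if fp ht (r - HT ht A) L ∧ HT ht A + HT ht L = r + o ∧
              Dp z A + Dp z L = x then LW Λ L else 0) := by
          intro L
          rw [HT_append, Dp_append]
          by_cases h : fp ht (r - HT ht A) L <;>
            by_cases h' : HT ht A + HT ht L = r + o ∧ Dp z A + Dp z L = x <;> simp [h, h']
        rw [tsum_congr hin]
        by_cases hb : T + i0 < HT ht A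
        · rw [if_pos hA, if_pos ⟨hA, hb⟩]
          exact le_self_add
        · rw [if_pos hA, if_neg (fun h => hb h.2), zero_add, if_pos hA]
          have hT := le_HT_of_fp ht hA
          simp only
          rw [if_pos ⟨hT, not_lt.1 hb⟩]
          refine mul_le_mul_right (ENNReal.tsum_le_tsum fun L => ?_) _
          by_cases h : fp ht (r - HT ht A) L ∧ HT ht A + HT ht L = r + o ∧ Dp z A + Dp z L = x
          · rw [if_pos h, if_pos ⟨h.1, by omega, by rw [← h.2.2]; abel⟩]
          · rw [if_neg h]; exact zero_le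
      · simp [hA]
    refine (ENNReal.tsum_le_tsum key).trans ?_
    rw [ENNReal.tsum_add]
    refine add_le_add le_rfl ?_
    rw [fiber Λ ht z T (fun h x' => if T ≤ h ∧ h ≤ T + i0 then
              ff Λ ht z (r - h) o (x - x') else 0)]
    refine ENNReal.tsum_le_tsum fun h => ENNReal.tsum_le_tsum fun x' => ?_
    split_ifs <;> simp

/-- **density of the joint law (overshoot, displacement)** -/
theorem dens (h1 : ∀ b, 1 ≤ ht b) (hΛ : ∑' b, Λ b ≤ 1) (hU1 : ∀ n, U Λ ht n ≤ 1) (T i0 : ℕ)
    (th q M : ℝ≥0∞)
    (hq : ∑' h, ∑' x, (if (T ≤ h ∧ h ≤ T + i0) ∧ th < pp Λ ht z T h x then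
      pp Λ ht z T h x else 0) ≤ q)
    (hq1 : q ≤ 1) (hM : (i0 + 1 : ℕ) * th + q * M ≤ M) (J a : ℕ) (ha : J * (T + i0) ≤ a) :
    ∃ b : ℕ → G → ℝ≥0∞, (∑' o, ∑' x, b o x ≤ q ^ J + J * ∑' k, tail Λ ht (i0 + k)) ∧
      ∀ o x, ff Λ ht z a o x ≤ M + b o x :=
  densK (pp Λ ht z T) (fun r => ff Λ ht z r) T i0 th q _ M
    (fun r hr => ff_rec Λ ht z h1 hΛ hU1 T i0 r hr) (fun r => ff_sum_le Λ ht z h1 hΛ r)
    hq hq1 hM J a ha

end Crest.Agent.R154.DensFP706
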