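import Crest.Agent.R154.FR_596

/-! Row 154 (helper596), ROAD 801 (1): density of the displacement of first-renewal lists, the
remainder is summed JOINTLY over the overshoot. -/

set_option autoImplicit false
set_option linter.unusedVariables false
set_option linter.unusedSectionVars false

namespace Crest.Agent.R154.FR596

open scoped ENNReal Classical
open Crest.Agent.R154.B5A

variable {B G : Type*} [AddCommGroup G] (Λ : B → ℝ≥0∞) (h : B → ℕ) (z : B → G)

/-- displacement of a list -/
def Dp (z : B → G) (L : List B) : G := (L.map z).sum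

lemma Dp_append (L L' : List B) : Dp z (L ++ L') = Dp z L + Dp z L' := by simp [Dp]

/-- law of (overshoot, displacement) at the first renewal `≥ T` -/
noncomputable def pp (T : ℕ) (i : ℕ) (x : G) : ℝ≥0∞ :=
  FR Λ h T (fun L => if HT h L = T + i ∧ Dp z L = x then 1 else 0)

lemma pp_push (T : ℕ) (F : ℕ → G → ℝ≥0∞) :
    FR Λ h T (fun L => F (HT h L - T) (Dp z L)) = ∑' i, ∑' x, pp Λ h z T i x * F i x := by
  have e : ∀ i x, pp Λ h z T i x * F i x =
      FR Λ h T (fun L => if HT h L = T + i ∧ Dp z L = x then F i x else 0) := by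
    intro i x
    rw [pp, mul_comm, ← FR_mul]
    refine FR_congr Λ h _ fun L _ => ?_
    by_cases hh : HT h L = T + i ∧ Dp z L = x <;> simp [hh]
  simp_rw [e]
  simp_rw [← FR_tsum]
  refine FR_congr Λ h _ fun L hL => ?_
  have hT := isFR_ge h L T hL
  rw [tsum_eq_single (HT h L - T), tsum_eq_single (Dp z L)]
  · rw [if_pos ⟨by omega, rfl⟩]
  · intro x hx; exact if_neg fun hh => hx hh.2.symm
  · intro i hi
    refine ENNReal.tsum_eq_zero.2 fun x => if_neg fun hh => hi ?_
    omega

lemma pp_total (h1 : ∀ b, 1 ≤ h b) (hΛ : ∑' b, Λ b = 1) (T : ℕ) :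
    ∑' i, ∑' x, pp Λ h z T i x = 1 := by
  have := pp_push Λ h z T (fun _ _ => 1)
  simp only [mul_one] at this
  rw [← this, FR_one Λ h h1 hΛ]

/-- total of the split law at `r` -/
lemma dens_total (h1 : ∀ b, 1 ≤ h b) (hΛ : ∑' b, Λ b = 1) (r c : ℕ) (v : G) (k : ℕ) :
    ∑' i, ∑' x, FR Λ h r (fun L => if k + HT h L = c + i ∧ v + Dp z L = x then (1:ℝ≥0∞) else 0)
      ≤ 1 := by
  simp_rw [← FR_tsum]
  refine FR_le Λ h h1 hΛ r fun L _ => ?_
  by_cases hk : c ≤ k + HT h L
  · rw [tsum_eq_single (k + HT h L - c), tsum_eq_single (v + Dp z L)]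
    · split_ifs <;> simp
    · intro x hx; exact if_neg fun hh => hx hh.2.symm
    · intro i hi
      refine ENNReal.tsum_eq_zero.2 fun x => if_neg fun hh => hi ?_
      omega
  · refine le_trans (le_of_eq ?_) zero_le
    refine ENNReal.tsum_eq_zero.2 fun i => ENNReal.tsum_eq_zero.2 fun x => if_neg fun hh => ?_
    omega

/-- **density lemma** -/
theorem dens (h1 : ∀ b, 1 ≤ h b) (hΛ : ∑' b, Λ b = 1) (T i0 : ℕ) (th q ε Gd : ℝ≥0∞)
    (hε : FR Λ h T (fun L => if T + i0 < HT h L then 1 else 0) ≤ ε)
    (hq : FR Λ h T (fun L => if th < pp Λ h z T (HT h L - T) (Dp z L) then 1 else 0) ≤ q)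
    (hq1 : q ≤ 1) (hG : (i0 + 1 : ℕ) * th + q * Gd ≤ Gd) :
    ∀ J r, J * (T + i0) ≤ r → ∃ b : ℕ → G → ℝ≥0∞, (∑' i, ∑' x, b i x ≤ q ^ J + J * ε) ∧
      ∀ i x, pp Λ h z r i x ≤ Gd + b i x := by
  intro J
  induction J with
  | zero =>
    intro r hr
    refine ⟨fun i x => pp Λ h z r i x, ?_, fun i x => le_add_self⟩
    rw [pp_total Λ h z h1 hΛ]
    simp
  | succ J ih =>
    intro r hr
    have hr' : T ≤ r := by nlinarith
    have hrJ : ∀ L : List B, HT h L ≤ T + i0 → J * (T + i0) ≤ r - HT h L := by
      intro L hL
      have : (J + 1) * (T + i0) = J * (T + i0) + (T + i0) := by ring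
      omega
    choose! bb hb1 hb2 using ih
    -- the three classes
    set ov : List B → Prop := fun L => T + i0 < HT h L with hov
    set lo : List B → Prop := fun L => th < pp Λ h z T (HT h L - T) (Dp z L) with hlo
    set Q : ℕ → G → List B → ℝ≥0∞ := fun i x L1 =>
      FR Λ h (r - HT h L1) (fun L2 => if HT h L1 + HT h L2 = r + i ∧ Dp z L1 + Dp z L2 = x
        then 1 else 0) with hQ
    have hQle : ∀ L1, ∑' i, ∑' x, Q i x L1 ≤ 1 := fun L1 =>
      dens_total Λ h z h1 hΛ (r - HT h L1) r (Dp z L1) (HT h L1)
    have hQpp : ∀ i x L1, HT h L1 ≤ r → Q i x L1 = pp Λ h z (r - HT h L1) i (x - Dp z L1) := by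
      intro i x L1 hL1
      rw [hQ, pp]
      refine FR_congr Λ h _ fun L2 _ => ?_
      have e1 : (HT h L1 + HT h L2 = r + i) ↔ (HT h L2 = r - HT h L1 + i) := by omega
      have e2 : (Dp z L1 + Dp z L2 = x) ↔ (Dp z L2 = x - Dp z L1) := by
        constructor
        · intro e; rw [← e]; abel
        · intro e; rw [e]; abel
      simp only [e1, e2]
    refine ⟨fun i x => FR Λ h T (fun L1 => (if ov L1 then Q i x L1 else 0) +
      (if ov L1 then 0 else if lo L1 then bb (r - HT h L1) i (x - Dp z L1) else 0)), ?_, ?_⟩
    · simp_rw [← FR_tsum]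
      calc FR Λ h T (fun L1 => ∑' i, ∑' x, ((if ov L1 then Q i x L1 else 0) +
            (if ov L1 then 0 else if lo L1 then bb (r - HT h L1) i (x - Dp z L1) else 0)))
          ≤ FR Λ h T (fun L1 => (if ov L1 then 1 else 0) +
              (q ^ J + J * ε) * (if lo L1 then 1 else 0)) := by
            refine FR_mono Λ h T fun L1 _ => ?_
            by_cases h2 : ov L1
            · simp only [if_pos h2, add_zero]
              exact (hQle L1).trans le_self_add
            · simp only [if_neg h2, zero_add]
              by_cases h3 : lo L1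
              · simp only [if_pos h3, mul_one]
                have h4 := hb1 (r - HT h L1) (hrJ L1 (not_lt.1 h2))
                refine le_trans (le_of_eq ?_) h4
                refine tsum_congr fun i => ?_
                exact (Equiv.subRight (Dp z L1)).tsum_eq (fun x => bb (r - HT h L1) i x)
              · simp [if_neg h3]
        _ ≤ ε + (q ^ J + J * ε) * q := by
            rw [FR_add, FR_mul]
            gcongr
        _ ≤ q ^ (J + 1) + (J + 1 : ℕ) * ε := by
            rw [add_mul, pow_succ]
            have : J * ε * q ≤ J * ε := mul_le_of_le_one_right' hq1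
            calc ε + (q ^ J * q + J * ε * q) ≤ ε + (q ^ J * q + J * ε) := by gcongr
              _ = q ^ J * q + ((J + 1 : ℕ)) * ε := by push_cast; ring
    · intro i x
      have e0 : pp Λ h z r i x = FR Λ h T (Q i x) := by
        rw [pp, FR_split Λ h h1 T r hr']
        refine FR_congr Λ h _ fun L1 _ => ?_
        rw [hQ]
        refine FR_congr Λ h _ fun L2 _ => ?_
        rw [HT_append, Dp_append]
      rw [e0]
      -- class C
      have hC : FR Λ h T (fun L1 => if ov L1 then 0 else if lo L1 then 0 else Q i x L1) ≤
          (i0 + 1 : ℕ) * th := by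
        have e1 : FR Λ h T (fun L1 => if ov L1 then 0 else if lo L1 then 0 else Q i x L1) ≤
            FR Λ h T (fun L1 => (fun (i1 : ℕ) (x1 : G) => if i1 ≤ i0 ∧ ¬ (th < pp Λ h z T i1 x1) then
              pp Λ h z (r - (T + i1)) i (x - x1) else 0) (HT h L1 - T) (Dp z L1)) := by
          refine FR_mono Λ h T fun L1 hL1 => ?_
          have hT := isFR_ge h L1 T hL1
          by_cases h2 : ov L1
          · rw [if_pos h2]; exact zero_le
          · rw [if_neg h2]
            have h2' : HT h L1 ≤ T + i0 := not_lt.1 h2
            by_cases h3 : lo L1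
            · rw [if_pos h3]; exact zero_le
            · rw [if_neg h3]
              beta_reduce
              rw [if_pos ⟨by omega, h3⟩, hQpp i x L1 (by have := hrJ L1 h2'; nlinarith)]
              rw [show T + (HT h L1 - T) = HT h L1 by omega]
        refine e1.trans ?_
        rw [pp_push Λ h z T (fun (i1 : ℕ) (x1 : G) => if i1 ≤ i0 ∧ ¬ (th < pp Λ h z T i1 x1) then
              pp Λ h z (r - (T + i1)) i (x - x1) else 0)]
        calc ∑' i1, ∑' x1, pp Λ h z T i1 x1 * (if i1 ≤ i0 ∧ ¬ (th < pp Λ h z T i1 x1) then
              pp Λ h z (r - (T + i1)) i (x - x1) else 0)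
            ≤ ∑' i1, ∑' x1, (if i1 ≤ i0 then th * pp Λ h z (r - (T + i1)) i (x - x1) else 0) := by
              refine ENNReal.tsum_le_tsum fun i1 => ENNReal.tsum_le_tsum fun x1 => ?_
              by_cases h4 : i1 ≤ i0 ∧ ¬ (th < pp Λ h z T i1 x1)
              · rw [if_pos h4, if_pos h4.1]
                exact mul_le_mul_left (not_lt.1 h4.2) _
              · rw [if_neg h4, mul_zero]; exact zero_le
          _ ≤ ∑' i1 : ℕ, (if i1 ≤ i0 then th else 0) := by
              refine ENNReal.tsum_le_tsum fun i1 => ?_
              by_cases h4 : i1 ≤ i0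
              · simp only [if_pos h4]
                rw [ENNReal.tsum_mul_left]
                refine mul_le_of_le_one_right' ?_
                have e2 : ∑' x1, pp Λ h z (r - (T + i1)) i (x - x1) =
                    ∑' x1, pp Λ h z (r - (T + i1)) i x1 :=
                  (Equiv.subLeft x).tsum_eq (fun x1 => pp Λ h z (r - (T + i1)) i x1)
                rw [e2]
                refine le_trans ?_ (pp_total Λ h z h1 hΛ (r - (T + i1))).le
                exact ENNReal.le_tsum i
              · simp [if_neg h4]
          _ = (i0 + 1 : ℕ) * th := by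
              rw [tsum_eq_sum (s := Finset.range (i0 + 1))]
              · rw [Finset.sum_congr rfl (g := fun _ => th) (fun j hj => if_pos (by
                  have := Finset.mem_range.1 hj; omega))]
                simp
              · intro j hj
                exact if_neg (by have : ¬ j < i0 + 1 := by simpa using hj
                                 omega)
      have hBc : FR Λ h T (fun L1 => if ov L1 then 0 else if lo L1 then Q i x L1 else 0) ≤
          q * Gd + FR Λ h T (fun L1 => if ov L1 then 0 else
            if lo L1 then bb (r - HT h L1) i (x - Dp z L1) else 0) := by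
        calc FR Λ h T (fun L1 => if ov L1 then 0 else if lo L1 then Q i x L1 else 0)
            ≤ FR Λ h T (fun L1 => Gd * (if lo L1 then 1 else 0) + (if ov L1 then 0 else
              if lo L1 then bb (r - HT h L1) i (x - Dp z L1) else 0)) := by
              refine FR_mono Λ h T fun L1 _ => ?_
              by_cases h2 : ov L1
              · simp only [if_pos h2]; exact zero_le
              · simp only [if_neg h2]
                by_cases h3 : lo L1
                · simp only [if_pos h3, mul_one]
                  have h2' : HT h L1 ≤ T + i0 := not_lt.1 h2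
                  rw [hQpp i x L1 (by have := hrJ L1 h2'; nlinarith)]
                  exact hb2 _ (hrJ L1 h2') i _
                · simp [if_neg h3]
          _ ≤ _ := by
              rw [FR_add, FR_mul, mul_comm q Gd]
              gcongr
      calc FR Λ h T (Q i x) = FR Λ h T (fun L1 =>
            (if ov L1 then 0 else if lo L1 then 0 else Q i x L1) +
            ((if ov L1 then 0 else if lo L1 then Q i x L1 else 0) +
            (if ov L1 then Q i x L1 else 0))) := by
            refine FR_congr Λ h _ fun L1 _ => ?_
            by_cases h2 : ov L1 <;> by_cases h3 : lo L1 <;> simp [h2, h3]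
        _ ≤ (i0 + 1 : ℕ) * th + ((q * Gd + FR Λ h T (fun L1 => if ov L1 then 0 else
            if lo L1 then bb (r - HT h L1) i (x - Dp z L1) else 0)) +
            FR Λ h T (fun L1 => if ov L1 then Q i x L1 else 0)) := by
            rw [FR_add, FR_add]
            gcongr
        _ = ((i0 + 1 : ℕ) * th + q * Gd) + FR Λ h T (fun L1 =>
            (if ov L1 then Q i x L1 else 0) +
            (if ov L1 then 0 else if lo L1 then bb (r - HT h L1) i (x - Dp z L1) else 0)) := by
            rw [FR_add]; ring
        _ ≤ _ := by gcongr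

end Crest.Agent.R154.FR596
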