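import Crest.Agent.R154.B5First_181

/-! Row 154 (helper692): pair frame (joint cuts), letters.  Definitions and Props only. -/

set_option autoImplicit false

namespace Crest.Agent.R154.B5A

open scoped ENNReal

variable {B W : Type*} (Λ : B → ℝ≥0∞) (ht : B → ℕ) (dl : B → W → W) (cd : W → B → Set ℕ)

/-- first passage lists over `a` -/
def FPL (a : ℕ) (L : List B) : Prop :=
  a ≤ HT ht L ∧ ∀ L', L' <+: L → L' ≠ L → HT ht L' < a

open Classical in
/-- law of the displacement at the first cut at depth `≥ a` -/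
noncomputable def nuF (a : ℕ) (w w' : W) : ℝ≥0∞ :=
  ∑' L : List B, if FPL ht a L ∧ act dl L w = w' then LW Λ L else 0

/-- `∑_{k ≥ i} tail k` -/
noncomputable def tl (i : ℕ) : ℝ≥0∞ := ∑' k, tail Λ ht (i + k)

open Classical in
/-- weight of the one-piece crossings of height `h` in the class `loc`, with contact, all contacts interior -/
noncomputable def FI (loc : List B → Prop) (h s : ℕ) (w : W) : ℝ≥0∞ :=
  ∑' L : List B, if HT ht L = h ∧ loc L ∧ CD ht dl cd L w ≠ ∅ ∧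
    (∀ k ∈ CD ht dl cd L w, s < k ∧ k + s ≤ h) then LW Λ L else 0

open Classical in
/-- **one-piece hypothesis** for the height `h` and one of the two walkers (`loc` = local end point,
`low` = end point of low mass) -/
def PType (q A : ℝ≥0∞) (δ : ℕ → ℝ≥0∞) (h : ℕ) (loc : List B → Prop) : Prop :=
  ∃ th : ℝ≥0∞, th ≠ 0 ∧ th ≠ ⊤ ∧ ∃ low : List B → Prop,
    (∀ w w', (∑' L : List B, if HT ht L = h ∧ low L ∧ act dl L w = w' then LW Λ L else 0) ≤ th) ∧
    (q ≤ ∑' L : List B, if HT ht L = h ∧ low L then LW Λ L else 0) ∧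
    ∀ (s : ℕ) (lam M : ℝ≥0∞), lam ≠ 0 → lam ≠ ⊤ → ∀ nu : W → ℝ≥0∞, ∑' w, nu w ≤ 1 → (∀ w, nu w ≤ M) →
      ∑' w, nu w * FI Λ ht dl cd loc h s w ≤ A * (lam + M * th⁻¹ * δ s / lam + δ s)

open Classical in
/-- **(HP)** the one-piece input, for every level `v` of the quantile -/
def HPiece (c A : ℝ≥0∞) (δ : ℕ → ℝ≥0∞) : Prop :=
  ∀ v : ℝ≥0∞, v ≠ 0 → v ≤ c → ∀ h : ℕ, ∃ lx ly : List B → Prop,
    ((∑' L : List B, if HT ht L = h ∧ ¬ lx L ∧ ¬ ly L then LW Λ L else 0) ≤ v * v) ∧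
    PType Λ ht dl cd (c * v) A δ h lx ∧ PType Λ ht dl cd (c * v) A δ h ly

open Classical in
/-- **(POINT)** -/
def HPoint : Prop :=
  ∀ ε : ℝ≥0∞, ε ≠ 0 → ∃ k0 : ℕ, ∀ k, k0 ≤ k → ∀ n, k ≤ n → ∀ w,
    (∑' L : List B, if HT ht L = n ∧ k ∈ CD ht dl cd L w then LW Λ L else 0) ≤ ε

/-- **(D) density** (244 / 802 / 776) : to be proved -/
def DensSt : Prop :=
  (∀ b, 1 ≤ ht b) → ∑' b, Λ b = 1 → (∀ n, U Λ ht n ≤ 1) → (∀ b, Function.Injective (dl b)) →
  ∀ (th q : ℝ≥0∞) (h t : ℕ) (low : List B → Prop), h ≤ 4 * t →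
    (∀ w w', (∑' L : List B, (open Classical in if HT ht L = h ∧ low L ∧ act dl L w = w' then LW Λ L else 0)) ≤ th) →
    (q ≤ ∑' L : List B, (open Classical in if HT ht L = h ∧ low L then LW Λ L else 0)) →
    ∀ (J a : ℕ), 5 * t * J ≤ a → ∀ w,
      ∑' w', (nuF Λ ht dl a w w' - J * th) ≤ (1 - q) ^ J + J * tl Λ ht t

open Classical in
/-- **(S) window decomposition** (776) : to be proved.  `L = L1 ++ (Lp ++ R)`, `L1` first passage over `a`,
`Lp` = last cut at relative depth `≤ g`. -/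
def SplitSt : Prop :=
  (∀ b, 1 ≤ ht b) → ∑' b, Λ b = 1 → (∀ n, U Λ ht n ≤ 1) →
  ∀ (n a g : ℕ) (F : List B → ℝ≥0∞) (P : List B → List B → ℝ≥0∞) (i : ℕ), a + i + g < n → i ≤ g →
    (∀ L, F L ≤ 1) →
    (∀ L1 Lp R, FPL ht a L1 → HT ht L1 ≤ a + i → g - i ≤ HT ht Lp → HT ht Lp ≤ g →
      HT ht (L1 ++ (Lp ++ R)) = n → F (L1 ++ (Lp ++ R)) ≤ P L1 Lp) →
    (∑' L : List B, if HT ht L = n then LW Λ L * F L else 0) ≤
      2 * tl Λ ht i + ∑ h ∈ Finset.range (g + 1), tail Λ ht (g - h) *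
        ∑' L1 : List B, (if FPL ht a L1 then LW Λ L1 *
          ∑' Lp : List B, (if HT ht Lp = h then LW Λ Lp * P L1 Lp else 0) else 0)

end Crest.Agent.R154.B5A
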