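import Crest.Agent.R154.JDens_156
import Crest.Agent.R154.PFDefs_692

/-! Row 154, pair frame: `DensSt` of 692 (helper156). -/

set_option autoImplicit false

namespace Crest.Agent.R154.B5A.J156

open scoped ENNReal Classical
open Finset

variable {B W : Type*}
variable (Λ : B → ℝ≥0∞) (ht : B → ℕ) (dl : B → W → W) (cd : W → B → Set ℕ)

lemma FP_lt : ∀ (L : List B) (b : B) (R : List B) (T : ℕ), FP ht T (L ++ b :: R) → HT ht L < T
  | [], b, R, T, h => by rw [HT_nil]; exact Nat.pos_of_ne_zero h.1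
  | a :: L, b, R, T, h => by
    have := FP_lt L b R _ h.2
    rw [HT_cons]; omega

lemma FP_iff (T : ℕ) (L : List B) : FP ht T L ↔ FPL ht T L := by
  constructor
  · intro h
    refine ⟨FP_le ht L T h, ?_⟩
    rintro L' ⟨R, rfl⟩ hne
    cases R with
    | nil => exact absurd (by simp) hne
    | cons b R => exact FP_lt ht L' b R T h
  · induction L generalizing T with
    | nil =>
      intro h
      have := h.1
      rw [HT_nil] at this
      exact Nat.le_zero.1 this
    | cons b L ih =>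
      intro h
      have h0 := h.2 [] (List.nil_prefix) (by simp)
      rw [HT_nil] at h0
      refine ⟨by omega, ih _ ⟨?_, ?_⟩⟩
      · have := h.1
        rw [HT_cons] at this; omega
      · intro L' hL' hne
        have := h.2 (b :: L') (by simpa using hL') (by simpa using hne)
        rw [HT_cons] at this; omega

lemma nuF_eq (a : ℕ) (w w' : W) : nuF Λ ht dl a w w' = law Λ ht dl a w w' := by
  unfold nuF law
  refine tsum_congr fun L => ?_
  by_cases h : FP ht a L ∧ act dl L w = w'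
  · rw [if_pos h, if_pos ⟨(FP_iff ht a L).1 h.1, h.2⟩]
  · rw [if_neg h, if_neg (fun h' => h ⟨(FP_iff ht a L).2 h'.1, h'.2⟩)]

lemma tau_eq (R : ℕ) : tau Λ ht R = tl Λ ht R := by
  unfold tau tl
  exact tsum_congr fun i => by rw [add_comm]

theorem dens_st : DensSt Λ ht dl := by
  intro h1 hΛ hU1 hinj th q h t low hh hconc hq J a ha w
  obtain ⟨hit, hd⟩ : ∃ hit : List B → Prop, ∀ C, hit C ↔ (HT ht C = h ∧ low C) :=
    ⟨_, fun _ => Iff.rfl⟩
  have hhit : ∀ C, hit C → FP ht h C := by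
    intro C hC
    rw [← ((hd C).1 hC).1]; exact FP_of_eq ht h1 C
  have hq' : q ≤ ∑' C, (if hit C then LW Λ C else 0) := by
    refine hq.trans (le_of_eq (tsum_congr fun C => ?_))
    by_cases hc : hit C
    · rw [if_pos hc, if_pos ((hd C).1 hc)]
    · rw [if_neg hc, if_neg (fun h => hc ((hd C).2 h))]
  have hsum : ∑' C, (if FP ht h C ∧ ¬ hit C then LW Λ C else 0)
      + ∑' C, (if hit C then LW Λ C else 0) ≤ 1 := by
    rw [← ENNReal.tsum_add]
    refine le_trans (ENNReal.tsum_le_tsum fun C => ?_) (FP_mass Λ ht h1 hΛ h)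
    by_cases hc : hit C
    · rw [if_neg (fun h => h.2 hc), if_pos hc, if_pos (hhit C hc), zero_add]
    · by_cases hf : FP ht h C
      · rw [if_pos ⟨hf, hc⟩, if_neg hc, if_pos hf, add_zero]
      · rw [if_neg (fun h => hf h.1), if_neg hc, add_zero]; exact zero_le
  have hq1 : q ≤ 1 := hq'.trans ((le_add_left le_rfl).trans hsum)
  have hqt : q ≠ ⊤ := ne_top_of_le_ne_top ENNReal.one_ne_top hq1
  have hqb : ∑' C, (if FP ht h C ∧ ¬ hit C then LW Λ C else 0) ≤ 1 - q :=
    ENNReal.le_sub_of_add_le_right hqt ((add_le_add le_rfl hq').trans hsum)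
  have hconc' : ∀ w w', ∑' C, (if hit C ∧ act dl C w = w' then LW Λ C else 0)
      ≤ th := by
    intro w w'
    refine le_trans (le_of_eq (tsum_congr fun C => ?_)) (hconc w w')
    by_cases hc : HT ht C = h ∧ low C ∧ act dl C w = w'
    · rw [if_pos hc, if_pos ⟨(hd C).2 ⟨hc.1, hc.2.1⟩, hc.2.2⟩]
    · rw [if_neg hc, if_neg (fun h => hc ⟨((hd C).1 h.1).1, ((hd C).1 h.1).2, h.2⟩)]
  obtain ⟨g, b, hgb, hg, hb⟩ := density Λ ht dl h1 hΛ hinj h t hit
    (fun C hC => ((hd C).1 hC).1) th (1 - q) (tau Λ ht t) hconc' hqb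
    tsub_le_self (FP_over Λ ht hU1 h t) J a (by
      calc J * (h + t) ≤ J * (5 * t) := Nat.mul_le_mul_left _ (by omega)
        _ = 5 * t * J := by ring
        _ ≤ a := ha) w
  rw [← tau_eq]
  refine le_trans (ENNReal.tsum_le_tsum fun w' => ?_) hb
  rw [nuF_eq, tsub_le_iff_right]
  refine (hgb w').trans ?_
  rw [add_comm]
  refine add_le_add le_rfl ((hg w').trans ?_)
  rw [mul_comm]
  refine mul_le_mul_left ?_ _
  calc ∑ j ∈ range J, (1 - q) ^ j ≤ ∑ _j ∈ range J, (1 : ℝ≥0∞) :=
        Finset.sum_le_sum fun j _ => pow_le_one₀ zero_le tsub_le_self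
    _ = J := by simp

end Crest.Agent.R154.B5A.J156
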