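import Crest.Agent.R154.PFDefs_692
import Crest.Agent.R154.FP_178

/-! Row 154 (helper947), pair frame of 692: the density lemma `DensSt`. -/

set_option autoImplicit false

namespace Crest.Agent.R154.J947

open scoped ENNReal
open Crest.Agent.R154.B5A Crest.Agent.R154.FP178

variable {B W : Type*} (Λ : B → ℝ≥0∞) (ht : B → ℕ) (dl : B → W → W)

lemma FPL_iff (a : ℕ) (L : List B) : FPL ht a L ↔ fp ht a L := by
  induction L generalizing a with
  | nil =>
    rw [fp_nil]
    constructor
    · intro h; have := h.1; rw [HT_nil] at this; omega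
    · intro h
      subst h
      exact ⟨Nat.zero_le _, fun L' h1 h2 => absurd (List.prefix_nil.1 h1) h2⟩
  | cons b L ih =>
    rw [fp_cons, ← ih]
    constructor
    · rintro ⟨h1, h2⟩
      have h0 := h2 [] (List.nil_prefix) (by simp)
      rw [HT_nil] at h0
      refine ⟨h0, ?_, ?_⟩
      · rw [HT_cons] at h1; omega
      · intro L' h3 h4
        have := h2 (b :: L') ((List.cons_prefix_cons).2 ⟨rfl, h3⟩) (by
          intro he; exact h4 (List.cons.inj he).2)
        rw [HT_cons] at this
        omega
    · rintro ⟨h0, h1, h2⟩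
      refine ⟨by rw [HT_cons]; omega, ?_⟩
      intro L' h3 h4
      cases L' with
      | nil => rw [HT_nil]; exact h0
      | cons c L' =>
        rw [List.cons_prefix_cons] at h3
        obtain ⟨rfl, h3⟩ := h3
        have := h2 L' h3 (by intro he; exact h4 (by rw [he]))
        rw [HT_cons]
        omega

open Classical in
/-- law of the position at the first passage -/
noncomputable def nu (a : ℕ) (w w' : W) : ℝ≥0∞ :=
  ∑' L, (if fp ht a L then LW Λ L * (if act dl L w = w' then 1 else 0) else 0)

open Classical in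
lemma nu_eq (a : ℕ) (w w' : W) : nuF Λ ht dl a w w' = nu Λ ht dl a w w' := by
  rw [nuF, nu]
  refine tsum_congr fun L => ?_
  by_cases h : fp ht a L
  · by_cases h' : act dl L w = w'
    · rw [if_pos ⟨(FPL_iff ht a L).2 h, h'⟩, if_pos h, if_pos h', mul_one]
    · rw [if_neg (fun hh => h' hh.2), if_pos h, if_neg h', mul_zero]
  · rw [if_neg (fun hh => h ((FPL_iff ht a L).1 hh.1)), if_neg h]

open Classical in
lemma nu_split (h1 : ∀ b, 1 ≤ ht b) (τ a : ℕ) (hτ : τ ≤ a) (w z : W) :
    nu Λ ht dl a w z = ∑' A, (if fp ht τ A then LW Λ A *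
      nu Λ ht dl (a - HT ht A) (act dl A w) z else 0) := by
  rw [nu, fp_split Λ ht h1 τ a hτ (fun L => if act dl L w = z then 1 else 0)]
  refine tsum_congr fun A => ?_
  simp only [nu, act_append]

open Classical in
lemma sum_nu (h1 : ∀ b, 1 ≤ ht b) (hΛ : ∑' b, Λ b ≤ 1) (a : ℕ) (w : W) :
    ∑' z, nu Λ ht dl a w z ≤ 1 := by
  simp only [nu]
  rw [ENNReal.tsum_comm]
  refine le_trans (le_of_eq ?_) (sum_FP Λ ht h1 hΛ a)
  refine tsum_congr fun L => ?_
  by_cases h : fp ht a L
  · simp only [if_pos h]
    rw [ENNReal.tsum_mul_left, tsum_eq_single (act dl L w), if_pos rfl, mul_one]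
    intro z hz
    rw [if_neg (fun hh => hz hh.symm)]
  · simp only [if_neg h, tsum_zero]

lemma act_inj (hinj : ∀ b, Function.Injective (dl b)) (L : List B) :
    Function.Injective (act dl L) := by
  induction L with
  | nil => exact fun _ _ h => h
  | cons b L ih => exact fun x y h => hinj b (ih h)

open Classical in
lemma sum_nu' (h1 : ∀ b, 1 ≤ ht b) (hΛ : ∑' b, Λ b ≤ 1) (hinj : ∀ b, Function.Injective (dl b))
    (a : ℕ) (z : W) : ∑' w, nu Λ ht dl a w z ≤ 1 := by
  simp only [nu]
  rw [ENNReal.tsum_comm]
  refine le_trans (ENNReal.tsum_le_tsum fun L => ?_) (sum_FP Λ ht h1 hΛ a)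
  by_cases h : fp ht a L
  · simp only [if_pos h]
    rw [ENNReal.tsum_mul_left]
    refine (mul_le_mul' le_rfl ?_).trans (mul_one _).le
    by_cases hex : ∃ w, act dl L w = z
    · obtain ⟨w0, hw0⟩ := hex
      rw [tsum_eq_single w0, if_pos hw0]
      intro w hw
      rw [if_neg]
      intro hh
      exact hw (act_inj dl hinj L (hh.trans hw0.symm))
    · rw [ENNReal.tsum_eq_zero.2]
      · exact zero_le
      · intro w; rw [if_neg (fun hh => hex ⟨w, hh⟩)]
  · simp only [if_neg h, tsum_zero, le_refl]

open Classical in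
/-- density lemma: attempts are first passages of `h`, `Hit` ones have height exactly `h`. -/
theorem jdensW (h1 : ∀ b, 1 ≤ ht b) (hΛ : ∑' b, Λ b ≤ 1) (hinj : ∀ b, Function.Injective (dl b))
    (h r : ℕ)
    (Hit : List B → Prop) (hHt : ∀ A, Hit A → fp ht h A ∧ HT ht A = h) (th q ε : ℝ≥0∞)
    (hq1 : q ≤ 1)
    (hsup : ∀ w x, ∑' A, (if Hit A ∧ act dl A w = x then LW Λ A else 0) ≤ th)
    (hq : ∑' A, (if fp ht h A ∧ ¬ Hit A then LW Λ A else 0) ≤ q)
    (hε : ∑' A, (if fp ht h A ∧ h + r < HT ht A then LW Λ A else 0) ≤ ε) (J : ℕ) :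
    ∀ a : ℕ, J * (h + r) ≤ a → ∃ g b : W → W → ℝ≥0∞,
      (∀ w z, nu Λ ht dl a w z = g w z + b w z) ∧
      (∀ w z, g w z ≤ th * ∑ j ∈ Finset.range J, q ^ j) ∧ ∀ w, ∑' z, b w z ≤ q ^ J + J * ε := by
  induction J with
  | zero =>
    intro a _
    refine ⟨fun _ _ => 0, nu Λ ht dl a, fun w z => by simp, fun w z => by simp, fun w => ?_⟩
    simpa using sum_nu Λ ht dl h1 hΛ a w
  | succ J ih =>
    intro a ha
    choose! g b hgb hg hb using ih
    have hra : (J + 1) * (h + r) = J * (h + r) + (h + r) := by ring
    have hha : h ≤ a := by omega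
    have hai : ∀ A : List B, HT ht A ≤ h + r → J * (h + r) ≤ a - HT ht A := by
      intro A hA; omega
    set M : ℝ≥0∞ := th * ∑ j ∈ Finset.range J, q ^ j with hM
    refine ⟨fun w z => ∑' A, (if fp ht h A then LW Λ A * (if Hit A then
        nu Λ ht dl (a - HT ht A) (act dl A w) z else if HT ht A ≤ h + r then
        g (a - HT ht A) (act dl A w) z else 0) else 0),
      fun w z => ∑' A, (if fp ht h A then LW Λ A * (if Hit A then 0 else if HT ht A ≤ h + r then
        b (a - HT ht A) (act dl A w) z else nu Λ ht dl (a - HT ht A) (act dl A w) z) else 0),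
      ?_, ?_, ?_⟩
    · intro w z
      rw [nu_split Λ ht dl h1 h a hha w z]
      simp only
      rw [← ENNReal.tsum_add]
      refine tsum_congr fun A => ?_
      by_cases hf : fp ht h A
      · simp only [if_pos hf]
        rw [← mul_add]
        congr 1
        by_cases hH : Hit A
        · simp only [if_pos hH, add_zero]
        · by_cases hr : HT ht A ≤ h + r
          · simp only [if_neg hH, if_pos hr]
            exact hgb _ (hai A hr) _ _
          · simp only [if_neg hH, if_neg hr, zero_add]
      · simp only [if_neg hf, add_zero]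
    · intro w z
      have hA1 : ∑' A, (if Hit A then LW Λ A * nu Λ ht dl (a - h) (act dl A w) z else 0) ≤ th := by
        calc ∑' A, (if Hit A then LW Λ A * nu Λ ht dl (a - h) (act dl A w) z else 0)
            = ∑' A, ∑' x, (if Hit A ∧ act dl A w = x then LW Λ A else 0)
                * nu Λ ht dl (a - h) x z := by
              refine tsum_congr fun A => ?_
              rw [tsum_eq_single (act dl A w)]
              · by_cases hH : Hit A
                · rw [if_pos hH, if_pos ⟨hH, rfl⟩]
                · rw [if_neg hH, if_neg (fun hh => hH hh.1), zero_mul]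
              · intro x hx
                rw [if_neg (fun hh => hx hh.2.symm), zero_mul]
          _ = ∑' x, (∑' A, (if Hit A ∧ act dl A w = x then LW Λ A else 0))
                * nu Λ ht dl (a - h) x z := by
              rw [ENNReal.tsum_comm]
              simp_rw [ENNReal.tsum_mul_right]
          _ ≤ ∑' x, th * nu Λ ht dl (a - h) x z :=
              ENNReal.tsum_le_tsum fun x => mul_le_mul_left (hsup w x) _
          _ = th * ∑' x, nu Λ ht dl (a - h) x z := ENNReal.tsum_mul_left
          _ ≤ th * 1 := mul_le_mul_right (sum_nu' Λ ht dl h1 hΛ hinj _ _) _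
          _ = th := mul_one _
      have hA2 : ∑' A, (if fp ht h A ∧ ¬ Hit A then LW Λ A * M else 0) ≤ q * M := by
        calc ∑' A, (if fp ht h A ∧ ¬ Hit A then LW Λ A * M else 0)
            = ∑' A, (if fp ht h A ∧ ¬ Hit A then LW Λ A else 0) * M := by
              refine tsum_congr fun A => ?_
              split_ifs <;> simp
          _ = (∑' A, (if fp ht h A ∧ ¬ Hit A then LW Λ A else 0)) * M := ENNReal.tsum_mul_right
          _ ≤ q * M := mul_le_mul_left hq _
      calc _ ≤ ∑' A, ((if Hit A then LW Λ A * nu Λ ht dl (a - h) (act dl A w) z else 0)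
            + (if fp ht h A ∧ ¬ Hit A then LW Λ A * M else 0)) := by
            refine ENNReal.tsum_le_tsum fun A => ?_
            by_cases hf : fp ht h A
            · by_cases hH : Hit A
              · simp only [if_pos hf, if_pos hH, (hHt A hH).2]
                exact le_self_add
              · rw [if_pos hf, if_neg hH, if_neg hH, if_pos (⟨hf, hH⟩ : _ ∧ _), zero_add]
                refine mul_le_mul' le_rfl ?_
                by_cases hr : HT ht A ≤ h + r
                · rw [if_pos hr]; exact hg _ (hai A hr) _ _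
                · rw [if_neg hr]; exact zero_le
            · simp only [if_neg hf]; exact zero_le
        _ ≤ th + q * M := by
            rw [ENNReal.tsum_add]; exact add_le_add hA1 hA2
        _ = th * ∑ j ∈ Finset.range (J + 1), q ^ j := by
            rw [hM, Finset.sum_range_succ' , pow_zero, mul_add, mul_one, add_comm]
            congr 1
            rw [Finset.mul_sum, Finset.mul_sum, Finset.mul_sum]
            refine Finset.sum_congr rfl fun j _ => ?_
            rw [pow_succ]; ring
    · intro w
      calc ∑' z, ∑' A, (if fp ht h A then LW Λ A * (if Hit A then 0 else if HT ht A ≤ h + r then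
            b (a - HT ht A) (act dl A w) z else nu Λ ht dl (a - HT ht A) (act dl A w) z) else 0)
          = ∑' A, (if fp ht h A then LW Λ A * (if Hit A then 0 else if HT ht A ≤ h + r then
            ∑' z, b (a - HT ht A) (act dl A w) z else ∑' z, nu Λ ht dl (a - HT ht A) (act dl A w) z)
            else 0) := by
            rw [ENNReal.tsum_comm]
            refine tsum_congr fun A => ?_
            by_cases hf : fp ht h A
            · simp only [if_pos hf]
              rw [ENNReal.tsum_mul_left]
              congr 1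
              by_cases hH : Hit A
              · simp [hH]
              · by_cases hr : HT ht A ≤ h + r
                · simp only [if_neg hH, if_pos hr]
                · simp only [if_neg hH, if_neg hr]
            · simp only [if_neg hf, tsum_zero]
        _ ≤ ∑' A, ((if fp ht h A ∧ ¬ Hit A then LW Λ A else 0) * (q ^ J + J * ε)
              + (if fp ht h A ∧ h + r < HT ht A then LW Λ A else 0)) := by
            refine ENNReal.tsum_le_tsum fun A => ?_
            by_cases hf : fp ht h A
            · simp only [if_pos hf]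
              by_cases hH : Hit A
              · simp [hH]
              · by_cases hr : HT ht A ≤ h + r
                · rw [if_neg hH, if_pos hr, if_pos ⟨hf, hH⟩]
                  exact (mul_le_mul_right (hb _ (hai A hr) _) _).trans le_self_add
                · rw [if_neg hH, if_neg hr, if_pos (⟨hf, not_le.1 hr⟩ : _ ∧ _)]
                  refine le_trans ?_ le_add_self
                  calc LW Λ A * ∑' z, nu Λ ht dl (a - HT ht A) (act dl A w) z ≤ LW Λ A * 1 :=
                        mul_le_mul_right (sum_nu Λ ht dl h1 hΛ _ _) _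
                    _ = _ := mul_one _
            · simp only [if_neg hf]; exact zero_le
        _ ≤ q * (q ^ J + J * ε) + ε := by
            rw [ENNReal.tsum_add, ENNReal.tsum_mul_right]
            exact add_le_add (mul_le_mul_left hq _) hε
        _ ≤ q ^ (J + 1) + ((J + 1 : ℕ) : ℝ≥0∞) * ε := by
            have : q * (J * ε) ≤ J * ε := by
              calc q * (J * ε) ≤ 1 * (J * ε) := mul_le_mul_left hq1 _
                _ = _ := one_mul _
            rw [mul_add, pow_succ, mul_comm q (q ^ J)]
            push_cast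
            rw [add_mul, one_mul, ← add_assoc]
            gcongr

lemma fp_of_HT (h1 : ∀ b, 1 ≤ ht b) (L : List B) : fp ht (HT ht L) L := by
  induction L with
  | nil => rw [fp_nil, HT_nil]
  | cons b L ih =>
    rw [fp_cons, HT_cons]
    refine ⟨by have := h1 b; omega, ?_⟩
    rwa [Nat.add_sub_cancel_left]

open Classical in
/-- **(D)** -/
theorem dens_st : DensSt Λ ht dl := by
  intro h1 hΛ hU1 hinj th q h t low hh hsup hq J a ha w
  have hmass : ∑' A, (if fp ht h A then LW Λ A else 0) ≤ 1 := sum_FP Λ ht h1 hΛ.le h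
  obtain ⟨Hit, hHit⟩ : ∃ Hit : List B → Prop, ∀ A, Hit A ↔ HT ht A = h ∧ low A :=
    ⟨fun A => HT ht A = h ∧ low A, fun _ => Iff.rfl⟩
  have hHt : ∀ A, Hit A → fp ht h A ∧ HT ht A = h := by
    intro A hA
    have hA' := (hHit A).1 hA
    refine ⟨?_, hA'.1⟩
    have := fp_of_HT ht h1 A
    rwa [hA'.1] at this
  have hmiss : ∑' A, (if fp ht h A ∧ ¬ Hit A then LW Λ A else 0) ≤ 1 - q := by
    have hq' : q ≤ ∑' A, (if Hit A then LW Λ A else 0) := by
      refine hq.trans (le_of_eq (tsum_congr fun A => ?_))
      by_cases hA : Hit A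
      · rw [if_pos hA, if_pos ((hHit A).1 hA)]
      · rw [if_neg hA, if_neg (fun hh => hA ((hHit A).2 hh))]
    have hsum : (∑' A, (if fp ht h A ∧ ¬ Hit A then LW Λ A else 0)) + q ≤ 1 := by
      calc (∑' A, (if fp ht h A ∧ ¬ Hit A then LW Λ A else 0)) + q
          ≤ (∑' A, (if fp ht h A ∧ ¬ Hit A then LW Λ A else 0))
            + ∑' A, (if Hit A then LW Λ A else 0) := add_le_add le_rfl hq'
        _ = ∑' A, (if fp ht h A then LW Λ A else 0) := by
            rw [← ENNReal.tsum_add]
            refine tsum_congr fun A => ?_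
            by_cases hA : Hit A
            · rw [if_neg (fun hh => hh.2 hA), if_pos hA, if_pos (hHt A hA).1, zero_add]
            · by_cases hf : fp ht h A
              · rw [if_pos ⟨hf, hA⟩, if_neg hA, if_pos hf, add_zero]
              · rw [if_neg (fun hh => hf hh.1), if_neg hA, if_neg hf, add_zero]
        _ ≤ 1 := hmass
    have hqt : q ≠ ⊤ := by
      rintro rfl
      rw [add_top] at hsum
      exact absurd hsum (by simp)
    exact ENNReal.le_sub_of_add_le_right hqt hsum
  obtain ⟨g, b, hgb, hg, hb⟩ := jdensW Λ ht dl h1 hΛ.le hinj h t Hit hHt th (1 - q) (tl Λ ht t)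
    tsub_le_self (fun w x => by
      refine le_trans (le_of_eq (tsum_congr fun A => ?_)) (hsup w x)
      by_cases hA : Hit A
      · have hA' := (hHit A).1 hA
        by_cases hx : act dl A w = x
        · rw [if_pos ⟨hA, hx⟩, if_pos ⟨hA'.1, hA'.2, hx⟩]
        · rw [if_neg (fun hh => hx hh.2), if_neg (fun hh => hx hh.2.2)]
      · rw [if_neg (fun hh => hA hh.1), if_neg (fun hh => hA ((hHit A).2 ⟨hh.1, hh.2.1⟩))]) hmiss
    (overshoot Λ ht h1 hU1 t h) J a (by
      refine le_trans ?_ ha
      calc J * (h + t) ≤ J * (4 * t + t) := Nat.mul_le_mul le_rfl (by omega)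
        _ = 5 * t * J := by ring)
  refine le_trans (ENNReal.tsum_le_tsum fun z => ?_) (hb w)
  rw [nu_eq, hgb w z, tsub_le_iff_left]
  refine add_le_add ((hg w z).trans ?_) le_rfl
  rw [mul_comm]
  refine mul_le_mul' ?_ le_rfl
  calc ∑ j ∈ Finset.range J, (1 - q) ^ j ≤ ∑ _j ∈ Finset.range J, (1 : ℝ≥0∞) :=
        Finset.sum_le_sum fun j _ => pow_le_one' tsub_le_self j
    _ = J := by simp

end Crest.Agent.R154.J947
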