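import Crest.Agent.R154.FP_178

/-! Row 154, ROAD 801 (helper600): the smooth density lemma in TOTAL form (the part without a good
attempt is small in total over all heights), on first-passage lists (178's `fp`). Adapted from
903's `dens_split`. -/

set_option autoImplicit false

namespace Crest.Agent.R154.DensT600

open scoped ENNReal
open Finset (range)

section dens

variable {V : Type*} [AddCommGroup V]

lemma tsum_sub (f : V → ℝ≥0∞) (z : V) : ∑' z', f (z - z') = ∑' z', f z' :=
  (Equiv.subLeft z).tsum_eq f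

lemma tsum_conv (g f : V → ℝ≥0∞) :
    ∑' z, ∑' z', g z' * f (z - z') = (∑' z', g z') * ∑' z, f z := by
  rw [ENNReal.tsum_comm, ← ENNReal.tsum_mul_right]
  refine tsum_congr fun z' => ?_
  rw [ENNReal.tsum_mul_left]
  congr 1
  exact (Equiv.subRight z').tsum_eq f

/-- **smooth density, total form** -/
theorem dens_tot (F p : ℕ → V → ℝ≥0∞) (T : ℕ)
    (hF : ∀ a, T ≤ a → ∀ v, F a v ≤ ∑' i, ∑' v', p i v' * F (a - T - i) (v - v'))
    (hF1 : ∀ a, ∑' v, F a v ≤ 1) (i0 : ℕ) (th q ε : ℝ≥0∞)
    (hNG : ∑' i, ∑' v, (if i ≤ i0 ∧ th < p i v then p i v else 0) ≤ q)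
    (hFar : ∑' i, ∑' v, (if i0 < i then p i v else 0) ≤ ε) (J : ℕ) :
    ∀ a, J * (T + i0) ≤ a → ∃ Ag Bb : V → ℝ≥0∞, (∀ v, F a v ≤ Ag v + Bb v) ∧
      (∀ v, Ag v ≤ (i0 + 1) * th * ∑ j ∈ range J, q ^ j) ∧
      ∑' v, Bb v ≤ q ^ J + ε * ∑ j ∈ range J, q ^ j := by
  induction J with
  | zero =>
    intro a _
    refine ⟨fun _ => 0, F a, fun z => by simp, fun z => by simp, ?_⟩
    simpa using hF1 a
  | succ J ih =>
    intro h hh
    have hs : T ≤ h := by
      have : T ≤ (J + 1) * (T + i0) := by nlinarith [Nat.zero_le (J * (T + i0))]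
      omega
    have hrest : ∀ i, i ≤ i0 → J * (T + i0) ≤ h - T - i := by
      intro i hi
      have : (J + 1) * (T + i0) = J * (T + i0) + (T + i0) := by ring
      omega
    have hch : ∀ i, ∃ Ag Bb : V → ℝ≥0∞, i ≤ i0 → (∀ z, F (h - T - i) z ≤ Ag z + Bb z) ∧
        (∀ z, Ag z ≤ (i0 + 1) * th * ∑ j ∈ range J, q ^ j) ∧
        ∑' z, Bb z ≤ q ^ J + ε * ∑ j ∈ range J, q ^ j := by
      intro i
      by_cases hi : i ≤ i0
      · obtain ⟨a, b, h1⟩ := ih _ (hrest i hi)
        exact ⟨a, b, fun _ => h1⟩
      · exact ⟨0, 0, fun h => absurd h hi⟩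
    choose A B hAB using hch
    refine ⟨fun z => ∑' i, ∑' z', ((if i ≤ i0 ∧ ¬ th < p i z' then p i z' * F (h - T - i) (z - z') else 0)
        + (if i ≤ i0 ∧ th < p i z' then p i z' * A i (z - z') else 0)),
      fun z => ∑' i, ∑' z', ((if i0 < i then p i z' * F (h - T - i) (z - z') else 0)
        + (if i ≤ i0 ∧ th < p i z' then p i z' * B i (z - z') else 0)), ?_, ?_, ?_⟩
    · intro z
      refine (hF h hs z).trans ?_
      rw [← ENNReal.tsum_add]
      refine ENNReal.tsum_le_tsum fun i => ?_
      rw [← ENNReal.tsum_add]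
      refine ENNReal.tsum_le_tsum fun z' => ?_
      by_cases hi : i ≤ i0
      · by_cases ht : th < p i z'
        · simp only [hi, ht, not_true, and_false, and_self, if_true, if_false, zero_add,
            not_lt.2 hi]
          rw [← mul_add]
          gcongr
          exact (hAB i hi).1 _
        · simp [hi, ht, not_lt.2 hi]
      · have hi' : i0 < i := not_le.1 hi
        simp [hi, hi']
    · intro z
      have hq : ∑ j ∈ range (J + 1), q ^ j = 1 + q * ∑ j ∈ range J, q ^ j := by
        rw [Finset.sum_range_succ', Finset.mul_sum, add_comm]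
        simp [pow_succ, mul_comm]
      rw [hq, mul_add, mul_one]
      have h1 : ∑' i, ∑' z', (if i ≤ i0 ∧ ¬ th < p i z' then p i z' * F (h - T - i) (z - z') else 0)
          ≤ (i0 + 1) * th := by
        calc _ ≤ ∑' i, (if i ≤ i0 then th else 0) := by
              refine ENNReal.tsum_le_tsum fun i => ?_
              by_cases hi : i ≤ i0
              · rw [if_pos hi]
                calc _ ≤ ∑' z', th * F (h - T - i) (z - z') := by
                      refine ENNReal.tsum_le_tsum fun z' => ?_
                      by_cases ht : th < p i z'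
                      · simp [ht]
                      · simp only [hi, ht, not_false_eq_true, and_self, if_true]
                        gcongr
                        exact not_lt.1 ht
                  _ = th * ∑' z', F (h - T - i) z' := by
                      rw [ENNReal.tsum_mul_left, tsum_sub]
                  _ ≤ th * 1 := by gcongr; exact hF1 _
                  _ = th := mul_one _
              · simp [hi]
          _ = ∑ i ∈ range (i0 + 1), (if i ≤ i0 then th else 0) := by
              refine tsum_eq_sum fun i hi => ?_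
              rw [Finset.mem_range, not_lt] at hi
              rw [if_neg (by omega)]
          _ = (i0 + 1) * th := by
              rw [Finset.sum_congr rfl fun i hi => if_pos (by
                have := Finset.mem_range.1 hi; omega)]
              simp
      have h2 : ∑' i, ∑' z', (if i ≤ i0 ∧ th < p i z' then p i z' * A i (z - z') else 0)
          ≤ (i0 + 1) * th * (q * ∑ j ∈ range J, q ^ j) := by
        calc _ ≤ ∑' i, ∑' z', (if i ≤ i0 ∧ th < p i z' then p i z' else 0)
                * ((i0 + 1) * th * ∑ j ∈ range J, q ^ j) := by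
              refine ENNReal.tsum_le_tsum fun i => ENNReal.tsum_le_tsum fun z' => ?_
              by_cases hi : i ≤ i0 ∧ th < p i z'
              · rw [if_pos hi, if_pos hi]
                gcongr
                exact (hAB i hi.1).2.1 _
              · simp [if_neg hi]
          _ = (∑' i, ∑' z', (if i ≤ i0 ∧ th < p i z' then p i z' else 0))
                * ((i0 + 1) * th * ∑ j ∈ range J, q ^ j) := by
              rw [← ENNReal.tsum_mul_right]
              refine tsum_congr fun i => ?_
              rw [ENNReal.tsum_mul_right]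
          _ ≤ q * ((i0 + 1) * th * ∑ j ∈ range J, q ^ j) := by gcongr
          _ = _ := by ring
      calc _ = ∑' i, ∑' z', (if i ≤ i0 ∧ ¬ th < p i z' then p i z' * F (h - T - i) (z - z') else 0)
            + ∑' i, ∑' z', (if i ≤ i0 ∧ th < p i z' then p i z' * A i (z - z') else 0) := by
              rw [← ENNReal.tsum_add]
              refine tsum_congr fun i => ?_
              rw [← ENNReal.tsum_add]
        _ ≤ _ := add_le_add h1 h2
    · have hq : q ^ (J + 1) + ε * ∑ j ∈ range (J + 1), q ^ j
          = ε + q * (q ^ J + ε * ∑ j ∈ range J, q ^ j) := by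
        have hq' : ∑ j ∈ range (J + 1), q ^ j = 1 + q * ∑ j ∈ range J, q ^ j := by
          rw [Finset.sum_range_succ', Finset.mul_sum, add_comm]
          simp [pow_succ, mul_comm]
        rw [hq']
        ring
      rw [hq]
      have h1 : ∑' z, ∑' i, ∑' z', (if i0 < i then p i z' * F (h - T - i) (z - z') else 0) ≤ ε := by
        rw [ENNReal.tsum_comm]
        refine le_trans (ENNReal.tsum_le_tsum fun i => ?_) hFar
        have e : ∀ z z', (if i0 < i then p i z' * F (h - T - i) (z - z') else 0)
            = (if i0 < i then p i z' else 0) * F (h - T - i) (z - z') := by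
          intro z z'; by_cases hi : i0 < i <;> simp [hi]
        simp_rw [e]
        rw [tsum_conv]
        calc _ ≤ (∑' z', (if i0 < i then p i z' else 0)) * 1 := by gcongr; exact hF1 _
          _ = _ := mul_one _
      have h2 : ∑' z, ∑' i, ∑' z', (if i ≤ i0 ∧ th < p i z' then p i z' * B i (z - z') else 0)
          ≤ q * (q ^ J + ε * ∑ j ∈ range J, q ^ j) := by
        rw [ENNReal.tsum_comm]
        calc _ ≤ ∑' i, (∑' z', (if i ≤ i0 ∧ th < p i z' then p i z' else 0))
                * (q ^ J + ε * ∑ j ∈ range J, q ^ j) := by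
              refine ENNReal.tsum_le_tsum fun i => ?_
              have e : ∀ z z', (if i ≤ i0 ∧ th < p i z' then p i z' * B i (z - z') else 0)
                  = (if i ≤ i0 ∧ th < p i z' then p i z' else 0) * B i (z - z') := by
                intro z z'; by_cases hi : i ≤ i0 ∧ th < p i z'
                · rw [if_pos hi, if_pos hi]
                · rw [if_neg hi, if_neg hi, zero_mul]
              simp_rw [e]
              rw [tsum_conv]
              by_cases hi : i ≤ i0
              · gcongr
                exact (hAB i hi).2.2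
              · simp [hi]
          _ = (∑' i, ∑' z', (if i ≤ i0 ∧ th < p i z' then p i z' else 0))
                * (q ^ J + ε * ∑ j ∈ range J, q ^ j) := ENNReal.tsum_mul_right
          _ ≤ _ := by gcongr
      calc _ = ∑' z, ∑' i, ∑' z', (if i0 < i then p i z' * F (h - T - i) (z - z') else 0)
            + ∑' z, ∑' i, ∑' z', (if i ≤ i0 ∧ th < p i z' then p i z' * B i (z - z') else 0) := by
              rw [← ENNReal.tsum_add]
              refine tsum_congr fun z => ?_
              rw [← ENNReal.tsum_add]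
              refine tsum_congr fun i => ?_
              rw [← ENNReal.tsum_add]
        _ ≤ _ := add_le_add h1 h2

end dens

section lists

open Crest.Agent.R154.B5A Crest.Agent.R154.FP178

variable {B V : Type*} [AddCommGroup V] (Λ : B → ℝ≥0∞) (ht : B → ℕ) (zz : B → V)

/-- displacement of a list -/
def DS (L : List B) : V := (L.map zz).sum

lemma DS_append (L L' : List B) : DS zz (L ++ L') = DS zz L + DS zz L' := by
  simp [DS]

open Classical in
/-- law of (displacement, height) at the first passage of `a` -/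
noncomputable def Fp (a : ℕ) (v : V × ℤ) : ℝ≥0∞ :=
  ∑' A : List B, if fp ht a A then LW Λ A * (if (DS zz A, (HT ht A : ℤ)) = v then 1 else 0) else 0

open Classical in
/-- one attempt of length `T`: overshoot `i` -/
noncomputable def pT (T i : ℕ) (v : V × ℤ) : ℝ≥0∞ :=
  ∑' A : List B, if fp ht T A then
    LW Λ A * (if (DS zz A, (HT ht A : ℤ)) = v ∧ HT ht A = T + i then 1 else 0) else 0

lemma tsum_Fp (h1 : ∀ b, 1 ≤ ht b) (hΛ : ∑' b, Λ b ≤ 1) (a : ℕ) :
    ∑' v, Fp Λ ht zz a v ≤ 1 := by
  classical
  refine le_trans (le_of_eq ?_) (sum_FP Λ ht h1 hΛ a)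
  simp only [Fp]
  rw [ENNReal.tsum_comm]
  refine tsum_congr fun A => ?_
  by_cases h : fp ht a A
  · simp only [h, if_true]
    rw [ENNReal.tsum_mul_left]
    rw [tsum_eq_single (DS zz A, (HT ht A : ℤ)) (by
      intro v hv; rw [if_neg (fun h => hv h.symm)])]
    simp
  · simp [h]

lemma Fp_rec (h1 : ∀ b, 1 ≤ ht b) (T a : ℕ) (hT : T ≤ a) (v : V × ℤ) :
    Fp Λ ht zz a v ≤ ∑' i, ∑' v', pT Λ ht zz T i v' * Fp Λ ht zz (a - T - i) (v - v') := by
  classical
  have e1 : Fp Λ ht zz a v = ∑' A, (if fp ht T A then LW Λ A *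
      Fp Λ ht zz (a - HT ht A) (v - (DS zz A, (HT ht A : ℤ))) else 0) := by
    rw [Fp, fp_split Λ ht h1 T a hT]
    refine tsum_congr fun A => ?_
    by_cases h : fp ht T A
    · simp only [h, if_true]
      congr 1
      rw [Fp]
      refine tsum_congr fun L => ?_
      by_cases hL : fp ht (a - HT ht A) L
      · simp only [hL, if_true]
        congr 1
        have : ((DS zz (A ++ L), ((HT ht (A ++ L) : ℕ) : ℤ)) = v)
            ↔ ((DS zz L, (HT ht L : ℤ)) = v - (DS zz A, (HT ht A : ℤ))) := by
          rw [eq_sub_iff_add_eq, DS_append, HT_append]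
          rw [Prod.mk_add_mk, add_comm (DS zz L), add_comm ((HT ht L : ℕ) : ℤ)]
          push_cast
          rfl
        by_cases hh : (DS zz (A ++ L), ((HT ht (A ++ L) : ℕ) : ℤ)) = v
        · rw [if_pos hh, if_pos (this.1 hh)]
        · rw [if_neg hh, if_neg (fun h => hh (this.2 h))]
      · simp [hL]
    · simp [h]
  rw [e1]
  simp only [pT]
  simp_rw [← ENNReal.tsum_mul_right]
  -- exchange sums
  have e2 : (∑' (i : ℕ) (v' : V × ℤ) (A : List B), (if fp ht T A then
        LW Λ A * (if (DS zz A, (HT ht A : ℤ)) = v' ∧ HT ht A = T + i then 1 else 0) else 0)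
        * Fp Λ ht zz (a - T - i) (v - v'))
      = ∑' A : List B, ∑' (i : ℕ), ∑' (v' : V × ℤ), (if fp ht T A then
        LW Λ A * (if (DS zz A, (HT ht A : ℤ)) = v' ∧ HT ht A = T + i then 1 else 0) else 0)
        * Fp Λ ht zz (a - T - i) (v - v') := by
    calc _ = ∑' (i : ℕ), ∑' (A : List B), ∑' (v' : V × ℤ), (if fp ht T A then
        LW Λ A * (if (DS zz A, (HT ht A : ℤ)) = v' ∧ HT ht A = T + i then 1 else 0) else 0)
        * Fp Λ ht zz (a - T - i) (v - v') := tsum_congr fun i => ENNReal.tsum_comm
      _ = _ := ENNReal.tsum_comm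
  rw [e2]
  refine ENNReal.tsum_le_tsum fun A => ?_
  by_cases h : fp ht T A
  · simp only [h, if_true]
    have hle := le_HT_of_fp ht h
    refine le_trans ?_ (ENNReal.le_tsum (HT ht A - T))
    refine le_trans ?_ (ENNReal.le_tsum (DS zz A, (HT ht A : ℤ)))
    have e : HT ht A = T + (HT ht A - T) := by omega
    rw [if_pos ⟨rfl, e⟩, mul_one]
    have e' : a - T - (HT ht A - T) = a - HT ht A := by omega
    rw [e']
  · simp [h]

/-- **smooth density on first-passage lists**, total form -/
theorem dens_fp (h1 : ∀ b, 1 ≤ ht b) (hΛ : ∑' b, Λ b ≤ 1) (T i0 : ℕ) (th q ε : ℝ≥0∞)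
    (hNG : ∑' i, ∑' v, (if i ≤ i0 ∧ th < pT Λ ht zz T i v then pT Λ ht zz T i v else 0) ≤ q)
    (hFar : ∑' i, ∑' v, (if i0 < i then pT Λ ht zz T i v else 0) ≤ ε) (J a : ℕ)
    (ha : J * (T + i0) ≤ a) :
    ∃ Ag Bb : V × ℤ → ℝ≥0∞, (∀ v, Fp Λ ht zz a v ≤ Ag v + Bb v) ∧
      (∀ v, Ag v ≤ (i0 + 1) * th * ∑ j ∈ range J, q ^ j) ∧
      ∑' v, Bb v ≤ q ^ J + ε * ∑ j ∈ range J, q ^ j :=
  dens_tot (Fp Λ ht zz) (pT Λ ht zz T) T (fun a hT v => Fp_rec Λ ht zz h1 T a hT v)
    (tsum_Fp Λ ht zz h1 hΛ) i0 th q ε hNG hFar J a ha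

end lists

end Crest.Agent.R154.DensT600
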