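import Crest.Agent.R154.HomeLin_775

/-!
Row 154, HOME MASS (263 #36390 + 209 CHANGE B): the tail of the displacement over `m` levels is
linear in `m / N`: `K * P(∃ cut l ≤ m, |U_l - α l| > 2 D) ≤ 2 ν / p` if `K m ≤ N` and
`P(∃ cut l ≤ N, |U_l - α l| > D) ≤ ν` (helper775).
-/

set_option autoImplicit false
set_option linter.unusedSectionVars false
set_option linter.unusedVariables false

namespace Crest.Agent.R154.Div775

open MeasureTheory Filter Set Crest.Agent.R154.B4 Crest.Agent.R154.MobW437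
open scoped ENNReal Topology

/-- Bonferroni -/
lemma bonferroni {Ω : Type*} [MeasurableSpace Ω] {P : Measure Ω} [IsProbabilityMeasure P]
    (G : ℕ → Set Ω) (hG : ∀ j, MeasurableSet (G j)) {a b : ℝ} (hb0 : 0 ≤ b) (n : ℕ)
    (h1 : ∀ j < n, a ≤ P.real (G j))
    (h2 : ∀ i j, i < j → j < n → P.real (G i ∩ G j) ≤ b) :
    n * a - n ^ 2 * b ≤ P.real (⋃ j ∈ Finset.range n, G j) := by
  induction n with
  | zero => simp
  | succ n ih =>
    have ih' := ih (fun j hj => h1 j (by omega)) (fun i j hij hj => h2 i j hij (by omega))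
    have e1 : (⋃ j ∈ Finset.range (n + 1), G j) = (⋃ j ∈ Finset.range n, G j) ∪ G n := by
      rw [Finset.range_add_one, Finset.set_biUnion_insert, union_comm]
    have hUm : MeasurableSet (⋃ j ∈ Finset.range n, G j) :=
      Finset.measurableSet_biUnion _ fun j _ => hG j
    have e2 := measureReal_union_add_inter (μ := P) (s := ⋃ j ∈ Finset.range n, G j) (hG n)
      (h₁ := measure_ne_top _ _)
    have e3 : P.real ((⋃ j ∈ Finset.range n, G j) ∩ G n) ≤ n * b := by
      have : (⋃ j ∈ Finset.range n, G j) ∩ G n = ⋃ j ∈ Finset.range n, (G j ∩ G n) := by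
        rw [iUnion₂_inter]
      rw [this]
      refine (measureReal_biUnion_finset_le _ _).trans ?_
      refine (Finset.sum_le_sum fun j hj => h2 j n (Finset.mem_range.1 hj) (by omega)).trans ?_
      simp
    have h3 := h1 n (by omega)
    rw [e1]
    push_cast
    nlinarith

variable {Ω : Type*} [mΩ : MeasurableSpace Ω] {P : Measure Ω}

/-- **The tail over `m` levels is linear in `m / N`.** -/
theorem diversify_tail [IsProbabilityMeasure P] (L : LP P) (i : Fin 2) {N m K : ℕ} {D α ν : ℝ}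
    (hK : 1 ≤ K) (hKm : K * m ≤ N)
    (h : P.real {ω | ∃ l ≤ N, ω ∈ L.C l ∧ D < |L.U l ω i - α * l|} ≤ ν)
    (hν : 8 * ν < L.p ^ 2) :
    K * P.real {ω | ∃ l ≤ m, ω ∈ L.C l ∧ 2 * D < |L.U l ω i - α * l|} ≤ 2 * ν / L.p := by
  have hp := L.p_pos
  have hC : ∀ j, L.p ≤ P.real (L.C j) := by
    intro j
    have h1 : ENNReal.ofReal L.p ≤ P (L.C j) := by
      have := L.cut j univ MeasurableSet.univ
      simpa using this
    exact (ENNReal.ofReal_le_iff_le_toReal (measure_ne_top _ _)).1 h1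
  have hp1 : L.p ≤ 1 := (hC 0).trans measureReal_le_one
  have hν0 : 0 ≤ ν := measureReal_nonneg.trans h
  -- letters
  set S : ℝ → ℕ → Set Ω := fun x j => {ω | x < |L.U j ω i - α * j|} with hS
  have hSF : ∀ x j, MeasurableSet[L.F j] (S x j) := by
    intro x j
    have hset : MeasurableSet {y : ℝ | x < |y - α * j|} :=
      measurableSet_lt measurable_const ((measurable_id.sub_const (α * j)).abs)
    exact (measurable_pi_apply i).comp (L.U_meas j) hset
  set E : Set Ω := {ω | ∃ l ≤ m, ω ∈ L.C l ∧ 2 * D < |L.U l ω i - α * l|} with hE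
  have hEeq : E = ⋃ l ∈ Finset.range (m + 1), (L.C l ∩ S (2 * D) l) := by
    ext ω
    simp only [hE, hS, mem_ofPred_eq, mem_iUnion, Finset.mem_range, mem_inter_iff, exists_prop]
    constructor
    · rintro ⟨l, hl, h1, h2⟩; exact ⟨l, by omega, h1, h2⟩
    · rintro ⟨l, hl, h1, h2⟩; exact ⟨l, by omega, h1, h2⟩
  have hEm : MeasurableSet E := by
    rw [hEeq]
    exact Finset.measurableSet_biUnion _ fun l _ => (L.C_meas l).inter (L.F_le l _ (hSF _ l))
  set q : ℝ := P.real E with hq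
  have hq0 : 0 ≤ q := measureReal_nonneg
  -- the events
  set G : ℕ → Set Ω := fun j => L.C (j * m) ∩ L.θ (j * m) ⁻¹' E with hG
  have hGm : ∀ j, MeasurableSet (G j) := fun j => (L.C_meas _).inter (L.θ_meas _ hEm)
  have hren : ∀ l B, MeasurableSet B →
      P.real (L.C l ∩ L.θ l ⁻¹' B) = P.real (L.C l) * P.real B := by
    intro l B hB
    have := L.ren l univ B MeasurableSet.univ hB
    rw [univ_inter] at this
    rw [measureReal_def, this, ENNReal.toReal_mul]
    rfl
  have hG1 : ∀ j, L.p * q ≤ P.real (G j) := by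
    intro j
    rw [hren _ _ hEm]
    exact mul_le_mul_of_nonneg_right (hC _) hq0
  -- pairs
  have hpair0 : ∀ k, m ≤ k → P.real (E ∩ (L.C k ∩ L.θ k ⁻¹' E)) ≤ q ^ 2 := by
    intro k hk
    -- on `C k` the event `E` is `F k`-measurable
    set E' : Set Ω := ⋃ l ∈ Finset.range (m + 1), (L.D l (k - l) ∩ S (2 * D) l) with hE'
    have hE'F : MeasurableSet[L.F k] E' := by
      refine Finset.measurableSet_biUnion _ fun l hl => ?_
      have hlk : l ≤ k := by have := Finset.mem_range.1 hl; omega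
      have h1 := L.D_meas l (k - l)
      rw [Nat.add_sub_cancel' hlk] at h1
      exact h1.inter (L.F_mono hlk _ (hSF _ l))
    have hEE' : E ∩ L.C k = E' ∩ L.C k := by
      rw [hEeq]
      ext ω
      simp only [hE', mem_inter_iff, mem_iUnion, Finset.mem_range, exists_prop]
      constructor
      · rintro ⟨⟨l, hl, h1, h2⟩, h3⟩
        exact ⟨⟨l, hl, L.C_sub_D l (k - l) h1, h2⟩, h3⟩
      · rintro ⟨⟨l, hl, h1, h2⟩, h3⟩
        refine ⟨⟨l, hl, L.D_inter l (k - l) ⟨h1, ?_⟩, h2⟩, h3⟩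
        rw [Nat.add_sub_cancel' (by omega : l ≤ k)]
        exact h3
    have e1 : E ∩ (L.C k ∩ L.θ k ⁻¹' E) = E' ∩ L.C k ∩ L.θ k ⁻¹' E := by
      rw [← inter_assoc, hEE']
    rw [e1, measureReal_def, L.ren k _ _ hE'F hEm, ENNReal.toReal_mul, ← measureReal_def,
      ← measureReal_def, ← hEE', sq]
    exact mul_le_mul_of_nonneg_right (measureReal_mono inter_subset_left (measure_ne_top _ _)) hq0
  have hG2 : ∀ a b, a < b → P.real (G a ∩ G b) ≤ q ^ 2 := by
    intro a b hab
    obtain ⟨k, rfl⟩ : ∃ k, b = a + k := ⟨b - a, by omega⟩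
    have hk : 1 ≤ k := by omega
    have hmk : m ≤ k * m := Nat.le_mul_of_pos_left m hk
    have hsub : G a ∩ G (a + k) ⊆
        L.C (a * m) ∩ L.θ (a * m) ⁻¹' (E ∩ (L.C (k * m) ∩ L.θ (k * m) ⁻¹' E)) := by
      rintro ω ⟨⟨h1, h2⟩, ⟨h3, h4⟩⟩
      refine ⟨h1, h2, ?_, ?_⟩
      · have : (a + k) * m = a * m + k * m := by ring
        rw [this] at h3
        exact (L.C_add _ _ ω).1 h3
      · have : (a + k) * m = a * m + k * m := by ring
        have h5 : L.θ ((a + k) * m) ω ∈ E := h4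
        rw [this, L.θ_add] at h5
        exact h5
    refine (measureReal_mono hsub (measure_ne_top _ _)).trans ?_
    rw [hren _ _ (hEm.inter ((L.C_meas _).inter (L.θ_meas _ hEm)))]
    have h1 := hpair0 (k * m) hmk
    have h2 : P.real (L.C (a * m)) ≤ 1 := measureReal_le_one
    have h3 : 0 ≤ P.real (E ∩ (L.C (k * m) ∩ L.θ (k * m) ⁻¹' E)) := measureReal_nonneg
    nlinarith [measureReal_nonneg (μ := P) (s := L.C (a * m))]
  -- each `G j` is bad at scale `N`
  have hbad : ∀ j, j < K → G j ⊆ {ω | ∃ l ≤ N, ω ∈ L.C l ∧ D < |L.U l ω i - α * l|} := by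
    intro j hj ω hω
    obtain ⟨h1, h2⟩ := hω
    obtain ⟨l, hl, h3, h4⟩ : ∃ l ≤ m, L.θ (j * m) ω ∈ L.C l ∧
      2 * D < |L.U l (L.θ (j * m) ω) i - α * l| := h2
    have hjm : j * m + l ≤ N := by
      have : (j + 1) * m ≤ K * m := Nat.mul_le_mul_right m hj
      nlinarith
    by_contra hcon
    have hcon' : ∀ t ≤ N, ω ∈ L.C t → |L.U t ω i - α * t| ≤ D := by
      intro t ht hCt
      by_contra h5
      exact hcon ⟨t, ht, hCt, not_le.1 h5⟩
    have b1 := hcon' (j * m) (by omega) h1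
    have b2 := hcon' (j * m + l) hjm ((L.C_add _ _ ω).2 h3)
    have e1 : L.U (j * m + l) ω i = L.U (j * m) ω i + L.U l (L.θ (j * m) ω) i := by
      rw [L.U_add, Pi.add_apply]
    have e2 : L.U l (L.θ (j * m) ω) i - α * l =
        (L.U (j * m + l) ω i - α * ((j * m + l : ℕ) : ℝ)) -
          (L.U (j * m) ω i - α * ((j * m : ℕ) : ℝ)) := by
      rw [e1]; push_cast; ring
    rw [e2] at h4
    have h5 := abs_sub (L.U (j * m + l) ω i - α * ((j * m + l : ℕ) : ℝ))
      (L.U (j * m) ω i - α * ((j * m : ℕ) : ℝ))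
    linarith
  have hunion : ∀ n ≤ K, P.real (⋃ j ∈ Finset.range n, G j) ≤ ν := by
    intro n hn
    refine (measureReal_mono ?_ (measure_ne_top _ _)).trans h
    exact iUnion₂_subset fun j hj => hbad j (by have := Finset.mem_range.1 hj; omega)
  have hbon : ∀ n ≤ K, n * (L.p * q) - n ^ 2 * q ^ 2 ≤ ν := fun n hn =>
    (bonferroni G hGm (sq_nonneg q) n (fun j _ => hG1 j) (fun a b hab _ => hG2 a b hab)).trans
      (hunion n hn)
  -- `2 K q ≤ p`
  have hKq : 2 * ((K : ℝ) * q) ≤ L.p := by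
    by_contra hcon
    push Not at hcon
    -- first `n` with `2 n q > p`
    have hex : ∃ n : ℕ, L.p < 2 * ((n : ℝ) * q) := ⟨K, hcon⟩
    classical
    obtain hn := Nat.find_spec hex
    set n := Nat.find hex with hndef
    have hnK : n ≤ K := Nat.find_min' hex hcon
    have hn0 : n ≠ 0 := by
      intro h0
      rw [h0] at hn
      simp at hn
      linarith
    have hn1 : ¬ L.p < 2 * (((n - 1 : ℕ) : ℝ) * q) := Nat.find_min hex (by omega)
    push Not at hn1
    have hcast : ((n - 1 : ℕ) : ℝ) = n - 1 := by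
      rw [Nat.cast_sub (by omega)]; simp
    rw [hcast] at hn1
    have hb := hbon n hnK
    -- `q ≤ ν` from `n = 1`
    have hb1 : P.real (G 0) ≤ ν :=
      (measureReal_mono (hbad 0 (by omega)) (measure_ne_top _ _)).trans h
    have hqν : L.p * q ≤ ν := (hG1 0).trans hb1
    -- `x = n q`, `p/2 < x ≤ p/2 + q`, `x (p - x) ≤ ν`
    set x : ℝ := n * q with hx
    have hx1 : L.p < 2 * x := hn
    have hx2 : x ≤ L.p / 2 + q := by
      have : x = (n - 1) * q + q := by rw [hx]; ring
      linarith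
    have hx3 : x * (L.p - x) ≤ ν := by
      have : (n : ℝ) * (L.p * q) - n ^ 2 * q ^ 2 = x * (L.p - x) := by rw [hx]; ring
      linarith
    have hq4 : q < L.p / 8 := by
      have : L.p * (8 * q) < L.p * L.p := by nlinarith
      have := lt_of_mul_lt_mul_left this hp.le
      linarith
    -- `x ∈ (p/2, 5p/8)`: `x (p - x) ≥ 15/64 p² > ν`
    have h6 : 0 ≤ (x - 3 * L.p / 8) * (5 * L.p / 8 - x) :=
      mul_nonneg (by linarith) (by linarith)
    nlinarith [sq_nonneg L.p, mul_pos hp hp]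
  have hfin := hbon K le_rfl
  rw [le_div_iff₀ hp]
  nlinarith

end Crest.Agent.R154.Div775
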