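import Mathlib

/-! Row 154, KAPPA' (801 #38888, fix of (3)(a')): dyadic (base 4) split of the weight at the hit with a
weight-dependent threshold `lam / 2^j` (helper431).  Class `j`: weight in `(M/4^(j+1), M/4^j]`.
(a'_j) `<= 4 * lam / 2^j` by Doob, (b'_j) `<= M * N * u / (lam * 2^j)`.  Total `8 lam + 2 M N u / lam`. -/

set_option autoImplicit false

open MeasureTheory
open scoped ENNReal

namespace Crest.Agent.R154.Dyad431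

/-- the dyadic class of a weight -/
lemma exists_class (M w : ℝ≥0∞) (hM : M ≠ ⊤) (hw : w ≤ M) (h0 : w ≠ 0) :
    ∃ j : ℕ, M * (4⁻¹ : ℝ≥0∞) ^ (j + 1) < w ∧ w ≤ M * (4⁻¹ : ℝ≥0∞) ^ j := by
  classical
  have hex : ∃ n : ℕ, M * (4⁻¹ : ℝ≥0∞) ^ n < w := by
    have h4 : (4⁻¹ : ℝ≥0∞) < 1 := by
      rw [ENNReal.inv_lt_one]; norm_num
    have ht : Filter.Tendsto (fun n : ℕ => M * (4⁻¹ : ℝ≥0∞) ^ n) Filter.atTop (nhds (M * 0)) :=
      ENNReal.Tendsto.const_mul (ENNReal.tendsto_pow_atTop_nhds_zero_of_lt_one h4) (Or.inr hM)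
    rw [mul_zero] at ht
    exact ((tendsto_order.1 ht).2 w (pos_iff_ne_zero.2 h0)).exists
  have hspec := Nat.find_spec hex
  set n := Nat.find hex with hn
  have hn0 : n ≠ 0 := by
    intro h
    rw [h] at hspec
    simp only [pow_zero, mul_one] at hspec
    exact absurd hspec (not_lt.2 hw)
  obtain ⟨k, hk⟩ := Nat.exists_eq_succ_of_ne_zero hn0
  refine ⟨k, ?_, ?_⟩
  · rw [hk] at hspec; exact hspec
  · have := Nat.find_min hex (m := k) (by omega)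
    exact not_lt.1 this

lemma tsum_half : ∑' j : ℕ, (2⁻¹ : ℝ≥0∞) ^ j = 2 := by
  rw [ENNReal.tsum_geometric, ENNReal.one_sub_inv_two, inv_inv]

/-- Summation of the two parts. -/
theorem dyad_sum {Ω ι : Type*} [MeasurableSpace Ω] [Countable ι] (Q : Measure Ω)
    (M lam N u : ℝ≥0∞) (hl0 : lam ≠ 0) (hl : lam ≠ ⊤)
    (cont : ι → Ω → ℝ≥0∞) (A H : ι → ℕ → Ω → ℝ≥0∞) (m : ι → ℝ≥0∞)
    (hAm : ∀ x j, Measurable (A x j)) (hHm : ∀ x j, Measurable (H x j))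
    (hc : ∀ x ω, cont x ω ≤ ∑' j : ℕ, M * (4⁻¹ : ℝ≥0∞) ^ j *
      (A x j ω * (lam * (2⁻¹ : ℝ≥0∞) ^ j) + H x j ω))
    (hA : ∀ x j, (M * (4⁻¹ : ℝ≥0∞) ^ (j + 1)) * ∫⁻ ω, A x j ω ∂Q ≤ m x)
    (hH : ∀ j, (lam * (2⁻¹ : ℝ≥0∞) ^ j) * ∑' x, ∫⁻ ω, H x j ω ∂Q ≤ N * u)
    (hm : ∑' x, m x ≤ 1) :
    ∑' x, ∫⁻ ω, cont x ω ∂Q ≤ 8 * lam + 2 * (M * (N * u) / lam) := by
  have hpow : ∀ j : ℕ, (4⁻¹ : ℝ≥0∞) ^ j = (2⁻¹ : ℝ≥0∞) ^ j * (2⁻¹ : ℝ≥0∞) ^ j := by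
    intro j
    rw [← mul_pow, ← ENNReal.mul_inv (by norm_num) (by norm_num)]
    norm_num
  have h2ne : ∀ j : ℕ, (2⁻¹ : ℝ≥0∞) ^ j ≠ 0 := fun j => pow_ne_zero _ (by simp)
  have h2top : ∀ j : ℕ, (2⁻¹ : ℝ≥0∞) ^ j ≠ ⊤ := fun j => ENNReal.pow_ne_top (by simp)
  -- per x
  have h1 : ∀ x, ∫⁻ ω, cont x ω ∂Q ≤ ∑' j : ℕ, (4 * lam * (2⁻¹ : ℝ≥0∞) ^ j * m x +
      M * (4⁻¹ : ℝ≥0∞) ^ j * ∫⁻ ω, H x j ω ∂Q) := by
    intro x
    refine (lintegral_mono (hc x)).trans ?_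
    have hms : ∀ j : ℕ, AEMeasurable (fun ω => M * (4⁻¹ : ℝ≥0∞) ^ j *
        (A x j ω * (lam * (2⁻¹ : ℝ≥0∞) ^ j) + H x j ω)) Q := fun j =>
      ((((hAm x j).mul_const _).add (hHm x j)).const_mul _).aemeasurable
    rw [lintegral_tsum hms]
    refine ENNReal.tsum_le_tsum fun j => ?_
    have hm2 : Measurable fun ω => A x j ω * (lam * (2⁻¹ : ℝ≥0∞) ^ j) + H x j ω :=
      ((hAm x j).mul_const _).add (hHm x j)
    rw [lintegral_const_mul _ hm2,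
      lintegral_add_left ((hAm x j).mul_const _), lintegral_mul_const _ (hAm x j), mul_add]
    refine add_le_add ?_ le_rfl
    calc M * (4⁻¹ : ℝ≥0∞) ^ j * ((∫⁻ ω, A x j ω ∂Q) * (lam * (2⁻¹ : ℝ≥0∞) ^ j))
        = 4 * lam * (2⁻¹ : ℝ≥0∞) ^ j *
            ((M * (4⁻¹ : ℝ≥0∞) ^ (j + 1)) * ∫⁻ ω, A x j ω ∂Q) := by
          have h4 : (4 : ℝ≥0∞) * 4⁻¹ = 1 := ENNReal.mul_inv_cancel (by norm_num) (by norm_num)
          rw [pow_succ]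
          calc M * (4⁻¹ : ℝ≥0∞) ^ j * ((∫⁻ ω, A x j ω ∂Q) * (lam * (2⁻¹ : ℝ≥0∞) ^ j))
              = 1 * (M * (4⁻¹ : ℝ≥0∞) ^ j * ((∫⁻ ω, A x j ω ∂Q) * (lam * (2⁻¹ : ℝ≥0∞) ^ j))) := by
                rw [one_mul]
            _ = (4 * 4⁻¹) * (M * (4⁻¹ : ℝ≥0∞) ^ j *
                  ((∫⁻ ω, A x j ω ∂Q) * (lam * (2⁻¹ : ℝ≥0∞) ^ j))) := by rw [h4]
            _ = _ := by ring
      _ ≤ 4 * lam * (2⁻¹ : ℝ≥0∞) ^ j * m x := by gcongr; exact hA x j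
  refine (ENNReal.tsum_le_tsum h1).trans ?_
  rw [ENNReal.tsum_comm]
  have h2 : ∀ j : ℕ, ∑' x, (4 * lam * (2⁻¹ : ℝ≥0∞) ^ j * m x +
      M * (4⁻¹ : ℝ≥0∞) ^ j * ∫⁻ ω, H x j ω ∂Q)
      ≤ 4 * lam * (2⁻¹ : ℝ≥0∞) ^ j + (M * (N * u) / lam) * (2⁻¹ : ℝ≥0∞) ^ j := by
    intro j
    rw [ENNReal.tsum_add, ENNReal.tsum_mul_left, ENNReal.tsum_mul_left]
    refine add_le_add ?_ ?_
    · calc 4 * lam * (2⁻¹ : ℝ≥0∞) ^ j * ∑' x, m x ≤ 4 * lam * (2⁻¹ : ℝ≥0∞) ^ j * 1 := by gcongr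
        _ = _ := mul_one _
    · have h3 : ∑' x, ∫⁻ ω, H x j ω ∂Q ≤ (N * u) / (lam * (2⁻¹ : ℝ≥0∞) ^ j) := by
        rw [ENNReal.le_div_iff_mul_le (Or.inl (mul_ne_zero hl0 (h2ne j)))
          (Or.inl (ENNReal.mul_ne_top hl (h2top j))), mul_comm]
        exact hH j
      calc M * (4⁻¹ : ℝ≥0∞) ^ j * ∑' x, ∫⁻ ω, H x j ω ∂Q
          ≤ M * (4⁻¹ : ℝ≥0∞) ^ j * ((N * u) / (lam * (2⁻¹ : ℝ≥0∞) ^ j)) := by gcongr
        _ = (M * (N * u) / lam) * (2⁻¹ : ℝ≥0∞) ^ j := by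
          rw [hpow j, ENNReal.div_eq_inv_mul, ENNReal.div_eq_inv_mul,
            ENNReal.mul_inv (Or.inl hl0) (Or.inl hl)]
          have hc2 : ((2⁻¹ : ℝ≥0∞) ^ j)⁻¹ * (2⁻¹ : ℝ≥0∞) ^ j = 1 :=
            ENNReal.inv_mul_cancel (h2ne j) (h2top j)
          calc M * ((2⁻¹ : ℝ≥0∞) ^ j * (2⁻¹ : ℝ≥0∞) ^ j) * (lam⁻¹ * ((2⁻¹ : ℝ≥0∞) ^ j)⁻¹ * (N * u))
              = (((2⁻¹ : ℝ≥0∞) ^ j)⁻¹ * (2⁻¹ : ℝ≥0∞) ^ j) *
                  (lam⁻¹ * (M * (N * u)) * (2⁻¹ : ℝ≥0∞) ^ j) := by ring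
            _ = lam⁻¹ * (M * (N * u)) * (2⁻¹ : ℝ≥0∞) ^ j := by rw [hc2, one_mul]
  refine (ENNReal.tsum_le_tsum h2).trans ?_
  rw [ENNReal.tsum_add, ENNReal.tsum_mul_left, ENNReal.tsum_mul_left, tsum_half]
  refine add_le_add (le_of_eq ?_) (le_of_eq (mul_comm _ _))
  ring

open Classical in
/-- The pathwise split: `S` = words of `X` stopped at the hit, `T` = words of `Y`.  `rel r s` = "`s` first
hits `r` at its end, `r` local"; `wt` = weight; `lv` = `e(v)` at the hit site. -/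
theorem split_words {S T : Type*} (M lam : ℝ≥0∞) (hM : M ≠ ⊤)
    (qX : S → ℝ≥0∞) (qY : T → ℝ≥0∞) (rel : T → S → Prop) (wt lv : S → ℝ≥0∞)
    (bad : ℕ → T → Prop) (A H : ℕ → ℝ≥0∞)
    (hwt : ∀ s, wt s ≤ M)
    (hbad : ∀ r s j, rel r s → lv s ≤ lam * (2⁻¹ : ℝ≥0∞) ^ j → bad j r)
    (hY : ∑' r, qY r ≤ 1)
    (hB : ∀ j, (∑' r, if bad j r then qY r else 0) ≤ lam * (2⁻¹ : ℝ≥0∞) ^ j)
    (hA : ∀ r j, (∑' s, if rel r s ∧ M * (4⁻¹ : ℝ≥0∞) ^ (j + 1) < wt s then qX s else 0) ≤ A j)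
    (hH : ∀ r j, (∑' s, if rel r s ∧ lam * (2⁻¹ : ℝ≥0∞) ^ j < lv s then qX s else 0) ≤ H j) :
    (∑' r, ∑' s, if rel r s then qY r * qX s * wt s else 0)
      ≤ ∑' j : ℕ, M * (4⁻¹ : ℝ≥0∞) ^ j * (A j * (lam * (2⁻¹ : ℝ≥0∞) ^ j) + H j) := by
  -- pointwise
  have hp : ∀ r s, (if rel r s then qY r * qX s * wt s else 0)
      ≤ ∑' j : ℕ, (M * (4⁻¹ : ℝ≥0∞) ^ j) *
        ((if bad j r then qY r else 0) *
            (if rel r s ∧ M * (4⁻¹ : ℝ≥0∞) ^ (j + 1) < wt s then qX s else 0)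
          + qY r * (if rel r s ∧ lam * (2⁻¹ : ℝ≥0∞) ^ j < lv s then qX s else 0)) := by
    intro r s
    by_cases hr : rel r s
    · by_cases h0 : wt s = 0
      · simp [hr, h0]
      obtain ⟨j, hj1, hj2⟩ := exists_class M (wt s) hM (hwt s) h0
      refine le_trans ?_ (ENNReal.le_tsum j)
      rw [if_pos hr]
      rcases le_or_gt (lv s) (lam * (2⁻¹ : ℝ≥0∞) ^ j) with hle | hgt
      · have hb : bad j r := hbad r s j hr hle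
        rw [if_pos hb, if_pos ⟨hr, hj1⟩]
        calc qY r * qX s * wt s ≤ qY r * qX s * (M * (4⁻¹ : ℝ≥0∞) ^ j) := by gcongr
          _ = (M * (4⁻¹ : ℝ≥0∞) ^ j) * (qY r * qX s) := by ring
          _ ≤ _ := by gcongr; exact le_self_add
      · rw [if_pos (⟨hr, hgt⟩ : rel r s ∧ lam * (2⁻¹ : ℝ≥0∞) ^ j < lv s)]
        calc qY r * qX s * wt s ≤ qY r * qX s * (M * (4⁻¹ : ℝ≥0∞) ^ j) := by gcongr
          _ = (M * (4⁻¹ : ℝ≥0∞) ^ j) * (qY r * qX s) := by ring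
          _ ≤ _ := by gcongr; exact le_add_self
    · simp [hr]
  calc (∑' r, ∑' s, if rel r s then qY r * qX s * wt s else 0)
      ≤ ∑' r, ∑' s, ∑' j : ℕ, (M * (4⁻¹ : ℝ≥0∞) ^ j) *
        ((if bad j r then qY r else 0) *
            (if rel r s ∧ M * (4⁻¹ : ℝ≥0∞) ^ (j + 1) < wt s then qX s else 0)
          + qY r * (if rel r s ∧ lam * (2⁻¹ : ℝ≥0∞) ^ j < lv s then qX s else 0)) :=
        ENNReal.tsum_le_tsum fun r => ENNReal.tsum_le_tsum fun s => hp r s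
    _ = ∑' j : ℕ, ∑' r, (M * (4⁻¹ : ℝ≥0∞) ^ j) *
        ((if bad j r then qY r else 0) *
            (∑' s, if rel r s ∧ M * (4⁻¹ : ℝ≥0∞) ^ (j + 1) < wt s then qX s else 0)
          + qY r * (∑' s, if rel r s ∧ lam * (2⁻¹ : ℝ≥0∞) ^ j < lv s then qX s else 0)) := by
        refine Eq.trans (tsum_congr fun r => ENNReal.tsum_comm) ?_
        refine Eq.trans ENNReal.tsum_comm ?_
        refine tsum_congr fun j => tsum_congr fun r => ?_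
        rw [ENNReal.tsum_mul_left, ENNReal.tsum_add, ENNReal.tsum_mul_left, ENNReal.tsum_mul_left]
    _ ≤ _ := by
        refine ENNReal.tsum_le_tsum fun j => ?_
        rw [ENNReal.tsum_mul_left]
        gcongr
        rw [ENNReal.tsum_add]
        refine add_le_add ?_ ?_
        · calc (∑' r, (if bad j r then qY r else 0) *
              (∑' s, if rel r s ∧ M * (4⁻¹ : ℝ≥0∞) ^ (j + 1) < wt s then qX s else 0))
              ≤ ∑' r, (if bad j r then qY r else 0) * A j :=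
                ENNReal.tsum_le_tsum fun r => by gcongr; exact hA r j
            _ = (∑' r, (if bad j r then qY r else 0)) * A j := ENNReal.tsum_mul_right
            _ ≤ (lam * (2⁻¹ : ℝ≥0∞) ^ j) * A j := by gcongr; exact hB j
            _ = _ := mul_comm _ _
        · calc (∑' r, qY r * (∑' s, if rel r s ∧ lam * (2⁻¹ : ℝ≥0∞) ^ j < lv s then qX s else 0))
              ≤ ∑' r, qY r * H j := ENNReal.tsum_le_tsum fun r => by gcongr; exact hH r j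
            _ = (∑' r, qY r) * H j := ENNReal.tsum_mul_right
            _ ≤ 1 * H j := by gcongr
            _ = _ := one_mul _

end Crest.Agent.R154.Dyad431
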