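import Crest.Agent.R154.Flux2_566
import Crest.Agent.R154.B5Abs_566
import Crest.Agent.R154.Dyad_431

/-! Row 154, KAPPA' (801 #38888), word tools (helper431): prefix-free sets, Kraft, Ville (Doob) in words,
strong Markov of a word at its first visit of a set. -/

set_option autoImplicit false

open MeasureTheory ProbabilityTheory Crest.ProbabilityR.RandomEnvironment
open scoped ENNReal

namespace Crest.Agent.R154.DoobW431

open Crest.Agent.R154.Flux566 (lw endp sitesL)

section abs

variable {α : Type*}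

/-- prefix-free -/
def PF (W : Set (List α)) : Prop := ∀ l ∈ W, ∀ l' ∈ W, l <+: l' → l = l'

lemma PF.mono {W W' : Set (List α)} (h : PF W) (h' : W' ⊆ W) : PF W' :=
  fun l hl l' hl' hp => h l (h' hl) l' (h' hl') hp

lemma pf_unique {P : Set (List α)} (hP : PF P) {γ γ' ξ : List α} (h : γ ∈ P) (h' : γ' ∈ P)
    (h1 : γ <+: ξ) (h2 : γ' <+: ξ) : γ = γ' := by
  rcases List.prefix_or_prefix_of_prefix h1 h2 with h3 | h3
  · exact hP γ h γ' h' h3
  · exact (hP γ' h' γ h h3).symm

open Classical in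
/-- Ville / Doob in words: no martingale, only prefix-freeness. -/
theorem ville {P : Set (List α)} (hP : PF P) (a f : List α → ℝ≥0∞) (c : ℝ≥0∞)
    (h : ∀ γ ∈ P, c * a γ ≤ ∑' ξ, if γ <+: ξ then f ξ else 0) :
    c * ∑' γ, (if γ ∈ P then a γ else 0) ≤ ∑' ξ, f ξ := by
  rw [← ENNReal.tsum_mul_left]
  calc ∑' γ, c * (if γ ∈ P then a γ else 0)
      ≤ ∑' γ, ∑' ξ, (if γ ∈ P ∧ γ <+: ξ then f ξ else 0) := by
        refine ENNReal.tsum_le_tsum fun γ => ?_
        by_cases hγ : γ ∈ P
        · simp only [hγ, if_true, true_and]; exact h γ hγ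
        · simp [hγ]
    _ = ∑' ξ, ∑' γ, (if γ ∈ P ∧ γ <+: ξ then f ξ else 0) := ENNReal.tsum_comm
    _ ≤ ∑' ξ, f ξ := by
        refine ENNReal.tsum_le_tsum fun ξ => ?_
        by_cases hex : ∃ γ ∈ P, γ <+: ξ
        · obtain ⟨γ, hγ, hp⟩ := hex
          rw [tsum_eq_single γ]
          · simp [hγ, hp]
          · intro γ' hne
            rw [if_neg]
            rintro ⟨h1, h2⟩
            exact hne (pf_unique hP h1 hγ h2 hp)
        · have : ∀ γ, (if γ ∈ P ∧ γ <+: ξ then f ξ else 0) = 0 := fun γ => by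
            rw [if_neg]; exact fun h => hex ⟨γ, h.1, h.2⟩
          simp [this]

end abs

variable {d : ℕ}

lemma lw_append (ω : Environment d) (l l' : List (Step d)) (x : Site d) :
    lw ω x (l ++ l') = lw ω x l * lw ω (endp x l) l' := by
  induction l generalizing x with
  | nil => simp [lw, endp]
  | cons e l ih => simp only [List.cons_append, lw, endp, ih, mul_assoc]

lemma sum_row (p : Row d) : ∑ e, ENNReal.ofReal (p.1 e) = 1 := by
  rw [← ENNReal.ofReal_sum_of_nonneg (fun e _ => p.2.1 e), p.2.2, ENNReal.ofReal_one]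

open Classical in
lemma kraft_len (ω : Environment d) (N : ℕ) : ∀ (x : Site d) (W : Set (List (Step d))), PF W →
    (∀ l ∈ W, l.length ≤ N) → ∑' l, (if l ∈ W then lw ω x l else 0) ≤ 1 := by
  induction N with
  | zero =>
    intro x W hW hN
    rw [tsum_eq_single []]
    · split_ifs
      · simp [lw]
      · simp
    · intro l hl
      rw [if_neg]
      intro h
      exact hl (List.length_eq_zero_iff.1 (Nat.le_zero.1 (hN l h)))
  | succ N ih =>
    intro x W hW hN
    by_cases h0 : ([] : List (Step d)) ∈ W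
    · rw [tsum_eq_single []]
      · split_ifs <;> simp [lw]
      · intro l hl
        rw [if_neg]
        intro h
        exact hl (hW [] h0 l h List.nil_prefix).symm
    · rw [B5A.tsum_list]
      simp only [h0, if_false, zero_add]
      have hstep : ∀ e : Step d, ∑' l, (if e :: l ∈ W then lw ω x (e :: l) else 0)
          ≤ ENNReal.ofReal ((ω x).1 e) := by
        intro e
        have := ih (x + stepVec e) {l | e :: l ∈ W}
          (fun l hl l' hl' hp => by
            have := hW _ hl _ hl' ((List.prefix_cons_inj e).2 hp)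
            exact (List.cons.inj this).2)
          (fun l hl => by
            have := hN _ hl
            simp only [List.length_cons] at this
            omega)
        calc ∑' l, (if e :: l ∈ W then lw ω x (e :: l) else 0)
            = ENNReal.ofReal ((ω x).1 e) *
                ∑' l, (if l ∈ {l | e :: l ∈ W} then lw ω (x + stepVec e) l else 0) := by
              rw [← ENNReal.tsum_mul_left]
              refine tsum_congr fun l => ?_
              by_cases hl : e :: l ∈ W
              · simp [hl, lw]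
              · simp [hl]
          _ ≤ ENNReal.ofReal ((ω x).1 e) * 1 := by gcongr
          _ = _ := mul_one _
      calc ∑' e, ∑' l, (if e :: l ∈ W then lw ω x (e :: l) else 0)
          ≤ ∑' e : Step d, ENNReal.ofReal ((ω x).1 e) := ENNReal.tsum_le_tsum hstep
        _ = 1 := by rw [tsum_fintype, sum_row]

open Classical in
/-- Kraft: quenched weight of a prefix-free set of words. -/
theorem kraft (ω : Environment d) (x : Site d) {W : Set (List (Step d))} (hW : PF W) :
    ∑' l, (if l ∈ W then lw ω x l else 0) ≤ 1 := by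
  rw [ENNReal.tsum_eq_iSup_sum]
  refine iSup_le fun s => ?_
  have h := kraft_len ω (s.sup List.length) x (W ∩ s) (hW.mono Set.inter_subset_left)
    (fun l hl => Finset.le_sup (f := List.length) hl.2)
  refine le_trans ?_ h
  refine le_trans (le_of_eq ?_) (ENNReal.sum_le_tsum s)
  refine Finset.sum_congr rfl fun l hl => ?_
  by_cases h : l ∈ W
  · simp [h, hl]
  · simp [h]

open Classical in
/-- If every word of the prefix-free `W` is `γ ++ ρ₂` with `γ ∈ P`, `P` prefix-free and the
continuations weigh at most `c`, then `W` weighs at most `c`. -/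
theorem markov_pf (ω : Environment d) (x : Site d) {W P : Set (List (Step d))}
    (C : List (Step d) → Set (List (Step d))) (g : List (Step d) → ℝ≥0∞)
    (hd : ∀ ρ ∈ W, ∃ γ ρ2, ρ = γ ++ ρ2 ∧ γ ∈ P ∧ ρ2 ∈ C γ)
    (hC : ∀ γ ∈ P, ∑' ρ2, (if ρ2 ∈ C γ then lw ω (endp x γ) ρ2 else 0) ≤ g γ) :
    ∑' ρ, (if ρ ∈ W then lw ω x ρ else 0) ≤ ∑' γ, (if γ ∈ P then lw ω x γ * g γ else 0) := by
  calc ∑' ρ, (if ρ ∈ W then lw ω x ρ else 0)
      ≤ ∑' ρ, ∑' p : List (Step d) × List (Step d),
          (if ρ = p.1 ++ p.2 ∧ p.1 ∈ P ∧ p.2 ∈ C p.1 then lw ω x (p.1 ++ p.2) else 0) := by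
        refine ENNReal.tsum_le_tsum fun ρ => ?_
        by_cases hρ : ρ ∈ W
        · obtain ⟨γ, ρ2, h1, h2, h3⟩ := hd ρ hρ
          rw [if_pos hρ]
          refine le_trans (le_of_eq ?_) (ENNReal.le_tsum (γ, ρ2))
          simp only
          rw [if_pos ⟨h1, h2, h3⟩, h1]
        · simp [hρ]
    _ = ∑' p : List (Step d) × List (Step d), ∑' ρ,
          (if ρ = p.1 ++ p.2 ∧ p.1 ∈ P ∧ p.2 ∈ C p.1 then lw ω x (p.1 ++ p.2) else 0) :=
        ENNReal.tsum_comm
    _ = ∑' p : List (Step d) × List (Step d),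
          (if p.1 ∈ P ∧ p.2 ∈ C p.1 then lw ω x (p.1 ++ p.2) else 0) := by
        refine tsum_congr fun p => ?_
        rw [tsum_eq_single (p.1 ++ p.2)]
        · simp
        · intro ρ hne
          rw [if_neg]
          exact fun h => hne h.1
    _ = ∑' γ, ∑' ρ2, (if γ ∈ P ∧ ρ2 ∈ C γ then lw ω x (γ ++ ρ2) else 0) := by
        rw [ENNReal.tsum_prod']
    _ ≤ ∑' γ, (if γ ∈ P then lw ω x γ * g γ else 0) := by
        refine ENNReal.tsum_le_tsum fun γ => ?_
        by_cases hγ : γ ∈ P
        · simp only [hγ, true_and, if_true]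
          calc ∑' ρ2, (if ρ2 ∈ C γ then lw ω x (γ ++ ρ2) else 0)
              = lw ω x γ * ∑' ρ2, (if ρ2 ∈ C γ then lw ω (endp x γ) ρ2 else 0) := by
                rw [← ENNReal.tsum_mul_left]
                refine tsum_congr fun ρ2 => ?_
                by_cases h : ρ2 ∈ C γ
                · simp [h, lw_append]
                · simp [h]
            _ ≤ lw ω x γ * g γ := by gcongr; exact hC γ hγ
        · simp [hγ]

/-- the first visit of `B` by a word: prefix-free. -/
def First (x : Site d) (B : Set (Site d)) : Set (List (Step d)) :=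
  {γ | endp x γ ∈ B ∧ ∀ γ', γ' <+: γ → γ' ≠ γ → endp x γ' ∉ B}

lemma pf_First (x : Site d) (B : Set (Site d)) : PF (First x B) := by
  intro l hl l' hl' hp
  by_contra hne
  exact hl'.2 l hp hne hl.1

/-- a word which has a prefix ending in `B` has a first one -/
lemma exists_First (x : Site d) (B : Set (Site d)) (ρ : List (Step d))
    (h : ∃ γ, γ <+: ρ ∧ endp x γ ∈ B) : ∃ γ ∈ First x B, γ <+: ρ := by
  classical
  have hex : ∃ n, ∃ γ, γ <+: ρ ∧ endp x γ ∈ B ∧ γ.length = n := by
    obtain ⟨γ, h1, h2⟩ := h; exact ⟨_, γ, h1, h2, rfl⟩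
  obtain ⟨γ, h1, h2, h3⟩ := Nat.find_spec hex
  refine ⟨γ, ⟨h2, fun γ' hp hne hB => ?_⟩, h1⟩
  have hlt : γ'.length < Nat.find hex := by
    rw [← h3]
    exact lt_of_le_of_ne hp.length_le fun h => hne (hp.eq_of_length h)
  exact Nat.find_min hex hlt ⟨γ', hp.trans h1, hB, rfl⟩

open Classical in
/-- Quenched strong Markov at the first visit of `B`: if from every `v ∈ B` the completions `C v`
weigh at most `lam`, the words of `W` passing through `B` weigh at most `lam`. -/
theorem bad_le (ω : Environment d) (x : Site d) (W : Set (List (Step d))) (B : Set (Site d))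
    (C : Site d → Set (List (Step d))) (lam : ℝ≥0∞)
    (hd : ∀ γ ρ2, γ ++ ρ2 ∈ W → ρ2 ∈ C (endp x γ))
    (hB : ∀ v ∈ B, ∑' ρ2, (if ρ2 ∈ C v then lw ω v ρ2 else 0) ≤ lam) :
    ∑' ρ, (if ρ ∈ W ∧ (∃ γ, γ <+: ρ ∧ endp x γ ∈ B) then lw ω x ρ else 0) ≤ lam := by
  have h := markov_pf ω x (W := {ρ | ρ ∈ W ∧ (∃ γ, γ <+: ρ ∧ endp x γ ∈ B)}) (P := First x B)
    (fun γ => C (endp x γ)) (fun _ => lam)
    (fun ρ hρ => by
      obtain ⟨γ, hγ, ρ2, rfl⟩ := exists_First x B ρ hρ.2
      exact ⟨γ, ρ2, rfl, hγ, hd γ ρ2 hρ.1⟩)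
    (fun γ hγ => hB _ hγ.1)
  refine le_trans (le_of_eq (tsum_congr fun ρ => ?_)) (h.trans ?_)
  · by_cases h1 : ρ ∈ W ∧ ∃ γ, γ <+: ρ ∧ endp x γ ∈ B
    · rw [if_pos h1, if_pos (show ρ ∈ {ρ | ρ ∈ W ∧ ∃ γ, γ <+: ρ ∧ endp x γ ∈ B} from h1)]
    · rw [if_neg h1, if_neg (show ¬ ρ ∈ {ρ | ρ ∈ W ∧ ∃ γ, γ <+: ρ ∧ endp x γ ∈ B} from h1)]
  · calc ∑' γ, (if γ ∈ First x B then lw ω x γ * lam else 0)
        = (∑' γ, (if γ ∈ First x B then lw ω x γ else 0)) * lam := by
          rw [← ENNReal.tsum_mul_right]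
          refine tsum_congr fun γ => ?_
          by_cases h : γ ∈ First x B <;> simp [h]
      _ ≤ 1 * lam := by gcongr; exact kraft ω x (pf_First x B)
      _ = lam := one_mul _

end Crest.Agent.R154.DoobW431
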