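import Mathlib

/-!
Row 154, block B0d: maximal inequality for superharmonic functions along a Markov family with
finitely many steps, and `E sup ≤ a (1 + log (1/a))`.  Mathlib only.  (helper804)

The hypothesis `hM` is exactly the Markov property at time one:
`κ x B = ∑ e, p x e * κ (nb x e) {X | consP x X ∈ B}`.
-/

set_option autoImplicit false

open MeasureTheory

namespace Crest.Agent.R154.Doob804

/-- Put `x` in front of the path `X`. -/
def consP {S : Type*} (x : S) (X : ℕ → S) : ℕ → S
  | 0 => x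
  | n + 1 => X n

@[simp] theorem consP_zero {S : Type*} (x : S) (X : ℕ → S) : consP x X 0 = x := rfl
@[simp] theorem consP_succ {S : Type*} (x : S) (X : ℕ → S) (n : ℕ) :
    consP x X (n + 1) = X n := rfl

theorem measurable_consP {S : Type*} [MeasurableSpace S] (x : S) :
    Measurable (consP x : (ℕ → S) → ℕ → S) := by
  refine measurable_pi_lambda _ ?_
  intro n
  cases n with
  | zero => exact measurable_const
  | succ n => exact measurable_pi_apply n

/-- The event that, while staying in `U`, the function `h` reaches `lam` by time `N`. -/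
def hitBy {S : Type*} (h : S → ENNReal) (U : Set S) (lam : ENNReal) (N : ℕ) : Set (ℕ → S) :=
  {X | ∃ n ≤ N, (∀ k < n, X k ∈ U) ∧ lam ≤ h (X n)}

/-- The event that, while staying in `U`, the function `h` reaches `lam`. -/
def hitEver {S : Type*} (h : S → ENNReal) (U : Set S) (lam : ENNReal) : Set (ℕ → S) :=
  {X | ∃ n, (∀ k < n, X k ∈ U) ∧ lam ≤ h (X n)}

section
variable {S : Type*} [MeasurableSpace S] [DiscreteMeasurableSpace S]

theorem measurableSet_hitBy (h : S → ENNReal) (U : Set S) (lam : ENNReal) (N : ℕ) :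
    MeasurableSet (hitBy h U lam N) := by
  have : hitBy h U lam N = ⋃ n ∈ Finset.range (N + 1),
      ((⋂ k ∈ Finset.range n, (fun X : ℕ → S => X k) ⁻¹' U) ∩
        (fun X : ℕ → S => X n) ⁻¹' {z | lam ≤ h z}) := by
    ext X
    simp only [hitBy, Set.mem_setOf_eq, Finset.mem_range, Set.mem_iUnion, Set.mem_inter_iff,
      Set.mem_iInter, Set.mem_preimage, exists_prop, Nat.lt_succ_iff]
  rw [this]
  refine Finset.measurableSet_biUnion _ fun n _ => MeasurableSet.inter ?_ ?_
  · exact Finset.measurableSet_biInter _ fun k _ =>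
      (measurable_pi_apply k) (MeasurableSet.of_discrete)
  · exact (measurable_pi_apply n) (MeasurableSet.of_discrete)

theorem hitEver_eq (h : S → ENNReal) (U : Set S) (lam : ENNReal) :
    hitEver h U lam = ⋃ N, hitBy h U lam N := by
  ext X
  simp only [hitEver, hitBy, Set.mem_setOf_eq, Set.mem_iUnion]
  constructor
  · rintro ⟨n, hn⟩
    exact ⟨n, n, le_rfl, hn⟩
  · rintro ⟨N, n, _, hn⟩
    exact ⟨n, hn⟩

theorem measurableSet_hitEver (h : S → ENNReal) (U : Set S) (lam : ENNReal) :
    MeasurableSet (hitEver h U lam) := by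
  rw [hitEver_eq]
  exact MeasurableSet.iUnion fun N => measurableSet_hitBy h U lam N

variable {E : Type*} [Fintype E] (nb : S → E → S) (p : S → E → ENNReal)
  (κ : S → Measure (ℕ → S)) [∀ x, IsProbabilityMeasure (κ x)]
  (hM : ∀ (x : S) (B : Set (ℕ → S)), MeasurableSet B →
    κ x B = ∑ e, p x e * κ (nb x e) {X | consP x X ∈ B})

include hM

/-- Finite-horizon maximal inequality. -/
theorem hitBy_le (h : S → ENNReal) (U : Set S)
    (hsup : ∀ z ∈ U, ∑ e, p z e * h (nb z e) ≤ h z) {lam : ENNReal} (h0 : lam ≠ 0)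
    (ht : lam ≠ ⊤) (N : ℕ) : ∀ x, κ x (hitBy h U lam N) ≤ h x / lam := by
  induction N with
  | zero =>
    intro x
    by_cases hx : lam ≤ h x
    · refine prob_le_one.trans ?_
      rw [ENNReal.le_div_iff_mul_le (Or.inl h0) (Or.inl ht), one_mul]
      exact hx
    · rw [hM x _ (measurableSet_hitBy h U lam 0)]
      have he : {X : ℕ → S | consP x X ∈ hitBy h U lam 0} = ∅ := by
        ext X
        simp only [hitBy, Set.mem_setOf_eq, Nat.le_zero, exists_eq_left, consP_zero,
          Set.mem_empty_iff_false, iff_false, not_and]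
        intro _
        exact hx
      simp [he]
  | succ N ih =>
    intro x
    by_cases hx : lam ≤ h x
    · refine prob_le_one.trans ?_
      rw [ENNReal.le_div_iff_mul_le (Or.inl h0) (Or.inl ht), one_mul]
      exact hx
    · rw [hM x _ (measurableSet_hitBy h U lam (N + 1))]
      by_cases hU : x ∈ U
      · have hsub : {X : ℕ → S | consP x X ∈ hitBy h U lam (N + 1)} ⊆ hitBy h U lam N := by
          rintro X ⟨n, hn, h1, h2⟩
          cases n with
          | zero => exact absurd h2 hx
          | succ n =>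
            refine ⟨n, by omega, ?_, h2⟩
            intro k hk
            exact h1 (k + 1) (by omega)
        calc ∑ e, p x e * κ (nb x e) {X | consP x X ∈ hitBy h U lam (N + 1)}
            ≤ ∑ e, p x e * (h (nb x e) / lam) := by
              refine Finset.sum_le_sum fun e _ => ?_
              gcongr
              exact (measure_mono hsub).trans (ih _)
          _ = (∑ e, p x e * h (nb x e)) / lam := by
              rw [ENNReal.div_eq_inv_mul, Finset.mul_sum]
              refine Finset.sum_congr rfl fun e _ => ?_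
              rw [ENNReal.div_eq_inv_mul]
              ring
          _ ≤ h x / lam := by
              gcongr
              exact hsup x hU
      · have he : {X : ℕ → S | consP x X ∈ hitBy h U lam (N + 1)} = ∅ := by
          ext X
          simp only [Set.mem_setOf_eq, Set.mem_empty_iff_false, iff_false]
          rintro ⟨n, hn, h1, h2⟩
          cases n with
          | zero => exact hx h2
          | succ n => exact hU (h1 0 (by omega))
        simp [he]

/-- **Maximal inequality** for a function superharmonic on `U`, along the walk up to the exit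
of `U`. -/
theorem hitEver_le (h : S → ENNReal) (U : Set S)
    (hsup : ∀ z ∈ U, ∑ e, p z e * h (nb z e) ≤ h z) {lam : ENNReal} (h0 : lam ≠ 0)
    (ht : lam ≠ ⊤) (x : S) : κ x (hitEver h U lam) ≤ h x / lam := by
  rw [hitEver_eq]
  have hmono : Monotone fun N => hitBy h U lam N := by
    intro M N hMN X
    rintro ⟨n, hn, h1⟩
    exact ⟨n, hn.trans hMN, h1⟩
  rw [hmono.measure_iUnion]
  exact iSup_le fun N => hitBy_le nb p κ hM h U hsup h0 ht N x

/-- The probability of an event that is invariant under putting a point of `U` in front is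
harmonic on `U`. -/
theorem harmonic_event (B : Set (ℕ → S)) (hB : MeasurableSet B) (U : Set S)
    (hinv : ∀ z ∈ U, ∀ X : ℕ → S, consP z X ∈ B ↔ X ∈ B) :
    ∀ z ∈ U, ∑ e, p z e * κ (nb z e) B = κ z B := by
  intro z hz
  rw [hM z B hB]
  refine Finset.sum_congr rfl fun e _ => ?_
  congr 2
  ext X
  exact (hinv z hz X).symm

/-- **Doob for events**: `P^x(sup_{n ≤ exit} P^{X_n}(B) ≥ lam) ≤ P^x(B) / lam`. -/
theorem doob_event (B : Set (ℕ → S)) (hB : MeasurableSet B) (U : Set S)
    (hinv : ∀ z ∈ U, ∀ X : ℕ → S, consP z X ∈ B ↔ X ∈ B) {lam : ENNReal} (h0 : lam ≠ 0)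
    (ht : lam ≠ ⊤) (x : S) :
    κ x (hitEver (fun z => κ z B) U lam) ≤ κ x B / lam :=
  hitEver_le nb p κ hM _ U
    (fun z hz => (harmonic_event nb p κ hM B hB U hinv z hz).le) h0 ht x

end

/-! ### `E sup ≤ a (1 + log (1/a))` -/

/-- Layer-cake: `P(Z ≥ t) ≤ a / t` for `t > 0` and `Z ≤ 1` give `E Z ≤ a (1 + log (1/a))`. -/
theorem lintegral_le_of_tail {Ω : Type*} [MeasurableSpace Ω] (P : Measure Ω)
    [IsProbabilityMeasure P] {Z : Ω → ℝ} (hZm : AEMeasurable Z P) (hZ0 : ∀ ω, 0 ≤ Z ω)
    (hZ1 : ∀ ω, Z ω ≤ 1) {a : ℝ} (ha0 : 0 < a) (ha1 : a ≤ 1)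
    (htail : ∀ t : ℝ, 0 < t → P {ω | t ≤ Z ω} ≤ ENNReal.ofReal (a / t)) :
    ∫⁻ ω, ENNReal.ofReal (Z ω) ∂P ≤ ENNReal.ofReal (a * (1 + Real.log (1 / a))) := by
  rw [lintegral_eq_lintegral_meas_le P (Filter.Eventually.of_forall hZ0) hZm]
  -- split (0,∞) into (0,a], (a,1], (1,∞)
  have hsplit : Set.Ioi (0 : ℝ) = Set.Ioc 0 a ∪ (Set.Ioc a 1 ∪ Set.Ioi 1) := by
    rw [Set.Ioc_union_Ioi_eq_Ioi ha1, Set.Ioc_union_Ioi_eq_Ioi ha0.le]
  rw [hsplit]
  refine (lintegral_union_le _ _ _).trans ?_
  refine (add_le_add le_rfl (lintegral_union_le _ _ _)).trans ?_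
  have h1 : ∫⁻ t in Set.Ioc 0 a, P {ω | t ≤ Z ω} ≤ ENNReal.ofReal a := by
    calc ∫⁻ t in Set.Ioc 0 a, P {ω | t ≤ Z ω} ≤ ∫⁻ _t in Set.Ioc 0 a, 1 :=
          lintegral_mono fun t => prob_le_one
      _ = ENNReal.ofReal a := by simp
  have h3 : ∫⁻ t in Set.Ioi (1 : ℝ), P {ω | t ≤ Z ω} = 0 := by
    rw [lintegral_eq_zero_iff' ]
    · refine (ae_restrict_iff' measurableSet_Ioi).2 (Filter.Eventually.of_forall ?_)
      intro t ht
      have : {ω | t ≤ Z ω} = ∅ := by
        ext ω
        simp only [Set.mem_setOf_eq, Set.mem_empty_iff_false, iff_false, not_le]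
        exact lt_of_le_of_lt (hZ1 ω) ht
      simp [this]
    · refine (Antitone.measurable ?_).aemeasurable
      intro s t hst
      exact measure_mono fun ω hω => le_trans hst hω
  have h2 : ∫⁻ t in Set.Ioc a 1, P {ω | t ≤ Z ω} ≤ ENNReal.ofReal (a * Real.log (1 / a)) := by
    have hint : ∫⁻ t in Set.Ioc a 1, ENNReal.ofReal (a / t)
        = ENNReal.ofReal (∫ t in Set.Ioc a 1, a / t) := by
      rw [ofReal_integral_eq_lintegral_ofReal]
      · have : IntervalIntegrable (fun t : ℝ => a / t) volume a 1 := by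
          refine ContinuousOn.intervalIntegrable ?_
          rw [Set.uIcc_of_le ha1]
          refine ContinuousOn.div continuousOn_const continuousOn_id ?_
          intro t ht
          exact (lt_of_lt_of_le ha0 ht.1).ne'
        exact (intervalIntegrable_iff_integrableOn_Ioc_of_le ha1).1 this
      · refine (ae_restrict_iff' measurableSet_Ioc).2 (Filter.Eventually.of_forall ?_)
        intro t ht
        exact div_nonneg ha0.le (lt_trans ha0 ht.1).le
    have hval : ∫ t in Set.Ioc a 1, a / t = a * Real.log (1 / a) := by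
      rw [← intervalIntegral.integral_of_le ha1]
      have : ∀ t : ℝ, a / t = a * (1 / t) := fun t => by ring
      simp_rw [this]
      rw [intervalIntegral.integral_const_mul, integral_one_div_of_pos ha0 one_pos]
    calc ∫⁻ t in Set.Ioc a 1, P {ω | t ≤ Z ω}
        ≤ ∫⁻ t in Set.Ioc a 1, ENNReal.ofReal (a / t) := by
          refine lintegral_mono_ae ?_
          refine (ae_restrict_iff' measurableSet_Ioc).2 (Filter.Eventually.of_forall ?_)
          intro t ht
          exact htail t (lt_trans ha0 ht.1)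
      _ = ENNReal.ofReal (a * Real.log (1 / a)) := by rw [hint, hval]
  rw [h3, add_zero]
  have hlog : 0 ≤ Real.log (1 / a) := Real.log_nonneg (by
    rw [le_div_iff₀ ha0]; linarith)
  calc _ ≤ ENNReal.ofReal a + ENNReal.ofReal (a * Real.log (1 / a)) := add_le_add h1 h2
    _ = ENNReal.ofReal (a * (1 + Real.log (1 / a))) := by
      rw [← ENNReal.ofReal_add ha0.le (by positivity)]
      congr 1
      ring

section
variable {S : Type*} [MeasurableSpace S] [DiscreteMeasurableSpace S]
variable {E : Type*} [Fintype E] (nb : S → E → S) (p : S → E → ENNReal)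
  (κ : S → Measure (ℕ → S)) [∀ x, IsProbabilityMeasure (κ x)]
  (hM : ∀ (x : S) (B : Set (ℕ → S)), MeasurableSet B →
    κ x B = ∑ e, p x e * κ (nb x e) {X | consP x X ∈ B})

/-- The running supremum of `h` along the path before the exit of `U` (the exit site included). -/
noncomputable def supAlong (h : S → ENNReal) (U : Set S) (X : ℕ → S) : ENNReal :=
  ⨆ n : ℕ, ⨆ _ : ∀ k < n, X k ∈ U, h (X n)

theorem supAlong_le_iff {h : S → ENNReal} {U : Set S} {X : ℕ → S} {c : ENNReal} :
    supAlong h U X ≤ c ↔ ∀ n, (∀ k < n, X k ∈ U) → h (X n) ≤ c := by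
  simp [supAlong, iSup_le_iff]

theorem lt_supAlong_iff {h : S → ENNReal} {U : Set S} {X : ℕ → S} {c : ENNReal} :
    c < supAlong h U X ↔ ∃ n, (∀ k < n, X k ∈ U) ∧ c < h (X n) := by
  simp [supAlong, lt_iSup_iff]

theorem measurable_supAlong (h : S → ENNReal) (U : Set S) :
    Measurable (supAlong h U) := by
  refine measurable_of_Ioi fun c => ?_
  have : supAlong h U ⁻¹' Set.Ioi c = ⋃ n : ℕ,
      ((⋂ k ∈ Finset.range n, (fun X : ℕ → S => X k) ⁻¹' U) ∩
        (fun X : ℕ → S => X n) ⁻¹' {z | c < h z}) := by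
    ext X
    simp only [Set.mem_preimage, Set.mem_Ioi, lt_supAlong_iff, Set.mem_iUnion, Set.mem_inter_iff,
      Set.mem_iInter, Finset.mem_range, Set.mem_setOf_eq]
  rw [this]
  refine MeasurableSet.iUnion fun n => MeasurableSet.inter ?_ ?_
  · exact Finset.measurableSet_biInter _ fun k _ =>
      (measurable_pi_apply k) (MeasurableSet.of_discrete)
  · exact (measurable_pi_apply n) (MeasurableSet.of_discrete)

include hM in
/-- Tail of the running supremum. -/
theorem supAlong_tail (h : S → ENNReal) (U : Set S)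
    (hsup : ∀ z ∈ U, ∑ e, p z e * h (nb z e) ≤ h z) {lam : ENNReal} (h0 : lam ≠ 0)
    (ht : lam ≠ ⊤) (x : S) : κ x {X | lam < supAlong h U X} ≤ h x / lam := by
  refine (measure_mono ?_).trans (hitEver_le nb p κ hM h U hsup h0 ht x)
  intro X hX
  obtain ⟨n, h1, h2⟩ := lt_supAlong_iff.1 hX
  exact ⟨n, h1, h2.le⟩

include hM in
/-- **`E^x sup_{n ≤ exit} h(X_n) ≤ a (1 + log (1/a))`** for any real `a ∈ (0,1]`, `h x ≤ a`. -/
theorem lintegral_supAlong_le (h : S → ENNReal) (U : Set S) (h1 : ∀ z, h z ≤ 1)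
    (hsup : ∀ z ∈ U, ∑ e, p z e * h (nb z e) ≤ h z) {a : ℝ} (ha0 : 0 < a) (ha1 : a ≤ 1)
    (x : S) (hx : h x ≤ ENNReal.ofReal a) :
    ∫⁻ X, supAlong h U X ∂(κ x) ≤ ENNReal.ofReal (a * (1 + Real.log (1 / a))) := by
  have hle1 : ∀ X, supAlong h U X ≤ 1 := fun X => supAlong_le_iff.2 fun n _ => h1 _
  have hZ : ∀ X, supAlong h U X = ENNReal.ofReal ((supAlong h U X).toReal) := fun X =>
    (ENNReal.ofReal_toReal (ne_top_of_le_ne_top ENNReal.one_ne_top (hle1 X))).symm
  have hrw : ∫⁻ X, supAlong h U X ∂(κ x)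
      = ∫⁻ X, ENNReal.ofReal ((supAlong h U X).toReal) ∂(κ x) :=
    lintegral_congr fun X => hZ X
  rw [hrw]
  refine lintegral_le_of_tail (κ x) ((measurable_supAlong h U).ennreal_toReal.aemeasurable)
    (fun X => ENNReal.toReal_nonneg) ?_ ha0 ha1 ?_
  · intro X
    have := ENNReal.toReal_mono ENNReal.one_ne_top (hle1 X)
    simpa using this
  · intro t ht
    -- {t ≤ Z} ⊆ ⋂ {s < Z}, s < t; use the bound for every s < t
    have hbound : ∀ s : ℝ, 0 < s → s < t →
        κ x {X | t ≤ (supAlong h U X).toReal} ≤ ENNReal.ofReal (a / s) := by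
      intro s hs hst
      have hsub : {X | t ≤ (supAlong h U X).toReal} ⊆ {X | ENNReal.ofReal s < supAlong h U X} := by
        intro X hX
        have hX' : t ≤ (supAlong h U X).toReal := hX
        show ENNReal.ofReal s < supAlong h U X
        rw [ENNReal.ofReal_lt_iff_lt_toReal hs.le
          (ne_top_of_le_ne_top ENNReal.one_ne_top (hle1 X))]
        exact lt_of_lt_of_le hst hX'
      refine (measure_mono hsub).trans ?_
      refine (supAlong_tail nb p κ hM h U hsup (by simpa using hs) ENNReal.ofReal_ne_top x).trans ?_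
      rw [ENNReal.ofReal_div_of_pos hs]
      gcongr
    have hlim : Filter.Tendsto (fun s : ℝ => ENNReal.ofReal (a / s)) (nhdsWithin t (Set.Iio t))
        (nhds (ENNReal.ofReal (a / t))) := by
      refine Filter.Tendsto.mono_left ?_ nhdsWithin_le_nhds
      refine (ENNReal.continuous_ofReal.tendsto _).comp ?_
      exact tendsto_const_nhds.div Filter.tendsto_id ht.ne'
    refine ge_of_tendsto hlim ?_
    have hIoo : Set.Ioo 0 t ∈ nhdsWithin t (Set.Iio t) := Ioo_mem_nhdsLT ht
    filter_upwards [hIoo] with s hs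
    exact hbound s hs.1 hs.2

include hM in
/-- Doob with logarithm for events invariant on `U`: with `e z = P^z(B)` and `e x ≤ a`,
`E^x sup e ≤ a (1 + log (1/a))`. -/
theorem lintegral_sup_event_le (B : Set (ℕ → S)) (hB : MeasurableSet B) (U : Set S)
    (hinv : ∀ z ∈ U, ∀ X : ℕ → S, consP z X ∈ B ↔ X ∈ B) {a : ℝ} (ha0 : 0 < a) (ha1 : a ≤ 1)
    (x : S) (hx : κ x B ≤ ENNReal.ofReal a) :
    ∫⁻ X, supAlong (fun z => κ z B) U X ∂(κ x) ≤ ENNReal.ofReal (a * (1 + Real.log (1 / a))) :=
  lintegral_supAlong_le nb p κ hM _ U (fun _ => prob_le_one)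
    (fun z hz => (harmonic_event nb p κ hM B hB U hinv z hz).le) ha0 ha1 x hx

end

end Crest.Agent.R154.Doob804
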