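import Crest.Agent.R154.Win2_22

/-! Row 154, ROAD 801: E2 (912 #40669) = the window lemma with `X` local in joint-cut frame
(helper22). -/

set_option autoImplicit false

namespace Crest.Agent.R154.W22

open MeasureTheory ProbabilityTheory Crest.ProbabilityR.RandomEnvironment Crest.Agent.R154
open Crest.Agent.R154.Flux132 (lev opp)
open Crest.Agent.R154.Flux566 (lw endp sitesL measurable_lw endp_append)
open Crest.Agent.R154.NB28 (IsUp IsDn aw Cm mem_sitesL_iff mem_sitesL_add lev_opp)
open scoped ENNReal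

variable {d : ℕ}

open Classical in
theorem E2 (ν : Measure (Row d)) [IsProbabilityMeasure ν] (u : Step d) :
    ∀ (s H : ℕ) (E : Finset (Site d)) (μ : Site d → ℝ≥0∞) (M lam : ℝ≥0∞),
      ∑' x, μ x ≤ 1 → (∀ x, μ x ≤ M) → lam ≠ 0 → lam ≠ ⊤ →
      ∑' x, (if lev u x = 0 then μ x * ∑' π, ∑' γ, (if IsUp u H π ∧ endp 0 π ∈ E ∧
        IsDn u H γ ∧ (∃ k, k ∈ Cm u x π γ) ∧ (∀ k ∈ Cm u x π γ, s < k)
        then aw ν π * aw ν γ else 0) else 0)
        ≤ 1 * (lam + M * E.card * us ν u s / lam + us ν u s) := by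
  intro s H E μ M lam hμ hM h0 _
  set o : Site d := stepVec (opp u) with ho
  have hlo : lev u o = -1 := lev_opp u
  set μ' : Site d → ℝ≥0∞ := fun y => if lev u (y - o) = 0 then μ (y - o) else 0 with hμ'
  have h1 : ∑' y, μ' y ≤ 1 := by
    calc ∑' y, μ' y = ∑' y, (fun x => if lev u x = 0 then μ x else 0) ((Equiv.subRight o) y) := rfl
      _ = ∑' x, (if lev u x = 0 then μ x else 0) :=
          (Equiv.subRight o).tsum_eq (fun x => if lev u x = 0 then μ x else 0)
      _ ≤ ∑' x, μ x := ENNReal.tsum_le_tsum fun x => by split_ifs <;> simp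
      _ ≤ 1 := hμ
  have h2 : ∀ y, μ' y ≤ M := by
    intro y
    simp only [hμ']
    split_ifs
    · exact hM _
    · exact zero_le
  have h3 : ∀ y, μ' y ≠ 0 → lev u y = -((0 : ℕ) : ℤ) - 1 := by
    intro y hy
    simp only [hμ'] at hy
    have h4 : lev u (y - o) = 0 := by
      by_contra hh; exact hy (if_neg hh)
    have h5 : lev u y = lev u (y - o) + lev u o := by
      rw [← Flux132.lev_add]; congr 1; abel
    rw [h5, h4, hlo]; norm_num
  have key := win2 ν u H H 0 s (E.image fun x => -x) μ' h1 M h2 h3 lam h0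
  have hcard : ((E.image fun x => -x).card : ℝ≥0∞) ≤ E.card := by
    exact_mod_cast Finset.card_image_le
  refine le_trans (le_trans (b := ∑' y, μ' y * ∑' π, ∑' γ,
    (if Cond u H H s (E.image fun x => -x) (endp 0 π + y) π γ then aw ν π * aw ν γ else 0))
    ?_ key) ?_
  · rw [← (Equiv.addRight o).tsum_eq (fun y => μ' y * ∑' π, ∑' γ,
      (if Cond u H H s (E.image fun x => -x) (endp 0 π + y) π γ then aw ν π * aw ν γ else 0))]
    refine ENNReal.tsum_le_tsum fun x => ?_
    by_cases hx : lev u x = 0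
    · rw [if_pos hx]
      have e1 : μ' ((Equiv.addRight o) x) = μ x := by
        simp only [hμ', Equiv.coe_addRight, add_sub_cancel_right, if_pos hx]
      rw [e1]
      refine mul_le_mul_right (ENNReal.tsum_le_tsum fun π => ENNReal.tsum_le_tsum fun γ => ?_) _
      by_cases hh : IsUp u H π ∧ endp 0 π ∈ E ∧
        IsDn u H γ ∧ (∃ k, k ∈ Cm u x π γ) ∧ (∀ k ∈ Cm u x π γ, s < k)
      · rw [if_pos hh, if_pos]
        obtain ⟨a1, a2, a3, ⟨k, y, b1, b2, b3⟩, a5⟩ := hh
        have ez : endp 0 π + (Equiv.addRight o) x = x + o + endp 0 π := by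
          simp only [Equiv.coe_addRight]; abel
        have lz : lev u (endp 0 π + (Equiv.addRight o) x) = H - 1 := by
          rw [ez, Flux132.lev_add, Flux132.lev_add, hx, hlo, a1.2]; ring
        refine ⟨a1, a3, Finset.mem_image.2 ⟨_, a2, rfl⟩, ⟨y + endp 0 π, ?_, ?_⟩, ?_⟩
        · have := (mem_sitesL_add π (-endp 0 π) (endp 0 π) y).2 b1
          rwa [neg_add_cancel] at this
        · rw [ez]
          exact (mem_sitesL_add γ (x + o) (endp 0 π) y).2 b2
        · intro v hv1 hv2
          have c1 : v - endp 0 π ∈ sitesL (-endp 0 π) π := by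
            refine (mem_sitesL_add π (-endp 0 π) (endp 0 π) _).1 ?_
            rwa [neg_add_cancel, sub_add_cancel]
          have c2 : v - endp 0 π ∈ sitesL (x + o) γ := by
            refine (mem_sitesL_add γ (x + o) (endp 0 π) _).1 ?_
            rwa [sub_add_cancel, ← ez]
          have c3 : lev u v = lev u (v - endp 0 π) + lev u (endp 0 π) := by
            rw [← Flux132.lev_add]; congr 1; abel
          have c4 := (a1.1 v hv1).2
          have c5 := a1.2
          have c6 := a5 (-lev u (v - endp 0 π)).toNat ⟨_, c1, c2, by omega⟩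
          rw [lz]
          omega
      · rw [if_neg hh]; exact zero_le
    · rw [if_neg hx]; exact zero_le
  · rw [one_mul]
    refine le_trans (add_le_add le_rfl ?_) le_self_add
    rw [ENNReal.div_eq_inv_mul]
    calc lam⁻¹ * (M * (((E.image fun x => -x).card : ℝ≥0∞) * us ν u s))
        ≤ lam⁻¹ * (M * ((E.card : ℝ≥0∞) * us ν u s)) := by gcongr
      _ = _ := by ring

end Crest.Agent.R154.W22
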