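import Crest.Agent.R154.E3_168
import Crest.Agent.R154.E2_22

/-! Row 154, ROAD 801 (helper168): `E2` and `E3` of 912 (#40669) with one common `us → 0`. -/

set_option autoImplicit false

namespace Crest.Agent.R154.E23168

open MeasureTheory ProbabilityTheory Crest.ProbabilityR.RandomEnvironment Crest.Agent.R154
open Crest.Agent.R154.Flux132 (lev opp)
open Crest.Agent.R154.Flux566 (lw endp sitesL)
open Crest.Agent.R154.NB28 (IsUp IsDn Cm aw)
open scoped ENNReal Classical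

variable {d : ℕ}

/-- common turning weight -/
noncomputable def uc (ν : Measure (Row d)) [IsProbabilityMeasure ν] (u : Step d) (s : ℕ) : ℝ≥0∞ :=
  W22.us ν u s + us ν (opp u) s

theorem uc_tendsto (ν : Measure (Row d)) [IsProbabilityMeasure ν] (u : Step d) :
    Filter.Tendsto (uc ν u) Filter.atTop (nhds 0) := by
  have h1 : Filter.Tendsto (W22.us ν u) Filter.atTop (nhds 0) := by
    rw [ENNReal.tendsto_atTop_zero]
    intro ε hε
    obtain ⟨s0, h⟩ := W22.us_small ν u ε hε.ne'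
    exact ⟨s0, fun n hn => h n hn⟩
  have h2 := us_tendsto ν (opp u)
  have h3 := h1.add h2
  rw [add_zero] at h3
  exact h3

theorem e2c (ν : Measure (Row d)) [IsProbabilityMeasure ν] (u : Step d) :
    ∀ (s H : ℕ) (E : Finset (Site d)) (μ : Site d → ℝ≥0∞) (M lam : ℝ≥0∞),
      ∑' x, μ x ≤ 1 → (∀ x, μ x ≤ M) → lam ≠ 0 → lam ≠ ⊤ →
      ∑' x, (if lev u x = 0 then μ x * ∑' π, ∑' γ, (if IsUp u H π ∧ endp 0 π ∈ E ∧
        IsDn u H γ ∧ (∃ k, k ∈ Cm u x π γ) ∧ (∀ k ∈ Cm u x π γ, s < k)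
        then aw ν π * aw ν γ else 0) else 0)
        ≤ 4 * (lam + M * E.card * uc ν u s / lam + uc ν u s) := by
  intro s H E μ M lam hμ hM h0 ht
  refine (W22.E2 ν u s H E μ M lam hμ hM h0 ht).trans ?_
  have hle : W22.us ν u s ≤ uc ν u s := le_self_add
  refine mul_le_mul' (by norm_num) ?_
  refine add_le_add (add_le_add le_rfl ?_) hle
  exact ENNReal.div_le_div_right (mul_le_mul_right hle _) _

theorem e3c (ν : Measure (Row d)) [IsProbabilityMeasure ν] (u : Step d) :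
    ∀ (s H : ℕ) (E : Finset (Site d)) (μ : Site d → ℝ≥0∞) (M lam : ℝ≥0∞),
      ∑' x, μ x ≤ 1 → (∀ x, μ x ≤ M) → lam ≠ 0 → lam ≠ ⊤ →
      ∑' x, (if lev u x = 0 then μ x * ∑' π, ∑' γ, (if IsUp u H π ∧ endp 0 γ ∈ E ∧
        IsDn u H γ ∧ (∃ k, k ∈ Cm u x π γ) ∧ (∀ k ∈ Cm u x π γ, k + s ≤ H)
        then aw ν π * aw ν γ else 0) else 0)
        ≤ 4 * (lam + M * E.card * uc ν u s / lam + uc ν u s) := by
  intro s H E μ M lam hμ hM h0 ht
  refine (E3' ν u s H E μ M lam hμ hM h0 ht).trans ?_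
  have hle : us ν (opp u) s ≤ uc ν u s := le_add_self
  refine mul_le_mul' le_rfl ?_
  refine add_le_add (add_le_add le_rfl ?_) hle
  exact ENNReal.div_le_div_right (mul_le_mul_right hle _) _

end Crest.Agent.R154.E23168
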