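import Crest.Agent.R154.H2w_386
import Crest.Agent.R154.H3_799
import Crest.Agent.R154.RetW_458
import Crest.Agent.R154.UsW_778
import Crest.Agent.R154.Flux1_132

/-! Row 154, ROAD 801, frame B (helper272): the two window lemmas at a common height
(912's `E2`, `E3`) from 386's `H2w386.core` and 799's `Tie799.h3core`. -/

set_option autoImplicit false

open MeasureTheory ProbabilityTheory Crest.ProbabilityR.RandomEnvironment
open scoped ENNReal Topology
open Filter

namespace Crest.Agent.R154.E23s272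

open Crest.Agent.R154.Flux566 (lw endp sitesL)
open Crest.Agent.R154.Flux132 (lev opp)
open Crest.Agent.R154.NB28 (IsUp IsDn aw Cm)
open Crest.Agent.R154.Tie799 (mem_sites_shift)

variable {d : ℕ}

open Classical in
/-- **E2**: `X` local -/
def E2 (ν : Measure (Row d)) [IsProbabilityMeasure ν] (u : Step d) (C : ℝ≥0∞) (us : ℕ → ℝ≥0∞) :
    Prop :=
  ∀ (s H : ℕ) (E : Finset (Site d)) (μ : Site d → ℝ≥0∞) (M lam : ℝ≥0∞),
    ∑' x, μ x ≤ 1 → (∀ x, μ x ≤ M) → lam ≠ 0 → lam ≠ ⊤ →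
    ∑' x : Site d, (if lev u x = 0 then μ x * ∑' π : List (Step d), ∑' γ : List (Step d),
      (if IsUp u H π ∧ endp 0 π ∈ E ∧ IsDn u H γ ∧ (∃ k, k ∈ Cm u x π γ) ∧
        (∀ k ∈ Cm u x π γ, s < k) then aw ν π * aw ν γ else 0) else 0)
      ≤ C * (lam + M * E.card * us s / lam + us s)

open Classical in
/-- **E3**: `Y` local -/
def E3 (ν : Measure (Row d)) [IsProbabilityMeasure ν] (u : Step d) (C : ℝ≥0∞) (us : ℕ → ℝ≥0∞) :
    Prop :=
  ∀ (s H : ℕ) (E : Finset (Site d)) (μ : Site d → ℝ≥0∞) (M lam : ℝ≥0∞),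
    ∑' x, μ x ≤ 1 → (∀ x, μ x ≤ M) → lam ≠ 0 → lam ≠ ⊤ →
    ∑' x : Site d, (if lev u x = 0 then μ x * ∑' π : List (Step d), ∑' γ : List (Step d),
      (if IsUp u H π ∧ endp 0 γ ∈ E ∧ IsDn u H γ ∧ (∃ k, k ∈ Cm u x π γ) ∧
        (∀ k ∈ Cm u x π γ, k + s ≤ H) then aw ν π * aw ν γ else 0) else 0)
      ≤ C * (lam + M * E.card * us s / lam + us s)

lemma lev_add (u : Step d) (x y : Site d) : lev u (x + y) = lev u x + lev u y := by
  unfold lev; split_ifs
  · simp
  · simp [Pi.add_apply]; ring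

lemma lev_neg (u : Step d) (x : Site d) : lev u (-x) = - lev u x := by
  unfold lev; split_ifs <;> simp

lemma lev_sub (u : Step d) (x y : Site d) : lev u (x - y) = lev u x - lev u y := by
  rw [sub_eq_add_neg, lev_add, lev_neg]; ring

lemma lev_opp (u : Step d) : lev u (stepVec (opp u) : Site d) = -1 := by
  rcases u with ⟨i, b⟩
  unfold lev opp
  cases b <;> simp [stepVec]

/-- reindexing: `Y` at the origin -/
lemma reidx (c : Site d) (G : Site d → List (Step d) → List (Step d) → ℝ≥0∞) :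
    ∑' x, ∑' π, ∑' γ, G x π γ = ∑' y, ∑' π, ∑' γ, G ((-endp 0 π - c) - y) π γ := by
  rw [ENNReal.tsum_comm, ENNReal.tsum_comm (f := fun y π => ∑' γ, G ((-endp 0 π - c) - y) π γ)]
  refine tsum_congr fun π => ?_
  exact ((Equiv.subLeft (-endp 0 π - c)).tsum_eq (fun x => ∑' γ, G x π γ)).symm

lemma contact_iff (x y z c : Site d) (π γ : List (Step d)) (hxy : x + c = -endp 0 π - y) :
    (z ∈ sitesL y π ∧ z ∈ sitesL 0 γ) ↔
      (z + (x + c) ∈ sitesL (-endp 0 π) π ∧ z + (x + c) ∈ sitesL (x + c) γ) := by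
  rw [mem_sites_shift y z π, mem_sites_shift (-endp 0 π) _ π, mem_sites_shift (x + c) _ γ]
  have h1 : z + (x + c) - -endp 0 π = z - y := by rw [hxy]; abel
  have h2 : z + (x + c) - (x + c) = z := by abel
  rw [h1, h2]

/-- level of a site of a hung crossing -/
lemma lev_hung {u : Step d} {H : ℕ} {π : List (Step d)} (h : IsUp u H π) {y : Site d}
    (hy : y ∈ sitesL (-endp 0 π) π) : lev u y = -((-lev u y).toNat : ℤ) ∧ -(H : ℤ) ≤ lev u y := by
  rw [mem_sites_shift] at hy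
  have := h.1 _ hy
  rw [lev_sub, lev_neg, h.2] at this
  omega

lemma push (F : Site d → Prop) (μ : Site d → ℝ≥0∞) (P : Site d → List (Step d) → List (Step d) → Prop)
    (A : List (Step d) → List (Step d) → ℝ≥0∞) [DecidablePred F]
    [∀ x π γ, Decidable (P x π γ)] [∀ x π γ, Decidable (F x ∧ P x π γ)] :
    ∑' x : Site d, (if F x then μ x * ∑' π : List (Step d), ∑' γ : List (Step d),
      (if P x π γ then A π γ else 0) else 0)
    = ∑' x, ∑' π, ∑' γ, (if F x ∧ P x π γ then μ x * A π γ else 0) := by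
  refine tsum_congr fun x => ?_
  by_cases hx : F x
  · simp only [hx, if_true, true_and]
    rw [← ENNReal.tsum_mul_left]
    refine tsum_congr fun π => ?_
    rw [← ENNReal.tsum_mul_left]
    refine tsum_congr fun γ => ?_
    split_ifs <;> simp
  · simp [hx]

lemma aw_eq (ν : Measure (Row d)) [IsProbabilityMeasure ν] (l : List (Step d)) :
    Surg799.aw ν l = aw ν l := rfl

theorem e2 (ν : Measure (Row d)) [IsProbabilityMeasure ν] (u : Step d) :
    E2 ν u 1 (fun s => H2w386.UU ν u 1 (-(s : ℤ))) := by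
  classical
  intro s H E μ M lam hμ hM hl hl'
  set c : Site d := stepVec (opp u) with hc
  have hcore := H2w386.core ν u H H 1 (-(s : ℤ)) E (fun z => μ (-z - c)) M lam
    (fun x => hM _) hl hl'
  have hsum : ∑' x, μ (-x - c) = ∑' x, μ x := by
    have := ((Equiv.neg (Site d)).trans (Equiv.subRight c)).tsum_eq μ
    simpa using this
  rw [hsum] at hcore
  rw [one_mul]
  refine le_trans ?_ (hcore.trans ?_)
  · rw [push, reidx c]
    refine ENNReal.tsum_le_tsum fun y => ENNReal.tsum_le_tsum fun π => ENNReal.tsum_le_tsum fun γ => ?_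
    by_cases h : lev u (-endp 0 π - c - y) = 0 ∧ IsUp u H π ∧ endp 0 π ∈ E ∧ IsDn u H γ ∧
      (∃ k, k ∈ Cm u (-endp 0 π - c - y) π γ) ∧ (∀ k ∈ Cm u (-endp 0 π - c - y) π γ, s < k)
    swap
    · rw [if_neg h]; exact zero_le
    rw [if_pos h]
    obtain ⟨h0, h1, h2, h3, ⟨k, y', hk1, hk2, hk3⟩, h5⟩ := h
    set x := -endp 0 π - c - y with hx
    have hxy : x + c = -endp 0 π - y := by rw [hx]; abel
    have hlc : lev u c = -1 := lev_opp u
    have hcond : lev u (y + endp 0 π) = 1 ∧ IsUp u H π ∧ endp 0 π ∈ E ∧ IsDn u H γ ∧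
        (∀ z, z ∈ sitesL y π → z ∈ sitesL 0 γ → lev u z ≤ -(s : ℤ)) ∧
        (∃ z, z ∈ sitesL y π ∧ z ∈ sitesL 0 γ) := by
      refine ⟨?_, h1, h2, h3, ?_, ?_⟩
      · have : y + endp 0 π = -(x + c) := by rw [hxy]; abel
        rw [this, lev_neg, lev_add, h0, hlc]; norm_num
      · intro z hz1 hz2
        have hz := (contact_iff x y z c π γ hxy).1 ⟨hz1, hz2⟩
        have hl := lev_hung h1 hz.1
        have := h5 _ ⟨_, hz.1, hz.2, hl.1⟩
        have hz3 : lev u (z + (x + c)) = lev u z - 1 := by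
          rw [lev_add, lev_add, h0, hlc]; ring
        omega
      · refine ⟨y' - (x + c), (contact_iff x y _ c π γ hxy).2 ⟨?_, ?_⟩⟩
        · simpa using hk1
        · simpa using hk2
    rw [if_pos hcond]
    have : -(y + endp 0 π) - c = x := by rw [hx]; abel
    rw [this]
  · calc (lam + H2w386.UU ν u 1 (-(s : ℤ))) * (∑' x, μ x)
          + M * E.card * H2w386.UU ν u 1 (-(s : ℤ)) / lam
        ≤ (lam + H2w386.UU ν u 1 (-(s : ℤ))) * 1
          + M * E.card * H2w386.UU ν u 1 (-(s : ℤ)) / lam := by gcongr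
      _ = lam + M * E.card * H2w386.UU ν u 1 (-(s : ℤ)) / lam + H2w386.UU ν u 1 (-(s : ℤ)) := by
          ring

theorem e3 (ν : Measure (Row d)) [IsProbabilityMeasure ν] (u : Step d) :
    E3 ν u 8 (fun s => Tie799.ret ν u s 1) := by
  classical
  intro s H E μ M lam hμ hM hl hl'
  set c : Site d := stepVec (opp u) with hc
  have hμ1 : ∀ x, μ x ≤ 1 := fun x => (ENNReal.le_tsum x).trans hμ
  have hcore := Tie799.h3core ν u H H ((H : ℤ) - 1) ((H : ℤ) - 1 - s) E (fun z => μ (-z - c))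
    (min M 1) lam (ne_top_of_le_ne_top ENNReal.one_ne_top (min_le_right _ _)) hl hl'
    (fun x => le_min (hM _) (hμ1 _)) (by
      have := ((Equiv.neg (Site d)).trans (Equiv.subRight c)).tsum_eq μ
      have h2 : ∑' x, μ (-x - c) = ∑' x, μ x := by simpa using this
      rw [h2]; exact hμ) (by omega)
  have e1 : (H : ℤ) - 1 - ((H : ℤ) - 1 - s) = s := by ring
  have e2' : (H : ℤ) - ((H : ℤ) - 1) = 1 := by ring
  rw [e1, e2'] at hcore
  refine le_trans ?_ (hcore.trans ?_)
  · rw [push, reidx c]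
    refine ENNReal.tsum_le_tsum fun y => ?_
    by_cases hy : lev u y = -((H : ℤ) - 1)
    swap
    · have : ∀ π γ, (if lev u (-endp 0 π - c - y) = 0 ∧ IsUp u H π ∧ endp 0 γ ∈ E ∧ IsDn u H γ ∧
          (∃ k, k ∈ Cm u (-endp 0 π - c - y) π γ) ∧
          (∀ k ∈ Cm u (-endp 0 π - c - y) π γ, k + s ≤ H) then
          μ (-endp 0 π - c - y) * (aw ν π * aw ν γ) else 0) = 0 := by
        intro π γ
        rw [if_neg]
        rintro ⟨h0, h1, -⟩
        apply hy
        have h2 := h1.2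
        rw [lev_sub, lev_sub, lev_neg, h2, hc, lev_opp] at h0
        omega
      simp only [this, tsum_zero]
      exact zero_le
    rw [if_pos hy, ENNReal.tsum_comm]
    refine ENNReal.tsum_le_tsum fun γ => ENNReal.tsum_le_tsum fun π => ?_
    by_cases h : lev u (-endp 0 π - c - y) = 0 ∧ IsUp u H π ∧ endp 0 γ ∈ E ∧ IsDn u H γ ∧
      (∃ k, k ∈ Cm u (-endp 0 π - c - y) π γ) ∧
      (∀ k ∈ Cm u (-endp 0 π - c - y) π γ, k + s ≤ H)
    swap
    · rw [if_neg h]; exact zero_le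
    rw [if_pos h]
    obtain ⟨h0, h1, h2, h3, ⟨k, y', hk1, hk2, hk3⟩, h5⟩ := h
    set x := -endp 0 π - c - y with hx
    have hxy : x + c = -endp 0 π - y := by rw [hx]; abel
    have hlc : lev u c = -1 := lev_opp u
    have hcond : IsDn u H γ ∧ endp 0 γ ∈ E ∧ IsUp u H π ∧
        (∃ z, z ∈ sitesL y π ∧ z ∈ sitesL 0 γ) ∧
        (∀ z, z ∈ sitesL y π → z ∈ sitesL 0 γ → -((H : ℤ) - 1 - s) ≤ lev u z) := by
      refine ⟨h3, h2, h1, ?_, ?_⟩
      · refine ⟨y' - (x + c), (contact_iff x y _ c π γ hxy).2 ⟨?_, ?_⟩⟩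
        · simpa using hk1
        · simpa using hk2
      · intro z hz1 hz2
        have hz := (contact_iff x y z c π γ hxy).1 ⟨hz1, hz2⟩
        have hl := lev_hung h1 hz.1
        have := h5 _ ⟨_, hz.1, hz.2, hl.1⟩
        have hz3 : lev u (z + (x + c)) = lev u z - 1 := by
          rw [lev_add, lev_add, h0, hlc]; ring
        omega
    rw [if_pos hcond]
    have h6 : -(endp y π) - c = x := by
      rw [Flux566.endp_eq_add, hx]; abel
    rw [h6, aw_eq, aw_eq]
    exact le_of_eq (by ring)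
  · have h1 : (min M 1) * (E.card * Tie799.ret ν u s 1) / lam ≤ M * E.card * Tie799.ret ν u s 1 / lam := by
      rw [mul_assoc]
      gcongr
      exact min_le_left _ _
    calc 8 * lam + 2 * ((min M 1) * (E.card * Tie799.ret ν u s 1) / lam)
        ≤ 8 * lam + 8 * (M * E.card * Tie799.ret ν u s 1 / lam) := by
          gcongr
          norm_num
      _ ≤ 8 * lam + 8 * (M * E.card * Tie799.ret ν u s 1 / lam) + 8 * Tie799.ret ν u s 1 :=
          le_self_add
      _ = 8 * (lam + M * E.card * Tie799.ret ν u s 1 / lam + Tie799.ret ν u s 1) := by ring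

lemma ret_tendsto (ν : Measure (Row d)) [IsProbabilityMeasure ν] (u : Step d) :
    Tendsto (fun s : ℕ => Tie799.ret ν u s 1) atTop (𝓝 0) := by
  rw [ENNReal.tendsto_nhds_zero]
  intro ε hε
  obtain ⟨s0, hs0⟩ := RetW458.ret_small ν (opp u) 1 ε hε.ne'
  filter_upwards [eventually_ge_atTop s0] with s hs
  refine le_trans (le_of_eq ?_) (hs0 s hs)
  unfold Tie799.ret
  refine tsum_congr fun l => ?_
  have e : ∀ y : Site d, lev (opp u) y = - lev u y := by
    intro y
    rcases u with ⟨i, b⟩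
    unfold lev opp
    cases b <;> simp
  have h : ((∀ y ∈ sitesL 0 l, -1 < lev u y) ∧ lev u (endp 0 l) = -1 ∧
      (∃ y ∈ sitesL 0 l, (s : ℤ) ≤ lev u y)) ↔
      ((∀ y ∈ sitesL 0 l, lev (opp u) y < 1) ∧ lev (opp u) (endp 0 l) = 1 ∧
      (∃ y ∈ sitesL 0 l, lev (opp u) y ≤ -(s : ℤ))) := by
    simp only [e]
    constructor
    · rintro ⟨a, b, y, c, d⟩
      exact ⟨fun y hy => by have := a y hy; omega, by omega, y, c, by omega⟩
    · rintro ⟨a, b, y, c, d⟩
      exact ⟨fun y hy => by have := a y hy; omega, by omega, y, c, by omega⟩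
  by_cases hh : ((∀ y ∈ sitesL 0 l, -1 < lev u y) ∧ lev u (endp 0 l) = -1 ∧
      (∃ y ∈ sitesL 0 l, (s : ℤ) ≤ lev u y))
  · rw [if_pos hh]; exact (if_pos (h.1 hh)).symm
  · rw [if_neg hh]; exact (if_neg (fun h' => hh (h.2 h'))).symm

lemma UU_tendsto (ν : Measure (Row d)) [IsProbabilityMeasure ν]
    (hν : ∀ᵐ p ∂ν, ∀ e : Step d, 0 < p.1 e) (u : Step d)
    (hA : annealed (iidEnvironmentLaw ν) 0 (escapeEvent (B2d.dirVec u)) ≠ 0) :
    Tendsto (fun s : ℕ => H2w386.UU ν u 1 (-(s : ℤ))) atTop (𝓝 0) := by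
  have h1 : annealedProb (iidEnvironmentLaw ν) 0 (escapeEvent (Flux566.dir u)) ≠ 0 := by
    rw [← annealed_apply _ 0 (B2d.measurableSet_escapeEvent _)]
    exact hA
  refine tendsto_of_tendsto_of_tendsto_of_le_of_le tendsto_const_nhds
    (Us778.us_tendsto_zero ν hν u h1) (fun _ => zero_le) fun s => ?_
  refine le_trans ?_ le_self_add
  refine Us778.dip_words (iidEnvironmentLaw ν) u s (H2w386.TT u 1 (-(s : ℤ)))
    (fun l hl l' hl' hp => hl'.2 l hp hl.1) fun l hl => ⟨hl.1.1, ?_⟩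
  have := hl.1.2
  exact le_trans (by norm_num) this

/-- **E2 and E3 with one sequence `us → 0`** -/
theorem e23 (ν : Measure (Row d)) [IsProbabilityMeasure ν]
    (hν : ∀ᵐ p ∂ν, ∀ e : Step d, 0 < p.1 e) (u : Step d)
    (hA : annealed (iidEnvironmentLaw ν) 0 (escapeEvent (B2d.dirVec u)) ≠ 0) :
    ∃ us : ℕ → ℝ≥0∞, Tendsto us atTop (𝓝 0) ∧ E2 ν u 8 us ∧ E3 ν u 8 us := by
  refine ⟨fun s => H2w386.UU ν u 1 (-(s : ℤ)) + Tie799.ret ν u s 1, ?_, ?_, ?_⟩
  · have := (UU_tendsto ν hν u hA).add (ret_tendsto ν u)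
    rwa [add_zero] at this
  · intro s H E μ M lam h1 h2 h3 h4
    refine (e2 ν u s H E μ M lam h1 h2 h3 h4).trans ?_
    gcongr
    · norm_num
    · exact le_self_add
    · exact le_self_add
  · intro s H E μ M lam h1 h2 h3 h4
    refine (e3 ν u s H E μ M lam h1 h2 h3 h4).trans ?_
    gcongr
    · exact le_add_self
    · exact le_add_self

end Crest.Agent.R154.E23s272
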