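import Crest.Agent.R154.H2w_386
import Crest.Agent.R154.H3_799
import Crest.Agent.R154.UsW_778

/-! Row 154, T0219, ROAD 801, joint cuts (helper311): the two window lemmas at the exact frame
`a = a' = 0`, `h = h' = H`, from the two landed cores (386, 799) and `u_s` of 778. -/

set_option autoImplicit false

open MeasureTheory ProbabilityTheory Crest.ProbabilityR.RandomEnvironment
open scoped ENNReal

namespace Crest.Agent.R154.E23311

open Crest.Agent.R154.Flux566 (lw endp sitesL endp_eq_add lev_neg lev_self)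
open Crest.Agent.R154.Flux132 (lev opp)
open Crest.Agent.R154.NB28 (IsUp IsDn Cm aw)
open Crest.Agent.R154.H2w386 (lev_add mem_sitesL sitesL_add UU TT V)

variable {d : ℕ}

lemma lev_opp (u : Step d) : lev u (stepVec (opp u) : Site d) = -1 := by
  have h1 : (stepVec (opp u) : Site d) = -stepVec u := by
    funext i
    unfold opp stepVec
    obtain ⟨a, b⟩ := u
    cases b <;> simp [Pi.single_neg]
  rw [h1]
  have h2 := lev_neg u (stepVec u)
  have h3 := lev_self u
  rw [show lev u (-stepVec u) = - lev u (stepVec u) from h2]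
  rw [show lev u (stepVec u) = 1 from h3]

lemma mem_shift (x t z : Site d) (l : List (Step d)) :
    z ∈ sitesL x l ↔ z + t ∈ sitesL (x + t) l := by
  rw [sitesL_add, List.mem_map]
  constructor
  · intro h; exact ⟨z, h, rfl⟩
  · rintro ⟨a, ha, h⟩
    have : a = z := add_right_cancel h
    rwa [this] at ha

/-- start of the up walker, seen from the start of the down walker -/
def st (u : Step d) (π : List (Step d)) (x : Site d) : Site d :=
  -endp 0 π - (x + stepVec (opp u))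

lemma st_inj (u : Step d) (π : List (Step d)) : Function.Injective (st u π) := by
  intro x x' h
  unfold st at h
  have := sub_right_injective h
  exact add_right_cancel this

lemma st_end (u : Step d) (π : List (Step d)) (x : Site d) :
    st u π x + endp 0 π = -(x + stepVec (opp u)) := by
  unfold st; abel

lemma st_add (u : Step d) (π : List (Step d)) (x : Site d) :
    st u π x + (x + stepVec (opp u)) = -endp 0 π := by
  unfold st; abel

/-- the weight seen from the start of the down walker -/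
noncomputable def mm (u : Step d) (μ : Site d → ℝ≥0∞) (y : Site d) : ℝ≥0∞ :=
  μ (-y - stepVec (opp u))

lemma mm_st (u : Step d) (μ : Site d → ℝ≥0∞) (π : List (Step d)) (x : Site d) :
    mm u μ (st u π x + endp 0 π) = μ x := by
  unfold mm; rw [st_end]; congr 1; abel

lemma sum_mm (u : Step d) (μ : Site d → ℝ≥0∞) : ∑' y, mm u μ y ≤ ∑' x, μ x := by
  refine ENNReal.tsum_comp_le_tsum_of_injective (f := fun y : Site d => -y - stepVec (opp u))
    ?_ μ
  intro a b h
  have : -a = -b := sub_left_injective h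
  exact neg_injective this

lemma lev_t (u : Step d) (x : Site d) (hx : lev u x = 0) :
    lev u (x + stepVec (opp u)) = -1 := by
  rw [lev_add, hx, lev_opp]; ring

/-- contacts, seen from the start of the down walker -/
lemma contact_iff (u : Step d) (x : Site d) (π γ : List (Step d)) (z : Site d) :
    (z ∈ sitesL (st u π x) π ∧ z ∈ sitesL 0 γ) ↔
      (z + (x + stepVec (opp u)) ∈ sitesL (-endp 0 π) π ∧
        z + (x + stepVec (opp u)) ∈ sitesL (x + stepVec (opp u)) γ) := by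
  rw [mem_shift (st u π x) (x + stepVec (opp u)) z π, mem_shift 0 (x + stepVec (opp u)) z γ,
    st_add, zero_add]

lemma ex_contact (u : Step d) (x : Site d) (π γ : List (Step d))
    (h : ∃ k, k ∈ Cm u x π γ) : ∃ z, z ∈ sitesL (st u π x) π ∧ z ∈ sitesL 0 γ := by
  obtain ⟨k, y, h1, h2, h3⟩ := h
  refine ⟨y - (x + stepVec (opp u)), (contact_iff u x π γ _).2 ?_⟩
  rw [sub_add_cancel]
  exact ⟨h1, h2⟩

lemma contact_lev (u : Step d) (x : Site d) (hx : lev u x = 0) (H : ℕ) (π γ : List (Step d))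
    (hγ : IsDn u H γ) (z : Site d) (h1 : z ∈ sitesL (st u π x) π) (h2 : z ∈ sitesL 0 γ) :
    ∃ k ∈ Cm u x π γ, lev u z = 1 - (k : ℤ) := by
  have h3 := (hγ.1 z h2).2
  have h4 : lev u (z + (x + stepVec (opp u))) = lev u z - 1 := by
    rw [lev_add, lev_t u x hx]; ring
  obtain ⟨h5, h6⟩ := (contact_iff u x π γ z).1 ⟨h1, h2⟩
  refine ⟨(1 - lev u z).toNat, ⟨_, h5, h6, ?_⟩, ?_⟩
  · rw [h4, Int.toNat_of_nonneg (by omega)]; ring
  · rw [Int.toNat_of_nonneg (by omega)]; ring

open Classical in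
/-- reindexing -/
lemma reindex (u : Step d) (G : Site d → List (Step d) → List (Step d) → ℝ≥0∞)
    (F : Site d → List (Step d) → List (Step d) → ℝ≥0∞)
    (h : ∀ x π γ, F x π γ ≤ G (st u π x) π γ) :
    ∑' x, ∑' π, ∑' γ, F x π γ ≤ ∑' y, ∑' π, ∑' γ, G y π γ := by
  calc ∑' x, ∑' π, ∑' γ, F x π γ ≤ ∑' x, ∑' π, ∑' γ, G (st u π x) π γ :=
        ENNReal.tsum_le_tsum fun x => ENNReal.tsum_le_tsum fun π =>
          ENNReal.tsum_le_tsum fun γ => h x π γ
    _ = ∑' π, ∑' x, (fun y => ∑' γ, G y π γ) (st u π x) := ENNReal.tsum_comm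
    _ ≤ ∑' π, ∑' y, ∑' γ, G y π γ := ENNReal.tsum_le_tsum fun π =>
        ENNReal.tsum_comp_le_tsum_of_injective (st_inj u π) _
    _ = _ := ENNReal.tsum_comm

lemma UU_le (ν : Measure (Row d)) [IsProbabilityMeasure ν] (u : Step d) (s : ℕ) :
    UU ν u 1 (-(s : ℤ)) ≤ Us778.us ν u s := by
  classical
  unfold UU Us778.us
  refine le_trans ?_ le_self_add
  refine Us778.dip_words (iidEnvironmentLaw ν) u s (TT u 1 (-(s : ℤ)))
    (fun l hl l' hl' hp => hl'.2 _ hp hl.1) ?_
  intro l hl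
  obtain ⟨⟨γ, h1, h2⟩, h3⟩ := hl.1
  exact ⟨⟨γ, h1, h2⟩, le_trans (by norm_num) h3⟩

lemma ret_le (ν : Measure (Row d)) [IsProbabilityMeasure ν] (u : Step d) (s : ℕ) :
    Tie799.ret ν u (s : ℤ) 1 ≤ Us778.us ν u s := by
  classical
  unfold Tie799.ret Us778.us
  refine le_trans ?_ le_add_self
  refine le_trans (le_of_eq ?_) (Us778.bump_words (iidEnvironmentLaw ν) u s
    {l | (∀ y ∈ sitesL 0 l, -1 < lev u y) ∧ lev u (endp 0 l) = -1 ∧
      (∃ y ∈ sitesL 0 l, (s : ℤ) ≤ lev u y)} ?_ ?_)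
  · refine tsum_congr fun l => ?_
    split_ifs with h1 h2 h2
    · rfl
    · exact absurd h1 h2
    · exact absurd h2 h1
    · rfl
  · rintro l ⟨h1, h2, h3⟩ l' ⟨h1', h2', h3'⟩ ⟨t, rfl⟩
    by_contra hne
    have ht : t ≠ [] := fun h => hne (by rw [h, List.append_nil])
    have := h1' (endp 0 l) (mem_sitesL.2 ⟨l, t, rfl, ht, rfl⟩)
    omega
  · rintro l ⟨h1, h2, y, hy, h3⟩
    obtain ⟨γ, ρ, h4, h5, h6⟩ := mem_sitesL.1 hy
    refine ⟨⟨γ, ⟨ρ, h4.symm⟩, ?_⟩, ?_⟩
    · rw [h6]; exact h3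
    · show lev u (endp 0 l) ≤ 0
      rw [h2]; norm_num

open Classical in
/-- **E2** -/
theorem e2 (ν : Measure (Row d)) [IsProbabilityMeasure ν] (u : Step d) (s H : ℕ)
    (E : Finset (Site d)) (μ : Site d → ℝ≥0∞) (M lam : ℝ≥0∞) (hμ : ∑' x, μ x ≤ 1)
    (hM : ∀ x, μ x ≤ M) (hl0 : lam ≠ 0) (hlt : lam ≠ ⊤) :
    ∑' x, (if lev u x = 0 then μ x * ∑' π, ∑' γ, (if IsUp u H π ∧ endp 0 π ∈ E ∧ IsDn u H γ ∧
      (∃ k, k ∈ Cm u x π γ) ∧ (∀ k ∈ Cm u x π γ, s < k) then aw ν π * aw ν γ else 0) else 0)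
      ≤ 8 * (lam + M * E.card * Us778.us ν u s / lam + Us778.us ν u s) := by
  have hcore := H2w386.core ν u H H 1 (-(s : ℤ)) E (mm u μ) M lam (fun x => hM _) hl0 hlt
  have h0 : ∑' x, (if lev u x = 0 then μ x * ∑' π, ∑' γ, (if IsUp u H π ∧ endp 0 π ∈ E ∧
      IsDn u H γ ∧ (∃ k, k ∈ Cm u x π γ) ∧ (∀ k ∈ Cm u x π γ, s < k)
      then aw ν π * aw ν γ else 0) else 0)
      = ∑' x, ∑' π, ∑' γ, (if lev u x = 0 ∧ IsUp u H π ∧ endp 0 π ∈ E ∧
      IsDn u H γ ∧ (∃ k, k ∈ Cm u x π γ) ∧ (∀ k ∈ Cm u x π γ, s < k)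
      then μ x * (aw ν π * aw ν γ) else 0) := by
    refine tsum_congr fun x => ?_
    by_cases hx : lev u x = 0
    · rw [if_pos hx, ← ENNReal.tsum_mul_left]
      refine tsum_congr fun π => ?_
      rw [← ENNReal.tsum_mul_left]
      refine tsum_congr fun γ => ?_
      simp only [hx, true_and]
      split_ifs <;> simp
    · simp [hx]
  rw [h0]
  refine (reindex u _ _ fun x π γ => ?_).trans (hcore.trans ?_)
  · split_ifs with h1 h2
    · rw [mm_st]
    · exfalso
      obtain ⟨a1, a2, a3, a4, a5, a6⟩ := h1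
      apply h2
      refine ⟨?_, a2, a3, a4, fun z hz hz' => ?_, ex_contact u x π γ a5⟩
      · rw [st_end]
        have := lev_neg u (x + stepVec (opp u))
        rw [show lev u (-(x + stepVec (opp u))) = -lev u (x + stepVec (opp u)) from this,
          lev_t u x a1]
        norm_num
      · obtain ⟨k, hk, hk'⟩ := contact_lev u x a1 H π γ a4 z hz hz'
        have := a6 k hk
        omega
    · exact zero_le
    · exact le_rfl
  · have hU := UU_le ν u s
    calc (lam + UU ν u 1 (-(s : ℤ))) * (∑' x, mm u μ x) + M * E.card * UU ν u 1 (-(s : ℤ)) / lam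
        ≤ (lam + Us778.us ν u s) * 1 + M * E.card * Us778.us ν u s / lam := by
          gcongr
          exact (sum_mm u μ).trans hμ
      _ = lam + M * E.card * Us778.us ν u s / lam + Us778.us ν u s := by ring
      _ = 1 * (lam + M * E.card * Us778.us ν u s / lam + Us778.us ν u s) := (one_mul _).symm
      _ ≤ 8 * (lam + M * E.card * Us778.us ν u s / lam + Us778.us ν u s) := by
          gcongr; norm_num

open Classical in
/-- **E3** -/
theorem e3 (ν : Measure (Row d)) [IsProbabilityMeasure ν] (u : Step d) (s H : ℕ)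
    (E : Finset (Site d)) (μ : Site d → ℝ≥0∞) (M lam : ℝ≥0∞) (hμ : ∑' x, μ x ≤ 1)
    (hM : ∀ x, μ x ≤ M) (hl0 : lam ≠ 0) (hlt : lam ≠ ⊤) :
    ∑' x, (if lev u x = 0 then μ x * ∑' π, ∑' γ, (if IsUp u H π ∧ endp 0 γ ∈ E ∧ IsDn u H γ ∧
      (∃ k, k ∈ Cm u x π γ) ∧ (∀ k ∈ Cm u x π γ, k + s ≤ H) then aw ν π * aw ν γ else 0) else 0)
      ≤ 8 * (lam + M * E.card * Us778.us ν u s / lam + Us778.us ν u s) := by
  have hf1 : ∑' z, mm u μ z ≤ 1 := (sum_mm u μ).trans hμ
  have hcore := Tie799.h3core ν u H H ((H : ℤ) - 1) ((H : ℤ) - s - 1) E (mm u μ) (min M 1) lam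
    (ne_top_of_le_ne_top ENNReal.one_ne_top (min_le_right _ _)) hl0 hlt
    (fun z => le_min (hM _) ((ENNReal.le_tsum z).trans hf1)) hf1 (by omega)
  have h0 : ∑' x, (if lev u x = 0 then μ x * ∑' π, ∑' γ, (if IsUp u H π ∧ endp 0 γ ∈ E ∧
      IsDn u H γ ∧ (∃ k, k ∈ Cm u x π γ) ∧ (∀ k ∈ Cm u x π γ, k + s ≤ H)
      then aw ν π * aw ν γ else 0) else 0)
      = ∑' x, ∑' π, ∑' γ, (if lev u x = 0 ∧ IsUp u H π ∧ endp 0 γ ∈ E ∧
      IsDn u H γ ∧ (∃ k, k ∈ Cm u x π γ) ∧ (∀ k ∈ Cm u x π γ, k + s ≤ H)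
      then μ x * (aw ν π * aw ν γ) else 0) := by
    refine tsum_congr fun x => ?_
    by_cases hx : lev u x = 0
    · rw [if_pos hx, ← ENNReal.tsum_mul_left]
      refine tsum_congr fun π => ?_
      rw [← ENNReal.tsum_mul_left]
      refine tsum_congr fun γ => ?_
      simp only [hx, true_and]
      split_ifs <;> simp
    · simp [hx]
  have h1 : ∑' x : Site d, (if lev u x = -((H : ℤ) - 1) then ∑' γ : List (Step d),
      ∑' π : List (Step d),
      (if IsDn u H γ ∧ endp 0 γ ∈ E ∧ IsUp u H π ∧ (∃ y, y ∈ sitesL x π ∧ y ∈ sitesL 0 γ) ∧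
        (∀ y, y ∈ sitesL x π → y ∈ sitesL 0 γ → -((H : ℤ) - s - 1) ≤ lev u y)
        then Surg799.aw ν γ * Surg799.aw ν π * mm u μ (endp x π) else 0) else 0)
      = ∑' x : Site d, ∑' π : List (Step d), ∑' γ : List (Step d),
      (if lev u x = -((H : ℤ) - 1) ∧ IsDn u H γ ∧ endp 0 γ ∈ E ∧ IsUp u H π ∧
        (∃ y, y ∈ sitesL x π ∧ y ∈ sitesL 0 γ) ∧
        (∀ y, y ∈ sitesL x π → y ∈ sitesL 0 γ → -((H : ℤ) - s - 1) ≤ lev u y)
        then mm u μ (endp x π) * (aw ν π * aw ν γ) else 0) := by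
    refine tsum_congr fun x => ?_
    by_cases hx : lev u x = -((H : ℤ) - 1)
    · rw [if_pos hx, ENNReal.tsum_comm]
      refine tsum_congr fun π => tsum_congr fun γ => ?_
      simp only [hx, true_and]
      split_ifs
      · rw [mul_comm (mm u μ (endp x π)), mul_comm (aw ν π)]; rfl
      · rfl
    · rw [if_neg hx]
      symm
      rw [ENNReal.tsum_eq_zero]
      intro π
      rw [ENNReal.tsum_eq_zero]
      intro γ
      rw [if_neg fun h => hx h.1]
  rw [h1] at hcore
  rw [h0]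
  refine (reindex u _ _ fun x π γ => ?_).trans (hcore.trans ?_)
  · split_ifs with h1 h2
    · have : endp (st u π x) π = st u π x + endp 0 π := endp_eq_add _ _
      rw [this, mm_st]
    · exfalso
      obtain ⟨a1, a2, a3, a4, a5, a6⟩ := h1
      apply h2
      refine ⟨?_, a4, a3, a2, ex_contact u x π γ a5, fun z hz hz' => ?_⟩
      · have e1 := st_add u π x
        have e2 : lev u (st u π x) + lev u (x + stepVec (opp u)) = lev u (-endp 0 π) := by
          rw [← lev_add, e1]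
        have e3 := lev_neg u (endp 0 π)
        have e4 : lev u (-endp 0 π) = -lev u (endp 0 π) := e3
        rw [lev_t u x a1, e4, a2.2] at e2
        omega
      · obtain ⟨k, hk, hk'⟩ := contact_lev u x a1 H π γ a4 z hz hz'
        have := a6 k hk
        omega
    · exact zero_le
    · exact le_rfl
  · have hR : Tie799.ret ν u ((H : ℤ) - 1 - ((H : ℤ) - s - 1)) ((H : ℤ) - ((H : ℤ) - 1))
        ≤ Us778.us ν u s := by
      have e1 : (H : ℤ) - 1 - ((H : ℤ) - s - 1) = s := by ring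
      have e2 : (H : ℤ) - ((H : ℤ) - 1) = 1 := by ring
      rw [e1, e2]; exact ret_le ν u s
    calc 8 * lam + 2 * (min M 1 * (E.card * Tie799.ret ν u ((H : ℤ) - 1 - ((H : ℤ) - s - 1))
          ((H : ℤ) - ((H : ℤ) - 1))) / lam)
        ≤ 8 * lam + 8 * (M * (E.card * Us778.us ν u s) / lam) := by
          refine add_le_add le_rfl (mul_le_mul' (by norm_num) ?_)
          refine ENNReal.div_le_div_right (mul_le_mul' (min_le_left _ _) ?_) _
          exact mul_le_mul' le_rfl hR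
      _ = 8 * (lam + M * E.card * Us778.us ν u s / lam) := by rw [mul_assoc M, mul_add]
      _ ≤ 8 * (lam + M * E.card * Us778.us ν u s / lam + Us778.us ν u s) :=
          mul_le_mul' le_rfl le_self_add

end Crest.Agent.R154.E23311
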