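import Crest.Agent.R154.NBDefs_28

/-! Row 154, ROAD 801 (helper763): the three inputs of the assembly IN WORDS (28's letters), with the
staggered pieces (`Y` starts at or below the top of `X` and ends at or below the start of `X`).
`X` is hung with its end at `0`; `Y` starts at `x`, `lev u x = -δ`. -/

set_option autoImplicit false

namespace Crest.Agent.R154.WL763

open MeasureTheory ProbabilityTheory Crest.ProbabilityR.RandomEnvironment Crest.Agent.R154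
open Crest.Agent.R154.Flux132 (lev opp)
open Crest.Agent.R154.Flux566 (lw endp sitesL)
open Crest.Agent.R154.NB28
open scoped ENNReal

variable {d : ℕ}

open Classical in
/-- `X` local (ends in `E`), `Y` anything; all contacts `≥ s` below the start of `Y` -/
def H2P (ν : Measure (Row d)) [IsProbabilityMeasure ν] (u : Step d) : Prop :=
  ∃ C : ℝ≥0∞, C ≠ ⊤ ∧ ∀ r0 : ℕ, ∀ η : ℝ≥0∞, η ≠ 0 → ∃ s0 : ℕ, ∀ s : ℕ, s0 ≤ s →
    ∀ (h h' δ : ℕ) (E : Finset (Site d)) (μ : Site d → ℝ≥0∞) (M lam : ℝ≥0∞),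
      1 ≤ δ → δ ≤ r0 → h ≤ h' + δ → h' + δ ≤ h + r0 →
      (∑' x, μ x ≤ 1) → (∀ x, μ x ≤ M) → M ≠ ⊤ → (∀ x, μ x ≠ 0 → lev u x = -(δ : ℤ)) →
      lam ≠ 0 → lam ≠ ⊤ →
      ∑' x, μ x * ∑' π : List (Step d), ∑' γ : List (Step d),
        (if IsUp u h π ∧ endp 0 π ∈ E ∧ IsDn u h' γ ∧
            (∃ y, y ∈ sitesL (-endp 0 π) π ∧ y ∈ sitesL x γ) ∧
            (∀ y, y ∈ sitesL (-endp 0 π) π → y ∈ sitesL x γ → lev u y + s ≤ -(δ : ℤ))
          then aw ν π * aw ν γ else 0) ≤ C * (lam + M * E.card * η / lam + η)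

open Classical in
/-- `Y` local (displacement in `E`), `X` anything; all contacts `≥ s` above the start of `X` -/
def H3P (ν : Measure (Row d)) [IsProbabilityMeasure ν] (u : Step d) : Prop :=
  ∃ C : ℝ≥0∞, C ≠ ⊤ ∧ ∀ r0 : ℕ, ∀ η : ℝ≥0∞, η ≠ 0 → ∃ s0 : ℕ, ∀ s : ℕ, s0 ≤ s →
    ∀ (h h' δ : ℕ) (E : Finset (Site d)) (μ : Site d → ℝ≥0∞) (M lam : ℝ≥0∞),
      1 ≤ δ → δ ≤ r0 → h ≤ h' + δ → h' + δ ≤ h + r0 →
      (∑' x, μ x ≤ 1) → (∀ x, μ x ≤ M) → M ≠ ⊤ → (∀ x, μ x ≠ 0 → lev u x = -(δ : ℤ)) →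
      lam ≠ 0 → lam ≠ ⊤ →
      ∑' x, μ x * ∑' π : List (Step d), ∑' γ : List (Step d),
        (if IsUp u h π ∧ endp 0 γ ∈ E ∧ IsDn u h' γ ∧
            (∃ y, y ∈ sitesL (-endp 0 π) π ∧ y ∈ sitesL x γ) ∧
            (∀ y, y ∈ sitesL (-endp 0 π) π → y ∈ sitesL x γ → -(h : ℤ) + s ≤ lev u y)
          then aw ν π * aw ν γ else 0) ≤ C * (lam + M * E.card * η / lam + η)

open Classical in
/-- the thin slab -/
def PtP (ν : Measure (Row d)) [IsProbabilityMeasure ν] (u : Step d) : Prop :=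
  ∀ (S : ℕ) (ε : ℝ≥0∞), ε ≠ 0 → ∃ D0 : ℕ, ∀ D, D0 ≤ D → ∀ n, D + S ≤ n → ∀ w : Site d,
    lev u w = 0 →
    ∑' π : List (Step d), ∑' γ : List (Step d),
      (if IsUp u n π ∧ IsDn u n γ ∧ (∃ k ∈ Cm u w π γ, D ≤ k ∧ k ≤ D + S)
        then aw ν π * aw ν γ else 0) ≤ ε

end Crest.Agent.R154.WL763
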