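import Crest.Agent.R154.WinF_546
import Crest.Agent.R154.WLit_763
import Crest.Agent.R154.RetW_458
import Crest.Agent.R154.Flux1_132

/-! Row 154, road 801 (helper546): `WL763.H2P` from `win2`. -/

set_option autoImplicit false

open MeasureTheory ProbabilityTheory Crest.ProbabilityR.RandomEnvironment Crest.Agent.R154
open Crest.Agent.R154.Flux132 (lev opp lev_add lev_neg lev_zero)
open Crest.Agent.R154.Flux566 (lw endp sitesL endp_append endp_eq_add)
open scoped ENNReal Classical

namespace Crest.Agent.R154.Win546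

variable {d : ℕ}

lemma lev_sub (u : Step d) (x y : Site d) : lev u (x - y) = lev u x - lev u y := by
  rw [sub_eq_add_neg, lev_add, lev_neg, sub_eq_add_neg]

lemma sites_append (l l' : List (Step d)) (x : Site d) :
    sitesL x (l ++ l') = sitesL x l ++ sitesL (endp x l) l' := by
  induction l generalizing x with
  | nil => rfl
  | cons e l ih => simp only [List.cons_append, sitesL, endp]; rw [ih]

lemma mem_sites_shift (l : List (Step d)) (x y z : Site d) :
    y ∈ sitesL x l ↔ y + z ∈ sitesL (x + z) l := by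
  rw [mem_sitesL, mem_sitesL]
  constructor
  · rintro ⟨p, r, h1, h2, h3⟩
    refine ⟨p, r, h1, h2, ?_⟩
    rw [endp_eq_add, ← h3, endp_eq_add p x]; abel
  · rintro ⟨p, r, h1, h2, h3⟩
    refine ⟨p, r, h1, h2, ?_⟩
    rw [endp_eq_add] at h3 ⊢
    exact add_right_cancel (b := z) (by rw [← h3]; abel)

/-- a common site gives a first hit -/
lemma hit_of_common {Dp : Set (Site d)} {x y : Site d} {π ρ : List (Step d)} {z : Site d}
    (h1 : z ∈ sitesL y π) (h2 : z ∈ sitesL x ρ)
    (hD : ∀ z, z ∈ sitesL y π → z ∈ sitesL x ρ → z ∈ Dp) : Hit Dp x y π ρ := by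
  obtain ⟨p, r, e1, e2, e3⟩ := (mem_sitesL ρ x z).1 h2
  obtain ⟨p', r', e4, e5⟩ := exists_Mn (fun p => endp x p ∈ sitesL y π) p
    (show endp x p ∈ sitesL y π by rw [e3]; exact h1)
  have e6 : ρ = p' ++ (r' ++ r) := by rw [e1, e4, List.append_assoc]
  have e7 : r' ++ r ≠ [] := by simp [e2]
  exact ⟨p', r' ++ r, e6, e7, e5, hD _ e5.1 ((mem_sitesL ρ x _).2 ⟨p', r' ++ r, e6, e7, rfl⟩)⟩

lemma pf_up (u : Step d) (h : ℕ) : PF {l : List (Step d) | NB28.IsUp u h l} := by
  intro l hl r hr
  by_contra hne
  obtain ⟨e, r', rfl⟩ := List.exists_cons_of_ne_nil hne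
  have h1 : endp 0 l ∈ sitesL (0 : Site d) (l ++ e :: r') := by
    rw [sites_append]; simp [sitesL]
  have h2 := (hr.1 _ h1).2
  have h3 := hl.2
  omega

lemma pf_dn (u : Step d) (h : ℕ) : PF {l : List (Step d) | NB28.IsDn u h l} := by
  intro l hl r hr
  by_contra hne
  obtain ⟨e, r', rfl⟩ := List.exists_cons_of_ne_nil hne
  have h1 : endp 0 l ∈ sitesL (0 : Site d) (l ++ e :: r') := by
    rw [sites_append]; simp [sitesL]
  have h2 := (hr.1 _ h1).1
  have h3 := hl.2
  omega

/-- **order (2) in 763's letters** -/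
theorem h2p (ν : Measure (Row d)) [IsProbabilityMeasure ν] (u : Step d) : WL763.H2P ν u := by
  refine ⟨1, ENNReal.one_ne_top, fun r0 η hη => ?_⟩
  obtain ⟨s0, hs0⟩ := RetW458.ret_small_unif ν u r0 η hη
  refine ⟨s0, fun s hs h h' δ E μ M lam hδ1 hδ2 _ _ hμ hM _ hμs hl0 hl1 => ?_⟩
  set XX : Set (List (Step d)) := {l | NB28.IsUp u h l} with hXX
  set YY : Set (List (Step d)) := {l | NB28.IsDn u h' l} with hYY
  set Dp : Set (Site d) := {z | lev u z ≤ (h : ℤ) - δ - s} with hDp
  set XS : Set (Site d) := {x | lev u x = (h : ℤ) - δ} with hXS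
  set DX : Site d → Set (List (Step d)) := fun v =>
    {r | (∀ y ∈ sitesL v r, 0 ≤ lev u y ∧ lev u y < h) ∧ lev u (endp v r) = h} with hDX
  set TT : Set (List (Step d)) := {t | (∀ y ∈ sitesL 0 t, lev u y < (δ : ℤ)) ∧
    lev u (endp 0 t) = (δ : ℤ) ∧ ∃ y ∈ sitesL 0 t, lev u y ≤ -(s : ℤ)} with hTT
  have key := win2 ν (XX := XX) (YY := YY) (pf_up u h) (pf_dn u h') E Dp DX
    (by
      intro p r hpr
      refine ⟨fun y hy => hpr.1 y (by rw [sites_append]; simp [hy]), ?_⟩
      rw [← endp_append]; exact hpr.2) XS TT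
    (by
      intro x hx p r hr hpr hDpp δ' hδ'
      have hx' : lev u x = (h : ℤ) - δ := hx
      have hlp : lev u (endp x p) = lev u x + lev u (endp 0 p) := by
        rw [endp_eq_add, lev_add]
      have hDpp' : lev u (endp x p) ≤ (h : ℤ) - δ - s := hDpp
      have hmem : ∀ y, y ∈ sitesL (0 : Site d) (p ++ δ') →
          y ∈ sitesL (0 : Site d) p ∨ y ∈ sitesL (endp 0 p) δ' := by
        intro y hy
        rw [sites_append] at hy
        simpa using hy
      have hend : ∀ y, y ∈ sitesL (endp 0 p) δ' → y + x ∈ sitesL (endp x p) δ' := by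
        intro y hy
        have := (mem_sites_shift δ' (endp 0 p) y x).1 hy
        rwa [show endp 0 p + x = endp x p by rw [endp_eq_add p x]; abel] at this
      refine ⟨fun y hy => ?_, ?_, ?_⟩
      · rcases hmem y hy with h1 | h1
        · have := (hpr.1 y (by rw [sites_append]; simp [h1])).2
          omega
        · have := (hδ'.1 _ (hend y h1)).2
          rw [lev_add] at this
          omega
      · have h1 := hδ'.2
        rw [endp_append]
        rw [endp_eq_add, lev_add] at h1
        rw [endp_eq_add, lev_add]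
        omega
      · have hne : δ' ≠ [] := by
          rintro rfl
          have := hδ'.2
          simp only [endp] at this
          omega
        obtain ⟨e, r', rfl⟩ := List.exists_cons_of_ne_nil hne
        refine ⟨endp 0 p, by rw [sites_append]; simp [sitesL], ?_⟩
        omega)
    μ M hM hμ hl0 hl1
  have hsum := hs0 s hs δ hδ2
  have hTTs : ∀ inst : ∀ t, Decidable (t ∈ TT),
      ∑' t, (@ite _ (t ∈ TT) (inst t) (aw ν t) 0) ≤ η := by
    intro inst
    refine le_trans (le_of_eq (tsum_congr fun t => ?_)) hsum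
    by_cases ht : t ∈ TT
    · rw [if_pos ht, if_pos]
      · rfl
      · exact ht
    · rw [if_neg ht, if_neg]
      exact ht
  refine le_trans ?_ (key.trans ?_)
  · 
    set g : Site d → List (Step d) → List (Step d) → ℝ≥0∞ := fun x π γ =>
      μ x * (if NB28.IsUp u h π ∧ endp 0 π ∈ E ∧ NB28.IsDn u h' γ ∧
            (∃ y, y ∈ sitesL (-endp 0 π) π ∧ y ∈ sitesL x γ) ∧
            (∀ y, y ∈ sitesL (-endp 0 π) π → y ∈ sitesL x γ → lev u y + s ≤ -(δ : ℤ))
          then NB28.aw ν π * NB28.aw ν γ else 0) with hg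
    calc _ = ∑' x, ∑' π, ∑' γ, g x π γ := by
          refine tsum_congr fun x => ?_
          rw [← ENNReal.tsum_mul_left]
          refine tsum_congr fun π => ?_
          rw [← ENNReal.tsum_mul_left]
      _ = ∑' π, ∑' x, ∑' γ, g x π γ := ENNReal.tsum_comm
      _ = ∑' π, ∑' x, ∑' γ, g (x - endp 0 π) π γ := by
          refine tsum_congr fun π => ?_
          exact ((Equiv.subRight (endp 0 π)).tsum_eq (fun x => ∑' γ, g x π γ)).symm
      _ = ∑' x, ∑' π, ∑' γ, g (x - endp 0 π) π γ := ENNReal.tsum_comm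
      _ ≤ _ := by
          refine ENNReal.tsum_le_tsum fun x => ENNReal.tsum_le_tsum fun π =>
            ENNReal.tsum_le_tsum fun γ => ?_
          rw [hg]
          simp only
          by_cases hμ0 : μ (x - endp 0 π) = 0
          · rw [hμ0, zero_mul]; exact zero_le
          split_ifs with hc hc2 hc2
          · exact le_rfl
          · exfalso
            obtain ⟨c1, c2, c3, ⟨y, c4, c5⟩, c6⟩ := hc
            have hlx := hμs _ hμ0
            rw [lev_sub, c1.2] at hlx
            refine hc2 ⟨⟨show lev u x = (h : ℤ) - δ by omega, c1, c2⟩, c3, ?_⟩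
            have t1 : ∀ y, y ∈ sitesL (-endp 0 π) π ↔ y + endp 0 π ∈ sitesL 0 π := by
              intro y
              rw [mem_sites_shift π (-endp 0 π) y (endp 0 π), neg_add_cancel]
            have t2 : ∀ y, y ∈ sitesL (x - endp 0 π) γ ↔ y + endp 0 π ∈ sitesL x γ := by
              intro y
              rw [mem_sites_shift γ (x - endp 0 π) y (endp 0 π), sub_add_cancel]
            refine hit_of_common ((t1 y).1 c4) ((t2 y).1 c5) (fun z hz1 hz2 => ?_)
            have t3 : z = (z - endp 0 π) + endp 0 π := by abel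
            have := c6 (z - endp 0 π) ((t1 _).2 (by rw [← t3]; exact hz1))
              ((t2 _).2 (by rw [← t3]; exact hz2))
            rw [lev_sub, c1.2] at this
            show lev u z ≤ (h : ℤ) - δ - s
            omega
          · simp
          · simp
  · rw [one_mul]
    refine (add_le_add le_rfl (mul_le_mul_right (mul_le_mul_right (mul_le_mul_right
      (hTTs _) _) _) _)).trans ?_
    calc lam + M * (lam⁻¹ * (E.card * η))
        = lam + M * E.card * η / lam := by rw [ENNReal.div_eq_inv_mul]; ring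
      _ ≤ _ := le_self_add

end Crest.Agent.R154.Win546
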