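import Crest.Agent.R154.WLit_763
import Crest.Agent.R154.Win_775
import Crest.Agent.R154.RetW_458
import Crest.Agent.R154.NBSurg_28

/-! Row 154, ROAD 801 (helper125): 763's literal `H3P` (with `h < h' + δ`) from 775's `win3` and
458's `ret_small_unif`. -/

set_option autoImplicit false

namespace Crest.Agent.R154.H3P125

open MeasureTheory ProbabilityTheory Crest.ProbabilityR.RandomEnvironment Crest.Agent.R154
open Crest.Agent.R154.Flux132 (lev opp lev_add lev_neg lev_zero)
open Crest.Agent.R154.Flux566 (lw endp sitesL endp_eq_add)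
open Crest.Agent.R154.NB28
open scoped ENNReal

variable {d : ℕ}

lemma sitesL_add (l : List (Step d)) (x z : Site d) :
    sitesL (x + z) l = (sitesL x l).map (· + z) := by
  induction l generalizing x with
  | nil => rfl
  | cons e l ih =>
    simp only [sitesL, List.map_cons]
    rw [← ih (x + stepVec e)]
    congr 2
    abel

lemma mem_shift (l : List (Step d)) (x z y : Site d) :
    y ∈ sitesL x l ↔ y + z ∈ sitesL (x + z) l := by
  rw [sitesL_add]
  simp

lemma lev_step (u e : Step d) : -1 ≤ lev u (stepVec e) := by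
  unfold lev stepVec
  obtain ⟨i, b⟩ := u
  obtain ⟨j, c⟩ := e
  by_cases hij : i = j
  · subst hij
    cases b <;> cases c <;> simp
  · cases b <;> cases c <;> simp [hij]

lemma end_ge (u : Step d) (k : ℤ) (l : List (Step d)) : ∀ x : Site d,
    (∀ y ∈ sitesL x l, k < lev u y) → k ≤ lev u x → k ≤ lev u (endp x l) := by
  induction l with
  | nil => intro x _ h; exact h
  | cons e l ih =>
    intro x hy _
    have h1 := hy x (by simp [sitesL])
    have h2 := lev_step u e
    refine ih (x + stepVec e) (fun y hy' => hy y (by simp [sitesL, hy'])) ?_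
    rw [lev_add]
    omega

lemma lev_opp' (u : Step d) (x : Site d) : Flux566.lev (opp u) x = - lev u x := by
  unfold Flux566.lev lev opp
  cases h : u.2 <;> simp [h]

open Classical in
/-- 763's `H3P` with a strict stagger at the bottom -/
def H3Q (ν : Measure (Row d)) [IsProbabilityMeasure ν] (u : Step d) : Prop :=
  ∃ C : ℝ≥0∞, C ≠ ⊤ ∧ ∀ r0 : ℕ, ∀ η : ℝ≥0∞, η ≠ 0 → ∃ s0 : ℕ, ∀ s : ℕ, s0 ≤ s →
    ∀ (h h' δ : ℕ) (E : Finset (Site d)) (μ : Site d → ℝ≥0∞) (M lam : ℝ≥0∞),
      1 ≤ δ → δ ≤ r0 → h < h' + δ → h' + δ ≤ h + r0 →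
      (∑' x, μ x ≤ 1) → (∀ x, μ x ≤ M) → M ≠ ⊤ → (∀ x, μ x ≠ 0 → lev u x = -(δ : ℤ)) →
      lam ≠ 0 → lam ≠ ⊤ →
      ∑' x, μ x * ∑' π : List (Step d), ∑' γ : List (Step d),
        (if IsUp u h π ∧ endp 0 γ ∈ E ∧ IsDn u h' γ ∧
            (∃ y, y ∈ sitesL (-endp 0 π) π ∧ y ∈ sitesL x γ) ∧
            (∀ y, y ∈ sitesL (-endp 0 π) π → y ∈ sitesL x γ → -(h : ℤ) + s ≤ lev u y)
          then aw ν π * aw ν γ else 0) ≤ C * (lam + M * E.card * η / lam + η)

open Classical in
lemma first_hit (π : List (Step d)) (V : Site d → Prop) : ∀ y : Site d,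
    (∃ z ∈ sitesL y π, V z) → ∃ π1 π2, π = π1 ++ π2 ∧ (∀ z ∈ sitesL y π1, ¬ V z) ∧
      V (endp y π1) ∧ endp y π1 ∈ sitesL y π := by
  induction π with
  | nil => rintro y ⟨z, hz, _⟩; simp [sitesL] at hz
  | cons e l ih =>
    rintro y ⟨z, hz, hV⟩
    by_cases h0 : V y
    · exact ⟨[], e :: l, rfl, by simp [sitesL], h0, by simp [sitesL, endp]⟩
    · have hz' : z ∈ sitesL (y + stepVec e) l := by
        simp only [sitesL, List.mem_cons] at hz
        rcases hz with rfl | hz
        · exact absurd hV h0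
        · exact hz
      obtain ⟨π1, π2, h1, h2, h3, h4⟩ := ih (y + stepVec e) ⟨z, hz', hV⟩
      refine ⟨e :: π1, π2, by rw [h1]; rfl, ?_, h3, ?_⟩
      · intro w hw
        simp only [sitesL, List.mem_cons] at hw
        rcases hw with rfl | hw
        · exact h0
        · exact h2 w hw
      · simp only [sitesL, List.mem_cons]
        right
        exact h4

open Classical in
theorem h3Q (ν : Measure (Row d)) [IsProbabilityMeasure ν] (u : Step d) : H3Q ν u := by
  refine ⟨4, by norm_num, fun r0 η hη => ?_⟩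
  obtain ⟨s0, hs0⟩ := RetW458.ret_small_unif ν (opp u) r0 η hη
  refine ⟨s0, fun s hs h h' δ E μ M lam hδ hδr hh hh' hμ hμM hM hsup hl hl' => ?_⟩
  by_cases hM0 : M = 0
  · have h0 : ∀ x, μ x = 0 := fun x => le_antisymm (by rw [← hM0]; exact hμM x) zero_le
    simp [h0]
  set k : ℤ := (h : ℤ) - h' - δ with hk
  have hk0 : k < 0 := by rw [hk]; omega
  have hkr : -(r0 : ℤ) ≤ k := by rw [hk]; omega
  set Q : Set (Site d) := {z | lev u z ≤ k} with hQ
  set A : Set (Site d) := {z | (s : ℤ) ≤ lev u z} with hA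
  have key := Win775.win3 ν (S := fun _ => Qᶜ) (T := fun x => {z | lev u z = k ∧ z - x ∈ E})
    (S' := {z | 0 ≤ lev u z ∧ lev u z < h}) (T' := {z | lev u z = h}) (Q := Q) (A := A)
    (y := 0) (δ := fun x z => μ (x - z)) (M := M) (lam := lam) (N := E.card) (r := η)
    hM0 hM hl hl'
    (by
      rw [Set.disjoint_left]
      rintro z ⟨_, h2⟩ h3
      simp only [Set.mem_ofPred_eq] at h2 h3
      omega)
    (fun x z => hμM _)
    (fun z => by
      rw [← (Equiv.subRight z).tsum_eq μ] at hμ
      exact hμ)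
    (fun x => le_rfl)
    (fun x z hz => by
      simp only [hQ, Set.mem_ofPred_eq] at hz ⊢
      exact hz.1.le)
    (fun z hz => by
      simp only [hQ, Set.mem_compl_iff, Set.mem_ofPred_eq] at hz ⊢
      omega)
    (fun z => by
      refine le_trans (ENNReal.tsum_le_tsum
        (g := fun x : Site d => if z - x ∈ E then (1 : ℝ≥0∞) else 0) fun x => ?_) ?_
      · by_cases hx : z - x ∈ E
        · rw [if_pos hx]; split_ifs <;> simp
        · rw [if_neg hx, if_neg (fun hc => hx hc.2)]
      calc ∑' x : Site d, (if z - x ∈ E then (1 : ℝ≥0∞) else 0)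
          = ∑' x : Site d, (if x ∈ E then (1 : ℝ≥0∞) else 0) :=
            (Equiv.subLeft z).tsum_eq fun x => if x ∈ E then (1 : ℝ≥0∞) else 0
        _ = ∑ x ∈ E, (if x ∈ E then (1 : ℝ≥0∞) else 0) :=
            tsum_eq_sum fun x hx => if_neg hx
        _ ≤ E.card := by
            rw [Finset.sum_congr rfl fun x hx => if_pos hx]
            simp)
    (by
      refine le_trans (ENNReal.tsum_le_tsum fun σ => ?_) (hs0 s hs (-k).toNat (by omega))
      split_ifs with h1 h2
      · exact le_rfl
      · exfalso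
        apply h2
        obtain ⟨⟨h3, h4⟩, y, hy, hyA⟩ := h1
        simp only [hQ, Set.mem_compl_iff, Set.mem_ofPred_eq, not_le] at h3 h4
        have h5 := end_ge u k σ 0 h3 (by rw [lev_zero]; omega)
        refine ⟨fun y hy => ?_, ?_, y, hy, ?_⟩
        · rw [lev_opp']
          have := h3 y hy
          omega
        · rw [lev_opp']
          omega
        · rw [lev_opp']
          simp only [hA, Set.mem_ofPred_eq] at hyA
          omega
      · exact zero_le
      · exact le_rfl)
  -- the sum in the window lemma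
  have e1 : ∑' x, μ x * ∑' π : List (Step d), ∑' γ : List (Step d),
        (if IsUp u h π ∧ endp 0 γ ∈ E ∧ IsDn u h' γ ∧
            (∃ y, y ∈ sitesL (-endp 0 π) π ∧ y ∈ sitesL x γ) ∧
            (∀ y, y ∈ sitesL (-endp 0 π) π → y ∈ sitesL x γ → -(h : ℤ) + s ≤ lev u y)
          then aw ν π * aw ν γ else 0)
      = ∑' π : List (Step d), ∑' γ : List (Step d), ∑' x, μ x *
        (if IsUp u h π ∧ endp 0 γ ∈ E ∧ IsDn u h' γ ∧
            (∃ y, y ∈ sitesL (-endp 0 π) π ∧ y ∈ sitesL x γ) ∧
            (∀ y, y ∈ sitesL (-endp 0 π) π → y ∈ sitesL x γ → -(h : ℤ) + s ≤ lev u y)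
          then aw ν π * aw ν γ else 0) := by
    simp_rw [← ENNReal.tsum_mul_left]
    rw [ENNReal.tsum_comm]
    refine tsum_congr fun π => ?_
    rw [ENNReal.tsum_comm]
  have e2 : ∀ π γ : List (Step d), ∑' x, μ x *
        (if IsUp u h π ∧ endp 0 γ ∈ E ∧ IsDn u h' γ ∧
            (∃ y, y ∈ sitesL (-endp 0 π) π ∧ y ∈ sitesL x γ) ∧
            (∀ y, y ∈ sitesL (-endp 0 π) π → y ∈ sitesL x γ → -(h : ℤ) + s ≤ lev u y)
          then aw ν π * aw ν γ else 0)
      ≤ ∑' x : Site d, (if Win775.FP Qᶜ {z | lev u z = k ∧ z - x ∈ E} x γ ∧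
          Win775.FP {z | 0 ≤ lev u z ∧ lev u z < h} {z | lev u z = h} 0 π ∧
          Win775.Hit x γ 0 A π then
            Win775.awx ν x γ * (Win775.awx ν 0 π * μ (x - endp 0 π)) else 0) := by
    intro π γ
    rw [← (Equiv.subRight (endp 0 π)).tsum_eq (fun x => μ x *
        (if IsUp u h π ∧ endp 0 γ ∈ E ∧ IsDn u h' γ ∧
            (∃ y, y ∈ sitesL (-endp 0 π) π ∧ y ∈ sitesL x γ) ∧
            (∀ y, y ∈ sitesL (-endp 0 π) π → y ∈ sitesL x γ → -(h : ℤ) + s ≤ lev u y)
          then aw ν π * aw ν γ else 0))]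
    refine ENNReal.tsum_le_tsum fun x => ?_
    simp only [Equiv.subRight_apply]
    by_cases hμ0 : μ (x - endp 0 π) = 0
    · rw [hμ0, zero_mul]; exact zero_le
    have hlx := hsup _ hμ0
    split_ifs with h1 h2
    · refine le_of_eq ?_
      rw [show Win775.awx ν x γ = aw ν γ from aw_shift ν x γ,
        show Win775.awx ν 0 π = aw ν π from rfl]
      ring
    · exfalso
      apply h2
      obtain ⟨hU, hE, hD, ⟨y, hy1, hy2⟩, hall⟩ := h1
      have hz := hU.2
      have hlx' : lev u x = h - δ := by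
        have : x = (x - endp 0 π) + endp 0 π := by abel
        rw [this, lev_add, hlx, hz]; ring
      refine ⟨⟨?_, ?_⟩, ⟨fun z hz => hU.1 z hz, hU.2⟩, ?_⟩
      · intro z hz'
        have h3 : z - x ∈ sitesL 0 γ := by
          have := (mem_shift γ 0 x (z - x)).2 (by simpa using hz')
          exact this
        have h4 := hD.1 _ h3
        have h5 : lev u z = lev u (z - x) + lev u x := by rw [← lev_add]; congr 1; abel
        simp only [hQ, Set.mem_compl_iff, Set.mem_ofPred_eq, not_le]
        omega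
      · have h6 : endp x γ = x + endp 0 γ := endp_eq_add γ x
        have h7 := hD.2
        refine ⟨?_, ?_⟩
        · rw [h6, lev_add]; omega
        · rw [h6, add_sub_cancel_left]; exact hE
      · -- the first hit
        have hc1 : ∀ z : Site d, z ∈ sitesL 0 π → z ∈ sitesL x γ → (s : ℤ) ≤ lev u z := by
          intro z hz1 hz2
          have h8 : z - endp 0 π ∈ sitesL (-endp 0 π) π := by
            have := (mem_shift π (-endp 0 π) (endp 0 π) (z - endp 0 π)).2
              (by simpa using hz1)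
            exact this
          have h9 : z - endp 0 π ∈ sitesL (x - endp 0 π) γ := by
            have := (mem_shift γ (x - endp 0 π) (endp 0 π) (z - endp 0 π)).2
              (by simpa using hz2)
            exact this
          have h10 := hall _ h8 h9
          have h11 : lev u z = lev u (z - endp 0 π) + lev u (endp 0 π) := by
            rw [← lev_add]; congr 1; abel
          omega
        have hy1' : y + endp 0 π ∈ sitesL 0 π := by
          have := (mem_shift π (-endp 0 π) (endp 0 π) y).1 hy1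
          simpa using this
        have hy2' : y + endp 0 π ∈ sitesL x γ := by
          have := (mem_shift γ (x - endp 0 π) (endp 0 π) y).1 hy2
          simpa using this
        obtain ⟨π1, π2, g1, g2, g3, g4⟩ := first_hit π (fun z => z ∈ sitesL x γ) 0
          ⟨_, hy1', hy2'⟩
        exact ⟨π1, π2, g1, g2, g3, hc1 _ g4 g3⟩
    · simp
    · simp
  rw [e1]
  refine (ENNReal.tsum_le_tsum fun π => ENNReal.tsum_le_tsum fun γ => e2 π γ).trans ?_
  have e3 : ∑' π : List (Step d), ∑' γ : List (Step d), ∑' x : Site d,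
        (if Win775.FP Qᶜ {z | lev u z = k ∧ z - x ∈ E} x γ ∧
          Win775.FP {z | 0 ≤ lev u z ∧ lev u z < h} {z | lev u z = h} 0 π ∧
          Win775.Hit x γ 0 A π then
            Win775.awx ν x γ * (Win775.awx ν 0 π * μ (x - endp 0 π)) else 0)
      = ∑' x : Site d, ∑' γ : List (Step d), ∑' π : List (Step d),
        (if Win775.FP Qᶜ {z | lev u z = k ∧ z - x ∈ E} x γ ∧
          Win775.FP {z | 0 ≤ lev u z ∧ lev u z < h} {z | lev u z = h} 0 π ∧
          Win775.Hit x γ 0 A π then
            Win775.awx ν x γ * (Win775.awx ν 0 π * μ (x - endp 0 π)) else 0) := by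
    rw [ENNReal.tsum_comm]
    rw [show (∑' γ : List (Step d), ∑' π : List (Step d), ∑' x : Site d,
        (if Win775.FP Qᶜ {z | lev u z = k ∧ z - x ∈ E} x γ ∧
          Win775.FP {z | 0 ≤ lev u z ∧ lev u z < h} {z | lev u z = h} 0 π ∧
          Win775.Hit x γ 0 A π then
            Win775.awx ν x γ * (Win775.awx ν 0 π * μ (x - endp 0 π)) else 0))
      = ∑' γ : List (Step d), ∑' x : Site d, ∑' π : List (Step d),
        (if Win775.FP Qᶜ {z | lev u z = k ∧ z - x ∈ E} x γ ∧
          Win775.FP {z | 0 ≤ lev u z ∧ lev u z < h} {z | lev u z = h} 0 π ∧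
          Win775.Hit x γ 0 A π then
            Win775.awx ν x γ * (Win775.awx ν 0 π * μ (x - endp 0 π)) else 0) from
      tsum_congr fun γ => ENNReal.tsum_comm]
    rw [ENNReal.tsum_comm]
  rw [e3]
  refine key.trans ?_
  have e4 : M / lam * ((E.card : ℝ≥0∞) * η) = M * E.card * η / lam := by
    rw [ENNReal.div_eq_inv_mul, ENNReal.div_eq_inv_mul]; ring
  rw [e4, mul_add, mul_add]
  calc 4 * lam + M * E.card * η / lam ≤ 4 * lam + 4 * (M * E.card * η / lam) := by
        gcongr
        exact le_mul_of_one_le_left' (by norm_num)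
    _ ≤ 4 * lam + 4 * (M * E.card * η / lam) + 4 * η := le_self_add

end Crest.Agent.R154.H3P125
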