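import Crest.Agent.R154.EAd_327
import Crest.Agent.R154.H2P_546
import Crest.Agent.R154.H3P_125

/-! Row 154, ROAD 801, FRAME B (helper327): 912's word inputs `E2`, `E3` are theorems. -/

set_option autoImplicit false

namespace Crest.Agent.R154.EAd327

open MeasureTheory ProbabilityTheory Crest.ProbabilityR.RandomEnvironment Crest.Agent.R154
open Filter
open scoped ENNReal Topology

variable {d : ℕ}

lemma H3Q_of_125 {ν : Measure (Row d)} [IsProbabilityMeasure ν] {u : Step d}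
    (h : H3P125.H3Q ν u) : H3Q ν u := h

theorem e2 (ν : Measure (Row d)) [IsProbabilityMeasure ν] (u : Step d) :
    ∃ C : ℝ≥0∞, C ≠ ⊤ ∧ ∃ us : ℕ → ℝ≥0∞, Tendsto us atTop (𝓝 0) ∧ E2 ν u C us :=
  E2_of ν u (Win546.h2p ν u)

theorem e3 (ν : Measure (Row d)) [IsProbabilityMeasure ν] (u : Step d) :
    ∃ C : ℝ≥0∞, C ≠ ⊤ ∧ ∃ us : ℕ → ℝ≥0∞, Tendsto us atTop (𝓝 0) ∧ E3 ν u C us :=
  E3_of ν u (H3Q_of_125 (H3P125.h3Q ν u))

/-- both with the same constant and the same `us` -/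
theorem e23 (ν : Measure (Row d)) [IsProbabilityMeasure ν] (u : Step d) :
    ∃ C : ℝ≥0∞, C ≠ ⊤ ∧ ∃ us : ℕ → ℝ≥0∞, Tendsto us atTop (𝓝 0) ∧ E2 ν u C us ∧ E3 ν u C us := by
  obtain ⟨C, hC, us, hus, h2⟩ := e2 ν u
  obtain ⟨C', hC', us', hus', h3⟩ := e3 ν u
  refine ⟨C + C', ENNReal.add_ne_top.2 ⟨hC, hC'⟩, fun s => us s + us' s, ?_, ?_, ?_⟩
  · simpa using hus.add hus'
  · intro s H E μ M lam a1 a2 a3 a4
    refine (h2 s H E μ M lam a1 a2 a3 a4).trans ?_
    gcongr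
    · exact le_self_add
    · exact le_self_add
    · exact le_self_add
  · intro s H E μ M lam a1 a2 a3 a4
    refine (h3 s H E μ M lam a1 a2 a3 a4).trans ?_
    gcongr
    · exact le_add_self
    · exact le_add_self
    · exact le_add_self

end Crest.Agent.R154.EAd327
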