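import Crest.Agent.R154.B5Br_657
import Crest.Agent.R154.H2w_386
import Crest.Agent.R154.H3_799
import Crest.Agent.R154.UsW_778

/-! Row 154, frame B (helper331): 912's `E2` / `E3` (common height, words) from 386's `core` and
799's `h3core`, with `us = Us778.us`. -/

set_option autoImplicit false

open MeasureTheory ProbabilityTheory Crest.ProbabilityR.RandomEnvironment
open scoped ENNReal

namespace Crest.Agent.R154.E23331

open Crest.Agent.R154.Flux132 (lev opp)
open Crest.Agent.R154.Flux566 (lw endp sitesL endp_append endp_eq_add)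
open Crest.Agent.R154.NB28 (IsUp IsDn Cm)
open Crest.Agent.R154.B5W (mem_sitesL_add)

variable {d : ℕ}

lemma swp (a : Site d) (F : Site d → List (Step d) → List (Step d) → ℝ≥0∞) :
    ∑' y, ∑' π, ∑' ρ, F y π ρ = ∑' x, ∑' π, ∑' ρ, F (a - x - endp 0 π) π ρ := by
  rw [ENNReal.tsum_comm, ENNReal.tsum_comm (f := fun x π => ∑' ρ, F (a - x - endp 0 π) π ρ)]
  refine tsum_congr fun π => ?_
  rw [← (Equiv.subLeft (a - endp 0 π)).tsum_eq (fun y => ∑' ρ, F y π ρ)]
  refine tsum_congr fun x => ?_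
  simp only [Equiv.subLeft_apply]
  rw [sub_right_comm]

variable (u : Step d)

lemma levA (x y : Site d) : lev u (x + y) = lev u x + lev u y := Flux566.lev_add u x y

lemma levN (x : Site d) : lev u (-x) = - lev u x := Flux566.lev_neg u x

lemma lev0 : lev u (0 : Site d) = 0 := Flux566.lev_zero u

lemma levS : lev u (stepVec u) = 1 := Flux566.lev_self u

/-- contacts, `Y` at the origin -/
lemma contact_iff (x z : Site d) (π γ : List (Step d)) :
    (z ∈ sitesL (stepVec u - x - endp 0 π) π ∧ z ∈ sitesL 0 γ) ↔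
      ((x - stepVec u) + z ∈ sitesL (-endp 0 π) π ∧
        (x - stepVec u) + z ∈ sitesL (x + stepVec (opp u)) γ) := by
  have e1 : (-endp 0 π : Site d) = (x - stepVec u) + (stepVec u - x - endp 0 π) := by abel
  have e2 : (x + stepVec (opp u) : Site d) = (x - stepVec u) + 0 := by
    rw [B5W.stepVec_opp']; abel
  rw [e1, e2, mem_sitesL_add, mem_sitesL_add]

lemma lev_tr (x z : Site d) (hx : lev u x = 0) : lev u ((x - stepVec u) + z) = lev u z - 1 := by
  rw [levA, sub_eq_add_neg, levA, levN, levS, hx]; ring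

lemma dn_le {H : ℕ} {γ : List (Step d)} (h : IsDn u H γ) {z : Site d} (hz : z ∈ sitesL 0 γ) :
    lev u z ≤ 0 := (h.1 z hz).2

/-- contact depths -/
lemma cm_of {H : ℕ} {x z : Site d} {π γ : List (Step d)} (hγ : IsDn u H γ) (hx : lev u x = 0)
    (h1 : z ∈ sitesL (stepVec u - x - endp 0 π) π) (h2 : z ∈ sitesL 0 γ) :
    (1 - lev u z).toNat ∈ Cm u x π γ := by
  have h3 := (contact_iff u x z π γ).1 ⟨h1, h2⟩
  have h4 := dn_le u hγ h2
  refine ⟨_, h3.1, h3.2, ?_⟩
  rw [lev_tr u x z hx, Int.toNat_of_nonneg (by omega)]; ring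

lemma of_cm {x : Site d} {π γ : List (Step d)} {k : ℕ} (h : k ∈ Cm u x π γ) :
    ∃ z, z ∈ sitesL (stepVec u - x - endp 0 π) π ∧ z ∈ sitesL 0 γ := by
  obtain ⟨y, h1, h2, _⟩ := h
  refine ⟨y - (x - stepVec u), ?_⟩
  rw [contact_iff]
  rw [show (x - stepVec u) + (y - (x - stepVec u)) = y by abel]
  exact ⟨h1, h2⟩

variable (ν : Measure (Row d)) [IsProbabilityMeasure ν]

lemma UU_le (s : ℕ) : H2w386.UU ν u 1 (-(s : ℤ)) ≤ Us778.us ν u s := by
  have hp : IsProbabilityMeasure (iidEnvironmentLaw ν) := by unfold iidEnvironmentLaw; infer_instance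
  refine le_trans ?_ (le_self_add (a := annealed (iidEnvironmentLaw ν) 0 (Us778.Dip u s)))
  refine Us778.dip_words (iidEnvironmentLaw ν) u s (H2w386.TT u 1 (-(s : ℤ)))
    (H2w386.pf_TT u 1 _) fun l hl => ?_
  obtain ⟨⟨⟨γ, h1, h2⟩, h3⟩, _⟩ := hl
  refine ⟨⟨γ, h1, h2⟩, ?_⟩
  change 0 ≤ lev u (endp 0 l)
  omega

open Classical in
lemma ret_le (s : ℕ) : Tie799.ret ν u s 1 ≤ Us778.us ν u s := by
  have hp : IsProbabilityMeasure (iidEnvironmentLaw ν) := by unfold iidEnvironmentLaw; infer_instance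
  refine le_trans ?_ (le_add_self (a := annealed (iidEnvironmentLaw ν) 0 (Us778.Bump u s)))
  let T : Set (List (Step d)) := {l | (∀ y ∈ sitesL 0 l, -1 < lev u y) ∧ lev u (endp 0 l) = -1 ∧
    (∃ y ∈ sitesL 0 l, (s : ℤ) ≤ lev u y)}
  have hm : ∀ l, l ∈ T ↔ ((∀ y ∈ sitesL 0 l, -1 < lev u y) ∧ lev u (endp 0 l) = -1 ∧
    (∃ y ∈ sitesL 0 l, (s : ℤ) ≤ lev u y)) := fun l => Iff.rfl
  refine le_trans (le_of_eq ?_) (Us778.bump_words (iidEnvironmentLaw ν) u s T ?_ fun l hl => ?_)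
  · unfold Tie799.ret
    refine tsum_congr fun l => ?_
    by_cases hc : (∀ y ∈ sitesL 0 l, -1 < lev u y) ∧ lev u (endp 0 l) = -1 ∧
      (∃ y ∈ sitesL 0 l, (s : ℤ) ≤ lev u y)
    · rw [if_pos hc, if_pos ((hm l).2 hc)]; rfl
    · rw [if_neg hc, if_neg (fun h => hc ((hm l).1 h))]
  · intro l hl l' hl' hp
    by_contra hne
    have := hl'.1 _ (B5W.prefix_mem (x := 0) hp hne)
    rw [hl.2.1] at this
    omega
  · obtain ⟨h1, h2, y, hy, h3⟩ := hl
    obtain ⟨p, hp, _, rfl⟩ := B5W.mem_sitesL hy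
    refine ⟨⟨p, hp, h3⟩, ?_⟩
    change lev u (endp 0 l) ≤ 0
    omega

open Classical in
/-- **912's `E2`** -/
theorem E2 (s H : ℕ) (E : Finset (Site d)) (μ : Site d → ℝ≥0∞) (M lam : ℝ≥0∞)
    (hμ : ∑' x, μ x ≤ 1) (hM : ∀ x, μ x ≤ M) (hl : lam ≠ 0) (hl' : lam ≠ ⊤) :
    ∑' x, (if lev u x = 0 then μ x * ∑' π, ∑' γ, (if IsUp u H π ∧ IsDn u H γ ∧ endp 0 π ∈ E ∧
        (∃ k, k ∈ Cm u x π γ) ∧ (∀ k ∈ Cm u x π γ, s < k)
        then NB28.aw ν π * NB28.aw ν γ else 0) else 0)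
      ≤ 8 * (lam + M * E.card * Us778.us ν u s / lam + Us778.us ν u s) := by
  have hc := H2w386.core ν u H H 1 (-(s : ℤ)) E (fun v => μ (stepVec u - v)) M lam
    (fun v => hM _) hl hl'
  rw [swp (stepVec u)] at hc
  have hsum : ∑' v, μ (stepVec u - v) ≤ 1 := by
    have h := (Equiv.subLeft (stepVec u : Site d)).tsum_eq μ
    simp only [Equiv.subLeft_apply] at h
    rw [h]; exact hμ
  refine le_trans (le_trans ?_ hc) ?_
  · refine ENNReal.tsum_le_tsum fun x => ?_
    by_cases hx : lev u x = 0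
    · rw [if_pos hx, ← ENNReal.tsum_mul_left]
      refine ENNReal.tsum_le_tsum fun π => ?_
      rw [← ENNReal.tsum_mul_left]
      refine ENNReal.tsum_le_tsum fun γ => ?_
      by_cases h : IsUp u H π ∧ IsDn u H γ ∧ endp 0 π ∈ E ∧
        (∃ k, k ∈ Cm u x π γ) ∧ (∀ k ∈ Cm u x π γ, s < k)
      · obtain ⟨h1, h2, h3, ⟨k, h4⟩, h5⟩ := id h
        rw [if_pos h, if_pos]
        · rw [show stepVec u - (stepVec u - x - endp 0 π + endp 0 π) = x by abel]
        · refine ⟨?_, h1, h3, h2, fun z hz1 hz2 => ?_, of_cm u h4⟩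
          · rw [show stepVec u - x - endp 0 π + endp 0 π = stepVec u + -x by abel, levA, levN,
              levS, hx]; ring
          · have h6 := h5 _ (cm_of u h2 hx hz1 hz2)
            have h7 := dn_le u h2 hz2
            omega
      · rw [if_neg h, mul_zero]; exact zero_le
    · rw [if_neg hx]; exact zero_le
  · have h1 := UU_le u ν s
    calc (lam + H2w386.UU ν u 1 (-(s : ℤ))) * (∑' v, μ (stepVec u - v))
          + M * E.card * H2w386.UU ν u 1 (-(s : ℤ)) / lam
        ≤ (lam + Us778.us ν u s) * 1 + M * E.card * Us778.us ν u s / lam := by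
          gcongr
      _ = 1 * (lam + M * E.card * Us778.us ν u s / lam + Us778.us ν u s) := by ring
      _ ≤ _ := by gcongr; norm_num

open Classical in
/-- **912's `E3`** -/
theorem E3 (s H : ℕ) (E : Finset (Site d)) (μ : Site d → ℝ≥0∞) (M lam : ℝ≥0∞)
    (hμ : ∑' x, μ x ≤ 1) (hM : ∀ x, μ x ≤ M) (hl : lam ≠ 0) (hl' : lam ≠ ⊤) :
    ∑' x, (if lev u x = 0 then μ x * ∑' π, ∑' γ, (if IsUp u H π ∧ IsDn u H γ ∧ endp 0 γ ∈ E ∧
        (∃ k, k ∈ Cm u x π γ) ∧ (∀ k ∈ Cm u x π γ, k + s ≤ H)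
        then NB28.aw ν π * NB28.aw ν γ else 0) else 0)
      ≤ 8 * (lam + M * E.card * Us778.us ν u s / lam + Us778.us ν u s) := by
  have hsum : ∑' v, μ (stepVec u - v) ≤ 1 := by
    have h := (Equiv.subLeft (stepVec u : Site d)).tsum_eq μ
    simp only [Equiv.subLeft_apply] at h
    rw [h]; exact hμ
  have hc := Tie799.h3core ν u H H ((H : ℤ) - 1) ((H : ℤ) - 1 - s) E
    (fun v => μ (stepVec u - v)) (min M 1) lam
    (ne_top_of_le_ne_top ENNReal.one_ne_top (min_le_right _ _)) hl hl'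
    (fun v => le_min (hM _) ((ENNReal.le_tsum _).trans hμ)) hsum (by omega)
  rw [show ((H : ℤ) - 1 - ((H : ℤ) - 1 - s)) = s by ring, show ((H : ℤ) - ((H : ℤ) - 1)) = 1 by ring]
    at hc
  have hc2 : ∑' y : Site d, ∑' π : List (Step d), ∑' γ : List (Step d),
      (if lev u y = -((H : ℤ) - 1) ∧ IsDn u H γ ∧ endp 0 γ ∈ E ∧ IsUp u H π ∧
        (∃ z, z ∈ sitesL y π ∧ z ∈ sitesL 0 γ) ∧
        (∀ z, z ∈ sitesL y π → z ∈ sitesL 0 γ → -((H : ℤ) - 1 - s) ≤ lev u z)
        then NB28.aw ν γ * NB28.aw ν π * μ (stepVec u - endp y π) else 0)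
      ≤ 8 * lam + 2 * (min M 1 * (E.card * Tie799.ret ν u s 1) / lam) := by
    refine le_trans (le_of_eq ?_) hc
    refine tsum_congr fun y => ?_
    by_cases hy : lev u y = -((H : ℤ) - 1)
    · rw [if_pos hy, ENNReal.tsum_comm]
      refine tsum_congr fun γ => tsum_congr fun π => ?_
      simp only [hy, true_and]
      rfl
    · rw [if_neg hy, ENNReal.tsum_eq_zero]
      intro π
      rw [ENNReal.tsum_eq_zero]
      intro γ
      rw [if_neg (fun h => hy h.1)]
  rw [swp (stepVec u)] at hc2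
  refine le_trans (le_trans ?_ hc2) ?_
  · refine ENNReal.tsum_le_tsum fun x => ?_
    by_cases hx : lev u x = 0
    · rw [if_pos hx, ← ENNReal.tsum_mul_left]
      refine ENNReal.tsum_le_tsum fun π => ?_
      rw [← ENNReal.tsum_mul_left]
      refine ENNReal.tsum_le_tsum fun γ => ?_
      by_cases h : IsUp u H π ∧ IsDn u H γ ∧ endp 0 γ ∈ E ∧
        (∃ k, k ∈ Cm u x π γ) ∧ (∀ k ∈ Cm u x π γ, k + s ≤ H)
      · obtain ⟨h1, h2, h3, ⟨k, h4⟩, h5⟩ := id h
        rw [if_pos h, if_pos]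
        · rw [endp_eq_add π, show stepVec u - (stepVec u - x - endp 0 π + endp 0 π) = x by abel]
          refine le_of_eq ?_
          ring
        · refine ⟨?_, h2, h3, h1, of_cm u h4, fun z hz1 hz2 => ?_⟩
          · rw [show stepVec u - x - endp 0 π = stepVec u + (-x + - endp 0 π) by abel, levA, levA,
              levN, levN, levS, hx, h1.2]; ring
          · have h6 := h5 _ (cm_of u h2 hx hz1 hz2)
            have h7 := dn_le u h2 hz2
            omega
      · rw [if_neg h, mul_zero]; exact zero_le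
    · rw [if_neg hx]; exact zero_le
  · have h1 := ret_le u ν s
    calc 8 * lam + 2 * (min M 1 * (E.card * Tie799.ret ν u s 1) / lam)
        ≤ 8 * lam + 8 * (M * (E.card * Us778.us ν u s) / lam) + 8 * Us778.us ν u s := by
          refine le_trans ?_ le_self_add
          gcongr
          · norm_num
          · exact min_le_left _ _
      _ = 8 * (lam + M * E.card * Us778.us ν u s / lam + Us778.us ν u s) := by
          rw [mul_assoc M]; ring

end Crest.Agent.R154.E23331
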