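import Crest.Agent.R154.WinE_546
import Crest.Agent.R154.Win_775
import Crest.Agent.R154.RetW_458
import Crest.Agent.R154.NBDefs_28
import Crest.Agent.R154.Flux1_132

/-! Row 154, ROAD 801 (helper460): the window lemmas (2) and (3) in 28's letters. -/

set_option autoImplicit false
set_option linter.unusedVariables false

open MeasureTheory ProbabilityTheory Crest.ProbabilityR.RandomEnvironment
open scoped ENNReal Classical

namespace Crest.Agent.R154.E460

open Crest.Agent.R154.Flux132 (lev opp lev_add lev_neg lev_zero lev_step_self lev_step_of_ne)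
open Crest.Agent.R154.Flux566 (lw endp sitesL)
open Crest.Agent.R154.NB28 (IsUp IsDn Cm)

variable {d : ℕ}

lemma endp_eq (x : Site d) (l : List (Step d)) : endp x l = x + endp 0 l := by
  induction l generalizing x with
  | nil => simp [endp]
  | cons e l ih => simp only [endp]; rw [ih, ih (0 + stepVec e)]; abel

lemma mem_shift (x z y : Site d) (l : List (Step d)) :
    y ∈ sitesL (x + z) l ↔ y - z ∈ sitesL x l := by
  induction l generalizing x with
  | nil => simp [sitesL]
  | cons e l ih =>
    simp only [sitesL, List.mem_cons]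
    rw [show x + z + stepVec e = x + stepVec e + z by abel, ih]
    constructor
    · rintro (h | h)
      · exact Or.inl (by rw [h]; abel)
      · exact Or.inr h
    · rintro (h | h)
      · exact Or.inl (by rw [← h]; abel)
      · exact Or.inr h

lemma mem0 (x y : Site d) (l : List (Step d)) : y ∈ sitesL x l ↔ y - x ∈ sitesL 0 l := by
  have := mem_shift 0 x y l
  rwa [zero_add] at this

lemma endp_append (x : Site d) (l l' : List (Step d)) : endp x (l ++ l') = endp (endp x l) l' := by
  induction l generalizing x with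
  | nil => rfl
  | cons e l ih => simp only [List.cons_append, endp, ih]

lemma sites_append (x : Site d) (l l' : List (Step d)) :
    sitesL x (l ++ l') = sitesL x l ++ sitesL (endp x l) l' :=
  Win775.sitesL_append l l' x

lemma mem_head (x : Site d) (l : List (Step d)) (h : l ≠ []) : x ∈ sitesL x l := by
  cases l with
  | nil => exact absurd rfl h
  | cons e l => simp [sitesL]

lemma lev_sub (u : Step d) (x y : Site d) : lev u (x - y) = lev u x - lev u y := by
  rw [sub_eq_add_neg, lev_add, lev_neg]; ring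

lemma lev_opp' (u : Step d) (x : Site d) : lev (opp u) x = - lev u x := by
  unfold lev opp
  cases h : u.2 <;> simp

/-- weight of the turning words: dip `s` below the start, then first hit of level `j` -/
noncomputable def us (ν : Measure (Row d)) [IsProbabilityMeasure ν] (v : Step d) (j s : ℕ) :
    ℝ≥0∞ :=
  ∑' l : List (Step d), (if (∀ y ∈ sitesL 0 l, lev v y < (j : ℤ)) ∧ lev v (endp 0 l) = (j : ℤ) ∧
    (∃ y ∈ sitesL 0 l, lev v y ≤ -(s : ℤ)) then ∫⁻ ω, lw ω 0 l ∂(iidEnvironmentLaw ν) else 0)

theorem us_small (ν : Measure (Row d)) [IsProbabilityMeasure ν] (v : Step d) (r0 : ℕ)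
    (ε : ℝ≥0∞) (hε : ε ≠ 0) : ∃ s0 : ℕ, ∀ s, s0 ≤ s → ∀ j : ℕ, j ≤ r0 → us ν v j s ≤ ε :=
  RetW458.ret_small_unif ν v r0 ε hε

lemma pf_up (u : Step d) (h : ℕ) : Win546.PF {l : List (Step d) | IsUp u h l} := by
  intro l hl r hr
  by_contra hne
  have h1 : endp 0 l ∈ sitesL 0 (l ++ r) := by
    rw [sites_append]
    exact List.mem_append_right _ (mem_head _ _ hne)
  have h2 := (hr.1 _ h1).2
  have h3 := hl.2
  omega

lemma pf_dn (u : Step d) (h : ℕ) : Win546.PF {l : List (Step d) | IsDn u h l} := by
  intro l hl r hr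
  by_contra hne
  have h1 : endp 0 l ∈ sitesL 0 (l ++ r) := by
    rw [sites_append]
    exact List.mem_append_right _ (mem_head _ _ hne)
  have h2 := (hr.1 _ h1).1
  have h3 := hl.2
  omega

lemma swap3 {A B C : Type*} (F : A → B → C → ℝ≥0∞) :
    ∑' x, ∑' π, ∑' γ, F x π γ = ∑' π, ∑' γ, ∑' x, F x π γ := by
  rw [ENNReal.tsum_comm]
  exact tsum_congr fun π => ENNReal.tsum_comm

/-- **window lemma (2)**: `X` local. `x` = start of `Y` at level `-j`, `X` hung at `0`. -/
theorem core2 (ν : Measure (Row d)) [IsProbabilityMeasure ν] (u : Step d) (h h' j s : ℕ)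
    (hj : 1 ≤ j) (E : Finset (Site d)) (μ : Site d → ℝ≥0∞) (M lam : ℝ≥0∞)
    (h1 : ∑' x, μ x ≤ 1) (hM : ∀ x, μ x ≤ M) (hl0 : lam ≠ 0) (hl1 : lam ≠ ⊤) :
    ∑' x : Site d, ∑' π : List (Step d), ∑' γ : List (Step d),
      (if lev u x = -(j : ℤ) ∧ IsUp u h π ∧ endp 0 π ∈ E ∧ IsDn u h' γ ∧
          (∃ y, y ∈ sitesL (-endp 0 π) π ∧ y ∈ sitesL x γ) ∧
          (∀ y, y ∈ sitesL (-endp 0 π) π → y ∈ sitesL x γ → lev u y + s ≤ -(j : ℤ))
        then μ x * (NB28.aw ν π * NB28.aw ν γ) else 0)
      ≤ lam + M * E.card * us ν u j s / lam := by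
  set XX : Set (List (Step d)) := {l | IsUp u h l} with hXX
  set YY : Set (List (Step d)) := {l | IsDn u h' l} with hYY
  set XS : Set (Site d) := {x | lev u x = (h : ℤ) - j} with hXS
  set Dp : Set (Site d) := {v | lev u v + s ≤ (h : ℤ) - j} with hDp
  set DX : Site d → Set (List (Step d)) := fun v =>
    {δ | (∀ y ∈ sitesL v δ, lev u y < (h : ℤ)) ∧ lev u (endp v δ) = (h : ℤ)} with hDX
  set TT : Set (List (Step d)) := {l | (∀ y ∈ sitesL 0 l, lev u y < (j : ℤ)) ∧
    lev u (endp 0 l) = (j : ℤ) ∧ (∃ y ∈ sitesL 0 l, lev u y ≤ -(s : ℤ))} with hTT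
  have key := Win546.win2 ν (pf_up u h) (pf_dn u h') E Dp DX (by
      intro p r hpr
      have hpr' : IsUp u h (p ++ r) := hpr
      refine ⟨fun y hy => (hpr'.1 y ?_).2, ?_⟩
      · rw [sites_append]; exact List.mem_append_right _ hy
      · rw [← endp_append]; exact hpr'.2) XS TT (by
      intro x hx p r hr hpr hp δ hδ
      have hx' : lev u x = (h : ℤ) - j := hx
      have hpr' : IsDn u h' (p ++ r) := hpr
      have hp' : lev u (endp x p) + s ≤ (h : ℤ) - j := hp
      have hδ' : (∀ y ∈ sitesL (endp x p) δ, lev u y < (h : ℤ)) ∧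
        lev u (endp (endp x p) δ) = (h : ℤ) := hδ
      have e1 : endp x p = endp 0 p + x := by rw [endp_eq]; abel
      have hδne : δ ≠ [] := by
        intro hd
        rw [hd] at hδ'
        have := hδ'.2
        simp only [endp] at this
        omega
      refine ⟨?_, ?_, ?_⟩
      · intro y hy
        rw [sites_append, List.mem_append] at hy
        rcases hy with hy | hy
        · have := (hpr'.1 y (by rw [sites_append]; exact List.mem_append_left _ hy)).2
          omega
        · have h2 : y + x ∈ sitesL (endp x p) δ := by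
            rw [e1, mem_shift]
            rwa [add_sub_cancel_right]
          have h3 := hδ'.1 _ h2
          rw [lev_add] at h3
          omega
      · have h2 := hδ'.2
        rw [← endp_append, endp_eq, lev_add] at h2
        omega
      · refine ⟨endp 0 p, ?_, ?_⟩
        · rw [sites_append]
          exact List.mem_append_right _ (mem_head _ _ hδne)
        · rw [e1, lev_add] at hp'
          omega) μ M hM h1 hl0 hl1
  have hle : ∀ X : ℝ≥0∞, X = us ν u j s →
      lam + M * (lam⁻¹ * (E.card * X)) ≤ lam + M * E.card * us ν u j s / lam := by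
    rintro X rfl
    refine le_of_eq ?_
    rw [ENNReal.div_eq_inv_mul]; ring
  calc ∑' x : Site d, ∑' π : List (Step d), ∑' γ : List (Step d),
      (if lev u x = -(j : ℤ) ∧ IsUp u h π ∧ endp 0 π ∈ E ∧ IsDn u h' γ ∧
          (∃ y, y ∈ sitesL (-endp 0 π) π ∧ y ∈ sitesL x γ) ∧
          (∀ y, y ∈ sitesL (-endp 0 π) π → y ∈ sitesL x γ → lev u y + s ≤ -(j : ℤ))
        then μ x * (NB28.aw ν π * NB28.aw ν γ) else 0)
      ≤ ∑' x : Site d, ∑' π : List (Step d), ∑' γ : List (Step d),
        (if (x + endp 0 π ∈ XS ∧ π ∈ XX ∧ endp 0 π ∈ E) ∧ γ ∈ YY ∧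
            Win546.Hit Dp (x + endp 0 π) 0 π γ then
          μ (x + endp 0 π - endp 0 π) * (Win546.aw ν π * Win546.aw ν γ) else 0) := by
        refine ENNReal.tsum_le_tsum fun x => ENNReal.tsum_le_tsum fun π =>
          ENNReal.tsum_le_tsum fun γ => ?_
        split_ifs with hc hc' hc'
        · rw [add_sub_cancel_right]; exact le_rfl
        · exfalso
          apply hc'
          obtain ⟨hx, hπ, hE, hγ, ⟨y, hy1, hy2⟩, hall⟩ := hc
          refine ⟨⟨?_, hπ, hE⟩, hγ, ?_⟩
          · show lev u (x + endp 0 π) = (h : ℤ) - j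
            rw [lev_add, hx, hπ.2]; ring
          · -- minimal prefix
            have hy1' : y + endp 0 π ∈ sitesL 0 π := by
              have := (mem0 (-endp 0 π) y π).1 hy1
              rwa [sub_neg_eq_add] at this
            obtain ⟨p, r, e, hr, hp⟩ := (Win546.mem_sitesL γ x y).1 hy2
            have hA : endp (x + endp 0 π) p ∈ sitesL 0 π := by
              have hq : endp (x + endp 0 π) p = y + endp 0 π := by
                rw [endp_eq (x + endp 0 π), ← hp, endp_eq x p]; abel
              rw [hq]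
              exact hy1'
            obtain ⟨p1, r1, e1, hmn⟩ := Win546.exists_Mn
              (fun p => endp (x + endp 0 π) p ∈ sitesL 0 π) p hA
            refine ⟨p1, r1 ++ r, by rw [e, e1, List.append_assoc], by simp [hr], hmn, ?_⟩
            have hv : endp x p1 + endp 0 π = endp (x + endp 0 π) p1 := by
              rw [endp_eq x, endp_eq (x + endp 0 π)]; abel
            have h3 := hall (endp x p1) (by
                rw [mem0, sub_neg_eq_add, hv]; exact hmn.1) ((Win546.mem_sitesL γ x _).2
                  ⟨p1, r1 ++ r, by rw [e, e1, List.append_assoc], by simp [hr], rfl⟩)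
            show lev u (endp (x + endp 0 π) p1) + s ≤ (h : ℤ) - j
            rw [← hv, lev_add, hπ.2]
            omega
        · exact zero_le
        · exact le_rfl
    _ = ∑' π : List (Step d), ∑' γ : List (Step d), ∑' x : Site d,
        (if (x + endp 0 π ∈ XS ∧ π ∈ XX ∧ endp 0 π ∈ E) ∧ γ ∈ YY ∧
            Win546.Hit Dp (x + endp 0 π) 0 π γ then
          μ (x + endp 0 π - endp 0 π) * (Win546.aw ν π * Win546.aw ν γ) else 0) := by
        rw [swap3]
    _ = ∑' π : List (Step d), ∑' γ : List (Step d), ∑' x : Site d,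
        (if (x ∈ XS ∧ π ∈ XX ∧ endp 0 π ∈ E) ∧ γ ∈ YY ∧
            Win546.Hit Dp x 0 π γ then
          μ (x - endp 0 π) * (Win546.aw ν π * Win546.aw ν γ) else 0) :=
        tsum_congr fun π => tsum_congr fun γ => (Equiv.addRight (endp 0 π)).tsum_eq
          (fun x : Site d => (if (x ∈ XS ∧ π ∈ XX ∧ endp 0 π ∈ E) ∧ γ ∈ YY ∧
            Win546.Hit Dp x 0 π γ then
          μ (x - endp 0 π) * (Win546.aw ν π * Win546.aw ν γ) else 0))
    _ = ∑' x : Site d, ∑' π : List (Step d), ∑' γ : List (Step d),
        (if (x ∈ XS ∧ π ∈ XX ∧ endp 0 π ∈ E) ∧ γ ∈ YY ∧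
            Win546.Hit Dp x 0 π γ then
          μ (x - endp 0 π) * (Win546.aw ν π * Win546.aw ν γ) else 0) := by
        rw [← swap3]
    _ ≤ _ := by
        refine le_trans (le_of_eq ?_) (key.trans (hle _ ?_))
        · refine tsum_congr fun x => tsum_congr fun π => tsum_congr fun γ => ?_
          congr
        · unfold us
          refine tsum_congr fun t => ?_
          by_cases ht : t ∈ TT
          · rw [if_pos ht, if_pos (show _ ∧ _ ∧ _ from ht)]; rfl
          · rw [if_neg ht, if_neg (show ¬ (_ ∧ _ ∧ _) from ht)]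

lemma lev_step_ge (u e : Step d) : -1 ≤ lev u (stepVec e) := by
  by_cases h : e.1 = u.1
  · unfold lev stepVec
    rw [← h]
    split_ifs <;> simp
  · rw [lev_step_of_ne h]; norm_num

lemma first_exit {u : Step d} {i : ℕ} {l : List (Step d)} {x : Site d}
    (h1 : ∀ z ∈ sitesL x l, -(i : ℤ) < lev u z) (h2 : lev u (endp x l) ≤ -(i : ℤ))
    (h0 : -(i : ℤ) < lev u x) :
    lev u (endp x l) = -(i : ℤ) := by
  induction l generalizing x with
  | nil => simp only [endp] at h2; omega
  | cons e l ih =>
    by_cases hx : -(i : ℤ) < lev u (x + stepVec e)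
    · exact ih (fun z hz => h1 z (by simp only [sitesL, List.mem_cons]; exact Or.inr hz)) h2 hx
    · have h3 := lev_step_ge u e
      have h4 := h1 x (by simp [sitesL])
      cases l with
      | nil =>
        simp only [endp] at h2 ⊢
        rw [lev_add] at h2 hx ⊢
        omega
      | cons e' l =>
        have h5 := h1 (x + stepVec e) (by simp [sitesL])
        omega

/-- **window lemma (3)**: `Y` local. `x` = start of `Y` at level `-j`, `X` hung at `0`; `Y` lands
strictly below the start of `X` (`h + i = j + h'`, `i ≥ 1`). -/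
theorem core3 (ν : Measure (Row d)) [IsProbabilityMeasure ν] (u : Step d) (h h' j i s : ℕ)
    (hi : 1 ≤ i) (hh : h + i = j + h') (E : Finset (Site d)) (μ : Site d → ℝ≥0∞)
    (M lam : ℝ≥0∞)
    (h1 : ∑' x, μ x ≤ 1) (hM : ∀ x, μ x ≤ M) (hl0 : lam ≠ 0) (hl1 : lam ≠ ⊤) :
    ∑' x : Site d, ∑' π : List (Step d), ∑' γ : List (Step d),
      (if lev u x = -(j : ℤ) ∧ IsUp u h π ∧ endp 0 γ ∈ E ∧ IsDn u h' γ ∧
          (∃ y, y ∈ sitesL (-endp 0 π) π ∧ y ∈ sitesL x γ) ∧
          (∀ y, y ∈ sitesL (-endp 0 π) π → y ∈ sitesL x γ → -(h : ℤ) + s ≤ lev u y)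
        then μ x * (NB28.aw ν π * NB28.aw ν γ) else 0)
      ≤ 4 * lam + M * E.card * us ν (opp u) i s / lam := by
  have hμ1 : ∀ x, μ x ≤ 1 := fun x => (ENNReal.le_tsum x).trans h1
  by_cases hM0 : M = 0
  · have : ∀ x, μ x = 0 := fun x => le_antisymm ((hM x).trans hM0.le) zero_le
    simp [this]
  set M' : ℝ≥0∞ := min M 1 with hM'
  have hM'0 : M' ≠ 0 := by
    rw [hM']; intro h0
    rcases min_eq_iff.1 h0 with hq | hq
    · exact hM0 hq.1
    · exact one_ne_zero hq.1
  have hM'1 : M' ≠ ⊤ := ne_top_of_le_ne_top ENNReal.one_ne_top (min_le_right _ _)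
  set Q : Set (Site d) := {v | lev u v ≤ -(i : ℤ)} with hQ
  set S' : Set (Site d) := {v | 0 ≤ lev u v ∧ lev u v < (h : ℤ)} with hS'
  set T' : Set (Site d) := {v | lev u v = (h : ℤ)} with hT'
  set A : Set (Site d) := {v | (s : ℤ) ≤ lev u v} with hA
  set T : Site d → Set (Site d) := fun x => {v | lev u v ≤ -(i : ℤ) ∧ v - x ∈ E} with hT
  set δ : Site d → Site d → ℝ≥0∞ := fun x z =>
    if lev u (x - z) = -(j : ℤ) then μ (x - z) else 0 with hδ
  have key := Win775.win3 ν (S := fun _ => Qᶜ) (T := T) (S' := S') (T' := T') (Q := Q) (A := A)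
    (y := 0) (δ := δ) (M := M') (lam := lam) (N := E.card) (r := us ν (opp u) i s)
    hM'0 hM'1 hl0 hl1
    (by
      rw [Set.disjoint_left]
      rintro v ⟨_, hv⟩ hv'
      have : lev u v = (h : ℤ) := hv'
      omega)
    (by
      intro x z
      simp only [hδ]
      split_ifs
      · exact le_min (hM _) (hμ1 _)
      · exact zero_le)
    (by
      intro z
      refine le_trans ?_ h1
      rw [← (Equiv.subRight z).tsum_eq (fun x => μ x)]
      refine ENNReal.tsum_le_tsum fun x => ?_
      simp only [hδ]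
      split_ifs
      · exact le_rfl
      · exact zero_le)
    (fun x => subset_rfl)
    (fun x v hv => hv.1)
    (by
      intro v hv hv'
      have h3 : lev u v ≤ -(i : ℤ) := hv'
      have h4 : 0 ≤ lev u v := hv.1
      omega)
    (by
      intro z
      refine le_trans (ENNReal.tsum_le_tsum
        (g := fun x : Site d => if z - x ∈ E then (1 : ℝ≥0∞) else 0) fun x => ?_) ?_
      · by_cases hc : z ∈ T x
        · rw [if_pos hc, if_pos hc.2]
        · rw [if_neg hc]; exact zero_le
      · refine le_trans (le_of_eq ((Equiv.subLeft z).tsum_eq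
          (fun x => if x ∈ E then (1 : ℝ≥0∞) else 0))) ?_
        rw [tsum_eq_sum (s := E) (fun x hx => if_neg hx)]
        rw [Finset.sum_congr rfl (fun x hx => if_pos hx)]
        simp)
    (by
      unfold us
      refine ENNReal.tsum_le_tsum fun σ => ?_
      by_cases hc : Win775.FP Qᶜ Q 0 σ ∧ (∃ z ∈ sitesL 0 σ, z ∈ A)
      · rw [if_pos hc]
        obtain ⟨⟨ha, hb⟩, z, hz, hzA⟩ := hc
        have ha' : ∀ z ∈ sitesL 0 σ, -(i : ℤ) < lev u z := fun z hz => by
          have : ¬ lev u z ≤ -(i : ℤ) := ha z hz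
          omega
        have hb' : lev u (endp 0 σ) ≤ -(i : ℤ) := hb
        have hend := first_exit ha' hb' (by rw [lev_zero]; omega)
        rw [if_pos ⟨fun y hy => by
            rw [lev_opp']; have := ha' y hy; omega, by
            rw [lev_opp', hend]; ring, z, hz, by
            rw [lev_opp']; have : (s : ℤ) ≤ lev u z := hzA; omega⟩]
        exact le_rfl
      · rw [if_neg hc]; exact zero_le)
  have hle : 4 * lam + M' / lam * (E.card * us ν (opp u) i s)
      ≤ 4 * lam + M * E.card * us ν (opp u) i s / lam := by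
    refine add_le_add le_rfl ?_
    rw [ENNReal.div_eq_inv_mul, ENNReal.div_eq_inv_mul]
    calc lam⁻¹ * M' * (E.card * us ν (opp u) i s)
        ≤ lam⁻¹ * M * (E.card * us ν (opp u) i s) := by gcongr; exact min_le_left _ _
      _ = _ := by ring
  refine le_trans ?_ (key.trans hle)
  calc ∑' x : Site d, ∑' π : List (Step d), ∑' γ : List (Step d),
      (if lev u x = -(j : ℤ) ∧ IsUp u h π ∧ endp 0 γ ∈ E ∧ IsDn u h' γ ∧
          (∃ y, y ∈ sitesL (-endp 0 π) π ∧ y ∈ sitesL x γ) ∧
          (∀ y, y ∈ sitesL (-endp 0 π) π → y ∈ sitesL x γ → -(h : ℤ) + s ≤ lev u y)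
        then μ x * (NB28.aw ν π * NB28.aw ν γ) else 0)
      ≤ ∑' x : Site d, ∑' π : List (Step d), ∑' γ : List (Step d),
        (if Win775.FP Qᶜ (T (x + endp 0 π)) (x + endp 0 π) γ ∧ Win775.FP S' T' 0 π ∧
            Win775.Hit (x + endp 0 π) γ 0 A π then
          Win775.awx ν (x + endp 0 π) γ * (Win775.awx ν 0 π * δ (x + endp 0 π) (endp 0 π))
          else 0) := by
        refine ENNReal.tsum_le_tsum fun x => ENNReal.tsum_le_tsum fun π =>
          ENNReal.tsum_le_tsum fun γ => ?_
        split_ifs with hc hc' hc'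
        · obtain ⟨hx, hπ, hE, hγ, -, -⟩ := hc
          have e1 : Win775.awx ν (x + endp 0 π) γ = NB28.aw ν γ := Win546.aw_eq ν _ _
          have e2 : δ (x + endp 0 π) (endp 0 π) = μ x := by
            simp only [hδ]
            rw [add_sub_cancel_right, if_pos hx]
          rw [e1, e2, show Win775.awx ν 0 π = NB28.aw ν π from rfl]
          refine le_of_eq ?_
          ring
        · exfalso
          apply hc'
          obtain ⟨hx, hπ, hE, hγ, ⟨y, hy1, hy2⟩, hall⟩ := hc
          refine ⟨⟨?_, ?_, ?_⟩, ⟨?_, ?_⟩, ?_⟩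
          · intro z hz
            rw [mem0] at hz
            have h3 := (hγ.1 _ hz).1
            rw [lev_sub, lev_add, hx, hπ.2] at h3
            show ¬ lev u z ≤ -(i : ℤ)
            omega
          · show lev u (endp (x + endp 0 π) γ) ≤ -(i : ℤ)
            rw [endp_eq, lev_add, lev_add, hx, hπ.2, hγ.2]
            omega
          · show endp (x + endp 0 π) γ - (x + endp 0 π) ∈ E
            rw [endp_eq, add_sub_cancel_left]
            exact hE
          · intro z hz
            exact ⟨(hπ.1 z hz).1, (hπ.1 z hz).2⟩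
          · exact hπ.2
          · have hsh : ∀ v, v ∈ sitesL 0 π ↔ v - endp 0 π ∈ sitesL (-endp 0 π) π := by
              intro v
              rw [mem0 (-endp 0 π)]
              rw [show v - endp 0 π - -endp 0 π = v by abel]
            have hsh2 : ∀ v, v ∈ sitesL (x + endp 0 π) γ ↔ v - endp 0 π ∈ sitesL x γ :=
              fun v => mem_shift x (endp 0 π) v γ
            obtain ⟨l1, l2, e, hn, hin, hne⟩ := Win775.exists_first
              (A := {v | v ∈ sitesL (x + endp 0 π) γ}) π 0 ⟨y + endp 0 π, by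
                rw [hsh, add_sub_cancel_right]; exact hy1, by
                show y + endp 0 π ∈ sitesL (x + endp 0 π) γ
                rw [hsh2, add_sub_cancel_right]; exact hy2⟩
            refine ⟨l1, l2, e, hn, hin, ?_⟩
            have hin' : endp 0 l1 ∈ sitesL (x + endp 0 π) γ := hin
            have h4 : endp 0 l1 ∈ sitesL 0 π := by
              rw [e, sites_append]
              exact List.mem_append_right _ (mem_head _ _ hne)
            have h5 := hall _ ((hsh _).1 h4) ((hsh2 _).1 hin')
            rw [lev_sub, hπ.2] at h5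
            show (s : ℤ) ≤ lev u (endp 0 l1)
            omega
        · exact zero_le
        · exact le_rfl
    _ = ∑' π : List (Step d), ∑' γ : List (Step d), ∑' x : Site d,
        (if Win775.FP Qᶜ (T (x + endp 0 π)) (x + endp 0 π) γ ∧ Win775.FP S' T' 0 π ∧
            Win775.Hit (x + endp 0 π) γ 0 A π then
          Win775.awx ν (x + endp 0 π) γ * (Win775.awx ν 0 π * δ (x + endp 0 π) (endp 0 π))
          else 0) := swap3 _
    _ = ∑' π : List (Step d), ∑' γ : List (Step d), ∑' x : Site d,
        (if Win775.FP Qᶜ (T x) x γ ∧ Win775.FP S' T' 0 π ∧ Win775.Hit x γ 0 A π then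
          Win775.awx ν x γ * (Win775.awx ν 0 π * δ x (endp 0 π)) else 0) :=
        tsum_congr fun π => tsum_congr fun γ => (Equiv.addRight (endp 0 π)).tsum_eq
          (fun x : Site d => (if Win775.FP Qᶜ (T x) x γ ∧ Win775.FP S' T' 0 π ∧
            Win775.Hit x γ 0 A π then
          Win775.awx ν x γ * (Win775.awx ν 0 π * δ x (endp 0 π)) else 0))
    _ = ∑' x : Site d, ∑' π : List (Step d), ∑' γ : List (Step d),
        (if Win775.FP Qᶜ (T x) x γ ∧ Win775.FP S' T' 0 π ∧ Win775.Hit x γ 0 A π then
          Win775.awx ν x γ * (Win775.awx ν 0 π * δ x (endp 0 π)) else 0) := (swap3 _).symm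
    _ = ∑' x : Site d, ∑' γ : List (Step d), ∑' π : List (Step d),
        (if Win775.FP Qᶜ (T x) x γ ∧ Win775.FP S' T' 0 π ∧ Win775.Hit x γ 0 A π then
          Win775.awx ν x γ * (Win775.awx ν 0 π * δ x (endp 0 π)) else 0) :=
        tsum_congr fun x => ENNReal.tsum_comm

end Crest.Agent.R154.E460
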