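import Crest.Agent.R154.NBDefs_28
import Crest.Agent.R154.UsW_778
import Crest.Agent.R154.Win_775
import Crest.Agent.R154.H2w_386
import Crest.Agent.R154.B2d_419

/-! Row 154, ROAD 801, frame B (joint cuts) (helper556): the two window lemmas at common height,
`E2` (X local) from 386's `core`, `E3` (Y local) from 775's `win3`. -/

set_option autoImplicit false

namespace Crest.Agent.R154.E23

open MeasureTheory ProbabilityTheory Crest.ProbabilityR.RandomEnvironment Crest.Agent.R154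
open Crest.Agent.R154.Flux132 (lev opp)
open Crest.Agent.R154.Flux566 (lw endp sitesL measurable_lw locOn_lw endp_append endp_eq_add)
open Crest.Agent.R154.NB28 (IsUp IsDn aw Cm)
open scoped ENNReal

variable {d : ℕ}

lemma stepVec_opp (u : Step d) : stepVec (opp u) = - stepVec u := Flux566.stepVec_opp u

lemma lev_add (u : Step d) (x y : Site d) : lev u (x + y) = lev u x + lev u y :=
  H2w386.lev_add u x y

lemma lev_neg (u : Step d) (x : Site d) : lev u (-x) = -lev u x := by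
  have h := lev_add u x (-x)
  have h0 : lev u (0 : Site d) = 0 := by simp [lev]
  rw [add_neg_cancel, h0] at h
  linarith

lemma lev_self (u : Step d) : lev u (stepVec u) = 1 := by
  have := Flux566.lev_self u
  exact this

lemma mem_add (y x s : Site d) (l : List (Step d)) :
    s + y ∈ sitesL (x + y) l ↔ s ∈ sitesL x l := by
  rw [H2w386.sitesL_add, List.mem_map]
  constructor
  · rintro ⟨a, ha, h⟩
    rwa [← add_right_cancel h]
  · intro h
    exact ⟨s, h, rfl⟩

lemma mem_shift (y x s : Site d) (l : List (Step d)) :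
    s ∈ sitesL (x + y) l ↔ s - y ∈ sitesL x l := by
  rw [← mem_add y x (s - y) l, sub_add_cancel]

open Classical in
/-- the left side of `E2` / `E3` -/
noncomputable def Lhs (ν : Measure (Row d)) [IsProbabilityMeasure ν] (u : Step d)
    (μ : Site d → ℝ≥0∞) (P : Site d → List (Step d) → List (Step d) → Prop) : ℝ≥0∞ :=
  ∑' x, (if lev u x = 0 then μ x * ∑' π, ∑' γ, (if P x π γ then aw ν π * aw ν γ else 0) else 0)

open Classical in
lemma Lhs_eq (ν : Measure (Row d)) [IsProbabilityMeasure ν] (u : Step d)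
    (μ : Site d → ℝ≥0∞) (P : Site d → List (Step d) → List (Step d) → Prop) :
    Lhs ν u μ P = ∑' x, ∑' π, ∑' γ,
      (if lev u x = 0 ∧ P x π γ then μ x * (aw ν π * aw ν γ) else 0) := by
  refine tsum_congr fun x => ?_
  by_cases hx : lev u x = 0
  · rw [if_pos hx, ← ENNReal.tsum_mul_left]
    refine tsum_congr fun π => ?_
    rw [← ENNReal.tsum_mul_left]
    refine tsum_congr fun γ => ?_
    by_cases h : P x π γ
    · rw [if_pos h, if_pos ⟨hx, h⟩]
    · rw [if_neg h, if_neg (fun h' => h h'.2), mul_zero]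
  · rw [if_neg hx]
    simp [hx]

/-! ### `us` -/

lemma UU_le (ν : Measure (Row d)) [IsProbabilityMeasure ν] (u : Step d) (s : ℕ) :
    H2w386.UU ν u 1 (-(s : ℤ)) ≤ Us778.us ν u s := by
  classical
  refine le_trans ?_ (le_self_add (a := annealed (iidEnvironmentLaw ν) 0 (Us778.Dip u s)))
  refine Us778.dip_words (iidEnvironmentLaw ν) u s (H2w386.TT u 1 (-(s : ℤ)))
    (fun l hl l' hl' h => H2w386.pf_TT u 1 (-(s : ℤ)) l hl l' hl' h) fun l hl => ?_
  obtain ⟨⟨⟨γ, h1, h2⟩, h3⟩, -⟩ := hl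
  exact ⟨⟨γ, h1, h2⟩, le_trans (by norm_num) h3⟩

open Classical in
lemma ret_le (ν : Measure (Row d)) [IsProbabilityMeasure ν] (u : Step d) (s : ℕ) :
    ∑' σ : List (Step d), (if Win775.FP {z | lev u z ≤ -1}ᶜ {z | lev u z ≤ -1} 0 σ ∧
      (∃ z ∈ sitesL 0 σ, z ∈ {z : Site d | (s : ℤ) ≤ lev u z}) then Win775.awx ν 0 σ else 0)
      ≤ Us778.us ν u s := by
  refine le_trans ?_ (le_add_self (a := annealed (iidEnvironmentLaw ν) 0 (Us778.Bump u s))
    (b := annealed (iidEnvironmentLaw ν) 0 (Us778.Dip u s)))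
  refine le_trans (ENNReal.tsum_le_tsum fun σ => ?_) (Us778.bump_words (iidEnvironmentLaw ν) u s
    {σ | Win775.FP {z | lev u z ≤ -1}ᶜ {z | lev u z ≤ -1} 0 σ ∧
      (∃ z ∈ sitesL 0 σ, z ∈ {z : Site d | (s : ℤ) ≤ lev u z})}
    (fun l hl l' hl' h => ?_) fun l hl => ?_)
  · split_ifs with h1 h2 h2
    · exact le_rfl
    · exact absurd h1 h2
    · exact zero_le
    · exact le_rfl
  · obtain ⟨t, ht⟩ := h
    exact Win775.FP.prefix_free disjoint_compl_left (l2 := t) (l2' := []) hl.1 hl'.1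
      (by rw [ht, List.append_nil])
  · obtain ⟨⟨h1, h2⟩, z, hz, hs⟩ := hl
    obtain ⟨γ, ρ2, h3, -, h4⟩ := H2w386.mem_sitesL.1 hz
    refine ⟨⟨γ, ⟨ρ2, h3.symm⟩, ?_⟩, ?_⟩
    · rw [h4]; exact hs
    · exact le_trans h2 (by norm_num)

/-! ### E2 -/

open Classical in
/-- **E2** (X local), common height. -/
theorem E2 (ν : Measure (Row d)) [IsProbabilityMeasure ν] (u : Step d) (s H : ℕ)
    (E : Finset (Site d)) (μ : Site d → ℝ≥0∞) (M lam : ℝ≥0∞) (hμ1 : ∑' x, μ x ≤ 1)
    (hμ : ∀ x, μ x ≤ M) (hl : lam ≠ 0) (hl' : lam ≠ ⊤) :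
    ∑' x, (if lev u x = 0 then μ x * ∑' π, ∑' γ, (if IsUp u H π ∧ endp 0 π ∈ E ∧ IsDn u H γ ∧
      (∃ k, k ∈ Cm u x π γ) ∧ (∀ k ∈ Cm u x π γ, s < k) then aw ν π * aw ν γ else 0) else 0)
      ≤ lam + M * E.card * Us778.us ν u s / lam + Us778.us ν u s := by
  have hcore := H2w386.core ν u H H 1 (-(s : ℤ)) E (fun p => μ (stepVec u - p)) M lam
    (fun x => hμ _) hl hl'
  have hm : ∑' p, μ (stepVec u - p) = ∑' x, μ x := (Equiv.subLeft (stepVec u)).tsum_eq μ
  rw [hm] at hcore
  have hU := UU_le ν u s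
  refine le_trans ?_ (hcore.trans ?_)
  · refine le_trans (b := Lhs ν u μ (fun x π γ => IsUp u H π ∧ endp 0 π ∈ E ∧ IsDn u H γ ∧
      (∃ k, k ∈ Cm u x π γ) ∧ (∀ k ∈ Cm u x π γ, s < k))) (le_of_eq ?_) ?_
    · unfold Lhs; congr!
    rw [Lhs_eq, ENNReal.tsum_comm]
    refine le_trans ?_ (le_of_eq (ENNReal.tsum_comm).symm)
    refine ENNReal.tsum_le_tsum fun π => ?_
    refine le_trans ?_ (le_of_eq (Equiv.tsum_eq (Equiv.subLeft (stepVec u - endp 0 π)) _))
    refine ENNReal.tsum_le_tsum fun x => ENNReal.tsum_le_tsum fun γ => ?_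
    split_ifs with h1 h2 h2
    · simp only [Equiv.subLeft_apply]
      rw [show stepVec u - (stepVec u - endp 0 π - x + endp 0 π) = x by abel]
    · exfalso
      apply h2
      obtain ⟨hx, hu, hE, hd, ⟨k, hk⟩, hall⟩ := h1
      simp only [Equiv.subLeft_apply]
      have hlev : lev u (stepVec u - endp 0 π - x + endp 0 π) = 1 := by
        rw [show stepVec u - endp 0 π - x + endp 0 π = stepVec u + -x by abel, lev_add, lev_neg,
          hx, lev_self]
        norm_num
      have e1 : (stepVec u - endp 0 π - x : Site d) + (x - stepVec u) = -endp 0 π := by abel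
      have e2 : (0 : Site d) + (x - stepVec u) = x + stepVec (opp u) := by
        rw [stepVec_opp]; abel
      refine ⟨hlev, hu, hE, hd, ?_, ?_⟩
      · intro z hz hz'
        have h3 : z + (x - stepVec u) ∈ sitesL (-endp 0 π) π := by
          rw [← e1]; exact (mem_add _ _ _ _).2 hz
        have h4 : z + (x - stepVec u) ∈ sitesL (x + stepVec (opp u)) γ := by
          rw [← e2]; exact (mem_add _ _ _ _).2 hz'
        have h5 := (hd.1 z hz').2
        have h6 : lev u (z + (x - stepVec u)) = lev u z - 1 := by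
          rw [lev_add, sub_eq_add_neg, lev_add, lev_neg, hx, lev_self]; ring
        have h7 : (1 - lev u z).toNat ∈ Cm u x π γ :=
          ⟨_, h3, h4, by rw [h6]; omega⟩
        have := hall _ h7
        omega
      · obtain ⟨y, hy, hy', -⟩ := hk
        refine ⟨y - (x - stepVec u), ?_, ?_⟩
        · rw [← mem_shift, e1]; exact hy
        · rw [← mem_shift, e2]; exact hy'
    · exact zero_le
    · exact le_rfl
  · have h1 : (lam + H2w386.UU ν u 1 (-(s : ℤ))) * (∑' x, μ x)
        ≤ lam + Us778.us ν u s := by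
      calc _ ≤ (lam + Us778.us ν u s) * 1 := mul_le_mul' (by gcongr) hμ1
        _ = _ := mul_one _
    have h2 : M * E.card * H2w386.UU ν u 1 (-(s : ℤ)) / lam ≤ M * E.card * Us778.us ν u s / lam := by
      gcongr
    calc _ ≤ (lam + Us778.us ν u s) + M * E.card * Us778.us ν u s / lam := add_le_add h1 h2
      _ = _ := by ring

/-! ### E3 -/

open Classical in
/-- **E3** (Y local), common height; `M ≠ 0, ⊤`. -/
lemma E3' (ν : Measure (Row d)) [IsProbabilityMeasure ν] (u : Step d) (s H : ℕ)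
    (E : Finset (Site d)) (μ : Site d → ℝ≥0∞) (M lam : ℝ≥0∞) (hμ1 : ∑' x, μ x ≤ 1)
    (hμ : ∀ x, μ x ≤ M) (hM : M ≠ 0) (hM' : M ≠ ⊤) (hl : lam ≠ 0) (hl' : lam ≠ ⊤) :
    ∑' x, (if lev u x = 0 then μ x * ∑' π, ∑' γ, (if IsUp u H π ∧ endp 0 γ ∈ E ∧ IsDn u H γ ∧
      (∃ k, k ∈ Cm u x π γ) ∧ (∀ k ∈ Cm u x π γ, k + s ≤ H) then aw ν π * aw ν γ else 0) else 0)
      ≤ 4 * lam + M / lam * (E.card * Us778.us ν u s) := by
  have hwin := Win775.win3 ν (S := fun _ => {z : Site d | 0 ≤ lev u z})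
    (T := fun x => {z : Site d | lev u z ≤ -1 ∧ z - x ∈ E})
    (S' := {z : Site d | 0 ≤ lev u z ∧ lev u z < H})
    (T' := {z : Site d | lev u z = H}) (Q := {z : Site d | lev u z ≤ -1})
    (A := {z : Site d | (s : ℤ) ≤ lev u z}) (y := 0)
    (δ := fun x z => μ (x + (stepVec u - z))) (M := M) (lam := lam) (N := E.card)
    (r := Us778.us ν u s) hM hM' hl hl'
    (by
      rw [Set.disjoint_left]
      rintro z ⟨_, h1⟩ h2
      exact absurd h2 (ne_of_lt h1))
    (fun x z => hμ _)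
    (fun z => ((Equiv.addRight (stepVec u - z)).tsum_eq μ).le.trans hμ1)
    (fun x z hz => by
      simp only [Set.mem_compl_iff, Set.mem_ofPred_eq] at hz ⊢
      omega)
    (fun x z hz => hz.1)
    (fun z hz => by
      simp only [Set.mem_compl_iff, Set.mem_ofPred_eq] at hz ⊢
      omega)
    (fun z => by
      refine le_trans (ENNReal.tsum_le_tsum
        (g := fun x : Site d => if z - x ∈ E then (1 : ℝ≥0∞) else 0) fun x => ?_) ?_
      · split_ifs with h1 h2 h2
        · exact le_rfl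
        · exact absurd h1.2 h2
        · exact zero_le
        · exact le_rfl
      calc ∑' x : Site d, (if z - x ∈ E then (1 : ℝ≥0∞) else 0)
          = ∑' x : Site d, (if x ∈ E then (1 : ℝ≥0∞) else 0) :=
            (Equiv.subLeft z).tsum_eq (fun x => if x ∈ E then (1 : ℝ≥0∞) else 0)
        _ = E.card := by
            rw [tsum_eq_sum (s := E) (fun x hx => if_neg hx),
              Finset.sum_congr rfl fun x hx => if_pos hx]
            simp
        _ ≤ (E.card : ℝ≥0∞) := le_rfl)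
    (by
      refine le_trans (le_of_eq ?_) (ret_le ν u s)
      congr!)
  refine le_trans ?_ hwin
  refine le_trans (b := Lhs ν u μ (fun x π γ => IsUp u H π ∧ endp 0 γ ∈ E ∧ IsDn u H γ ∧
      (∃ k, k ∈ Cm u x π γ) ∧ (∀ k ∈ Cm u x π γ, k + s ≤ H))) (le_of_eq ?_) ?_
  · unfold Lhs; congr!
  rw [Lhs_eq]
  have hsw : ∀ G : Site d → List (Step d) → List (Step d) → ℝ≥0∞,
      ∑' x, ∑' π, ∑' γ, G x π γ = ∑' π, ∑' γ, ∑' x, G x π γ := by
    intro G
    rw [ENNReal.tsum_comm]
    exact tsum_congr fun π => ENNReal.tsum_comm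
  rw [hsw, hsw, ENNReal.tsum_comm]
  refine ENNReal.tsum_le_tsum fun γ => ENNReal.tsum_le_tsum fun π => ?_
  refine le_trans ?_ (le_of_eq (Equiv.tsum_eq (Equiv.addRight (endp 0 π - stepVec u)) _))
  refine ENNReal.tsum_le_tsum fun x => ?_
  split_ifs with h1 h2 h2
  · simp only [Equiv.coe_addRight]
    rw [show x + (endp 0 π - stepVec u) + (stepVec u - endp 0 π) = x by abel]
    unfold Win775.awx
    rw [H2w386.lintegral_lw, H2w386.lintegral_lw]
    apply le_of_eq; ring
  · exfalso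
    apply h2
    obtain ⟨hx, hu, hE, hd, ⟨k, hk⟩, hall⟩ := h1
    simp only [Equiv.coe_addRight]
    have hX : lev u (x + (endp 0 π - stepVec u)) = H - 1 := by
      rw [lev_add, sub_eq_add_neg, lev_add, lev_neg, hx, lev_self, hu.2]; ring
    have hγe : endp (x + (endp 0 π - stepVec u)) γ = x + (endp 0 π - stepVec u) + endp 0 γ := by
      rw [endp_eq_add]
    have e1 : (0 : Site d) + (-endp 0 π) = -endp 0 π := by abel
    have e2 : x + (endp 0 π - stepVec u) + (-endp 0 π) = x + stepVec (opp u) := by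
      rw [stepVec_opp]; abel
    refine ⟨⟨?_, ?_, ?_⟩, ⟨?_, ?_⟩, ?_⟩
    · intro z hz
      have hz0 : z - (x + (endp 0 π - stepVec u)) ∈ sitesL 0 γ := by
        rw [← mem_shift, zero_add]; exact hz
      have := (hd.1 _ hz0).1
      rw [sub_eq_add_neg, lev_add, lev_neg, hX] at this
      change 0 ≤ lev u z
      omega
    · rw [hγe, lev_add, hX, hd.2]; omega
    · rw [hγe, add_sub_cancel_left]; exact hE
    · intro z hz
      exact hu.1 z hz
    · exact hu.2
    · obtain ⟨y, hy, hy', -⟩ := hk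
      have hex : ∃ z ∈ sitesL 0 π, z ∈ {z | z ∈ sitesL (x + (endp 0 π - stepVec u)) γ} := by
        refine ⟨y + endp 0 π, ?_, ?_⟩
        · rw [← mem_add (-endp 0 π), e1, add_neg_cancel_right]; exact hy
        · change y + endp 0 π ∈ sitesL (x + (endp 0 π - stepVec u)) γ
          rw [← mem_add (-endp 0 π), e2, add_neg_cancel_right]; exact hy'
      obtain ⟨π1, π2, h3, h4, h5, h6⟩ := Win775.exists_first π 0 hex
      refine ⟨π1, π2, h3, h4, h5, ?_⟩
      have hz : endp 0 π1 ∈ sitesL 0 π := H2w386.mem_sitesL.2 ⟨π1, π2, h3, h6, rfl⟩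
      have h7 := (hu.1 _ hz).2
      have h8 : ((H : ℤ) - lev u (endp 0 π1)).toNat ∈ Cm u x π γ := by
        refine ⟨endp 0 π1 + -endp 0 π, ?_, ?_, ?_⟩
        · have := (mem_add (-endp 0 π) 0 (endp 0 π1) π).2 hz
          rwa [e1] at this
        · have := (mem_add (-endp 0 π) (x + (endp 0 π - stepVec u)) (endp 0 π1) γ).2 h5
          rwa [e2] at this
        · rw [lev_add, lev_neg, hu.2]; omega
      have := hall _ h8
      change (s : ℤ) ≤ lev u (endp 0 π1)
      omega
  · exact zero_le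
  · exact le_rfl

open Classical in
/-- **E3** (Y local), common height. -/
theorem E3 (ν : Measure (Row d)) [IsProbabilityMeasure ν] (u : Step d) (s H : ℕ)
    (E : Finset (Site d)) (μ : Site d → ℝ≥0∞) (M lam : ℝ≥0∞) (hμ1 : ∑' x, μ x ≤ 1)
    (hμ : ∀ x, μ x ≤ M) (hl : lam ≠ 0) (hl' : lam ≠ ⊤) :
    ∑' x, (if lev u x = 0 then μ x * ∑' π, ∑' γ, (if IsUp u H π ∧ endp 0 γ ∈ E ∧ IsDn u H γ ∧
      (∃ k, k ∈ Cm u x π γ) ∧ (∀ k ∈ Cm u x π γ, k + s ≤ H) then aw ν π * aw ν γ else 0) else 0)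
      ≤ 4 * lam + M * E.card * Us778.us ν u s / lam := by
  by_cases hM : M = 0
  · have h0 : ∀ x, μ x = 0 := fun x => by simpa [hM] using hμ x
    simp [h0]
  · have h1 : ∀ x, μ x ≤ min M 1 := fun x => le_min (hμ x) ((ENNReal.le_tsum x).trans hμ1)
    refine (E3' ν u s H E μ (min M 1) lam hμ1 h1 (by simp [hM]) (by simp) hl hl').trans ?_
    refine add_le_add le_rfl ?_
    calc min M 1 / lam * (E.card * Us778.us ν u s) ≤ M / lam * (E.card * Us778.us ν u s) := by
          gcongr; exact min_le_left _ _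
      _ = _ := by
        simp only [ENNReal.div_eq_inv_mul]; ring

/-- **us → 0** -/
theorem us_small (ν : Measure (Row d)) [IsProbabilityMeasure ν]
    (hν : ∀ᵐ p ∂ν, ∀ e : Step d, 0 < p.1 e) (u : Step d)
    (h : annealed (iidEnvironmentLaw ν) 0 (escapeEvent (B2d.dirVec u)) ≠ 0)
    (η : ℝ≥0∞) (hη : η ≠ 0) : ∃ s0 : ℕ, ∀ s, s0 ≤ s → Us778.us ν u s ≤ η := by
  refine Us778.us_eventually ν hν u ?_ η hη
  rw [annealed_apply (iidEnvironmentLaw ν) 0 (B2d.measurableSet_escapeEvent _)] at h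
  exact h

end Crest.Agent.R154.E23
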