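import Crest.Agent.R154.H2w_386
import Crest.Agent.R154.H3_799
import Crest.Agent.R154.UsW_778

/-!
Row 154 (helper91), ROAD 801, FRAME B: 912's `E2` / `E3` (#40669, exact frame: a = a' = 0,
h = h' = H) from 386's `core` (window lemma (2)) and 799's `h3core` (window lemma (3)),
`us = Us778.us ν u`.
-/

set_option autoImplicit false
set_option linter.unusedSectionVars false

namespace Crest.Agent.R154.E23

open MeasureTheory ProbabilityTheory Crest.ProbabilityR.RandomEnvironment Crest.Agent.R154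
open Crest.Agent.R154.Flux132 (lev opp)
open Crest.Agent.R154.Flux566 (lw endp sitesL)
open Crest.Agent.R154.NB28 (IsUp IsDn aw Cm)
open scoped ENNReal

variable {d : ℕ}

lemma lev_sub (u : Step d) (x y : Site d) : lev u (x - y) = lev u x - lev u y := by
  have h1 : lev u (x + -y) = lev u x + lev u (-y) := Flux566.lev_add u x (-y)
  have h2 : lev u (-y) = -lev u y := Flux566.lev_neg u y
  rw [sub_eq_add_neg, h1, h2]; ring

lemma mem_shift (l : List (Step d)) (x c y : Site d) :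
    y ∈ sitesL x l ↔ y - c ∈ sitesL (x - c) l := by
  induction l generalizing x with
  | nil => simp [sitesL]
  | cons e l ih =>
    simp only [sitesL, List.mem_cons]
    rw [show x - c + stepVec e = (x + stepVec e) - c by abel, ← ih]
    constructor
    · rintro (h | h)
      · left; rw [h]
      · right; exact h
    · rintro (h | h)
      · left; exact sub_left_injective h
      · right; exact h

lemma UU_le (ν : Measure (Row d)) [IsProbabilityMeasure ν] (u : Step d) (s : ℕ) :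
    H2w386.UU ν u 1 (-(s : ℤ)) ≤ Us778.us ν u s := by
  unfold H2w386.UU
  refine le_trans ?_ le_self_add
  exact Us778.dip_words (iidEnvironmentLaw ν) u s (H2w386.TT u 1 (-(s : ℤ)))
    (H2w386.pf_TT u _ _) (fun l hl => ⟨hl.1.1, le_trans (by norm_num) hl.1.2⟩)

open Classical in
lemma ret_le (ν : Measure (Row d)) [IsProbabilityMeasure ν] (u : Step d) (s : ℕ) :
    Tie799.ret ν u s 1 ≤ Us778.us ν u s := by
  have h := Us778.bump_words (iidEnvironmentLaw ν) u s
    {l | (∀ y ∈ sitesL 0 l, -1 < lev u y) ∧ lev u (endp 0 l) = -1 ∧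
      (∃ y ∈ sitesL 0 l, (s : ℤ) ≤ lev u y)} ?_ ?_
  · unfold Tie799.ret
    refine le_trans ?_ (h.trans le_add_self)
    refine ENNReal.tsum_le_tsum fun l => ?_
    by_cases hl : (∀ y ∈ sitesL 0 l, -1 < lev u y) ∧ lev u (endp 0 l) = -1 ∧
      (∃ y ∈ sitesL 0 l, (s : ℤ) ≤ lev u y)
    · rw [if_pos hl, if_pos (show l ∈ {l | (∀ y ∈ sitesL 0 l, -1 < lev u y) ∧
        lev u (endp 0 l) = -1 ∧ (∃ y ∈ sitesL 0 l, (s : ℤ) ≤ lev u y)} from hl)]
      exact le_rfl
    · rw [if_neg hl]; exact zero_le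
  · rintro l hl l' hl' ⟨t, rfl⟩
    by_contra hne
    have ht : t ≠ [] := fun h => hne (by rw [h, List.append_nil])
    have h1 := hl'.1 (endp 0 l) (Surg799.endp_mem_sites l t 0 ht)
    have h2 := hl.2.1
    omega
  · rintro l ⟨_, h2, y, hy, h3⟩
    obtain ⟨l1, e, l2, h12, hend⟩ := WordB956.mem_sitesL.1 hy
    exact ⟨⟨l1, ⟨e :: l2, h12.symm⟩, by rw [hend]; exact h3⟩, le_trans (le_of_eq h2) (by norm_num)⟩

lemma reindex (u : Step d) (F : Site d → List (Step d) → List (Step d) → ℝ≥0∞) :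
    ∑' x, ∑' π, ∑' γ, F x π γ
      = ∑' y, ∑' π, ∑' γ, F (stepVec u - (y + endp 0 π)) π γ := by
  rw [ENNReal.tsum_comm]
  conv_rhs => rw [ENNReal.tsum_comm]
  refine tsum_congr fun π => ?_
  exact (((Equiv.addRight (endp 0 π)).trans (Equiv.subLeft (stepVec u))).tsum_eq
    (fun x => ∑' γ, F x π γ)).symm

/-- contacts after the translation -/
lemma ct (u : Step d) (y z : Site d) (π γ : List (Step d)) :
    (z ∈ sitesL y π ∧ z ∈ sitesL 0 γ) ↔
      (z - (y + endp 0 π) ∈ sitesL (-endp 0 π) π ∧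
        z - (y + endp 0 π) ∈ sitesL (stepVec u - (y + endp 0 π) + stepVec (opp u)) γ) := by
  rw [mem_shift π y (y + endp 0 π) z, mem_shift γ 0 (y + endp 0 π) z]
  have e1 : y - (y + endp 0 π) = -endp 0 π := by abel
  have e2 : stepVec u - (y + endp 0 π) + stepVec (opp u) = 0 - (y + endp 0 π) := by
    have h : stepVec (opp u) = -stepVec u := Flux566.stepVec_opp u
    rw [h]; abel
  rw [e1, e2]

/-- common sites as contact depths -/
lemma cm_of (u : Step d) {y z : Site d} {π γ : List (Step d)} {H : ℕ} (hg : IsDn u H γ)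
    (hy : lev u (y + endp 0 π) = 1) (h1 : z ∈ sitesL y π) (h2 : z ∈ sitesL 0 γ) :
    (1 - lev u z).toNat ∈ Cm u (stepVec u - (y + endp 0 π)) π γ ∧
      ((1 - lev u z).toNat : ℤ) = 1 - lev u z := by
  have h3 := (hg.1 z h2).2
  have h4 : ((1 - lev u z).toNat : ℤ) = 1 - lev u z := Int.toNat_of_nonneg (by omega)
  obtain ⟨h5, h6⟩ := (ct u y z π γ).1 ⟨h1, h2⟩
  refine ⟨⟨z - (y + endp 0 π), h5, h6, ?_⟩, h4⟩
  rw [lev_sub, hy, h4]; ring

lemma of_cm (u : Step d) {y : Site d} {π γ : List (Step d)} {k : ℕ}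
    (hk : k ∈ Cm u (stepVec u - (y + endp 0 π)) π γ) :
    ∃ z, z ∈ sitesL y π ∧ z ∈ sitesL 0 γ := by
  obtain ⟨z, h1, h2, _⟩ := hk
  refine ⟨z + (y + endp 0 π), (ct u y _ π γ).2 ⟨?_, ?_⟩⟩ <;> rw [add_sub_cancel_right] <;>
    assumption

lemma lev_x (u : Step d) (y : Site d) (π : List (Step d)) :
    lev u (stepVec u - (y + endp 0 π)) = 0 ↔ lev u (y + endp 0 π) = 1 := by
  have h : lev u (stepVec u) = 1 := Flux566.lev_self u
  rw [lev_sub, h]
  constructor <;> intro h <;> omega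

lemma push (ν : Measure (Row d)) [IsProbabilityMeasure ν] (u : Step d) (μ : Site d → ℝ≥0∞)
    (P : Site d → List (Step d) → List (Step d) → Prop) [∀ x π γ, Decidable (P x π γ)] :
    ∑' x : Site d, (if lev u x = 0 then μ x * ∑' π : List (Step d), ∑' γ : List (Step d),
      (if P x π γ then aw ν π * aw ν γ else 0) else 0)
      = ∑' x, ∑' π, ∑' γ, (if lev u x = 0 ∧ P x π γ then μ x * (aw ν π * aw ν γ) else 0) := by
  refine tsum_congr fun x => ?_
  by_cases hx : lev u x = 0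
  · rw [if_pos hx, ← ENNReal.tsum_mul_left]
    refine tsum_congr fun π => ?_
    rw [← ENNReal.tsum_mul_left]
    refine tsum_congr fun γ => ?_
    by_cases h : P x π γ <;> simp [hx, h]
  · simp [hx]

open Classical in
/-- **E2** -/
theorem E2 (ν : Measure (Row d)) [IsProbabilityMeasure ν] (u : Step d) (s H : ℕ)
    (E : Finset (Site d)) (μ : Site d → ℝ≥0∞) (M lam : ℝ≥0∞) (h1 : ∑' x, μ x ≤ 1)
    (hM : ∀ x, μ x ≤ M) (hl : lam ≠ 0) (hl' : lam ≠ ⊤) :
    ∑' x : Site d, (if lev u x = 0 then μ x * ∑' π : List (Step d), ∑' γ : List (Step d),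
      (if IsUp u H π ∧ endp 0 π ∈ E ∧ IsDn u H γ ∧ (∃ k, k ∈ Cm u x π γ) ∧
        (∀ k ∈ Cm u x π γ, s < k) then aw ν π * aw ν γ else 0) else 0)
      ≤ 8 * (lam + M * E.card * Us778.us ν u s / lam + Us778.us ν u s) := by
  refine (le_of_eq (push ν u μ (fun x π γ => IsUp u H π ∧ endp 0 π ∈ E ∧ IsDn u H γ ∧
    (∃ k, k ∈ Cm u x π γ) ∧ (∀ k ∈ Cm u x π γ, s < k)))).trans ?_
  rw [reindex u]
  have hcore := H2w386.core ν u H H 1 (-(s : ℤ)) E (fun t => μ (stepVec u - t)) M lam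
    (fun x => hM _) hl hl'
  have hm : ∑' x, (fun t => μ (stepVec u - t)) x ≤ 1 := by
    refine le_trans (le_of_eq ?_) h1
    exact (Equiv.subLeft (stepVec u)).tsum_eq μ
  refine le_trans (ENNReal.tsum_le_tsum fun y => ENNReal.tsum_le_tsum fun π =>
    ENNReal.tsum_le_tsum fun γ => ?_) (hcore.trans ?_)
  · by_cases h : lev u (stepVec u - (y + endp 0 π)) = 0 ∧ IsUp u H π ∧ endp 0 π ∈ E ∧
      IsDn u H γ ∧ (∃ k, k ∈ Cm u (stepVec u - (y + endp 0 π)) π γ) ∧
        (∀ k ∈ Cm u (stepVec u - (y + endp 0 π)) π γ, s < k)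
    · rw [if_pos h, if_pos]
      obtain ⟨a1, a2, a3, a4, ⟨k, hk⟩, a6⟩ := h
      have b1 := (lev_x u y π).1 a1
      refine ⟨b1, a2, a3, a4, fun z hz hz' => ?_, of_cm u hk⟩
      obtain ⟨c1, c2⟩ := cm_of u a4 b1 hz hz'
      have := a6 _ c1
      omega
    · rw [if_neg h]; exact zero_le
  · have hU := UU_le ν u s
    calc (lam + H2w386.UU ν u 1 (-(s : ℤ))) * (∑' x, (fun t => μ (stepVec u - t)) x)
          + M * E.card * H2w386.UU ν u 1 (-(s : ℤ)) / lam
        ≤ (lam + Us778.us ν u s) * 1 + M * E.card * Us778.us ν u s / lam := by gcongr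
      _ = 1 * (lam + M * E.card * Us778.us ν u s / lam + Us778.us ν u s) := by ring
      _ ≤ _ := by gcongr; norm_num

open Classical in
/-- **E3** -/
theorem E3 (ν : Measure (Row d)) [IsProbabilityMeasure ν] (u : Step d) (s H : ℕ)
    (E : Finset (Site d)) (μ : Site d → ℝ≥0∞) (M lam : ℝ≥0∞) (h1 : ∑' x, μ x ≤ 1)
    (hM : ∀ x, μ x ≤ M) (hl : lam ≠ 0) (hl' : lam ≠ ⊤) :
    ∑' x : Site d, (if lev u x = 0 then μ x * ∑' π : List (Step d), ∑' γ : List (Step d),
      (if IsUp u H π ∧ IsDn u H γ ∧ endp 0 γ ∈ E ∧ (∃ k, k ∈ Cm u x π γ) ∧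
        (∀ k ∈ Cm u x π γ, k + s ≤ H) then aw ν π * aw ν γ else 0) else 0)
      ≤ 8 * (lam + M * E.card * Us778.us ν u s / lam + Us778.us ν u s) := by
  refine (le_of_eq (push ν u μ (fun x π γ => IsUp u H π ∧ IsDn u H γ ∧ endp 0 γ ∈ E ∧
    (∃ k, k ∈ Cm u x π γ) ∧ (∀ k ∈ Cm u x π γ, k + s ≤ H)))).trans ?_
  rw [reindex u]
  have hM' : ∀ x, μ x ≤ min M 1 := fun x => le_min (hM x) ((ENNReal.le_tsum x).trans h1)
  have hm : ∑' x, (fun t => μ (stepVec u - t)) x ≤ 1 := by
    refine le_trans (le_of_eq ?_) h1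
    exact (Equiv.subLeft (stepVec u)).tsum_eq μ
  have hcore := Tie799.h3core ν u H H ((H : ℤ) - 1) ((H : ℤ) - s - 1) E
    (fun t => μ (stepVec u - t)) (min M 1) lam (ne_top_of_le_ne_top ENNReal.one_ne_top
    (min_le_right _ _)) hl hl' (fun x => hM' _) hm (by omega)
  refine le_trans (ENNReal.tsum_le_tsum fun y => ?_) (hcore.trans ?_)
  · by_cases hy : lev u y = -((H : ℤ) - 1)
    · rw [if_pos hy, ENNReal.tsum_comm]
      refine ENNReal.tsum_le_tsum fun γ => ENNReal.tsum_le_tsum fun π => ?_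
      by_cases h : lev u (stepVec u - (y + endp 0 π)) = 0 ∧ IsUp u H π ∧ IsDn u H γ ∧
        endp 0 γ ∈ E ∧ (∃ k, k ∈ Cm u (stepVec u - (y + endp 0 π)) π γ) ∧
          (∀ k ∈ Cm u (stepVec u - (y + endp 0 π)) π γ, k + s ≤ H)
      · rw [if_pos h, if_pos]
        · have e : endp y π = y + endp 0 π := Flux566.endp_eq_add _ _
          rw [e]
          refine le_of_eq ?_
          change _ = aw ν γ * aw ν π * _
          ring
        · obtain ⟨a1, a2, a3, a4, ⟨k, hk⟩, a6⟩ := h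
          have b1 := (lev_x u y π).1 a1
          refine ⟨a3, a4, a2, of_cm u hk, fun z hz hz' => ?_⟩
          obtain ⟨c1, c2⟩ := cm_of u a3 b1 hz hz'
          have := a6 _ c1
          omega
      · rw [if_neg h]; exact zero_le
    · rw [if_neg hy]
      refine le_of_eq ?_
      rw [ENNReal.tsum_eq_zero]
      intro π
      rw [ENNReal.tsum_eq_zero]
      intro γ
      rw [if_neg]
      rintro ⟨a1, a2, -⟩
      have b1 := (lev_x u y π).1 a1
      have b2 : lev u (y + endp 0 π) = lev u y + lev u (endp 0 π) := Flux566.lev_add u _ _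
      have := a2.2
      omega
  · have hU := ret_le ν u s
    have e1 : (H : ℤ) - 1 - ((H : ℤ) - s - 1) = s := by ring
    have e2 : (H : ℤ) - ((H : ℤ) - 1) = 1 := by ring
    rw [e1, e2]
    calc 8 * lam + 2 * (min M 1 * (E.card * Tie799.ret ν u s 1) / lam)
        ≤ 8 * lam + 8 * (M * (E.card * Us778.us ν u s) / lam) := by
          gcongr
          · norm_num
          · exact min_le_left _ _
      _ ≤ 8 * lam + 8 * (M * (E.card * Us778.us ν u s) / lam) + 8 * Us778.us ν u s := le_self_add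
      _ = _ := by rw [← mul_assoc M]; ring

end Crest.Agent.R154.E23
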