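import Crest.Agent.R154.E23_91

/-! Row 154 (helper91): `E2`, `E3` with the other order of the conjuncts, `us → 0` from the
annealed escape event. -/

set_option autoImplicit false

namespace Crest.Agent.R154.E23

open MeasureTheory ProbabilityTheory Crest.ProbabilityR.RandomEnvironment Crest.Agent.R154
open Crest.Agent.R154.Flux132 (lev opp)
open Crest.Agent.R154.Flux566 (lw endp sitesL)
open Crest.Agent.R154.NB28 (IsUp IsDn aw Cm)
open scoped ENNReal
open Filter Topology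

variable {d : ℕ}

open Classical in
/-- **E2**, order `IsUp ∧ IsDn ∧ endp` -/
theorem E2' (ν : Measure (Row d)) [IsProbabilityMeasure ν] (u : Step d) (s H : ℕ)
    (E : Finset (Site d)) (μ : Site d → ℝ≥0∞) (M lam : ℝ≥0∞) (h1 : ∑' x, μ x ≤ 1)
    (hM : ∀ x, μ x ≤ M) (hl : lam ≠ 0) (hl' : lam ≠ ⊤) :
    ∑' x : Site d, (if lev u x = 0 then μ x * ∑' π : List (Step d), ∑' γ : List (Step d),
      (if IsUp u H π ∧ IsDn u H γ ∧ endp 0 π ∈ E ∧ (∃ k, k ∈ Cm u x π γ) ∧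
        (∀ k ∈ Cm u x π γ, s < k) then aw ν π * aw ν γ else 0) else 0)
      ≤ 8 * (lam + M * E.card * Us778.us ν u s / lam + Us778.us ν u s) := by
  refine le_trans (le_of_eq (tsum_congr fun x => ?_)) (E2 ν u s H E μ M lam h1 hM hl hl')
  congr 2
  refine tsum_congr fun π => tsum_congr fun γ => ?_
  congr 1
  exact propext ⟨fun h => ⟨h.1, h.2.2.1, h.2.1, h.2.2.2⟩, fun h => ⟨h.1, h.2.2.1, h.2.1, h.2.2.2⟩⟩

open Classical in
/-- **E3**, order `IsUp ∧ endp ∧ IsDn` -/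
theorem E3' (ν : Measure (Row d)) [IsProbabilityMeasure ν] (u : Step d) (s H : ℕ)
    (E : Finset (Site d)) (μ : Site d → ℝ≥0∞) (M lam : ℝ≥0∞) (h1 : ∑' x, μ x ≤ 1)
    (hM : ∀ x, μ x ≤ M) (hl : lam ≠ 0) (hl' : lam ≠ ⊤) :
    ∑' x : Site d, (if lev u x = 0 then μ x * ∑' π : List (Step d), ∑' γ : List (Step d),
      (if IsUp u H π ∧ endp 0 γ ∈ E ∧ IsDn u H γ ∧ (∃ k, k ∈ Cm u x π γ) ∧
        (∀ k ∈ Cm u x π γ, k + s ≤ H) then aw ν π * aw ν γ else 0) else 0)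
      ≤ 8 * (lam + M * E.card * Us778.us ν u s / lam + Us778.us ν u s) := by
  refine le_trans (le_of_eq (tsum_congr fun x => ?_)) (E3 ν u s H E μ M lam h1 hM hl hl')
  congr 2
  refine tsum_congr fun π => tsum_congr fun γ => ?_
  congr 1
  exact propext ⟨fun h => ⟨h.1, h.2.2.1, h.2.1, h.2.2.2⟩, fun h => ⟨h.1, h.2.2.1, h.2.1, h.2.2.2⟩⟩

/-- `us → 0`, `KappaAll`'s letters -/
theorem us_zero (ν : Measure (Row d)) [IsProbabilityMeasure ν]
    (hν : ∀ᵐ p ∂ν, ∀ e : Step d, 0 < p.1 e) (u : Step d)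
    (hA : annealed (iidEnvironmentLaw ν) 0 (escapeEvent (B2d.dirVec u)) ≠ 0) :
    Tendsto (Us778.us ν u) atTop (𝓝 0) := by
  refine Us778.us_tendsto_zero ν hν u ?_
  rw [← annealed_apply _ 0 (Kal132.measurableSet_escape (Flux566.dir u))]
  exact hA

end Crest.Agent.R154.E23
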