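import Crest.Agent.R154.E3_660

/-! Row 154, NBProp, ROAD 801 (helper660): the window input E2 at the exact frame
(common height `H`, common cut levels), in words. -/

set_option autoImplicit false

namespace Crest.Agent.R154.E660

open MeasureTheory ProbabilityTheory Crest.ProbabilityR.RandomEnvironment Crest.Agent.R154
open Crest.Agent.R154.Flux132 (lev opp)
open Crest.Agent.R154.Flux566 (lw endp sitesL)
open Crest.Agent.R154.NB28 (IsUp IsDn aw Cm)
open scoped ENNReal Topology
open Filter

variable {d : ℕ}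

/-- the dips below `-s` which come back at level `1` -/
lemma dip_le (ν : Measure (Row d)) [IsProbabilityMeasure ν] (u : Step d) (s : ℕ) :
    (∑' τ : List (Step d), (open Classical in
      if τ ∈ Win130.Ret u (-(s : ℤ)) 1 0 then Win130.aw ν 0 τ else 0)) ≤ Us778.us ν u s := by
  classical
  refine le_trans (le_trans (le_of_eq ?_) (Us778.dip_words (iidEnvironmentLaw ν) u s
    (Win130.Ret u (-(s : ℤ)) 1 0) ?_ ?_)) le_self_add
  · exact tsum_congr fun τ => by
      by_cases h : τ ∈ Win130.Ret u (-(s : ℤ)) 1 0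
      · rw [if_pos h, if_pos h]; rfl
      · rw [if_neg h, if_neg h]
  · exact fun l hl l' hl' hp => Win130.pf_Ret u _ _ _ l hl l' hl' hp
  · rintro l ⟨⟨⟨l1, l2, h1, h2⟩, h3⟩, -⟩
    refine ⟨⟨l1, ⟨l2, h1.symm⟩, h2⟩, ?_⟩
    rw [h3]; norm_num

open Classical in
/-- for a fixed up word `π` from `y`, the down words `γ` from `0` which meet it -/
lemma one_word (ν : Measure (Row d)) [IsProbabilityMeasure ν] (u : Step d) (s H : ℕ)
    (y : Site d) (π : List (Step d)) :
    ∑' γ : List (Step d), (if IsDn u H γ ∧ (∃ z ∈ sitesL 0 γ, z ∈ sitesL y π) ∧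
        (∀ z ∈ sitesL 0 γ, z ∈ sitesL y π → lev u z ≤ -(s : ℤ)) then aw ν γ else 0)
      ≤ ∑' ρ : List (Step d),
        (if ρ ∈ Win130.FH u (-(s : ℤ)) 1 0 y π then Win130.aw ν 0 ρ else 0) := by
  have hW : Win130.PF {γ : List (Step d) | IsDn u H γ} := by
    rintro l ⟨-, h1⟩ l' ⟨h2, -⟩ ⟨l₂, rfl⟩
    by_cases h : l₂ = []
    · simp [h]
    · have := (h2 _ (Win130.endp_mem_sites 0 l l₂ h)).1
      omega
  refine (Win130.tsum_split_le _ (Win130.FH u (-(s : ℤ)) 1 0 y π) ?_).trans ?_
  · intro γ hγ
    by_cases hc : IsDn u H γ ∧ (∃ z ∈ sitesL 0 γ, z ∈ sitesL y π) ∧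
        (∀ z ∈ sitesL 0 γ, z ∈ sitesL y π → lev u z ≤ -(s : ℤ))
    swap
    · rw [if_neg hc] at hγ; exact absurd rfl hγ
    obtain ⟨hdn, hne, hall⟩ := hc
    obtain ⟨l₁, ⟨h1, h2⟩, h3⟩ := Win130.exists_FV {z | z ∈ sitesL y π} 0 γ (Or.inr hne)
    have hlen : l₁ ≠ γ := by
      rintro rfl
      obtain ⟨z, hz, hz'⟩ := hne
      exact h2 z hz hz'
    obtain ⟨l₂, hl₂⟩ := h3
    have hl₂ne : l₂ ≠ [] := by
      rintro rfl
      rw [List.append_nil] at hl₂
      exact hlen hl₂
    have hmem : endp 0 l₁ ∈ sitesL 0 γ := by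
      rw [← hl₂]; exact Win130.endp_mem_sites 0 l₁ l₂ hl₂ne
    refine ⟨l₁, ⟨h1, hall _ hmem h1, h2, ?_⟩, ⟨l₂, hl₂⟩⟩
    rintro l ⟨l', hl'⟩ ⟨-, hU⟩
    have hm : endp 0 l ∈ sitesL 0 γ := by
      rw [← hl₂, ← hl', List.append_assoc]
      exact Win130.endp_mem_sites 0 l (l' ++ l₂) (by simp [hl₂ne])
    have := (hdn.1 _ hm).2
    have hU' : lev u (endp 0 l) = 1 := hU
    omega
  · refine ENNReal.tsum_le_tsum fun ρ => ?_
    by_cases hρ : ρ ∈ Win130.FH u (-(s : ℤ)) 1 0 y π
    · rw [if_pos hρ, if_pos hρ]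
      refine le_trans (ENNReal.tsum_le_tsum fun ρ' => ?_) (Win130.aw_cont ν hW 0 ρ)
      by_cases hc : IsDn u H (ρ ++ ρ') ∧ (∃ z ∈ sitesL 0 (ρ ++ ρ'), z ∈ sitesL y π) ∧
        (∀ z ∈ sitesL 0 (ρ ++ ρ'), z ∈ sitesL y π → lev u z ≤ -(s : ℤ))
      · rw [if_pos hc, if_pos (show ρ ++ ρ' ∈ {γ : List (Step d) | IsDn u H γ} from hc.1)]
        exact le_rfl
      · rw [if_neg hc]; exact zero_le
    · rw [if_neg hρ, if_neg hρ]

open Classical in
/-- **E2** at the exact frame: the up word is local -/
theorem E2 (ν : Measure (Row d)) [IsProbabilityMeasure ν] (u : Step d) (s H : ℕ)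
    (E : Finset (Site d)) (μ : Site d → ℝ≥0∞) (M lam : ℝ≥0∞) (hμ : ∑' x, μ x ≤ 1)
    (hM : ∀ x, μ x ≤ M) (hl : lam ≠ 0) (hlt : lam ≠ ⊤) :
    ∑' x : Site d, (if lev u x = 0 then μ x * ∑' π : List (Step d), ∑' γ : List (Step d),
      (if IsUp u H π ∧ endp 0 π ∈ E ∧ IsDn u H γ ∧ (∃ k, k ∈ Cm u x π γ) ∧
        (∀ k ∈ Cm u x π γ, s < k) then aw ν π * aw ν γ else 0) else 0)
      ≤ lam + M * E.card * Us778.us ν u s / lam := by
  set z : Site d := stepVec (opp u) with hz
  have hlz : lev u z = -1 := by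
    rw [hz, stepVec_opp', HW660.lev_neg', lev_self']
  have key := Win130.win2 ν u (1 - (H : ℤ)) 1 (-(s : ℤ)) E lam M hl hlt (fun v => μ (-v - z))
    (fun v => hM _) 0
  -- the right side
  have hR : lam * ∑' v, (fun v => μ (-v - z)) v + lam⁻¹ * M * (E.card *
      ∑' τ, (if τ ∈ Win130.Ret u (-(s : ℤ)) 1 0 then Win130.aw ν 0 τ else 0))
      ≤ lam + M * E.card * Us778.us ν u s / lam := by
    have h1 : ∑' v, (fun v => μ (-v - z)) v ≤ 1 := by
      have : ∑' v, (fun v => μ (-v - z)) v = ∑' v, μ v :=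
        ((Equiv.neg (Site d)).trans (Equiv.subRight z)).tsum_eq μ
      rw [this]; exact hμ
    have h2 := dip_le ν u s
    calc _ ≤ lam * 1 + lam⁻¹ * M * (E.card * Us778.us ν u s) := by
          refine add_le_add (mul_le_mul_right h1 _) (mul_le_mul_right (mul_le_mul_right
            (le_trans (le_of_eq (tsum_congr fun τ => by congr)) h2) _) _)
      _ = _ := by rw [mul_one, div_eq_mul_inv]; ring
  refine le_trans ?_ (key.trans hR)
  -- the left side
  calc ∑' x : Site d, (if lev u x = 0 then μ x * ∑' π : List (Step d), ∑' γ : List (Step d),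
      (if IsUp u H π ∧ endp 0 π ∈ E ∧ IsDn u H γ ∧ (∃ k, k ∈ Cm u x π γ) ∧
        (∀ k ∈ Cm u x π γ, s < k) then aw ν π * aw ν γ else 0) else 0)
      ≤ ∑' x : Site d, ∑' π : List (Step d),
        (if lev u x = 0 ∧ IsUp u H π ∧ endp 0 π ∈ E then aw ν π * μ x *
          ∑' ρ : List (Step d), (if ρ ∈ Win130.FH u (-(s : ℤ)) 1 0 (-endp 0 π - (x + z)) π
            then Win130.aw ν 0 ρ else 0) else 0) := by
        refine ENNReal.tsum_le_tsum fun x => ?_
        by_cases hx : lev u x = 0
        swap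
        · rw [if_neg hx]; exact zero_le
        rw [if_pos hx, ← ENNReal.tsum_mul_left]
        refine ENNReal.tsum_le_tsum fun π => ?_
        by_cases hπ : IsUp u H π ∧ endp 0 π ∈ E
        swap
        · have : ∀ γ : List (Step d), ¬ (IsUp u H π ∧ endp 0 π ∈ E ∧ IsDn u H γ ∧
              (∃ k, k ∈ Cm u x π γ) ∧ (∀ k ∈ Cm u x π γ, s < k)) :=
            fun γ h => hπ ⟨h.1, h.2.1⟩
          simp [this]
        rw [if_pos ⟨hx, hπ⟩]
        have h1 := one_word ν u s H (-endp 0 π - (x + z)) π
        calc μ x * ∑' γ : List (Step d), (if IsUp u H π ∧ endp 0 π ∈ E ∧ IsDn u H γ ∧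
              (∃ k, k ∈ Cm u x π γ) ∧ (∀ k ∈ Cm u x π γ, s < k) then aw ν π * aw ν γ else 0)
            ≤ μ x * ∑' γ : List (Step d), aw ν π * (if IsDn u H γ ∧
              (∃ w ∈ sitesL 0 γ, w ∈ sitesL (-endp 0 π - (x + z)) π) ∧
              (∀ w ∈ sitesL 0 γ, w ∈ sitesL (-endp 0 π - (x + z)) π → lev u w ≤ -(s : ℤ))
                then aw ν γ else 0) := by
              refine mul_le_mul_right (ENNReal.tsum_le_tsum fun γ => ?_) _
              by_cases hc : IsUp u H π ∧ endp 0 π ∈ E ∧ IsDn u H γ ∧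
                  (∃ k, k ∈ Cm u x π γ) ∧ (∀ k ∈ Cm u x π γ, s < k)
              swap
              · rw [if_neg hc]; exact zero_le
              rw [if_pos hc]
              obtain ⟨-, -, hdn, ⟨k, y, hy1, hy2, -⟩, hall⟩ := hc
              have sh1 : ∀ w : Site d, w + (x + z) ∈ sitesL (-endp 0 π) π ↔
                  w ∈ sitesL (-endp 0 π - (x + z)) π := fun w => by
                have := Win130.mem_sites_shift (-endp 0 π - (x + z)) (x + z) w π
                rwa [sub_add_cancel] at this
              have sh2 : ∀ w : Site d, w + (x + z) ∈ sitesL (x + z) γ ↔ w ∈ sitesL 0 γ :=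
                fun w => by
                have := Win130.mem_sites_shift 0 (x + z) w γ
                rwa [zero_add] at this
              rw [if_pos]
              refine ⟨hdn, ⟨y - (x + z), ?_, ?_⟩, ?_⟩
              · rw [← sh2, sub_add_cancel]; exact hy2
              · rw [← sh1, sub_add_cancel]; exact hy1
              · intro w hw1 hw2
                have h3 := (hdn.1 _ hw1).2
                have h4 : lev u (w + (x + z)) = lev u w - 1 := by
                  rw [HW660.lev_add', HW660.lev_add', hx, hlz]; ring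
                have h5 : (-lev u (w + (x + z))).toNat ∈ Cm u x π γ := by
                  refine ⟨w + (x + z), (sh1 w).2 hw2, (sh2 w).2 hw1, ?_⟩
                  rw [Int.toNat_of_nonneg (by omega), neg_neg]
                have h6 := hall _ h5
                omega
          _ = μ x * (aw ν π * ∑' γ : List (Step d), (if IsDn u H γ ∧
              (∃ w ∈ sitesL 0 γ, w ∈ sitesL (-endp 0 π - (x + z)) π) ∧
              (∀ w ∈ sitesL 0 γ, w ∈ sitesL (-endp 0 π - (x + z)) π → lev u w ≤ -(s : ℤ))
                then aw ν γ else 0)) := by rw [ENNReal.tsum_mul_left]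
          _ ≤ μ x * (aw ν π * ∑' ρ : List (Step d),
              (if ρ ∈ Win130.FH u (-(s : ℤ)) 1 0 (-endp 0 π - (x + z)) π
                then Win130.aw ν 0 ρ else 0)) := mul_le_mul_right (mul_le_mul_right h1 _) _
          _ = _ := by ring
    _ = ∑' π : List (Step d), ∑' x : Site d,
        (if lev u x = 0 ∧ IsUp u H π ∧ endp 0 π ∈ E then aw ν π * μ x *
          ∑' ρ : List (Step d), (if ρ ∈ Win130.FH u (-(s : ℤ)) 1 0 (-endp 0 π - (x + z)) π
            then Win130.aw ν 0 ρ else 0) else 0) := ENNReal.tsum_comm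
    _ ≤ ∑' π : List (Step d), ∑' y : Site d, (if lev u y = 1 - (H : ℤ) then
          (if Win130.Nat' u (1 - (H : ℤ)) 1 y π ∧ endp y π ∈ Win130.TE E y then
            Win130.aw ν y π * (fun v => μ (-v - z)) (endp y π) *
              ∑' ρ, (if ρ ∈ Win130.FH u (-(s : ℤ)) 1 0 y π then Win130.aw ν 0 ρ else 0)
            else 0) else 0) := by
        refine ENNReal.tsum_le_tsum fun π => ?_
        -- reindex `y = -endp π - (x + z)`
        have hre : ∀ f : Site d → ℝ≥0∞, ∑' y, f y = ∑' x, f (-endp 0 π - (x + z)) := fun f =>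
          (((Equiv.addRight z).trans (Equiv.subLeft (-endp 0 π))).tsum_eq f).symm
        refine le_trans (ENNReal.tsum_le_tsum fun x => ?_) (hre _).symm.le
        by_cases hc : lev u x = 0 ∧ IsUp u H π ∧ endp 0 π ∈ E
        swap
        · rw [if_neg hc]; exact zero_le
        rw [if_pos hc]
        obtain ⟨hx, hup, hE⟩ := hc
        set y : Site d := -endp 0 π - (x + z) with hy
        have hly : lev u y = 1 - (H : ℤ) := by
          rw [hy, sub_eq_add_neg, HW660.lev_add', HW660.lev_neg', HW660.lev_neg',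
            HW660.lev_add', hup.2, hx, hlz]; ring
        have hend : endp y π = y + endp 0 π := Flux566.endp_eq_add π y
        have hN : Win130.Nat' u (1 - (H : ℤ)) 1 y π := by
          constructor
          · intro w hw
            have hw' : w - y ∈ sitesL 0 π := by
              have := HW660.mem_sitesL_shift π 0 y w
              rw [zero_add] at this
              exact this.1 hw
            have h1 := hup.1 _ hw'
            have h2 := HW660.lev_add' u (w - y) y
            rw [sub_add_cancel] at h2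
            have h3 : Flux566.lev u w = lev u w := rfl
            rw [h3]
            constructor <;> omega
          · have h1 : lev u (endp y π) = 1 := by
              rw [hend, HW660.lev_add', hly, hup.2]; ring
            exact h1
        have hT : endp y π ∈ Win130.TE E y := by
          show endp y π - y ∈ E
          rw [hend, add_sub_cancel_left]; exact hE
        rw [if_pos hly, if_pos ⟨hN, hT⟩]
        have e1 : Win130.aw ν y π = aw ν π := by rw [Win130.aw_eq]; rfl
        have e2 : (fun v => μ (-v - z)) (endp y π) = μ x := by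
          show μ (-(endp y π) - z) = μ x
          rw [hend, hy]
          congr 1
          abel
        rw [e1, e2]
    _ = _ := by
        rw [ENNReal.tsum_comm]
        refine tsum_congr fun y => ?_
        by_cases hy : lev u y = 1 - (H : ℤ)
        · rw [if_pos (by exact hy)]
          exact tsum_congr fun π => by rw [if_pos hy]
        · rw [if_neg (by exact hy)]
          simp [hy]

end Crest.Agent.R154.E660
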