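import Crest.Agent.R154.W2c_742

/-! Row 154, T0219, ROAD 801 (helper742): E2 (912's literal: joint cuts, one common height `H`,
`X` local), with `C = 1`, `us s = annealed {Dip}`. -/

set_option autoImplicit false
set_option linter.unusedSectionVars false
set_option maxHeartbeats 1000000

open MeasureTheory ProbabilityTheory Crest.ProbabilityR.RandomEnvironment
open scoped ENNReal

namespace Crest.Agent.R154.W2742

open Crest.Agent.R154.Flux566 (lw endp sitesL)
open Crest.Agent.R154.NB28 (IsUp IsDn aw Cm)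
open Crest.Agent.R154.Flux132 (lev opp)

variable {d : ℕ}

open Classical in
/-- **E2** -/
theorem E2 (ν : Measure (Row d)) [IsProbabilityMeasure ν] (u : Step d) (s H : ℕ)
    (E : Finset (Site d)) (μ : Site d → ℝ≥0∞) (M lam : ℝ≥0∞) (hμ : ∑' x, μ x ≤ 1)
    (hM : ∀ x, μ x ≤ M) (hlam : lam ≠ 0) (hlam' : lam ≠ ⊤) :
    ∑' x, (if lev u x = 0 then μ x * ∑' π, ∑' γ, (if IsUp u H π ∧ endp 0 π ∈ E ∧ IsDn u H γ ∧
        (∃ k, k ∈ Cm u x π γ) ∧ (∀ k ∈ Cm u x π γ, s < k) then aw ν π * aw ν γ else 0) else 0)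
      ≤ lam + M * E.card * annealedProb (iidEnvironmentLaw ν) 0 (Us778.Dip u s) / lam := by
  set b : Site d := stepVec (opp u) with hb
  have hlevb : lev u b = -1 := by
    have h1 : b = - stepVec u := Flux566.stepVec_opp u
    have h2 : lev u (b + stepVec u) = lev u b + lev u (stepVec u) := lev_add u _ _
    have h3 : lev u (stepVec u) = 1 := Flux566.lev_self u
    have h4 : b + stepVec u = 0 := by rw [h1]; simp
    rw [h4, h3] at h2
    have h5 : lev u (0 : Site d) = 0 := Flux566.lev_zero u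
    rw [h5] at h2
    linarith
  set D : Site d → ℝ≥0∞ := fun z => if lev u (z - b) = 0 then μ (z - b) else 0 with hD
  have hDs : ∑' z, D z ≤ 1 := by
    have h1 := (Equiv.subRight b).tsum_eq (fun x => if lev u x = 0 then μ x else 0)
    simp only [Equiv.subRight_apply] at h1
    calc ∑' z, D z = ∑' x, (if lev u x = 0 then μ x else 0) := h1
      _ ≤ ∑' x, μ x := ENNReal.tsum_le_tsum fun x => by
          split_ifs
          · exact le_rfl
          · exact zero_le
      _ ≤ 1 := hμ
  have hDM : ∀ z, D z ≤ M := by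
    intro z
    simp only [hD]
    split_ifs
    · exact hM _
    · exact zero_le
  have hDl : ∀ z, D z ≠ 0 → lev u z = -1 := by
    intro z hz
    have h1 : lev u (z - b) = 0 := by
      by_contra h
      exact hz (if_neg h)
    have h2 := lev_add u (z - b) b
    rw [sub_add_cancel, h1, hlevb] at h2
    linarith
  have hW := W2 ν u H H s (-1) E D M lam hDM hDs hDl le_rfl hlam hlam'
  refine le_trans ?_ hW
  have h1 := (Equiv.addRight b).tsum_eq (fun z => D z * ∑' π, ∑' γ,
    (if IsUp u H π ∧ endp 0 π ∈ E ∧ IsDn u H γ ∧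
        (∃ y ∈ sitesL (-endp 0 π) π, y ∈ sitesL z γ) ∧
        (∀ y ∈ sitesL (-endp 0 π) π, y ∈ sitesL z γ → lev u y ≤ -1 - s)
        then aw ν π * aw ν γ else 0))
  rw [← h1]
  simp only [Equiv.coe_addRight]
  refine ENNReal.tsum_le_tsum fun x => ?_
  by_cases hx : lev u x = 0
  · rw [if_pos hx]
    have e1 : D (x + b) = μ x := by
      simp only [hD]
      rw [add_sub_cancel_right, if_pos hx]
    rw [e1]
    refine mul_le_mul_right (ENNReal.tsum_le_tsum fun π => ENNReal.tsum_le_tsum fun γ => ?_) _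
    by_cases hc : IsUp u H π ∧ endp 0 π ∈ E ∧ IsDn u H γ ∧
        (∃ k, k ∈ Cm u x π γ) ∧ (∀ k ∈ Cm u x π γ, s < k)
    · rw [if_pos hc]
      obtain ⟨h2, h3, h4, ⟨k, y, hy1, hy2, hy3⟩, h6⟩ := hc
      rw [if_pos]
      refine ⟨h2, h3, h4, ⟨y, hy1, hy2⟩, ?_⟩
      intro y' hy1' hy2'
      -- level of `y'` is negative
      have h7 : lev u y' < 0 := by
        have h8 := (Surg802.mem_sitesL_zero π (-endp 0 π) y').1 hy1'
        have h9 := (h2.1 _ h8).2
        have h10 : lev u (y' - -endp 0 π) = lev u y' + H := by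
          rw [sub_neg_eq_add, lev_add, h2.2]
        rw [h10] at h9
        linarith
      obtain ⟨m, hm⟩ : ∃ m : ℕ, lev u y' = -(m : ℤ) := ⟨(-lev u y').toNat, by
        rw [Int.toNat_of_nonneg (by linarith)]; ring⟩
      have h11 := h6 m ⟨y', hy1', hy2', hm⟩
      rw [hm]
      have : (s : ℤ) < m := by exact_mod_cast h11
      linarith
    · rw [if_neg hc]; exact zero_le
  · rw [if_neg hx]; exact zero_le

end Crest.Agent.R154.W2742
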