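import Crest.Agent.R154.WinD_546

/-! Row 154, road 801 (helper546): the one-window inequalities `win2` (X local) and `win3` (Y local). -/

set_option autoImplicit false

open MeasureTheory ProbabilityTheory Crest.ProbabilityR.RandomEnvironment
open scoped ENNReal Classical

namespace Crest.Agent.R154.Win546

open Flux566

variable {d : ℕ} (ν : Measure (Row d)) [IsProbabilityMeasure ν]

/-- **one window, X local** -/
theorem win2 {XX YY : Set (List (Step d))} (hXX : PF XX) (hYY : PF YY)
    (E : Finset (Site d)) (Dp : Set (Site d)) (DX : Site d → Set (List (Step d)))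
    (hDX : ∀ p r, p ++ r ∈ XX → r ∈ DX (endp 0 p)) (XS : Set (Site d)) (TT : Set (List (Step d)))
    (hTT : ∀ x ∈ XS, ∀ p r, r ≠ [] → p ++ r ∈ YY → endp x p ∈ Dp → ∀ δ ∈ DX (endp x p), p ++ δ ∈ TT)
    (μ : Site d → ℝ≥0∞) (M : ℝ≥0∞) (hM : ∀ z, μ z ≤ M) (h1 : ∑' z, μ z ≤ 1)
    {lam : ℝ≥0∞} (hl0 : lam ≠ 0) (hl1 : lam ≠ ⊤) :
    ∑' x, ∑' π, ∑' ρ, (if (x ∈ XS ∧ π ∈ XX ∧ endp 0 π ∈ E) ∧ ρ ∈ YY ∧ Hit Dp x 0 π ρ then
        μ (x - endp 0 π) * (aw ν π * aw ν ρ) else 0)
      ≤ lam + M * (lam⁻¹ * (E.card * ∑' t, (if t ∈ TT then aw ν t else 0))) := by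
  calc ∑' x, ∑' π, ∑' ρ, (if (x ∈ XS ∧ π ∈ XX ∧ endp 0 π ∈ E) ∧ ρ ∈ YY ∧ Hit Dp x 0 π ρ then
        μ (x - endp 0 π) * (aw ν π * aw ν ρ) else 0)
      ≤ ∑' x, ∑' π, (if x ∈ XS ∧ π ∈ XX ∧ endp 0 π ∈ E then μ (x - endp 0 π) *
          ∑' p, (if p ∈ HH YY Dp x 0 π then aw ν π * aw ν p else 0) else 0) := by
        refine ENNReal.tsum_le_tsum fun x => ENNReal.tsum_le_tsum fun π => ?_
        by_cases hc : x ∈ XS ∧ π ∈ XX ∧ endp 0 π ∈ E
        · rw [if_pos hc]
          calc ∑' ρ, (if (x ∈ XS ∧ π ∈ XX ∧ endp 0 π ∈ E) ∧ ρ ∈ YY ∧ Hit Dp x 0 π ρ then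
                μ (x - endp 0 π) * (aw ν π * aw ν ρ) else 0)
              = μ (x - endp 0 π) * ∑' ρ, (if ρ ∈ YY ∧ Hit Dp x 0 π ρ then
                  aw ν π * aw ν ρ else 0) := by
                rw [← ENNReal.tsum_mul_left]
                refine tsum_congr fun ρ => ?_
                simp only [hc, true_and, and_self]
                split_ifs <;> simp
            _ ≤ _ := by
                refine mul_le_mul_right ((inner_le Dp x 0 π (fun ρ => aw ν π * aw ν ρ)).trans ?_) _
                refine ENNReal.tsum_le_tsum fun p => ?_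
                by_cases hp : p ∈ HH YY Dp x 0 π
                · rw [if_pos hp, if_pos hp]
                  calc ∑' r, (if p ++ r ∈ YY then aw ν π * aw ν (p ++ r) else 0)
                      = aw ν π * ∑' r, (if p ++ r ∈ YY then aw ν (p ++ r) else 0) := by
                        rw [← ENNReal.tsum_mul_left]
                        refine tsum_congr fun r => ?_
                        split_ifs <;> simp
                    _ ≤ _ := mul_le_mul_right (aw_cont ν hYY p) _
                · rw [if_neg hp, if_neg hp]
        · rw [if_neg hc]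
          refine le_of_eq ?_
          rw [ENNReal.tsum_eq_zero]
          exact fun ρ => if_neg (fun h => hc h.1)
    _ = ∫⁻ ω, ∑' x, ∑' π, (if x ∈ XS ∧ π ∈ XX ∧ endp 0 π ∈ E then
        μ (x - endp 0 π) * (lw ω 0 π * ∑' p, (if p ∈ HH YY Dp x 0 π then lw ω x p else 0)) else 0)
        ∂(iidEnvironmentLaw ν) := by
        have hm : ∀ x π, Measurable fun ω : Environment d => ∑' p,
            (if p ∈ HH YY Dp x 0 π then lw ω x p else 0) := by
          intro x π
          refine Measurable.tsum fun p => ?_
          split_ifs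
          · exact measurable_lw _ _
          · exact measurable_const
        have hm2 : ∀ x π, Measurable fun ω : Environment d =>
            (if x ∈ XS ∧ π ∈ XX ∧ endp 0 π ∈ E then
            μ (x - endp 0 π) * (lw ω 0 π * ∑' p, (if p ∈ HH YY Dp x 0 π then lw ω x p else 0))
            else 0) := by
          intro x π
          split_ifs
          · exact ((measurable_lw 0 π).mul (hm x π)).const_mul _
          · exact measurable_const
        rw [lintegral_tsum (fun x => (Measurable.tsum fun π => hm2 x π).aemeasurable)]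
        refine tsum_congr fun x => ?_
        rw [lintegral_tsum (fun π => (hm2 x π).aemeasurable)]
        refine tsum_congr fun π => ?_
        split_ifs
        · have hmm : Measurable fun ω : Environment d => lw ω 0 π * ∑' p,
              (if p ∈ HH YY Dp x 0 π then lw ω x p else 0) := (measurable_lw 0 π).mul (hm x π)
          rw [lintegral_const_mul _ hmm]
          congr 1
          simp only [← ENNReal.tsum_mul_left]
          rw [lintegral_tsum]
          · refine tsum_congr fun p => ?_
            split_ifs with hp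
            · rw [aw_mul ν (x := 0) (y := x) (l := π) (l' := p) (fun z hz => HH_disj hp z hz)]
            · simp
          · intro p
            split_ifs
            · exact ((measurable_lw 0 π).mul (measurable_lw x p)).aemeasurable
            · simp
        · simp
    _ ≤ ∫⁻ ω, (lam + M * (lam⁻¹ * ∑' x, ∑' t, (if t ∈ TT ∧ x + endp 0 t ∈ E then lw ω x t else 0)))
        ∂(iidEnvironmentLaw ν) :=
        lintegral_mono fun ω => point2 ω hXX E Dp DX hDX XS TT hTT μ M hM h1 hl0 hl1
    _ ≤ _ := by
        have hm : Measurable fun ω : Environment d => ∑' x, ∑' t,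
            (if t ∈ TT ∧ x + endp 0 t ∈ E then lw ω x t else 0) := by
          refine Measurable.tsum fun x => Measurable.tsum fun p => ?_
          split_ifs
          · exact measurable_lw _ _
          · exact measurable_const
        rw [lintegral_add_left measurable_const, lintegral_const_mul _ (hm.const_mul _),
          lintegral_const_mul _ hm]
        refine add_le_add (by simp) (mul_le_mul_right (mul_le_mul_right ?_ _) _)
        exact trans_sum ν E TT (fun x z => x + z) (fun z => add_left_injective z) (fun x => x)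

end Crest.Agent.R154.Win546
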