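import Crest.Agent.R154.E3_934
import Crest.Agent.R154.WinE_546

/-! Row 154, ROAD 801, frame B (joint cuts), window inequality (2) for one common height (helper934):
912's `E2` in 28's letters, from 546's `win2`. -/

set_option autoImplicit false

open MeasureTheory ProbabilityTheory Crest.ProbabilityR.RandomEnvironment
open Crest.Agent.R154.Flux566 (lw endp sitesL endp_eq_add endp_append measurable_lw)
open Crest.Agent.R154.WordB956 (PF FH Vis exists_FH mem_sitesL lw_shift)
open Crest.Agent.R154.Flux132 (lev opp lev_add lev_neg lev_zero lev_step_self stepVec_opp)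
open Crest.Agent.R154.NB28 (IsUp IsDn Cm aw)
open scoped ENNReal

namespace Crest.Agent.R154.E934

variable {d : ℕ}

section E2

variable (ν : Measure (Row d)) [IsProbabilityMeasure ν] {u : Step d}

/-- return words -/
def TT2 (u : Step d) (s : ℕ) : Set (List (Step d)) :=
  {l | (∀ y ∈ sitesL 0 l, lev u y < 1) ∧ lev u (endp 0 l) = 1 ∧
    (∃ y ∈ sitesL 0 l, lev u y ≤ -(s : ℤ))}

/-- continuations of `X` -/
def DX2 (u : Step d) (H : ℕ) (v : Site d) : Set (List (Step d)) :=
  {δ | (∀ y ∈ sitesL v δ, lev u y < H) ∧ lev u (endp v δ) = H}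

lemma hDX2 (H : ℕ) (p r : List (Step d)) (h : p ++ r ∈ {π : List (Step d) | IsUp u H π}) :
    r ∈ DX2 u H (endp 0 p) := by
  refine ⟨fun y hy => ?_, ?_⟩
  · exact ((show IsUp u H (p ++ r) from h).1 y (by
      rw [WordB956.sitesL_append]; exact List.mem_append_right _ hy)).2
  · rw [← endp_append]; exact h.2

lemma hTT2 (H s : ℕ) (x : Site d) (hx : lev u x = (H : ℤ) - 1) (p r : List (Step d))
    (hpr : p ++ r ∈ {π : List (Step d) | IsDn u H π})
    (hD : endp x p ∈ {v : Site d | lev u v + s + 1 ≤ (H : ℤ)}) (δ : List (Step d))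
    (hδ : δ ∈ DX2 u H (endp x p)) : p ++ δ ∈ TT2 u s := by
  have hD' : lev u (endp x p) + s + 1 ≤ (H : ℤ) := hD
  rw [endp_eq_add, lev_add, hx] at hD'
  refine ⟨fun y hy => ?_, ?_, ?_⟩
  · rw [WordB956.sitesL_append, List.mem_append] at hy
    rcases hy with hy | hy
    · have := ((show IsDn u H (p ++ r) from hpr).1 y (by
        rw [WordB956.sitesL_append]; exact List.mem_append_left _ hy)).2
      omega
    · have h1 : y + x ∈ sitesL (endp x p) δ := by
        rw [mem_shift] at hy ⊢
        have : y + x - endp x p = y - endp 0 p := by rw [endp_eq_add p x]; abel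
        rwa [this]
      have := hδ.1 _ h1
      rw [lev_add] at this
      omega
  · have h1 := hδ.2
    rw [← endp_append, endp_eq_add, lev_add] at h1
    omega
  · refine ⟨endp 0 p, ?_, by omega⟩
    cases δ with
    | nil =>
      exfalso
      have h1 := hδ.2
      simp only [endp] at h1
      rw [endp_eq_add, lev_add] at h1
      omega
    | cons e t => exact mem_sitesL.2 ⟨p, e, t, rfl, rfl⟩

/-- the event of E2 gives the event of `win2` -/
lemma ev_of2 {H s : ℕ} {E : Finset (Site d)} {x : Site d} {π γ : List (Step d)}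
    (h : lev u (x - endp 0 π + stepVec u) = 0 ∧ IsUp u H π ∧ endp 0 π ∈ E ∧ IsDn u H γ ∧
      (∃ k, k ∈ Cm u (x - endp 0 π + stepVec u) π γ) ∧
      (∀ k ∈ Cm u (x - endp 0 π + stepVec u) π γ, s < k)) :
    (x ∈ {x : Site d | lev u x = (H : ℤ) - 1} ∧ π ∈ {π : List (Step d) | IsUp u H π} ∧
      endp 0 π ∈ E) ∧ γ ∈ {π : List (Step d) | IsDn u H π} ∧
      Win546.Hit {v : Site d | lev u v + s + 1 ≤ (H : ℤ)} x 0 π γ := by
  obtain ⟨h0, hπ, hE, hγ, ⟨k, y, hy1, hy2, _⟩, hall⟩ := h
  have hw : x - endp 0 π + stepVec u + stepVec (opp u) = x - endp 0 π := by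
    rw [stepVec_opp]; abel
  rw [hw] at hy2
  have hlx : lev u x = (H : ℤ) - 1 := by
    rw [lev_add, lev_sub, hπ.2, lev_step_self] at h0; omega
  refine ⟨⟨hlx, hπ, hE⟩, hγ, ?_⟩
  have c1 : y + endp 0 π ∈ sitesL 0 π := by
    rw [mem_shift] at hy1
    have : y - -endp 0 π = y + endp 0 π := by abel
    rwa [this] at hy1
  have c2 : y + endp 0 π ∈ sitesL x γ := by
    rw [mem_shift] at hy2 ⊢
    have : y - (x - endp 0 π) = y + endp 0 π - x := by abel
    rwa [this] at hy2
  obtain ⟨l1, e, l2, h5, h6⟩ := mem_sitesL.1 c2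
  obtain ⟨m1, m2, h7, h8, h9⟩ := Win934.exists_min
    (fun p : List (Step d) => endp x p ∈ sitesL 0 π) l1 (by rw [h6]; exact c1)
  have h10 : γ = m1 ++ (m2 ++ e :: l2) := by rw [h5, h7, List.append_assoc]
  have hne : m2 ++ e :: l2 ≠ [] := by simp
  -- the first hit is a common site
  have d2 : endp x m1 ∈ sitesL x γ := by
    cases hm : m2 ++ e :: l2 with
    | nil => exact absurd hm hne
    | cons e' r => exact mem_sitesL.2 ⟨m1, e', r, by rw [h10, hm], rfl⟩
  have d1 : endp x m1 ∈ sitesL 0 π := h8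
  have hlev := hπ.1 _ d1
  have hk : (H - (lev u (endp x m1)).toNat) ∈ Cm u (x - endp 0 π + stepVec u) π γ := by
    refine ⟨endp x m1 - endp 0 π, ?_, ?_, ?_⟩
    · rw [mem_shift]
      have : endp x m1 - endp 0 π - -endp 0 π = endp x m1 := by abel
      rwa [this]
    · rw [hw, mem_shift]
      have : endp x m1 - endp 0 π - (x - endp 0 π) = endp x m1 - x := by abel
      rw [this]
      exact (mem_shift γ x _).1 d2
    · rw [lev_sub, hπ.2]
      omega
  have := hall _ hk
  refine ⟨m1, m2 ++ e :: l2, h10, hne, ⟨h8, fun a b hab ha => ?_⟩, ?_⟩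
  · by_contra hb
    exact h9 a b hab hb ha
  · change lev u (endp x m1) + s + 1 ≤ (H : ℤ)
    omega

open Classical in
/-- **E2** (912's literal up to constants): `X` local, common height `H`. -/
theorem E2 (s H : ℕ) (E : Finset (Site d)) (μ : Site d → ℝ≥0∞) (M lam : ℝ≥0∞)
    (hμ1 : ∑' x, μ x ≤ 1) (hμM : ∀ x, μ x ≤ M) (hl0 : lam ≠ 0) (hl : lam ≠ ⊤) :
    ∑' x : Site d, (if lev u x = 0 then μ x * ∑' π : List (Step d), ∑' γ : List (Step d),
      (if IsUp u H π ∧ endp 0 π ∈ E ∧ IsDn u H γ ∧ (∃ k, k ∈ Cm u x π γ) ∧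
        (∀ k ∈ Cm u x π γ, s < k) then aw ν π * aw ν γ else 0) else 0)
      ≤ lam + M * (E.card * us ν u s) / lam := by
  set μ' : Site d → ℝ≥0∞ := fun y => μ (y + stepVec u) with hμ'
  have hμ'1 : ∑' z, μ' z ≤ 1 := by
    have : ∑' z, μ' z = ∑' z, μ z := (Equiv.addRight (stepVec u)).tsum_eq μ
    rw [this]; exact hμ1
  have key := Win546.win2 ν (XX := {π : List (Step d) | IsUp u H π})
    (YY := {π : List (Step d) | IsDn u H π}) (pf_up u H) (pf_dn u H) E
    {v : Site d | lev u v + s + 1 ≤ (H : ℤ)} (DX2 u H) (fun p r h => hDX2 H p r h)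
    {x : Site d | lev u x = (H : ℤ) - 1} (TT2 u s)
    (fun x hx p r _ hpr hD δ hδ => hTT2 H s x hx p r hpr hD δ hδ) μ' M (fun z => hμM _) hμ'1 hl0 hl
  have hus : (∑' t : List (Step d), (if t ∈ TT2 u s then Win546.aw ν t else 0)) = us ν u s := by
    unfold us
    refine tsum_congr fun t => ?_
    by_cases h : t ∈ TT2 u s
    · rw [if_pos h, if_pos (show (∀ y ∈ sitesL 0 t, lev u y < 1) ∧ lev u (endp 0 t) = 1 ∧
        (∃ y ∈ sitesL 0 t, lev u y ≤ -(s : ℤ)) from h)]
      rfl
    · rw [if_neg h, if_neg (show ¬ ((∀ y ∈ sitesL 0 t, lev u y < 1) ∧ lev u (endp 0 t) = 1 ∧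
        (∃ y ∈ sitesL 0 t, lev u y ≤ -(s : ℤ))) from h)]
  rw [hus] at key
  have hmono : lam + M * (lam⁻¹ * (E.card * us ν u s)) = lam + M * (E.card * us ν u s) / lam := by
    rw [div_eq_mul_inv]; ring
  rw [hmono] at key
  refine le_trans ?_ key
  set F : Site d → List (Step d) → List (Step d) → ℝ≥0∞ := fun w π γ =>
    if lev u w = 0 ∧ (IsUp u H π ∧ endp 0 π ∈ E ∧ IsDn u H γ ∧ (∃ k, k ∈ Cm u w π γ) ∧
        (∀ k ∈ Cm u w π γ, s < k)) then μ w * (aw ν π * aw ν γ) else 0 with hF
  calc _ = ∑' w : Site d, ∑' π : List (Step d), ∑' γ : List (Step d), F w π γ := by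
        refine tsum_congr fun w => ?_
        by_cases hw : lev u w = 0
        · rw [if_pos hw, ← ENNReal.tsum_mul_left]
          refine tsum_congr fun π => ?_
          rw [← ENNReal.tsum_mul_left]
          refine tsum_congr fun γ => ?_
          simp only [hF, hw, true_and]
          split_ifs <;> simp
        · rw [if_neg hw]
          simp [hF, hw]
    _ = ∑' π : List (Step d), ∑' w : Site d, ∑' γ : List (Step d), F w π γ := ENNReal.tsum_comm
    _ = ∑' π : List (Step d), ∑' x : Site d, ∑' γ : List (Step d),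
          F (x - endp 0 π + stepVec u) π γ := by
        refine tsum_congr fun π => ?_
        have h := ((Equiv.subRight (endp 0 π)).trans (Equiv.addRight (stepVec u))).tsum_eq
          (fun w : Site d => ∑' γ : List (Step d), F w π γ)
        exact h.symm
    _ = ∑' x : Site d, ∑' π : List (Step d), ∑' γ : List (Step d),
          F (x - endp 0 π + stepVec u) π γ := ENNReal.tsum_comm
    _ ≤ _ := by
        refine ENNReal.tsum_le_tsum fun x => ENNReal.tsum_le_tsum fun π =>
          ENNReal.tsum_le_tsum fun γ => ?_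
        simp only [hF]
        by_cases h : lev u (x - endp 0 π + stepVec u) = 0 ∧ IsUp u H π ∧ endp 0 π ∈ E ∧
            IsDn u H γ ∧ (∃ k, k ∈ Cm u (x - endp 0 π + stepVec u) π γ) ∧
            (∀ k ∈ Cm u (x - endp 0 π + stepVec u) π γ, s < k)
        · rw [if_pos h, if_pos (ev_of2 h)]
          exact le_rfl
        · rw [if_neg h]; exact zero_le

end E2

end Crest.Agent.R154.E934
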