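import Crest.Agent.R154.Kal_132
import Crest.Agent.R154.B2d_419
import Crest.Agent.R154.Flux1_132
import Crest.Agent.R154.Flux2_566

/-! Row 154, ROAD 801, leaf `u_s → 0` (helper475): the annealed probability that the walk climbs
naturally to height `s` and comes back to a level `≤ i0` tends to `0`, for every direction `u` with
`P(A_u) > 0`, in a merely elliptic iid environment (Kalikow's 0-1 law). -/

set_option autoImplicit false

namespace Crest.Agent.R154.Us475

open MeasureTheory ProbabilityTheory Crest.ProbabilityR.RandomEnvironment Crest.Agent.R154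
open Crest.Agent.R154.Flux132 Crest.Agent.R154.Kal132 Crest.Agent.R154.B2d
open Filter
open scoped ENNReal Topology

variable {d : ℕ}

/-- natural climb to height `s`, then a return to a level `≤ i0` -/
def Ret (u : Step d) (i0 : ℤ) (s : ℕ) : Set (Path d) :=
  {X | ∃ a, (∀ j, j ≤ a → 0 ≤ lev u (X j)) ∧ (s : ℤ) ≤ lev u (X a) ∧
    ∃ b, a ≤ b ∧ lev u (X b) ≤ i0}

lemma ret_anti (u : Step d) (i0 : ℤ) : Antitone (Ret u i0) := by
  intro s s' h X hX
  obtain ⟨a, h1, h2, h3⟩ := hX
  exact ⟨a, h1, le_trans (by exact_mod_cast h) h2, h3⟩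

lemma measurableSet_ret (u : Step d) (i0 : ℤ) (s : ℕ) : MeasurableSet (Ret u i0 s) := by
  have e : Ret u i0 s = ⋃ a : ℕ, ((⋂ j : ℕ, ⋂ (_ : j ≤ a), {X : Path d | lev u (X j) ∈ Set.Ici 0})
      ∩ {X : Path d | lev u (X a) ∈ Set.Ici (s : ℤ)}
      ∩ ⋃ b : ℕ, ⋃ (_ : a ≤ b), {X : Path d | lev u (X b) ∈ Set.Iic i0}) := by
    ext X
    simp [Ret, and_assoc]
  rw [e]
  refine MeasurableSet.iUnion fun a => ?_
  refine ((MeasurableSet.iInter fun j => MeasurableSet.iInter fun _ =>
    measurableSet_lev u j _).inter (measurableSet_lev u a _)).inter ?_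
  exact MeasurableSet.iUnion fun b => MeasurableSet.iUnion fun _ => measurableSet_lev u b _

lemma L_dirVec (u : Step d) (x : Site d) : L (dirVec u) x = (lev u x : ℝ) := by
  have h := sum_mul_dirVec (fun i => (x i : ℝ)) u
  unfold L lev
  rw [h]
  split_ifs <;> simp

lemma notMem_iInter (u : Step d) (i0 : ℤ) (X : Path d)
    (hX : X ∈ escapeEvent (dirVec u) ∨ X ∈ escapeEvent (-dirVec u)) :
    X ∉ ⋂ s, Ret u i0 s := by
  intro h
  rw [Set.mem_iInter] at h
  rcases hX with hX | hX
  · rw [mem_escape_iff] at hX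
    obtain ⟨T, hT⟩ := (tendsto_atTop.1 hX ((i0 : ℝ) + 1)).exists_forall_of_atTop
    -- the levels up to time `T` are bounded
    obtain ⟨M, hM⟩ : ∃ M : ℕ, ∀ j, j ≤ T → lev u (X j) < M := by
      induction T with
      | zero =>
        refine ⟨(lev u (X 0)).toNat + 1, fun j hj => ?_⟩
        obtain rfl : j = 0 := by omega
        have := Int.self_le_toNat (lev u (X 0))
        push_cast
        omega
      | succ T ih =>
        clear ih hT
        refine ⟨(Finset.range (T + 2)).sup (fun j => (lev u (X j)).toNat) + 1, fun j hj => ?_⟩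
        have h1 : (lev u (X j)).toNat ≤ (Finset.range (T + 2)).sup (fun j => (lev u (X j)).toNat) :=
          Finset.le_sup (f := fun j => (lev u (X j)).toNat) (Finset.mem_range.2 (by omega))
        have := Int.self_le_toNat (lev u (X j))
        push_cast
        omega
    obtain ⟨a, -, ha, b, hab, hb⟩ := h M
    have hTa : T < a := by
      by_contra hc
      have := hM a (by omega)
      omega
    have := hT b (by omega)
    rw [L_dirVec] at this
    have hb' : (lev u (X b) : ℝ) ≤ i0 := by exact_mod_cast hb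
    linarith
  · rw [mem_escape_iff] at hX
    obtain ⟨T, hT⟩ := (tendsto_atTop.1 hX 1).exists_forall_of_atTop
    have hT' := hT T le_rfl
    rw [L_neg, L_dirVec] at hT'
    have hlt : lev u (X T) < 0 := by
      have : (lev u (X T) : ℝ) < 0 := by linarith
      exact_mod_cast this
    -- a climb to a large height must pass time `T`
    obtain ⟨M, hM⟩ : ∃ M : ℕ, ∀ j, j ≤ T → lev u (X j) < M := by
      refine ⟨(Finset.range (T + 1)).sup (fun j => (lev u (X j)).toNat) + 1, fun j hj => ?_⟩
      have h1 : (lev u (X j)).toNat ≤ (Finset.range (T + 1)).sup (fun j => (lev u (X j)).toNat) :=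
        Finset.le_sup (f := fun j => (lev u (X j)).toNat) (Finset.mem_range.2 (by omega))
      have := Int.self_le_toNat (lev u (X j))
      push_cast
      omega
    obtain ⟨a, ha1, ha, -⟩ := h M
    have hTa : T < a := by
      by_contra hc
      have := hM a (by omega)
      omega
    have := ha1 T (by omega)
    omega

/-- **`u_s → 0`** -/
theorem us_tendsto (ν : Measure (Row d)) [IsProbabilityMeasure ν]
    (hν : ∀ᵐ p ∂ν, ∀ e : Step d, 0 < p.1 e) (u : Step d)
    (h : annealed (iidEnvironmentLaw ν) 0 (escapeEvent (dirVec u)) ≠ 0) (i0 : ℤ) :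
    Tendsto (fun s : ℕ => annealed (iidEnvironmentLaw ν) 0 (Ret u i0 s)) atTop (𝓝 0) := by
  have hk := kalikow_ae (Q561.iid_shift ν) (slabProp_iid ν hν) (dirVec u) (dirVec_ne_zero u)
    (retry_iid ν (dirVec u) (dirVec_ne_zero u)) h
  have h0 : annealed (iidEnvironmentLaw ν) 0 (⋂ s, Ret u i0 s) = 0 := by
    rw [measure_eq_zero_iff_ae_notMem]
    filter_upwards [hk] with X hX
    exact notMem_iInter u i0 X hX
  have h1 := tendsto_measure_iInter_atTop (μ := annealed (iidEnvironmentLaw ν) (0 : Site d))
    (s := Ret u i0) (fun s => (measurableSet_ret u i0 s).nullMeasurableSet) (ret_anti u i0)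
    ⟨0, measure_ne_top _ _⟩
  rw [h0] at h1
  exact h1

end Crest.Agent.R154.Us475
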