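import Crest.Agent.R154.NBDefs_28
import Crest.Agent.R154.Us_475

/-! Row 154, ROAD 801 (helper109): prefix-free word sums are path events; `u_s → 0` in words. -/

set_option autoImplicit false

namespace Crest.Agent.R154.Us109

open MeasureTheory ProbabilityTheory Crest.ProbabilityR.RandomEnvironment Crest.Agent.R154
open Crest.Agent.R154.Flux132 (lev opp)
open Crest.Agent.R154.Flux566 (lw endp sitesL Fol)
open Crest.Agent.R154.NB28
open Crest.Agent.R154.Kal132 Crest.Agent.R154.B2d
open Filter
open scoped ENNReal Topology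

variable {d : ℕ}

/-- prefix-free set of words -/
def PF (W : Set (List (Step d))) : Prop := ∀ l ∈ W, ∀ l' ∈ W, l <+: l' → l = l'

lemma fol_prefix (l : List (Step d)) : ∀ (l' : List (Step d)) (X : Path d),
    X ∈ Fol l Set.univ → X ∈ Fol l' Set.univ → l.length ≤ l'.length → l <+: l' := by
  induction l with
  | nil => intro l' X _ _ _; exact List.nil_prefix
  | cons e l ih =>
    intro l' X h1 h2 h3
    cases l' with
    | nil => simp at h3
    | cons e' l' =>
      obtain ⟨a1, a2⟩ := h1
      obtain ⟨b1, b2⟩ := h2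
      have he : e = e' := by
        have h4 : X 0 + stepVec e = X 0 + stepVec e' := by rw [← a1, ← b1]
        exact stepVec_injective (add_left_cancel h4)
      subst he
      have := ih l' (shift 1 X) a2 b2 (by simpa using h3)
      exact (List.prefix_cons_inj e).2 this

/-- the path at time `l.length` -/
lemma fol_end (l : List (Step d)) : ∀ (X : Path d), X ∈ Fol l Set.univ →
    X l.length = endp (X 0) l := by
  induction l with
  | nil => intro X _; rfl
  | cons e l ih =>
    intro X h
    obtain ⟨a1, a2⟩ := h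
    have := ih (shift 1 X) a2
    simp only [shift, add_zero] at this
    rw [List.length_cons, endp, Nat.add_comm, this, a1]

/-- sites of a followed word -/
lemma fol_sites (l : List (Step d)) : ∀ (X : Path d), X ∈ Fol l Set.univ →
    ∀ k, k < l.length → X k ∈ sitesL (X 0) l := by
  induction l with
  | nil => intro X _ k hk; simp at hk
  | cons e l ih =>
    intro X h k hk
    obtain ⟨a1, a2⟩ := h
    cases k with
    | zero => simp [sitesL]
    | succ k =>
      have := ih (shift 1 X) a2 k (by simpa using hk)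
      simp only [shift, add_zero] at this
      rw [Nat.add_comm 1 k, a1] at this
      simp only [sitesL]
      exact List.mem_cons_of_mem _ this

lemma fol_append (l1 l2 : List (Step d)) : ∀ (X : Path d), X ∈ Fol (l1 ++ l2) Set.univ →
    X ∈ Fol l1 Set.univ := by
  induction l1 with
  | nil => intro X _; exact Set.mem_univ _
  | cons e l ih =>
    intro X h
    obtain ⟨a1, a2⟩ := h
    exact ⟨a1, ih _ a2⟩

open Classical in
/-- **prefix-free word sums, quenched.** -/
theorem pf_sum_quenched (ω : Environment d) (x : Site d) (W : Set (List (Step d))) (hW : PF W)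
    (A : Set (Path d)) (h : ∀ l ∈ W, ∀ X : Path d, X 0 = x → X ∈ Fol l Set.univ → X ∈ A) :
    ∑' l, (if l ∈ W then lw ω x l else 0) ≤ quenchedLaw ω x A := by
  have hz : quenchedLaw ω x {X : Path d | X 0 = x}ᶜ = 0 := quenched_zero_eq ω x
  have h1 : ∀ l, (if l ∈ W then lw ω x l else 0)
      ≤ quenchedLaw ω x (if l ∈ W then Fol l Set.univ else ∅) := by
    intro l
    split_ifs with hl
    · have := Flux566.fol_ge ω l x (B := Set.univ) MeasurableSet.univ
      simpa using this
    · exact zero_le
  refine (ENNReal.tsum_le_tsum h1).trans ?_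
  rw [← measure_iUnion]
  · refine measure_mono_ae ?_
    filter_upwards [quenched_zero_eq ω x] with X hX hXU
    obtain ⟨l, hl⟩ := Set.mem_iUnion.1 hXU
    split_ifs at hl with hlW
    · exact h l hlW X hX hl
    · exact hl.elim
  · intro l l' hne
    rw [Function.onFun, Set.disjoint_left]
    intro X hX hX'
    split_ifs at hX with hl
    · split_ifs at hX' with hl'
      · rcases le_total l.length l'.length with hh | hh
        · exact hne (hW l hl l' hl' (fol_prefix l l' X hX hX' hh))
        · exact hne (hW l' hl' l hl (fol_prefix l' l X hX' hX hh)).symm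
      · exact hX'
    · exact hX
  · intro l
    split_ifs
    · exact Flux566.measurableSet_Fol l MeasurableSet.univ
    · exact MeasurableSet.empty

open Classical in
/-- **prefix-free word sums, annealed.** -/
theorem pf_sum_le (ν : Measure (Row d)) [IsProbabilityMeasure ν] (W : Set (List (Step d)))
    (hW : PF W) (A : Set (Path d)) (hA : MeasurableSet A)
    (h : ∀ l ∈ W, ∀ X : Path d, X 0 = 0 → X ∈ Fol l Set.univ → X ∈ A) :
    ∑' l, (if l ∈ W then aw ν l else 0) ≤ annealed (iidEnvironmentLaw ν) 0 A := by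
  rw [annealed_apply _ 0 hA]
  unfold annealedProb
  have h1 : ∀ l, (if l ∈ W then aw ν l else 0)
      = ∫⁻ ω, (if l ∈ W then lw ω 0 l else 0) ∂(iidEnvironmentLaw ν) := by
    intro l
    split_ifs
    · rfl
    · simp
  rw [tsum_congr h1, ← lintegral_tsum]
  · exact lintegral_mono fun ω => pf_sum_quenched ω 0 W hW A h
  · intro l
    split_ifs
    · exact (Flux566.measurable_lw 0 l).aemeasurable
    · exact measurable_const.aemeasurable

open Classical in
/-- a prefix-free set of words has total annealed weight `≤ 1` -/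
theorem pf_sum_le_one (ν : Measure (Row d)) [IsProbabilityMeasure ν] (W : Set (List (Step d)))
    (hW : PF W) : ∑' l, (if l ∈ W then aw ν l else 0) ≤ 1 :=
  (pf_sum_le ν W hW Set.univ MeasurableSet.univ fun _ _ _ _ _ => Set.mem_univ _).trans prob_le_one

/-! ### the return words -/

/-- natural in direction `v` until a height `≥ s`, and the end at a level `≤ i0` -/
def RetW (v : Step d) (i0 s : ℤ) : Set (List (Step d)) :=
  {l | (∃ l1 l2, l = l1 ++ l2 ∧ (∀ y ∈ sitesL 0 l1, 0 ≤ lev v y) ∧ s ≤ lev v (endp 0 l1)) ∧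
    lev v (endp 0 l) ≤ i0}

lemma retW_anti (v : Step d) (i0 : ℤ) {s s' : ℤ} (h : s ≤ s') :
    RetW (d := d) v i0 s' ⊆ RetW v i0 s := by
  rintro l ⟨⟨l1, l2, h1, h2, h3⟩, h4⟩
  exact ⟨⟨l1, l2, h1, h2, h.trans h3⟩, h4⟩

lemma retW_path (v : Step d) (i0 : ℤ) (s : ℕ) (l : List (Step d)) (hl : l ∈ RetW v i0 s)
    (X : Path d) (h0 : X 0 = 0) (hX : X ∈ Fol l Set.univ) : X ∈ Us475.Ret v i0 s := by
  obtain ⟨⟨l1, l2, h1, h2, h3⟩, h4⟩ := hl
  have hX1 : X ∈ Fol l1 Set.univ := fol_append l1 l2 X (h1 ▸ hX)
  have e1 : X l1.length = endp 0 l1 := by rw [fol_end l1 X hX1, h0]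
  have e2 : X l.length = endp 0 l := by rw [fol_end l X hX, h0]
  refine ⟨l1.length, fun j hj => ?_, by rw [e1]; exact h3, l.length, by rw [h1]; simp,
    by rw [e2]; exact h4⟩
  rcases lt_or_eq_of_le hj with hj | hj
  · have := fol_sites l1 X hX1 j hj
    rw [h0] at this
    exact h2 _ this
  · rw [hj, e1]
    exact le_trans (by positivity) h3

open Classical in
/-- **`u_s → 0` in words, path form** -/
theorem ret_le (ν : Measure (Row d)) [IsProbabilityMeasure ν] (v : Step d) (i0 : ℤ) (s : ℕ)
    (W : Set (List (Step d))) (hW : PF W) (hs : W ⊆ RetW v i0 s) :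
    ∑' l, (if l ∈ W then aw ν l else 0)
      ≤ annealed (iidEnvironmentLaw ν) 0 (Us475.Ret v i0 s) :=
  pf_sum_le ν W hW _ (Us475.measurableSet_ret v i0 s) fun l hl X h0 hX =>
    retW_path v i0 s l (hs hl) X h0 hX

open Classical in
/-- **`u_s → 0` in words.** -/
theorem us_zero (ν : Measure (Row d)) [IsProbabilityMeasure ν]
    (hν : ∀ᵐ p ∂ν, ∀ e : Step d, 0 < p.1 e) (v : Step d)
    (h : annealed (iidEnvironmentLaw ν) 0 (escapeEvent (B2d.dirVec v)) ≠ 0) (i0 : ℤ)
    (ε : ℝ≥0∞) (hε : ε ≠ 0) :
    ∃ s0 : ℕ, ∀ s : ℕ, s0 ≤ s → ∀ W : Set (List (Step d)), PF W → W ⊆ RetW v i0 s →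
      ∑' l, (if l ∈ W then aw ν l else 0) ≤ ε := by
  have h1 := Us475.us_tendsto ν hν v h i0
  have h2 := h1.eventually_le_const (pos_iff_ne_zero.2 hε)
  obtain ⟨s0, hs0⟩ := eventually_atTop.1 h2
  exact ⟨s0, fun s hs W hW hWR => (ret_le ν v i0 s W hW hWR).trans (hs0 s hs)⟩

end Crest.Agent.R154.Us109
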