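import Crest.Agent.R154.FluxDefs_566

/-! Row 154, block B5 = FLUX (helper566): the flux identity and its consequences. -/

set_option autoImplicit false

open MeasureTheory ProbabilityTheory Crest.ProbabilityR.RandomEnvironment
open scoped ENNReal

namespace Crest.Agent.R154.Flux566

variable {d : ℕ}

/-! ### levels -/

lemma lev_add (e0 : Step d) (x y : Site d) : lev e0 (x + y) = lev e0 x + lev e0 y := by
  unfold lev; split_ifs <;> simp; ring

lemma lev_neg (e0 : Step d) (x : Site d) : lev e0 (-x) = - lev e0 x := by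
  unfold lev; split_ifs <;> simp

lemma lev_zero (e0 : Step d) : lev e0 0 = 0 := by unfold lev; simp

lemma lev_self (e0 : Step d) : lev e0 (stepVec e0) = 1 := by
  unfold lev stepVec
  split_ifs with h <;> simp

lemma abs_lev_stepVec (e0 e : Step d) : |lev e0 (stepVec e)| ≤ 1 := by
  unfold lev stepVec
  by_cases h : e0.1 = e.1
  · rw [h]
    split_ifs <;> simp
  · rw [Pi.single_eq_of_ne h]; split_ifs <;> simp

lemma lev_real (e0 : Step d) (x : Site d) : ∑ i, (x i : ℝ) * dir e0 i = (lev e0 x : ℝ) := by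
  unfold dir lev stepVec
  rw [Finset.sum_eq_single e0.1]
  · simp only [Pi.single_eq_same]
    split_ifs <;> simp
  · intro i _ hi
    rw [Pi.single_eq_of_ne hi]; simp
  · intro h; exact absurd (Finset.mem_univ _) h

/-! ### measurability -/

lemma agree_firstAt (e0 : Step d) (n : ℤ) (z : Site d) (k : ℕ) (X Y : Path d)
    (h : Agree k X Y) : X ∈ firstAt e0 n z k ↔ Y ∈ firstAt e0 n z k := by
  have h2 : ∀ X Y : Path d, Agree k X Y → X ∈ firstAt e0 n z k → Y ∈ firstAt e0 n z k := by
    rintro X Y h ⟨h1, h2⟩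
    exact ⟨by rw [← h k le_rfl, h1], fun j hj => by rw [← h j hj.le]; exact h2 j hj⟩
  exact ⟨h2 X Y h, h2 Y X h.symm⟩

lemma measurableSet_firstAt (e0 : Step d) (n : ℤ) (z : Site d) (k : ℕ) :
    MeasurableSet (firstAt e0 n z k) :=
  measurableSet_of_agree k _ fun X Y h => agree_firstAt e0 n z k X Y h

lemma measurableSet_reach (e0 : Step d) (n : ℤ) (z : Site d) : MeasurableSet (reach e0 n z) :=
  MeasurableSet.iUnion fun k => measurableSet_firstAt e0 n z k

lemma measurable_levX (e0 : Step d) (k : ℕ) : Measurable fun X : Path d => lev e0 (X k) :=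
  (measurable_of_countable (lev e0)).comp (measurable_pi_apply k)

lemma measurableSet_Down (e0 : Step d) : MeasurableSet (Down e0) := by
  have : Down e0 = ⋂ k, {X : Path d | lev e0 (X k) ≤ lev e0 (X 0)} := by
    ext X; simp [Down]
  rw [this]
  exact MeasurableSet.iInter fun k =>
    measurableSet_le (measurable_levX e0 k) (measurable_levX e0 0)

lemma measurableSet_maxIs (e0 : Step d) (n : ℤ) : MeasurableSet (maxIs e0 n) := by
  have : maxIs e0 n = (⋃ k, {X : Path d | lev e0 (X k) = n}) ∩
      ⋂ k, {X : Path d | lev e0 (X k) ≤ n} := by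
    ext X; simp [maxIs]
  rw [this]
  exact (MeasurableSet.iUnion fun k => measurable_levX e0 k (measurableSet_singleton n)).inter
    (MeasurableSet.iInter fun k => measurable_levX e0 k measurableSet_Iic)

lemma measurableSet_latFar (e0 : Step d) (n : ℤ) (s : ℕ) : MeasurableSet (latFar e0 n s) := by
  have : latFar e0 n s = ⋃ k : ℕ, {X : Path d | lev e0 (X k) = n ∧
      (∀ j < k, lev e0 (X j) < n) ∧ ∃ i, i ≠ e0.1 ∧ (s : ℤ) < |X k i|} := by
    ext X; simp [latFar]
  rw [this]
  refine MeasurableSet.iUnion fun k => measurableSet_of_agree k _ ?_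
  have h2 : ∀ X Y : Path d, Agree k X Y → X ∈ {X : Path d | lev e0 (X k) = n ∧
      (∀ j < k, lev e0 (X j) < n) ∧ ∃ i, i ≠ e0.1 ∧ (s : ℤ) < |X k i|} →
      Y ∈ {X : Path d | lev e0 (X k) = n ∧
      (∀ j < k, lev e0 (X j) < n) ∧ ∃ i, i ≠ e0.1 ∧ (s : ℤ) < |X k i|} := by
    rintro X Y h ⟨h1, h2, i, h3, h4⟩
    exact ⟨by rw [← h k le_rfl, h1], fun j hj => by rw [← h j hj.le]; exact h2 j hj,
      i, h3, by rw [← h k le_rfl]; exact h4⟩
  exact fun X Y h => ⟨h2 X Y h, h2 Y X h.symm⟩

/-! ### the flux inequality, quenched -/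

lemma firstAt_unique (e0 : Step d) (n : ℤ) {z z' : Site d} (hz : lev e0 z = n)
    (hz' : lev e0 z' = n) {k k' : ℕ} {X : Path d} (h : X ∈ firstAt e0 n z k)
    (h' : X ∈ firstAt e0 n z' k') : k = k' ∧ z = z' := by
  have hk : k = k' := by
    rcases lt_trichotomy k k' with hlt | heq | hlt
    · have := h'.2 k hlt
      rw [h.1, hz] at this; exact absurd this (lt_irrefl _)
    · exact heq
    · have := h.2 k' hlt
      rw [h'.1, hz'] at this; exact absurd this (lt_irrefl _)
  subst hk
  exact ⟨rfl, by rw [← h.1, h'.1]⟩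

lemma quenched_firstAt_inter (e0 : Step d) (n : ℤ) (ω : Environment d) (x z : Site d) (k : ℕ)
    {B : Set (Path d)} (hB : MeasurableSet B) :
    quenchedLaw ω x (firstAt e0 n z k ∩ shift k ⁻¹' B)
      = quenchedLaw ω x (firstAt e0 n z k) * quenchedLaw ω z B := by
  rw [markov_event ω x k (fun X Y h => agree_firstAt e0 n z k X Y h) hB]
  rw [setLIntegral_congr_fun (g := fun _ => quenchedLaw ω z B) (measurableSet_firstAt e0 n z k)
    (fun X hX => by rw [hX.1])]
  rw [setLIntegral_const, mul_comm]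

/-- the general quenched flux inequality -/
lemma flux_le (e0 : Step d) (n N : ℤ) (hnN : n ≤ N) (ω : Environment d) (x : Site d)
    (B : Site d → Set (Path d)) (hBm : ∀ z, MeasurableSet (B z))
    (hB : ∀ z, lev e0 z = n → ∀ X ∈ B z, (∀ j, lev e0 (X j) ≤ N) ∧ ∃ j, lev e0 (X j) = N) :
    ∑' z : {z : Site d // lev e0 z = n}, quenchedLaw ω x (reach e0 n z.1) * quenchedLaw ω z.1 (B z.1)
      ≤ quenchedLaw ω x (maxIs e0 N) := by
  have h1 : ∀ z : {z : Site d // lev e0 z = n},
      quenchedLaw ω x (reach e0 n z.1) * quenchedLaw ω z.1 (B z.1)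
        = ∑' k : ℕ, quenchedLaw ω x (firstAt e0 n z.1 k ∩ shift k ⁻¹' B z.1) := by
    intro z
    simp_rw [quenched_firstAt_inter e0 n ω x z.1 _ (hBm z.1)]
    rw [ENNReal.tsum_mul_right, reach, measure_iUnion]
    · intro k k' hkk'
      rw [Function.onFun, Set.disjoint_left]
      intro X hX hX'
      exact hkk' (firstAt_unique e0 n z.2 z.2 hX hX').1
    · exact fun k => measurableSet_firstAt e0 n z.1 k
  simp_rw [h1]
  rw [← ENNReal.tsum_prod (f := fun (z : {z : Site d // lev e0 z = n}) (k : ℕ) =>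
    quenchedLaw ω x (firstAt e0 n z.1 k ∩ shift k ⁻¹' B z.1)), ← measure_iUnion]
  · refine measure_mono ?_
    intro X hX
    rw [Set.mem_iUnion] at hX
    obtain ⟨⟨⟨z, hz⟩, k⟩, hX1, hX2⟩ := hX
    simp only at hX1 hX2 hz
    obtain ⟨h3, j, h4⟩ := hB z hz _ hX2
    refine ⟨⟨k + j, h4⟩, fun i => ?_⟩
    rcases Nat.lt_or_ge i k with hi | hi
    · exact (hX1.2 i hi).le.trans hnN
    · obtain ⟨i', rfl⟩ := Nat.exists_eq_add_of_le hi
      exact h3 i'
  · rintro ⟨⟨z, hz⟩, k⟩ ⟨⟨z', hz'⟩, k'⟩ hne
    rw [Function.onFun, Set.disjoint_left]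
    rintro X ⟨hX, _⟩ ⟨hX', _⟩
    obtain ⟨h5, h6⟩ := firstAt_unique e0 n hz hz' hX hX'
    apply hne
    subst h5 h6
    rfl
  · rintro ⟨⟨z, hz⟩, k⟩
    exact (measurableSet_firstAt e0 n z k).inter (measurable_shift k (hBm z))

/-- the masses of the maxima sum to at most one -/
lemma tsum_maxIs_le (e0 : Step d) (Q : Measure (Environment d)) [IsProbabilityMeasure Q] :
    ∑' n : ℕ, annealedProb Q 0 (maxIs e0 n) ≤ 1 := by
  unfold annealedProb
  rw [← lintegral_tsum (f := fun (n : ℕ) (ω : Environment d) =>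
    quenchedLaw ω 0 (maxIs e0 (n : ℤ))) fun n =>
    (measurable_quenched_apply 0 (measurableSet_maxIs e0 n)).aemeasurable]
  calc ∫⁻ ω, ∑' n : ℕ, quenchedLaw ω 0 (maxIs e0 n) ∂Q ≤ ∫⁻ _, 1 ∂Q := by
        refine lintegral_mono fun ω => ?_
        rw [← measure_iUnion]
        · exact prob_le_one
        · intro n m hnm
          rw [Function.onFun, Set.disjoint_left]
          rintro X ⟨⟨k, hk⟩, h1⟩ ⟨⟨k', hk'⟩, h1'⟩
          have a := h1 k'
          have b := h1' k
          apply hnm
          have : (n : ℤ) = m := le_antisymm (by rw [← hk]; exact b) (by rw [← hk']; exact a)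
          exact_mod_cast this
        · exact fun n => measurableSet_maxIs e0 n
    _ = 1 := by simp

/-! ### translation -/

/-- flux into the origin from `-z` -/
lemma reach_shift (e0 : Step d) (n : ℤ) (z : Site d) (hz : lev e0 z = n) (ω : Environment d) :
    quenchedLaw ω 0 (reach e0 n z) = quenchedLaw (shiftEnv z ω) (-z) (reach e0 0 0) := by
  have h := Q561.quenched_shift_apply z ω (-z) (measurableSet_reach e0 n z)
  rw [neg_add_cancel] at h
  rw [h]
  congr 1
  ext X
  simp only [reach, firstAt, Q561.tr, Set.mem_preimage, Set.mem_iUnion, Set.mem_ofPred_eq,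
    lev_add, hz]
  refine exists_congr fun k => ?_
  constructor
  · rintro ⟨h1, h2⟩
    exact ⟨by simpa using h1, fun j hj => by have := h2 j hj; omega⟩
  · rintro ⟨h1, h2⟩
    exact ⟨by simpa using h1, fun j hj => by have := h2 j hj; omega⟩

lemma qdn_shift (e0 : Step d) (z y : Site d) (ω : Environment d) :
    qdn e0 ω (y + z) = qdn e0 (shiftEnv z ω) y := by
  unfold qdn
  rw [Q561.quenched_shift_apply z ω y (measurableSet_Down e0)]
  congr 1
  ext X
  simp only [Down, Q561.tr, Set.mem_preimage, Set.mem_ofPred_eq, lev_add]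
  exact forall_congr' fun k => by constructor <;> intro h <;> omega

/-- the finite set of sites of level `n` and lateral distance at most `s` -/
noncomputable def latBox (e0 : Step d) (n : ℤ) (s : ℕ) : Finset (Site d) :=
  (Fintype.piFinset fun i => if i = e0.1 then {if e0.2 then n else -n} else Finset.Icc (-(s : ℤ)) s)

lemma mem_latBox (e0 : Step d) (n : ℤ) (s : ℕ) (z : Site d) :
    z ∈ latBox e0 n s ↔ lev e0 z = n ∧ ∀ i, i ≠ e0.1 → |z i| ≤ s := by
  classical
  rw [latBox, Fintype.mem_piFinset]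
  constructor
  · intro h
    constructor
    · have := h e0.1
      rw [if_pos rfl, Finset.mem_singleton] at this
      unfold lev
      rw [this]
      split_ifs <;> simp
    · intro i hi
      have := h i
      rw [if_neg hi, Finset.mem_Icc] at this
      exact abs_le.2 this
  · rintro ⟨h1, h2⟩ i
    by_cases hi : i = e0.1
    · subst hi
      rw [if_pos rfl, Finset.mem_singleton, ← h1]
      unfold lev
      split_ifs <;> simp
    · rw [if_neg hi, Finset.mem_Icc]
      exact abs_le.1 (h2 i hi)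

lemma card_latBox (e0 : Step d) (n : ℤ) (s : ℕ) : (latBox e0 n s).card ≤ (2 * s + 1) ^ d := by
  classical
  rw [latBox, Fintype.card_piFinset]
  calc ∏ i : Fin d, (if i = e0.1 then {if e0.2 then n else -n} else Finset.Icc (-(s : ℤ)) s).card
      ≤ ∏ _i : Fin d, (2 * s + 1) := by
        refine Finset.prod_le_prod' fun i _ => ?_
        by_cases h : i = e0.1
        · rw [if_pos h]; simp
        · rw [if_neg h, Int.card_Icc]; omega
    _ = (2 * s + 1) ^ d := by simp

/-- number (flux) of starting sites in the box at depth `n` whose walk first enters level `0` at the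
origin -/
noncomputable def aflux (e0 : Step d) (n : ℕ) (s : ℕ) (ω : Environment d) : ℝ≥0∞ :=
  ∑ z ∈ latBox e0 n s, quenchedLaw ω (-z) (reach e0 0 0)

lemma aflux_le (e0 : Step d) (n : ℕ) (s : ℕ) (ω : Environment d) :
    aflux e0 n s ω ≤ ((2 * s + 1) ^ d : ℕ) := by
  calc aflux e0 n s ω ≤ ∑ _z ∈ latBox e0 n s, 1 := Finset.sum_le_sum fun z _ => prob_le_one
    _ = ((latBox e0 n s).card : ℝ≥0∞) := by simp
    _ ≤ _ := by exact_mod_cast card_latBox e0 n s

lemma measurable_aflux (e0 : Step d) (n : ℕ) (s : ℕ) : Measurable (aflux (d := d) e0 n s) :=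
  Finset.measurable_sum _ fun z _ => measurable_quenched_apply _ (measurableSet_reach e0 0 0)

/-- transport: the flux through level `n`, weighted by a function of the environment seen from the
entrance point, equals the flux into the origin. -/
lemma flux_transport (e0 : Step d) (Q : Measure (Environment d))
    (hstat : ∀ z : Site d, MeasurePreserving (shiftEnv z) Q Q) (n s : ℕ)
    (g : Environment d → ℝ≥0∞) (hg : Measurable g) :
    ∫⁻ ω, aflux e0 n s ω * g ω ∂Q
      = ∑ z ∈ latBox e0 n s, ∫⁻ ω, quenchedLaw ω 0 (reach e0 n z) * g (shiftEnv z ω) ∂Q := by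
  unfold aflux
  simp_rw [Finset.sum_mul]
  rw [lintegral_finsetSum (latBox e0 n s)
    (f := fun (z : Site d) (ω : Environment d) => quenchedLaw ω (-z) (reach e0 0 0) * g ω)
    (fun z _ => (measurable_quenched_apply _ (measurableSet_reach e0 0 0)).mul hg)]
  refine Finset.sum_congr rfl fun z hz => ?_
  have hz' := ((mem_latBox e0 n s z).1 hz).1
  have hm : Measurable fun ω : Environment d => quenchedLaw ω (-z) (reach e0 0 0) * g ω :=
    (measurable_quenched_apply (-z) (measurableSet_reach e0 0 0)).mul hg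
  rw [← (hstat z).lintegral_comp hm]
  refine lintegral_congr fun ω => ?_
  rw [reach_shift e0 n z hz' ω]

end Crest.Agent.R154.Flux566
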