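import Crest.Agent.R154.Kal_132
import Crest.Agent.R154.Flux_566

/-! Row 154, T0219, ROAD 801, leaf [E] (helper778): `u_s → 0`.
Annealed probability of {the walk goes `s` below its starting level and returns to it} tends to `0`
as soon as one of the two opposite escapes has positive probability (Kalikow). -/

set_option autoImplicit false

open MeasureTheory ProbabilityTheory Crest.ProbabilityR.RandomEnvironment
open Filter
open scoped ENNReal Topology

namespace Crest.Agent.R154.Us778

variable {d : ℕ}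

open Flux566 in
/-- the walk goes `s` below the level `0` and is at a level `≥ 0` at a later time -/
def Dip (e0 : Step d) (s : ℕ) : Set (Path d) :=
  {X | ∃ j k, j ≤ k ∧ Flux566.lev e0 (X j) ≤ -(s : ℤ) ∧ 0 ≤ Flux566.lev e0 (X k)}

/-- the walk goes `s` above the level `0` and is at a level `≤ 0` at a later time -/
def Bump (e0 : Step d) (s : ℕ) : Set (Path d) :=
  {X | ∃ j k, j ≤ k ∧ (s : ℤ) ≤ Flux566.lev e0 (X j) ∧ Flux566.lev e0 (X k) ≤ 0}

lemma measurableSet_Dip (e0 : Step d) (s : ℕ) : MeasurableSet (Dip e0 s) := by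
  have : Dip e0 s = ⋃ j, ⋃ k, ⋃ _ : j ≤ k,
      ({X : Path d | Flux566.lev e0 (X j) ≤ -(s : ℤ)} ∩ {X | 0 ≤ Flux566.lev e0 (X k)}) := by
    ext X
    simp only [Dip, Set.mem_ofPred_eq, Set.mem_iUnion, Set.mem_inter_iff, exists_prop]
  rw [this]
  exact MeasurableSet.iUnion fun j => MeasurableSet.iUnion fun k => MeasurableSet.iUnion fun _ =>
    ((Flux566.measurable_levX e0 j) (measurableSet_Iic (a := -(s : ℤ)))).inter
      ((Flux566.measurable_levX e0 k) (measurableSet_Ici (a := (0 : ℤ))))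

lemma measurableSet_Bump (e0 : Step d) (s : ℕ) : MeasurableSet (Bump e0 s) := by
  have : Bump e0 s = ⋃ j, ⋃ k, ⋃ _ : j ≤ k,
      ({X : Path d | (s : ℤ) ≤ Flux566.lev e0 (X j)} ∩ {X | Flux566.lev e0 (X k) ≤ 0}) := by
    ext X
    simp only [Bump, Set.mem_ofPred_eq, Set.mem_iUnion, Set.mem_inter_iff, exists_prop]
  rw [this]
  exact MeasurableSet.iUnion fun j => MeasurableSet.iUnion fun k => MeasurableSet.iUnion fun _ =>
    ((Flux566.measurable_levX e0 j) (measurableSet_Ici (a := (s : ℤ)))).inter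
      ((Flux566.measurable_levX e0 k) (measurableSet_Iic (a := (0 : ℤ))))

lemma Dip_anti (e0 : Step d) : Antitone (Dip e0) := by
  intro s t hst X hX
  obtain ⟨j, k, hjk, h1, h2⟩ := hX
  exact ⟨j, k, hjk, h1.trans (by omega), h2⟩

lemma Bump_anti (e0 : Step d) : Antitone (Bump e0) := by
  intro s t hst X hX
  obtain ⟨j, k, hjk, h1, h2⟩ := hX
  exact ⟨j, k, hjk, le_trans (by omega) h1, h2⟩

/-- a real sequence tending to `+∞` or to `-∞` does not oscillate -/
lemma not_osc (f : ℕ → ℤ) (hf : Tendsto (fun n => (f n : ℝ)) atTop atTop ∨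
    Tendsto (fun n => (f n : ℝ)) atTop atBot) :
    ∃ s : ℕ, ¬ ∃ j k, j ≤ k ∧ f j ≤ -(s : ℤ) ∧ 0 ≤ f k := by
  rcases hf with h | h
  · -- bounded below
    have h1 : Tendsto (fun n => (f n : ℝ)) cofinite atTop := by
      rw [Nat.cofinite_eq_atTop]; exact h
    obtain ⟨n, hn⟩ := h1.exists_forall_le
    refine ⟨(f n).natAbs + 1, ?_⟩
    rintro ⟨j, k, _, h2, _⟩
    have h3 : (f n : ℝ) ≤ (f j : ℝ) := hn j
    have h4 : f n ≤ f j := by exact_mod_cast h3
    omega
  · -- finitely many times at a level `≥ 0`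
    obtain ⟨N, hN⟩ := eventually_atTop.1 (h.eventually_lt_atBot 0)
    have hb : ∃ M : ℕ, ∀ j, j < N → -(M : ℤ) < f j := by
      induction N with
      | zero => exact ⟨0, fun j hj => absurd hj (by omega)⟩
      | succ N _ =>
        clear hN
        induction (N + 1) with
        | zero => exact ⟨0, fun j hj => absurd hj (by omega)⟩
        | succ K ih =>
          obtain ⟨M, hM⟩ := ih
          refine ⟨max M ((f K).natAbs + 1), fun j hj => ?_⟩
          rcases Nat.lt_succ_iff_lt_or_eq.1 hj with h5 | h5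
          · have := hM j h5
            have h6 : (M : ℤ) ≤ ((max M ((f K).natAbs + 1) : ℕ) : ℤ) := by
              exact_mod_cast le_max_left _ _
            omega
          · subst h5
            have h6 : (((f j).natAbs + 1 : ℕ) : ℤ) ≤ ((max M ((f j).natAbs + 1) : ℕ) : ℤ) := by
              exact_mod_cast le_max_right _ _
            omega
    obtain ⟨M, hM⟩ := hb
    refine ⟨M, ?_⟩
    rintro ⟨j, k, hjk, h2, h3⟩
    have hkN : k < N := by
      by_contra hcon
      have := hN k (by omega)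
      have h4 : (0 : ℝ) ≤ (f k : ℝ) := by exact_mod_cast h3
      linarith
    have := hM j (by omega)
    omega

lemma ae_tends (ν : Measure (Row d)) [IsProbabilityMeasure ν]
    (hν : ∀ᵐ p ∂ν, ∀ e : Step d, 0 < p.1 e) (e0 : Step d)
    (h : annealedProb (iidEnvironmentLaw ν) 0 (escapeEvent (Flux566.dir e0)) ≠ 0) :
    ∀ᵐ X ∂annealed (iidEnvironmentLaw ν) 0,
      Tendsto (fun n => (Flux566.lev e0 (X n) : ℝ)) atTop atTop ∨
      Tendsto (fun n => (Flux566.lev e0 (X n) : ℝ)) atTop atBot := by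
  have hne : Flux566.dir e0 ≠ 0 := by
    intro h0
    have h1 := Flux566.lev_real e0 (stepVec e0)
    rw [h0, Flux566.lev_self] at h1
    simp at h1
  have hL : ∀ x : Site d, Kal132.L (Flux566.dir e0) x = (Flux566.lev e0 x : ℝ) := fun x =>
    Flux566.lev_real e0 x
  rw [← annealed_apply _ 0 (Kal132.measurableSet_escape (Flux566.dir e0))] at h
  filter_upwards [Kal132.kalikow_ae (Q561.iid_shift ν) (Kal132.slabProp_iid ν hν)
    (Flux566.dir e0) hne (Kal132.retry_iid ν (Flux566.dir e0) hne) h] with X hX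
  rcases hX with hX | hX
  · left
    rw [Kal132.mem_escape_iff] at hX
    simpa only [hL] using hX
  · right
    rw [Kal132.mem_escape_iff] at hX
    have h2 : Tendsto (fun n => - (Flux566.lev e0 (X n) : ℝ)) atTop atTop := by
      have : (fun n => Kal132.L (-Flux566.dir e0) (X n))
          = fun n => - (Flux566.lev e0 (X n) : ℝ) := by
        funext n; rw [Kal132.L_neg, hL]
      rw [this] at hX
      exact hX
    have h3 := tendsto_neg_atTop_atBot.comp h2
    simpa only [Function.comp_def, neg_neg] using h3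

/-- **`u_s → 0`** (annealed measure form). -/
theorem dip_tendsto (ν : Measure (Row d)) [IsProbabilityMeasure ν]
    (hν : ∀ᵐ p ∂ν, ∀ e : Step d, 0 < p.1 e) (e0 : Step d)
    (h : annealedProb (iidEnvironmentLaw ν) 0 (escapeEvent (Flux566.dir e0)) ≠ 0) :
    Tendsto (fun s : ℕ => annealed (iidEnvironmentLaw ν) 0 (Dip e0 s)) atTop (𝓝 0) := by
  have h0 : annealed (iidEnvironmentLaw ν) 0 (⋂ s, Dip e0 s) = 0 := by
    rw [measure_eq_zero_iff_ae_notMem]
    filter_upwards [ae_tends ν hν e0 h] with X hX hmem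
    obtain ⟨s, hs⟩ := not_osc (fun n => Flux566.lev e0 (X n)) hX
    exact hs (Set.mem_iInter.1 hmem s)
  rw [← h0]
  exact tendsto_measure_iInter_atTop (fun s => (measurableSet_Dip e0 s).nullMeasurableSet)
    (Dip_anti e0) ⟨0, measure_ne_top _ _⟩

/-- **`u'_s → 0`** (mirror). -/
theorem bump_tendsto (ν : Measure (Row d)) [IsProbabilityMeasure ν]
    (hν : ∀ᵐ p ∂ν, ∀ e : Step d, 0 < p.1 e) (e0 : Step d)
    (h : annealedProb (iidEnvironmentLaw ν) 0 (escapeEvent (Flux566.dir e0)) ≠ 0) :
    Tendsto (fun s : ℕ => annealed (iidEnvironmentLaw ν) 0 (Bump e0 s)) atTop (𝓝 0) := by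
  have h0 : annealed (iidEnvironmentLaw ν) 0 (⋂ s, Bump e0 s) = 0 := by
    rw [measure_eq_zero_iff_ae_notMem]
    filter_upwards [ae_tends ν hν e0 h] with X hX hmem
    obtain ⟨s, hs⟩ := not_osc (fun n => - Flux566.lev e0 (X n)) (by
      rcases hX with hX | hX
      · right
        have h3 := tendsto_neg_atTop_atBot.comp hX
        simpa only [Function.comp_def, Int.cast_neg] using h3
      · left
        have h3 := tendsto_neg_atBot_atTop.comp hX
        simpa only [Function.comp_def, Int.cast_neg] using h3)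
    refine hs ?_
    obtain ⟨j, k, hjk, h1, h2⟩ := Set.mem_iInter.1 hmem s
    exact ⟨j, k, hjk, by omega, by omega⟩
  rw [← h0]
  exact tendsto_measure_iInter_atTop (fun s => (measurableSet_Bump e0 s).nullMeasurableSet)
    (Bump_anti e0) ⟨0, measure_ne_top _ _⟩

/-- `annealedProb` form -/
theorem us_tendsto (ν : Measure (Row d)) [IsProbabilityMeasure ν]
    (hν : ∀ᵐ p ∂ν, ∀ e : Step d, 0 < p.1 e) (e0 : Step d)
    (h : annealedProb (iidEnvironmentLaw ν) 0 (escapeEvent (Flux566.dir e0)) ≠ 0) :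
    Tendsto (fun s : ℕ => annealedProb (iidEnvironmentLaw ν) 0 (Dip e0 s)) atTop (𝓝 0) := by
  have := dip_tendsto ν hν e0 h
  simpa only [annealed_apply _ 0 (measurableSet_Dip e0 _)] using this

theorem us'_tendsto (ν : Measure (Row d)) [IsProbabilityMeasure ν]
    (hν : ∀ᵐ p ∂ν, ∀ e : Step d, 0 < p.1 e) (e0 : Step d)
    (h : annealedProb (iidEnvironmentLaw ν) 0 (escapeEvent (Flux566.dir e0)) ≠ 0) :
    Tendsto (fun s : ℕ => annealedProb (iidEnvironmentLaw ν) 0 (Bump e0 s)) atTop (𝓝 0) := by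
  have := bump_tendsto ν hν e0 h
  simpa only [annealed_apply _ 0 (measurableSet_Bump e0 _)] using this

end Crest.Agent.R154.Us778
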