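import Crest.Agent.R154.Win_775
import Crest.Agent.R154.NBDefs_28
import Crest.Agent.R154.Us_778
import Crest.Agent.R154.Us_109
import Crest.Agent.R154.B5Surg_802

/-! Row 154, ROAD 801 (helper148): `E3` in words at a common height (`Y` local, `X` anything),
912's literal, from 775's `win3`. -/

set_option autoImplicit false
set_option maxHeartbeats 1000000

open MeasureTheory ProbabilityTheory Crest.ProbabilityR.RandomEnvironment
open scoped ENNReal

namespace Crest.Agent.R154.E3W148

open Crest.Agent.R154.Flux566 (lw endp sitesL)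
open Crest.Agent.R154.NB28 (IsUp IsDn aw Cm)
open Crest.Agent.R154.Flux132 (lev opp)

variable {d : ℕ}

lemma lev_add (u : Step d) (x y : Site d) : lev u (x + y) = lev u x + lev u y :=
  Flux566.lev_add u x y

lemma lev_neg (u : Step d) (x : Site d) : lev u (-x) = - lev u x := Flux566.lev_neg u x

lemma lev_sub (u : Step d) (x y : Site d) : lev u (x - y) = lev u x - lev u y := by
  rw [sub_eq_add_neg, lev_add, lev_neg, sub_eq_add_neg]

lemma lev_b (u : Step d) : lev u (stepVec (opp u)) = -1 := by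
  have h1 : stepVec (opp u) = - stepVec u := Flux566.stepVec_opp u
  rw [h1, lev_neg]
  have h3 : lev u (stepVec u) = 1 := Flux566.lev_self u
  rw [h3]

lemma sites_iff (l : List (Step d)) (y z : Site d) : z ∈ sitesL y l ↔ z - y ∈ sitesL 0 l :=
  Surg802.mem_sitesL_zero l y z

open Classical in
/-- the turning words -/
lemma ret (ν : Measure (Row d)) [IsProbabilityMeasure ν] (u : Step d) (s : ℕ) :
    ∑' σ : List (Step d), (if Win775.FP {z | lev u z ≤ -1}ᶜ {z | lev u z ≤ -1} 0 σ ∧
      (∃ z ∈ sitesL 0 σ, z ∈ {z : Site d | (s : ℤ) ≤ lev u z}) then Win775.awx ν 0 σ else 0)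
      ≤ annealedProb (iidEnvironmentLaw ν) 0 (Us778.Bump u s) := by
  rw [← annealed_apply _ 0 (Us778.measurableSet_Bump u s)]
  set W : Set (List (Step d)) := {σ | Win775.FP {z | lev u z ≤ -1}ᶜ {z | lev u z ≤ -1} 0 σ ∧
      (∃ z ∈ sitesL 0 σ, z ∈ {z : Site d | (s : ℤ) ≤ lev u z})} with hW
  have hPF : Us109.PF W := by
    rintro l ⟨h1, _⟩ l' ⟨h2, _⟩ ⟨t, ht⟩
    refine Win775.FP.prefix_free (disjoint_compl_left) h1 h2 (l2 := t) (l2' := []) ?_
    rw [ht, List.append_nil]
  refine le_trans (le_of_eq (tsum_congr fun σ => ?_))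
    (Us109.pf_sum_le ν W hPF _ (Us778.measurableSet_Bump u s) ?_)
  · by_cases h : σ ∈ W
    · rw [if_pos h, if_pos (by exact h)]; rfl
    · rw [if_neg h, if_neg (by exact h)]
  rintro l ⟨h1, z, hz, hzs⟩ X h0 hX
  have hex : ∃ j, j < l.length ∧ X j = z := by
    clear h1 hPF
    -- a site of `l` is visited
    have key : ∀ (l : List (Step d)) (X : Path d) (z : Site d), X ∈ Flux566.Fol l Set.univ →
        z ∈ sitesL (X 0) l → ∃ j, j < l.length ∧ X j = z := by
      intro l
      induction l with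
      | nil => intro X z _ hz; simp [sitesL] at hz
      | cons e l ih =>
        intro X z hX hz
        obtain ⟨a1, a2⟩ := hX
        simp only [sitesL, List.mem_cons] at hz
        rcases hz with hz | hz
        · exact ⟨0, by simp, hz.symm⟩
        · obtain ⟨j, hj, hj2⟩ := ih (shift 1 X) z a2 (by
            simp only [shift, add_zero]; rw [a1]; exact hz)
          refine ⟨1 + j, by simp; omega, ?_⟩
          simpa [shift] using hj2
    exact key l X z hX (by rw [h0]; exact hz)
  obtain ⟨j, hj, hjz⟩ := hex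
  refine ⟨j, l.length, hj.le, ?_, ?_⟩
  · rw [hjz]; exact hzs
  · have h2 := Us109.fol_end l X hX
    rw [h2, h0]
    have h3 : lev u (endp 0 l) ≤ -1 := h1.2
    have h4 : Flux566.lev u (endp 0 l) ≤ -1 := h3
    omega

open Classical in
lemma tsum_ite_mem_card (E : Finset (Site d)) (z : Site d) :
    ∑' x : Site d, (if z - x ∈ E then (1 : ℝ≥0∞) else 0) = E.card := by
  have h1 := (Equiv.subLeft z).tsum_eq (fun y : Site d => if y ∈ E then (1 : ℝ≥0∞) else 0)
  simp only [Equiv.subLeft_apply] at h1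
  rw [h1]
  rw [tsum_eq_sum (s := E) (fun b hb => if_neg hb)]
  rw [Finset.sum_congr rfl (fun x hx => if_pos hx)]
  simp

open Classical in
/-- **E3** -/
theorem E3 (ν : Measure (Row d)) [IsProbabilityMeasure ν] (u : Step d) (s H : ℕ)
    (E : Finset (Site d)) (μ : Site d → ℝ≥0∞) (M lam : ℝ≥0∞) (hμ : ∑' x, μ x ≤ 1)
    (hM : ∀ x, μ x ≤ M) (hlam : lam ≠ 0) (hlam' : lam ≠ ⊤) :
    ∑' x, (if lev u x = 0 then μ x * ∑' π, ∑' γ, (if IsUp u H π ∧ endp 0 γ ∈ E ∧ IsDn u H γ ∧
        (∃ k, k ∈ Cm u x π γ) ∧ (∀ k ∈ Cm u x π γ, k + s ≤ H) then aw ν π * aw ν γ else 0) else 0)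
      ≤ 4 * (lam + M * E.card * annealedProb (iidEnvironmentLaw ν) 0 (Us778.Bump u s) / lam) := by
  set b : Site d := stepVec (opp u) with hb
  set r : ℝ≥0∞ := annealedProb (iidEnvironmentLaw ν) 0 (Us778.Bump u s) with hr
  by_cases h0 : ∀ x, μ x = 0
  · simp [h0]
  have hμ1 : ∀ x, μ x ≤ 1 := fun x => (ENNReal.le_tsum x).trans hμ
  set M' : ℝ≥0∞ := min M 1 with hM'
  have hM'0 : M' ≠ 0 := by
    intro h
    push Not at h0
    obtain ⟨x, hx⟩ := h0
    exact hx (le_antisymm ((le_min (hM x) (hμ1 x)).trans h.le) zero_le)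
  have hM't : M' ≠ ⊤ := ne_top_of_le_ne_top ENNReal.one_ne_top (min_le_right _ _)
  set D : Site d → ℝ≥0∞ := fun w => if lev u w = 0 then μ w else 0 with hD
  have hDM : ∀ w, D w ≤ M' := by
    intro w
    simp only [hD]
    split_ifs
    · exact le_min (hM w) (hμ1 w)
    · exact zero_le
  have hD1 : ∑' w, D w ≤ 1 := by
    refine le_trans (ENNReal.tsum_le_tsum fun w => ?_) hμ
    simp only [hD]
    split_ifs
    · exact le_rfl
    · exact zero_le
  -- the data of `win3`
  set Q : Set (Site d) := {z | lev u z ≤ -1} with hQ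
  set A : Set (Site d) := {z | (s : ℤ) ≤ lev u z} with hA
  set S' : Set (Site d) := {z | 0 ≤ lev u z ∧ lev u z < H} with hS'
  set T' : Set (Site d) := {z | lev u z = H} with hT'
  set S : Site d → Set (Site d) := fun _ => Qᶜ with hS
  set T : Site d → Set (Site d) := fun x => {z | lev u z ≤ -1 ∧ z - x ∈ E} with hT
  have main := Win775.win3 (ν := ν) (S := S) (T := T) (S' := S') (T' := T') (Q := Q) (A := A)
    (y := 0) (δ := fun x z => D (x - z - b)) (M := M') (lam := lam) (N := E.card) (r := r)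
    hM'0 hM't hlam hlam' (Set.disjoint_left.2 fun z hz hz' => by
      have h1 : lev u z < H := hz.2
      have h2 : lev u z = H := hz'
      omega) (fun x z => hDM _) (fun z => by
      have h1 := (Equiv.subRight (z + b)).tsum_eq D
      simp only [Equiv.subRight_apply] at h1
      have h2 : (∑' x, D (x - z - b)) = ∑' x, D (x - (z + b)) :=
        tsum_congr fun x => by rw [sub_sub]
      rw [h2, h1]
      exact hD1)
    (fun x => subset_rfl) (fun x z hz => hz.1)
    (fun z hz hz' => by
      have h1 : 0 ≤ lev u z := hz.1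
      have h2 : lev u z ≤ -1 := hz'
      omega)
    (fun z => by
      refine le_trans (ENNReal.tsum_le_tsum fun x => ?_) (tsum_ite_mem_card E z).le
      by_cases h : z ∈ T x
      · rw [if_pos h, if_pos h.2]
      · rw [if_neg h]; exact zero_le)
    (by
      refine le_trans (le_of_eq (tsum_congr fun σ => ?_)) (ret ν u s)
      congr)
  have hfin : 4 * lam + M' / lam * (E.card * r) ≤ 4 * (lam + M * E.card * r / lam) := by
    rw [mul_add]
    refine add_le_add le_rfl ?_
    calc M' / lam * (E.card * r) = M' * E.card * r / lam := by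
          rw [div_eq_mul_inv, div_eq_mul_inv]; ring
      _ ≤ M * E.card * r / lam := by
          refine ENNReal.div_le_div_right ?_ _
          exact mul_le_mul_left (mul_le_mul_left (min_le_left _ _) _) _
      _ = 1 * (M * E.card * r / lam) := (one_mul _).symm
      _ ≤ 4 * (M * E.card * r / lam) := mul_le_mul_left (by norm_num) _
  refine le_trans ?_ (main.trans hfin)
  -- rewriting
  set F : Site d → List (Step d) → List (Step d) → ℝ≥0∞ := fun w π γ =>
    (if IsUp u H π ∧ endp 0 γ ∈ E ∧ IsDn u H γ ∧ (∃ k, k ∈ Cm u w π γ) ∧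
      (∀ k ∈ Cm u w π γ, k + s ≤ H) then D w * (aw ν π * aw ν γ) else 0) with hF
  have e1 : ∀ x, (if lev u x = 0 then μ x * ∑' π, ∑' γ, (if IsUp u H π ∧ endp 0 γ ∈ E ∧
      IsDn u H γ ∧ (∃ k, k ∈ Cm u x π γ) ∧ (∀ k ∈ Cm u x π γ, k + s ≤ H)
        then aw ν π * aw ν γ else 0) else 0) = ∑' π, ∑' γ, F x π γ := by
    intro x
    by_cases hx : lev u x = 0
    · rw [if_pos hx, ← ENNReal.tsum_mul_left]
      refine tsum_congr fun π => ?_
      rw [← ENNReal.tsum_mul_left]
      refine tsum_congr fun γ => ?_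
      simp only [hF, hD, if_pos hx]
      split_ifs
      · rfl
      · simp
    · rw [if_neg hx]
      simp only [hF, hD, if_neg hx]
      simp
  rw [tsum_congr e1]
  have e2 : ∑' x, ∑' π, ∑' γ, F x π γ = ∑' π, ∑' x, ∑' γ, F (x - endp 0 π - b) π γ := by
    rw [ENNReal.tsum_comm]
    refine tsum_congr fun π => ?_
    have h1 := (Equiv.subRight (endp 0 π + b)).tsum_eq (fun x => ∑' γ, F x π γ)
    simp only [Equiv.subRight_apply] at h1
    rw [← h1]
    exact tsum_congr fun x => by rw [sub_sub]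
  rw [e2, ENNReal.tsum_comm]
  refine ENNReal.tsum_le_tsum fun x => ?_
  rw [ENNReal.tsum_comm]
  refine ENNReal.tsum_le_tsum fun γ => ENNReal.tsum_le_tsum fun π => ?_
  simp only [hF]
  by_cases hc : IsUp u H π ∧ endp 0 γ ∈ E ∧ IsDn u H γ ∧
      (∃ k, k ∈ Cm u (x - endp 0 π - b) π γ) ∧ (∀ k ∈ Cm u (x - endp 0 π - b) π γ, k + s ≤ H)
  swap
  · rw [if_neg hc]; exact zero_le
  rw [if_pos hc]
  by_cases hz : lev u (x - endp 0 π - b) = 0
  swap
  · simp only [hD, if_neg hz, zero_mul]; exact zero_le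
  obtain ⟨hπ, hE, hγ, ⟨k, y, hy1, hy2, hyk⟩, hall⟩ := hc
  have hlx : lev u x = H - 1 := by
    rw [lev_sub, lev_sub, hπ.2, lev_b] at hz
    linarith
  have hst : x - endp 0 π - b + stepVec (opp u) = x - endp 0 π := by rw [← hb]; abel
  -- sites of `π` from `0`
  have hπ0 : ∀ z, z ∈ sitesL 0 π ↔ z - endp 0 π ∈ sitesL (-endp 0 π) π := by
    intro z
    rw [sites_iff π (-endp 0 π)]
    rw [show z - endp 0 π - -endp 0 π = z by abel]
  have hγ0 : ∀ z, z ∈ sitesL x γ ↔ z - endp 0 π ∈ sitesL (x - endp 0 π) γ := by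
    intro z
    rw [sites_iff γ x, sites_iff γ (x - endp 0 π)]
    rw [show z - endp 0 π - (x - endp 0 π) = z - x by abel]
  -- all common sites are at level `≥ s`
  have hcom : ∀ z, z ∈ sitesL 0 π → z ∈ sitesL x γ → (s : ℤ) ≤ lev u z := by
    intro z hz1 hz2
    have h1 : 0 ≤ lev u z ∧ lev u z < H := hπ.1 z hz1
    have h2 : lev u (z - endp 0 π) = -((H - (lev u z).toNat : ℕ) : ℤ) := by
      rw [lev_sub, hπ.2]; omega
    have h3 := hall (H - (lev u z).toNat) ⟨z - endp 0 π, (hπ0 z).1 hz1, by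
      rw [hst]; exact (hγ0 z).1 hz2, h2⟩
    omega
  have hFPγ : Win775.FP (S x) (T x) x γ := by
    refine ⟨fun z hz => ?_, ?_, ?_⟩
    · have h1 := hγ.1 (z - x) ((sites_iff γ x z).1 hz)
      intro hq
      have h2 : lev u z ≤ -1 := hq
      rw [lev_sub, hlx] at h1
      omega
    · have h1 : lev u (endp x γ) = -1 := by
        rw [Flux566.endp_eq_add γ x, lev_add, hγ.2, hlx]; ring
      exact h1.le
    · rw [Flux566.endp_eq_add γ x, add_sub_cancel_left]; exact hE
  have hFPπ : Win775.FP S' T' 0 π := ⟨fun z hz => hπ.1 z hz, hπ.2⟩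
  have hHit : Win775.Hit x γ 0 A π := by
    have hy3 : y + endp 0 π ∈ sitesL 0 π := by
      rw [hπ0, add_sub_cancel_right]; exact hy1
    have hy4 : y + endp 0 π ∈ sitesL x γ := by
      rw [hγ0, add_sub_cancel_right]
      rw [hst] at hy2
      exact hy2
    have hfirst : ∀ (l : List (Step d)) (x0 : Site d) (B : Site d → Prop),
        (∃ y ∈ sitesL x0 l, B y) →
        ∃ a c, l = a ++ c ∧ (∀ y ∈ sitesL x0 a, ¬ B y) ∧ B (endp x0 a) ∧ c ≠ [] := by
      intro l
      induction l with
      | nil => intro x0 B h; simp [sitesL] at h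
      | cons e l ih =>
        intro x0 B h
        by_cases hx : B x0
        · exact ⟨[], e :: l, rfl, by simp [sitesL], hx, by simp⟩
        · have h' : ∃ y ∈ sitesL (x0 + stepVec e) l, B y := by
            obtain ⟨y, hy, hB⟩ := h
            simp only [sitesL, List.mem_cons] at hy
            rcases hy with rfl | hy
            · exact absurd hB hx
            · exact ⟨y, hy, hB⟩
          obtain ⟨a, c, h1, h2, h3, h4⟩ := ih (x0 + stepVec e) B h'
          refine ⟨e :: a, c, by rw [h1]; rfl, ?_, h3, h4⟩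
          intro y hy
          simp only [sitesL, List.mem_cons] at hy
          rcases hy with rfl | hy
          · exact hx
          · exact h2 y hy
    obtain ⟨a, c, h1, h2, h3, h4⟩ := hfirst π 0 (fun z => z ∈ sitesL x γ) ⟨_, hy3, hy4⟩
    refine ⟨a, c, h1, h2, h3, ?_⟩
    refine hcom _ ?_ h3
    rw [h1, Surg802.sitesL_append, List.mem_append]
    right
    cases c with
    | nil => exact absurd rfl h4
    | cons e c => simp [sitesL]
  rw [if_pos ⟨hFPγ, hFPπ, hHit⟩]
  have e3 : Win775.awx ν x γ = aw ν γ := Surg802.aw_start ν γ x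
  have e4 : Win775.awx ν 0 π = aw ν π := rfl
  rw [e3, e4]
  refine le_of_eq ?_
  ring

end Crest.Agent.R154.E3W148
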