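import Crest.Agent.R154.Win_775
import Crest.Agent.R154.NBSurg_28
import Crest.Agent.R154.RetW_458

/-! Row 154, ROAD 801 (helper168): window lemma (3) at one common height, in the letters of
`NBDefs_28` (= 912's `E3`), from 775's `win3` and 458's `ret_small`. -/

set_option autoImplicit false

namespace Crest.Agent.R154.E23168

open MeasureTheory ProbabilityTheory Crest.ProbabilityR.RandomEnvironment Crest.Agent.R154
open Crest.Agent.R154.Flux132 (lev opp)
open Crest.Agent.R154.Flux566 (lw endp sitesL)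
open Crest.Agent.R154.NB28 (IsUp IsDn Cm aw)
open scoped ENNReal Classical

variable {d : ℕ}

/-- turning weight: words from `0` to their first site of level `1`, which visit level `≤ -s` -/
noncomputable def us (ν : Measure (Row d)) [IsProbabilityMeasure ν] (u : Step d) (s : ℕ) : ℝ≥0∞ :=
  ∑' l : List (Step d), (if (∀ y ∈ sitesL 0 l, lev u y < 1) ∧ lev u (endp 0 l) = 1 ∧
    (∃ y ∈ sitesL 0 l, lev u y ≤ -(s : ℤ)) then aw ν l else 0)

theorem us_small (ν : Measure (Row d)) [IsProbabilityMeasure ν] (u : Step d)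
    (ε : ℝ≥0∞) (hε : ε ≠ 0) : ∃ s0 : ℕ, ∀ s, s0 ≤ s → us ν u s ≤ ε :=
  RetW458.ret_small ν u 1 ε hε

theorem us_tendsto (ν : Measure (Row d)) [IsProbabilityMeasure ν] (u : Step d) :
    Filter.Tendsto (us ν u) Filter.atTop (nhds 0) := by
  rw [ENNReal.tendsto_atTop_zero]
  intro ε hε
  obtain ⟨s0, h⟩ := us_small ν u ε hε.ne'
  exact ⟨s0, fun n hn => h n hn⟩

lemma lev_sub' (u : Step d) (x y : Site d) : lev u (x - y) = lev u x - lev u y := by
  unfold Flux132.lev; split_ifs <;> simp <;> ring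

lemma lev_add' (u : Step d) (x y : Site d) : lev u (x + y) = lev u x + lev u y := by
  unfold Flux132.lev; split_ifs <;> simp <;> ring

lemma lev_neg' (u : Step d) (x : Site d) : lev u (-x) = - lev u x := by
  unfold Flux132.lev; split_ifs <;> simp

lemma lev_opp' (u : Step d) (x : Site d) : lev (opp u) x = - lev u x := by
  unfold Flux132.lev Flux132.opp
  rcases u with ⟨i, b⟩
  cases b <;> simp

lemma lev_step_ge (u e : Step d) : -1 ≤ lev u (stepVec e) := by
  unfold Flux132.lev stepVec
  rcases u with ⟨i, b⟩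
  rcases e with ⟨j, c⟩
  by_cases hij : i = j
  · subst hij
    cases b <;> cases c <;> simp
  · have hji : j ≠ i := fun h => hij h.symm
    cases b <;> cases c <;> simp [Pi.single_apply, hij]

lemma end_eq (u : Step d) (l : List (Step d)) : ∀ x : Site d, (∀ y ∈ sitesL x l, 0 ≤ lev u y) →
    lev u (endp x l) < 0 → l ≠ [] → lev u (endp x l) = -1 := by
  induction l with
  | nil => intro x _ _ h; exact absurd rfl h
  | cons e l ih =>
    intro x h1 h2 _
    have hx : 0 ≤ lev u x := h1 x (by simp [sitesL])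
    have he := lev_step_ge u e
    by_cases hl : l = []
    · subst hl
      simp only [endp] at h2 ⊢
      rw [lev_add'] at h2 ⊢
      omega
    · simp only [endp] at h2 ⊢
      exact ih _ (fun y hy => h1 y (by simp [sitesL, hy])) h2 hl

/-- contact depths, hung at the bottom of the up walker -/
lemma cm_iff (u : Step d) (x : Site d) (π γ : List (Step d)) (z : Site d)
    (hz : z ∈ sitesL 0 π)
    (hz' : z ∈ sitesL (x + endp 0 π + stepVec (opp u)) γ) (k : ℕ)
    (hk : lev u z - lev u (endp 0 π) = -(k : ℤ)) : k ∈ Cm u x π γ := by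
  refine ⟨z - endp 0 π, ?_, ?_, ?_⟩
  · have := (NB28.mem_sitesL_add π 0 (-endp 0 π) z).2 hz
    rw [zero_add, ← sub_eq_add_neg] at this
    exact this
  · have := (NB28.mem_sitesL_add γ (x + stepVec (opp u)) (endp 0 π) (z - endp 0 π)).1
    apply this
    rw [sub_add_cancel, show x + stepVec (opp u) + endp 0 π = x + endp 0 π + stepVec (opp u) by abel]
    exact hz'
  · rw [lev_sub']; exact hk

theorem E3 (ν : Measure (Row d)) [IsProbabilityMeasure ν] (u : Step d) (s H : ℕ)
    (E : Finset (Site d)) (μ : Site d → ℝ≥0∞) (M lam : ℝ≥0∞) (hμ : ∑' x, μ x ≤ 1)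
    (hM : ∀ x, μ x ≤ M) (hl0 : lam ≠ 0) (hlt : lam ≠ ⊤) :
    ∑' x, (if lev u x = 0 then μ x * ∑' π, ∑' γ, (if IsUp u H π ∧ endp 0 γ ∈ E ∧ IsDn u H γ ∧
      (∃ k, k ∈ Cm u x π γ) ∧ (∀ k ∈ Cm u x π γ, k + s ≤ H) then aw ν π * aw ν γ else 0) else 0)
      ≤ 4 * lam + M / lam * (E.card * us ν (opp u) s) := by
  -- reduce to `M ≠ 0, ⊤`
  set M' := min M 1 with hM'
  have hM'M : M' ≤ M := min_le_left _ _
  have hμM' : ∀ x, μ x ≤ M' := fun x => le_min (hM x) ((ENNReal.le_tsum x).trans hμ)
  have hM't : M' ≠ ⊤ := ne_top_of_le_ne_top ENNReal.one_ne_top (min_le_right _ _)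
  by_cases hM0 : M' = 0
  · have : ∀ x, μ x = 0 := fun x => le_antisymm ((hμM' x).trans hM0.le) zero_le
    simp [this]
  set Y0 : Site d := stepVec (opp u) with hY0
  have hlY0 : lev u Y0 = -1 := NB28.lev_opp u
  -- data for `win3`
  set S : Site d → Set (Site d) := fun _ => {z | 0 ≤ lev u z} with hS
  set T : Site d → Set (Site d) := fun x => {z | lev u z < 0 ∧ z - x ∈ E} with hT
  set S' : Set (Site d) := {z | 0 ≤ lev u z ∧ lev u z < H} with hS'
  set T' : Set (Site d) := {z | lev u z = H} with hT'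
  set Q : Set (Site d) := {z | lev u z < 0} with hQ
  set A : Set (Site d) := {z | (s : ℤ) ≤ lev u z} with hA
  set δ : Site d → Site d → ℝ≥0∞ := fun x z => μ (x - Y0 - z) with hδ
  have key := Win775.win3 (ν := ν) (S := S) (T := T) (S' := S') (T' := T') (Q := Q) (A := A)
    (y := 0) (δ := δ) (M := M') (lam := lam) (N := (E.card : ℝ≥0∞)) (r := us ν (opp u) s)
    hM0 hM't hl0 hlt
    (by
      rw [Set.disjoint_left]
      intro z hz hz'
      simp only [hS', hT', Set.mem_setOf_eq] at hz hz'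
      omega)
    (fun x z => hμM' _)
    (fun z => by
      refine le_trans (le_of_eq ?_) hμ
      have e : ∀ x : Site d, δ x z = μ (Equiv.subRight (Y0 + z) x) := by
        intro x
        simp only [hδ, Equiv.subRight_apply]
        rw [sub_sub]
      rw [tsum_congr e, (Equiv.subRight (Y0 + z)).tsum_eq])
    (fun x z hz => by
      simp only [hS, hQ, Set.mem_compl_iff, Set.mem_setOf_eq] at hz ⊢
      omega)
    (fun x z hz => by
      simp only [hT, hQ, Set.mem_setOf_eq] at hz ⊢
      exact hz.1)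
    (fun z hz => by
      simp only [hS', hQ, Set.mem_compl_iff, Set.mem_setOf_eq] at hz ⊢
      omega)
    (fun z => by
      calc _ ≤ ∑' x : Site d, (if z - x ∈ E then (1 : ℝ≥0∞) else 0) := by
            refine ENNReal.tsum_le_tsum fun x => ?_
            by_cases h : z ∈ T x
            · have h2 : z - x ∈ E := h.2
              rw [if_pos h, if_pos h2]
            · rw [if_neg h]; exact zero_le
        _ = ∑' x : Site d, (if Equiv.subLeft z x ∈ E then (1 : ℝ≥0∞) else 0) := by
            simp only [Equiv.subLeft_apply]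
        _ = ∑' x : Site d, (if x ∈ E then (1 : ℝ≥0∞) else 0) :=
            (Equiv.subLeft z).tsum_eq (fun x => if x ∈ E then (1 : ℝ≥0∞) else 0)
        _ = E.card := by
            rw [tsum_eq_sum (s := E)]
            · rw [Finset.sum_congr rfl (fun x hx => if_pos hx)]
              simp
            · intro x hx; rw [if_neg hx]
        _ ≤ _ := le_rfl)
    (by
      refine ENNReal.tsum_le_tsum fun σ => ?_
      by_cases h : Win775.FP Qᶜ Q 0 σ ∧ (∃ z ∈ sitesL 0 σ, z ∈ A)
      · rw [if_pos h, if_pos]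
        · exact le_rfl
        · obtain ⟨⟨h1, h2⟩, z, hz, hzA⟩ := h
          simp only [hQ, hA, Set.mem_compl_iff, Set.mem_setOf_eq] at h1 h2 hzA
          have h3 := end_eq u σ 0 (fun y hy => not_lt.1 (h1 y hy)) h2
            (by rintro rfl; simp [sitesL] at hz)
          refine ⟨fun y hy => ?_, ?_, z, hz, ?_⟩
          · have := h1 y hy; rw [lev_opp']; omega
          · rw [lev_opp', h3]; rfl
          · rw [lev_opp']; omega
      · rw [if_neg h]; exact zero_le)
  have hlow : M' / lam * (E.card * us ν (opp u) s) ≤ M / lam * (E.card * us ν (opp u) s) :=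
    mul_le_mul_left (ENNReal.div_le_div_right hM'M _) _
  refine le_trans ?_ (key.trans (add_le_add le_rfl hlow))
  -- rearrange
  have e1 : ∀ x : Site d, (if lev u x = 0 then μ x * ∑' π, ∑' γ, (if IsUp u H π ∧ endp 0 γ ∈ E ∧
      IsDn u H γ ∧ (∃ k, k ∈ Cm u x π γ) ∧ (∀ k ∈ Cm u x π γ, k + s ≤ H)
      then aw ν π * aw ν γ else 0) else 0)
      = ∑' γ, ∑' π, (if lev u x = 0 ∧ IsUp u H π ∧ endp 0 γ ∈ E ∧
      IsDn u H γ ∧ (∃ k, k ∈ Cm u x π γ) ∧ (∀ k ∈ Cm u x π γ, k + s ≤ H)
      then aw ν γ * (aw ν π * μ x) else 0) := by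
    intro x
    by_cases hx : lev u x = 0
    · rw [if_pos hx, ENNReal.tsum_comm, ← ENNReal.tsum_mul_left]
      refine tsum_congr fun γ => ?_
      rw [← ENNReal.tsum_mul_left]
      refine tsum_congr fun π => ?_
      simp only [hx, true_and]
      split_ifs
      · ring
      · rw [mul_zero]
    · simp [hx]
  rw [tsum_congr e1]
  rw [ENNReal.tsum_comm]
  rw [ENNReal.tsum_comm (f := fun (x : Site d) (ρ : List (Step d)) => ∑' π : List (Step d),
      (if Win775.FP (S x) (T x) x ρ ∧ Win775.FP S' T' 0 π ∧ Win775.Hit x ρ 0 A π then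
        Win775.awx ν x ρ * (Win775.awx ν 0 π * δ x (endp 0 π)) else 0))]
  refine ENNReal.tsum_le_tsum fun γ => ?_
  rw [ENNReal.tsum_comm]
  rw [ENNReal.tsum_comm (f := fun (x : Site d) (π : List (Step d)) =>
      (if Win775.FP (S x) (T x) x γ ∧ Win775.FP S' T' 0 π ∧ Win775.Hit x γ 0 A π then
        Win775.awx ν x γ * (Win775.awx ν 0 π * δ x (endp 0 π)) else 0))]
  refine ENNReal.tsum_le_tsum fun π => ?_
  rw [← (Equiv.subRight (Y0 + endp 0 π)).tsum_eq]
  refine ENNReal.tsum_le_tsum fun x => ?_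
  simp only [Equiv.subRight_apply]
  split_ifs with h h'
  · -- values
    rw [hδ]
    simp only
    rw [show x - Y0 - endp 0 π = x - (Y0 + endp 0 π) by rw [sub_sub]]
    have a1 : Win775.awx ν x γ = aw ν γ := NB28.aw_shift ν x γ
    have a2 : Win775.awx ν 0 π = aw ν π := rfl
    rw [a1, a2]
  · exfalso
    apply h'
    obtain ⟨hx, hup, hE, hdn, ⟨k, hk⟩, hall⟩ := h
    have hlx : lev u x = H - 1 := by
      rw [lev_sub', lev_add', hlY0, hup.2] at hx
      omega
    have hxe : x - (Y0 + endp 0 π) + endp 0 π + stepVec (opp u) = x := by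
      rw [← hY0]; abel
    refine ⟨⟨?_, ?_⟩, ⟨?_, ?_⟩, ?_⟩
    · intro z hz
      rw [NB28.mem_sitesL_iff] at hz
      have := hdn.1 _ hz
      rw [lev_sub'] at this
      simp only [hS, Set.mem_setOf_eq]
      omega
    · simp only [hT, Set.mem_setOf_eq]
      have e : endp x γ = x + endp 0 γ := Flux566.endp_eq_add γ x
      constructor
      · rw [e, lev_add', hdn.2]; omega
      · rw [e, add_sub_cancel_left]; exact hE
    · intro z hz
      exact hup.1 z hz
    · exact hup.2
    · -- the first hit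
      obtain ⟨y, hy1, hy2, hy3⟩ := hk
      have hz1 : y + endp 0 π ∈ sitesL 0 π := by
        have := (NB28.mem_sitesL_add π (-endp 0 π) (endp 0 π) y).2 hy1
        rwa [neg_add_cancel] at this
      have hz2 : y + endp 0 π ∈ sitesL x γ := by
        have := (NB28.mem_sitesL_add γ (x - (Y0 + endp 0 π) + stepVec (opp u)) (endp 0 π) y).2 hy2
        rwa [show x - (Y0 + endp 0 π) + stepVec (opp u) + endp 0 π = x by rw [← hY0]; abel] at this
      obtain ⟨π1, π2, e1, h1, h2, h3⟩ := Win775.exists_first (A := {z | z ∈ sitesL x γ}) π 0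
        ⟨_, hz1, hz2⟩
      refine ⟨π1, π2, e1, h1, h2, ?_⟩
      have hmem : endp 0 π1 ∈ sitesL 0 π := by
        rw [e1, Win775.sitesL_append]
        cases π2 with
        | nil => exact absurd rfl h3
        | cons a π2 => simp [sitesL]
      have hl := hup.1 _ hmem
      have hk' := hall (H - (lev u (endp 0 π1)).toNat) (cm_iff u _ π γ (endp 0 π1) hmem
        (by rw [hxe]; exact h2) _ (by rw [hup.2]; omega))
      simp only [hA, Set.mem_setOf_eq]
      omega
  · exact zero_le
  · exact zero_le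

/-- 912's literal `E3` with `C = 4`. -/
theorem E3' (ν : Measure (Row d)) [IsProbabilityMeasure ν] (u : Step d) (s H : ℕ)
    (E : Finset (Site d)) (μ : Site d → ℝ≥0∞) (M lam : ℝ≥0∞) (hμ : ∑' x, μ x ≤ 1)
    (hM : ∀ x, μ x ≤ M) (hl0 : lam ≠ 0) (hlt : lam ≠ ⊤) :
    ∑' x, (if lev u x = 0 then μ x * ∑' π, ∑' γ, (if IsUp u H π ∧ endp 0 γ ∈ E ∧ IsDn u H γ ∧
      (∃ k, k ∈ Cm u x π γ) ∧ (∀ k ∈ Cm u x π γ, k + s ≤ H) then aw ν π * aw ν γ else 0) else 0)
      ≤ 4 * (lam + M * E.card * us ν (opp u) s / lam + us ν (opp u) s) := by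
  refine (E3 ν u s H E μ M lam hμ hM hl0 hlt).trans ?_
  have e : M / lam * (E.card * us ν (opp u) s) = M * E.card * us ν (opp u) s / lam := by
    rw [div_eq_mul_inv, div_eq_mul_inv]; ring
  rw [e, mul_add, mul_add]
  calc 4 * lam + M * E.card * us ν (opp u) s / lam
      ≤ 4 * lam + 4 * (M * E.card * us ν (opp u) s / lam) := by
        refine add_le_add le_rfl ?_
        calc M * E.card * us ν (opp u) s / lam = 1 * (M * E.card * us ν (opp u) s / lam) :=
              (one_mul _).symm
          _ ≤ _ := mul_le_mul_left (by norm_num) _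
    _ ≤ _ := le_self_add

end Crest.Agent.R154.E23168
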