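import Crest.Agent.R154.Flux2_566
import Crest.Agent.R154.B5Abs_566
import Crest.Agent.R154.Loc_561

/-! Row 154, T0219, road 801 (helper130): finite words, Kraft, strong Markov for prefix-free
families, and the one-window lemma (order 2: the local walker carries the weight). -/

set_option autoImplicit false
set_option linter.unusedSectionVars false

open MeasureTheory ProbabilityTheory Crest.ProbabilityR.RandomEnvironment
open scoped ENNReal

namespace Crest.Agent.R154.Win130

open Flux566

variable {d : ℕ}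

lemma lw_append (ω : Environment d) (x : Site d) (l l' : List (Step d)) :
    lw ω x (l ++ l') = lw ω x l * lw ω (endp x l) l' := by
  induction l generalizing x with
  | nil => simp [lw, endp]
  | cons e l ih => simp only [List.cons_append, lw, endp]; rw [ih, mul_assoc]

lemma sitesL_append (x : Site d) (l l' : List (Step d)) :
    sitesL x (l ++ l') = sitesL x l ++ sitesL (endp x l) l' := by
  induction l generalizing x with
  | nil => simp [sitesL, endp]
  | cons e l ih => simp only [List.cons_append, sitesL, endp]; rw [ih]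

lemma sum_env (ω : Environment d) (x : Site d) : ∑ e, ENNReal.ofReal ((ω x).1 e) = 1 := by
  rw [← ENNReal.ofReal_sum_of_nonneg fun e _ => (ω x).2.1 e, (ω x).2.2, ENNReal.ofReal_one]

/-- prefix-free set of words -/
def PF {α : Type*} (A : Set (List α)) : Prop := ∀ l ∈ A, ∀ l' ∈ A, l <+: l' → l = l'

lemma PF.mono {α : Type*} {A B : Set (List α)} (hB : PF B) (h : A ⊆ B) : PF A :=
  fun l hl l' hl' hp => hB l (h hl) l' (h hl') hp

lemma PF.tail {α : Type*} {A : Set (List α)} (hA : PF A) (l₁ : List α) :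
    PF {l₂ | l₁ ++ l₂ ∈ A} := by
  intro l hl l' hl' hp
  have := hA _ hl _ hl' (List.prefix_append_right_inj l₁ |>.2 hp)
  exact List.append_cancel_left this

open Classical in
lemma kraft_len (ω : Environment d) (n : ℕ) : ∀ (x : Site d) (A : Set (List (Step d))), PF A →
    ∑' l, (if l ∈ A ∧ l.length ≤ n then lw ω x l else 0) ≤ 1 := by
  induction n with
  | zero =>
    intro x A _
    rw [tsum_eq_single ([] : List (Step d))]
    · split_ifs
      · simp [lw]
      · exact zero_le
    · intro l hl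
      rw [if_neg]
      rintro ⟨-, h⟩
      exact hl (List.length_eq_zero_iff.1 (Nat.le_zero.1 h))
  | succ n ih =>
    intro x A hA
    by_cases h0 : ([] : List (Step d)) ∈ A
    · rw [tsum_eq_single ([] : List (Step d))]
      · split_ifs
        · simp [lw]
        · exact zero_le
      · intro l hl
        rw [if_neg]
        rintro ⟨h, -⟩
        exact hl (hA _ h0 _ h (List.nil_prefix)).symm
    · rw [B5A.tsum_list]
      rw [if_neg (fun h => h0 h.1), zero_add, tsum_fintype]
      calc _ ≤ ∑ e, ENNReal.ofReal ((ω x).1 e) * 1 := by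
            refine Finset.sum_le_sum fun e _ => ?_
            refine le_trans (le_of_eq ?_) (mul_le_mul_right (ih (x + stepVec e)
              {l₂ | [e] ++ l₂ ∈ A} (hA.tail [e])) _)
            rw [← ENNReal.tsum_mul_left]
            refine tsum_congr fun l => ?_
            have : ((e :: l) ∈ A ∧ (e :: l).length ≤ n + 1)
                ↔ (l ∈ {l₂ | [e] ++ l₂ ∈ A} ∧ l.length ≤ n) := by
              simp
            by_cases hh : (l ∈ {l₂ | [e] ++ l₂ ∈ A} ∧ l.length ≤ n)
            · rw [if_pos hh, if_pos (this.2 hh)]; rfl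
            · rw [if_neg hh, if_neg (fun h => hh (this.1 h)), mul_zero]
        _ = 1 := by simp only [mul_one]; exact sum_env ω x

open Classical in
/-- Kraft: the total quenched weight of a prefix-free family is at most one -/
lemma kraft (ω : Environment d) (x : Site d) {A : Set (List (Step d))} (hA : PF A) :
    ∑' l, (if l ∈ A then lw ω x l else 0) ≤ 1 := by
  rw [ENNReal.tsum_eq_iSup_sum]
  refine iSup_le fun s => ?_
  refine le_trans (Finset.sum_le_sum (g := fun l => if l ∈ A ∧ l.length ≤ s.sup List.length then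
    lw ω x l else 0) fun l hl => ?_) ((ENNReal.sum_le_tsum s).trans (kraft_len ω _ x A hA))
  by_cases h : l ∈ A
  · rw [if_pos h, if_pos ⟨h, Finset.le_sup (f := List.length) hl⟩]
  · rw [if_neg h]; exact zero_le

open Classical in
lemma tsum_split_le {α : Type*} (f : List α → ℝ≥0∞) (G : Set (List α))
    (h : ∀ l, f l ≠ 0 → ∃ l₁ ∈ G, l₁ <+: l) :
    ∑' l, f l ≤ ∑' l₁, (if l₁ ∈ G then ∑' l₂, f (l₁ ++ l₂) else 0) := by
  have hch : ∀ l : List α, ∃ p : List α × List α, p.1 ++ p.2 = l ∧ (f l ≠ 0 → p.1 ∈ G) := by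
    intro l
    by_cases hl : f l = 0
    · exact ⟨([], l), rfl, fun h => absurd hl h⟩
    · obtain ⟨l₁, h1, l₂, h2⟩ := h l hl
      exact ⟨(l₁, l₂), h2, fun _ => h1⟩
  choose φ hφ1 hφ2 using hch
  have hinj : Function.Injective φ := fun l l' h => by rw [← hφ1 l, ← hφ1 l', h]
  calc ∑' l, f l ≤ ∑' l, (fun p : List α × List α => if p.1 ∈ G then f (p.1 ++ p.2) else 0) (φ l) := by
        refine ENNReal.tsum_le_tsum fun l => ?_
        by_cases hl : f l = 0
        · rw [hl]; exact zero_le
        · simp only [if_pos (hφ2 l hl), hφ1 l]; exact le_rfl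
    _ ≤ ∑' p : List α × List α, (if p.1 ∈ G then f (p.1 ++ p.2) else 0) :=
        ENNReal.tsum_comp_le_tsum_of_injective hinj _
    _ = _ := by
        rw [ENNReal.tsum_prod']
        refine tsum_congr fun l₁ => ?_
        by_cases h1 : l₁ ∈ G <;> simp [h1]

open Classical in
lemma tsum_join_le {α : Type*} (f : List α → ℝ≥0∞) {G : Set (List α)} (hG : PF G) :
    ∑' l₁, (if l₁ ∈ G then ∑' l₂, f (l₁ ++ l₂) else 0) ≤ ∑' l, f l := by
  have hinj : Function.Injective (fun p : G × List α => (p.1 : List α) ++ p.2) := by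
    rintro ⟨⟨l₁, h1⟩, l₂⟩ ⟨⟨l₁', h1'⟩, l₂'⟩ h
    simp only at h
    have hp : l₁ = l₁' := by
      rcases List.prefix_or_prefix_of_prefix (l₁ := l₁) (l₂ := l₁') (l₃ := l₁ ++ l₂)
        (List.prefix_append _ _) (h ▸ List.prefix_append _ _) with hh | hh
      · exact hG _ h1 _ h1' hh
      · exact (hG _ h1' _ h1 hh).symm
    subst hp
    have := List.append_cancel_left h
    subst this
    rfl
  refine le_trans (le_of_eq ?_) (ENNReal.tsum_comp_le_tsum_of_injective hinj f)
  rw [ENNReal.tsum_prod']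
  refine Eq.trans ?_ (tsum_subtype G (fun l₁ => ∑' l₂, f (l₁ ++ l₂))).symm
  refine tsum_congr fun l => ?_
  by_cases h : l ∈ G <;> simp [h]

open Classical in
/-- strong Markov bound: every element of `A` has a prefix in `G`, and the continuations of an
element of `G` inside `A` have total weight at most `c`. -/
lemma markov_bound (ω : Environment d) (x : Site d) {A G : Set (List (Step d))} (hG : PF G)
    (c : ℝ≥0∞) (hpre : ∀ l ∈ A, ∃ l₁ ∈ G, l₁ <+: l)
    (hc : ∀ l₁ ∈ G, ∑' l₂, (if l₁ ++ l₂ ∈ A then lw ω (endp x l₁) l₂ else 0) ≤ c) :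
    ∑' l, (if l ∈ A then lw ω x l else 0) ≤ c := by
  refine (tsum_split_le _ G fun l hl => hpre l (by by_contra h; exact hl (if_neg h))).trans ?_
  calc _ ≤ ∑' l₁, (if l₁ ∈ G then lw ω x l₁ else 0) * c := by
        refine ENNReal.tsum_le_tsum fun l₁ => ?_
        by_cases h1 : l₁ ∈ G
        · rw [if_pos h1, if_pos h1]
          refine le_trans (le_of_eq ?_) (mul_le_mul_right (hc l₁ h1) _)
          rw [← ENNReal.tsum_mul_left]
          refine tsum_congr fun l₂ => ?_
          split_ifs
          · rw [lw_append]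
          · rw [mul_zero]
        · rw [if_neg h1]; exact zero_le
    _ ≤ 1 * c := by
        rw [ENNReal.tsum_mul_right]
        exact mul_le_mul_left (kraft ω x hG) _
    _ = c := one_mul c

/-- words whose first visit of `B` is at their end -/
def FV (B : Set (Site d)) (x : Site d) : Set (List (Step d)) :=
  {l | endp x l ∈ B ∧ ∀ z ∈ sitesL x l, z ∉ B}

lemma endp_mem_sites (x : Site d) (l₁ l₂ : List (Step d)) (h : l₂ ≠ []) :
    endp x l₁ ∈ sitesL x (l₁ ++ l₂) := by
  rw [sitesL_append]
  refine List.mem_append_right _ ?_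
  cases l₂ with
  | nil => exact absurd rfl h
  | cons e l => simp [sitesL]

lemma pf_FV (B : Set (Site d)) (x : Site d) : PF (FV B x) := by
  rintro l ⟨h1, -⟩ l' ⟨-, h2⟩ ⟨l₂, rfl⟩
  by_cases h : l₂ = []
  · simp [h]
  · exact absurd h1 (h2 _ (endp_mem_sites x l l₂ h))

lemma exists_split_of_mem (x : Site d) (l : List (Step d)) (z : Site d) (hz : z ∈ sitesL x l) :
    ∃ l₁ l₂, l = l₁ ++ l₂ ∧ l₂ ≠ [] ∧ endp x l₁ = z ∧ z ∉ sitesL x l₁ := by
  induction l generalizing x with
  | nil => simp [sitesL] at hz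
  | cons e l ih =>
    by_cases hx : z = x
    · exact ⟨[], e :: l, rfl, by simp, by simp [endp, hx], by simp [sitesL]⟩
    · simp only [sitesL, List.mem_cons] at hz
      rcases hz with hz | hz
      · exact absurd hz hx
      · obtain ⟨l₁, l₂, h1, h2, h3, h4⟩ := ih (x + stepVec e) hz
        refine ⟨e :: l₁, l₂, by rw [h1]; rfl, h2, by simpa [endp] using h3, ?_⟩
        simp only [sitesL, List.mem_cons, not_or]
        exact ⟨hx, h4⟩

lemma exists_FV (B : Set (Site d)) (x : Site d) (l : List (Step d))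
    (h : endp x l ∈ B ∨ ∃ z ∈ sitesL x l, z ∈ B) : ∃ l₁ ∈ FV B x, l₁ <+: l := by
  induction l generalizing x with
  | nil =>
    refine ⟨[], ⟨?_, by simp [sitesL]⟩, List.prefix_rfl⟩
    rcases h with h | ⟨z, hz, -⟩
    · exact h
    · simp [sitesL] at hz
  | cons e l ih =>
    by_cases hx : x ∈ B
    · exact ⟨[], ⟨hx, by simp [sitesL]⟩, List.nil_prefix⟩
    · have h' : endp (x + stepVec e) l ∈ B ∨ ∃ z ∈ sitesL (x + stepVec e) l, z ∈ B := by
        rcases h with h | ⟨z, hz, hzB⟩
        · exact Or.inl h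
        · simp only [sitesL, List.mem_cons] at hz
          rcases hz with rfl | hz
          · exact absurd hzB hx
          · exact Or.inr ⟨z, hz, hzB⟩
      obtain ⟨l₁, ⟨h1, h2⟩, h3⟩ := ih (x + stepVec e) h'
      refine ⟨e :: l₁, ⟨h1, ?_⟩, ?_⟩
      · intro z hz
        simp only [sitesL, List.mem_cons] at hz
        rcases hz with rfl | hz
        · exact hx
        · exact h2 z hz
      · exact List.cons_prefix_cons.2 ⟨rfl, h3⟩

/-! ### levels -/

/-- natural crossing from anywhere in the slab to its top level `b`, never below `a` -/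
def Nat' (u : Step d) (a b : ℤ) (v : Site d) (σ : List (Step d)) : Prop :=
  (∀ z ∈ sitesL v σ, a ≤ lev u z ∧ lev u z < b) ∧ lev u (endp v σ) = b

lemma Nat'.tail {u : Step d} {a b : ℤ} {v : Site d} {σ₁ σ₂ : List (Step d)}
    (h : Nat' u a b v (σ₁ ++ σ₂)) : Nat' u a b (endp v σ₁) σ₂ := by
  obtain ⟨h1, h2⟩ := h
  refine ⟨fun z hz => h1 z ?_, ?_⟩
  · rw [sitesL_append]; exact List.mem_append_right _ hz
  · rwa [endp_append] at h2

lemma pf_Nat' (u : Step d) (a b : ℤ) (v : Site d) : PF {σ | Nat' u a b v σ} := by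
  rintro l ⟨-, h1⟩ l' ⟨h2, -⟩ ⟨l₂, rfl⟩
  by_cases h : l₂ = []
  · simp [h]
  · have := (h2 _ (endp_mem_sites v l l₂ h)).2
    omega

open Classical in
/-- quenched probability, from `v`, of a natural crossing to level `b` landing in `T` -/
noncomputable def eT (u : Step d) (a b : ℤ) (T : Set (Site d)) (ω : Environment d) (v : Site d) :
    ℝ≥0∞ := ∑' σ, if Nat' u a b v σ ∧ endp v σ ∈ T then lw ω v σ else 0

lemma measurable_eT (u : Step d) (a b : ℤ) (T : Set (Site d)) (v : Site d) :
    Measurable fun ω : Environment d => eT u a b T ω v := by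
  refine Measurable.tsum fun σ => ?_
  split_ifs
  · exact measurable_lw v σ
  · exact measurable_const

/-- the word has been at level `≤ c` and is now at level `b` -/
def U0 (u : Step d) (c b : ℤ) (x : Site d) : Set (List (Step d)) :=
  {τ | (∃ τ₁ τ₂, τ = τ₁ ++ τ₂ ∧ lev u (endp x τ₁) ≤ c) ∧ lev u (endp x τ) = b}

/-- first return to level `b` after a visit to levels `≤ c` -/
def Ret (u : Step d) (c b : ℤ) (x : Site d) : Set (List (Step d)) :=
  {τ | τ ∈ U0 u c b x ∧ ∀ l, l <+: τ → l ∈ U0 u c b x → l = τ}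

lemma pf_Ret (u : Step d) (c b : ℤ) (x : Site d) : PF (Ret u c b x) :=
  fun _ hl _ hl' hp => hl'.2 _ hp hl.1

/-- first hit of the trace of `π` (from `y`) by a word from `x`, at a level `≤ c`, before the first
return to level `b` after a visit to levels `≤ c` -/
def FH (u : Step d) (c b : ℤ) (x y : Site d) (π : List (Step d)) : Set (List (Step d)) :=
  {ρ | endp x ρ ∈ sitesL y π ∧ lev u (endp x ρ) ≤ c ∧ (∀ z ∈ sitesL x ρ, z ∉ sitesL y π) ∧
    ∀ l, l <+: ρ → l ∉ U0 u c b x}

lemma pf_FH (u : Step d) (c b : ℤ) (x y : Site d) (π : List (Step d)) : PF (FH u c b x y π) := by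
  rintro l ⟨h1, -⟩ l' ⟨-, -, h2, -⟩ ⟨l₂, rfl⟩
  by_cases h : l₂ = []
  · simp [h]
  · exact absurd h1 (h2 _ (endp_mem_sites x l l₂ h))

open Classical in
/-- (a): the local walker visits a site from which it lands in `T` with probability at most `lam`
and then lands in `T`: quenched probability at most `lam`. -/
lemma bad_le (u : Step d) (a b : ℤ) (T : Set (Site d)) (lam : ℝ≥0∞) (ω : Environment d)
    (y : Site d) :
    ∑' π, (if (Nat' u a b y π ∧ endp y π ∈ T) ∧ (∃ z ∈ sitesL y π, eT u a b T ω z ≤ lam)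
      then lw ω y π else 0) ≤ lam := by
  refine le_trans (le_of_eq (tsum_congr fun π => by congr)) (markov_bound ω y
    (A := {π | (Nat' u a b y π ∧ endp y π ∈ T) ∧
    (∃ z ∈ sitesL y π, eT u a b T ω z ≤ lam)}) (pf_FV {z | eT u a b T ω z ≤ lam} y) lam ?_ ?_)
  · rintro π ⟨-, hz⟩
    exact exists_FV _ y π (Or.inr hz)
  · rintro π₁ ⟨h1, h2⟩
    refine le_trans (ENNReal.tsum_le_tsum fun σ => ?_) h1
    by_cases h : π₁ ++ σ ∈ {π | (Nat' u a b y π ∧ endp y π ∈ T) ∧
      (∃ z ∈ sitesL y π, eT u a b T ω z ≤ lam)}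
    · rw [if_pos h, if_pos]
      exact ⟨h.1.1.tail, by have := h.1.2; rwa [endp_append] at this⟩
    · rw [if_neg h]; exact zero_le

open Classical in
/-- (b): first hits, in the first deep excursion, at sites from which the landing in `T` has
probability `> lam`. -/
lemma deep_le (u : Step d) (a b c : ℤ) (T : Set (Site d)) (lam : ℝ≥0∞)
    (ω : Environment d) (x y : Site d) (π : List (Step d)) :
    lam * ∑' ρ, (if ρ ∈ FH u c b x y π ∧ lam < eT u a b T ω (endp x ρ) then lw ω x ρ else 0)
      ≤ ∑' τ, (if τ ∈ Ret u c b x ∧ endp x τ ∈ T then lw ω x τ else 0) := by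
  set B : Set (Site d) := {v | lev u v ≤ c ∧ lam < eT u a b T ω v} with hB
  set G : Set (List (Step d)) := {ρ | ρ ∈ FV B x ∧ ∀ l, l <+: ρ → l ∉ U0 u c b x} with hG
  have hGpf : PF G := (pf_FV B x).mono fun _ h => h.1
  have h1 : ∑' ρ, (if ρ ∈ FH u c b x y π ∧ lam < eT u a b T ω (endp x ρ) then lw ω x ρ else 0)
      ≤ ∑' ρ₁, (if ρ₁ ∈ G then lw ω x ρ₁ else 0) := by
    refine (tsum_split_le _ G ?_).trans ?_
    · intro ρ hρ
      have hρ' : ρ ∈ FH u c b x y π ∧ lam < eT u a b T ω (endp x ρ) := by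
        by_contra h; exact hρ (if_neg h)
      obtain ⟨l₁, h1, h2⟩ := exists_FV B x ρ (Or.inl ⟨hρ'.1.2.1, hρ'.2⟩)
      exact ⟨l₁, ⟨h1, fun l hl => hρ'.1.2.2.2 l (hl.trans h2)⟩, h2⟩
    · refine ENNReal.tsum_le_tsum fun ρ₁ => ?_
      by_cases h : ρ₁ ∈ G
      · rw [if_pos h, if_pos h]
        have hk := kraft ω (endp x ρ₁) ((pf_FH u c b x y π).tail ρ₁)
        calc _ ≤ ∑' l₂, lw ω x ρ₁ * (if l₂ ∈ {l₂ | ρ₁ ++ l₂ ∈ FH u c b x y π} then
                lw ω (endp x ρ₁) l₂ else 0) := by
              refine ENNReal.tsum_le_tsum fun l₂ => ?_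
              by_cases h2 : ρ₁ ++ l₂ ∈ FH u c b x y π ∧ lam < eT u a b T ω (endp x (ρ₁ ++ l₂))
              · rw [if_pos h2, if_pos (show l₂ ∈ {l₂ | ρ₁ ++ l₂ ∈ FH u c b x y π} from h2.1),
                  lw_append]
              · rw [if_neg h2]; exact zero_le
          _ ≤ lw ω x ρ₁ * 1 := by
              rw [ENNReal.tsum_mul_left]; exact mul_le_mul_right hk _
          _ = _ := mul_one _
      · rw [if_neg h]; exact zero_le
  refine (mul_le_mul_right h1 _).trans ?_
  rw [← ENNReal.tsum_mul_left]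
  refine le_trans ?_ (tsum_join_le _ hGpf)
  refine ENNReal.tsum_le_tsum fun ρ₁ => ?_
  by_cases h : ρ₁ ∈ G
  · rw [if_pos h, if_pos h]
    obtain ⟨⟨⟨h3, h4⟩, h5⟩, h6⟩ := h
    calc lam * lw ω x ρ₁ ≤ eT u a b T ω (endp x ρ₁) * lw ω x ρ₁ := mul_le_mul_left h4.le _
      _ = ∑' σ, (if Nat' u a b (endp x ρ₁) σ ∧ endp (endp x ρ₁) σ ∈ T then
            lw ω (endp x ρ₁) σ else 0) * lw ω x ρ₁ := by rw [ENNReal.tsum_mul_right]; rfl
      _ ≤ _ := by
        refine ENNReal.tsum_le_tsum fun σ => ?_
        by_cases hσ : Nat' u a b (endp x ρ₁) σ ∧ endp (endp x ρ₁) σ ∈ T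
        · rw [if_pos hσ, if_pos, lw_append, mul_comm]
          refine ⟨⟨⟨⟨ρ₁, σ, rfl, h3⟩, by rw [endp_append]; exact hσ.1.2⟩, ?_⟩,
            by rw [endp_append]; exact hσ.2⟩
          intro l hl hlU
          rcases List.prefix_or_prefix_of_prefix hl (List.prefix_append ρ₁ σ) with h7 | h7
          · exact absurd hlU (h6 l h7)
          · obtain ⟨σ₁, rfl⟩ := h7
            obtain ⟨σ₂, h8⟩ := hl
            rw [List.append_assoc] at h8
            have h9 : σ = σ₁ ++ σ₂ := (List.append_cancel_left h8).symm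
            by_cases h10 : σ₂ = []
            · rw [h9, h10, List.append_nil]
            · exfalso
              have h11 : endp (endp x ρ₁) σ₁ ∈ sitesL (endp x ρ₁) σ := by
                rw [h9]; exact endp_mem_sites _ _ _ h10
              have h12 := (hσ.1.1 _ h11).2
              have h13 := hlU.2
              rw [endp_append] at h13
              omega
        · rw [if_neg hσ, zero_mul]; exact zero_le
  · rw [if_neg h, mul_zero]; exact zero_le

open Classical in
/-- (b), weighted form: no threshold. -/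
lemma ret_le (u : Step d) (a b c : ℤ) (T : Set (Site d)) (ω : Environment d) (x y : Site d)
    (π : List (Step d)) :
    ∑' ρ, (if ρ ∈ FH u c b x y π then lw ω x ρ * eT u a b T ω (endp x ρ) else 0)
      ≤ ∑' τ, (if τ ∈ Ret u c b x ∧ endp x τ ∈ T then lw ω x τ else 0) := by
  refine le_trans ?_ (tsum_join_le _ (pf_FH u c b x y π))
  refine ENNReal.tsum_le_tsum fun ρ₁ => ?_
  by_cases h : ρ₁ ∈ FH u c b x y π
  · rw [if_pos h, if_pos h]
    obtain ⟨-, h3, -, h6⟩ := h
    rw [eT, ← ENNReal.tsum_mul_left]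
    refine ENNReal.tsum_le_tsum fun σ => ?_
    by_cases hσ : Nat' u a b (endp x ρ₁) σ ∧ endp (endp x ρ₁) σ ∈ T
    · rw [if_pos hσ, if_pos, lw_append]
      refine ⟨⟨⟨⟨ρ₁, σ, rfl, h3⟩, by rw [endp_append]; exact hσ.1.2⟩, ?_⟩,
        by rw [endp_append]; exact hσ.2⟩
      intro l hl hlU
      rcases List.prefix_or_prefix_of_prefix hl (List.prefix_append ρ₁ σ) with h7 | h7
      · exact absurd hlU (h6 l h7)
      · obtain ⟨σ₁, rfl⟩ := h7
        obtain ⟨σ₂, h8⟩ := hl
        rw [List.append_assoc] at h8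
        have h9 : σ = σ₁ ++ σ₂ := (List.append_cancel_left h8).symm
        by_cases h10 : σ₂ = []
        · rw [h9, h10, List.append_nil]
        · exfalso
          have h11 : endp (endp x ρ₁) σ₁ ∈ sitesL (endp x ρ₁) σ := by
            rw [h9]; exact endp_mem_sites _ _ _ h10
          have h12 := (hσ.1.1 _ h11).2
          have h13 := hlU.2
          rw [endp_append] at h13
          omega
    · rw [if_neg hσ, mul_zero]; exact zero_le
  · rw [if_neg h]; exact zero_le

/-! ### annealed weights -/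

variable (ν : Measure (Row d)) [IsProbabilityMeasure ν]

/-- annealed weight of a word from `x` -/
noncomputable def aw (x : Site d) (l : List (Step d)) : ℝ≥0∞ :=
  ∫⁻ ω, lw ω x l ∂(iidEnvironmentLaw ν)

lemma aw_mul (x y : Site d) (l l' : List (Step d)) (h : ∀ z ∈ sitesL x l, z ∉ sitesL y l') :
    aw ν x l * aw ν y l' = ∫⁻ ω, lw ω x l * lw ω y l' ∂(iidEnvironmentLaw ν) := by
  rw [Q561.iid_lintegral_mul ν (S := {z | z ∈ sitesL x l}) (T := {z | z ∈ sitesL y l'}) ?_
    (measurable_lw x l) (measurable_lw y l') (locOn_lw x l) (locOn_lw y l')]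
  · rfl
  · rw [Set.disjoint_left]; exact fun z hz hz' => h z hz hz'

lemma lw_le_one (ω : Environment d) (x : Site d) (l : List (Step d)) : lw ω x l ≤ 1 := by
  induction l generalizing x with
  | nil => simp [lw]
  | cons e l ih =>
    simp only [lw]
    refine mul_le_one' ?_ (ih _)
    rw [← sum_env ω x]
    exact Finset.single_le_sum (f := fun e => ENNReal.ofReal ((ω x).1 e)) (fun _ _ => zero_le)
      (Finset.mem_univ e)

lemma aw_le_one (x : Site d) (l : List (Step d)) : aw ν x l ≤ 1 := by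
  unfold aw
  calc _ ≤ ∫⁻ _, 1 ∂(iidEnvironmentLaw ν) := lintegral_mono fun ω => lw_le_one ω x l
    _ = 1 := by simp

open Classical in
lemma aw_kraft (x : Site d) {A : Set (List (Step d))} (hA : PF A) :
    ∑' l, (if l ∈ A then aw ν x l else 0) ≤ 1 := by
  have : ∑' l, (if l ∈ A then aw ν x l else 0)
      = ∫⁻ ω, ∑' l, (if l ∈ A then lw ω x l else 0) ∂(iidEnvironmentLaw ν) := by
    rw [lintegral_tsum]
    · refine tsum_congr fun l => ?_
      split_ifs
      · rfl
      · simp
    · intro l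
      split_ifs
      · exact (measurable_lw x l).aemeasurable
      · exact aemeasurable_const
  rw [this]
  calc _ ≤ ∫⁻ _, 1 ∂(iidEnvironmentLaw ν) := lintegral_mono fun ω => kraft ω x hA
    _ = 1 := by simp

/-! ### dyadic classes -/

lemma exists_class {M m : ℝ≥0∞} (hM : M ≠ ⊤) (hm : m ≤ M) (hm0 : m ≠ 0) :
    ∃ j : ℕ, 2⁻¹ ^ (j + 1) * M < m ∧ m ≤ 2⁻¹ ^ j * M := by
  classical
  have ht : Filter.Tendsto (fun j : ℕ => (2⁻¹ : ℝ≥0∞) ^ (j + 1) * M) Filter.atTop (nhds 0) := by
    have h1 : Filter.Tendsto (fun j : ℕ => (2⁻¹ : ℝ≥0∞) ^ (j + 1)) Filter.atTop (nhds 0) :=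
      (ENNReal.tendsto_pow_atTop_nhds_zero_of_lt_one (by norm_num)).comp
        (Filter.tendsto_add_atTop_nat 1)
    have := ENNReal.Tendsto.mul_const (b := M) h1 (Or.inr hM)
    rwa [zero_mul] at this
  have hex : ∃ j : ℕ, (2⁻¹ : ℝ≥0∞) ^ (j + 1) * M < m :=
    ((tendsto_order.1 ht).2 m (pos_iff_ne_zero.2 hm0)).exists
  refine ⟨Nat.find hex, Nat.find_spec hex, ?_⟩
  by_cases h0 : Nat.find hex = 0
  · rw [h0, pow_zero, one_mul]; exact hm
  · obtain ⟨k, hk⟩ := Nat.exists_eq_succ_of_ne_zero h0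
    have := Nat.find_min hex (m := k) (by omega)
    rw [not_lt] at this
    rw [hk]
    exact this

/-- minimal prefixes in `S` -/
def Mn {α : Type*} (S : Set (List α)) : Set (List α) :=
  {ρ | ρ ∈ S ∧ ∀ l, l <+: ρ → l ∈ S → l = ρ}

lemma pf_Mn {α : Type*} (S : Set (List α)) : PF (Mn S) :=
  fun _ hl _ hl' hp => hl'.2 _ hp hl.1

lemma exists_Mn {α : Type*} (S : Set (List α)) (ρ : List α) (hρ : ρ ∈ S) :
    ∃ l ∈ Mn S, l <+: ρ := by
  induction hn : ρ.length using Nat.strong_induction_on generalizing ρ with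
  | _ n ih =>
    by_cases h : ∀ l, l <+: ρ → l ∈ S → l = ρ
    · exact ⟨ρ, ⟨hρ, h⟩, List.prefix_rfl⟩
    · push Not at h
      obtain ⟨l, h1, h2, h3⟩ := h
      have hlt : l.length < n := by
        rw [← hn]
        exact lt_of_le_of_ne h1.length_le fun he => h3 (h1.eq_of_length he)
      obtain ⟨l', h4, h5⟩ := ih l.length hlt l h2 rfl
      exact ⟨l', h4, h5.trans h1⟩

open Classical in
/-- total weight of the continuations of a prefix -/
noncomputable def nW (W : Set (List (Step d))) (w : List (Step d) → ℝ≥0∞) (x : Site d)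
    (ρ : List (Step d)) : ℝ≥0∞ :=
  ∑' ρ', if ρ ++ ρ' ∈ W then aw ν x (ρ ++ ρ') * w (ρ ++ ρ') else 0

open Classical in
lemma aw_cont {W : Set (List (Step d))} (hW : PF W) (x : Site d) (ρ : List (Step d)) :
    ∑' ρ', (if ρ ++ ρ' ∈ W then aw ν x (ρ ++ ρ') else 0) ≤ aw ν x ρ := by
  have : ∑' ρ', (if ρ ++ ρ' ∈ W then aw ν x (ρ ++ ρ') else 0)
      = ∫⁻ ω, ∑' ρ', (if ρ ++ ρ' ∈ W then lw ω x (ρ ++ ρ') else 0) ∂(iidEnvironmentLaw ν) := by
    rw [lintegral_tsum]
    · refine tsum_congr fun l => ?_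
      split_ifs
      · rfl
      · simp
    · intro l
      split_ifs
      · exact (measurable_lw x _).aemeasurable
      · exact aemeasurable_const
  rw [this]
  refine lintegral_mono fun ω => ?_
  calc ∑' ρ', (if ρ ++ ρ' ∈ W then lw ω x (ρ ++ ρ') else 0)
      = ∑' ρ', lw ω x ρ * (if ρ' ∈ {l | ρ ++ l ∈ W} then lw ω (endp x ρ) ρ' else 0) := by
        refine tsum_congr fun l => ?_
        by_cases h : ρ ++ l ∈ W
        · rw [if_pos h, if_pos (show l ∈ {l | ρ ++ l ∈ W} from h), lw_append]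
        · rw [if_neg h, if_neg (show l ∉ {l | ρ ++ l ∈ W} from h), mul_zero]
    _ ≤ lw ω x ρ * 1 := by
        rw [ENNReal.tsum_mul_left]
        exact mul_le_mul_right (kraft ω _ (hW.tail ρ)) _
    _ = _ := mul_one _

lemma nW_le {W : Set (List (Step d))} (hW : PF W) (w : List (Step d) → ℝ≥0∞) (M : ℝ≥0∞)
    (hw : ∀ l, w l ≤ M) (x : Site d) (ρ : List (Step d)) : nW ν W w x ρ ≤ M * aw ν x ρ := by
  classical
  refine le_trans ?_ (mul_le_mul_right (aw_cont ν hW x ρ) M)
  rw [← ENNReal.tsum_mul_left, nW]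
  refine ENNReal.tsum_le_tsum fun l => ?_
  by_cases h : ρ ++ l ∈ W
  · rw [if_pos h, if_pos h, mul_comm]
    exact mul_le_mul_left (hw _) _
  · rw [if_neg h]; exact zero_le

open Classical in
lemma nW_sum {W G : Set (List (Step d))} (hG : PF G) (w : List (Step d) → ℝ≥0∞) (x : Site d) :
    ∑' ρ, (if ρ ∈ G then nW ν W w x ρ else 0) ≤ nW ν W w x [] := by
  have := tsum_join_le (fun τ => if τ ∈ W then aw ν x τ * w τ else 0) hG
  refine le_trans (le_of_eq ?_) (this.trans (le_of_eq ?_))
  · rfl
  · simp only [nW, List.nil_append]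

/-- conditional weight -/
noncomputable def mW (W : Set (List (Step d))) (w : List (Step d) → ℝ≥0∞) (x : Site d)
    (ρ : List (Step d)) : ℝ≥0∞ := nW ν W w x ρ / aw ν x ρ

lemma mW_le {W : Set (List (Step d))} (hW : PF W) (w : List (Step d) → ℝ≥0∞) (M : ℝ≥0∞)
    (hw : ∀ l, w l ≤ M) (x : Site d) (ρ : List (Step d)) : mW ν W w x ρ ≤ M :=
  ENNReal.div_le_of_le_mul (nW_le ν hW w M hw x ρ)

lemma aw_mul_mW {W : Set (List (Step d))} (hW : PF W) (w : List (Step d) → ℝ≥0∞) (M : ℝ≥0∞)
    (hw : ∀ l, w l ≤ M) (x : Site d) (ρ : List (Step d)) :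
    aw ν x ρ * mW ν W w x ρ = nW ν W w x ρ := by
  by_cases h : aw ν x ρ = 0
  · have := nW_le ν hW w M hw x ρ
    rw [h, mul_zero] at this
    rw [h, zero_mul]
    exact (le_antisymm this zero_le).symm
  · exact ENNReal.mul_div_cancel h (ne_top_of_le_ne_top ENNReal.one_ne_top (aw_le_one ν x ρ))

open Classical in
/-- the quenched inequality behind order (3), for one start `y` of the local walker. -/
lemma quenched3 (u : Step d) (a b c : ℤ) (T : Set (Site d)) (lam M : ℝ≥0∞) (hl0 : lam ≠ 0)
    (hl1 : lam ≠ ⊤) (hM : M ≠ ⊤) (m : List (Step d) → ℝ≥0∞) (hm : ∀ l, m l ≤ M)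
    (ω : Environment d) (x y : Site d) :
    ∑' π, (if Nat' u a b y π ∧ endp y π ∈ T then
        lw ω y π * ∑' ρ, (if ρ ∈ FH u c b x y π then lw ω x ρ * m ρ else 0) else 0)
      ≤ ∑' j : ℕ, (2⁻¹ ^ j * M) * ((lam * 2⁻¹ ^ j) *
          ∑' ρ, (if ρ ∈ Mn {l | 2⁻¹ ^ (j + 1) * M < m l} then lw ω x ρ else 0))
        + lam⁻¹ * M * ∑' τ, (if τ ∈ Ret u c b x ∧ endp x τ ∈ T then lw ω x τ else 0) := by
  set V : ℕ → ℝ≥0∞ := fun j =>
    ∑' ρ, (if ρ ∈ Mn {l | 2⁻¹ ^ (j + 1) * M < m l} then lw ω x ρ else 0) with hV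
  set R : ℝ≥0∞ := ∑' τ, (if τ ∈ Ret u c b x ∧ endp x τ ∈ T then lw ω x τ else 0) with hR
  -- sum over `ρ` for a fixed `π`
  have key : ∀ π, ∑' ρ, (if ρ ∈ FH u c b x y π then lw ω x ρ * m ρ else 0)
      ≤ ∑' j : ℕ, (2⁻¹ ^ j * M) * (if (∃ z ∈ sitesL y π, eT u a b T ω z ≤ lam * 2⁻¹ ^ j)
          then V j else 0) + lam⁻¹ * M * R := by
    intro π
    have h1 : ∀ ρ, (if ρ ∈ FH u c b x y π then lw ω x ρ * m ρ else 0)
        ≤ ∑' j : ℕ, (2⁻¹ ^ j * M) * (if ρ ∈ FH u c b x y π ∧ 2⁻¹ ^ (j + 1) * M < m ρ ∧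
            eT u a b T ω (endp x ρ) ≤ lam * 2⁻¹ ^ j then lw ω x ρ else 0)
          + lam⁻¹ * M * (if ρ ∈ FH u c b x y π then lw ω x ρ * eT u a b T ω (endp x ρ) else 0) := by
      intro ρ
      by_cases hρ : ρ ∈ FH u c b x y π
      · rw [if_pos hρ, if_pos hρ]
        by_cases hm0 : m ρ = 0
        · rw [hm0, mul_zero]; exact zero_le
        · by_cases he : eT u a b T ω (endp x ρ) * M ≤ lam * m ρ
          · refine le_trans ?_ le_self_add
            obtain ⟨j, hj1, hj2⟩ := exists_class hM (hm ρ) hm0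
            have hM0 : M ≠ 0 := by
              rintro rfl
              exact hm0 (le_antisymm (hm ρ) zero_le)
            have he' : eT u a b T ω (endp x ρ) ≤ lam * 2⁻¹ ^ j := by
              have h2 : eT u a b T ω (endp x ρ) * M ≤ (lam * 2⁻¹ ^ j) * M := by
                refine he.trans ?_
                rw [mul_assoc]
                exact mul_le_mul_right hj2 _
              exact (ENNReal.mul_le_mul_iff_left hM0 hM).1 h2
            refine le_trans ?_ (ENNReal.le_tsum j)
            rw [if_pos ⟨hρ, hj1, he'⟩, mul_comm]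
            exact mul_le_mul_left hj2 _
          · refine le_trans ?_ le_add_self
            rw [not_le] at he
            have h3 : m ρ ≤ lam⁻¹ * M * eT u a b T ω (endp x ρ) := by
              calc m ρ = lam⁻¹ * (lam * m ρ) := by
                    rw [← mul_assoc, ENNReal.inv_mul_cancel hl0 hl1, one_mul]
                _ ≤ lam⁻¹ * (eT u a b T ω (endp x ρ) * M) := mul_le_mul_right he.le _
                _ = _ := by rw [mul_assoc, mul_comm M]
            calc lw ω x ρ * m ρ ≤ lw ω x ρ * (lam⁻¹ * M * eT u a b T ω (endp x ρ)) :=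
                  mul_le_mul_right h3 _
              _ = _ := by ring
      · rw [if_neg hρ]; exact zero_le
    refine (ENNReal.tsum_le_tsum h1).trans ?_
    rw [ENNReal.tsum_add, ENNReal.tsum_comm]
    refine add_le_add (ENNReal.tsum_le_tsum fun j => ?_) ?_
    · rw [ENNReal.tsum_mul_left]
      refine mul_le_mul_right ?_ _
      by_cases hz : ∃ z ∈ sitesL y π, eT u a b T ω z ≤ lam * 2⁻¹ ^ j
      · rw [if_pos hz]
        refine (tsum_split_le _ (Mn {l | 2⁻¹ ^ (j + 1) * M < m l}) ?_).trans ?_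
        · intro ρ hρ
          refine exists_Mn _ ρ ?_
          by_contra h
          exact hρ (if_neg fun h' => h h'.2.1)
        · refine ENNReal.tsum_le_tsum fun ρ₁ => ?_
          by_cases h : ρ₁ ∈ Mn {l | 2⁻¹ ^ (j + 1) * M < m l}
          · rw [if_pos h, if_pos h]
            have hk := kraft ω (endp x ρ₁) ((pf_FH u c b x y π).tail ρ₁)
            calc _ ≤ ∑' l₂, lw ω x ρ₁ * (if l₂ ∈ {l₂ | ρ₁ ++ l₂ ∈ FH u c b x y π} then
                    lw ω (endp x ρ₁) l₂ else 0) := by
                  refine ENNReal.tsum_le_tsum fun l₂ => ?_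
                  by_cases h2 : ρ₁ ++ l₂ ∈ FH u c b x y π
                  · rw [if_pos (show l₂ ∈ {l₂ | ρ₁ ++ l₂ ∈ FH u c b x y π} from h2), ← lw_append]
                    split_ifs
                    · exact le_rfl
                    · exact zero_le
                  · rw [if_neg fun h' => h2 h'.1]; exact zero_le
              _ ≤ lw ω x ρ₁ * 1 := by
                  rw [ENNReal.tsum_mul_left]; exact mul_le_mul_right hk _
              _ = _ := mul_one _
          · rw [if_neg h]; exact zero_le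
      · rw [if_neg hz]
        refine le_of_eq (ENNReal.tsum_eq_zero.2 fun ρ => if_neg ?_)
        rintro ⟨h1, -, h3⟩
        exact hz ⟨_, h1.1, h3⟩
    · rw [ENNReal.tsum_mul_left]
      exact mul_le_mul_right (ret_le u a b c T ω x y π) _
  calc _ ≤ ∑' π, ((∑' j : ℕ, (2⁻¹ ^ j * M) * (V j * (if (Nat' u a b y π ∧ endp y π ∈ T) ∧
            (∃ z ∈ sitesL y π, eT u a b T ω z ≤ lam * 2⁻¹ ^ j) then lw ω y π else 0)))
          + lam⁻¹ * M * R * (if π ∈ {π | Nat' u a b y π} then lw ω y π else 0)) := by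
        refine ENNReal.tsum_le_tsum fun π => ?_
        by_cases hπ : Nat' u a b y π ∧ endp y π ∈ T
        · rw [if_pos hπ, if_pos (show π ∈ {π | Nat' u a b y π} from hπ.1)]
          refine (mul_le_mul_right (key π) _).trans ?_
          rw [mul_add, ← ENNReal.tsum_mul_left]
          refine add_le_add (ENNReal.tsum_le_tsum fun j => ?_) (by rw [mul_comm])
          by_cases hz : ∃ z ∈ sitesL y π, eT u a b T ω z ≤ lam * 2⁻¹ ^ j
          · rw [if_pos hz, if_pos ⟨hπ, hz⟩]
            exact le_of_eq (by ring)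
          · rw [if_neg hz]; simp
        · rw [if_neg hπ]; exact zero_le
    _ ≤ _ := by
        rw [ENNReal.tsum_add, ENNReal.tsum_comm]
        refine add_le_add (ENNReal.tsum_le_tsum fun j => ?_) ?_
        · rw [ENNReal.tsum_mul_left, ENNReal.tsum_mul_left]
          refine mul_le_mul_right ?_ _
          rw [mul_comm (lam * 2⁻¹ ^ j)]
          exact mul_le_mul_right (bad_le u a b T (lam * 2⁻¹ ^ j) ω y) _
        · rw [ENNReal.tsum_mul_left]
          calc _ ≤ lam⁻¹ * M * R * 1 := mul_le_mul_right (kraft ω y (pf_Nat' u a b y)) _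
            _ = _ := mul_one _

lemma lintegral_ite_sum {ι : Type*} [Countable ι] (P : ι → Prop) [DecidablePred P] (f : ι → Environment d → ℝ≥0∞)
    (hf : ∀ i, Measurable (f i)) :
    ∫⁻ ω, ∑' i, (if P i then f i ω else 0) ∂(iidEnvironmentLaw ν)
      = ∑' i, (if P i then ∫⁻ ω, f i ω ∂(iidEnvironmentLaw ν) else 0) := by
  rw [lintegral_tsum]
  · refine tsum_congr fun i => ?_
    split_ifs
    · rfl
    · simp
  · intro i
    split_ifs
    · exact (hf i).aemeasurable
    · exact aemeasurable_const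

open Classical in
/-- order (3), one start `y`. -/
lemma win3_one (u : Step d) (a b c : ℤ) (T : Set (Site d)) (lam M : ℝ≥0∞) (hl0 : lam ≠ 0)
    (hl1 : lam ≠ ⊤) (hM : M ≠ ⊤) {W : Set (List (Step d))} (hW : PF W)
    (w : List (Step d) → ℝ≥0∞) (hw : ∀ l, w l ≤ M) (x y : Site d) :
    ∑' π, (if Nat' u a b y π ∧ endp y π ∈ T then
        aw ν y π * ∑' ρ, (if ρ ∈ FH u c b x y π then nW ν W w x ρ else 0) else 0)
      ≤ 4 * lam * nW ν W w x []
        + lam⁻¹ * M * ∑' τ, (if τ ∈ Ret u c b x ∧ endp x τ ∈ T then aw ν x τ else 0) := by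
  set m := mW ν W w x with hm
  have hmM : ∀ l, m l ≤ M := mW_le ν hW w M hw x
  have e1 : ∑' π, (if Nat' u a b y π ∧ endp y π ∈ T then
        aw ν y π * ∑' ρ, (if ρ ∈ FH u c b x y π then nW ν W w x ρ else 0) else 0)
      = ∫⁻ ω, ∑' π, (if Nat' u a b y π ∧ endp y π ∈ T then
        lw ω y π * ∑' ρ, (if ρ ∈ FH u c b x y π then lw ω x ρ * m ρ else 0) else 0)
        ∂(iidEnvironmentLaw ν) := by
    have hmeas : ∀ π, Measurable fun ω : Environment d =>
        ∑' ρ, (if ρ ∈ FH u c b x y π then lw ω x ρ * m ρ else 0) := fun π =>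
      Measurable.tsum fun ρ => by
        split_ifs
        · exact (measurable_lw x ρ).mul_const _
        · exact measurable_const
    rw [lintegral_ite_sum ν (fun π => Nat' u a b y π ∧ endp y π ∈ T) (fun π ω => lw ω y π *
      ∑' ρ, (if ρ ∈ FH u c b x y π then lw ω x ρ * m ρ else 0))
      (fun π => (measurable_lw y π).mul (hmeas π))]
    refine tsum_congr fun π => ?_
    by_cases hπ : Nat' u a b y π ∧ endp y π ∈ T
    · rw [if_pos hπ, if_pos hπ]
      rw [← ENNReal.tsum_mul_left]
      have e2 : ∀ ω : Environment d, lw ω y π *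
          ∑' ρ, (if ρ ∈ FH u c b x y π then lw ω x ρ * m ρ else 0)
          = ∑' ρ, (if ρ ∈ FH u c b x y π then (lw ω x ρ * lw ω y π) * m ρ else 0) := by
        intro ω
        rw [← ENNReal.tsum_mul_left]
        refine tsum_congr fun ρ => ?_
        split_ifs
        · ring
        · rw [mul_zero]
      rw [lintegral_congr e2, lintegral_ite_sum ν (fun ρ => ρ ∈ FH u c b x y π)
        (fun ρ ω => (lw ω x ρ * lw ω y π) * m ρ)
        (fun ρ => ((measurable_lw x ρ).mul (measurable_lw y π)).mul_const _)]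
      refine tsum_congr fun ρ => ?_
      by_cases hρ : ρ ∈ FH u c b x y π
      · have hmm : Measurable fun ω : Environment d => lw ω x ρ * lw ω y π :=
          (measurable_lw x ρ).mul (measurable_lw y π)
        rw [if_pos hρ, if_pos hρ, lintegral_mul_const _ hmm,
          ← aw_mul ν x y ρ π hρ.2.2.1, ← aw_mul_mW ν hW w M hw x ρ]
        ring
      · rw [if_neg hρ, if_neg hρ, mul_zero]
    · rw [if_neg hπ, if_neg hπ]
  rw [e1]
  have hmV : ∀ j : ℕ, Measurable fun ω : Environment d =>
      ∑' ρ, (if ρ ∈ Mn {l | 2⁻¹ ^ (j + 1) * M < m l} then lw ω x ρ else 0) := fun j =>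
    Measurable.tsum fun ρ => by
      split_ifs
      · exact measurable_lw x ρ
      · exact measurable_const
  have hmR : Measurable fun ω : Environment d =>
      ∑' τ, (if τ ∈ Ret u c b x ∧ endp x τ ∈ T then lw ω x τ else 0) :=
    Measurable.tsum fun ρ => by
      split_ifs
      · exact measurable_lw x ρ
      · exact measurable_const
  refine (lintegral_mono fun ω => quenched3 u a b c T lam M hl0 hl1 hM m hmM ω x y).trans ?_
  rw [lintegral_add_right _ (hmR.const_mul _), lintegral_const_mul _ hmR,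
    lintegral_ite_sum ν (fun τ => τ ∈ Ret u c b x ∧ endp x τ ∈ T) (fun τ ω => lw ω x τ)
      (fun τ => measurable_lw x τ),
    lintegral_tsum fun j => (((hmV j).const_mul _).const_mul _).aemeasurable]
  refine add_le_add ?_ le_rfl
  have hj : ∀ j : ℕ, ∫⁻ ω, (2⁻¹ ^ j * M) * ((lam * 2⁻¹ ^ j) *
          ∑' ρ, (if ρ ∈ Mn {l | 2⁻¹ ^ (j + 1) * M < m l} then lw ω x ρ else 0))
          ∂(iidEnvironmentLaw ν) ≤ 2⁻¹ ^ j * (2 * lam * nW ν W w x []) := by
    intro j
    rw [lintegral_const_mul _ ((hmV j).const_mul _), lintegral_const_mul _ (hmV j),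
      lintegral_ite_sum ν (fun ρ => ρ ∈ Mn {l | 2⁻¹ ^ (j + 1) * M < m l}) (fun τ ω => lw ω x τ)
      (fun τ => measurable_lw x τ)]
    have h1 : (2⁻¹ ^ (j + 1) * M) * ∑' ρ, (if ρ ∈ Mn {l | 2⁻¹ ^ (j + 1) * M < m l} then
        ∫⁻ ω, lw ω x ρ ∂(iidEnvironmentLaw ν) else 0) ≤ nW ν W w x [] := by
      rw [← ENNReal.tsum_mul_left]
      refine le_trans (ENNReal.tsum_le_tsum fun ρ => ?_)
        (nW_sum ν (pf_Mn {l | 2⁻¹ ^ (j + 1) * M < m l}) w x)
      by_cases h : ρ ∈ Mn {l | 2⁻¹ ^ (j + 1) * M < m l}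
      · rw [if_pos h, if_pos h, ← aw_mul_mW ν hW w M hw x ρ, mul_comm]
        exact mul_le_mul_right (le_of_lt h.1) _
      · rw [if_neg h, mul_zero]; exact zero_le
    have h2 : (2⁻¹ : ℝ≥0∞) ^ j = 2 * 2⁻¹ ^ (j + 1) := by
      rw [pow_succ, mul_comm, mul_assoc, ENNReal.inv_mul_cancel (by norm_num) (by norm_num),
        mul_one]
    calc _ = 2⁻¹ ^ j * (2 * lam * ((2⁻¹ ^ (j + 1) * M) *
          ∑' ρ, (if ρ ∈ Mn {l | 2⁻¹ ^ (j + 1) * M < m l} then
            ∫⁻ ω, lw ω x ρ ∂(iidEnvironmentLaw ν) else 0))) := by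
          nth_rewrite 1 [h2]
          ring
      _ ≤ _ := mul_le_mul_right (mul_le_mul_right h1 _) _
  refine (ENNReal.tsum_le_tsum hj).trans ?_
  rw [ENNReal.tsum_mul_right]
  have h3 : ∑' j : ℕ, (2⁻¹ : ℝ≥0∞) ^ j = 2 := by
    rw [ENNReal.tsum_geometric]
    rw [ENNReal.one_sub_inv_two, inv_inv]
  rw [h3]
  exact le_of_eq (by ring)

open Classical in
lemma sum_anchor (E : Finset (Site d)) (S : Set (List (Step d))) (P : Site d → Prop) (x : Site d)
    (g : List (Step d) → ℝ≥0∞) :
    ∑' y, (if P y then ∑' τ, (if τ ∈ S ∧ endp x τ - y ∈ E then g τ else 0) else 0)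
      ≤ E.card * ∑' τ, (if τ ∈ S then g τ else 0) := by
  calc _ ≤ ∑' y, ∑' τ, (if τ ∈ S ∧ endp x τ - y ∈ E then g τ else 0) := by
        refine ENNReal.tsum_le_tsum fun y => ?_
        split_ifs
        · exact le_rfl
        · exact zero_le
    _ = ∑' τ, ∑' y, (if τ ∈ S ∧ endp x τ - y ∈ E then g τ else 0) := ENNReal.tsum_comm
    _ ≤ ∑' τ, E.card * (if τ ∈ S then g τ else 0) := by
        refine ENNReal.tsum_le_tsum fun τ => ?_
        by_cases h : τ ∈ S
        · simp only [h, true_and, if_true]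
          rw [← (Equiv.subLeft (endp x τ)).tsum_eq (fun y => if endp x τ - y ∈ E then g τ else 0)]
          simp only [Equiv.subLeft_apply, sub_sub_cancel]
          rw [tsum_eq_sum (s := E) (fun y hy => if_neg hy)]
          rw [Finset.sum_congr rfl (fun y hy => if_pos hy), Finset.sum_const, nsmul_eq_mul]
        · simp [h]
    _ = _ := ENNReal.tsum_mul_left

open Classical in
/-- **Window lemma (3)**: the local walker (summed over its starts `y`) crosses from level `a` to
level `b` and lands in `y + E`; the other one starts at the fixed site `x`; the weight `w y τ` is a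
function of its whole word. -/
theorem win3 (u : Step d) (a b c : ℤ) (E : Finset (Site d)) (lam M : ℝ≥0∞) (hl0 : lam ≠ 0)
    (hl1 : lam ≠ ⊤) (hM : M ≠ ⊤) {W : Set (List (Step d))} (hW : PF W)
    (w : Site d → List (Step d) → ℝ≥0∞) (hw : ∀ y l, w y l ≤ M) (x : Site d) :
    ∑' y, (if lev u y = a then ∑' π, (if Nat' u a b y π ∧ endp y π - y ∈ E then
        aw ν y π * ∑' ρ, (if ρ ∈ FH u c b x y π then nW ν W (w y) x ρ else 0) else 0) else 0)
      ≤ 4 * lam * ∑' y, (if lev u y = a then nW ν W (w y) x [] else 0)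
        + lam⁻¹ * M * (E.card * ∑' τ, (if τ ∈ Ret u c b x then aw ν x τ else 0)) := by
  calc _ ≤ ∑' y, (4 * lam * (if lev u y = a then nW ν W (w y) x [] else 0)
          + lam⁻¹ * M * (if lev u y = a then
            ∑' τ, (if τ ∈ Ret u c b x ∧ endp x τ - y ∈ E then aw ν x τ else 0) else 0)) := by
        refine ENNReal.tsum_le_tsum fun y => ?_
        by_cases hy : lev u y = a
        · rw [if_pos hy, if_pos hy, if_pos hy]
          have h := win3_one ν u a b c {z | z - y ∈ E} lam M hl0 hl1 hM hW (w y) (hw y) x y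
          refine le_trans (le_of_eq ?_) (h.trans (le_of_eq ?_))
          · exact tsum_congr fun π => by congr
          · refine congrArg₂ _ rfl (congrArg₂ _ rfl (tsum_congr fun τ => ?_))
            by_cases h6 : τ ∈ Ret u c b x ∧ endp x τ - y ∈ E
            · rw [if_pos h6, if_pos (show _ ∧ endp x τ ∈ {z | z - y ∈ E} from h6)]
            · rw [if_neg h6, if_neg (show ¬ (_ ∧ endp x τ ∈ {z | z - y ∈ E}) from h6)]
        · rw [if_neg hy]; exact zero_le
    _ ≤ _ := by
        rw [ENNReal.tsum_add, ENNReal.tsum_mul_left, ENNReal.tsum_mul_left]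
        have h := sum_anchor E (Ret u c b x) (fun y => lev u y = a) x (aw ν x)
        refine add_le_add le_rfl (mul_le_mul_right (le_trans (le_of_eq ?_) h) _)
        exact tsum_congr fun y => by congr

/-! ### translations -/

lemma endp_add (x t : Site d) (l : List (Step d)) : endp (x + t) l = endp x l + t := by
  rw [endp_eq_add l (x + t), endp_eq_add l x]; abel

lemma lw_shift (ω : Environment d) (x t : Site d) (l : List (Step d)) :
    lw ω (x + t) l = lw (shiftEnv t ω) x l := by
  induction l generalizing x with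
  | nil => rfl
  | cons e l ih =>
    simp only [lw]
    rw [add_right_comm, ih]
    rfl

lemma mem_sites_shift (x t z : Site d) (l : List (Step d)) :
    z + t ∈ sitesL (x + t) l ↔ z ∈ sitesL x l := by
  induction l generalizing x with
  | nil => simp [sitesL]
  | cons e l ih =>
    simp only [sitesL, List.mem_cons]
    rw [add_right_comm, ih, add_left_inj]

lemma aw_shift (x t : Site d) (l : List (Step d)) : aw ν (x + t) l = aw ν x l := by
  unfold aw
  simp_rw [lw_shift]
  exact (Q561.iid_shift ν t).lintegral_comp (measurable_lw x l)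

lemma aw_eq (x : Site d) (l : List (Step d)) : aw ν x l = aw ν 0 l := by
  have := aw_shift ν 0 x l
  rwa [zero_add] at this

lemma Nat'_shift (u : Step d) (a b : ℤ) (x t : Site d) (ht : lev u t = 0) (l : List (Step d)) :
    Nat' u a b (x + t) l ↔ Nat' u a b x l := by
  have hl : ∀ z : Site d, lev u (z + t) = lev u z := fun z => by rw [lev_add, ht, add_zero]
  unfold Nat'
  rw [endp_add, hl]
  refine and_congr_left fun _ => ⟨fun h z hz => ?_, fun h z hz => ?_⟩
  · have := h (z + t) ((mem_sites_shift x t z l).2 hz)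
    rwa [hl] at this
  · have h1 := h (z - t) (by rw [← mem_sites_shift x t, sub_add_cancel]; exact hz)
    have h2 := hl (z - t)
    rw [sub_add_cancel] at h2
    rwa [← h2] at h1

lemma eT_shift (u : Step d) (a b : ℤ) (T : Set (Site d)) (ω : Environment d) (v t : Site d)
    (ht : lev u t = 0) :
    eT u a b T ω (v + t) = eT u a b {z | z + t ∈ T} (shiftEnv t ω) v := by
  classical
  unfold eT
  refine tsum_congr fun σ => ?_
  have : (Nat' u a b (v + t) σ ∧ endp (v + t) σ ∈ T)
      ↔ (Nat' u a b v σ ∧ endp v σ ∈ {z | z + t ∈ T}) := by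
    rw [Nat'_shift u a b v t ht, endp_add]; rfl
  by_cases h : Nat' u a b v σ ∧ endp v σ ∈ {z | z + t ∈ T}
  · rw [if_pos h, if_pos (this.2 h), lw_shift]
  · rw [if_neg h, if_neg fun h' => h (this.1 h')]

/-- landing set of a start `y` -/
def TE (E : Finset (Site d)) (y : Site d) : Set (Site d) := {z | z - y ∈ E}

/-- the bad event of order (2) -/
def Bd (u : Step d) (a b : ℤ) (E : Finset (Site d)) (lam : ℝ≥0∞) (ω : Environment d) (y : Site d)
    (π : List (Step d)) : Prop :=
  (Nat' u a b y π ∧ endp y π ∈ TE E y) ∧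
    ∃ z ∈ sitesL y π, eT u a b (TE E y) ω z ≤ lam

lemma Bd_shift (u : Step d) (a b : ℤ) (E : Finset (Site d)) (lam : ℝ≥0∞) (ω : Environment d)
    (y t : Site d) (ht : lev u t = 0) (π : List (Step d)) :
    Bd u a b E lam ω (y + t) π ↔ Bd u a b E lam (shiftEnv t ω) y π := by
  have hT : {z : Site d | z + t ∈ TE E (y + t)} = TE E y := by
    ext z; simp [TE]
  have he : ∀ z : Site d, eT u a b (TE E (y + t)) ω (z + t)
      = eT u a b (TE E y) (shiftEnv t ω) z := fun z => by
    rw [eT_shift u a b _ ω z t ht, hT]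
  unfold Bd
  refine and_congr (and_congr (Nat'_shift u a b y t ht π) ?_) ⟨?_, ?_⟩
  · rw [endp_add]; simp [TE]
  · rintro ⟨z, hz, h⟩
    refine ⟨z - t, by rw [← mem_sites_shift y t, sub_add_cancel]; exact hz, ?_⟩
    rw [← he, sub_add_cancel]; exact h
  · rintro ⟨z, hz, h⟩
    exact ⟨z + t, (mem_sites_shift y t z π).2 hz, by rw [he]; exact h⟩

open Classical in
lemma measurable_Bd (u : Step d) (a b : ℤ) (E : Finset (Site d)) (lam : ℝ≥0∞) (y : Site d)
    (π : List (Step d)) :
    Measurable fun ω : Environment d => if Bd u a b E lam ω y π then lw ω y π else 0 := by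
  refine Measurable.ite ?_ (measurable_lw y π) measurable_const
  by_cases h : Nat' u a b y π ∧ endp y π ∈ TE E y
  · have : {ω : Environment d | Bd u a b E lam ω y π}
        = ⋃ z ∈ {z | z ∈ sitesL y π}, {ω | eT u a b (TE E y) ω z ≤ lam} := by
      ext ω
      simp only [Bd, h, true_and, Set.mem_ofPred_eq, Set.mem_iUnion, exists_prop]
    rw [this]
    exact MeasurableSet.biUnion (Set.to_countable _) fun z _ =>
      measurableSet_le (measurable_eT u a b _ z) measurable_const
  · have : {ω : Environment d | Bd u a b E lam ω y π} = ∅ :=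
      Set.eq_empty_of_forall_notMem fun ω hω => h hω.1
    rw [this]
    exact MeasurableSet.empty

open Classical in
lemma quenched2 (u : Step d) (a b c : ℤ) (E : Finset (Site d)) (lam M : ℝ≥0∞) (hl0 : lam ≠ 0)
    (hl1 : lam ≠ ⊤) (D : Site d → ℝ≥0∞) (hD : ∀ z, D z ≤ M) (ω : Environment d) (x y : Site d) :
    ∑' π, (if Nat' u a b y π ∧ endp y π ∈ TE E y then
        lw ω y π * D (endp y π) * ∑' ρ, (if ρ ∈ FH u c b x y π then lw ω x ρ else 0) else 0)
      ≤ ∑' π, (if Bd u a b E lam ω y π then lw ω y π else 0) * D (endp y π)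
        + lam⁻¹ * M * ∑' τ, (if τ ∈ Ret u c b x ∧ endp x τ ∈ TE E y then lw ω x τ else 0) := by
  set R : ℝ≥0∞ :=
    ∑' τ, (if τ ∈ Ret u c b x ∧ endp x τ ∈ TE E y then lw ω x τ else 0) with hR
  have key : ∀ π, ∑' ρ, (if ρ ∈ FH u c b x y π then lw ω x ρ else 0)
      ≤ (if (∃ z ∈ sitesL y π, eT u a b (TE E y) ω z ≤ lam) then 1 else 0) + lam⁻¹ * R := by
    intro π
    by_cases hz : ∃ z ∈ sitesL y π, eT u a b (TE E y) ω z ≤ lam
    · rw [if_pos hz]
      exact (kraft ω x (pf_FH u c b x y π)).trans le_self_add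
    · rw [if_neg hz, zero_add]
      refine le_trans ?_ (mul_le_mul_right (ret_le u a b c (TE E y) ω x y π) _)
      rw [← ENNReal.tsum_mul_left]
      refine ENNReal.tsum_le_tsum fun ρ => ?_
      by_cases hρ : ρ ∈ FH u c b x y π
      · rw [if_pos hρ, if_pos hρ]
        have h1 : lam < eT u a b (TE E y) ω (endp x ρ) := by
          by_contra h; exact hz ⟨_, hρ.1, not_lt.1 h⟩
        calc lw ω x ρ = lam⁻¹ * (lw ω x ρ * lam) := by
              rw [mul_comm (lw ω x ρ), ← mul_assoc, ENNReal.inv_mul_cancel hl0 hl1, one_mul]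
          _ ≤ _ := mul_le_mul_right (mul_le_mul_right h1.le _) _
      · rw [if_neg hρ]; exact zero_le
  calc _ ≤ ∑' π, ((if Bd u a b E lam ω y π then lw ω y π else 0) * D (endp y π)
          + lam⁻¹ * M * R * (if π ∈ {π | Nat' u a b y π} then lw ω y π else 0)) := by
        refine ENNReal.tsum_le_tsum fun π => ?_
        by_cases hπ : Nat' u a b y π ∧ endp y π ∈ TE E y
        · rw [if_pos hπ, if_pos (show π ∈ {π | Nat' u a b y π} from hπ.1)]
          refine (mul_le_mul_right (key π) _).trans ?_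
          rw [mul_add]
          refine add_le_add ?_ ?_
          · by_cases hz : ∃ z ∈ sitesL y π, eT u a b (TE E y) ω z ≤ lam
            · rw [if_pos hz, if_pos (show Bd u a b E lam ω y π from ⟨hπ, hz⟩), mul_one]
            · rw [if_neg hz, mul_zero]; exact zero_le
          · calc lw ω y π * D (endp y π) * (lam⁻¹ * R)
                ≤ lw ω y π * M * (lam⁻¹ * R) :=
                  mul_le_mul_left (mul_le_mul_right (hD _) _) _
              _ = _ := by ring
        · rw [if_neg hπ]; exact zero_le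
    _ ≤ _ := by
        rw [ENNReal.tsum_add, ENNReal.tsum_mul_left]
        refine add_le_add le_rfl ?_
        calc _ ≤ lam⁻¹ * M * R * 1 := mul_le_mul_right (kraft ω y (pf_Nat' u a b y)) _
          _ = _ := mul_one _

open Classical in
/-- **Window lemma (2)**: the local walker, summed over its starts `y`, carries the weight `D` of
its landing point; the other one starts at the fixed site `x`. -/
theorem win2 (u : Step d) (a b c : ℤ) (E : Finset (Site d)) (lam M : ℝ≥0∞) (hl0 : lam ≠ 0)
    (hl1 : lam ≠ ⊤) (D : Site d → ℝ≥0∞) (hD : ∀ z, D z ≤ M) (x : Site d) :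
    ∑' y, (if lev u y = a then ∑' π, (if Nat' u a b y π ∧ endp y π ∈ TE E y then
        aw ν y π * D (endp y π) * ∑' ρ, (if ρ ∈ FH u c b x y π then aw ν x ρ else 0) else 0) else 0)
      ≤ lam * ∑' z, D z
        + lam⁻¹ * M * (E.card * ∑' τ, (if τ ∈ Ret u c b x then aw ν x τ else 0)) := by
  have hmR : ∀ y, Measurable fun ω : Environment d =>
      ∑' τ, (if τ ∈ Ret u c b x ∧ endp x τ ∈ TE E y then lw ω x τ else 0) := fun y =>
    Measurable.tsum fun ρ => by
      split_ifs
      · exact measurable_lw x ρ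
      · exact measurable_const
  set g : Site d → List (Step d) → ℝ≥0∞ := fun y π =>
    ∫⁻ ω, (if Bd u a b E lam ω y π then lw ω y π else 0) ∂(iidEnvironmentLaw ν) with hg
  -- one start
  have one : ∀ y, ∑' π, (if Nat' u a b y π ∧ endp y π ∈ TE E y then
        aw ν y π * D (endp y π) * ∑' ρ, (if ρ ∈ FH u c b x y π then aw ν x ρ else 0) else 0)
      ≤ ∑' π, g y π * D (endp y π) + lam⁻¹ * M *
        ∑' τ, (if τ ∈ Ret u c b x ∧ endp x τ ∈ TE E y then aw ν x τ else 0) := by
    intro y
    have hmeas : ∀ π, Measurable fun ω : Environment d =>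
        ∑' ρ, (if ρ ∈ FH u c b x y π then lw ω x ρ else 0) := fun π =>
      Measurable.tsum fun ρ => by
        split_ifs
        · exact measurable_lw x ρ
        · exact measurable_const
    have e1 : ∑' π, (if Nat' u a b y π ∧ endp y π ∈ TE E y then
        aw ν y π * D (endp y π) * ∑' ρ, (if ρ ∈ FH u c b x y π then aw ν x ρ else 0) else 0)
        = ∫⁻ ω, ∑' π, (if Nat' u a b y π ∧ endp y π ∈ TE E y then
          lw ω y π * D (endp y π) * ∑' ρ, (if ρ ∈ FH u c b x y π then lw ω x ρ else 0) else 0)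
          ∂(iidEnvironmentLaw ν) := by
      rw [lintegral_ite_sum ν (fun π => Nat' u a b y π ∧ endp y π ∈ TE E y) (fun π ω => lw ω y π *
        D (endp y π) * ∑' ρ, (if ρ ∈ FH u c b x y π then lw ω x ρ else 0))
        (fun π => ((measurable_lw y π).mul_const _).mul (hmeas π))]
      refine tsum_congr fun π => ?_
      by_cases hπ : Nat' u a b y π ∧ endp y π ∈ TE E y
      · rw [if_pos hπ, if_pos hπ]
        rw [← ENNReal.tsum_mul_left]
        have e2 : ∀ ω : Environment d, lw ω y π * D (endp y π) *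
            ∑' ρ, (if ρ ∈ FH u c b x y π then lw ω x ρ else 0)
            = ∑' ρ, (if ρ ∈ FH u c b x y π then (lw ω x ρ * lw ω y π) * D (endp y π) else 0) := by
          intro ω
          rw [← ENNReal.tsum_mul_left]
          refine tsum_congr fun ρ => ?_
          split_ifs
          · ring
          · rw [mul_zero]
        rw [lintegral_congr e2, lintegral_ite_sum ν (fun ρ => ρ ∈ FH u c b x y π)
          (fun ρ ω => (lw ω x ρ * lw ω y π) * D (endp y π))
          (fun ρ => ((measurable_lw x ρ).mul (measurable_lw y π)).mul_const _)]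
        refine tsum_congr fun ρ => ?_
        by_cases hρ : ρ ∈ FH u c b x y π
        · have hmm : Measurable fun ω : Environment d => lw ω x ρ * lw ω y π :=
            (measurable_lw x ρ).mul (measurable_lw y π)
          rw [if_pos hρ, if_pos hρ, lintegral_mul_const _ hmm, ← aw_mul ν x y ρ π hρ.2.2.1]
          ring
        · rw [if_neg hρ, if_neg hρ, mul_zero]
      · rw [if_neg hπ, if_neg hπ]
    rw [e1]
    refine (lintegral_mono fun ω => quenched2 u a b c E lam M hl0 hl1 D hD ω x y).trans ?_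
    rw [lintegral_add_right _ ((hmR y).const_mul _), lintegral_const_mul _ (hmR y),
      lintegral_ite_sum ν (fun τ => τ ∈ Ret u c b x ∧ endp x τ ∈ TE E y) (fun τ ω => lw ω x τ)
        (fun τ => measurable_lw x τ),
      lintegral_tsum fun π => ((measurable_Bd u a b E lam y π).mul_const _).aemeasurable]
    refine add_le_add (ENNReal.tsum_le_tsum fun π => ?_) le_rfl
    rw [lintegral_mul_const _ (measurable_Bd u a b E lam y π)]
  -- translation
  have gsh : ∀ y t π, lev u t = 0 → g (y + t) π = g y π := by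
    intro y t π ht
    rw [hg]
    simp only
    rw [← (Q561.iid_shift ν t).lintegral_comp (measurable_Bd u a b E lam y π)]
    refine lintegral_congr fun ω => ?_
    by_cases h : Bd u a b E lam (shiftEnv t ω) y π
    · rw [if_pos h, if_pos ((Bd_shift u a b E lam ω y t ht π).2 h), lw_shift]
    · rw [if_neg h, if_neg fun h' => h ((Bd_shift u a b E lam ω y t ht π).1 h')]
  have gsum : ∀ y, ∑' π, g y π ≤ lam := by
    intro y
    rw [hg]
    simp only
    rw [← lintegral_tsum fun π => (measurable_Bd u a b E lam y π).aemeasurable]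
    have h1 : ∀ ω : Environment d,
        ∑' π, (if Bd u a b E lam ω y π then lw ω y π else 0) ≤ lam := fun ω => by
      refine le_trans (le_of_eq (tsum_congr fun π => ?_)) (bad_le u a b (TE E y) lam ω y)
      by_cases h : Bd u a b E lam ω y π
      · rw [if_pos h]; exact (if_pos (show (Nat' u a b y π ∧ endp y π ∈ TE E y) ∧
          ∃ z ∈ sitesL y π, eT u a b (TE E y) ω z ≤ lam from h)).symm
      · rw [if_neg h]; exact (if_neg (show ¬ ((Nat' u a b y π ∧ endp y π ∈ TE E y) ∧
          ∃ z ∈ sitesL y π, eT u a b (TE E y) ω z ≤ lam) from h)).symm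
    calc _ ≤ ∫⁻ _, lam ∂(iidEnvironmentLaw ν) := lintegral_mono h1
      _ = lam := by simp
  have first : ∑' y, (if lev u y = a then ∑' π, g y π * D (endp y π) else 0) ≤ lam * ∑' z, D z := by
    by_cases hex : ∃ y₀, lev u y₀ = a
    · obtain ⟨y₀, hy₀⟩ := hex
      calc _ ≤ ∑' y, ∑' π, g y₀ π * D (y + endp 0 π) := by
            refine ENNReal.tsum_le_tsum fun y => ?_
            by_cases hy : lev u y = a
            · rw [if_pos hy]
              refine le_of_eq (tsum_congr fun π => ?_)
              have h0 : lev u (y - y₀) = 0 := by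
                rw [sub_eq_add_neg, lev_add, lev_neg, hy, hy₀]; ring
              have h1 := gsh y₀ (y - y₀) π h0
              rw [add_sub_cancel] at h1
              rw [h1, endp_eq_add π y]
            · rw [if_neg hy]; exact zero_le
        _ = ∑' π, ∑' y, g y₀ π * D (y + endp 0 π) := ENNReal.tsum_comm
        _ = ∑' π, g y₀ π * ∑' z, D z := by
            refine tsum_congr fun π => ?_
            rw [ENNReal.tsum_mul_left]
            congr 1
            exact (Equiv.addRight (endp 0 π)).tsum_eq D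
        _ ≤ _ := by
            rw [ENNReal.tsum_mul_right]
            exact mul_le_mul_left (gsum y₀) _
    · push Not at hex
      rw [ENNReal.tsum_eq_zero.2 fun y => if_neg (hex y)]
      exact zero_le
  calc _ ≤ ∑' y, ((if lev u y = a then ∑' π, g y π * D (endp y π) else 0)
          + lam⁻¹ * M * (if lev u y = a then
            ∑' τ, (if τ ∈ Ret u c b x ∧ endp x τ - y ∈ E then aw ν x τ else 0) else 0)) := by
        refine ENNReal.tsum_le_tsum fun y => ?_
        by_cases hy : lev u y = a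
        · rw [if_pos hy, if_pos hy, if_pos hy]
          refine (one y).trans (add_le_add le_rfl (mul_le_mul_right (le_of_eq ?_) _))
          refine tsum_congr fun τ => ?_
          by_cases h6 : τ ∈ Ret u c b x ∧ endp x τ - y ∈ E
          · rw [if_pos h6, if_pos (show _ ∧ endp x τ ∈ TE E y from h6)]
          · rw [if_neg h6, if_neg (show ¬ (_ ∧ endp x τ ∈ TE E y) from h6)]
        · rw [if_neg hy]; exact zero_le
    _ ≤ _ := by
        rw [ENNReal.tsum_add, ENNReal.tsum_mul_left]
        refine add_le_add first (mul_le_mul_right ?_ _)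
        have h := sum_anchor E (Ret u c b x) (fun y => lev u y = a) x (aw ν x)
        refine le_trans (le_of_eq ?_) h
        exact tsum_congr fun y => by congr

end Crest.Agent.R154.Win130
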