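import Crest.Agent.R154.HW_660
import Crest.Agent.R154.Win_775
import Crest.Agent.R154.Win_130
import Crest.Agent.R154.UsW_778

/-! Row 154, NBProp, ROAD 801 (helper660): the two window inputs E3 (E2 in E2_660) at the exact frame
(common height `H`, common cut levels), in words. -/

set_option autoImplicit false

namespace Crest.Agent.R154.E660

open MeasureTheory ProbabilityTheory Crest.ProbabilityR.RandomEnvironment Crest.Agent.R154
open Crest.Agent.R154.Flux132 (lev opp)
open Crest.Agent.R154.Flux566 (lw endp sitesL)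
open Crest.Agent.R154.NB28 (IsUp IsDn aw Cm)
open scoped ENNReal Topology
open Filter

variable {d : ℕ}

/-- 775's window lemma is `HW660.Win3` -/
theorem win3 (ν : Measure (Row d)) [IsProbabilityMeasure ν] : HW660.Win3 ν := by
  classical
  intro Q A S' T' S T δ M N r lam hd hS' hS hT hδ hδ1 hN hr hM hM' hl hl'
  have key := Win775.win3 (ν := ν) (y := 0) (Q := Q) (A := A) (S' := S') (T' := T') (S := S)
    (T := T) (δ := δ) (M := M) (lam := lam) (N := N) (r := r) hM hM' hl hl' hd hδ hδ1 hS hT hS'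
    (fun z => le_trans (le_of_eq (tsum_congr fun x => by congr)) (hN z))
    (le_trans (le_of_eq (tsum_congr fun σ => by congr)) hr)
  rw [← mul_assoc] at key
  refine le_trans ?_ key
  refine ENNReal.tsum_le_tsum fun x => ENNReal.tsum_le_tsum fun ρ => ENNReal.tsum_le_tsum fun π => ?_
  by_cases h : HW660.FP (S x) (T x) x ρ ∧ HW660.FP S' T' 0 π ∧ HW660.FH (sitesL x ρ) A 0 π
  · rw [if_pos h]
    obtain ⟨h1, h2, π1, e, π2, h3, h4, h5, h6⟩ := h
    have hH : Win775.Hit x ρ 0 A π := ⟨π1, e :: π2, h3, h4, h5, h6⟩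
    rw [if_pos ⟨h1, h2, hH⟩]
    refine le_of_eq ?_
    have e1 : Win775.awx ν x ρ = aw ν ρ := by
      rw [show Win775.awx ν x ρ = Win130.aw ν x ρ from rfl, Win130.aw_eq]; rfl
    have e2 : Win775.awx ν 0 π = aw ν π := rfl
    rw [e1, e2, mul_assoc]
  · rw [if_neg h]; exact zero_le

lemma stepVec_opp' (u : Step d) : stepVec (opp u) = -stepVec u := by
  have : Flux132.opp u = Flux566.opp u := rfl
  rw [this, Flux566.stepVec_opp]

lemma lev_self' (u : Step d) : lev u (stepVec u) = 1 := Flux132.lev_step_self u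

/-- the words of `ret` bump `s` above the start and come back -/
lemma ret_le (ν : Measure (Row d)) [IsProbabilityMeasure ν] (u : Step d) (s : ℕ) :
    HW660.ret ν u 1 s ≤ Us778.us ν u s := by
  classical
  set Q : Set (Site d) := {y | lev u y ≤ -((1 : ℕ) : ℤ)} with hQ
  refine le_trans ?_ (le_trans (Us778.bump_words (iidEnvironmentLaw ν) u s
    {σ | HW660.FP Qᶜ Q 0 σ ∧ ∃ z ∈ sitesL 0 σ, (s : ℤ) ≤ lev u z} ?_ ?_) le_add_self)
  · unfold HW660.ret
    refine le_of_eq (tsum_congr fun σ => ?_)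
    by_cases h : HW660.FP Qᶜ Q 0 σ ∧ ∃ z ∈ sitesL 0 σ, (s : ℤ) ≤ lev u z
    · rw [if_pos h, if_pos (by exact h)]; rfl
    · rw [if_neg h, if_neg (by exact h)]
  · rintro l ⟨h1, -⟩ l' ⟨h2, -⟩ ⟨l2, rfl⟩
    by_cases h : l2 = []
    · simp [h]
    · exact absurd h1.2 (h2.1 _ (Win130.endp_mem_sites 0 l l2 h))
  · rintro l ⟨h1, z, hz, hsz⟩
    obtain ⟨l1, l2, h3, -, h4, -⟩ := Win130.exists_split_of_mem 0 l z hz
    refine ⟨⟨l1, ⟨l2, h3.symm⟩, by rw [h4]; exact hsz⟩, ?_⟩
    have h5 : lev u (endp 0 l) ≤ -((1 : ℕ) : ℤ) := h1.2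
    have h6 : lev u (endp 0 l) ≤ 0 := by push_cast at h5; omega
    exact h6

open Classical in
/-- **E3** at the exact frame: the down word is local -/
theorem E3 (ν : Measure (Row d)) [IsProbabilityMeasure ν] (u : Step d) (s H : ℕ)
    (E : Finset (Site d)) (μ : Site d → ℝ≥0∞) (M lam : ℝ≥0∞) (hμ : ∑' x, μ x ≤ 1)
    (hM : ∀ x, μ x ≤ M) (hl : lam ≠ 0) (hlt : lam ≠ ⊤) :
    ∑' x : Site d, (if lev u x = 0 then μ x * ∑' π : List (Step d), ∑' γ : List (Step d),
      (if IsUp u H π ∧ endp 0 γ ∈ E ∧ IsDn u H γ ∧ (∃ k, k ∈ Cm u x π γ) ∧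
        (∀ k ∈ Cm u x π γ, k + s ≤ H) then aw ν π * aw ν γ else 0) else 0)
      ≤ 4 * (lam + M * E.card * Us778.us ν u s / lam) := by
  by_cases hM0 : M = 0
  · have h0 : ∀ x, μ x = 0 := fun x => le_antisymm ((hM x).trans hM0.le) zero_le
    simp [h0]
  set z : Site d := stepVec (opp u) with hz
  have hlz : lev u z = -1 := by
    rw [hz, stepVec_opp', HW660.lev_neg', lev_self']
  have hμ1 : ∀ x, μ x ≤ 1 := fun x => (ENNReal.le_tsum x).trans hμ
  have key := HW660.H3W ν u (win3 ν) s H H 1 1 (by omega) le_rfl E (fun δ => μ (δ - z)) (min M 1)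
    lam (by rw [← HW660.tsum_shift μ z]; exact hμ) (fun x => le_min (hM _) (hμ1 _))
    (by simpa using hM0) (ne_top_of_le_ne_top ENNReal.one_ne_top (min_le_right _ _)) hl hlt
  refine le_trans ?_ (key.trans ?_)
  · rw [HW660.tsum_shift _ z]
    refine ENNReal.tsum_le_tsum fun δ => ?_
    by_cases h0 : lev u (δ - z) = 0
    swap
    · rw [if_neg h0]; exact zero_le
    rw [if_pos h0]
    refine mul_le_mul_right (ENNReal.tsum_le_tsum fun π => ENNReal.tsum_le_tsum fun γ => ?_) _
    by_cases hc : IsUp u H π ∧ endp 0 γ ∈ E ∧ IsDn u H γ ∧ (∃ k, k ∈ Cm u (δ - z) π γ) ∧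
        (∀ k ∈ Cm u (δ - z) π γ, k + s ≤ H)
    swap
    · rw [if_neg hc]; exact zero_le
    rw [if_pos hc]
    obtain ⟨hup, hE, hdn, ⟨k, y, hy1, hy2, -⟩, hall⟩ := hc
    have hδ : lev u δ = -1 := by
      have := HW660.lev_add' u (δ - z) z
      rw [sub_add_cancel, h0, hlz] at this
      omega
    rw [← hz, sub_add_cancel] at hy2
    rw [if_pos]
    refine ⟨by push_cast; exact hδ, hup, hdn, hE, ⟨y, hy1, hy2⟩, ?_⟩
    rintro y ⟨h1, h2⟩
    have h3 : lev u y ≤ -1 := by
      have h4 : y - δ ∈ sitesL 0 γ := by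
        have := HW660.mem_sitesL_shift γ 0 δ y
        rw [zero_add] at this
        exact this.1 h2
      have h5 := (hdn.1 _ h4).2
      have h6 := HW660.lev_add' u (y - δ) δ
      rw [sub_add_cancel] at h6
      omega
    have h4 : (-lev u y).toNat ∈ Cm u (δ - z) π γ := by
      refine ⟨y, h1, ?_, ?_⟩
      · rw [← hz, sub_add_cancel]; exact h2
      · rw [Int.toNat_of_nonneg (by omega), neg_neg]
    have h5 := hall _ h4
    omega
  · have h1 : HW660.ret ν u 1 s ≤ Us778.us ν u s := ret_le ν u s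
    have h2 : min M 1 / lam * E.card * HW660.ret ν u 1 s
        ≤ M * E.card * Us778.us ν u s / lam := by
      calc min M 1 / lam * E.card * HW660.ret ν u 1 s
          ≤ M / lam * E.card * Us778.us ν u s :=
            mul_le_mul' (mul_le_mul' (ENNReal.div_le_div_right (min_le_left _ _) _) le_rfl) h1
        _ = _ := by simp only [div_eq_mul_inv]; ring
    calc 4 * lam + min M 1 / lam * E.card * HW660.ret ν u 1 s
        ≤ 4 * lam + M * E.card * Us778.us ν u s / lam := add_le_add le_rfl h2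
      _ ≤ 4 * lam + 4 * (M * E.card * Us778.us ν u s / lam) := by
          refine add_le_add le_rfl ?_
          calc M * E.card * Us778.us ν u s / lam = 1 * (M * E.card * Us778.us ν u s / lam) :=
                (one_mul _).symm
            _ ≤ _ := mul_le_mul_left (by norm_num) _
      _ = _ := by ring

end Crest.Agent.R154.E660
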