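import Crest.Agent.R154.Win3_934
import Crest.Agent.R154.NBDefs_28
import Crest.Agent.R154.RetW_458
import Crest.Agent.R154.Flux1_132

/-! Row 154, ROAD 801, frame B (joint cuts), window inequality (3) for one common height (helper934):
912's `E3` in 28's letters (IsUp, IsDn, Cm, aw). -/

set_option autoImplicit false

open MeasureTheory ProbabilityTheory Crest.ProbabilityR.RandomEnvironment
open Crest.Agent.R154.Flux566 (lw endp sitesL endp_eq_add endp_append measurable_lw)
open Crest.Agent.R154.WordB956 (PF FH Vis exists_FH mem_sitesL lw_shift)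
open Crest.Agent.R154.Flux132 (lev opp lev_add lev_neg lev_zero lev_step_self stepVec_opp)
open Crest.Agent.R154.NB28 (IsUp IsDn Cm aw)
open scoped ENNReal

namespace Crest.Agent.R154.E934

variable {d : ℕ}

lemma mem_shift (l : List (Step d)) (x y : Site d) :
    y ∈ sitesL x l ↔ y - x ∈ sitesL 0 l := by
  rw [mem_sitesL, mem_sitesL]
  constructor
  · rintro ⟨l1, e, l2, h1, h2⟩
    exact ⟨l1, e, l2, h1, by rw [← h2, endp_eq_add l1 x]; abel⟩
  · rintro ⟨l1, e, l2, h1, h2⟩
    exact ⟨l1, e, l2, h1, by rw [endp_eq_add l1 x, h2]; abel⟩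

lemma lev_sub (u : Step d) (x y : Site d) : lev u (x - y) = lev u x - lev u y := by
  rw [sub_eq_add_neg, lev_add, lev_neg]; ring

lemma lev_opp (u : Step d) (x : Site d) : lev (opp u) x = - lev u x := by
  unfold lev opp
  obtain ⟨i, b⟩ := u
  cases b <;> simp

lemma aw_eq (ν : Measure (Row d)) [IsProbabilityMeasure ν] (x : Site d) (l : List (Step d)) :
    WordB956.aw (iidEnvironmentLaw ν) x l = aw ν l := by
  unfold WordB956.aw aw
  rw [← (Q561.iid_shift ν x).lintegral_comp (measurable_lw 0 l)]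
  refine lintegral_congr fun ω => ?_
  rw [← lw_shift, zero_add]

open Classical in
/-- return weight: words which stay below level `1`, visit level `≤ -s` and end at level `1` -/
noncomputable def us (ν : Measure (Row d)) [IsProbabilityMeasure ν] (u : Step d) (s : ℕ) : ℝ≥0∞ :=
  ∑' l : List (Step d), (if (∀ y ∈ sitesL 0 l, lev u y < 1) ∧ lev u (endp 0 l) = 1 ∧
    (∃ y ∈ sitesL 0 l, lev u y ≤ -(s : ℤ)) then aw ν l else 0)

theorem us_small (ν : Measure (Row d)) [IsProbabilityMeasure ν] (u : Step d) (ε : ℝ≥0∞)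
    (hε : ε ≠ 0) : ∃ s0 : ℕ, ∀ s, s0 ≤ s → us ν u s ≤ ε := by
  obtain ⟨s0, h⟩ := RetW458.ret_small ν u 1 ε hε
  refine ⟨s0, fun s hs => le_trans (le_of_eq ?_) (h s hs)⟩
  unfold us aw
  rfl

lemma pf_up (u : Step d) (H : ℕ) : PF {π : List (Step d) | IsUp u H π} := by
  intro l hl l' hl'
  cases l' with
  | nil => rfl
  | cons e t =>
    exfalso
    have h1 := (hl'.1 (endp 0 l) (mem_sitesL.2 ⟨l, e, t, rfl, rfl⟩)).2
    have h2 := hl.2
    omega

lemma pf_dn (u : Step d) (H : ℕ) : PF {π : List (Step d) | IsDn u H π} := by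
  intro l hl l' hl'
  cases l' with
  | nil => rfl
  | cons e t =>
    exfalso
    have h1 := (hl'.1 (endp 0 l) (mem_sitesL.2 ⟨l, e, t, rfl, rfl⟩)).1
    have h2 := hl.2
    omega

section E3

variable (ν : Measure (Row d)) [IsProbabilityMeasure ν] (u : Step d)

/-- explored `Y`-words from `x` -/
def YY (H : ℕ) (E : Finset (Site d)) (x : Site d) : Set (List (Step d)) :=
  {γ | lev u x = (H : ℤ) - 1 ∧ IsDn u H γ ∧ endp 0 γ ∈ E}

/-- continuations of `Y` -/
def DD (H : ℕ) (E : Finset (Site d)) (x v : Site d) : Set (List (Step d)) :=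
  {δ | (∀ y ∈ sitesL v δ, 0 ≤ lev u y) ∧ lev u (endp v δ) = -1 ∧ endp v δ - x ∈ E}

variable {u}

lemma hYD (H : ℕ) (E : Finset (Site d)) (x : Site d) (l1 l2 : List (Step d))
    (h : l1 ++ l2 ∈ YY u H E x) : l2 ∈ DD u H E x (endp x l1) := by
  obtain ⟨hx, hd, hE⟩ := h
  refine ⟨fun y hy => ?_, ?_, ?_⟩
  · have h1 : y ∈ sitesL x (l1 ++ l2) := by
      rw [WordB956.sitesL_append]; exact List.mem_append_right _ hy
    rw [mem_shift] at h1
    have h2 := (hd.1 _ h1).1
    rw [lev_sub] at h2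
    omega
  · rw [← endp_append, endp_eq_add, lev_add, hd.2]; omega
  · rw [← endp_append, endp_eq_add]
    simpa using hE

lemma tt_mem {H s : ℕ} {E : Finset (Site d)} {x : Site d} {τ : List (Step d)}
    (h : ∃ a δ, τ = a ++ δ ∧ a ∈ Win934.Pre {π : List (Step d) | IsUp u H π} ∧
      endp 0 a ∈ {v : Site d | (s : ℤ) ≤ lev u v} ∧ δ ∈ DD u H E x (endp 0 a)) :
    ((∀ y ∈ sitesL 0 τ, lev (opp u) y < 1) ∧ lev (opp u) (endp 0 τ) = 1 ∧
      (∃ y ∈ sitesL 0 τ, lev (opp u) y ≤ -(s : ℤ))) ∧ endp 0 τ - x ∈ E := by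
  obtain ⟨a, δ, rfl, ⟨t, ht, hp⟩, hs, h1, h2, h3⟩ := h
  have hs' : (s : ℤ) ≤ lev u (endp 0 a) := hs
  refine ⟨⟨fun y hy => ?_, ?_, ?_⟩, ?_⟩
  · rw [WordB956.sitesL_append, List.mem_append] at hy
    rw [lev_opp]
    rcases hy with hy | hy
    · have := ((show IsUp u H (a ++ t) from hp).1 y (by
        rw [WordB956.sitesL_append]; exact List.mem_append_left _ hy)).1
      omega
    · have := h1 y hy
      omega
  · rw [endp_append, lev_opp, h2]; norm_num
  · refine ⟨endp 0 a, ?_, ?_⟩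
    · cases δ with
      | nil =>
        exfalso
        simp only [endp] at h2
        omega
      | cons e r => exact mem_sitesL.2 ⟨a, e, r, rfl, rfl⟩
    · rw [lev_opp]; omega
  · rw [endp_append]; exact h3

lemma card_sum (E : Finset (Site d)) (z : Site d) (c : ℝ≥0∞) :
    ∑' x : Site d, (if z - x ∈ E then c else 0) = E.card * c := by
  classical
  have h1 : ∑' x : Site d, (if z - x ∈ E then c else 0) = ∑' x : Site d, (if x ∈ E then c else 0) :=
    (Equiv.subLeft z).tsum_eq (fun x : Site d => if x ∈ E then c else 0)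
  rw [h1, tsum_eq_sum (s := E) (fun b hb => if_neg hb), Finset.sum_congr rfl (fun x hx => if_pos hx),
    Finset.sum_const, nsmul_eq_mul]

lemma hB (H s : ℕ) (E : Finset (Site d)) :
    (open Classical in ∑' x : Site d, ∑' τ : List (Step d), (if (∃ a δ, τ = a ++ δ ∧
      a ∈ Win934.Pre {π : List (Step d) | IsUp u H π} ∧
      endp 0 a ∈ {v : Site d | (s : ℤ) ≤ lev u v} ∧ δ ∈ DD u H E x (endp 0 a)) then
        WordB956.aw (iidEnvironmentLaw ν) 0 τ else 0)) ≤ E.card * us ν (opp u) s := by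
  classical
  unfold us
  calc _ ≤ ∑' x : Site d, ∑' τ : List (Step d), (if endp 0 τ - x ∈ E then
        (if (∀ y ∈ sitesL 0 τ, lev (opp u) y < 1) ∧ lev (opp u) (endp 0 τ) = 1 ∧
          (∃ y ∈ sitesL 0 τ, lev (opp u) y ≤ -(s : ℤ)) then aw ν τ else 0) else 0) := by
        refine ENNReal.tsum_le_tsum fun x => ENNReal.tsum_le_tsum fun τ => ?_
        by_cases h : ∃ a δ, τ = a ++ δ ∧
            a ∈ Win934.Pre {π : List (Step d) | IsUp u H π} ∧
            endp 0 a ∈ {v : Site d | (s : ℤ) ≤ lev u v} ∧ δ ∈ DD u H E x (endp 0 a)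
        · have h2 := tt_mem h
          rw [if_pos h, if_pos h2.2, if_pos h2.1, aw_eq]
        · rw [if_neg h]; exact zero_le
    _ = ∑' τ : List (Step d), ∑' x : Site d, (if endp 0 τ - x ∈ E then
        (if (∀ y ∈ sitesL 0 τ, lev (opp u) y < 1) ∧ lev (opp u) (endp 0 τ) = 1 ∧
          (∃ y ∈ sitesL 0 τ, lev (opp u) y ≤ -(s : ℤ)) then aw ν τ else 0) else 0) :=
        ENNReal.tsum_comm
    _ = ∑' τ : List (Step d), E.card *
        (if (∀ y ∈ sitesL 0 τ, lev (opp u) y < 1) ∧ lev (opp u) (endp 0 τ) = 1 ∧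
          (∃ y ∈ sitesL 0 τ, lev (opp u) y ≤ -(s : ℤ)) then aw ν τ else 0) :=
        tsum_congr fun τ => card_sum E _ _
    _ = _ := ENNReal.tsum_mul_left

/-- the event of E3 gives the event of `win3` -/
lemma ev_of {H s : ℕ} {E : Finset (Site d)} {x : Site d} {π γ : List (Step d)}
    (h : lev u (x - endp 0 π + stepVec u) = 0 ∧ IsUp u H π ∧ endp 0 γ ∈ E ∧ IsDn u H γ ∧
      (∃ k, k ∈ Cm u (x - endp 0 π + stepVec u) π γ) ∧
      (∀ k ∈ Cm u (x - endp 0 π + stepVec u) π γ, k + s ≤ H)) :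
    Win934.Ev (YY u H E) {π : List (Step d) | IsUp u H π} {v : Site d | (s : ℤ) ≤ lev u v} x γ π := by
  obtain ⟨h0, hπ, hE, hγ, ⟨k, y, hy1, hy2, _⟩, hall⟩ := h
  have hw : x - endp 0 π + stepVec u + stepVec (opp u) = x - endp 0 π := by
    rw [stepVec_opp]; abel
  rw [hw] at hy2
  have hlx : lev u x = (H : ℤ) - 1 := by
    rw [lev_add, lev_sub, hπ.2, lev_step_self] at h0; omega
  refine ⟨⟨hlx, hγ, hE⟩, hπ, ?_⟩
  -- common site in the coordinates of `X` from `0`
  have c1 : y + endp 0 π ∈ sitesL 0 π := by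
    rw [mem_shift] at hy1
    have : y - -endp 0 π = y + endp 0 π := by abel
    rwa [this] at hy1
  have c2 : y + endp 0 π ∈ sitesL x γ := by
    rw [mem_shift] at hy2 ⊢
    have : y - (x - endp 0 π) = y + endp 0 π - x := by abel
    rwa [this] at hy2
  obtain ⟨l1, e, l2, h5, h6⟩ := mem_sitesL.1 c1
  have hvis : π ∈ Vis {z | z ∈ sitesL x γ} 0 := ⟨l1, e :: l2, h5, by rw [h6]; exact c2⟩
  obtain ⟨m1, m2, h7, h8⟩ := exists_FH hvis
  have hne : m2 ≠ [] := by
    rintro rfl
    rw [List.append_nil] at h7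
    subst h7
    exact h8.2 l1 (e :: l2) h5 (by simp) (by rw [h6]; exact c2)
  refine ⟨m1, m2, h7, hne, h8, ?_⟩
  -- the first hit is a common site
  have d1 : endp 0 m1 ∈ sitesL 0 π := by
    cases m2 with
    | nil => exact absurd rfl hne
    | cons e' r => exact mem_sitesL.2 ⟨m1, e', r, h7, rfl⟩
  have d2 : endp 0 m1 ∈ sitesL x γ := h8.1
  have hlev := hπ.1 _ d1
  have hk : (H - (lev u (endp 0 m1)).toNat) ∈ Cm u (x - endp 0 π + stepVec u) π γ := by
    refine ⟨endp 0 m1 - endp 0 π, ?_, ?_, ?_⟩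
    · rw [mem_shift]
      have : endp 0 m1 - endp 0 π - -endp 0 π = endp 0 m1 := by abel
      rwa [this]
    · rw [hw, mem_shift]
      have : endp 0 m1 - endp 0 π - (x - endp 0 π) = endp 0 m1 - x := by abel
      rw [this]
      exact (mem_shift γ x _).1 d2
    · rw [lev_sub, hπ.2]
      omega
  have := hall _ hk
  change (s : ℤ) ≤ lev u (endp 0 m1)
  omega

open Classical in
/-- **E3** (912's literal up to constants): `Y` local, common height `H`. -/
theorem E3 (s H : ℕ) (E : Finset (Site d)) (μ : Site d → ℝ≥0∞) (M lam : ℝ≥0∞)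
    (hμ1 : ∑' x, μ x ≤ 1) (hμM : ∀ x, μ x ≤ M) (hl0 : lam ≠ 0) (hl : lam ≠ ⊤) :
    ∑' x : Site d, (if lev u x = 0 then μ x * ∑' π : List (Step d), ∑' γ : List (Step d),
      (if IsUp u H π ∧ endp 0 γ ∈ E ∧ IsDn u H γ ∧ (∃ k, k ∈ Cm u x π γ) ∧
        (∀ k ∈ Cm u x π γ, k + s ≤ H) then aw ν π * aw ν γ else 0) else 0)
      ≤ 8 * lam + 2 * (M * (E.card * us ν (opp u) s) / lam) := by
  set M' : ℝ≥0∞ := min M 1 with hM'
  have hM'top : M' ≠ ⊤ := ne_top_of_le_ne_top ENNReal.one_ne_top (min_le_right _ _)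
  have hμM' : ∀ x, μ x ≤ M' := fun x =>
    le_min (hμM x) ((ENNReal.le_tsum x).trans hμ1)
  set μ' : Site d → ℝ≥0∞ := fun y => μ (y + stepVec u) with hμ'
  have hμ'1 : ∑' z, μ' z ≤ 1 := by
    have : ∑' z, μ' z = ∑' z, μ z := (Equiv.addRight (stepVec u)).tsum_eq μ
    rw [this]; exact hμ1
  have key := Win934.win3 (ν := ν) (YY := YY u H E) (XX := {π : List (Step d) | IsUp u H π})
    (Dp := {v : Site d | (s : ℤ) ≤ lev u v}) (DD := DD u H E) (μ := μ') (M := M') (lam := lam)
    (B := E.card * us ν (opp u) s)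
    (fun x => (pf_dn u H).mono fun γ hγ => hγ.2.1) (pf_up u H)
    (fun x l1 l2 h _ => hYD H E x l1 l2 h) hM'top (fun z => hμM' _) hμ'1 hl0 hl
    (le_trans (le_of_eq (by
      refine tsum_congr fun x => tsum_congr fun τ => ?_
      congr 1)) (hB ν H s E))
  have hmono : 8 * lam + 2 * (M' * (E.card * us ν (opp u) s) / lam)
      ≤ 8 * lam + 2 * (M * (E.card * us ν (opp u) s) / lam) := by
    gcongr
    exact min_le_left _ _
  refine le_trans ?_ (key.trans hmono)
  set F : Site d → List (Step d) → List (Step d) → ℝ≥0∞ := fun w π γ =>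
    if lev u w = 0 ∧ (IsUp u H π ∧ endp 0 γ ∈ E ∧ IsDn u H γ ∧ (∃ k, k ∈ Cm u w π γ) ∧
        (∀ k ∈ Cm u w π γ, k + s ≤ H)) then μ w * (aw ν π * aw ν γ) else 0 with hF
  calc _ = ∑' w : Site d, ∑' π : List (Step d), ∑' γ : List (Step d), F w π γ := by
        refine tsum_congr fun w => ?_
        by_cases hw : lev u w = 0
        · rw [if_pos hw, ← ENNReal.tsum_mul_left]
          refine tsum_congr fun π => ?_
          rw [← ENNReal.tsum_mul_left]
          refine tsum_congr fun γ => ?_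
          simp only [hF, hw, true_and]
          split_ifs <;> simp
        · rw [if_neg hw]
          simp [hF, hw]
    _ = ∑' π : List (Step d), ∑' w : Site d, ∑' γ : List (Step d), F w π γ := ENNReal.tsum_comm
    _ = ∑' π : List (Step d), ∑' x : Site d, ∑' γ : List (Step d),
          F (x - endp 0 π + stepVec u) π γ := by
        refine tsum_congr fun π => ?_
        have h := ((Equiv.subRight (endp 0 π)).trans (Equiv.addRight (stepVec u))).tsum_eq
          (fun w : Site d => ∑' γ : List (Step d), F w π γ)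
        exact h.symm
    _ = ∑' x : Site d, ∑' π : List (Step d), ∑' γ : List (Step d),
          F (x - endp 0 π + stepVec u) π γ := ENNReal.tsum_comm
    _ = ∑' x : Site d, ∑' γ : List (Step d), ∑' π : List (Step d),
          F (x - endp 0 π + stepVec u) π γ := tsum_congr fun x => ENNReal.tsum_comm
    _ ≤ _ := by
        refine ENNReal.tsum_le_tsum fun x => ENNReal.tsum_le_tsum fun γ =>
          ENNReal.tsum_le_tsum fun π => ?_
        simp only [hF]
        by_cases h : lev u (x - endp 0 π + stepVec u) = 0 ∧ IsUp u H π ∧ endp 0 γ ∈ E ∧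
            IsDn u H γ ∧ (∃ k, k ∈ Cm u (x - endp 0 π + stepVec u) π γ) ∧
            (∀ k ∈ Cm u (x - endp 0 π + stepVec u) π γ, k + s ≤ H)
        · rw [if_pos h, if_pos (ev_of h), aw_eq, aw_eq]
          simp only [hμ']
          exact le_of_eq (by ring)
        · rw [if_neg h]; exact zero_le

end E3

end Crest.Agent.R154.E934
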