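import Crest.Agent.R154.NBDefs_28

/-! Row 154, ROAD 801, leaf [G] outer part (helper327): `KappaW` from the bound for the windows of the
FIRST contact depth. -/

set_option autoImplicit false

namespace Crest.Agent.R154.KWin327

open MeasureTheory ProbabilityTheory Crest.ProbabilityR.RandomEnvironment Crest.Agent.R154
open Crest.Agent.R154.Flux132 (lev opp)
open Crest.Agent.R154.Flux566 (lw endp sitesL endp_append endp_eq_add)
open Crest.Agent.R154.NB28
open scoped ENNReal

variable {d : ℕ}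

open Classical in
/-- weight of the pairs of crossings of height `n` whose FIRST contact depth lies in `[a, b)` -/
noncomputable def WinW (ν : Measure (Row d)) [IsProbabilityMeasure ν] (u : Step d) (n a b : ℕ)
    (w : Site d) : ℝ≥0∞ :=
  ∑' π : List (Step d), ∑' γ : List (Step d),
    if IsUp u n π ∧ IsDn u n γ ∧ (∀ k ∈ Cm u w π γ, a ≤ k) ∧ (∃ k ∈ Cm u w π γ, k < b)
    then aw ν π * aw ν γ else 0

/-! ### sums -/

lemma tsum_le_of_injOn {α β : Type*} (F : α → ℝ≥0∞) (G : β → ℝ≥0∞) (φ : α → β)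
    (hF : ∀ x, F x ≠ 0 → F x ≤ G (φ x))
    (hφ : ∀ x y, F x ≠ 0 → F y ≠ 0 → φ x = φ y → x = y) :
    ∑' x, F x ≤ ∑' y, G y := by
  have h1 : ∑' x, F x = ∑' x : Function.support F, F x :=
    (tsum_subtype_eq_of_support_subset subset_rfl).symm
  rw [h1]
  calc ∑' x : Function.support F, F x
      ≤ ∑' x : Function.support F, G (φ x) := ENNReal.tsum_le_tsum fun x => hF x x.2
    _ ≤ ∑' y, G y := ENNReal.tsum_comp_le_tsum_of_injective
        (f := fun x : Function.support F => φ x)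
        (fun x y h => Subtype.ext (hφ x y x.2 y.2 h)) G

/-! ### levels -/

lemma lev_add (u : Step d) (x y : Site d) : lev u (x + y) = lev u x + lev u y := by
  unfold lev
  split_ifs
  · rfl
  · simp only [Pi.add_apply]; ring

lemma lev_neg (u : Step d) (x : Site d) : lev u (-x) = - lev u x := by
  unfold lev
  split_ifs <;> simp

lemma lev_zero (u : Step d) : lev u (0 : Site d) = 0 := by
  unfold lev
  split_ifs <;> simp

lemma lev_opp (u : Step d) : lev u (stepVec (opp u)) = -1 := by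
  unfold lev opp stepVec
  rcases u with ⟨i, b⟩
  cases b <;> simp

/-! ### words -/

lemma sitesL_append (l l' : List (Step d)) (x : Site d) :
    sitesL x (l ++ l') = sitesL x l ++ sitesL (endp x l) l' := by
  induction l generalizing x with
  | nil => rfl
  | cons e l ih =>
    simp only [List.cons_append, sitesL, endp]
    rw [ih]

lemma mem_sitesL_add (l : List (Step d)) (x z y : Site d) :
    y ∈ sitesL (x + z) l ↔ y - x ∈ sitesL z l := by
  induction l generalizing z with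
  | nil => simp [sitesL]
  | cons e l ih =>
    simp only [sitesL, List.mem_cons]
    rw [add_assoc, ih]
    constructor
    · rintro (h | h)
      · left; rw [h]; abel
      · exact Or.inr h
    · rintro (h | h)
      · left; rw [← h]; abel
      · exact Or.inr h

lemma mem_sitesL (l : List (Step d)) (x y : Site d) :
    y ∈ sitesL x l ↔ y - x ∈ sitesL 0 l := by
  have := mem_sitesL_add l x 0 y
  rwa [add_zero] at this

lemma isUp_append {u : Step d} {q n : ℕ} {σ π : List (Step d)} (h1 : IsUp u q σ)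
    (h2 : IsUp u n π) : IsUp u (n + q) (σ ++ π) := by
  refine ⟨fun y hy => ?_, ?_⟩
  · rw [sitesL_append, List.mem_append] at hy
    rcases hy with hy | hy
    · have := h1.1 y hy
      push_cast
      constructor <;> omega
    · rw [mem_sitesL] at hy
      have h3 := h2.1 _ hy
      have h4 : lev u y = lev u (y - endp 0 σ) + lev u (endp 0 σ) := by
        rw [← lev_add]; congr 1; abel
      rw [h1.2] at h4
      push_cast
      constructor <;> omega
  · rw [endp_append, endp_eq_add, lev_add, h1.2, h2.2]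
    push_cast; ring

lemma isDn_append {u : Step d} {q n : ℕ} {γ τ : List (Step d)} (h1 : IsDn u n γ)
    (h2 : IsDn u q τ) : IsDn u (n + q) (γ ++ τ) := by
  refine ⟨fun y hy => ?_, ?_⟩
  · rw [sitesL_append, List.mem_append] at hy
    rcases hy with hy | hy
    · have := h1.1 y hy
      push_cast
      constructor <;> omega
    · rw [mem_sitesL] at hy
      have h3 := h2.1 _ hy
      have h4 : lev u y = lev u (y - endp 0 γ) + lev u (endp 0 γ) := by
        rw [← lev_add]; congr 1; abel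
      rw [h1.2] at h4
      push_cast
      constructor <;> omega
  · rw [endp_append, endp_eq_add, lev_add, h1.2, h2.2]
    push_cast; ring

lemma isUp_inj {u : Step d} {q : ℕ} {σ σ' π π' : List (Step d)} (h1 : IsUp u q σ)
    (h2 : IsUp u q σ') (h : σ ++ π = σ' ++ π') : σ = σ' ∧ π = π' := by
  have key : ∀ (s s' : List (Step d)), IsUp u q s → IsUp u q s' → ∀ a, s' = s ++ a → a = [] := by
    intro s s' hs hs' a ha
    cases a with
    | nil => rfl
    | cons e a =>
      exfalso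
      have h3 : endp 0 s ∈ sitesL 0 s' := by
        rw [ha, sitesL_append, List.mem_append]
        right
        simp [sitesL]
      have := (hs'.1 _ h3).2
      rw [hs.2] at this
      omega
  rcases List.append_eq_append_iff.mp h with ⟨a, ha, hb⟩ | ⟨a, ha, hb⟩
  · have h0 := key σ σ' h1 h2 a ha
    subst h0
    simp at ha hb
    exact ⟨ha.symm, hb⟩
  · have h0 := key σ' σ h2 h1 a ha
    subst h0
    simp at ha hb
    exact ⟨ha, hb.symm⟩

lemma isDn_inj {u : Step d} {q : ℕ} {σ σ' π π' : List (Step d)} (h1 : IsDn u q σ)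
    (h2 : IsDn u q σ') (h : σ ++ π = σ' ++ π') : σ = σ' ∧ π = π' := by
  have key : ∀ (s s' : List (Step d)), IsDn u q s → IsDn u q s' → ∀ a, s' = s ++ a → a = [] := by
    intro s s' hs hs' a ha
    cases a with
    | nil => rfl
    | cons e a =>
      exfalso
      have h3 : endp 0 s ∈ sitesL 0 s' := by
        rw [ha, sitesL_append, List.mem_append]
        right
        simp [sitesL]
      have := (hs'.1 _ h3).1
      rw [hs.2] at this
      omega
  rcases List.append_eq_append_iff.mp h with ⟨a, ha, hb⟩ | ⟨a, ha, hb⟩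
  · have h0 := key σ σ' h1 h2 a ha
    subst h0
    simp at ha hb
    exact ⟨ha.symm, hb⟩
  · have h0 := key σ' σ h2 h1 a ha
    subst h0
    simp at ha hb
    exact ⟨ha, hb.symm⟩

/-! ### hung levels -/

lemma lev_hung {u : Step d} {n : ℕ} {π : List (Step d)} (h : IsUp u n π) {y : Site d}
    (hy : y ∈ sitesL (-endp 0 π) π) : -(n : ℤ) ≤ lev u y ∧ lev u y < 0 := by
  rw [mem_sitesL] at hy
  have h3 := h.1 _ hy
  have h4 : lev u y = lev u (y - -endp 0 π) + lev u (-endp 0 π) := by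
    rw [← lev_add]; congr 1; abel
  rw [lev_neg, h.2] at h4
  constructor <;> omega

lemma lev_dn {u : Step d} {n : ℕ} {w : Site d} (hw : lev u w = 0) {γ : List (Step d)}
    (h : IsDn u n γ) {y : Site d} (hy : y ∈ sitesL (w + stepVec (opp u)) γ) :
    -(n : ℤ) ≤ lev u y ∧ lev u y < 0 := by
  rw [mem_sitesL] at hy
  have h3 := h.1 _ hy
  have h4 : lev u y = lev u (y - (w + stepVec (opp u))) + lev u (w + stepVec (opp u)) := by
    rw [← lev_add]; congr 1; abel
  rw [lev_add u w, hw, lev_opp] at h4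
  constructor <;> omega

/-- contacts of the extended pair -/
lemma cm_ext {u : Step d} {n q : ℕ} {w : Site d} (hw : lev u w = 0) {π γ σ τ : List (Step d)}
    (hπ : IsUp u n π) (hγ : IsDn u n γ) (hσ : IsUp u q σ) (hτ : IsDn u q τ) :
    (∀ k ∈ Cm u w π γ, k ∈ Cm u w (σ ++ π) (γ ++ τ)) ∧
      ∀ k ∈ Cm u w (σ ++ π) (γ ++ τ), k ∈ Cm u w π γ ∨ n < k := by
  have e1 : sitesL (-endp 0 (σ ++ π)) (σ ++ π)
      = sitesL (-endp 0 (σ ++ π)) σ ++ sitesL (-endp 0 π) π := by
    rw [sitesL_append]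
    congr 2
    rw [endp_eq_add σ, endp_append, endp_eq_add π (endp 0 σ)]
    abel
  constructor
  · rintro k ⟨y, h1, h2, h3⟩
    refine ⟨y, ?_, ?_, h3⟩
    · rw [e1, List.mem_append]; exact Or.inr h1
    · rw [sitesL_append, List.mem_append]; exact Or.inl h2
  · rintro k ⟨y, h1, h2, h3⟩
    rw [e1, List.mem_append] at h1
    rw [sitesL_append, List.mem_append] at h2
    rcases h1 with h1 | h1
    · right
      rw [mem_sitesL] at h1
      have h5 := hσ.1 _ h1
      have h4 : lev u y = lev u (y - -endp 0 (σ ++ π)) + lev u (-endp 0 (σ ++ π)) := by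
        rw [← lev_add]; congr 1; abel
      rw [lev_neg, endp_append, endp_eq_add, lev_add, hσ.2, hπ.2] at h4
      rw [endp_append, endp_eq_add] at h5
      omega
    · rcases h2 with h2 | h2
      · exact Or.inl ⟨y, h1, h2, h3⟩
      · right
        rw [mem_sitesL] at h2
        have h5 := hτ.1 _ h2
        have h4 : lev u y = lev u (y - endp (w + stepVec (opp u)) γ)
            + lev u (endp (w + stepVec (opp u)) γ) := by
          rw [← lev_add]; congr 1; abel
        rw [endp_eq_add γ, lev_add, lev_add, hw, lev_opp, hγ.2] at h4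
        rw [endp_eq_add γ] at h5
        omega

/-! ### extension by a crossing of `q` levels -/

open Classical in
theorem kw_ext (ν : Measure (Row d)) [IsProbabilityMeasure ν] (u : Step d)
    (haU : ∀ a b σ π, IsUp u a σ → IsUp u b π → aw ν (σ ++ π) = aw ν σ * aw ν π)
    (haD : ∀ a b γ τ, IsDn u a γ → IsDn u b τ → aw ν (γ ++ τ) = aw ν γ * aw ν τ)
    {n m q : ℕ} (hmn : m ≤ n) {w : Site d} (hw : lev u w = 0) :
    KW ν u n m w * (∑' σ : List (Step d), if IsUp u q σ then aw ν σ else 0)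
      * (∑' τ : List (Step d), if IsDn u q τ then aw ν τ else 0) ≤ KW ν u (n + q) m w := by
  set F : ((List (Step d) × List (Step d)) × List (Step d)) × List (Step d) → ℝ≥0∞ :=
    fun x => (if IsUp u n x.1.1.1 ∧ IsDn u n x.1.1.2 ∧ (∀ k ∈ Cm u w x.1.1.1 x.1.1.2, m < k) ∧
        (∃ k ∈ Cm u w x.1.1.1 x.1.1.2, k ≤ 2 * m) then aw ν x.1.1.1 * aw ν x.1.1.2 else 0)
      * (if IsUp u q x.1.2 then aw ν x.1.2 else 0) * (if IsDn u q x.2 then aw ν x.2 else 0)
    with hFdef
  set G : List (Step d) × List (Step d) → ℝ≥0∞ :=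
    fun x => if IsUp u (n + q) x.1 ∧ IsDn u (n + q) x.2 ∧ (∀ k ∈ Cm u w x.1 x.2, m < k) ∧
        (∃ k ∈ Cm u w x.1 x.2, k ≤ 2 * m) then aw ν x.1 * aw ν x.2 else 0 with hGdef
  have hG : ∑' x, G x = KW ν u (n + q) m w := by
    rw [ENNReal.tsum_prod' ]
    rfl
  have hF : ∑' x, F x = KW ν u n m w * (∑' σ : List (Step d), if IsUp u q σ then aw ν σ else 0)
      * (∑' τ : List (Step d), if IsDn u q τ then aw ν τ else 0) := by
    rw [ENNReal.tsum_prod']
    simp only [hFdef]
    simp_rw [ENNReal.tsum_mul_left]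
    rw [ENNReal.tsum_mul_right, ENNReal.tsum_prod']
    simp_rw [ENNReal.tsum_mul_left]
    rw [ENNReal.tsum_mul_right, ENNReal.tsum_prod']
    rfl
  rw [← hF, ← hG]
  have hne : ∀ x, F x ≠ 0 → (IsUp u n x.1.1.1 ∧ IsDn u n x.1.1.2 ∧
      (∀ k ∈ Cm u w x.1.1.1 x.1.1.2, m < k) ∧ (∃ k ∈ Cm u w x.1.1.1 x.1.1.2, k ≤ 2 * m)) ∧
      IsUp u q x.1.2 ∧ IsDn u q x.2 := by
    intro x hx
    simp only [hFdef] at hx
    refine ⟨?_, ?_, ?_⟩
    · by_contra hcon; rw [if_neg hcon] at hx; simp at hx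
    · by_contra hcon; rw [if_neg hcon] at hx; simp at hx
    · by_contra hcon; rw [if_neg hcon] at hx; simp at hx
  refine tsum_le_of_injOn F G (fun x => (x.1.2 ++ x.1.1.1, x.1.1.2 ++ x.2)) ?_ ?_
  · intro x hx
    obtain ⟨⟨h1, h2, h3, h4⟩, h5, h6⟩ := hne x hx
    obtain ⟨c1, c2⟩ := cm_ext hw h1 h2 h5 h6
    simp only [hFdef, hGdef]
    rw [if_pos ⟨h1, h2, h3, h4⟩, if_pos h5, if_pos h6, if_pos]
    · rw [haU q n _ _ h5 h1, haD n q _ _ h2 h6]
      exact le_of_eq (by ring)
    · refine ⟨isUp_append h5 h1, isDn_append h2 h6, fun k hk => ?_, ?_⟩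
      · rcases c2 k hk with h | h
        · exact h3 k h
        · omega
      · obtain ⟨k, hk, hk2⟩ := h4
        exact ⟨k, c1 k hk, hk2⟩
  · rintro ⟨⟨⟨π, γ⟩, σ⟩, τ⟩ ⟨⟨⟨π', γ'⟩, σ'⟩, τ'⟩ hx hy hxy
    obtain ⟨⟨h1, h2, -, -⟩, h5, h6⟩ := hne _ hx
    obtain ⟨⟨h1', h2', -, -⟩, h5', h6'⟩ := hne _ hy
    simp only [Prod.mk.injEq] at hxy
    simp only at h1 h2 h5 h6 h1' h2' h5' h6'
    obtain ⟨e1, e2⟩ := isUp_inj h5 h5' hxy.1
    obtain ⟨e3, e4⟩ := isDn_inj h2 h2' hxy.2
    subst e1 e2 e3 e4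
    rfl

/-! ### windows -/

open Classical in
theorem kw_windows (ν : Measure (Row d)) [IsProbabilityMeasure ν] (u : Step d) {n m t K : ℕ}
    (ht : 0 < t) (h1 : K * t ≤ m) (h2 : 2 * m < (2 * K + 1) * t) (w : Site d) :
    KW ν u n m w ≤ ∑ k ∈ Finset.Icc K (2 * K), WinW ν u n (k * t) ((k + 1) * t) w := by
  unfold WinW
  rw [← Summable.tsum_finsetSum (fun _ _ => ENNReal.summable)]
  unfold KW
  refine ENNReal.tsum_le_tsum fun π => ?_
  rw [← Summable.tsum_finsetSum (fun _ _ => ENNReal.summable)]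
  refine ENNReal.tsum_le_tsum fun γ => ?_
  split_ifs with h
  · obtain ⟨hu, hd, h3, h4⟩ := h
    have hne : ∃ k, k ∈ Cm u w π γ := ⟨h4.choose, h4.choose_spec.1⟩
    set D := Nat.find hne with hD
    have hDm : D ∈ Cm u w π γ := Nat.find_spec hne
    have hmin : ∀ k ∈ Cm u w π γ, D ≤ k := fun k hk => Nat.find_min' hne hk
    have hD1 : m < D := h3 D hDm
    have hD2 : D ≤ 2 * m := by
      obtain ⟨k, hk, hk2⟩ := h4
      exact (hmin k hk).trans hk2
    have hk1 : K ≤ D / t := by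
      rw [Nat.le_div_iff_mul_le ht]; omega
    have hk2 : D / t ≤ 2 * K := by
      have : D / t < 2 * K + 1 := by
        rw [Nat.div_lt_iff_lt_mul ht]; omega
      omega
    refine le_trans ?_ (Finset.single_le_sum (f := fun k =>
      (if IsUp u n π ∧ IsDn u n γ ∧ (∀ k' ∈ Cm u w π γ, k * t ≤ k') ∧
        (∃ k' ∈ Cm u w π γ, k' < (k + 1) * t) then aw ν π * aw ν γ else 0 : ℝ≥0∞))
      (fun _ _ => zero_le) (Finset.mem_Icc.mpr ⟨hk1, hk2⟩))
    rw [if_pos]
    refine ⟨hu, hd, fun k hk => (Nat.div_mul_le_self D t).trans (hmin k hk), D, hDm, ?_⟩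
    have := Nat.lt_mul_div_succ D ht
    rw [mul_comm]
    exact this
  · exact zero_le

theorem kappaW_of_win (ν : Measure (Row d)) [IsProbabilityMeasure ν] (u : Step d)
    (haU : ∀ a b σ π, IsUp u a σ → IsUp u b π → aw ν (σ ++ π) = aw ν σ * aw ν π)
    (haD : ∀ a b γ τ, IsDn u a γ → IsDn u b τ → aw ν (γ ++ τ) = aw ν γ * aw ν τ)
    {c : ℝ≥0∞} (hc0 : c ≠ 0) (hct : c ≠ ∞)
    (hU : ∀ n, c ≤ ∑' σ : List (Step d), open Classical in if IsUp u n σ then aw ν σ else 0)
    (hD : ∀ n, c ≤ ∑' σ : List (Step d), open Classical in if IsDn u n σ then aw ν σ else 0)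
    (hW : ∀ ε : ℝ≥0∞, ε ≠ 0 → ∃ K : ℕ, 1 ≤ K ∧ ∃ T0 : ℕ, ∀ t, T0 ≤ t → ∀ k, K ≤ k → k ≤ 2 * K →
      ∀ n, (k + 4) * t ≤ n → ∀ w : Site d, lev u w = 0 →
        WinW ν u n (k * t) ((k + 1) * t) w ≤ ε / (K + 1)) :
    KappaW ν u := by
  intro ε hε
  obtain ⟨K, hK, T0, hT⟩ := hW (c * c * ε) (by simp [hc0, hε])
  refine ⟨K * (T0 + 2 * K + 1), fun m hm n hn w hw => ?_⟩
  set t := m / K with ht
  have hKpos : 0 < K := hK
  have ht1 : T0 + 2 * K + 1 ≤ t := by
    rw [ht, Nat.le_div_iff_mul_le hKpos, mul_comm]; exact hm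
  have h1 : K * t ≤ m := Nat.mul_div_le m K
  have h2 : 2 * m < (2 * K + 1) * t := by
    have h3 := Nat.lt_mul_div_succ m hKpos
    rw [← ht] at h3
    nlinarith
  have hsum := kw_windows ν u (n := n + 4 * t) (by omega) h1 h2 w
  have hle : KW ν u (n + 4 * t) m w ≤ c * c * ε := by
    refine hsum.trans ?_
    calc ∑ k ∈ Finset.Icc K (2 * K), WinW ν u (n + 4 * t) (k * t) ((k + 1) * t) w
        ≤ ∑ k ∈ Finset.Icc K (2 * K), c * c * ε / ((K : ℝ≥0∞) + 1) := by
          refine Finset.sum_le_sum fun k hk => ?_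
          rw [Finset.mem_Icc] at hk
          refine hT t (by omega) k hk.1 hk.2 _ ?_ w hw
          have : k * t ≤ 2 * K * t := Nat.mul_le_mul_right _ hk.2
          nlinarith
      _ = ((K : ℝ≥0∞) + 1) * (c * c * ε / ((K : ℝ≥0∞) + 1)) := by
          rw [Finset.sum_const, Nat.card_Icc, nsmul_eq_mul]
          congr 1
          have : 2 * K + 1 - K = K + 1 := by omega
          rw [this]; push_cast; rfl
      _ ≤ c * c * ε := ENNReal.mul_div_le
  have hext := kw_ext ν u haU haD (n := n) (m := m) (q := 4 * t) (by omega) hw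
  have h5 : KW ν u n m w * c * c ≤ c * c * ε := by
    refine le_trans ?_ (hext.trans hle)
    exact mul_le_mul' (mul_le_mul' le_rfl (hU _)) (hD _)
  have h6 : c * c * KW ν u n m w ≤ c * c * ε := by
    calc c * c * KW ν u n m w = KW ν u n m w * c * c := by ring
      _ ≤ _ := h5
  exact (ENNReal.mul_le_mul_iff_right (mul_ne_zero hc0 hc0) (ENNReal.mul_ne_top hct hct)).mp h6

end Crest.Agent.R154.KWin327
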