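import Crest.Agent.R154.WLit_763
import Crest.Agent.R154.KWin_327

/-! Row 154, ROAD 801, FRAME B (helper327): 912's word inputs `E2`, `E3` (one common height) from the
word lemmas `H2P`, `H3P` of WLit_763. -/

set_option autoImplicit false
set_option maxHeartbeats 400000

namespace Crest.Agent.R154.EAd327

open MeasureTheory ProbabilityTheory Crest.ProbabilityR.RandomEnvironment Crest.Agent.R154
open Crest.Agent.R154.Flux132 (lev opp)
open Crest.Agent.R154.Flux566 (lw endp sitesL)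
open Crest.Agent.R154.NB28
open Filter
open scoped ENNReal Topology

variable {d : ℕ}

/-- a family of properties that hold at every `η ≠ 0` eventually holds along some `us → 0` -/
lemma exists_us (P : ℕ → ℝ≥0∞ → Prop) (htop : ∀ s, P s ⊤)
    (h : ∀ η : ℝ≥0∞, η ≠ 0 → ∃ s0 : ℕ, ∀ s, s0 ≤ s → P s η) :
    ∃ us : ℕ → ℝ≥0∞, Tendsto us atTop (𝓝 0) ∧ ∀ s, P s (us s) := by
  have h1 : ∀ s : ℕ, ∃ η, P s η ∧ η ≤ sInf {η | P s η} + ((s : ℝ≥0∞) + 1)⁻¹ := by
    intro s
    by_cases ht : sInf {η | P s η} = ⊤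
    · exact ⟨⊤, htop s, by rw [ht]; simp⟩
    · have hlt : sInf {η | P s η} < sInf {η | P s η} + ((s : ℝ≥0∞) + 1)⁻¹ := by
        refine ENNReal.lt_add_right ht ?_
        rw [ne_eq, ENNReal.inv_eq_zero]
        exact ENNReal.add_ne_top.2 ⟨ENNReal.natCast_ne_top s, ENNReal.one_ne_top⟩
      obtain ⟨η, hη, hη'⟩ := sInf_lt_iff.1 hlt
      exact ⟨η, hη, hη'.le⟩
  choose us hus hus' using h1
  refine ⟨us, ?_, hus⟩
  rw [ENNReal.tendsto_atTop_zero]
  intro ε hε
  by_cases hεt : ε = ⊤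
  · exact ⟨0, fun n _ => by rw [hεt]; exact le_top⟩
  have hε2 : ε / 2 ≠ 0 := (ENNReal.half_pos hε.ne').ne'
  obtain ⟨s0, hs0⟩ := h (ε / 2) hε2
  obtain ⟨N, hN⟩ := ENNReal.exists_inv_nat_lt hε2
  refine ⟨max s0 N, fun n hn => ?_⟩
  calc us n ≤ sInf {η | P n η} + ((n : ℝ≥0∞) + 1)⁻¹ := hus' n
    _ ≤ ε / 2 + ε / 2 := by
        refine add_le_add (sInf_le (hs0 n (le_trans (le_max_left _ _) hn))) ?_
        refine le_trans (ENNReal.inv_le_inv.2 ?_) hN.le
        have : (N : ℝ≥0∞) ≤ (n : ℝ≥0∞) := by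
          exact_mod_cast le_trans (le_max_right _ _) hn
        exact this.trans le_self_add
    _ = ε := ENNReal.add_halves ε

open Classical in
/-- 912's `E2` -/
def E2 (ν : Measure (Row d)) [IsProbabilityMeasure ν] (u : Step d) (C : ℝ≥0∞) (us : ℕ → ℝ≥0∞) :
    Prop :=
  ∀ (s H : ℕ) (E : Finset (Site d)) (μ : Site d → ℝ≥0∞) (M lam : ℝ≥0∞),
    ∑' x, μ x ≤ 1 → (∀ x, μ x ≤ M) → lam ≠ 0 → lam ≠ ⊤ →
    ∑' x, (if lev u x = 0 then μ x * ∑' π : List (Step d), ∑' γ : List (Step d),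
      (if IsUp u H π ∧ endp 0 π ∈ E ∧ IsDn u H γ ∧ (∃ k, k ∈ Cm u x π γ) ∧
        (∀ k ∈ Cm u x π γ, s < k) then aw ν π * aw ν γ else 0) else 0)
      ≤ C * (lam + M * E.card * us s / lam + us s)

open Classical in
/-- 912's `E3` -/
def E3 (ν : Measure (Row d)) [IsProbabilityMeasure ν] (u : Step d) (C : ℝ≥0∞) (us : ℕ → ℝ≥0∞) :
    Prop :=
  ∀ (s H : ℕ) (E : Finset (Site d)) (μ : Site d → ℝ≥0∞) (M lam : ℝ≥0∞),
    ∑' x, μ x ≤ 1 → (∀ x, μ x ≤ M) → lam ≠ 0 → lam ≠ ⊤ →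
    ∑' x, (if lev u x = 0 then μ x * ∑' π : List (Step d), ∑' γ : List (Step d),
      (if IsUp u H π ∧ endp 0 γ ∈ E ∧ IsDn u H γ ∧ (∃ k, k ∈ Cm u x π γ) ∧
        (∀ k ∈ Cm u x π γ, k + s ≤ H) then aw ν π * aw ν γ else 0) else 0)
      ≤ C * (lam + M * E.card * us s / lam + us s)

/-- `H3P` with the landing of `Y` strictly below the start of `X` (helper125) -/
def H3Q (ν : Measure (Row d)) [IsProbabilityMeasure ν] (u : Step d) : Prop := by
  classical
  exact ∃ C : ℝ≥0∞, C ≠ ⊤ ∧ ∀ r0 : ℕ, ∀ η : ℝ≥0∞, η ≠ 0 → ∃ s0 : ℕ, ∀ s : ℕ, s0 ≤ s →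
    ∀ (h h' δ : ℕ) (E : Finset (Site d)) (μ : Site d → ℝ≥0∞) (M lam : ℝ≥0∞),
      1 ≤ δ → δ ≤ r0 → h < h' + δ → h' + δ ≤ h + r0 →
      (∑' x, μ x ≤ 1) → (∀ x, μ x ≤ M) → M ≠ ⊤ → (∀ x, μ x ≠ 0 → lev u x = -(δ : ℤ)) →
      lam ≠ 0 → lam ≠ ⊤ →
      ∑' x, μ x * ∑' π : List (Step d), ∑' γ : List (Step d),
        (if IsUp u h π ∧ endp 0 γ ∈ E ∧ IsDn u h' γ ∧
            (∃ y, y ∈ sitesL (-endp 0 π) π ∧ y ∈ sitesL x γ) ∧
            (∀ y, y ∈ sitesL (-endp 0 π) π → y ∈ sitesL x γ → -(h : ℤ) + s ≤ lev u y)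
          then aw ν π * aw ν γ else 0) ≤ C * (lam + M * E.card * η / lam + η)

lemma H3Q_of_H3P {ν : Measure (Row d)} [IsProbabilityMeasure ν] {u : Step d}
    (h : WL763.H3P ν u) : H3Q ν u := by
  obtain ⟨C, hC, h⟩ := h
  refine ⟨C, hC, fun r0 η hη => ?_⟩
  obtain ⟨s0, h⟩ := h r0 η hη
  exact ⟨s0, fun s hs h1 h2 δ E μ M lam a1 a2 a3 a4 a5 a6 a7 a8 a9 a10 =>
    h s hs h1 h2 δ E μ M lam a1 a2 a3.le a4 a5 a6 a7 a8 a9 a10⟩

section
variable (u : Step d)

lemma lev_shift (x : Site d) : lev u (x + stepVec (opp u)) = lev u x - 1 := by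
  rw [KWin327.lev_add, KWin327.lev_opp]; ring

/-- the contact set at `x` in words -/
lemma cm_iff {H : ℕ} {π γ : List (Step d)} {x : Site d} (h : IsUp u H π) :
    ((∃ k, k ∈ Cm u x π γ) ↔
      ∃ y, y ∈ sitesL (-endp 0 π) π ∧ y ∈ sitesL (x + stepVec (opp u)) γ) := by
  constructor
  · rintro ⟨k, y, h1, h2, _⟩
    exact ⟨y, h1, h2⟩
  · rintro ⟨y, h1, h2⟩
    have := KWin327.lev_hung h h1
    refine ⟨(-lev u y).toNat, y, h1, h2, ?_⟩
    omega

end

lemma rhs_mono {C M M' lam η : ℝ≥0∞} {n : ℕ} (h : M ≤ M') :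
    C * (lam + M * n * η / lam + η) ≤ C * (lam + M' * n * η / lam + η) := by
  gcongr

open Classical in
/-- general shift: a weight on the lateral sites, moved to level `-1` -/
lemma shift_sum (u : Step d) (μ : Site d → ℝ≥0∞) (F : Site d → ℝ≥0∞) :
    ∑' x, (if lev u x = 0 then μ x * F (x + stepVec (opp u)) else 0)
      = ∑' x, (if lev u x = -1 then μ (x - stepVec (opp u)) else 0) * F x := by
  rw [← (Equiv.addRight (stepVec (opp u))).tsum_eq
    (fun x => (if lev u x = -1 then μ (x - stepVec (opp u)) else 0) * F x)]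
  refine tsum_congr fun x => ?_
  simp only [Equiv.coe_addRight, add_sub_cancel_right]
  rw [lev_shift]
  by_cases h : lev u x = 0
  · rw [if_pos h, if_pos (by rw [h]; norm_num)]
  · rw [if_neg h, if_neg (by omega), zero_mul]

lemma mass_shift (u : Step d) {μ : Site d → ℝ≥0∞} (h : ∑' x, μ x ≤ 1) :
    ∑' x, (if lev u x = -1 then μ (x - stepVec (opp u)) else 0) ≤ 1 := by
  refine le_trans (ENNReal.tsum_le_tsum (g := fun x => μ (x - stepVec (opp u))) fun x => ?_) ?_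
  · split_ifs
    · exact le_rfl
    · exact zero_le
  · have := (Equiv.subRight (stepVec (opp u))).tsum_eq μ
    simp only [Equiv.subRight_apply] at this
    rw [this]
    exact h

theorem E2_of (ν : Measure (Row d)) [IsProbabilityMeasure ν] (u : Step d)
    (h : WL763.H2P ν u) :
    ∃ C : ℝ≥0∞, C ≠ ⊤ ∧ ∃ us : ℕ → ℝ≥0∞, Tendsto us atTop (𝓝 0) ∧ E2 ν u C us := by
  classical
  obtain ⟨C, hC, h⟩ := h
  refine ⟨C + 1, ENNReal.add_ne_top.2 ⟨hC, ENNReal.one_ne_top⟩, ?_⟩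
  obtain ⟨us, hus, hP⟩ := exists_us
    (fun s η => ∀ (H : ℕ) (E : Finset (Site d)) (μ : Site d → ℝ≥0∞) (M lam : ℝ≥0∞),
      ∑' x, μ x ≤ 1 → (∀ x, μ x ≤ M) → lam ≠ 0 → lam ≠ ⊤ →
      ∑' x, (if lev u x = 0 then μ x * ∑' π : List (Step d), ∑' γ : List (Step d),
        (if IsUp u H π ∧ endp 0 π ∈ E ∧ IsDn u H γ ∧ (∃ k, k ∈ Cm u x π γ) ∧
          (∀ k ∈ Cm u x π γ, s < k) then aw ν π * aw ν γ else 0) else 0)
        ≤ (C + 1) * (lam + M * E.card * η / lam + η))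
    (fun s H E μ M lam _ _ _ _ => by
      rw [add_top, ENNReal.mul_top (by simp)]; exact le_top)
    (fun η hη => by
      obtain ⟨s0, h⟩ := h 1 η hη
      refine ⟨s0, fun s hs H E μ M lam hμ hM hl hlt => ?_⟩
      have hb := h s hs H H 1 E (fun x => if lev u x = -1 then μ (x - stepVec (opp u)) else 0)
        (min M 1) lam le_rfl le_rfl (Nat.le_succ H) le_rfl (mass_shift u hμ)
        (fun x => by
          show (if lev u x = -1 then μ (x - stepVec (opp u)) else 0) ≤ min M 1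
          split_ifs
          · exact le_min (hM _) (le_trans (ENNReal.le_tsum _) hμ)
          · exact zero_le)
        (ne_top_of_le_ne_top ENNReal.one_ne_top (min_le_right _ _))
        (fun x hx => by
          by_contra hne
          exact hx (if_neg (by simpa using hne)))
        hl hlt
      refine le_trans ?_ (le_trans hb (le_trans (rhs_mono (min_le_left _ _)) ?_))
      · rw [← shift_sum u μ (fun x => ∑' π : List (Step d), ∑' γ : List (Step d),
          (if IsUp u H π ∧ endp 0 π ∈ E ∧ IsDn u H γ ∧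
            (∃ y, y ∈ sitesL (-endp 0 π) π ∧ y ∈ sitesL x γ) ∧
            (∀ y, y ∈ sitesL (-endp 0 π) π → y ∈ sitesL x γ → lev u y + s ≤ -((1 : ℕ) : ℤ))
          then aw ν π * aw ν γ else 0))]
        refine ENNReal.tsum_le_tsum fun x => ?_
        by_cases hx : lev u x = 0
        · rw [if_pos hx, if_pos hx]
          refine mul_le_mul_right (ENNReal.tsum_le_tsum fun π => ENNReal.tsum_le_tsum fun γ => ?_) _
          by_cases hc : IsUp u H π ∧ endp 0 π ∈ E ∧ IsDn u H γ ∧ (∃ k, k ∈ Cm u x π γ) ∧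
            (∀ k ∈ Cm u x π γ, s < k)
          · rw [if_pos hc, if_pos]
            obtain ⟨c1, c2, c3, c4, c5⟩ := hc
            refine ⟨c1, c2, c3, (cm_iff u c1).1 c4, fun y hy hy' => ?_⟩
            have hl := KWin327.lev_hung c1 hy
            have := c5 ((-lev u y).toNat) ⟨y, hy, hy', by omega⟩
            push_cast
            omega
          · rw [if_neg hc]; exact zero_le
        · rw [if_neg hx, if_neg hx]
      · gcongr
        exact le_self_add)
  exact ⟨us, hus, hP⟩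

theorem E3_of (ν : Measure (Row d)) [IsProbabilityMeasure ν] (u : Step d)
    (h : H3Q ν u) :
    ∃ C : ℝ≥0∞, C ≠ ⊤ ∧ ∃ us : ℕ → ℝ≥0∞, Tendsto us atTop (𝓝 0) ∧ E3 ν u C us := by
  classical
  obtain ⟨C, hC, h⟩ := h
  refine ⟨C + 1, ENNReal.add_ne_top.2 ⟨hC, ENNReal.one_ne_top⟩, ?_⟩
  obtain ⟨us, hus, hP⟩ := exists_us
    (fun s η => ∀ (H : ℕ) (E : Finset (Site d)) (μ : Site d → ℝ≥0∞) (M lam : ℝ≥0∞),
      ∑' x, μ x ≤ 1 → (∀ x, μ x ≤ M) → lam ≠ 0 → lam ≠ ⊤ →
      ∑' x, (if lev u x = 0 then μ x * ∑' π : List (Step d), ∑' γ : List (Step d),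
        (if IsUp u H π ∧ endp 0 γ ∈ E ∧ IsDn u H γ ∧ (∃ k, k ∈ Cm u x π γ) ∧
          (∀ k ∈ Cm u x π γ, k + s ≤ H) then aw ν π * aw ν γ else 0) else 0)
        ≤ (C + 1) * (lam + M * E.card * η / lam + η))
    (fun s H E μ M lam _ _ _ _ => by
      rw [add_top, ENNReal.mul_top (by simp)]; exact le_top)
    (fun η hη => by
      obtain ⟨s0, h⟩ := h 1 η hη
      refine ⟨s0, fun s hs H E μ M lam hμ hM hl hlt => ?_⟩
      have hb := h s hs H H 1 E (fun x => if lev u x = -1 then μ (x - stepVec (opp u)) else 0)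
        (min M 1) lam le_rfl le_rfl (Nat.lt_succ_self H) le_rfl (mass_shift u hμ)
        (fun x => by
          show (if lev u x = -1 then μ (x - stepVec (opp u)) else 0) ≤ min M 1
          split_ifs
          · exact le_min (hM _) (le_trans (ENNReal.le_tsum _) hμ)
          · exact zero_le)
        (ne_top_of_le_ne_top ENNReal.one_ne_top (min_le_right _ _))
        (fun x hx => by
          by_contra hne
          exact hx (if_neg (by simpa using hne)))
        hl hlt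
      refine le_trans ?_ (le_trans hb (le_trans (rhs_mono (min_le_left _ _)) ?_))
      · rw [← shift_sum u μ (fun x => ∑' π : List (Step d), ∑' γ : List (Step d),
          (if IsUp u H π ∧ endp 0 γ ∈ E ∧ IsDn u H γ ∧
            (∃ y, y ∈ sitesL (-endp 0 π) π ∧ y ∈ sitesL x γ) ∧
            (∀ y, y ∈ sitesL (-endp 0 π) π → y ∈ sitesL x γ → -(H : ℤ) + s ≤ lev u y)
          then aw ν π * aw ν γ else 0))]
        refine ENNReal.tsum_le_tsum fun x => ?_
        by_cases hx : lev u x = 0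
        · rw [if_pos hx, if_pos hx]
          refine mul_le_mul_right (ENNReal.tsum_le_tsum fun π => ENNReal.tsum_le_tsum fun γ => ?_) _
          by_cases hc : IsUp u H π ∧ endp 0 γ ∈ E ∧ IsDn u H γ ∧ (∃ k, k ∈ Cm u x π γ) ∧
            (∀ k ∈ Cm u x π γ, k + s ≤ H)
          · rw [if_pos hc, if_pos]
            obtain ⟨c1, c2, c3, c4, c5⟩ := hc
            refine ⟨c1, c2, c3, (cm_iff u c1).1 c4, fun y hy hy' => ?_⟩
            have hl := KWin327.lev_hung c1 hy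
            have := c5 ((-lev u y).toNat) ⟨y, hy, hy', by omega⟩
            omega
          · rw [if_neg hc]; exact zero_le
        · rw [if_neg hx, if_neg hx]
      · gcongr
        exact le_self_add)
  exact ⟨us, hus, hP⟩

end Crest.Agent.R154.EAd327
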