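import Crest.Agent.R154.B6Abs_833
import Crest.Agent.R154.B6Hyp_833

/-! R154, step (ES) of TILE_RUN (helper509; statement and proof idea: helper912 #36788, helper730's
counting): on the abstract pair of walkers of helper833 (`PairSys`), if late contacts (after `M`)
have probability `≤ c₁ / 2` from every start up to the horizon, then the expected number of windows
`(r + t N, r + t N + l]` with a contact is `≤ (2 / c₁) ((M + l) / N + 2)`. -/

set_option autoImplicit false
set_option linter.unusedSectionVars false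
set_option linter.deprecated false

open MeasureTheory Set Filter Topology
open scoped BigOperators

namespace Crest.Agent.R154.ES509

open Crest.Agent.R154.B6_833 Crest.Agent.R154.B6_833.PairSys

/-- number of points of a progression in a window -/
lemma card_win {N : ℕ} (hN : 1 ≤ N) (K r x m : ℕ) :
    (((Finset.range K).filter fun t => x ≤ r + t * N ∧ r + t * N < x + m).card : ℝ)
      ≤ (m : ℝ) / N + 1 := by
  classical
  set I := (Finset.range K).filter fun t => x ≤ r + t * N ∧ r + t * N < x + m with hI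
  rcases I.eq_empty_or_nonempty with he | hne
  · rw [he]; simp only [Finset.card_empty, Nat.cast_zero]; positivity
  · have hsub : I ⊆ Finset.Icc (I.min' hne) (I.min' hne + m / N) := by
      intro t ht
      have h1 := I.min'_le t ht
      have h2 := I.min'_mem hne
      rw [Finset.mem_Icc]
      refine ⟨h1, ?_⟩
      generalize I.min' hne = t0 at h1 h2
      rw [hI, Finset.mem_filter] at ht h2
      have h3 : (t - t0) ≤ m / N := by
        rw [Nat.le_div_iff_mul_le (by omega)]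
        have : (t - t0) * N = t * N - t0 * N := Nat.sub_mul _ _ _
        omega
      omega
    have h1 := Finset.card_le_card hsub
    rw [Nat.card_Icc] at h1
    have h2 : I.card ≤ m / N + 1 := by
      generalize m / N = z at h1 ⊢
      omega
    have h3 : ((m / N : ℕ) : ℝ) ≤ (m : ℝ) / N := Nat.cast_div_le
    have h4 : (I.card : ℝ) ≤ ((m / N : ℕ) : ℝ) + 1 := by exact_mod_cast h2
    linarith

variable {S Ω : Type*} [MeasurableSpace S] [mΩ : MeasurableSpace Ω] [DiscreteMeasurableSpace S]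
  {A : PairSys S Ω}
variable {a : ℕ} {c₁ cₑ : ℝ} {β : ℕ → ℝ} {h : ℕ → ℝ} {p : ℝ} {Far : ℕ → Set S} {χ : ℕ → S → ℝ}

/-- fresh restart for "a contact after `M` more levels" -/
def RM (A : PairSys S Ω) : Prop :=
  ∀ (s : S) (q H M : ℕ), q + M ≤ H → ∀ B, MeasurableSet[A.F q] B → B ⊆ A.al q →
    (A.P s).real (B ∩ (A.N q H ∩ (A.nocs (q+M) H)ᶜ)) ≤
      ∫ ω in B, (A.P (A.st q ω)).real (A.N 0 (H-q) ∩ (A.nocs M (H-q))ᶜ) ∂(A.P s)

/-- event: contact in the window `(b, b + l]` (of a pair which is natural up to `b + l`) -/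
def Ev (A : PairSys S Ω) (l b : ℕ) : Set Ω := A.N 0 (b+l) ∩ (A.nocs b (b+l))ᶜ

lemma Ev_meas (l b : ℕ) : MeasurableSet[A.F (b+l)] (Ev A l b) :=
  MeasurableSet.inter (A.N_meas 0 _ (Nat.zero_le _)) (nocs_meas b (b+l)).compl

lemma Ev_al (l b : ℕ) : Ev A l b ⊆ A.al (b+l) := fun _ hω => A.N_al 0 _ (Nat.zero_le _) hω.1

/-- no further contact with probability `≥ c₁ / 2` -/
lemma escape (H : A.Hyp a c₁ cₑ β h p Far χ) (hRM : RM A) {M T' : ℕ}
    (hlate : ∀ H', 4*M ≤ H' → H' ≤ T' + 4*M → ∀ s,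
      (A.P s).real (A.N 0 H' ∩ (A.nocs M H')ᶜ) ≤ c₁/2)
    (s : S) {q : ℕ} (hq : q ≤ T') {B : Set Ω} (hB : MeasurableSet[A.F q] B) (hBa : B ⊆ A.al q) :
    (A.P s).real (B \ (A.N q (T'+4*M) ∩ A.nocs (q+M) (T'+4*M))) ≤ (1 - c₁/2) * (A.P s).real B := by
  have := A.prob s
  have hBm := meas q hB
  have hc := H.c₁pos
  set Hh := T' + 4*M with hHh
  have hN : MeasurableSet (A.N q Hh) := N_measΩ q Hh (by omega)
  have hno : MeasurableSet (A.nocs (q+M) Hh) := nocs_measΩ _ _
  have h1 := lowerN H s q Hh (by omega) B hB hBa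
  have h2 := hRM s q Hh M (by omega) B hB hBa
  have h3 : ∫ ω in B, (A.P (A.st q ω)).real (A.N 0 (Hh-q) ∩ (A.nocs M (Hh-q))ᶜ) ∂(A.P s)
      ≤ ∫ ω in B, c₁/2 ∂(A.P s) := by
    refine setIntegral_mono_on ?_ (integrable_const _).integrableOn hBm ?_
    · refine (integ_st s q (fun t => (A.P t).real (A.N 0 (Hh-q) ∩ (A.nocs M (Hh-q))ᶜ)) 1
        fun t => ?_).integrableOn
      have := A.prob t
      rw [abs_of_nonneg measureReal_nonneg]; exact measureReal_le_one
    · intro ω _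
      exact hlate (Hh-q) (by omega) (by omega) _
  rw [setIntegral_const, smul_eq_mul] at h3
  have h4 : (A.P s).real (B ∩ A.N q Hh) = (A.P s).real (B ∩ (A.N q Hh ∩ A.nocs (q+M) Hh))
      + (A.P s).real (B ∩ (A.N q Hh ∩ (A.nocs (q+M) Hh)ᶜ)) := by
    have e := measureReal_inter_add_diff (μ := A.P s) (s := B ∩ A.N q Hh) hno
    rw [← e]
    congr 2
    · rw [inter_assoc]
    · rw [diff_eq, inter_assoc]
  have h5 : (A.P s).real (B \ (A.N q Hh ∩ A.nocs (q+M) Hh))
      = (A.P s).real B - (A.P s).real (B ∩ (A.N q Hh ∩ A.nocs (q+M) Hh)) := by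
    have e := measureReal_inter_add_diff (μ := A.P s) (s := B) (hN.inter hno)
    linarith
  rw [h5]
  have h6 : (A.P s).real B • (c₁/2) = (A.P s).real B * (c₁/2) := rfl
  nlinarith

theorem es_aux (H : A.Hyp a c₁ cₑ β h p Far χ) (hRM : RM A) {M T' l N : ℕ} (hN : 1 ≤ N)
    (hl : 1 ≤ l)
    (hlate : ∀ H', 4*M ≤ H' → H' ≤ T' + 4*M → ∀ s,
      (A.P s).real (A.N 0 H' ∩ (A.nocs M H')ᶜ) ≤ c₁/2)
    (s : S) (r K : ℕ) (hT : r + K*N + l ≤ T') : ∀ n q : ℕ, r + K*N ≤ q + n → q ≤ T' →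
      ∀ B, MeasurableSet[A.F q] B → B ⊆ A.al q →
      ∑ t ∈ (Finset.range K).filter (fun t => q ≤ r + t*N), (A.P s).real (B ∩ Ev A l (r+t*N))
        ≤ ((2/c₁) * (((M:ℝ)+l)/N + 2)) * (A.P s).real B := by
  classical
  have := A.prob s
  have hc := H.c₁pos
  have hc1 := c₁_le H s
  have hNR : (0:ℝ) < N := by exact_mod_cast hN
  set C : ℝ := (2/c₁) * (((M:ℝ)+l)/N + 2) with hC
  have hC0 : 0 ≤ C := by rw [hC]; positivity
  have hlt : ∀ t ∈ Finset.range K, r + t*N + N ≤ r + K*N := by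
    intro t ht
    rw [Finset.mem_range] at ht
    have : (t+1)*N ≤ K*N := Nat.mul_le_mul_right _ ht
    have e : (t+1)*N = t*N + N := by ring
    omega
  intro n
  induction n using Nat.strong_induction_on with
  | _ n ih =>
    intro q hqn hqT B hB hBa
    have hBm := meas q hB
    have hB0 : 0 ≤ (A.P s).real B := measureReal_nonneg
    rcases Nat.lt_or_ge q (r + K*N) with hq | hq
    swap
    · have : (Finset.range K).filter (fun t => q ≤ r + t*N) = ∅ := by
        refine Finset.filter_eq_empty_iff.mpr fun t ht => ?_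
        have := hlt t ht
        omega
      rw [this, Finset.sum_empty]; positivity
    set μ := A.P s with hμ
    set I := (Finset.range K).filter (fun t => q ≤ r + t*N) with hI
    set I2 := I.filter (fun t => q + M ≤ r + t*N) with hI2
    have hI2r : ∀ t ∈ I2, t ∈ Finset.range K ∧ q ≤ r + t*N ∧ q + M ≤ r + t*N := by
      intro t ht
      rw [hI2, Finset.mem_filter, hI, Finset.mem_filter] at ht
      exact ⟨ht.1.1, ht.1.2, ht.2⟩
    have hsplit := Finset.sum_filter_add_sum_filter_not I (fun t => q + M ≤ r + t*N)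
      (fun t => μ.real (B ∩ Ev A l (r+t*N)))
    -- near windows
    have s1 : ∑ t ∈ I.filter (fun t => ¬ q + M ≤ r + t*N), μ.real (B ∩ Ev A l (r+t*N))
        ≤ ((M:ℝ)/N + 1) * μ.real B := by
      have h1 : ∑ t ∈ I.filter (fun t => ¬ q + M ≤ r + t*N), μ.real (B ∩ Ev A l (r+t*N))
          ≤ ∑ t ∈ I.filter (fun t => ¬ q + M ≤ r + t*N), μ.real B :=
        Finset.sum_le_sum fun t _ => measureReal_mono inter_subset_left
      refine h1.trans ?_
      rw [Finset.sum_const, nsmul_eq_mul]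
      refine mul_le_mul_of_nonneg_right ?_ hB0
      refine le_trans ?_ (card_win hN K r q M)
      have : I.filter (fun t => ¬ q + M ≤ r + t*N) ⊆
          (Finset.range K).filter fun t => q ≤ r + t * N ∧ r + t * N < q + M := by
        intro t ht
        rw [Finset.mem_filter, hI, Finset.mem_filter] at ht
        rw [Finset.mem_filter]
        exact ⟨ht.1.1, ht.1.2, not_le.mp ht.2⟩
      exact_mod_cast Finset.card_le_card this
    -- first window
    set Fs : ℕ → Set Ω := fun τ => B ∩ (Ev A l (r+τ*N) ∩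
      ⋂ t ∈ {t : ℕ | t ∈ I2 ∧ t < τ}, (Ev A l (r+t*N))ᶜ) with hFs
    have hFsm : ∀ τ ∈ I2, MeasurableSet[A.F (r+τ*N+l)] (Fs τ) := by
      intro τ hτ
      have h2 := hI2r τ hτ
      refine MeasurableSet.inter (A.F_mono q _ (by omega) _ hB)
        (MeasurableSet.inter (Ev_meas l _) ?_)
      refine MeasurableSet.biInter (Set.to_countable _) ?_
      intro t ht
      have : t * N ≤ τ * N := Nat.mul_le_mul_right _ ht.2.le
      exact (A.F_mono (r+t*N+l) _ (by omega) _ (Ev_meas l _)).compl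
    have hFsa : ∀ τ, Fs τ ⊆ A.al (r+τ*N+l) := fun τ ω hω => Ev_al l _ hω.2.1
    have s2 : ∑ t ∈ I2, μ.real (B ∩ Ev A l (r+t*N))
        ≤ ∑ τ ∈ I2, ∑ t ∈ I2.filter (fun t => τ ≤ t), μ.real (Fs τ ∩ Ev A l (r+t*N)) := by
      have e1 : ∀ t ∈ I2, μ.real (B ∩ Ev A l (r+t*N))
          ≤ ∑ τ ∈ I2, if τ ≤ t then μ.real (Fs τ ∩ Ev A l (r+t*N)) else 0 := by
        intro t ht
        have hsub : B ∩ Ev A l (r+t*N) ⊆ ⋃ τ ∈ I2.filter (fun τ => τ ≤ t),
            (Fs τ ∩ Ev A l (r+t*N)) := by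
          rintro ω ⟨h1, h2⟩
          have hex : ∃ τ, τ ∈ I2 ∧ ω ∈ Ev A l (r+τ*N) := ⟨t, ht, h2⟩
          refine mem_iUnion₂.mpr ⟨Nat.find hex, ?_, ⟨h1, (Nat.find_spec hex).2, ?_⟩, h2⟩
          · rw [Finset.mem_filter]
            exact ⟨(Nat.find_spec hex).1, Nat.find_min' hex ⟨ht, h2⟩⟩
          · refine mem_iInter₂.mpr fun t' ht' hω => ?_
            exact Nat.find_min hex ht'.2 ⟨ht'.1, hω⟩
        exact (measureReal_mono hsub (measure_ne_top _ _)).trans ((real_iUnion_le _ _).trans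
          (le_of_eq (Finset.sum_filter _ _)))
      refine (Finset.sum_le_sum e1).trans ?_
      rw [Finset.sum_comm]
      exact Finset.sum_le_sum fun τ _ => le_of_eq (Finset.sum_filter _ _).symm
    have s3 : ∀ τ ∈ I2, ∑ t ∈ I2.filter (fun t => τ ≤ t), μ.real (Fs τ ∩ Ev A l (r+t*N))
        ≤ (((l:ℝ)/N + 1) + C) * μ.real (Fs τ) := by
      intro τ hτ
      have h2 := hI2r τ hτ
      have hF0 : 0 ≤ μ.real (Fs τ) := measureReal_nonneg
      have h3 := hlt τ h2.1
      have hspl := Finset.sum_filter_add_sum_filter_not (I2.filter (fun t => τ ≤ t))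
        (fun t => r + τ*N + l ≤ r + t*N) (fun t => μ.real (Fs τ ∩ Ev A l (r+t*N)))
      have h4 : ∑ t ∈ (I2.filter (fun t => τ ≤ t)).filter (fun t => ¬ r + τ*N + l ≤ r + t*N),
          μ.real (Fs τ ∩ Ev A l (r+t*N)) ≤ ((l:ℝ)/N + 1) * μ.real (Fs τ) := by
        refine (Finset.sum_le_sum fun t _ => measureReal_mono inter_subset_left).trans ?_
        rw [Finset.sum_const, nsmul_eq_mul]
        refine mul_le_mul_of_nonneg_right ?_ hF0
        refine le_trans ?_ (card_win hN K r (r+τ*N) l)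
        have : (I2.filter (fun t => τ ≤ t)).filter (fun t => ¬ r + τ*N + l ≤ r + t*N) ⊆
            (Finset.range K).filter fun t => r+τ*N ≤ r + t * N ∧ r + t * N < r+τ*N + l := by
          intro t ht
          rw [Finset.mem_filter, Finset.mem_filter] at ht
          rw [Finset.mem_filter]
          have h5 : τ * N ≤ t * N := Nat.mul_le_mul_right _ ht.1.2
          exact ⟨(hI2r t ht.1.1).1, by omega, by omega⟩
        exact_mod_cast Finset.card_le_card this
      have h5 : ∑ t ∈ (I2.filter (fun t => τ ≤ t)).filter (fun t => r + τ*N + l ≤ r + t*N),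
          μ.real (Fs τ ∩ Ev A l (r+t*N)) ≤ C * μ.real (Fs τ) := by
        refine le_trans ?_ (ih (r + K*N - (r+τ*N+l)) (by omega) (r+τ*N+l) (by omega) (by omega)
          (Fs τ) (hFsm τ hτ) (hFsa τ))
        refine Finset.sum_le_sum_of_subset_of_nonneg ?_ (fun _ _ _ => measureReal_nonneg)
        intro t ht
        rw [Finset.mem_filter, Finset.mem_filter] at ht
        rw [Finset.mem_filter]
        exact ⟨(hI2r t ht.1.1).1, ht.2⟩
      rw [← hspl]
      linarith
    have s4 : ∑ τ ∈ I2, μ.real (Fs τ) ≤ (1 - c₁/2) * μ.real B := by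
      refine le_trans ?_ (escape H hRM hlate s hqT hB hBa)
      refine sum_disj_le I2 Fs _ (fun τ hτ => meas _ (hFsm τ hτ)) ?_ ?_
      · intro τ hτ ω hω
        refine ⟨hω.1, fun hbad => ?_⟩
        have h2 := hI2r τ hτ
        have h3 := hlt τ h2.1
        have h4 := hω.2.1.2
        simp only [nocs, mem_compl_iff, mem_setOf_eq, not_forall, not_not] at h4
        obtain ⟨l', h5, h6, h7⟩ := h4
        exact hbad.2 l' (by omega) (by omega) h7
      · intro i hi j hj hij ω hωi hωj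
        have := mem_iInter₂.mp hωj.2.2 i ⟨hi, hij⟩
        exact this hωi.2.1
    have s5 : ∑ t ∈ I2, μ.real (B ∩ Ev A l (r+t*N))
        ≤ (((l:ℝ)/N + 1) + C) * ((1 - c₁/2) * μ.real B) := by
      refine s2.trans ((Finset.sum_le_sum s3).trans ?_)
      rw [← Finset.mul_sum]
      exact mul_le_mul_of_nonneg_left s4 (by positivity)
    have hkey : ((M:ℝ)/N + 1) + (((l:ℝ)/N + 1) + C) * (1 - c₁/2) ≤ C := by
      have e1 : C * (c₁/2) = ((M:ℝ)+l)/N + 2 := by rw [hC]; field_simp
      have e2 : ((M:ℝ)+l)/N = (M:ℝ)/N + (l:ℝ)/N := add_div _ _ _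
      have e3 : 0 ≤ (l:ℝ)/N := by positivity
      nlinarith
    rw [← hsplit]
    calc _ ≤ (((l:ℝ)/N + 1) + C) * ((1 - c₁/2) * μ.real B) + ((M:ℝ)/N + 1) * μ.real B :=
          add_le_add s5 s1
      _ = (((M:ℝ)/N + 1) + (((l:ℝ)/N + 1) + C) * (1 - c₁/2)) * μ.real B := by ring
      _ ≤ C * μ.real B := mul_le_mul_of_nonneg_right hkey hB0

/-- **(ES)** the expected number of windows with a contact. -/
theorem es (H : A.Hyp a c₁ cₑ β h p Far χ) (hRM : RM A) {M T' l N : ℕ} (hN : 1 ≤ N)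
    (hlate : ∀ H', 4*M ≤ H' → H' ≤ T' + 4*M → ∀ s,
      (A.P s).real (A.N 0 H' ∩ (A.nocs M H')ᶜ) ≤ c₁/2) :
    ∀ s r K, r + K*N + l ≤ T' →
      ∑ t ∈ Finset.range K, (A.P s).real (A.N 0 (r+t*N+l) ∩ (A.nocs (r+t*N) (r+t*N+l))ᶜ)
        ≤ (2/c₁) * (((M:ℝ)+l)/N + 2) := by
  intro s r K hT
  have := A.prob s
  have hc := H.c₁pos
  have hNR : (0:ℝ) < N := by exact_mod_cast hN
  have hC0 : 0 ≤ (2/c₁) * (((M:ℝ)+l)/N + 2) := by positivity
  rcases Nat.eq_zero_or_pos l with hl | hl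
  · refine le_trans (le_of_eq (Finset.sum_eq_zero fun t _ => ?_)) hC0
    subst hl
    rw [add_zero, nocs_self, compl_univ, inter_empty]
    simp
  · have h1 := es_aux H hRM hN hl hlate s r K hT (r+K*N) 0 (by omega) (Nat.zero_le _) (A.al 0)
      (A.al_meas 0) subset_rfl
    have h2 : ∑ t ∈ Finset.range K, (A.P s).real (A.N 0 (r+t*N+l) ∩ (A.nocs (r+t*N) (r+t*N+l))ᶜ)
        = ∑ t ∈ (Finset.range K).filter (fun t => 0 ≤ r + t*N),
          (A.P s).real (A.al 0 ∩ Ev A l (r+t*N)) := by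
      rw [Finset.filter_true_of_mem (fun t _ => Nat.zero_le _)]
      refine Finset.sum_congr rfl fun t _ => ?_
      congr 1
      refine (inter_eq_right.mpr fun ω hω => ?_).symm
      exact A.al_anti 0 _ (Nat.zero_le _) (Ev_al l _ hω)
    rw [h2]
    refine h1.trans ?_
    have : (A.P s).real (A.al 0) ≤ 1 := measureReal_le_one
    calc _ ≤ (2/c₁) * (((M:ℝ)+l)/N + 2) * 1 := mul_le_mul_of_nonneg_left this hC0
      _ = _ := mul_one _

end Crest.Agent.R154.ES509
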