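import Mathlib

/-! Row 154 (helper480), route HOME MASS, analytic lemmas of the early phase: negative moments from
an exponential lower tail (`neg_moment`), the tail of the confined mass from the tail of the
unconfined one (`conf_tail`), the tail of a mixture from the tails of the points (`law_tail`). -/

set_option autoImplicit false
set_option linter.unusedSectionVars false

namespace Crest.Agent.R154.Early480

open MeasureTheory Set Filter
open scoped ENNReal Topology

variable {Ω : Type*} [MeasurableSpace Ω] {P : Measure Ω} [IsProbabilityMeasure P]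

open Classical in
/-- pointwise bound of a negative power by its level sets -/
lemma pt {θ : ℝ} (hθ : 0 < θ) {e : ℝ≥0∞} (he : e ≤ 1) :
    e ^ (-θ) ≤ ∑' n : ℕ, ENNReal.ofReal (Real.exp (θ * (n + 1))) *
      (if e ≤ ENNReal.ofReal (Real.exp (-(n : ℝ))) then 1 else 0) := by
  rcases eq_or_ne e 0 with h0 | h0
  · subst h0
    have h1 : ∀ n : ℕ, (1 : ℝ≥0∞) ≤ ENNReal.ofReal (Real.exp (θ * (n + 1))) *
        (if (0 : ℝ≥0∞) ≤ ENNReal.ofReal (Real.exp (-(n : ℝ))) then 1 else 0) := by
      intro n
      rw [if_pos (zero_le), mul_one]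
      rw [← ENNReal.ofReal_one]
      refine ENNReal.ofReal_le_ofReal (Real.one_le_exp ?_)
      positivity
    refine le_trans le_top (le_trans (le_of_eq ?_) (ENNReal.tsum_le_tsum h1))
    exact (ENNReal.tsum_const_eq_top_of_ne_zero one_ne_zero).symm
  · have ht : e ≠ ∞ := ne_top_of_le_ne_top ENNReal.one_ne_top he
    set r := e.toReal with hr
    have hrpos : 0 < r := ENNReal.toReal_pos h0 ht
    have hr1 : r ≤ 1 := by
      have := ENNReal.toReal_mono ENNReal.one_ne_top he
      simpa using this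
    have her : e = ENNReal.ofReal r := (ENNReal.ofReal_toReal ht).symm
    have hlog : 0 ≤ -Real.log r := by
      have := Real.log_nonpos hrpos.le hr1
      linarith
    set n := ⌊-Real.log r⌋₊ with hn
    have hn1 : (n : ℝ) ≤ -Real.log r := Nat.floor_le hlog
    have hn2 : -Real.log r < n + 1 := Nat.lt_floor_add_one _
    have hle : e ≤ ENNReal.ofReal (Real.exp (-(n : ℝ))) := by
      rw [her]
      refine ENNReal.ofReal_le_ofReal ?_
      rw [← Real.exp_log hrpos]
      exact Real.exp_le_exp.2 (by linarith)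
    refine le_trans ?_ (ENNReal.le_tsum n)
    rw [if_pos hle, mul_one, her, ENNReal.ofReal_rpow_of_pos hrpos]
    refine ENNReal.ofReal_le_ofReal ?_
    rw [Real.rpow_def_of_pos hrpos]
    refine Real.exp_le_exp.2 ?_
    nlinarith

/-- **negative moment from an exponential lower tail** -/
theorem neg_moment {E : Ω → ℝ≥0∞} (hE : Measurable E) (hE1 : ∀ᵐ ω ∂P, E ω ≤ 1) {C l0 θ : ℝ}
    (hC : 0 ≤ C) (hθ : 0 < θ) (hl : θ < l0)
    (ht : ∀ x : ℝ, 0 ≤ x → P {ω | E ω ≤ ENNReal.ofReal (Real.exp (-x))} ≤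
      ENNReal.ofReal (C * Real.exp (-(l0 * x)))) :
    ∫⁻ ω, (E ω) ^ (-θ) ∂P ≤
      ENNReal.ofReal (Real.exp θ * (C / (1 - Real.exp (-(l0 - θ))))) := by
  classical
  have hr1 : Real.exp (-(l0 - θ)) < 1 := by
    rw [Real.exp_lt_one_iff]; linarith
  have hr0 : 0 ≤ Real.exp (-(l0 - θ)) := (Real.exp_pos _).le
  have hms : ∀ n : ℕ, MeasurableSet {ω | E ω ≤ ENNReal.ofReal (Real.exp (-(n : ℝ)))} :=
    fun n => measurableSet_le hE measurable_const
  calc ∫⁻ ω, (E ω) ^ (-θ) ∂P
      ≤ ∫⁻ ω, ∑' n : ℕ, ENNReal.ofReal (Real.exp (θ * (n + 1))) *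
          (if E ω ≤ ENNReal.ofReal (Real.exp (-(n : ℝ))) then 1 else 0) ∂P := by
        refine lintegral_mono_ae ?_
        filter_upwards [hE1] with ω hω
        exact pt hθ hω
    _ = ∑' n : ℕ, ∫⁻ ω, ENNReal.ofReal (Real.exp (θ * (n + 1))) *
          (if E ω ≤ ENNReal.ofReal (Real.exp (-(n : ℝ))) then 1 else 0) ∂P := by
        refine lintegral_tsum fun n => ?_
        exact ((Measurable.ite (hms n) measurable_const measurable_const).const_mul _).aemeasurable
    _ = ∑' n : ℕ, ENNReal.ofReal (Real.exp (θ * (n + 1))) *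
          P {ω | E ω ≤ ENNReal.ofReal (Real.exp (-(n : ℝ)))} := by
        refine tsum_congr fun n => ?_
        rw [lintegral_const_mul _ (Measurable.ite (hms n) measurable_const measurable_const)]
        congr 1
        have : (fun ω => if E ω ≤ ENNReal.ofReal (Real.exp (-(n : ℝ))) then (1 : ℝ≥0∞) else 0)
            = ({ω | E ω ≤ ENNReal.ofReal (Real.exp (-(n : ℝ)))}).indicator 1 := by
          funext ω
          simp [Set.indicator]
        rw [this, lintegral_indicator_one (hms n)]
    _ ≤ ∑' n : ℕ, ENNReal.ofReal (Real.exp θ * C * (Real.exp (-(l0 - θ))) ^ n) := by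
        refine ENNReal.tsum_le_tsum fun n => ?_
        calc ENNReal.ofReal (Real.exp (θ * (n + 1))) *
              P {ω | E ω ≤ ENNReal.ofReal (Real.exp (-(n : ℝ)))}
            ≤ ENNReal.ofReal (Real.exp (θ * (n + 1))) *
              ENNReal.ofReal (C * Real.exp (-(l0 * n))) := by
              gcongr
              exact ht n (Nat.cast_nonneg n)
          _ = ENNReal.ofReal (Real.exp θ * C * (Real.exp (-(l0 - θ))) ^ n) := by
              rw [← ENNReal.ofReal_mul (Real.exp_pos _).le]
              congr 1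
              rw [← Real.exp_nat_mul]
              have : Real.exp (θ * (n + 1)) = Real.exp θ * Real.exp (θ * n) := by
                rw [← Real.exp_add]; ring_nf
              rw [this]
              have h2 : Real.exp (n * -(l0 - θ)) = Real.exp (θ * n) * Real.exp (-(l0 * n)) := by
                rw [← Real.exp_add]; ring_nf
              rw [h2]; ring
    _ = ENNReal.ofReal (∑' n : ℕ, Real.exp θ * C * (Real.exp (-(l0 - θ))) ^ n) := by
        rw [ENNReal.ofReal_tsum_of_nonneg (fun n => by positivity)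
          ((summable_geometric_of_lt_one hr0 hr1).mul_left _)]
    _ = ENNReal.ofReal (Real.exp θ * (C / (1 - Real.exp (-(l0 - θ))))) := by
        rw [tsum_mul_left, tsum_geometric_of_lt_one hr0 hr1]
        congr 1
        rw [div_eq_mul_inv]; ring

/-- **tail of the confined mass from the tail of the unconfined mass**; the constants do not depend
on `b` (number of levels of the early phase). -/
theorem conf_tail {m M : Ω → ℝ≥0∞} (hm : Measurable m) (hM : Measurable M)
    {C0 l0 b : ℝ} (hC : 1 ≤ C0) (hl : 0 ≤ l0)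
    (hUE : ∀ᵐ ω ∂P, ENNReal.ofReal (Real.exp (-b)) ≤ m ω)
    (ht : ∀ x : ℝ, 0 ≤ x → P {ω | M ω ≤ ENNReal.ofReal (Real.exp (-x))} ≤
      ENNReal.ofReal (C0 * Real.exp (-(l0 * x))))
    (hε : ∫⁻ ω, (M ω - m ω) ∂P ≤ ENNReal.ofReal (Real.exp (-((1 + l0) * b)))) :
    ∀ x : ℝ, 0 ≤ x → P {ω | m ω ≤ ENNReal.ofReal (Real.exp (-x))} ≤
      ENNReal.ofReal ((C0 * Real.exp (l0 * Real.log 2) + 1) * Real.exp (-(l0 * x))) := by
  intro x hx
  rcases lt_or_ge b x with hbx | hbx
  · have h0 : P {ω | m ω ≤ ENNReal.ofReal (Real.exp (-x))} = 0 := by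
      rw [← compl_compl {ω | m ω ≤ ENNReal.ofReal (Real.exp (-x))}]
      have : {ω | m ω ≤ ENNReal.ofReal (Real.exp (-x))}ᶜ ∈ ae P := by
        filter_upwards [hUE] with ω hω
        simp only [mem_compl_iff, Set.mem_ofPred_eq, not_le]
        refine lt_of_lt_of_le ?_ hω
        exact (ENNReal.ofReal_lt_ofReal_iff (Real.exp_pos _)).2 (Real.exp_lt_exp.2 (by linarith))
      exact mem_ae_iff.1 this
    rw [h0]; exact zero_le
  have hsub : {ω | m ω ≤ ENNReal.ofReal (Real.exp (-x))} ⊆
      {ω | M ω ≤ ENNReal.ofReal (2 * Real.exp (-x))} ∪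
        {ω | ENNReal.ofReal (Real.exp (-x)) ≤ M ω - m ω} := by
    intro ω hω
    by_cases h : M ω ≤ ENNReal.ofReal (2 * Real.exp (-x))
    · exact Or.inl h
    · refine Or.inr ?_
      have hω' : m ω ≤ ENNReal.ofReal (Real.exp (-x)) := hω
      rw [not_le] at h
      have h2 : ENNReal.ofReal (2 * Real.exp (-x))
          = ENNReal.ofReal (Real.exp (-x)) + ENNReal.ofReal (Real.exp (-x)) := by
        rw [← ENNReal.ofReal_add (Real.exp_pos _).le (Real.exp_pos _).le]; ring_nf
      rw [h2] at h
      change ENNReal.ofReal (Real.exp (-x)) ≤ M ω - m ω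
      refine ENNReal.le_sub_of_add_le_right (ne_top_of_le_ne_top ENNReal.ofReal_ne_top hω') ?_
      refine le_trans ?_ h.le
      gcongr
  have hA : P {ω | M ω ≤ ENNReal.ofReal (2 * Real.exp (-x))} ≤
      ENNReal.ofReal (C0 * Real.exp (l0 * Real.log 2) * Real.exp (-(l0 * x))) := by
    rcases le_or_gt (Real.log 2) x with h | h
    · have e1 : 2 * Real.exp (-x) = Real.exp (-(x - Real.log 2)) := by
        rw [neg_sub, sub_eq_add_neg, Real.exp_add, Real.exp_log (by norm_num)]
      rw [e1]
      refine (ht (x - Real.log 2) (by linarith)).trans (le_of_eq ?_)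
      congr 1
      rw [mul_assoc, ← Real.exp_add]
      congr 2; ring
    · refine prob_le_one.trans ?_
      rw [← ENNReal.ofReal_one]
      refine ENNReal.ofReal_le_ofReal ?_
      rw [mul_assoc, ← Real.exp_add]
      have : (1 : ℝ) ≤ Real.exp (l0 * Real.log 2 + -(l0 * x)) := by
        refine Real.one_le_exp ?_
        nlinarith
      nlinarith
  have hB : P {ω | ENNReal.ofReal (Real.exp (-x)) ≤ M ω - m ω} ≤
      ENNReal.ofReal (1 * Real.exp (-(l0 * x))) := by
    have hpos : ENNReal.ofReal (Real.exp (-x)) ≠ 0 := (ENNReal.ofReal_pos.2 (Real.exp_pos _)).ne'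
    refine (meas_ge_le_lintegral_div (hM.sub hm).aemeasurable hpos ENNReal.ofReal_ne_top).trans ?_
    rw [ENNReal.div_le_iff hpos ENNReal.ofReal_ne_top,
      ← ENNReal.ofReal_mul (by positivity)]
    refine hε.trans (ENNReal.ofReal_le_ofReal ?_)
    rw [one_mul, ← Real.exp_add]
    refine Real.exp_le_exp.2 ?_
    nlinarith
  calc P {ω | m ω ≤ ENNReal.ofReal (Real.exp (-x))}
      ≤ P {ω | M ω ≤ ENNReal.ofReal (2 * Real.exp (-x))} +
        P {ω | ENNReal.ofReal (Real.exp (-x)) ≤ M ω - m ω} :=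
        (measure_mono hsub).trans (measure_union_le _ _)
    _ ≤ ENNReal.ofReal (C0 * Real.exp (l0 * Real.log 2) * Real.exp (-(l0 * x))) +
        ENNReal.ofReal (1 * Real.exp (-(l0 * x))) := add_le_add hA hB
    _ = _ := by
        rw [← ENNReal.ofReal_add (by positivity) (by positivity)]
        congr 1; ring

/-- **law versus point**: a mixture is small only if half of it is small. -/
theorem law_tail {S : Type*} [Countable S] {M : S → Ω → ℝ≥0∞} (hM : ∀ s, Measurable (M s))
    {v : S → ℝ≥0∞} (hv : ∑' s, v s = 1) {t c : ℝ≥0∞} (ht : t ≠ ∞)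
    (hc : ∀ s, v s ≠ 0 → P {ω | M s ω ≤ 2 * t} ≤ c) :
    P {ω | ∑' s, v s * M s ω ≤ t} ≤ 2 * c := by
  classical
  set g : Ω → ℝ≥0∞ := fun ω => ∑' s, v s * (if M s ω ≤ 2 * t then 1 else 0) with hg
  have hms : ∀ s, MeasurableSet {ω | M s ω ≤ 2 * t} := fun s => measurableSet_le (hM s) measurable_const
  have hgm : ∀ s, Measurable fun ω => v s * (if M s ω ≤ 2 * t then (1 : ℝ≥0∞) else 0) :=
    fun s => (Measurable.ite (hms s) measurable_const measurable_const).const_mul _
  have hgM : Measurable g := Measurable.tsum hgm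
  have hint : ∫⁻ ω, g ω ∂P ≤ c := by
    rw [hg]
    change ∫⁻ ω, ∑' s, v s * (if M s ω ≤ 2 * t then 1 else 0) ∂P ≤ c
    rw [lintegral_tsum fun s => (hgm s).aemeasurable]
    calc ∑' s, ∫⁻ ω, v s * (if M s ω ≤ 2 * t then 1 else 0) ∂P
        = ∑' s, v s * P {ω | M s ω ≤ 2 * t} := by
          refine tsum_congr fun s => ?_
          rw [lintegral_const_mul _ (Measurable.ite (hms s) measurable_const measurable_const)]
          congr 1
          have : (fun ω => if M s ω ≤ 2 * t then (1 : ℝ≥0∞) else 0)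
              = ({ω | M s ω ≤ 2 * t}).indicator 1 := by
            funext ω
            simp [Set.indicator]
          rw [this, lintegral_indicator_one (hms s)]
      _ ≤ ∑' s, v s * c := by
          refine ENNReal.tsum_le_tsum fun s => ?_
          rcases eq_or_ne (v s) 0 with h | h
          · simp [h]
          · gcongr; exact hc s h
      _ = c := by rw [ENNReal.tsum_mul_right, hv, one_mul]
  have hsub : {ω | ∑' s, v s * M s ω ≤ t} ⊆ {ω | (2 : ℝ≥0∞)⁻¹ ≤ g ω} := by
    intro ω hω
    have hω' : ∑' s, v s * M s ω ≤ t := hω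
    change (2 : ℝ≥0∞)⁻¹ ≤ g ω
    by_contra hcon
    rw [not_le] at hcon
    -- the complementary mass is > 1/2
    set b : ℝ≥0∞ := ∑' s, v s * (if M s ω ≤ 2 * t then 0 else 1) with hb
    have hsum : g ω + b = 1 := by
      rw [hg, hb]
      change (∑' s, v s * (if M s ω ≤ 2 * t then 1 else 0)) + _ = 1
      rw [← ENNReal.tsum_add]
      refine Eq.trans (tsum_congr fun s => ?_) hv
      by_cases h : M s ω ≤ 2 * t <;> simp [h]
    have hb2 : (2 : ℝ≥0∞)⁻¹ < b := by
      by_contra hcon2
      rw [not_lt] at hcon2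
      have : g ω + b < 1 := by
        calc g ω + b < (2 : ℝ≥0∞)⁻¹ + (2 : ℝ≥0∞)⁻¹ :=
              ENNReal.add_lt_add_of_lt_of_le (ne_top_of_le_ne_top (by simp) hcon2) hcon hcon2
          _ = 1 := ENNReal.inv_two_add_inv_two
      rw [hsum] at this
      exact lt_irrefl _ this
    rcases eq_or_ne t 0 with ht0 | ht0
    · -- t = 0: all terms vanish
      subst ht0
      have h0 : ∑' s, v s * M s ω = 0 := le_antisymm hω' zero_le
      rw [ENNReal.tsum_eq_zero] at h0
      have : b = 0 := by
        rw [hb, ENNReal.tsum_eq_zero]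
        intro s
        rcases mul_eq_zero.1 (h0 s) with h | h
        · simp [h]
        · simp [h]
      rw [this] at hb2
      exact absurd hb2 (by simp)
    have h1 : 2 * t * b ≤ ∑' s, v s * M s ω := by
      rw [hb, ← ENNReal.tsum_mul_left]
      refine ENNReal.tsum_le_tsum fun s => ?_
      by_cases h : M s ω ≤ 2 * t
      · simp [h]
      · rw [if_neg h, mul_one, mul_comm]
        gcongr
        exact (not_le.1 h).le
    have h2 : t < 2 * t * b := by
      calc t = 2 * t * (2 : ℝ≥0∞)⁻¹ := by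
            rw [mul_comm 2 t, mul_assoc, ENNReal.mul_inv_cancel (by norm_num) (by norm_num), mul_one]
        _ < 2 * t * b := by
            refine (ENNReal.mul_lt_mul_iff_right (mul_ne_zero (by norm_num) ht0)
              (ENNReal.mul_ne_top (by norm_num) ht)).2 hb2
    exact absurd (h2.trans_le (h1.trans hω')) (lt_irrefl _)
  calc P {ω | ∑' s, v s * M s ω ≤ t} ≤ P {ω | (2 : ℝ≥0∞)⁻¹ ≤ g ω} := measure_mono hsub
    _ ≤ (∫⁻ ω, g ω ∂P) / (2 : ℝ≥0∞)⁻¹ :=
        meas_ge_le_lintegral_div hgM.aemeasurable (by simp) (by simp)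
    _ ≤ c / (2 : ℝ≥0∞)⁻¹ := by gcongr
    _ = 2 * c := by rw [div_eq_mul_inv, inv_inv, mul_comm]

end Crest.Agent.R154.Early480
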