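import Crest.Agent.R154.Home_903

/-!
Row 154, `d ≥ 3` (helper903), HM0: composition of restricted pushes, and monotonicity.
-/

set_option autoImplicit false
set_option linter.unusedSectionVars false

namespace Crest.Agent.R154.Home903

open MeasureTheory ProbabilityTheory Set
open Crest.Agent.R154.RatioR872 Crest.Agent.R154.RatioR872.KerSys
open scoped ENNReal Classical

variable {S : Type*} [Countable S] {Ω : Type*} {m0 : MeasurableSpace Ω} {P : Measure Ω}
variable {A : KerSys S P}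

/-- **HM0, sitewise**: `D₁` up to level `b`, then `D₂` up to level `c`, gives `D` if `D₁ ∘ D₂ ⊆ D`. -/
theorem rpush_comp {D₁ D₂ D : S → S → Prop} (h : ∀ x y z, D₁ x y → D₂ y z → D x z)
    {a b c : ℕ} (hab : a ≤ b) (hbc : b ≤ c) :
    ∀ᵐ ω ∂P, ∀ (w : Ω → S → ℝ≥0∞) (z : S),
      rpush A D₂ b c (rpush A D₁ a b w) ω z ≤ rpush A D a c w ω z := by
  filter_upwards [A.comp a b c hab hbc] with ω hω w z
  have e1 : rpush A D₂ b c (rpush A D₁ a b w) ω z
      = ∑' x, w ω x * ∑' y, (if D₁ x y then A.G a b ω x y else 0)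
          * (if D₂ y z then A.G b c ω y z else 0) := by
    unfold rpush
    simp_rw [← ENNReal.tsum_mul_right]
    rw [ENNReal.tsum_comm]
    refine tsum_congr fun x => ?_
    rw [← ENNReal.tsum_mul_left]
    exact tsum_congr fun y => by ring
  rw [e1]
  unfold rpush
  refine ENNReal.tsum_le_tsum fun x => mul_le_mul_right ?_ _
  by_cases hD : D x z
  · rw [if_pos hD]
    refine le_trans (ENNReal.tsum_le_tsum fun y => ?_) (hω x z)
    refine mul_le_mul' ?_ ?_
    · by_cases h1 : D₁ x y <;> simp [h1]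
    · by_cases h2 : D₂ y z <;> simp [h2]
  · rw [if_neg hD]
    refine le_of_eq (ENNReal.tsum_eq_zero.2 fun y => ?_)
    by_cases h1 : D₁ x y
    · by_cases h2 : D₂ y z
      · exact absurd (h x y z h1 h2) hD
      · simp [h2]
    · simp [h1]

/-- **HM0, totals** -/
theorem tot_rpush_comp {D₁ D₂ D : S → S → Prop} (h : ∀ x y z, D₁ x y → D₂ y z → D x z)
    {a b c : ℕ} (hab : a ≤ b) (hbc : b ≤ c) :
    ∀ᵐ ω ∂P, ∀ (w : Ω → S → ℝ≥0∞),
      tot (rpush A D₂ b c (rpush A D₁ a b w)) ω ≤ tot (rpush A D a c w) ω := by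
  filter_upwards [rpush_comp (A := A) h hab hbc] with ω hω w
  exact ENNReal.tsum_le_tsum fun z => hω w z

/-- monotone in the weight (pointwise at `ω`) -/
lemma rpush_mono_w (D : S → S → Prop) (a b : ℕ) {w w' : Ω → S → ℝ≥0∞} {ω : Ω}
    (h : ∀ x, w ω x ≤ w' ω x) (y : S) : rpush A D a b w ω y ≤ rpush A D a b w' ω y :=
  ENNReal.tsum_le_tsum fun x => mul_le_mul_left (h x) _

lemma tot_rpush_mono_w (D : S → S → Prop) (a b : ℕ) {w w' : Ω → S → ℝ≥0∞} {ω : Ω}
    (h : ∀ x, w ω x ≤ w' ω x) : tot (rpush A D a b w) ω ≤ tot (rpush A D a b w') ω :=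
  ENNReal.tsum_le_tsum fun y => rpush_mono_w D a b h y

/-- monotone in the relation -/
lemma rpush_mono_D {D D' : S → S → Prop} (h : ∀ x y, D x y → D' x y) (a b : ℕ)
    (w : Ω → S → ℝ≥0∞) (ω : Ω) (y : S) : rpush A D a b w ω y ≤ rpush A D' a b w ω y := by
  refine ENNReal.tsum_le_tsum fun x => mul_le_mul_right ?_ _
  by_cases h1 : D x y
  · rw [if_pos h1, if_pos (h x y h1)]
  · simp [h1]

lemma tot_rpush_mono_D {D D' : S → S → Prop} (h : ∀ x y, D x y → D' x y) (a b : ℕ)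
    (w : Ω → S → ℝ≥0∞) (ω : Ω) : tot (rpush A D a b w) ω ≤ tot (rpush A D' a b w) ω :=
  ENNReal.tsum_le_tsum fun y => rpush_mono_D h a b w ω y

lemma rpush_le_push (D : S → S → Prop) (a b : ℕ) (w : Ω → S → ℝ≥0∞) (ω : Ω) (y : S) :
    rpush A D a b w ω y ≤ A.push a b w ω y := by
  refine ENNReal.tsum_le_tsum fun x => mul_le_mul_right ?_ _
  by_cases h1 : D x y <;> simp [h1]

/-- homogeneous in the weight -/
lemma rpush_smul (D : S → S → Prop) (a b : ℕ) (w : Ω → S → ℝ≥0∞) (c : Ω → ℝ≥0∞) (ω : Ω) (y : S) :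
    rpush A D a b (fun ω x => c ω * w ω x) ω y = c ω * rpush A D a b w ω y := by
  unfold rpush
  rw [← ENNReal.tsum_mul_left]
  exact tsum_congr fun x => by ring

lemma tot_rpush_smul (D : S → S → Prop) (a b : ℕ) (w : Ω → S → ℝ≥0∞) (c : Ω → ℝ≥0∞) (ω : Ω) :
    tot (rpush A D a b (fun ω x => c ω * w ω x)) ω = c ω * tot (rpush A D a b w) ω := by
  unfold tot
  rw [← ENNReal.tsum_mul_left]
  exact tsum_congr fun y => rpush_smul D a b w c ω y

/-- a site in the support of a restricted push is related to a site of the support -/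
lemma rpush_ne_zero {D : S → S → Prop} {a b : ℕ} {w : Ω → S → ℝ≥0∞} {ω : Ω} {y : S}
    (h : rpush A D a b w ω y ≠ 0) : ∃ x, w ω x ≠ 0 ∧ D x y ∧ A.G a b ω x y ≠ 0 := by
  by_contra hc
  push Not at hc
  refine h (ENNReal.tsum_eq_zero.2 fun x => ?_)
  by_cases h1 : w ω x = 0
  · simp [h1]
  by_cases h2 : D x y
  · simp [hc x h1 h2]
  · simp [h2]

end Crest.Agent.R154.Home903
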