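import Crest.Agent.R154.UnitsL_12
import Crest.Agent.R154.HomeC_903

/-!
# Row 154 (helper209), HOME MASS (263): one epoch of `k` separated units, on any kernel system

Input (`Dat`): a confined kernel `gc` for the first `s0` levels of the epoch (product moment of the
confined masses of `k` separated weights), a home relation `Hm` with first-moment bound for late
failures (one law), a forced step `up`. Output: 12's `Units12.Ep` (one step of the iteration).

An epoch started at level `L` ends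
* at `L + s0` if some confined mass is `< 4T` (restart from the confined laws),
* at the first level `L + t`, `s0 < t < N`, where some home mass is `< T` (restart from the home laws
  of level `L + t - 1`, pushed by one forced step),
* at `L + N` otherwise (same restart law).
-/

set_option autoImplicit false
set_option linter.unusedSectionVars false
set_option linter.deprecated false
set_option linter.unusedVariables false

namespace Crest.Agent.R154.EpStep209

open MeasureTheory ProbabilityTheory Set Filter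
open Crest.Agent.R154.RatioR872 Crest.Agent.R154.RatioR872.KerSys
open scoped ENNReal Classical

variable {S : Type*} [Countable S] {Ω : Type*} {m0 : MeasurableSpace Ω} {P : Measure Ω}
variable {ι : Type*} [Fintype ι]

/-- 903's restricted push -/
noncomputable abbrev rp (A : KerSys S P) (D : S → S → Prop) (a b : ℕ) (w : Ω → S → ℝ≥0∞) (ω : Ω)
    (y : S) : ℝ≥0∞ := Home903.rpush A D a b w ω y

/-- states: `k` random laws of level `L`, pairwise lateral gap `D2 s + g0` on the event `B` -/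
def St (A : KerSys S P) (φ : S → ℝ) (D2 g0 : ℝ) (L s : ℕ) (B : Set Ω)
    (w : ι → Ω → S → ℝ≥0∞) : Prop :=
  MeasurableSet[A.F L] B ∧ (∀ a, A.Wt L (w a)) ∧ (∀ ω ∈ B, ∀ a, tot (w a) ω = 1) ∧
    ∀ ω ∈ B, ∀ a b, a ≠ b → ∀ x y, w a ω x ≠ 0 → w b ω y ≠ 0 → D2 * s + g0 ≤ |φ x - φ y|

/-- relation of one epoch -/
def R2 (φ : S → ℝ) (D2 : ℝ) (x y : S) : Prop := |φ y - φ x| ≤ D2

/-- inputs of one epoch -/
structure Dat (A : KerSys S P) (ι : Type*) [Fintype ι] (φ : S → ℝ) (s0 N : ℕ) (D D1 g0 θ : ℝ)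
    (κ0 κ1 T K δ : ℝ≥0∞) where
  gc : ℕ → Ω → S → S → ℝ≥0∞
  Hm : S → S → Prop
  up : S → S
  gc_meas : ∀ L x y, Measurable[A.F (L + s0)] (fun ω => gc L ω x y)
  gc_le : ∀ L ω x y, gc L ω x y ≤ A.G L (L + s0) ω x y
  gc_pos : ∀ L, ∀ᵐ ω ∂P, ∀ x ∈ A.L L, ∑' y, gc L ω x y ≠ 0
  gc_Hm : ∀ L ω x y, gc L ω x y ≠ 0 → Hm x y
  Hm_disp : ∀ x y, Hm x y → |φ y - φ x| ≤ D
  up_disp : ∀ y, |φ (up y) - φ y| ≤ D1
  ue : ∀ l, ∀ᵐ ω ∂P, ∀ y ∈ A.L l, κ0 ≤ A.G l (l + 1) ω y (up y)
  floor : ∀ L l, l ≤ s0 → ∀ᵐ ω ∂P, ∀ x ∈ A.L L,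
    κ1 ≤ ∑' y, (if Hm x y then A.G L (L + l) ω x y else 0)
  prod : ∀ (L : ℕ) (B : Set Ω) (w : ι → Ω → S → ℝ≥0∞), St A φ 0 g0 L 0 B w →
    ∀ Z : Ω → ℝ≥0∞, Measurable[A.F L] Z →
    ∫⁻ ω in B, Z ω * ∏ a, (∑' x, w a ω x * ∑' y, gc L ω x y) ^ (-(2 * θ)) ∂P
      ≤ K * ∫⁻ ω in B, Z ω ∂P
  late : ∀ (L : ℕ) (B : Set Ω) (w : Ω → S → ℝ≥0∞), MeasurableSet[A.F L] B → A.Wt L w →
    (∀ ω ∈ B, tot w ω = 1) → ∀ Z : Ω → ℝ≥0∞, Measurable[A.F L] Z →
    ∫⁻ ω in B ∩ {ω | 4 * T ≤ tot (A.push L (L + s0) w) ω ∧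
        ∃ l ∈ Finset.Icc (L + s0) (L + N), tot (rp A Hm L l w) ω < T}, Z ω ∂P
      ≤ δ * ∫⁻ ω in B, Z ω ∂P

namespace Dat

variable {A : KerSys S P} {φ : S → ℝ} {s0 N : ℕ} {D D1 g0 θ : ℝ} {κ0 κ1 T K δ : ℝ≥0∞}
variable (X : Dat A ι φ s0 N D D1 g0 θ κ0 κ1 T K δ)

/-- confined push -/
noncomputable def cp (L : ℕ) (w : Ω → S → ℝ≥0∞) (ω : Ω) (y : S) : ℝ≥0∞ :=
  ∑' x, w ω x * X.gc L ω x y

/-- home law at `L + t`, one forced step -/
noncomputable def hw (L t : ℕ) (w : Ω → S → ℝ≥0∞) (ω : Ω) (y : S) : ℝ≥0∞ :=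
  ∑' z, rp A X.Hm L (L + t) w ω z * (if y = X.up z then A.G (L + t) (L + t + 1) ω z y else 0)

/-- restart weight at level `L + t` -/
noncomputable def V (L t : ℕ) (w : Ω → S → ℝ≥0∞) : Ω → S → ℝ≥0∞ :=
  if t = s0 then X.cp L w else
    match t with
    | 0 => fun _ _ => 0
    | t' + 1 => X.hw L t' w

lemma V_s0 (L : ℕ) (w : Ω → S → ℝ≥0∞) : X.V L s0 w = X.cp L w := by simp [V]

lemma V_succ (L t : ℕ) (w : Ω → S → ℝ≥0∞) (h : t + 1 ≠ s0) : X.V L (t + 1) w = X.hw L t w := by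
  simp [V, h]

lemma rp_le (R : S → S → Prop) (a b : ℕ) (w : Ω → S → ℝ≥0∞) (ω : Ω) (y : S) :
    rp A R a b w ω y ≤ A.push a b w ω y := by
  unfold rp Home903.rpush KerSys.push
  refine ENNReal.tsum_le_tsum fun x => mul_le_mul_right ?_ _
  split_ifs
  · exact le_rfl
  · exact bot_le

lemma rp_wt (R : S → S → Prop) {a b : ℕ} (hab : a ≤ b) {w : Ω → S → ℝ≥0∞} (hw : A.Wt a w) :
    A.Wt b (rp A R a b w) where
  meas y := (Home903.rpush_wt hab hw).meas y
  supp ω y hy := (Home903.rpush_wt hab hw).supp ω y hy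

lemma tot_cp (L : ℕ) (w : Ω → S → ℝ≥0∞) (ω : Ω) :
    tot (X.cp L w) ω = ∑' x, w ω x * ∑' y, X.gc L ω x y := by
  unfold tot cp
  rw [ENNReal.tsum_comm]
  exact tsum_congr fun x => ENNReal.tsum_mul_left

lemma cp_le (L : ℕ) (w : Ω → S → ℝ≥0∞) (ω : Ω) (y : S) :
    X.cp L w ω y ≤ rp A X.Hm L (L + s0) w ω y := by
  unfold cp rp Home903.rpush
  refine ENNReal.tsum_le_tsum fun x => mul_le_mul_right ?_ _
  by_cases h : X.gc L ω x y = 0
  · rw [h]; exact bot_le
  · rw [if_pos (X.gc_Hm L ω x y h)]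
    exact X.gc_le L ω x y

lemma tot_cp_le_rp (L : ℕ) (w : Ω → S → ℝ≥0∞) (ω : Ω) :
    tot (X.cp L w) ω ≤ tot (rp A X.Hm L (L + s0) w) ω :=
  ENNReal.tsum_le_tsum fun y => X.cp_le L w ω y

lemma tot_rp_le (R : S → S → Prop) (a b : ℕ) (w : Ω → S → ℝ≥0∞) (ω : Ω) :
    tot (rp A R a b w) ω ≤ tot (A.push a b w) ω :=
  ENNReal.tsum_le_tsum fun y => rp_le R a b w ω y

lemma tot_hw (L t : ℕ) (w : Ω → S → ℝ≥0∞) (ω : Ω) :
    tot (X.hw L t w) ω = ∑' z, rp A X.Hm L (L + t) w ω z * A.G (L + t) (L + t + 1) ω z (X.up z) := by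
  unfold tot hw
  rw [ENNReal.tsum_comm]
  refine tsum_congr fun z => ?_
  rw [ENNReal.tsum_mul_left, tsum_ite_eq]

lemma cp_wt (L : ℕ) {w : Ω → S → ℝ≥0∞} (hw : A.Wt L w) : A.Wt (L + s0) (X.cp L w) where
  meas y := by
    unfold cp
    refine Measurable.ennreal_tsum fun x => ?_
    exact ((hw.meas x).mono (A.F.mono (Nat.le_add_right _ _)) le_rfl).mul (X.gc_meas L x y)
  supp ω y hy := by
    have := (rp_wt X.Hm (Nat.le_add_right L s0) hw).supp ω y hy
    exact le_antisymm ((X.cp_le L w ω y).trans this.le) bot_le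

lemma hw_wt (L t : ℕ) {w : Ω → S → ℝ≥0∞} (hw : A.Wt L w) : A.Wt (L + (t + 1)) (X.hw L t w) where
  meas y := by
    unfold Dat.hw
    refine Measurable.ennreal_tsum fun z => ?_
    refine (((rp_wt X.Hm (Nat.le_add_right L t) hw).meas z).mono
      (A.F.mono (Nat.le_succ (L + t))) le_rfl).mul ?_
    split_ifs
    · exact A.measF (L + t) (L + t + 1) z y (Nat.le_succ _)
    · exact measurable_const
  supp ω y hy := by
    unfold Dat.hw
    rw [ENNReal.tsum_eq_zero]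
    intro z
    split_ifs
    · rw [A.supp (L + t) (L + t + 1) ω z y hy, mul_zero]
    · rw [mul_zero]

lemma V_wt (L t : ℕ) {w : Ω → S → ℝ≥0∞} (hw : A.Wt L w) : A.Wt (L + t) (X.V L t w) := by
  by_cases h : t = s0
  · subst h
    rw [V_s0]
    exact X.cp_wt L hw
  · rcases t with _ | t
    · unfold V
      rw [if_neg h]
      exact ⟨fun x => measurable_const, fun ω x _ => rfl⟩
    · rw [V_succ X L t w h]
      exact X.hw_wt L t hw

lemma tot_hw_le (L t : ℕ) (w : Ω → S → ℝ≥0∞) (ω : Ω) :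
    tot (X.hw L t w) ω ≤ tot w ω := by
  rw [tot_hw]
  calc ∑' z, rp A X.Hm L (L + t) w ω z * A.G (L + t) (L + t + 1) ω z (X.up z)
      ≤ ∑' z, rp A X.Hm L (L + t) w ω z * 1 := by
        refine ENNReal.tsum_le_tsum fun z => mul_le_mul_right ?_ _
        exact (ENNReal.le_tsum (X.up z)).trans (A.mass (L + t) (L + t + 1) ω z (Nat.le_succ _))
    _ = tot (rp A X.Hm L (L + t) w) ω := by simp [tot]
    _ ≤ tot (A.push L (L + t) w) ω := tot_rp_le _ _ _ _ _
    _ ≤ tot w ω := A.tot_push_le (Nat.le_add_right _ _) w ω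

lemma tot_V_le (L t : ℕ) (w : Ω → S → ℝ≥0∞) (ω : Ω) : tot (X.V L t w) ω ≤ tot w ω := by
  by_cases h : t = s0
  · subst h
    rw [V_s0]
    exact (X.tot_cp_le_rp L w ω).trans ((tot_rp_le _ _ _ _ _).trans
      (A.tot_push_le (Nat.le_add_right _ _) w ω))
  · rcases t with _ | t
    · unfold V
      rw [if_neg h]
      simp [tot]
    · rw [V_succ X L t w h]
      exact X.tot_hw_le L t w ω

lemma V_rp (hD1 : 0 ≤ D1) (L t : ℕ) (w : Ω → S → ℝ≥0∞) :
    ∀ᵐ ω ∂P, ∀ y, X.V L t w ω y ≤ rp A (R2 φ (D + D1)) L (L + t) w ω y := by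
  have hH : ∀ x y, X.Hm x y → R2 φ (D + D1) x y := fun x y h => by
    have := X.Hm_disp x y h
    unfold R2
    linarith
  by_cases h : t = s0
  · subst h
    rw [V_s0]
    exact Eventually.of_forall fun ω y => (X.cp_le L w ω y).trans (Home903.rpush_mono_D hH _ _ _ _ _)
  · rcases t with _ | t
    · unfold V
      rw [if_neg h]
      exact Eventually.of_forall fun ω y => bot_le
    · rw [V_succ X L t w h]
      filter_upwards [Home903.rpush_comp (A := A) (D₁ := X.Hm) (D₂ := fun z y => |φ y - φ z| ≤ D1)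
        (D := R2 φ (D + D1)) (fun x y z h1 h2 => by
          have e1 := X.Hm_disp x y h1
          unfold R2
          calc |φ z - φ x| = |(φ z - φ y) + (φ y - φ x)| := by ring_nf
            _ ≤ |φ z - φ y| + |φ y - φ x| := abs_add_le _ _
            _ ≤ D + D1 := by linarith) (Nat.le_add_right L t) (Nat.le_succ (L + t))] with ω hc y
      refine le_trans ?_ (hc w y)
      unfold Dat.hw
      rw [Home903.rpush]
      refine ENNReal.tsum_le_tsum fun z => mul_le_mul_right ?_ _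
      by_cases hy : y = X.up z
      · rw [if_pos hy, if_pos (by rw [hy]; exact X.up_disp z)]
      · rw [if_neg hy]
        exact bot_le

lemma V_disp (hD1 : 0 ≤ D1) (L t : ℕ) (w : Ω → S → ℝ≥0∞) (ω : Ω) (y : S) (hy : X.V L t w ω y ≠ 0) :
    ∃ x, w ω x ≠ 0 ∧ |φ y - φ x| ≤ D + D1 := by
  by_cases h : t = s0
  · subst h
    rw [V_s0] at hy
    unfold cp at hy
    obtain ⟨x, hx⟩ : ∃ x, w ω x * X.gc L ω x y ≠ 0 := by
      by_contra hcon
      push Not at hcon
      exact hy (ENNReal.tsum_eq_zero.2 hcon)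
    refine ⟨x, left_ne_zero_of_mul hx, ?_⟩
    have := X.Hm_disp x y (X.gc_Hm L ω x y (right_ne_zero_of_mul hx))
    linarith
  · rcases t with _ | t
    · unfold V at hy
      rw [if_neg h] at hy
      exact absurd rfl hy
    · rw [V_succ X L t w h] at hy
      unfold Dat.hw at hy
      obtain ⟨z, hz⟩ : ∃ z, rp A X.Hm L (L + t) w ω z *
          (if y = X.up z then A.G (L + t) (L + t + 1) ω z y else 0) ≠ 0 := by
        by_contra hcon
        push Not at hcon
        exact hy (ENNReal.tsum_eq_zero.2 hcon)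
      have h1 := left_ne_zero_of_mul hz
      have h2 := right_ne_zero_of_mul hz
      have h3 : y = X.up z := by
        by_contra hne
        rw [if_neg hne] at h2
        exact h2 rfl
      unfold rp Home903.rpush at h1
      obtain ⟨x, hx⟩ : ∃ x, w ω x * (if X.Hm x z then A.G L (L + t) ω x z else 0) ≠ 0 := by
        by_contra hcon
        push Not at hcon
        exact h1 (ENNReal.tsum_eq_zero.2 hcon)
      have h4 : X.Hm x z := by
        by_contra hne
        exact (right_ne_zero_of_mul hx) (by rw [if_neg hne])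
      refine ⟨x, left_ne_zero_of_mul hx, ?_⟩
      have e1 := X.Hm_disp x z h4
      have e2 := X.up_disp z
      rw [h3]
      calc |φ (X.up z) - φ x| = |(φ (X.up z) - φ z) + (φ z - φ x)| := by ring_nf
        _ ≤ |φ (X.up z) - φ z| + |φ z - φ x| := abs_add_le _ _
        _ ≤ D + D1 := by linarith

lemma hw_ge (L t : ℕ) {w : Ω → S → ℝ≥0∞} (hw : A.Wt L w) :
    ∀ᵐ ω ∂P, κ0 * tot (rp A X.Hm L (L + t) w) ω ≤ tot (X.hw L t w) ω := by
  filter_upwards [X.ue (L + t)] with ω hu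
  rw [tot_hw, tot, ← ENNReal.tsum_mul_left]
  refine ENNReal.tsum_le_tsum fun z => ?_
  by_cases hz : z ∈ A.L (L + t)
  · rw [mul_comm]
    exact mul_le_mul_right (hu z hz) _
  · rw [(rp_wt X.Hm (Nat.le_add_right L t) hw).supp ω z hz]
    simp

lemma cp_pos (L : ℕ) {w : Ω → S → ℝ≥0∞} (hw : A.Wt L w) :
    ∀ᵐ ω ∂P, tot w ω = 1 → tot (X.cp L w) ω ≠ 0 := by
  filter_upwards [X.gc_pos L] with ω hg h1
  rw [tot_cp]
  intro h0
  rw [ENNReal.tsum_eq_zero] at h0
  have hz : ∀ x, w ω x = 0 := by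
    intro x
    by_cases hx : x ∈ A.L L
    · exact (mul_eq_zero.1 (h0 x)).resolve_right (hg x hx)
    · exact hw.supp ω x hx
  have : tot w ω = 0 := by
    rw [tot, ENNReal.tsum_eq_zero]
    exact hz
  rw [h1] at this
  exact one_ne_zero this

/-! ### the events -/

/-- home mass of unit `w` at level `L + l` -/
noncomputable def hm (L l : ℕ) (w : Ω → S → ℝ≥0∞) (ω : Ω) : ℝ≥0∞ := tot (rp A X.Hm L (L + l) w) ω

/-- bad end of the epoch at `L + t` (horizon `M > s0`) -/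
def Eb (L M : ℕ) (w : ι → Ω → S → ℝ≥0∞) (t : ℕ) : Set Ω :=
  {ω | ∀ a, tot (X.V L t (w a)) ω ≠ 0} ∩
  (if t = s0 then {ω | ∃ a, tot (X.cp L (w a)) ω < 4 * T}
   else if s0 < t ∧ t < M then
      {ω | ∀ a, 4 * T ≤ tot (X.cp L (w a)) ω} ∩
        {ω | ∀ a, ∀ l ∈ Finset.Ico s0 t, T ≤ X.hm L l (w a) ω} ∩ {ω | ∃ a, X.hm L t (w a) ω < T}
   else ∅)

/-- good end of the epoch at the horizon `M > s0` -/
def Eg (L M : ℕ) (w : ι → Ω → S → ℝ≥0∞) : Set Ω :=
  {ω | ∀ a, tot (X.V L M (w a)) ω ≠ 0} ∩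
      ({ω | ∀ a, 4 * T ≤ tot (X.cp L (w a)) ω} ∩
        {ω | ∀ a, ∀ l ∈ Finset.Ico s0 M, T ≤ X.hm L l (w a) ω})

lemma hm_meas {L l t : ℕ} (hlt : l ≤ t) {w : Ω → S → ℝ≥0∞} (hw : A.Wt L w) :
    Measurable[A.F (L + t)] (X.hm L l w) :=
  ((rp_wt X.Hm (Nat.le_add_right L l) hw).meas_tot).mono
    (A.F.mono (Nat.add_le_add_left hlt _)) le_rfl

lemma cp_meas {L t : ℕ} (hlt : s0 ≤ t) {w : Ω → S → ℝ≥0∞} (hw : A.Wt L w) :
    Measurable[A.F (L + t)] (tot (X.cp L w)) :=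
  ((X.cp_wt L hw).meas_tot).mono (A.F.mono (Nat.add_le_add_left hlt _)) le_rfl

lemma ne0_meas (L t : ℕ) {w : ι → Ω → S → ℝ≥0∞} (hw : ∀ a, A.Wt L (w a)) :
    MeasurableSet[A.F (L + t)] {ω | ∀ a, tot (X.V L t (w a)) ω ≠ 0} := by
  simp only [setOf_forall]
  refine MeasurableSet.iInter fun a => ?_
  have : MeasurableSet[A.F (L + t)] {ω | tot (X.V L t (w a)) ω = 0} :=
    (X.V_wt L t (hw a)).meas_tot (measurableSet_singleton 0)
  exact this.compl

lemma cp4_meas {L t : ℕ} (hst : s0 ≤ t) {w : ι → Ω → S → ℝ≥0∞} (hw : ∀ a, A.Wt L (w a)) :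
    MeasurableSet[A.F (L + t)] {ω | ∀ a, 4 * T ≤ tot (X.cp L (w a)) ω} := by
  simp only [setOf_forall]
  refine MeasurableSet.iInter fun a => ?_
  exact (X.cp_meas hst (hw a)) measurableSet_Ici

lemma hmT_meas {L t M : ℕ} (hM : M ≤ t + 1) {w : ι → Ω → S → ℝ≥0∞} (hw : ∀ a, A.Wt L (w a)) :
    MeasurableSet[A.F (L + t)] {ω | ∀ a, ∀ l ∈ Finset.Ico s0 M, T ≤ X.hm L l (w a) ω} := by
  simp only [setOf_forall]
  refine MeasurableSet.iInter fun a => MeasurableSet.iInter fun l => MeasurableSet.iInter fun hl => ?_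
  exact (X.hm_meas (by have := Finset.mem_Ico.1 hl; omega) (hw a)) measurableSet_Ici

lemma Eb_meas (L M : ℕ) {w : ι → Ω → S → ℝ≥0∞} (hw : ∀ a, A.Wt L (w a)) (t : ℕ) :
    MeasurableSet[A.F (L + t)] (X.Eb L M w t) := by
  refine (X.ne0_meas L t hw).inter ?_
  split_ifs with h1 h2
  · simp only [setOf_exists]
    exact MeasurableSet.iUnion fun a => (X.cp_meas h1.ge (hw a)) measurableSet_Iio
  · refine ((X.cp4_meas h2.1.le hw).inter (X.hmT_meas (by omega) hw)).inter ?_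
    simp only [setOf_exists]
    exact MeasurableSet.iUnion fun a => (X.hm_meas le_rfl (hw a)) measurableSet_Iio
  · exact @MeasurableSet.empty _ (A.F (L + t))

lemma Eg_meas {L M : ℕ} (hM : s0 ≤ M) {w : ι → Ω → S → ℝ≥0∞} (hw : ∀ a, A.Wt L (w a)) :
    MeasurableSet[A.F (L + M)] (X.Eg L M w) :=
  (X.ne0_meas L M hw).inter ((X.cp4_meas hM hw).inter (X.hmT_meas (by omega) hw))

/-! ### restart laws -/

/-- normalised weight -/
noncomputable def nrm (v : Ω → S → ℝ≥0∞) (ω : Ω) (y : S) : ℝ≥0∞ := v ω y / tot v ω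

omit [Fintype ι] in
lemma nrm_wt {l : ℕ} {v : Ω → S → ℝ≥0∞} (hv : A.Wt l v) : A.Wt l (nrm v) where
  meas y := (hv.meas y).div hv.meas_tot
  supp ω y hy := by
    unfold nrm
    rw [hv.supp ω y hy, ENNReal.zero_div]

omit [Fintype ι] in
lemma tot_nrm {v : Ω → S → ℝ≥0∞} {ω : Ω} (h0 : tot v ω ≠ 0) (h1 : tot v ω ≠ ∞) :
    tot (nrm v) ω = 1 := by
  have : tot (nrm v) ω = tot v ω / tot v ω := by
    conv_lhs => rw [tot]
    unfold nrm
    simp_rw [div_eq_mul_inv]
    rw [ENNReal.tsum_mul_right]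
    rfl
  rw [this, ENNReal.div_self h0 h1]

omit [Fintype ι] in
lemma mul_nrm {v : Ω → S → ℝ≥0∞} {ω : Ω} (h0 : tot v ω ≠ 0) (h1 : tot v ω ≠ ∞) (y : S) :
    tot v ω * nrm v ω y = v ω y := by
  unfold nrm
  exact ENNReal.mul_div_cancel h0 h1

lemma st_restart {L t s : ℕ} {B E : Set Ω} {w v : ι → Ω → S → ℝ≥0∞}
    (hS : St A φ (2 * (D + D1)) g0 L (s + 1) B w)
    (hE : MeasurableSet[A.F (L + t)] E) (hv : ∀ a, A.Wt (L + t) (v a))
    (h0 : ∀ ω ∈ E, ∀ a, tot (v a) ω ≠ 0) (h1 : ∀ a ω, tot (v a) ω ≤ tot (w a) ω)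
    (hd : ∀ a ω y, v a ω y ≠ 0 → ∃ x, w a ω x ≠ 0 ∧ |φ y - φ x| ≤ D + D1) :
    St A φ (2 * (D + D1)) g0 (L + t) s (B ∩ E) (fun a => nrm (v a)) := by
  obtain ⟨hB, hW, htot, hgap⟩ := hS
  refine ⟨(A.F.mono (Nat.le_add_right _ _) _ hB).inter hE, fun a => nrm_wt (hv a), ?_, ?_⟩
  · intro ω hω a
    refine tot_nrm (h0 ω hω.2 a) ?_
    refine ne_top_of_le_ne_top ?_ (h1 a ω)
    rw [htot ω hω.1 a]
    exact ENNReal.one_ne_top
  · intro ω hω a b hab y y' hy hy'
    have e1 : v a ω y ≠ 0 := by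
      intro h
      exact hy (by show v a ω y / tot (v a) ω = 0; rw [h, ENNReal.zero_div])
    have e2 : v b ω y' ≠ 0 := by
      intro h
      exact hy' (by show v b ω y' / tot (v b) ω = 0; rw [h, ENNReal.zero_div])
    obtain ⟨x, hx, hxy⟩ := hd a ω y e1
    obtain ⟨x', hx', hxy'⟩ := hd b ω y' e2
    have h3 := hgap ω hω.1 a b hab x x' hx hx'
    push_cast at h3
    have h4 : |φ x - φ x'| ≤ |φ y - φ y'| + |φ y - φ x| + |φ y' - φ x'| := by
      have : φ x - φ x' = (φ y - φ y') - (φ y - φ x) + (φ y' - φ x') := by ring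
      rw [this]
      refine (abs_add_le _ _).trans ?_
      gcongr
      exact (abs_sub _ _)
    linarith

/-! ### integrals -/

omit [Countable S] in
lemma prod_early {e : ι → ℝ≥0∞} (h1 : ∀ a, e a ≤ 1) {τ : ℝ≥0∞} (hτ0 : τ ≠ 0) {b : ι}
    (hb : e b ≤ τ) (hθ : 0 < θ) :
    (∏ a, e a) ^ (-θ) ≤ τ ^ θ * ∏ a, e a ^ (-(2 * θ)) := by
  set q := ∏ a, e a with hq
  have hqb : q ≤ e b := by
    rw [hq, ← Finset.mul_prod_erase Finset.univ e (Finset.mem_univ b)]
    calc e b * ∏ x ∈ Finset.univ.erase b, e x ≤ e b * 1 := by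
          gcongr
          exact Finset.prod_le_one' fun a _ => h1 a
      _ = e b := mul_one _
  have hq1 : q ≤ 1 := Finset.prod_le_one' fun a _ => h1 a
  have hqt : q ≠ ∞ := ne_top_of_le_ne_top ENNReal.one_ne_top hq1
  have hprod : ∏ a, e a ^ (-(2 * θ)) = q ^ (-(2 * θ)) := by
    have e1 : ∀ a, e a ^ (-(2 * θ)) = (e a ^ (2 * θ))⁻¹ := fun a => ENNReal.rpow_neg _ _
    simp_rw [e1]
    rw [← ENNReal.prod_inv_distrib, ENNReal.prod_rpow_of_nonneg (by positivity), ENNReal.rpow_neg]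
    intro i _ j _ _
    right
    exact ENNReal.rpow_ne_top_of_nonneg (by positivity)
      (ne_top_of_le_ne_top ENNReal.one_ne_top (h1 j))
  rw [hprod]
  have hτθ : τ ^ θ ≠ 0 := by
    intro h
    rcases ENNReal.rpow_eq_zero_iff.1 h with h | h
    · exact hτ0 h.1
    · linarith [h.2]
  by_cases h0 : q = 0
  · rw [h0, ENNReal.zero_rpow_of_neg (by linarith : -(2 * θ) < 0), ENNReal.mul_top hτθ]
    exact le_top
  · have e2 : q ^ (-(2 * θ)) = q ^ (-θ) * q ^ (-θ) := by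
      rw [← ENNReal.rpow_add _ _ h0 hqt]
      congr 1
      ring
    have e3 : (1 : ℝ≥0∞) ≤ τ ^ θ * q ^ (-θ) := by
      calc (1 : ℝ≥0∞) = q ^ θ * q ^ (-θ) := by
            rw [← ENNReal.rpow_add _ _ h0 hqt, add_neg_cancel, ENNReal.rpow_zero]
        _ ≤ τ ^ θ * q ^ (-θ) := by
            gcongr
            exact hqb.trans hb
    calc q ^ (-θ) = 1 * q ^ (-θ) := (one_mul _).symm
      _ ≤ τ ^ θ * q ^ (-θ) * q ^ (-θ) := by gcongr
      _ = τ ^ θ * q ^ (-(2 * θ)) := by rw [e2, mul_assoc]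

omit [Countable S] in
lemma prod_low {e : ι → ℝ≥0∞} {c : ℝ≥0∞} (h1 : ∀ a, c ≤ e a) (hθ : 0 < θ) :
    (∏ a, e a) ^ (-θ) ≤ (c ^ Fintype.card ι) ^ (-θ) := by
  rw [ENNReal.rpow_neg, ENNReal.rpow_neg]
  refine ENNReal.inv_le_inv.2 (ENNReal.rpow_le_rpow ?_ hθ.le)
  calc c ^ Fintype.card ι = ∏ _a : ι, c := by simp
    _ ≤ ∏ a, e a := Finset.prod_le_prod' fun a _ => h1 a

omit [Countable S] in
lemma one_le_prod {e : ι → ℝ≥0∞} (h1 : ∀ a, e a ≤ 1) (hθ : 0 < θ) :
    1 ≤ (∏ a, e a) ^ (-θ) := by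
  rw [ENNReal.rpow_neg]
  refine ENNReal.one_le_inv.2 ?_
  exact ENNReal.rpow_le_one (Finset.prod_le_one' fun a _ => h1 a) hθ.le

/-- lower bound of the restart mass after a home level with all masses `≥ T` -/
lemma V_ge (L t : ℕ) (ht : s0 < t) {w : Ω → S → ℝ≥0∞} (hw : A.Wt L w) :
    ∀ᵐ ω ∂P, T ≤ X.hm L (t - 1) w ω → κ0 * T ≤ tot (X.V L t w) ω := by
  obtain ⟨t', rfl⟩ : ∃ t', t = t' + 1 := ⟨t - 1, by omega⟩
  rw [V_succ X L t' w (by omega)]
  filter_upwards [X.hw_ge L t' hw] with ω h h2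
  rw [Nat.add_sub_cancel] at h2
  exact (mul_le_mul_right h2 κ0).trans h

/-- early bad end -/
lemma early_int (hN : s0 < N) (hθ : 0 < θ) (hT0 : T ≠ 0) (hTt : T ≠ ∞) {L M s : ℕ} {B : Set Ω}
    (hDD : 0 ≤ D + D1)
    {w : ι → Ω → S → ℝ≥0∞} (hS : St A φ (2 * (D + D1)) g0 L (s + 1) B w)
    {Z : Ω → ℝ≥0∞} (hZ : Measurable[A.F L] Z) :
    ∫⁻ ω in B ∩ X.Eb L M w s0, Z ω * (∏ a, tot (X.V L s0 (w a)) ω) ^ (-θ) ∂P
      ≤ (4 * T) ^ θ * K * ∫⁻ ω in B, Z ω ∂P := by
  obtain ⟨hB, hW, htot, hgap⟩ := hS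
  have hB0 : MeasurableSet B := A.F.le L _ hB
  have hE0 : MeasurableSet (X.Eb L M w s0) := A.F.le _ _ (X.Eb_meas L M hW s0)
  have hS0 : St A φ 0 g0 L 0 B w := by
    refine ⟨hB, hW, htot, fun ω hω a b hab x y hx hy => ?_⟩
    have := hgap ω hω a b hab x y hx hy
    have h2 : (0 : ℝ) ≤ 2 * (D + D1) * ((s + 1 : ℕ) : ℝ) := by positivity
    push_cast at this h2 ⊢
    linarith
  have h4T : 4 * T ≠ 0 := mul_ne_zero (by norm_num) hT0
  calc ∫⁻ ω in B ∩ X.Eb L M w s0, Z ω * (∏ a, tot (X.V L s0 (w a)) ω) ^ (-θ) ∂P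
      ≤ ∫⁻ ω in B ∩ X.Eb L M w s0, (4 * T) ^ θ *
          (Z ω * ∏ a, (∑' x, w a ω x * ∑' y, X.gc L ω x y) ^ (-(2 * θ))) ∂P := by
        refine setLIntegral_mono' (hB0.inter hE0) fun ω hω => ?_
        have h1 := hω.2.2
        simp only [if_true] at h1
        obtain ⟨b, hb⟩ := h1
        have h2 : ∀ a, tot (X.V L s0 (w a)) ω ≤ 1 := fun a =>
          (X.tot_V_le L s0 (w a) ω).trans (htot ω hω.1 a).le
        have h3 := prod_early (θ := θ) h2 h4T (b := b) (by rw [V_s0]; exact hb.le) hθ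
        have h4 : ∀ a, tot (X.V L s0 (w a)) ω = ∑' x, w a ω x * ∑' y, X.gc L ω x y := fun a => by
          rw [V_s0, tot_cp]
        calc Z ω * (∏ a, tot (X.V L s0 (w a)) ω) ^ (-θ)
            ≤ Z ω * ((4 * T) ^ θ * ∏ a, tot (X.V L s0 (w a)) ω ^ (-(2 * θ))) := by gcongr
          _ = (4 * T) ^ θ * (Z ω * ∏ a, (∑' x, w a ω x * ∑' y, X.gc L ω x y) ^ (-(2 * θ))) := by
              simp_rw [h4]
              ring
    _ ≤ ∫⁻ ω in B, (4 * T) ^ θ *
          (Z ω * ∏ a, (∑' x, w a ω x * ∑' y, X.gc L ω x y) ^ (-(2 * θ))) ∂P :=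
        lintegral_mono_set inter_subset_left
    _ = (4 * T) ^ θ * ∫⁻ ω in B,
          Z ω * ∏ a, (∑' x, w a ω x * ∑' y, X.gc L ω x y) ^ (-(2 * θ)) ∂P := by
        refine lintegral_const_mul' _ _ ?_
        exact ENNReal.rpow_ne_top_of_nonneg hθ.le (ENNReal.mul_ne_top (by norm_num) hTt)
    _ ≤ (4 * T) ^ θ * (K * ∫⁻ ω in B, Z ω ∂P) := by
        gcongr
        exact X.prod L B w hS0 Z hZ
    _ = _ := by ring

/-- late bad ends -/
lemma late_int (hθ : 0 < θ) {L M s : ℕ} (hM1 : s0 < M) (hM : M ≤ N) {B : Set Ω}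
    {w : ι → Ω → S → ℝ≥0∞} (hS : St A φ (2 * (D + D1)) g0 L (s + 1) B w)
    {Z : Ω → ℝ≥0∞} (hZ : Measurable[A.F L] Z) :
    ∑ t ∈ Finset.Ioo s0 M,
      ∫⁻ ω in B ∩ X.Eb L M w t, Z ω * (∏ a, tot (X.V L t (w a)) ω) ^ (-θ) ∂P
      ≤ ((κ0 * T) ^ Fintype.card ι) ^ (-θ) * (Fintype.card ι * δ) * ∫⁻ ω in B, Z ω ∂P := by
  obtain ⟨hB, hW, htot, hgap⟩ := hS
  have hB0 : MeasurableSet B := A.F.le L _ hB
  have hE0 : ∀ t, MeasurableSet (X.Eb L M w t) := fun t => A.F.le _ _ (X.Eb_meas L M hW t)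
  set C := ((κ0 * T) ^ Fintype.card ι) ^ (-θ) with hC
  have hform : ∀ t ∈ Finset.Ioo s0 M, ∀ ω ∈ X.Eb L M w t,
      (∀ a, 4 * T ≤ tot (X.cp L (w a)) ω) ∧ (∀ a, ∀ l ∈ Finset.Ico s0 t, T ≤ X.hm L l (w a) ω) ∧
        ∃ a, X.hm L t (w a) ω < T := by
    intro t ht ω hω
    have ht' := Finset.mem_Ioo.1 ht
    have h1 := hω.2
    rw [if_neg (by omega), if_pos ht'] at h1
    exact ⟨h1.1.1, h1.1.2, h1.2⟩
  have h1 : ∀ t ∈ Finset.Ioo s0 M,
      ∫⁻ ω in B ∩ X.Eb L M w t, Z ω * (∏ a, tot (X.V L t (w a)) ω) ^ (-θ) ∂P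
        ≤ C * ∫⁻ ω in B ∩ X.Eb L M w t, Z ω ∂P := by
    intro t ht
    have ht' := Finset.mem_Ioo.1 ht
    have hZ0 : Measurable Z := hZ.mono (A.F.le L) le_rfl
    rw [← lintegral_const_mul C hZ0]
    have hae : ∀ᵐ ω ∂P, ∀ a, T ≤ X.hm L (t - 1) (w a) ω → κ0 * T ≤ tot (X.V L t (w a)) ω := by
      rw [ae_all_iff]
      exact fun a => X.V_ge L t ht'.1 (hW a)
    refine lintegral_mono_ae ?_
    filter_upwards [ae_restrict_of_ae hae, ae_restrict_mem (hB0.inter (hE0 t))] with ω h2 h3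
    obtain ⟨_, h4, _⟩ := hform t ht ω h3.2
    have h5 : ∀ a, κ0 * T ≤ tot (X.V L t (w a)) ω := fun a =>
      h2 a (h4 a (t - 1) (Finset.mem_Ico.2 ⟨by omega, by omega⟩))
    rw [mul_comm C]
    gcongr
    exact prod_low h5 hθ
  have h2 : ∑ t ∈ Finset.Ioo s0 M, ∫⁻ ω in B ∩ X.Eb L M w t, Z ω ∂P
      ≤ Fintype.card ι * δ * ∫⁻ ω in B, Z ω ∂P := by
    rw [← lintegral_biUnion_finset]
    · have hsub : (⋃ t ∈ Finset.Ioo s0 M, B ∩ X.Eb L M w t) ⊆
          ⋃ a : ι, B ∩ {ω | 4 * T ≤ tot (A.push L (L + s0) (w a)) ω ∧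
            ∃ l ∈ Finset.Icc (L + s0) (L + N), tot (rp A X.Hm L l (w a)) ω < T} := by
        intro ω hω
        obtain ⟨t, ht, hωB, hωE⟩ := mem_iUnion₂.1 hω
        obtain ⟨h4, _, a, ha⟩ := hform t ht ω hωE
        have ht' := Finset.mem_Ioo.1 ht
        refine mem_iUnion.2 ⟨a, hωB, ?_, L + t, Finset.mem_Icc.2 ⟨by omega, by omega⟩, ha⟩
        exact (h4 a).trans ((X.tot_cp_le_rp L (w a) ω).trans (tot_rp_le _ _ _ _ _))
      refine (lintegral_mono_set hsub).trans ((lintegral_iUnion_le _ _).trans ?_)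
      rw [tsum_fintype]
      calc ∑ a : ι, ∫⁻ ω in B ∩ {ω | 4 * T ≤ tot (A.push L (L + s0) (w a)) ω ∧
            ∃ l ∈ Finset.Icc (L + s0) (L + N), tot (rp A X.Hm L l (w a)) ω < T}, Z ω ∂P
          ≤ ∑ _a : ι, δ * ∫⁻ ω in B, Z ω ∂P := by
            refine Finset.sum_le_sum fun a _ => ?_
            exact X.late L B (w a) hB (hW a) (fun ω hω => htot ω hω a) Z hZ
        _ = Fintype.card ι * δ * ∫⁻ ω in B, Z ω ∂P := by
            rw [Finset.sum_const, Finset.card_univ, nsmul_eq_mul, mul_assoc]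
    · intro t ht t' ht' hne
      change Disjoint (B ∩ X.Eb L M w t) (B ∩ X.Eb L M w t')
      rw [Set.disjoint_left]
      rintro ω ⟨_, h3⟩ ⟨_, h3'⟩
      obtain ⟨_, h4, a, ha⟩ := hform t ht ω h3
      obtain ⟨_, h4', a', ha'⟩ := hform t' ht' ω h3'
      have e1 := Finset.mem_Ioo.1 ht
      have e2 := Finset.mem_Ioo.1 ht'
      rcases lt_or_gt_of_ne hne with h5 | h5
      · exact absurd ha (not_lt.2 (h4' a t (Finset.mem_Ico.2 ⟨e1.1.le, h5⟩)))
      · exact absurd ha' (not_lt.2 (h4 a' t' (Finset.mem_Ico.2 ⟨e2.1.le, h5⟩)))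
    · intro t _
      exact hB0.inter (hE0 t)
  calc _ ≤ ∑ t ∈ Finset.Ioo s0 M, C * ∫⁻ ω in B ∩ X.Eb L M w t, Z ω ∂P := Finset.sum_le_sum h1
    _ = C * ∑ t ∈ Finset.Ioo s0 M, ∫⁻ ω in B ∩ X.Eb L M w t, Z ω ∂P := by rw [Finset.mul_sum]
    _ ≤ C * (Fintype.card ι * δ * ∫⁻ ω in B, Z ω ∂P) := by gcongr
    _ = _ := by ring

/-- good end -/
lemma good_int (hθ : 0 < θ) {L M s : ℕ} (hM1 : s0 < M) {B : Set Ω}
    {w : ι → Ω → S → ℝ≥0∞} (hS : St A φ (2 * (D + D1)) g0 L (s + 1) B w)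
    {Z : Ω → ℝ≥0∞} (hZ : Measurable[A.F L] Z) :
    ∫⁻ ω in B ∩ X.Eg L M w, Z ω * (∏ a, tot (X.V L M (w a)) ω) ^ (-θ) ∂P
      ≤ ((κ0 * T) ^ Fintype.card ι) ^ (-θ) * ∫⁻ ω in B, Z ω ∂P := by
  obtain ⟨hB, hW, htot, hgap⟩ := hS
  have hB0 : MeasurableSet B := A.F.le L _ hB
  have hE0 : MeasurableSet (X.Eg L M w) := A.F.le _ _ (X.Eg_meas hM1.le hW)
  set C := ((κ0 * T) ^ Fintype.card ι) ^ (-θ) with hC
  have hZ0 : Measurable Z := hZ.mono (A.F.le L) le_rfl
  calc ∫⁻ ω in B ∩ X.Eg L M w, Z ω * (∏ a, tot (X.V L M (w a)) ω) ^ (-θ) ∂P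
      ≤ ∫⁻ ω in B ∩ X.Eg L M w, C * Z ω ∂P := by
        have hae : ∀ᵐ ω ∂P, ∀ a, T ≤ X.hm L (M - 1) (w a) ω → κ0 * T ≤ tot (X.V L M (w a)) ω := by
          rw [ae_all_iff]
          exact fun a => X.V_ge L M hM1 (hW a)
        refine lintegral_mono_ae ?_
        filter_upwards [ae_restrict_of_ae hae, ae_restrict_mem (hB0.inter hE0)] with ω h2 h3
        have h5 : ∀ a, κ0 * T ≤ tot (X.V L M (w a)) ω := fun a =>
          h2 a (h3.2.2.2 a (M - 1) (Finset.mem_Ico.2 ⟨by omega, by omega⟩))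
        rw [mul_comm C]
        gcongr
        exact prod_low h5 hθ
    _ ≤ ∫⁻ ω in B, C * Z ω ∂P := lintegral_mono_set inter_subset_left
    _ = C * ∫⁻ ω in B, Z ω ∂P := lintegral_const_mul C hZ0

/-- floor of the home mass at small levels -/
lemma floor_ge {L l : ℕ} (hl : l ≤ s0) {w : Ω → S → ℝ≥0∞} (hw : A.Wt L w) :
    ∀ᵐ ω ∂P, tot w ω = 1 → κ1 ≤ tot (rp A X.Hm L (L + l) w) ω := by
  filter_upwards [X.floor L l hl] with ω h h1
  change κ1 ≤ tot (Home903.rpush A X.Hm L (L + l) w) ω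
  rw [Home903.tot_rpush]
  calc κ1 = tot w ω * κ1 := by rw [h1, one_mul]
    _ = ∑' x, w ω x * κ1 := by rw [tot, ENNReal.tsum_mul_right]
    _ ≤ _ := by
      refine ENNReal.tsum_le_tsum fun x => ?_
      by_cases hx : x ∈ A.L L
      · exact mul_le_mul_right (h x hx) _
      · rw [hw.supp ω x hx, zero_mul, zero_mul]

/-- probabilities from weighted integrals -/
lemma prob_le_int (hθ : 0 < θ) {B E : Set Ω} (hBE : MeasurableSet (B ∩ E))
    {m : ι → Ω → ℝ≥0∞} (hm : ∀ a, ∀ ω ∈ B, m a ω ≤ 1) :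
    P (B ∩ E) ≤ ∫⁻ ω in B ∩ E, (fun _ => (1 : ℝ≥0∞)) ω * (∏ a, m a ω) ^ (-θ) ∂P := by
  calc P (B ∩ E) = ∫⁻ ω in B ∩ E, 1 ∂P := by simp
    _ ≤ _ := by
      refine setLIntegral_mono' hBE fun ω hω => ?_
      simp only [one_mul]
      exact one_le_prod (fun a => hm a ω hω.1) hθ

include X in
/-- **one epoch of the units** -/
theorem epL (hs0 : 1 ≤ s0) (hN : s0 < N) (hθ : 0 < θ) (hT0 : T ≠ 0) (hTt : T ≠ ∞) (hκ0 : κ0 ≠ 0)
    (hκ1 : κ1 ≠ 0) (hD : 0 ≤ D) (hD1 : 0 ≤ D1) {η Ks : ℝ≥0∞}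
    (hη : (4 * T) ^ θ * K + ((κ0 * T) ^ Fintype.card ι) ^ (-θ) * (Fintype.card ι * δ) ≤ η)
    (hKs1 : ((κ0 * T) ^ Fintype.card ι) ^ (-θ) ≤ Ks)
    (hKs2 : (κ1 ^ Fintype.card ι) ^ (-θ) ≤ Ks) :
    Units12.EpL A (St (ι := ι) A φ (2 * (D + D1)) g0)
      (fun s x y => |φ y - φ x| ≤ s * (D + D1)) N θ η Ks where
  meas L s B w hS := ⟨hS.1, hS.2.1, hS.2.2.1⟩
  step L s B w M hM1 hM2 hS := by
    obtain ⟨hB, hW, htot, hgap⟩ := id hS
    have hB0 : MeasurableSet B := A.F.le L _ hB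
    have hR1 : ∀ x y, R2 φ (D + D1) x y → |φ y - φ x| ≤ ((1 : ℕ) : ℝ) * (D + D1) := by
      intro x y h
      simpa [R2] using h
    by_cases hMs : s0 < M
    · set E : ℕ → Set Ω := fun t => if t = M then X.Eg L M w else X.Eb L M w t with hE
      have hE0 : ∀ t, ∀ ω ∈ E t, ∀ a, tot (X.V L t (w a)) ω ≠ 0 := by
        intro t ω hω
        by_cases htM : t = M
        · subst htM
          rw [hE] at hω
          simp only [if_true] at hω
          exact hω.1
        · rw [hE] at hω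
          simp only [if_neg htM] at hω
          exact hω.1
      have hEm : ∀ t, MeasurableSet[A.F (L + t)] (E t) := by
        intro t
        rw [hE]
        by_cases htM : t = M
        · subst htM
          simp only [if_true]
          exact X.Eg_meas hMs.le hW
        · simp only [if_neg htM]
          exact X.Eb_meas L M hW t
      have hEbt : ∀ t, t < M → E t = X.Eb L M w t := fun t ht => by
        rw [hE]; simp only [if_neg ht.ne]
      have hm1 : ∀ t a, ∀ ω ∈ B, tot (X.V L t (w a)) ω ≤ 1 := fun t a ω hω =>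
        (X.tot_V_le L t (w a) ω).trans (htot ω hω a).le
      have hA1 : ∀ Z : Ω → ℝ≥0∞, Measurable[A.F L] Z →
          ∑ t ∈ Finset.Ico 1 M,
            ∫⁻ ω in B ∩ E t, Z ω * (∏ a, tot (X.V L t (w a)) ω) ^ (-θ) ∂P
            ≤ η * ∫⁻ ω in B, Z ω ∂P := by
        intro Z hZ
        have hsub : insert s0 (Finset.Ioo s0 M) ⊆ Finset.Ico 1 M := by
          intro t ht
          rcases Finset.mem_insert.1 ht with rfl | ht
          · exact Finset.mem_Ico.2 ⟨hs0, hMs⟩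
          · have := Finset.mem_Ioo.1 ht
            exact Finset.mem_Ico.2 ⟨by omega, this.2⟩
        rw [← Finset.sum_subset hsub, Finset.sum_insert (by simp)]
        · have e1 := X.early_int (M := M) hN hθ hT0 hTt (by linarith) hS hZ
          have e2 := X.late_int hθ hMs hM2 hS hZ
          rw [hEbt s0 hMs]
          have e3 : ∑ t ∈ Finset.Ioo s0 M,
              ∫⁻ ω in B ∩ E t, Z ω * (∏ a, tot (X.V L t (w a)) ω) ^ (-θ) ∂P
              = ∑ t ∈ Finset.Ioo s0 M,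
              ∫⁻ ω in B ∩ X.Eb L M w t, Z ω * (∏ a, tot (X.V L t (w a)) ω) ^ (-θ) ∂P :=
            Finset.sum_congr rfl fun t ht => by rw [hEbt t (Finset.mem_Ioo.1 ht).2]
          rw [e3]
          refine (add_le_add e1 e2).trans ?_
          rw [← add_mul]
          gcongr
        · intro t ht hnt
          have ht' := Finset.mem_Ico.1 ht
          have hts : t ≠ s0 := fun h => hnt (Finset.mem_insert.2 (Or.inl h))
          have hts2 : ¬ (s0 < t ∧ t < M) := fun h =>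
            hnt (Finset.mem_insert.2 (Or.inr (Finset.mem_Ioo.2 h)))
          rw [hEbt t ht'.2]
          have : X.Eb L M w t = ∅ := by
            unfold Eb
            rw [if_neg hts, if_neg hts2, inter_empty]
          rw [this, inter_empty]
          simp
      refine ⟨E, fun t a => nrm (X.V L t (w a)), fun t a => tot (X.V L t (w a)),
        fun t _ _ a => (X.V_wt L t (hW a)).meas_tot, fun t _ _ => ?_, fun t _ _ a ω hω =>
          hE0 t ω hω.2 a, ?_, fun t _ _ a => ?_, hA1, ?_, ?_⟩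
      · exact st_restart hS (hEm t) (fun a => X.V_wt L t (hW a)) (hE0 t)
          (fun a ω => X.tot_V_le L t (w a) ω) (fun a ω y hy => X.V_disp hD1 L t (w a) ω y hy)
      · -- coverage
        have hae1 : ∀ᵐ ω ∂P, ∀ a, tot (w a) ω = 1 → tot (X.cp L (w a)) ω ≠ 0 := by
          rw [ae_all_iff]
          exact fun a => X.cp_pos L (hW a)
        have hae2 : ∀ᵐ ω ∂P, ∀ t, s0 < t → ∀ a, T ≤ X.hm L (t - 1) (w a) ω →
            κ0 * T ≤ tot (X.V L t (w a)) ω := by
          rw [ae_all_iff]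
          intro t
          by_cases ht : s0 < t
          · have : ∀ᵐ ω ∂P, ∀ a, T ≤ X.hm L (t - 1) (w a) ω → κ0 * T ≤ tot (X.V L t (w a)) ω := by
              rw [ae_all_iff]
              exact fun a => X.V_ge L t ht (hW a)
            filter_upwards [this] with ω hω _ using hω
          · exact Eventually.of_forall fun ω h => absurd h ht
        filter_upwards [hae1, hae2] with ω h1 h2 hωB
        have hκT : κ0 * T ≠ 0 := mul_ne_zero hκ0 hT0
        by_cases he : ∃ a, tot (X.cp L (w a)) ω < 4 * T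
        · refine ⟨s0, Finset.mem_Icc.2 ⟨hs0, hMs.le⟩, ?_⟩
          rw [hEbt s0 hMs]
          refine ⟨fun a => ?_, ?_⟩
          · rw [V_s0]
            exact h1 a (htot ω hωB a)
          · rw [if_pos rfl]
            exact he
        · have he' : ∀ a, 4 * T ≤ tot (X.cp L (w a)) ω := by
            intro a
            by_contra hc
            exact he ⟨a, not_le.1 hc⟩
          have hs0T : ∀ a, T ≤ X.hm L s0 (w a) ω := fun a => by
            refine le_trans ?_ ((he' a).trans (X.tot_cp_le_rp L (w a) ω))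
            calc T = 1 * T := (one_mul T).symm
              _ ≤ 4 * T := by gcongr; norm_num
          by_cases hl : ∃ l, s0 < l ∧ l < M ∧ ∃ a, X.hm L l (w a) ω < T
          · classical
            obtain ⟨g1, g2, g3⟩ := Nat.find_spec hl
            set t := Nat.find hl with ht
            have hmin : ∀ a, ∀ l ∈ Finset.Ico s0 t, T ≤ X.hm L l (w a) ω := by
              intro a l hlt
              have hl' := Finset.mem_Ico.1 hlt
              rcases hl'.1.eq_or_lt with h5 | h5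
              · rw [← h5]
                exact hs0T a
              · by_contra hc
                exact Nat.find_min hl hl'.2 ⟨h5, by omega, a, not_le.1 hc⟩
            refine ⟨t, Finset.mem_Icc.2 ⟨by omega, g2.le⟩, ?_⟩
            rw [hEbt t g2]
            refine ⟨fun a => ?_, ?_⟩
            · have := h2 t g1 a (hmin a (t - 1) (Finset.mem_Ico.2 ⟨by omega, by omega⟩))
              intro h0
              rw [h0] at this
              exact hκT (le_antisymm this bot_le)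
            · rw [if_neg (by omega), if_pos ⟨g1, g2⟩]
              exact ⟨⟨he', hmin⟩, g3⟩
          · have hmin : ∀ a, ∀ l ∈ Finset.Ico s0 M, T ≤ X.hm L l (w a) ω := by
              intro a l hlt
              have hl' := Finset.mem_Ico.1 hlt
              rcases hl'.1.eq_or_lt with h5 | h5
              · rw [← h5]
                exact hs0T a
              · by_contra hc
                exact hl ⟨l, h5, hl'.2, a, not_le.1 hc⟩
            refine ⟨M, Finset.mem_Icc.2 ⟨hM1, le_rfl⟩, ?_⟩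
            have : E M = X.Eg L M w := by rw [hE]; simp only [if_true]
            rw [this]
            refine ⟨fun a => ?_, he', hmin⟩
            have := h2 M hMs a (hmin a (M - 1) (Finset.mem_Ico.2 ⟨by omega, by omega⟩))
            intro h0
            rw [h0] at this
            exact hκT (le_antisymm this bot_le)
      · -- located masses
        filter_upwards [X.V_rp hD1 L t (w a)] with ω h1 hω y
        have h2 : tot (X.V L t (w a)) ω ≠ ∞ :=
          ne_top_of_le_ne_top ENNReal.one_ne_top (hm1 t a ω hω.1)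
        have h3 := mul_nrm (hE0 t ω hω.2 a) h2 y
        change tot (X.V L t (w a)) ω * nrm (X.V L t (w a)) ω y ≤ _
        rw [h3]
        exact (h1 y).trans (Home903.rpush_mono_D hR1 _ _ _ _ _)
      · intro Z hZ
        have : E M = X.Eg L M w := by rw [hE]; simp only [if_true]
        rw [this]
        refine (X.good_int hθ hMs hS hZ).trans ?_
        gcongr
      · have h1 := hA1 (fun _ => 1) measurable_const
        rw [lintegral_const, Measure.restrict_apply MeasurableSet.univ, univ_inter, one_mul] at h1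
        refine le_trans (Finset.sum_le_sum fun t _ => ?_) h1
        exact prob_le_int hθ (hB0.inter (A.F.le _ _ (hEm t))) (fun a ω hω => hm1 t a ω hω)
    · -- short horizon
      set v : ℕ → ι → Ω → S → ℝ≥0∞ := fun t a => rp A X.Hm L (L + t) (w a) with hv
      have hvW : ∀ t a, A.Wt (L + t) (v t a) := fun t a => rp_wt X.Hm (Nat.le_add_right L t) (hW a)
      have hvle : ∀ t a ω, tot (v t a) ω ≤ tot (w a) ω := fun t a ω =>
        (tot_rp_le _ _ _ _ _).trans (A.tot_push_le (Nat.le_add_right _ _) (w a) ω)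
      set E : ℕ → Set Ω := fun t => if t = M then {ω | ∀ a, tot (v M a) ω ≠ 0} else ∅ with hE
      have hE0 : ∀ t, ∀ ω ∈ E t, ∀ a, tot (v t a) ω ≠ 0 := by
        intro t ω hω
        by_cases htM : t = M
        · subst htM
          rw [hE] at hω
          simp only [if_true] at hω
          exact hω
        · rw [hE] at hω
          simp only [if_neg htM] at hω
          exact hω.elim
      have hEm : ∀ t, MeasurableSet[A.F (L + t)] (E t) := by
        intro t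
        rw [hE]
        by_cases htM : t = M
        · subst htM
          simp only [if_true, setOf_forall]
          refine MeasurableSet.iInter fun a => ?_
          have : MeasurableSet[A.F (L + t)] {ω | tot (v t a) ω = 0} :=
            (hvW t a).meas_tot (measurableSet_singleton 0)
          exact this.compl
        · simp only [if_neg htM]
          exact @MeasurableSet.empty _ (A.F (L + t))
      have hEempty : ∀ t, t < M → E t = ∅ := fun t ht => by rw [hE]; simp only [if_neg ht.ne]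
      have hm1 : ∀ t a, ∀ ω ∈ B, tot (v t a) ω ≤ 1 := fun t a ω hω =>
        (hvle t a ω).trans (htot ω hω a).le
      have hEM : E M = {ω | ∀ a, tot (v M a) ω ≠ 0} := by rw [hE]; simp only [if_true]
      have hfl : ∀ᵐ ω ∂P, ∀ a, tot (w a) ω = 1 → κ1 ≤ tot (v M a) ω := by
        rw [ae_all_iff]
        exact fun a => X.floor_ge (not_lt.1 hMs) (hW a)
      refine ⟨E, fun t a => nrm (v t a), fun t a => tot (v t a),
        fun t _ _ a => (hvW t a).meas_tot, fun t _ _ => ?_, fun t _ _ a ω hω =>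
          hE0 t ω hω.2 a, ?_, fun t _ _ a => ?_, ?_, ?_, ?_⟩
      · refine st_restart hS (hEm t) (hvW t) (hE0 t) (hvle t) (fun a ω y hy => ?_)
        obtain ⟨x, hx1, hx2, _⟩ := Home903.rpush_ne_zero hy
        refine ⟨x, hx1, ?_⟩
        have := X.Hm_disp x y hx2
        linarith
      · filter_upwards [hfl] with ω h1 hωB
        refine ⟨M, Finset.mem_Icc.2 ⟨hM1, le_rfl⟩, ?_⟩
        rw [hEM]
        intro a h0
        have := h1 a (htot ω hωB a)
        rw [h0] at this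
        exact hκ1 (le_antisymm this bot_le)
      · refine Eventually.of_forall fun ω hω y => ?_
        have h2 : tot (v t a) ω ≠ ∞ :=
          ne_top_of_le_ne_top ENNReal.one_ne_top (hm1 t a ω hω.1)
        have h3 := mul_nrm (hE0 t ω hω.2 a) h2 y
        change tot (v t a) ω * nrm (v t a) ω y ≤ _
        rw [h3]
        refine Home903.rpush_mono_D (fun x y h => ?_) _ _ _ _ _
        have := X.Hm_disp x y h
        push_cast
        linarith
      · intro Z hZ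
        have : ∑ t ∈ Finset.Ico 1 M,
            ∫⁻ ω in B ∩ E t, Z ω * (∏ a, tot (v t a) ω) ^ (-θ) ∂P = 0 := by
          refine Finset.sum_eq_zero fun t ht => ?_
          rw [hEempty t (Finset.mem_Ico.1 ht).2, inter_empty]
          simp
        exact this.trans_le bot_le
      · intro Z hZ
        have hZ0 : Measurable Z := hZ.mono (A.F.le L) le_rfl
        calc ∫⁻ ω in B ∩ E M, Z ω * (∏ a, tot (v M a) ω) ^ (-θ) ∂P
            ≤ ∫⁻ ω in B ∩ E M, Ks * Z ω ∂P := by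
              refine lintegral_mono_ae ?_
              filter_upwards [ae_restrict_of_ae hfl,
                ae_restrict_mem (hB0.inter (A.F.le _ _ (hEm M)))] with ω h2 h3
              rw [mul_comm Ks]
              gcongr
              exact (prod_low (fun a => h2 a (htot ω h3.1 a)) hθ).trans hKs2
          _ ≤ ∫⁻ ω in B, Ks * Z ω ∂P := lintegral_mono_set inter_subset_left
          _ = Ks * ∫⁻ ω in B, Z ω ∂P := lintegral_const_mul Ks hZ0
      · have : ∑ t ∈ Finset.Ico 1 M, P (B ∩ E t) = 0 := by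
          refine Finset.sum_eq_zero fun t ht => ?_
          rw [hEempty t (Finset.mem_Ico.1 ht).2, inter_empty, measure_empty]
        exact this.trans_le bot_le

end Dat

end Crest.Agent.R154.EpStep209
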