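import Crest.Agent.R154.RatioA_872

/-! Row 154 (helper175), HOME MASS route (263 #36390, 587 #37206): the epoch machine for `k` units in
CONSTRUCTED form: sub-laws of the push with controlled drift, certified ratio with a moment bound off a
bad event. Abstract kernel systems only. -/

set_option autoImplicit false
set_option linter.unusedSectionVars false
set_option linter.unusedVariables false
set_option linter.deprecated false

namespace Crest.Agent.R154.Sep175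

open MeasureTheory Set Filter
open Crest.Agent.R154.RatioR872 Crest.Agent.R154.RatioR872.KerSys
open scoped ENNReal

variable {S : Type*} [Countable S] {Ω : Type*} {m0 : MeasurableSpace Ω} {P : Measure Ω}

/-- the push, the identity when the two levels are equal -/
noncomputable def psh (A : KerSys S P) (a b : ℕ) (w : Ω → S → ℝ≥0∞) : Ω → S → ℝ≥0∞ :=
  if a = b then w else A.push a b w

/-- `W` is a weight at level `b`, dominated by the push of `w` from level `a` -/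
structure Cert (A : KerSys S P) (a b : ℕ) (w W : Ω → S → ℝ≥0∞) : Prop where
  wt : A.Wt b W
  dom : ∀ᵐ ω ∂P, ∀ y, W ω y ≤ psh A a b w ω y

/-- the support moves by at most `r` -/
def Near (lc : S → ℤ) (r : ℤ) (w W : Ω → S → ℝ≥0∞) : Prop :=
  ∀ ω y, W ω y ≠ 0 → ∃ x, w ω x ≠ 0 ∧ |lc y - lc x| ≤ r

/-- pairwise separated supports -/
def Sepd (lc : S → ℤ) (g : ℤ) {k : ℕ} (w : Fin k → Ω → S → ℝ≥0∞) : Prop :=
  ∀ ω i j, i ≠ j → ∀ x y, w i ω x ≠ 0 → w j ω y ≠ 0 → g ≤ |lc x - lc y|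

lemma Near.trans {lc : S → ℤ} {r r' : ℤ} {w W V : Ω → S → ℝ≥0∞} (h : Near lc r w W)
    (h' : Near lc r' W V) : Near lc (r + r') w V := by
  intro ω y hy
  obtain ⟨x, hx, h1⟩ := h' ω y hy
  obtain ⟨z, hz, h2⟩ := h ω x hx
  refine ⟨z, hz, ?_⟩
  rw [abs_le] at *
  constructor <;> linarith [h1.1, h1.2, h2.1, h2.2]

lemma Near.mono {lc : S → ℤ} {r r' : ℤ} (hr : r ≤ r') {w W : Ω → S → ℝ≥0∞} (h : Near lc r w W) :
    Near lc r' w W := fun ω y hy => by
  obtain ⟨x, hx, h1⟩ := h ω y hy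
  exact ⟨x, hx, h1.trans hr⟩

lemma Sepd.near {lc : S → ℤ} {g r : ℤ} {k : ℕ} {w W : Fin k → Ω → S → ℝ≥0∞}
    (h : Sepd lc g w) (hn : ∀ j, Near lc r (w j) (W j)) : Sepd lc (g - 2 * r) W := by
  intro ω i j hij x y hx hy
  obtain ⟨x', hx', h1⟩ := hn i ω x hx
  obtain ⟨y', hy', h2⟩ := hn j ω y hy
  have h3 := h ω i j hij x' y' hx' hy'
  have h4 : |lc x' - lc y'| ≤ |lc x - lc y| + 2 * r := by
    have e : lc x' - lc y' = (lc x - lc y) + ((lc y - lc y') - (lc x - lc x')) := by ring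
    rw [e]
    calc _ ≤ |lc x - lc y| + |(lc y - lc y') - (lc x - lc x')| := abs_add_le _ _
      _ ≤ |lc x - lc y| + (|lc y - lc y'| + |lc x - lc x'|) := by gcongr; exact abs_sub _ _
      _ ≤ _ := by linarith
  linarith

lemma push_mono (A : KerSys S P) {a b : ℕ} {w W : Ω → S → ℝ≥0∞} {ω : Ω} (h : ∀ x, w ω x ≤ W ω x)
    (y : S) : A.push a b w ω y ≤ A.push a b W ω y := by
  unfold KerSys.push
  exact ENNReal.tsum_le_tsum fun x => by gcongr; exact h x

lemma push_push_le (A : KerSys S P) {a b c : ℕ} (hab : a ≤ b) (hbc : b ≤ c)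
    (w : Ω → S → ℝ≥0∞) : ∀ᵐ ω ∂P, ∀ z, A.push b c (A.push a b w) ω z ≤ A.push a c w ω z := by
  filter_upwards [A.comp a b c hab hbc] with ω hω z
  unfold KerSys.push
  calc ∑' y, (∑' x, w ω x * A.G a b ω x y) * A.G b c ω y z
      = ∑' y, ∑' x, w ω x * (A.G a b ω x y * A.G b c ω y z) := by
        refine tsum_congr fun y => ?_
        rw [← ENNReal.tsum_mul_right]
        exact tsum_congr fun x => by ring
    _ = ∑' x, ∑' y, w ω x * (A.G a b ω x y * A.G b c ω y z) := ENNReal.tsum_comm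
    _ = ∑' x, w ω x * ∑' y, A.G a b ω x y * A.G b c ω y z := by
        refine tsum_congr fun x => ?_
        rw [ENNReal.tsum_mul_left]
    _ ≤ _ := ENNReal.tsum_le_tsum fun x => by gcongr; exact hω x z

lemma psh_mono (A : KerSys S P) {a b : ℕ} {w W : Ω → S → ℝ≥0∞} {ω : Ω} (h : ∀ x, w ω x ≤ W ω x)
    (y : S) : psh A a b w ω y ≤ psh A a b W ω y := by
  unfold psh
  split_ifs
  · exact h y
  · exact push_mono A h y

lemma psh_psh_le (A : KerSys S P) {a b c : ℕ} (hab : a ≤ b) (hbc : b ≤ c)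
    (w : Ω → S → ℝ≥0∞) : ∀ᵐ ω ∂P, ∀ z, psh A b c (psh A a b w) ω z ≤ psh A a c w ω z := by
  filter_upwards [push_push_le A hab hbc w] with ω hω z
  unfold psh
  by_cases h1 : a = b
  · subst h1
    simp
  · by_cases h2 : b = c
    · subst h2
      simp [h1]
    · have h3 : a ≠ c := by omega
      simp only [h1, h2, h3, if_false]
      exact hω z

lemma Cert.trans {A : KerSys S P} {a b c : ℕ} (hab : a ≤ b) (hbc : b ≤ c)
    {w W V : Ω → S → ℝ≥0∞} (h : Cert A a b w W) (h' : Cert A b c W V) : Cert A a c w V where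
  wt := h'.wt
  dom := by
    filter_upwards [h.dom, h'.dom, psh_psh_le A hab hbc w] with ω h1 h2 h3 y
    exact (h2 y).trans ((psh_mono A h1 y).trans (h3 y))

lemma Cert.refl {A : KerSys S P} {a : ℕ} {w : Ω → S → ℝ≥0∞} (hw : A.Wt a w) : Cert A a a w w where
  wt := hw
  dom := Eventually.of_forall fun ω y => by simp [psh]

lemma Cert.tot_le {A : KerSys S P} {a b : ℕ} (hab : a ≠ b) {w W : Ω → S → ℝ≥0∞}
    (h : Cert A a b w W) : ∀ᵐ ω ∂P, tot W ω ≤ tot (A.push a b w) ω := by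
  filter_upwards [h.dom] with ω hω
  unfold tot
  refine ENNReal.tsum_le_tsum fun y => ?_
  have := hω y
  simpa [psh, hab] using this

/-- the constructed output of `k` carried units between the levels `a` and `c` -/
def Carries (A : KerSys S P) (lc : S → ℤ) {k : ℕ} (a c : ℕ) (w : Fin k → Ω → S → ℝ≥0∞) (θ : ℝ)
    (K ε : ℝ≥0∞) (r : ℤ) : Prop :=
  ∃ (W : Fin k → Ω → S → ℝ≥0∞) (R : Ω → ℝ≥0∞) (Bad : Set Ω),
    Measurable[A.F c] R ∧ MeasurableSet[A.F c] Bad ∧ (∀ j, Cert A a c (w j) (W j)) ∧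
    (∀ j, Near lc r (w j) (W j)) ∧
    (∀ᵐ ω ∂P, ω ∉ Bad → ∏ j, tot (w j) ω ≤ R ω * ∏ j, tot (W j) ω) ∧
    (∀ φ : Ω → ℝ≥0∞, Measurable[A.F a] φ →
      ∫⁻ ω, φ ω * Badᶜ.indicator (fun ω => R ω ^ θ) ω ∂P ≤ K * ∫⁻ ω, φ ω ∂P) ∧
    (∀ φ : Ω → ℝ≥0∞, Measurable[A.F a] φ →
      ∫⁻ ω, φ ω * Bad.indicator (fun _ => 1) ω ∂P ≤ ε * ∫⁻ ω, φ ω ∂P)

/-- **one epoch** of `k` units of gap `g0`: finite family of branches `i` (stopping level `lv i`, set
`Br i` of the past of `lv i`), `late` branches and scheduled branches (end at `min (a + N) c`). -/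
def Ep (A : KerSys S P) (lc : S → ℤ) (k N : ℕ) (D1 g0 : ℤ) (θ : ℝ) (K ρ κ2 : ℝ≥0∞) : Prop :=
  ∀ a c, a < c → ∀ w : Fin k → Ω → S → ℝ≥0∞, (∀ j, A.Wt a (w j)) → Sepd lc g0 w →
    ∃ (ι : Type) (_ : Fintype ι) (lv : ι → ℕ) (Br : ι → Set Ω) (late : ι → Prop)
      (_ : DecidablePred late)
      (W : ι → Fin k → Ω → S → ℝ≥0∞) (R : ι → Ω → ℝ≥0∞),
      (∀ i, a < lv i ∧ lv i ≤ c) ∧ (∀ i, ¬ late i → lv i = min (a + N) c) ∧
      (∀ i, MeasurableSet[A.F (lv i)] (Br i)) ∧ (∀ i j, i ≠ j → Disjoint (Br i) (Br j)) ∧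
      (∀ ω, ∃ i, ω ∈ Br i) ∧ (∀ i, Measurable[A.F (lv i)] (R i)) ∧
      (∀ i j, Cert A a (lv i) (w j) (W i j)) ∧ (∀ i j, Near lc D1 (w j) (W i j)) ∧
      (∀ i, ∀ᵐ ω ∂P, ω ∈ Br i → ∏ j, tot (w j) ω ≤ R i ω * ∏ j, tot (W i j) ω) ∧
      (∀ φ : Ω → ℝ≥0∞, Measurable[A.F a] φ →
        ∑ i, (if late i then 0 else ∫⁻ ω, φ ω * (Br i).indicator (fun ω => R i ω ^ θ) ω ∂P)
          ≤ K * ∫⁻ ω, φ ω ∂P) ∧
      (∀ φ : Ω → ℝ≥0∞, Measurable[A.F a] φ →
        ∑ i, (if late i then ∫⁻ ω, φ ω * (Br i).indicator (fun ω => R i ω ^ θ) ω ∂P else 0)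
          ≤ ρ * ∫⁻ ω, φ ω ∂P) ∧
      (∀ φ : Ω → ℝ≥0∞, Measurable[A.F a] φ →
        ∑ i, (if late i then ∫⁻ ω, φ ω * (Br i).indicator (fun _ => 1) ω ∂P else 0)
          ≤ κ2 * ∫⁻ ω, φ ω ∂P)

/-- gluing of branches -/
lemma glue {A : KerSys S P} {lc : S → ℤ} {k : ℕ} {a c : ℕ} {w : Fin k → Ω → S → ℝ≥0∞} {θ : ℝ}
    (hθ : 0 ≤ θ) {ι : Type} [Fintype ι] {lv : ι → ℕ} {Br : ι → Set Ω}
    {W : ι → Fin k → Ω → S → ℝ≥0∞} {R : ι → Ω → ℝ≥0∞} {D1 r : ℤ} {K ε : ι → ℝ≥0∞}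
    (hlv : ∀ i, a ≤ lv i ∧ lv i ≤ c) (hBr : ∀ i, MeasurableSet[A.F (lv i)] (Br i))
    (hdj : ∀ i j, i ≠ j → Disjoint (Br i) (Br j)) (hcov : ∀ ω, ∃ i, ω ∈ Br i)
    (hR : ∀ i, Measurable[A.F (lv i)] (R i)) (hC : ∀ i j, Cert A a (lv i) (w j) (W i j))
    (hN : ∀ i j, Near lc D1 (w j) (W i j))
    (hcost : ∀ i, ∀ᵐ ω ∂P, ω ∈ Br i → ∏ j, tot (w j) ω ≤ R i ω * ∏ j, tot (W i j) ω)
    (hcar : ∀ i, Carries A lc (lv i) c (W i) θ (K i) (ε i) r)
    {K' ε' : ℝ≥0∞}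
    (hK : ∀ φ : Ω → ℝ≥0∞, Measurable[A.F a] φ →
      ∑ i, K i * ∫⁻ ω, φ ω * (Br i).indicator (fun ω => R i ω ^ θ) ω ∂P ≤ K' * ∫⁻ ω, φ ω ∂P)
    (hε : ∀ φ : Ω → ℝ≥0∞, Measurable[A.F a] φ →
      ∑ i, ε i * ∫⁻ ω, φ ω * (Br i).indicator (fun _ => 1) ω ∂P ≤ ε' * ∫⁻ ω, φ ω ∂P) :
    Carries A lc a c w θ K' ε' (D1 + r) := by
  classical
  choose V T Bad h1 h2 h3 h4 h5 h6 h7 using hcar
  -- the glued objects
  have key : ∀ (f : ι → Ω → ℝ≥0∞) (i : ι) (ω : Ω), ω ∈ Br i →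
      ∑ j, (Br j).indicator (f j) ω = f i ω := by
    intro f i ω hi
    rw [Finset.sum_eq_single i]
    · exact indicator_of_mem hi _
    · intro j _ hj
      exact indicator_of_notMem (fun h => (hdj j i hj).le_bot ⟨h, hi⟩) _
    · intro h; exact absurd (Finset.mem_univ i) h
  have hBc : ∀ i, MeasurableSet[A.F c] (Br i) := fun i => A.F.mono (hlv i).2 _ (hBr i)
  set W' : Fin k → Ω → S → ℝ≥0∞ := fun j ω y => ∑ i, (Br i).indicator (fun ω => V i j ω y) ω with hW'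
  set R' : Ω → ℝ≥0∞ := fun ω => ∑ i, (Br i).indicator (fun ω => R i ω * T i ω) ω with hR'
  set Bad' : Set Ω := ⋃ i, Br i ∩ Bad i with hBad'
  have eW : ∀ i ω, ω ∈ Br i → ∀ j y, W' j ω y = V i j ω y := fun i ω hi j y =>
    key (fun i ω => V i j ω y) i ω hi
  have eR : ∀ i ω, ω ∈ Br i → R' ω = R i ω * T i ω := fun i ω hi =>
    key (fun i ω => R i ω * T i ω) i ω hi
  have eB : ∀ i ω, ω ∈ Br i → (ω ∈ Bad' ↔ ω ∈ Bad i) := by
    intro i ω hi
    rw [hBad', mem_iUnion]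
    constructor
    · rintro ⟨j, hj1, hj2⟩
      by_cases hij : j = i
      · rw [← hij]; exact hj2
      · exact absurd (show ω ∈ Br j ∩ Br i from ⟨hj1, hi⟩) fun h => (hdj j i hij).le_bot h
    · intro h; exact ⟨i, hi, h⟩
  refine ⟨W', R', Bad', ?_, ?_, ?_, ?_, ?_, ?_, ?_⟩
  · refine Finset.measurable_sum _ fun i _ => ?_
    exact (((hR i).mono (A.F.mono (hlv i).2) le_rfl).mul (h1 i)).indicator (hBc i)
  · exact MeasurableSet.iUnion fun i => (hBc i).inter (h2 i)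
  · intro j
    refine ⟨⟨fun y => ?_, fun ω y hy => ?_⟩, ?_⟩
    · refine Finset.measurable_sum _ fun i _ => ?_
      exact ((h3 i j).wt.meas y).indicator (hBc i)
    · obtain ⟨i, hi⟩ := hcov ω
      rw [eW i ω hi]
      exact (h3 i j).wt.supp ω y hy
    · have hall : ∀ i, ∀ᵐ ω ∂P, ∀ y, V i j ω y ≤ psh A a c (w j) ω y := fun i =>
        ((hC i j).trans (hlv i).1 (hlv i).2 (h3 i j)).dom
      filter_upwards [ae_all_iff.2 hall] with ω hω y
      obtain ⟨i, hi⟩ := hcov ω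
      rw [eW i ω hi]
      exact hω i y
  · intro j ω y hy
    obtain ⟨i, hi⟩ := hcov ω
    rw [eW i ω hi] at hy
    exact ((hN i j).trans (h4 i j)) ω y hy
  · filter_upwards [ae_all_iff.2 hcost, ae_all_iff.2 h5] with ω hω1 hω2 hbad
    obtain ⟨i, hi⟩ := hcov ω
    have hb : ω ∉ Bad i := fun h => hbad ((eB i ω hi).2 h)
    have ht : ∀ j, tot (W' j) ω = tot (V i j) ω := fun j => by
      unfold tot; exact tsum_congr fun y => eW i ω hi j y
    rw [eR i ω hi]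
    calc ∏ j, tot (w j) ω ≤ R i ω * ∏ j, tot (W i j) ω := hω1 i hi
      _ ≤ R i ω * (T i ω * ∏ j, tot (V i j) ω) := by gcongr; exact hω2 i hb
      _ = R i ω * T i ω * ∏ j, tot (W' j) ω := by
          rw [mul_assoc]
          congr 2
          exact Finset.prod_congr rfl fun j _ => (ht j).symm
  · intro φ hφ
    have hpt : ∀ ω, φ ω * Bad'ᶜ.indicator (fun ω => R' ω ^ θ) ω
        = ∑ i, (φ ω * (Br i).indicator (fun ω => R i ω ^ θ) ω)
            * (Bad i)ᶜ.indicator (fun ω => T i ω ^ θ) ω := by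
      intro ω
      obtain ⟨i, hi⟩ := hcov ω
      rw [Finset.sum_eq_single i]
      · rw [indicator_of_mem hi]
        by_cases hb : ω ∈ Bad i
        · rw [indicator_of_notMem (show ω ∉ Bad'ᶜ from fun h => h ((eB i ω hi).2 hb)),
            indicator_of_notMem (show ω ∉ (Bad i)ᶜ from fun h => h hb)]
          simp
        · rw [indicator_of_mem (show ω ∈ Bad'ᶜ from fun h => hb ((eB i ω hi).1 h)),
            indicator_of_mem (show ω ∈ (Bad i)ᶜ from hb), eR i ω hi,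
            ENNReal.mul_rpow_of_nonneg _ _ hθ, mul_assoc]
      · intro j _ hj
        rw [indicator_of_notMem (fun h => (hdj j i hj).le_bot ⟨h, hi⟩)]
        simp
      · intro h; exact absurd (Finset.mem_univ i) h
    have hφ0 : Measurable φ := hφ.mono (A.F.le a) le_rfl
    have hm1 : ∀ i, Measurable[A.F (lv i)]
        fun ω => φ ω * (Br i).indicator (fun ω => R i ω ^ θ) ω := fun i =>
      (hφ.mono (A.F.mono (hlv i).1) le_rfl).mul (((hR i).pow_const θ).indicator (hBr i))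
    simp_rw [hpt]
    rw [lintegral_finset_sum']
    · refine le_trans (Finset.sum_le_sum fun i _ => h6 i _ (hm1 i)) ?_
      exact hK φ hφ
    · intro i _
      have : Measurable fun ω => (Bad i)ᶜ.indicator (fun ω => T i ω ^ θ) ω :=
        (((h1 i).pow_const θ).mono (A.F.le c) le_rfl).indicator (A.F.le c _ (h2 i)).compl
      exact (((hm1 i).mono (A.F.le _) le_rfl).mul this).aemeasurable
  · intro φ hφ
    have hpt : ∀ ω, φ ω * Bad'.indicator (fun _ => 1) ω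
        = ∑ i, (φ ω * (Br i).indicator (fun _ => 1) ω) * (Bad i).indicator (fun _ => 1) ω := by
      intro ω
      obtain ⟨i, hi⟩ := hcov ω
      rw [Finset.sum_eq_single i]
      · rw [indicator_of_mem hi]
        by_cases hb : ω ∈ Bad i
        · rw [indicator_of_mem ((eB i ω hi).2 hb), indicator_of_mem hb]
          simp
        · rw [indicator_of_notMem (fun h => hb ((eB i ω hi).1 h)), indicator_of_notMem hb]
          simp
      · intro j _ hj
        rw [indicator_of_notMem (fun h => (hdj j i hj).le_bot ⟨h, hi⟩)]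
        simp
      · intro h; exact absurd (Finset.mem_univ i) h
    have hm1 : ∀ i, Measurable[A.F (lv i)]
        fun ω => φ ω * (Br i).indicator (fun _ => (1 : ℝ≥0∞)) ω := fun i =>
      (hφ.mono (A.F.mono (hlv i).1) le_rfl).mul (measurable_const.indicator (hBr i))
    simp_rw [hpt]
    rw [lintegral_finset_sum']
    · refine le_trans (Finset.sum_le_sum fun i _ => h7 i _ (hm1 i)) ?_
      exact hε φ hφ
    · intro i _
      have : Measurable fun ω => (Bad i).indicator (fun _ => (1 : ℝ≥0∞)) ω :=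
        measurable_const.indicator (A.F.le c _ (h2 i))
      exact (((hm1 i).mono (A.F.le _) le_rfl).mul this).aemeasurable

lemma Carries.refl {A : KerSys S P} {lc : S → ℤ} {k : ℕ} {a : ℕ} {w : Fin k → Ω → S → ℝ≥0∞}
    (hw : ∀ j, A.Wt a (w j)) {θ : ℝ} {K ε : ℝ≥0∞} (hK : 1 ≤ K) {r : ℤ} (hr : 0 ≤ r) :
    Carries A lc a a w θ K ε r := by
  refine ⟨w, fun _ => 1, ∅, @measurable_const _ _ _ (A.F a) _, @MeasurableSet.empty _ (A.F a),
    fun j => Cert.refl (hw j), ?_, ?_, ?_, ?_⟩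
  · intro j ω y hy
    exact ⟨y, hy, by simpa using hr⟩
  · exact Eventually.of_forall fun ω _ => by simp
  · intro φ hφ
    simp only [ENNReal.one_rpow, compl_empty, indicator_univ, mul_one]
    exact le_mul_of_one_le_left (by positivity) hK
  · intro φ hφ
    simp

lemma Carries.none {A : KerSys S P} {lc : S → ℤ} {k : ℕ} {a c : ℕ} {w : Fin k → Ω → S → ℝ≥0∞}
    {θ : ℝ} {K ε : ℝ≥0∞} (hε : 1 ≤ ε) {r : ℤ} : Carries A lc a c w θ K ε r := by
  refine ⟨fun _ _ _ => 0, fun _ => 0, univ, @measurable_const _ _ _ (A.F c) _,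
    @MeasurableSet.univ _ (A.F c), fun j => ⟨⟨fun x => @measurable_const _ _ _ (A.F c) _,
      fun _ _ _ => rfl⟩, Eventually.of_forall fun ω y => by simp⟩, ?_, ?_, ?_, ?_⟩
  · intro j ω y hy
    exact absurd rfl hy
  · exact Eventually.of_forall fun ω h => absurd (mem_univ ω) h
  · intro φ hφ
    simp
  · intro φ hφ
    simp only [indicator_univ, mul_one]
    exact le_mul_of_one_le_left (by positivity) hε

/-- **THE EPOCH MACHINE** (587): `e` epochs of gap budget, `s` scheduled epochs. -/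
theorem epochs {A : KerSys S P} {lc : S → ℤ} {k N : ℕ} {D1 g0 : ℤ} {θ : ℝ} {K ρ κ2 K1 : ℝ≥0∞}
    (hθ : 0 ≤ θ) (hD : 0 ≤ D1) (hN : 1 ≤ N) (hEp : Ep A lc k N D1 g0 θ K ρ κ2)
    (hK1 : 1 ≤ K1) (hK : K + K1 * ρ ≤ K1) (hκ0 : κ2 ≠ 0) (hκ1 : κ2 ≤ 1) :
    ∀ (e s : ℕ) (a c : ℕ), a ≤ c → c ≤ a + s * N → ∀ w : Fin k → Ω → S → ℝ≥0∞,
      (∀ j, A.Wt a (w j)) → Sepd lc (g0 + 2 * (e * D1)) w →
      Carries A lc a c w θ (K1 ^ s) ((2 * κ2) ^ e * (κ2⁻¹) ^ s) (e * D1) := by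
  have hκt : κ2 ≠ ∞ := ne_top_of_le_ne_top ENNReal.one_ne_top hκ1
  have hinv : 1 ≤ κ2⁻¹ := ENNReal.one_le_inv.2 hκ1
  intro e
  induction e with
  | zero =>
    intro s a c _ _ w hw _
    refine Carries.none ?_
    rw [pow_zero, one_mul]
    exact one_le_pow₀ hinv
  | succ e ih =>
    intro s a c hac hcs w hw hsep
    rcases hac.eq_or_lt with rfl | hlt
    · exact Carries.refl hw (one_le_pow₀ hK1) (by positivity)
    obtain ⟨s, rfl⟩ : ∃ s', s = s' + 1 := by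
      rcases s with _ | s
      · omega
      · exact ⟨s, rfl⟩
    have hsep0 : Sepd lc g0 w := fun ω i j hij x y hx hy =>
      le_trans (by have : (0:ℤ) ≤ ((e+1 : ℕ) : ℤ) * D1 := by positivity
                   linarith) (hsep ω i j hij x y hx hy)
    obtain ⟨ι, _, lv, Br, late, _, W, R, h1, h2, h3, h4, h5, h6, h7, h8, h9, h10, h11, h12⟩ :=
      hEp a c hlt w hw hsep0
    have hsepW : ∀ i, Sepd lc (g0 + 2 * (e * D1)) (W i) := by
      intro i
      have := hsep.near (h8 i)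
      have e1 : g0 + 2 * ((e + 1 : ℕ) * D1) - 2 * D1 = g0 + 2 * (e * D1) := by push_cast; ring
      rwa [e1] at this
    have hcar : ∀ i, Carries A lc (lv i) c (W i) θ (if late i then K1 ^ (s+1) else K1 ^ s)
        (if late i then (2 * κ2) ^ e * (κ2⁻¹) ^ (s+1) else (2 * κ2) ^ e * (κ2⁻¹) ^ s) (e * D1) := by
      intro i
      have hb : lv i ≤ c := (h1 i).2
      have ha : a < lv i := (h1 i).1
      by_cases hl : late i
      · rw [if_pos hl, if_pos hl]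
        exact ih (s+1) (lv i) c hb (by omega) (W i) (fun j => (h7 i j).wt) (hsepW i)
      · rw [if_neg hl, if_neg hl]
        have hlv := h2 i hl
        refine ih s (lv i) c hb ?_ (W i) (fun j => (h7 i j).wt) (hsepW i)
        have e2 : (s + 1) * N = s * N + N := by ring
        rw [e2] at hcs
        omega
    have hfin := glue (K' := K1 ^ (s+1)) (ε' := (2 * κ2) ^ (e+1) * (κ2⁻¹) ^ (s+1)) hθ
      (fun i => ⟨(h1 i).1.le, (h1 i).2⟩) h3 h4 h5 h6 h7 h8 h9 hcar ?_ ?_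
    · have e3 : D1 + (e : ℤ) * D1 = ((e + 1 : ℕ) : ℤ) * D1 := by push_cast; ring
      rwa [e3] at hfin
    · intro φ hφ
      have e4 : ∀ i, (if late i then K1 ^ (s+1) else K1 ^ s)
            * ∫⁻ ω, φ ω * (Br i).indicator (fun ω => R i ω ^ θ) ω ∂P
          = K1 ^ s * (if late i then 0 else ∫⁻ ω, φ ω * (Br i).indicator (fun ω => R i ω ^ θ) ω ∂P)
            + K1 ^ (s+1) *
              (if late i then ∫⁻ ω, φ ω * (Br i).indicator (fun ω => R i ω ^ θ) ω ∂P else 0) := by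
        intro i
        split_ifs <;> simp
      rw [Finset.sum_congr rfl fun i _ => e4 i, Finset.sum_add_distrib, ← Finset.mul_sum,
        ← Finset.mul_sum]
      calc _ ≤ K1 ^ s * (K * ∫⁻ ω, φ ω ∂P) + K1 ^ (s+1) * (ρ * ∫⁻ ω, φ ω ∂P) := by
            gcongr
            · exact h10 φ hφ
            · exact h11 φ hφ
        _ = (K1 ^ s * (K + K1 * ρ)) * ∫⁻ ω, φ ω ∂P := by rw [pow_succ]; ring
        _ ≤ (K1 ^ s * K1) * ∫⁻ ω, φ ω ∂P := by gcongr
        _ = _ := by rw [pow_succ]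
    · intro φ hφ
      have hbr0 : ∀ i, Measurable fun ω => φ ω * (Br i).indicator (fun _ => (1 : ℝ≥0∞)) ω := fun i =>
        (hφ.mono (A.F.le a) le_rfl).mul (measurable_const.indicator (A.F.le _ _ (h3 i)))
      have hsum : ∑ i, (if late i then 0
          else ∫⁻ ω, φ ω * (Br i).indicator (fun _ => (1 : ℝ≥0∞)) ω ∂P) ≤ ∫⁻ ω, φ ω ∂P := by
        calc _ ≤ ∑ i, ∫⁻ ω, φ ω * (Br i).indicator (fun _ => (1 : ℝ≥0∞)) ω ∂P := by
              refine Finset.sum_le_sum fun i _ => ?_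
              split_ifs
              · exact bot_le
              · exact le_rfl
          _ = ∫⁻ ω, ∑ i, φ ω * (Br i).indicator (fun _ => (1 : ℝ≥0∞)) ω ∂P :=
              (lintegral_finset_sum _ fun i _ => hbr0 i).symm
          _ ≤ ∫⁻ ω, φ ω ∂P := by
              refine lintegral_mono fun ω => ?_
              obtain ⟨i, hi⟩ := h5 ω
              change ∑ i, φ ω * (Br i).indicator (fun _ => (1 : ℝ≥0∞)) ω ≤ φ ω
              rw [Finset.sum_eq_single i]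
              · rw [indicator_of_mem hi, mul_one]
              · intro j _ hj
                rw [indicator_of_notMem (fun h => (h4 j i hj).le_bot ⟨h, hi⟩), mul_zero]
              · intro h; exact absurd (Finset.mem_univ i) h
      have e4 : ∀ i, (if late i then (2 * κ2) ^ e * (κ2⁻¹) ^ (s+1) else (2 * κ2) ^ e * (κ2⁻¹) ^ s)
            * ∫⁻ ω, φ ω * (Br i).indicator (fun _ => (1 : ℝ≥0∞)) ω ∂P
          = ((2 * κ2) ^ e * (κ2⁻¹) ^ s) *
              (if late i then 0 else ∫⁻ ω, φ ω * (Br i).indicator (fun _ => (1 : ℝ≥0∞)) ω ∂P)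
            + ((2 * κ2) ^ e * (κ2⁻¹) ^ (s+1)) *
              (if late i then ∫⁻ ω, φ ω * (Br i).indicator (fun _ => (1 : ℝ≥0∞)) ω ∂P else 0) := by
        intro i
        split_ifs <;> simp
      rw [Finset.sum_congr rfl fun i _ => e4 i, Finset.sum_add_distrib, ← Finset.mul_sum,
        ← Finset.mul_sum]
      calc _ ≤ ((2 * κ2) ^ e * (κ2⁻¹) ^ s) * ∫⁻ ω, φ ω ∂P
            + ((2 * κ2) ^ e * (κ2⁻¹) ^ (s+1)) * (κ2 * ∫⁻ ω, φ ω ∂P) := by
            gcongr
            exact h12 φ hφ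
        _ = ((2 * κ2) ^ e * ((κ2⁻¹) ^ s * 2)) * ∫⁻ ω, φ ω ∂P := by
            have : (κ2⁻¹) ^ (s+1) * κ2 = (κ2⁻¹) ^ s := by
              rw [pow_succ, mul_assoc, ENNReal.inv_mul_cancel hκ0 hκt, mul_one]
            calc _ = ((2 * κ2) ^ e * ((κ2⁻¹) ^ s + (κ2⁻¹) ^ (s+1) * κ2)) * ∫⁻ ω, φ ω ∂P := by ring
              _ = _ := by rw [this]; ring
        _ = ((2 * κ2) ^ (e+1) * (κ2⁻¹) ^ (s+1)) * ∫⁻ ω, φ ω ∂P := by
            have : (2 * κ2) * κ2⁻¹ = 2 := by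
              rw [mul_assoc, ENNReal.mul_inv_cancel hκ0 hκt, mul_one]
            calc _ = ((2 * κ2) ^ e * ((κ2⁻¹) ^ s * ((2 * κ2) * κ2⁻¹))) * ∫⁻ ω, φ ω ∂P := by rw [this]
              _ = _ := by rw [pow_succ, pow_succ]; ring

end Crest.Agent.R154.Sep175
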