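import Mathlib

/-!
Row 154, d = 2 (helper177): SCALE-FREE OCCUPATION BOUND.  Mathlib only.

An adapted process `D k ≥ 0` (distance of the two walkers at level `k`), any filtration `F`.
Hypotheses in the set form `for B in F k`.  (E0): from any state the distance `w 0` is reached within
`H0` levels with conditional probability `≥ e0`.  (E1): from `D k ≥ w i` the distance `w (i+1)` is
reached within `H i` levels, staying `≥ low i` in the meantime, with conditional probability `≥ e`.
(E2): from `D k ≥ w s` the process stays `≥ R0` for `T` levels with conditional probability `≥ c`.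
Output `occ`: bound for the expected number of levels `k < N` with `D k < R0`.
-/

set_option autoImplicit false

open MeasureTheory Finset

namespace Crest.Agent.R154.Esc177

variable {Ω : Type*} {m0 : MeasurableSpace Ω}

/-- no visit of `[R, ∞)` during `[k, k + n]`. -/
def Miss (D : ℕ → Ω → ℝ) (R : ℝ) (k n : ℕ) : Set Ω := {ω | ∀ j, j ≤ n → D (k + j) ω < R}

/-- the process stays `≥ R` during `[k, k + n]`. -/
def Stay (D : ℕ → Ω → ℝ) (R : ℝ) (k n : ℕ) : Set Ω := {ω | ∀ j, j ≤ n → R ≤ D (k + j) ω}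

/-- `[R, ∞)` is reached during `[k, k + n]` and the process is `≥ r` up to this level. -/
def Up (D : ℕ → Ω → ℝ) (R r : ℝ) (k n : ℕ) : Set Ω :=
  {ω | ∃ l, l ≤ n ∧ R ≤ D (k + l) ω ∧ ∀ j, j ≤ l → r ≤ D (k + j) ω}

/-- the hypotheses. -/
structure Hyp (P : Measure Ω) (F : ℕ → MeasurableSpace Ω) (D : ℕ → Ω → ℝ) (w low : ℕ → ℝ)
    (H : ℕ → ℕ) (H0 T m s : ℕ) (e0 e c R0 : ℝ) : Prop where
  mono : Monotone F
  le : ∀ k, F k ≤ m0
  meas : ∀ k, Measurable[F k] (D k)
  w_mono : Monotone w
  ms : m ≤ s
  H0_pos : 1 ≤ H0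
  H_pos : ∀ i, 1 ≤ H i
  e0_pos : 0 < e0
  e_pos : 0 < e
  e_le : e ≤ 1
  c_pos : 0 < c
  low_ge : ∀ i, m ≤ i → i < s → R0 ≤ low i
  E0 : ∀ k B, MeasurableSet[F k] B → P.real (B ∩ Miss D (w 0) k H0) ≤ (1 - e0) * P.real B
  E1 : ∀ i, i < s → ∀ k B, MeasurableSet[F k] B → B ⊆ {ω | w i ≤ D k ω} →
    e * P.real B ≤ P.real (B ∩ Up D (w (i + 1)) (low i) k (H i))
  E2 : ∀ k B, MeasurableSet[F k] B → B ⊆ {ω | w s ≤ D k ω} →
    c * P.real B ≤ P.real (B ∩ Stay D R0 k T)

section basic

variable {P : Measure Ω} [IsProbabilityMeasure P] {F : ℕ → MeasurableSpace Ω} {D : ℕ → Ω → ℝ}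

lemma ms_ge (hD : ∀ k, Measurable[F k] (D k)) (R : ℝ) (k : ℕ) :
    MeasurableSet[F k] {ω | R ≤ D k ω} :=
  (hD k) measurableSet_Ici

lemma ms_lt (hD : ∀ k, Measurable[F k] (D k)) (R : ℝ) (k : ℕ) :
    MeasurableSet[F k] {ω | D k ω < R} :=
  (hD k) measurableSet_Iio

lemma ms_miss (hF : Monotone F) (hD : ∀ k, Measurable[F k] (D k)) (R : ℝ) (k n : ℕ) :
    MeasurableSet[F (k + n)] (Miss D R k n) := by
  have : Miss D R k n = ⋂ j ∈ Finset.range (n + 1), {ω | D (k + j) ω < R} := by
    ext ω
    simp [Miss]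
  rw [this]
  refine Finset.measurableSet_biInter _ fun j hj => ?_
  exact hF (by have := Finset.mem_range.1 hj; omega : k + j ≤ k + n) _ (ms_lt hD R (k + j))

lemma ms_stay (hF : Monotone F) (hD : ∀ k, Measurable[F k] (D k)) (R : ℝ) (k n : ℕ) :
    MeasurableSet[F (k + n)] (Stay D R k n) := by
  have : Stay D R k n = ⋂ j ∈ Finset.range (n + 1), {ω | R ≤ D (k + j) ω} := by
    ext ω
    simp [Stay]
  rw [this]
  refine Finset.measurableSet_biInter _ fun j hj => ?_
  exact hF (by have := Finset.mem_range.1 hj; omega : k + j ≤ k + n) _ (ms_ge hD R (k + j))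

/-- restart at the first index `l ≤ n` with `ω ∈ G l`. -/
lemma restart (hF : Monotone F) (hle : ∀ k, F k ≤ m0) {k n : ℕ} {B Z : Set Ω} {G : ℕ → Set Ω}
    {a : ℝ} (hB : MeasurableSet[F k] B) (hG : ∀ l, MeasurableSet[F (k + l)] (G l))
    (ha : ∀ l, l ≤ n → ∀ B', MeasurableSet[F (k + l)] B' → B' ⊆ B ∩ G l →
      a * P.real B' ≤ P.real (B' ∩ Z)) :
    a * P.real (B ∩ {ω | ∃ l, l ≤ n ∧ ω ∈ G l}) ≤ P.real (B ∩ Z) := by
  classical
  -- first index
  set K : ℕ → Set Ω := fun l => (B ∩ G l) \ ⋃ l' ∈ Finset.range l, G l' with hK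
  have hKm : ∀ l, MeasurableSet[F (k + l)] (K l) := by
    intro l
    refine MeasurableSet.diff (MeasurableSet.inter (hF (by omega) _ hB) (hG l)) ?_
    refine Finset.measurableSet_biUnion _ fun l' hl' => ?_
    exact hF (by have := Finset.mem_range.1 hl'; omega) _ (hG l')
  have hdis : ∀ l l', l < l' → Disjoint (K l) (K l') := by
    intro l l' h
    rw [Set.disjoint_left]
    intro ω h1 h2
    exact h2.2 (Set.mem_biUnion (Finset.mem_coe.2 (Finset.mem_range.2 h)) h1.1.2)
  have hpd : Set.PairwiseDisjoint (↑(Finset.range (n + 1))) K := by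
    intro l _ l' _ hne
    rcases lt_or_gt_of_ne hne with h | h
    · exact hdis l l' h
    · exact (hdis l' l h).symm
  have hunion : B ∩ {ω | ∃ l, l ≤ n ∧ ω ∈ G l} = ⋃ l ∈ Finset.range (n + 1), K l := by
    ext ω
    constructor
    · rintro ⟨hb, l, hl, hg⟩
      have hex : ∃ l, ω ∈ G l := ⟨l, hg⟩
      have hmin := Nat.find_spec hex
      have hle' : Nat.find hex ≤ l := Nat.find_min' hex hg
      refine Set.mem_biUnion (Finset.mem_coe.2 (Finset.mem_range.2
        (by omega : Nat.find hex < n + 1))) ⟨⟨hb, hmin⟩, ?_⟩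
      intro hmem
      rw [Set.mem_iUnion₂] at hmem
      obtain ⟨l', hl', hg'⟩ := hmem
      exact Nat.find_min hex (Finset.mem_range.1 hl') hg'
    · intro h
      rw [Set.mem_iUnion₂] at h
      obtain ⟨l, hl, hω⟩ := h
      exact ⟨hω.1.1, l, Nat.lt_succ_iff.1 (Finset.mem_range.1 hl), hω.1.2⟩
  have hm0 : ∀ l, MeasurableSet (K l) := fun l => hle _ _ (hKm l)
  rw [hunion, measureReal_biUnion_finset hpd fun l _ => hm0 l, Finset.mul_sum]
  calc ∑ l ∈ Finset.range (n + 1), a * P.real (K l)
      ≤ ∑ l ∈ Finset.range (n + 1), P.real (Z ∩ K l) := by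
        refine Finset.sum_le_sum fun l hl => ?_
        rw [Set.inter_comm]
        exact ha l (Nat.lt_succ_iff.1 (Finset.mem_range.1 hl)) (K l) (hKm l) Set.sdiff_subset
    _ ≤ P.real (B ∩ Z) := by
        have h1 : ∑ l ∈ Finset.range (n + 1), P.real (Z ∩ K l)
            = P.real (⋃ l ∈ Finset.range (n + 1), Z ∩ K l) := by
          have hac : ∀ S ⊆ Finset.range (n + 1), ∑ l ∈ S, P.real (Z ∩ K l)
              = P.real (⋃ l ∈ S, Z ∩ K l) := by
            intro S
            induction S using Finset.induction_on with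
            | empty => intro _; simp
            | insert b S hb ih =>
              intro hS
              rw [Finset.sum_insert hb, ih ((Finset.subset_insert _ _).trans hS),
                Finset.set_biUnion_insert]
              have hsplit := measureReal_inter_add_sdiff (μ := P)
                (s := (Z ∩ K b) ∪ ⋃ l ∈ S, Z ∩ K l) (hm0 b)
              rw [← hsplit]
              congr 1
              · congr 1
                ext ω
                constructor
                · intro h; exact ⟨Or.inl h, h.2⟩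
                · rintro ⟨h | h, h'⟩
                  · exact h
                  · rw [Set.mem_iUnion₂] at h
                    obtain ⟨l, hl, hl2⟩ := h
                    exact ⟨hl2.1, h'⟩
              · congr 1
                ext ω
                constructor
                · intro h
                  refine ⟨Or.inr h, ?_⟩
                  rw [Set.mem_iUnion₂] at h
                  obtain ⟨l, hl, hl2⟩ := h
                  have hne : l ≠ b := fun h => hb (h ▸ hl)
                  intro hb2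
                  rcases lt_or_gt_of_ne hne with h | h
                  · exact Set.disjoint_left.1 (hdis l b h) hl2.2 hb2
                  · exact Set.disjoint_left.1 (hdis b l h) hb2 hl2.2
                · rintro ⟨h | h, h'⟩
                  · exact absurd h.2 h'
                  · exact h
          exact hac _ le_rfl
        rw [h1]
        refine measureReal_mono ?_ (measure_ne_top _ _)
        intro ω h
        rw [Set.mem_iUnion₂] at h
        obtain ⟨l, _, h2⟩ := h
        exact ⟨h2.2.1.1, h2.1⟩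

/-- expected number of levels (below `M`) before `[R, ∞)` is reached, started at level `k` on `B`. -/
noncomputable def S (P : Measure Ω) (D : ℕ → Ω → ℝ) (R : ℝ) (k M : ℕ) (B : Set Ω) : ℝ :=
  ∑ n ∈ Finset.range M, P.real (B ∩ Miss D R k n)

lemma miss_anti {R : ℝ} {k n n' : ℕ} (h : n ≤ n') : Miss D R k n' ⊆ Miss D R k n :=
  fun _ hω j hj => hω j (hj.trans h)

lemma S_nonneg (R : ℝ) (k M : ℕ) (B : Set Ω) : 0 ≤ S P D R k M B :=
  Finset.sum_nonneg fun _ _ => measureReal_nonneg

lemma S_split (R : ℝ) (k M H : ℕ) (B : Set Ω) (hM : H ≤ M) :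
    S P D R k M B ≤ H * P.real B + S P D R (k + H) (M - H) (B ∩ Miss D R k H) := by
  have hsum : S P D R k M B = ∑ n ∈ Finset.range H, P.real (B ∩ Miss D R k n)
      + ∑ n ∈ Finset.range (M - H), P.real (B ∩ Miss D R k (H + n)) := by
    rw [S, ← Finset.sum_range_add_sum_Ico _ hM, Finset.sum_Ico_eq_sum_range]
  rw [hsum]
  refine add_le_add ?_ ?_
  · calc ∑ n ∈ Finset.range H, P.real (B ∩ Miss D R k n)
        ≤ ∑ _n ∈ Finset.range H, P.real B :=
          Finset.sum_le_sum fun n _ => measureReal_mono Set.inter_subset_left (measure_ne_top _ _)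
      _ = H * P.real B := by simp
  · refine Finset.sum_le_sum fun n _ => measureReal_mono ?_ (measure_ne_top _ _)
    rintro ω ⟨hb, hm⟩
    refine ⟨⟨hb, miss_anti (Nat.le_add_right H n) hm⟩, fun j hj => ?_⟩
    have := hm (H + j) (by omega)
    rwa [← add_assoc] at this

lemma S_base (hF : Monotone F) (hD : ∀ k, Measurable[F k] (D k)) {R e0 g : ℝ} {H0 : ℕ}
    (h0 : 1 ≤ H0) (hg0 : 0 ≤ g) (hg : (H0 : ℝ) ≤ e0 * g)
    (E : ∀ k B, MeasurableSet[F k] B → P.real (B ∩ Miss D R k H0) ≤ (1 - e0) * P.real B) :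
    ∀ M k B, MeasurableSet[F k] B → S P D R k M B ≤ g * P.real B := by
  intro M
  induction M using Nat.strong_induction_on with
  | _ M ih =>
    intro k B hB
    have hPB : (0 : ℝ) ≤ P.real B := measureReal_nonneg
    rcases Nat.lt_or_ge M H0 with hM | hM
    · -- compare with the sum up to `H0`
      have h1 : S P D R k M B ≤ ∑ n ∈ Finset.range M, P.real B :=
        Finset.sum_le_sum fun n _ => measureReal_mono Set.inter_subset_left (measure_ne_top _ _)
      have h2 : ∑ _n ∈ Finset.range M, P.real B = M * P.real B := by simp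
      have he : e0 * P.real B ≤ P.real B := by
        have := E k B hB
        have h3 : (0 : ℝ) ≤ P.real (B ∩ Miss D R k H0) := measureReal_nonneg
        nlinarith
      have hMH : (M : ℝ) ≤ H0 := by exact_mod_cast hM.le
      nlinarith [mul_le_mul_of_nonneg_right hMH hPB, mul_le_mul_of_nonneg_right hg hPB,
        mul_le_mul_of_nonneg_left he hg0]
    · have hB' : MeasurableSet[F (k + H0)] (B ∩ Miss D R k H0) :=
        MeasurableSet.inter (hF (by omega) _ hB) (ms_miss hF hD R k H0)
      have h1 := S_split (P := P) (D := D) R k M H0 B hM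
      have h2 := ih (M - H0) (by omega) (k + H0) _ hB'
      have h3 := E k B hB
      have h4 : g * P.real (B ∩ Miss D R k H0) ≤ g * ((1 - e0) * P.real B) :=
        mul_le_mul_of_nonneg_left h3 hg0
      nlinarith [mul_le_mul_of_nonneg_right hg hPB]

lemma S_step (hF : Monotone F) (hle : ∀ k, F k ≤ m0) (hD : ∀ k, Measurable[F k] (D k))
    {R R' e g c : ℝ} {H : ℕ} (hH : 1 ≤ H) (hc : 0 ≤ c) (hg0 : 0 ≤ g)
    (hcc : H + (1 - e) * (g + c) ≤ c)
    (hS : ∀ M k B, MeasurableSet[F k] B → S P D R k M B ≤ g * P.real B)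
    (E : ∀ k B, MeasurableSet[F k] B → B ⊆ {ω | R ≤ D k ω} →
      P.real (B ∩ Miss D R' k H) ≤ (1 - e) * P.real B) :
    ∀ M k B, MeasurableSet[F k] B → S P D R' k M B ≤ S P D R k M B + c * P.real B := by
  intro M
  induction M using Nat.strong_induction_on with
  | _ M ih =>
    intro k B hB
    rcases Nat.eq_zero_or_pos M with rfl | hMpos
    · have : S P D R' k 0 B = 0 := by simp [S]
      have h2 : S P D R k 0 B = 0 := by simp [S]
      rw [this, h2]
      have : 0 ≤ P.real B := measureReal_nonneg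
      positivity
    obtain ⟨M, rfl⟩ : ∃ M', M = M' + 1 := ⟨M - 1, by omega⟩
    set A : Set Ω := {ω | R ≤ D k ω} with hA
    have hAm : MeasurableSet[F k] A := ms_ge hD R k
    have hA0 : MeasurableSet A := hle k _ hAm
    have hadd : ∀ X : Set Ω, P.real (B ∩ X) = P.real ((B ∩ A) ∩ X) + P.real ((B \ A) ∩ X) := by
      intro X
      rw [← measureReal_inter_add_sdiff (μ := P) (s := B ∩ X) hA0]
      congr 2
      · ext ω; simp only [Set.mem_inter_iff]; tauto
      · ext ω; simp only [Set.mem_inter_iff, Set.mem_sdiff]; tauto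
    have hSadd : ∀ (R : ℝ) (M : ℕ), S P D R k M B = S P D R k M (B ∩ A) + S P D R k M (B \ A) := by
      intro R M
      simp only [S, ← Finset.sum_add_distrib]
      exact Finset.sum_congr rfl fun n _ => hadd _
    have hPadd : P.real B = P.real (B ∩ A) + P.real (B \ A) := by
      have := hadd Set.univ
      simpa using this
    have hBp : MeasurableSet[F k] (B ∩ A) := MeasurableSet.inter hB hAm
    have hBm : MeasurableSet[F k] (B \ A) := MeasurableSet.diff hB hAm
    -- the part above
    have hplus : S P D R' k (M + 1) (B ∩ A) ≤ c * P.real (B ∩ A) := by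
      have hPp : (0 : ℝ) ≤ P.real (B ∩ A) := measureReal_nonneg
      have hE := E k (B ∩ A) hBp Set.inter_subset_right
      rcases Nat.lt_or_ge (M + 1) H with hM | hM
      · have h1 : S P D R' k (M + 1) (B ∩ A) ≤ ∑ n ∈ Finset.range (M + 1), P.real (B ∩ A) :=
          Finset.sum_le_sum fun n _ => measureReal_mono Set.inter_subset_left (measure_ne_top _ _)
        have h2 : ∑ _n ∈ Finset.range (M + 1), P.real (B ∩ A) = ((M + 1 : ℕ) : ℝ) * P.real (B ∩ A) := by
          simp
        have hMH : ((M + 1 : ℕ) : ℝ) ≤ H := by exact_mod_cast hM.le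
        have h0 : (0 : ℝ) ≤ P.real ((B ∩ A) ∩ Miss D R' k H) := measureReal_nonneg
        have h5 : 0 ≤ (1 - e) * P.real (B ∩ A) := h0.trans hE
        have h6 : 0 ≤ ((1 - e) * (g + c)) * P.real (B ∩ A) := by
          have : 0 ≤ (g + c) * ((1 - e) * P.real (B ∩ A)) := mul_nonneg (by linarith) h5
          linarith [this, (by ring : (g + c) * ((1 - e) * P.real (B ∩ A))
            = ((1 - e) * (g + c)) * P.real (B ∩ A))]
        nlinarith [mul_le_mul_of_nonneg_right hMH hPp, mul_le_mul_of_nonneg_right hcc hPp]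
      · have hB' : MeasurableSet[F (k + H)] ((B ∩ A) ∩ Miss D R' k H) :=
          MeasurableSet.inter (hF (by omega) _ hBp) (ms_miss hF hD R' k H)
        have h1 := S_split (P := P) (D := D) R' k (M + 1) H (B ∩ A) hM
        have h2 := ih (M + 1 - H) (by omega) (k + H) _ hB'
        have h3 := hS (M + 1 - H) (k + H) _ hB'
        have h4 : (g + c) * P.real ((B ∩ A) ∩ Miss D R' k H)
            ≤ (g + c) * ((1 - e) * P.real (B ∩ A)) :=
          mul_le_mul_of_nonneg_left hE (by linarith)
        nlinarith [mul_le_mul_of_nonneg_right hcc hPp]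
    -- the part below
    have hminus : S P D R' k (M + 1) (B \ A) ≤ S P D R k (M + 1) (B \ A) + c * P.real (B \ A) := by
      have hlt : ∀ ω ∈ B \ A, D k ω < R := fun ω hω => not_le.1 hω.2
      have h1 : S P D R' k (M + 1) (B \ A) ≤ P.real (B \ A) + S P D R' (k + 1) M (B \ A) := by
        rw [S, Finset.sum_range_succ']
        rw [add_comm]
        refine add_le_add (measureReal_mono Set.inter_subset_left (measure_ne_top _ _)) ?_
        refine Finset.sum_le_sum fun n _ => measureReal_mono ?_ (measure_ne_top _ _)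
        rintro ω ⟨hb, hm⟩
        refine ⟨hb, fun j hj => ?_⟩
        have := hm (j + 1) (by omega)
        rwa [show k + (j + 1) = k + 1 + j by omega] at this
      have h2 : S P D R k (M + 1) (B \ A) = P.real (B \ A) + S P D R (k + 1) M (B \ A) := by
        rw [S, Finset.sum_range_succ', add_comm]
        congr 1
        · congr 1
          ext ω
          constructor
          · exact fun h => h.1
          · intro h
            refine ⟨h, fun j hj => ?_⟩
            obtain rfl : j = 0 := by omega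
            exact hlt ω h
        · refine Finset.sum_congr rfl fun n _ => ?_
          congr 1
          ext ω
          constructor
          · rintro ⟨hb, hm⟩
            refine ⟨hb, fun j hj => ?_⟩
            have := hm (j + 1) (by omega)
            rwa [show k + (j + 1) = k + 1 + j by omega] at this
          · rintro ⟨hb, hm⟩
            refine ⟨hb, fun j hj => ?_⟩
            rcases Nat.eq_zero_or_pos j with rfl | hj0
            · exact hlt ω hb
            · have := hm (j - 1) (by omega)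
              rwa [show k + 1 + (j - 1) = k + j by omega] at this
      have h3 := ih M (by omega) (k + 1) (B \ A) (hF (by omega) _ hBm)
      linarith
    have h5 := hSadd R' (M + 1)
    have h6 := hSadd R (M + 1)
    have h7 : 0 ≤ S P D R k (M + 1) (B ∩ A) := S_nonneg _ _ _ _
    rw [h5, h6, hPadd]
    nlinarith

end basic

section main

variable {P : Measure Ω} [IsProbabilityMeasure P] {F : ℕ → MeasurableSpace Ω} {D : ℕ → Ω → ℝ}
  {w low : ℕ → ℝ} {H : ℕ → ℕ} {H0 T m s : ℕ} {e0 e c R0 : ℝ}

lemma compl_miss {R : ℝ} {k n : ℕ} {B : Set Ω} :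
    B ∩ {ω | ∃ l, l ≤ n ∧ ω ∈ {ω | R ≤ D (k + l) ω}} = B \ Miss D R k n := by
  ext ω
  simp only [Miss, Set.mem_inter_iff, Set.mem_sdiff, Set.mem_ofPred_eq, not_forall, not_lt]
  constructor
  · rintro ⟨h, l, h1, h2⟩; exact ⟨h, l, h1, h2⟩
  · rintro ⟨h, l, h1, h2⟩; exact ⟨h, l, h1, h2⟩

/-- expected number of levels before the distance `w i`, `i ≤ m`. -/
lemma hit_bound (h : Hyp P F D w low H H0 T m s e0 e c R0) {g : ℕ → ℝ} (g0 : ∀ i, 0 ≤ g i)
    (hg0 : (H0 : ℝ) ≤ e0 * g 0) (hg : ∀ i, i < m → g i + H i ≤ e * g (i + 1)) :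
    ∀ i, i ≤ m → ∀ M k B, MeasurableSet[F k] B → S P D (w i) k M B ≤ g i * P.real B := by
  intro i
  induction i with
  | zero => exact fun _ => S_base h.mono h.meas h.H0_pos (g0 0) hg0 h.E0
  | succ i ih =>
    intro hi M k B hB
    have him : i < m := hi
    have hgi := hg i him
    have hHi : (0 : ℝ) ≤ H i := Nat.cast_nonneg _
    have hc : 0 ≤ g (i + 1) - g i := by
      have : e * g (i + 1) ≤ 1 * g (i + 1) := mul_le_mul_of_nonneg_right h.e_le (g0 _)
      linarith
    have hE : ∀ k B, MeasurableSet[F k] B → B ⊆ {ω | w i ≤ D k ω} →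
        P.real (B ∩ Miss D (w (i + 1)) k (H i)) ≤ (1 - e) * P.real B := by
      intro k B hB hsub
      have h1 := h.E1 i (him.trans_le h.ms) k B hB hsub
      have hBm := h.le k _ hB
      have h2 : P.real (B ∩ Up D (w (i + 1)) (low i) k (H i))
          ≤ P.real (B \ Miss D (w (i + 1)) k (H i)) := by
        refine measureReal_mono ?_ (measure_ne_top _ _)
        rintro ω ⟨hb, l, hl, hR, _⟩
        exact ⟨hb, fun hm => absurd (hm l hl) (not_lt.2 hR)⟩
      have h3 := measureReal_inter_add_sdiff (μ := P) (s := B)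
        (h.le _ _ (ms_miss h.mono h.meas (w (i + 1)) k (H i)))
      linarith
    have := S_step (P := P) h.mono h.le h.meas (R := w i) (R' := w (i + 1)) (e := e) (g := g i)
      (c := g (i + 1) - g i) (H := H i) (h.H_pos i) hc (g0 i) (by linarith) (ih him.le) hE M k B hB
    have h2 := ih him.le M k B hB
    nlinarith [this, h2]

lemma reach_half (h : Hyp P F D w low H H0 T m s e0 e c R0) {g : ℕ → ℝ} (g0 : ∀ i, 0 ≤ g i)
    (hg0 : (H0 : ℝ) ≤ e0 * g 0) (hg : ∀ i, i < m → g i + H i ≤ e * g (i + 1)) {T1 : ℕ}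
    (hT : 1 ≤ T1) (hT1 : 2 * g m ≤ T1) {k : ℕ} {B : Set Ω} (hB : MeasurableSet[F k] B) :
    P.real (B ∩ Miss D (w m) k T1) ≤ P.real B / 2 := by
  have h1 := hit_bound h g0 hg0 hg m le_rfl T1 k B hB
  have h2 : (T1 : ℝ) * P.real (B ∩ Miss D (w m) k T1) ≤ S P D (w m) k T1 B := by
    calc (T1 : ℝ) * P.real (B ∩ Miss D (w m) k T1)
        = ∑ _n ∈ Finset.range T1, P.real (B ∩ Miss D (w m) k T1) := by simp
      _ ≤ _ := Finset.sum_le_sum fun n hn => measureReal_mono
          (Set.inter_subset_inter_right _ (miss_anti (Finset.mem_range.1 hn).le))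
          (measure_ne_top _ _)
  have hT' : (1 : ℝ) ≤ T1 := by exact_mod_cast hT
  have hPB : (0 : ℝ) ≤ P.real B := measureReal_nonneg
  have h3 : (T1 : ℝ) * P.real (B ∩ Miss D (w m) k T1) ≤ T1 * (P.real B / 2) := by
    nlinarith [mul_le_mul_of_nonneg_right hT1 hPB]
  exact le_of_mul_le_mul_left h3 (by linarith)

lemma stay_chain (h : Hyp P F D w low H H0 T m s e0 e c R0) :
    ∀ d i, i + d = s → m ≤ i → ∀ k B, MeasurableSet[F k] B → B ⊆ {ω | w i ≤ D k ω} →
      e ^ d * c * P.real B ≤ P.real (B ∩ Stay D R0 k T) := by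
  intro d
  induction d with
  | zero =>
    intro i hi _ k B hB hsub
    obtain rfl : i = s := by omega
    simpa using h.E2 k B hB hsub
  | succ d ih =>
    intro i hi hmi k B hB hsub
    have his : i < s := by omega
    have h1 := h.E1 i his k B hB hsub
    set G : ℕ → Set Ω := fun l => {ω | w (i + 1) ≤ D (k + l) ω ∧ ∀ j, j ≤ l → low i ≤ D (k + j) ω}
      with hG
    have hGm : ∀ l, MeasurableSet[F (k + l)] (G l) := by
      intro l
      have : G l = {ω | w (i + 1) ≤ D (k + l) ω} ∩ Stay D (low i) k l := by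
        ext ω; rfl
      rw [this]
      exact MeasurableSet.inter (ms_ge h.meas _ _) (ms_stay h.mono h.meas _ _ _)
    have hup : Up D (w (i + 1)) (low i) k (H i) = {ω | ∃ l, l ≤ H i ∧ ω ∈ G l} := by
      ext ω; rfl
    have h2 := restart (P := P) h.mono h.le (k := k) (n := H i) (B := B) (Z := Stay D R0 k T)
      (G := G) (a := e ^ d * c) hB hGm (by
        intro l _ B' hB' hsub'
        have h3 := ih (i + 1) (by omega) (by omega) (k + l) B' hB'
          (fun ω hω => (hsub' hω).2.1)
        refine h3.trans (measureReal_mono ?_ (measure_ne_top _ _))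
        rintro ω ⟨hb, hst⟩
        refine ⟨hb, fun j hj => ?_⟩
        rcases Nat.le_total j l with hjl | hjl
        · exact (h.low_ge i hmi his).trans ((hsub' hb).2.2 j hjl)
        · have := hst (j - l) (by omega)
          rwa [show k + l + (j - l) = k + j by omega] at this)
    rw [← hup] at h2
    have hpos : 0 ≤ e ^ d * c := mul_nonneg (pow_nonneg h.e_pos.le _) h.c_pos.le
    calc e ^ (d + 1) * c * P.real B = e ^ d * c * (e * P.real B) := by ring
      _ ≤ e ^ d * c * P.real (B ∩ Up D (w (i + 1)) (low i) k (H i)) :=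
          mul_le_mul_of_nonneg_left h1 hpos
      _ ≤ _ := h2

/-- a long stay `≥ R0` of `T` levels starts within `T1` levels. -/
def Esc (D : ℕ → Ω → ℝ) (R0 : ℝ) (T1 T k : ℕ) : Set Ω :=
  {ω | ∃ l, l ≤ T1 ∧ ∀ j, j ≤ T → R0 ≤ D (k + l + j) ω}

lemma esc (h : Hyp P F D w low H H0 T m s e0 e c R0) {g : ℕ → ℝ} (g0 : ∀ i, 0 ≤ g i)
    (hg0 : (H0 : ℝ) ≤ e0 * g 0) (hg : ∀ i, i < m → g i + H i ≤ e * g (i + 1)) {T1 : ℕ}
    (hT : 1 ≤ T1) (hT1 : 2 * g m ≤ T1) {k : ℕ} {B : Set Ω} (hB : MeasurableSet[F k] B) :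
    e ^ (s - m) * c / 2 * P.real B ≤ P.real (B ∩ Esc D R0 T1 T k) := by
  have h1 := reach_half h g0 hg0 hg hT hT1 hB
  have h2 := restart (P := P) h.mono h.le (k := k) (n := T1) (B := B) (Z := Esc D R0 T1 T k)
    (G := fun l => {ω | w m ≤ D (k + l) ω}) (a := e ^ (s - m) * c) hB
    (fun l => ms_ge h.meas _ _) (by
      intro l hl B' hB' hsub'
      have h3 := stay_chain h (s - m) m (by have := h.ms; omega) le_rfl (k + l) B' hB'
        (fun ω hω => (hsub' hω).2)
      refine h3.trans (measureReal_mono ?_ (measure_ne_top _ _))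
      rintro ω ⟨hb, hst⟩
      exact ⟨hb, l, hl, hst⟩)
  rw [compl_miss] at h2
  have h3 := measureReal_inter_add_sdiff (μ := P) (s := B)
    (h.le _ _ (ms_miss h.mono h.meas (w m) k T1))
  have hpos : 0 ≤ e ^ (s - m) * c := mul_nonneg (pow_nonneg h.e_pos.le _) h.c_pos.le
  have h4 : P.real B / 2 ≤ P.real (B \ Miss D (w m) k T1) := by linarith
  have h5 := mul_le_mul_of_nonneg_left h4 hpos
  calc e ^ (s - m) * c / 2 * P.real B = e ^ (s - m) * c * (P.real B / 2) := by ring
    _ ≤ _ := h5
    _ ≤ _ := h2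

end main

/-- deterministic count of the near levels followed by a long stay. -/
lemma count (f : ℕ → ℝ) (R0 : ℝ) (T1 T N : ℕ) [DecidablePred fun k => f k < R0 ∧ ∃ l, l ≤ T1 ∧
    ∀ j, j ≤ T → R0 ≤ f (k + l + j)] :
    ((Finset.range N).filter fun k => f k < R0 ∧ ∃ l, l ≤ T1 ∧
      ∀ j, j ≤ T → R0 ≤ f (k + l + j)).card ≤ T1 * (N / (T + 1) + 1) := by
  classical
  set A := (Finset.range N).filter fun k => f k < R0 ∧ ∃ l, l ≤ T1 ∧
      ∀ j, j ≤ T → R0 ≤ f (k + l + j) with hA
  have h1 : A.card ≤ T1 * (A.image fun k => k / (T + 1)).card := by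
    refine Finset.card_le_mul_card_image A T1 fun q _ => ?_
    set Y := A.filter fun k => k / (T + 1) = q with hY
    rcases Y.eq_empty_or_nonempty with h0 | hne
    · rw [h0]; simp
    have hk0 := Y.min'_mem hne
    set k0 := Y.min' hne with hk0def
    have hk0A := (Finset.mem_filter.1 (Finset.mem_filter.1 hk0).1).2
    obtain ⟨_, l0, hl0, hst⟩ := hk0A
    have hsub : Y ⊆ Finset.Ico k0 (k0 + l0) := by
      intro k hk
      have hk1 : k0 ≤ k := Y.min'_le k hk
      have hkA := (Finset.mem_filter.1 (Finset.mem_filter.1 hk).1).2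
      have e1 : k / (T + 1) = q := (Finset.mem_filter.1 hk).2
      have e2 : k0 / (T + 1) = q := (Finset.mem_filter.1 hk0).2
      have hk2 : k < (q + 1) * (T + 1) := by
        rw [← e1]
        have := Nat.lt_div_mul_add (a := k) (b := T + 1) (Nat.succ_pos T)
        nlinarith
      have hk3 : q * (T + 1) ≤ k0 := by
        rw [← e2]; exact Nat.div_mul_le_self k0 (T + 1)
      have hk4 : k ≤ k0 + T := by nlinarith
      rw [Finset.mem_Ico]
      refine ⟨hk1, ?_⟩
      by_contra hcon
      push Not at hcon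
      have := hst (k - k0 - l0) (by omega)
      rw [show k0 + l0 + (k - k0 - l0) = k by omega] at this
      exact absurd hkA.1 (not_lt.2 this)
    calc Y.card ≤ (Finset.Ico k0 (k0 + l0)).card := Finset.card_le_card hsub
      _ = l0 := by simp
      _ ≤ T1 := hl0
  refine h1.trans (Nat.mul_le_mul_left _ ?_)
  calc (A.image fun k => k / (T + 1)).card ≤ (Finset.range (N / (T + 1) + 1)).card := by
        refine Finset.card_le_card fun q hq => ?_
        obtain ⟨k, hk, rfl⟩ := Finset.mem_image.1 hq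
        have := Finset.mem_range.1 (Finset.mem_filter.1 hk).1
        exact Finset.mem_range.2 (Nat.lt_succ_of_le (Nat.div_le_div_right this.le))
    _ = _ := by simp

section final

variable {P : Measure Ω} [IsProbabilityMeasure P] {F : ℕ → MeasurableSpace Ω} {D : ℕ → Ω → ℝ}
  {w low : ℕ → ℝ} {H : ℕ → ℕ} {H0 T m s : ℕ} {e0 e c R0 : ℝ}

lemma sum_le_of_count {A : Set Ω} {X : ℕ → Set Ω} {N C : ℕ} (hA : MeasurableSet A)
    (hX : ∀ k, MeasurableSet (X k))
    (hC : ∀ ω ∈ A, ∀ [DecidablePred fun k => ω ∈ X k],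
      ((Finset.range N).filter fun k => ω ∈ X k).card ≤ C) :
    ∑ k ∈ Finset.range N, P.real (A ∩ X k) ≤ C * P.real A := by
  classical
  have h1 : ∀ k, P.real (A ∩ X k) = ∫ ω, (A ∩ X k).indicator (fun _ => (1 : ℝ)) ω ∂P := by
    intro k
    rw [integral_indicator_const _ (hA.inter (hX k))]
    simp
  have h2 : P.real A = ∫ ω, A.indicator (fun _ => (1 : ℝ)) ω ∂P := by
    rw [integral_indicator_const _ hA]
    simp
  have hint : ∀ Y : Set Ω, MeasurableSet Y → Integrable (Y.indicator (fun _ => (1 : ℝ))) P :=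
    fun Y hY => (integrable_const 1).indicator hY
  rw [Finset.sum_congr rfl fun k _ => h1 k, h2, ← integral_finsetSum _ fun k _ =>
    hint _ (hA.inter (hX k)), ← integral_const_mul]
  refine integral_mono (integrable_finsetSum _ fun k _ => hint _ (hA.inter (hX k)))
    ((hint _ hA).const_mul _) fun ω => ?_
  by_cases hω : ω ∈ A
  · have h3 : ∀ k, (A ∩ X k).indicator (fun _ => (1 : ℝ)) ω = if ω ∈ X k then 1 else 0 := by
      intro k
      by_cases hk : ω ∈ X k
      · rw [Set.indicator_of_mem (show ω ∈ A ∩ X k from ⟨hω, hk⟩), if_pos hk]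
      · rw [Set.indicator_of_notMem (fun h => hk h.2), if_neg hk]
    simp only [h3, Set.indicator_of_mem hω, mul_one]
    rw [Finset.sum_boole]
    exact_mod_cast hC ω hω
  · have h3 : ∀ k, (A ∩ X k).indicator (fun _ => (1 : ℝ)) ω = 0 := fun k =>
      Set.indicator_of_notMem (fun h => hω h.1) _
    simp [h3, Set.indicator_of_notMem hω]

/-- **OCCUPATION BOUND.** -/
theorem occ (h : Hyp P F D w low H H0 T m s e0 e c R0) {g : ℕ → ℝ} (g0 : ∀ i, 0 ≤ g i)
    (hg0 : (H0 : ℝ) ≤ e0 * g 0) (hg : ∀ i, i < m → g i + H i ≤ e * g (i + 1)) {T1 : ℕ}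
    (hT : 1 ≤ T1) (hT1 : 2 * g m ≤ T1) (N : ℕ) {A : Set Ω} (hA : MeasurableSet[F 0] A) :
    e ^ (s - m) * c / 2 * ∑ k ∈ Finset.range N, P.real (A ∩ {ω | D k ω < R0})
      ≤ (T1 * (N / (T + 1) + 1) : ℕ) * P.real A := by
  have hA0 : MeasurableSet A := h.le 0 _ hA
  set X : ℕ → Set Ω := fun k => {ω | D k ω < R0} ∩ Esc D R0 T1 T k with hX
  have hEscm : ∀ k, MeasurableSet (Esc D R0 T1 T k) := by
    intro k
    have : Esc D R0 T1 T k = ⋃ l ∈ Finset.range (T1 + 1), Stay D R0 (k + l) T := by
      ext ω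
      simp [Esc, Stay]
    rw [this]
    exact Finset.measurableSet_biUnion _ fun l _ => h.le _ _ (ms_stay h.mono h.meas _ _ _)
  have hXm : ∀ k, MeasurableSet (X k) := fun k =>
    (h.le k _ (ms_lt h.meas _ _)).inter (hEscm k)
  rw [Finset.mul_sum]
  calc ∑ k ∈ Finset.range N, e ^ (s - m) * c / 2 * P.real (A ∩ {ω | D k ω < R0})
      ≤ ∑ k ∈ Finset.range N, P.real (A ∩ X k) := by
        refine Finset.sum_le_sum fun k _ => ?_
        have h1 := esc h g0 hg0 hg hT hT1 (k := k) (B := A ∩ {ω | D k ω < R0})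
          (MeasurableSet.inter (h.mono (Nat.zero_le k) _ hA) (ms_lt h.meas _ _))
        rwa [Set.inter_assoc] at h1
    _ ≤ _ := by
        refine sum_le_of_count hA0 hXm fun ω _ => ?_
        intro _
        classical
        have h2 := count (fun k => D k ω) R0 T1 T N
        convert h2 using 3
        exact Iff.rfl

end final

end Crest.Agent.R154.Esc177
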