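import Crest.Agent.R154.PIndC_546
import Crest.Agent.R154.JObj3_132
import Crest.Agent.R154.Gam_7
import Crest.Agent.R154.Esc_177

/-! Row 154, `d = 2`, leaf D2.8 (helper546), part 4: `(E0)`, `(E1)`, `(E2)` for the distance of two
walkers in the SAME environment, any start pair, any past. -/

set_option autoImplicit false
set_option linter.unusedSectionVars false
set_option linter.deprecated false

namespace Crest.Agent.R154.EscObj546

open MeasureTheory ProbabilityTheory Filter Set Crest.ProbabilityR.RandomEnvironment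
open Crest.Agent.R154.Q561 Crest.Agent.R154.Mk561 Crest.Agent.R154.B6I
open Crest.Agent.R154.Bind263
open Crest.Agent.R154.Flux132 (lev)
open Crest.Agent.R154.KB424 (NS)
open Crest.Agent.R154.B4Inst797 (zh)
open Crest.Agent.R154.PInd546
open Crest.Agent.R154.J132 (JG jw Vj Bj Rj Jk cutk cutW same_level zt_eq hit_iff' pos_start
  one_le_Rj prL jlawOf prod_NS jg_ae probPr probJ measurable_jw law_jw indep_jw)
open scoped ENNReal Topology

variable {d : ℕ} {u : Step d} {κ : ℝ} {Q : Measure (Environment d)} [IsProbabilityMeasure Q]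

/-! ### the dictionary -/

theorem dict {i : Fin d} {φ : Site d →+ ℝ} (hφ : ∀ z, φ z = (z i : ℝ)) (t : SP u)
    {π : PP d} (hπ : π ∈ JG u κ 0) :
    Dict i t π (fun k => Vj φ (jw u κ 0 k π)) (fun k => Bj u φ (jw u κ 0 k π))
      (fun k => Rj u (jw u κ 0 k π)) where
  ns1 := fun n => by
    have := (cutk hπ 0).2.2.1 n (Nat.zero_le _)
    rw [zt_eq]; simpa [J132.Hk] using this
  ns2 := fun n => by
    have := (cutk hπ 0).2.2.2 n (Nat.zero_le _)
    rw [zt_eq]; simpa [J132.Hk] using this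
  R1 := fun k => one_le_Rj hπ k
  cut := fun k => by
    obtain ⟨h1, h2, _, _⟩ := cutk hπ k
    refine ⟨(Jk u κ 0 k π).1, (Jk u κ 0 k π).2, (hit_iff' _ _ _).2 h1, (hit_iff' _ _ _).2 h2, ?_⟩
    have h3 := cutW hπ φ k
    rw [hφ, hφ] at h3
    have e1 : J132.Sk φ u κ 0 k π = ∑ j ∈ Finset.range k, Vj φ (jw u κ 0 j π) := rfl
    rw [e1] at h3
    rw [pos_start t.1.1, pos_start t.1.2]
    simp only [Pi.add_apply, ldf]
    push_cast
    linarith
  lev := fun k n m h1 h2 h3 => by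
    have e : zh u π.1 n = zh u π.2 m := by rw [← zt_eq, ← zt_eq, h3]
    rw [zt_eq] at h1 h2
    have h4 := same_level hπ φ e h1 h2
    rw [hφ, hφ] at h4
    have e1 : J132.Sk φ u κ 0 k π = ∑ j ∈ Finset.range k, Vj φ (jw u κ 0 j π) := rfl
    rw [e1] at h4
    rw [pos_start t.1.1, pos_start t.1.2]
    simp only [Pi.add_apply, ldf]
    push_cast
    refine le_trans (le_of_eq ?_) h4
    congr 1
    ring

/-! ### the law of the real triple -/

/-- `(V, B, R)` of a joint word, real valued -/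
noncomputable def tr3 (u : Step d) (φ : Site d →+ ℝ)
    (w : List (Ren263.Word (Mark d)) × List (Ren263.Word (Mark d))) : ℝ × ℝ × ℝ :=
  (Vj φ w, Bj u φ w, (Rj u w : ℝ))

/-- law of the real triple of a joint block -/
noncomputable def triR (Q : Measure (Environment d)) [IsProbabilityMeasure Q] (κ : ℝ) (u : Step d)
    (φ : Site d →+ ℝ) : Measure (ℝ × ℝ × ℝ) := jlawOf (tr3 u φ) Q κ 0 u

/-- the sequence of triples -/
noncomputable def Zs (u : Step d) (κ : ℝ) (φ : Site d →+ ℝ) (k : ℕ) (π : PP d) : ℝ × ℝ × ℝ :=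
  tr3 u φ (jw u κ 0 k π)

/-- filtration of the triples -/
@[instance_reducible] noncomputable def FZ (u : Step d) (κ : ℝ) (φ : Site d →+ ℝ) (k : ℕ) : MeasurableSpace (PP d) :=
  ⨆ i ∈ Set.Iio k, MeasurableSpace.comap (Zs u κ φ i) inferInstance

theorem sq (F : Frame Q κ 0) (hA : annealedProb Q 0 (escapeEvent (B2d.dirVec u)) ≠ 0)
    (φ : Site d →+ ℝ) : Gam7.Sq (prL Q κ u) (FZ u κ φ) (triR Q κ u φ) (Zs u κ φ) := by
  have := probPr F hA
  have : IsProbabilityMeasure (triR Q κ u φ) := probJ (tr3 u φ) F hA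
  exact Gam7.Sq.of_iIndep (fun k => measurable_jw (tr3 u φ) k) (indep_jw (tr3 u φ) F hA)
    (fun k => law_jw (tr3 u φ) F hA k)

/-! ### the level filtration -/

/-- events decided at level `j` -/
@[instance_reducible] def Fl (u : Step d) (j : ℕ) : MeasurableSpace (PP d) where
  MeasurableSet' B := MeasurableSet B ∧ Dt u j B
  measurableSet_empty := ⟨MeasurableSet.empty, fun _ _ _ _ h => h.elim⟩
  measurableSet_compl B hB := ⟨hB.1.compl, hB.2.compl⟩
  measurableSet_iUnion f hf := ⟨MeasurableSet.iUnion fun i => (hf i).1, by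
    rintro p q h1 h2 hp
    obtain ⟨i, hi⟩ := Set.mem_iUnion.1 hp
    exact Set.mem_iUnion.2 ⟨i, (hf i).2 p q h1 h2 hi⟩⟩

lemma Fl_iff {j : ℕ} {B : Set (PP d)} :
    MeasurableSet[Fl u j] B ↔ MeasurableSet B ∧ Dt u j B := Iff.rfl

lemma Fl_mono : Monotone (Fl (d := d) u) := fun _ _ hij _ hB => ⟨hB.1, hB.2.mono hij⟩

lemma Fl_le (j : ℕ) : Fl (d := d) u j ≤ (inferInstance : MeasurableSpace (PP d)) :=
  fun _ hB => hB.1

lemma meas_al (j : ℕ) : MeasurableSet {p : PP d | Al u j p} :=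
  measurableSet_of_dt (fun _ h => h) (dt_al j)

/-- distance as a real process -/
noncomputable def Dr (i : Fin d) (s : SP u) (k : ℕ) (p : PP d) : ℝ := (Dd i s k p : ℝ)

lemma meas_Dd (i : Fin d) (s : SP u) (j : ℕ) (S : Set ℤ) :
    MeasurableSet {p : PP d | Dd i s j p ∈ S} := by
  have h1 : {p : PP d | Dd i s j p ∈ S}
      = ({p | Al u j p} ∩ {p | Dd i s j p ∈ S}) ∪ ({p | Al u j p}ᶜ ∩ {_p | |ldf i s| ∈ S}) := by
    ext p
    simp only [mem_setOf_eq, mem_union, mem_inter_iff, mem_compl_iff]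
    by_cases h : Al u j p
    · simp [h]
    · have : Dd i s j p = |ldf i s| := by
        unfold Dd tip; rw [dif_neg h]
      simp [h, this]
  rw [h1]
  refine (measurableSet_of_dt (u := u) (j := j) (fun _ h => h.1) ((dt_al j).inter
    (dt_Dd i s j S))).union ((meas_al j).compl.inter ?_)
  exact MeasurableSet.const _

lemma Dr_meas (i : Fin d) (s : SP u) (k : ℕ) : Measurable[Fl u k] (Dr i s k) := by
  intro S _
  have : Dr i s k ⁻¹' S = {p | Dd i s k p ∈ (fun z : ℤ => (z : ℝ)) ⁻¹' S} := rfl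
  rw [this]
  exact ⟨meas_Dd i s k _, dt_Dd i s k _⟩

/-! ### all levels are reached -/

lemma lev_sum (x : Site d) : ∑ i, (x i : ℝ) * B2d.dirVec u i = (lev u x : ℝ) := by
  rw [B2d.sum_mul_dirVec]
  unfold Flux132.lev
  split_ifs <;> simp

theorem alv_ae (F : Frame Q κ 0) (h1 : annealedProb Q 0 (escapeEvent (B2d.dirVec u)) = 1)
    (j : ℕ) : ∀ᵐ M ∂(mkAnn κ Q 0), Alv u j M := by
  have hm := B2d.measurableSet_escapeEvent (B2d.dirVec u)
  have h2 := mkAnn_projection F.ell 0 hm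
  rw [h1] at h2
  have h3 : ∀ᵐ M ∂(mkAnn κ Q 0), M ∈ mpath 0 ⁻¹' escapeEvent (B2d.dirVec u) := by
    rw [← prob_compl_eq_zero_iff (measurable_mpath 0 hm)] at h2
    exact h2
  filter_upwards [h3] with M hM
  have hM' : Tendsto (fun n => ∑ i, ((mpath 0 M n) i : ℝ) * B2d.dirVec u i) atTop atTop := hM
  obtain ⟨n, hn⟩ := (hM'.eventually_ge_atTop (j : ℝ)).exists
  rw [lev_sum] at hn
  have h4 : lev u (mpath 0 M n) = zt u M n := by
    have := lev_pos u (0 : Site d) M n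
    rw [B6I.lev_zero, zero_add] at this
    exact this
  rw [h4] at hn
  have h5 : (j : ℤ) ≤ zt u M n := by exact_mod_cast hn
  obtain ⟨m, _, hm'⟩ := exists_hit h5
  exact ⟨m, hm'⟩

theorem al_ae (F : Frame Q κ 0) (h1 : annealedProb Q 0 (escapeEvent (B2d.dirVec u)) = 1)
    (x y : Site d) (j : ℕ) : ∀ᵐ p ∂(PSm κ Q x y), Al u j p := by
  have hmA : MeasurableSet {M : MPath d | ¬ Alv u j M} := by
    have h2 : {M : MPath d | ¬ Alv u j M}
        = (fun M : MPath d => ((M, M) : PP d)) ⁻¹' {p | Al u j p}ᶜ := by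
      ext M
      simp [Al]
    rw [h2]
    exact (measurable_id.prodMk measurable_id) (meas_al j).compl
  have h2 : mkAnn κ Q 0 {M | ¬ Alv u j M} = 0 := alv_ae F h1 j
  have e1 : PSm κ Q x y {p | p.1 ∈ {M : MPath d | ¬ Alv u j M}} = 0 := by
    rw [PSm_fst κ Q x y hmA, mkAnn_stat F.stat, h2]
  have e2 : PSm κ Q x y {p | p.2 ∈ {M : MPath d | ¬ Alv u j M}} = 0 := by
    rw [PSm_snd κ Q x y hmA, mkAnn_stat F.stat, h2]
  have h3 : ∀ᵐ p ∂(PSm κ Q x y), Alv u j p.1 := by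
    refine measure_mono_null (fun p hp => ?_) e1
    exact hp
  have h4 : ∀ᵐ p ∂(PSm κ Q x y), Alv u j p.2 := by
    refine measure_mono_null (fun p hp => ?_) e2
    exact hp
  filter_upwards [h3, h4] with p a b
  exact ⟨a, b⟩

/-! ### attempts -/

/-- **lower bound for one attempt**, any past -/
theorem attempt' (hR : IsFiniteRangeDependent Q 0) (i : Fin d) (S : ℕ → Set (ℕ → ℤ)) (s : SP u)
    {j : ℕ} (L : ℕ) {B : Set (PP d)} (hBa : ∀ p ∈ B, Al u j p) (hB : Dt u j B)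
    {Bs : Set ℤ} (hBs : ∀ p ∈ B, ldf i (tip j s p) ∈ Bs) {c : ℝ≥0∞}
    (hc : ∀ t : SP u, ldf i t ∈ Bs →
      c ≤ PIm κ Q t.1.1 t.1.2 {q | ((t, q) : Om u) ∈ Suc (GS 0 i S) L}) :
    c * PSm κ Q s.1.1 s.1.2 B ≤ PSm κ Q s.1.1 s.1.2 (B ∩ Ev i s S j L) := by
  refine ((att_GS 0 i S).ge hR s L hBa hB fun p hp => hc _ (hBs p hp)).trans (measure_mono ?_)
  rintro p ⟨hp, l, hl, ⟨hN, _, f, hf, hfk⟩⟩
  refine ⟨hp, l, hl, f, hf, fun k hk => ?_⟩
  rw [hfk k hk]
  have hal := hBa p hp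
  have : Al u k (th u j p) := ⟨(hN.1.left hk).alv, (hN.2.left hk).alv⟩
  exact Dd_shift i s ((Al_shift (s := s) hal).1 this)

/-- independent environments from the law of two natural walkers -/
theorem PI_ge (F : Frame Q κ 0) (hA : annealedProb Q 0 (escapeEvent (B2d.dirVec u)) ≠ 0)
    (x y : Site d) {C E : Set (PP d)} (h : ∀ π ∈ JG u κ 0, π ∈ C → π ∈ E) :
    mkAnn κ Q 0 (NS u) ^ 2 * prL Q κ u C ≤ PIm κ Q x y E := by
  have e1 : prL Q κ u C ≤ prL Q κ u E := by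
    refine measure_mono_ae ?_
    filter_upwards [jg_ae F hA] with π hπ hC
    exact h π hπ hC
  calc mkAnn κ Q 0 (NS u) ^ 2 * prL Q κ u C ≤ mkAnn κ Q 0 (NS u) ^ 2 * prL Q κ u E := by gcongr
    _ = ((mkAnn κ Q x).prod (mkAnn κ Q y)) {π | π.1 ∈ NS u ∧ π.2 ∈ NS u ∧ π ∈ E} :=
        (prod_NS F hA x y E).symm
    _ ≤ _ := measure_mono fun π hπ => hπ.2.2

/-- from `ENNReal` to real, restoring the part of the past which is not alive -/
lemma real_of {P : Measure (PP d)} [IsProbabilityMeasure P] {A B E E' : Set (PP d)}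
    (hA : ∀ᵐ p ∂P, p ∈ A) {c : ℝ} (hc : 0 ≤ c)
    (h : ENNReal.ofReal c * P (B ∩ A) ≤ P ((B ∩ A) ∩ E)) (hE : (B ∩ A) ∩ E ⊆ E') :
    c * P.real B ≤ P.real (B ∩ E') := by
  have e1 : P (B ∩ A) = P B := by
    refine measure_congr ?_
    filter_upwards [hA] with p hp
    exact propext ⟨fun h => h.1, fun h => ⟨h, hp⟩⟩
  rw [e1] at h
  have h2 : ENNReal.ofReal c * P B ≤ P (B ∩ E') :=
    h.trans (measure_mono fun p hp => ⟨hp.1.1, hE hp⟩)
  have h3 := (ENNReal.toReal_le_toReal (ENNReal.mul_ne_top ENNReal.ofReal_ne_top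
    (measure_ne_top _ _)) (measure_ne_top _ _)).2 h2
  rwa [ENNReal.toReal_mul, ENNReal.toReal_ofReal hc] at h3

/-- probability (natural for ever) -/
noncomputable def pn (κ : ℝ) (Q : Measure (Environment d)) (u : Step d) : ℝ :=
  (mkAnn κ Q 0).real (NS u)

lemma pn_nonneg : 0 ≤ pn κ Q u := measureReal_nonneg

lemma pn_pos (F : Frame Q κ 0) (hA : annealedProb Q 0 (escapeEvent (B2d.dirVec u)) ≠ 0) :
    0 < pn κ Q u := by
  unfold pn
  rw [J132.NS_eq]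
  exact ENNReal.toReal_pos (F.hp _ hA) (measure_ne_top _ _)

/-- **(E0), any past.** -/
theorem E0 (F : Frame Q 0 0) (h1 : annealedProb Q 0 (escapeEvent (B2d.dirVec u)) = 1)
    {κ : ℝ} (hκ : 0 < κ) (hell : ∀ᵐ ω ∂Q, ∀ (z : Site d) (e : Step d), κ ≤ (ω z).1 e)
    {i : Fin d} (hi : i ≠ u.1) (W : ℝ) :
    ∃ H0 : ℕ, ∃ e0 : ℝ, 1 ≤ H0 ∧ 0 < e0 ∧ ∀ (s : SP u) (k : ℕ) (B : Set (PP d)),
      MeasurableSet[Fl u k] B → (PSm 0 Q s.1.1 s.1.2).real (B ∩ Esc177.Miss (Dr i s) W k H0)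
        ≤ (1 - e0) * (PSm 0 Q s.1.1 s.1.2).real B := by
  refine ⟨1, κ ^ (2 * (⌈W⌉₊ + 1)), le_rfl, by positivity, fun s k B hB => ?_⟩
  set P := PSm 0 Q s.1.1 s.1.2 with hP
  set n := ⌈W⌉₊ with hn
  have hc := PInd546.E0 hell hi n s (j := k) (B := B ∩ {p | Al u k p}) (fun p hp => hp.2)
    (hB.2.inter (dt_al k))
  rw [← ENNReal.ofReal_pow hκ.le] at hc
  have h2 := real_of (P := P) (A := {p | Al u k p}) (al_ae F h1 _ _ k) (by positivity) hc
    (E' := {p | 2 * (n : ℤ) ≤ Dd i s (k+1) p}) (fun p hp => hp.2.2)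
  have hm : MeasurableSet {p : PP d | 2 * (n : ℤ) ≤ Dd i s (k+1) p} :=
    meas_Dd i s (k+1) {z | 2 * (n : ℤ) ≤ z}
  have h3 : B ∩ Esc177.Miss (Dr i s) W k 1 ⊆ B \ {p | 2 * (n : ℤ) ≤ Dd i s (k+1) p} := by
    rintro p ⟨hp, hpm⟩
    refine ⟨hp, fun h4 => ?_⟩
    have h5 := hpm 1 le_rfl
    have h6 : (2 * (n : ℝ)) ≤ Dr i s (k+1) p := by
      unfold Dr
      have : ((2 * (n : ℤ) : ℤ) : ℝ) ≤ ((Dd i s (k+1) p : ℤ) : ℝ) := Int.cast_le.2 h4
      push_cast at this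
      exact this
    have h7 : W ≤ n := Nat.le_ceil W
    have h8 : (0:ℝ) ≤ n := Nat.cast_nonneg n
    linarith
  have h4 := measureReal_mono (μ := P) h3 (measure_ne_top _ _)
  have h5 := measureReal_inter_add_sdiff (μ := P) (s := B) hm
  linarith

section main

variable {φ : Site d →+ ℝ} {i : Fin d}

/-- **(E1), any past**: `q = p² / 4`. -/
theorem E1 (F : Frame Q κ 0) (h1 : annealedProb Q 0 (escapeEvent (B2d.dirVec u)) = 1)
    (hφ : ∀ z, φ z = (z i : ℝ)) (hμ : Gam7.Law (triR Q κ u φ))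
    (hR : Integrable (fun x : ℝ × ℝ × ℝ => x.2.2) (triR Q κ u φ)) {Λ : ℝ} (hΛ : 1 < Λ) :
    ∃ K w0 : ℝ, 0 < K ∧ 0 < w0 ∧ ∀ w, w0 ≤ w → 0 < Gam7.U (triR Q κ u φ) w ∧
      1 ≤ w ^ 2 / Gam7.U (triR Q κ u φ) w ∧
      ∀ (s : SP u) (k : ℕ) (B : Set (PP d)), MeasurableSet[Fl u k] B →
        B ⊆ {p | w ≤ Dr i s k p} →
        (pn κ Q u ^ 2 / 4 / Λ) * (PSm κ Q s.1.1 s.1.2).real B
          ≤ (PSm κ Q s.1.1 s.1.2).real (B ∩ Esc177.Up (Dr i s) (Λ * w) (w / 4) k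
              ⌊K * (w ^ 2 / Gam7.U (triR Q κ u φ) w)⌋₊) := by
  have hA : annealedProb Q 0 (escapeEvent (B2d.dirVec u)) ≠ 0 := by rw [h1]; exact one_ne_zero
  have := probPr F hA
  have : IsProbabilityMeasure (triR Q κ u φ) := probJ (tr3 u φ) F hA
  have hR0 : ∀ᵐ x ∂(triR Q κ u φ), 0 ≤ x.2.2 := by
    unfold triR
    rw [← law_jw (tr3 u φ) F hA 0]
    have hms : MeasurableSet {x : ℝ × ℝ × ℝ | 0 ≤ x.2.2} :=
      (measurable_snd.comp measurable_snd) measurableSet_Ici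
    rw [ae_map_iff (measurable_jw (tr3 u φ) 0).aemeasurable hms]
    exact Eventually.of_forall fun π => Nat.cast_nonneg _
  obtain ⟨K, w0, hK, hw0, hE⟩ := Gam7.E1 hμ hR hR0 hΛ (show (0:ℝ) < 1/4 by norm_num) le_rfl
  refine ⟨K, w0, hK, hw0, fun w hw => ?_⟩
  obtain ⟨hU, hh, n, hn, hcl⟩ := hE w hw
  refine ⟨hU, hh, fun s k B hB hBD => ?_⟩
  have hwp : 0 < w := hw0.trans_le hw
  have hΛ0 : 0 < Λ := by linarith
  set h := w ^ 2 / Gam7.U (triR Q κ u φ) w with hh'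
  set L := ⌊K * h⌋₊ with hL
  have hsq := sq F hA φ
  have c1 := hcl (prL Q κ u) (FZ u κ φ) (Zs u κ φ) hsq
  have c2 := hcl (prL Q κ u) (FZ u κ φ) _ (hsq.neg hμ)
  set S : ℕ → Set (ℕ → ℤ) := fun l => {f | Λ * w ≤ (f l : ℝ) ∧ ∀ k ≤ l, w / 2 - w / 4 ≤ (f k : ℝ)}
    with hS
  -- the letters give success
  have hsuc : ∀ (σ : ℝ), |σ| = 1 → ∀ (t : SP u), w ≤ σ * ldf i t → ∀ π ∈ JG u κ 0,
      π ∈ Gam7.Climb (fun k ω => (σ * (Zs u κ φ k ω).1, (Zs u κ φ k ω).2)) Λ (1/4) w (K * h) n →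
      ((t, π) : Om u) ∈ Suc (GS 0 i S) L := by
    rintro σ hσ t ht π hπ ⟨⟨m, hmn, hup, hbel⟩, hBs, hRs⟩
    refine (dict hφ t hπ).up hσ ht (b := w / 4) (lo := w / 2) (by positivity) (by linarith)
      (n := n) ⟨m, hmn, ?_, fun k hk => ?_⟩ (fun k hk => ?_) ?_
    · have : Gam7.Sm (fun k ω => (σ * (Zs u κ φ k ω).1)) m π
          = ∑ j ∈ Finset.range m, σ * Vj φ (jw u κ 0 j π) := rfl
      have h3 : (Λ - 1) * w ≤ ∑ j ∈ Finset.range m, σ * Vj φ (jw u κ 0 j π) := hup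
      linarith
    · rcases Nat.lt_or_ge k m with hlt | hge
      · have h3 : -(w/2) < ∑ j ∈ Finset.range k, σ * Vj φ (jw u κ 0 j π) := (hbel k hlt).1
        linarith
      · obtain rfl : k = m := le_antisymm hk hge
        have h3 : (Λ - 1) * w ≤ ∑ j ∈ Finset.range k, σ * Vj φ (jw u κ 0 j π) := hup
        nlinarith
    · have h3 : Bj u φ (jw u κ 0 k π) ≤ 1/4 * w := hBs k hk
      linarith
    · refine Nat.le_floor ?_
      have h3 : ∑ j ∈ Finset.range n, (Rj u (jw u κ 0 j π) : ℝ) ≤ K * h := hRs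
      unfold Hc
      push_cast
      exact h3
  have hc0 : 0 ≤ pn κ Q u ^ 2 / 4 / Λ := by have := pn_nonneg (κ := κ) (Q := Q) (u := u); positivity
  have hpr : ∀ C : Set (PP d), 1 / (4 * Λ) ≤ (prL Q κ u).real C →
      ENNReal.ofReal (pn κ Q u ^ 2 / 4 / Λ) ≤ mkAnn κ Q 0 (NS u) ^ 2 * prL Q κ u C := by
    intro C hC
    rw [show pn κ Q u ^ 2 / 4 / Λ = pn κ Q u ^ 2 * (1 / (4 * Λ)) by field_simp,
      ENNReal.ofReal_mul (by positivity)]
    gcongr
    · rw [ENNReal.ofReal_pow pn_nonneg]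
      unfold pn
      rw [ofReal_measureReal]
    · rw [← ofReal_measureReal (μ := prL Q κ u) (s := C)]
      exact ENNReal.ofReal_le_ofReal hC
  have key := attempt' (κ := κ) F.fin i S s L (B := B ∩ {p | Al u k p}) (j := k) (fun p hp => hp.2)
    (hB.2.inter (dt_al k)) (Bs := {z : ℤ | w ≤ |(z : ℝ)|}) (fun p hp => by
      have := hBD hp.1
      simp only [Dr, Dd, mem_setOf_eq, Int.cast_abs] at this
      exact this)
    (c := ENNReal.ofReal (pn κ Q u ^ 2 / 4 / Λ)) (fun t ht => by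
      have ht' : w ≤ |(ldf i t : ℝ)| := ht
      rcases le_total 0 (ldf i t : ℝ) with h0 | h0
      · rw [abs_of_nonneg h0] at ht'
        refine (hpr _ c1).trans (PI_ge F hA _ _ fun π hπ hC => ?_)
        refine hsuc 1 (by norm_num) t (by rwa [one_mul]) π hπ ?_
        simpa using hC
      · rw [abs_of_nonpos h0] at ht'
        refine (hpr _ c2).trans (PI_ge F hA _ _ fun π hπ hC => ?_)
        refine hsuc (-1) (by norm_num) t (by linarith) π hπ ?_
        simpa using hC)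
  refine real_of (A := {p | Al u k p}) (al_ae F h1 _ _ k) hc0 key ?_
  rintro p ⟨_, l, hl, f, ⟨hf1, hf2⟩, hfk⟩
  refine ⟨l, hl, ?_, fun j hj => ?_⟩
  · rw [hfk l le_rfl] at hf1; exact hf1
  · have := hf2 j hj
    rw [hfk j hj] at this
    unfold Dr
    linarith

/-- **(E2), any past**: `q' = p² / 2`. -/
theorem E2 (F : Frame Q κ 0) (h1 : annealedProb Q 0 (escapeEvent (B2d.dirVec u)) = 1)
    (hφ : ∀ z, φ z = (z i : ℝ)) (hμ : Gam7.Law (triR Q κ u φ)) :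
    ∃ c w0 : ℝ, 0 < c ∧ 0 < w0 ∧ ∀ w, w0 ≤ w → 0 < Gam7.U (triR Q κ u φ) w ∧
      ∀ (s : SP u) (k : ℕ) (B : Set (PP d)), MeasurableSet[Fl u k] B →
        B ⊆ {p | w ≤ Dr i s k p} →
        (pn κ Q u ^ 2 / 2) * (PSm κ Q s.1.1 s.1.2).real B
          ≤ (PSm κ Q s.1.1 s.1.2).real (B ∩ Esc177.Stay (Dr i s) (w / 2) k
              ⌊c * (w ^ 2 / Gam7.U (triR Q κ u φ) w)⌋₊) := by
  have hA : annealedProb Q 0 (escapeEvent (B2d.dirVec u)) ≠ 0 := by rw [h1]; exact one_ne_zero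
  have := probPr F hA
  have : IsProbabilityMeasure (triR Q κ u φ) := probJ (tr3 u φ) F hA
  obtain ⟨c, w0, hc, hw0, hE⟩ := Gam7.E2 hμ (show (0:ℝ) < 1/4 by norm_num) (by norm_num)
    (show (0:ℝ) < 1/2 by norm_num)
  obtain ⟨w1, hw1⟩ := eventually_atTop.1 ((Gam7.h_tendsto hμ).eventually_ge_atTop (2 / c))
  refine ⟨c / 2, max w0 w1, by positivity, lt_max_of_lt_left hw0, fun w hw => ?_⟩
  have hwp : 0 < w := hw0.trans_le ((le_max_left _ _).trans hw)
  obtain ⟨hU, hst⟩ := hE w ((le_max_left _ _).trans hw)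
  have hh := hw1 w ((le_max_right _ _).trans hw)
  refine ⟨hU, fun s k B hB hBD => ?_⟩
  set h := w ^ 2 / Gam7.U (triR Q κ u φ) w with hh'
  set L := ⌊c / 2 * h⌋₊ with hL
  have hch : 2 ≤ c * h := by
    rw [div_le_iff₀ hc] at hh
    linarith
  have hLn : (((L + 1 : ℕ)) : ℝ) ≤ c * h := by
    have := Nat.floor_le (show 0 ≤ c / 2 * h by linarith)
    rw [← hL] at this
    push_cast
    linarith
  have hsq := sq F hA φ
  have c1 := hst (L+1) hLn (prL Q κ u) (FZ u κ φ) (Zs u κ φ) hsq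
  have c2 := hst (L+1) hLn (prL Q κ u) (FZ u κ φ) _ (hsq.neg hμ)
  set S : ℕ → Set (ℕ → ℤ) := fun l => {f | l = L ∧ ∀ k ≤ l, 3 * w / 4 - w / 4 ≤ (f k : ℝ)}
    with hS
  have hsuc : ∀ (σ : ℝ), |σ| = 1 → ∀ (t : SP u), w ≤ σ * ldf i t → ∀ π ∈ JG u κ 0,
      π ∈ Gam7.Stay (fun k ω => (σ * (Zs u κ φ k ω).1, (Zs u κ φ k ω).2)) (1/4) w (L+1) →
      ((t, π) : Om u) ∈ Suc (GS 0 i S) L := by
    rintro σ hσ t ht π hπ ⟨hbel, hBs⟩
    refine (dict hφ t hπ).stay hσ ht (b := w / 4) (lo := 3 * w / 4) (by linarith)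
      (n := L+1) (fun k hk => ?_) (fun k hk => ?_) ?_
    · have h3 : |∑ j ∈ Finset.range k, σ * Vj φ (jw u κ 0 j π)| < 1/4 * w := hbel k hk
      have := (abs_lt.1 h3).1
      linarith
    · have h3 : Bj u φ (jw u κ 0 k π) ≤ 1/4 * w := hBs k hk
      linarith
    · have := le_Hc (Rh := fun k => Rj u (jw u κ 0 k π)) (fun k => one_le_Rj hπ k) (L+1)
      omega
  have hc0 : 0 ≤ pn κ Q u ^ 2 / 2 := by have := pn_nonneg (κ := κ) (Q := Q) (u := u); positivity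
  have hpr : ∀ C : Set (PP d), 1 - 1 / 2 ≤ (prL Q κ u).real C →
      ENNReal.ofReal (pn κ Q u ^ 2 / 2) ≤ mkAnn κ Q 0 (NS u) ^ 2 * prL Q κ u C := by
    intro C hC
    rw [show pn κ Q u ^ 2 / 2 = pn κ Q u ^ 2 * (1 - 1 / 2) by ring,
      ENNReal.ofReal_mul (by positivity)]
    gcongr
    · rw [ENNReal.ofReal_pow pn_nonneg]
      unfold pn
      rw [ofReal_measureReal]
    · rw [← ofReal_measureReal (μ := prL Q κ u) (s := C)]
      exact ENNReal.ofReal_le_ofReal hC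
  have key := attempt' (κ := κ) F.fin i S s L (B := B ∩ {p | Al u k p}) (j := k) (fun p hp => hp.2)
    (hB.2.inter (dt_al k)) (Bs := {z : ℤ | w ≤ |(z : ℝ)|}) (fun p hp => by
      have := hBD hp.1
      simp only [Dr, Dd, mem_setOf_eq, Int.cast_abs] at this
      exact this)
    (c := ENNReal.ofReal (pn κ Q u ^ 2 / 2)) (fun t ht => by
      have ht' : w ≤ |(ldf i t : ℝ)| := ht
      rcases le_total 0 (ldf i t : ℝ) with h0 | h0
      · rw [abs_of_nonneg h0] at ht'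
        refine (hpr _ c1).trans (PI_ge F hA _ _ fun π hπ hC => ?_)
        refine hsuc 1 (by norm_num) t (by rwa [one_mul]) π hπ ?_
        simpa using hC
      · rw [abs_of_nonpos h0] at ht'
        refine (hpr _ c2).trans (PI_ge F hA _ _ fun π hπ hC => ?_)
        refine hsuc (-1) (by norm_num) t (by linarith) π hπ ?_
        simpa using hC)
  refine real_of (A := {p | Al u k p}) (al_ae F h1 _ _ k) hc0 key ?_
  rintro p ⟨_, l, hl, f, ⟨hf1, hf2⟩, hfk⟩ j hj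
  rw [hf1] at hf2 hfk
  have := hf2 j hj
  rw [hfk j hj] at this
  unfold Dr
  linarith

end main

end Crest.Agent.R154.EscObj546
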