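import Crest.Agent.R154.Quenched_850

/-! Row 154, B0c: sequential exploration of one environment by several (stopped) walkers = walkers in
independent environments, as long as every walker is stopped before it uses a row close to the rows
used before. -/

set_option autoImplicit false

namespace Crest.Agent.R154

open MeasureTheory ProbabilityTheory Crest.ProbabilityR.RandomEnvironment
open scoped ENNReal

variable {d : ℕ}

/-- independence at range `R` (including empty sets). -/
def IndepAt (R : ℕ) (Q : Measure (Environment d)) : Prop :=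
  ∀ U V : Set (Site d), Sep R U V → Indep (coordSigmaAlgebra U) (coordSigmaAlgebra V) Q

/-- the sites at sup-distance more than `R` from all points of `V`. -/
def far (R : ℕ) (V : Set (Site d)) : Set (Site d) := {z | ∀ a ∈ V, ∃ i, (R : ℤ) < |a i - z i|}

lemma sep_far {R : ℕ} {V : Set (Site d)} : Sep R V (far R V) := fun a ha _ hz => hz a ha

lemma Sep.mono {R : ℕ} {U V U' V' : Set (Site d)} (h : Sep R U V) (hU : U' ⊆ U) (hV : V' ⊆ V) :
    Sep R U' V' := fun a ha b hb => h a (hU ha) b (hV hb)

lemma Sep.symm {R : ℕ} {U V : Set (Site d)} (h : Sep R U V) : Sep R V U := by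
  intro a ha b hb
  obtain ⟨i, hi⟩ := h b hb a ha
  exact ⟨i, by rwa [abs_sub_comm]⟩

lemma far_anti {R : ℕ} {V W : Set (Site d)} (h : V ⊆ W) : far R W ⊆ far R V :=
  fun _ hz a ha => hz a (h ha)

/-- the coordinate sigma-algebra is monotone. -/
lemma coordSigmaAlgebra_mono {A B : Set (Site d)} (h : A ⊆ B) :
    coordSigmaAlgebra A ≤ coordSigmaAlgebra B := by
  rw [coordSigmaAlgebra, ← measurable_iff_comap_le]
  have : (fun (ω : Environment d) (x : A) => ω x)
      = (fun (η : B → Row d) (x : A) => η ⟨x, h x.2⟩) ∘ (fun (ω : Environment d) (x : B) => ω x) := by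
    funext ω x
    rfl
  rw [this]
  exact (measurable_pi_lambda _ fun _ => measurable_pi_apply _).comp (comap_measurable _)

lemma coordSigmaAlgebra_le (A : Set (Site d)) :
    coordSigmaAlgebra A ≤ (inferInstance : MeasurableSpace (Environment d)) := by
  rw [coordSigmaAlgebra, ← measurable_iff_comap_le]
  exact measurable_pi_lambda _ fun _ => measurable_pi_apply _

lemma measurable_row (A : Set (Site d)) {z : Site d} (hz : z ∈ A) :
    Measurable[coordSigmaAlgebra A] fun ω : Environment d => ω z := by
  have : (fun ω : Environment d => ω z)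
      = (fun (η : A → Row d) => η ⟨z, hz⟩) ∘ (fun (ω : Environment d) (x : A) => ω x) := rfl
  rw [this]
  exact (measurable_pi_apply _).comp (comap_measurable _)

lemma measurable_stepP_coord (A : Set (Site d)) {x : Site d} (hx : x ∈ A) (y : Site d) :
    Measurable[coordSigmaAlgebra A] fun ω : Environment d => stepP ω x y := by
  simp_rw [stepP_eq]
  refine Finset.measurable_sum _ fun e _ => ?_
  by_cases h : x + stepVec e = y
  · simp only [h, if_true]
    refine ENNReal.measurable_ofReal.comp ?_
    exact (measurable_pi_apply e).comp (measurable_subtype_coe.comp (measurable_row A hx))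
  · simp only [h, if_false]
    exact measurable_const

/-- the weight of a finite path is measurable in its used rows. -/
lemma measurable_wt_coord (A : Set (Site d)) (γ : Path d) (n : ℕ) (h : ∀ i, i < n → γ i ∈ A) :
    Measurable[coordSigmaAlgebra A] fun ω : Environment d => wt ω γ n := by
  unfold wt
  refine Finset.measurable_prod _ fun i hi => ?_
  exact measurable_stepP_coord A (h i (Finset.mem_range.1 hi)) _

/-! ### laws with a random starting point -/

/-- quenched law started from `μ`. -/
noncomputable def qFrom (ω : Environment d) (μ : Measure (Site d)) : Measure (Path d) :=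
  μ.bind (fun x => quenchedLaw ω x)

/-- annealed law started from `μ` (mass of `μ` arbitrary). -/
noncomputable def aFrom (Q : Measure (Environment d)) (μ : Measure (Site d)) : Measure (Path d) :=
  Q.bind (fun ω => qFrom ω μ)

lemma measurable_quenched_site (ω : Environment d) :
    Measurable fun x : Site d => quenchedLaw ω x := measurable_of_countable _

lemma qFrom_apply (ω : Environment d) (μ : Measure (Site d)) {A : Set (Path d)}
    (hA : MeasurableSet A) : qFrom ω μ A = ∫⁻ x, quenchedLaw ω x A ∂μ :=
  Measure.bind_apply hA (measurable_quenched_site ω).aemeasurable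

lemma qFrom_cyl (ω : Environment d) (μ : Measure (Site d)) (γ : Path d) (n : ℕ) :
    qFrom ω μ (cyl γ n) = μ {γ 0} * wt ω γ n := by
  rw [qFrom_apply _ _ (measurableSet_cyl γ n)]
  simp_rw [quenched_cyl]
  have : (fun x : Site d => if γ 0 = x then wt ω γ n else 0)
      = ({γ 0} : Set (Site d)).indicator fun _ => wt ω γ n := by
    funext x
    by_cases hx : γ 0 = x
    · subst hx; simp
    · rw [if_neg hx, Set.indicator_of_notMem]
      simpa [eq_comm] using hx
  rw [this, lintegral_indicator (measurableSet_singleton _), setLIntegral_const, mul_comm]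

lemma measurable_qFrom_cyl (μ : Measure (Site d)) (γ : Path d) (n : ℕ) :
    Measurable fun ω : Environment d => qFrom ω μ (cyl γ n) := by
  simp_rw [qFrom_cyl]
  exact (measurable_wt γ n).const_mul _

lemma qFrom_apply' (ω : Environment d) (μ : Measure (Site d)) {A : Set (Path d)}
    (hA : MeasurableSet A) : qFrom ω μ A = ∑' x, quenchedLaw ω x A * μ {x} := by
  rw [qFrom_apply _ _ hA, lintegral_countable']

lemma measurable_qFrom (μ : Measure (Site d)) :
    Measurable fun ω : Environment d => qFrom ω μ := by
  refine Measure.measurable_of_measurable_coe _ fun A hA => ?_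
  simp_rw [qFrom_apply' _ _ hA]
  exact Measurable.ennreal_tsum fun x => (measurable_quenched_apply x hA).mul_const _

lemma aFrom_apply (Q : Measure (Environment d)) (μ : Measure (Site d)) {A : Set (Path d)}
    (hA : MeasurableSet A) : aFrom Q μ A = ∫⁻ ω, qFrom ω μ A ∂Q :=
  Measure.bind_apply hA (measurable_qFrom μ).aemeasurable

lemma aFrom_cyl (Q : Measure (Environment d)) (μ : Measure (Site d)) (γ : Path d) (n : ℕ) :
    aFrom Q μ (cyl γ n) = ∫⁻ ω, μ {γ 0} * wt ω γ n ∂Q := by
  rw [aFrom_apply _ _ (measurableSet_cyl γ n)]
  simp_rw [qFrom_cyl]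

lemma qFrom_dirac (ω : Environment d) (x : Site d) :
    qFrom ω (Measure.dirac x) = quenchedLaw ω x :=
  Measure.dirac_bind (measurable_quenched_site ω) x

lemma aFrom_dirac (Q : Measure (Environment d)) (x : Site d) :
    aFrom Q (Measure.dirac x) = annealed Q x := by
  unfold aFrom annealed
  congr 1
  funext ω
  exact qFrom_dirac ω x

lemma annealed_apply_prob (Q : Measure (Environment d)) (x : Site d) {A : Set (Path d)}
    (hA : MeasurableSet A) : annealed Q x A = annealedProb Q x A :=
  Measure.bind_apply hA (measurable_quenched x).aemeasurable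

/-! ### decomposition at a stopping time -/

/-- finite histories. -/
abbrev Hist (d : ℕ) : Type := Σ n : ℕ, (Fin (n + 1) → Site d)

/-- the history as an (eventually constant) path. -/
def Hist.path (p : Hist d) : Path d := ext p.1 p.2

lemma measurableSet_stop_eq {T : Path d → ℕ∞} (hT : IsStop T) (n : ℕ) :
    MeasurableSet {X | T X = n} :=
  measurableSet_of_agree n _ fun X Y h => ⟨fun hX => hT X Y n h hX, fun hY => hT Y X n h.symm hY⟩

lemma measurableSet_stop_lt {T : Path d → ℕ∞} (hT : IsStop T) :
    MeasurableSet {X | T X < ⊤} := by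
  have : {X | T X < ⊤} = ⋃ n : ℕ, {X | T X = n} := by
    ext X
    simp only [Set.mem_ofPred_eq, Set.mem_iUnion]
    constructor
    · intro h
      obtain ⟨n, hn⟩ := ENat.ne_top_iff_exists.1 h.ne
      exact ⟨n, hn.symm⟩
    · rintro ⟨n, hn⟩
      rw [hn]
      exact ENat.coe_lt_top n
  rw [this]
  exact MeasurableSet.iUnion fun n => measurableSet_stop_eq hT n

/-- **decomposition of integrals at a stopping time.** -/
lemma lintegral_stop {T : Path d → ℕ∞} (hT : IsStop T) {H : Path d → ℝ≥0∞} (hH : DetBy T H)
    (P : Measure (Path d)) :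
    ∫⁻ X in {X | T X < ⊤}, H X ∂P
      = ∑' p : Hist d, if T p.path = p.1 then H p.path * P (cyl p.path p.1) else 0 := by
  classical
  let piece : Hist d → Set (Path d) := fun p => if T p.path = p.1 then cyl p.path p.1 else ∅
  have hu : {X | T X < ⊤} = ⋃ p, piece p := by
    ext X
    simp only [Set.mem_ofPred_eq, Set.mem_iUnion, piece]
    constructor
    · intro h
      obtain ⟨n, hn⟩ := ENat.ne_top_iff_exists.1 h.ne
      refine ⟨⟨n, hist n X⟩, ?_⟩
      have h1 : T (Hist.path ⟨n, hist n X⟩) = n := hT X _ n (ext_hist n X) hn.symm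
      rw [if_pos h1]
      exact ext_hist n X
    · rintro ⟨p, hp⟩
      by_cases h1 : T p.path = p.1
      · rw [if_pos h1] at hp
        rw [hT p.path X p.1 hp.symm h1]
        exact ENat.coe_lt_top _
      · rw [if_neg h1] at hp
        exact absurd hp (Set.notMem_empty _)
  have hd : Pairwise (Function.onFun Disjoint piece) := by
    intro p q hpq
    rw [Function.onFun, Set.disjoint_left]
    intro X hX hX'
    simp only [piece] at hX hX'
    split_ifs at hX with h1
    · split_ifs at hX' with h2
      · have e1 := hT p.path X p.1 hX.symm h1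
        have e2 := hT q.path X q.1 hX'.symm h2
        rw [e1] at e2
        have e3 : p.1 = q.1 := by exact_mod_cast e2
        obtain ⟨n, h⟩ := p
        obtain ⟨m, h'⟩ := q
        simp only at e3
        subst e3
        simp only [Hist.path] at hX hX'
        rw [mem_cyl_ext_iff] at hX hX'
        exact hpq (by rw [← hX, ← hX'])
      · exact absurd hX' (Set.notMem_empty _)
    · exact absurd hX (Set.notMem_empty _)
  have hm : ∀ p, MeasurableSet (piece p) := by
    intro p
    simp only [piece]
    split_ifs
    · exact measurableSet_cyl _ _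
    · exact MeasurableSet.empty
  rw [hu, lintegral_iUnion hm hd]
  refine tsum_congr fun p => ?_
  simp only [piece]
  split_ifs with h1
  · have : ∫⁻ X in cyl p.path p.1, H X ∂P = ∫⁻ _ in cyl p.path p.1, H p.path ∂P := by
      refine setLIntegral_congr_fun (measurableSet_cyl _ _) fun X hX => ?_
      exact (hH p.path X p.1 hX.symm h1).symm
    rw [this, setLIntegral_const]
  · simp

/-! ### the exploration theorem -/

/-- A sequential exploration with states in `σ`. -/
structure Explorer (d : ℕ) (σ : Type*) where
  /-- rows used so far -/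
  rows : σ → Set (Site d)
  /-- law of the starting point of the next walker -/
  init : σ → Measure (Site d)
  /-- stopping time of the next walker -/
  stop : σ → Path d → ℕ∞
  /-- next state -/
  next : σ → Path d → σ

/-- validity at range `R`. -/
structure Explorer.Valid {σ : Type*} (E : Explorer d σ) (R : ℕ) : Prop where
  isStop : ∀ s, IsStop (E.stop s)
  det : ∀ s, DetBy (E.stop s) (E.next s)
  far : ∀ s X (n : ℕ), E.stop s X = n → ∀ i < n, X i ∈ far R (E.rows s)
  rows_next : ∀ s X (n : ℕ), E.stop s X = n → E.rows s ∪ usedBefore X n ⊆ E.rows (E.next s X)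

variable {σ : Type*}

/-- Value of the exploration in a fixed environment, `n` walkers, payoff `F` of the final state
(a walker which does not stop gives `0`). -/
noncomputable def Explorer.qVal (E : Explorer d σ) (F : σ → ℝ≥0∞) (ω : Environment d) :
    ℕ → σ → ℝ≥0∞
  | 0, s => F s
  | n + 1, s => ∫⁻ X in {X | E.stop s X < ⊤}, E.qVal F ω n (E.next s X) ∂(qFrom ω (E.init s))

/-- Value with a fresh independent environment for every walker. -/
noncomputable def Explorer.aVal (E : Explorer d σ) (F : σ → ℝ≥0∞) (Q : Measure (Environment d)) :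
    ℕ → σ → ℝ≥0∞
  | 0, s => F s
  | n + 1, s => ∫⁻ X in {X | E.stop s X < ⊤}, E.aVal F Q n (E.next s X) ∂(aFrom Q (E.init s))

lemma DetBy.comp {α β : Type*} {T : Path d → ℕ∞} {F : Path d → α} (h : DetBy T F) (g : α → β) :
    DetBy T (fun X => g (F X)) := fun X Y n hXY hn => by
  simp only [h X Y n hXY hn]

lemma Explorer.qVal_succ (E : Explorer d σ) {R : ℕ} (hE : E.Valid R) (F : σ → ℝ≥0∞)
    (ω : Environment d) (n : ℕ) (s : σ) :
    E.qVal F ω (n + 1) s = ∑' p : Hist d, if E.stop s p.path = p.1 then
      E.qVal F ω n (E.next s p.path) * (E.init s {p.path 0} * wt ω p.path p.1) else 0 := by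
  rw [Explorer.qVal, lintegral_stop (hE.isStop s) ((hE.det s).comp fun t => E.qVal F ω n t)]
  refine tsum_congr fun p => ?_
  rw [qFrom_cyl]

lemma Explorer.aVal_succ (E : Explorer d σ) {R : ℕ} (hE : E.Valid R) (F : σ → ℝ≥0∞)
    (Q : Measure (Environment d)) (n : ℕ) (s : σ) :
    E.aVal F Q (n + 1) s = ∑' p : Hist d, if E.stop s p.path = p.1 then
      E.aVal F Q n (E.next s p.path) * aFrom Q (E.init s) (cyl p.path p.1) else 0 := by
  rw [Explorer.aVal, lintegral_stop (hE.isStop s) ((hE.det s).comp fun t => E.aVal F Q n t)]

lemma Explorer.measurable_qVal (E : Explorer d σ) {R : ℕ} (hE : E.Valid R) (F : σ → ℝ≥0∞)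
    (n : ℕ) : ∀ s, Measurable fun ω : Environment d => E.qVal F ω n s := by
  induction n with
  | zero => intro s; exact measurable_const
  | succ n ih =>
    intro s
    simp_rw [E.qVal_succ hE]
    refine Measurable.ennreal_tsum fun p => ?_
    by_cases h : E.stop s p.path = p.1
    · simp only [h, if_true]
      exact (ih _).mul ((measurable_wt _ _).const_mul _)
    · simp only [h, if_false]
      exact measurable_const

/-- **SEQUENTIAL EXPLORATION THEOREM**: for every `Φ` depending only on the rows used before, the
walkers explore the environment as if each of them had a fresh independent environment. -/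
theorem Explorer.explore (E : Explorer d σ) {R : ℕ} (hE : E.Valid R) (Q : Measure (Environment d))
    (hQ : IndepAt R Q) (F : σ → ℝ≥0∞) (n : ℕ) : ∀ (s : σ) (Φ : Environment d → ℝ≥0∞),
      Measurable[coordSigmaAlgebra (E.rows s)] Φ →
      ∫⁻ ω, Φ ω * E.qVal F ω n s ∂Q = (∫⁻ ω, Φ ω ∂Q) * E.aVal F Q n s := by
  induction n with
  | zero =>
    intro s Φ hΦ
    simp only [Explorer.qVal, Explorer.aVal]
    exact lintegral_mul_const _ (hΦ.mono (coordSigmaAlgebra_le _) le_rfl)
  | succ n ih =>
    intro s Φ hΦ
    have hΦ' : Measurable Φ := hΦ.mono (coordSigmaAlgebra_le _) le_rfl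
    simp_rw [E.qVal_succ hE, ← ENNReal.tsum_mul_left]
    rw [lintegral_tsum]
    · rw [E.aVal_succ hE, ← ENNReal.tsum_mul_left]
      refine tsum_congr fun p => ?_
      by_cases h : E.stop s p.path = p.1
      · simp only [h, if_true]
        have hfar : ∀ i, i < p.1 → p.path i ∈ far R (E.rows s) := hE.far s p.path p.1 h
        have hrow := hE.rows_next s p.path p.1 h
        have hw : Measurable[coordSigmaAlgebra (usedBefore p.path p.1)]
            fun ω : Environment d => E.init s {p.path 0} * wt ω p.path p.1 :=
          (measurable_wt_coord (usedBefore p.path p.1) p.path p.1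
            fun i hi => ⟨i, hi, rfl⟩).const_mul _
        have h1 : ∀ ω : Environment d, Φ ω * (E.qVal F ω n (E.next s p.path) *
            (E.init s {p.path 0} * wt ω p.path p.1))
            = (Φ ω * (E.init s {p.path 0} * wt ω p.path p.1)) *
              E.qVal F ω n (E.next s p.path) := by
          intro ω; ring
        simp_rw [h1]
        rw [ih (E.next s p.path) (fun ω => Φ ω * (E.init s {p.path 0} * wt ω p.path p.1)) ?_]
        · rw [lintegral_mul_eq_lintegral_mul_lintegral_of_independent_measurableSpace
            (coordSigmaAlgebra_le _) (coordSigmaAlgebra_le _)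
            (hQ (E.rows s) (usedBefore p.path p.1) ?_) hΦ hw, aFrom_cyl]
          · ring
          · rintro a ha b ⟨i, hi, rfl⟩
            exact hfar i hi a ha
        · refine Measurable.mul ?_ ?_
          · exact hΦ.mono (coordSigmaAlgebra_mono (Set.subset_union_left.trans hrow)) le_rfl
          · exact hw.mono (coordSigmaAlgebra_mono (Set.subset_union_right.trans hrow)) le_rfl
      · simp [h]
    · intro p
      refine Measurable.aemeasurable ?_
      refine hΦ'.mul ?_
      by_cases h : E.stop s p.path = p.1
      · simp only [h, if_true]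
        exact (E.measurable_qVal hE F n _).mul ((measurable_wt _ _).const_mul _)
      · simp only [h, if_false]
        exact measurable_const

/-- same environment = independent environments, from an empty start. -/
theorem Explorer.explore_prob (E : Explorer d σ) {R : ℕ} (hE : E.Valid R)
    (Q : Measure (Environment d)) [IsProbabilityMeasure Q]
    (hQ : IndepAt R Q) (F : σ → ℝ≥0∞) (n : ℕ) (s : σ) :
      ∫⁻ ω, E.qVal F ω n s ∂Q = E.aVal F Q n s := by
  have := E.explore hE Q hQ F n s (fun _ => 1) measurable_const
  simpa using this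

end Crest.Agent.R154
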