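import Crest.Agent.R154.FP_178

/-! Row 154 (helper160), ROAD 801: extension of lists downwards / cut back. -/

set_option autoImplicit false

namespace Crest.Agent.R154.Ext160

open scoped ENNReal
open Crest.Agent.R154.B5A Crest.Agent.R154.FP178

section single

variable {B : Type*} (Λ : B → ℝ≥0∞) (ht : B → ℕ)

open Classical in
/-- the first passage law is a probability -/
theorem fp_one (h1 : ∀ b, 1 ≤ ht b) (hΛ : ∑' b, Λ b = 1) (a : ℕ) :
    ∑' L, (if fp ht a L then LW Λ L else 0) = 1 := by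
  induction a using Nat.strong_induction_on with
  | _ a ih =>
    rcases Nat.eq_zero_or_pos a with rfl | ha
    · have := sum_fp_zero Λ ht (fun _ => 1)
      simp only [mul_one] at this
      exact this
    · have := sum_fp_step Λ ht a ha (fun _ => 1)
      simp only [mul_one] at this
      rw [this, ← hΛ]
      refine tsum_congr fun b => ?_
      rw [ih (a - ht b) (by have := h1 b; omega), mul_one]

lemma fp_of_HT (h1 : ∀ b, 1 ≤ ht b) {n : ℕ} {L : List B} (h : HT ht L = n) : fp ht n L := by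
  induction L generalizing n with
  | nil => rw [HT_nil] at h; exact (fp_nil ht n).2 h.symm
  | cons b L ih =>
    rw [HT_cons] at h
    have := h1 b
    exact (fp_cons ht n b L).2 ⟨by omega, ih (by omega)⟩

open Classical in
/-- extension downwards, exact mass one -/
theorem ext_fp (h1 : ∀ b, 1 ≤ ht b) (hΛ : ∑' b, Λ b = 1) (n N : ℕ) (hn : n ≤ N)
    (F F' : List B → ℝ≥0∞) (hF : ∀ A R, HT ht A = n → F A ≤ F' (A ++ R)) :
    ∑' L, (if HT ht L = n then LW Λ L * F L else 0)
      ≤ ∑' L, (if fp ht N L then LW Λ L * F' L else 0) := by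
  rw [fp_split Λ ht h1 n N hn F']
  refine ENNReal.tsum_le_tsum fun A => ?_
  by_cases hA : HT ht A = n
  · rw [if_pos hA, if_pos (fp_of_HT ht h1 hA)]
    refine mul_le_mul_right ?_ _
    calc F A = F A * ∑' L, (if fp ht (N - HT ht A) L then LW Λ L else 0) := by
          rw [fp_one Λ ht h1 hΛ, mul_one]
      _ = ∑' L, F A * (if fp ht (N - HT ht A) L then LW Λ L else 0) :=
          ENNReal.tsum_mul_left.symm
      _ ≤ _ := by
          refine ENNReal.tsum_le_tsum fun L => ?_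
          by_cases hL : fp ht (N - HT ht A) L
          · rw [if_pos hL, if_pos hL, mul_comm]
            exact mul_le_mul_right (hF A L hA) _
          · rw [if_neg hL, if_neg hL, mul_zero]
  · rw [if_neg hA]; exact zero_le

open Classical in
/-- cut back: a first passage list of bounded overshoot extends to one fixed height -/
theorem ext_back (h1 : ∀ b, 1 ≤ ht b) (c : ℝ≥0∞) (hc : c ≠ 0) (hc' : c ≠ ⊤) (R : ℕ)
    (hU : ∀ n, R ≤ n → c ≤ U Λ ht n) (N r n' : ℕ) (hn : N + r + R ≤ n')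
    (F F' : List B → ℝ≥0∞) (hF : ∀ A R', F A ≤ F' (A ++ R')) :
    ∑' L, (if fp ht N L ∧ HT ht L ≤ N + r then LW Λ L * F L else 0)
      ≤ c⁻¹ * ∑' L, (if HT ht L = n' then LW Λ L * F' L else 0) := by
  have hs := split Λ ht h1 N (fun L => if HT ht L = n' then F' L else 0)
  have e1 : ∑' L, (if HT ht L = n' then LW Λ L * F' L else 0)
      = ∑' L, (if N ≤ HT ht L then LW Λ L * (if HT ht L = n' then F' L else 0) else 0) := by
    refine tsum_congr fun L => ?_
    by_cases h : HT ht L = n'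
    · rw [if_pos h, if_pos (by omega), if_pos h]
    · rw [if_neg h]
      split_ifs <;> simp
  rw [e1, hs, ← ENNReal.tsum_mul_left]
  refine ENNReal.tsum_le_tsum fun A => ?_
  by_cases hA : fp ht N A ∧ HT ht A ≤ N + r
  · rw [if_pos hA, if_pos hA.1, mul_left_comm]
    refine mul_le_mul_right ?_ _
    have hUc : c ≤ U Λ ht (n' - HT ht A) := hU _ (by have := hA.2; omega)
    calc F A = c⁻¹ * (c * F A) := by
          rw [← mul_assoc, ENNReal.inv_mul_cancel hc hc', one_mul]
      _ ≤ c⁻¹ * (U Λ ht (n' - HT ht A) * F A) :=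
          mul_le_mul_right (mul_le_mul_left hUc _) _
      _ ≤ _ := by
          refine mul_le_mul_right ?_ _
          rw [U, ← ENNReal.tsum_mul_right]
          refine ENNReal.tsum_le_tsum fun L => ?_
          by_cases hL : HT ht L = n' - HT ht A
          · rw [if_pos hL, if_pos (by rw [HT_append]; have := hA.2; omega)]
            exact mul_le_mul_right (hF A L) _
          · rw [if_neg hL, zero_mul]; exact zero_le
  · rw [if_neg hA]; exact zero_le

end single

section pair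

variable {BX BY : Type*} (ΛX : BX → ℝ≥0∞) (ΛY : BY → ℝ≥0∞) (hX : BX → ℕ) (hY : BY → ℕ)

/-- nested form of a double indicator sum -/
lemma nest (p : List BX → Prop) (q : List BY → Prop) (P : List BX → List BY → Prop)
    [DecidablePred p] [DecidablePred q] [∀ a b, Decidable (P a b)] :
    ∑' LX, ∑' LY, (if p LX ∧ q LY ∧ P LX LY then LW ΛX LX * LW ΛY LY else 0)
      = ∑' LX, (if p LX then LW ΛX LX * ∑' LY, (if q LY then LW ΛY LY *
          (if P LX LY then 1 else 0) else 0) else 0) := by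
  refine tsum_congr fun LX => ?_
  by_cases hp : p LX
  · rw [if_pos hp, ← ENNReal.tsum_mul_left]
    refine tsum_congr fun LY => ?_
    by_cases hq : q LY <;> by_cases hP : P LX LY <;> simp [hp, hq, hP]
  · rw [if_neg hp]
    simp [hp]

open Classical in
/-- extension of both lists downwards -/
theorem ext_pair (h1X : ∀ b, 1 ≤ hX b) (h1Y : ∀ b, 1 ≤ hY b) (hΛX : ∑' b, ΛX b = 1)
    (hΛY : ∑' b, ΛY b = 1) (n N : ℕ) (hn : n ≤ N) (P P' : List BX → List BY → Prop)
    (hP : ∀ A R A' R', HT hX A = n → HT hY A' = n → P A A' → P' (A ++ R) (A' ++ R')) :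
    ∑' LX, ∑' LY, (if HT hX LX = n ∧ HT hY LY = n ∧ P LX LY then LW ΛX LX * LW ΛY LY else 0)
      ≤ ∑' LX, ∑' LY, (if fp hX N LX ∧ fp hY N LY ∧ P' LX LY
          then LW ΛX LX * LW ΛY LY else 0) := by
  rw [nest ΛX ΛY (fun L => HT hX L = n) (fun L => HT hY L = n) P,
    nest ΛX ΛY (fun L => fp hX N L) (fun L => fp hY N L) P']
  refine ext_fp ΛX hX h1X hΛX n N hn _ _ fun A R hA => ?_
  refine ext_fp ΛY hY h1Y hΛY n N hn _ _ fun A' R' hA' => ?_
  by_cases h : P A A'
  · rw [if_pos h, if_pos (hP A R A' R' hA hA' h)]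
  · rw [if_neg h]; exact zero_le

open Classical in
/-- cut back of both lists -/
theorem back_pair (h1X : ∀ b, 1 ≤ hX b) (h1Y : ∀ b, 1 ≤ hY b) (c : ℝ≥0∞) (hc : c ≠ 0)
    (hc' : c ≠ ⊤) (R : ℕ) (hUX : ∀ n, R ≤ n → c ≤ U ΛX hX n) (hUY : ∀ n, R ≤ n → c ≤ U ΛY hY n)
    (N r n' : ℕ) (hn : N + r + R ≤ n') (P P' : List BX → List BY → Prop)
    (hP : ∀ A R A' R', P A A' → P' (A ++ R) (A' ++ R')) :
    ∑' LX, ∑' LY, (if (fp hX N LX ∧ HT hX LX ≤ N + r) ∧ (fp hY N LY ∧ HT hY LY ≤ N + r) ∧ P LX LY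
        then LW ΛX LX * LW ΛY LY else 0)
      ≤ c⁻¹ * (c⁻¹ * ∑' LX, ∑' LY, (if HT hX LX = n' ∧ HT hY LY = n' ∧ P' LX LY
          then LW ΛX LX * LW ΛY LY else 0)) := by
  rw [nest ΛX ΛY (fun L => fp hX N L ∧ HT hX L ≤ N + r) (fun L => fp hY N L ∧ HT hY L ≤ N + r) P,
    nest ΛX ΛY (fun L => HT hX L = n') (fun L => HT hY L = n') P']
  have key := ext_back ΛX hX h1X c hc hc' R hUX N r n' hn
    (fun LX => ∑' LY, (if fp hY N LY ∧ HT hY LY ≤ N + r then LW ΛY LY *
      (if P LX LY then 1 else 0) else 0))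
    (fun LX => c⁻¹ * ∑' LY, (if HT hY LY = n' then LW ΛY LY *
      (if P' LX LY then 1 else 0) else 0)) (by
      intro A R'
      refine ext_back ΛY hY h1Y c hc hc' R hUY N r n' hn _ _ fun A' R'' => ?_
      by_cases h : P A A'
      · rw [if_pos h, if_pos (hP A R' A' R'' h)]
      · rw [if_neg h]; exact zero_le)
  refine key.trans ?_
  refine mul_le_mul_right ?_ _
  rw [← ENNReal.tsum_mul_left]
  refine ENNReal.tsum_le_tsum fun LX => ?_
  by_cases h : HT hX LX = n'
  · rw [if_pos h, if_pos h, mul_left_comm]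
  · rw [if_neg h, if_neg h, mul_zero]

open Classical in
/-- the slab bound for first passage lists from the slab bound at one fixed height -/
theorem slab_fp (h1X : ∀ b, 1 ≤ hX b) (h1Y : ∀ b, 1 ≤ hY b) (hΛX : ∑' b, ΛX b ≤ 1)
    (hΛY : ∑' b, ΛY b ≤ 1) (hU1X : ∀ n, U ΛX hX n ≤ 1) (hU1Y : ∀ n, U ΛY hY n ≤ 1)
    (c : ℝ≥0∞) (hc : c ≠ 0) (hc' : c ≠ ⊤) (R : ℕ) (hUX : ∀ n, R ≤ n → c ≤ U ΛX hX n)
    (hUY : ∀ n, R ≤ n → c ≤ U ΛY hY n) (N r n' : ℕ) (hn : N + r + R ≤ n')
    (P P' : List BX → List BY → Prop)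
    (hP : ∀ A R A' R', P A A' → P' (A ++ R) (A' ++ R')) :
    ∑' LX, ∑' LY, (if fp hX N LX ∧ fp hY N LY ∧ P LX LY then LW ΛX LX * LW ΛY LY else 0)
      ≤ (∑' k, tail ΛX hX (r + k)) + (∑' k, tail ΛY hY (r + k))
        + c⁻¹ * (c⁻¹ * ∑' LX, ∑' LY, (if HT hX LX = n' ∧ HT hY LY = n' ∧ P' LX LY
          then LW ΛX LX * LW ΛY LY else 0)) := by
  have hA : ∑' LX, ∑' LY, (if (fp hX N LX ∧ N + r < HT hX LX) ∧ fp hY N LY
      then LW ΛX LX * LW ΛY LY else 0) ≤ ∑' k, tail ΛX hX (r + k) := by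
    refine le_trans ?_ (overshoot ΛX hX h1X hU1X r N)
    refine ENNReal.tsum_le_tsum fun LX => ?_
    by_cases h : fp hX N LX ∧ N + r < HT hX LX
    · rw [if_pos h]
      calc ∑' LY, (if (fp hX N LX ∧ N + r < HT hX LX) ∧ fp hY N LY
            then LW ΛX LX * LW ΛY LY else 0)
          = LW ΛX LX * ∑' LY, (if fp hY N LY then LW ΛY LY else 0) := by
            rw [← ENNReal.tsum_mul_left]
            refine tsum_congr fun LY => ?_
            by_cases h' : fp hY N LY
            · rw [if_pos ⟨h, h'⟩, if_pos h']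
            · rw [if_neg (fun hh => h' hh.2), if_neg h', mul_zero]
        _ ≤ LW ΛX LX * 1 := mul_le_mul_right (sum_FP ΛY hY h1Y hΛY N) _
        _ = LW ΛX LX := mul_one _
    · rw [if_neg h]
      simp [h]
  have hB : ∑' LX, ∑' LY, (if fp hX N LX ∧ (fp hY N LY ∧ N + r < HT hY LY)
      then LW ΛX LX * LW ΛY LY else 0) ≤ ∑' k, tail ΛY hY (r + k) := by
    calc ∑' LX, ∑' LY, (if fp hX N LX ∧ (fp hY N LY ∧ N + r < HT hY LY)
          then LW ΛX LX * LW ΛY LY else 0)
        = ∑' LX, (if fp hX N LX then LW ΛX LX else 0) *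
            ∑' LY, (if fp hY N LY ∧ N + r < HT hY LY then LW ΛY LY else 0) := by
          refine tsum_congr fun LX => ?_
          rw [← ENNReal.tsum_mul_left]
          refine tsum_congr fun LY => ?_
          by_cases h : fp hX N LX
          · by_cases h' : fp hY N LY ∧ N + r < HT hY LY
            · rw [if_pos ⟨h, h'⟩, if_pos h, if_pos h']
            · rw [if_neg (fun hh => h' hh.2), if_neg h', mul_zero]
          · rw [if_neg (fun hh => h hh.1), if_neg h, zero_mul]
      _ = (∑' LX, (if fp hX N LX then LW ΛX LX else 0)) *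
            ∑' LY, (if fp hY N LY ∧ N + r < HT hY LY then LW ΛY LY else 0) :=
          ENNReal.tsum_mul_right
      _ ≤ 1 * ∑' k, tail ΛY hY (r + k) :=
          mul_le_mul' (sum_FP ΛX hX h1X hΛX N) (overshoot ΛY hY h1Y hU1Y r N)
      _ = _ := one_mul _
  refine le_trans ?_ (add_le_add (add_le_add hA hB)
    (back_pair ΛX ΛY hX hY h1X h1Y c hc hc' R hUX hUY N r n' hn P P' hP))
  rw [← ENNReal.tsum_add, ← ENNReal.tsum_add]
  refine ENNReal.tsum_le_tsum fun LX => ?_
  rw [← ENNReal.tsum_add, ← ENNReal.tsum_add]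
  refine ENNReal.tsum_le_tsum fun LY => ?_
  by_cases h : fp hX N LX ∧ fp hY N LY ∧ P LX LY
  · rw [if_pos h]
    by_cases h2 : N + r < HT hX LX
    · rw [if_pos (show (fp hX N LX ∧ N + r < HT hX LX) ∧ fp hY N LY from ⟨⟨h.1, h2⟩, h.2.1⟩)]
      exact le_add_right (le_add_right le_rfl)
    · by_cases h3 : N + r < HT hY LY
      · rw [if_pos (show fp hX N LX ∧ (fp hY N LY ∧ N + r < HT hY LY) from ⟨h.1, h.2.1, h3⟩)]
        exact le_add_right (le_add_left le_rfl)
      · rw [if_pos (show (fp hX N LX ∧ HT hX LX ≤ N + r) ∧ (fp hY N LY ∧ HT hY LY ≤ N + r)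
          ∧ P LX LY from ⟨⟨h.1, by omega⟩, ⟨h.2.1, by omega⟩, h.2.2⟩)]
        exact le_add_left le_rfl
  · rw [if_neg h]; exact zero_le

end pair

end Crest.Agent.R154.Ext160
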