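import Crest.Agent.R154.D1A_569
import Crest.Agent.R154.Spine2_796

/-!
Row 154 (helper169): `FLe → FL` under uniform ellipticity (Spine2_796.FLofFLe): the walk goes
inside level `0` to the best site of the ball of radius `η i`, at cost `κ ^ (d η i)`.
-/

set_option autoImplicit false

namespace Crest.Agent.R154.FLofFLe169

open MeasureTheory ProbabilityTheory Crest.ProbabilityR.RandomEnvironment Crest.Agent.R154
open Crest.Agent.R154.Flux132 (lev opp norm1)
open scoped ENNReal

variable {d : ℕ}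

/-- at level `0` the events `Climb` and `Up0` agree almost surely -/
lemma climb_eq_up0 (ω : Environment d) (u : Step d) (h : ℕ) {z : Site d} (hz : lev u z = 0) :
    quenchedLaw ω z (Fin804.Climb u h) = quenchedLaw ω z (D1S.Up0 u h) := by
  refine measure_congr ?_
  filter_upwards [quenched_zero_eq ω z] with X hX
  refine propext ⟨?_, ?_⟩
  · rintro ⟨n, h1, h2⟩
    rw [hX, hz] at h1
    refine ⟨n, by omega, fun k hk => ?_⟩
    have := h2 k hk
    rwa [hX, hz] at this
  · rintro ⟨n, h1, h2⟩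
    refine ⟨n, by rw [hX, hz]; omega, fun k hk => ?_⟩
    rw [hX, hz]
    exact h2 k hk

lemma norm1_le_nrm (z : Site d) : (norm1 z : ℤ) ≤ d * Fin804.nrm z := by
  unfold norm1
  push_cast
  calc (∑ i, |z i|) ≤ ∑ _i : Fin d, Fin804.nrm z :=
        Finset.sum_le_sum fun i _ => (Fin804.nrm_le_iff (Fin804.nrm_nonneg z)).1 le_rfl i
    _ = d * Fin804.nrm z := by
        rw [Finset.sum_const, Finset.card_univ, Fintype.card_fin, nsmul_eq_mul]

theorem flofFLe : Spine.FLofFLe := by
  intro d Q _ κ hκ hell u hF δ M hδ hM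
  -- a smaller ellipticity constant
  set k : ℝ := min κ (1 / 2) with hk
  have hk0 : 0 < k := lt_min hκ (by norm_num)
  have hk1 : k ≤ 1 := (min_le_right _ _).trans (by norm_num)
  have hk2 : k < 1 := lt_of_le_of_lt (min_le_right _ _) (by norm_num)
  set L : ℝ := -Real.log k with hL
  have hL0 : 0 < L := by
    have := Real.log_neg hk0 hk2
    linarith
  have hkL : k = Real.exp (-L) := by rw [hL, neg_neg, Real.exp_log hk0]
  set η : ℝ := δ / (2 * ((d : ℝ) + 1) * L) with hη
  have hd1 : (0 : ℝ) < (d : ℝ) + 1 := by positivity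
  have hη0 : 0 < η := by positivity
  obtain ⟨C, hC⟩ := hF (δ / 2) M η (by linarith) hM hη0
  refine ⟨C, fun i => le_trans (measure_mono_ae ?_) (hC i)⟩
  filter_upwards [hell] with ω hω hlt z hz hn
  have hω' : ∀ (x : Site d) (e : Step d), k ≤ (ω x).1 e := fun x e => (min_le_left _ _).trans (hω x e)
  by_contra hcon
  have hcon' := not_lt.1 hcon
  have hlt' : quenchedLaw ω 0 (Fin804.Climb u (10 ^ i)) < ENNReal.ofReal (Real.exp (-(δ * i))) := hlt
  have h0 : lev u (0 : Site d) = 0 := D1S.lev_zero u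
  have hp := D1S.path_ge ω hω' u ((10 ^ i : ℕ) : ℤ) (norm1 z) 0 z (by rw [sub_zero]) hk1
    h0.ge hz.ge
  rw [← climb_eq_up0 ω u _ h0, ← climb_eq_up0 ω u _ hz] at hp
  have h1 : ENNReal.ofReal (k ^ (norm1 z) * Real.exp (-(δ / 2 * i)))
      < ENNReal.ofReal (Real.exp (-(δ * i))) := by
    rw [ENNReal.ofReal_mul (by positivity), ENNReal.ofReal_pow hk0.le]
    exact lt_of_le_of_lt ((mul_le_mul' le_rfl hcon').trans hp) hlt'
  have h2 := (ENNReal.ofReal_lt_ofReal_iff (Real.exp_pos _)).1 h1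
  have h3 : (norm1 z : ℝ) ≤ d * (η * i) := by
    have h4 : ((norm1 z : ℤ) : ℝ) ≤ ((d * Fin804.nrm z : ℤ) : ℝ) := by
      exact_mod_cast norm1_le_nrm z
    push_cast at h4
    refine h4.trans ?_
    gcongr
  have h5 : (norm1 z : ℝ) * L ≤ δ / 2 * i := by
    have hi : (0 : ℝ) ≤ i := Nat.cast_nonneg i
    have h6 : (norm1 z : ℝ) ≤ (d + 1) * (η * i) := h3.trans (by
      have : 0 ≤ η * i := by positivity
      nlinarith)
    calc (norm1 z : ℝ) * L ≤ ((d + 1) * (η * i)) * L := by gcongr
      _ = δ / 2 * i := by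
        rw [hη]
        field_simp
  have h7 : k ^ (norm1 z) = Real.exp (-(norm1 z * L)) := by
    rw [hkL, ← Real.exp_nat_mul]
    ring_nf
  rw [h7, ← Real.exp_add, Real.exp_lt_exp] at h2
  linarith

end Crest.Agent.R154.FLofFLe169
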