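import Crest.Agent.R154.B5Abs_566

/-!
Row 154, ROAD 801 (helper162): first passage lists of blocks, attempts, and the smooth density of
the FIRST PASSAGE law (bad mass = total probability over the overshoot).  The proof of `dens_fp`
follows helper903's `dens_split`.
-/

set_option autoImplicit false

namespace Crest.Agent.R154.FPD162

open Crest.Agent.R154.B5A
open scoped ENNReal Classical
open Finset

/-! ### first passages -/

section fp

variable {B : Type*} (ht : B → ℕ)

/-- `L` is a first passage of height `a` -/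
def FP (ht : B → ℕ) : ℕ → List B → Prop
  | a, [] => a = 0
  | a, b :: L => a ≠ 0 ∧ FP ht (a - ht b) L

/-- split at the first passage of height `a` -/
def sp (ht : B → ℕ) : ℕ → List B → List B × List B
  | _, [] => ([], [])
  | a, b :: L =>
    if a = 0 then ([], b :: L) else (b :: (sp ht (a - ht b) L).1, (sp ht (a - ht b) L).2)

lemma FP_nil (a : ℕ) : FP ht a [] ↔ a = 0 := Iff.rfl

lemma FP_cons (a : ℕ) (b : B) (L : List B) : FP ht a (b :: L) ↔ a ≠ 0 ∧ FP ht (a - ht b) L :=
  Iff.rfl

lemma FP.le {a : ℕ} {L : List B} (h : FP ht a L) : a ≤ HT ht L := by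
  induction L generalizing a with
  | nil => rw [FP_nil] at h; omega
  | cons b L ih => rw [HT_cons]; have := ih h.2; omega

lemma sp_append (a : ℕ) (L : List B) : (sp ht a L).1 ++ (sp ht a L).2 = L := by
  induction L generalizing a with
  | nil => rfl
  | cons b L ih =>
    by_cases h : a = 0
    · simp [sp, h]
    · simp [sp, h, ih]

lemma sp_FP (a : ℕ) (L : List B) (h : a ≤ HT ht L) : FP ht a (sp ht a L).1 := by
  induction L generalizing a with
  | nil => rw [HT_nil] at h; simp [sp, FP]; omega
  | cons b L ih =>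
    rw [HT_cons] at h
    by_cases h0 : a = 0
    · simp [sp, h0, FP]
    · simp only [sp, h0, if_false]
      exact ⟨h0, ih _ (by omega)⟩

lemma sp_inj (a : ℕ) : Function.Injective (sp ht a) := by
  intro L L' h
  rw [← sp_append ht a L, ← sp_append ht a L', h]

/-- splitting a sum over lists at the first passage of height `a` -/
lemma tsum_split (a : ℕ) (F : List B → ℝ≥0∞) :
    ∑' L, (if a ≤ HT ht L then F L else 0)
      ≤ ∑' P, ∑' R, (if FP ht a P then F (P ++ R) else 0) := by
  rw [← ENNReal.tsum_prod]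
  refine le_trans (ENNReal.tsum_le_tsum fun L => ?_)
    (ENNReal.tsum_comp_le_tsum_of_injective (sp_inj ht a)
      (fun p : List B × List B => if FP ht a p.1 then F (p.1 ++ p.2) else 0))
  by_cases h : a ≤ HT ht L
  · simp only [h, if_true, sp_FP ht a L h, sp_append, le_refl]
  · simp [h]

variable (Λ : B → ℝ≥0∞)

/-- the first passage lists have total weight one -/
lemma fp_one (h1 : ∀ b, 1 ≤ ht b) (hΛ : ∑' b, Λ b = 1) :
    ∀ a, ∑' P, (if FP ht a P then LW Λ P else 0) = 1 := by
  intro a
  induction a using Nat.strong_induction_on with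
  | _ a ih =>
    rw [tsum_list]
    by_cases h0 : a = 0
    · subst h0
      simp [FP, LW_nil]
    · have e : ∀ b, ∑' L, (if FP ht a (b :: L) then LW Λ (b :: L) else 0) = Λ b := by
        intro b
        have h2 : ∀ L, (if FP ht a (b :: L) then LW Λ (b :: L) else 0)
            = Λ b * (if FP ht (a - ht b) L then LW Λ L else 0) := by
          intro L
          simp only [FP_cons, LW_cons, ne_eq, h0, not_false_eq_true, true_and]
          split_ifs <;> simp
        simp_rw [h2]
        rw [ENNReal.tsum_mul_left, ih _ (by have := h1 b; omega), mul_one]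
      simp_rw [e]
      rw [hΛ]
      simp [FP, h0]

end fp

/-! ### smooth density, vector form -/

section dens

variable {O V : Type*} [AddCommGroup V]

lemma tsum_sub (f : V → ℝ≥0∞) (z : V) : ∑' z', f (z - z') = ∑' z', f z' :=
  (Equiv.subLeft z).tsum_eq f

lemma tsum_conv (g f : V → ℝ≥0∞) : ∑' z, ∑' z', g z' * f (z - z') = (∑' z', g z') * ∑' z, f z := by
  rw [ENNReal.tsum_comm, ← ENNReal.tsum_mul_right]
  refine tsum_congr fun z' => ?_
  rw [ENNReal.tsum_mul_left]
  congr 1
  exact (Equiv.subRight z').tsum_eq f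

/-- **smooth density, with a mark `o`** (helper903's `dens_split`; bad mass summed over `o`). -/
theorem dens_mark (U : ℕ → O → V → ℝ≥0∞) (p : ℕ → V → ℝ≥0∞) (s i0 : ℕ)
    (hU : ∀ h, s + i0 ≤ h → ∀ o z, U h o z
      ≤ ∑' i, ∑' z', if s + i ≤ h then p i z' * U (h - s - i) o (z - z') else 0)
    (hU1 : ∀ h, ∑' o, ∑' z, U h o z ≤ 1) (th q ε : ℝ≥0∞)
    (hNG : ∑' i, ∑' z, (if i ≤ i0 ∧ th < p i z then p i z else 0) ≤ q)
    (hFar : ∑' i, ∑' z, (if i0 < i then p i z else 0) ≤ ε) (J : ℕ) :
    ∀ h, J * (s + i0) ≤ h → ∃ Ag Bb : O → V → ℝ≥0∞, (∀ o z, U h o z ≤ Ag o z + Bb o z) ∧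
      (∀ o z, Ag o z ≤ (i0 + 1) * th * ∑ j ∈ range J, q ^ j) ∧
      ∑' o, ∑' z, Bb o z ≤ q ^ J + ε * ∑ j ∈ range J, q ^ j := by
  have hU2 : ∀ h o, ∑' z, U h o z ≤ 1 := fun h o => (ENNReal.le_tsum o).trans (hU1 h)
  induction J with
  | zero =>
    intro h _
    refine ⟨fun _ _ => 0, U h, fun o z => by simp, fun o z => by simp, ?_⟩
    simpa using hU1 h
  | succ J ih =>
    intro h hh
    have hs : s + i0 ≤ h := by
      have : s + i0 ≤ (J + 1) * (s + i0) := by nlinarith [Nat.zero_le (J * (s + i0))]
      omega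
    have hrest : ∀ i, i ≤ i0 → J * (s + i0) ≤ h - s - i := by
      intro i hi
      have : (J + 1) * (s + i0) = J * (s + i0) + (s + i0) := by ring
      omega
    have hch : ∀ i, ∃ Ag Bb : O → V → ℝ≥0∞, i ≤ i0 →
        (∀ o z, U (h - s - i) o z ≤ Ag o z + Bb o z) ∧
        (∀ o z, Ag o z ≤ (i0 + 1) * th * ∑ j ∈ range J, q ^ j) ∧
        ∑' o, ∑' z, Bb o z ≤ q ^ J + ε * ∑ j ∈ range J, q ^ j := by
      intro i
      by_cases hi : i ≤ i0
      · obtain ⟨a, b, h1⟩ := ih _ (hrest i hi)
        exact ⟨a, b, fun _ => h1⟩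
      · exact ⟨0, 0, fun h => absurd h hi⟩
    choose A Bf hAB using hch
    refine ⟨fun o z => ∑' i, ∑' z',
        ((if i ≤ i0 ∧ ¬ th < p i z' then p i z' * U (h - s - i) o (z - z') else 0)
        + (if i ≤ i0 ∧ th < p i z' then p i z' * A i o (z - z') else 0)),
      fun o z => ∑' i, ∑' z', ((if i0 < i then p i z' * U (h - s - i) o (z - z') else 0)
        + (if i ≤ i0 ∧ th < p i z' then p i z' * Bf i o (z - z') else 0)), ?_, ?_, ?_⟩
    · intro o z
      refine (hU h hs o z).trans ?_
      rw [← ENNReal.tsum_add]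
      refine ENNReal.tsum_le_tsum fun i => ?_
      rw [← ENNReal.tsum_add]
      refine ENNReal.tsum_le_tsum fun z' => ?_
      by_cases hc : s + i ≤ h
      · rw [if_pos hc]
        by_cases hi : i ≤ i0
        · by_cases ht : th < p i z'
          · simp only [hi, ht, not_true, and_false, and_self, if_true, if_false, zero_add,
              not_lt.2 hi]
            rw [← mul_add]
            gcongr
            exact (hAB i hi).1 _ _
          · simp [hi, ht, not_lt.2 hi]
        · have hi' : i0 < i := not_le.1 hi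
          simp [hi, hi']
      · rw [if_neg hc]; exact zero_le
    · intro o z
      have hq : ∑ j ∈ range (J + 1), q ^ j = 1 + q * ∑ j ∈ range J, q ^ j := by
        rw [Finset.sum_range_succ', Finset.mul_sum, add_comm]
        simp [pow_succ, mul_comm]
      rw [hq, mul_add, mul_one]
      have h1 : ∑' i, ∑' z',
          (if i ≤ i0 ∧ ¬ th < p i z' then p i z' * U (h - s - i) o (z - z') else 0)
          ≤ (i0 + 1) * th := by
        calc _ ≤ ∑' i, (if i ≤ i0 then th else 0) := by
              refine ENNReal.tsum_le_tsum fun i => ?_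
              by_cases hi : i ≤ i0
              · rw [if_pos hi]
                calc _ ≤ ∑' z', th * U (h - s - i) o (z - z') := by
                      refine ENNReal.tsum_le_tsum fun z' => ?_
                      by_cases ht : th < p i z'
                      · simp [ht]
                      · simp only [hi, ht, not_false_eq_true, and_self, if_true]
                        gcongr
                        exact not_lt.1 ht
                  _ = th * ∑' z', U (h - s - i) o z' := by
                      rw [ENNReal.tsum_mul_left, tsum_sub]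
                  _ ≤ th * 1 := by gcongr; exact hU2 _ _
                  _ = th := mul_one _
              · simp [hi]
          _ = ∑ i ∈ range (i0 + 1), (if i ≤ i0 then th else 0) := by
              refine tsum_eq_sum fun i hi => ?_
              rw [Finset.mem_range, not_lt] at hi
              rw [if_neg (by omega)]
          _ = (i0 + 1) * th := by
              rw [Finset.sum_congr rfl fun i hi => if_pos (by
                have := Finset.mem_range.1 hi; omega)]
              simp
      have h2 : ∑' i, ∑' z', (if i ≤ i0 ∧ th < p i z' then p i z' * A i o (z - z') else 0)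
          ≤ (i0 + 1) * th * (q * ∑ j ∈ range J, q ^ j) := by
        calc _ ≤ ∑' i, ∑' z', (if i ≤ i0 ∧ th < p i z' then p i z' else 0)
                * ((i0 + 1) * th * ∑ j ∈ range J, q ^ j) := by
              refine ENNReal.tsum_le_tsum fun i => ENNReal.tsum_le_tsum fun z' => ?_
              by_cases hi : i ≤ i0 ∧ th < p i z'
              · rw [if_pos hi, if_pos hi]
                gcongr
                exact (hAB i hi.1).2.1 _ _
              · simp [if_neg hi]
          _ = (∑' i, ∑' z', (if i ≤ i0 ∧ th < p i z' then p i z' else 0))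
                * ((i0 + 1) * th * ∑ j ∈ range J, q ^ j) := by
              rw [← ENNReal.tsum_mul_right]
              refine tsum_congr fun i => ?_
              rw [ENNReal.tsum_mul_right]
          _ ≤ q * ((i0 + 1) * th * ∑ j ∈ range J, q ^ j) := by gcongr
          _ = _ := by ring
      calc _ = ∑' i, ∑' z',
              (if i ≤ i0 ∧ ¬ th < p i z' then p i z' * U (h - s - i) o (z - z') else 0)
            + ∑' i, ∑' z', (if i ≤ i0 ∧ th < p i z' then p i z' * A i o (z - z') else 0) := by
              rw [← ENNReal.tsum_add]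
              refine tsum_congr fun i => ?_
              rw [← ENNReal.tsum_add]
        _ ≤ _ := add_le_add h1 h2
    · have hq : q ^ (J + 1) + ε * ∑ j ∈ range (J + 1), q ^ j
          = ε + q * (q ^ J + ε * ∑ j ∈ range J, q ^ j) := by
        have hq' : ∑ j ∈ range (J + 1), q ^ j = 1 + q * ∑ j ∈ range J, q ^ j := by
          rw [Finset.sum_range_succ', Finset.mul_sum, add_comm]
          simp [pow_succ, mul_comm]
        rw [hq']
        ring
      rw [hq]
      -- sums over the mark and the position of a convolution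
      have key : ∀ (c : ℕ → V → ℝ≥0∞) (f : ℕ → O → V → ℝ≥0∞) (K : ℝ≥0∞),
          (∀ i, (∀ z', c i z' = 0) ∨ ∑' o, ∑' z, f i o z ≤ K) →
          ∑' o, ∑' z, ∑' i, ∑' z', c i z' * f i o (z - z') ≤ (∑' i, ∑' z', c i z') * K := by
        intro c f K hK
        calc _ = ∑' o, ∑' i, ∑' z, ∑' z', c i z' * f i o (z - z') :=
              tsum_congr fun o => ENNReal.tsum_comm
          _ = ∑' i, ∑' o, ∑' z, ∑' z', c i z' * f i o (z - z') := ENNReal.tsum_comm
          _ = ∑' i, ((∑' z', c i z') * ∑' o, ∑' z, f i o z) := by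
              refine tsum_congr fun i => ?_
              rw [← ENNReal.tsum_mul_left]
              refine tsum_congr fun o => ?_
              rw [tsum_conv]
          _ ≤ ∑' i, (∑' z', c i z') * K := by
              refine ENNReal.tsum_le_tsum fun i => ?_
              rcases hK i with h0 | h0
              · simp [h0]
              · gcongr
          _ = _ := ENNReal.tsum_mul_right
      have h1 : ∑' o, ∑' z, ∑' i, ∑' z',
          (if i0 < i then p i z' * U (h - s - i) o (z - z') else 0) ≤ ε := by
        have e : ∀ o z i z', (if i0 < i then p i z' * U (h - s - i) o (z - z') else 0)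
            = (if i0 < i then p i z' else 0) * U (h - s - i) o (z - z') := by
          intro o z i z'; by_cases hi : i0 < i <;> simp [hi]
        simp_rw [e]
        refine (key _ (fun i => U (h - s - i)) 1 (fun i => Or.inr (hU1 _))).trans ?_
        rw [mul_one]
        exact hFar
      have h2 : ∑' o, ∑' z, ∑' i, ∑' z',
          (if i ≤ i0 ∧ th < p i z' then p i z' * Bf i o (z - z') else 0)
          ≤ q * (q ^ J + ε * ∑ j ∈ range J, q ^ j) := by
        have e : ∀ o z i z', (if i ≤ i0 ∧ th < p i z' then p i z' * Bf i o (z - z') else 0)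
            = (if i ≤ i0 ∧ th < p i z' then p i z' else 0) * Bf i o (z - z') := by
          intro o z i z'; by_cases hi : i ≤ i0 ∧ th < p i z'
          · rw [if_pos hi, if_pos hi]
          · rw [if_neg hi, if_neg hi, zero_mul]
        simp_rw [e]
        refine (key _ Bf _ (fun i => ?_)).trans (mul_le_mul_left hNG _)
        by_cases hi : i ≤ i0
        · exact Or.inr (hAB i hi).2.2
        · exact Or.inl fun z' => by simp [hi]
      calc _ = ∑' o, ∑' z, ∑' i, ∑' z',
              (if i0 < i then p i z' * U (h - s - i) o (z - z') else 0)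
            + ∑' o, ∑' z, ∑' i, ∑' z',
              (if i ≤ i0 ∧ th < p i z' then p i z' * Bf i o (z - z') else 0) := by
              rw [← ENNReal.tsum_add]
              refine tsum_congr fun o => ?_
              rw [← ENNReal.tsum_add]
              refine tsum_congr fun z => ?_
              rw [← ENNReal.tsum_add]
              refine tsum_congr fun i => ?_
              rw [← ENNReal.tsum_add]
        _ ≤ _ := add_le_add h1 h2

end dens

/-! ### the first passage law -/

section law

variable {B G : Type*} [AddCommGroup G] (ht : B → ℕ) (Λ : B → ℝ≥0∞) (z : B → G)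

/-- displacement of a list -/
def Dp (z : B → G) (L : List B) : G := (L.map z).sum

omit [AddCommGroup G] in
lemma tsum_mark (A : Prop) (n s : ℕ) (hA : A → s ≤ n) (y : G) (c : ℝ≥0∞) :
    ∑' i, ∑' x, (if A ∧ n = s + i ∧ y = x then c else 0) = if A then c else 0 := by
  by_cases h : A
  · have hs := hA h
    rw [tsum_eq_single (n - s), tsum_eq_single y]
    · rw [if_pos ⟨h, by omega, rfl⟩, if_pos h]
    · intro x hx
      rw [if_neg]
      rintro ⟨-, -, rfl⟩
      exact hx rfl
    · intro i hi
      simp only [ENNReal.tsum_eq_zero]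
      intro x
      rw [if_neg]
      rintro ⟨-, h2, -⟩
      omega
  · simp [h]

/-- law of the first passage of height `s`: overshoot `i`, displacement `x` -/
noncomputable def pa (s i : ℕ) (x : G) : ℝ≥0∞ :=
  ∑' P : List B, if FP ht s P ∧ HT ht P = s + i ∧ Dp z P = x then LW Λ P else 0

lemma pa_sum (h1 : ∀ b, 1 ≤ ht b) (hΛ : ∑' b, Λ b = 1) (s : ℕ) :
    ∑' i, ∑' x, pa ht Λ z s i x = 1 := by
  rw [← fp_one ht Λ h1 hΛ s]
  simp only [pa]
  calc _ = ∑' i, ∑' P : List B, ∑' x, (if FP ht s P ∧ HT ht P = s + i ∧ Dp z P = x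
        then LW Λ P else 0) := tsum_congr fun i => ENNReal.tsum_comm
    _ = ∑' P : List B, ∑' i, ∑' x, (if FP ht s P ∧ HT ht P = s + i ∧ Dp z P = x
        then LW Λ P else 0) := ENNReal.tsum_comm
    _ = _ := tsum_congr fun P => tsum_mark _ _ _ (fun h => FP.le ht h) _ _

lemma FP_append {a s : ℕ} (P R : List B) (hP : FP ht s P) (hs : s ≤ a) :
    FP ht a (P ++ R) ↔ FP ht (a - HT ht P) R := by
  induction P generalizing a s with
  | nil => simp [HT_nil]
  | cons b P ih =>
    rw [FP_cons] at hP
    rw [List.cons_append, FP_cons, ih hP.2 (by omega), HT_cons, Nat.sub_sub]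
    constructor
    · exact fun h => h.2
    · exact fun h => ⟨by omega, h⟩

lemma Dp_append (P R : List B) : Dp z (P ++ R) = Dp z P + Dp z R := by simp [Dp]

/-- auxiliary law with bounded overshoot -/
noncomputable def Wl (i0 h o : ℕ) (x : G) : ℝ≥0∞ :=
  ∑' P : List B, if FP ht (h - i0) P ∧ HT ht P + i0 = h + o ∧ o ≤ i0 ∧ Dp z P = x
    then LW Λ P else 0

lemma Wl_sum (h1 : ∀ b, 1 ≤ ht b) (hΛ : ∑' b, Λ b = 1) (i0 h : ℕ) :
    ∑' o, ∑' x, Wl ht Λ z i0 h o x ≤ 1 := by
  rw [← fp_one ht Λ h1 hΛ (h - i0)]
  simp only [Wl]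
  calc _ = ∑' o, ∑' P : List B, ∑' x, (if FP ht (h - i0) P ∧ HT ht P + i0 = h + o ∧ o ≤ i0 ∧
        Dp z P = x then LW Λ P else 0) := tsum_congr fun i => ENNReal.tsum_comm
    _ = ∑' P : List B, ∑' o, ∑' x, (if FP ht (h - i0) P ∧ HT ht P + i0 = h + o ∧ o ≤ i0 ∧
        Dp z P = x then LW Λ P else 0) := ENNReal.tsum_comm
    _ ≤ _ := ENNReal.tsum_le_tsum fun P => by
        by_cases hF : FP ht (h - i0) P ∧ h ≤ HT ht P + i0
        · rw [if_pos hF.1]
          refine le_trans ?_ (le_of_eq ((tsum_mark (G := G) (FP ht (h - i0) P ∧ h ≤ HT ht P + i0)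
            (HT ht P + i0) h (fun h => h.2) (Dp z P) (LW Λ P)).trans (if_pos hF)))
          refine ENNReal.tsum_le_tsum fun o => ENNReal.tsum_le_tsum fun x => ?_
          by_cases hc : FP ht (h - i0) P ∧ HT ht P + i0 = h + o ∧ o ≤ i0 ∧ Dp z P = x
          · rw [if_pos hc, if_pos ⟨hF, hc.2.1, hc.2.2.2⟩]
          · rw [if_neg hc]; exact zero_le
        · have : ∀ o x, ¬ (FP ht (h - i0) P ∧ HT ht P + i0 = h + o ∧ o ≤ i0 ∧ Dp z P = x) :=
            fun o x hc => hF ⟨hc.1, by omega⟩
          simp [this]

lemma Wl_rec (i0 s : ℕ) (h : ℕ) (hh : s + i0 ≤ h) (o : ℕ) (x : G) :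
    Wl ht Λ z i0 h o x ≤ ∑' i, ∑' y, if s + i ≤ h
      then pa ht Λ z s i y * Wl ht Λ z i0 (h - s - i) o (x - y) else 0 := by
  set F : List B → ℝ≥0∞ := fun L => if FP ht (h - i0) L ∧ HT ht L + i0 = h + o ∧ o ≤ i0 ∧
    Dp z L = x then LW Λ L else 0 with hF
  have e1 : Wl ht Λ z i0 h o x = ∑' L, (if s ≤ HT ht L then F L else 0) := by
    refine tsum_congr fun L => ?_
    by_cases hs : s ≤ HT ht L
    · rw [if_pos hs]
    · rw [if_neg hs, if_neg]
      rintro ⟨h2, -⟩
      have := FP.le ht h2
      omega
  rw [e1]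
  refine (tsum_split ht s F).trans ?_
  have e2 : ∀ P : List B, ∑' R, (if FP ht s P then F (P ++ R) else 0)
      ≤ ∑' i, ∑' y, (if s + i ≤ h then (if FP ht s P ∧ HT ht P = s + i ∧ Dp z P = y
        then LW Λ P else 0) * Wl ht Λ z i0 (h - s - i) o (x - y) else 0) := by
    intro P
    by_cases hP : FP ht s P
    · have hsP := FP.le ht hP
      by_cases hPh : HT ht P ≤ h
      · refine le_trans ?_ (ENNReal.le_tsum (HT ht P - s))
        refine le_trans ?_ (ENNReal.le_tsum (Dp z P))
        rw [if_pos (by omega), if_pos ⟨hP, by omega, rfl⟩, Wl, ← ENNReal.tsum_mul_left]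
        refine ENNReal.tsum_le_tsum fun R => ?_
        rw [if_pos hP]
        simp only [hF]
        by_cases hc : FP ht (h - i0) (P ++ R) ∧ HT ht (P ++ R) + i0 = h + o ∧ o ≤ i0 ∧
            Dp z (P ++ R) = x
        · rw [if_pos hc, LW_append, if_pos]
          obtain ⟨c1, c2, c3, c4⟩ := hc
          rw [FP_append ht P R hP (by omega)] at c1
          rw [HT_append] at c2
          rw [Dp_append] at c4
          refine ⟨?_, by omega, c3, ?_⟩
          · rwa [show h - s - (HT ht P - s) - i0 = h - i0 - HT ht P by omega]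
          · rw [← c4]; abel
        · rw [if_neg hc]; exact zero_le
      · have : ∀ R, (if FP ht s P then F (P ++ R) else 0) = 0 := by
          intro R
          rw [if_pos hP]
          simp only [hF]
          rw [if_neg]
          rintro ⟨-, c2, c3, -⟩
          rw [HT_append] at c2
          omega
        simp [this]
    · simp [hP]
  refine (ENNReal.tsum_le_tsum e2).trans (le_of_eq ?_)
  rw [ENNReal.tsum_comm]
  refine tsum_congr fun i => ?_
  rw [ENNReal.tsum_comm]
  refine tsum_congr fun y => ?_
  by_cases hi : s + i ≤ h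
  · simp only [hi, if_true]
    rw [ENNReal.tsum_mul_right]
    rfl
  · simp [hi]

/-- **smooth density of the first passage law**: off the constant `(i0+1) th ∑ q^j`, the law of
(overshoot, displacement) of the first passage of height `T` has total mass
`≤ q^J + ε ∑ q^j`. -/
theorem fp_dens (h1 : ∀ b, 1 ≤ ht b) (hΛ : ∑' b, Λ b = 1) (s i0 T J : ℕ) (th q ε : ℝ≥0∞)
    (hNG : ∑' i, ∑' x, (if i ≤ i0 ∧ th < pa ht Λ z s i x then pa ht Λ z s i x else 0) ≤ q)
    (hFar : ∑' i, ∑' x, (if i0 < i then pa ht Λ z s i x else 0) ≤ ε)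
    (hJ : J * (s + i0) ≤ T) :
    ∑' o, ∑' x, ((if o ≤ i0 then pa ht Λ z T o x else 0)
      - (i0 + 1) * th * ∑ j ∈ range J, q ^ j) ≤ q ^ J + ε * ∑ j ∈ range J, q ^ j := by
  obtain ⟨Ag, Bb, h2, h3, h4⟩ := dens_mark (fun h o x => Wl ht Λ z i0 h o x)
    (fun i x => pa ht Λ z s i x) s i0 (fun h hh o x => Wl_rec ht Λ z i0 s h hh o x)
    (fun h => Wl_sum ht Λ z h1 hΛ i0 h) th q ε hNG hFar J (T + i0) (by omega)
  refine le_trans (ENNReal.tsum_le_tsum fun o => ENNReal.tsum_le_tsum fun x => ?_) h4
  have e : (if o ≤ i0 then pa ht Λ z T o x else 0) ≤ Wl ht Λ z i0 (T + i0) o x := by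
    by_cases ho : o ≤ i0
    · rw [if_pos ho, pa, Wl]
      refine ENNReal.tsum_le_tsum fun P => ?_
      by_cases hc : FP ht T P ∧ HT ht P = T + o ∧ Dp z P = x
      · rw [if_pos hc, if_pos]
        refine ⟨by rw [Nat.add_sub_cancel]; exact hc.1, by omega, ho, hc.2.2⟩
      · rw [if_neg hc]; exact zero_le
    · rw [if_neg ho]; exact zero_le
  rw [tsub_le_iff_left]
  exact e.trans ((h2 o x).trans (add_le_add (h3 o x) le_rfl))

end law

end Crest.Agent.R154.FPD162
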