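import Crest.Agent.R154.B5Abs_566

/-! Row 154, KAPPA' (801 #38888): first passage lists of a block system (helper32). -/

set_option autoImplicit false

namespace Crest.Agent.R154.FPL32

open Crest.Agent.R154.B5A
open scoped ENNReal
open Classical

variable {B : Type*} (Λ : B → ℝ≥0∞) (ht : B → ℕ)

/-- `L` is the first passage list of depth `a`: `a ≤ HT L`, and no proper prefix reaches `a` -/
def FP : ℕ → List B → Prop
  | a, [] => a = 0
  | a, b :: L => 0 < a ∧ FP (a - ht b) L

lemma FP_le {a : ℕ} {L : List B} (h : FP ht a L) : a ≤ HT ht L := by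
  induction L generalizing a with
  | nil => simp only [FP] at h; omega
  | cons b L ih => have := ih h.2; rw [HT_cons]; omega

lemma tsum_FP (a : ℕ) (F : List B → ℝ≥0∞) :
    ∑' L, (if FP ht a L then F L else 0) =
      if a = 0 then F [] else ∑' b, ∑' L, (if FP ht (a - ht b) L then F (b :: L) else 0) := by
  rw [tsum_list]
  rcases Nat.eq_zero_or_pos a with h | h
  · subst h
    simp [FP]
  · rw [if_neg (by omega : ¬ a = 0)]
    have e1 : ¬ FP ht a [] := by simp only [FP]; omega
    rw [if_neg e1, zero_add]
    refine tsum_congr fun b => tsum_congr fun L => ?_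
    have : FP ht a (b :: L) ↔ FP ht (a - ht b) L := by simp only [FP]; exact and_iff_right h
    simp only [this]

lemma fp_split (h1 : ∀ b, 1 ≤ ht b) (a : ℕ) (F : List B → ℝ≥0∞) :
    ∑' L, (if a ≤ HT ht L then F L else 0) =
      ∑' A, (if FP ht a A then ∑' R, F (A ++ R) else 0) := by
  induction a using Nat.strong_induction_on generalizing F with
  | _ a ih =>
    rw [tsum_FP, tsum_list]
    rcases Nat.eq_zero_or_pos a with h | h
    · subst h
      simp only [Nat.zero_le, if_true, List.nil_append]
      rw [tsum_list]
    · rw [if_neg (by omega : ¬ a = 0), if_neg (by rw [HT_nil]; omega), zero_add]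
      refine tsum_congr fun b => ?_
      have := ih (a - ht b) (by have := h1 b; omega) (fun L => F (b :: L))
      simp only [List.cons_append] at this ⊢
      rw [← this]
      refine tsum_congr fun L => ?_
      have e : a ≤ HT ht (b :: L) ↔ a - ht b ≤ HT ht L := by rw [HT_cons]; omega
      simp only [e]

lemma fp_mass (h1 : ∀ b, 1 ≤ ht b) (hΛ : ∑' b, Λ b = 1) (a : ℕ) :
    ∑' L, (if FP ht a L then LW Λ L else 0) = 1 := by
  induction a using Nat.strong_induction_on with
  | _ a ih =>
    rw [tsum_FP]
    split_ifs with h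
    · exact LW_nil Λ
    · rw [← hΛ]
      refine tsum_congr fun b => ?_
      have := ih (a - ht b) (by have := h1 b; omega)
      simp only [LW_cons]
      calc _ = ∑' L, Λ b * (if FP ht (a - ht b) L then LW Λ L else 0) := by
            refine tsum_congr fun L => ?_
            split_ifs <;> simp
        _ = Λ b := by rw [ENNReal.tsum_mul_left, this, mul_one]

lemma fp_comp (h1 : ∀ b, 1 ≤ ht b) (T a : ℕ) (hTa : T ≤ a) (F : List B → ℝ≥0∞) :
    ∑' L, (if FP ht a L then F L else 0) =
      ∑' P, (if FP ht T P then ∑' L, (if FP ht (a - HT ht P) L then F (P ++ L) else 0) else 0) := by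
  induction T using Nat.strong_induction_on generalizing a F with
  | _ T ih =>
    rw [tsum_FP ht T]
    rcases Nat.eq_zero_or_pos T with h | h
    · subst h
      simp [HT_nil]
    · rw [if_neg (by omega : ¬ T = 0), tsum_FP ht a, if_neg (by omega : ¬ a = 0)]
      refine tsum_congr fun b => ?_
      have := ih (T - ht b) (by have := h1 b; omega) (a - ht b) (by omega) (fun L => F (b :: L))
      rw [this]
      refine tsum_congr fun P => ?_
      rw [HT_cons, Nat.sub_sub]
      simp only [List.cons_append]

lemma FP_self (h1 : ∀ b, 1 ≤ ht b) (L : List B) : FP ht (HT ht L) L := by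
  induction L with
  | nil => simp [FP, HT_nil]
  | cons b L ih =>
    refine ⟨?_, ?_⟩
    · rw [HT_cons]; have := h1 b; omega
    · rw [HT_cons]
      have : ht b + HT ht L - ht b = HT ht L := by omega
      rw [this]; exact ih

lemma U_le_one (h1 : ∀ b, 1 ≤ ht b) (hΛ : ∑' b, Λ b = 1) (n : ℕ) :
    ∑' L, (if HT ht L = n then LW Λ L else 0) ≤ 1 := by
  rw [← fp_mass Λ ht h1 hΛ n]
  refine ENNReal.tsum_le_tsum fun L => ?_
  by_cases h : HT ht L = n
  · rw [if_pos h, if_pos]
    rw [← h]; exact FP_self ht h1 L
  · rw [if_neg h]; exact zero_le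

/-- overshoot bound -/
noncomputable def ov (i : ℕ) : ℝ≥0∞ := ∑' b, Λ b * ((ht b - i : ℕ) : ℝ≥0∞)

lemma fp_over (h1 : ∀ b, 1 ≤ ht b) (hΛ : ∑' b, Λ b = 1) (i a : ℕ) :
    ∑' L, (if FP ht a L ∧ a + i < HT ht L then LW Λ L else 0) ≤ ov Λ ht i := by
  have hlast : ∀ (A : List B) (b : B) (a : ℕ), FP ht a (A ++ [b]) → HT ht A < a := by
    intro A b
    induction A with
    | nil =>
      intro a h
      simp only [List.nil_append, FP] at h
      rw [HT_nil]; omega
    | cons c A ih =>
      intro a h
      simp only [List.cons_append, FP] at h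
      have := ih (a - ht c) h.2
      rw [HT_cons]; omega
  have e : ∀ L : List B, (if FP ht a L ∧ a + i < HT ht L then LW Λ L else 0) ≤
      ∑' b, (∑' A, if A ++ [b] = L ∧ HT ht A < a ∧ a + i < HT ht A + ht b
        then LW Λ A * Λ b else 0) := by
    intro L
    split_ifs with h
    · obtain ⟨h1', h2'⟩ := h
      rcases List.eq_nil_or_concat L with h0 | ⟨A, b, h0⟩
      · subst h0; rw [HT_nil] at h2'; omega
      · rw [List.concat_eq_append] at h0
        subst h0
        have hA : HT ht A < a := hlast A b a h1'
        refine le_trans ?_ (ENNReal.le_tsum b)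
        refine le_trans ?_ (ENNReal.le_tsum A)
        rw [if_pos ⟨rfl, hA, by rw [HT_append, HT_cons, HT_nil] at h2'; omega⟩, LW_append,
          LW_cons, LW_nil, mul_one]
    · exact zero_le
  calc _ ≤ ∑' L : List B, ∑' b, (∑' A, if A ++ [b] = L ∧ HT ht A < a ∧ a + i < HT ht A + ht b
        then LW Λ A * Λ b else 0) := ENNReal.tsum_le_tsum e
    _ = ∑' b, ∑' A : List B, ∑' L : List B,
        (if A ++ [b] = L ∧ HT ht A < a ∧ a + i < HT ht A + ht b then LW Λ A * Λ b else 0) := by
        rw [ENNReal.tsum_comm]
        refine tsum_congr fun b => ?_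
        rw [ENNReal.tsum_comm]
    _ = ∑' b, ∑' A : List B,
        (if HT ht A < a ∧ a + i < HT ht A + ht b then LW Λ A * Λ b else 0) := by
        refine tsum_congr fun b => tsum_congr fun A => ?_
        rw [tsum_eq_single (A ++ [b])]
        · simp
        · intro L hL
          rw [if_neg]
          intro h
          exact hL h.1.symm
    _ ≤ ∑' b, Λ b * ((ht b - i : ℕ) : ℝ≥0∞) := by
        refine ENNReal.tsum_le_tsum fun b => ?_
        calc _ = ∑' A : List B, Λ b *
              (if HT ht A < a ∧ a + i < HT ht A + ht b then LW Λ A else 0) := by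
              refine tsum_congr fun A => ?_
              split_ifs <;> simp [mul_comm]
          _ = Λ b * ∑' A : List B,
              (if HT ht A < a ∧ a + i < HT ht A + ht b then LW Λ A else 0) :=
              ENNReal.tsum_mul_left
          _ ≤ _ := by
              gcongr
              calc _ ≤ ∑' A : List B, ∑ j ∈ Finset.Ico (a - (ht b - i)) a,
                    (if HT ht A = j then LW Λ A else 0) := by
                    refine ENNReal.tsum_le_tsum fun A => ?_
                    split_ifs with h
                    · have hm : HT ht A ∈ Finset.Ico (a - (ht b - i)) a := by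
                        rw [Finset.mem_Ico]; omega
                      refine le_trans ?_ (Finset.single_le_sum
                        (f := fun j => if HT ht A = j then LW Λ A else 0)
                        (fun _ _ => zero_le) hm)
                      simp
                    · exact zero_le
                _ = ∑ j ∈ Finset.Ico (a - (ht b - i)) a,
                    ∑' A : List B, (if HT ht A = j then LW Λ A else 0) :=
                    Summable.tsum_finsetSum fun _ _ => ENNReal.summable
                _ ≤ ∑ _j ∈ Finset.Ico (a - (ht b - i)) a, 1 :=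
                    Finset.sum_le_sum fun j _ => U_le_one Λ ht h1 hΛ j
                _ ≤ ((ht b - i : ℕ) : ℝ≥0∞) := by
                    simp only [Finset.sum_const, Nat.card_Ico, nsmul_eq_mul, mul_one]
                    exact_mod_cast (by omega : a - (a - (ht b - i)) ≤ ht b - i)

/-- the overshoot bound tends to zero -/
lemma ov_small (hm : ∑' b, Λ b * (ht b : ℝ≥0∞) ≠ ⊤) (ε : ℝ≥0∞) (hε : ε ≠ 0) :
    ∃ i0 : ℕ, ∀ i, i0 ≤ i → ov Λ ht i ≤ ε := by
  have h := ENNReal.tendsto_tsum_compl_atTop_zero hm
  have h2 := (ENNReal.tendsto_nhds_zero.1 h) ε (pos_iff_ne_zero.2 hε)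
  obtain ⟨s, hs⟩ := Filter.eventually_atTop.1 h2
  have hs' := hs s le_rfl
  refine ⟨s.sup ht, fun i hi => ?_⟩
  refine le_trans ?_ hs'
  rw [ov]
  calc ∑' b, Λ b * ((ht b - i : ℕ) : ℝ≥0∞)
      ≤ ∑' b, (if b ∈ s then 0 else Λ b * (ht b : ℝ≥0∞)) := by
        refine ENNReal.tsum_le_tsum fun b => ?_
        split_ifs with hb
        · have : ht b ≤ s.sup ht := Finset.le_sup hb
          have : ht b - i = 0 := by omega
          simp [this]
        · gcongr
          omega
    _ = ∑' b : ↥((s : Set B)ᶜ), Λ b * (ht b : ℝ≥0∞) := by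
        rw [tsum_subtype ((s : Set B)ᶜ) (fun b => Λ b * (ht b : ℝ≥0∞))]
        refine tsum_congr fun b => ?_
        by_cases hb : b ∈ s
        · simp [hb]
        · simp [hb]
    _ ≤ _ := by
        exact le_of_eq rfl

end Crest.Agent.R154.FPL32
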