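import Crest.Agent.R154.B5Abs_566

/-! Row 154, ROAD 801: first passage sums over lists of blocks, density of the renewal position
(helper751). -/

set_option autoImplicit false

namespace Crest.Agent.R154.Asm751

open scoped ENNReal
open Crest.Agent.R154.B5A (LW HT LW_nil LW_cons LW_append HT_nil HT_cons HT_append tsum_list U tail)

variable {B : Type*}

/-- `L` is minimal with height at least `a` -/
def FP (ht : B → ℕ) : List B → ℕ → Prop
  | [], a => a = 0
  | b :: L, a => a ≠ 0 ∧ FP ht L (a - ht b)

open Classical in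
/-- first passage sum -/
noncomputable def R (Λ : B → ℝ≥0∞) (ht : B → ℕ) (a : ℕ) (F : List B → ℝ≥0∞) : ℝ≥0∞ :=
  ∑' L, if FP ht L a then LW Λ L * F L else 0

lemma FP_le (ht : B → ℕ) (L : List B) (a : ℕ) (h : FP ht L a) : a ≤ HT ht L := by
  induction L generalizing a with
  | nil => simp only [FP] at h; omega
  | cons b L ih =>
    have := ih _ h.2
    rw [HT_cons]; omega

variable (Λ : B → ℝ≥0∞) (ht : B → ℕ)

lemma R_zero (F : List B → ℝ≥0∞) : R Λ ht 0 F = F [] := by
  rw [R, tsum_list]
  simp [FP, LW_nil]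

lemma R_pos (a : ℕ) (ha : a ≠ 0) (F : List B → ℝ≥0∞) :
    R Λ ht a F = ∑' b, Λ b * R Λ ht (a - ht b) (fun L => F (b :: L)) := by
  rw [R, tsum_list]
  rw [if_neg (show ¬ FP ht [] a from ha), zero_add]
  refine tsum_congr fun b => ?_
  rw [R, ← ENNReal.tsum_mul_left]
  refine tsum_congr fun L => ?_
  by_cases h : FP ht L (a - ht b)
  · rw [if_pos (show FP ht (b :: L) a from ⟨ha, h⟩), if_pos h, LW_cons, mul_assoc]
  · rw [if_neg (fun hh : FP ht (b :: L) a => h hh.2), if_neg h, mul_zero]

lemma R_mono (a : ℕ) {F F' : List B → ℝ≥0∞} (h : ∀ L, FP ht L a → F L ≤ F' L) :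
    R Λ ht a F ≤ R Λ ht a F' := by
  refine ENNReal.tsum_le_tsum fun L => ?_
  split_ifs with hL
  · exact mul_le_mul_right (h L hL) _
  · exact le_rfl

lemma R_congr (a : ℕ) {F F' : List B → ℝ≥0∞} (h : ∀ L, FP ht L a → F L = F' L) :
    R Λ ht a F = R Λ ht a F' :=
  le_antisymm (R_mono Λ ht a fun L hL => (h L hL).le) (R_mono Λ ht a fun L hL => (h L hL).ge)

lemma R_add (a : ℕ) (F F' : List B → ℝ≥0∞) :
    R Λ ht a (fun L => F L + F' L) = R Λ ht a F + R Λ ht a F' := by
  rw [R, R, R, ← ENNReal.tsum_add]
  refine tsum_congr fun L => ?_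
  split_ifs <;> simp [mul_add]

lemma R_mul (a : ℕ) (c : ℝ≥0∞) (F : List B → ℝ≥0∞) :
    R Λ ht a (fun L => c * F L) = c * R Λ ht a F := by
  rw [R, R, ← ENNReal.tsum_mul_left]
  refine tsum_congr fun L => ?_
  split_ifs
  · ring
  · simp

lemma R_mul' (a : ℕ) (c : ℝ≥0∞) (F : List B → ℝ≥0∞) :
    R Λ ht a (fun L => F L * c) = R Λ ht a F * c := by
  rw [mul_comm, ← R_mul]
  exact R_congr Λ ht a fun L _ => mul_comm _ _

lemma R_tsum {ι : Type*} (a : ℕ) (F : ι → List B → ℝ≥0∞) :
    R Λ ht a (fun L => ∑' i, F i L) = ∑' i, R Λ ht a (F i) := by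
  simp only [R]
  rw [ENNReal.tsum_comm]
  refine tsum_congr fun L => ?_
  split_ifs
  · rw [ENNReal.tsum_mul_left]
  · simp

lemma R_one (hΛ : ∑' b, Λ b = 1) (h1 : ∀ b, 1 ≤ ht b) (a : ℕ) :
    R Λ ht a (fun _ => 1) = 1 := by
  induction a using Nat.strong_induction_on with
  | _ a ih =>
    by_cases ha : a = 0
    · subst ha; rw [R_zero]
    · rw [R_pos Λ ht a ha]
      calc ∑' b, Λ b * R Λ ht (a - ht b) (fun _ => 1) = ∑' b, Λ b :=
            tsum_congr fun b => by rw [ih (a - ht b) (by have := h1 b; omega), mul_one]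
        _ = 1 := hΛ

lemma R_const (hΛ : ∑' b, Λ b = 1) (h1 : ∀ b, 1 ≤ ht b) (a : ℕ) (c : ℝ≥0∞) :
    R Λ ht a (fun _ => c) = c := by
  have := R_mul Λ ht a c (fun _ => 1)
  simp only [mul_one, R_one Λ ht hΛ h1] at this
  exact this

lemma R_swap {B' : Type*} (Λ' : B' → ℝ≥0∞) (ht' : B' → ℕ) (a a' : ℕ)
    (F : List B → List B' → ℝ≥0∞) :
    R Λ ht a (fun L => R Λ' ht' a' (fun L' => F L L'))
      = R Λ' ht' a' (fun L' => R Λ ht a (fun L => F L L')) := by
  classical
  have e1 : R Λ ht a (fun L => R Λ' ht' a' (fun L' => F L L'))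
      = ∑' L, ∑' L', if FP ht L a ∧ FP ht' L' a' then LW Λ L * LW Λ' L' * F L L' else 0 := by
    rw [R]
    refine tsum_congr fun L => ?_
    by_cases h : FP ht L a
    · simp only [h, if_true, true_and]
      rw [R, ← ENNReal.tsum_mul_left]
      refine tsum_congr fun L' => ?_
      split_ifs
      · ring
      · simp
    · simp [h]
  have e2 : R Λ' ht' a' (fun L' => R Λ ht a (fun L => F L L'))
      = ∑' L', ∑' L, if FP ht L a ∧ FP ht' L' a' then LW Λ L * LW Λ' L' * F L L' else 0 := by
    rw [R]
    refine tsum_congr fun L' => ?_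
    by_cases h : FP ht' L' a'
    · simp only [h, if_true, and_true]
      rw [R, ← ENNReal.tsum_mul_left]
      refine tsum_congr fun L => ?_
      split_ifs
      · ring
      · simp
    · simp [h]
  rw [e1, e2, ENNReal.tsum_comm]

/-- **split** at the first passage -/
lemma split (h1 : ∀ b, 1 ≤ ht b) (A : ℕ) (F : List B → ℝ≥0∞) :
    ∑' L, (if A ≤ HT ht L then LW Λ L * F L else 0)
      = R Λ ht A (fun L1 => ∑' L', LW Λ L' * F (L1 ++ L')) := by
  induction A using Nat.strong_induction_on generalizing F with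
  | _ A ih =>
    by_cases hA : A = 0
    · subst hA; rw [R_zero]; simp
    · rw [R_pos Λ ht A hA, tsum_list]
      simp only [HT_nil, Nat.le_zero, hA, if_false, zero_add]
      refine tsum_congr fun b => ?_
      simp only [List.cons_append]
      rw [← ih (A - ht b) (by have := h1 b; omega) (fun L => F (b :: L)), ← ENNReal.tsum_mul_left]
      refine tsum_congr fun L => ?_
      have : (A ≤ HT ht (b :: L)) ↔ (A - ht b ≤ HT ht L) := by rw [HT_cons]; omega
      simp only [this]
      split_ifs
      · rw [LW_cons, mul_assoc]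
      · simp

/-- Markov property of first passages -/
lemma markov (h1 : ∀ b, 1 ≤ ht b) (A N : ℕ) (hAN : A ≤ N) (F : List B → ℝ≥0∞) :
    R Λ ht N F = R Λ ht A (fun L1 => R Λ ht (N - HT ht L1) (fun L2 => F (L1 ++ L2))) := by
  induction A using Nat.strong_induction_on generalizing F N with
  | _ A ih =>
    by_cases hA : A = 0
    · subst hA; rw [R_zero]; simp [HT_nil]
    · rw [R_pos Λ ht A hA, R_pos Λ ht N (by omega)]
      refine tsum_congr fun b => ?_
      rw [ih (A - ht b) (by have := h1 b; omega) (N - ht b) (by omega)]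
      congr 1
      refine R_congr Λ ht _ fun L _ => ?_
      rw [HT_cons, Nat.sub_sub]
      rfl

open Classical in
/-- overshoot tail -/
noncomputable def ep (i0 : ℕ) : ℝ≥0∞ := ∑' j : ℕ, ∑' b, (if j + 1 + i0 < ht b then Λ b else 0)

open Classical in
lemma over_aux (hΛ : ∑' b, Λ b = 1) (h1 : ∀ b, 1 ≤ ht b) (i0 A : ℕ) :
    R Λ ht A (fun L => if A + i0 < HT ht L then 1 else 0)
      ≤ ∑ j ∈ Finset.range A, ∑' b, (if j + 1 + i0 < ht b then Λ b else 0) := by
  induction A using Nat.strong_induction_on with
  | _ A ih =>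
    by_cases hA : A = 0
    · subst hA; rw [R_zero]; simp [HT_nil]
    · obtain ⟨A', rfl⟩ : ∃ A', A = A' + 1 := ⟨A - 1, by omega⟩
      rw [R_pos Λ ht _ hA, Finset.sum_range_succ]
      set S := ∑ j ∈ Finset.range A', ∑' b, (if j + 1 + i0 < ht b then Λ b else 0) with hS
      calc _ ≤ ∑' b, (Λ b * S + (if A' + 1 + i0 < ht b then Λ b else 0)) := by
            refine ENNReal.tsum_le_tsum fun b => ?_
            by_cases hb : A' + 1 ≤ ht b
            · have h0 : A' + 1 - ht b = 0 := by omega
              rw [h0, R_zero]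
              simp only [HT_cons, HT_nil, add_zero]
              split_ifs <;> simp
            · have hlt : A' + 1 - ht b < A' + 1 := by have := h1 b; omega
              have e : R Λ ht (A' + 1 - ht b) (fun L => if A' + 1 + i0 < HT ht (b :: L) then 1 else 0)
                  = R Λ ht (A' + 1 - ht b)
                    (fun L => if (A' + 1 - ht b) + i0 < HT ht L then 1 else 0) := by
                refine R_congr Λ ht _ fun L _ => ?_
                have : (A' + 1 + i0 < HT ht (b :: L)) ↔ (A' + 1 - ht b) + i0 < HT ht L := by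
                  rw [HT_cons]; omega
                simp only [this]
              rw [e]
              refine le_add_right (mul_le_mul_right ((ih _ hlt).trans ?_) _)
              refine Finset.sum_le_sum_of_subset ?_
              refine Finset.range_subset_range.2 ?_
              have := h1 b; omega
        _ = S + _ := by
            rw [ENNReal.tsum_add, ENNReal.tsum_mul_right, hΛ, one_mul]

open Classical in
lemma over_le (hΛ : ∑' b, Λ b = 1) (h1 : ∀ b, 1 ≤ ht b) (i0 A : ℕ) :
    R Λ ht A (fun L => if A + i0 < HT ht L then 1 else 0) ≤ ep Λ ht i0 :=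
  (over_aux Λ ht hΛ h1 i0 A).trans (ENNReal.sum_le_tsum _)

open Classical in
lemma ep_tendsto (hΛ : ∑' b, Λ b = 1) (hm : ∑' b, Λ b * (ht b : ℝ≥0∞) ≠ ⊤) :
    Filter.Tendsto (ep Λ ht) Filter.atTop (nhds 0) := by
  have hs : ∑' k, tail Λ ht k ≠ ⊤ := by rw [← B5A.sum_tail Λ ht hΛ]; exact hm
  have := ENNReal.tendsto_sum_nat_add (fun k => tail Λ ht k) hs
  have hle : ∀ i0, ep Λ ht i0 ≤ ∑' k, tail Λ ht (k + i0) := by
    intro i0
    refine ENNReal.tsum_le_tsum fun j => ?_
    rw [tail]
    refine ENNReal.tsum_le_tsum fun b => ?_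
    split_ifs with h h'
    · exact le_rfl
    · omega
    · exact zero_le
    · exact le_rfl
  exact tendsto_of_tendsto_of_tendsto_of_le_of_le tendsto_const_nhds this (fun _ => zero_le) hle

/-! ### density -/

variable {G : Type*} [AddCommGroup G]

lemma swap4 (s : Finset ℕ) (X : ℕ → G → ℕ → G → ℝ≥0∞) :
    ∑' i, ∑' z, ∑ i' ∈ s, ∑' z', X i z i' z' = ∑ i' ∈ s, ∑' z', ∑' i, ∑' z, X i z i' z' := by
  calc ∑' i, ∑' z, ∑ i' ∈ s, ∑' z', X i z i' z'
      = ∑' i, ∑ i' ∈ s, ∑' z, ∑' z', X i z i' z' :=
        tsum_congr fun i => Summable.tsum_finsetSum (fun _ _ => ENNReal.summable)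
    _ = ∑ i' ∈ s, ∑' i, ∑' z, ∑' z', X i z i' z' :=
        Summable.tsum_finsetSum (fun _ _ => ENNReal.summable)
    _ = ∑ i' ∈ s, ∑' z', ∑' i, ∑' z, X i z i' z' := by
        refine Finset.sum_congr rfl fun i' _ => ?_
        rw [ENNReal.tsum_comm (f := fun z' i => ∑' z, X i z i' z')]
        exact tsum_congr fun i => ENNReal.tsum_comm

/-- abstract density lemma with a spectator index -/
theorem dens (p : ℕ → G → ℝ≥0∞) (f o : ℕ → ℕ → G → ℝ≥0∞) (T i0 : ℕ) (th q ε g : ℝ≥0∞)
    (hrec : ∀ r, T + i0 ≤ r → ∀ i z, f r i z ≤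
      (∑ i' ∈ Finset.range (i0 + 1), ∑' z', p i' z' * f (r - T - i') i (z - z')) + o r i z)
    (hf : ∀ r, ∑' i, ∑' z, f r i z ≤ 1)
    (ho : ∀ r, T + i0 ≤ r → ∑' i, ∑' z, o r i z ≤ ε)
    (hq : ∑ i' ∈ Finset.range (i0 + 1), ∑' z', (if th < p i' z' then p i' z' else 0) ≤ q)
    (hq1 : q ≤ 1)
    (hG : (i0 + 1 : ℕ) * th + q * g ≤ g) :
    ∀ J r, J * (T + i0) ≤ r → ∃ b : ℕ → G → ℝ≥0∞,
      (∑' i, ∑' z, b i z ≤ q ^ J + J * ε) ∧ ∀ i z, f r i z ≤ g + b i z := by
  intro J
  induction J with
  | zero =>
    intro r _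
    exact ⟨f r, by simpa using hf r, fun i z => le_add_self⟩
  | succ J ih =>
    intro r hr
    have hTr : T + i0 ≤ r := by nlinarith
    have hrem : ∀ i, i ∈ Finset.range (i0 + 1) → J * (T + i0) ≤ r - T - i := by
      intro i hi
      have h0 := Finset.mem_range.1 hi
      have : J * (T + i0) + (T + i0) ≤ r := by nlinarith
      omega
    choose! b hb1 hb2 using fun i (hi : i ∈ Finset.range (i0 + 1)) => ih (r - T - i) (hrem i hi)
    refine ⟨fun i z => (∑ i' ∈ Finset.range (i0 + 1), ∑' z',
      (if th < p i' z' then p i' z' else 0) * b i' i (z - z')) + o r i z, ?_, ?_⟩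
    · have e1 : ∑' i, ∑' z, ∑ i' ∈ Finset.range (i0 + 1), ∑' z',
          (if th < p i' z' then p i' z' else 0) * b i' i (z - z') ≤ q * (q ^ J + J * ε) := by
        calc ∑' i, ∑' z, ∑ i' ∈ Finset.range (i0 + 1), ∑' z',
              (if th < p i' z' then p i' z' else 0) * b i' i (z - z')
            = ∑ i' ∈ Finset.range (i0 + 1), ∑' z', ∑' i, ∑' z,
              (if th < p i' z' then p i' z' else 0) * b i' i (z - z') := by
              exact swap4 _ _
          _ ≤ ∑ i' ∈ Finset.range (i0 + 1), ∑' z',
              (if th < p i' z' then p i' z' else 0) * (q ^ J + J * ε) := by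
              refine Finset.sum_le_sum fun i' hi' => ENNReal.tsum_le_tsum fun z' => ?_
              simp_rw [ENNReal.tsum_mul_left]
              gcongr
              have : ∀ i, ∑' z, b i' i (z - z') = ∑' z, b i' i z := fun i =>
                (Equiv.subRight z').tsum_eq fun z => b i' i z
              simp_rw [this]
              exact hb1 i' hi'
          _ = (∑ i' ∈ Finset.range (i0 + 1), ∑' z',
              (if th < p i' z' then p i' z' else 0)) * (q ^ J + J * ε) := by
              simp_rw [ENNReal.tsum_mul_right]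
              rw [Finset.sum_mul]
          _ ≤ _ := by gcongr
      calc _ = (∑' i, ∑' z, ∑ i' ∈ Finset.range (i0 + 1), ∑' z',
              (if th < p i' z' then p i' z' else 0) * b i' i (z - z')) + ∑' i, ∑' z, o r i z := by
            simp_rw [ENNReal.tsum_add]
        _ ≤ q * (q ^ J + J * ε) + ε := add_le_add e1 (ho r hTr)
        _ = q ^ (J + 1) + (q * (J * ε) + ε) := by ring
        _ ≤ q ^ (J + 1) + (1 * (J * ε) + ε) := by gcongr
        _ = q ^ (J + 1) + ((J + 1 : ℕ) : ℝ≥0∞) * ε := by push_cast; ring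
    · intro i z
      refine (hrec r hTr i z).trans ?_
      rw [← add_assoc]
      gcongr
      calc ∑ i' ∈ Finset.range (i0 + 1), ∑' z', p i' z' * f (r - T - i') i (z - z')
          ≤ ∑ i' ∈ Finset.range (i0 + 1), ((th + (∑' z', (if th < p i' z' then p i' z' else 0)) * g)
            + ∑' z', (if th < p i' z' then p i' z' else 0) * b i' i (z - z')) := by
            refine Finset.sum_le_sum fun i' hi' => ?_
            have hf1 : ∑' z', f (r - T - i') i (z - z') ≤ 1 := by
              have : ∑' z', f (r - T - i') i (z - z') = ∑' z', f (r - T - i') i z' :=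
                (Equiv.subLeft z).tsum_eq fun z' => f (r - T - i') i z'
              rw [this]
              exact (ENNReal.le_tsum i).trans (hf (r - T - i'))
            calc ∑' z', p i' z' * f (r - T - i') i (z - z')
                ≤ ∑' z', ((th * f (r - T - i') i (z - z') + (if th < p i' z' then p i' z' else 0) * g)
                  + (if th < p i' z' then p i' z' else 0) * b i' i (z - z')) := by
                  refine ENNReal.tsum_le_tsum fun z' => ?_
                  by_cases hp : th < p i' z'
                  · simp only [hp, if_true]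
                    calc p i' z' * f (r - T - i') i (z - z')
                        ≤ p i' z' * (g + b i' i (z - z')) := by gcongr; exact hb2 i' hi' _ _
                      _ = p i' z' * g + p i' z' * b i' i (z - z') := by ring
                      _ ≤ _ := by gcongr; exact le_add_self
                  · simp only [hp, if_false, zero_mul, add_zero]
                    gcongr
                    exact not_lt.1 hp
              _ = (th * ∑' z', f (r - T - i') i (z - z') +
                    (∑' z', (if th < p i' z' then p i' z' else 0)) * g)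
                  + ∑' z', (if th < p i' z' then p i' z' else 0) * b i' i (z - z') := by
                  rw [ENNReal.tsum_add, ENNReal.tsum_add, ENNReal.tsum_mul_left,
                    ENNReal.tsum_mul_right]
              _ ≤ _ := by
                  gcongr
                  calc th * ∑' z', f (r - T - i') i (z - z') ≤ th * 1 := by gcongr
                    _ = th := mul_one _
        _ = ((i0 + 1 : ℕ) * th + (∑ i' ∈ Finset.range (i0 + 1),
              ∑' z', (if th < p i' z' then p i' z' else 0)) * g)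
            + ∑ i' ∈ Finset.range (i0 + 1),
              ∑' z', (if th < p i' z' then p i' z' else 0) * b i' i (z - z') := by
            rw [Finset.sum_add_distrib, Finset.sum_add_distrib, Finset.sum_const, Finset.card_range,
              nsmul_eq_mul, Finset.sum_mul]
        _ ≤ g + ∑ i' ∈ Finset.range (i0 + 1),
              ∑' z', (if th < p i' z' then p i' z' else 0) * b i' i (z - z') := by
            gcongr
            exact le_trans (by gcongr) hG

/-! ### the law of the first passage -/

variable {Λ ht}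

lemma FP_HT (h1 : ∀ b, 1 ≤ ht b) (L : List B) : FP ht L (HT ht L) := by
  induction L with
  | nil => rfl
  | cons b L ih =>
    rw [HT_cons]
    refine ⟨by have := h1 b; omega, ?_⟩
    rw [Nat.add_sub_cancel_left]; exact ih

lemma U_le (hΛ : ∑' b, Λ b = 1) (h1 : ∀ b, 1 ≤ ht b) (n : ℕ) :
    ∑' L : List B, (if HT ht L = n then LW Λ L else 0) ≤ 1 := by
  rw [← R_one Λ ht hΛ h1 n, R]
  refine ENNReal.tsum_le_tsum fun L => ?_
  split_ifs with h h' h'
  · rw [mul_one]
  · exact absurd (h ▸ FP_HT h1 L) h'
  · exact zero_le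
  · exact le_rfl

/-- displacement -/
def dp (zz : B → G) (L : List B) : G := (L.map zz).sum

lemma dp_append (zz : B → G) (L L' : List B) : dp zz (L ++ L') = dp zz L + dp zz L' := by
  simp [dp]

open Classical in
/-- law of the first passage -/
noncomputable def law (Λ : B → ℝ≥0∞) (ht : B → ℕ) (zz : B → G) (D i : ℕ) (x : G) : ℝ≥0∞ :=
  R Λ ht D (fun L => if HT ht L = D + i ∧ dp zz L = x then 1 else 0)

open Classical in
lemma R_law (zz : B → G) (D : ℕ) (Φ : ℕ → G → ℝ≥0∞) :
    R Λ ht D (fun L => Φ (HT ht L) (dp zz L)) = ∑' i, ∑' x, law Λ ht zz D i x * Φ (D + i) x := by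
  have e : ∀ L, FP ht L D → Φ (HT ht L) (dp zz L) = ∑' i, ∑' x,
      (if HT ht L = D + i ∧ dp zz L = x then 1 else 0) * Φ (D + i) x := by
    intro L hL
    have hD := FP_le ht L D hL
    rw [tsum_eq_single (HT ht L - D), tsum_eq_single (dp zz L)]
    · have h1 : HT ht L = D + (HT ht L - D) := by omega
      rw [if_pos ⟨h1, rfl⟩, one_mul, ← h1]
    · intro x hx
      rw [if_neg (fun h => hx h.2.symm), zero_mul]
    · intro i hi
      rw [ENNReal.tsum_eq_zero]
      intro x
      rw [if_neg (fun h => hi (by omega)), zero_mul]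
  rw [R_congr Λ ht D e, R_tsum]
  refine tsum_congr fun i => ?_
  rw [R_tsum]
  refine tsum_congr fun x => ?_
  rw [R_mul' Λ ht, law]

lemma law_sum (hΛ : ∑' b, Λ b = 1) (h1 : ∀ b, 1 ≤ ht b) (zz : B → G) (D : ℕ) :
    ∑' i, ∑' x, law Λ ht zz D i x = 1 := by
  have := R_law (Λ := Λ) (ht := ht) zz D (fun _ _ => 1)
  simp only [mul_one] at this
  rw [← this, R_one Λ ht hΛ h1]

open Classical in
/-- density of the first passage law -/
theorem law_dens (hΛ : ∑' b, Λ b = 1) (h1 : ∀ b, 1 ≤ ht b) (zz : B → G) (T i0 : ℕ)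
    (th q g : ℝ≥0∞)
    (hq : ∑ i' ∈ Finset.range (i0 + 1), ∑' z',
      (if th < law Λ ht zz T i' z' then law Λ ht zz T i' z' else 0) ≤ q)
    (hq1 : q ≤ 1) (hG : (i0 + 1 : ℕ) * th + q * g ≤ g) (J r : ℕ) (hr : J * (T + i0) ≤ r) :
    ∃ b : ℕ → G → ℝ≥0∞, (∑' i, ∑' z, b i z ≤ q ^ J + J * ep Λ ht i0) ∧
      ∀ i z, law Λ ht zz r i z ≤ g + b i z := by
  refine dens (law Λ ht zz T) (fun r => law Λ ht zz r)
    (fun r i z => R Λ ht T (fun L1 => if T + i0 < HT ht L1 then
      R Λ ht (r - HT ht L1) (fun L2 => if HT ht (L1 ++ L2) = r + i ∧ dp zz (L1 ++ L2) = z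
        then 1 else 0) else 0)) T i0 th q (ep Λ ht i0) g ?_ (fun r => (law_sum hΛ h1 zz r).le) ?_
    hq hq1 hG J r hr
  · intro r hr i z
    calc law Λ ht zz r i z = R Λ ht T (fun L1 => R Λ ht (r - HT ht L1) (fun L2 =>
          if HT ht (L1 ++ L2) = r + i ∧ dp zz (L1 ++ L2) = z then 1 else 0)) :=
          markov Λ ht h1 T r (by omega) _
      _ ≤ R Λ ht T (fun L1 => (fun h x => if h ≤ T + i0 then law Λ ht zz (r - h) i (z - x) else 0)
            (HT ht L1) (dp zz L1) + (if T + i0 < HT ht L1 then
      R Λ ht (r - HT ht L1) (fun L2 => if HT ht (L1 ++ L2) = r + i ∧ dp zz (L1 ++ L2) = z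
        then 1 else 0) else 0)) := by
          refine R_mono Λ ht T fun L1 hL1 => ?_
          by_cases h : HT ht L1 ≤ T + i0
          · simp only [h, if_true, not_lt.2 h, if_false, add_zero]
            refine R_mono Λ ht _ fun L2 _ => ?_
            by_cases h' : HT ht (L1 ++ L2) = r + i ∧ dp zz (L1 ++ L2) = z
            · rw [if_pos h']
              rw [if_pos]
              rw [HT_append, dp_append] at h'
              exact ⟨by omega, by rw [← h'.2]; abel⟩
            · rw [if_neg h']; exact zero_le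
          · simp only [h, if_false, zero_add, not_le.1 h, if_true, le_refl]
      _ = _ := by
          rw [R_add, R_law zz T (fun h x => if h ≤ T + i0 then law Λ ht zz (r - h) i (z - x) else 0)]
          congr 1
          rw [tsum_eq_sum (s := Finset.range (i0 + 1))]
          · refine Finset.sum_congr rfl fun i' hi' => tsum_congr fun x => ?_
            rw [if_pos (by have := Finset.mem_range.1 hi'; omega), Nat.sub_sub]
          · intro i' hi'
            rw [ENNReal.tsum_eq_zero]
            intro x
            rw [if_neg (by rw [Finset.mem_range] at hi'; omega), mul_zero]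
  · intro r hr
    calc _ = R Λ ht T (fun L1 => if T + i0 < HT ht L1 then
          R Λ ht (r - HT ht L1) (fun L2 => ∑' i, ∑' z,
          if HT ht (L1 ++ L2) = r + i ∧ dp zz (L1 ++ L2) = z then 1 else 0) else 0) := by
          symm
          calc _ = R Λ ht T (fun L1 => ∑' i, ∑' z, if T + i0 < HT ht L1 then
              R Λ ht (r - HT ht L1) (fun L2 =>
              if HT ht (L1 ++ L2) = r + i ∧ dp zz (L1 ++ L2) = z then 1 else 0) else 0) := by
                refine R_congr Λ ht T fun L1 _ => ?_
                by_cases h : T + i0 < HT ht L1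
                · simp only [h, if_true]
                  rw [R_tsum]
                  refine tsum_congr fun i => ?_
                  rw [R_tsum]
                · simp [h]
            _ = _ := by
                rw [R_tsum]
                refine tsum_congr fun i => ?_
                rw [R_tsum]
      _ ≤ R Λ ht T (fun L1 => if T + i0 < HT ht L1 then 1 else 0) := by
          refine R_mono Λ ht T fun L1 _ => ?_
          split_ifs with h
          · refine le_trans (R_mono Λ ht _ (F' := fun _ => 1) fun L2 _ => ?_)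
              (R_one Λ ht hΛ h1 (r - HT ht L1)).le
            by_cases hh : r ≤ HT ht (L1 ++ L2)
            · rw [tsum_eq_single (HT ht (L1 ++ L2) - r), tsum_eq_single (dp zz (L1 ++ L2))]
              · rw [if_pos ⟨by omega, rfl⟩]
              · intro x hx
                rw [if_neg (fun h => hx h.2.symm)]
              · intro i hi
                rw [ENNReal.tsum_eq_zero]
                intro x
                rw [if_neg (fun h => hi (by omega))]
            · have : ∀ (i : ℕ) (z : G), ¬ (HT ht (L1 ++ L2) = r + i ∧ dp zz (L1 ++ L2) = z) :=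
                fun i z h => hh (by omega)
              simp [this]
          · exact le_rfl
      _ ≤ ep Λ ht i0 := over_le Λ ht hΛ h1 i0 T

end Crest.Agent.R154.Asm751
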