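import Crest.Agent.R154.B5Abs_566

/-! Row 154 (helper52): first passage lists in the letters of 566's `B5A`. -/

set_option autoImplicit false

namespace Crest.Agent.R154.FP52

open Crest.Agent.R154.B5A
open scoped ENNReal Classical

variable {B : Type*} (Λ : B → ℝ≥0∞) (ht : B → ℕ)

/-- `P` is a first passage list of height `c` -/
def FP : ℕ → List B → Prop
  | c, [] => c = 0
  | c, b :: L => c ≠ 0 ∧ FP (c - ht b) L

/-- sum over the first passage lists -/
noncomputable def EF (c : ℕ) (F : List B → ℝ≥0∞) : ℝ≥0∞ :=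
  ∑' P, if FP ht c P then LW Λ P * F P else 0

lemma EF_zero (F : List B → ℝ≥0∞) : EF Λ ht 0 F = F [] := by
  rw [EF, tsum_list]
  simp [FP, LW_nil]

lemma EF_pos {c : ℕ} (hc : c ≠ 0) (F : List B → ℝ≥0∞) :
    EF Λ ht c F = ∑' b, Λ b * EF Λ ht (c - ht b) (fun P => F (b :: P)) := by
  rw [EF, tsum_list]
  simp only [FP, hc, if_false, zero_add, ne_eq, not_false_eq_true, true_and]
  refine tsum_congr fun b => ?_
  rw [EF, ← ENNReal.tsum_mul_left]
  refine tsum_congr fun L => ?_
  by_cases h : FP ht (c - ht b) L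
  · simp [h, LW_cons, mul_assoc]
  · simp [h]

lemma EF_mono (c : ℕ) {F F' : List B → ℝ≥0∞} (h : ∀ P, FP ht c P → F P ≤ F' P) :
    EF Λ ht c F ≤ EF Λ ht c F' := by
  refine ENNReal.tsum_le_tsum fun L => ?_
  by_cases hL : FP ht c L
  · simp only [hL, if_true]; exact mul_le_mul_right (h L hL) _
  · simp [hL]

lemma EF_congr (c : ℕ) {F F' : List B → ℝ≥0∞} (h : ∀ P, FP ht c P → F P = F' P) :
    EF Λ ht c F = EF Λ ht c F' :=
  le_antisymm (EF_mono Λ ht c fun P hP => (h P hP).le) (EF_mono Λ ht c fun P hP => (h P hP).ge)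

lemma EF_add (c : ℕ) (F F' : List B → ℝ≥0∞) :
    EF Λ ht c (fun P => F P + F' P) = EF Λ ht c F + EF Λ ht c F' := by
  rw [EF, EF, EF, ← ENNReal.tsum_add]
  refine tsum_congr fun L => ?_
  by_cases hL : FP ht c L
  · simp [hL, mul_add]
  · simp [hL]

lemma EF_const_mul (c : ℕ) (a : ℝ≥0∞) (F : List B → ℝ≥0∞) :
    EF Λ ht c (fun P => a * F P) = a * EF Λ ht c F := by
  rw [EF, EF, ← ENNReal.tsum_mul_left]
  refine tsum_congr fun L => ?_
  by_cases hL : FP ht c L
  · simp [hL, mul_left_comm]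
  · simp [hL]

lemma EF_mul_const (c : ℕ) (a : ℝ≥0∞) (F : List B → ℝ≥0∞) :
    EF Λ ht c (fun P => F P * a) = EF Λ ht c F * a := by
  rw [mul_comm, ← EF_const_mul]
  refine EF_congr _ _ _ fun P _ => mul_comm _ _

lemma EF_tsum {ι : Type*} (c : ℕ) (F : ι → List B → ℝ≥0∞) :
    EF Λ ht c (fun P => ∑' i, F i P) = ∑' i, EF Λ ht c (F i) := by
  simp only [EF]
  rw [ENNReal.tsum_comm]
  refine tsum_congr fun L => ?_
  by_cases hL : FP ht c L
  · simp [hL, ENNReal.tsum_mul_left]
  · simp [hL]

lemma EF_one (h1 : ∀ b, 1 ≤ ht b) (hΛ : ∑' b, Λ b = 1) (c : ℕ) :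
    EF Λ ht c (fun _ => 1) = 1 := by
  induction c using Nat.strong_induction_on with
  | _ c ih =>
    by_cases hc : c = 0
    · subst hc; rw [EF_zero]
    · rw [EF_pos Λ ht hc]
      refine Eq.trans (tsum_congr fun b => ?_) hΛ
      rw [ih _ (by have := h1 b; omega), mul_one]

lemma EF_const (h1 : ∀ b, 1 ≤ ht b) (hΛ : ∑' b, Λ b = 1) (c : ℕ) (a : ℝ≥0∞) :
    EF Λ ht c (fun _ => a) = a := by
  have := EF_const_mul Λ ht c a (fun _ => 1)
  rw [EF_one Λ ht h1 hΛ] at this
  simpa using this

lemma EF_le_const (h1 : ∀ b, 1 ≤ ht b) (hΛ : ∑' b, Λ b = 1) (c : ℕ) (a : ℝ≥0∞)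
    {F : List B → ℝ≥0∞} (h : ∀ P, FP ht c P → F P ≤ a) : EF Λ ht c F ≤ a :=
  (EF_mono Λ ht c h).trans (EF_const Λ ht h1 hΛ c a).le

/-- the decomposition at the first passage -/
lemma dec (h1 : ∀ b, 1 ≤ ht b) (c : ℕ) : ∀ F : List B → ℝ≥0∞,
    ∑' L, (if c ≤ HT ht L then LW Λ L * F L else 0)
      = EF Λ ht c (fun A => ∑' R, LW Λ R * F (A ++ R)) := by
  induction c using Nat.strong_induction_on with
  | _ c ih =>
    intro F
    by_cases hc : c = 0
    · subst hc; rw [EF_zero]; simp
    · rw [EF_pos Λ ht hc, tsum_list]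
      rw [HT_nil, if_neg (by omega), zero_add]
      refine tsum_congr fun b => ?_
      have h := ih (c - ht b) (by have := h1 b; omega) (fun L => F (b :: L))
      simp only [List.cons_append]
      rw [← h, ← ENNReal.tsum_mul_left]
      refine tsum_congr fun L => ?_
      rw [HT_cons]
      by_cases hL : c ≤ ht b + HT ht L
      · rw [if_pos hL, if_pos (by omega), LW_cons, mul_assoc]
      · rw [if_neg hL, if_neg (by omega), mul_zero]

/-- composition of first passages -/
lemma EF_comp (h1 : ∀ b, 1 ≤ ht b) (S : ℕ) : ∀ (T : ℕ), S ≤ T → ∀ F : List B → ℝ≥0∞,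
    EF Λ ht T F = EF Λ ht S (fun P1 => EF Λ ht (T - HT ht P1) (fun P2 => F (P1 ++ P2))) := by
  induction S using Nat.strong_induction_on with
  | _ S ih =>
    intro T hST F
    by_cases hS : S = 0
    · subst hS; rw [EF_zero]; simp [HT_nil]
    · rw [EF_pos Λ ht hS, EF_pos Λ ht (by omega)]
      refine tsum_congr fun b => ?_
      have h := ih (S - ht b) (by have := h1 b; omega) (T - ht b) (by omega) (fun L => F (b :: L))
      rw [h]
      congr 1
      refine EF_congr _ _ _ fun P _ => ?_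
      rw [HT_cons, Nat.sub_sub]
      rfl

lemma FP_le (c : ℕ) (P : List B) (h : FP ht c P) : c ≤ HT ht P := by
  induction P generalizing c with
  | nil => simp only [FP] at h; omega
  | cons b P ih => have := ih _ h.2; rw [HT_cons]; omega

lemma FP_last (c : ℕ) (P : List B) (h : FP ht c P) :
    P = [] ∨ ∃ P' b, P = P' ++ [b] ∧ HT ht P' < c := by
  induction P generalizing c with
  | nil => exact Or.inl rfl
  | cons b P ih =>
    right
    rcases ih _ h.2 with hP | ⟨P', b', hP, hlt⟩
    · refine ⟨[], b, by rw [hP]; rfl, ?_⟩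
      rw [HT_nil]; have := h.1; omega
    · refine ⟨b :: P', b', by rw [hP]; rfl, ?_⟩
      rw [HT_cons]; have := h.1; omega

/-- mass beyond the overshoot `i0` -/
noncomputable def eo (i0 : ℕ) : ℝ≥0∞ := ∑' b, Λ b * ((ht b - i0 : ℕ) : ℝ≥0∞)

lemma far_le (hU1 : ∀ n, U Λ ht n ≤ 1) (c i0 : ℕ) :
    EF Λ ht c (fun P => if c + i0 < HT ht P then 1 else 0) ≤ eo Λ ht i0 := by
  set S : Set (List B) := {P | FP ht c P ∧ c + i0 < HT ht P} with hS
  set G : B × List B → ℝ≥0∞ := fun p =>
    if HT ht p.2 < c ∧ c + i0 < HT ht p.2 + ht p.1 then LW Λ p.2 * Λ p.1 else 0 with hG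
  have hex : ∀ L : S, ∃ p : B × List B, L.1 = p.2 ++ [p.1] ∧ HT ht p.2 < c ∧
      c + i0 < HT ht p.2 + ht p.1 := by
    rintro ⟨L, hL1, hL2⟩
    rcases FP_last ht c L hL1 with h | ⟨P', b, h2, h3⟩
    · rw [h, HT_nil] at hL2; omega
    · refine ⟨(b, P'), h2, h3, ?_⟩
      rw [h2, HT_append, HT_cons, HT_nil] at hL2
      simpa using hL2
  choose f hf using hex
  have hinj : Function.Injective f := by
    intro L L' h
    apply Subtype.ext
    rw [(hf L).1, (hf L').1, h]
  have hfG : ∀ L : S, LW Λ L.1 = G (f L) := by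
    intro L
    obtain ⟨h1, h2, h3⟩ := hf L
    simp only [hG]
    rw [if_pos ⟨h2, h3⟩, h1, LW_append, LW_cons, LW_nil, mul_one]
  have step1 : EF Λ ht c (fun P => if c + i0 < HT ht P then 1 else 0) ≤ ∑' p, G p := by
    calc EF Λ ht c (fun P => if c + i0 < HT ht P then 1 else 0)
        = ∑' L : List B, S.indicator (LW Λ) L := by
          refine tsum_congr fun L => ?_
          simp only [Set.indicator, hS, Set.mem_setOf_eq]
          by_cases h : FP ht c L <;> by_cases h' : c + i0 < HT ht L <;> simp [h, h']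
      _ = ∑' L : S, LW Λ L.1 := (tsum_subtype S (LW Λ)).symm
      _ = ∑' L : S, G (f L) := tsum_congr hfG
      _ ≤ _ := ENNReal.tsum_comp_le_tsum_of_injective hinj G
  refine step1.trans ?_
  rw [ENNReal.tsum_prod']
  refine ENNReal.tsum_le_tsum fun b => ?_
  have h2 : ∀ L1 : List B, G (b, L1)
      = Λ b * ∑ j ∈ (Finset.range c).filter (fun j => c + i0 < j + ht b),
          (if HT ht L1 = j then LW Λ L1 else 0) := by
    intro L1
    by_cases hc : HT ht L1 < c ∧ c + i0 < HT ht L1 + ht b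
    · have hs : ∑ j ∈ (Finset.range c).filter (fun j => c + i0 < j + ht b),
          (if HT ht L1 = j then LW Λ L1 else 0) = LW Λ L1 := by
        rw [Finset.sum_ite_eq, if_pos]
        rw [Finset.mem_filter, Finset.mem_range]
        exact hc
      rw [hs]
      simp only [hG]
      rw [if_pos hc, mul_comm]
    · have hs : ∑ j ∈ (Finset.range c).filter (fun j => c + i0 < j + ht b),
          (if HT ht L1 = j then LW Λ L1 else 0) = 0 := by
        rw [Finset.sum_ite_eq, if_neg]
        rw [Finset.mem_filter, Finset.mem_range]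
        exact hc
      rw [hs, mul_zero]
      simp only [hG]
      rw [if_neg hc]
  simp only [h2]
  calc ∑' L1 : List B, Λ b * ∑ j ∈ (Finset.range c).filter (fun j => c + i0 < j + ht b),
          (if HT ht L1 = j then LW Λ L1 else 0)
      = Λ b * ∑ j ∈ (Finset.range c).filter (fun j => c + i0 < j + ht b), U Λ ht j := by
        rw [ENNReal.tsum_mul_left, Summable.tsum_finsetSum (fun _ _ => ENNReal.summable)]
        rfl
    _ ≤ Λ b * ∑ j ∈ (Finset.range c).filter (fun j => c + i0 < j + ht b), 1 :=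
        mul_le_mul_right (Finset.sum_le_sum fun j _ => hU1 j) _
    _ ≤ Λ b * ((ht b - i0 : ℕ) : ℝ≥0∞) := by
        refine mul_le_mul_right ?_ _
        rw [Finset.sum_const, nsmul_eq_mul, mul_one]
        have hcard : ((Finset.range c).filter (fun j => c + i0 < j + ht b)).card
            ≤ ht b - i0 := by
          have hsub : (Finset.range c).filter (fun j => c + i0 < j + ht b)
              ⊆ Finset.Ico (c - (ht b - i0)) c := by
            intro j hj
            rw [Finset.mem_filter, Finset.mem_range] at hj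
            rw [Finset.mem_Ico]
            omega
          refine (Finset.card_le_card hsub).trans ?_
          rw [Nat.card_Ico]
          omega
        exact_mod_cast hcard

end Crest.Agent.R154.FP52
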