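import Crest.Agent.R154.B5Rec_566

/-! Row 154 (helper596), ROAD 801: first-renewal lists of blocks, density lemma (joint in the
overshoot). Letters of 566's B5Abs. -/

set_option autoImplicit false
set_option linter.unusedVariables false
set_option linter.unusedSectionVars false

namespace Crest.Agent.R154.FR596

open scoped ENNReal Classical
open Crest.Agent.R154.B5A

variable {B : Type*} (Λ : B → ℝ≥0∞) (h : B → ℕ)

/-- the list stops exactly at its first renewal `≥ N` -/
def isFR (h : B → ℕ) : ℕ → List B → Prop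
  | N, [] => N = 0
  | N, (b :: L) => N ≠ 0 ∧ isFR h (N - h b) L

/-- weighted sum over the lists stopped at their first renewal `≥ N` -/
noncomputable def FR (N : ℕ) (F : List B → ℝ≥0∞) : ℝ≥0∞ :=
  ∑' L : List B, if isFR h N L then LW Λ L * F L else 0

/-- weighted sum over the lists of total height `n` -/
noncomputable def HN (n : ℕ) (F : List B → ℝ≥0∞) : ℝ≥0∞ :=
  ∑' L : List B, if HT h L = n then LW Λ L * F L else 0

lemma FR_zero (F : List B → ℝ≥0∞) : FR Λ h 0 F = F [] := by
  rw [FR, tsum_list]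
  simp [isFR, LW_nil]

lemma FR_pos {N : ℕ} (hN : N ≠ 0) (F : List B → ℝ≥0∞) :
    FR Λ h N F = ∑' b, Λ b * FR Λ h (N - h b) (fun L => F (b :: L)) := by
  rw [FR, tsum_list]
  simp only [isFR, if_neg hN, zero_add]
  refine tsum_congr fun b => ?_
  rw [FR, ← ENNReal.tsum_mul_left]
  refine tsum_congr fun L => ?_
  by_cases hL : isFR h (N - h b) L
  · rw [if_pos ⟨hN, hL⟩, if_pos hL, LW_cons, mul_assoc]
  · rw [if_neg (fun hh => hL hh.2), if_neg hL, mul_zero]

lemma HN_zero (h1 : ∀ b, 1 ≤ h b) (F : List B → ℝ≥0∞) : HN Λ h 0 F = F [] := by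
  rw [HN, tsum_list]
  have : ∀ b (L : List B), ¬ (HT h (b :: L) = 0) := fun b L => by
    rw [HT_cons]; have := h1 b; omega
  simp [HT_nil, LW_nil, this]

lemma HN_pos {n : ℕ} (hn : n ≠ 0) (F : List B → ℝ≥0∞) :
    HN Λ h n F = ∑' b, if h b ≤ n then Λ b * HN Λ h (n - h b) (fun L => F (b :: L)) else 0 := by
  rw [HN, tsum_list]
  simp only [HT_nil]
  rw [if_neg (fun hh => hn hh.symm), zero_add]
  refine tsum_congr fun b => ?_
  by_cases hb : h b ≤ n
  · rw [if_pos hb, HN, ← ENNReal.tsum_mul_left]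
    refine tsum_congr fun L => ?_
    by_cases hL : HT h (b :: L) = n
    · rw [if_pos hL, if_pos (by rw [HT_cons] at hL; omega), LW_cons, mul_assoc]
    · rw [if_neg hL, if_neg (by rw [HT_cons] at hL; omega), mul_zero]
  · rw [if_neg hb]
    refine ENNReal.tsum_eq_zero.2 fun L => if_neg ?_
    rw [HT_cons]; omega

lemma FR_mono (N : ℕ) {F F' : List B → ℝ≥0∞} (hF : ∀ L, isFR h N L → F L ≤ F' L) :
    FR Λ h N F ≤ FR Λ h N F' := by
  refine ENNReal.tsum_le_tsum fun L => ?_
  by_cases hL : isFR h N L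
  · simp only [if_pos hL]; exact mul_le_mul_right (hF L hL) _
  · simp [if_neg hL]

lemma FR_congr (N : ℕ) {F F' : List B → ℝ≥0∞} (hF : ∀ L, isFR h N L → F L = F' L) :
    FR Λ h N F = FR Λ h N F' :=
  le_antisymm (FR_mono Λ h N fun L hL => (hF L hL).le) (FR_mono Λ h N fun L hL => (hF L hL).ge)

lemma FR_add (N : ℕ) (F F' : List B → ℝ≥0∞) :
    FR Λ h N (fun L => F L + F' L) = FR Λ h N F + FR Λ h N F' := by
  rw [FR, FR, FR, ← ENNReal.tsum_add]
  refine tsum_congr fun L => ?_
  by_cases hL : isFR h N L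
  · simp [if_pos hL, mul_add]
  · simp [if_neg hL]

lemma FR_mul (N : ℕ) (a : ℝ≥0∞) (F : List B → ℝ≥0∞) :
    FR Λ h N (fun L => a * F L) = a * FR Λ h N F := by
  rw [FR, FR, ← ENNReal.tsum_mul_left]
  refine tsum_congr fun L => ?_
  by_cases hL : isFR h N L
  · simp only [if_pos hL]; ring
  · simp [if_neg hL]

lemma FR_tsum {ι : Type*} (N : ℕ) (F : ι → List B → ℝ≥0∞) :
    FR Λ h N (fun L => ∑' i, F i L) = ∑' i, FR Λ h N (F i) := by
  simp only [FR]
  rw [ENNReal.tsum_comm]
  refine tsum_congr fun L => ?_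
  by_cases hL : isFR h N L
  · simp only [if_pos hL]; rw [ENNReal.tsum_mul_left]
  · simp [if_neg hL]

lemma FR_one (h1 : ∀ b, 1 ≤ h b) (hΛ : ∑' b, Λ b = 1) (N : ℕ) : FR Λ h N (fun _ => 1) = 1 := by
  induction N using Nat.strong_induction_on with
  | _ N ih =>
    by_cases hN : N = 0
    · subst hN; rw [FR_zero]
    · rw [FR_pos Λ h hN]
      have : ∀ b, Λ b * FR Λ h (N - h b) (fun _ => 1) = Λ b := fun b => by
        rw [ih (N - h b) (by have := h1 b; omega), mul_one]
      simp_rw [this]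
      exact hΛ

lemma FR_const (h1 : ∀ b, 1 ≤ h b) (hΛ : ∑' b, Λ b = 1) (N : ℕ) (a : ℝ≥0∞) :
    FR Λ h N (fun _ => a) = a := by
  have := FR_mul Λ h N a (fun _ => 1)
  rw [FR_one Λ h h1 hΛ] at this
  simpa using this

lemma FR_le (h1 : ∀ b, 1 ≤ h b) (hΛ : ∑' b, Λ b = 1) (N : ℕ) {F : List B → ℝ≥0∞} {a : ℝ≥0∞}
    (hF : ∀ L, isFR h N L → F L ≤ a) : FR Λ h N F ≤ a :=
  (FR_mono Λ h N hF).trans (FR_const Λ h h1 hΛ N a).le

lemma FR_split (h1 : ∀ b, 1 ≤ h b) : ∀ (a N : ℕ), a ≤ N → ∀ F : List B → ℝ≥0∞,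
    FR Λ h N F = FR Λ h a (fun L1 => FR Λ h (N - HT h L1) (fun L2 => F (L1 ++ L2))) := by
  intro a
  induction a using Nat.strong_induction_on with
  | _ a ih =>
    intro N hN F
    by_cases ha : a = 0
    · subst ha
      rw [FR_zero]
      simp [HT_nil]
    · rw [FR_pos Λ h (show N ≠ 0 by omega), FR_pos Λ h ha]
      refine tsum_congr fun b => ?_
      congr 1
      rw [ih (a - h b) (by have := h1 b; omega) (N - h b) (by omega)]
      refine FR_congr Λ h _ fun L _ => ?_
      rw [HT_cons, Nat.sub_sub]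
      rfl

lemma HN_split (h1 : ∀ b, 1 ≤ h b) : ∀ (a n : ℕ), a ≤ n → ∀ F : List B → ℝ≥0∞,
    HN Λ h n F = FR Λ h a (fun L1 => if HT h L1 ≤ n then
      HN Λ h (n - HT h L1) (fun L2 => F (L1 ++ L2)) else 0) := by
  intro a
  induction a using Nat.strong_induction_on with
  | _ a ih =>
    intro n hn F
    by_cases ha : a = 0
    · subst ha
      rw [FR_zero]
      simp [HT_nil]
    · rw [HN_pos Λ h (show n ≠ 0 by omega), FR_pos Λ h ha]
      refine tsum_congr fun b => ?_
      by_cases hb : h b ≤ n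
      · rw [if_pos hb]
        congr 1
        rw [ih (a - h b) (by have := h1 b; omega) (n - h b) (by omega)]
        refine FR_congr Λ h _ fun L _ => ?_
        rw [HT_cons, Nat.sub_sub]
        by_cases hh : HT h L ≤ n - h b
        · rw [if_pos hh, if_pos (by omega)]; rfl
        · rw [if_neg hh, if_neg (by omega)]
      · rw [if_neg hb]
        symm
        refine mul_eq_zero_of_right _ ?_
        refine le_antisymm ?_ bot_le
        refine (FR_mono Λ h _ (F' := fun _ => 0) fun L _ => ?_).trans (by simp [FR])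
        rw [if_neg (by rw [HT_cons]; omega)]

lemma HN_le_FR (h1 : ∀ b, 1 ≤ h b) (hΛ : ∑' b, Λ b = 1) : ∀ (n N : ℕ), n ≤ N →
    ∀ F F' : List B → ℝ≥0∞, (∀ L L', F L ≤ F' (L ++ L')) → HN Λ h n F ≤ FR Λ h N F' := by
  intro n
  induction n using Nat.strong_induction_on with
  | _ n ih =>
    intro N hN F F' hF
    by_cases hn : n = 0
    · subst hn
      rw [HN_zero Λ h h1]
      calc F [] = FR Λ h N (fun _ => F []) := (FR_const Λ h h1 hΛ N _).symm
        _ ≤ _ := FR_mono Λ h N fun L _ => by simpa using hF [] L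
    · rw [HN_pos Λ h hn, FR_pos Λ h (show N ≠ 0 by omega)]
      refine ENNReal.tsum_le_tsum fun b => ?_
      by_cases hb : h b ≤ n
      · rw [if_pos hb]
        refine mul_le_mul_right ?_ _
        exact ih (n - h b) (by have := h1 b; omega) (N - h b) (by omega) _ _
          fun L L' => hF (b :: L) L'
      · rw [if_neg hb]; exact zero_le

lemma isFR_ge : ∀ (L : List B) (N : ℕ), isFR h N L → N ≤ HT h L := by
  intro L
  induction L with
  | nil => intro N hN; simp [isFR] at hN; omega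
  | cons b L ih =>
    intro N hN
    obtain ⟨-, h2⟩ := hN
    have := ih _ h2
    rw [HT_cons]
    omega

/-- overshoot -/
lemma over_le (h1 : ∀ b, 1 ≤ h b) (hΛ : ∑' b, Λ b = 1) (i0 N : ℕ) :
    FR Λ h N (fun L => if N + i0 < HT h L then 1 else 0) ≤
      ∑ j ∈ Finset.range N, tail Λ h (i0 + 1 + j) := by
  induction N using Nat.strong_induction_on with
  | _ N ih =>
    by_cases hN : N = 0
    · subst hN; rw [FR_zero]; simp [HT_nil]
    · obtain ⟨M, rfl⟩ : ∃ M, N = M + 1 := ⟨N - 1, by omega⟩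
      rw [FR_pos Λ h hN, Finset.sum_range_succ]
      have key : ∀ b, Λ b * FR Λ h (M + 1 - h b)
            (fun L => if M + 1 + i0 < HT h (b :: L) then 1 else 0) ≤
          Λ b * (∑ j ∈ Finset.range M, tail Λ h (i0 + 1 + j)) +
            (if i0 + 1 + M < h b then Λ b else 0) := by
        intro b
        have hb := h1 b
        by_cases hb2 : h b ≤ M + 1
        · refine le_trans ?_ le_self_add
          refine mul_le_mul_right ?_ _
          have e : FR Λ h (M + 1 - h b) (fun L => if M + 1 + i0 < HT h (b :: L) then (1:ℝ≥0∞) else 0)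
              = FR Λ h (M + 1 - h b) (fun L => if (M + 1 - h b) + i0 < HT h L then 1 else 0) := by
            refine FR_congr Λ h _ fun L _ => ?_
            rw [HT_cons]
            by_cases hh : M + 1 + i0 < h b + HT h L
            · rw [if_pos hh, if_pos (by omega)]
            · rw [if_neg hh, if_neg (by omega)]
          rw [e]
          refine (ih _ (by omega)).trans ?_
          exact Finset.sum_le_sum_of_subset (Finset.range_mono (by omega))
        · rw [show M + 1 - h b = 0 by omega, FR_zero, HT_cons, HT_nil]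
          by_cases hh : i0 + 1 + M < h b
          · rw [if_pos hh, if_pos (by omega), mul_one]; exact le_add_self
          · rw [if_neg (show ¬ (M + 1 + i0 < h b + 0) by omega), mul_zero]; exact zero_le
      refine (ENNReal.tsum_le_tsum key).trans ?_
      rw [ENNReal.tsum_add, ENNReal.tsum_mul_right, hΛ, one_mul]
      rfl

lemma over_tsum (h1 : ∀ b, 1 ≤ h b) (hΛ : ∑' b, Λ b = 1) (i0 N : ℕ) :
    FR Λ h N (fun L => if N + i0 < HT h L then 1 else 0) ≤ ∑' j, tail Λ h (j + (i0 + 1)) := by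
  refine (over_le Λ h h1 hΛ i0 N).trans ?_
  refine le_trans (le_of_eq ?_) (ENNReal.sum_le_tsum (Finset.range N))
  exact Finset.sum_congr rfl fun j _ => by rw [add_comm]

lemma over_tendsto (hΛ : ∑' b, Λ b = 1) (hE : ∑' b, Λ b * (h b : ℝ≥0∞) ≠ ⊤) :
    Filter.Tendsto (fun i0 : ℕ => ∑' j, tail Λ h (j + (i0 + 1))) Filter.atTop (nhds 0) := by
  have h2 : ∑' j, tail Λ h j ≠ ⊤ := by rw [← sum_tail Λ h hΛ]; exact hE
  exact (ENNReal.tendsto_sum_nat_add _ h2).comp (Filter.tendsto_add_atTop_nat 1)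

end Crest.Agent.R154.FR596
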