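import Crest.Agent.R154.B5Words_657

/-! Row 154 (helper350): unique factorisation of the crossings of ONE walker, in both reading orders
(`op a c` = `a` on top of `c`: up words `c ++ a`, down words `a ++ c`). -/

set_option autoImplicit false

namespace Crest.Agent.R154.Fac350

open scoped ENNReal
open Crest.Agent.R154.B5A
open Crest.Agent.R154.B5W (UpW lv)

/-- graded words with a product, `op a c` = `a` on top -/
structure GM (W : Type*) where
  P : ℕ → Set W
  op : W → W → W
  one : W
  one_mem : one ∈ P 0
  zero : ∀ x ∈ P 0, x = one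
  op_one : ∀ x, op x one = x
  one_op : ∀ x, op one x = x
  assoc : ∀ a b c, op (op a b) c = op a (op b c)
  mem : ∀ {a b : W} {m n : ℕ}, a ∈ P m → b ∈ P n → op a b ∈ P (m + n)
  height : ∀ {x : W} {m n : ℕ}, x ∈ P m → x ∈ P n → m = n
  refine : ∀ {b b' y y' : W} {m m' k k' : ℕ}, b ∈ P m → b' ∈ P m' → y ∈ P k → y' ∈ P k' →
    op b y = op b' y' → m ≤ m' → ∃ z ∈ P (m' - m), b' = op b z ∧ y = op z y'

variable {W : Type*} (g : GM W)

def Irr (b : W) : Prop :=
  ∃ n, 1 ≤ n ∧ b ∈ g.P n ∧ ∀ a c k l, a ∈ g.P k → c ∈ g.P l → b = g.op a c → k = 0 ∨ l = 0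

/-- the blocks -/
def Blk : Type _ := {b : W // Irr g b}

open Classical in
/-- height of a block -/
noncomputable def hb (b : Blk g) : ℕ := Classical.choose b.2

variable {g}

lemma blk_mem (b : Blk g) : b.1 ∈ g.P (hb g b) := (Classical.choose_spec b.2).2.1

lemma one_le_hb (b : Blk g) : 1 ≤ hb g b := (Classical.choose_spec b.2).1

lemma hb_eq {b : Blk g} {n : ℕ} (hn : b.1 ∈ g.P n) : hb g b = n := g.height (blk_mem b) hn

lemma blk_irr (b : Blk g) {a c : W} {k l : ℕ} (ha : a ∈ g.P k)
    (hc : c ∈ g.P l) (he : b.1 = g.op a c) : k = 0 ∨ l = 0 :=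
  (Classical.choose_spec b.2).2.2 a c k l ha hc he

/-- concatenation of a list of blocks (first block on top) -/
def cat : List (Blk g) → W
  | [] => g.one
  | b :: L => g.op b.1 (cat L)

lemma cat_mem (L : List (Blk g)) : cat L ∈ g.P (HT (hb g) L) := by
  induction L with
  | nil => exact g.one_mem
  | cons b L ih => rw [HT_cons]; exact g.mem (blk_mem b) ih

lemma cat_append (L L' : List (Blk g)) : cat (L ++ L') = g.op (cat L) (cat L') := by
  induction L with
  | nil => simp [cat, g.one_op]
  | cons b L ih => simp only [List.cons_append, cat]; rw [ih, g.assoc]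

lemma cat_inj : Function.Injective (cat : List (Blk g) → W) := by
  intro L
  induction L with
  | nil =>
    intro L' he
    cases L' with
    | nil => rfl
    | cons b L' =>
      have h1 := cat_mem (b :: L')
      rw [← he] at h1
      have := g.height h1 g.one_mem
      have h2 := one_le_hb b
      rw [HT_cons] at this
      omega
  | cons b L ih =>
    intro L' he
    cases L' with
    | nil =>
      have h1 := cat_mem (b :: L)
      rw [he] at h1
      have := g.height h1 g.one_mem
      have h2 := one_le_hb b
      rw [HT_cons] at this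
      omega
    | cons b' L' =>
      have key : b = b' ∧ cat L = cat L' := by
        rcases le_total (hb g b) (hb g b') with hle | hle
        · obtain ⟨z, hz, h1, h2⟩ := g.refine (blk_mem b) (blk_mem b') (cat_mem L) (cat_mem L')
            he hle
          rcases blk_irr b' (blk_mem b) hz h1 with h3 | h3
          · have := one_le_hb b; omega
          · rw [h3] at hz
            have hz0 := g.zero _ hz
            rw [hz0, g.op_one] at h1
            rw [hz0, g.one_op] at h2
            exact ⟨Subtype.ext h1.symm, h2⟩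
        · obtain ⟨z, hz, h1, h2⟩ := g.refine (blk_mem b') (blk_mem b) (cat_mem L') (cat_mem L)
            he.symm hle
          rcases blk_irr b (blk_mem b') hz h1 with h3 | h3
          · have := one_le_hb b'; omega
          · rw [h3] at hz
            have hz0 := g.zero _ hz
            rw [hz0, g.op_one] at h1
            rw [hz0, g.one_op] at h2
            exact ⟨Subtype.ext h1, h2.symm⟩
      rw [key.1, ih key.2]

lemma cat_surj (n : ℕ) : ∀ x ∈ g.P n, ∃ L : List (Blk g), cat L = x := by
  induction n using Nat.strong_induction_on with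
  | _ n ih =>
    intro x hx
    rcases Nat.eq_zero_or_pos n with h0 | h0
    · subst h0
      exact ⟨[], (g.zero _ hx).symm⟩
    classical
    have hex : ∃ m, 1 ≤ m ∧ m ≤ n ∧ ∃ b ∈ g.P m, ∃ y ∈ g.P (n - m), x = g.op b y :=
      ⟨n, h0, le_rfl, x, hx, g.one, by rw [Nat.sub_self]; exact g.one_mem,
        (g.op_one x).symm⟩
    set m := Nat.find hex with hm
    obtain ⟨h1, h2, b, hbm, y, hy, he⟩ := Nat.find_spec hex
    have hirr : Irr g b := by
      refine ⟨m, h1, hbm, fun a c k l ha hc hac => ?_⟩
      by_contra hcon
      push Not at hcon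
      have hkl : m = k + l := g.height hbm (hac ▸ g.mem ha hc)
      refine Nat.find_min hex (m := k) (by omega) ⟨by omega, by omega, a, ha, g.op c y, ?_, ?_⟩
      · have := g.mem hc hy
        rwa [show l + (n - m) = n - k by omega] at this
      · rw [he, hac, g.assoc]
    obtain ⟨L, hL⟩ := ih (n - m) (by omega) y hy
    refine ⟨(⟨b, hirr⟩ : Blk g) :: L, ?_⟩
    change g.op b (cat L) = x
    rw [hL]
    exact he.symm

lemma HT_eq {L : List (Blk g)} {n : ℕ} : HT (hb g) L = n ↔ cat L ∈ g.P n :=
  ⟨fun h => h ▸ cat_mem L, fun h => g.height (cat_mem L) h⟩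

lemma LW_cat {a : W → ℝ≥0∞} (h1 : a g.one = 1)
    (hm : ∀ m n, ∀ x ∈ g.P m, ∀ y ∈ g.P n, a (g.op x y) = a x * a y) (L : List (Blk g)) :
    LW (fun b : Blk g => a b.1) L = a (cat L) := by
  induction L with
  | nil => simp [LW_nil, cat, h1]
  | cons b L ih =>
    rw [LW_cons, ih]
    simp only [cat]
    rw [hm _ _ _ (blk_mem b) _ (cat_mem L)]

open Classical in
/-- **sum over lists of height `n` = sum over crossings of height `n`** -/
theorem tsum_lists (n : ℕ) (F : W → ℝ≥0∞) :
    ∑' L : List (Blk g), (if HT (hb g) L = n then F (cat L) else 0)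
      = ∑' x : W, (if x ∈ g.P n then F x else 0) := by
  have hs : Function.support (fun x : W => if x ∈ g.P n then F x else 0)
      ⊆ Set.range (cat : List (Blk g) → W) := by
    intro x hx
    by_cases h : x ∈ g.P n
    · obtain ⟨L, hL⟩ := cat_surj n x h
      exact ⟨L, hL⟩
    · simp [h] at hx
  rw [← (cat_inj (g := g)).tsum_eq hs]
  refine tsum_congr fun L => ?_
  simp only [HT_eq]

/-! ### the two walkers -/

variable {E : Type*}

lemma height_UpW {h : E → ℤ} {x : List E} {m n : ℕ} (hm : x ∈ UpW h m) (hn : x ∈ UpW h n) :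
    m = n := by
  have := hm.1.symm.trans hn.1
  exact_mod_cast this

/-- the up walker: words bottom to top, `op a c = c ++ a` -/
def gX (h : E → ℤ) : GM (List E) where
  P := UpW h
  op a c := c ++ a
  one := []
  one_mem := B5W.nil_mem h
  zero x hx := B5W.eq_nil_of_mem_zero hx
  op_one x := by simp
  one_op x := by simp
  assoc a b c := by simp
  mem {a b m n} ha hb := by
    have := B5W.mem_append hb ha
    rwa [add_comm] at this
  height := height_UpW
  refine {b b' y y' m m' k k'} hb hb' hy hy' he hle := by
    have hk : m + k = m' + k' := by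
      have h1 := B5W.mem_append hy hb
      have h2 := B5W.mem_append hy' hb'
      change y ++ b = y' ++ b' at he
      rw [he] at h1
      have := height_UpW h1 h2
      omega
    obtain ⟨z, hz, h1, h2⟩ := B5W.split_eq hy' hy hb' he.symm (by omega : k' ≤ k)
    exact ⟨z, by rwa [show k - k' = m' - m by omega] at hz, h2, h1⟩

/-- the down walker: words top to bottom, `op a c = a ++ c` -/
def gY (h : E → ℤ) : GM (List E) where
  P := UpW h
  op a c := a ++ c
  one := []
  one_mem := B5W.nil_mem h
  zero x hx := B5W.eq_nil_of_mem_zero hx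
  op_one x := by simp
  one_op x := by simp
  assoc a b c := by simp
  mem {a b m n} ha hb := B5W.mem_append ha hb
  height := height_UpW
  refine {b b' y y' m m' k k'} hb hb' hy hy' he hle := by
    obtain ⟨z, hz, h1, h2⟩ := B5W.split_eq hb hb' hy he hle
    exact ⟨z, hz, h1, h2⟩

end Crest.Agent.R154.Fac350
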