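import Crest.Agent.R154.Face_504
import Crest.Agent.R154.NBSurg_28

/-! Row 154, ROAD 801 (T0219): the FACING LEMMA in words, order (2) (helper504). -/

set_option autoImplicit false
set_option maxHeartbeats 1000000

namespace Crest.Agent.R154.Face504

open MeasureTheory ProbabilityTheory Crest.ProbabilityR.RandomEnvironment Crest.Agent.R154
open Crest.Agent.R154.Flux566 (lw endp sitesL Fol endp_append endp_eq_add measurable_lw locOn_lw
  fol_ge measurableSet_Fol)
open scoped ENNReal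
open Classical

variable {d : ℕ}

lemma mem_sites_shift (l : Wd d) (x z y : Site d) :
    y ∈ sitesL x l ↔ y + z ∈ sitesL (x + z) l := by
  induction l generalizing x with
  | nil => simp [sitesL]
  | cons e l ih =>
    simp only [sitesL, List.mem_cons]
    rw [ih (x + stepVec e), add_right_comm x (stepVec e) z]
    constructor
    · rintro (rfl | h)
      · exact Or.inl rfl
      · exact Or.inr h
    · rintro (h | h)
      · exact Or.inl (add_right_cancel h)
      · exact Or.inr h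

section
variable (ν : Measure (Row d)) [IsProbabilityMeasure ν]

lemma an_eq (x : Site d) (l : Wd d) : an ν x l = NB28.aw ν l := NB28.aw_shift ν x l

lemma an_ext_le (g0 : Site d) {A : Set (Wd d)} (hA : PF A) (σ : Wd d) :
    (∑' γ : Wd d, if σ <+: γ ∧ γ ∈ A then an ν g0 γ else 0) ≤ an ν g0 σ := by
  calc (∑' γ : Wd d, if σ <+: γ ∧ γ ∈ A then an ν g0 γ else 0)
      = ∫⁻ ω, (∑' π : Wd d, if σ <+: π ∧ π ∈ A then lw ω g0 π else 0) ∂(iidEnvironmentLaw ν) := by
        rw [lintegral_tsum]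
        · refine tsum_congr fun γ => ?_
          split_ifs
          · rfl
          · simp
        · intro π
          split_ifs
          · exact (measurable_lw g0 π).aemeasurable
          · exact aemeasurable_const
    _ ≤ an ν g0 σ := lintegral_mono fun ω => ext_le ω g0 hA σ

/-- local walker's own bad part at the start `x` -/
noncomputable def bad (B : Set (Wd d)) (T : Site d → Site d → Set (Wd d)) (lam : ℝ≥0∞)
    (wt : Site d → ℝ≥0∞) (x : Site d) (ω : Environment d) : ℝ≥0∞ :=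
  ∑' π : Wd d, (if π ∈ B ∧ ∃ y ∈ sitesL x π, y ∈ {v | tw ω v (T x v) ≤ lam} then
    lw ω x π else 0) * wt (endp x π)

lemma tw_shift (ω : Environment d) (x v : Site d) (S : Set (Wd d)) :
    tw (shiftEnv x ω) v S = tw ω (v + x) S := by
  unfold tw
  refine tsum_congr fun l => ?_
  rw [NB28.lw_shiftEnv]

/-- one start of the local walker, weight on its own landing -/
theorem face2_one (x : Site d) {A B : Set (Wd d)} (hA : PF A) (hB : PF B)
    (T : Site d → Site d → Set (Wd d))
    {wt : Site d → ℝ≥0∞} {M : ℝ≥0∞} (hM : ∀ z, wt z ≤ M)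
    (Dp : Set (Site d)) (R : Set (Wd d))
    (hR : ∀ σ τ, (∃ γ ∈ A, σ <+: γ) → endp 0 σ ∈ Dp → τ ∈ T x (endp 0 σ) → σ ++ τ ∈ R)
    {lam : ℝ≥0∞} (hl0 : lam ≠ 0) (hlt : lam ≠ ∞) :
    (∑' π : Wd d, ∑' γ : Wd d, if π ∈ B ∧ γ ∈ A ∧ FHD 0 x Dp γ π then
        an ν x π * an ν 0 γ * wt (endp x π) else 0)
      ≤ M / lam * ∫⁻ ω, tw ω 0 R ∂(iidEnvironmentLaw ν)
        + ∫⁻ ω, bad B T lam wt x ω ∂(iidEnvironmentLaw ν) := by
  set Q := iidEnvironmentLaw ν with hQ
  -- step 0
  have h0 : (∑' π : Wd d, ∑' γ : Wd d, if π ∈ B ∧ γ ∈ A ∧ FHD 0 x Dp γ π then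
        an ν x π * an ν 0 γ * wt (endp x π) else 0)
      ≤ ∑' π : Wd d, ∑' σ : Wd d,
        if π ∈ B ∧ FH 0 x Dp σ π ∧ (∃ γ ∈ A, σ <+: γ) then
          an ν x π * an ν 0 σ * wt (endp x π) else 0 := by
    refine ENNReal.tsum_le_tsum fun π => ?_
    calc (∑' γ : Wd d, if π ∈ B ∧ γ ∈ A ∧ FHD 0 x Dp γ π then
        an ν x π * an ν 0 γ * wt (endp x π) else 0)
        ≤ ∑' γ : Wd d, ∑' σ : Wd d,
          (if π ∈ B ∧ FH 0 x Dp σ π ∧ (∃ γ ∈ A, σ <+: γ) then
            an ν x π * wt (endp x π) * (if σ <+: γ ∧ γ ∈ A then an ν 0 γ else 0) else 0) := by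
          refine ENNReal.tsum_le_tsum fun γ => ?_
          split_ifs with h
          · obtain ⟨hπ, hγ, σ, hσ, hF⟩ := h
            refine le_trans ?_ (ENNReal.le_tsum σ)
            rw [if_pos ⟨hπ, hF, γ, hγ, hσ⟩, if_pos ⟨hσ, hγ⟩]
            exact le_of_eq (by ring)
          · exact zero_le
      _ = ∑' σ : Wd d, ∑' γ : Wd d,
          (if π ∈ B ∧ FH 0 x Dp σ π ∧ (∃ γ ∈ A, σ <+: γ) then
            an ν x π * wt (endp x π) * (if σ <+: γ ∧ γ ∈ A then an ν 0 γ else 0) else 0) :=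
          ENNReal.tsum_comm
      _ ≤ _ := by
          refine ENNReal.tsum_le_tsum fun σ => ?_
          by_cases h : π ∈ B ∧ FH 0 x Dp σ π ∧ (∃ γ ∈ A, σ <+: γ)
          · simp only [if_pos h]
            rw [ENNReal.tsum_mul_left]
            calc an ν x π * wt (endp x π) * (∑' γ : Wd d, if σ <+: γ ∧ γ ∈ A then an ν 0 γ else 0)
                ≤ an ν x π * wt (endp x π) * an ν 0 σ := mul_le_mul_right (an_ext_le ν 0 hA σ) _
              _ = _ := by ring
          · simp only [if_neg h, tsum_zero, le_refl]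
  refine h0.trans ?_
  have h1 : (∑' π : Wd d, ∑' σ : Wd d,
        if π ∈ B ∧ FH 0 x Dp σ π ∧ (∃ γ ∈ A, σ <+: γ) then
          an ν x π * an ν 0 σ * wt (endp x π) else 0)
      = ∫⁻ ω, ∑' π : Wd d, ∑' σ : Wd d,
        (if π ∈ B ∧ FH 0 x Dp σ π ∧ (∃ γ ∈ A, σ <+: γ) then
          lw ω 0 σ * lw ω x π * wt (endp x π) else 0) ∂Q := by
    have hmeas : ∀ π σ : Wd d, Measurable fun ω : Environment d =>
        (if π ∈ B ∧ FH 0 x Dp σ π ∧ (∃ γ ∈ A, σ <+: γ) then
          lw ω 0 σ * lw ω x π * wt (endp x π) else 0) := by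
      intro π σ
      split_ifs
      · exact ((measurable_lw 0 σ).mul (measurable_lw x π)).mul_const _
      · exact measurable_const
    rw [lintegral_tsum fun π => (Measurable.ennreal_tsum fun σ => hmeas π σ).aemeasurable]
    refine tsum_congr fun π => ?_
    rw [lintegral_tsum fun σ => (hmeas π σ).aemeasurable]
    refine tsum_congr fun σ => ?_
    split_ifs with h
    · rw [lintegral_mul_const (f := fun ω : Environment d => lw ω 0 σ * lw ω x π) _
          ((measurable_lw 0 σ).mul (measurable_lw x π)),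
        ← an_mul ν 0 x σ π h.2.1.1]
      ring
    · simp
  rw [h1]
  have h2 : ∀ ω : Environment d, (∑' π : Wd d, ∑' σ : Wd d,
        (if π ∈ B ∧ FH 0 x Dp σ π ∧ (∃ γ ∈ A, σ <+: γ) then
          lw ω 0 σ * lw ω x π * wt (endp x π) else 0))
      ≤ M / lam * tw ω 0 R + bad B T lam wt x ω := by
    intro ω
    calc (∑' π : Wd d, ∑' σ : Wd d,
        (if π ∈ B ∧ FH 0 x Dp σ π ∧ (∃ γ ∈ A, σ <+: γ) then
          lw ω 0 σ * lw ω x π * wt (endp x π) else 0))
        ≤ ∑' π : Wd d, ∑' σ : Wd d,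
          ((if π ∈ B then lw ω x π else 0) * (M / lam * (if FH 0 x Dp σ π ∧ (∃ γ ∈ A, σ <+: γ)
              then lw ω 0 σ * tw ω (endp 0 σ) (T x (endp 0 σ)) else 0))
            + ((if π ∈ B ∧ ∃ y ∈ sitesL x π, y ∈ {v | tw ω v (T x v) ≤ lam} then
                lw ω x π else 0) * wt (endp x π)) * (if σ ∈ {σ | FH 0 x Dp σ π}
                then lw ω 0 σ else 0)) := by
          refine ENNReal.tsum_le_tsum fun π => ENNReal.tsum_le_tsum fun σ => ?_
          by_cases h : π ∈ B ∧ FH 0 x Dp σ π ∧ (∃ γ ∈ A, σ <+: γ)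
          swap
          · rw [if_neg h]; exact zero_le
          rw [if_pos h]
          by_cases hcase : tw ω (endp 0 σ) (T x (endp 0 σ)) ≤ lam
          · refine le_trans ?_ le_add_self
            rw [if_pos ⟨h.1, endp 0 σ, h.2.1.2.1, hcase⟩,
              if_pos (show σ ∈ {σ | FH 0 x Dp σ π} from h.2.1)]
            exact le_of_eq (by ring)
          · refine le_trans ?_ le_self_add
            rw [if_pos h.1, if_pos ⟨h.2.1, h.2.2⟩]
            have h3 : wt (endp x π) ≤ M / lam * tw ω (endp 0 σ) (T x (endp 0 σ)) := by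
              calc wt (endp x π) ≤ M := hM _
                _ = M / lam * lam := (ENNReal.div_mul_cancel hl0 hlt).symm
                _ ≤ _ := mul_le_mul_right (not_le.mp hcase).le _
            calc lw ω 0 σ * lw ω x π * wt (endp x π)
                ≤ lw ω 0 σ * lw ω x π * (M / lam * tw ω (endp 0 σ) (T x (endp 0 σ))) :=
                  mul_le_mul_right h3 _
              _ = _ := by ring
      _ = (∑' π : Wd d, (if π ∈ B then lw ω x π else 0) * (M / lam * ∑' σ : Wd d,
              (if FH 0 x Dp σ π ∧ (∃ γ ∈ A, σ <+: γ)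
              then lw ω 0 σ * tw ω (endp 0 σ) (T x (endp 0 σ)) else 0)))
            + ∑' π : Wd d, ((if π ∈ B ∧ ∃ y ∈ sitesL x π, y ∈ {v | tw ω v (T x v) ≤ lam} then
                lw ω x π else 0) * wt (endp x π)) * tw ω 0 {σ | FH 0 x Dp σ π} := by
          rw [← ENNReal.tsum_add]
          refine tsum_congr fun π => ?_
          rw [ENNReal.tsum_add, ENNReal.tsum_mul_left, ENNReal.tsum_mul_left,
            ENNReal.tsum_mul_left]
          rfl
      _ ≤ (∑' π : Wd d, (if π ∈ B then lw ω x π else 0) * (M / lam * tw ω 0 R))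
            + ∑' π : Wd d, ((if π ∈ B ∧ ∃ y ∈ sitesL x π, y ∈ {v | tw ω v (T x v) ≤ lam} then
                lw ω x π else 0) * wt (endp x π)) * 1 := by
          refine add_le_add (ENNReal.tsum_le_tsum fun π => ?_)
            (ENNReal.tsum_le_tsum fun π => ?_)
          · exact mul_le_mul_right (mul_le_mul_right
              (guest_b ω 0 x Dp π (fun σ => ∃ γ ∈ A, σ <+: γ) (T x) R hR) _) _
          · refine mul_le_mul_right (tw_le_one ω 0 ?_) _
            intro a ha b hb hab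
            exact fh_unique ha hb hab List.prefix_rfl
      _ ≤ M / lam * tw ω 0 R + bad B T lam wt x ω := by
          refine add_le_add ?_ (le_of_eq ?_)
          · rw [ENNReal.tsum_mul_right]
            calc (∑' γ : Wd d, if γ ∈ B then lw ω x γ else 0) * (M / lam * tw ω 0 R)
                ≤ 1 * (M / lam * tw ω 0 R) := by
                  refine mul_le_mul_left ?_ _
                  refine le_trans (le_of_eq ?_) (tw_le_one ω x hB)
                  unfold tw
                  refine tsum_congr fun l => ?_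
                  congr
              _ = _ := one_mul _
          · unfold bad
            simp only [mul_one]
  calc _ ≤ ∫⁻ ω, (M / lam * tw ω 0 R + bad B T lam wt x ω) ∂Q := lintegral_mono h2
    _ = _ := by
        rw [lintegral_add_left ((measurable_tw 0 R).const_mul _),
          lintegral_const_mul _ (measurable_tw 0 R)]

/-- the bad part, summed over the starts -/
theorem bad_sum {B : Set (Wd d)} (T : Site d → Site d → Set (Wd d))
    (hcl : ∀ γ₁ γ₂, γ₁ ++ γ₂ ∈ B → γ₂ ≠ [] → γ₂ ∈ T 0 (endp 0 γ₁))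
    (hT : ∀ x v, T x (v + x) = T 0 v)
    {wt : Site d → ℝ≥0∞} (hs : ∑' z, wt z ≤ 1) (lam : ℝ≥0∞) :
    ∑' x, ∫⁻ ω, bad B T lam wt x ω ∂(iidEnvironmentLaw ν) ≤ lam := by
  have hmv : ∀ v : Site d, Measurable fun ω : Environment d => tw ω v (T 0 v) :=
    fun v => measurable_tw v _
  have hm0 : ∀ x : Site d, ∀ π : Wd d, MeasurableSet {ω : Environment d |
      π ∈ B ∧ ∃ y ∈ sitesL (0 : Site d) π, y ∈ {v | tw ω v (T 0 v) ≤ lam}} := by
    intro _ π
    have : {ω : Environment d | π ∈ B ∧ ∃ y ∈ sitesL (0 : Site d) π, y ∈ {v | tw ω v (T 0 v) ≤ lam}}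
        = {ω | π ∈ B} ∩ ⋃ y ∈ {y | y ∈ sitesL (0 : Site d) π}, {ω | tw ω y (T 0 y) ≤ lam} := by
      ext ω
      simp
    rw [this]
    refine (MeasurableSet.const _).inter ?_
    refine MeasurableSet.biUnion (Set.to_countable _) fun y _ => ?_
    exact measurableSet_le (hmv y) measurable_const
  have key : ∀ x : Site d, ∫⁻ ω, bad B T lam wt x ω ∂(iidEnvironmentLaw ν)
      = ∫⁻ ω, ∑' π : Wd d, (if π ∈ B ∧ ∃ y ∈ sitesL (0 : Site d) π,
          y ∈ {v | tw ω v (T 0 v) ≤ lam} then lw ω 0 π else 0) * wt (endp 0 π + x)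
          ∂(iidEnvironmentLaw ν) := by
    intro x
    have hmeas : Measurable fun ω : Environment d => ∑' π : Wd d,
        (if π ∈ B ∧ ∃ y ∈ sitesL (0 : Site d) π,
          y ∈ {v | tw ω v (T 0 v) ≤ lam} then lw ω 0 π else 0) * wt (endp 0 π + x) := by
      refine Measurable.ennreal_tsum fun π => ?_
      refine Measurable.mul_const ?_ _
      exact Measurable.ite (hm0 x π) (measurable_lw 0 π) measurable_const
    rw [← (Q561.iid_shift ν x).lintegral_comp hmeas]
    refine lintegral_congr fun ω => ?_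
    unfold bad
    refine tsum_congr fun π => ?_
    have he : endp x π = endp 0 π + x := by rw [endp_eq_add, add_comm]
    rw [he]
    congr 1
    have hl : lw (shiftEnv x ω) 0 π = lw ω x π := by rw [NB28.lw_shiftEnv, zero_add]
    rw [hl]
    have hiff : (π ∈ B ∧ ∃ y ∈ sitesL x π, y ∈ {v | tw ω v (T x v) ≤ lam}) ↔
        (π ∈ B ∧ ∃ y ∈ sitesL (0 : Site d) π, y ∈ {v | tw (shiftEnv x ω) v (T 0 v) ≤ lam}) := by
      constructor
      · rintro ⟨h, y, hy, hy2⟩
        refine ⟨h, y - x, ?_, ?_⟩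
        · rw [mem_sites_shift π 0 x, sub_add_cancel, zero_add]; exact hy
        · change tw (shiftEnv x ω) (y - x) (T 0 (y - x)) ≤ lam
          rw [tw_shift, sub_add_cancel, ← hT x (y - x), sub_add_cancel]
          exact hy2
      · rintro ⟨h, y, hy, hy2⟩
        refine ⟨h, y + x, ?_, ?_⟩
        · have := (mem_sites_shift π 0 x y).1 hy
          rwa [zero_add] at this
        · change tw ω (y + x) (T x (y + x)) ≤ lam
          rw [hT x y]
          change tw (shiftEnv x ω) y (T 0 y) ≤ lam at hy2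
          rwa [tw_shift] at hy2
    by_cases h : (π ∈ B ∧ ∃ y ∈ sitesL x π, y ∈ {v | tw ω v (T x v) ≤ lam})
    · rw [if_pos h, if_pos (hiff.1 h)]
    · rw [if_neg h, if_neg fun h' => h (hiff.2 h')]
  calc ∑' x, ∫⁻ ω, bad B T lam wt x ω ∂(iidEnvironmentLaw ν)
      = ∑' x : Site d, ∫⁻ ω, ∑' π : Wd d, (if π ∈ B ∧ ∃ y ∈ sitesL (0 : Site d) π,
          y ∈ {v | tw ω v (T 0 v) ≤ lam} then lw ω 0 π else 0) * wt (endp 0 π + x)
          ∂(iidEnvironmentLaw ν) := tsum_congr key
    _ = ∫⁻ ω, ∑' x : Site d, ∑' π : Wd d, (if π ∈ B ∧ ∃ y ∈ sitesL (0 : Site d) π,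
          y ∈ {v | tw ω v (T 0 v) ≤ lam} then lw ω 0 π else 0) * wt (endp 0 π + x)
          ∂(iidEnvironmentLaw ν) := by
        rw [lintegral_tsum]
        intro x
        refine Measurable.aemeasurable (Measurable.ennreal_tsum fun π => ?_)
        refine Measurable.mul_const ?_ _
        exact Measurable.ite (hm0 x π) (measurable_lw 0 π) measurable_const
    _ ≤ ∫⁻ _, lam ∂(iidEnvironmentLaw ν) := by
        refine lintegral_mono fun ω => ?_
        rw [ENNReal.tsum_comm]
        calc (∑' π : Wd d, ∑' x : Site d, (if π ∈ B ∧ ∃ y ∈ sitesL (0 : Site d) π,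
              y ∈ {v | tw ω v (T 0 v) ≤ lam} then lw ω 0 π else 0) * wt (endp 0 π + x))
            ≤ ∑' π : Wd d, (if π ∈ B ∧ ∃ y ∈ sitesL (0 : Site d) π,
              y ∈ {v | tw ω v (T 0 v) ≤ lam} then lw ω 0 π else 0) * 1 := by
              refine ENNReal.tsum_le_tsum fun π => ?_
              rw [ENNReal.tsum_mul_left]
              refine mul_le_mul_right ?_ _
              have := (Equiv.addLeft (endp 0 π)).tsum_eq (fun z : Site d => wt z)
              simp only [Equiv.coe_addLeft] at this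
              rw [this]
              exact hs
          _ ≤ lam := by
              simp only [mul_one]
              refine le_trans (le_of_eq ?_)
                (visit_le ω 0 (T 0) hcl {v | tw ω v (T 0 v) ≤ lam} lam fun v hv => hv)
              refine tsum_congr fun l => ?_
              congr
    _ = lam := by simp

/-- **facing lemma, order (2)** -/
theorem face2 {A B : Set (Wd d)} (hA : PF A) (hB : PF B)
    (T : Site d → Site d → Set (Wd d))
    (hcl : ∀ γ₁ γ₂, γ₁ ++ γ₂ ∈ B → γ₂ ≠ [] → γ₂ ∈ T 0 (endp 0 γ₁))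
    (hT : ∀ x v, T x (v + x) = T 0 v)
    {wt : Site d → ℝ≥0∞} {M : ℝ≥0∞} (hM : ∀ z, wt z ≤ M) (hs : ∑' z, wt z ≤ 1)
    (Dp : Set (Site d)) (R : Site d → Set (Wd d))
    (hR : ∀ x σ τ, (∃ γ ∈ A, σ <+: γ) → endp 0 σ ∈ Dp → τ ∈ T x (endp 0 σ) → σ ++ τ ∈ R x)
    {lam : ℝ≥0∞} (hl0 : lam ≠ 0) (hlt : lam ≠ ∞) :
    (∑' x : Site d, ∑' π : Wd d, ∑' γ : Wd d, if π ∈ B ∧ γ ∈ A ∧ FHD 0 x Dp γ π then
        an ν x π * an ν 0 γ * wt (endp x π) else 0)
      ≤ M / lam * (∑' x, ∫⁻ ω, tw ω 0 (R x) ∂(iidEnvironmentLaw ν)) + lam := by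
  calc (∑' x : Site d, ∑' π : Wd d, ∑' γ : Wd d, if π ∈ B ∧ γ ∈ A ∧ FHD 0 x Dp γ π then
        an ν x π * an ν 0 γ * wt (endp x π) else 0)
      ≤ ∑' x : Site d, (M / lam * ∫⁻ ω, tw ω 0 (R x) ∂(iidEnvironmentLaw ν)
        + ∫⁻ ω, bad B T lam wt x ω ∂(iidEnvironmentLaw ν)) :=
        ENNReal.tsum_le_tsum fun x => face2_one ν x hA hB T hM Dp (R x) (hR x) hl0 hlt
    _ = M / lam * (∑' x, ∫⁻ ω, tw ω 0 (R x) ∂(iidEnvironmentLaw ν))
        + ∑' x, ∫⁻ ω, bad B T lam wt x ω ∂(iidEnvironmentLaw ν) := by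
        rw [ENNReal.tsum_add, ENNReal.tsum_mul_left]
    _ ≤ _ := add_le_add le_rfl (bad_sum ν T hcl hT hs lam)

end

end Crest.Agent.R154.Face504
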