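import Crest.Agent.R154.Face_956

/-! Row 154 (helper956): **the one-window facing lemma of 801 in words**, both roles, final form.
Free walker `F` from `0`, event walker `G` from `x` (summed over `X0`), contacts inside `Dp`. -/

set_option autoImplicit false

open MeasureTheory ProbabilityTheory Crest.ProbabilityR.RandomEnvironment
open Crest.Agent.R154.Flux566 Crest.Agent.R154.WordB956 Crest.Agent.R154.Face956
open scoped ENNReal

namespace Crest.Agent.R154.FaceB956

variable {d : ℕ}

/-- hypotheses -/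
structure DataX (G F Ret : Set (List (Step d))) (Tc : Site d → Set (List (Step d)))
    (E Dp X0 : Set (Site d)) : Prop where
  pfG : PF G
  pfF : PF F
  pfRet : PF Ret
  cont : ∀ g1 g2, g1 ++ g2 ∈ G → g2 ∈ Tc (endp 0 g1)
  land : ∀ v l, l ∈ Tc v → endp v l ∈ E
  ret : ∀ x ∈ X0, ∀ (g f1 f2 l : List (Step d)), g ∈ G → f1 ++ f2 ∈ F → f1 ∈ FH (V x g) 0 →
    endp 0 f1 ∈ Dp → l ∈ Tc (endp 0 f1 - x) → f1 ++ l ∈ Ret

variable {G F Ret : Set (List (Step d))} {Tc : Site d → Set (List (Step d))}
  {E Dp X0 : Set (Site d)}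

/-- prefixes of the free walker which end at its first hit of `V x g`, this hit being in `Dp` -/
def H1 (F : Set (List (Step d))) (Dp : Set (Site d)) (x : Site d) (g : List (Step d)) :
    Set (List (Step d)) :=
  {f1 | f1 ∈ FH (V x g) 0 ∧ endp 0 f1 ∈ Dp ∧ ∃ f2, f1 ++ f2 ∈ F}

lemma pf_H1 (x : Site d) (g : List (Step d)) : PF (H1 F Dp x g) :=
  (pf_FH _ _).mono fun _ h => h.1

lemma disj_H1 {x : Site d} {g f1 : List (Step d)} (h : f1 ∈ H1 F Dp x g) :
    ∀ z ∈ sitesL x g, z ∉ sitesL 0 f1 := by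
  intro z hz hz'
  obtain ⟨l1, e, l2, h1, h2⟩ := mem_sitesL.1 hz'
  exact h.1.2 l1 (e :: l2) h1 (by simp) (by rw [h2]; exact hz)

/-- there is a common departure site, and all of them are in `Dp` -/
def HitD (Dp : Set (Site d)) (x : Site d) (g f : List (Step d)) : Prop :=
  (∃ z, z ∈ sitesL x g ∧ z ∈ sitesL 0 f) ∧ ∀ z, z ∈ sitesL x g → z ∈ sitesL 0 f → z ∈ Dp

lemma exists_H1 {x : Site d} {g f : List (Step d)} (hf : f ∈ F) (h : HitD Dp x g f) :
    ∃ l1 l2, f = l1 ++ l2 ∧ l1 ∈ H1 F Dp x g := by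
  obtain ⟨⟨z, hz, hz'⟩, hD⟩ := h
  obtain ⟨l1, e, l2, h1, h2⟩ := mem_sitesL.1 hz'
  obtain ⟨m1, m2, h3, h4⟩ := exists_FH (D := V x g) (x := (0 : Site d)) (l := f)
    ⟨l1, e :: l2, h1, by rw [h2]; exact hz⟩
  have h5 : endp 0 m1 ∈ sitesL 0 f := by
    rw [mem_sitesL]
    cases m2 with
    | nil =>
      -- then `m1 = f` and `l1` is a shorter prefix in `V`
      exfalso
      rw [List.append_nil] at h3
      exact h4.2 l1 (e :: l2) (h3 ▸ h1) (by simp) (by rw [h2]; exact hz)
    | cons a m2 => exact ⟨m1, a, m2, h3, rfl⟩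
  exact ⟨m1, m2, h3, h4, hD _ h4.1 h5, m2, h3 ▸ hf⟩

open Classical in
lemma vis_ec (D : DataX G F Ret Tc E Dp X0) (ω : Environment d) (x : Site d) (lam : ℝ≥0∞) :
    ∑' g : List (Step d), (if g ∈ G ∧ g ∈ Vis {v | ec Tc ω x v ≤ lam} x then lw ω x g else 0)
      ≤ lam := by
  refine vis_le ω x G _ lam fun l1 hl1 => ?_
  refine le_trans (ENNReal.tsum_le_tsum fun l2 => ?_) hl1.1
  by_cases h : l1 ++ l2 ∈ G
  · have h2 := D.cont l1 l2 h
    have h3 : l2 ∈ Tc (endp x l1 - x) := by
      rw [endp_eq_add l1 x, add_sub_cancel_left]; exact h2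
    rw [if_pos h, if_pos h3]
  · rw [if_neg h]; exact zero_le

open Classical in
lemma turn_le (D : DataX G F Ret Tc E Dp X0) (ω : Environment d) {x : Site d} (hx : x ∈ X0)
    (g : List (Step d)) (hg : g ∈ G) :
    ∑' f1 : List (Step d), (if f1 ∈ H1 F Dp x g then lw ω 0 f1 * ec Tc ω x (endp 0 f1) else 0)
      ≤ ∑' l : List (Step d), (if l ∈ Ret ∧ endp 0 l - x ∈ E then lw ω 0 l else 0) := by
  have e : ∑' f1 : List (Step d), (if f1 ∈ H1 F Dp x g then lw ω 0 f1 * ec Tc ω x (endp 0 f1)
        else 0)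
      = ∑' f1 : List (Step d), (if f1 ∈ H1 F Dp x g then ∑' l : List (Step d),
          (if l ∈ Tc (endp 0 f1 - x) then lw ω 0 (f1 ++ l) else 0) else 0) := by
    refine tsum_congr fun f1 => ?_
    congr 1
    unfold ec
    rw [← ENNReal.tsum_mul_left]
    refine tsum_congr fun l => ?_
    rw [lw_append, mul_ite, mul_zero]
  rw [e]
  refine tsum_pf_le (pf_H1 x g) (fun f1 l => if l ∈ Tc (endp 0 f1 - x) then lw ω 0 (f1 ++ l)
    else 0) (fun l => if l ∈ Ret ∧ endp 0 l - x ∈ E then lw ω 0 l else 0) fun f1 h1 l => ?_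
  by_cases h : l ∈ Tc (endp 0 f1 - x)
  · obtain ⟨h2, h0, f2, h3⟩ := h1
    have h4 := D.ret x hx g f1 f2 l hg h3 h2 h0 h
    have h5 : endp 0 (f1 ++ l) - x ∈ E := by
      have h6 := D.land _ l h
      rw [endp_append]
      have h7 : endp (endp 0 f1) l = endp (endp 0 f1 - x) l + x := by
        rw [← endp_add, sub_add_cancel]
      rw [h7, add_sub_cancel_right]
      exact h6
    simp only [h, if_true]
    rw [if_pos ⟨h4, h5⟩]
  · simp only [h, if_false]; exact zero_le

open Classical in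
lemma turn_sum (ν : Measure (Row d)) [IsProbabilityMeasure ν] (D : DataX G F Ret Tc E Dp X0)
    (cE : ℝ≥0∞) (hE : ∑' z : Site d, (if z ∈ E then (1 : ℝ≥0∞) else 0) ≤ cE) :
    ∑' x : Site d, (if x ∈ X0 then ∫⁻ ω : Environment d, ∑' g : List (Step d),
      (if g ∈ G then lw ω x g *
      ∑' f1 : List (Step d), (if f1 ∈ H1 F Dp x g then lw ω 0 f1 * ec Tc ω x (endp 0 f1) else 0)
        else 0) ∂(iidEnvironmentLaw ν) else 0)
      ≤ cE * ∑' l : List (Step d), (if l ∈ Ret then aw (iidEnvironmentLaw ν) 0 l else 0) := by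
  have h1 : ∀ (x : Site d), x ∈ X0 → ∀ (ω : Environment d), ∑' g : List (Step d),
      (if g ∈ G then lw ω x g *
      ∑' f1 : List (Step d), (if f1 ∈ H1 F Dp x g then lw ω 0 f1 * ec Tc ω x (endp 0 f1) else 0)
        else 0) ≤ ∑' l : List (Step d), (if l ∈ Ret ∧ endp 0 l - x ∈ E then lw ω 0 l else 0) := by
    intro x hx ω
    set B := ∑' l : List (Step d), (if l ∈ Ret ∧ endp 0 l - x ∈ E then lw ω 0 l else 0)
    calc _ ≤ ∑' g : List (Step d), (if g ∈ G then lw ω x g else 0) * B := by
          refine ENNReal.tsum_le_tsum fun g => ?_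
          by_cases hg : g ∈ G
          · rw [if_pos hg, if_pos hg]
            exact mul_le_mul_right (turn_le D ω hx g hg) _
          · rw [if_neg hg, if_neg hg, zero_mul]
      _ = (∑' g : List (Step d), (if g ∈ G then lw ω x g else 0)) * B := ENNReal.tsum_mul_right
      _ ≤ 1 * B := mul_le_mul_left (pf_sum_le ω x D.pfG) _
      _ = B := one_mul _
  calc _ ≤ ∑' x : Site d, ∫⁻ ω : Environment d, ∑' l : List (Step d),
        (if l ∈ Ret ∧ endp 0 l - x ∈ E then lw ω 0 l else 0) ∂(iidEnvironmentLaw ν) := by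
        refine ENNReal.tsum_le_tsum fun x => ?_
        by_cases hx : x ∈ X0
        · rw [if_pos hx]; exact lintegral_mono fun ω => h1 x hx ω
        · rw [if_neg hx]; exact zero_le
    _ = ∑' x : Site d, ∑' l : List (Step d),
        (if l ∈ Ret ∧ endp 0 l - x ∈ E then aw (iidEnvironmentLaw ν) 0 l else 0) := by
        refine tsum_congr fun x => ?_
        rw [lintegral_tsum]
        · refine tsum_congr fun l => ?_
          by_cases h : l ∈ Ret ∧ endp 0 l - x ∈ E
          · simp only [h, and_self, if_true, aw]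
          · simp only [h, if_false, lintegral_zero]
        · intro l
          by_cases h : l ∈ Ret ∧ endp 0 l - x ∈ E
          · simp only [h, and_self, if_true]; exact (measurable_lw 0 l).aemeasurable
          · simp only [h, if_false]; exact measurable_const.aemeasurable
    _ = ∑' l : List (Step d), (if l ∈ Ret then aw (iidEnvironmentLaw ν) 0 l else 0)
          * ∑' x : Site d, (if endp 0 l - x ∈ E then (1 : ℝ≥0∞) else 0) := by
        rw [ENNReal.tsum_comm]
        refine tsum_congr fun l => ?_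
        rw [← ENNReal.tsum_mul_left]
        refine tsum_congr fun x => ?_
        by_cases h2 : l ∈ Ret <;> by_cases h3 : endp 0 l - x ∈ E <;> simp [h2, h3]
    _ ≤ ∑' l : List (Step d), (if l ∈ Ret then aw (iidEnvironmentLaw ν) 0 l else 0) * cE := by
        refine ENNReal.tsum_le_tsum fun l => mul_le_mul_right ?_ _
        refine le_trans (le_of_eq ?_) hE
        exact (Equiv.subLeft (endp 0 l)).tsum_eq (fun z => if z ∈ E then (1 : ℝ≥0∞) else 0)
    _ = _ := by rw [ENNReal.tsum_mul_right, mul_comm]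

/-! ### exchange of sums and integral for the pair -/

open Classical in
lemma pair_swap (Q : Measure (Environment d)) (x : Site d) (g : List (Step d))
    (S : Set (List (Step d))) (h : Environment d → List (Step d) → ℝ≥0∞)
    (hm : ∀ f1, Measurable fun ω => h ω f1) :
    ∑' f1 : List (Step d), (if f1 ∈ S then ∫⁻ ω, lw ω x g * (lw ω 0 f1 * h ω f1) ∂Q else 0)
      = ∫⁻ ω, lw ω x g * ∑' f1 : List (Step d), (if f1 ∈ S then lw ω 0 f1 * h ω f1 else 0) ∂Q := by
  simp_rw [← ENNReal.tsum_mul_left]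
  rw [lintegral_tsum]
  · refine tsum_congr fun f1 => ?_
    by_cases h1 : f1 ∈ S
    · simp only [h1, if_true]
    · simp only [h1, if_false, mul_zero, lintegral_zero]
  · intro f1
    by_cases h1 : f1 ∈ S
    · simp only [h1, if_true]
      exact ((measurable_lw x g).mul ((measurable_lw 0 f1).mul (hm f1))).aemeasurable
    · simp only [h1, if_false, mul_zero]; exact measurable_const.aemeasurable

open Classical in
/-- the (b)-part of both lemmas -/
lemma part_b (ν : Measure (Row d)) [IsProbabilityMeasure ν] (D : DataX G F Ret Tc E Dp X0)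
    (cE : ℝ≥0∞) (hE : ∑' z : Site d, (if z ∈ E then (1 : ℝ≥0∞) else 0) ≤ cE) (c : ℝ≥0∞) :
    ∑' x : Site d, (if x ∈ X0 then ∑' g : List (Step d), (if g ∈ G then
      ∑' f1 : List (Step d), (if f1 ∈ H1 F Dp x g then
        c * ∫⁻ ω : Environment d, lw ω x g * (lw ω 0 f1 * ec Tc ω x (endp 0 f1))
          ∂(iidEnvironmentLaw ν) else 0) else 0) else 0)
      ≤ c * cE * ∑' l : List (Step d), (if l ∈ Ret then aw (iidEnvironmentLaw ν) 0 l else 0) := by
  rw [mul_assoc]
  refine le_trans (le_of_eq ?_) (mul_le_mul_right (turn_sum ν D cE hE) c)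
  rw [← ENNReal.tsum_mul_left]
  refine tsum_congr fun x => ?_
  rw [mul_ite, mul_zero]
  congr 1
  rw [lintegral_tsum]
  · rw [← ENNReal.tsum_mul_left]
    refine tsum_congr fun g => ?_
    by_cases hg : g ∈ G
    · simp only [hg, if_true]
      rw [← pair_swap (iidEnvironmentLaw ν) x g (H1 F Dp x g)
        (fun ω f1 => ec Tc ω x (endp 0 f1)) (fun f1 => measurable_ec Tc x _),
        ← ENNReal.tsum_mul_left]
      refine tsum_congr fun f1 => ?_
      rw [mul_ite, mul_zero]
    · simp only [hg, if_false, lintegral_zero, mul_zero]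
  · intro g
    by_cases hg : g ∈ G
    · simp only [hg, if_true]
      refine ((measurable_lw x g).mul (Measurable.ennreal_tsum fun f1 => ?_)).aemeasurable
      by_cases h1 : f1 ∈ H1 F Dp x g
      · simp only [h1, if_true]; exact (measurable_lw 0 f1).mul (measurable_ec Tc x _)
      · simp only [h1, if_false]; exact measurable_const
    · simp only [hg, if_false]; exact measurable_const.aemeasurable

end Crest.Agent.R154.FaceB956
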