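import Crest.Agent.R154.Face2_956

/-! Row 154 (helper956): `face2` and `face3`. -/

set_option autoImplicit false

open MeasureTheory ProbabilityTheory Crest.ProbabilityR.RandomEnvironment
open Crest.Agent.R154.Flux566 Crest.Agent.R154.WordB956 Crest.Agent.R154.Face956
open scoped ENNReal

namespace Crest.Agent.R154.FaceB956

variable {d : ℕ}
variable {G F Ret : Set (List (Step d))} {Tc : Site d → Set (List (Step d))}
  {E Dp X0 : Set (Site d)}

lemma aw_any (ν : Measure (Row d)) [IsProbabilityMeasure ν] (x : Site d) (l : List (Step d)) :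
    aw (iidEnvironmentLaw ν) x l = aw (iidEnvironmentLaw ν) 0 l :=
  aw_shift _ (Q561.iid_shift ν) x l

lemma measurableSet_visE (Tc : Site d → Set (List (Step d))) (x : Site d) (lam : ℝ≥0∞)
    (g : List (Step d)) :
    MeasurableSet {ω : Environment d | g ∈ Vis {v | ec Tc ω x v ≤ lam} x} := by
  have e : {ω : Environment d | g ∈ Vis {v | ec Tc ω x v ≤ lam} x}
      = ⋃ l1 : List (Step d), ⋃ l2 : List (Step d),
        {ω : Environment d | g = l1 ++ l2 ∧ ec Tc ω x (endp x l1) ≤ lam} := by
    ext ω
    simp only [Set.mem_iUnion]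
    rfl
  rw [e]
  refine MeasurableSet.iUnion fun l1 => MeasurableSet.iUnion fun l2 => ?_
  by_cases h : g = l1 ++ l2
  · have : {ω : Environment d | g = l1 ++ l2 ∧ ec Tc ω x (endp x l1) ≤ lam}
        = {ω : Environment d | ec Tc ω x (endp x l1) ≤ lam} := by
      ext ω; exact ⟨fun h' => h'.2, fun h' => ⟨h, h'⟩⟩
    rw [this]
    exact measurableSet_le (measurable_ec Tc x _) measurable_const
  · have : {ω : Environment d | g = l1 ++ l2 ∧ ec Tc ω x (endp x l1) ≤ lam} = ∅ := by
      ext ω; exact ⟨fun h' => absurd h'.1 h, fun h' => absurd h' (Set.notMem_empty _)⟩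
    rw [this]
    exact MeasurableSet.empty

open Classical in
/-- indicator of a small continuation -/
noncomputable def sm (Tc : Site d → Set (List (Step d))) (x v : Site d) (lam : ℝ≥0∞)
    (ω : Environment d) : ℝ≥0∞ := if ec Tc ω x v ≤ lam then 1 else 0

lemma measurable_sm (Tc : Site d → Set (List (Step d))) (x v : Site d) (lam : ℝ≥0∞) :
    Measurable fun ω : Environment d => sm Tc x v lam ω := by
  classical
  exact Measurable.ite (measurableSet_le (measurable_ec Tc x v) measurable_const)
    measurable_const measurable_const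

lemma one_le_sm (Tc : Site d → Set (List (Step d))) (x v : Site d) {lam : ℝ≥0∞} (h0 : lam ≠ 0)
    (h1 : lam ≠ ⊤) (r : ℝ≥0∞) (hr : r ≤ 1) (ω : Environment d) :
    r ≤ r * sm Tc x v (lam * r) ω + lam⁻¹ * ec Tc ω x v := by
  classical
  unfold sm
  by_cases h : ec Tc ω x v ≤ lam * r
  · rw [if_pos h, mul_one]; exact le_self_add
  · rw [if_neg h, mul_zero, zero_add]
    have h2 : lam * r ≤ ec Tc ω x v := (not_le.1 h).le
    calc r = lam⁻¹ * (lam * r) := by
          rw [← mul_assoc, ENNReal.inv_mul_cancel h0 h1, one_mul]
      _ ≤ _ := mul_le_mul_right h2 _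

open Classical in
/-- **(a) for one start**: quenched, event walker at a small site, free walker dominated by a
prefix-free set `S`. -/
lemma part_a (D : DataX G F Ret Tc E Dp X0) (ω : Environment d) (x : Site d) (lam : ℝ≥0∞)
    (R : List (Step d) → Set (List (Step d))) (hR : ∀ g, R g ⊆ H1 F Dp x g)
    (S : Set (List (Step d))) (hS : PF S)
    (hRS : ∀ g, ∀ f1 ∈ R g, ∃ l1 l2, f1 = l1 ++ l2 ∧ l1 ∈ S) :
    ∑' g : List (Step d), (if g ∈ G then lw ω x g *
      ∑' f1 : List (Step d), (if f1 ∈ R g then lw ω 0 f1 * sm Tc x (endp 0 f1) lam ω else 0)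
        else 0) ≤ lam * ∑' l : List (Step d), (if l ∈ S then lw ω 0 l else 0) := by
  set B := ∑' l : List (Step d), (if l ∈ S then lw ω 0 l else 0) with hB
  calc _ ≤ ∑' g : List (Step d),
        (if g ∈ G ∧ g ∈ Vis {v | ec Tc ω x v ≤ lam} x then lw ω x g else 0) * B := by
        refine ENNReal.tsum_le_tsum fun g => ?_
        by_cases hg : g ∈ G
        · rw [if_pos hg]
          by_cases hv : g ∈ Vis {v | ec Tc ω x v ≤ lam} x
          · rw [if_pos ⟨hg, hv⟩]
            refine mul_le_mul_right ?_ _
            refine le_trans ?_ (dom_le ω 0 ((pf_H1 x g).mono (hR g)) hS (hRS g))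
            refine ENNReal.tsum_le_tsum fun f1 => ?_
            by_cases h1 : f1 ∈ R g
            · rw [if_pos h1, if_pos h1]
              unfold sm
              split_ifs <;> simp
            · rw [if_neg h1, if_neg h1]
          · rw [if_neg fun h => hv h.2, zero_mul]
            refine le_of_eq ?_
            rw [mul_eq_zero]
            right
            rw [ENNReal.tsum_eq_zero]
            intro f1
            by_cases h1 : f1 ∈ R g
            · rw [if_pos h1]
              unfold sm
              rw [if_neg, mul_zero]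
              intro h2
              have h3 := (hR g h1).1.1
              obtain ⟨l1, e, l2, h4, h5⟩ := mem_sitesL.1 h3
              exact hv ⟨l1, e :: l2, h4, by rw [h5]; exact h2⟩
            · rw [if_neg h1]
        · rw [if_neg hg, if_neg fun h => hg h.1, zero_mul]
    _ = (∑' g : List (Step d),
        (if g ∈ G ∧ g ∈ Vis {v | ec Tc ω x v ≤ lam} x then lw ω x g else 0)) * B :=
        ENNReal.tsum_mul_right
    _ ≤ lam * B := mul_le_mul_left (vis_ec D ω x lam) _

/-! ### event walker and weight on the same walker -/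

open Classical in
/-- **(2)**: the weight `K x g` sits on the event walker. -/
theorem face2 (ν : Measure (Row d)) [IsProbabilityMeasure ν] (D : DataX G F Ret Tc E Dp X0)
    (cE : ℝ≥0∞) (hE : ∑' z : Site d, (if z ∈ E then (1 : ℝ≥0∞) else 0) ≤ cE)
    (K : Site d → List (Step d) → ℝ≥0∞) (M : ℝ≥0∞) (hKM : ∀ x g, K x g ≤ M)
    (hK1 : ∀ g ∈ G, ∑' x, K x g ≤ 1) (lam : ℝ≥0∞) (h0 : lam ≠ 0) (h1 : lam ≠ ⊤) :
    ∑' x : Site d, (if x ∈ X0 then ∑' g : List (Step d), (if g ∈ G then
      ∑' f : List (Step d), (if f ∈ F ∧ HitD Dp x g f then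
        aw (iidEnvironmentLaw ν) 0 g * aw (iidEnvironmentLaw ν) 0 f * K x g else 0) else 0) else 0)
      ≤ lam + M * lam⁻¹ * cE *
        ∑' l : List (Step d), (if l ∈ Ret then aw (iidEnvironmentLaw ν) 0 l else 0) := by
  set Q := iidEnvironmentLaw ν with hQ
  -- step 1: prefix up to the first hit
  have s1 : ∀ x g, ∑' f : List (Step d), (if f ∈ F ∧ HitD Dp x g f then
        aw Q 0 g * aw Q 0 f * K x g else 0)
      ≤ ∑' f1 : List (Step d), (if f1 ∈ H1 F Dp x g then aw Q 0 g * aw Q 0 f1 * K x g else 0) := by
    intro x g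
    calc _ ≤ ∑' l : List (Step d), (if ∃ l1 l2, l = l1 ++ l2 ∧ l1 ∈ H1 F Dp x g then
          (if l ∈ F then aw Q 0 g * aw Q 0 l * K x g else 0) else 0) := by
          refine ENNReal.tsum_le_tsum fun f => ?_
          by_cases h : f ∈ F ∧ HitD Dp x g f
          · rw [if_pos h, if_pos (exists_H1 h.1 h.2), if_pos h.1]
          · rw [if_neg h]; exact zero_le
      _ = ∑' f1 : List (Step d), (if f1 ∈ H1 F Dp x g then ∑' f2 : List (Step d),
          (if f1 ++ f2 ∈ F then aw Q 0 g * aw Q 0 (f1 ++ f2) * K x g else 0) else 0) :=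
          (tsum_pf (pf_H1 x g) (fun l => if l ∈ F then aw Q 0 g * aw Q 0 l * K x g else 0)).symm
      _ ≤ _ := by
          refine ENNReal.tsum_le_tsum fun f1 => ?_
          by_cases h : f1 ∈ H1 F Dp x g
          · rw [if_pos h, if_pos h]
            have hpf : PF {f2 | f1 ++ f2 ∈ F} := by
              intro a ha b hb
              have hb' : f1 ++ (a ++ b) ∈ F := hb
              rw [← List.append_assoc] at hb'
              exact D.pfF (f1 ++ a) ha b hb'
            calc ∑' f2 : List (Step d),
                  (if f1 ++ f2 ∈ F then aw Q 0 g * aw Q 0 (f1 ++ f2) * K x g else 0)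
                = (aw Q 0 g * K x g) * ∑' f2 : List (Step d),
                  (if f2 ∈ {f2 | f1 ++ f2 ∈ F} then aw Q 0 (f1 ++ f2) else 0) := by
                  rw [← ENNReal.tsum_mul_left]
                  refine tsum_congr fun f2 => ?_
                  rw [mul_ite, mul_zero]
                  by_cases h2 : f1 ++ f2 ∈ F
                  · rw [if_pos h2, if_pos (show f2 ∈ {f2 | f1 ++ f2 ∈ F} from h2)]; ring
                  · rw [if_neg h2, if_neg (show f2 ∉ {f2 | f1 ++ f2 ∈ F} from h2)]
              _ ≤ (aw Q 0 g * K x g) * aw Q 0 f1 := mul_le_mul_right (pf_ext_le Q 0 f1 hpf) _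
              _ = _ := by ring
          · rw [if_neg h, if_neg h]
  -- step 2: same = ind, and the split
  have s2 : ∀ x g f1, f1 ∈ H1 F Dp x g → aw Q 0 g * aw Q 0 f1 * K x g
      ≤ K x g * ∫⁻ ω : Environment d, lw ω x g * (lw ω 0 f1 * sm Tc x (endp 0 f1) lam ω) ∂Q
        + M * lam⁻¹ * ∫⁻ ω : Environment d, lw ω x g * (lw ω 0 f1 * ec Tc ω x (endp 0 f1)) ∂Q := by
    intro x g f1 h
    have e1 : aw Q 0 g * aw Q 0 f1 = ∫⁻ ω : Environment d, lw ω x g * lw ω 0 f1 ∂Q := by
      rw [hQ, aw_mul ν x 0 g f1 (disj_H1 h), aw_any ν x g]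
    have e2 : ∫⁻ ω : Environment d, lw ω x g * lw ω 0 f1 ∂Q
        ≤ ∫⁻ ω : Environment d, lw ω x g * (lw ω 0 f1 * sm Tc x (endp 0 f1) lam ω) ∂Q
          + lam⁻¹ * ∫⁻ ω : Environment d, lw ω x g * (lw ω 0 f1 * ec Tc ω x (endp 0 f1)) ∂Q := by
      have hm : Measurable fun ω : Environment d =>
          lw ω x g * (lw ω 0 f1 * sm Tc x (endp 0 f1) lam ω) :=
        (measurable_lw x g).mul ((measurable_lw 0 f1).mul (measurable_sm Tc x _ lam))
      rw [← lintegral_const_mul' _ _ (ENNReal.inv_ne_top.2 h0), ← lintegral_add_left hm]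
      refine lintegral_mono fun ω => ?_
      have h3 := one_le_sm Tc x (endp 0 f1) h0 h1 1 le_rfl ω
      rw [mul_one, one_mul] at h3
      calc lw ω x g * lw ω 0 f1 = lw ω x g * lw ω 0 f1 * 1 := (mul_one _).symm
        _ ≤ lw ω x g * lw ω 0 f1 * (sm Tc x (endp 0 f1) lam ω
            + lam⁻¹ * ec Tc ω x (endp 0 f1)) := mul_le_mul_right h3 _
        _ = _ := by ring
    rw [e1, mul_comm]
    refine (mul_le_mul_right e2 _).trans ?_
    rw [mul_add]
    refine add_le_add le_rfl ?_
    rw [← mul_assoc]
    exact mul_le_mul_left (mul_le_mul_left (hKM x g) _) _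
  -- step 3: sum
  calc _ ≤ ∑' x : Site d, (if x ∈ X0 then ∑' g : List (Step d), (if g ∈ G then
        ∑' f1 : List (Step d), (if f1 ∈ H1 F Dp x g then
          (K x g * ∫⁻ ω : Environment d, lw ω x g * (lw ω 0 f1 * sm Tc x (endp 0 f1) lam ω) ∂Q
          + M * lam⁻¹ * ∫⁻ ω : Environment d, lw ω x g * (lw ω 0 f1 * ec Tc ω x (endp 0 f1)) ∂Q)
          else 0) else 0) else 0) := by
        refine ENNReal.tsum_le_tsum fun x => ?_
        by_cases hx : x ∈ X0
        · rw [if_pos hx, if_pos hx]
          refine ENNReal.tsum_le_tsum fun g => ?_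
          by_cases hg : g ∈ G
          · rw [if_pos hg, if_pos hg]
            refine (s1 x g).trans (ENNReal.tsum_le_tsum fun f1 => ?_)
            by_cases h : f1 ∈ H1 F Dp x g
            · rw [if_pos h, if_pos h]; exact s2 x g f1 h
            · rw [if_neg h, if_neg h]
          · rw [if_neg hg, if_neg hg]
        · rw [if_neg hx, if_neg hx]
    _ = (∑' x : Site d, (if x ∈ X0 then ∑' g : List (Step d), (if g ∈ G then
        ∑' f1 : List (Step d), (if f1 ∈ H1 F Dp x g then
          K x g * ∫⁻ ω : Environment d, lw ω x g * (lw ω 0 f1 * sm Tc x (endp 0 f1) lam ω) ∂Q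
          else 0) else 0) else 0))
        + ∑' x : Site d, (if x ∈ X0 then ∑' g : List (Step d), (if g ∈ G then
        ∑' f1 : List (Step d), (if f1 ∈ H1 F Dp x g then
          M * lam⁻¹ * ∫⁻ ω : Environment d, lw ω x g * (lw ω 0 f1 * ec Tc ω x (endp 0 f1)) ∂Q
          else 0) else 0) else 0) := by
        rw [← ENNReal.tsum_add]
        refine tsum_congr fun x => ?_
        by_cases hx : x ∈ X0
        · rw [if_pos hx, if_pos hx, if_pos hx, ← ENNReal.tsum_add]
          refine tsum_congr fun g => ?_
          by_cases hg : g ∈ G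
          · rw [if_pos hg, if_pos hg, if_pos hg, ← ENNReal.tsum_add]
            refine tsum_congr fun f1 => ?_
            by_cases h : f1 ∈ H1 F Dp x g
            · rw [if_pos h, if_pos h, if_pos h]
            · rw [if_neg h, if_neg h, if_neg h, add_zero]
          · rw [if_neg hg, if_neg hg, if_neg hg, add_zero]
        · rw [if_neg hx, if_neg hx, if_neg hx, add_zero]
    _ ≤ lam + M * lam⁻¹ * cE * ∑' l : List (Step d), (if l ∈ Ret then aw Q 0 l else 0) := by
        refine add_le_add ?_ (part_b ν D cE hE (M * lam⁻¹))
        -- the (a)-part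
        have a1 : ∀ x g, g ∈ G → ∑' f1 : List (Step d), (if f1 ∈ H1 F Dp x g then
            K x g * ∫⁻ ω : Environment d, lw ω x g * (lw ω 0 f1 * sm Tc x (endp 0 f1) lam ω) ∂Q
            else 0) ≤ K x g * ∫⁻ ω : Environment d,
              (if g ∈ Vis {v | ec Tc ω 0 v ≤ lam} 0 then lw ω 0 g else 0) ∂Q := by
          intro x g _
          have b1 : ∑' f1 : List (Step d), (if f1 ∈ H1 F Dp x g then
              K x g * ∫⁻ ω : Environment d, lw ω x g * (lw ω 0 f1 * sm Tc x (endp 0 f1) lam ω) ∂Q
              else 0) = K x g * ∫⁻ ω, lw ω x g * ∑' f1 : List (Step d),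
                (if f1 ∈ H1 F Dp x g then lw ω 0 f1 * sm Tc x (endp 0 f1) lam ω else 0) ∂Q := by
            rw [← pair_swap Q x g (H1 F Dp x g) (fun ω f1 => sm Tc x (endp 0 f1) lam ω)
              (fun f1 => measurable_sm Tc x _ lam), ← ENNReal.tsum_mul_left]
            refine tsum_congr fun f1 => ?_
            rw [mul_ite, mul_zero]
          rw [b1]
          refine mul_le_mul_right ?_ _
          have b2 : ∀ ω : Environment d, lw ω x g * ∑' f1 : List (Step d),
                (if f1 ∈ H1 F Dp x g then lw ω 0 f1 * sm Tc x (endp 0 f1) lam ω else 0)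
              ≤ (if g ∈ Vis {v | ec Tc ω x v ≤ lam} x then lw ω x g else 0) := by
            intro ω
            by_cases hv : g ∈ Vis {v | ec Tc ω x v ≤ lam} x
            · rw [if_pos hv]
              calc _ ≤ lw ω x g * 1 := by
                    refine mul_le_mul_right ?_ _
                    refine le_trans (ENNReal.tsum_le_tsum fun f1 => ?_)
                      (pf_sum_le ω 0 (pf_H1 (F := F) (Dp := Dp) x g))
                    by_cases h : f1 ∈ H1 F Dp x g
                    · rw [if_pos h, if_pos h]
                      unfold sm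
                      split_ifs <;> simp
                    · rw [if_neg h, if_neg h]
                _ = _ := mul_one _
            · rw [if_neg hv]
              refine le_of_eq ?_
              rw [mul_eq_zero]
              right
              rw [ENNReal.tsum_eq_zero]
              intro f1
              by_cases h : f1 ∈ H1 F Dp x g
              · rw [if_pos h]
                unfold sm
                rw [if_neg, mul_zero]
                intro h2
                obtain ⟨l1, e, l2, h4, h5⟩ := mem_sitesL.1 (show endp 0 f1 ∈ sitesL x g from h.1.1)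
                exact hv ⟨l1, e :: l2, h4, by rw [h5]; exact h2⟩
              · rw [if_neg h]
          refine (lintegral_mono b2).trans (le_of_eq ?_)
          -- translation
          have b3 : ∀ ω : Environment d, (if g ∈ Vis {v | ec Tc ω x v ≤ lam} x then lw ω x g else 0)
              = (fun ω' : Environment d => if g ∈ Vis {v | ec Tc ω' 0 v ≤ lam} 0 then lw ω' 0 g
                else 0) (shiftEnv x ω) := by
            intro ω
            have c1 : g ∈ Vis {v | ec Tc ω x v ≤ lam} x
                ↔ g ∈ Vis {v | ec Tc (shiftEnv x ω) 0 v ≤ lam} 0 := by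
              unfold Vis
              constructor
              · rintro ⟨l1, l2, h3, h4⟩
                refine ⟨l1, l2, h3, ?_⟩
                change ec Tc (shiftEnv x ω) 0 (endp 0 l1) ≤ lam
                rw [← ec_shift, ← endp_add, zero_add]
                exact h4
              · rintro ⟨l1, l2, h3, h4⟩
                refine ⟨l1, l2, h3, ?_⟩
                change ec Tc ω x (endp x l1) ≤ lam
                have h5 : ec Tc (shiftEnv x ω) 0 (endp 0 l1) ≤ lam := h4
                rw [← ec_shift, ← endp_add, zero_add] at h5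
                exact h5
            have c2 : lw ω x g = lw (shiftEnv x ω) 0 g := by
              rw [← lw_shift, zero_add]
            simp only [c1, c2]
          have hΦ : Measurable (fun ω' : Environment d =>
              if g ∈ Vis {v | ec Tc ω' 0 v ≤ lam} 0 then lw ω' 0 g else (0 : ℝ≥0∞)) :=
            Measurable.ite (measurableSet_visE Tc 0 lam g) (measurable_lw 0 g) measurable_const
          rw [lintegral_congr b3]
          exact (Q561.iid_shift ν x).lintegral_comp hΦ
        calc _ ≤ ∑' x : Site d, ∑' g : List (Step d), (if g ∈ G then K x g *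
              ∫⁻ ω : Environment d,
              (if g ∈ Vis {v | ec Tc ω 0 v ≤ lam} 0 then lw ω 0 g else 0) ∂Q else 0) := by
              refine ENNReal.tsum_le_tsum fun x => ?_
              by_cases hx : x ∈ X0
              · rw [if_pos hx]
                refine ENNReal.tsum_le_tsum fun g => ?_
                by_cases hg : g ∈ G
                · rw [if_pos hg, if_pos hg]; exact a1 x g hg
                · rw [if_neg hg, if_neg hg]
              · rw [if_neg hx]; exact zero_le
          _ = ∑' g : List (Step d), (if g ∈ G then (∑' x, K x g) *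
              ∫⁻ ω : Environment d,
              (if g ∈ Vis {v | ec Tc ω 0 v ≤ lam} 0 then lw ω 0 g else 0) ∂Q else 0) := by
              rw [ENNReal.tsum_comm]
              refine tsum_congr fun g => ?_
              by_cases hg : g ∈ G
              · simp only [hg, if_true]
                rw [ENNReal.tsum_mul_right]
              · simp only [hg, if_false, tsum_zero]
          _ ≤ ∑' g : List (Step d), ∫⁻ ω : Environment d,
              (if g ∈ G ∧ g ∈ Vis {v | ec Tc ω 0 v ≤ lam} 0 then lw ω 0 g else 0) ∂Q := by
              refine ENNReal.tsum_le_tsum fun g => ?_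
              by_cases hg : g ∈ G
              · rw [if_pos hg]
                simp only [hg, true_and]
                calc _ ≤ 1 * _ := mul_le_mul_left (hK1 g hg) _
                  _ = _ := one_mul _
              · rw [if_neg hg]; exact zero_le
          _ = ∫⁻ ω : Environment d, ∑' g : List (Step d),
              (if g ∈ G ∧ g ∈ Vis {v | ec Tc ω 0 v ≤ lam} 0 then lw ω 0 g else 0) ∂Q := by
              rw [lintegral_tsum]
              intro g
              by_cases hg : g ∈ G
              · simp only [hg, true_and]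
                exact (Measurable.ite (measurableSet_visE Tc 0 lam g) (measurable_lw 0 g)
                  measurable_const).aemeasurable
              · simp only [hg, false_and, if_false]; exact measurable_const.aemeasurable
          _ ≤ ∫⁻ _ : Environment d, lam ∂Q := lintegral_mono fun ω => vis_ec D ω 0 lam
          _ = lam := by simp [hQ]

end Crest.Agent.R154.FaceB956
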