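import Crest.Agent.R154.NBDefs_28

/-! Row 154, ROAD 801 (T0219): the FACING LEMMA in words with the weight-proportional threshold
(helper504). -/

set_option autoImplicit false
set_option maxHeartbeats 1000000

namespace Crest.Agent.R154.Face504

open MeasureTheory ProbabilityTheory Crest.ProbabilityR.RandomEnvironment Crest.Agent.R154
open Crest.Agent.R154.Flux566 (lw endp sitesL Fol endp_append measurable_lw locOn_lw fol_ge
  measurableSet_Fol)
open scoped ENNReal
open Classical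

variable {d : ℕ}

/-- words -/
abbrev Wd (d : ℕ) := List (Step d)

/-- prefix free -/
def PF (S : Set (Wd d)) : Prop := ∀ l ∈ S, ∀ l' ∈ S, l <+: l' → l = l'

/-- total quenched weight of a set of words -/
noncomputable def tw (ω : Environment d) (x : Site d) (S : Set (Wd d)) : ℝ≥0∞ :=
  ∑' l : Wd d, if l ∈ S then lw ω x l else 0

lemma lw_append (ω : Environment d) (x : Site d) (l l' : Wd d) :
    lw ω x (l ++ l') = lw ω x l * lw ω (endp x l) l' := by
  induction l generalizing x with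
  | nil => simp [lw, endp]
  | cons e l ih =>
    simp only [List.cons_append, lw, endp]
    rw [ih, mul_assoc]

lemma sitesL_append (x : Site d) (l l' : Wd d) :
    sitesL x (l ++ l') = sitesL x l ++ sitesL (endp x l) l' := by
  induction l generalizing x with
  | nil => simp [sitesL, endp]
  | cons e l ih =>
    simp only [List.cons_append, sitesL, endp]
    rw [ih]

/-- a site read by a word is the end of a proper prefix -/
lemma mem_sites_prefix (x : Site d) (l : Wd d) {y : Site d} (hy : y ∈ sitesL x l) :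
    ∃ l₁ l₂, l = l₁ ++ l₂ ∧ l₂ ≠ [] ∧ endp x l₁ = y := by
  induction l generalizing x with
  | nil => simp [sitesL] at hy
  | cons e l ih =>
    simp only [sitesL, List.mem_cons] at hy
    rcases hy with rfl | hy
    · exact ⟨[], e :: l, rfl, by simp, rfl⟩
    · obtain ⟨l₁, l₂, h1, h2, h3⟩ := ih _ hy
      exact ⟨e :: l₁, l₂, by rw [h1]; rfl, h2, by simpa [endp] using h3⟩

/-- the end of a proper prefix is a site read by the word -/
lemma end_mem_sites (x : Site d) (l₁ l₂ : Wd d) (h : l₂ ≠ []) :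
    endp x l₁ ∈ sitesL x (l₁ ++ l₂) := by
  rw [sitesL_append]
  refine List.mem_append.mpr (Or.inr ?_)
  cases l₂ with
  | nil => exact absurd rfl h
  | cons e l => simp [sitesL]

lemma fol_comp (l l' : Wd d) (X : Path d) (h : X ∈ Fol l Set.univ) (h' : X ∈ Fol l' Set.univ) :
    l <+: l' ∨ l' <+: l := by
  induction l generalizing l' X with
  | nil => exact Or.inl List.nil_prefix
  | cons e l ih =>
    cases l' with
    | nil => exact Or.inr List.nil_prefix
    | cons e' l' =>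
      obtain ⟨h1, h2⟩ := h
      obtain ⟨h1', h2'⟩ := h'
      have he : e = e' := by
        apply Q561.stepVec_injective
        have : X 0 + stepVec e = X 0 + stepVec e' := by rw [← h1, ← h1']
        exact add_left_cancel this
      subst he
      rcases ih l' _ h2 h2' with h | h
      · exact Or.inl (List.cons_prefix_cons.mpr ⟨rfl, h⟩)
      · exact Or.inr (List.cons_prefix_cons.mpr ⟨rfl, h⟩)

lemma tw_le_one (ω : Environment d) (x : Site d) {S : Set (Wd d)} (hS : PF S) :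
    tw ω x S ≤ 1 := by
  have h1 : tw ω x S = ∑' l : S, lw ω x l.1 := by
    rw [tsum_subtype S (fun l => lw ω x l)]
    unfold tw
    refine tsum_congr fun l => ?_
    by_cases h : l ∈ S <;> simp [h]
  rw [h1]
  calc ∑' l : S, lw ω x l.1 ≤ ∑' l : S, quenchedLaw ω x (Fol l.1 Set.univ) := by
        refine ENNReal.tsum_le_tsum fun l => ?_
        have := fol_ge ω l.1 x MeasurableSet.univ
        simpa using this
    _ = quenchedLaw ω x (⋃ l : S, Fol l.1 Set.univ) := by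
        rw [measure_iUnion]
        · intro a b hab
          refine Set.disjoint_left.mpr fun X hX hX' => hab ?_
          rcases fol_comp _ _ X hX hX' with h | h
          · exact Subtype.ext (hS _ a.2 _ b.2 h)
          · exact Subtype.ext (hS _ b.2 _ a.2 h).symm
        · intro a
          exact measurableSet_Fol a.1 MeasurableSet.univ
    _ ≤ 1 := prob_le_one

/-- extensions of one word inside a prefix-free set -/
lemma ext_le (ω : Environment d) (x : Site d) {S : Set (Wd d)} (hS : PF S) (σ : Wd d) :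
    (∑' l : Wd d, if σ <+: l ∧ l ∈ S then lw ω x l else 0) ≤ lw ω x σ := by
  have hinj : Function.Injective fun l : Wd d => σ ++ l := fun a b h => List.append_cancel_left h
  rw [← hinj.tsum_eq (f := fun l => if σ <+: l ∧ l ∈ S then lw ω x l else 0)]
  · calc (∑' l : Wd d, if σ <+: σ ++ l ∧ σ ++ l ∈ S then lw ω x (σ ++ l) else 0)
        = ∑' l : Wd d, lw ω x σ * (if l ∈ {l : Wd d | σ ++ l ∈ S} then lw ω (endp x σ) l else 0) := by
          refine tsum_congr fun l => ?_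
          simp only [List.prefix_append, true_and, Set.mem_setOf_eq, lw_append]
          split_ifs <;> simp
      _ = lw ω x σ * tw ω (endp x σ) {l : Wd d | σ ++ l ∈ S} := by
          rw [ENNReal.tsum_mul_left]; rfl
      _ ≤ lw ω x σ * 1 := by
          refine mul_le_mul_right (tw_le_one ω _ ?_) _
          intro l hl l' hl' hp
          have := hS _ hl _ hl' ((List.prefix_append_right_inj σ).mpr hp)
          exact List.append_cancel_left this
      _ = lw ω x σ := mul_one _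
  · intro l hl
    rw [Function.mem_support] at hl
    have : σ <+: l := by
      by_contra h
      exact hl (if_neg fun h' => h h'.1)
    obtain ⟨t, ht⟩ := this
    exact ⟨t, ht⟩

/-- a prefix-free set dominated by prefixes in another set -/
lemma tw_le_tw (ω : Environment d) (x : Site d) {S S' : Set (Wd d)} (hS : PF S)
    (h : ∀ l ∈ S, ∃ σ ∈ S', σ <+: l) : tw ω x S ≤ tw ω x S' := by
  calc tw ω x S ≤ ∑' l : Wd d, ∑' σ : Wd d, (if σ ∈ S' ∧ σ <+: l ∧ l ∈ S then lw ω x l else 0) := by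
        refine ENNReal.tsum_le_tsum fun l => ?_
        split_ifs with hl
        · obtain ⟨σ, h1, h2⟩ := h l hl
          refine le_trans ?_ (ENNReal.le_tsum σ)
          rw [if_pos ⟨h1, h2, hl⟩]
        · exact zero_le
    _ = ∑' σ : Wd d, ∑' l : Wd d, (if σ ∈ S' ∧ σ <+: l ∧ l ∈ S then lw ω x l else 0) :=
        ENNReal.tsum_comm
    _ ≤ tw ω x S' := by
        refine ENNReal.tsum_le_tsum fun σ => ?_
        by_cases hσ : σ ∈ S'
        · simp only [hσ, true_and, if_true]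
          exact ext_le ω x hS σ
        · simp [hσ]

lemma lw_le_one (ω : Environment d) (x : Site d) (l : Wd d) : lw ω x l ≤ 1 := by
  have h := tw_le_one ω x (S := {l}) (by
    intro a ha b hb _
    rw [Set.mem_singleton_iff] at ha hb
    rw [ha, hb])
  refine le_trans ?_ h
  unfold tw
  refine le_trans ?_ (ENNReal.le_tsum l)
  simp

lemma measurable_tw (x : Site d) (S : Set (Wd d)) :
    Measurable fun ω : Environment d => tw ω x S := by
  unfold tw
  refine Measurable.ennreal_tsum fun l => ?_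
  split_ifs
  · exact measurable_lw x l
  · exact measurable_const

/-- the walker from `x` visits a set of sites `Bd` and then completes a word of `B` -/
lemma visit_le (ω : Environment d) (x : Site d) {B : Set (Wd d)} (T : Site d → Set (Wd d))
    (hcl : ∀ γ₁ γ₂, γ₁ ++ γ₂ ∈ B → γ₂ ≠ [] → γ₂ ∈ T (endp x γ₁)) (Bd : Set (Site d))
    (c : ℝ≥0∞) (hc : ∀ v ∈ Bd, tw ω v (T v) ≤ c) :
    (∑' γ : Wd d, if γ ∈ B ∧ ∃ y ∈ sitesL x γ, y ∈ Bd then lw ω x γ else 0) ≤ c := by
  set F : Set (Wd d) := {γ | endp x γ ∈ Bd ∧ ∀ y ∈ sitesL x γ, y ∉ Bd} with hF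
  have hPF : PF F := by
    rintro l ⟨h1, h2⟩ l' ⟨h1', h2'⟩ ⟨t, rfl⟩
    by_cases ht : t = []
    · rw [ht, List.append_nil]
    · exact absurd h1 (h2' _ (end_mem_sites x l t ht))
  have key : ∀ γ : Wd d, (γ ∈ B ∧ ∃ y ∈ sitesL x γ, y ∈ Bd) →
      ∃ γ₁ γ₂, γ = γ₁ ++ γ₂ ∧ γ₁ ∈ F ∧ γ₂ ∈ T (endp x γ₁) := by
    intro γ ⟨hγ, y, hy, hyB⟩
    -- the set of lengths of prefixes ending in Bd
    have hex : ∃ n, ∃ γ₁ γ₂ : Wd d, γ₁.length = n ∧ γ = γ₁ ++ γ₂ ∧ γ₂ ≠ [] ∧ endp x γ₁ ∈ Bd := by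
      obtain ⟨γ₁, γ₂, h1, h2, h3⟩ := mem_sites_prefix x γ hy
      exact ⟨_, γ₁, γ₂, rfl, h1, h2, h3 ▸ hyB⟩
    obtain ⟨γ₁, γ₂, h1, h2, h3, h4⟩ := Nat.find_spec hex
    refine ⟨γ₁, γ₂, h2, ⟨h4, ?_⟩, hcl _ _ (h2 ▸ hγ) h3⟩
    intro z hz hzB
    obtain ⟨a, b, hab, hb, hz'⟩ := mem_sites_prefix x γ₁ hz
    have : Nat.find hex ≤ a.length := Nat.find_min' hex
      ⟨a, b ++ γ₂, rfl, by rw [h2, hab, List.append_assoc], by simp [hb], hz' ▸ hzB⟩
    rw [← h1, hab, List.length_append] at this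
    have : b.length = 0 := by omega
    exact hb (List.length_eq_zero_iff.mp this)
  calc (∑' γ : Wd d, if γ ∈ B ∧ ∃ y ∈ sitesL x γ, y ∈ Bd then lw ω x γ else 0)
      ≤ ∑' γ : Wd d, ∑' γ₁ : Wd d, ∑' γ₂ : Wd d,
          (if γ = γ₁ ++ γ₂ ∧ γ₁ ∈ F ∧ γ₂ ∈ T (endp x γ₁) then lw ω x γ else 0) := by
        refine ENNReal.tsum_le_tsum fun γ => ?_
        split_ifs with h
        · obtain ⟨γ₁, γ₂, h1, h2, h3⟩ := key γ h
          refine le_trans ?_ (ENNReal.le_tsum γ₁)
          refine le_trans ?_ (ENNReal.le_tsum γ₂)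
          rw [if_pos ⟨h1, h2, h3⟩]
        · exact zero_le
    _ = ∑' γ₁ : Wd d, ∑' γ₂ : Wd d, ∑' γ : Wd d,
          (if γ = γ₁ ++ γ₂ ∧ γ₁ ∈ F ∧ γ₂ ∈ T (endp x γ₁) then lw ω x γ else 0) := by
        rw [ENNReal.tsum_comm]
        refine tsum_congr fun γ₁ => ?_
        rw [ENNReal.tsum_comm]
    _ ≤ ∑' γ₁ : Wd d, ∑' γ₂ : Wd d,
          (if γ₁ ∈ F then lw ω x γ₁ * (if γ₂ ∈ T (endp x γ₁) then lw ω (endp x γ₁) γ₂ else 0)
            else 0) := by
        refine ENNReal.tsum_le_tsum fun γ₁ => ENNReal.tsum_le_tsum fun γ₂ => ?_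
        rw [tsum_eq_single (γ₁ ++ γ₂)]
        · by_cases h1 : γ₁ ∈ F
          · by_cases h2 : γ₂ ∈ T (endp x γ₁)
            · simp [h1, h2, lw_append]
            · simp [h1, h2]
          · simp [h1]
        · intro b hb
          exact if_neg fun h => hb h.1
    _ = ∑' γ₁ : Wd d, (if γ₁ ∈ F then lw ω x γ₁ * tw ω (endp x γ₁) (T (endp x γ₁)) else 0) := by
        refine tsum_congr fun γ₁ => ?_
        split_ifs
        · rw [ENNReal.tsum_mul_left]; rfl
        · simp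
    _ ≤ ∑' γ₁ : Wd d, (if γ₁ ∈ F then lw ω x γ₁ else 0) * c := by
        refine ENNReal.tsum_le_tsum fun γ₁ => ?_
        split_ifs with h
        · exact mul_le_mul_right (hc _ h.1) _
        · simp
    _ = tw ω x F * c := by
        rw [ENNReal.tsum_mul_right]
        congr 1
        unfold tw
        refine tsum_congr fun l => ?_
        congr
    _ ≤ 1 * c := mul_le_mul_left (tw_le_one ω x hPF) _
    _ = c := one_mul _


lemma tsum_at_most_one {ι : Type*} (P : ι → Prop) [DecidablePred P] (c : ℝ≥0∞)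
    (h : ∀ a b, P a → P b → a = b) : (∑' a, if P a then c else 0) ≤ c := by
  by_cases hex : ∃ a, P a
  · obtain ⟨a, ha⟩ := hex
    rw [tsum_eq_single a fun b hb => if_neg fun hPb => hb (h b a hPb ha), if_pos ha]
  · have : ∀ a, (if P a then c else 0) = 0 := fun a => if_neg fun h => hex ⟨a, h⟩
    simp [this]

/-- the prefix `σ` of the guest ends at its first visit of the sites of `γ`, at a deep site -/
def FH (g0 x : Site d) (Dp : Set (Site d)) (σ γ : Wd d) : Prop :=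
  (∀ y ∈ sitesL g0 σ, y ∉ sitesL x γ) ∧ endp g0 σ ∈ sitesL x γ ∧ endp g0 σ ∈ Dp

/-- the guest word `π` has a deep first hit of `γ` -/
def FHD (g0 x : Site d) (Dp : Set (Site d)) (π γ : Wd d) : Prop :=
  ∃ σ, σ <+: π ∧ FH g0 x Dp σ γ

lemma fh_unique {g0 x : Site d} {Dp : Set (Site d)} {γ ρ σ σ' : Wd d} (h : FH g0 x Dp σ γ)
    (h' : FH g0 x Dp σ' γ) (hp : σ <+: ρ) (hp' : σ' <+: ρ) : σ = σ' := by
  have aux : ∀ σ σ' : Wd d, FH g0 x Dp σ γ → FH g0 x Dp σ' γ → σ <+: σ' → σ = σ' := by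
    rintro σ σ' h h' ⟨t, rfl⟩
    by_cases ht : t = []
    · rw [ht, List.append_nil]
    · exact absurd h.2.1 (h'.1 _ (end_mem_sites g0 σ t ht))
  rcases le_total σ.length σ'.length with hl | hl
  · exact aux _ _ h h' (List.prefix_of_prefix_length_le hp hp' hl)
  · exact (aux _ _ h' h (List.prefix_of_prefix_length_le hp' hp hl)).symm

/-- a contact gives a first hit -/
lemma fhd_of_contact {g0 x : Site d} {Dp : Set (Site d)} {π γ : Wd d}
    (h : ∃ y ∈ sitesL g0 π, y ∈ sitesL x γ)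
    (hD : ∀ y ∈ sitesL g0 π, y ∈ sitesL x γ → y ∈ Dp) : FHD g0 x Dp π γ := by
  obtain ⟨y, hy, hyγ⟩ := h
  have hex : ∃ n, ∃ γ₁ γ₂ : Wd d, γ₁.length = n ∧ π = γ₁ ++ γ₂ ∧ γ₂ ≠ [] ∧
      endp g0 γ₁ ∈ sitesL x γ := by
    obtain ⟨γ₁, γ₂, h1, h2, h3⟩ := mem_sites_prefix g0 π hy
    exact ⟨_, γ₁, γ₂, rfl, h1, h2, h3 ▸ hyγ⟩
  obtain ⟨γ₁, γ₂, h1, h2, h3, h4⟩ := Nat.find_spec hex
  refine ⟨γ₁, ⟨γ₂, h2.symm⟩, ?_, h4, ?_⟩
  · intro z hz hzB
    obtain ⟨a, b, hab, hb, hz'⟩ := mem_sites_prefix g0 γ₁ hz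
    have : Nat.find hex ≤ a.length := Nat.find_min' hex
      ⟨a, b ++ γ₂, rfl, by rw [h2, hab, List.append_assoc], by simp [hb], hz' ▸ hzB⟩
    rw [← h1, hab, List.length_append] at this
    have : b.length = 0 := by omega
    exact hb (List.length_eq_zero_iff.mp this)
  · exact hD _ (by rw [h2]; exact end_mem_sites g0 γ₁ γ₂ h3) h4

/-- guest, composite words -/
lemma guest_b (ω : Environment d) (g0 x : Site d) (Dp : Set (Site d)) (γ : Wd d)
    (P : Wd d → Prop) (T : Site d → Set (Wd d)) (R : Set (Wd d))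
    (hR : ∀ σ τ, P σ → endp g0 σ ∈ Dp → τ ∈ T (endp g0 σ) → σ ++ τ ∈ R) :
    (∑' σ : Wd d, if FH g0 x Dp σ γ ∧ P σ then lw ω g0 σ * tw ω (endp g0 σ) (T (endp g0 σ)) else 0)
      ≤ tw ω g0 R := by
  calc (∑' σ : Wd d, if FH g0 x Dp σ γ ∧ P σ then
          lw ω g0 σ * tw ω (endp g0 σ) (T (endp g0 σ)) else 0)
      ≤ ∑' σ : Wd d, ∑' τ : Wd d,
          (if FH g0 x Dp σ γ ∧ σ <+: (σ ++ τ) ∧ (σ ++ τ) ∈ R then lw ω g0 (σ ++ τ) else 0) := by
        refine ENNReal.tsum_le_tsum fun σ => ?_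
        split_ifs with h
        · unfold tw
          rw [← ENNReal.tsum_mul_left]
          refine ENNReal.tsum_le_tsum fun τ => ?_
          by_cases hτ : τ ∈ T (endp g0 σ)
          · rw [if_pos hτ, if_pos ⟨h.1, List.prefix_append _ _, hR σ τ h.2 h.1.2.2 hτ⟩, lw_append]
          · simp [hτ]
        · exact zero_le
    _ ≤ ∑' σ : Wd d, ∑' ρ : Wd d,
          (if FH g0 x Dp σ γ ∧ σ <+: ρ ∧ ρ ∈ R then lw ω g0 ρ else 0) := by
        refine ENNReal.tsum_le_tsum fun σ => ?_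
        exact ENNReal.tsum_comp_le_tsum_of_injective (f := fun τ : Wd d => σ ++ τ)
          (fun a b h => List.append_cancel_left h)
          (fun ρ => if FH g0 x Dp σ γ ∧ σ <+: ρ ∧ ρ ∈ R then lw ω g0 ρ else 0)
    _ = ∑' ρ : Wd d, ∑' σ : Wd d,
          (if FH g0 x Dp σ γ ∧ σ <+: ρ ∧ ρ ∈ R then lw ω g0 ρ else 0) := ENNReal.tsum_comm
    _ ≤ tw ω g0 R := by
        unfold tw
        refine ENNReal.tsum_le_tsum fun ρ => ?_
        by_cases hρ : ρ ∈ R
        · rw [if_pos hρ]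
          refine tsum_at_most_one _ _ ?_
          rintro a b ⟨h1, h2, _⟩ ⟨h1', h2', _⟩
          exact fh_unique h1 h1' h2 h2'
        · simp [hρ]

/-- guest: stopping at minimal prefixes -/
lemma guest_a (ω : Environment d) (g0 x : Site d) (Dp : Set (Site d)) (γ : Wd d)
    (P : Wd d → Prop) :
    (∑' σ : Wd d, if FH g0 x Dp σ γ ∧ P σ then lw ω g0 σ else 0)
      ≤ tw ω g0 {σ | P σ ∧ ∀ σ', σ' <+: σ → P σ' → σ' = σ} := by
  have h := tw_le_tw ω g0 (S := {σ | FH g0 x Dp σ γ ∧ P σ})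
    (S' := {σ | P σ ∧ ∀ σ', σ' <+: σ → P σ' → σ' = σ}) ?_ ?_
  · refine le_trans (le_of_eq ?_) h
    unfold tw
    refine tsum_congr fun l => ?_
    congr
  · rintro a ⟨ha, _⟩ b ⟨hb, _⟩ hab
    exact fh_unique ha hb hab List.prefix_rfl
  · rintro l ⟨_, hl⟩
    have hex : ∃ n, ∃ σ' : Wd d, σ'.length = n ∧ σ' <+: l ∧ P σ' := ⟨_, l, rfl, List.prefix_rfl, hl⟩
    obtain ⟨σ, h1, h2, h3⟩ := Nat.find_spec hex
    refine ⟨σ, ⟨h3, ?_⟩, h2⟩
    intro σ' hσ' hP'
    have := Nat.find_min' hex ⟨σ', rfl, hσ'.trans h2, hP'⟩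
    rw [← h1] at this
    exact hσ'.eq_of_length (le_antisymm hσ'.length_le this)

lemma min_pf (P : Wd d → Prop) :
    PF {σ | P σ ∧ ∀ σ', σ' <+: σ → P σ' → σ' = σ} := by
  rintro a ⟨ha, _⟩ b ⟨_, hb⟩ hab
  exact hb a hab ha

/-- annealed weight of a word -/
noncomputable def an (ν : Measure (Row d)) [IsProbabilityMeasure ν] (x : Site d) (l : Wd d) :
    ℝ≥0∞ := ∫⁻ ω, lw ω x l ∂(iidEnvironmentLaw ν)

/-- annealed weight of the extensions of a prefix -/
noncomputable def NN (ν : Measure (Row d)) [IsProbabilityMeasure ν] (g0 : Site d)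
    (A : Set (Wd d)) (wt : Wd d → ℝ≥0∞) (σ : Wd d) : ℝ≥0∞ :=
  ∑' π : Wd d, if π ∈ A ∧ σ <+: π then an ν g0 π * wt π else 0

section
variable (ν : Measure (Row d)) [IsProbabilityMeasure ν]

lemma an_le_one (x : Site d) (l : Wd d) : an ν x l ≤ 1 := by
  unfold an
  calc ∫⁻ ω, lw ω x l ∂(iidEnvironmentLaw ν) ≤ ∫⁻ _, 1 ∂(iidEnvironmentLaw ν) :=
        lintegral_mono fun ω => lw_le_one ω x l
    _ = 1 := by simp

lemma NN_le (g0 : Site d) {A : Set (Wd d)} (hA : PF A) {wt : Wd d → ℝ≥0∞} {M : ℝ≥0∞}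
    (hM : ∀ π, wt π ≤ M) (σ : Wd d) : NN ν g0 A wt σ ≤ M * an ν g0 σ := by
  unfold NN
  calc (∑' π : Wd d, if π ∈ A ∧ σ <+: π then an ν g0 π * wt π else 0)
      ≤ ∑' π : Wd d, M * (∫⁻ ω, (if σ <+: π ∧ π ∈ A then lw ω g0 π else 0) ∂(iidEnvironmentLaw ν)) := by
        refine ENNReal.tsum_le_tsum fun π => ?_
        by_cases h : π ∈ A ∧ σ <+: π
        · rw [if_pos h]
          have h' : σ <+: π ∧ π ∈ A := ⟨h.2, h.1⟩
          simp only [h', true_and, if_true, and_self]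
          rw [mul_comm]
          exact mul_le_mul' (hM π) le_rfl
        · rw [if_neg h]; exact zero_le
    _ = M * ∫⁻ ω, (∑' π : Wd d, if σ <+: π ∧ π ∈ A then lw ω g0 π else 0) ∂(iidEnvironmentLaw ν) := by
        rw [ENNReal.tsum_mul_left, lintegral_tsum]
        intro π
        split_ifs
        · exact (measurable_lw g0 π).aemeasurable
        · exact aemeasurable_const
    _ ≤ M * an ν g0 σ := by
        refine mul_le_mul_right (lintegral_mono fun ω => ?_) _
        exact ext_le ω g0 hA σ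

/-- the conditional weight -/
noncomputable def mu (g0 : Site d) (A : Set (Wd d)) (wt : Wd d → ℝ≥0∞) (σ : Wd d) : ℝ≥0∞ :=
  NN ν g0 A wt σ / an ν g0 σ

lemma mu_le (g0 : Site d) {A : Set (Wd d)} (hA : PF A) {wt : Wd d → ℝ≥0∞} {M : ℝ≥0∞}
    (hM : ∀ π, wt π ≤ M) (σ : Wd d) : mu ν g0 A wt σ ≤ M :=
  ENNReal.div_le_of_le_mul (NN_le ν g0 hA hM σ)

lemma an_mul_mu (g0 : Site d) {A : Set (Wd d)} (hA : PF A) {wt : Wd d → ℝ≥0∞} {M : ℝ≥0∞}
    (hM : ∀ π, wt π ≤ M) (hMt : M ≠ ∞) (σ : Wd d) :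
    an ν g0 σ * mu ν g0 A wt σ = NN ν g0 A wt σ := by
  unfold mu
  by_cases h0 : an ν g0 σ = 0
  · have := NN_le ν g0 hA hM σ
    rw [h0, mul_zero] at this
    rw [h0, zero_mul]
    exact (le_antisymm this zero_le).symm
  · exact ENNReal.mul_div_cancel h0 (ne_top_of_le_ne_top ENNReal.one_ne_top (an_le_one ν g0 σ))

lemma mu_zero (g0 : Site d) {A : Set (Wd d)} {wt : Wd d → ℝ≥0∞} {σ : Wd d}
    (h : ¬ ∃ π ∈ A, σ <+: π) : mu ν g0 A wt σ = 0 := by
  have : NN ν g0 A wt σ = 0 := by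
    unfold NN
    have : ∀ π : Wd d, (if π ∈ A ∧ σ <+: π then an ν g0 π * wt π else 0) = 0 :=
      fun π => if_neg fun h' => h ⟨π, h'.1, h'.2⟩
    simp [this]
  unfold mu
  rw [this, ENNReal.zero_div]

/-- Ville -/
lemma ville (g0 : Site d) {A : Set (Wd d)} (hA : PF A) {wt : Wd d → ℝ≥0∞} {M : ℝ≥0∞}
    (hM : ∀ π, wt π ≤ M) (hMt : M ≠ ∞) (c : ℝ≥0∞) :
    c * ∫⁻ ω, tw ω g0 {σ | c < mu ν g0 A wt σ ∧ ∀ σ', σ' <+: σ → c < mu ν g0 A wt σ' → σ' = σ}
        ∂(iidEnvironmentLaw ν)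
      ≤ ∑' π : Wd d, if π ∈ A then an ν g0 π * wt π else 0 := by
  set S : Set (Wd d) := {σ | c < mu ν g0 A wt σ ∧ ∀ σ', σ' <+: σ → c < mu ν g0 A wt σ' → σ' = σ}
    with hS
  have hPF : PF S := min_pf fun σ => c < mu ν g0 A wt σ
  have h1 : ∫⁻ ω, tw ω g0 S ∂(iidEnvironmentLaw ν) = ∑' σ : Wd d, if σ ∈ S then an ν g0 σ else 0 := by
    unfold tw
    rw [lintegral_tsum]
    · refine tsum_congr fun σ => ?_
      split_ifs
      · rfl
      · simp
    · intro π
      split_ifs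
      · exact (measurable_lw g0 π).aemeasurable
      · exact aemeasurable_const
  rw [h1, ← ENNReal.tsum_mul_left]
  calc (∑' σ : Wd d, c * (if σ ∈ S then an ν g0 σ else 0))
      ≤ ∑' σ : Wd d, (if σ ∈ S then NN ν g0 A wt σ else 0) := by
        refine ENNReal.tsum_le_tsum fun σ => ?_
        split_ifs with h
        · rw [← an_mul_mu ν g0 hA hM hMt, mul_comm]
          exact mul_le_mul_right h.1.le _
        · simp
    _ = ∑' σ : Wd d, ∑' π : Wd d, (if σ ∈ S ∧ π ∈ A ∧ σ <+: π then an ν g0 π * wt π else 0) := by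
        refine tsum_congr fun σ => ?_
        by_cases h : σ ∈ S
        · simp only [h, true_and, if_true]; rfl
        · simp [h]
    _ = ∑' π : Wd d, ∑' σ : Wd d, (if σ ∈ S ∧ π ∈ A ∧ σ <+: π then an ν g0 π * wt π else 0) :=
        ENNReal.tsum_comm
    _ ≤ ∑' π : Wd d, if π ∈ A then an ν g0 π * wt π else 0 := by
        refine ENNReal.tsum_le_tsum fun π => ?_
        by_cases hπ : π ∈ A
        · rw [if_pos hπ]
          refine tsum_at_most_one _ _ ?_
          rintro a b ⟨ha, _, hap⟩ ⟨hb, _, hbp⟩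
          rcases le_total a.length b.length with hl | hl
          · exact hPF _ ha _ hb (List.prefix_of_prefix_length_le hap hbp hl)
          · exact (hPF _ hb _ ha (List.prefix_of_prefix_length_le hbp hap hl)).symm
        · simp [hπ]


lemma an_mul (g0 x : Site d) (σ γ : Wd d) (h : ∀ y ∈ sitesL g0 σ, y ∉ sitesL x γ) :
    an ν g0 σ * an ν x γ = ∫⁻ ω, lw ω g0 σ * lw ω x γ ∂(iidEnvironmentLaw ν) := by
  unfold an
  rw [Q561.iid_lintegral_mul ν (S := {y | y ∈ sitesL g0 σ}) (T := {y | y ∈ sitesL x γ}) ?_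
    (measurable_lw g0 σ) (measurable_lw x γ) (locOn_lw _ _) (locOn_lw _ _)]
  rw [Set.disjoint_left]
  intro y hy hy'
  exact h y hy hy'

/-- the class of a weight -/
lemma class_ex {M m : ℝ≥0∞} (hMt : M ≠ ∞) (hm : m ≠ 0) (hmM : m ≤ M) :
    ∃ j : ℕ, M * 2⁻¹ ^ (j + 1) < m ∧ m ≤ M * 2⁻¹ ^ j := by
  have hex : ∃ j : ℕ, M * 2⁻¹ ^ (j + 1) < m := by
    have h1 : Filter.Tendsto (fun j : ℕ => M * (2⁻¹ : ℝ≥0∞) ^ j) Filter.atTop (nhds (M * 0)) :=
      ENNReal.Tendsto.const_mul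
        (ENNReal.tendsto_pow_atTop_nhds_zero_of_lt_one (by
          rw [ENNReal.inv_lt_one]; exact ENNReal.one_lt_two)) (Or.inr hMt)
    rw [mul_zero] at h1
    have h2 := (h1.comp (Filter.tendsto_add_atTop_nat 1)).eventually
      (gt_mem_nhds (pos_iff_ne_zero.mpr hm))
    obtain ⟨j, hj⟩ := h2.exists
    exact ⟨j, hj⟩
  refine ⟨Nat.find hex, Nat.find_spec hex, ?_⟩
  by_cases h0 : Nat.find hex = 0
  · rw [h0, pow_zero, mul_one]; exact hmM
  · obtain ⟨k, hk⟩ := Nat.exists_eq_succ_of_ne_zero h0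
    have := Nat.find_min hex (m := k) (by omega)
    rw [hk]
    exact not_lt.mp this

/-- **facing lemma, one start of the local walker**: guest from the fixed start `g0` (weight on the
guest's whole word), local walker from `x` -/
theorem face3_one (g0 x : Site d) {A B : Set (Wd d)} (hA : PF A) (hB : PF B)
    (T : Site d → Set (Wd d))
    (hcl : ∀ γ₁ γ₂, γ₁ ++ γ₂ ∈ B → γ₂ ≠ [] → γ₂ ∈ T (endp x γ₁))
    {wt : Wd d → ℝ≥0∞} {M : ℝ≥0∞} (hM0 : M ≠ 0) (hMt : M ≠ ∞) (hM : ∀ π, wt π ≤ M)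
    (Dp : Set (Site d)) (R : Set (Wd d))
    (hR : ∀ σ τ, (∃ π ∈ A, σ <+: π) → endp g0 σ ∈ Dp → τ ∈ T (endp g0 σ) → σ ++ τ ∈ R)
    {lam : ℝ≥0∞} (hl0 : lam ≠ 0) (hlt : lam ≠ ∞) :
    (∑' π : Wd d, ∑' γ : Wd d, if π ∈ A ∧ γ ∈ B ∧ FHD g0 x Dp π γ then
        an ν g0 π * an ν x γ * wt π else 0)
      ≤ M / lam * ∫⁻ ω, tw ω g0 R ∂(iidEnvironmentLaw ν)
        + 4 * lam * ∑' π : Wd d, if π ∈ A then an ν g0 π * wt π else 0 := by
  set Q := iidEnvironmentLaw ν with hQ
  set m := mu ν g0 A wt with hm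
  set e : Environment d → Site d → ℝ≥0∞ := fun ω v => tw ω v (T v) with he
  -- step 0
  have h0 : (∑' π : Wd d, ∑' γ : Wd d, if π ∈ A ∧ γ ∈ B ∧ FHD g0 x Dp π γ then
        an ν g0 π * an ν x γ * wt π else 0)
      ≤ ∑' γ : Wd d, ∑' σ : Wd d,
        if γ ∈ B ∧ FH g0 x Dp σ γ then an ν x γ * NN ν g0 A wt σ else 0 := by
    calc (∑' π : Wd d, ∑' γ : Wd d, if π ∈ A ∧ γ ∈ B ∧ FHD g0 x Dp π γ then
        an ν g0 π * an ν x γ * wt π else 0)
        ≤ ∑' π : Wd d, ∑' γ : Wd d, ∑' σ : Wd d,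
          (if γ ∈ B ∧ FH g0 x Dp σ γ then
            an ν x γ * (if π ∈ A ∧ σ <+: π then an ν g0 π * wt π else 0) else 0) := by
          refine ENNReal.tsum_le_tsum fun π => ENNReal.tsum_le_tsum fun γ => ?_
          split_ifs with h
          · obtain ⟨hπ, hγ, σ, hσ, hF⟩ := h
            refine le_trans ?_ (ENNReal.le_tsum σ)
            rw [if_pos ⟨hγ, hF⟩, if_pos ⟨hπ, hσ⟩]
            exact le_of_eq (by ring)
          · exact zero_le
      _ = ∑' γ : Wd d, ∑' σ : Wd d, ∑' π : Wd d,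
          (if γ ∈ B ∧ FH g0 x Dp σ γ then
            an ν x γ * (if π ∈ A ∧ σ <+: π then an ν g0 π * wt π else 0) else 0) := by
          rw [ENNReal.tsum_comm]
          refine tsum_congr fun γ => ?_
          rw [ENNReal.tsum_comm]
      _ = _ := by
          refine tsum_congr fun γ => tsum_congr fun σ => ?_
          split_ifs
          · rw [ENNReal.tsum_mul_left]; rfl
          · simp
  refine h0.trans ?_
  -- step 1
  have h1 : (∑' γ : Wd d, ∑' σ : Wd d,
        if γ ∈ B ∧ FH g0 x Dp σ γ then an ν x γ * NN ν g0 A wt σ else 0)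
      = ∫⁻ ω, ∑' γ : Wd d, ∑' σ : Wd d,
        (if γ ∈ B ∧ FH g0 x Dp σ γ then lw ω g0 σ * lw ω x γ * m σ else 0) ∂Q := by
    have hmeas : ∀ γ σ : Wd d, Measurable fun ω : Environment d =>
        (if γ ∈ B ∧ FH g0 x Dp σ γ then lw ω g0 σ * lw ω x γ * m σ else 0) := by
      intro γ σ
      split_ifs
      · exact ((measurable_lw g0 σ).mul (measurable_lw x γ)).mul_const _
      · exact measurable_const
    rw [lintegral_tsum fun γ => (Measurable.ennreal_tsum fun σ => hmeas γ σ).aemeasurable]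
    refine tsum_congr fun γ => ?_
    rw [lintegral_tsum fun σ => (hmeas γ σ).aemeasurable]
    refine tsum_congr fun σ => ?_
    split_ifs with h
    · rw [lintegral_mul_const (f := fun ω : Environment d => lw ω g0 σ * lw ω x γ) _
          ((measurable_lw g0 σ).mul (measurable_lw x γ)),
        ← an_mul ν g0 x σ γ h.2.1, ← an_mul_mu ν g0 hA hM hMt]
      ring
    · simp
  rw [h1]
  -- step 2 : pointwise
  set Mn : ℕ → Set (Wd d) := fun j => {σ | M * 2⁻¹ ^ (j + 1) < m σ ∧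
    ∀ σ', σ' <+: σ → M * 2⁻¹ ^ (j + 1) < m σ' → σ' = σ} with hMn
  have h2 : ∀ ω : Environment d, (∑' γ : Wd d, ∑' σ : Wd d,
        (if γ ∈ B ∧ FH g0 x Dp σ γ then lw ω g0 σ * lw ω x γ * m σ else 0))
      ≤ M / lam * tw ω g0 R
        + ∑' j : ℕ, (lam * 2⁻¹ ^ j) * (M * 2⁻¹ ^ j * tw ω g0 (Mn j)) := by
    intro ω
    calc (∑' γ : Wd d, ∑' σ : Wd d,
        (if γ ∈ B ∧ FH g0 x Dp σ γ then lw ω g0 σ * lw ω x γ * m σ else 0))
        ≤ ∑' γ : Wd d, ∑' σ : Wd d,
          ((if γ ∈ B then lw ω x γ else 0) * (M / lam * (if FH g0 x Dp σ γ ∧ (∃ π ∈ A, σ <+: π)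
              then lw ω g0 σ * tw ω (endp g0 σ) (T (endp g0 σ)) else 0))
            + ∑' j : ℕ, (if γ ∈ B ∧ ∃ y ∈ sitesL x γ, y ∈ {v | e ω v ≤ lam * 2⁻¹ ^ j} then
                lw ω x γ else 0) * (M * 2⁻¹ ^ j * (if FH g0 x Dp σ γ ∧ M * 2⁻¹ ^ (j + 1) < m σ
                then lw ω g0 σ else 0))) := by
          refine ENNReal.tsum_le_tsum fun γ => ENNReal.tsum_le_tsum fun σ => ?_
          by_cases h : γ ∈ B ∧ FH g0 x Dp σ γ
          swap
          · rw [if_neg h]; exact zero_le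
          rw [if_pos h]
          by_cases hm0 : m σ = 0
          · rw [hm0, mul_zero]; exact zero_le
          have hP : ∃ π ∈ A, σ <+: π := by
            by_contra hP
            exact hm0 (mu_zero ν g0 hP)
          by_cases hcase : lam * m σ ≤ M * e ω (endp g0 σ)
          · refine le_trans ?_ le_self_add
            rw [if_pos h.1, if_pos ⟨h.2, hP⟩]
            have h3 : m σ ≤ M / lam * e ω (endp g0 σ) := by
              have h4 : m σ ≤ M * e ω (endp g0 σ) / lam := by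
                rw [ENNReal.le_div_iff_mul_le (Or.inl hl0) (Or.inl hlt), mul_comm]
                exact hcase
              refine h4.trans (le_of_eq ?_)
              rw [div_eq_mul_inv, div_eq_mul_inv]
              ring
            calc lw ω g0 σ * lw ω x γ * m σ
                ≤ lw ω g0 σ * lw ω x γ * (M / lam * e ω (endp g0 σ)) := mul_le_mul_right h3 _
              _ = _ := by simp only [he]; ring
          · refine le_trans ?_ le_add_self
            obtain ⟨j, hj1, hj2⟩ := class_ex hMt hm0 (mu_le ν g0 hA hM σ)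
            refine le_trans ?_ (ENNReal.le_tsum j)
            have hej : e ω (endp g0 σ) ≤ lam * 2⁻¹ ^ j := by
              have h5 : M * e ω (endp g0 σ) ≤ M * (lam * 2⁻¹ ^ j) := by
                calc M * e ω (endp g0 σ) ≤ lam * m σ := (not_le.mp hcase).le
                  _ ≤ lam * (M * 2⁻¹ ^ j) := mul_le_mul_right hj2 _
                  _ = M * (lam * 2⁻¹ ^ j) := by ring
              exact (ENNReal.mul_le_mul_iff_right hM0 hMt).mp h5
            rw [if_pos ⟨h.1, endp g0 σ, h.2.2.1, hej⟩, if_pos ⟨h.2, hj1⟩]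
            calc lw ω g0 σ * lw ω x γ * m σ ≤ lw ω g0 σ * lw ω x γ * (M * 2⁻¹ ^ j) :=
                  mul_le_mul_right hj2 _
              _ = _ := by ring
      _ = (∑' γ : Wd d, (if γ ∈ B then lw ω x γ else 0) * (M / lam * ∑' σ : Wd d,
              (if FH g0 x Dp σ γ ∧ (∃ π ∈ A, σ <+: π)
              then lw ω g0 σ * tw ω (endp g0 σ) (T (endp g0 σ)) else 0)))
            + ∑' j : ℕ, ∑' γ : Wd d, (if γ ∈ B ∧ ∃ y ∈ sitesL x γ, y ∈ {v | e ω v ≤ lam * 2⁻¹ ^ j}
                then lw ω x γ else 0) * (M * 2⁻¹ ^ j * ∑' σ : Wd d,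
                (if FH g0 x Dp σ γ ∧ M * 2⁻¹ ^ (j + 1) < m σ then lw ω g0 σ else 0)) := by
          rw [ENNReal.tsum_comm (f := fun (j : ℕ) (γ : Wd d) => _), ← ENNReal.tsum_add]
          refine tsum_congr fun γ => ?_
          rw [ENNReal.tsum_add, ENNReal.tsum_mul_left, ENNReal.tsum_mul_left, ENNReal.tsum_comm]
          congr 1
          refine tsum_congr fun j => ?_
          rw [ENNReal.tsum_mul_left, ENNReal.tsum_mul_left]
      _ ≤ (∑' γ : Wd d, (if γ ∈ B then lw ω x γ else 0) * (M / lam * tw ω g0 R))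
            + ∑' j : ℕ, ∑' γ : Wd d, (if γ ∈ B ∧ ∃ y ∈ sitesL x γ, y ∈ {v | e ω v ≤ lam * 2⁻¹ ^ j}
                then lw ω x γ else 0) * (M * 2⁻¹ ^ j * tw ω g0 (Mn j)) := by
          refine add_le_add (ENNReal.tsum_le_tsum fun γ => ?_)
            (ENNReal.tsum_le_tsum fun j => ENNReal.tsum_le_tsum fun γ => ?_)
          · exact mul_le_mul_right (mul_le_mul_right
              (guest_b ω g0 x Dp γ (fun σ => ∃ π ∈ A, σ <+: π) T R hR) _) _
          · refine mul_le_mul_right (mul_le_mul_right ?_ _) _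
            refine le_trans (le_of_eq ?_)
              (guest_a ω g0 x Dp γ (fun σ => M * 2⁻¹ ^ (j + 1) < m σ))
            refine tsum_congr fun l => ?_
            congr
      _ ≤ M / lam * tw ω g0 R
        + ∑' j : ℕ, (lam * 2⁻¹ ^ j) * (M * 2⁻¹ ^ j * tw ω g0 (Mn j)) := by
          refine add_le_add ?_ (ENNReal.tsum_le_tsum fun j => ?_)
          · rw [ENNReal.tsum_mul_right]
            calc (∑' γ : Wd d, if γ ∈ B then lw ω x γ else 0) * (M / lam * tw ω g0 R)
                ≤ 1 * (M / lam * tw ω g0 R) := by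
                  refine mul_le_mul_left ?_ _
                  refine le_trans (le_of_eq ?_) (tw_le_one ω x hB)
                  unfold tw
                  refine tsum_congr fun l => ?_
                  congr
              _ = _ := one_mul _
          · rw [ENNReal.tsum_mul_right]
            refine mul_le_mul_left ?_ _
            refine le_trans (le_of_eq ?_)
              (visit_le ω x T hcl {v | e ω v ≤ lam * 2⁻¹ ^ j} (lam * 2⁻¹ ^ j) fun v hv => hv)
            refine tsum_congr fun l => ?_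
            congr
  -- step 3
  calc ∫⁻ ω, ∑' γ : Wd d, ∑' σ : Wd d,
        (if γ ∈ B ∧ FH g0 x Dp σ γ then lw ω g0 σ * lw ω x γ * m σ else 0) ∂Q
      ≤ ∫⁻ ω, (M / lam * tw ω g0 R
        + ∑' j : ℕ, (lam * 2⁻¹ ^ j) * (M * 2⁻¹ ^ j * tw ω g0 (Mn j))) ∂Q := lintegral_mono h2
    _ = M / lam * ∫⁻ ω, tw ω g0 R ∂Q
        + ∑' j : ℕ, (lam * 2⁻¹ ^ j) * (M * 2⁻¹ ^ j * ∫⁻ ω, tw ω g0 (Mn j) ∂Q) := by
        rw [lintegral_add_left ((measurable_tw g0 R).const_mul _),
          lintegral_const_mul _ (measurable_tw g0 R), lintegral_tsum]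
        · congr 1
          refine tsum_congr fun j => ?_
          rw [lintegral_const_mul _ ((measurable_tw g0 _).const_mul _),
            lintegral_const_mul _ (measurable_tw g0 _)]
        · intro j
          exact (((measurable_tw g0 _).const_mul _).const_mul _).aemeasurable
    _ ≤ M / lam * ∫⁻ ω, tw ω g0 R ∂Q
        + ∑' j : ℕ, (2⁻¹ ^ j * (2 * lam * ∑' π : Wd d, if π ∈ A then an ν g0 π * wt π else 0)) := by
        refine add_le_add le_rfl (ENNReal.tsum_le_tsum fun j => ?_)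
        have hv := ville ν g0 hA hM hMt (M * 2⁻¹ ^ (j + 1))
        have h6 : M * 2⁻¹ ^ j = 2 * (M * 2⁻¹ ^ (j + 1)) := by
          rw [pow_succ, ← mul_assoc, ← mul_assoc, mul_comm 2 M, mul_assoc M 2, mul_assoc,
            mul_assoc, mul_left_comm 2 (2⁻¹ ^ j), ENNReal.mul_inv_cancel two_ne_zero
              ENNReal.ofNat_ne_top, mul_one]
        calc lam * 2⁻¹ ^ j * (M * 2⁻¹ ^ j * ∫⁻ ω, tw ω g0 (Mn j) ∂Q)
            = lam * 2⁻¹ ^ j * (2 * ((M * 2⁻¹ ^ (j + 1)) * ∫⁻ ω, tw ω g0 (Mn j) ∂Q)) := by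
              rw [h6]; ring
          _ ≤ lam * 2⁻¹ ^ j * (2 * ∑' π : Wd d, if π ∈ A then an ν g0 π * wt π else 0) :=
              mul_le_mul_right (mul_le_mul_right hv _) _
          _ = _ := by ring
    _ = _ := by
        rw [ENNReal.tsum_mul_right, ENNReal.tsum_geometric, ENNReal.one_sub_inv_two, inv_inv]
        ring

/-- **facing lemma, order (3)**: sum over the start of the local walker -/
theorem face3 (g0 : Site d) {A B : Set (Wd d)} (hA : PF A) (hB : PF B)
    (T : Site d → Site d → Set (Wd d))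
    (hcl : ∀ x γ₁ γ₂, γ₁ ++ γ₂ ∈ B → γ₂ ≠ [] → γ₂ ∈ T x (endp x γ₁))
    {wt : Site d → Wd d → ℝ≥0∞} {M : ℝ≥0∞} (hM0 : M ≠ 0) (hMt : M ≠ ∞) (hM : ∀ x π, wt x π ≤ M)
    (hs : ∀ π, ∑' x, wt x π ≤ 1)
    (Dp : Set (Site d)) (R : Site d → Set (Wd d))
    (hR : ∀ x σ τ, (∃ π ∈ A, σ <+: π) → endp g0 σ ∈ Dp → τ ∈ T x (endp g0 σ) → σ ++ τ ∈ R x)
    {lam : ℝ≥0∞} (hl0 : lam ≠ 0) (hlt : lam ≠ ∞) :
    (∑' x : Site d, ∑' π : Wd d, ∑' γ : Wd d, if π ∈ A ∧ γ ∈ B ∧ FHD g0 x Dp π γ then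
        an ν g0 π * an ν x γ * wt x π else 0)
      ≤ M / lam * (∑' x, ∫⁻ ω, tw ω g0 (R x) ∂(iidEnvironmentLaw ν)) + 4 * lam := by
  calc (∑' x : Site d, ∑' π : Wd d, ∑' γ : Wd d, if π ∈ A ∧ γ ∈ B ∧ FHD g0 x Dp π γ then
        an ν g0 π * an ν x γ * wt x π else 0)
      ≤ ∑' x : Site d, (M / lam * ∫⁻ ω, tw ω g0 (R x) ∂(iidEnvironmentLaw ν)
        + 4 * lam * ∑' π : Wd d, if π ∈ A then an ν g0 π * wt x π else 0) :=
        ENNReal.tsum_le_tsum fun x => face3_one ν g0 x hA hB (T x) (hcl x) hM0 hMt (hM x) Dp (R x)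
          (hR x) hl0 hlt
    _ = M / lam * (∑' x, ∫⁻ ω, tw ω g0 (R x) ∂(iidEnvironmentLaw ν))
        + 4 * lam * ∑' x : Site d, ∑' π : Wd d, (if π ∈ A then an ν g0 π * wt x π else 0) := by
        rw [ENNReal.tsum_add, ENNReal.tsum_mul_left, ENNReal.tsum_mul_left]
    _ ≤ M / lam * (∑' x, ∫⁻ ω, tw ω g0 (R x) ∂(iidEnvironmentLaw ν)) + 4 * lam * 1 := by
        refine add_le_add le_rfl (mul_le_mul_right ?_ _)
        rw [ENNReal.tsum_comm]
        calc (∑' π : Wd d, ∑' x : Site d, if π ∈ A then an ν g0 π * wt x π else 0)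
            ≤ ∑' π : Wd d, (if π ∈ A then an ν g0 π else 0) := by
              refine ENNReal.tsum_le_tsum fun π => ?_
              split_ifs
              · rw [ENNReal.tsum_mul_left]
                calc an ν g0 π * ∑' x, wt x π ≤ an ν g0 π * 1 := mul_le_mul_right (hs π) _
                  _ = _ := mul_one _
              · simp
          _ = ∫⁻ ω, tw ω g0 A ∂(iidEnvironmentLaw ν) := by
              unfold tw
              rw [lintegral_tsum]
              · refine tsum_congr fun σ => ?_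
                split_ifs
                · rfl
                · simp
              · intro π
                split_ifs
                · exact (measurable_lw g0 π).aemeasurable
                · exact aemeasurable_const
          _ ≤ ∫⁻ _, 1 ∂(iidEnvironmentLaw ν) := lintegral_mono fun ω => tw_le_one ω g0 hA
          _ = 1 := by simp
    _ = _ := by rw [mul_one]

end

end Crest.Agent.R154.Face504
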