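import Crest.Agent.R154.WordB_956

/-! Row 154 (helper956): **the one-window facing lemma of 801 in words**, both roles
(`face2`: event walker local, weight on its own landing; `face3`: event walker local, weight on the
landing of the free walker, weight-dependent threshold). -/

set_option autoImplicit false

open MeasureTheory ProbabilityTheory Crest.ProbabilityR.RandomEnvironment
open Crest.Agent.R154.Flux566 Crest.Agent.R154.WordB956
open scoped ENNReal

namespace Crest.Agent.R154.Face956

variable {d : ℕ}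

/-! ### prefix-free sets, general form -/

/-- minimal words with the property `p` -/
def Mn (p : List (Step d) → Prop) : Set (List (Step d)) :=
  {l | p l ∧ ∀ l1 l2, l = l1 ++ l2 → l2 ≠ [] → ¬ p l1}

lemma pf_Mn (p : List (Step d) → Prop) : PF (Mn p) := by
  intro l hl l' hl'
  by_contra h
  exact hl'.2 l l' rfl h hl.1

lemma exists_Mn {p : List (Step d) → Prop} (n : ℕ) : ∀ a b : List (Step d), a.length ≤ n → p a →
    ∃ l1 l2, a ++ b = l1 ++ l2 ∧ l1 ∈ Mn p := by
  induction n with
  | zero =>
    intro a b ha hp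
    have : a = [] := List.length_eq_zero_iff.1 (Nat.le_zero.1 ha)
    subst this
    refine ⟨[], b, rfl, hp, fun l1 l2 h h2 => ?_⟩
    exact absurd (List.append_eq_nil_iff.1 h.symm).2 h2
  | succ n ih =>
    intro a b ha hp
    by_cases h : a ∈ Mn p
    · exact ⟨a, b, rfl, h⟩
    · have : ∃ l1 l2, a = l1 ++ l2 ∧ l2 ≠ [] ∧ p l1 := by
        by_contra hc
        push Not at hc
        exact h ⟨hp, fun l1 l2 e1 e2 => hc l1 l2 e1 e2⟩
      obtain ⟨l1, l2, e1, e2, e3⟩ := this
      subst e1
      have hl : l1.length ≤ n := by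
        have : 0 < l2.length := List.length_pos_iff.2 e2
        rw [List.length_append] at ha
        omega
      obtain ⟨m1, m2, h1, h2⟩ := ih l1 (l2 ++ b) hl e3
      exact ⟨m1, m2, by rw [List.append_assoc]; exact h1, h2⟩

lemma pf_unique {S : Set (List (Step d))} (hS : PF S) {l1 l2 m1 m2 : List (Step d)}
    (h : l1 ++ l2 = m1 ++ m2) (h1 : l1 ∈ S) (h2 : m1 ∈ S) : l1 = m1 ∧ l2 = m2 := by
  have hh : l1 = m1 := by
    rcases List.append_eq_append_iff.1 h with ⟨a, ha, _⟩ | ⟨a, ha, _⟩
    · have : a = [] := hS l1 h1 a (ha ▸ h2)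
      rw [ha, this, List.append_nil]
    · have : a = [] := hS m1 h2 a (ha ▸ h1)
      rw [ha, this, List.append_nil]
  subst hh
  exact ⟨rfl, List.append_cancel_left h⟩

open Classical in
/-- sum over (word of a prefix-free set, continuation) -/
theorem tsum_pf {S : Set (List (Step d))} (hS : PF S) (F : List (Step d) → ℝ≥0∞) :
    ∑' l1 : List (Step d), (if l1 ∈ S then ∑' l2 : List (Step d), F (l1 ++ l2) else 0)
      = ∑' l : List (Step d), (if ∃ l1 l2, l = l1 ++ l2 ∧ l1 ∈ S then F l else 0) := by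
  have e1 : ∑' l1 : List (Step d), (if l1 ∈ S then ∑' l2 : List (Step d), F (l1 ++ l2)
      else 0) = ∑' p : List (Step d) × List (Step d), (if p.1 ∈ S then F (p.1 ++ p.2) else 0) := by
    rw [ENNReal.tsum_prod (f := fun a b : List (Step d) => if a ∈ S then F (a ++ b) else 0)]
    refine tsum_congr fun l1 => ?_
    by_cases h : l1 ∈ S <;> simp [h]
  rw [e1]
  have e2 : ∑' p : List (Step d) × List (Step d), (if p.1 ∈ S then F (p.1 ++ p.2) else 0)
      = ∑' q : {p : List (Step d) × List (Step d) // p.1 ∈ S}, F (q.1.1 ++ q.1.2) := by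
    rw [← tsum_subtype_eq_of_support_subset (s := {p : List (Step d) × List (Step d) | p.1 ∈ S})]
    · refine tsum_congr fun q => ?_
      exact if_pos q.2
    · intro p hp
      by_contra h
      exact hp (if_neg h)
  rw [e2]
  set g : {p : List (Step d) × List (Step d) // p.1 ∈ S} → List (Step d) :=
    fun q => q.1.1 ++ q.1.2 with hg
  have hinj : Function.Injective g := by
    rintro ⟨⟨a, b⟩, ha⟩ ⟨⟨a', b'⟩, ha'⟩ h
    obtain ⟨h1, h2⟩ := pf_unique hS h ha ha'
    simp only at h1 h2
    subst h1; subst h2; rfl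
  have hs : Function.support (fun l : List (Step d) =>
      if ∃ l1 l2, l = l1 ++ l2 ∧ l1 ∈ S then F l else 0) ⊆ Set.range g := by
    intro l hl
    have hv : ∃ l1 l2, l = l1 ++ l2 ∧ l1 ∈ S := by
      by_contra h
      exact hl (if_neg h)
    obtain ⟨l1, l2, h1, h2⟩ := hv
    exact ⟨⟨(l1, l2), h2⟩, h1.symm⟩
  rw [← hinj.tsum_eq hs]
  refine tsum_congr fun q => ?_
  rw [if_pos]
  exact ⟨q.1.1, q.1.2, rfl, q.2⟩

open Classical in
theorem tsum_pf_le {S : Set (List (Step d))} (hS : PF S) (F : List (Step d) → List (Step d) → ℝ≥0∞)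
    (G : List (Step d) → ℝ≥0∞) (h : ∀ l1 ∈ S, ∀ l2, F l1 l2 ≤ G (l1 ++ l2)) :
    ∑' l1 : List (Step d), (if l1 ∈ S then ∑' l2 : List (Step d), F l1 l2 else 0)
      ≤ ∑' l : List (Step d), G l := by
  calc ∑' l1 : List (Step d), (if l1 ∈ S then ∑' l2 : List (Step d), F l1 l2 else 0)
      ≤ ∑' l1 : List (Step d), (if l1 ∈ S then ∑' l2 : List (Step d), G (l1 ++ l2) else 0) := by
        refine ENNReal.tsum_le_tsum fun l1 => ?_
        by_cases h1 : l1 ∈ S
        · rw [if_pos h1, if_pos h1]
          exact ENNReal.tsum_le_tsum fun l2 => h l1 h1 l2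
        · rw [if_neg h1, if_neg h1]
    _ = _ := tsum_pf hS G
    _ ≤ _ := ENNReal.tsum_le_tsum fun l => by split_ifs <;> simp

open Classical in
/-- domination: every word of `R` has a prefix in `S` -/
theorem dom_le (ω : Environment d) (x : Site d) {R S : Set (List (Step d))} (hR : PF R)
    (hS : PF S) (h : ∀ l ∈ R, ∃ l1 l2, l = l1 ++ l2 ∧ l1 ∈ S) :
    ∑' l : List (Step d), (if l ∈ R then lw ω x l else 0)
      ≤ ∑' l : List (Step d), (if l ∈ S then lw ω x l else 0) := by
  have e : ∑' l : List (Step d), (if l ∈ R then lw ω x l else 0)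
      = ∑' l : List (Step d), (if ∃ l1 l2, l = l1 ++ l2 ∧ l1 ∈ S then
          (if l ∈ R then lw ω x l else 0) else 0) := by
    refine tsum_congr fun l => ?_
    by_cases h1 : l ∈ R
    · rw [if_pos (h l h1)]
    · simp [h1]
  rw [e, ← tsum_pf hS (fun l => if l ∈ R then lw ω x l else 0)]
  refine ENNReal.tsum_le_tsum fun l1 => ?_
  by_cases h1 : l1 ∈ S
  · rw [if_pos h1, if_pos h1]
    calc ∑' l2 : List (Step d), (if l1 ++ l2 ∈ R then lw ω x (l1 ++ l2) else 0)
        = lw ω x l1 * ∑' l2 : List (Step d),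
            (if l2 ∈ {l2 | l1 ++ l2 ∈ R} then lw ω (endp x l1) l2 else 0) := by
          rw [← ENNReal.tsum_mul_left]
          refine tsum_congr fun l2 => ?_
          rw [lw_append, mul_ite, mul_zero]
          rfl
      _ ≤ lw ω x l1 * 1 := by
          refine mul_le_mul_right (pf_sum_le ω _ ?_) _
          intro a ha b hb
          have hb' : l1 ++ (a ++ b) ∈ R := hb
          rw [← List.append_assoc] at hb'
          exact hR (l1 ++ a) ha b hb'
      _ = lw ω x l1 := mul_one _
  · rw [if_neg h1, if_neg h1]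

/-! ### the data -/

/-- departure sites of the word `g` from `x` -/
def V (x : Site d) (g : List (Step d)) : Set (Site d) := {z | z ∈ sitesL x g}

open Classical in
/-- quenched weight of the continuations `Tc` from `v`, event walker started at `x` -/
noncomputable def ec (Tc : Site d → Set (List (Step d))) (ω : Environment d) (x v : Site d) :
    ℝ≥0∞ := ∑' l : List (Step d), (if l ∈ Tc (v - x) then lw ω v l else 0)

lemma measurable_ec (Tc : Site d → Set (List (Step d))) (x v : Site d) :
    Measurable fun ω : Environment d => ec Tc ω x v := by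
  classical
  unfold ec
  refine Measurable.ennreal_tsum fun l => ?_
  by_cases h : l ∈ Tc (v - x)
  · simp only [h, if_true]; exact measurable_lw v l
  · simp only [h, if_false]; exact measurable_const

lemma ec_shift (Tc : Site d → Set (List (Step d))) (ω : Environment d) (x v : Site d) :
    ec Tc ω x (v + x) = ec Tc (shiftEnv x ω) 0 v := by
  classical
  unfold ec
  refine tsum_congr fun l => ?_
  rw [show v + x - x = v by abel, sub_zero, lw_shift]

/-- hypotheses on the event walker `G`, the free walker `F`, the continuations and the returns -/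
structure Data (G F Ret : Set (List (Step d))) (Tc : Site d → Set (List (Step d)))
    (E : Set (Site d)) : Prop where
  pfG : PF G
  pfF : PF F
  pfRet : PF Ret
  cont : ∀ g1 g2, g1 ++ g2 ∈ G → g2 ∈ Tc (endp 0 g1)
  land : ∀ v l, l ∈ Tc v → endp v l ∈ E
  ret : ∀ (x : Site d) (g f1 f2 l : List (Step d)), g ∈ G → f1 ++ f2 ∈ F → f1 ∈ FH (V x g) 0 →
    l ∈ Tc (endp 0 f1 - x) → f1 ++ l ∈ Ret

variable {G F Ret : Set (List (Step d))} {Tc : Site d → Set (List (Step d))} {E : Set (Site d)}

/-- prefixes of the free walker which end at its first hit of `V x g` -/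
def H1 (F : Set (List (Step d))) (x : Site d) (g : List (Step d)) : Set (List (Step d)) :=
  {f1 | f1 ∈ FH (V x g) 0 ∧ ∃ f2, f1 ++ f2 ∈ F}

lemma pf_H1 (F : Set (List (Step d))) (x : Site d) (g : List (Step d)) : PF (H1 F x g) :=
  (pf_FH _ _).mono fun _ h => h.1

lemma disj_H1 {x : Site d} {g f1 : List (Step d)} (h : f1 ∈ H1 F x g) :
    ∀ z ∈ sitesL x g, z ∉ sitesL 0 f1 := by
  intro z hz hz'
  obtain ⟨l1, e, l2, h1, h2⟩ := mem_sitesL.1 hz'
  exact h.1.2 l1 (e :: l2) h1 (by simp) (by rw [h2]; exact hz)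

open Classical in
/-- **(a)**: the event walker passes a site of small continuation -/
lemma vis_ec (D : Data G F Ret Tc E) (ω : Environment d) (x : Site d) (lam : ℝ≥0∞) :
    ∑' g : List (Step d), (if g ∈ G ∧ g ∈ Vis {v | ec Tc ω x v ≤ lam} x then lw ω x g else 0)
      ≤ lam := by
  refine vis_le ω x G _ lam fun l1 hl1 => ?_
  refine le_trans (ENNReal.tsum_le_tsum fun l2 => ?_) hl1.1
  by_cases h : l1 ++ l2 ∈ G
  · have h2 := D.cont l1 l2 h
    have h3 : l2 ∈ Tc (endp x l1 - x) := by
      rw [endp_eq_add l1 x, add_sub_cancel_left]; exact h2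
    rw [if_pos h, if_pos h3]
  · rw [if_neg h]; exact zero_le

open Classical in
/-- **(b)**: quenched turning bound, one start -/
lemma turn_le (D : Data G F Ret Tc E) (ω : Environment d) (x : Site d) (g : List (Step d))
    (hg : g ∈ G) :
    ∑' f1 : List (Step d), (if f1 ∈ H1 F x g then lw ω 0 f1 * ec Tc ω x (endp 0 f1) else 0)
      ≤ ∑' l : List (Step d), (if l ∈ Ret ∧ endp 0 l - x ∈ E then lw ω 0 l else 0) := by
  have e : ∑' f1 : List (Step d), (if f1 ∈ H1 F x g then lw ω 0 f1 * ec Tc ω x (endp 0 f1) else 0)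
      = ∑' f1 : List (Step d), (if f1 ∈ H1 F x g then ∑' l : List (Step d),
          (if l ∈ Tc (endp 0 f1 - x) then lw ω 0 (f1 ++ l) else 0) else 0) := by
    refine tsum_congr fun f1 => ?_
    congr 1
    unfold ec
    rw [← ENNReal.tsum_mul_left]
    refine tsum_congr fun l => ?_
    rw [lw_append, mul_ite, mul_zero]
  rw [e]
  refine tsum_pf_le (pf_H1 F x g) (fun f1 l => if l ∈ Tc (endp 0 f1 - x) then lw ω 0 (f1 ++ l)
    else 0) (fun l => if l ∈ Ret ∧ endp 0 l - x ∈ E then lw ω 0 l else 0) fun f1 h1 l => ?_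
  by_cases h : l ∈ Tc (endp 0 f1 - x)
  · obtain ⟨h2, f2, h3⟩ := h1
    have h4 := D.ret x g f1 f2 l hg h3 h2 h
    have h5 : endp 0 (f1 ++ l) - x ∈ E := by
      have h6 := D.land _ l h
      rw [endp_append]
      have h7 : endp (endp 0 f1) l = endp (endp 0 f1 - x) l + x := by
        rw [← endp_add, sub_add_cancel]
      rw [h7, add_sub_cancel_right]
      exact h6
    simp only [h, if_true]
    rw [if_pos ⟨h4, h5⟩]
  · simp only [h, if_false]; exact zero_le

open Classical in
/-- **(b)**: annealed turning bound, sum over the starts of the event walker -/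
lemma turn_sum (ν : Measure (Row d)) [IsProbabilityMeasure ν] (D : Data G F Ret Tc E)
    (cE : ℝ≥0∞) (hE : ∑' z : Site d, (if z ∈ E then (1 : ℝ≥0∞) else 0) ≤ cE) :
    ∑' x : Site d, ∫⁻ ω : Environment d, ∑' g : List (Step d), (if g ∈ G then lw ω x g *
      ∑' f1 : List (Step d), (if f1 ∈ H1 F x g then lw ω 0 f1 * ec Tc ω x (endp 0 f1) else 0)
        else 0) ∂(iidEnvironmentLaw ν)
      ≤ cE * ∑' l : List (Step d), (if l ∈ Ret then aw (iidEnvironmentLaw ν) 0 l else 0) := by
  have h1 : ∀ (x : Site d) (ω : Environment d), ∑' g : List (Step d), (if g ∈ G then lw ω x g *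
      ∑' f1 : List (Step d), (if f1 ∈ H1 F x g then lw ω 0 f1 * ec Tc ω x (endp 0 f1) else 0)
        else 0) ≤ ∑' l : List (Step d), (if l ∈ Ret ∧ endp 0 l - x ∈ E then lw ω 0 l else 0) := by
    intro x ω
    set B := ∑' l : List (Step d), (if l ∈ Ret ∧ endp 0 l - x ∈ E then lw ω 0 l else 0)
    calc _ ≤ ∑' g : List (Step d), (if g ∈ G then lw ω x g else 0) * B := by
          refine ENNReal.tsum_le_tsum fun g => ?_
          by_cases hg : g ∈ G
          · rw [if_pos hg, if_pos hg]
            exact mul_le_mul_right (turn_le D ω x g hg) _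
          · rw [if_neg hg, if_neg hg, zero_mul]
      _ = (∑' g : List (Step d), (if g ∈ G then lw ω x g else 0)) * B := ENNReal.tsum_mul_right
      _ ≤ 1 * B := mul_le_mul_left (pf_sum_le ω x D.pfG) _
      _ = B := one_mul _
  calc _ ≤ ∑' x : Site d, ∫⁻ ω : Environment d, ∑' l : List (Step d),
        (if l ∈ Ret ∧ endp 0 l - x ∈ E then lw ω 0 l else 0) ∂(iidEnvironmentLaw ν) :=
        ENNReal.tsum_le_tsum fun x => lintegral_mono fun ω => h1 x ω
    _ = ∑' x : Site d, ∑' l : List (Step d),
        (if l ∈ Ret ∧ endp 0 l - x ∈ E then aw (iidEnvironmentLaw ν) 0 l else 0) := by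
        refine tsum_congr fun x => ?_
        rw [lintegral_tsum]
        · refine tsum_congr fun l => ?_
          by_cases h : l ∈ Ret ∧ endp 0 l - x ∈ E
          · simp only [h, and_self, if_true, aw]
          · simp only [h, if_false, lintegral_zero]
        · intro l
          by_cases h : l ∈ Ret ∧ endp 0 l - x ∈ E
          · simp only [h, and_self, if_true]; exact (measurable_lw 0 l).aemeasurable
          · simp only [h, if_false]; exact measurable_const.aemeasurable
    _ = ∑' l : List (Step d), (if l ∈ Ret then aw (iidEnvironmentLaw ν) 0 l else 0)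
          * ∑' x : Site d, (if endp 0 l - x ∈ E then (1 : ℝ≥0∞) else 0) := by
        rw [ENNReal.tsum_comm]
        refine tsum_congr fun l => ?_
        rw [← ENNReal.tsum_mul_left]
        refine tsum_congr fun x => ?_
        by_cases h2 : l ∈ Ret <;> by_cases h3 : endp 0 l - x ∈ E <;> simp [h2, h3]
    _ ≤ ∑' l : List (Step d), (if l ∈ Ret then aw (iidEnvironmentLaw ν) 0 l else 0) * cE := by
        refine ENNReal.tsum_le_tsum fun l => mul_le_mul_right ?_ _
        refine le_trans (le_of_eq ?_) hE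
        exact (Equiv.subLeft (endp 0 l)).tsum_eq (fun z => if z ∈ E then (1 : ℝ≥0∞) else 0)
    _ = _ := by rw [ENNReal.tsum_mul_right, mul_comm]

/-- common departure site -/
def Hit (x : Site d) (g f : List (Step d)) : Prop := ∃ z, z ∈ sitesL x g ∧ z ∈ sitesL 0 f

lemma exists_H1 {x : Site d} {g f : List (Step d)} (hf : f ∈ F) (h : Hit x g f) :
    ∃ l1 l2, f = l1 ++ l2 ∧ l1 ∈ H1 F x g := by
  obtain ⟨z, hz, hz'⟩ := h
  obtain ⟨l1, e, l2, h1, h2⟩ := mem_sitesL.1 hz'
  obtain ⟨m1, m2, h3, h4⟩ := exists_FH (D := V x g) (x := (0 : Site d)) (l := f)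
    ⟨l1, e :: l2, h1, by rw [h2]; exact hz⟩
  exact ⟨m1, m2, h3, h4, m2, h3 ▸ hf⟩

end Crest.Agent.R154.Face956
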