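import Crest.Agent.R154.KerPair_872

/-! Row 154, d >= 3, home-mass route (263 #36390), HM4, kernel side (helper618): natural climbs
marked by their exit displacement; first moment (translation invariance) and second moment (same
environment = independent environments before the first contact); robust jump on a `KerSys`. -/

set_option autoImplicit false
set_option linter.unusedSectionVars false
set_option linter.deprecated false

namespace Crest.Agent.R154.JumpK618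

open MeasureTheory ProbabilityTheory Set Filter Crest.ProbabilityR.RandomEnvironment
open Crest.Agent.R154.Mk561 Crest.Agent.R154.Q561
open Crest.Agent.R154.Flux132 (lev)
open Crest.Agent.R154.B6I (Hit bf Alv Eqv Nt zt SP PP Om NoC tip th Al Dt PSm PIm ct)
open Crest.Agent.R154.RatioR872
open scoped ENNReal

variable {d : ℕ}

/-! ### the marked climbs -/

/-- natural climb from `x` to level `b` with exit displacement in `D` -/
def ClD (u : Step d) (R : ℕ) (D : Set (Site d)) (x : Site d) (b : ℤ) : Set (MPath d) :=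
  {M | ∃ m, M ∈ ClM u R x b m ∧ pos x M m - x ∈ D}

section sets

variable (u : Step d) (R : ℕ)

lemma ClD_sub (D : Set (Site d)) (x : Site d) (b : ℤ) : ClD u R D x b ⊆ ClA u R x b := by
  rintro M ⟨m, hm, _⟩
  exact mem_iUnion.2 ⟨m, hm⟩

lemma ClD_eq (D : Set (Site d)) (x : Site d) (b : ℤ) :
    ClD u R D x b = ⋃ y, (open Classical in if y - x ∈ D then Cl u R x b y else ∅) := by
  ext M
  simp only [ClD, mem_setOf_eq, mem_iUnion]
  constructor
  · rintro ⟨m, hm, hD⟩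
    refine ⟨pos x M m, ?_⟩
    rw [if_pos hD]
    exact mem_iUnion.2 ⟨m, hm, rfl⟩
  · rintro ⟨y, hy⟩
    by_cases h : y - x ∈ D
    · rw [if_pos h] at hy
      obtain ⟨m, hm, hmy⟩ := mem_iUnion.1 hy
      refine ⟨m, hm, ?_⟩
      rw [hmy]; exact h
    · rw [if_neg h] at hy
      exact absurd hy (notMem_empty _)

lemma meas_ClD (D : Set (Site d)) (x : Site d) (b : ℤ) : MeasurableSet (ClD u R D x b) := by
  rw [ClD_eq]
  refine MeasurableSet.iUnion fun y => ?_
  split_ifs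
  · exact meas_Cl u R x b y
  · exact MeasurableSet.empty

lemma ClD_shift (D : Set (Site d)) (x z : Site d) (b : ℤ) :
    ClD u R D (x + z) (b + lev u z) = ClD u R D x b := by
  ext M
  simp only [ClD, mem_setOf_eq, ClM_shift]
  refine exists_congr fun m => and_congr Iff.rfl ?_
  have : pos (x + z) M m - (x + z) = pos x M m - x := by
    rw [pos_add]; abel
  rw [this]

end sets

section kernel

variable (u : Step d) (R : ℕ) (κ : ℝ)

/-- quenched mass, from `x`, of the natural climb to level `b` with exit displacement in `D` -/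
noncomputable def Nd (D : Set (Site d)) (b : ℤ) (ω : Environment d) (x : Site d) : ℝ≥0∞ :=
  open Classical in ∑' y, if y - x ∈ D then gk u R κ b ω x y else 0

lemma Nd_eq (D : Set (Site d)) (b : ℤ) (ω : Environment d) (x : Site d) :
    Nd u R κ D b ω x = mkLaw κ ω x (ClD u R D x b) := by
  classical
  rw [ClD_eq, measure_iUnion]
  · unfold Nd
    refine tsum_congr fun y => ?_
    split_ifs
    · rfl
    · simp
  · intro y y' hne
    have h := disj_Cl u R x b hne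
    rw [Function.onFun] at h ⊢
    split_ifs
    · exact h
    · exact disjoint_bot_right
    · exact disjoint_bot_left
    · exact disjoint_bot_left
  · intro y
    split_ifs
    · exact meas_Cl u R x b y
    · exact MeasurableSet.empty

lemma Nd_le (D : Set (Site d)) (b : ℤ) (ω : Environment d) (x : Site d) :
    Nd u R κ D b ω x ≤ ∑' y, gk u R κ b ω x y := by
  unfold Nd
  refine ENNReal.tsum_le_tsum fun y => ?_
  split_ifs
  · exact le_rfl
  · exact zero_le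

lemma Nd_le_one (D : Set (Site d)) (b : ℤ) (ω : Environment d) (x : Site d) :
    Nd u R κ D b ω x ≤ 1 := by
  rw [Nd_eq]
  exact prob_le_one

lemma locOn_Nd (D : Set (Site d)) (b : ℤ) (x : Site d) :
    LocOn {z | lev u x + R ≤ lev u z ∧ lev u z < b} fun ω => Nd u R κ D b ω x := by
  intro ω ω' h
  unfold Nd
  refine tsum_congr fun y => ?_
  have := locOn_gk u R κ b x y ω ω' h
  simp only at this
  rw [this]

lemma meas_Nd (D : Set (Site d)) (b : ℤ) (x : Site d) :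
    Measurable fun ω => Nd u R κ D b ω x := by
  simp_rw [Nd_eq]
  exact measurable_mk_apply κ x (meas_ClD u R D x b)

/-- rows read: levels in `[lev x + R, ..)` -/
lemma meas_Nd_H (D : Set (Site d)) (b : ℤ) {a : ℕ} {x : Site d} (hx : lev u x = a) :
    Measurable[coordSigmaAlgebra {z | (a : ℤ) + R ≤ lev u z}] fun ω => Nd u R κ D b ω x := by
  refine measurable_coord (meas_Nd u R κ D b x) ?_
  refine (locOn_Nd u R κ D b x).mono fun z hz => ?_
  have := hz.1
  rw [hx] at this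
  exact this

/-- rows read: levels `< b` -/
lemma meas_Nd_F (D : Set (Site d)) (b : ℕ) (x : Site d) :
    Measurable[Fl u b] fun ω => Nd u R κ D b ω x := by
  refine measurable_coord (meas_Nd u R κ D b x) ?_
  exact (locOn_Nd u R κ D b x).mono fun z hz => hz.2

variable (Q : Measure (Environment d)) [IsProbabilityMeasure Q]

/-- annealed probability of the natural climb of height `n` with exit displacement in `D` -/
noncomputable def hD (D : Set (Site d)) (n : ℕ) : ℝ≥0∞ := mkAnn κ Q 0 (ClD u R D 0 n)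

lemma hD_le_one (D : Set (Site d)) (n : ℕ) : hD u R κ Q D n ≤ 1 := prob_le_one

lemma hD_le_hn (D : Set (Site d)) (n : ℕ) : hD u R κ Q D n ≤ RatioR872.hn u R κ Q n :=
  measure_mono (ClD_sub u R D 0 n)

lemma ann_ClD (hstat : ∀ z : Site d, MeasurePreserving (shiftEnv z) Q Q) (D : Set (Site d))
    {a b : ℕ} (hab : a ≤ b) {x : Site d} (hx : lev u x = a) :
    mkAnn κ Q x (ClD u R D x b) = hD u R κ Q D (b - a) := by
  rw [mkAnn_stat hstat κ x, hD]
  congr 1
  have h2 := ClD_shift u R D 0 x ((b - a : ℕ) : ℤ)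
  rw [zero_add, hx] at h2
  rw [← h2]
  congr 1
  push_cast [Nat.cast_sub hab]
  ring

/-- **first moment** -/
lemma first_mark (hstat : ∀ z : Site d, MeasurePreserving (shiftEnv z) Q Q) (D : Set (Site d))
    {a b : ℕ} (hab : a ≤ b) {x : Site d} (hx : lev u x = a) :
    ∫⁻ ω, Nd u R κ D b ω x ∂Q = hD u R κ Q D (b - a) := by
  simp_rw [Nd_eq]
  rw [← mkAnn_apply κ Q x (meas_ClD u R D x b), ann_ClD u R κ Q hstat D hab hx]

lemma mem_ClD_iff (D : Set (Site d)) {x : Site d} {n : ℕ} {M : MPath d} :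
    M ∈ ClD u R D x (lev u x + n) ↔ ∃ m, (Hit u n M m ∧ Nt u R 0 n M) ∧ pos x M m - x ∈ D := by
  simp only [ClD, mem_setOf_eq, mem_ClM_iff]

lemma dt_ClD (D D' : Set (Site d)) {x x' : Site d} {n : ℕ} :
    Dt u n (ClD u R D x (lev u x + n) ×ˢ ClD u R D' x' (lev u x' + n) : Set (PP d)) := by
  rintro p q h1 h2 ⟨hp1, hp2⟩
  rw [mem_ClD_iff] at hp1 hp2
  obtain ⟨m, ⟨a1, a2⟩, a3⟩ := hp1
  obtain ⟨m', ⟨b1, b2⟩, b3⟩ := hp2
  refine ⟨?_, ?_⟩
  · rw [mem_ClD_iff]
    refine ⟨m, ⟨h1.hit a1, h1.nt (Nat.zero_le n) a2⟩, ?_⟩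
    rw [← pos_congr x (h1.agree a1) le_rfl]
    exact a3
  · rw [mem_ClD_iff]
    refine ⟨m', ⟨h2.hit b1, h2.nt (Nat.zero_le n) b2⟩, ?_⟩
    rw [← pos_congr x' (h2.agree b1) le_rfl]
    exact b3

/-- **second moment of the marked climbs** -/
lemma second_mark (hstat : ∀ z : Site d, MeasurePreserving (shiftEnv z) Q Q)
    (hR : IsFiniteRangeDependent Q R) (D D' : Set (Site d)) (a b : ℕ) (x x' : Site d)
    (hab : a ≤ b) (hx : lev u x = a) (hx' : lev u x' = a) :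
    ∫⁻ ω, Nd u R κ D b ω x * Nd u R κ D' b ω x' ∂Q
      ≤ hD u R κ Q D (b - a) * hD u R κ Q D' (b - a) + Kc u R κ Q a b x x' := by
  classical
  have hs : lev u x = lev u x' := hx.trans hx'.symm
  set s : SP u := ⟨(x, x'), hs⟩ with hsd
  set n := b - a with hn'
  have hbx : (b : ℤ) = lev u x + n := by rw [hx, hn']; push_cast [Nat.cast_sub hab]; ring
  have hbx' : (b : ℤ) = lev u x' + n := by rw [hx', hn']; push_cast [Nat.cast_sub hab]; ring
  set E : Set (PP d) := ClD u R D x b ×ˢ ClD u R D' x' b with hE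
  have hDt : Dt u n E := by
    have h0 := dt_ClD u R D D' (x := x) (x' := x') (n := n)
    rw [← hbx, ← hbx'] at h0
    exact h0
  have hEb : E ⊆ both u R n := by
    rintro p ⟨h1, h2⟩
    have g1 := ClD_sub u R D x b h1
    have g2 := ClD_sub u R D' x' b h2
    rw [ClA_eq' u R hx hab] at g1
    rw [ClA_eq' u R hx' hab] at g2
    exact ⟨g1, g2⟩
  simp_rw [Nd_eq]
  have e1 : ∫⁻ ω, mkLaw κ ω x (ClD u R D x b) * mkLaw κ ω x' (ClD u R D' x' b) ∂Q
      = PSm κ Q x x' E := (B6I.PSm_prod κ Q x x' (meas_ClD u R D x b) (meas_ClD u R D' x' b)).symm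
  have e2 : E ⊆ (E ∩ {p | NoC R 0 n ((s, p) : Om u)}) ∪ bc u R 0 n s := by
    intro p hp
    by_cases h : NoC R 0 n ((s, p) : Om u)
    · exact Or.inl ⟨hp, h⟩
    · exact Or.inr ⟨hEb hp, h⟩
  have e3 : PSm κ Q x x' (E ∩ {p | NoC R 0 n ((s, p) : Om u)})
      = PIm κ Q x x' (E ∩ {p | NoC R 0 n ((s, p) : Om u)}) :=
    B6I.PS_eq_PI_set (κ := κ) hR s (fun p hp => both_al p (hEb hp.1))
      (hDt.inter (B6I.dt_noC (Nat.zero_le n) s)) (fun p hp => hp.2)
  have e4 : PIm κ Q x x' E = hD u R κ Q D n * hD u R κ Q D' n := by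
    rw [hE, B6I.PIm, Measure.prod_prod, ann_ClD u R κ Q hstat D hab hx,
      ann_ClD u R κ Q hstat D' hab hx']
  rw [e1]
  calc PSm κ Q x x' E
      ≤ PSm κ Q x x' (E ∩ {p | NoC R 0 n ((s, p) : Om u)})
        + PSm κ Q x x' (bc u R 0 n s) := (measure_mono e2).trans (measure_union_le _ _)
    _ ≤ hD u R κ Q D n * hD u R κ Q D' n + Kc u R κ Q a b x x' := by
        refine add_le_add ?_ ?_
        · rw [e3, ← e4]
          exact measure_mono inter_subset_left
        · unfold Kc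
          rw [dif_pos hs]

end kernel

/-! ### the abstract robust jump -/

section jump

variable {S : Type*} [Countable S] {Ω : Type*} {m0 : MeasurableSpace Ω} {P : Measure Ω}
variable (A : KerSys S P)

/-- a marked mass of the climbs from `b` to `c`: measurable in the rows read by the climbs, with
the two moment properties. -/
structure Marked (b c : ℕ) (J : Ω → S → ℝ≥0∞) (π : ℝ≥0∞) : Prop where
  measH : ∀ x ∈ A.L b, Measurable[A.H b] fun ω => J ω x
  measF : ∀ x ∈ A.L b, Measurable[A.F c] fun ω => J ω x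
  le_one : ∀ ω x, J ω x ≤ 1
  first : ∀ x ∈ A.L b, ∫⁻ ω, J ω x ∂P = π
  second : ∀ x ∈ A.L b, ∀ x' ∈ A.L b, ∫⁻ ω, J ω x * J ω x' ∂P ≤ π ^ 2 + A.K b c x x'

variable {A}

/-- marked mass of a weight at level `b` -/
noncomputable def Xm (w : Ω → S → ℝ≥0∞) (J : Ω → S → ℝ≥0∞) (ω : Ω) : ℝ≥0∞ :=
  ∑' x, w ω x * J ω x

lemma Xm_le_tot {w : Ω → S → ℝ≥0∞} {J : Ω → S → ℝ≥0∞} (hJ : ∀ ω x, J ω x ≤ 1) (ω : Ω) :
    Xm w J ω ≤ KerSys.tot w ω := by
  unfold Xm KerSys.tot
  refine ENNReal.tsum_le_tsum fun x => ?_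
  calc w ω x * J ω x ≤ w ω x * 1 := by gcongr; exact hJ ω x
    _ = w ω x := mul_one _

lemma meas_term {b : ℕ} {w : Ω → S → ℝ≥0∞} (hw : A.Wt b w) {J : Ω → S → ℝ≥0∞}
    {m : MeasurableSpace Ω} (hm : A.F b ≤ m)
    (hJ : ∀ x ∈ A.L b, Measurable[m] fun ω => J ω x) (x : S) :
    Measurable[m] fun ω => w ω x * J ω x := by
  by_cases hx : x ∈ A.L b
  · exact ((hw.meas x).mono hm le_rfl).mul (hJ x hx)
  · have : (fun ω => w ω x * J ω x) = fun _ => 0 := by
      funext ω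
      rw [hw.supp ω x hx, zero_mul]
    rw [this]
    exact @measurable_const _ _ _ m _

lemma meas_Xm {b : ℕ} {w : Ω → S → ℝ≥0∞} (hw : A.Wt b w) {J : Ω → S → ℝ≥0∞}
    {m : MeasurableSpace Ω} (hm : A.F b ≤ m)
    (hJ : ∀ x ∈ A.L b, Measurable[m] fun ω => J ω x) : Measurable[m] (Xm w J) := by
  unfold Xm
  exact Measurable.ennreal_tsum fun x => meas_term hw hm hJ x

lemma xm_first {b c : ℕ} {J : Ω → S → ℝ≥0∞} {π : ℝ≥0∞} (hJ : Marked A b c J π)
    {w : Ω → S → ℝ≥0∞} (hw : A.Wt b w) {φ : Ω → ℝ≥0∞} (hφ : Measurable[A.F b] φ) :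
    ∫⁻ ω, φ ω * Xm w J ω ∂P = π * ∫⁻ ω, φ ω * KerSys.tot w ω ∂P := by
  have hφ0 : Measurable φ := hφ.mono (A.F.le b) le_rfl
  have h1 : ∀ ω, φ ω * Xm w J ω = ∑' x, φ ω * (w ω x * J ω x) := by
    intro ω
    rw [Xm, ← ENNReal.tsum_mul_left]
  have h2 : ∀ ω, φ ω * KerSys.tot w ω = ∑' x, φ ω * w ω x := by
    intro ω
    rw [KerSys.tot, ← ENNReal.tsum_mul_left]
  have hJ0 : ∀ x ∈ A.L b, Measurable fun ω => J ω x :=
    fun x hx => (hJ.measH x hx).mono (A.H_le b) le_rfl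
  simp_rw [h1, h2]
  rw [lintegral_tsum, lintegral_tsum, ← ENNReal.tsum_mul_left]
  · refine tsum_congr fun x => ?_
    by_cases hx : x ∈ A.L b
    · have hm1 : Measurable[A.F b] fun ω => φ ω * w ω x := hφ.mul (hw.meas x)
      have e : ∀ ω, φ ω * (w ω x * J ω x) = (φ ω * w ω x) * J ω x := fun ω => by ring
      simp_rw [e]
      rw [A.indep_mul hm1 (hJ.measH x hx), hJ.first x hx, mul_comm]
    · simp [hw.supp _ x hx]
  · intro x
    exact (hφ0.mul ((hw.meas x).mono (A.F.le b) le_rfl)).aemeasurable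
  · intro x
    exact (hφ0.mul (meas_term hw (A.F.le b) hJ0 x)).aemeasurable

lemma xm_second {b c : ℕ} {J : Ω → S → ℝ≥0∞} {π : ℝ≥0∞} (hJ : Marked A b c J π)
    {w : Ω → S → ℝ≥0∞} (hw : A.Wt b w) {φ : Ω → ℝ≥0∞} (hφ : Measurable[A.F b] φ) :
    ∫⁻ ω, φ ω * Xm w J ω ^ 2 ∂P
      ≤ π ^ 2 * ∫⁻ ω, φ ω * KerSys.tot w ω ^ 2 ∂P + ∫⁻ ω, φ ω * A.energy b c w ω ∂P := by
  have hφ0 : Measurable φ := hφ.mono (A.F.le b) le_rfl
  have hw0 : ∀ x, Measurable fun ω => w ω x := fun x => (hw.meas x).mono (A.F.le b) le_rfl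
  have hJ0 : ∀ x ∈ A.L b, Measurable fun ω => J ω x :=
    fun x hx => (hJ.measH x hx).mono (A.H_le b) le_rfl
  have hwJ : ∀ x, Measurable fun ω => w ω x * J ω x :=
    fun x => meas_term hw (A.F.le b) hJ0 x
  have h1 : ∀ ω, φ ω * Xm w J ω ^ 2
      = ∑' x, ∑' x', φ ω * ((w ω x * J ω x) * (w ω x' * J ω x')) := by
    intro ω
    rw [Xm, sq, ← ENNReal.tsum_mul_right, ← ENNReal.tsum_mul_left]
    refine tsum_congr fun x => ?_
    rw [← ENNReal.tsum_mul_left, ← ENNReal.tsum_mul_left]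
  have h2 : ∀ ω, φ ω * KerSys.tot w ω ^ 2 = ∑' x, ∑' x', (φ ω * w ω x * w ω x') := by
    intro ω
    rw [KerSys.tot, sq, ← ENNReal.tsum_mul_right, ← ENNReal.tsum_mul_left]
    refine tsum_congr fun x => ?_
    rw [← ENNReal.tsum_mul_left, ← ENNReal.tsum_mul_left]
    exact tsum_congr fun x' => by ring
  have h3 : ∀ ω, φ ω * A.energy b c w ω
      = ∑' x, ∑' x', (φ ω * w ω x * w ω x') * A.K b c x x' := by
    intro ω
    rw [KerSys.energy, ← ENNReal.tsum_mul_left]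
    refine tsum_congr fun x => ?_
    rw [← ENNReal.tsum_mul_left]
    exact tsum_congr fun x' => by ring
  have hm2 : ∀ x x', Measurable fun ω => φ ω * w ω x * w ω x' :=
    fun x x' => (hφ0.mul (hw0 x)).mul (hw0 x')
  have hm3 : ∀ x x', Measurable fun ω =>
      φ ω * ((w ω x * J ω x) * (w ω x' * J ω x')) :=
    fun x x' => hφ0.mul ((hwJ x).mul (hwJ x'))
  have hm4 : ∀ x x', Measurable fun ω => (φ ω * w ω x * w ω x') * A.K b c x x' :=
    fun x x' => (hm2 x x').mul_const _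
  have hF2 : ∀ x x', Measurable[A.F b] fun ω => φ ω * w ω x * w ω x' :=
    fun x x' => (hφ.mul (hw.meas x)).mul (hw.meas x')
  simp_rw [h1, h2, h3]
  rw [lintegral_tsum (fun x => (Measurable.tsum fun x' => hm3 x x').aemeasurable),
    lintegral_tsum (fun x => (Measurable.tsum fun x' => hm2 x x').aemeasurable),
    lintegral_tsum (fun x => (Measurable.tsum fun x' => hm4 x x').aemeasurable),
    ← ENNReal.tsum_mul_left, ← ENNReal.tsum_add]
  refine ENNReal.tsum_le_tsum fun x => ?_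
  rw [lintegral_tsum (fun x' => (hm3 x x').aemeasurable),
    lintegral_tsum (fun x' => (hm2 x x').aemeasurable),
    lintegral_tsum (fun x' => (hm4 x x').aemeasurable),
    ← ENNReal.tsum_mul_left, ← ENNReal.tsum_add]
  refine ENNReal.tsum_le_tsum fun x' => ?_
  by_cases hx : x ∈ A.L b
  · by_cases hx' : x' ∈ A.L b
    · have e : ∀ ω, φ ω * ((w ω x * J ω x) * (w ω x' * J ω x'))
          = (φ ω * w ω x * w ω x') * (J ω x * J ω x') := fun ω => by ring
      simp_rw [e]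
      have hJJ : Measurable[A.H b] fun ω => J ω x * J ω x' :=
        (hJ.measH x hx).mul (hJ.measH x' hx')
      rw [A.indep_mul (hF2 x x') hJJ, lintegral_mul_const _ (hm2 x x')]
      calc (∫⁻ ω, φ ω * w ω x * w ω x' ∂P) * ∫⁻ ω, J ω x * J ω x' ∂P
          ≤ (∫⁻ ω, φ ω * w ω x * w ω x' ∂P) * (π ^ 2 + A.K b c x x') := by
            gcongr
            exact hJ.second x hx x' hx'
        _ = _ := by ring
    · simp [hw.supp _ x' hx']
  · simp [hw.supp _ x hx]

/-- variance (lower deviations) of the marked mass -/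
lemma xm_variance [IsProbabilityMeasure P] {a b c : ℕ} (hab : a ≤ b) (hbc : b ≤ c)
    {J : Ω → S → ℝ≥0∞} {π : ℝ≥0∞} (hJ : Marked A b c J π) {w : Ω → S → ℝ≥0∞} (hw : A.Wt a w)
    (hw1 : ∀ ω, KerSys.tot w ω ≤ 1)
    {φ : Ω → ℝ≥0∞} (hφ : Measurable[A.F a] φ) (hφ1 : ∀ ω, φ ω ≤ 1) {ε : ℝ≥0∞}
    (hε : ∀ x ∈ A.L a, ∀ x' ∈ A.L a,
      ∑' z, ∑' z', (∫⁻ ω, A.G a b ω x z * A.G a b ω x' z' ∂P) * A.K b c z z' ≤ ε)
    (hπ : π ≠ ∞) :
    ∫⁻ ω, φ ω * (π * KerSys.tot (A.push a b w) ω - Xm (A.push a b w) J ω) ^ 2 ∂P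
      ≤ ε * ∫⁻ ω, φ ω ∂P := by
  set ρ := A.push a b w with hρ
  have hρW : A.Wt b ρ := hw.push hab
  set s : Ω → ℝ≥0∞ := KerSys.tot ρ with hs
  set m : Ω → ℝ≥0∞ := Xm ρ J with hm
  have hsm : Measurable[A.F b] s := hρW.meas_tot
  have hJ0 : ∀ x ∈ A.L b, Measurable fun ω => J ω x :=
    fun x hx => (hJ.measH x hx).mono (A.H_le b) le_rfl
  have hm0' : Measurable m := meas_Xm hρW (A.F.le b) hJ0
  have hs1 : ∀ ω, s ω ≤ 1 := fun ω => (A.tot_push_le hab w ω).trans (hw1 ω)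
  have hm1 : ∀ ω, m ω ≤ 1 := fun ω => (Xm_le_tot hJ.le_one ω).trans (hs1 ω)
  have hφb : Measurable[A.F b] φ := hφ.mono (A.F.mono hab) le_rfl
  have hφ0 : Measurable φ := hφ.mono (A.F.le a) le_rfl
  have hs0 : Measurable s := hsm.mono (A.F.le b) le_rfl
  have hA1 : Measurable fun ω => φ ω * s ω * m ω := (hφ0.mul hs0).mul hm0'
  have hA2 : Measurable fun ω => 2 * π * (φ ω * s ω * m ω) := hA1.const_mul _
  have hA3 : Measurable fun ω => φ ω * m ω ^ 2 := hφ0.mul (hm0'.pow_const 2)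
  have hA4 : Measurable fun ω => φ ω * s ω ^ 2 := hφ0.mul (hs0.pow_const 2)
  have e1 : ∫⁻ ω, (φ ω * s ω) * m ω ∂P = π * ∫⁻ ω, (φ ω * s ω) * s ω ∂P :=
    xm_first hJ hρW (hφb.mul hsm)
  have e2 := xm_second hJ hρW hφb
  have e3 : ∫⁻ ω, φ ω * A.energy b c ρ ω ∂P ≤ ε * ∫⁻ ω, φ ω * KerSys.tot w ω ^ 2 ∂P :=
    KerSys.energy_push hab hw hφ hε
  have e4 : ∫⁻ ω, φ ω * KerSys.tot w ω ^ 2 ∂P ≤ ∫⁻ ω, φ ω ∂P := by
    refine lintegral_mono fun ω => ?_
    calc φ ω * KerSys.tot w ω ^ 2 ≤ φ ω * 1 ^ 2 := by gcongr; exact hw1 ω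
      _ = φ ω := by simp
  have hfin : ∫⁻ ω, φ ω * s ω ^ 2 ∂P ≠ ∞ := by
    refine ne_top_of_le_ne_top ENNReal.one_ne_top ?_
    calc ∫⁻ ω, φ ω * s ω ^ 2 ∂P ≤ ∫⁻ _, 1 ∂P := by
          refine lintegral_mono fun ω => ?_
          calc φ ω * s ω ^ 2 ≤ 1 * 1 ^ 2 := by gcongr; exact hφ1 ω; exact hs1 ω
            _ = 1 := by simp
      _ = 1 := by simp
  have key : 2 * (π ^ 2 * ∫⁻ ω, φ ω * s ω ^ 2 ∂P) + ∫⁻ ω, φ ω * (π * s ω - m ω) ^ 2 ∂P
      ≤ 2 * (π ^ 2 * ∫⁻ ω, φ ω * s ω ^ 2 ∂P) + ε * ∫⁻ ω, φ ω ∂P := by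
    calc 2 * (π ^ 2 * ∫⁻ ω, φ ω * s ω ^ 2 ∂P) + ∫⁻ ω, φ ω * (π * s ω - m ω) ^ 2 ∂P
        = ∫⁻ ω, (2 * π * ((φ ω * s ω) * m ω) + φ ω * (π * s ω - m ω) ^ 2) ∂P := by
          rw [lintegral_add_left hA2, lintegral_const_mul _ hA1, e1]
          congr 1
          have : ∀ ω, φ ω * s ω * s ω = φ ω * s ω ^ 2 := fun ω => by ring
          simp_rw [this]
          ring
      _ ≤ ∫⁻ ω, (φ ω * m ω ^ 2 + π ^ 2 * (φ ω * s ω ^ 2)) ∂P := by
          refine lintegral_mono fun ω => ?_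
          have h1 := KerSys.two_mul_add_sq_le (a := m ω) (b := π * s ω)
            (ne_top_of_le_ne_top ENNReal.one_ne_top (hm1 ω))
            (ENNReal.mul_ne_top hπ (ne_top_of_le_ne_top ENNReal.one_ne_top (hs1 ω)))
          calc 2 * π * (φ ω * s ω * m ω) + φ ω * (π * s ω - m ω) ^ 2
              = φ ω * (2 * (m ω * (π * s ω)) + (π * s ω - m ω) ^ 2) := by ring
            _ ≤ φ ω * (m ω ^ 2 + (π * s ω) ^ 2) := by gcongr
            _ = _ := by ring
      _ = ∫⁻ ω, φ ω * m ω ^ 2 ∂P + π ^ 2 * ∫⁻ ω, φ ω * s ω ^ 2 ∂P := by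
          rw [lintegral_add_left hA3, lintegral_const_mul _ hA4]
      _ ≤ (π ^ 2 * ∫⁻ ω, φ ω * s ω ^ 2 ∂P + ε * ∫⁻ ω, φ ω ∂P)
          + π ^ 2 * ∫⁻ ω, φ ω * s ω ^ 2 ∂P := by
          gcongr
          refine e2.trans ?_
          gcongr
          exact e3.trans (by gcongr)
      _ = _ := by ring
  refine (ENNReal.add_le_add_iff_left ?_).1 key
  exact ENNReal.mul_ne_top (by simp) (ENNReal.mul_ne_top (ENNReal.pow_ne_top hπ) hfin)

/-- **robust jump**: off (conditional) probability `4 ε / (π t)²`, a mass `≥ t` of the law pushed to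
level `b` makes a marked climb from `b` to `c` with mass `≥ π t / 2`. -/
lemma jump [IsProbabilityMeasure P] {a b c : ℕ} (hab : a ≤ b) (hbc : b ≤ c)
    {J : Ω → S → ℝ≥0∞} {π : ℝ≥0∞} (hJ : Marked A b c J π) {w : Ω → S → ℝ≥0∞} (hw : A.Wt a w)
    (hw1 : ∀ ω, KerSys.tot w ω ≤ 1) {ε : ℝ≥0∞}
    (hε : ∀ x ∈ A.L a, ∀ x' ∈ A.L a,
      ∑' z, ∑' z', (∫⁻ ω, A.G a b ω x z * A.G a b ω x' z' ∂P) * A.K b c z z' ≤ ε)
    (hπ0 : π ≠ 0) (hπ : π ≠ ∞) {t : ℝ≥0∞} (ht0 : t ≠ 0) (ht : t ≠ ∞)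
    {B : Set Ω} (hB : MeasurableSet[A.F a] B) :
    P (B ∩ {ω | t ≤ KerSys.tot (A.push a b w) ω ∧ Xm (A.push a b w) J ω < π * t / 2})
      ≤ 4 * ε / (π * t) ^ 2 * P B := by
  have hB0 : MeasurableSet B := A.F.le a _ hB
  have hφ : Measurable[A.F a] (B.indicator (1 : Ω → ℝ≥0∞)) :=
    (@measurable_one _ _ _ (A.F a) _).indicator hB
  have hv := xm_variance hab hbc hJ hw hw1 hφ (fun ω => by
    by_cases h : ω ∈ B <;> simp [h]) hε hπ
  set s : Ω → ℝ≥0∞ := KerSys.tot (A.push a b w) with hs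
  set m : Ω → ℝ≥0∞ := Xm (A.push a b w) J with hm
  have hsm : Measurable s := ((hw.push hab).meas_tot).mono (A.F.le b) le_rfl
  have hJ0 : ∀ x ∈ A.L b, Measurable fun ω => J ω x :=
    fun x hx => (hJ.measH x hx).mono (A.H_le b) le_rfl
  have hmm : Measurable m := meas_Xm (hw.push hab) (A.F.le b) hJ0
  set E : Set Ω := {ω | t ≤ s ω ∧ m ω < π * t / 2} with hE
  have hEm : MeasurableSet E :=
    (measurableSet_le measurable_const hsm).inter (measurableSet_lt hmm measurable_const)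
  rw [lintegral_indicator_one hB0] at hv
  set q : ℝ≥0∞ := π * t with hq
  have hq0 : q ≠ 0 := mul_ne_zero hπ0 ht0
  have hqt : q ≠ ∞ := ENNReal.mul_ne_top hπ ht
  have l1 : (q / 2) ^ 2 * P (B ∩ E) ≤ ε * P B := by
    refine le_trans ?_ hv
    rw [← lintegral_indicator_one (hB0.inter hEm),
      ← lintegral_const_mul _ (measurable_one.indicator (hB0.inter hEm))]
    refine lintegral_mono fun ω => ?_
    by_cases h1 : ω ∈ B ∩ E
    · rw [indicator_of_mem h1, indicator_of_mem h1.1]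
      simp only [Pi.one_apply, one_mul, mul_one]
      have h2 : t ≤ s ω := h1.2.1
      have h3 : m ω < q / 2 := h1.2.2
      have h4 : q / 2 + m ω ≤ π * s ω := by
        calc q / 2 + m ω ≤ q / 2 + q / 2 := by gcongr
          _ = q := ENNReal.add_halves q
          _ ≤ π * s ω := by rw [hq]; gcongr
      have h5 : q / 2 ≤ π * s ω - m ω :=
        ENNReal.le_sub_of_add_le_right (ne_top_of_lt h3) h4
      gcongr
    · rw [indicator_of_notMem h1]
      simp
  have hq2 : q ^ 2 ≠ 0 := pow_ne_zero _ hq0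
  have hq2t : q ^ 2 ≠ ∞ := ENNReal.pow_ne_top hqt
  have h16 : 4 * (q / 2) ^ 2 = q ^ 2 := by
    have h2 : 2 * (q / 2) = q := ENNReal.mul_div_cancel (by norm_num) (by norm_num)
    calc 4 * (q / 2) ^ 2 = (2 * (q / 2)) ^ 2 := by ring
      _ = q ^ 2 := by rw [h2]
  calc P (B ∩ E) = (q ^ 2)⁻¹ * (q ^ 2 * P (B ∩ E)) := by
        rw [← mul_assoc, ENNReal.inv_mul_cancel hq2 hq2t, one_mul]
    _ = (q ^ 2)⁻¹ * (4 * ((q / 2) ^ 2 * P (B ∩ E))) := by
        rw [← h16]; ring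
    _ ≤ (q ^ 2)⁻¹ * (4 * (ε * P B)) := by gcongr
    _ = 4 * ε / q ^ 2 * P B := by
        rw [ENNReal.div_eq_inv_mul]; ring

end jump

/-! ### the marked climbs of the kernel system `kS` -/

section inst

variable (u : Step d) (R : ℕ) (κ : ℝ) (Q : Measure (Environment d)) [IsProbabilityMeasure Q]

theorem marked_kS (hstat : ∀ z : Site d, MeasurePreserving (shiftEnv z) Q Q)
    (hR : IsFiniteRangeDependent Q R) (D : Set (Site d)) {b c : ℕ} (hbc : b ≤ c) :
    Marked (kS u R κ Q hstat hR) b c (fun ω x => Nd u R κ D c ω x) (hD u R κ Q D (c - b)) where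
  measH x hx := meas_Nd_H u R κ D c hx
  measF x _ := meas_Nd_F u R κ D c x
  le_one ω x := Nd_le_one u R κ D c ω x
  first x hx := first_mark u R κ Q hstat D hbc hx
  second x hx x' hx' := by
    rw [sq]
    exact second_mark u R κ Q hstat hR D D b c x x' hbc hx hx'

/-- the marked kernel is the natural kernel restricted to the marked displacements -/
lemma Nd_kS (hstat : ∀ z : Site d, MeasurePreserving (shiftEnv z) Q Q)
    (hR : IsFiniteRangeDependent Q R) (D : Set (Site d)) {b c : ℕ} (ω : Environment d)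
    {x : Site d} (hx : lev u x = b) :
    Nd u R κ D c ω x = open Classical in
      ∑' y, if y - x ∈ D then (kS u R κ Q hstat hR).G b c ω x y else 0 := by
  classical
  unfold Nd
  refine tsum_congr fun y => ?_
  simp only [kS, kerSys, hx, if_true]

/-- **robust jump on `kS`**, from the late contact hypothesis: off (conditional) probability
`4 ε / (π t)²`, `π` = annealed probability of the marked climb. -/
theorem jump_kS (hstat : ∀ z : Site d, MeasurePreserving (shiftEnv z) Q Q)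
    (hR : IsFiniteRangeDependent Q R) {n0 : ℕ → ℝ≥0∞ → ℕ} (hL : LateHyp u R κ Q n0)
    (D : Set (Site d)) {r : ℕ} {ε : ℝ≥0∞} (hε0 : ε ≠ 0) {n : ℕ} (hn : n0 r ε ≤ n)
    {a c : ℕ} (hac : a + n ≤ c) (hc : c ≤ a + r * n)
    (hπ0 : hD u R κ Q D (c - (a + n)) ≠ 0) {t : ℝ≥0∞} (ht0 : t ≠ 0) (ht : t ≠ ∞)
    {w : Environment d → Site d → ℝ≥0∞} (hw : (kS u R κ Q hstat hR).Wt a w)
    (hw1 : ∀ ω, KerSys.tot w ω ≤ 1)
    {B : Set (Environment d)} (hB : MeasurableSet[(kS u R κ Q hstat hR).F a] B) :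
    Q (B ∩ {ω | t ≤ KerSys.tot ((kS u R κ Q hstat hR).push a (a + n) w) ω ∧
        Xm ((kS u R κ Q hstat hR).push a (a + n) w) (fun ω x => Nd u R κ D c ω x) ω
          < hD u R κ Q D (c - (a + n)) * t / 2})
      ≤ 4 * ε / (hD u R κ Q D (c - (a + n)) * t) ^ 2 * Q B :=
  jump (Nat.le_add_right a n) hac (marked_kS u R κ Q hstat hR D hac) hw hw1
    (smallEnergy u R κ Q hstat hR hL r ε hε0 n hn a c hac hc) hπ0
    (ne_top_of_le_ne_top ENNReal.one_ne_top (hD_le_one u R κ Q D _)) ht0 ht hB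

end inst

end Crest.Agent.R154.JumpK618
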