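import Crest.Agent.R154.RatioD_872
import Crest.Agent.R154.CompW_263

/-! Row 154, B8: hypothesis `hR` of `CompW.chain` from its hypothesis `hW`, for the natural climbs of
a kernel system (`step_R`). -/

set_option autoImplicit false
set_option linter.unusedSectionVars false
set_option linter.deprecated false

namespace Crest.Agent.R154.RatioR872

open MeasureTheory ProbabilityTheory Set Filter Finset
open scoped ENNReal

namespace KerSys

variable {S : Type*} [Countable S] {Ω : Type*} {m0 : MeasurableSpace Ω} {P : Measure Ω}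

/-- filtration at the heights `10^i` -/
def F10 (A : KerSys S P) : Filtration ℕ m0 where
  seq i := A.F (10 ^ i)
  mono' i j hij := A.F.mono (Nat.pow_le_pow_right (by norm_num) hij)
  le' i := A.F.le _

/-- **`hW` ⇒ `hR`** for `CompW.chain`. -/
theorem hR_of_hW [IsProbabilityMeasure P] (A : KerSys S P) {p : ℝ≥0∞} (hp0 : p ≠ 0)
    (hpt : p ≠ ∞) (hp : ∀ n, p ≤ A.h n) (hh : ∀ n, A.h n ≤ 1)
    (hpos : ∀ μ, A.Start μ → ∀ h, ∀ᵐ ω ∂P, A.Sh μ h ω ≠ 0)
    {n0 : ℕ → ℝ≥0∞ → ℕ} (hSE : A.SmallEnergy n0)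
    (μ : ℕ → S → ℝ≥0∞) (hμ : ∀ n, A.Start (μ n)) (a : ℕ → ℕ → Ω → ℝ)
    (ha : ∀ n i, ∀ᵐ ω ∂P, a n i ω = - Real.log (A.Sh (μ n) (10 ^ i) ω).toReal)
    (hW : ∀ lam ε' : ℝ, 0 < lam → 0 < ε' → ∃ u0 c : ℝ, 0 < c ∧ ∃ w : ℕ → ℝ, (∀ i, 0 ≤ w i) ∧
      (∀ J : ℕ, ∑ i ∈ range J, w i ≤ ε' * J + u0) ∧ ∀ n, CompW.WH P A.F10 (a n) lam u0 c w) :
    ∀ ε b ε' : ℝ, 0 < ε → 0 < b → 0 < ε' → ∃ k0 : ℕ, ∀ k, k0 ≤ k → ∃ i1 : ℕ,
      ∃ w : ℕ → ℝ, (∀ i, 0 ≤ w i) ∧ (∀ J : ℕ, ∑ i ∈ range J, w i ≤ ε' * J + i1) ∧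
        ∀ n, CompW.RH P A.F10 (a n) ε b k i1 w := by
  intro ε b ε' hε hb hε'
  obtain ⟨u0, c, hc, w, hw0, hwS, hWn⟩ := hW (2 * (b + 1) / ε) ε' (by positivity) hε'
  obtain ⟨K, hK⟩ := exists_nat_gt (max (max u0 (lc p)) 1 * 2 / ε + 1)
  refine ⟨K, fun k hk => ?_⟩
  have hkR : max (max u0 (lc p)) 1 * 2 / ε + 1 < k := hK.trans_le (by exact_mod_cast hk)
  have hk1' : (1:ℝ) < k := by
    have : 0 ≤ max (max u0 (lc p)) 1 * 2 / ε :=
      div_nonneg (mul_nonneg (le_trans zero_le_one (le_max_right _ _)) (by norm_num)) hε.le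
    linarith
  have hk1 : 1 ≤ k := by exact_mod_cast hk1'.le
  have hkε : max (max u0 (lc p)) 1 < ε * k / 2 := by
    have h1 : max (max u0 (lc p)) 1 * 2 / ε < k := by linarith
    rw [div_lt_iff₀ hε] at h1
    linarith
  have hu : u0 ≤ ε * k / 2 := ((le_max_left _ _).trans (le_max_left _ _)).trans hkε.le
  have hl : lc p < ε * k / 2 :=
    lt_of_le_of_lt ((le_max_right _ _).trans (le_max_left _ _)) hkε
  obtain ⟨i1, hi1⟩ := step_R p hp0 hpt n0 (ENNReal.ofReal (Real.exp (-((b + 1) * k))))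
    (by simp [Real.exp_pos]) k hk1
  -- eventually `ε k / 2 + w i ≤ c 10^i`
  have hw : ∀ i, w i ≤ ε' * (i + 1) + u0 := by
    intro i
    have h1 := hwS (i + 1)
    rw [sum_range_succ] at h1
    have h2 : 0 ≤ ∑ j ∈ range i, w j := sum_nonneg fun j _ => hw0 j
    push_cast at h1
    linarith
  have hlim : ∀ᶠ i : ℕ in atTop, ε * k / 2 + (ε' * (i + 1) + u0) ≤ c * 10 ^ i := by
    have h1 : Tendsto (fun i : ℕ => (i : ℝ) ^ 1 / (10:ℝ) ^ i) atTop (nhds 0) :=
      tendsto_pow_const_div_const_pow_of_one_lt 1 (by norm_num)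
    have h2 : Tendsto (fun i : ℕ => 1 / (10:ℝ) ^ i) atTop (nhds 0) := by
      have := tendsto_pow_const_div_const_pow_of_one_lt (r := (10:ℝ)) 0 (by norm_num)
      simpa using this
    have h3 : Tendsto (fun i : ℕ => ε' * ((i : ℝ) ^ 1 / (10:ℝ) ^ i)
        + (ε * k / 2 + ε' + u0) * (1 / (10:ℝ) ^ i)) atTop (nhds (ε' * 0
          + (ε * k / 2 + ε' + u0) * 0)) := (h1.const_mul _).add (h2.const_mul _)
    rw [mul_zero, mul_zero, add_zero] at h3
    filter_upwards [(tendsto_order.1 h3).2 c hc] with i hi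
    have h10 : (0:ℝ) < 10 ^ i := by positivity
    have h4 : ε' * ((i : ℝ) ^ 1 / (10:ℝ) ^ i) + (ε * k / 2 + ε' + u0) * (1 / (10:ℝ) ^ i)
        = (ε * k / 2 + (ε' * (i + 1) + u0)) / 10 ^ i := by
      field_simp
      ring
    rw [h4, div_lt_iff₀ h10] at hi
    exact hi.le
  obtain ⟨i2, hi2⟩ := eventually_atTop.1 hlim
  obtain ⟨i3, hi3⟩ := exists_nat_ge u0
  refine ⟨max (max i1 i2) i3, w, hw0, fun J => ?_, fun n => ?_⟩
  · refine (hwS J).trans ?_
    have : (i3 : ℝ) ≤ (max (max i1 i2) i3 : ℕ) := by exact_mod_cast le_max_right _ _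
    linarith
  · intro i hi B hB
    have g1 : i1 ≤ i := ((le_max_left _ _).trans (le_max_left _ _)).trans hi
    have g2 : i2 ≤ i := ((le_max_right _ _).trans (le_max_left _ _)).trans hi
    have hBF : MeasurableSet[A.F (10 ^ i)] B := hB
    have h1 := hi1 A hp hh hpos hSE (μ n) (hμ n) (a n) (ha n) i g1 (ε * k / 2 + w i) (ε * k / 2) hl
      B hBF
    have h2 := hWn n i (ε * k / 2) hu ((by have := hw i; linarith :
      ε * k / 2 + w i ≤ ε * k / 2 + (ε' * (i + 1) + u0)).trans (hi2 i g2)) B hB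
    have e1 : 2 * (b + 1) / ε * (ε * k / 2) = (b + 1) * k := by field_simp
    rw [e1] at h2
    have e2 : ε * k / 2 + w i + ε * k / 2 = ε * k + w i := by ring
    rw [e2] at h1
    calc P (B ∩ {ω | ε * k + w i ≤ a n (i + 1 + k) ω - a n (i + 1) ω})
        ≤ P (B ∩ {ω | ε * k / 2 + w i ≤ a n (i + 2) ω - a n (i + 1) ω})
          + ENNReal.ofReal (Real.exp (-((b + 1) * k))) * P B := h1
      _ ≤ ENNReal.ofReal (Real.exp (-((b + 1) * k))) * P B
          + ENNReal.ofReal (Real.exp (-((b + 1) * k))) * P B := by gcongr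
      _ = ENNReal.ofReal (2 * Real.exp (-((b + 1) * k))) * P B := by
          rw [← add_mul, ← ENNReal.ofReal_add (Real.exp_pos _).le (Real.exp_pos _).le, two_mul]
      _ ≤ ENNReal.ofReal (Real.exp (-(b * k))) * P B := by
          gcongr
          have h6 : Real.exp (-((b + 1) * k)) = Real.exp (-(b * k)) * Real.exp (-(k:ℝ)) := by
            rw [← Real.exp_add]; congr 1; ring
          have h7 : Real.exp (-(k:ℝ)) ≤ 1 / 2 := by
            have h8 : (2:ℝ) ≤ Real.exp k := by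
              have := Real.add_one_le_exp (k:ℝ)
              linarith
            rw [Real.exp_neg, one_div]
            exact inv_anti₀ (by norm_num) h8
          rw [h6]
          have := Real.exp_pos (-(b * k))
          nlinarith

end KerSys

end Crest.Agent.R154.RatioR872
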