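import Crest.Agent.R154.KerPair_872
import Crest.Agent.R154.RHbind_872
import Crest.Agent.R154.B6Same_872
import Crest.Agent.R154.B6Sys_833

/-! Row 154, B8, step (R): the late contact hypothesis `LateHyp` of `KerPair_872` from the
hypotheses of B6 (`B6_833.PairSys.Hyp`) for the pair of marked walkers. -/

set_option autoImplicit false
set_option linter.unusedSectionVars false
set_option linter.deprecated false

open MeasureTheory ProbabilityTheory Filter Set
open scoped ENNReal Topology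

namespace Crest.Agent.R154.RatioR872

open Crest.ProbabilityR.RandomEnvironment Crest.Agent.R154.Q561 Crest.Agent.R154.Ren263
open Crest.Agent.R154.Mk561
open Crest.Agent.R154.B6I
open Crest.Agent.R154.Flux132 (lev)

variable {d : ℕ} (u : Step d) (R : ℕ) (κ : ℝ) (Q : Measure (Environment d)) [IsProbabilityMeasure Q]

/-- **`LateHyp` from the hypotheses of B6** -/
theorem lateHyp_of_hyp {a : ℕ} {c₁ cₑ p : ℝ} {β h : ℕ → ℝ} {Far : ℕ → Set (SP u)}
    {χ : ℕ → SP u → ℝ} (H : (B6I.sys u R κ Q).Hyp a c₁ cₑ β h p Far χ) :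
    ∃ n0 : ℕ → ℝ≥0∞ → ℕ, LateHyp u R κ Q n0 := by
  have key : ∀ r : ℕ, ∀ ε : ℝ≥0∞, ∃ n0 : ℕ, ε ≠ 0 → ∀ n, n0 ≤ n → ∀ m, n + m ≤ r * n → ∀ s : SP u,
      PSm κ Q s.1.1 s.1.2 (bc u R n (n + m) s) ≤ ε := by
    intro r ε
    by_cases hε : ε = 0
    · exact ⟨0, fun h => absurd hε h⟩
    by_cases hεt : ε = ∞
    · exact ⟨0, fun _ n _ m _ s => hεt ▸ le_top⟩
    have hε' : 0 < ε.toReal := ENNReal.toReal_pos hε hεt
    obtain ⟨n₀, hn₀⟩ := B6_833.PairSys.lateG_lim H r ε.toReal hε'
    refine ⟨n₀, fun _ n hn m hm s => ?_⟩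
    have h1 : n + m ≤ 2 ^ r * n := hm.trans (Nat.mul_le_mul_right _ Nat.lt_two_pow_self.le)
    have h2 := hn₀ n hn m h1 s
    have h3 : bc u R n (n + m) s
        ⊆ {p : PP d | ((s, p) : Om u) ∈ (B6I.sys u R κ Q).LateG n (n + m)} := by
      rintro p ⟨hp1, hp2⟩
      refine ⟨hp1, ?_⟩
      rw [← B6I.noC_iff (by omega : n ≤ n + m)] at hp2
      push Not at hp2
      exact hp2
    have hm' : MeasurableSet ((B6I.sys u R κ Q).LateG n (n + m)) := by
      refine ((B6I.sys u R κ Q).F_le _ _ ((B6I.sys u R κ Q).N_meas 0 (n + m)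
        (Nat.zero_le _))).inter ?_
      exact set_of_mp (Measurable.exists fun l => Measurable.and measurable_const
        (Measurable.and measurable_const (mp_cs R l)))
    rw [Measure.real, B6I.P_apply s hm'] at h2
    refine (measure_mono h3).trans ?_
    exact (ENNReal.toReal_le_toReal (measure_ne_top _ _) hεt).1 h2
  choose n0 hn0 using key
  exact ⟨n0, fun r ε hε n hn m hm s => hn0 r ε hε n hn m hm s⟩

end Crest.Agent.R154.RatioR872
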