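import Crest.Agent.R154.B6End_424
import Crest.Agent.R154.LateBind_872

/-! Row 154 (helper424): late contacts and small energies with no open input, `d ≥ 3`. -/

set_option autoImplicit false
set_option linter.unusedVariables false

open MeasureTheory ProbabilityTheory Filter Set
open scoped ENNReal Topology

namespace Crest.Agent.R154.KB424

open Crest.ProbabilityR.RandomEnvironment Crest.Agent.R154.Mk561
open Crest.Agent.R154.B6I Crest.Agent.R154.RatioR872

variable {d : ℕ} {Q : Measure (Environment d)} [IsProbabilityMeasure Q] {κ : ℝ} {R : ℕ}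
  {u : Step d}

/-- **the packet `Hyp` of 833 with no open input.** -/
theorem hypB6 (F : Bind263.Frame Q κ R) (hd : 3 ≤ d)
    (hA : annealedProb Q 0 (escapeEvent (B2d.dirVec u)) ≠ 0) (hc : Half κ Q) :
    ∃ c₁ cₑ : ℝ, (sys u R κ Q).Hyp (R+1) c₁ cₑ (fun m => 2 * (hh u R κ Q m - pp u R κ Q))
      (hh u R κ Q) (pp u R κ Q) (Far u) (chi R κ Q) :=
  B6I.hyp F.stat F.fin (moves_of_two_le F (by omega) u) (B6P816.pp_pos F u hA) (kb F hd hA hc)

/-- **late contacts**, no open input. -/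
theorem lateHyp (F : Bind263.Frame Q κ R) (hd : 3 ≤ d)
    (hA : annealedProb Q 0 (escapeEvent (B2d.dirVec u)) ≠ 0) (hc : Half κ Q) :
    ∃ n0 : ℕ → ℝ≥0∞ → ℕ, LateHyp u R κ Q n0 := by
  obtain ⟨c₁, cₑ, H⟩ := hypB6 F hd hA hc
  exact lateHyp_of_hyp u R κ Q H

/-- **small energies** of the kernel system of 872, no open input. -/
theorem smallE (F : Bind263.Frame Q κ R) (hd : 3 ≤ d)
    (hA : annealedProb Q 0 (escapeEvent (B2d.dirVec u)) ≠ 0) (hc : Half κ Q) :
    ∃ n0 : ℕ → ℝ≥0∞ → ℕ, (kS u R κ Q F.stat F.fin).SmallEnergy n0 := by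
  obtain ⟨n0, h⟩ := lateHyp F hd hA hc
  exact ⟨n0, smallEnergy u R κ Q F.stat F.fin h⟩

end Crest.Agent.R154.KB424
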