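import Crest.Agent.R154.JumpA_872
import Crest.Agent.R154.HomeDoc_74
import Crest.Agent.R154.JumpK_618
import Crest.Agent.R154.RateT_582
import Crest.Agent.R154.SE_424

/-!
Row 154, `d ≥ 3`, `κ > 0` (helper872), route 263 #36390: **HM4 = `Doc74.JUMP (kT ..)`, no open
input.**
-/

set_option autoImplicit false
set_option linter.unusedSectionVars false
set_option linter.deprecated false
set_option linter.unusedVariables false

namespace Crest.Agent.R154.Jump872

open MeasureTheory ProbabilityTheory Set Filter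
open Crest.Agent.R154.RatioR872 Crest.Agent.R154.RatioR872.KerSys
open Crest.Agent.R154.Home903 Crest.Agent.R154.Rate582 Crest.Agent.R154.Doc74
open scoped ENNReal Classical

section abs

variable {S : Type*} [Countable S] {Ω : Type*} {m0 : MeasurableSpace Ω} {P : Measure Ω}

/-- **JUMP, abstract**: from a lower bound of the annealed masses, the exponential rate of the
quenched masses and the late pair energies. -/
theorem jUMP_of [IsProbabilityMeasure P] (A : KerSys S P)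
    {p : ℝ≥0∞} (hp0 : p ≠ 0) (hp1 : p ≠ ∞) (hp : ∀ n, p ≤ A.h n)
    {lam0 C : ℝ} (hlam : 0 < lam0) (hC : 1 ≤ C)
    (hrate : ∀ (n : ℕ) (x : ℝ), 0 ≤ x →
      TL A n (ENNReal.ofReal (Real.exp (-x))) (ENNReal.ofReal (C * Real.exp (-lam0 * x))))
    (Kf : ℕ → ℕ → S → S → ℝ≥0∞)
    (hK : ∀ (b c : ℕ), b ≤ c → ∀ (D : S → S → Prop), ∀ x ∈ A.L b, ∀ x' ∈ A.L b,
      ∫⁻ ω, mk A D b c x ω * mk A D b c x' ω ∂P
        ≤ (∫⁻ ω, mk A D b c x ω ∂P) * (∫⁻ ω, mk A D b c x' ω ∂P) + Kf b c x x')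
    (hlate : ∀ (r : ℕ) (ε : ℝ≥0∞), ε ≠ 0 → ∃ s0 : ℕ, ∀ s, s0 ≤ s → ∀ n, s + n ≤ r * s →
      ∀ a, ∀ x ∈ A.L a, ∀ x' ∈ A.L a,
        ∑' z, ∑' z', (∫⁻ ω, A.G a (a + s) ω x z * A.G a (a + s) ω x' z' ∂P)
          * Kf (a + s) (a + (s + n)) z z' ≤ ε) :
    JUMP A := by
  intro π hπ0 hπ1
  have hπt : π ≠ ∞ := ne_top_of_le_ne_top ENNReal.one_ne_top hπ1
  set πr : ℝ := π.toReal with hπr
  have hπr0 : 0 < πr := ENNReal.toReal_pos hπ0 hπt
  have hπr1 : πr ≤ 1 := by
    rw [hπr, ← ENNReal.toReal_one]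
    exact ENNReal.toReal_mono ENNReal.one_ne_top hπ1
  have hC0 : 0 < C := by linarith
  have hl1 : 0 ≤ Real.log (4 / πr) := Real.log_nonneg (by
    rw [le_div_iff₀ hπr0]; linarith)
  have hl2 : 0 ≤ Real.log (4 * C) := Real.log_nonneg (by linarith)
  refine ⟨Real.log (4 / πr) + Real.log (4 * C) / lam0 + 1 / lam0, by positivity,
    fun δ hδ0 hδ1 => ?_⟩
  set x1 : ℝ := Real.log (4 / πr) + Real.log (4 * C) / lam0 + 1 / lam0 with hx1
  set lD : ℝ := Real.log (1 / δ) with hlD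
  have hlD0 : 0 ≤ lD := Real.log_nonneg (by rw [le_div_iff₀ hδ0]; linarith)
  set x : ℝ := (Real.log (4 * C) + lD) / lam0 with hx
  have hx0 : 0 ≤ x := by positivity
  set θr : ℝ := Real.exp (-x) / 2 with hθr
  have hθr0 : 0 < θr := by positivity
  set θ : ℝ≥0∞ := ENNReal.ofReal θr with hθ
  have hθ0 : θ ≠ 0 := (ENNReal.ofReal_pos.2 hθr0).ne'
  have hθt : θ ≠ ∞ := ENNReal.ofReal_ne_top
  set δ4 : ℝ≥0∞ := ENNReal.ofReal (δ / 4) with hδ4
  have hδ40 : δ4 ≠ 0 := (ENNReal.ofReal_pos.2 (by positivity)).ne'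
  have hδ4t : δ4 ≠ ∞ := ENNReal.ofReal_ne_top
  have hq1 : C * Real.exp (-lam0 * x) = δ / 4 := by
    have e1 : -lam0 * x = -(Real.log (4 * C) + lD) := by
      rw [hx]; field_simp
    rw [e1, neg_add, Real.exp_add, Real.exp_neg, Real.exp_log (by positivity), hlD,
      one_div, Real.log_inv, neg_neg, Real.exp_log hδ0]
    field_simp
  refine ⟨δ4 * θ * p, mul_ne_zero (mul_ne_zero hδ40 hθ0) hp0, fun r => ?_⟩
  set ε : ℝ≥0∞ := δ4 * (π * θ) ^ 2 / 4 with hεdef
  have hπθ0 : (π * θ) ^ 2 ≠ 0 := pow_ne_zero 2 (mul_ne_zero hπ0 hθ0)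
  have hπθt : (π * θ) ^ 2 ≠ ∞ := ENNReal.pow_ne_top (ENNReal.mul_ne_top hπt hθt)
  have hε0 : ε ≠ 0 := (ENNReal.div_pos (mul_ne_zero hδ40 hπθ0) (by norm_num)).ne'
  obtain ⟨s0, hs0⟩ := hlate r ε hε0
  refine ⟨s0, fun s hs n hn φ Δ hjt hth a w B hB hw hw1 => ?_⟩
  have hab : a ≤ a + s := Nat.le_add_right _ _
  have hbc : a + s ≤ a + (s + n) := by omega
  -- home part
  have hhome : P (B ∩ {ω | tot (rpush A (Hm φ Δ) a (a + s) w) ω < θ * tot w ω})
      ≤ (δ4 + δ4) * P B := by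
    obtain ⟨Bd, g1, g2, g3⟩ := hth a (a + s) hab le_rfl
    set Bd' : S → Ω → ℝ≥0∞ := fun x => if x ∈ A.L a then Bd x else fun _ => ∞ with hBd'
    set B' : Set Ω := B ∩ {ω | tot w ω ≠ 0} with hB'
    have hB'F : MeasurableSet[A.F a] B' :=
      hB.inter ((hw.meas_tot (measurableSet_singleton 0)).compl)
    have h1 := home_norm (A := A) (a := a) (c := a + s) (D := fun _ => Hm φ Δ) hw hB'F
      (fun ω hω => hω.2) (fun ω _ => ne_top_of_le_ne_top ENNReal.one_ne_top (hw1 ω)) hθ0 hθt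
      (Bd := Bd') (ν := δ4 * θ * p) (p := p)
      (fun x => by
        by_cases hx : x ∈ A.L a
        · simpa [hBd', hx] using g1 x
        · simp [hBd', hx])
      (fun x hx => by simpa [hBd', hx] using g2 x hx)
      (fun b e1 e2 => by
        filter_upwards [g3 b e1 e2] with ω hω x
        by_cases hx : x ∈ A.L a
        · simpa [hBd', hx] using hω x hx
        · simp [hBd', hx])
      hp0 hp1 (fun n _ => hp n)
    have h2 := hrate s x hx0 a w hw hw1 B hB
    rw [hq1] at h2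
    have h3 : δ4 * θ * p / p / θ = δ4 := by
      rw [ENNReal.mul_div_cancel_right hp0 hp1, ENNReal.mul_div_cancel_right hθ0 hθt]
    rw [h3] at h1
    have h4 : B ∩ {ω | tot (rpush A (Hm φ Δ) a (a + s) w) ω < θ * tot w ω}
        ⊆ B' ∩ {ω | ∃ b, a ≤ b ∧ b ≤ a + s ∧ tot (rpush A (Hm φ Δ) a b w) ω < θ * tot w ω} := by
      rintro ω ⟨e1, e2⟩
      have e2' : tot (rpush A (Hm φ Δ) a (a + s) w) ω < θ * tot w ω := e2
      refine ⟨⟨e1, fun h0 => ?_⟩, a + s, hab, le_rfl, e2'⟩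
      rw [h0, mul_zero] at e2'
      exact absurd e2' not_lt_zero
    have h5 : B' ∩ {ω | tot (A.push a (a + s) w) ω < 2 * (θ * tot w ω)}
        ⊆ B ∩ Bad A a s w (ENNReal.ofReal (Real.exp (-x))) := by
      rintro ω ⟨e1, e2⟩
      refine ⟨e1.1, e1.2, ?_⟩
      have e2' : tot (A.push a (a + s) w) ω < 2 * (θ * tot w ω) := e2
      refine e2'.le.trans (le_of_eq ?_)
      rw [← mul_assoc]
      congr 1
      rw [hθ, hθr, show (2:ℝ≥0∞) = ENNReal.ofReal 2 by simp, ← ENNReal.ofReal_mul (by norm_num)]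
      congr 1
      ring
    refine (measure_mono h4).trans (h1.trans ?_)
    rw [add_mul]
    refine add_le_add ((measure_mono h5).trans h2) ?_
    gcongr
    exact inter_subset_left
  have hmean : ∀ x ∈ A.L (a + s), π ≤ ∫⁻ ω, mk A (Jp φ (2 * Δ)) (a + s) (a + (s + n)) x ω ∂P := by
    intro x hx
    have := hjt (a + s) x hx
    rw [add_assoc] at this
    exact this
  have hmain := jump_abs (A := A) hab hbc hw hw1 (D1 := Hm φ Δ) (D2 := Jp φ (2 * Δ))
    (D := Jp φ Δ) (fun x y z h1 h2 => by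
      have h := Hm_Jp h1 h2
      rwa [show 2 * Δ - Δ = Δ by ring] at h)
    (hK (a + s) (a + (s + n)) hbc (Jp φ (2 * Δ))) (hs0 s hs n hn a) hπ0 hπ1 hθ0 hθt hmean hB hhome
  have hlast : 4 * ε / (π * θ) ^ 2 = δ4 := by
    rw [hεdef, ENNReal.mul_div_cancel (by norm_num) (by norm_num),
      ENNReal.mul_div_cancel_right hπθ0 hπθt]
  rw [hlast] at hmain
  have hsum : δ4 + δ4 + δ4 ≤ ENNReal.ofReal δ := by
    rw [hδ4, ← ENNReal.ofReal_add (by positivity) (by positivity),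
      ← ENNReal.ofReal_add (by positivity) (by positivity)]
    exact ENNReal.ofReal_le_ofReal (by linarith)
  refine le_trans (measure_mono ?_) (hmain.trans (mul_le_mul_left hsum _))
  rintro ω ⟨e1, e2⟩
  have e2' : tot (rpush A (Jp φ Δ) a (a + (s + n)) w) ω
    < ENNReal.ofReal (Real.exp (-(x1 * (1 + lD)))) * tot w ω := e2
  refine ⟨e1, ?_⟩
  change tot (rpush A (Jp φ Δ) a (a + (s + n)) w) ω < π / 2 * θ * tot w ω
  refine lt_of_lt_of_le e2' (mul_le_mul_left ?_ _)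
  have e3 : π / 2 * θ = ENNReal.ofReal (πr / 2 * θr) := by
    rw [ENNReal.ofReal_mul (by positivity), ENNReal.ofReal_div_of_pos (by norm_num), hπr,
      ENNReal.ofReal_toReal hπt]
    simp [hθ]
  rw [e3]
  refine ENNReal.ofReal_le_ofReal ?_
  have e4 : πr / 2 * θr = Real.exp (-(Real.log (4 / πr) + x)) := by
    rw [neg_add, Real.exp_add, Real.exp_neg, Real.exp_log (by positivity), hθr]
    field_simp
    norm_num
  rw [e4]
  refine Real.exp_le_exp.2 (neg_le_neg ?_)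
  rw [hx, hx1, add_div]
  have e5 : 0 ≤ (Real.log (4 / πr) + Real.log (4 * C) / lam0) * lD :=
    mul_nonneg (by positivity) hlD0
  have e6 : 0 ≤ 1 / lam0 := by positivity
  have e7 : lD / lam0 = 1 / lam0 * lD := by ring
  nlinarith

end abs

section inst

open Crest.ProbabilityR.RandomEnvironment Crest.Agent.R154.Q561 Crest.Agent.R154.Ren263
open Crest.Agent.R154.Mk561 Crest.Agent.R154.JumpK618
open Crest.Agent.R154.Flux132 (lev)
open Crest.Agent.R154.D2Asm244 (kT)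

variable {d : ℕ} {Q : Measure (Environment d)} [IsProbabilityMeasure Q] {κ : ℝ} {R : ℕ}

/-- **HM4**: the robust jump, no open input (`κ > 0`). -/
theorem jUMP_kT (F : Bind263.Frame Q κ R) (hd : 3 ≤ d) (u : Step d)
    (hA : annealedProb Q 0 (escapeEvent (B2d.dirVec u)) ≠ 0) (hHalf : KB424.Half κ Q)
    (hk : 0 < kf d κ) : JUMP (kT u R κ Q F.stat F.fin) := by
  obtain ⟨p, hp0, hp⟩ := exists_p F u hA
  obtain ⟨lam0, C, hl, hC, hrate⟩ := RateT582.rate_real F u hA hk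
  obtain ⟨n0, hL⟩ := KB424.lateHyp F hd hA hHalf
  have hG : ∀ (a b : ℕ) (ω : Environment d) (x y : Site d), lev u x = a →
      (kT u R κ Q F.stat F.fin).G a b ω x y = gk u R κ b ω x y := by
    intro a b ω x y hx
    change (if lev u x = a then gk u R κ b ω x y else 0) = _
    rw [if_pos hx]
  refine jUMP_of (kT u R κ Q F.stat F.fin) hp0 ?_ hp hl hC hrate (Kc u R κ Q) ?_ ?_
  · exact ne_top_of_le_ne_top ENNReal.one_ne_top ((hp 0).trans (D2Asm244.h_le F u 0))
  · intro b c hbc D x hx x' hx'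
    have hx0 : lev u x = b := hx
    have hx0' : lev u x' = b := hx'
    have e : ∀ z : Site d, lev u z = b → ∀ ω,
        mk (kT u R κ Q F.stat F.fin) D b c z ω = Nd u R κ {v | D z (z + v)} c ω z := by
      intro z hz ω
      unfold mk Nd
      refine tsum_congr fun y => ?_
      have e1 : y - z ∈ {v : Site d | D z (z + v)} ↔ D z y := by
        change D z (z + (y - z)) ↔ D z y
        rw [add_sub_cancel]
      rw [hG b c ω z y hz]
      by_cases h : D z y
      · rw [if_pos h, if_pos (e1.2 h)]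
      · rw [if_neg h, if_neg (fun h' => h (e1.1 h'))]
    simp_rw [e x hx0, e x' hx0']
    rw [first_mark u R κ Q F.stat _ hbc hx0, first_mark u R κ Q F.stat _ hbc hx0']
    exact second_mark u R κ Q F.stat F.fin _ _ b c x x' hbc hx0 hx0'
  · intro r ε hε
    refine ⟨n0 r ε, fun s hs n hn a x hx x' hx' => ?_⟩
    have hx0 : lev u x = a := hx
    have hx0' : lev u x' = a := hx'
    have e : ∀ z z' : Site d, (∫⁻ ω, (kT u R κ Q F.stat F.fin).G a (a + s) ω x z
        * (kT u R κ Q F.stat F.fin).G a (a + s) ω x' z' ∂Q)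
        = ∫⁻ ω, gk u R κ (a + s : ℕ) ω x z * gk u R κ (a + s : ℕ) ω x' z' ∂Q := by
      intro z z'
      refine lintegral_congr fun ω => ?_
      rw [hG a (a + s) ω x z hx0, hG a (a + s) ω x' z' hx0']
    simp_rw [e]
    refine (energy_le u R κ Q F.fin (by omega : a + s ≤ a + (s + n)) hx0 hx0').trans ?_
    have := hL r ε hε s hs n hn ⟨(x, x'), hx0.trans hx0'.symm⟩
    rwa [show a + (s + n) - a = s + n by omega]

end inst

end Crest.Agent.R154.Jump872
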