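import Crest.Agent.R154.HIb_272

/-!
Row 154, block B8 (helper272): **(init) is a theorem**, `Top169.HIProp`.
-/

set_option autoImplicit false
set_option linter.unusedSectionVars false
set_option linter.unusedVariables false
set_option linter.deprecated false

namespace Crest.Agent.R154.Box272

open MeasureTheory ProbabilityTheory Set Filter Crest.ProbabilityR.RandomEnvironment
open Crest.Agent.R154.Mk561 Crest.Agent.R154.Q561
open Crest.Agent.R154.Flux132 (lev)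
open Crest.Agent.R154.RatioR872 Crest.Agent.R154.Tile872
open Crest.Agent.R154.KS480
open Crest.Agent.R154.TileInst748 (clsM okM massM enM pushM outM single tsum_single)
open Crest.Agent.R154.B4Inst797 (Nat0 natLaw UU lat natLaw_apply lp natLaw_isProb)
open scoped ENNReal Topology NNReal

section ball

variable {d : ℕ}

lemma card_bl_le (u : Step d) (r : ℕ) : (ChainFL.bl u r).card ≤ (2 * r + 1) ^ d := by
  classical
  unfold ChainFL.bl
  refine (Finset.card_filter_le _ _).trans (le_of_eq ?_)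
  rw [Pi.card_Icc]
  simp only [Int.card_Icc]
  rw [Finset.prod_const, Finset.card_univ, Fintype.card_fin]
  congr 1
  omega

/-- the uniform law on the ball has no small atoms -/
lemma bmu_ge (u : Step d) (hd : 0 < d) {η δ' : ℝ} (hη : 0 < η) (hδ : 0 < δ') :
    ∃ n0 : ℕ, ∀ n : ℕ, n0 ≤ n → ∀ z ∈ ChainFL.bl u ⌊η * n⌋₊,
      ENNReal.ofReal (Real.exp (-(δ' * n / 4))) ≤ ChainFL.bmu u ⌊η * n⌋₊ z := by
  have hd0 : (0 : ℝ) < d := by exact_mod_cast hd
  set α : ℝ := δ' / (4 * d) with hα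
  have hα0 : 0 < α := by positivity
  obtain ⟨n0, hn0⟩ := exists_nat_ge (4 * η / α ^ 2)
  refine ⟨n0, fun n hn z hz => ?_⟩
  have hnr : 4 * η / α ^ 2 ≤ n := hn0.trans (by exact_mod_cast hn)
  rw [div_le_iff₀ (by positivity)] at hnr
  have hn00 : (0 : ℝ) ≤ n := Nat.cast_nonneg n
  rw [ChainFL.bmu_apply hz, Real.exp_neg, ENNReal.ofReal_inv_of_pos (Real.exp_pos _)]
  refine ENNReal.inv_le_inv.2 ?_
  rw [← ENNReal.ofReal_natCast]
  refine ENNReal.ofReal_le_ofReal ?_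
  have h1 : ((ChainFL.bl u ⌊η * n⌋₊).card : ℝ) ≤ (2 * (⌊η * n⌋₊ : ℝ) + 1) ^ d := by
    exact_mod_cast card_bl_le u ⌊η * n⌋₊
  have h2 : (⌊η * n⌋₊ : ℝ) ≤ η * n := Nat.floor_le (by positivity)
  have h3 : 2 * (⌊η * n⌋₊ : ℝ) + 1 ≤ Real.exp (α * n) := by
    have h4 := Real.quadratic_le_exp_of_nonneg (x := α * n) (by positivity)
    have h5 : 2 * (η * n) ≤ (α * n) ^ 2 / 2 := by nlinarith
    have h6 : 0 ≤ α * n := by positivity
    linarith
  calc ((ChainFL.bl u ⌊η * n⌋₊).card : ℝ) ≤ (2 * (⌊η * n⌋₊ : ℝ) + 1) ^ d := h1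
    _ ≤ (Real.exp (α * n)) ^ d := pow_le_pow_left₀ (by positivity) h3 d
    _ = Real.exp (δ' * n / 4) := by
        rw [← Real.exp_nat_mul]
        congr 1
        rw [hα]
        field_simp

end ball

section main

variable {d : ℕ} {Q : Measure (Environment d)} [IsProbabilityMeasure Q] {κ : ℝ} {R : ℕ}

/-- **the tile system of (init)** -/
theorem tiles_box (F : Bind263.Frame Q κ R) (hd : 3 ≤ d) (u : Step d)
    (hA : annealedProb Q 0 (escapeEvent (B2d.dirVec u)) ≠ 0) (hHalf : KB424.Half κ Q)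
    {η b δ' : ℝ} (hη : 0 < η) (hb : 0 < b) (hδ : 0 < δ') :
    InitY272.InitTilesY (D2Asm244.kT u R κ Q F.stat F.fin)
      (fun n : ℕ => ChainFL.bmu u ⌊η * n⌋₊) b δ' := by
  classical
  have hc := B4Inst797.nat_ne_zero F u hA
  obtain ⟨i1, i2, h1, h2, h12⟩ := KB424.lateral hd u.1
  obtain ⟨g, g', hg0, hg1, hgg, hgeom⟩ := geom F hd h1 h2 h12 hA hHalf hc
  have hq0 : ((1 / 96 : ℝ≥0) : ℝ≥0∞) ≠ 0 := by norm_num
  obtain ⟨κ₁, κx, ε, hκ0, hκ1, hx0, hx1, hε0, hKS⟩ :=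
    ksf_all u R κ Q F.stat F.fin (halfE u R κ Q F.fin) hg0 hg1 hq0
  obtain ⟨n0, hL⟩ := KB424.lateHyp F hd hA hHalf
  have hgt : g ≠ ∞ := ne_top_of_le_ne_top ENNReal.one_ne_top hg1
  have hκt : κ₁ ≠ ∞ := ne_top_of_le_ne_top ENNReal.one_ne_top hκ1
  have hg20 : g / 2 ≠ 0 := (ENNReal.div_pos hg0 (by norm_num)).ne'
  have hg40 : g / 2 / 2 ≠ 0 := (ENNReal.div_pos hg20 (by norm_num)).ne'
  have hg4t : g / 2 / 2 ≠ ∞ := ENNReal.div_ne_top (ENNReal.div_ne_top hgt (by norm_num))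
    (by norm_num)
  set τ : ℝ≥0∞ := κ₁ * (g / 2 / 2) ^ 3 with hτ
  have hτ0 : τ ≠ 0 := mul_ne_zero hκ0 (pow_ne_zero 3 hg40)
  have hτt : τ ≠ ∞ := ENNReal.mul_ne_top hκt (ENNReal.pow_ne_top hg4t)
  have hε20 : τ / 2 ≠ 0 := (ENNReal.div_pos hτ0 (by norm_num)).ne'
  have hlt : τ / 2 < τ := ENNReal.half_lt_self hτ0 hτt
  -- the cost
  set γ : ℝ≥0∞ := g / 8 with hγ
  have hγ0 : γ ≠ 0 := (ENNReal.div_pos hg0 (by norm_num)).ne'
  have hγg : γ ≤ g := ENNReal.div_le_of_le_mul (by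
    calc g = g * 1 := (mul_one _).symm
      _ ≤ g * 8 := by gcongr; norm_num)
  have hγ1 : γ ≤ 1 := hγg.trans hg1
  have hγt : γ ≠ ∞ := ne_top_of_le_ne_top ENNReal.one_ne_top hγ1
  set γr : ℝ := γ.toReal with hγr
  have hγrpos : 0 < γr := ENNReal.toReal_pos hγ0 hγt
  have hγrle : γr ≤ 1 := ENNReal.toReal_le_of_le_ofReal (by norm_num) (by simpa using hγ1)
  set m : ℝ := -Real.log γr with hm
  have hexpm : ENNReal.ofReal (Real.exp (-m)) = γ := by
    rw [hm, neg_neg, Real.exp_log hγrpos, hγr, ENNReal.ofReal_toReal hγt]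
  have hm0 : 0 ≤ m := by
    have := Real.log_nonpos hγrpos.le hγrle
    linarith
  obtain ⟨k1, hk1⟩ := exists_nat_ge (4 * m * b / δ')
  obtain ⟨N, hN, σ, A, W, S, c1, c2, D, D2, hS, hW, hADS, hD, hSt, hrow⟩ :=
    hgeom κx hx0 (n0 2 ε + n0 2 (τ / 2) + k1 + 1)
  set n : ℕ := 64 * N with hn
  obtain ⟨r, hr⟩ := exit_tail F u n (e := g / 2) hg20
  have hE : ∀ ℓ : ℕ, ExitE u R κ Q ℓ (ℓ + n) (ℓ + n + n) ε := fun ℓ =>
    TileReg872.exitE_of_late F.fin hL hε0 (n := n) (r := 2) (by omega) (by omega) (by omega)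
  have hE2 : ∀ ℓ : ℕ, ExitE u R κ Q ℓ (ℓ + n) (ℓ + n + n) (τ / 2) := fun ℓ =>
    TileReg872.exitE_of_late F.fin hL hε20 (n := n) (r := 2) (by omega) (by omega) (by omega)
  have hcls := fun (ℓ : ℕ) (t1 t2 : ℝ) =>
    cls_bx F h1 h2 h12 hc hSt hgg hg0 hgt hκ0 hκt hS hW hE2 hlt hr ℓ t1 t2
  have hne : ∀ (ℓ : ℕ) (t1 t2 : ℝ),
      (clsM (bx u i1 i2 σ A W ℓ t1 t2) (Kc u R κ Q ℓ (ℓ + n)) κ₁).Nonempty := by
    intro ℓ t1 t2
    obtain ⟨lam, hlam, -⟩ := hcls ℓ t1 t2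
    exact ⟨lam, hlam⟩
  choose lam hlam hsupp using fun x : ℤ × ℤ =>
    hcls (0 * n) (((0 : ℕ) : ℝ) * c1 + x.2 * D) (((0 : ℕ) : ℝ) * c2 + x.1 * D2)
  obtain ⟨n1, hn1⟩ := bmu_ge u (by omega) hη hδ
  set C0 : ℝ := r + n + (2 + |σ|) * (|c1| + 1) + |c2| + 1 with hC0
  set C1 : ℝ := (2 + |σ|) * D + |D2| with hC1
  have hσ := abs_nonneg σ
  have hC1p : 0 ≤ C1 := by
    have := abs_nonneg D2
    have : 0 ≤ (2 + |σ|) * D := by positivity
    linarith
  set ρ : ℝ := η / (2 * (C1 + 1)) with hρ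
  have hρ0 : 0 < ρ := by positivity
  obtain ⟨n2, hn2⟩ := exists_nat_ge (2 * (C0 + 1) / η)
  refine ⟨n, m, ρ, κ₁, γ, CellB u i1 i2 σ A W c1 c2 D D2 n, EnB u R κ Q n,
      (fun k x ω => kD u R κ Q (g / 2) (k * n) ((k + 1) * n)
        (CellB u i1 i2 σ A W c1 c2 D D2 n (k + 1) x) ω),
      (fun k x ω => kD u R κ Q (g / 2) (k * n) ((k + 1) * n)
        (CellB u i1 i2 σ A W c1 c2 D D2 n (k + 1) (Init272.shZ x)) ω), lam, max n1 n2,
      by omega, hm0, ?_, hexpm.le,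
      inputsY_congr (inputs_box F hc hKS hSt hgg hADS hD hrow hE hne), ?_, hρ0, ?_⟩
  · -- cost
    have h5 : (k1 : ℝ) ≤ n := by
      have : k1 ≤ n := by omega
      exact_mod_cast this
    rw [div_le_iff₀ hδ] at hk1
    nlinarith
  · intro x
    have h5 := hlam x
    have e : 0 * n + n = (0 + 1) * n := by ring
    rw [e] at h5
    exact h5
  · intro n' hn' s y hs hy z hz
    have hn1' : n1 ≤ n' := (le_max_left _ _).trans hn'
    have hn2' : n2 ≤ n' := (le_max_right _ _).trans hn'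
    refine hn1 n' hn1' z ?_
    have h5 : 2 * (C0 + 1) / η ≤ n' := hn2.trans (by exact_mod_cast hn2')
    rw [div_le_iff₀ hη] at h5
    have hs0 : (0 : ℝ) ≤ s := Nat.cast_nonneg s
    have hy0 : (0 : ℝ) ≤ y := Nat.cast_nonneg y
    rw [ChainFL.mem_bl]
    constructor
    · rw [Fin804.nrm_le_iff (Int.natCast_nonneg _)]
      intro c
      have h6 := hsupp ((s : ℤ), (y : ℤ)) z hz c
      simp only [Nat.cast_zero, zero_mul, zero_add, Int.cast_natCast, add_zero] at h6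
      rw [abs_mul, abs_mul, abs_of_nonneg hD, abs_of_nonneg hs0, abs_of_nonneg hy0] at h6
      have h7 : (2 + |σ|) * (y * D + |c1| + 1) + (s * |D2| + |c2| + 1) + r + n ≤
          C0 + C1 * (ρ * n') := by
        have a1 : (2 + |σ|) * (y * D) ≤ (2 + |σ|) * (ρ * n' * D) :=
          mul_le_mul_of_nonneg_left (mul_le_mul_of_nonneg_right hy hD) (by positivity)
        have a2 : s * |D2| ≤ ρ * n' * |D2| := mul_le_mul_of_nonneg_right hs (abs_nonneg _)
        rw [hC0, hC1]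
        nlinarith
      have h8 : C1 * (ρ * n') ≤ η * n' / 2 := by
        have a1 : C1 * ρ ≤ η / 2 := by
          rw [hρ, mul_div_assoc', div_le_div_iff₀ (by positivity) (by norm_num)]
          nlinarith
        have a2 : (0 : ℝ) ≤ n' := Nat.cast_nonneg n'
        nlinarith
      have h9 : |(z c : ℝ)| ≤ η * n' - 1 := by linarith
      have h10 := Nat.lt_floor_add_one (η * n')
      have h11 : ((|z c| : ℤ) : ℝ) < ((⌊η * n'⌋₊ : ℤ) : ℝ) := by
        push_cast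
        linarith
      have h12 : |z c| < (⌊η * n'⌋₊ : ℤ) := by exact_mod_cast h11
      exact h12.le
    · have h6 := (hlam ((s : ℤ), (y : ℤ))).2.1 z
      by_contra hcon
      refine hz (h6 fun hmem => hcon ?_)
      have h7 := hmem.1
      simpa using h7

end main

/-- **(init)**, no open input -/
theorem hiProp : Top169.HIProp := by
  intro d hd Q _ κ R F hHalf u hA
  intro η b δ' M hη hb hδ hM
  have hst : ∀ n : ℕ, (D2Asm244.kT u R κ Q F.stat F.fin).Start (ChainFL.bmu u ⌊η * n⌋₊) :=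
    fun n => ChainFL.bmu_start F u _
  exact InitY272.init_of_tilesY (D2Asm244.kT u R κ Q F.stat F.fin)
    (fun n : ℕ => ChainFL.bmu u ⌊η * n⌋₊) hst
    (fun n : ℕ => D2Asm244.aa (D2Asm244.kT u R κ Q F.stat F.fin) (ChainFL.bmu u ⌊η * n⌋₊))
    (fun n i => D2Asm244.aa_eq (hst n) (D2Asm244.Sh_pos F u hA _ (hst n)) i)
    (fun b δ' hb hδ => tiles_box F hd u hA hHalf hη hb hδ) b δ' M hb hδ hM

end Crest.Agent.R154.Box272


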