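import Crest.Agent.R154.Top2_169
import Crest.Agent.R154.D2Fin_36
import Crest.Agent.R154.HI_272

/-!
Row 154 (helper796), TOP GLUE for the SPLIT: `(W)` is asked only for UNIFORMLY ELLIPTIC frames
(`0 < κ`, coins `κ`), S0219 comes from `Spine.NBProp` (no two opposite escape directions, iid,
merely elliptic, `d ≥ 3`), independent of (W).
-/

set_option autoImplicit false

namespace Crest.Agent.R154.Split796

open MeasureTheory ProbabilityTheory Crest.ProbabilityR.RandomEnvironment Crest.Agent.R154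
open Crest.Agent.R154.Spine Crest.Agent.R154.Mk561
open scoped ENNReal

/-- **(W) for uniformly elliptic frames only** (coins `κ > 0`, ellipticity constant `2κ`). -/
def HWUE : Prop :=
  ∀ (d : ℕ) (_ : 3 ≤ d) (Q : Measure (Environment d)) [IsProbabilityMeasure Q] (κ : ℝ) (R : ℕ)
    (_ : 0 < κ) (_ : ∀ᵐ ω ∂Q, ∀ (x : Site d) (e : Step d), 2 * κ ≤ (ω x).1 e)
    (_ : kf d κ = κ)
    (F : Bind263.Frame Q κ R) (_ : KB424.Half κ Q) (u : Step d),
    annealedProb Q 0 (escapeEvent (B2d.dirVec u)) ≠ 0 →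
      ChainFL.HW (D2Asm244.kT u R κ Q F.stat F.fin)

theorem hwue_of_hw (h : Top169.HWProp) : HWUE := by
  intro d hd Q _ κ R _ _ _ F hh u hA
  exact h d hd Q κ R F hh u hA

/-- **`FL3Prop` (S0220 for `d ≥ 3`, S0221) from `(W)` in uniformly elliptic frames.** -/
theorem fl3 (hW : HWUE) (hI : Top169.HIProp) : FL3Prop := by
  intro d hd Q _ κ R hκ F hell u hu
  obtain ⟨F', hk, hh⟩ := KB424.frame_half hκ F.stat hell F.fin
  have hA : annealedProb Q 0 (escapeEvent (B2d.dirVec u)) ≠ 0 := by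
    rw [← annealed_apply _ 0 (B2d.measurableSet_escapeEvent _)]
    exact hu
  refine FLofFLe169.flofFLe d Q κ hκ hell u ?_
  refine ChainFL.fle_of F' u hA (hW d hd Q (κ / 2) R (half_pos hκ) ?_ hk F' hh u hA)
    (hI d hd Q (κ / 2) R F' hh u hA)
  filter_upwards [hell] with ω hω x e
  linarith [hω x e]

/-- **S0219** from the no-opposite-escape property alone (no (W)). -/
theorem t0219 (hNB : NBProp) : T0219 :=
  s0219' hNB

/-- **THE ROW from `(W)` for UE frames and `NBProp`** (small heights 272 and `d = 2` 36 closed). -/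
theorem row3 (hW : HWUE) (hNB : NBProp) : T0219 ∧ T0220 ∧ T0221 :=
  ⟨t0219 hNB,
    s0220_weak (fl3 hW Box272.hiProp) D2Fin36.fl2,
    s0221' (fl3 hW Box272.hiProp)⟩

/-- **THE ROW from `HWProp` alone.** -/
theorem row4 (hW : Top169.HWProp) : T0219 ∧ T0220 ∧ T0221 :=
  Top169.row2 hW Box272.hiProp D2Fin36.tileD2

end Crest.Agent.R154.Split796
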