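import Crest.Agent.R154.MobL_437

/-! Row 154, B8, TILE: the lateral data of the first climb of an attempt, on 573's level process:
small displacement over `l ≤ N / n` levels and a popular window over the remaining `N - l` levels
(helper872; from 437's widths). -/

set_option autoImplicit false
set_option linter.unusedSectionVars false
set_option linter.unusedVariables false

namespace Crest.Agent.R154.StartLP872

open MeasureTheory Filter Set Crest.Agent.R154.B4 Crest.Agent.R154.MobW437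
open scoped ENNReal Topology ComplexConjugate

variable {Ω : Type*} [mΩ : MeasurableSpace Ω] {P : Measure Ω} [IsProbabilityMeasure P]

/-- `1 - |chf|²` over `l ≤ N / n` levels, up to the edge of `N` -/
lemma nfold_le (L : LP P) (i : Fin 2) (n : ℕ) (hn : 1 ≤ n) : ∃ N0, ∀ N, N0 ≤ N → ∀ l, n * l ≤ N →
    ∀ u, |u| ≤ tl L i N → gg P (L.U l) i u ≤ 3 / (100 * n) := by
  have hnr : (1 : ℝ) ≤ n := by exact_mod_cast hn
  obtain ⟨δ, hδ, hδ'⟩ := L.t1 (1 / (800 * n)) (by positivity)
  obtain ⟨l0, hl0⟩ := tl_small L i (δ := min δ 1) (by positivity) (min_le_right _ _)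
  refine ⟨l0, fun N hN l hnl u hu => ?_⟩
  have huδ : ‖u • ev i‖ ≤ δ := by
    rw [norm_ev]
    exact hu.trans ((hl0 _ hN).le.trans (min_le_left _ _))
  have hind : ∀ k : ℕ, ‖L.chi (k * l) (u • ev i) - L.chi l (u • ev i) ^ k‖ ≤ k * (1 / (800 * n)) := by
    intro k
    induction k with
    | zero =>
      have : L.chi (0 * l) (u • ev i) = 1 := by
        rw [zero_mul, chi_cfr]
        unfold cfr
        simp [L.U_zero, dt]
      rw [this]; simp
    | succ k ih =>
      have e1 : (k + 1) * l = k * l + l := by ring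
      rw [e1, pow_succ]
      have h1 := (hδ' (k * l) l (u • ev i) huδ).1
      have h2 : L.chi (k * l + l) (u • ev i) - L.chi l (u • ev i) ^ k * L.chi l (u • ev i) =
          (L.chi (k * l + l) (u • ev i) - L.chi (k * l) (u • ev i) * L.chi l (u • ev i)) +
          (L.chi (k * l) (u • ev i) - L.chi l (u • ev i) ^ k) * L.chi l (u • ev i) := by ring
      rw [h2]
      refine (norm_add_le _ _).trans ?_
      rw [norm_mul]
      have h3 := norm_cfr_le_one L l (u • ev i)
      have h4 : ‖L.chi (k * l) (u • ev i) - L.chi l (u • ev i) ^ k‖ * ‖L.chi l (u • ev i)‖ ≤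
          (k * (1 / (800 * n))) * 1 := by
        gcongr
      push_cast
      linarith
  have h1 := hind n
  have e2 : (n : ℝ) * (1 / (800 * n)) = 1 / 800 := by field_simp
  rw [e2] at h1
  obtain ⟨r, rfl⟩ := Nat.exists_eq_add_of_le hnl
  have h2 := gg_le_of_abs_le L i _ u hu
  unfold gg psi at h2
  rw [← chi_cfr] at h2
  set y := ‖L.chi (n * l + r) (u • ev i)‖ with hy
  have hy1 : y ≤ 1 := norm_cfr_le_one L _ _
  have hy0 : 0 ≤ y := norm_nonneg _
  have hy2 : 99 / 100 ≤ y := by nlinarith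
  set x := ‖L.chi l (u • ev i)‖ with hx
  have hx1 : x ≤ 1 := norm_cfr_le_one L _ _
  have hx0 : 0 ≤ x := norm_nonneg _
  have h800 : (1 : ℝ) / (800 * n) ≤ 1 / 800 :=
    one_div_le_one_div_of_le (by norm_num) (by linarith)
  have h3 : y - 1 / 400 ≤ x ^ n := by
    have g1 : y ≤ ‖L.chi (n * l) (u • ev i)‖ + 1 / 800 := by
      have g2 := (hδ' (n * l) r (u • ev i) huδ).1
      have g3 : y ≤ ‖L.chi (n * l + r) (u • ev i) - L.chi (n * l) (u • ev i) * L.chi r (u • ev i)‖ +
          ‖L.chi (n * l) (u • ev i) * L.chi r (u • ev i)‖ := by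
        rw [hy]
        have := norm_add_le (L.chi (n * l + r) (u • ev i) -
          L.chi (n * l) (u • ev i) * L.chi r (u • ev i))
          (L.chi (n * l) (u • ev i) * L.chi r (u • ev i))
        rwa [sub_add_cancel] at this
      have g4 : ‖L.chi (n * l) (u • ev i) * L.chi r (u • ev i)‖ ≤ ‖L.chi (n * l) (u • ev i)‖ := by
        rw [norm_mul]
        exact mul_le_of_le_one_right (norm_nonneg _) (norm_cfr_le_one L _ _)
      linarith
    have g5 : ‖L.chi (n * l) (u • ev i)‖ ≤ ‖L.chi (n * l) (u • ev i) - L.chi l (u • ev i) ^ n‖ +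
        ‖L.chi l (u • ev i) ^ n‖ := by
      have := norm_add_le (L.chi (n * l) (u • ev i) - L.chi l (u • ev i) ^ n)
        (L.chi l (u • ev i) ^ n)
      rwa [sub_add_cancel] at this
    rw [norm_pow] at g5
    linarith
  have hs : gg P (L.U l) i u = 1 - x ^ 2 := by
    unfold gg psi
    rw [← chi_cfr]
  rw [hs]
  set s := 1 - x ^ 2 with hsdef
  have hs0 : 0 ≤ s := by nlinarith
  have hs1 : s ≤ 1 := by nlinarith [sq_nonneg x]
  have h5 : (975 / 1000 : ℝ) ≤ (1 - s) ^ n := by
    have e : (1 - s) ^ n = (x ^ n) ^ 2 := by rw [hsdef]; ring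
    rw [e]
    have h6 : (98775 / 100000 : ℝ) ≤ x ^ n := by
      have h7 : (395 / 400 : ℝ) ≤ x ^ n := by linarith
      nlinarith
    nlinarith
  have h6 : (1 - s) ^ n * (1 + s) ^ n ≤ 1 := by
    rw [← mul_pow]
    refine pow_le_one₀ ?_ ?_
    · nlinarith
    · nlinarith
  have h7 : 1 + (n : ℝ) * s ≤ (1 + s) ^ n := one_add_mul_le_pow (by linarith) n
  have h8 : (975 / 1000 : ℝ) * (1 + n * s) ≤ 1 := by
    calc (975 / 1000 : ℝ) * (1 + n * s) ≤ (1 - s) ^ n * (1 + s) ^ n := by
          gcongr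
      _ ≤ 1 := h6
  rw [le_div_iff₀ (by positivity)]
  nlinarith

/-- iterated doubling -/
lemma gg_pow {Δ : Ω → V} (hΔ : Measurable Δ) (i : Fin 2) (t : ℝ) (j : ℕ) :
    gg P Δ i (2 ^ j * t) ≤ 4 ^ j * gg P Δ i t := by
  induction j with
  | zero => simp
  | succ j ih =>
    have e : (2 : ℝ) ^ (j + 1) * t = 2 * (2 ^ j * t) := by ring
    rw [e]
    refine (gg_two hΔ i _).trans ?_
    rw [pow_succ]
    linarith

/-- **small displacement**: over `l ≤ N / n` levels the displacement is `≤ wl N / 2^j` around a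
centre, off probability `6 · 4^(j+1) / (100 n)` -/
lemma small_disp (L : LP P) (i : Fin 2) (j : ℕ) {δ : ℝ} (hδ : 0 < δ) :
    ∃ n, 1 ≤ n ∧ ∃ N0, ∀ N, N0 ≤ N → ∀ l, n * l ≤ N →
      ∃ v, P.real {ω | wl L i N / 2 ^ j < |L.U l ω i - v|} ≤ δ := by
  obtain ⟨n, hn⟩ := exists_nat_ge (max 1 (6 * 4 ^ (j + 1) / (100 * δ)))
  have hn1 : (1 : ℝ) ≤ n := (le_max_left _ _).trans hn
  have hn1' : 1 ≤ n := by exact_mod_cast hn1
  have hn2 : 6 * 4 ^ (j + 1) / (100 * δ) ≤ (n : ℝ) := (le_max_right _ _).trans hn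
  obtain ⟨N0, hN0⟩ := nfold_le L i n hn1'
  refine ⟨n, hn1', N0, fun N hN l hl => ?_⟩
  have ht := tl_pos L i N
  have hΔ := meas_U L l
  have hw := wl_pos L i N
  have h1 : (P.prod P).real {q | wl L i N / 2 ^ j < |Z (L.U l) i q|} ≤
      2 * (4 ^ (j + 1) * (3 / (100 * n))) := by
    refine tail_Z (P := P) hΔ i (r := wl L i N / 2 ^ j) (by positivity) fun t htt => ?_
    have h2 : |t / 2 ^ (j + 1)| ≤ tl L i N := by
      rw [abs_div, abs_of_pos (by positivity : (0 : ℝ) < 2 ^ (j + 1)), div_le_iff₀ (by positivity)]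
      refine htt.trans (le_of_eq ?_)
      unfold wl
      field_simp
      ring
    have h3 := hN0 N hN l hl _ h2
    have h4 := gg_pow (P := P) hΔ i (t / 2 ^ (j + 1)) (j + 1)
    have e : (2 : ℝ) ^ (j + 1) * (t / 2 ^ (j + 1)) = t := by field_simp
    rw [e] at h4
    refine h4.trans ?_
    gcongr
  obtain ⟨v, hv⟩ := exists_center (P := P) hΔ i _ h1
  refine ⟨v, hv.trans ?_⟩
  rw [div_le_iff₀ (by positivity)] at hn2
  have e : 2 * (4 ^ (j + 1) * (3 / (100 * (n : ℝ)))) = (6 * 4 ^ (j + 1)) / (100 * n) := by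
    field_simp; norm_num
  rw [e, div_le_iff₀ (by positivity)]
  linarith

/-- **popular window** of the remaining climb -/
lemma core_window (L : LP P) (i : Fin 2) : ∃ N0, ∀ N, N0 ≤ N → ∀ l, l ≤ N → ∀ h, wl L i N / 160 ≤ h →
    ∃ s0, 1 / 700 ≤ P.real {ω | L.U (N - l) ω i ∈ Ico s0 (s0 + h)} := by
  obtain ⟨δ, hδ, hδ'⟩ := L.t1 (1 / 1000) (by norm_num)
  obtain ⟨l0, hl0⟩ := tl_small L i (δ := min δ 1) (by positivity) (min_le_right _ _)
  refine ⟨l0, fun N hN l hlN h hh => ?_⟩
  have ht := tl_pos L i N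
  have hw := wl_pos L i N
  have hΔ := meas_U L (N - l)
  -- the core
  have hg : ∀ u, |u| ≤ tl L i N → gg P (L.U (N - l)) i u ≤ 2 / 100 := by
    intro u hu
    have huδ : ‖u • ev i‖ ≤ δ := by
      rw [norm_ev]
      exact hu.trans ((hl0 _ hN).le.trans (min_le_left _ _))
    have h1 := (hδ' l (N - l) (u • ev i) huδ).1
    rw [Nat.add_sub_cancel' hlN] at h1
    have h2 := gg_le_of_abs_le L i _ u hu
    unfold gg psi at h2 ⊢
    rw [← chi_cfr] at h2 ⊢
    set y := ‖L.chi N (u • ev i)‖ with hy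
    set x := ‖L.chi (N - l) (u • ev i)‖ with hx
    have hy1 : y ≤ 1 := norm_cfr_le_one L _ _
    have hy0 : 0 ≤ y := norm_nonneg _
    have hx1 : x ≤ 1 := norm_cfr_le_one L _ _
    have hx0 : 0 ≤ x := norm_nonneg _
    have h3 : y ≤ x + 1 / 1000 := by
      have g3 : y ≤ ‖L.chi N (u • ev i) - L.chi l (u • ev i) * L.chi (N - l) (u • ev i)‖ +
          ‖L.chi l (u • ev i) * L.chi (N - l) (u • ev i)‖ := by
        rw [hy]
        have := norm_add_le (L.chi N (u • ev i) - L.chi l (u • ev i) * L.chi (N - l) (u • ev i))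
          (L.chi l (u • ev i) * L.chi (N - l) (u • ev i))
        rwa [sub_add_cancel] at this
      have g4 : ‖L.chi l (u • ev i) * L.chi (N - l) (u • ev i)‖ ≤ x := by
        rw [norm_mul]
        exact mul_le_of_le_one_left hx0 (norm_cfr_le_one L _ _)
      linarith
    nlinarith
  have h1 : (P.prod P).real {q | 2 * wl L i N < |Z (L.U (N - l)) i q|} ≤ 2 * (2 / 100) := by
    refine tail_Z (P := P) hΔ i (r := 2 * wl L i N) (by positivity) fun t htt => hg t ?_
    refine htt.trans (le_of_eq ?_)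
    unfold wl
    field_simp
  obtain ⟨y0, hy0⟩ := exists_center (P := P) hΔ i _ h1
  have hY := measurable_coord hΔ i
  set μ : Measure ℝ := P.map (fun ω => L.U (N - l) ω i) with hμ
  haveI : IsProbabilityMeasure μ := Measure.isProbabilityMeasure_map hY.aemeasurable
  have hreal : ∀ B : Set ℝ, MeasurableSet B → μ.real B = P.real {ω | L.U (N - l) ω i ∈ B} := by
    intro B hB
    rw [measureReal_def, measureReal_def, hμ, Measure.map_apply hY hB]
    rfl
  set w := wl L i N with hwdef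
  have hmabs : MeasurableSet {x : ℝ | 2 * w < |x - y0|} :=
    measurableSet_lt measurable_const (measurable_id.sub_const y0).abs
  have hcore : 96 / 100 ≤ μ.real (Ico (y0 - 2 * w) (y0 - 2 * w + (641 : ℕ) * (w / 160))) := by
    have e : {x : ℝ | 2 * w < |x - y0|}ᶜ ⊆ Ico (y0 - 2 * w) (y0 - 2 * w + (641 : ℕ) * (w / 160)) := by
      intro x hx
      simp only [mem_compl_iff, mem_setOf_eq, not_lt] at hx
      have h2 := abs_le.1 hx
      push_cast
      constructor
      · linarith [h2.1]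
      · linarith [h2.2]
    refine le_trans ?_ (measureReal_mono e (measure_ne_top _ _))
    rw [probReal_compl_eq_one_sub hmabs, hreal _ hmabs]
    have : P.real {ω | L.U (N - l) ω i ∈ {x : ℝ | 2 * w < |x - y0|}} ≤ 2 * (2 / 100) := hy0
    linarith
  obtain ⟨k, hk, hk'⟩ := exists_window' (μ := μ) _ _ (by positivity) 641 (by norm_num) hcore
  refine ⟨y0 - 2 * w + k * (w / 160), ?_⟩
  have hsub : Ico (y0 - 2 * w + k * (w / 160)) (y0 - 2 * w + (k + 1) * (w / 160)) ⊆
      Ico (y0 - 2 * w + k * (w / 160)) (y0 - 2 * w + k * (w / 160) + h) := by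
    refine Ico_subset_Ico_right ?_
    linarith
  have h2 := hk'.trans (measureReal_mono hsub (measure_ne_top _ _))
  rw [hreal _ measurableSet_Ico] at h2
  refine le_trans ?_ h2
  norm_num

/-- **lateral data of the first climb** -/
theorem start_data (L : LP P) (i : Fin 2) {δ : ℝ} (hδ : 0 < δ) :
    ∃ n, 1 ≤ n ∧ ∃ N0, ∀ N, N0 ≤ N → ∀ l, n * l ≤ N → ∀ a, wl L i N / 80 ≤ a →
      (∃ v, P.real {ω | a / 8 < |L.U l ω i - v|} ≤ δ) ∧
      ∃ s0, 1 / 700 ≤ P.real {ω | L.U (N - l) ω i ∈ Ico s0 (s0 + a / 2)} := by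
  obtain ⟨n, hn, N1, h1⟩ := small_disp L i 10 hδ
  obtain ⟨N2, h2⟩ := core_window L i
  refine ⟨n, hn, max N1 N2, fun N hN l hl a ha => ⟨?_, ?_⟩⟩
  · obtain ⟨v, hv⟩ := h1 N ((le_max_left _ _).trans hN) l hl
    refine ⟨v, (measureReal_mono ?_ (measure_ne_top _ _)).trans hv⟩
    intro ω hω
    simp only [mem_setOf_eq] at hω ⊢
    have hw := wl_pos L i N
    refine lt_of_le_of_lt ?_ hω
    norm_num
    linarith
  · have hlN : l ≤ N := (Nat.le_mul_of_pos_left l hn).trans hl
    exact h2 N ((le_max_right _ _).trans hN) l hlN (a / 2) (by linarith)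

/-- the widths tend to infinity -/
lemma wl_large (L : LP P) (i : Fin 2) (M : ℝ) (hM : 1 ≤ M) : ∃ N0, ∀ N, N0 ≤ N → M ≤ wl L i N := by
  obtain ⟨l0, h0⟩ := tl_small L i (δ := 1 / M) (by positivity)
    (by rw [div_le_one (by linarith)]; exact hM)
  refine ⟨l0, fun N hN => ?_⟩
  have h1 := h0 N hN
  unfold wl
  rw [le_div_iff₀ (tl_pos L i N)]
  rw [lt_div_iff₀ (by linarith)] at h1
  linarith

end Crest.Agent.R154.StartLP872
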