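import Crest.Agent.R154.Home_903

/-! Row 154, HWPos (263's HOME MASS route): the elementary inputs of STAT (helper104): late failure
of one law with a test function, the forced step is home, no loss after a long time, numbers. -/

set_option autoImplicit false
set_option linter.unusedSectionVars false
set_option linter.deprecated false

namespace Crest.Agent.R154.StatIn104

open MeasureTheory ProbabilityTheory Set Filter
open Crest.Agent.R154.RatioR872 Crest.Agent.R154.RatioR872.KerSys Crest.Agent.R154.Home903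
open scoped ENNReal Classical

variable {S : Type*} [Countable S] {Ω : Type*} {m0 : MeasurableSpace Ω} {P : Measure Ω}
variable {A : KerSys S P}

/-- (L1) late failure of ONE law, constant threshold, any past-measurable test function -/
theorem late1 [IsFiniteMeasure P] {L s0 N : ℕ} (hs : s0 ≤ N) {Hm : S → S → Prop}
    {w : Ω → S → ℝ≥0∞} (hw : A.Wt L w) {B : Set Ω} (hB : MeasurableSet[A.F L] B)
    (htot : ∀ ω ∈ B, tot w ω = 1) {T : ℝ≥0∞} (hT0 : T ≠ 0) (hT1 : T ≠ ∞)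
    {Bd : S → Ω → ℝ≥0∞} {ν p : ℝ≥0∞} (hBm : ∀ x, Measurable[A.H L] (Bd x))
    (hBi : ∀ x ∈ A.L L, ∫⁻ ω, Bd x ω ∂P ≤ ν)
    (hBd : ∀ b, L ≤ b → b ≤ L + N → ∀ᵐ ω ∂P, ∀ x ∈ A.L L,
      ∑' y, (if Hm x y then 0 else A.G L b ω x y) * A.N b (L + N) ω y ≤ Bd x ω)
    (hp0 : p ≠ 0) (hp1 : p ≠ ∞) (hp : ∀ n, n ≤ N → p ≤ A.h n)
    {Z : Ω → ℝ≥0∞} (hZ : Measurable[A.F L] Z) :
    ∫⁻ ω in B ∩ {ω | 4 * T ≤ tot (A.push L (L + s0) w) ω ∧
        ∃ l, L + s0 ≤ l ∧ l ≤ L + N ∧ tot (rpush A Hm L l w) ω < T}, Z ω ∂P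
      ≤ ((A.h s0 - A.h N) / 2 + ν / p) / T * ∫⁻ ω in B, Z ω ∂P := by
  have hB0 : MeasurableSet B := A.F.le L _ hB
  set Lt : Set Ω := {ω | 4 * T ≤ tot (A.push L (L + s0) w) ω ∧
        ∃ l, L + s0 ≤ l ∧ l ≤ L + N ∧ tot (rpush A Hm L l w) ω < T} with hLt
  have hZ0 : Measurable Z := hZ.mono (A.F.le L) le_rfl
  -- truncated test functions
  have key : ∀ n : ℕ, ∫⁻ ω in B ∩ Lt, min (Z ω) n ∂P
      ≤ ((A.h s0 - A.h N) / 2 + ν / p) / T * ∫⁻ ω in B, Z ω ∂P := by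
    intro n
    set φ : Ω → ℝ≥0∞ := B.indicator fun ω => min (Z ω) n with hφ
    have hφm : Measurable[A.F L] φ := (hZ.min measurable_const).indicator hB
    have e1 : ∀ ω, φ ω * tot w ω = φ ω := by
      intro ω
      by_cases hω : ω ∈ B
      · rw [htot ω hω, mul_one]
      · simp [hφ, indicator_of_notMem hω]
    have hint : ∫⁻ ω, φ ω ∂P = ∫⁻ ω in B, min (Z ω) n ∂P := lintegral_indicator hB0 _
    have hfin : ∫⁻ ω, φ ω * tot w ω ∂P ≠ ∞ := by
      simp_rw [e1]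
      rw [hint]
      refine ne_top_of_le_ne_top (b := n * P B) (ENNReal.mul_ne_top (by simp) (measure_ne_top _ _)) ?_
      calc ∫⁻ ω in B, min (Z ω) n ∂P ≤ ∫⁻ _ in B, n ∂P := lintegral_mono fun ω => min_le_right _ _
        _ = n * P B := by rw [setLIntegral_const]
    have h := late (A := A) (a := L) (s := L + s0) (c := L + N) (Nat.le_add_right _ _) (by omega)
      (D := fun _ => Hm) hw hφm (T := fun _ => T) (@measurable_const _ _ _ (A.F L) _) hfin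
      (Bd := fun x => if x ∈ A.L L then Bd x else fun _ => ∞) (ν := ν) (p := p) ?_ ?_ ?_ hp0 hp1 ?_
    · have e2 : ∫⁻ ω in Lt, φ ω * T ∂P = (∫⁻ ω in B ∩ Lt, min (Z ω) n ∂P) * T := by
        rw [lintegral_mul_const' _ _ hT1]
        congr 1
        rw [hφ, lintegral_indicator hB0, Measure.restrict_restrict hB0]
      simp_rw [e1] at h
      rw [hint] at h
      have e3 : L + s0 - L = s0 := by omega
      have e4 : L + N - L = N := by omega
      rw [e3, e4] at h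
      rw [← ENNReal.mul_div_right_comm,
        ENNReal.le_div_iff_mul_le (Or.inl hT0) (Or.inl hT1), ← e2]
      refine h.trans ?_
      gcongr with ω
      exact min_le_left _ _
    · intro x
      by_cases hx : x ∈ A.L L
      · simp only [hx, if_true]; exact hBm x
      · simp only [hx, if_false]; exact @measurable_const _ _ _ (A.H L) _
    · intro x hx
      simp only [hx, if_true]; exact hBi x hx
    · intro b h1 h2
      filter_upwards [hBd b h1 h2] with ω hω x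
      by_cases hx : x ∈ A.L L
      · simp only [hx, if_true]; exact hω x hx
      · simp only [hx, if_false]; exact le_top
    · intro n hn
      exact hp n (by omega)
  have hmono : Monotone fun (n : ℕ) (ω : Ω) => min (Z ω) (n : ℝ≥0∞) := by
    intro a b hab ω
    exact min_le_min le_rfl (by exact_mod_cast hab)
  have hsup : ∀ ω, ⨆ n : ℕ, min (Z ω) (n : ℝ≥0∞) = Z ω := by
    intro ω
    refine le_antisymm (iSup_le fun n => min_le_left _ _) ?_
    refine le_of_forall_lt fun c hc => ?_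
    obtain ⟨n, hn⟩ := ENNReal.exists_nat_gt hc.ne_top
    exact lt_of_lt_of_le (lt_min hc hn) (le_iSup (fun n : ℕ => min (Z ω) (n : ℝ≥0∞)) n)
  calc ∫⁻ ω in B ∩ Lt, Z ω ∂P = ∫⁻ ω in B ∩ Lt, ⨆ n : ℕ, min (Z ω) (n : ℝ≥0∞) ∂P := by
        simp_rw [hsup]
    _ = ⨆ n : ℕ, ∫⁻ ω in B ∩ Lt, min (Z ω) (n : ℝ≥0∞) ∂P :=
        lintegral_iSup (fun n => hZ0.min measurable_const) hmono
    _ ≤ _ := iSup_le key

/-- (L2) with a small home tail the forced step is home -/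
theorem up_home [IsProbabilityMeasure P] {a N : ℕ} (hN : 1 ≤ N) {Hm : S → S → Prop} {up : S → S}
    {x : S} (hx : x ∈ A.L a) (hup : up x ∈ A.L (a + 1)) {κ0 : ℝ≥0∞}
    (hue : ∀ᵐ ω ∂P, κ0 ≤ A.G a (a + 1) ω x (up x)) {Bd : S → Ω → ℝ≥0∞} {ν p : ℝ≥0∞}
    (hBi : ∫⁻ ω, Bd x ω ∂P ≤ ν)
    (hBd : ∀ᵐ ω ∂P, ∀ x ∈ A.L a,
      ∑' y, (if Hm x y then 0 else A.G a (a + 1) ω x y) * A.N (a + 1) (a + N) ω y ≤ Bd x ω)
    (hp : p ≤ A.h (N - 1)) (hν : ν < κ0 * p) : Hm x (up x) := by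
  by_contra hH
  have h1 : κ0 * p ≤ ν := by
    calc κ0 * p ≤ κ0 * A.h (N - 1) := by gcongr
      _ = κ0 * ∫⁻ ω, A.N (a + 1) (a + N) ω (up x) ∂P := by
          have h2 := A.h_eq (a + 1) (a + N) (up x) (by omega) hup
          have e : a + N - (a + 1) = N - 1 := by omega
          rw [e] at h2
          rw [← h2]
          rfl
      _ ≤ ∫⁻ ω, κ0 * A.N (a + 1) (a + N) ω (up x) ∂P := by
          refine le_of_eq (lintegral_const_mul _ ?_).symm
          exact (A.meas_N_H (by omega) _).mono (A.H_le _) le_rfl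
      _ ≤ ∫⁻ ω, Bd x ω ∂P := by
          refine lintegral_mono_ae ?_
          filter_upwards [hue, hBd] with ω h3 h4
          refine le_trans ?_ (h4 x hx)
          refine le_trans ?_ (ENNReal.le_tsum (up x))
          rw [if_neg hH]
          gcongr
      _ ≤ ν := hBi
  exact absurd hν (not_lt.2 h1)

/-- (L3) a bounded antitone sequence loses nothing after a long time -/
theorem beta {h : ℕ → ℝ≥0∞} (hh : Antitone h) (hf : h 0 ≠ ∞) {β : ℝ≥0∞} (hβ : β ≠ 0) :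
    ∃ s : ℕ, ∀ s0, s ≤ s0 → ∀ N, h s0 - h N ≤ β := by
  have hlt : (⨅ n, h n) ≠ ∞ := ne_top_of_le_ne_top hf (iInf_le _ 0)
  obtain ⟨s, hs⟩ : ∃ s, h s < (⨅ n, h n) + β := by
    by_contra hcon
    push Not at hcon
    have h1 : (⨅ n, h n) + β ≤ ⨅ n, h n := le_iInf hcon
    exact absurd (ENNReal.lt_add_right hlt hβ) (not_lt.2 h1)
  refine ⟨s, fun s0 hs0 N => ?_⟩
  rw [tsub_le_iff_left]
  calc h s0 ≤ h s := hh hs0
    _ ≤ (⨅ n, h n) + β := hs.le
    _ ≤ h N + β := by gcongr; exact iInf_le _ _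

/-- (L4a) the threshold -/
theorem num1 {a : ℝ≥0∞} (ha : a ≠ ∞) {θ : ℝ} (hθ : 0 < θ) {η : ℝ≥0∞} (hη : η ≠ 0) :
    ∃ T : ℝ≥0∞, T ≠ 0 ∧ T ≤ 1 / 4 ∧ a * (4 * T) ^ θ ≤ η := by
  have hc : Tendsto (fun t : ℝ≥0∞ => a * t ^ θ) (nhds 0) (nhds (a * 0 ^ θ)) :=
    ENNReal.Tendsto.const_mul ((ENNReal.continuous_rpow_const).tendsto 0) (Or.inr ha)
  rw [ENNReal.zero_rpow_of_pos hθ, mul_zero] at hc
  have h1 := (hc.eventually (gt_mem_nhds (pos_iff_ne_zero.2 hη)))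
  obtain ⟨ε, hε, h2⟩ := ENNReal.nhds_zero_basis.eventually_iff.1 h1
  have hm : 0 < min ε 1 := lt_min hε one_pos
  obtain ⟨t, ht0, ht1⟩ := exists_between hm
  refine ⟨t / 4, ?_, ?_, ?_⟩
  · exact (ENNReal.div_pos ht0.ne' (by simp)).ne'
  · gcongr
    exact (ht1.trans_le (min_le_right _ _)).le
  · rw [ENNReal.mul_div_cancel (by simp) (by simp)]
    exact (h2 (show t ∈ Iio ε from ht1.trans_le (min_le_left _ _))).le

/-- (L4b) the late price -/
theorem num2 {b T p : ℝ≥0∞} (hb : b ≠ ∞) (hT : T ≠ 0) (hp : p ≠ 0) {η : ℝ≥0∞} (hη : η ≠ 0) :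
    ∃ β ν : ℝ≥0∞, β ≠ 0 ∧ ν ≠ 0 ∧ β ≠ ∞ ∧ ν ≠ ∞ ∧ b * ((β / 2 + ν / p) / T) ≤ η := by
  have hTi : T⁻¹ ≠ ∞ := ENNReal.inv_ne_top.2 hT
  have hpi : p⁻¹ ≠ ∞ := ENNReal.inv_ne_top.2 hp
  have h2i : (2 : ℝ≥0∞)⁻¹ ≠ ∞ := by simp
  have hc : Tendsto (fun t : ℝ≥0∞ => b * T⁻¹ * (2⁻¹ + p⁻¹) * t) (nhds 0)
      (nhds (b * T⁻¹ * (2⁻¹ + p⁻¹) * 0)) :=
    ENNReal.Tendsto.const_mul tendsto_id (Or.inr (by finiteness))
  rw [mul_zero] at hc
  have h1 := (hc.eventually (gt_mem_nhds (pos_iff_ne_zero.2 hη)))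
  obtain ⟨ε, hε, h2⟩ := ENNReal.nhds_zero_basis.eventually_iff.1 h1
  have hm : 0 < min ε 1 := lt_min hε one_pos
  obtain ⟨t, ht0, ht1⟩ := exists_between hm
  have htt : t ≠ ∞ := (ht1.trans_le le_top).ne
  refine ⟨t, t, ht0.ne', ht0.ne', htt, htt, ?_⟩
  have h3 := (h2 (show t ∈ Iio ε from ht1.trans_le (min_le_left _ _))).le
  refine le_trans (le_of_eq ?_) h3
  simp only [div_eq_mul_inv]
  ring

end Crest.Agent.R154.StatIn104
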