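import Crest.Agent.R154.DatK_220
import Crest.Agent.R154.EpStep_209
import Crest.Agent.R154.StatIn_104

/-! Row 154, d ≥ 3, `κ > 0`: **STAT on `kT`** (263's HOME MASS route, leaf L1): 209's epoch step fed
with the concrete inputs of 220 / 104 / 903 / 582, iterated by 12. -/

set_option autoImplicit false
set_option linter.unusedSectionVars false
set_option linter.deprecated false
set_option linter.unusedVariables false

namespace Crest.Agent.R154.Stat220

open MeasureTheory ProbabilityTheory Set Filter Crest.ProbabilityR.RandomEnvironment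
open Crest.Agent.R154.Ren263 hiding lev
open Crest.Agent.R154.Mk561 Crest.Agent.R154.Q561 Crest.Agent.R154.RatioR872
open Crest.Agent.R154.RatioR872.KerSys
open Crest.Agent.R154.Cols220 Crest.Agent.R154.DatK220
open Crest.Agent.R154.Flux132 (lev lev_add lev_neg lev_zero)
open scoped ENNReal Classical

variable {d : ℕ} {u : Step d} {R : ℕ} {κ : ℝ} {Q : Measure (Environment d)} [IsProbabilityMeasure Q]

/-- the forcing weight -/
noncomputable def k0 (d : ℕ) (κ : ℝ) : ℝ≥0∞ := ENNReal.ofReal (kf d κ)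

lemma k0_ne (hk : 0 < kf d κ) : k0 d κ ≠ 0 := by
  unfold k0
  rw [Ne, ENNReal.ofReal_eq_zero, not_le]
  exact hk

lemma k0_le_one (u : Step d) (Q : Measure (Environment d)) [IsProbabilityMeasure Q] :
    k0 d κ ≤ 1 := by
  have hne : (Set.univ : Set (Environment d)).Nonempty := by
    by_contra h
    rw [Set.not_nonempty_iff_eq_empty] at h
    have : Q (Set.univ) = 1 := measure_univ
    rw [h, measure_empty] at this
    exact zero_ne_one this
  obtain ⟨ω, -⟩ := hne
  have h := floor_pt u 0 κ (0 : Site d) 1 ω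
  rw [pow_one] at h
  exact h.trans (by unfold gk; exact prob_le_one)

lemma hn_anti : Antitone (hn u R κ Q) := by
  intro a b hab
  unfold hn
  refine measure_mono (ClA_anti u R ?_ (by exact_mod_cast hab))
  rw [Flux132.lev_zero]
  positivity

/-- **209's `Dat` on `kT`** -/
noncomputable def datK (F : Bind263.Frame Q κ R) (hk : 0 < kf d κ) {i : Fin d} (hi : i ≠ u.1)
    {α D : ℝ} {s0 N D0 k : ℕ} {ν p T K β : ℝ≥0∞} {g0 θ : ℝ}
    (hs1 : 1 ≤ s0) (hN : 4 * s0 < N)
    (hT : Doc74.TailH (D2Asm244.kT u R κ Q F.stat F.fin) (Doc74.ph (lat i) (lv u) α) N D ν)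
    (hν : ν < k0 d κ ^ (4 * s0)) (hs0 : s0 ≤ D0) (hg : ((2 * D0 + R + 2 : ℕ) : ℝ) ≤ g0)
    (hgD : g0 ≤ D) (hp0 : p ≠ 0) (hp : ∀ n, p ≤ hn u R κ Q n) (hT0 : T ≠ 0) (hT1 : T ≠ ∞)
    (hβ : ∀ N, hn u R κ Q s0 - hn u R κ Q N ≤ β)
    (hprod : ∀ (α : ℝ) (L : ℕ)
        (w : Fin k → Environment d → Site d → ℝ≥0∞) (B : Set (Environment d)),
        MeasurableSet[Fl u L] B →
        (∀ a, (D2Asm244.kT u R κ Q F.stat F.fin).Wt L (w a)) →
        (∀ ω ∈ B, ∀ a, tot (w a) ω = 1) →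
        (∀ ω ∈ B, ∀ a b, a ≠ b → ∀ x y, w a ω x ≠ 0 → w b ω y ≠ 0 →
          ((2 * D0 + R + 1 : ℕ) : ℝ) ≤ |Doc74.ph (lat i) (lv u) α x - Doc74.ph (lat i) (lv u) α y|) →
        ∀ Z : Environment d → ℝ≥0∞, Measurable[Fl u L] Z →
          ∫⁻ ω in B, Z ω * ∏ a, (∑' x, w a ω x * ∑' y, gcL u R κ D0 s0 L ω x y) ^ (-(2 * θ)) ∂Q
            ≤ K * ∫⁻ ω in B, Z ω ∂Q) :
    EpStep209.Dat (D2Asm244.kT u R κ Q F.stat F.fin) (Fin k) (Doc74.ph (lat i) (lv u) α) s0 N D D
      g0 θ (k0 d κ) (k0 d κ ^ s0) T K ((β / 2 + ν / p) / T) where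
  gc := gcL u R κ D0 s0
  Hm := Doc74.Hm (Doc74.ph (lat i) (lv u) α) D
  up y := y + stepVec u
  gc_meas := gcL_meas u R κ D0 s0
  gc_le := gcL_le u R κ D0 s0 F
  gc_pos L := Eventually.of_forall fun ω x hx => gcL_pos u R κ D0 s0 hx hs0 hk ω
  gc_Hm L ω x y h := by
    obtain ⟨h1, h2, h3⟩ := gcL_supp u R κ D0 s0 h
    have h4 := slope u R κ F hk hi hT (n := 4 * s0) (by omega) hν
    unfold Doc74.Hm Doc74.ph lat lv
    rw [h1, h2]
    push_cast at h4 ⊢
    have h5 : |(y i : ℝ) - x i| ≤ D0 + 1 := by exact_mod_cast h3 i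
    have e : (y i : ℝ) - α * ((L : ℝ) + s0) - ((x i : ℝ) - α * L)
        = ((y i : ℝ) - x i) - α * s0 := by ring
    rw [e]
    refine (abs_sub _ _).trans ?_
    rw [abs_mul, Nat.abs_cast]
    push_cast at hg
    have hR : (0 : ℝ) ≤ R := Nat.cast_nonneg R
    have hD0 : (0 : ℝ) ≤ D0 := Nat.cast_nonneg D0
    nlinarith
  Hm_disp x y h := h
  up_disp y := by
    have h1 : ν < k0 d κ := by
      refine hν.trans_le ?_
      calc k0 d κ ^ (4 * s0) ≤ k0 d κ ^ 1 := pow_le_pow_right_of_le_one' (k0_le_one u Q) (by omega)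
        _ = k0 d κ := pow_one _
    exact up_Hm u R κ F hk hi hT (by omega) h1 y
  ue l := Eventually.of_forall fun ω y hy => by
    have hy' : lev u y = l := hy
    change k0 d κ ≤ if lev u y = l then gk u R κ ((l + 1 : ℕ) : ℤ) ω y (y + stepVec u) else 0
    rw [if_pos hy']
    have h := floor_pt u R κ y 1 ω
    rw [pow_one, one_smul, hy'] at h
    push_cast at h ⊢
    exact h
  floor L l hl := Eventually.of_forall fun ω x hx => by
    have hx' : lev u x = L := hx
    have h4 := slope u R κ F hk hi hT (n := 4 * s0) (by omega) hν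
    have hH : Doc74.Hm (Doc74.ph (lat i) (lv u) α) D x (x + l • stepVec u) := by
      unfold Doc74.Hm Doc74.ph lat lv
      have h5 : stepVec u i = 0 := by
        rcases u with ⟨v, b⟩
        simp only [stepVec]
        exact Pi.single_eq_of_ne hi _
      have h6 : lev u (l • stepVec u) = l := by
        have h7 : lev u (stepVec u) = 1 := Flux132.lev_step_self u
        clear hl h4
        induction l with
        | zero => simp [Flux132.lev_zero]
        | succ l ih => rw [succ_nsmul, lev_add, ih, h7]; push_cast; rfl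
      rw [lev_add, h6, Pi.add_apply]
      simp only [Pi.smul_apply, h5, smul_zero, add_zero]
      push_cast
      have e : (x i : ℝ) - α * ((lev u x : ℝ) + l) - ((x i : ℝ) - α * lev u x) = -(α * l) := by
        ring
      rw [e, abs_neg, abs_mul, Nat.abs_cast]
      push_cast at h4
      have h8 : (l : ℝ) ≤ s0 := by exact_mod_cast hl
      have h9 : 0 ≤ |α| := abs_nonneg α
      have h10 : (0 : ℝ) ≤ s0 := Nat.cast_nonneg s0
      nlinarith
    refine le_trans ?_ (ENNReal.le_tsum (x + l • stepVec u))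
    rw [if_pos hH]
    change k0 d κ ^ s0 ≤ if lev u x = L then gk u R κ ((L + l : ℕ) : ℤ) ω x (x + l • stepVec u)
      else 0
    rw [if_pos hx']
    have h := floor_pt u R κ x l ω
    rw [hx'] at h
    push_cast at h ⊢
    exact (pow_le_pow_right_of_le_one' (k0_le_one u Q) hl).trans h
  prod L B w hS Z hZ := by
    refine hprod α L w B hS.1 hS.2.1 hS.2.2.1 (fun ω hω a b hab x y hx hy => ?_) Z hZ
    have h := hS.2.2.2 ω hω a b hab x y hx hy
    push_cast at hg ⊢
    simp only [zero_mul, zero_add] at h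
    linarith
  late L B w hB hW htot Z hZ := by
    obtain ⟨Bd, h1, h2, h3⟩ := hT L (L + N) (Nat.le_add_right _ _) le_rfl
    have hpt : p ≠ ∞ := ne_top_of_le_ne_top (measure_ne_top (mkAnn κ Q 0) _) (hp 0)
    have h := StatIn104.late1 (A := D2Asm244.kT u R κ Q F.stat F.fin) (L := L) (s0 := s0) (N := N)
      (by omega) (Hm := Doc74.Hm (Doc74.ph (lat i) (lv u) α) D) hW hB htot hT0 hT1 (Bd := Bd)
      (ν := ν) (p := p) h1 h2 (fun b hb1 hb2 => h3 b hb1 hb2) hp0 hpt (fun n _ => hp n) hZ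
    have hset : {ω | 4 * T ≤ tot ((D2Asm244.kT u R κ Q F.stat F.fin).push L (L + s0) w) ω ∧
        ∃ l ∈ Finset.Icc (L + s0) (L + N), tot (EpStep209.rp (D2Asm244.kT u R κ Q F.stat F.fin)
          (Doc74.Hm (Doc74.ph (lat i) (lv u) α) D) L l w) ω < T}
        ⊆ {ω | 4 * T ≤ tot ((D2Asm244.kT u R κ Q F.stat F.fin).push L (L + s0) w) ω ∧
        ∃ l, L + s0 ≤ l ∧ l ≤ L + N ∧ tot (Home903.rpush (D2Asm244.kT u R κ Q F.stat F.fin)
          (Doc74.Hm (Doc74.ph (lat i) (lv u) α) D) L l w) ω < T} := by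
      rintro ω ⟨ha, l, hl, hb⟩
      obtain ⟨hl1, hl2⟩ := Finset.mem_Icc.1 hl
      exact ⟨ha, l, hl1, hl2, hb⟩
    refine (lintegral_mono_set (inter_subset_inter_right B hset)).trans (h.trans ?_)
    gcongr
    exact hβ N

lemma tot_rp_self (F : Bind263.Frame Q κ R) {φ : Site d → ℝ} {D : ℝ} (hD : 0 ≤ D) {L : ℕ}
    {w : Environment d → Site d → ℝ≥0∞} (hw : (D2Asm244.kT u R κ Q F.stat F.fin).Wt L w)
    (ω : Environment d) :
    tot w ω ≤ tot (Home903.rpush (D2Asm244.kT u R κ Q F.stat F.fin) (Doc74.Hm φ D) L (L + 0) w) ω := by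
  unfold tot
  refine ENNReal.tsum_le_tsum fun x => ?_
  by_cases hx : w ω x = 0
  · rw [hx]; exact zero_le
  · have hx' : lev u x = L := by
      by_contra hne
      exact hx (hw.supp ω x hne)
    unfold Home903.rpush
    refine le_trans ?_ (ENNReal.le_tsum x)
    have hH : Doc74.Hm φ D x x := by unfold Doc74.Hm; simpa using hD
    rw [if_pos hH]
    have h : (1 : ℝ≥0∞) ≤ (D2Asm244.kT u R κ Q F.stat F.fin).G L (L + 0) ω x x := by
      change (1 : ℝ≥0∞) ≤ if lev u x = L then gk u R κ ((L + 0 : ℕ) : ℤ) ω x x else 0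
      rw [if_pos hx']
      have h2 := floor_pt u R κ x 0 ω
      rw [pow_zero, zero_smul, add_zero, hx'] at h2
      push_cast at h2 ⊢
      exact h2
    calc w ω x = w ω x * 1 := (mul_one _).symm
      _ ≤ _ := by gcongr

/-- **(L1) STAT on `kT`** -/
theorem stat_kT (F : Bind263.Frame Q κ R)
    (hA : annealedProb Q 0 (escapeEvent (B2d.dirVec u)) ≠ 0) (hk : 0 < kf d κ)
    {i : Fin d} (hi : i ≠ u.1) :
    Doc74.STAT (D2Asm244.kT u R κ Q F.stat F.fin) (lat i) (lv u) := by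
  obtain ⟨θ, hθ, K0, hK0, hprod⟩ := prod_kT u R κ F hA hk
  obtain ⟨p, hp0, hp⟩ := exists_p F u hA
  refine ⟨θ, hθ, fun k hk1 η hη hη4 => ?_⟩
  have hκ0 := k0_ne (d := d) hk
  have hκ1 : k0 d κ ≤ 1 := k0_le_one u Q
  have hκt : k0 d κ ≠ ∞ := ne_top_of_le_ne_top ENNReal.one_ne_top hκ1
  have hη2 : η / 2 ≠ 0 := (ENNReal.div_pos hη.ne' (by simp)).ne'
  obtain ⟨T, hT0, hT4, hT⟩ := StatIn104.num1 (a := K0 ^ k) (ENNReal.pow_ne_top hK0) hθ hη2
  have hT1 : T ≠ ∞ := ne_top_of_le_ne_top (by simp) hT4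
  have hκT : (k0 d κ * T) ^ k ≠ 0 := pow_ne_zero k (mul_ne_zero hκ0 hT0)
  have hb0 : ((k0 d κ * T) ^ k) ^ (-θ) ≠ ∞ := by
    rw [ENNReal.rpow_neg]
    refine ENNReal.inv_ne_top.2 ?_
    rw [Ne, ENNReal.rpow_eq_zero_iff, not_or]
    exact ⟨fun h => hκT h.1, fun h => by linarith [h.2]⟩
  obtain ⟨β, ν, hβ0, hν0, hβt, hνt, hβν⟩ := StatIn104.num2
    (b := ((k0 d κ * T) ^ k) ^ (-θ) * k) (T := T) (p := p)
    (ENNReal.mul_ne_top hb0 (ENNReal.natCast_ne_top k)) hT0 hp0 hη2
  obtain ⟨s1, hs1⟩ := StatIn104.beta (h := hn u R κ Q) hn_anti (measure_ne_top _ _) hβ0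
  set s0 : ℕ := max s1 1 with hs0
  have hs01 : 1 ≤ s0 := le_max_right _ _
  obtain ⟨D1, hD1⟩ := hprod s0
  set D0 : ℕ := max D1 s0 with hD0
  have hpw : k0 d κ ^ (4 * s0) ≠ 0 := pow_ne_zero _ hκ0
  have hpwt : k0 d κ ^ (4 * s0) ≠ ∞ := ENNReal.pow_ne_top hκt
  set ν' : ℝ≥0∞ := min ν (k0 d κ ^ (4 * s0) / 2) with hν'
  have hν'0 : ν' ≠ 0 := by
    rw [hν']
    exact (lt_min (pos_iff_ne_zero.2 hν0) (ENNReal.div_pos hpw (by simp))).ne'
  have hν'1 : ν' < k0 d κ ^ (4 * s0) :=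
    (min_le_right _ _).trans_lt (ENNReal.half_lt_self hpw hpwt)
  set κ1 : ℝ≥0∞ := k0 d κ ^ s0 with hκ1d
  have hκ10 : κ1 ≠ 0 := pow_ne_zero _ hκ0
  have hb1 : (κ1 ^ k) ^ (-θ) ≠ ∞ := by
    rw [ENNReal.rpow_neg]
    refine ENNReal.inv_ne_top.2 ?_
    rw [Ne, ENNReal.rpow_eq_zero_iff, not_or]
    exact ⟨fun h => pow_ne_zero k hκ10 h.1, fun h => by linarith [h.2]⟩
  set Ks : ℝ≥0∞ := max 1 (max (((k0 d κ * T) ^ k) ^ (-θ)) ((κ1 ^ k) ^ (-θ))) with hKs
  have hKst : Ks ≠ ∞ := by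
    rw [hKs]
    simp only [ne_eq, max_eq_top, ENNReal.one_ne_top, hb0, hb1, or_self, not_false_eq_true]
  set g0 : ℝ := ((2 * D0 + R + 2 : ℕ) : ℝ) with hg0
  refine ⟨Ks, ν', 4 * s0 + 1, g0, hKst, le_max_left _ _, hν'0, Nat.cast_nonneg _, ?_⟩
  intro N hN α D hgD hTl r s L n hnr w B hB hW htot hsep z
  have hD : 0 ≤ D := (Nat.cast_nonneg _).trans hgD
  have X := datK (k := k) (β := β) (K := K0 ^ k) (θ := θ) (g0 := g0) (D0 := D0) (s0 := s0) F hk hi
    hs01 (by omega) hTl hν'1 (le_max_right _ _) le_rfl hgD hp0 hp hT0 hT1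
    (fun N => hs1 s0 (le_max_left _ _) N)
    (fun α L w B h1 h2 h3 h4 Z hZ => by
      have h := hD1 D0 (le_max_left _ _) (Fin k) i α L w B h1 h2 h3 h4 Z hZ
      rwa [Fintype.card_fin] at h)
  have hδ : ((β / 2 + ν' / p) / T) ≤ ((β / 2 + ν / p) / T) := by
    gcongr
    exact min_le_left _ _
  have hep := X.epL (η := η) (Ks := Ks) hs01 (by omega) hθ hT0 hT1 hκ0 hκ10 hD hD
    (by
      rw [Fintype.card_fin]
      calc (4 * T) ^ θ * K0 ^ k
            + ((k0 d κ * T) ^ k) ^ (-θ) * (k * ((β / 2 + ν' / p) / T))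
          ≤ η / 2 + η / 2 := by
            refine add_le_add ?_ ?_
            · rw [mul_comm]; exact hT
            · refine le_trans ?_ hβν
              rw [← mul_assoc]
              gcongr
        _ = η := ENNReal.add_halves η)
    (by
      rw [Fintype.card_fin]
      exact (le_max_left _ _).trans (le_max_right _ _))
    (by
      rw [Fintype.card_fin]
      exact (le_max_right _ _).trans (le_max_right _ _))
  rcases Nat.eq_zero_or_pos n with hn0 | hn0
  · -- no level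
    subst hn0
    by_cases hz : z < 1
    · have hempty : B ∩ {ω | ∏ a, tot (Home903.rpush (D2Asm244.kT u R κ Q F.stat F.fin)
          (Doc74.Hm (Doc74.ph (lat i) (lv u) α) (2 * s * D)) L (L + 0) (w a)) ω ≤ z} = ∅ := by
        rw [Set.eq_empty_iff_forall_notMem]
        rintro ω ⟨hω, hωz⟩
        have h1 : (1 : ℝ≥0∞) ≤ ∏ a, tot (Home903.rpush (D2Asm244.kT u R κ Q F.stat F.fin)
          (Doc74.Hm (Doc74.ph (lat i) (lv u) α) (2 * s * D)) L (L + 0) (w a)) ω := by
          rw [← Finset.prod_const_one (s := (Finset.univ : Finset (Fin k)))]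
          refine Finset.prod_le_prod' fun a _ => ?_
          rw [← htot ω hω a]
          exact tot_rp_self F (by positivity) (hW a) ω
        exact absurd (h1.trans hωz) (not_le.2 hz)
      rw [hempty, measure_empty]
      exact zero_le
    · rw [not_lt] at hz
      refine (measure_mono inter_subset_left).trans ?_
      have h1 : (1 : ℝ≥0∞) ≤ (2 * Ks) ^ r * z ^ θ := by
        have h2 : (1 : ℝ≥0∞) ≤ 2 * Ks := by
          calc (1 : ℝ≥0∞) = 1 * 1 := (one_mul 1).symm
            _ ≤ 2 * Ks := mul_le_mul' (by norm_num) (le_max_left _ _)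
        calc (1 : ℝ≥0∞) = 1 * 1 := (one_mul 1).symm
          _ ≤ (2 * Ks) ^ r * z ^ θ :=
            mul_le_mul' (one_le_pow₀ h2) (ENNReal.one_le_rpow hz hθ)
      calc Q B = 1 * Q B := (one_mul _).symm
        _ ≤ _ := by
          gcongr
          exact h1.trans le_self_add
  · have hSt : EpStep209.St (D2Asm244.kT u R κ Q F.stat F.fin) (Doc74.ph (lat i) (lv u) α)
        (2 * (D + D)) g0 L s B w := by
      refine ⟨hB, hW, htot, fun ω hω a b hab x y hx hy => ?_⟩
      have h := hsep ω hω a b hab x y hx hy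
      linarith
    have h := Units12.unitsL_const hep hθ hη.ne' (hη4.trans
        (ENNReal.div_le_div_left (by norm_num) 1)) (by omega) (le_max_left _ _)
      (fun s x y z h1 h2 => by
        have e : (Doc74.ph (lat i) (lv u) α) z - (Doc74.ph (lat i) (lv u) α) x
            = ((Doc74.ph (lat i) (lv u) α) z - (Doc74.ph (lat i) (lv u) α) y)
              + ((Doc74.ph (lat i) (lv u) α) y - (Doc74.ph (lat i) (lv u) α) x) := by ring
        change |_| ≤ _
        rw [e]
        refine (abs_add_le _ _).trans ?_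
        push_cast at h1 h2 ⊢
        linarith)
      (fun s x y h1 => by
        change |_| ≤ _ at h1
        change |_| ≤ _
        refine h1.trans ?_
        push_cast
        have : (0 : ℝ) ≤ s := Nat.cast_nonneg s
        nlinarith)
      s r L n hn0 hnr B w hSt z
    have e : (fun x y => |Doc74.ph (lat i) (lv u) α y - Doc74.ph (lat i) (lv u) α x|
        ≤ (s : ℝ) * (D + D)) = Doc74.Hm (Doc74.ph (lat i) (lv u) α) (2 * s * D) := by
      funext x y
      unfold Doc74.Hm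
      rw [show (s : ℝ) * (D + D) = 2 * s * D by ring]
    simp only [e] at h
    exact h

end Crest.Agent.R154.Stat220
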