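import Crest.Agent.R154.MobL_437

/-!
# Row 154, HM6: an irregular octave gives a jump, around every centre

`spread`: `P(|U l i - c| > wl l / 20) ≥ 1/800` for every `c`.
`jump_Sl`: `Sl > A₀` ⇒ jump over `128 l` levels of size `2 ^ A₀ * wl l / 3600`.
`jump_wl`: `wl (M l) > B wl l` ⇒ jump over `M l` levels of size `B * wl l / 20`.
`move`: upper quantile over `l` levels: `P(|U l i - c₁| > 9 wl (m l)) ≤ 6 / (100 m)`.
`one_side` : one side of the centre has half of the mass of the jump.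
-/

set_option autoImplicit false
set_option linter.unusedSectionVars false
set_option linter.unusedVariables false

namespace Crest.Agent.R154.Jump719

open MeasureTheory Filter Set Crest.Agent.R154.B4 Crest.Agent.R154.MobW437
open scoped ENNReal Topology ComplexConjugate

variable {Ω : Type*} [mΩ : MeasurableSpace Ω] {P : Measure Ω} [IsProbabilityMeasure P]

/-- **spread of one level** around every centre -/
theorem spread (L : LP P) (i : Fin 2) : ∃ l0, ∀ l, l0 ≤ l → ∀ c : ℝ,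
    1 / 800 ≤ P.real {ω | wl L i l / 20 < |L.U l ω i - c|} := by
  obtain ⟨l0, h0⟩ := tl_small L i (δ := 1) (by norm_num) le_rfl
  refine ⟨l0, fun l hl c => ?_⟩
  have hedge := edge_eq L i l (h0 l hl)
  have h1 := spread_Z (P := P) (meas_U L l) i (tl_pos L i l) hedge
  have e : 2 * (wl L i l / 20) = 1 / tl L i l / 10 := by unfold wl; ring
  have h2 := spread_point (P := P) (meas_U L l) i (wl L i l / 20) (ε := 1 / 400)
    (by rw [e]; exact h1) c
  calc (1 / 800 : ℝ) = 1 / 400 / 2 := by norm_num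
    _ ≤ _ := h2

/-- `Sl > A₀` ⇒ jump over `128 l` levels -/
theorem jump_Sl (L : LP P) (i : Fin 2) : ∃ l0, ∀ l, l0 ≤ l → ∀ A₀ : ℕ, A₀ < Sl L i l → ∀ c : ℝ,
    1 / 800 ≤ P.real {ω | 2 ^ A₀ / 3600 * wl L i l < |L.U (128 * l) ω i - c|} := by
  obtain ⟨l0, h0⟩ := spread L i
  refine ⟨l0, fun l hl A₀ hA c => ?_⟩
  have hw := wl_pos L i l
  have hw' := wl_pos L i (128 * l)
  have hR : (0 : ℝ) < 180 * (wl L i (128 * l) / wl L i l) := by positivity
  have h1 : (A₀ : ℝ) < Real.logb 2 (180 * (wl L i (128 * l) / wl L i l)) := by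
    unfold Sl at hA
    exact Nat.lt_ceil.1 hA
  have h2 : (2 : ℝ) ^ A₀ < 180 * (wl L i (128 * l) / wl L i l) := by
    rw [Real.lt_logb_iff_rpow_lt (by norm_num) hR, Real.rpow_natCast] at h1
    exact h1
  have h3 : 2 ^ A₀ / 3600 * wl L i l ≤ wl L i (128 * l) / 20 := by
    have h4 : (2 : ℝ) ^ A₀ * wl L i l < 180 * wl L i (128 * l) := by
      have h5 := mul_lt_mul_of_pos_right h2 hw
      have e : 180 * (wl L i (128 * l) / wl L i l) * wl L i l = 180 * wl L i (128 * l) := by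
        field_simp
      rw [e] at h5
      exact h5
    linarith
  refine (h0 (128 * l) (by omega) c).trans (measureReal_mono ?_ (measure_ne_top _ _))
  intro ω hω
  exact lt_of_le_of_lt h3 hω

/-- fast growth ⇒ jump over `M l` levels -/
theorem jump_wl (L : LP P) (i : Fin 2) : ∃ l0, ∀ l, l0 ≤ l → ∀ (M : ℕ) (B : ℝ), 1 ≤ M →
    B * wl L i l < wl L i (M * l) → ∀ c : ℝ,
    1 / 800 ≤ P.real {ω | B / 20 * wl L i l < |L.U (M * l) ω i - c|} := by
  obtain ⟨l0, h0⟩ := spread L i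
  refine ⟨l0, fun l hl M B hM hB c => ?_⟩
  refine (h0 (M * l) (hl.trans (Nat.le_mul_of_pos_left l hM)) c).trans
    (measureReal_mono ?_ (measure_ne_top _ _))
  intro ω hω
  have hω' : wl L i (M * l) / 20 < |L.U (M * l) ω i - c| := hω
  show B / 20 * wl L i l < |L.U (M * l) ω i - c|
  linarith

/-- **HM6**: a non-regular octave gives a jump (`128 l` or `M l` levels) around every centre. -/
theorem jump_of_irr (L : LP P) (i : Fin 2) : ∃ l0, ∀ l, l0 ≤ l → ∀ (A₀ M : ℕ) (B : ℝ), 1 ≤ M →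
    ¬ (Sl L i l ≤ A₀ ∧ wl L i (M * l) ≤ B * wl L i l) →
    (∀ c : ℝ, 1 / 800 ≤ P.real {ω | 2 ^ A₀ / 3600 * wl L i l < |L.U (128 * l) ω i - c|}) ∨
    (∀ c : ℝ, 1 / 800 ≤ P.real {ω | B / 20 * wl L i l < |L.U (M * l) ω i - c|}) := by
  obtain ⟨l1, h1⟩ := jump_Sl L i
  obtain ⟨l2, h2⟩ := jump_wl L i
  refine ⟨max l1 l2, fun l hl A₀ M B hM h => ?_⟩
  by_cases hS : Sl L i l ≤ A₀
  · right
    have hB : B * wl L i l < wl L i (M * l) := by
      by_contra hcon
      exact h ⟨hS, not_lt.1 hcon⟩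
    exact h2 l ((le_max_right _ _).trans hl) M B hM hB
  · left
    exact h1 l ((le_max_left _ _).trans hl) A₀ (not_le.1 hS)

/-- one of the two sides has half of the mass -/
theorem one_side {Δ : Ω → V} (hΔ : Measurable Δ) (i : Fin 2) {r c π : ℝ}
    (h : π ≤ P.real {ω | r < |Δ ω i - c|}) :
    π / 2 ≤ P.real {ω | c + r < Δ ω i} ∨ π / 2 ≤ P.real {ω | Δ ω i < c - r} := by
  by_contra hcon
  push Not at hcon
  have hsub : {ω | r < |Δ ω i - c|} ⊆ {ω | c + r < Δ ω i} ∪ {ω | Δ ω i < c - r} := by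
    intro ω hω
    rcases lt_abs.1 (show r < |Δ ω i - c| from hω) with h1 | h1
    · exact Or.inl (by show c + r < Δ ω i; linarith)
    · exact Or.inr (by show Δ ω i < c - r; linarith)
  have h1 := (measureReal_mono hsub (measure_ne_top _ _)).trans
    (measureReal_union_le (μ := P) _ _)
  linarith [hcon.1, hcon.2]

/-- the thresholds of `nfold` up to multiple `n` -/
theorem nf_all (L : LP P) (i : Fin 2) (n : ℕ) :
    ∃ l0, ∀ l, l0 ≤ l → ∀ m, 1 ≤ m → m ≤ n → Nf L i m l := by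
  induction n with
  | zero => exact ⟨0, fun l _ m h1 h2 => by omega⟩
  | succ N ih =>
    obtain ⟨l1, h1⟩ := ih
    obtain ⟨l2, h2⟩ := nfold L i (N + 1) (by omega)
    refine ⟨max l1 l2, fun l hl m hm1 hm2 => ?_⟩
    rcases Nat.lt_or_ge N m with h3 | h3
    · have : m = N + 1 := by omega
      rw [this]; exact h2 l ((le_max_right _ _).trans hl)
    · exact h1 l ((le_max_left _ _).trans hl) m hm1 h3

/-- **small displacement at scale `wl (m l)`** over `l` levels, for one centre: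
`P(|U l i - c₁| > 2 wl (m l)) ≤ 6 / (100 m)` -/
theorem move (L : LP P) (i : Fin 2) (m : ℕ) (hm : 1 ≤ m) : ∃ l0, ∀ l, l0 ≤ l →
    ∃ c1 : ℝ, P.real {ω | 2 * wl L i (m * l) < |L.U l ω i - c1|} ≤ 6 / (100 * m) := by
  obtain ⟨l0, h0⟩ := nf_all L i m
  refine ⟨l0, fun l hl => ?_⟩
  have hN := h0 l hl m hm le_rfl
  have hw := wl_pos L i (m * l)
  have hmr : (1 : ℝ) ≤ m := by exact_mod_cast hm
  have h1 := tail_Z (P := P) (meas_U L l) i (r := 2 * wl L i (m * l)) (ε := 3 / (100 * m))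
    (by positivity) (by
      intro t ht
      refine hN t (ht.trans (le_of_eq ?_))
      have hp := tl_pos L i (m * l)
      unfold wl
      field_simp)
  obtain ⟨y, hy⟩ := exists_center (P := P) (meas_U L l) i _ h1
  refine ⟨y, hy.trans (le_of_eq ?_)⟩
  ring

end Crest.Agent.R154.Jump719
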