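import Crest.Agent.R154.TailPow_736
import Crest.Agent.R154.HomeDoc_74
import Crest.Agent.R154.Jump_719
import Crest.Agent.R154.JumpK_618

/-! Row 154, HOME doc (263), HM6: `TailH` and `JumpTail` of the contract file `HomeDoc_74` on the
kernel systems of the natural climbs. -/

set_option autoImplicit false
set_option linter.unusedSectionVars false
set_option linter.deprecated false

namespace Crest.Agent.R154.Home736

open MeasureTheory ProbabilityTheory Set Filter Crest.ProbabilityR.RandomEnvironment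
open Crest.Agent.R154.Mk561 Crest.Agent.R154.Q561
open Crest.Agent.R154.RatioR872 Crest.Agent.R154.RatioR872.KerSys Crest.Agent.R154.Bd736
open Crest.Agent.R154.Flux132 (lev lev_add lev_neg lev_zero)
open Crest.Agent.R154.Bind263 (Frame)
open Crest.Agent.R154.B4Inst797 (Nat0 natLaw lat lat_add UU lp Hit)
open Crest.Agent.R154.MobW437 (wl Sl meas_U)
open Crest.Agent.R154.D2Asm244 (kT)
open Crest.Agent.R154.B4 (LP)
open scoped ENNReal

/-- conversion to the letters of `HomeDoc_74` -/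
lemma TailH.doc {S : Type*} [Countable S] {Ω : Type*} {m0 : MeasurableSpace Ω} {P : Measure Ω}
    {A : KerSys S P} {φ : S → ℝ} {N : ℕ} {D : ℝ} {ν : ℝ≥0∞} (h : TailH A φ N D ν) :
    Doc74.TailH A φ N D ν := by
  classical
  intro a c hac hc
  obtain ⟨Bd, h1, h2, h3⟩ := h a c hac hc
  refine ⟨Bd, h1, h2, fun b hab hbc => ?_⟩
  filter_upwards [h3 b hab hbc] with ω hω x hx
  refine le_trans (le_of_eq ?_) (hω x hx)
  refine tsum_congr fun y => ?_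
  by_cases h4 : |φ y - φ x| ≤ D
  · have h5 : Doc74.Hm φ D x y := h4
    rw [if_pos h5, if_pos h4]
  · have h5 : ¬ Doc74.Hm φ D x y := h4
    rw [if_neg h5, if_neg h4]

variable {d : ℕ} {Q : Measure (Environment d)} [IsProbabilityMeasure Q] {κ : ℝ} {R : ℕ}

/-- the lateral coordinate as a real function -/
def latR (i1 i2 : Fin d) (i : Fin 2) (x : Site d) : ℝ := lat i1 i2 x i

/-- the level as a real function -/
def levR (u : Step d) (x : Site d) : ℝ := (lev u x : ℝ)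

lemma ph_doc (u : Step d) (i1 i2 : Fin d) (i : Fin 2) (α : ℝ) :
    ph u i1 i2 i α = Doc74.ph (latR i1 i2 i) (levR u) α := rfl

/-- **(HM6a)** both home tails with one slope, letters of `HomeDoc_74` -/
theorem tail_doc (F : Frame Q κ R) (u : Step d) {i1 i2 : Fin d} (h1 : i1 ≠ u.1)
    (h2 : i2 ≠ u.1) (h12 : i1 ≠ i2) (hc : mkAnn κ Q 0 (Nat0 u R) ≠ 0) (i : Fin 2)
    (K : ℕ → ℕ → Site d → Site d → ℝ≥0∞) (hK) {ν : ℝ} (hν : 0 < ν) :
    ∃ a0 : ℕ, ∀ a, a0 ≤ a → ∃ α : ℕ → ℝ, (∃ n0 : ℕ, ∀ n, n0 ≤ n →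
        Doc74.TailH (kerSys u R κ Q F.stat F.fin K hK) (Doc74.ph (latR i1 i2 i) (levR u) (α n))
          (2 ^ (n - a)) (180 * wl (lp F u h1 h2 h12 hc) i (2 ^ n)) (ENNReal.ofReal ν)) ∧
      ∀ ν' : ℝ, 0 < ν' → ∃ b0 : ℕ, ∀ b, b0 ≤ b → ∃ n1 : ℕ, ∀ n, n1 ≤ n →
        Doc74.TailH (kerSys u R κ Q F.stat F.fin K hK) (Doc74.ph (latR i1 i2 i) (levR u) (α n))
          (2 ^ (n - b)) (540 * wl (lp F u h1 h2 h12 hc) i (2 ^ n)) (ENNReal.ofReal ν') := by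
  obtain ⟨a0, h⟩ := tail_pow F u h1 h2 h12 hc i K hK hν
  refine ⟨a0, fun a ha => ?_⟩
  obtain ⟨α, ⟨n0, h3⟩, h4⟩ := h a ha
  refine ⟨α, ⟨n0, fun n hn => (h3 n hn).doc⟩, fun ν' hν' => ?_⟩
  obtain ⟨b0, h5⟩ := h4 ν' hν'
  refine ⟨b0, fun b hb => ?_⟩
  obtain ⟨n1, h6⟩ := h5 b hb
  exact ⟨n1, fun n hn => (h6 n hn).doc⟩

/-- `tail_doc` on `kT` -/
theorem tail_doc_kT (F : Frame Q κ R) (u : Step d) {i1 i2 : Fin d} (h1 : i1 ≠ u.1)
    (h2 : i2 ≠ u.1) (h12 : i1 ≠ i2) (hc : mkAnn κ Q 0 (Nat0 u R) ≠ 0) (i : Fin 2)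
    {ν : ℝ} (hν : 0 < ν) :
    ∃ a0 : ℕ, ∀ a, a0 ≤ a → ∃ α : ℕ → ℝ, (∃ n0 : ℕ, ∀ n, n0 ≤ n →
        Doc74.TailH (kT u R κ Q F.stat F.fin) (Doc74.ph (latR i1 i2 i) (levR u) (α n))
          (2 ^ (n - a)) (180 * wl (lp F u h1 h2 h12 hc) i (2 ^ n)) (ENNReal.ofReal ν)) ∧
      ∀ ν' : ℝ, 0 < ν' → ∃ b0 : ℕ, ∀ b, b0 ≤ b → ∃ n1 : ℕ, ∀ n, n1 ≤ n →
        Doc74.TailH (kT u R κ Q F.stat F.fin) (Doc74.ph (latR i1 i2 i) (levR u) (α n))
          (2 ^ (n - b)) (540 * wl (lp F u h1 h2 h12 hc) i (2 ^ n)) (ENNReal.ofReal ν') :=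
  tail_doc F u h1 h2 h12 hc i _ _ hν

/-- the natural path hits the level `n` with displacement in `D`: it is a marked climb -/
lemma hD_ge (F : Frame Q κ R) (u : Step d) (hc : mkAnn κ Q 0 (Nat0 u R) ≠ 0) (D : Set (Site d))
    (n : ℕ) {E : Set (MPath d)} (hE : ∀ s ∈ E, ∀ m, Hit u n m s → pos 0 s m ∈ D) {π : ℝ≥0∞}
    (h : π ≤ natLaw κ Q u R E) :
    π * mkAnn κ Q 0 (Nat0 u R) ≤ JumpK618.hD u R κ Q D n := by
  have hfin : mkAnn κ Q 0 (Nat0 u R) ≠ ∞ := measure_ne_top _ _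
  have h1 : π * mkAnn κ Q 0 (Nat0 u R) ≤ mkAnn κ Q 0 (Nat0 u R ∩ E) := by
    calc π * mkAnn κ Q 0 (Nat0 u R)
        ≤ natLaw κ Q u R E * mkAnn κ Q 0 (Nat0 u R) := by gcongr
      _ = mkAnn κ Q 0 (Nat0 u R ∩ E) := by
        rw [B4Inst797.natLaw_apply, mul_comm, ← mul_assoc, ENNReal.mul_inv_cancel hc hfin, one_mul]
  refine h1.trans ?_
  calc mkAnn κ Q 0 (Nat0 u R ∩ E)
      ≤ mkAnn κ Q 0 (JumpK618.ClD u R D 0 n ∪ (Nat0 u R ∩ {s | ∀ m, ¬ Hit u n m s})) := by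
        refine measure_mono fun s hs => ?_
        by_cases hex : ∃ m, Hit u n m s
        · obtain ⟨m, hm⟩ := hex
          refine Or.inl ⟨m, nat_hit_mem u hs.1 hm, ?_⟩
          rw [sub_zero]
          exact hE s hs.2 m hm
        · exact Or.inr ⟨hs.1, fun m hm => hex ⟨m, hm⟩⟩
    _ ≤ mkAnn κ Q 0 (JumpK618.ClD u R D 0 n) + mkAnn κ Q 0 (Nat0 u R ∩ {s | ∀ m, ¬ Hit u n m s}) :=
        measure_union_le _ _
    _ = JumpK618.hD u R κ Q D n := by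
        rw [B4Inst797.nat_hit F u n, add_zero]; rfl

/-- **JumpTail** on the kernel systems, from a tail of the natural law -/
theorem jumpTail_of (F : Frame Q κ R) (u : Step d) (hc : mkAnn κ Q 0 (Nat0 u R) ≠ 0)
    (K : ℕ → ℕ → Site d → Site d → ℝ≥0∞) (hK) {φ : Site d → ℝ}
    (hφ : ∀ x y, φ y - φ x = φ (y - x)) {n : ℕ} {Δ : ℝ} {π : ℝ≥0∞} {E : Set (MPath d)}
    (hE : ∀ s ∈ E, ∀ m, Hit u n m s → Δ ≤ φ (pos 0 s m)) (h : π ≤ natLaw κ Q u R E) :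
    Doc74.JumpTail (kerSys u R κ Q F.stat F.fin K hK) φ n Δ (π * mkAnn κ Q 0 (Nat0 u R)) := by
  classical
  intro a x hx
  have hx' : lev u x = a := hx
  have e : ∀ ω, ∑' y, (if Doc74.Jp φ Δ x y then
      (kerSys u R κ Q F.stat F.fin K hK).G a (a + n) ω x y else 0)
      = JumpK618.Nd u R κ {z | Δ ≤ φ z} ((a + n : ℕ) : ℤ) ω x := by
    intro ω
    unfold JumpK618.Nd
    refine tsum_congr fun y => ?_
    have e1 : (kerSys u R κ Q F.stat F.fin K hK).G a (a + n) ω x y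
        = gk u R κ ((a + n : ℕ) : ℤ) ω x y := by
      change (if lev u x = (a : ℤ) then gk u R κ ((a + n : ℕ) : ℤ) ω x y else 0) = _
      rw [if_pos hx']
    rw [e1]
    by_cases h4 : Δ ≤ φ y - φ x
    · have h5 : Doc74.Jp φ Δ x y := h4
      have h6 : y - x ∈ {z | Δ ≤ φ z} := by rw [hφ] at h4; exact h4
      rw [if_pos h5, if_pos h6]
    · have h5 : ¬ Doc74.Jp φ Δ x y := h4
      have h6 : y - x ∉ {z | Δ ≤ φ z} := by rw [hφ] at h4; exact h4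
      rw [if_neg h5, if_neg h6]
  have e2 : ∫⁻ ω, ∑' y, (if Doc74.Jp φ Δ x y then
      (kerSys u R κ Q F.stat F.fin K hK).G a (a + n) ω x y else 0) ∂Q
      = ∫⁻ ω, JumpK618.Nd u R κ {z | Δ ≤ φ z} ((a + n : ℕ) : ℤ) ω x ∂Q :=
    lintegral_congr e
  refine le_trans ?_ (le_of_eq e2.symm)
  rw [JumpK618.first_mark u R κ Q F.stat {z | Δ ≤ φ z} (a := a) (b := a + n) (by omega) hx',
    Nat.add_sub_cancel_left]
  exact hD_ge F u hc _ n hE h

lemma phd_sub (u : Step d) (i1 i2 : Fin d) (i : Fin 2) (α : ℝ) (x y : Site d) :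
    Doc74.ph (latR i1 i2 i) (levR u) α y - Doc74.ph (latR i1 i2 i) (levR u) α x
      = Doc74.ph (latR i1 i2 i) (levR u) α (y - x) := ph_sub u i1 i2 i α x y

lemma phn_sub (u : Step d) (i1 i2 : Fin d) (i : Fin 2) (α : ℝ) (x y : Site d) :
    Doc74.ph (fun x => - latR i1 i2 i x) (levR u) (-α) y
        - Doc74.ph (fun x => - latR i1 i2 i x) (levR u) (-α) x
      = Doc74.ph (fun x => - latR i1 i2 i x) (levR u) (-α) (y - x) := by
  rw [Doc74.ph_neg, Doc74.ph_neg, Doc74.ph_neg, ← phd_sub]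
  ring

/-- one side of the centre `α n` -/
theorem jumpTail_side (F : Frame Q κ R) (u : Step d) {i1 i2 : Fin d} (h1 : i1 ≠ u.1)
    (h2 : i2 ≠ u.1) (h12 : i1 ≠ i2) (hc : mkAnn κ Q 0 (Nat0 u R) ≠ 0) (i : Fin 2)
    (K : ℕ → ℕ → Site d → Site d → ℝ≥0∞) (hK) {n : ℕ} {r π : ℝ}
    (h : ∀ c : ℝ, π ≤ (natLaw κ Q u R).real
      {ω | r < |(lp F u h1 h2 h12 hc).U n ω i - c|}) (α : ℝ) :
    Doc74.JumpTail (kerSys u R κ Q F.stat F.fin K hK) (Doc74.ph (latR i1 i2 i) (levR u) α) n r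
        (ENNReal.ofReal (π / 2) * mkAnn κ Q 0 (Nat0 u R)) ∨
      Doc74.JumpTail (kerSys u R κ Q F.stat F.fin K hK)
        (Doc74.ph (fun x => - latR i1 i2 i x) (levR u) (-α)) n r
        (ENNReal.ofReal (π / 2) * mkAnn κ Q 0 (Nat0 u R)) := by
  have := B4Inst797.natLaw_isProb (κ := κ) (Q := Q) (R := R) (u := u) hc
  have hval : ∀ s m, Hit u n m s →
      (lp F u h1 h2 h12 hc).U n s i = latR i1 i2 i (pos 0 s m) ∧
      levR u (pos 0 s m) = n := by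
    intro s m hm
    refine ⟨?_, ?_⟩
    · change UU u i1 i2 n s i = _
      rw [(B4Inst797.hit_eq i1 i2 hm).2]; rfl
    · unfold levR
      rw [lev_pos_eq, lev_zero, zero_add, hm.1]
      simp
  have hreal : ∀ {E : Set (MPath d)} {π' : ℝ}, π' ≤ (natLaw κ Q u R).real E →
      ENNReal.ofReal π' ≤ natLaw κ Q u R E := by
    intro E π' h'
    rw [← ENNReal.ofReal_toReal (measure_ne_top (natLaw κ Q u R) E)]
    exact ENNReal.ofReal_le_ofReal h'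
  rcases Jump719.one_side (P := natLaw κ Q u R) (meas_U (lp F u h1 h2 h12 hc) n) i (h (α * n))
    with h3 | h3
  · left
    refine jumpTail_of F u hc K hK (phd_sub u i1 i2 i α) ?_ (hreal h3)
    intro s hs m hm
    obtain ⟨e1, e2⟩ := hval s m hm
    have hs' : α * n + r < (lp F u h1 h2 h12 hc).U n s i := hs
    unfold Doc74.ph
    rw [e2, ← e1]
    linarith
  · right
    refine jumpTail_of F u hc K hK (phn_sub u i1 i2 i α) ?_ (hreal h3)
    intro s hs m hm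
    obtain ⟨e1, e2⟩ := hval s m hm
    have hs' : (lp F u h1 h2 h12 hc).U n s i < α * n - r := hs
    rw [Doc74.ph_neg]
    unfold Doc74.ph
    rw [e2, ← e1]
    linarith

/-- **(HM6b/c)** an irregular octave gives `JumpTail`, for every slope, on one of the two sides,
over `128 l` or `M l` levels, with a universal `π` -/
theorem jumpTail_irr (F : Frame Q κ R) (u : Step d) {i1 i2 : Fin d} (h1 : i1 ≠ u.1)
    (h2 : i2 ≠ u.1) (h12 : i1 ≠ i2) (hc : mkAnn κ Q 0 (Nat0 u R) ≠ 0) (i : Fin 2)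
    (K : ℕ → ℕ → Site d → Site d → ℝ≥0∞) (hK) :
    ∃ π : ℝ≥0∞, π ≠ 0 ∧ π ≤ 1 ∧ ∃ l0 : ℕ, ∀ l, l0 ≤ l → ∀ (A₀ M : ℕ) (B : ℝ), 1 ≤ M →
      ¬ (Sl (lp F u h1 h2 h12 hc) i l ≤ A₀ ∧
        wl (lp F u h1 h2 h12 hc) i (M * l) ≤ B * wl (lp F u h1 h2 h12 hc) i l) →
      (∀ α : ℝ, Doc74.JumpTail (kerSys u R κ Q F.stat F.fin K hK)
            (Doc74.ph (latR i1 i2 i) (levR u) α) (128 * l)
            (2 ^ A₀ / 3600 * wl (lp F u h1 h2 h12 hc) i l) π ∨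
          Doc74.JumpTail (kerSys u R κ Q F.stat F.fin K hK)
            (Doc74.ph (fun x => - latR i1 i2 i x) (levR u) (-α)) (128 * l)
            (2 ^ A₀ / 3600 * wl (lp F u h1 h2 h12 hc) i l) π) ∨
      (∀ α : ℝ, Doc74.JumpTail (kerSys u R κ Q F.stat F.fin K hK)
            (Doc74.ph (latR i1 i2 i) (levR u) α) (M * l)
            (B / 20 * wl (lp F u h1 h2 h12 hc) i l) π ∨
          Doc74.JumpTail (kerSys u R κ Q F.stat F.fin K hK)
            (Doc74.ph (fun x => - latR i1 i2 i x) (levR u) (-α)) (M * l)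
            (B / 20 * wl (lp F u h1 h2 h12 hc) i l) π) := by
  have := B4Inst797.natLaw_isProb (κ := κ) (Q := Q) (R := R) (u := u) hc
  obtain ⟨l0, hl0⟩ := Jump719.jump_of_irr (lp F u h1 h2 h12 hc) i
  refine ⟨ENNReal.ofReal (1 / 800 / 2) * mkAnn κ Q 0 (Nat0 u R), mul_ne_zero ?_ hc, ?_, l0,
    fun l hl A₀ M B hM hirr => ?_⟩
  · simp only [ne_eq, ENNReal.ofReal_eq_zero, not_le]; norm_num
  · calc ENNReal.ofReal (1 / 800 / 2) * mkAnn κ Q 0 (Nat0 u R) ≤ 1 * 1 := by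
          gcongr
          · rw [← ENNReal.ofReal_one]; exact ENNReal.ofReal_le_ofReal (by norm_num)
          · exact prob_le_one
      _ = 1 := one_mul 1
  · rcases hl0 l hl A₀ M B hM hirr with h3 | h3
    · exact Or.inl fun α => jumpTail_side F u h1 h2 h12 hc i K hK h3 α
    · exact Or.inr fun α => jumpTail_side F u h1 h2 h12 hc i K hK h3 α

end Crest.Agent.R154.Home736
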