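import Crest.Agent.R154.Wrap2_74
import Crest.Agent.R154.Split_796
import Crest.Agent.R154.TailDoc_736
import Crest.Agent.R154.JumpB_872
import Crest.Agent.R154.StartLP_872
import Crest.Agent.R154.Stat_220

/-!
# Row 154 (helper843): the leaves (L1)-(L4) of HOME v2, all closed

* `winf`, `jumpIn` : letters of 263 on `kT`, from 872's `wl_large` and 736's `jumpTail_irr`;
* **`leaves : Wrap74.Leaves`** (220 STAT, 872 JUMP, 736 TailIn, JumpIn);
* `hwpos (hI : Wrap74.IrrOf) : Top28.HWPos`, `hwue`, `row`.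
-/

set_option autoImplicit false
set_option linter.unusedVariables false

namespace Crest.Agent.R154.Fin843

open MeasureTheory ProbabilityTheory Crest.ProbabilityR.RandomEnvironment Crest.Agent.R154
open Crest.Agent.R154.Mk561 Crest.Agent.R154.Q561 Crest.Agent.R154.RatioR872
open Crest.Agent.R154.B4Inst797 (Nat0 natLaw UU lat lp natLaw_isProb nat_ne_zero)
open Crest.Agent.R154.MobW437 (wl Sl wl_pos)
open Crest.Agent.R154.Spine
open scoped ENNReal

theorem jumpTail_mono {S : Type*} {Ω : Type*} {m0 : MeasurableSpace Ω} {P : Measure Ω}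
    {A : KerSys S P} {φ : S → ℝ} {n : ℕ} {Δ Δ' : ℝ} {π : ℝ≥0∞} (h : Doc74.JumpTail A φ n Δ π)
    (hΔ : Δ' ≤ Δ) : Doc74.JumpTail A φ n Δ' π := by
  classical
  intro a x hx
  refine (h a x hx).trans (lintegral_mono fun ω => ENNReal.tsum_le_tsum fun y => ?_)
  by_cases h1 : Doc74.Jp φ Δ x y
  · have h2 : Doc74.Jp φ Δ' x y := hΔ.trans h1
    rw [if_pos h1, if_pos h2]
  · rw [if_neg h1]; exact zero_le

section leaves

variable {d : ℕ} {Q : Measure (Environment d)} [IsProbabilityMeasure Q] {κ : ℝ} {R : ℕ}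

/-- the widths are unbounded -/
theorem winf (F : Bind263.Frame Q κ R) (u : Step d) {i1 i2 : Fin d} (h1 : i1 ≠ u.1)
    (h2 : i2 ≠ u.1) (h12 : i1 ≠ i2) (hc : mkAnn κ Q 0 (Nat0 u R) ≠ 0) :
    HM263.WInf (Wrap74.Wn F u h1 h2 h12 hc) := by
  haveI : IsProbabilityMeasure (natLaw κ Q u R) := natLaw_isProb hc
  intro g
  obtain ⟨N0, hN0⟩ := StartLP872.wl_large (lp F u h1 h2 h12 hc) 0 (max g 1) (le_max_right _ _)
  refine ⟨N0, fun n hn => (le_max_left g 1).trans (hN0 (2 ^ n) ?_)⟩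
  exact hn.trans (Nat.lt_two_pow_self (n := n)).le

/-- **(L4)** `JumpIn` on `kT` -/
theorem jumpIn (F : Bind263.Frame Q κ R) (u : Step d) {i1 i2 : Fin d} (h1 : i1 ≠ u.1)
    (h2 : i2 ≠ u.1) (h12 : i1 ≠ i2) (hc : mkAnn κ Q 0 (Nat0 u R) ≠ 0) :
    HM263.JumpIn (D2Asm244.kT u R κ Q F.stat F.fin) (fun x => (x i1 : ℝ))
      (fun x => (Flux132.lev u x : ℝ)) (Wrap74.Wn F u h1 h2 h12 hc)
      (HM7299.regL (lp F u h1 h2 h12 hc) 0) := by
  haveI : IsProbabilityMeasure (natLaw κ Q u R) := natLaw_isProb hc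
  obtain ⟨π, hπ0, hπ1, l0, hl0⟩ := Home736.jumpTail_irr F u h1 h2 h12 hc 0 _ _
  refine ⟨π, 1 / 3600, l0, hπ0, hπ1, by norm_num, fun n hn A0 M B' hM hreg α => ?_⟩
  have hln : l0 ≤ 2 ^ n := hn.trans (Nat.lt_two_pow_self (n := n)).le
  have hW : 0 < wl (lp F u h1 h2 h12 hc) 0 (2 ^ n) := wl_pos _ _ _
  have hWM : 0 < wl (lp F u h1 h2 h12 hc) 0 (M * 2 ^ n) := wl_pos _ _ _
  have hreg' : ¬ (Sl (lp F u h1 h2 h12 hc) 0 (2 ^ n) ≤ A0 ∧
      wl (lp F u h1 h2 h12 hc) 0 (M * 2 ^ n) ≤ max B' 0 * wl (lp F u h1 h2 h12 hc) 0 (2 ^ n)) := by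
    rintro ⟨ha, hb⟩
    refine hreg ⟨ha, ?_⟩
    rcases le_total 0 B' with h | h
    · rwa [max_eq_left h] at hb
    · rw [max_eq_right h, zero_mul] at hb
      exact absurd hb (not_le.2 hWM)
  have hneg : (fun x => - Doc74.ph (fun x : Site d => (x i1 : ℝ))
        (fun x => (Flux132.lev u x : ℝ)) α x)
      = Doc74.ph (fun x => - Home736.latR i1 i2 0 x) (Home736.levR u) (-α) :=
    funext fun x => (Doc74.ph_neg _ _ _ _).symm
  have e1 : 1 / 3600 * 2 ^ A0 * Wrap74.Wn F u h1 h2 h12 hc n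
      ≤ 2 ^ A0 / 3600 * wl (lp F u h1 h2 h12 hc) 0 (2 ^ n) := by
    unfold Wrap74.Wn; apply le_of_eq; ring
  have e2 : 1 / 3600 * B' * Wrap74.Wn F u h1 h2 h12 hc n
      ≤ max B' 0 / 20 * wl (lp F u h1 h2 h12 hc) 0 (2 ^ n) := by
    unfold Wrap74.Wn
    have hB : B' ≤ max B' 0 := le_max_left _ _
    have hB0 : 0 ≤ max B' 0 := le_max_right _ _
    have h5 : 1 / 3600 * B' ≤ max B' 0 / 20 := by linarith
    exact mul_le_mul_of_nonneg_right h5 hW.le
  rcases hl0 (2 ^ n) hln A0 M (max B' 0) (by omega) hreg' with h3 | h3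
  · left
    rcases h3 α with h4 | h4
    · exact Or.inl (jumpTail_mono h4 e1)
    · right
      rw [hneg]
      exact jumpTail_mono h4 e1
  · right
    rcases h3 α with h4 | h4
    · exact Or.inl (jumpTail_mono h4 e2)
    · right
      rw [hneg]
      exact jumpTail_mono h4 e2

/-- the leaves of one frame -/
theorem leafAt (hd : 3 ≤ d) (F : Bind263.Frame Q κ R) (hH : KB424.Half κ Q) (hκ : 0 < κ)
    (hk : kf d κ = κ) (u : Step d)
    (hA : annealedProb Q 0 (escapeEvent (B2d.dirVec u)) ≠ 0) {i1 i2 : Fin d} (h1 : i1 ≠ u.1)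
    (h2 : i2 ≠ u.1) (h12 : i1 ≠ i2) :
    Wrap74.LeafAt F u h1 h2 h12 (nat_ne_zero F u hA) where
  stat := Stat220.stat_kT F hA (by rw [hk]; exact hκ) h1
  jump := Jump872.jUMP_kT F hd u hA hH (by rw [hk]; exact hκ)
  tail := Wrap74.tailIn_kT F u h1 h2 h12 _
  winf := winf F u h1 h2 h12 _
  nonneg := Wrap74.wn_nonneg F u h1 h2 h12 _
  jin := jumpIn F u h1 h2 h12 _

end leaves

/-- **ALL THE LEAVES (L1)-(L4).** -/
theorem leaves : Wrap74.Leaves :=
  fun d hd Q _ κ R F hH hκ hk u hA i1 i2 h1 h2 h12 => leafAt hd F hH hκ hk u hA h1 h2 h12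

/-- **(W) for UE frames** (28's letters) from (L6) alone. -/
theorem hwpos (hI : Wrap74.IrrOf) : Top28.HWPos := Wrap74.hwpos_of_leaves hI leaves

/-- **(W) for UE frames** (796's letters) from (L6) alone. -/
theorem hwue (hI : Wrap74.IrrOf) : Split796.HWUE :=
  fun d hd Q _ κ R hκ _ hk F hh u hA => hwpos hI d hd Q κ R F hh hκ hk u hA

theorem t0220 (hI : Wrap74.IrrOf) : T0220 := Top28.t0220 (hwpos hI)

theorem t0221 (hI : Wrap74.IrrOf) : T0221 := Top28.t0221 (hwpos hI)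

/-- **THE ROW** from (L6) and `NBProp`. -/
theorem row (hI : Wrap74.IrrOf) (hNB : NBProp) : T0219 ∧ T0220 ∧ T0221 :=
  Split796.row3 (hwue hI) hNB

end Crest.Agent.R154.Fin843
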