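import Crest.Agent.R154.HomeDoc_74

/-!
# Row 154, `d ≥ 3`, route HOME MASS (helper263): the two inputs of HM8 at the dyadic scale

Complements the contract file `HomeDoc_74` (`STAT`, `JUMP`, `TailH`, `JumpTail`).
`W n = wl L i (2 ^ n)`, `reg = regL L i`.
-/

set_option autoImplicit false
set_option linter.unusedSectionVars false

namespace Crest.Agent.R154.HM263

open MeasureTheory ProbabilityTheory Set
open Crest.Agent.R154.RatioR872 Crest.Agent.R154.RatioR872.KerSys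
open Crest.Agent.R154.Home903 Crest.Agent.R154.Doc74
open scoped ENNReal Classical

variable {S : Type*} {Ω : Type*} {m0 : MeasurableSpace Ω} {P : Measure Ω}

/-- **(HM6a)** both home tails at the dyadic scale, one slope (helper736's `tail_pow`) -/
def TailIn (A : KerSys S P) (lat lev : S → ℝ) (W : ℕ → ℝ) : Prop :=
  ∀ ν : ℝ, 0 < ν → ∃ a0 : ℕ, ∀ a ≥ a0, ∃ (α : ℕ → ℝ) (n0 : ℕ),
    (∀ n ≥ n0, TailH A (ph lat lev (α n)) (2 ^ (n - a)) (180 * W n) (ENNReal.ofReal ν)) ∧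
    ∀ ν' : ℝ, 0 < ν' → ∃ b0 : ℕ, ∀ b ≥ b0, ∃ n1 : ℕ, ∀ n ≥ n1,
      TailH A (ph lat lev (α n)) (2 ^ (n - b)) (540 * W n) (ENNReal.ofReal ν')

/-- the widths tend to infinity -/
def WInf (W : ℕ → ℝ) : Prop := ∀ g : ℝ, ∃ n0 : ℕ, ∀ n ≥ n0, g ≤ W n

/-- **(HM6b)** an octave which is not regular has jumps, for every shear, on one of the sides -/
def JumpIn (A : KerSys S P) (lat lev : S → ℝ) (W : ℕ → ℝ)
    (reg : ℕ → ℕ → ℝ → ℕ → Prop) : Prop :=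
  ∃ (π : ℝ≥0∞) (c : ℝ) (n0 : ℕ), π ≠ 0 ∧ π ≤ 1 ∧ 0 < c ∧
    ∀ n ≥ n0, ∀ (A0 M : ℕ) (B' : ℝ), 3 ≤ M → ¬ reg A0 M B' n → ∀ α : ℝ,
      (JumpTail A (ph lat lev α) (128 * 2 ^ n) (c * 2 ^ A0 * W n) π ∨
        JumpTail A (fun x => - ph lat lev α x) (128 * 2 ^ n) (c * 2 ^ A0 * W n) π) ∨
      (JumpTail A (ph lat lev α) (M * 2 ^ n) (c * B' * W n) π ∨
        JumpTail A (fun x => - ph lat lev α x) (M * 2 ^ n) (c * B' * W n) π)

end Crest.Agent.R154.HM263
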