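import Crest.Agent.R154.HMnum_460

/-!
Row 154, HOME: numbers II (helper460), Mathlib only.

* `win_num`  : 9's `win_of_units`: mass `ε3 (ε/2)^(k-1) / 2 ≥ e^(-v)`, probability
  `(k k δ)^n + n δ3 ≤ e^(-lam v)`;
* `epochs`   : number of scheduled epochs of height `N` in `M H` levels;
* `pow_exp_le`, `two_term` : small tools.
-/

set_option autoImplicit false

open scoped ENNReal

namespace Crest.Agent.R154.HMnum460

lemma ofReal_exp_mul (x y : ℝ) : ENNReal.ofReal (Real.exp x) * ENNReal.ofReal (Real.exp y) =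
    ENNReal.ofReal (Real.exp (x + y)) := by
  rw [← ENNReal.ofReal_mul (Real.exp_pos _).le, ← Real.exp_add]

lemma ofReal_exp_pow (x : ℝ) (n : ℕ) : (ENNReal.ofReal (Real.exp x)) ^ n =
    ENNReal.ofReal (Real.exp (n * x)) := by
  rw [← ENNReal.ofReal_pow (Real.exp_pos _).le, ← Real.exp_nat_mul]

/-- a natural number is `≤ e^x` for `x ≥ log` -/
lemma nat_le_exp {n : ℕ} {x : ℝ} (h : (n : ℝ) ≤ x) :
    (n : ℝ≥0∞) ≤ ENNReal.ofReal (Real.exp x) := by
  rw [← ENNReal.ofReal_natCast]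
  refine ENNReal.ofReal_le_ofReal ?_
  have := Real.add_one_le_exp x
  linarith

/-- `1/2 ≥ e^(-1)` -/
lemma half_ge : ENNReal.ofReal (Real.exp (-1)) ≤ 1 / 2 := by
  have h5 := Real.exp_one_gt_d9
  have h4 : Real.exp (-1) ≤ 1 / 2 := by
    rw [Real.exp_neg, inv_eq_one_div]
    exact one_div_le_one_div_of_le (by norm_num) (by linarith)
  calc ENNReal.ofReal (Real.exp (-1)) ≤ ENNReal.ofReal (1 / 2) := ENNReal.ofReal_le_ofReal h4
    _ = 1 / 2 := by
        rw [ENNReal.ofReal_div_of_pos (by norm_num), ENNReal.ofReal_one]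
        norm_num

/-- **(N4)** the numbers of `win_of_units`: mass and probability. -/
theorem win_num {lam c : ℝ} (hlam : 1 ≤ lam) (hc : 0 < c) {k : ℕ} (hk : 1 ≤ k) :
    ∃ n : ℕ, 1 ≤ n ∧ ∃ v0 : ℝ, 1 ≤ v0 ∧ ∀ v : ℝ, v0 ≤ v → ∀ δ δ3 : ℝ≥0∞,
      δ ≤ ENNReal.ofReal (Real.exp (-(c * v))) →
      δ3 ≤ ENNReal.ofReal (Real.exp (-((2 * lam + 1) * v))) →
      ENNReal.ofReal (Real.exp (-v)) ≤ ENNReal.ofReal (Real.exp (-(1 / 8 * v))) *
          (ENNReal.ofReal (Real.exp (-(v / (4 * k)))) / 2) ^ (k - 1) / 2 ∧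
        ((k : ℝ≥0∞) * k * δ) ^ n + n * δ3 ≤ ENNReal.ofReal (Real.exp (-(lam * v))) := by
  obtain ⟨n, hn⟩ := exists_nat_ge (max 1 (4 * lam / c))
  have hn1 : (1 : ℝ) ≤ n := (le_max_left _ _).trans hn
  have hnc : 4 * lam ≤ n * c := by
    have := (le_max_right _ _).trans hn
    rwa [div_le_iff₀ hc] at this
  have hkr : (1 : ℝ) ≤ k := by exact_mod_cast hk
  refine ⟨n, by exact_mod_cast hn1, max (2 * k) (max (4 * n * k) n), ?_, ?_⟩
  · exact (by linarith : (1 : ℝ) ≤ 2 * k).trans (le_max_left _ _)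
  intro v hv δ δ3 hδ hδ3
  have hv1 : 2 * (k : ℝ) ≤ v := (le_max_left _ _).trans hv
  have hv2 : 4 * (n : ℝ) * k ≤ v := ((le_max_left _ _).trans (le_max_right _ _)).trans hv
  have hv3 : (n : ℝ) ≤ v := ((le_max_right _ _).trans (le_max_right _ _)).trans hv
  have hv0 : 0 < v := by linarith
  have hlv : v ≤ lam * v := by nlinarith
  refine ⟨?_, ?_⟩
  · -- mass
    have h1 : ENNReal.ofReal (Real.exp (-(v / (4 * k)) - 1)) ≤
        ENNReal.ofReal (Real.exp (-(v / (4 * k)))) / 2 := by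
      rw [sub_eq_add_neg, ← ofReal_exp_mul, div_eq_mul_inv (ENNReal.ofReal _) 2]
      refine mul_le_mul' le_rfl (half_ge.trans (le_of_eq ?_))
      rw [one_div]
    have h2 : ENNReal.ofReal (Real.exp (((k - 1 : ℕ) : ℝ) * (-(v / (4 * k)) - 1))) ≤
        (ENNReal.ofReal (Real.exp (-(v / (4 * k)))) / 2) ^ (k - 1) := by
      rw [← ofReal_exp_pow]
      exact pow_le_pow_left₀ zero_le h1 _
    calc ENNReal.ofReal (Real.exp (-v))
        ≤ ENNReal.ofReal (Real.exp (-(1 / 8 * v) +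
            ((k - 1 : ℕ) : ℝ) * (-(v / (4 * k)) - 1) + -1)) := by
          refine ENNReal.ofReal_le_ofReal (Real.exp_le_exp.2 ?_)
          have h3 : ((k - 1 : ℕ) : ℝ) ≤ k - 1 := by
            rw [Nat.cast_sub hk, Nat.cast_one]
          have h30 : (0 : ℝ) ≤ ((k - 1 : ℕ) : ℝ) := Nat.cast_nonneg _
          have h4 : ((k - 1 : ℕ) : ℝ) * (v / (4 * k)) ≤ v / 4 := by
            calc ((k - 1 : ℕ) : ℝ) * (v / (4 * k)) ≤ k * (v / (4 * k)) := by
                  refine mul_le_mul_of_nonneg_right (by linarith) (by positivity)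
              _ = v / 4 := by field_simp
          have h5 : ((k - 1 : ℕ) : ℝ) * (-(v / (4 * k)) - 1) =
              -(((k - 1 : ℕ) : ℝ) * (v / (4 * k))) - ((k - 1 : ℕ) : ℝ) := by ring
          rw [h5]
          linarith
      _ = ENNReal.ofReal (Real.exp (-(1 / 8 * v))) *
            ENNReal.ofReal (Real.exp (((k - 1 : ℕ) : ℝ) * (-(v / (4 * k)) - 1))) *
            ENNReal.ofReal (Real.exp (-1)) := by rw [ofReal_exp_mul, ofReal_exp_mul]
      _ ≤ ENNReal.ofReal (Real.exp (-(1 / 8 * v))) *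
          (ENNReal.ofReal (Real.exp (-(v / (4 * k)))) / 2) ^ (k - 1) * (1 / 2) :=
          mul_le_mul' (mul_le_mul' le_rfl h2) half_ge
      _ = _ := by rw [← div_eq_mul_one_div]
  · -- probability
    refine add_exp_le (x := lam * v) (by linarith) ?_ ?_
    · have h1 : (k : ℝ≥0∞) * k * δ ≤ ENNReal.ofReal (Real.exp (k + k + -(c * v))) := by
        rw [← ofReal_exp_mul, ← ofReal_exp_mul]
        exact mul_le_mul' (mul_le_mul' (nat_le_exp le_rfl) (nat_le_exp le_rfl)) hδ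
      refine (pow_le_pow_left₀ zero_le h1 n).trans ?_
      rw [ofReal_exp_pow]
      refine ENNReal.ofReal_le_ofReal (Real.exp_le_exp.2 ?_)
      have h2 : (n : ℝ) * (k + k) ≤ v := by nlinarith
      have h3 : 4 * lam * v ≤ n * c * v := mul_le_mul_of_nonneg_right hnc hv0.le
      have h4 : (n : ℝ) * (k + k + -(c * v)) = n * (k + k) - n * c * v := by ring
      rw [h4]
      nlinarith
    · refine (mul_le_mul' (nat_le_exp hv3) hδ3).trans ?_
      rw [ofReal_exp_mul]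
      refine ENNReal.ofReal_le_ofReal (Real.exp_le_exp.2 ?_)
      linarith

/-- **(N6)** number of epochs: `N 2^j = 2^n`, `K1 H ≤ 2 v 2^n` ⟹ `M H` levels are at most
`r ≤ 2 M v / (K1 / 2^j) + 2` epochs of height `N`. -/
theorem epochs {N j n H M : ℕ} {K1 v : ℝ} (hK : 0 < K1) (hN : N * 2 ^ j = 2 ^ n)
    (hH : K1 * H ≤ 2 * (v * 2 ^ n)) :
    ∃ r : ℕ, 1 ≤ r ∧ M * H ≤ r * N ∧ (r : ℝ) ≤ 2 * M * v / (K1 / 2 ^ j) + 2 := by
  have hN0 : 0 < N := by
    rcases Nat.eq_zero_or_pos N with h | h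
    · rw [h, zero_mul] at hN
      exact absurd hN.symm (by positivity)
    · exact h
  refine ⟨M * H / N + 1, Nat.le_add_left _ _, ?_, ?_⟩
  · have h1 := Nat.lt_mul_div_succ (M * H) hN0
    exact h1.le.trans (le_of_eq (mul_comm _ _))
  · have h1 : ((M * H / N : ℕ) : ℝ) ≤ ((M * H : ℕ) : ℝ) / N := Nat.cast_div_le
    have h2 : ((M * H : ℕ) : ℝ) / N ≤ 2 * M * v / (K1 / 2 ^ j) := by
      have hNr : (0 : ℝ) < N := by exact_mod_cast hN0
      have hj : (0 : ℝ) < 2 ^ j := by positivity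
      have hNn : (N : ℝ) * 2 ^ j = 2 ^ n := by exact_mod_cast hN
      rw [div_div_eq_mul_div, div_le_div_iff₀ hNr hK]
      push_cast
      calc (M : ℝ) * H * K1 = M * (K1 * H) := by ring
        _ ≤ M * (2 * (v * 2 ^ n)) := mul_le_mul_of_nonneg_left hH (Nat.cast_nonneg _)
        _ = 2 * M * v * 2 ^ j * N := by rw [← hNn]; ring
    push_cast
    linarith

/-- slack `s = ⌈v⌉` -/
lemma ceil_slack (v : ℝ) : v ≤ (⌈v⌉₊ : ℕ) := Nat.le_ceil v

end Crest.Agent.R154.HMnum460
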