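import Crest.Agent.R154.HMnum2_460

/-!
Row 154, HOME: numbers III (helper460), Mathlib only.

* `win_num'`  : (N4) literally in 9's letters `((k*k : ℕ) * δ)^n + n * δ3`;
* `home_num`  : STAT (`k = 1`) ⟹ 32's `hHome`: `C q^j`, `C = (2Ks)^r + (1/η)^r`, `q = e^(-c)`;
* `trav_num`  : the numbers of one grid step (32's `trav_half` / `home` with `J = 2 s` macro
  steps): price `≤ e^(-c1 v)`, mass `≥ e^(-v/(8k))`, displacement budget `m J ≤ v`.
-/

set_option autoImplicit false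

open scoped ENNReal

namespace Crest.Agent.R154.HMnum460

/-- **(N4')** the numbers of 9's `win_of_units`, literally. -/
theorem win_num' {lam c : ℝ} (hlam : 1 ≤ lam) (hc : 0 < c) {k : ℕ} (hk : 1 ≤ k) :
    ∃ n : ℕ, 1 ≤ n ∧ ∃ v0 : ℝ, 1 ≤ v0 ∧ ∀ v : ℝ, v0 ≤ v → ∀ δ δ3 : ℝ≥0∞,
      δ ≤ ENNReal.ofReal (Real.exp (-(c * v))) →
      δ3 ≤ ENNReal.ofReal (Real.exp (-((2 * lam + 1) * v))) →
      ENNReal.ofReal (Real.exp (-v)) ≤ ENNReal.ofReal (Real.exp (-(1 / 8 * v))) *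
          (ENNReal.ofReal (Real.exp (-(v / (4 * k)))) / 2) ^ (k - 1) ∧
        (((k * k : ℕ) : ℝ≥0∞) * δ) ^ n + n * δ3 ≤ ENNReal.ofReal (Real.exp (-(lam * v))) := by
  obtain ⟨n, hn, v0, hv0, h⟩ := win_num hlam hc hk
  refine ⟨n, hn, v0, hv0, fun v hv δ δ3 hδ hδ3 => ?_⟩
  obtain ⟨h1, h2⟩ := h v hv δ δ3 hδ hδ3
  refine ⟨h1.trans ?_, ?_⟩
  · exact ENNReal.half_le_self
  · rw [Nat.cast_mul]
    exact h2

/-- **(N7)** STAT with `k = 1` as a home score for all `j`. -/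
theorem home_num {θ c : ℝ} (hθ : 0 < θ) {η Ks : ℝ≥0∞}
    (hη : η ≤ ENNReal.ofReal (Real.exp (-c)) / 2) (r j : ℕ) :
    (2 * Ks) ^ r * ((ENNReal.ofReal (Real.exp (-(c / θ)))) ^ j) ^ θ + (2 * η) ^ j * (1 / η) ^ r ≤
      ((2 * Ks) ^ r + (1 / η) ^ r) * (ENNReal.ofReal (Real.exp (-c))) ^ j := by
  have h1 : ((ENNReal.ofReal (Real.exp (-(c / θ)))) ^ j) ^ θ =
      (ENNReal.ofReal (Real.exp (-c))) ^ j := by
    rw [ofReal_exp_pow, ofReal_exp_rpow, ofReal_exp_pow]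
    congr 2
    field_simp
  have h2 : 2 * η ≤ ENNReal.ofReal (Real.exp (-c)) := by
    calc 2 * η ≤ 2 * (ENNReal.ofReal (Real.exp (-c)) / 2) := mul_le_mul_right hη 2
      _ = ENNReal.ofReal (Real.exp (-c)) :=
        ENNReal.mul_div_cancel (by norm_num) (by norm_num)
  rw [h1, add_mul]
  refine add_le_add le_rfl ?_
  rw [mul_comm]
  exact mul_le_mul' le_rfl (pow_le_pow_left₀ zero_le h2 j)

/-- `η ≤ e^(-c)/2` for `η = et b`, `c ≤ b` -/
lemma et_le_half {b c : ℝ} (h : c ≤ b) : et b ≤ ENNReal.ofReal (Real.exp (-c)) / 2 := by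
  unfold et
  have h1 : ENNReal.ofReal (Real.exp (-c)) / 2 = ENNReal.ofReal (Real.exp (-c) / 2) := by
    rw [ENNReal.ofReal_div_of_pos (by norm_num)]
    norm_num
  rw [h1]
  refine ENNReal.ofReal_le_ofReal ?_
  have h2 : Real.exp (-b) ≤ Real.exp (-c) := Real.exp_le_exp.2 (by linarith)
  have h3 := Real.exp_pos (-c)
  linarith

/-- the constant `C = (2Ks)^r + (1/η)^r` is at most `e^(L r + 1)` -/
lemma C_le {L : ℝ} {η Ks : ℝ≥0∞} (h1 : 2 * Ks ≤ ENNReal.ofReal (Real.exp L))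
    (h2 : 1 / η ≤ ENNReal.ofReal (Real.exp L)) (r : ℕ) :
    (2 * Ks) ^ r + (1 / η) ^ r ≤ ENNReal.ofReal (Real.exp (r * L + 1)) := by
  have h3 : (2 : ℝ≥0∞) ≤ ENNReal.ofReal (Real.exp 1) := by
    have h5 := Real.exp_one_gt_d9
    calc (2 : ℝ≥0∞) = ENNReal.ofReal 2 := by norm_num
      _ ≤ _ := ENNReal.ofReal_le_ofReal (by linarith)
  calc (2 * Ks) ^ r + (1 / η) ^ r
      ≤ ENNReal.ofReal (Real.exp (r * L)) + ENNReal.ofReal (Real.exp (r * L)) := by
        refine add_le_add ?_ ?_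
        · rw [← ofReal_exp_pow]; exact pow_le_pow_left₀ zero_le h1 _
        · rw [← ofReal_exp_pow]; exact pow_le_pow_left₀ zero_le h2 _
    _ = 2 * ENNReal.ofReal (Real.exp (r * L)) := (two_mul _).symm
    _ ≤ ENNReal.ofReal (Real.exp 1) * ENNReal.ofReal (Real.exp (r * L)) := mul_le_mul' h3 le_rfl
    _ = _ := by rw [ofReal_exp_mul, add_comm]

/-- `L` exists -/
lemma exists_L {η Ks : ℝ≥0∞} (hη : η ≠ 0) (hKs : Ks ≠ ∞) :
    ∃ L : ℝ, 0 ≤ L ∧ 2 * Ks ≤ ENNReal.ofReal (Real.exp L) ∧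
      1 / η ≤ ENNReal.ofReal (Real.exp L) := by
  have h1 : (1 / η) ≠ ∞ := by
    rw [one_div]; exact ENNReal.inv_ne_top.2 hη
  refine ⟨max (Lk Ks) (1 / η).toReal, le_max_of_le_left (Lk_nonneg Ks), ?_, ?_⟩
  · exact (two_Ks_le hKs).trans (ENNReal.ofReal_le_ofReal (Real.exp_le_exp.2 (le_max_left _ _)))
  · calc 1 / η = ENNReal.ofReal (1 / η).toReal := (ENNReal.ofReal_toReal h1).symm
      _ ≤ _ := ENNReal.ofReal_le_ofReal ?_
    have h2 := Real.add_one_le_exp (max (Lk Ks) (1 / η).toReal)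
    have h3 := le_max_right (Lk Ks) (1 / η).toReal
    linarith

/-- `Z = 1 + 2 C / σ + C ≤ e^4 C'` with `σ = e^(-3)`, `C ≤ C'`, `1 ≤ C'` -/
lemma Z_le {C C' : ℝ≥0∞} (hC : C ≤ C') (hC' : 1 ≤ C') :
    1 + 2 * C / ENNReal.ofReal (Real.exp (-3)) + C ≤ ENNReal.ofReal (Real.exp 4) * C' := by
  have h1 : (2 * C) / ENNReal.ofReal (Real.exp (-3)) = 2 * ENNReal.ofReal (Real.exp 3) * C := by
    rw [div_eq_mul_inv, ← ENNReal.ofReal_inv_of_pos (Real.exp_pos _), ← Real.exp_neg, neg_neg]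
    ring
  have h2 : (1 : ℝ≥0∞) + 2 * ENNReal.ofReal (Real.exp 3) + 1 ≤ ENNReal.ofReal (Real.exp 4) := by
    have h5 := Real.exp_one_gt_d9
    have h6 : Real.exp 4 = Real.exp 3 * Real.exp 1 := by rw [← Real.exp_add]; norm_num
    have h7 : (4 : ℝ) ≤ Real.exp 3 := by
      have := Real.add_one_le_exp (3 : ℝ); linarith
    calc (1 : ℝ≥0∞) + 2 * ENNReal.ofReal (Real.exp 3) + 1
        = ENNReal.ofReal (1 + 2 * Real.exp 3 + 1) := by
          rw [ENNReal.ofReal_add (by positivity) (by norm_num),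
            ENNReal.ofReal_add (by norm_num) (by positivity),
            ENNReal.ofReal_mul (by norm_num)]
          norm_num
      _ ≤ _ := ENNReal.ofReal_le_ofReal (by rw [h6]; nlinarith)
  rw [h1]
  calc 1 + 2 * ENNReal.ofReal (Real.exp 3) * C + C
      ≤ 1 * C' + 2 * ENNReal.ofReal (Real.exp 3) * C' + 1 * C' := by
        refine add_le_add (add_le_add (by rw [one_mul]; exact hC') (mul_le_mul' le_rfl hC)) ?_
        rw [one_mul]; exact hC
    _ = (1 + 2 * ENNReal.ofReal (Real.exp 3) + 1) * C' := by ring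
    _ ≤ _ := mul_le_mul' h2 le_rfl

/-- **(N5)** the numbers of one grid step of `J = 2 s` macro steps (`y = k k' M' K1`,
`4 v / y ≤ J ≤ 18 v / y`, `rm` scheduled epochs per macro step). -/
theorem trav_num {θ x1 L : ℝ} (hθ : 0 < θ) (hθ1 : θ ≤ 1) (hx : 0 ≤ x1) (hL : 0 ≤ L) {k : ℕ}
    (hk : 1 ≤ k) :
    ∃ c1 C0 Y0 : ℝ, 0 < c1 ∧ 0 < C0 ∧ 0 < Y0 ∧ ∀ y : ℝ, Y0 ≤ y → ∀ rm : ℕ, rm * C0 ≤ 3 * y →
      ∃ δ : ℝ, 0 < δ ∧ δ ≤ 1 ∧ ∃ m : ℕ, 1 ≤ m ∧ ∀ v : ℝ, 1 / c1 ≤ v → ∀ s : ℕ,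
        4 * v ≤ y * (2 * s) → y * (2 * s) ≤ 18 * v → ∀ η Ks C : ℝ≥0∞,
        2 * Ks ≤ ENNReal.ofReal (Real.exp L) → 1 / η ≤ ENNReal.ofReal (Real.exp L) →
        C ≤ (2 * Ks) ^ rm + (1 / η) ^ rm →
        ((4 * ENNReal.ofReal δ) ^ s + ((1 + 2 * C / ENNReal.ofReal (Real.exp (-3)) + C) *
            ENNReal.ofReal (Real.exp (-3)) ^ m) ^ (2 * s) ≤
              ENNReal.ofReal (Real.exp (-(c1 * v)))) ∧
        ((1 + 2 * C / ENNReal.ofReal (Real.exp (-3)) + C) ^ (2 * s) *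
            ENNReal.ofReal (Real.exp (-3)) ^ (m * (2 * s)) ≤
              ENNReal.ofReal (Real.exp (-(c1 * v)))) ∧
        (ENNReal.ofReal (Real.exp (-(v / (8 * k)))) ≤
          ENNReal.ofReal (Real.exp (-(4 / θ))) ^ (m * (2 * s)) *
            ENNReal.ofReal (Real.exp (-(x1 * (1 + Real.log (1 / δ))))) ^ (2 * s)) ∧
        (ENNReal.ofReal (Real.exp (-(v / (8 * k)))) ≤
          ENNReal.ofReal (Real.exp (-(4 / θ))) ^ (m * (2 * s))) ∧
        ((m * (2 * s) : ℕ) : ℝ) ≤ v := by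
  have hkr : (1 : ℝ) ≤ k := by exact_mod_cast hk
  have hk0 : (0 : ℝ) < k := by linarith
  set c1 : ℝ := θ / (4096 * k * (1 + x1)) with hc1
  set C0 : ℝ := 8192 * (1 + L) * k / θ with hC0
  set Y0 : ℝ := 16384 * k * (1 + x1) / θ with hY0
  have hx1 : 0 < 1 + x1 := by linarith
  have hc1p : 0 < c1 := by positivity
  have hC0p : 0 < C0 := by
    have : 0 < 1 + L := by linarith
    positivity
  have hY0p : 0 < Y0 := by positivity
  refine ⟨c1, C0, Y0, hc1p, hC0p, hY0p, ?_⟩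
  intro y hy rm hrm
  have hy0 : 0 < y := hY0p.trans_le hy
  set δ : ℝ := Real.exp (-(c1 * y)) / 4 with hδ
  have hδp : 0 < δ := by positivity
  have hδ1 : δ ≤ 1 := by
    have : Real.exp (-(c1 * y)) ≤ 1 := Real.exp_le_one_iff.2 (by nlinarith)
    rw [hδ]; linarith
  have hlog : Real.log (1 / δ) ≤ 2 + c1 * y := by
    have h1 : 1 / δ = 4 * Real.exp (c1 * y) := by
      rw [hδ, Real.exp_neg]
      field_simp
    rw [h1, Real.log_mul (by norm_num) (Real.exp_pos _).ne', Real.log_exp]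
    have h2 : Real.log 4 ≤ 2 := by
      have h3 : Real.log 4 = 2 * Real.log 2 := by
        rw [show (4 : ℝ) = 2 ^ 2 by norm_num, Real.log_pow]; norm_num
      have := Real.log_two_lt_d9
      rw [h3]; linarith
    linarith
  have hlog0 : 0 ≤ Real.log (1 / δ) := Real.log_nonneg (by
    rw [le_div_iff₀ hδp]; linarith)
  set a : ℝ := rm * L + 5 + c1 * y / 2 with ha
  have ha0 : 0 ≤ a := by positivity
  refine ⟨δ, hδp, hδ1, ⌈a / 3⌉₊ + 1, by omega, ?_⟩
  set m : ℕ := ⌈a / 3⌉₊ + 1 with hm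
  have hm1 : a ≤ 3 * m := by
    have h1 := Nat.le_ceil (a / 3)
    have h2 : ((⌈a / 3⌉₊ + 1 : ℕ) : ℝ) = (⌈a / 3⌉₊ : ℝ) + 1 := by push_cast; ring
    rw [hm, h2]
    linarith
  have hm2 : (m : ℝ) ≤ a / 3 + 2 := by
    have h1 := (Nat.ceil_lt_add_one (a := a / 3) (by positivity)).le
    have h2 : ((⌈a / 3⌉₊ + 1 : ℕ) : ℝ) = (⌈a / 3⌉₊ : ℝ) + 1 := by push_cast; ring
    rw [hm, h2]
    linarith
  intro v hv s hs1 hs2 η Ks C hKs hη hC
  have hv0 : 0 < v := lt_of_lt_of_le (by positivity) hv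
  have hc1v : 1 ≤ c1 * v := by
    rw [div_le_iff₀ hc1p] at hv
    linarith
  have hs0 : (0 : ℝ) ≤ s := Nat.cast_nonneg _
  -- (A) price of the jumps
  have hA : (4 * ENNReal.ofReal δ) ^ s ≤ ENNReal.ofReal (Real.exp (-(2 * (c1 * v)))) := by
    have h1 : 4 * ENNReal.ofReal δ = ENNReal.ofReal (Real.exp (-(c1 * y))) := by
      have h4 : (4 : ℝ≥0∞) = ENNReal.ofReal 4 := by norm_num
      rw [h4, ← ENNReal.ofReal_mul (by norm_num), hδ]
      congr 1
      ring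
    rw [h1, ofReal_exp_pow]
    refine ENNReal.ofReal_le_ofReal (Real.exp_le_exp.2 ?_)
    have h2 : c1 * (4 * v) ≤ c1 * (y * (2 * s)) := mul_le_mul_of_nonneg_left hs1 hc1p.le
    nlinarith
  -- (B) price of the score
  have hZ : 1 + 2 * C / ENNReal.ofReal (Real.exp (-3)) + C ≤
      ENNReal.ofReal (Real.exp (rm * L + 5)) := by
    refine (Z_le (hC.trans (C_le hKs hη rm)) ?_).trans ?_
    · rw [← ENNReal.ofReal_one]
      refine ENNReal.ofReal_le_ofReal ?_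
      have : (0 : ℝ) ≤ rm * L := by positivity
      have h1 := Real.add_one_le_exp ((rm : ℝ) * L + 1)
      linarith
    · rw [ofReal_exp_mul]
      refine ENNReal.ofReal_le_ofReal (Real.exp_le_exp.2 ?_)
      linarith
  have hB0 : (1 + 2 * C / ENNReal.ofReal (Real.exp (-3)) + C) *
      ENNReal.ofReal (Real.exp (-3)) ^ m ≤ ENNReal.ofReal (Real.exp (-(c1 * y / 2))) := by
    refine (mul_le_mul' hZ le_rfl).trans ?_
    rw [ofReal_exp_pow, ofReal_exp_mul]
    refine ENNReal.ofReal_le_ofReal (Real.exp_le_exp.2 ?_)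
    rw [ha] at hm1
    linarith
  have hB : ((1 + 2 * C / ENNReal.ofReal (Real.exp (-3)) + C) *
      ENNReal.ofReal (Real.exp (-3)) ^ m) ^ (2 * s) ≤
        ENNReal.ofReal (Real.exp (-(2 * (c1 * v)))) := by
    refine (pow_le_pow_left₀ zero_le hB0 _).trans ?_
    rw [ofReal_exp_pow]
    refine ENNReal.ofReal_le_ofReal (Real.exp_le_exp.2 ?_)
    push_cast
    have h2 : c1 * (4 * v) ≤ c1 * (y * (2 * s)) := mul_le_mul_of_nonneg_left hs1 hc1p.le
    nlinarith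
  -- real estimates
  have hrmL : (rm : ℝ) * L * (8192 * k) ≤ 3 * y * θ := by
    have h1 : (rm : ℝ) * (8192 * (1 + L) * k) ≤ 3 * y * θ := by
      have h2 := mul_le_mul_of_nonneg_right hrm hθ.le
      have h3 : (rm : ℝ) * C0 * θ = rm * (8192 * (1 + L) * k) := by
        rw [hC0]; field_simp
      rw [← h3]; exact h2
    have h4 : (rm : ℝ) * L * (8192 * k) ≤ rm * (8192 * (1 + L) * k) := by
      have h5 : (0 : ℝ) ≤ rm := Nat.cast_nonneg _
      have h6 : 0 ≤ (rm : ℝ) * (8192 * k) := by positivity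
      nlinarith
    linarith
  have hyk : 16384 * k * (1 + x1) ≤ y * θ := by
    rw [hY0, div_le_iff₀ hθ] at hy
    exact hy
  have hc1e : c1 * (4096 * k * (1 + x1)) = θ := by rw [hc1]; field_simp
  have hJ : (2 * (s : ℝ)) * y ≤ 18 * v := by linarith
  -- score cost
  have hcost1 : 4 / θ * ((m : ℝ) * (2 * s)) ≤ 3 * (v / (64 * k)) := by
    have h1 : (m : ℝ) * θ⁻¹ * (64 * k) * 24 ≤ y := by
      -- m ≤ a/3 + 2 = (rm L + 11 + c1 y/2)/3
      have h2 : (m : ℝ) ≤ (rm * L + 11 + c1 * y / 2) / 3 := by rw [ha] at hm2; linarith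
      have h3 : (m : ℝ) * (64 * k) * 24 ≤ y * θ := by
        have h4 : (m : ℝ) * (64 * k) * 24 ≤ (rm * L + 11 + c1 * y / 2) / 3 * (64 * k) * 24 := by
          gcongr
        have h5 : (rm * L + 11 + c1 * y / 2) / 3 * (64 * k) * 24 =
            rm * L * (512 * k) + 5632 * k + c1 * k * 256 * y := by ring
        have h6 : c1 * k * 256 * y ≤ y * θ / 16 := by
          have h7 : c1 * k * 4096 ≤ θ := by
            have : c1 * k * 4096 * 1 ≤ c1 * k * 4096 * (1 + x1) := by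
              refine mul_le_mul_of_nonneg_left (by linarith) (by positivity)
            nlinarith
          nlinarith
        have h8 : (rm : ℝ) * L * (512 * k) ≤ 3 * y * θ / 16 := by nlinarith
        have h9 : 5632 * (k : ℝ) ≤ y * θ * (5632 / 16384) := by
          have : 16384 * (k : ℝ) * 1 ≤ 16384 * k * (1 + x1) := by
            refine mul_le_mul_of_nonneg_left (by linarith) (by positivity)
          nlinarith
        have h10 : 0 < y * θ := by positivity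
        rw [h5] at h4
        nlinarith
      have h4 : (m : ℝ) * θ⁻¹ * (64 * k) * 24 = (m * (64 * k) * 24) * θ⁻¹ := by ring
      rw [h4]
      calc (m * (64 * k) * 24 : ℝ) * θ⁻¹ ≤ (y * θ) * θ⁻¹ :=
            mul_le_mul_of_nonneg_right h3 (by positivity)
        _ = y := by field_simp
    -- 4/θ m 2s ≤ v/(64k)*3  ⟸  (m θ⁻¹ 64 k 24) (2 s) ≤ y (2s) ≤ 18 v
    have h5 : (m : ℝ) * θ⁻¹ * (64 * k) * 24 * (2 * s) ≤ 18 * v :=
      (mul_le_mul_of_nonneg_right h1 (by positivity)).trans (by linarith)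
    have h6 : 3 * (v / (64 * k)) = (18 * v) / (6 * (64 * k)) := by field_simp; ring
    rw [h6, le_div_iff₀ (by positivity)]
    have h7 : 4 / θ * ((m : ℝ) * (2 * s)) * (6 * (64 * k)) =
        (m : ℝ) * θ⁻¹ * (64 * k) * 24 * (2 * s) := by
      rw [div_eq_mul_inv]; ring
    rw [h7]
    exact h5
  have hcost2 : x1 * (1 + Real.log (1 / δ)) * (2 * s) ≤ 2 * (v / (64 * k)) := by
    have h1 : x1 * (1 + Real.log (1 / δ)) ≤ x1 * (3 + c1 * y) :=
      mul_le_mul_of_nonneg_left (by linarith) hx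
    have h2 : x1 * (3 + c1 * y) * (576 * k) ≤ y := by
      have h3 : x1 * (c1 * y) * (576 * k) ≤ y / 2 := by
        have h4 : x1 * c1 * (4096 * k) ≤ 1 := by
          have h41 : x1 * c1 * (4096 * k) ≤ (1 + x1) * c1 * (4096 * k) := by
            have : 0 ≤ c1 * (4096 * k) := by positivity
            nlinarith
          have h42 : (1 + x1) * c1 * (4096 * k) = θ := by rw [← hc1e]; ring
          linarith
        nlinarith
      have h5 : x1 * 3 * (576 * k) ≤ y / 2 := by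
        have h6 : y * θ ≤ y := by nlinarith
        have h7 : 16384 * (k : ℝ) * x1 ≤ 16384 * k * (1 + x1) := by
          refine mul_le_mul_of_nonneg_left (by linarith) (by positivity)
        nlinarith
      nlinarith
    have h3 : x1 * (1 + Real.log (1 / δ)) * (2 * s) * (576 * k) ≤ 18 * v := by
      have h4 : x1 * (1 + Real.log (1 / δ)) * (576 * k) ≤ y :=
        (mul_le_mul_of_nonneg_right h1 (by positivity)).trans h2
      have h5 := mul_le_mul_of_nonneg_right h4 (by positivity : (0 : ℝ) ≤ 2 * s)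
      nlinarith
    have h6 : 2 * (v / (64 * k)) = (18 * v) / (576 * k) := by field_simp; ring
    rw [h6, le_div_iff₀ (by positivity)]
    exact h3
  have hvk : v / (8 * k) = 8 * (v / (64 * k)) := by field_simp; ring
  have hvk0 : 0 ≤ v / (64 * k) := by positivity
  refine ⟨add_exp_le hc1v hA hB, ?_, ?_, ?_, ?_⟩
  · have h1 : (1 + 2 * C / ENNReal.ofReal (Real.exp (-3)) + C) ^ (2 * s) *
        ENNReal.ofReal (Real.exp (-3)) ^ (m * (2 * s)) =
        ((1 + 2 * C / ENNReal.ofReal (Real.exp (-3)) + C) *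
          ENNReal.ofReal (Real.exp (-3)) ^ m) ^ (2 * s) := by
      rw [mul_pow, ← pow_mul (ENNReal.ofReal (Real.exp (-3))) m (2 * s)]
    rw [h1]
    refine hB.trans (ENNReal.ofReal_le_ofReal (Real.exp_le_exp.2 (by linarith)))
  · rw [ofReal_exp_pow, ofReal_exp_pow, ofReal_exp_mul]
    refine ENNReal.ofReal_le_ofReal (Real.exp_le_exp.2 ?_)
    push_cast
    have h1 : (m : ℝ) * (2 * s) * -(4 / θ) + 2 * s * -(x1 * (1 + Real.log (1 / δ))) =
        -(4 / θ * (m * (2 * s)) + x1 * (1 + Real.log (1 / δ)) * (2 * s)) := by ring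
    rw [h1, hvk]
    linarith
  · rw [ofReal_exp_pow]
    refine ENNReal.ofReal_le_ofReal (Real.exp_le_exp.2 ?_)
    push_cast
    have h1 : (m : ℝ) * (2 * s) * -(4 / θ) = -(4 / θ * (m * (2 * s))) := by ring
    rw [h1, hvk]
    linarith
  · push_cast
    have h1 : (m : ℝ) * (2 * s) ≤ 4 / θ * (m * (2 * s)) := by
      have h2 : 1 ≤ 4 / θ := by rw [le_div_iff₀ hθ]; linarith
      have h3 : 0 ≤ (m : ℝ) * (2 * s) := by positivity
      nlinarith
    have h4 : 3 * (v / (64 * k)) ≤ v := by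
      rw [mul_div_assoc', div_le_iff₀ (by positivity)]
      nlinarith
    linarith

end Crest.Agent.R154.HMnum460
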