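import Mathlib

/-!
Row 154, HOME (263's plan for `Irr`): **numbers** (helper460), Mathlib only.

* `stat_num`  : the tail of `STAT` with `k` units, `s ≥ v` slack epochs, `r ≤ T v / C0 + 2` scheduled
  epochs, threshold `e^(-k q v)`, is `≤ e^(-lam v)`;
* `score_num` : the tail of `STAT` with one unit over one macro step, slack `σ`, threshold
  `e^(-x σ)`, is `≤ e^(-Λ σ)`;
* `exists_gt_of_prod` : a product of `k` factors above `c^k` has a factor above `c`.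
-/

set_option autoImplicit false

open scoped ENNReal

namespace Crest.Agent.R154.HMnum460

/-- `2 max(Ks, 1) = e^L` -/
noncomputable def Lk (Ks : ℝ≥0∞) : ℝ := Real.log (2 * max Ks.toReal 1)

lemma Lk_nonneg (Ks : ℝ≥0∞) : 0 ≤ Lk Ks := by
  unfold Lk
  refine Real.log_nonneg ?_
  have := le_max_right Ks.toReal 1
  linarith

lemma two_Ks_le {Ks : ℝ≥0∞} (h : Ks ≠ ∞) : 2 * Ks ≤ ENNReal.ofReal (Real.exp (Lk Ks)) := by
  unfold Lk
  have h1 : (0 : ℝ) < 2 * max Ks.toReal 1 := by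
    have := le_max_right Ks.toReal 1
    linarith
  rw [Real.exp_log h1, ENNReal.ofReal_mul (by norm_num)]
  have h2 : ENNReal.ofReal 2 = 2 := by norm_num
  rw [h2]
  refine mul_le_mul_right ?_ 2
  calc Ks = ENNReal.ofReal Ks.toReal := (ENNReal.ofReal_toReal h).symm
    _ ≤ _ := ENNReal.ofReal_le_ofReal (le_max_left _ _)

lemma pow_Ks_le {Ks : ℝ≥0∞} (h : Ks ≠ ∞) (r : ℕ) :
    (2 * Ks) ^ r ≤ ENNReal.ofReal (Real.exp (Lk Ks * r)) := by
  refine (pow_le_pow_left₀ zero_le (two_Ks_le h) r).trans (le_of_eq ?_)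
  rw [← ENNReal.ofReal_pow (Real.exp_pos _).le, ← Real.exp_nat_mul, mul_comm]

lemma ofReal_exp_rpow (x θ : ℝ) :
    (ENNReal.ofReal (Real.exp x)) ^ θ = ENNReal.ofReal (Real.exp (x * θ)) := by
  rw [ENNReal.ofReal_rpow_of_pos (Real.exp_pos _), ← Real.exp_mul]

/-- the number `η = e^(-b)/4` -/
noncomputable def et (b : ℝ) : ℝ≥0∞ := ENNReal.ofReal (Real.exp (-b) / 4)

lemma et_pos (b : ℝ) : 0 < et b := by
  unfold et
  rw [ENNReal.ofReal_pos]
  positivity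

lemma et_le {b : ℝ} (hb : 0 ≤ b) : et b ≤ 1 / 4 := by
  unfold et
  have h1 : Real.exp (-b) ≤ 1 := Real.exp_le_one_iff.2 (by linarith)
  calc ENNReal.ofReal (Real.exp (-b) / 4) ≤ ENNReal.ofReal (1 / 4) :=
        ENNReal.ofReal_le_ofReal (by linarith)
    _ = 1 / 4 := by
        rw [ENNReal.ofReal_div_of_pos (by norm_num), ENNReal.ofReal_one]
        norm_num

lemma et_ne_top (b : ℝ) : et b ≠ ∞ := ENNReal.ofReal_ne_top

/-- `(2η)^s (1/η)^r ≤ e^(-b s + (b+2) r)` -/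
lemma et_pow_le (b : ℝ) (s r : ℕ) :
    (2 * et b) ^ s * (1 / et b) ^ r ≤ ENNReal.ofReal (Real.exp (-(b * s) + (b + 2) * r)) := by
  have hE := Real.exp_pos (-b)
  have h1 : 2 * et b ≤ ENNReal.ofReal (Real.exp (-b)) := by
    unfold et
    calc 2 * ENNReal.ofReal (Real.exp (-b) / 4)
        = ENNReal.ofReal 2 * ENNReal.ofReal (Real.exp (-b) / 4) := by norm_num
      _ = ENNReal.ofReal (2 * (Real.exp (-b) / 4)) := (ENNReal.ofReal_mul (by norm_num)).symm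
      _ ≤ _ := ENNReal.ofReal_le_ofReal (by linarith)
  have h4 : (4 : ℝ) ≤ Real.exp 2 := by
    have h5 := Real.exp_one_gt_d9
    have h6 : Real.exp 2 = Real.exp 1 * Real.exp 1 := by rw [← Real.exp_add]; norm_num
    rw [h6]
    nlinarith
  have h2 : 1 / et b ≤ ENNReal.ofReal (Real.exp (b + 2)) := by
    unfold et
    rw [one_div, ← ENNReal.ofReal_inv_of_pos (by positivity)]
    refine ENNReal.ofReal_le_ofReal ?_
    rw [inv_div, Real.exp_neg, div_inv_eq_mul, Real.exp_add, mul_comm]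
    exact mul_le_mul_of_nonneg_left h4 (Real.exp_pos _).le
  refine (mul_le_mul' (pow_le_pow_left₀ zero_le h1 s)
    (pow_le_pow_left₀ zero_le h2 r)).trans (le_of_eq ?_)
  rw [← ENNReal.ofReal_pow (Real.exp_pos _).le, ← ENNReal.ofReal_pow (Real.exp_pos _).le,
    ← ENNReal.ofReal_mul (by positivity), ← Real.exp_nat_mul, ← Real.exp_nat_mul, ← Real.exp_add]
  congr 2
  ring

lemma add_exp_le {x : ℝ} (hx : 1 ≤ x) {a b : ℝ≥0∞} (ha : a ≤ ENNReal.ofReal (Real.exp (-(2 * x))))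
    (hb : b ≤ ENNReal.ofReal (Real.exp (-(2 * x)))) : a + b ≤ ENNReal.ofReal (Real.exp (-x)) := by
  refine (add_le_add ha hb).trans ?_
  rw [← ENNReal.ofReal_add (Real.exp_pos _).le (Real.exp_pos _).le]
  refine ENNReal.ofReal_le_ofReal ?_
  have h1 : Real.exp (-(2 * x)) = Real.exp (-x) * Real.exp (-x) := by
    rw [← Real.exp_add]; congr 1; ring
  have h2 : Real.exp (-x) ≤ 1 / 2 := by
    have h3 : Real.exp (-x) ≤ Real.exp (-1) := Real.exp_le_exp.2 (by linarith)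
    have h4 : Real.exp (-1) ≤ 1 / 2 := by
      rw [Real.exp_neg]
      have h5 := Real.exp_one_gt_d9
      rw [inv_eq_one_div]
      exact one_div_le_one_div_of_le (by norm_num) (by linarith)
    exact h3.trans h4
  have h0 := Real.exp_pos (-x)
  rw [h1]
  nlinarith

/-- **(N1) `STAT` with `k` units gives `e^(-lam v)`.** Number of scheduled epochs
`r ≤ T v / C0 + 2`, slack `s ≥ v`, threshold `e^(-k q v)`. -/
theorem stat_num {lam θ q T : ℝ} (hlam : 1 ≤ lam) (hθ : 0 < θ) (hq : 0 < q) (_hT : 0 < T) :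
    ∃ k : ℕ, 1 ≤ k ∧ ∃ η : ℝ≥0∞, 0 < η ∧ η ≤ 1 / 4 ∧ η ≠ ∞ ∧ ∀ Ks : ℝ≥0∞, Ks ≠ ∞ →
      ∃ C0 : ℝ, 1 ≤ C0 ∧ ∃ v0 : ℝ, 1 ≤ v0 ∧ ∀ v : ℝ, v0 ≤ v → ∀ C : ℝ, C0 ≤ C → ∀ r s : ℕ,
        (r : ℝ) ≤ T * v / C + 2 → v ≤ s →
        (2 * Ks) ^ r * (ENNReal.ofReal (Real.exp (-(k * q * v)))) ^ θ +
          (2 * η) ^ s * (1 / η) ^ r ≤ ENNReal.ofReal (Real.exp (-(lam * v))) := by
  obtain ⟨k, hk⟩ := exists_nat_ge (4 * lam / (q * θ))
  have hqθ : 0 < q * θ := mul_pos hq hθ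
  refine ⟨max k 1, le_max_right _ _, et (4 * lam), et_pos _, et_le (by linarith), et_ne_top _, ?_⟩
  intro Ks hKs
  set L := Lk Ks with hL
  have hL0 : 0 ≤ L := Lk_nonneg Ks
  refine ⟨max 1 (max (T * L) (T * (4 * lam + 2))), le_max_left _ _,
    max 1 (max (2 * L) (2 * (4 * lam + 2))), le_max_left _ _, ?_⟩
  intro v hv C hC r s hr hs
  have hv1 : 1 ≤ v := (le_max_left _ _).trans hv
  have hv2 : 2 * L ≤ v := ((le_max_left _ _).trans (le_max_right _ _)).trans hv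
  have hv3 : 2 * (4 * lam + 2) ≤ v := ((le_max_right _ _).trans (le_max_right _ _)).trans hv
  have hC1 : 1 ≤ C := (le_max_left _ _).trans hC
  have hC2 : T * L ≤ C := ((le_max_left _ _).trans (le_max_right _ _)).trans hC
  have hC3 : T * (4 * lam + 2) ≤ C := ((le_max_right _ _).trans (le_max_right _ _)).trans hC
  have hC0 : 0 < C := by linarith
  have hlv : v ≤ lam * v := by nlinarith
  have key : ∀ A : ℝ, 0 ≤ A → T * A ≤ C → 2 * A ≤ v → A * r ≤ 2 * (lam * v) := by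
    intro A hA hTA hAv
    have h1 : A * r ≤ A * (T * v / C + 2) := mul_le_mul_of_nonneg_left hr hA
    have h2 : A * (T * v / C) ≤ v := by
      rw [← mul_div_assoc, div_le_iff₀ hC0]
      calc A * (T * v) = (T * A) * v := by ring
        _ ≤ C * v := mul_le_mul_of_nonneg_right hTA (by linarith)
        _ = v * C := by ring
    nlinarith
  refine add_exp_le (x := lam * v) (by linarith) ?_ ?_
  · refine (mul_le_mul' (pow_Ks_le hKs r) (le_of_eq (ofReal_exp_rpow _ _))).trans ?_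
    rw [← ENNReal.ofReal_mul (Real.exp_pos _).le, ← Real.exp_add]
    refine ENNReal.ofReal_le_ofReal (Real.exp_le_exp.2 ?_)
    have h1 := key L hL0 hC2 hv2
    have h2 : 4 * lam ≤ (max k 1 : ℕ) * (q * θ) := by
      have h3 : (k : ℝ) ≤ ((max k 1 : ℕ) : ℝ) := by exact_mod_cast le_max_left k 1
      have h4 := hk.trans h3
      rw [div_le_iff₀ hqθ] at h4
      exact h4
    have h5 : 4 * lam * v ≤ (max k 1 : ℕ) * (q * θ) * v :=
      mul_le_mul_of_nonneg_right h2 (by linarith)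
    calc Lk Ks * r + -(((max k 1 : ℕ) : ℝ) * q * v) * θ
        = L * r - (max k 1 : ℕ) * (q * θ) * v := by rw [hL]; ring
      _ ≤ 2 * (lam * v) - 4 * lam * v := by linarith
      _ = -(2 * (lam * v)) := by ring
  · refine (et_pow_le (4 * lam) s r).trans (ENNReal.ofReal_le_ofReal (Real.exp_le_exp.2 ?_))
    have h1 := key (4 * lam + 2) (by linarith) hC3 hv3
    have h2 : 4 * lam * v ≤ 4 * lam * s := mul_le_mul_of_nonneg_left hs (by linarith)
    linarith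

/-- **(N2) score of one macro step** (`k = 1`): `x`, `η` after `Λ`; `σ0` after `Ks`, `r`. -/
theorem score_num {Λ θ : ℝ} (hΛ : 1 ≤ Λ) (hθ : 0 < θ) :
    ∃ x : ℝ, 0 < x ∧ ∃ η : ℝ≥0∞, 0 < η ∧ η ≤ 1 / 4 ∧ η ≠ ∞ ∧ ∀ Ks : ℝ≥0∞, Ks ≠ ∞ → ∀ r : ℕ,
      ∃ σ0 : ℕ, 1 ≤ σ0 ∧ ∀ σ : ℕ, σ0 ≤ σ → ∀ r' : ℕ, r' ≤ r →
        (2 * Ks) ^ r' * (ENNReal.ofReal (Real.exp (-(x * σ)))) ^ θ +
          (2 * η) ^ σ * (1 / η) ^ r' ≤ ENNReal.ofReal (Real.exp (-(Λ * σ))) := by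
  refine ⟨3 * Λ / θ, by positivity, et (3 * Λ), et_pos _, et_le (by linarith), et_ne_top _, ?_⟩
  intro Ks hKs r
  set L := Lk Ks with hL
  have hL0 : 0 ≤ L := Lk_nonneg Ks
  obtain ⟨σ0, hσ0⟩ := exists_nat_ge (max 1 (max (L * r) ((3 * Λ + 2) * r)))
  have h01 : (1 : ℝ) ≤ σ0 := (le_max_left _ _).trans hσ0
  refine ⟨σ0, by exact_mod_cast h01, ?_⟩
  intro σ hσ r' hr'
  have hσ' : (σ0 : ℝ) ≤ σ := by exact_mod_cast hσ
  have hr'' : (r' : ℝ) ≤ r := by exact_mod_cast hr'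
  have h1 : (1 : ℝ) ≤ σ := h01.trans hσ'
  have h2 : L * r' ≤ σ := (mul_le_mul_of_nonneg_left hr'' hL0).trans
    ((((le_max_left _ _).trans (le_max_right _ _)).trans hσ0).trans hσ')
  have h3 : (3 * Λ + 2) * r' ≤ σ := (mul_le_mul_of_nonneg_left hr'' (by linarith)).trans
    ((((le_max_right _ _).trans (le_max_right _ _)).trans hσ0).trans hσ')
  have hlv : (σ : ℝ) ≤ Λ * σ := by nlinarith
  refine add_exp_le (x := Λ * σ) (by linarith) ?_ ?_
  · refine (mul_le_mul' (pow_Ks_le hKs r') (le_of_eq (ofReal_exp_rpow _ _))).trans ?_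
    rw [← ENNReal.ofReal_mul (Real.exp_pos _).le, ← Real.exp_add]
    refine ENNReal.ofReal_le_ofReal (Real.exp_le_exp.2 ?_)
    have h5 : 3 * Λ / θ * σ * θ = 3 * Λ * σ := by field_simp
    calc Lk Ks * r' + -(3 * Λ / θ * σ) * θ = L * r' - 3 * Λ / θ * σ * θ := by rw [hL]; ring
      _ = L * r' - 3 * Λ * σ := by rw [h5]
      _ ≤ -(2 * (Λ * σ)) := by linarith
  · refine (et_pow_le (3 * Λ) σ r').trans (ENNReal.ofReal_le_ofReal (Real.exp_le_exp.2 ?_))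
    linarith

/-- **(N3)** a product above `c^k` has a factor above `c` -/
theorem exists_gt_of_prod {ι : Type*} [Fintype ι] {c : ℝ≥0∞} {M : ι → ℝ≥0∞}
    (h : c ^ Fintype.card ι < ∏ a, M a) : ∃ a, c < M a := by
  by_contra hcon
  push Not at hcon
  have h1 : ∏ a, M a ≤ ∏ _a : ι, c := Finset.prod_le_prod' fun a _ => hcon a
  rw [Finset.prod_const, Finset.card_univ] at h1
  exact absurd h (not_lt.2 h1)

/-- exponential form of (N3), `k` units, threshold `e^(-k q v)` -/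
theorem exists_gt_exp {k : ℕ} {q v : ℝ} {M : Fin k → ℝ≥0∞}
    (h : ENNReal.ofReal (Real.exp (-(k * q * v))) < ∏ a, M a) :
    ∃ a, ENNReal.ofReal (Real.exp (-(q * v))) < M a := by
  refine exists_gt_of_prod (lt_of_le_of_lt (le_of_eq ?_) h)
  rw [Fintype.card_fin, ← ENNReal.ofReal_pow (Real.exp_pos _).le, ← Real.exp_nat_mul]
  congr 2
  ring

/-- event form: `{∀ a, M_a ≤ e^(-q v)} ⊆ {∏ M_a ≤ e^(-k q v)}` -/
theorem prod_le_exp {k : ℕ} {q v : ℝ} {M : Fin k → ℝ≥0∞}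
    (h : ∀ a, M a ≤ ENNReal.ofReal (Real.exp (-(q * v)))) :
    ∏ a, M a ≤ ENNReal.ofReal (Real.exp (-(k * q * v))) := by
  by_contra hcon
  obtain ⟨a, ha⟩ := exists_gt_exp (not_le.1 hcon)
  exact absurd (h a) (not_le.2 ha)

end Crest.Agent.R154.HMnum460
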