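import Crest.Agent.R154.HomeC_903

/-!
# Row 154 (helper32), HOME MASS (263): the traveller

Macro steps `lv 0 < lv 1 < ... < lv J`.  In one macro step, from every law `w` known at its bottom:
* with probability `≥ 1 - δ` the part of the push that JUMPS (relation `Jp`) has mass `≥ η tot w`;
* with probability `≥ 1 - C q ^ j` the part of the push that stays HOME up to `j` (relation `Hm j`) has
  mass `≥ ε1 ^ j tot w`.
Conclusion after `J` macro steps: the part of the push with `≥ s` jumps and total home drift `≤ n` has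
mass `≥ ε1 ^ n η ^ J tot w` with probability `≥ 1 - (x + δ) ^ J x⁻ˢ - (Z ^ J) σ ^ n`.
-/

set_option autoImplicit false
set_option linter.unusedSectionVars false

namespace Crest.Agent.R154.Trav32

open MeasureTheory ProbabilityTheory Set
open Crest.Agent.R154.RatioR872 Crest.Agent.R154.RatioR872.KerSys Crest.Agent.R154.Home903
open scoped ENNReal Classical

variable {S : Type*} [Countable S] {Ω : Type*} {m0 : MeasurableSpace Ω} {P : Measure Ω}
variable {A : KerSys S P}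

/-- jump part of the bound -/
noncomputable def gg (x δ : ℝ≥0∞) (r s : ℕ) : ℝ≥0∞ :=
  if s = 0 then 0 else (x + δ) ^ r * (x⁻¹) ^ s

lemma gg_step {x δ : ℝ≥0∞} (hx0 : x ≠ 0) (hx1 : x ≤ 1) (r s : ℕ) :
    gg x δ r (s - 1) + δ * gg x δ r s ≤ gg x δ (r + 1) s := by
  rcases s with _ | _ | s
  · simp [gg]
  · simp only [gg, zero_add, Nat.sub_self, if_true, one_ne_zero, if_false]
    calc δ * ((x + δ) ^ r * x⁻¹ ^ 1) = δ * (x + δ) ^ r * x⁻¹ ^ 1 := by ring
      _ ≤ (x + δ) * (x + δ) ^ r * x⁻¹ ^ 1 := by gcongr; exact le_add_self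
      _ = (x + δ) ^ (r + 1) * x⁻¹ ^ 1 := by ring
  · have hxx : x * x⁻¹ = 1 := ENNReal.mul_inv_cancel hx0 (ne_top_of_le_ne_top ENNReal.one_ne_top hx1)
    have e1 : s + 1 + 1 - 1 = s + 1 := by omega
    simp only [gg, e1, Nat.succ_ne_zero, if_false]
    refine le_of_eq ?_
    calc (x + δ) ^ r * x⁻¹ ^ (s + 1) + δ * ((x + δ) ^ r * x⁻¹ ^ (s + 1 + 1))
        = (x + δ) ^ r * x⁻¹ ^ (s + 1) * 1 + δ * ((x + δ) ^ r * x⁻¹ ^ (s + 1 + 1)) := by ring
      _ = (x + δ) ^ r * x⁻¹ ^ (s + 1) * (x * x⁻¹) + δ * ((x + δ) ^ r * x⁻¹ ^ (s + 1 + 1)) := by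
          rw [hxx]
      _ = (x + δ) ^ (r + 1) * x⁻¹ ^ (s + 1 + 1) := by ring

lemma one_le_gg {x δ : ℝ≥0∞} (hx0 : x ≠ 0) (hx1 : x ≤ 1) {s : ℕ} (hs : s ≠ 0) :
    1 ≤ gg x δ 1 s := by
  obtain ⟨s, rfl⟩ := Nat.exists_eq_succ_of_ne_zero hs
  have hxx : x * x⁻¹ = 1 := ENNReal.mul_inv_cancel hx0 (ne_top_of_le_ne_top ENNReal.one_ne_top hx1)
  have h1 : 1 ≤ x⁻¹ := ENNReal.one_le_inv.2 hx1
  simp only [gg, Nat.succ_ne_zero, if_false]
  calc (1 : ℝ≥0∞) = 1 * 1 := by ring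
    _ ≤ (x * x⁻¹) * x⁻¹ ^ s := by rw [hxx]; gcongr; exact one_le_pow₀ h1
    _ = x ^ 1 * x⁻¹ ^ (s + 1) := by ring
    _ ≤ _ := by gcongr; exact le_self_add

lemma triv_bound {W : ℝ≥0∞} (hW : 1 ≤ W) (B X : Set Ω) : P (B ∩ X) ≤ W * P B :=
  calc P (B ∩ X) ≤ P B := measure_mono inter_subset_left
    _ = 1 * P B := (one_mul _).symm
    _ ≤ W * P B := by gcongr

/-- **the sequential composition** -/
theorem main {lv : ℕ → ℕ} (hlv : Monotone lv) {J : ℕ} {Jp : S → S → Prop}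
    {Hm : ℕ → S → S → Prop} {E : ℕ → ℕ → S → S → Prop}
    (hE1 : ∀ s n x y z, Jp x y → E (s - 1) n y z → E s n x z)
    (hE2 : ∀ s n j, 1 ≤ j → j ≤ n → ∀ x y z, Hm j x y → E s (n - j) y z → E s n x z)
    (hE3 : ∀ n x y, 1 ≤ n → Hm n x y → E 0 n x y)
    {η ε1 δ q C x σ Z : ℝ≥0∞} (hη : η ≤ 1) (hC : 1 ≤ C) (hx1 : x ≤ 1) (hx0 : x ≠ 0)
    (hJump : ∀ t < J, ∀ w, A.Wt (lv t) w → (∀ ω, tot w ω ≤ 1) → ∀ B, MeasurableSet[A.F (lv t)] B →
      P (B ∩ {ω | tot (rpush A Jp (lv t) (lv (t + 1)) w) ω < η * tot w ω}) ≤ δ * P B)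
    (hHome : ∀ t < J, ∀ w, A.Wt (lv t) w → (∀ ω, tot w ω ≤ 1) → ∀ B, MeasurableSet[A.F (lv t)] B →
      ∀ j, 1 ≤ j →
      P (B ∩ {ω | tot (rpush A (Hm j) (lv t) (lv (t + 1)) w) ω < ε1 ^ j * tot w ω})
        ≤ C * q ^ j * P B)
    (hZ : ∀ n, σ ^ n + ∑ j ∈ Finset.Icc 1 n, C * q ^ (j - 1) * σ ^ (n - j) + C * q ^ n ≤ Z * σ ^ n) :
    ∀ r, 1 ≤ r → ∀ i, i + r ≤ J → ∀ s n w, A.Wt (lv i) w → (∀ ω, tot w ω ≤ 1) →
      ∀ B, MeasurableSet[A.F (lv i)] B →
      P (B ∩ {ω | tot (rpush A (E s n) (lv i) (lv (i + r)) w) ω < ε1 ^ n * η ^ r * tot w ω})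
        ≤ (gg x δ r s + Z ^ r * σ ^ n) * P B := by
  have hZ1 : 1 ≤ Z := by
    have := hZ 0
    simp only [pow_zero, mul_one, Finset.Icc_eq_empty_of_lt (by norm_num : (0:ℕ) < 1),
      Finset.sum_empty, add_zero] at this
    exact le_trans (le_self_add) this
  intro r hr
  induction r, hr using Nat.le_induction with
  | base =>
    intro i hi s n w hw hw1 B hB
    rcases Nat.eq_zero_or_pos s with rfl | hs
    · rcases Nat.eq_zero_or_pos n with rfl | hn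
      · refine triv_bound ?_ _ _
        simp only [pow_zero, mul_one, pow_one]
        exact hZ1.trans le_add_self
      · have h1 := hHome i (by omega) w hw hw1 B hB n hn
        calc P (B ∩ {ω | tot (rpush A (E 0 n) (lv i) (lv (i + 1)) w) ω < ε1 ^ n * η ^ 1 * tot w ω})
            ≤ P (B ∩ {ω | tot (rpush A (Hm n) (lv i) (lv (i + 1)) w) ω < ε1 ^ n * tot w ω}) := by
              refine measure_mono fun ω hω => ⟨hω.1, ?_⟩
              calc tot (rpush A (Hm n) (lv i) (lv (i + 1)) w) ω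
                  ≤ tot (rpush A (E 0 n) (lv i) (lv (i + 1)) w) ω :=
                    tot_rpush_mono_D (fun x y => hE3 n x y hn) _ _ _ _
                _ < ε1 ^ n * η ^ 1 * tot w ω := hω.2
                _ ≤ ε1 ^ n * 1 * tot w ω := by gcongr; rw [pow_one]; exact hη
                _ = ε1 ^ n * tot w ω := by ring
          _ ≤ C * q ^ n * P B := h1
          _ ≤ _ := by
              gcongr
              rw [pow_one]
              exact (le_add_self.trans (hZ n)).trans le_add_self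
    · refine triv_bound ?_ _ _
      exact (one_le_gg hx0 hx1 (by omega)).trans le_self_add
  | succ r hr ih =>
    intro i hi s n w hw hw1 B hB
    rcases Nat.eq_zero_or_pos n with rfl | hn
    · refine triv_bound ?_ _ _
      simp only [pow_zero, mul_one]
      exact (one_le_pow₀ hZ1).trans le_add_self
    have hlv1 : lv i ≤ lv (i + 1) := hlv (Nat.le_succ i)
    have hlv2 : lv (i + 1) ≤ lv (i + 1 + r) := hlv (by omega)
    have eir : i + (r + 1) = i + 1 + r := by omega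
    rw [eir]
    have hB' : MeasurableSet[A.F (lv (i + 1))] B := A.F.mono hlv1 _ hB
    set wJ := rpush A Jp (lv i) (lv (i + 1)) w with hwJ
    set wH : ℕ → Ω → S → ℝ≥0∞ := fun j => rpush A (Hm j) (lv i) (lv (i + 1)) w with hwH
    have hwJw : A.Wt (lv (i + 1)) wJ := rpush_wt hlv1 hw
    have hwHw : ∀ j, A.Wt (lv (i + 1)) (wH j) := fun j => rpush_wt hlv1 hw
    have hwJ1 : ∀ ω, tot wJ ω ≤ 1 := fun ω =>
      (tot_rpush_le _ _ _ _ _).trans ((tot_push_le A hlv1 w ω).trans (hw1 ω))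
    have hwH1 : ∀ j ω, tot (wH j) ω ≤ 1 := fun j ω =>
      (tot_rpush_le _ _ _ _ _).trans ((tot_push_le A hlv1 w ω).trans (hw1 ω))
    have hwm : Measurable[A.F (lv (i + 1))] (fun ω => tot w ω) :=
      hw.meas_tot.mono (A.F.mono hlv1) le_rfl
    set Sg : Set Ω := {ω | η * tot w ω ≤ tot wJ ω} with hSg
    set G : ℕ → Set Ω := fun j => {ω | ε1 ^ j * tot w ω ≤ tot (wH j) ω} with hG
    have hSm : MeasurableSet[A.F (lv (i + 1))] Sg :=
      measurableSet_le (hwm.const_mul _) hwJw.meas_tot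
    have hGm : ∀ j, MeasurableSet[A.F (lv (i + 1))] (G j) := fun j =>
      measurableSet_le (hwm.const_mul _) (hwHw j).meas_tot
    set R : ℕ → Set Ω := fun j => Sgᶜ ∩ (G j ∩ ⋂ j' ∈ Finset.Ico 1 j, (G j')ᶜ) with hR
    have hRm : ∀ j, MeasurableSet[A.F (lv (i + 1))] (R j) := fun j =>
      hSm.compl.inter ((hGm j).inter (Finset.measurableSet_biInter _ fun j' _ => (hGm j').compl))
    -- prices
    have hPS : P (B ∩ Sgᶜ) ≤ δ * P B := by
      refine le_trans (measure_mono ?_) (hJump i (by omega) w hw hw1 B hB)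
      intro ω hω
      have h2 : ¬ (η * tot w ω ≤ tot wJ ω) := hω.2
      exact ⟨hω.1, not_le.1 h2⟩
    have hPG : ∀ j, 1 ≤ j → P (B ∩ (G j)ᶜ) ≤ C * q ^ j * P B := by
      intro j hj
      refine le_trans (measure_mono ?_) (hHome i (by omega) w hw hw1 B hB j hj)
      intro ω hω
      have h2 : ¬ (ε1 ^ j * tot w ω ≤ tot (wH j) ω) := hω.2
      exact ⟨hω.1, not_le.1 h2⟩
    have hPR : ∀ j, 1 ≤ j → P (B ∩ R j) ≤ C * q ^ (j - 1) * P B := by
      intro j hj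
      rcases Nat.lt_or_ge 1 j with h1 | h1
      · refine le_trans (measure_mono ?_) (hPG (j - 1) (by omega))
        intro ω hω
        refine ⟨hω.1, ?_⟩
        have := hω.2.2.2
        simp only [mem_iInter] at this
        exact this (j - 1) (Finset.mem_Ico.2 ⟨by omega, by omega⟩)
      · have : j - 1 = 0 := by omega
        rw [this, pow_zero, mul_one]
        exact triv_bound hC _ _
    have hPsum : ∑ j ∈ Finset.Icc 1 n, P (B ∩ R j) ≤ δ * P B := by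
      have hdis : Set.PairwiseDisjoint (↑(Finset.Icc 1 n)) fun j => B ∩ R j := by
        intro j hj j' hj' hne
        have hj1 := Finset.mem_Icc.1 (Finset.mem_coe.1 hj)
        have hj1' := Finset.mem_Icc.1 (Finset.mem_coe.1 hj')
        rw [Function.onFun, Set.disjoint_left]
        rintro ω ⟨_, _, h1, h2⟩ ⟨_, _, h1', h2'⟩
        simp only [mem_iInter] at h2 h2'
        rcases lt_or_gt_of_ne hne with h | h
        · exact h2' j (Finset.mem_Ico.2 ⟨hj1.1, h⟩) h1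
        · exact h2 j' (Finset.mem_Ico.2 ⟨hj1'.1, h⟩) h1'
      rw [← measure_biUnion_finset hdis fun j _ => (A.F.le _ _ (hB'.inter (hRm j)))]
      refine le_trans (measure_mono ?_) hPS
      intro ω hω
      obtain ⟨j, _, h⟩ := mem_iUnion₂.1 hω
      exact ⟨h.1, h.2.1⟩
    -- covering
    have hcov : P (B ∩ {ω | tot (rpush A (E s n) (lv i) (lv (i + 1 + r)) w) ω
          < ε1 ^ n * η ^ (r + 1) * tot w ω}) ≤
        P ((B ∩ Sg) ∩ {ω | tot (rpush A (E (s - 1) n) (lv (i + 1)) (lv (i + 1 + r)) wJ) ω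
          < ε1 ^ n * η ^ r * tot wJ ω}) +
        ∑ j ∈ Finset.Icc 1 n,
          P ((B ∩ R j) ∩ {ω | tot (rpush A (E s (n - j)) (lv (i + 1)) (lv (i + 1 + r)) (wH j)) ω
          < ε1 ^ (n - j) * η ^ r * tot (wH j) ω}) + P (B ∩ (G n)ᶜ) := by
      refine le_trans (measure_mono_ae ?_) ((measure_union_le _ _).trans
        (add_le_add ((measure_union_le _ _).trans
        (add_le_add le_rfl (measure_biUnion_finset_le _ _))) le_rfl))
      have hc1 := tot_rpush_comp (A := A) (P := P) (hE1 s n) hlv1 hlv2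
      have hc2 : ∀ᵐ ω ∂P, ∀ j, 1 ≤ j → j ≤ n → ∀ w : Ω → S → ℝ≥0∞,
          tot (rpush A (E s (n - j)) (lv (i + 1)) (lv (i + 1 + r))
            (rpush A (Hm j) (lv i) (lv (i + 1)) w)) ω
            ≤ tot (rpush A (E s n) (lv i) (lv (i + 1 + r)) w) ω := by
        rw [ae_all_iff]
        intro j
        by_cases hj : 1 ≤ j ∧ j ≤ n
        · filter_upwards [tot_rpush_comp (A := A) (P := P) (hE2 s n j hj.1 hj.2) hlv1 hlv2]
            with ω hω _ _ using hω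
        · exact Filter.Eventually.of_forall fun ω h1 h2 => absurd ⟨h1, h2⟩ hj
      filter_upwards [hc1, hc2] with ω h1 h2
      rintro ⟨hωB, hω⟩
      rw [mem_setOf_eq] at hω
      by_cases hωS : ω ∈ Sg
      · left; left
        refine ⟨⟨hωB, hωS⟩, ?_⟩
        rw [mem_setOf_eq]
        refine (h1 w).trans_lt (hω.trans_le ?_)
        calc ε1 ^ n * η ^ (r + 1) * tot w ω = ε1 ^ n * η ^ r * (η * tot w ω) := by ring
          _ ≤ ε1 ^ n * η ^ r * tot wJ ω := by gcongr; exact hωS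
      · by_cases hex : ∃ j, 1 ≤ j ∧ ω ∈ G j
        · set j := Nat.find hex with hj
          have hj1 : 1 ≤ j := (Nat.find_spec hex).1
          have hj2 : ω ∈ G j := (Nat.find_spec hex).2
          have hj3 : ∀ j' ∈ Finset.Ico 1 j, ω ∉ G j' := by
            intro j' hj' hG'
            have := Finset.mem_Ico.1 hj'
            exact Nat.find_min hex this.2 ⟨this.1, hG'⟩
          by_cases hjn : j ≤ n
          · left; right
            refine mem_iUnion₂.2 ⟨j, Finset.mem_Icc.2 ⟨hj1, hjn⟩, ⟨hωB, hωS, hj2, ?_⟩, ?_⟩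
            · simp only [mem_iInter]
              exact hj3
            · rw [mem_setOf_eq]
              refine (h2 j hj1 hjn w).trans_lt (hω.trans_le ?_)
              calc ε1 ^ n * η ^ (r + 1) * tot w ω
                  = ε1 ^ (n - j) * η ^ r * η * (ε1 ^ j * tot w ω) := by
                    have : ε1 ^ n = ε1 ^ (n - j) * ε1 ^ j := by
                      rw [← pow_add]; congr 1; omega
                    rw [this]; ring
                _ ≤ ε1 ^ (n - j) * η ^ r * 1 * tot (wH j) ω := by gcongr; exact hj2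
                _ = ε1 ^ (n - j) * η ^ r * tot (wH j) ω := by ring
          · right
            exact ⟨hωB, hj3 n (Finset.mem_Ico.2 ⟨hn, by omega⟩)⟩
        · right
          exact ⟨hωB, fun h => hex ⟨n, hn, h⟩⟩
    -- summing up
    have hI1 := ih (i + 1) (by omega) (s - 1) n wJ hwJw hwJ1 (B ∩ Sg) (hB'.inter hSm)
    have hI2 : ∀ j ∈ Finset.Icc 1 n, P ((B ∩ R j) ∩
        {ω | tot (rpush A (E s (n - j)) (lv (i + 1)) (lv (i + 1 + r)) (wH j)) ω
          < ε1 ^ (n - j) * η ^ r * tot (wH j) ω}) ≤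
        gg x δ r s * P (B ∩ R j) + Z ^ r * (C * q ^ (j - 1) * σ ^ (n - j)) * P B := by
      intro j hj
      have hj' := Finset.mem_Icc.1 hj
      calc _ ≤ (gg x δ r s + Z ^ r * σ ^ (n - j)) * P (B ∩ R j) :=
            ih (i + 1) (by omega) s (n - j) (wH j) (hwHw j) (hwH1 j) (B ∩ R j) (hB'.inter (hRm j))
        _ = gg x δ r s * P (B ∩ R j) + Z ^ r * σ ^ (n - j) * P (B ∩ R j) := by ring
        _ ≤ gg x δ r s * P (B ∩ R j) + Z ^ r * σ ^ (n - j) * (C * q ^ (j - 1) * P B) := by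
            gcongr
            exact hPR j hj'.1
        _ = _ := by ring
    calc _ ≤ _ := hcov
      _ ≤ (gg x δ r (s - 1) + Z ^ r * σ ^ n) * P B +
          ∑ j ∈ Finset.Icc 1 n, (gg x δ r s * P (B ∩ R j) +
            Z ^ r * (C * q ^ (j - 1) * σ ^ (n - j)) * P B) + C * q ^ n * P B := by
          refine add_le_add (add_le_add (hI1.trans ?_) (Finset.sum_le_sum hI2)) (hPG n hn)
          gcongr
          exact inter_subset_left
      _ = (gg x δ r (s - 1) + Z ^ r * σ ^ n) * P B +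
          (gg x δ r s * ∑ j ∈ Finset.Icc 1 n, P (B ∩ R j) +
            Z ^ r * (∑ j ∈ Finset.Icc 1 n, C * q ^ (j - 1) * σ ^ (n - j)) * P B)
            + C * q ^ n * P B := by
          rw [Finset.sum_add_distrib, ← Finset.mul_sum, ← Finset.sum_mul, ← Finset.mul_sum]
      _ ≤ (gg x δ r (s - 1) + Z ^ r * σ ^ n) * P B +
          (gg x δ r s * (δ * P B) +
            Z ^ r * (∑ j ∈ Finset.Icc 1 n, C * q ^ (j - 1) * σ ^ (n - j)) * P B)
            + Z ^ r * (C * q ^ n) * P B := by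
          refine add_le_add (add_le_add le_rfl ?_) ?_
          · gcongr
          · rw [← mul_assoc]
            have : (1 : ℝ≥0∞) ≤ Z ^ r := one_le_pow₀ hZ1
            calc C * q ^ n * P B = 1 * C * q ^ n * P B := by ring
              _ ≤ Z ^ r * C * q ^ n * P B := by gcongr
      _ = ((gg x δ r (s - 1) + δ * gg x δ r s) +
          Z ^ r * (σ ^ n + ∑ j ∈ Finset.Icc 1 n, C * q ^ (j - 1) * σ ^ (n - j) + C * q ^ n))
          * P B := by ring
      _ ≤ (gg x δ (r + 1) s + Z ^ r * (Z * σ ^ n)) * P B := by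
          gcongr
          · exact gg_step hx0 hx1 r s
          · exact hZ n
      _ = (gg x δ (r + 1) s + Z ^ (r + 1) * σ ^ n) * P B := by ring

/-- numeric input: `q ≤ σ / 2`, `Z = 1 + 2 C / σ + C` -/
lemma hZ_num {q σ C : ℝ≥0∞} (hσ0 : σ ≠ 0) (hσ1 : σ ≠ ∞) (hq : q ≤ σ / 2) (n : ℕ) :
    σ ^ n + ∑ j ∈ Finset.Icc 1 n, C * q ^ (j - 1) * σ ^ (n - j) + C * q ^ n
      ≤ (1 + 2 * C / σ + C) * σ ^ n := by
  have hq' : q ≤ 2⁻¹ * σ := by rwa [mul_comm, ← div_eq_mul_inv]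
  have hgeo : ∑ j ∈ Finset.Icc 1 n, (2⁻¹ : ℝ≥0∞) ^ (j - 1) ≤ 2 := by
    calc ∑ j ∈ Finset.Icc 1 n, (2⁻¹ : ℝ≥0∞) ^ (j - 1)
        = ∑ j ∈ Finset.range n, (2⁻¹ : ℝ≥0∞) ^ j := by
          refine Finset.sum_bij' (fun j _ => j - 1) (fun j _ => j + 1) ?_ ?_ ?_ ?_ ?_
          · intro j hj
            have := Finset.mem_Icc.1 hj
            exact Finset.mem_range.2 (by omega)
          · intro j hj
            have := Finset.mem_range.1 hj
            exact Finset.mem_Icc.2 ⟨by omega, by omega⟩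
          · intro j hj
            have := Finset.mem_Icc.1 hj
            show j - 1 + 1 = j
            omega
          · intro j _
            show j + 1 - 1 = j
            omega
          · intro j _
            rfl
      _ ≤ ∑' j, (2⁻¹ : ℝ≥0∞) ^ j := ENNReal.sum_le_tsum _
      _ = 2 := by rw [ENNReal.tsum_geometric, ENNReal.one_sub_inv_two, inv_inv]
  have h1 : ∑ j ∈ Finset.Icc 1 n, C * q ^ (j - 1) * σ ^ (n - j) ≤ (2 * C / σ) * σ ^ n := by
    rcases Nat.eq_zero_or_pos n with rfl | hn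
    · simp
    calc ∑ j ∈ Finset.Icc 1 n, C * q ^ (j - 1) * σ ^ (n - j)
        ≤ ∑ j ∈ Finset.Icc 1 n, (C * σ ^ (n - 1)) * (2⁻¹ : ℝ≥0∞) ^ (j - 1) := by
          refine Finset.sum_le_sum fun j hj => ?_
          have hj' := Finset.mem_Icc.1 hj
          calc C * q ^ (j - 1) * σ ^ (n - j) ≤ C * (2⁻¹ * σ) ^ (j - 1) * σ ^ (n - j) := by gcongr
            _ = C * (2⁻¹ : ℝ≥0∞) ^ (j - 1) * (σ ^ (j - 1) * σ ^ (n - j)) := by
                rw [mul_pow]; ring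
            _ = (C * σ ^ (n - 1)) * (2⁻¹ : ℝ≥0∞) ^ (j - 1) := by
                rw [← pow_add]
                have : j - 1 + (n - j) = n - 1 := by omega
                rw [this]; ring
      _ = (C * σ ^ (n - 1)) * ∑ j ∈ Finset.Icc 1 n, (2⁻¹ : ℝ≥0∞) ^ (j - 1) := by
          rw [Finset.mul_sum]
      _ ≤ (C * σ ^ (n - 1)) * 2 := by gcongr
      _ = 2 * C * σ ^ (n - 1) * 1 := by ring
      _ = 2 * C * σ ^ (n - 1) * (σ⁻¹ * σ) := by rw [ENNReal.inv_mul_cancel hσ0 hσ1]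
      _ = (2 * C * σ⁻¹) * (σ ^ (n - 1) * σ) := by ring
      _ = (2 * C / σ) * σ ^ n := by
          rw [← pow_succ, Nat.sub_add_cancel hn, div_eq_mul_inv]
  have h2 : C * q ^ n ≤ C * σ ^ n := by
    gcongr
    refine hq.trans ?_
    exact ENNReal.half_le_self
  calc _ ≤ σ ^ n + (2 * C / σ) * σ ^ n + C * σ ^ n := by gcongr
    _ = _ := by ring

variable {φ : S → ℝ}

/-- **TRAVELLER**: at least `s` jumps of size `Δ`, total home drift at most `n * D1`. -/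
theorem trav {lv : ℕ → ℕ} (hlv : Monotone lv) {J : ℕ} (hJ : 1 ≤ J) {Δ D1 : ℝ} (hΔ : 0 ≤ Δ)
    {η ε1 δ q C x σ Z : ℝ≥0∞} (hη : η ≤ 1) (hC : 1 ≤ C) (hx1 : x ≤ 1) (hx0 : x ≠ 0)
    (hJump : ∀ t < J, ∀ w, A.Wt (lv t) w → (∀ ω, tot w ω ≤ 1) → ∀ B, MeasurableSet[A.F (lv t)] B →
      P (B ∩ {ω | tot (rpush A (fun x y => Δ ≤ φ y - φ x) (lv t) (lv (t + 1)) w) ω < η * tot w ω})
        ≤ δ * P B)
    (hHome : ∀ t < J, ∀ w, A.Wt (lv t) w → (∀ ω, tot w ω ≤ 1) → ∀ B, MeasurableSet[A.F (lv t)] B →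
      ∀ j : ℕ, 1 ≤ j →
      P (B ∩ {ω | tot (rpush A (fun x y => |φ y - φ x| ≤ j * D1) (lv t) (lv (t + 1)) w) ω
        < ε1 ^ j * tot w ω}) ≤ C * q ^ j * P B)
    (hZ : ∀ n, σ ^ n + ∑ j ∈ Finset.Icc 1 n, C * q ^ (j - 1) * σ ^ (n - j) + C * q ^ n ≤ Z * σ ^ n)
    (s n : ℕ) {w : Ω → S → ℝ≥0∞} (hw : A.Wt (lv 0) w) (hw1 : ∀ ω, tot w ω ≤ 1)
    {B : Set Ω} (hB : MeasurableSet[A.F (lv 0)] B) :
    P (B ∩ {ω | tot (rpush A (fun x y => s * Δ - n * D1 ≤ φ y - φ x) (lv 0) (lv J) w) ω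
      < ε1 ^ n * η ^ J * tot w ω}) ≤ ((x + δ) ^ J * (x⁻¹) ^ s + Z ^ J * σ ^ n) * P B := by
  have := main (A := A) (P := P) hlv (J := J) (Jp := fun x y => Δ ≤ φ y - φ x)
    (Hm := fun j x y => |φ y - φ x| ≤ j * D1)
    (E := fun s n x y => s * Δ - n * D1 ≤ φ y - φ x)
    (by
      intro s n x y z h1 h2
      have h3 : (s : ℝ) ≤ ((s - 1 : ℕ) : ℝ) + 1 := by
        exact_mod_cast (by omega : s ≤ s - 1 + 1)
      have h4 : (s : ℝ) * Δ ≤ (((s - 1 : ℕ) : ℝ) + 1) * Δ := mul_le_mul_of_nonneg_right h3 hΔ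
      linarith)
    (by
      intro s n j _ hjn x y z h1 h2
      have h3 : ((n - j : ℕ) : ℝ) = n - j := Nat.cast_sub hjn
      rw [h3] at h2
      have h4 := (abs_le.1 h1).1
      linarith)
    (by
      intro n x y _ h1
      have h4 := (abs_le.1 h1).1
      simp only [Nat.cast_zero, zero_mul, zero_sub]
      exact h4)
    hη hC hx1 hx0 hJump hHome hZ J hJ 0 (by omega) s n w hw hw1 B hB
  rw [zero_add] at this
  refine this.trans ?_
  gcongr
  unfold gg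
  by_cases hs : s = 0
  · simp [hs]
  · simp [hs]

/-- **HOME** over `J` macro steps: total drift at most `n * D1`. -/
theorem home {lv : ℕ → ℕ} (hlv : Monotone lv) {J : ℕ} (hJ : 1 ≤ J) {D1 : ℝ}
    {ε1 q C σ Z : ℝ≥0∞} (hC : 1 ≤ C)
    (hHome : ∀ t < J, ∀ w, A.Wt (lv t) w → (∀ ω, tot w ω ≤ 1) → ∀ B, MeasurableSet[A.F (lv t)] B →
      ∀ j : ℕ, 1 ≤ j →
      P (B ∩ {ω | tot (rpush A (fun x y => |φ y - φ x| ≤ j * D1) (lv t) (lv (t + 1)) w) ω
        < ε1 ^ j * tot w ω}) ≤ C * q ^ j * P B)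
    (hZ : ∀ n, σ ^ n + ∑ j ∈ Finset.Icc 1 n, C * q ^ (j - 1) * σ ^ (n - j) + C * q ^ n ≤ Z * σ ^ n)
    (n : ℕ) {w : Ω → S → ℝ≥0∞} (hw : A.Wt (lv 0) w) (hw1 : ∀ ω, tot w ω ≤ 1)
    {B : Set Ω} (hB : MeasurableSet[A.F (lv 0)] B) :
    P (B ∩ {ω | tot (rpush A (fun x y => |φ y - φ x| ≤ n * D1) (lv 0) (lv J) w) ω
      < ε1 ^ n * tot w ω}) ≤ Z ^ J * σ ^ n * P B := by
  have := main (A := A) (P := P) hlv (J := J) (Jp := fun _ _ => False)
    (Hm := fun j x y => |φ y - φ x| ≤ j * D1)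
    (E := fun _ n x y => |φ y - φ x| ≤ n * D1)
    (fun s n x y z h1 _ => h1.elim)
    (by
      intro s n j _ hjn x y z h1 h2
      have h3 : ((n - j : ℕ) : ℝ) = n - j := Nat.cast_sub hjn
      rw [h3] at h2
      have e1 : φ z - φ x = (φ y - φ x) + (φ z - φ y) := by ring
      rw [e1]
      refine (abs_add_le _ _).trans ?_
      linarith)
    (fun n x y _ h1 => h1)
    (η := 1) (δ := 1) (x := 1) le_rfl hC le_rfl one_ne_zero
    (fun t _ w _ _ B _ => by rw [one_mul]; exact measure_mono inter_subset_left)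
    hHome hZ J hJ 0 (by omega) 0 n w hw hw1 B hB
  rw [zero_add] at this
  simp only [one_pow, mul_one, gg, if_true, zero_add] at this
  exact this

/-- TRAVELLER with `J = 2 * s` macro steps, `x = δ`, `q ≤ σ / 2`, `Z = 1 + 2 C / σ + C`, drift budget
`n = m * J`: displacement `≥ s * Δ - m * (2 s) * D1`. -/
theorem trav_half {lv : ℕ → ℕ} (hlv : Monotone lv) {s : ℕ} (hs : 1 ≤ s) {Δ D1 : ℝ} (hΔ : 0 ≤ Δ)
    {η ε1 δ q C σ : ℝ≥0∞} (hη : η ≤ 1) (hC : 1 ≤ C) (hδ1 : δ ≤ 1) (hδ0 : δ ≠ 0)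
    (hσ0 : σ ≠ 0) (hσ1 : σ ≠ ∞) (hq : q ≤ σ / 2)
    (hJump : ∀ t < 2 * s, ∀ w, A.Wt (lv t) w → (∀ ω, tot w ω ≤ 1) →
      ∀ B, MeasurableSet[A.F (lv t)] B →
      P (B ∩ {ω | tot (rpush A (fun x y => Δ ≤ φ y - φ x) (lv t) (lv (t + 1)) w) ω < η * tot w ω})
        ≤ δ * P B)
    (hHome : ∀ t < 2 * s, ∀ w, A.Wt (lv t) w → (∀ ω, tot w ω ≤ 1) →
      ∀ B, MeasurableSet[A.F (lv t)] B → ∀ j : ℕ, 1 ≤ j →
      P (B ∩ {ω | tot (rpush A (fun x y => |φ y - φ x| ≤ j * D1) (lv t) (lv (t + 1)) w) ω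
        < ε1 ^ j * tot w ω}) ≤ C * q ^ j * P B)
    (m : ℕ) {w : Ω → S → ℝ≥0∞} (hw : A.Wt (lv 0) w) (hw1 : ∀ ω, tot w ω ≤ 1)
    {B : Set Ω} (hB : MeasurableSet[A.F (lv 0)] B) :
    P (B ∩ {ω | tot (rpush A (fun x y => s * Δ - (m * (2 * s) : ℕ) * D1 ≤ φ y - φ x)
        (lv 0) (lv (2 * s)) w) ω < ε1 ^ (m * (2 * s)) * η ^ (2 * s) * tot w ω})
      ≤ ((4 * δ) ^ s + ((1 + 2 * C / σ + C) * σ ^ m) ^ (2 * s)) * P B := by
  refine (trav (A := A) (P := P) hlv (J := 2 * s) (by omega) hΔ hη hC hδ1 hδ0 hJump hHome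
    (hZ_num hσ0 hσ1 hq) s (m * (2 * s)) hw hw1 hB).trans ?_
  gcongr
  · have hδδ : δ * δ⁻¹ = 1 :=
      ENNReal.mul_inv_cancel hδ0 (ne_top_of_le_ne_top ENNReal.one_ne_top hδ1)
    refine le_of_eq ?_
    calc (δ + δ) ^ (2 * s) * δ⁻¹ ^ s = (4 * δ) ^ s * (δ * δ⁻¹) ^ s := by
          rw [mul_pow δ δ⁻¹, pow_mul, ← mul_assoc, ← mul_pow]
          ring
      _ = (4 * δ) ^ s := by rw [hδδ, one_pow, mul_one]
  · rw [mul_pow, ← pow_mul]

end Crest.Agent.R154.Trav32
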