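import Crest.Agent.R154.RatioB_872

/-! Row 154 (helper9), home mass + static units (263 #36390), leaf HM5: median split, big try,
sequential tries, abstract on any `KerSys`. -/

set_option autoImplicit false
set_option linter.unusedSectionVars false
set_option linter.deprecated false

namespace Crest.Agent.R154.Try9

open MeasureTheory ProbabilityTheory Set Filter RatioR872 RatioR872.KerSys
open scoped ENNReal

variable {S : Type*} [Countable S] {Ω : Type*} {m0 : MeasurableSpace Ω} {P : Measure Ω}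
variable (A : KerSys S P)

open Classical in
/-- restricted push -/
noncomputable def rp (D : S → S → Prop) (a b : ℕ) (w : Ω → S → ℝ≥0∞) (ω : Ω) (y : S) : ℝ≥0∞ :=
  ∑' x, w ω x * (if D x y then A.G a b ω x y else 0)

lemma rp_le_push (D : S → S → Prop) (a b : ℕ) (w : Ω → S → ℝ≥0∞) (ω : Ω) (y : S) :
    rp A D a b w ω y ≤ A.push a b w ω y := by
  unfold rp push
  refine ENNReal.tsum_le_tsum fun x => ?_
  gcongr
  split_ifs
  · exact le_rfl
  · exact zero_le

variable {A}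

lemma rp_wt (D : S → S → Prop) {a b : ℕ} (hab : a ≤ b) {w : Ω → S → ℝ≥0∞} (hw : A.Wt a w) :
    A.Wt b (rp A D a b w) where
  meas y := by
    classical
    unfold rp
    refine Measurable.ennreal_tsum fun x => ?_
    refine ((hw.meas x).mono (A.F.mono hab) le_rfl).mul ?_
    by_cases h : D x y
    · simp only [h, if_true]
      exact A.measF a b x y hab
    · simp only [h, if_false]
      exact measurable_const
  supp ω y hy := by
    have h := rp_le_push A D a b w ω y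
    rw [(hw.push hab).supp ω y hy] at h
    exact le_antisymm h zero_le

lemma tot_mono {v w : Ω → S → ℝ≥0∞} {ω : Ω} (h : ∀ y, v ω y ≤ w ω y) : tot v ω ≤ tot w ω :=
  ENNReal.tsum_le_tsum h

lemma tot_rp_le (D : S → S → Prop) {a b : ℕ} (hab : a ≤ b) (w : Ω → S → ℝ≥0∞) (ω : Ω) :
    tot (rp A D a b w) ω ≤ tot w ω :=
  (tot_mono fun y => rp_le_push A D a b w ω y).trans (A.tot_push_le hab w ω)

lemma rp_supp {D : S → S → Prop} {a b : ℕ} {w : Ω → S → ℝ≥0∞} {ω : Ω} {y : S}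
    (h : rp A D a b w ω y ≠ 0) : ∃ x, w ω x ≠ 0 ∧ D x y := by
  classical
  by_contra hn
  push Not at hn
  apply h
  unfold rp
  rw [ENNReal.tsum_eq_zero]
  intro x
  by_cases hx : w ω x = 0
  · rw [hx, zero_mul]
  · rw [if_neg (hn x hx), mul_zero]

lemma push_mono {a b : ℕ} {v w : Ω → S → ℝ≥0∞} {ω : Ω} (h : ∀ y, v ω y ≤ w ω y) (z : S) :
    A.push a b v ω z ≤ A.push a b w ω z := by
  unfold push
  refine ENNReal.tsum_le_tsum fun x => ?_
  gcongr
  exact h x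

lemma push_push_le (A : KerSys S P) {a b c : ℕ} (hab : a ≤ b) (hbc : b ≤ c) :
    ∀ᵐ ω ∂P, ∀ (w : Ω → S → ℝ≥0∞) (z : S), A.push b c (A.push a b w) ω z ≤ A.push a c w ω z := by
  filter_upwards [A.comp a b c hab hbc] with ω h w z
  unfold push
  calc ∑' y, (∑' x, w ω x * A.G a b ω x y) * A.G b c ω y z
      = ∑' y, ∑' x, w ω x * (A.G a b ω x y * A.G b c ω y z) := by
        refine tsum_congr fun y => ?_
        rw [← ENNReal.tsum_mul_right]
        exact tsum_congr fun x => by ring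
    _ = ∑' x, w ω x * ∑' y, A.G a b ω x y * A.G b c ω y z := by
        rw [ENNReal.tsum_comm]
        exact tsum_congr fun x => ENNReal.tsum_mul_left
    _ ≤ ∑' x, w ω x * A.G a c ω x z := by
        refine ENNReal.tsum_le_tsum fun x => ?_
        gcongr
        exact h x z

lemma Sh_ge1 {μ : S → ℝ≥0∞} (hμ : A.Start μ) {a c : ℕ} (hac : a ≤ c) :
    ∀ᵐ ω ∂P, A.Sh μ a ω * tot (A.push a c (A.exitW μ a)) ω ≤ A.Sh μ c ω := by
  filter_upwards [push_push_le A (Nat.zero_le a) hac] with ω h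
  have e : ∀ z, A.Sh μ a ω * A.push a c (A.exitW μ a) ω z
      ≤ A.push 0 c (fun _ => μ) ω z := by
    intro z
    calc A.Sh μ a ω * A.push a c (A.exitW μ a) ω z
        = A.push a c (A.push 0 a fun _ => μ) ω z := by
          unfold push
          rw [← ENNReal.tsum_mul_left]
          refine tsum_congr fun x => ?_
          rw [← mul_assoc, mul_exitW hμ]
          rfl
      _ ≤ _ := h _ z
  calc A.Sh μ a ω * tot (A.push a c (A.exitW μ a)) ω
      = ∑' z, A.Sh μ a ω * A.push a c (A.exitW μ a) ω z := by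
        unfold tot; rw [ENNReal.tsum_mul_left]
    _ ≤ ∑' z, A.push 0 c (fun _ => μ) ω z := ENNReal.tsum_le_tsum e
    _ = A.Sh μ c ω := rfl

/-! ### median split -/

section Split

variable (φ : S → ℝ)

open Classical in
/-- mass strictly to the left of `t` -/
noncomputable def mlt (w : Ω → S → ℝ≥0∞) (ω : Ω) (t : ℝ) : ℝ≥0∞ :=
  ∑' y, if φ y < t then w ω y else 0

open Classical in
/-- mass to the left of `t` -/
noncomputable def mle (w : Ω → S → ℝ≥0∞) (ω : Ω) (t : ℝ) : ℝ≥0∞ :=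
  ∑' y, if φ y ≤ t then w ω y else 0

open Classical in
noncomputable def Lw (w : Ω → S → ℝ≥0∞) (ω : Ω) (x : S) : ℝ≥0∞ :=
  if mlt φ w ω (φ x) < tot w ω / 2 then w ω x else 0

open Classical in
noncomputable def Rw (w : Ω → S → ℝ≥0∞) (ω : Ω) (x : S) : ℝ≥0∞ :=
  if tot w ω / 2 ≤ mle φ w ω (φ x) then w ω x else 0

lemma Lw_le (w : Ω → S → ℝ≥0∞) (ω : Ω) (x : S) : Lw φ w ω x ≤ w ω x := by
  unfold Lw; split_ifs
  · exact le_rfl
  · exact zero_le

lemma Rw_le (w : Ω → S → ℝ≥0∞) (ω : Ω) (x : S) : Rw φ w ω x ≤ w ω x := by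
  unfold Rw; split_ifs
  · exact le_rfl
  · exact zero_le

lemma mle_le_mlt (w : Ω → S → ℝ≥0∞) (ω : Ω) {s t : ℝ} (h : s < t) :
    mle φ w ω s ≤ mlt φ w ω t := by
  unfold mle mlt
  refine ENNReal.tsum_le_tsum fun y => ?_
  by_cases h1 : φ y ≤ s
  · rw [if_pos h1, if_pos (lt_of_le_of_lt h1 h)]
  · rw [if_neg h1]; exact zero_le

lemma LR_order {w : Ω → S → ℝ≥0∞} {ω : Ω} {x y : S} (hx : Lw φ w ω x ≠ 0)
    (hy : Rw φ w ω y ≠ 0) : φ x ≤ φ y := by
  unfold Lw at hx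
  unfold Rw at hy
  have h1 : mlt φ w ω (φ x) < tot w ω / 2 := by
    by_contra h; rw [if_neg h] at hx; exact hx rfl
  have h2 : tot w ω / 2 ≤ mle φ w ω (φ y) := by
    by_contra h; rw [if_neg h] at hy; exact hy rfl
  by_contra h
  push Not at h
  exact absurd (lt_of_lt_of_le (lt_of_le_of_lt (mle_le_mlt φ w ω h) h1) h2) (lt_irrefl _)

open Classical in
lemma mlt_add (w : Ω → S → ℝ≥0∞) (ω : Ω) (t : ℝ) :
    mlt φ w ω t + ∑' y, (if t ≤ φ y then w ω y else 0) = tot w ω := by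
  unfold mlt tot
  rw [← ENNReal.tsum_add]
  refine tsum_congr fun y => ?_
  by_cases h : φ y < t
  · rw [if_pos h, if_neg (not_le.2 h), add_zero]
  · rw [if_neg h, if_pos (not_lt.1 h), zero_add]

/-- a set of more than half the mass contains a finite set of more than half the mass -/
lemma exists_fin {w : Ω → S → ℝ≥0∞} {ω : Ω} (h1 : tot w ω ≠ ∞) {v r : S → ℝ≥0∞}
    (hvr : ∀ x, v x + r x = w ω x) (hlt : ∑' x, v x < tot w ω / 2) :
    ∃ s : Finset S, (∀ x ∈ s, r x ≠ 0) ∧ tot w ω / 2 < ∑ x ∈ s, r x := by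
  classical
  have hr : tot w ω / 2 < ∑' x, r x := by
    by_contra hc
    push Not at hc
    have h2 : tot w ω < tot w ω := by
      calc tot w ω = ∑' x, (v x + r x) := by
            unfold tot; exact tsum_congr fun x => (hvr x).symm
        _ = (∑' x, v x) + ∑' x, r x := ENNReal.tsum_add
        _ ≤ (∑' x, v x) + tot w ω / 2 := by gcongr
        _ < tot w ω / 2 + tot w ω / 2 :=
            ENNReal.add_lt_add_right (ne_top_of_le_ne_top h1 ENNReal.half_le_self) hlt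
        _ = tot w ω := ENNReal.add_halves _
    exact lt_irrefl _ h2
  rw [ENNReal.tsum_eq_iSup_sum] at hr
  obtain ⟨s, hs⟩ := lt_iSup_iff.1 hr
  refine ⟨s.filter fun x => r x ≠ 0, fun x hx => (Finset.mem_filter.1 hx).2, ?_⟩
  rwa [Finset.sum_filter_ne_zero]

lemma half_le_L {w : Ω → S → ℝ≥0∞} {ω : Ω} (h1 : tot w ω ≠ ∞) :
    tot w ω / 2 ≤ tot (Lw φ w) ω := by
  classical
  by_cases h0 : tot w ω = 0
  · rw [h0]; simp
  by_contra hc
  push Not at hc
  obtain ⟨s, hs0, hs⟩ := exists_fin h1 (v := fun x => Lw φ w ω x)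
    (r := fun x => if mlt φ w ω (φ x) < tot w ω / 2 then 0 else w ω x)
    (fun x => by unfold Lw; split_ifs <;> simp) hc
  have hne : s.Nonempty := by
    rw [Finset.nonempty_iff_ne_empty]
    rintro rfl
    simp at hs
  obtain ⟨x, hx, hmin⟩ := s.exists_min_image φ hne
  have hxn := hs0 x hx
  have h2 : ¬ mlt φ w ω (φ x) < tot w ω / 2 := by
    intro h; simp only [h, if_true] at hxn; exact hxn rfl
  push Not at h2
  have h3 := mlt_add φ w ω (φ x)
  have h4 : tot w ω / 2 < ∑' y, (if φ x ≤ φ y then w ω y else 0) := by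
    refine lt_of_lt_of_le hs ?_
    refine le_trans (Finset.sum_le_sum (g := fun y => if φ x ≤ φ y then w ω y else 0) ?_)
      (ENNReal.sum_le_tsum s)
    intro y hy
    rw [if_pos (hmin y hy)]
    split_ifs
    · exact zero_le
    · exact le_rfl
  have h5 : tot w ω < tot w ω := by
    calc tot w ω = tot w ω / 2 + tot w ω / 2 := (ENNReal.add_halves _).symm
      _ < tot w ω / 2 + ∑' y, (if φ x ≤ φ y then w ω y else 0) :=
          ENNReal.add_lt_add_left (ne_top_of_le_ne_top h1 ENNReal.half_le_self) h4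
      _ ≤ mlt φ w ω (φ x) + ∑' y, (if φ x ≤ φ y then w ω y else 0) := by gcongr
      _ = tot w ω := h3
  exact lt_irrefl _ h5

lemma half_le_R {w : Ω → S → ℝ≥0∞} {ω : Ω} (h1 : tot w ω ≠ ∞) :
    tot w ω / 2 ≤ tot (Rw φ w) ω := by
  classical
  by_cases h0 : tot w ω = 0
  · rw [h0]; simp
  by_contra hc
  push Not at hc
  obtain ⟨s, hs0, hs⟩ := exists_fin h1 (v := fun x => Rw φ w ω x)
    (r := fun x => if tot w ω / 2 ≤ mle φ w ω (φ x) then 0 else w ω x)
    (fun x => by unfold Rw; split_ifs <;> simp) hc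
  have hne : s.Nonempty := by
    rw [Finset.nonempty_iff_ne_empty]
    rintro rfl
    simp at hs
  obtain ⟨x, hx, hmax⟩ := s.exists_max_image φ hne
  have hxn := hs0 x hx
  have h2 : ¬ tot w ω / 2 ≤ mle φ w ω (φ x) := by
    intro h; simp only [h, if_true] at hxn; exact hxn rfl
  apply h2
  refine hs.le.trans ?_
  unfold mle
  refine le_trans (Finset.sum_le_sum (g := fun y => if φ y ≤ φ x then w ω y else 0) ?_)
    (ENNReal.sum_le_tsum s)
  intro y hy
  rw [if_pos (hmax y hy)]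
  split_ifs
  · exact zero_le
  · exact le_rfl

lemma meas_mlt {a : ℕ} {w : Ω → S → ℝ≥0∞} (hw : A.Wt a w) (t : ℝ) :
    Measurable[A.F a] (fun ω => mlt φ w ω t) := by
  classical
  unfold mlt
  refine Measurable.ennreal_tsum fun y => ?_
  by_cases h : φ y < t
  · simp only [h, if_true]; exact hw.meas y
  · simp only [h, if_false]; exact measurable_const

lemma meas_mle {a : ℕ} {w : Ω → S → ℝ≥0∞} (hw : A.Wt a w) (t : ℝ) :
    Measurable[A.F a] (fun ω => mle φ w ω t) := by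
  classical
  unfold mle
  refine Measurable.ennreal_tsum fun y => ?_
  by_cases h : φ y ≤ t
  · simp only [h, if_true]; exact hw.meas y
  · simp only [h, if_false]; exact measurable_const

lemma wt_Lw {a : ℕ} {w : Ω → S → ℝ≥0∞} (hw : A.Wt a w) : A.Wt a (Lw φ w) where
  meas x := by
    unfold Lw
    refine Measurable.ite ?_ (hw.meas x) measurable_const
    exact @measurableSet_lt _ _ _ _ _ (A.F a) _ _ _ _ _ (meas_mlt φ hw _) (hw.meas_tot.div_const _)
  supp ω x hx := le_antisymm ((Lw_le φ w ω x).trans (hw.supp ω x hx).le) zero_le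

lemma wt_Rw {a : ℕ} {w : Ω → S → ℝ≥0∞} (hw : A.Wt a w) : A.Wt a (Rw φ w) where
  meas x := by
    unfold Rw
    refine Measurable.ite ?_ (hw.meas x) measurable_const
    exact @measurableSet_le _ _ _ _ _ (A.F a) _ _ _ _ _ (hw.meas_tot.div_const _) (meas_mle φ hw _)
  supp ω x hx := le_antisymm ((Rw_le φ w ω x).trans (hw.supp ω x hx).le) zero_le

end Split

/-! ### the three inputs -/

/-- home relation -/
def Hm (φ : S → ℝ) (d : ℝ) : S → S → Prop := fun x y => |φ y - φ x| ≤ d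

/-- jump relation -/
def Jp (φ : S → ℝ) (Δ : ℝ) : S → S → Prop := fun x y => Δ ≤ φ y - φ x

/-- one static unit over one step of the grid -/
def HomeAt (A : KerSys S P) (φ : S → ℝ) (lv : ℕ → ℕ) (d : ℝ) (ε δ : ℝ≥0∞) (m : ℕ) : Prop :=
  ∀ w : Ω → S → ℝ≥0∞, A.Wt (lv m) w → (∀ ω, tot w ω ≤ 1) → ∀ B, MeasurableSet[A.F (lv m)] B →
    P (B ∩ {ω | tot (rp A (Hm φ d) (lv m) (lv (m + 1)) w) ω < ε * tot w ω}) ≤ δ * P B

/-- the traveller over one step of the grid -/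
def TravAt (A : KerSys S P) (φ : S → ℝ) (lv : ℕ → ℕ) (d2 : ℝ) (ε δ : ℝ≥0∞) (m : ℕ) : Prop :=
  ∀ w : Ω → S → ℝ≥0∞, A.Wt (lv m) w → (∀ ω, tot w ω ≤ 1) → ∀ B, MeasurableSet[A.F (lv m)] B →
    P (B ∩ {ω | tot (rp A (Jp φ d2) (lv m) (lv (m + 1)) w) ω < ε * tot w ω}) ≤ δ * P B

/-- `k` separated units: one of them survives from level `a` to level `e` -/
def UnitsAt (A : KerSys S P) (φ : S → ℝ) (k : ℕ) (g : ℝ) (a e : ℕ) (ε δ : ℝ≥0∞) : Prop :=
  ∀ w : Fin k → Ω → S → ℝ≥0∞, (∀ i, A.Wt a (w i)) → (∀ i ω, tot (w i) ω ≤ 1) →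
    ∀ B, MeasurableSet[A.F a] B →
    (∀ ω ∈ B, ∀ i j, i < j → ∀ x y, w i ω x ≠ 0 → w j ω y ≠ 0 → φ x + g ≤ φ y) →
    P (B ∩ {ω | ∀ i, tot (A.push a e (w i)) ω < ε * tot (w i) ω}) ≤ δ * P B

/-! ### one try -/

section OneTry

variable (A) (φ : S → ℝ) (lv : ℕ → ℕ) (d d2 : ℝ)

/-- one stage of splitting: `j` = index of the last unit -/
noncomputable def nxt (m j : ℕ) (u : ℕ → Ω → S → ℝ≥0∞) (i : ℕ) : Ω → S → ℝ≥0∞ :=
  if i < j then rp A (Hm φ d) (lv m) (lv (m + 1)) (u i)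
  else if i = j then rp A (Hm φ d) (lv m) (lv (m + 1)) (Lw φ (u j))
  else rp A (Jp φ d2) (lv m) (lv (m + 1)) (Rw φ (u j))

/-- the units after `s` stages -/
noncomputable def un (m1 : ℕ) (W : Ω → S → ℝ≥0∞) : ℕ → ℕ → Ω → S → ℝ≥0∞
  | 0 => fun _ => W
  | s + 1 => nxt A φ lv d d2 (m1 + s) s (un m1 W s)

/-- the input of unit `i` in stage `s` -/
noncomputable def inp (m1 : ℕ) (W : Ω → S → ℝ≥0∞) (s i : ℕ) : Ω → S → ℝ≥0∞ :=
  if i < s then un A φ lv d d2 m1 W s i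
  else if i = s then Lw φ (un A φ lv d d2 m1 W s s)
  else Rw φ (un A φ lv d d2 m1 W s s)

/-- success of the first `s` stages -/
def Suc (m1 : ℕ) (W : Ω → S → ℝ≥0∞) (ε : ℝ≥0∞) : ℕ → Set Ω
  | 0 => univ
  | s + 1 => Suc m1 W ε s ∩ {ω | ∀ i, i ≤ s + 1 →
      ε * tot (inp A φ lv d d2 m1 W s i) ω ≤ tot (un A φ lv d d2 m1 W (s + 1) i) ω}

variable {A φ lv d d2} {m1 : ℕ} {W : Ω → S → ℝ≥0∞}

lemma un_wt (hlv : Monotone lv) (hW : A.Wt (lv m1) W) :
    ∀ s i, A.Wt (lv (m1 + s)) (un A φ lv d d2 m1 W s i) := by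
  intro s
  induction s with
  | zero => intro i; exact hW
  | succ s ih =>
    intro i
    have hle : lv (m1 + s) ≤ lv (m1 + s + 1) := hlv (by omega)
    show A.Wt (lv (m1 + s + 1)) (nxt A φ lv d d2 (m1 + s) s (un A φ lv d d2 m1 W s) i)
    unfold nxt
    split_ifs with h1 h2
    · exact rp_wt _ hle (ih i)
    · exact rp_wt _ hle (wt_Lw φ (ih s))
    · exact rp_wt _ hle (wt_Rw φ (ih s))

lemma un_tot (hlv : Monotone lv) (hW1 : ∀ ω, tot W ω ≤ 1) :
    ∀ s i ω, tot (un A φ lv d d2 m1 W s i) ω ≤ 1 := by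
  intro s
  induction s with
  | zero => intro i; exact hW1
  | succ s ih =>
    intro i ω
    have hle : lv (m1 + s) ≤ lv (m1 + s + 1) := hlv (by omega)
    show tot (nxt A φ lv d d2 (m1 + s) s (un A φ lv d d2 m1 W s) i) ω ≤ 1
    unfold nxt
    split_ifs with h1 h2
    · exact (tot_rp_le _ hle _ ω).trans (ih i ω)
    · exact (tot_rp_le _ hle _ ω).trans ((tot_mono fun y => Lw_le φ _ ω y).trans (ih s ω))
    · exact (tot_rp_le _ hle _ ω).trans ((tot_mono fun y => Rw_le φ _ ω y).trans (ih s ω))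

lemma inp_wt (hlv : Monotone lv) (hW : A.Wt (lv m1) W) (s i : ℕ) :
    A.Wt (lv (m1 + s)) (inp A φ lv d d2 m1 W s i) := by
  unfold inp
  split_ifs with h1 h2
  · exact un_wt hlv hW s i
  · exact wt_Lw φ (un_wt hlv hW s s)
  · exact wt_Rw φ (un_wt hlv hW s s)

lemma inp_tot (hlv : Monotone lv) (hW1 : ∀ ω, tot W ω ≤ 1) (s i : ℕ) (ω : Ω) :
    tot (inp A φ lv d d2 m1 W s i) ω ≤ 1 := by
  unfold inp
  split_ifs with h1 h2
  · exact un_tot hlv hW1 s i ω
  · exact (tot_mono fun y => Lw_le φ _ ω y).trans (un_tot hlv hW1 s s ω)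
  · exact (tot_mono fun y => Rw_le φ _ ω y).trans (un_tot hlv hW1 s s ω)

lemma un_sep (hd : 0 ≤ d) (hd2 : 0 ≤ d2) :
    ∀ s : ℕ, ∀ i j : ℕ, i < j → j ≤ s → ∀ ω x y, un A φ lv d d2 m1 W s i ω x ≠ 0 →
      un A φ lv d d2 m1 W s j ω y ≠ 0 → φ x + (d2 - 2 * s * d) ≤ φ y := by
  intro s
  induction s with
  | zero => intro i j hij hj; omega
  | succ s ih =>
    intro i j hij hj ω x y hx hy
    have ex : un A φ lv d d2 m1 W (s + 1) i = nxt A φ lv d d2 (m1 + s) s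
      (un A φ lv d d2 m1 W s) i := rfl
    have ey : un A φ lv d d2 m1 W (s + 1) j = nxt A φ lv d d2 (m1 + s) s
      (un A φ lv d d2 m1 W s) j := rfl
    rw [ex] at hx
    rw [ey] at hy
    have hsd : (0:ℝ) ≤ s * d := mul_nonneg (by positivity) hd
    push_cast
    unfold nxt at hx hy
    by_cases hj1 : j < s
    · -- both old
      rw [if_pos (by omega)] at hx
      rw [if_pos hj1] at hy
      obtain ⟨x0, hx0, hxd⟩ := rp_supp hx
      obtain ⟨y0, hy0, hyd⟩ := rp_supp hy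
      have := ih i j hij hj1.le ω x0 y0 hx0 hy0
      unfold Hm at hxd hyd
      rw [abs_le] at hxd hyd
      nlinarith
    by_cases hj2 : j = s
    · rw [if_pos (by omega)] at hx
      rw [if_neg hj1, if_pos hj2] at hy
      obtain ⟨x0, hx0, hxd⟩ := rp_supp hx
      obtain ⟨y0, hy0, hyd⟩ := rp_supp hy
      have hy0' : un A φ lv d d2 m1 W s s ω y0 ≠ 0 := fun h0 =>
        hy0 (le_antisymm ((Lw_le φ _ ω y0).trans h0.le) zero_le)
      have := ih i s (by omega) le_rfl ω x0 y0 hx0 hy0'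
      unfold Hm at hxd hyd
      rw [abs_le] at hxd hyd
      nlinarith
    · rw [if_neg hj1, if_neg hj2] at hy
      obtain ⟨y0, hy0, hyd⟩ := rp_supp hy
      have hy0' : un A φ lv d d2 m1 W s s ω y0 ≠ 0 := fun h0 =>
        hy0 (le_antisymm ((Rw_le φ _ ω y0).trans h0.le) zero_le)
      unfold Jp at hyd
      by_cases hi : i < s
      · rw [if_pos hi] at hx
        obtain ⟨x0, hx0, hxd⟩ := rp_supp hx
        have := ih i s hi le_rfl ω x0 y0 hx0 hy0'
        unfold Hm at hxd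
        rw [abs_le] at hxd
        nlinarith
      · rw [if_neg hi, if_pos (by omega)] at hx
        obtain ⟨x0, hx0, hxd⟩ := rp_supp hx
        have := LR_order φ hx0 hy0
        unfold Hm at hxd
        rw [abs_le] at hxd
        nlinarith

lemma un_push (hlv : Monotone lv) {e : ℕ} :
    ∀ s, lv (m1 + s) ≤ e → ∀ᵐ ω ∂P, ∀ i z,
      A.push (lv (m1 + s)) e (un A φ lv d d2 m1 W s i) ω z ≤ A.push (lv m1) e W ω z := by
  intro s
  induction s with
  | zero => intro _; exact Filter.Eventually.of_forall fun ω i z => le_rfl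
  | succ s ih =>
    intro he
    have hle : lv (m1 + s) ≤ lv (m1 + s + 1) := hlv (by omega)
    filter_upwards [ih (hle.trans he), push_push_le A hle he] with ω h1 h2 i z
    have key : ∀ (j : ℕ) (D : S → S → Prop) (v : Ω → S → ℝ≥0∞),
        (∀ y, v ω y ≤ un A φ lv d d2 m1 W s j ω y) →
        A.push (lv (m1 + s + 1)) e (rp A D (lv (m1 + s)) (lv (m1 + s + 1)) v) ω z
          ≤ A.push (lv m1) e W ω z := by
      intro j D v hv
      calc A.push (lv (m1 + s + 1)) e (rp A D (lv (m1 + s)) (lv (m1 + s + 1)) v) ω z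
          ≤ A.push (lv (m1 + s + 1)) e (A.push (lv (m1 + s)) (lv (m1 + s + 1))
            (un A φ lv d d2 m1 W s j)) ω z :=
            push_mono (fun y => (rp_le_push A D _ _ v ω y).trans (push_mono hv y)) z
        _ ≤ A.push (lv (m1 + s)) e (un A φ lv d d2 m1 W s j) ω z := h2 _ z
        _ ≤ _ := h1 j z
    show A.push (lv (m1 + s + 1)) e (nxt A φ lv d d2 (m1 + s) s
      (un A φ lv d d2 m1 W s) i) ω z ≤ _
    unfold nxt
    split_ifs with h3 h4
    · exact key i _ _ fun y => le_rfl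
    · exact key s _ _ fun y => Lw_le φ _ ω y
    · exact key s _ _ fun y => Rw_le φ _ ω y

lemma Suc_meas (hlv : Monotone lv) (hW : A.Wt (lv m1) W) (ε : ℝ≥0∞) :
    ∀ s, MeasurableSet[A.F (lv (m1 + s))] (Suc A φ lv d d2 m1 W ε s) := by
  intro s
  induction s with
  | zero => exact MeasurableSet.univ
  | succ s ih =>
    have hle : lv (m1 + s) ≤ lv (m1 + s + 1) := hlv (by omega)
    show MeasurableSet[A.F (lv (m1 + s + 1))] (Suc A φ lv d d2 m1 W ε s ∩ _)
    refine (A.F.mono hle _ ih).inter ?_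
    have : {ω | ∀ i, i ≤ s + 1 →
      ε * tot (inp A φ lv d d2 m1 W s i) ω ≤ tot (un A φ lv d d2 m1 W (s + 1) i) ω}
        = ⋂ i ∈ Finset.range (s + 2), {ω |
      ε * tot (inp A φ lv d d2 m1 W s i) ω ≤ tot (un A φ lv d d2 m1 W (s + 1) i) ω} := by
      ext ω
      simp only [mem_setOf_eq, mem_iInter, Finset.mem_range]
      constructor
      · intro h i hi; exact h i (by omega)
      · intro h i hi; exact h i (by omega)
    rw [this]
    refine Finset.measurableSet_biInter _ fun i _ => ?_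
    have hR : Measurable[A.F (lv (m1 + s + 1))]
        (fun ω => tot (un A φ lv d d2 m1 W (s + 1) i) ω) :=
      (un_wt hlv hW (s + 1) i).meas_tot
    have hL : Measurable[A.F (lv (m1 + s + 1))] (fun ω =>
      ε * tot (inp A φ lv d d2 m1 W s i) ω) :=
      Measurable.const_mul ((inp_wt hlv hW s i).meas_tot.mono (A.F.mono hle) le_rfl) ε
    exact @measurableSet_le _ _ _ _ _ (A.F (lv (m1 + s + 1))) _ _ _ _ _ hL hR

lemma Suc_mass (hlv : Monotone lv) (hW1 : ∀ ω, tot W ω ≤ 1) (ε : ℝ≥0∞) :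
    ∀ s, ∀ ω ∈ Suc A φ lv d d2 m1 W ε s, ∀ i, i ≤ s →
      (ε / 2) ^ s * tot W ω ≤ tot (un A φ lv d d2 m1 W s i) ω := by
  intro s
  induction s with
  | zero =>
    intro ω _ i _
    rw [pow_zero, one_mul]
    exact le_rfl
  | succ s ih =>
    intro ω hω i hi
    obtain ⟨h1, h2⟩ := hω
    have h3 := h2 i hi
    refine le_trans ?_ h3
    have hfin : ∀ j, tot (un A φ lv d d2 m1 W s j) ω ≠ ∞ := fun j =>
      ne_top_of_le_ne_top ENNReal.one_ne_top (un_tot hlv hW1 s j ω)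
    have e1 : (ε / 2) ^ (s + 1) * tot W ω = ε * (((ε / 2) ^ s * tot W ω) / 2) := by
      rw [pow_succ, ENNReal.div_eq_inv_mul, ENNReal.div_eq_inv_mul]
      ring
    rw [e1]
    gcongr
    unfold inp
    split_ifs with h4 h5
    · exact ENNReal.half_le_self.trans (ih ω h1 i h4.le)
    · refine le_trans ?_ (half_le_L φ (hfin s))
      gcongr
      exact ih ω h1 s le_rfl
    · refine le_trans ?_ (half_le_R φ (hfin s))
      gcongr
      exact ih ω h1 s le_rfl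

/-- failure of stage `s` -/
lemma stage_fail (hlv : Monotone lv) (hW : A.Wt (lv m1) W) (hW1 : ∀ ω, tot W ω ≤ 1)
    {ε δ : ℝ≥0∞} {s : ℕ} (hH : HomeAt A φ lv d ε δ (m1 + s)) (hT : TravAt A φ lv d2 ε δ (m1 + s))
    {B : Set Ω} (hB : MeasurableSet[A.F (lv (m1 + s))] B) :
    P ((B ∩ Suc A φ lv d d2 m1 W ε s) ∩ (Suc A φ lv d d2 m1 W ε (s + 1))ᶜ)
      ≤ (s + 2 : ℕ) * δ * P B := by
  have hB' : MeasurableSet[A.F (lv (m1 + s))] (B ∩ Suc A φ lv d d2 m1 W ε s) :=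
    hB.inter (Suc_meas hlv hW ε s)
  have hsub : (B ∩ Suc A φ lv d d2 m1 W ε s) ∩ (Suc A φ lv d d2 m1 W ε (s + 1))ᶜ
      ⊆ ⋃ i ∈ Finset.range (s + 2), (B ∩ Suc A φ lv d d2 m1 W ε s) ∩ {ω |
        tot (un A φ lv d d2 m1 W (s + 1) i) ω < ε * tot (inp A φ lv d d2 m1 W s i) ω} := by
    rintro ω ⟨⟨hω1, hω2⟩, hω3⟩
    have h4 : ¬ ∀ i, i ≤ s + 1 →
      ε * tot (inp A φ lv d d2 m1 W s i) ω ≤ tot (un A φ lv d d2 m1 W (s + 1) i) ω := by
      intro h
      exact hω3 ⟨hω2, h⟩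
    push Not at h4
    obtain ⟨i, hi, h5⟩ := h4
    simp only [mem_iUnion, Finset.mem_range]
    exact ⟨i, by omega, ⟨hω1, hω2⟩, h5⟩
  have hone : ∀ i, P ((B ∩ Suc A φ lv d d2 m1 W ε s) ∩ {ω |
        tot (un A φ lv d d2 m1 W (s + 1) i) ω < ε * tot (inp A φ lv d d2 m1 W s i) ω})
        ≤ δ * P B := by
    intro i
    have hPB : δ * P (B ∩ Suc A φ lv d d2 m1 W ε s) ≤ δ * P B := by
      gcongr
      exact inter_subset_left
    refine le_trans ?_ hPB
    have e1 : un A φ lv d d2 m1 W (s + 1) i = nxt A φ lv d d2 (m1 + s) s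
      (un A φ lv d d2 m1 W s) i := rfl
    rw [e1]
    have hi1 := inp_wt (A := A) (m1 := m1) (φ := φ) (d := d) (d2 := d2) hlv hW s i
    have hi2 := inp_tot (A := A) (m1 := m1) (φ := φ) (d := d) (d2 := d2) hlv hW1 s i
    unfold nxt
    unfold inp at hi1 hi2 ⊢
    split_ifs with h1 h2
    · simp only [h1, if_true] at hi1 hi2
      exact hH _ hi1 hi2 _ hB'
    · simp only [h2, if_true] at hi1 hi2
      rw [if_neg (lt_irrefl s)] at hi1
      refine hH _ hi1 (fun ω => ?_) _ hB'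
      have := hi2 ω
      rw [if_neg (lt_irrefl s)] at this
      exact this
    · simp only [h1, h2, if_false] at hi1 hi2
      exact hT _ hi1 hi2 _ hB'
  calc P ((B ∩ Suc A φ lv d d2 m1 W ε s) ∩ (Suc A φ lv d d2 m1 W ε (s + 1))ᶜ)
      ≤ P (⋃ i ∈ Finset.range (s + 2), (B ∩ Suc A φ lv d d2 m1 W ε s) ∩ {ω |
        tot (un A φ lv d d2 m1 W (s + 1) i) ω < ε * tot (inp A φ lv d d2 m1 W s i) ω}) :=
        measure_mono hsub
    _ ≤ ∑ i ∈ Finset.range (s + 2), P ((B ∩ Suc A φ lv d d2 m1 W ε s) ∩ {ω |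
        tot (un A φ lv d d2 m1 W (s + 1) i) ω < ε * tot (inp A φ lv d d2 m1 W s i) ω}) :=
        measure_biUnion_finset_le _ _
    _ ≤ ∑ i ∈ Finset.range (s + 2), δ * P B := Finset.sum_le_sum fun i _ => hone i
    _ = (s + 2 : ℕ) * δ * P B := by
        rw [Finset.sum_const, Finset.card_range, nsmul_eq_mul, mul_assoc]

/-- failure of a try -/
lemma try_fail (hlv : Monotone lv) (hW : A.Wt (lv m1) W) (hW1 : ∀ ω, tot W ω ≤ 1)
    {ε δ : ℝ≥0∞} {s : ℕ} (hH : ∀ r < s, HomeAt A φ lv d ε δ (m1 + r))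
    (hT : ∀ r < s, TravAt A φ lv d2 ε δ (m1 + r))
    {B : Set Ω} (hB : MeasurableSet[A.F (lv m1)] B) :
    P (B ∩ (Suc A φ lv d d2 m1 W ε s)ᶜ) ≤ ((s * (s + 2) : ℕ) : ℝ≥0∞) * δ * P B := by
  induction s with
  | zero =>
    have : B ∩ (Suc A φ lv d d2 m1 W ε 0)ᶜ = ∅ := by
      show B ∩ univᶜ = ∅
      simp
    rw [this]; simp
  | succ s ih =>
    have ih' := ih (fun r hr => hH r (by omega)) (fun r hr => hT r (by omega))
    have hst := stage_fail (B := B) hlv hW hW1 (hH s (by omega)) (hT s (by omega))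
      (A.F.mono (hlv (by omega)) _ hB)
    calc P (B ∩ (Suc A φ lv d d2 m1 W ε (s + 1))ᶜ)
        ≤ P ((B ∩ (Suc A φ lv d d2 m1 W ε s)ᶜ)
          ∪ ((B ∩ Suc A φ lv d d2 m1 W ε s) ∩ (Suc A φ lv d d2 m1 W ε (s + 1))ᶜ)) := by
          refine measure_mono ?_
          rintro ω ⟨h1, h2⟩
          by_cases h : ω ∈ Suc A φ lv d d2 m1 W ε s
          · exact Or.inr ⟨⟨h1, h⟩, h2⟩
          · exact Or.inl ⟨h1, h⟩
      _ ≤ ((s * (s + 2) : ℕ) : ℝ≥0∞) * δ * P B + (s + 2 : ℕ) * δ * P B :=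
          (measure_union_le _ _).trans (add_le_add ih' hst)
      _ = ((s * (s + 2) + (s + 2) : ℕ) : ℝ≥0∞) * δ * P B := by
          push_cast; ring
      _ ≤ (((s + 1) * (s + 1 + 2) : ℕ) : ℝ≥0∞) * δ * P B := by
          gcongr
          nlinarith

end OneTry

/-! ### sequential tries -/

section Tries

variable {φ : S → ℝ} {lv : ℕ → ℕ} {d d2 : ℝ}

variable (A φ lv d d2) in
/-- success of try `t` -/
def ST (k : ℕ) (μ : S → ℝ≥0∞) (ε : ℝ≥0∞) (t : ℕ) : Set Ω :=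
  Suc A φ lv d d2 (t * k) (A.exitW μ (lv (t * k))) ε (k - 1)

lemma ST_meas {k : ℕ} (hlv : Monotone lv) {μ : S → ℝ≥0∞} (hμ : A.Start μ) (ε : ℝ≥0∞) (t : ℕ) :
    MeasurableSet[A.F (lv (t * k + (k - 1)))] (ST A φ lv d d2 k μ ε t) :=
  Suc_meas hlv (wt_exitW hμ _) ε _

lemma tries_fail {k : ℕ} (hk : 1 ≤ k) (hlv : Monotone lv) {μ : S → ℝ≥0∞} (hμ : A.Start μ)
    {ε δ : ℝ≥0∞} {n : ℕ} (hH : ∀ m < n * k, HomeAt A φ lv d ε δ m)
    (hT : ∀ m < n * k, TravAt A φ lv d2 ε δ m) {B : Set Ω} (hB : MeasurableSet[A.F (lv 0)] B) :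
    ∀ t ≤ n, MeasurableSet[A.F (lv (t * k))] (B ∩ ⋂ l ∈ Finset.range t, (ST A φ lv d d2 k μ ε l)ᶜ)
      ∧ P (B ∩ ⋂ l ∈ Finset.range t, (ST A φ lv d d2 k μ ε l)ᶜ) ≤ ((k * k : ℕ) * δ) ^ t * P B := by
  intro t
  induction t with
  | zero =>
    intro _
    have e0 : (B ∩ ⋂ l ∈ Finset.range 0, (ST A φ lv d d2 k μ ε l)ᶜ) = B := by simp
    rw [e0, zero_mul, pow_zero, one_mul]
    exact ⟨hB, le_rfl⟩
  | succ t ih =>
    intro ht
    obtain ⟨ihm, ihp⟩ := ih (by omega)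
    have htk : t * k + k ≤ n * k := by
      have : (t + 1) * k ≤ n * k := Nat.mul_le_mul_right k ht
      linarith [this, add_mul t 1 k, one_mul k]
    have e1 : (B ∩ ⋂ l ∈ Finset.range (t + 1), (ST A φ lv d d2 k μ ε l)ᶜ)
        = (B ∩ ⋂ l ∈ Finset.range t, (ST A φ lv d d2 k μ ε l)ᶜ) ∩ (ST A φ lv d d2 k μ ε t)ᶜ := by
      rw [Finset.range_add_one, Finset.set_biInter_insert, inter_assoc, inter_comm (_ᶜ)]
    rw [e1]
    constructor
    · have hst : (t + 1) * k = t * k + k := by ring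
      refine MeasurableSet.inter (A.F.mono (hlv (by rw [hst]; omega)) _ ihm) ?_
      refine MeasurableSet.compl ?_
      exact A.F.mono (hlv (by rw [hst]; omega)) _ (ST_meas hlv hμ ε t)
    · have h := try_fail (A := A) (φ := φ) (lv := lv) (d := d) (d2 := d2) (m1 := t * k)
        (W := A.exitW μ (lv (t * k))) (ε := ε) (δ := δ) (s := k - 1) hlv (wt_exitW hμ _)
        (fun ω => tot_exitW_le μ _ ω) (fun r hr => hH _ (by omega)) (fun r hr => hT _ (by omega)) ihm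
      refine h.trans ?_
      have hkk : (k - 1) * (k - 1 + 2) ≤ k * k := by
        obtain ⟨j, rfl⟩ : ∃ j, k = j + 1 := ⟨k - 1, by omega⟩
        simp only [Nat.add_sub_cancel]
        nlinarith
      calc (((k - 1) * (k - 1 + 2) : ℕ) : ℝ≥0∞) * δ
            * P (B ∩ ⋂ l ∈ Finset.range t, (ST A φ lv d d2 k μ ε l)ᶜ)
          ≤ ((k * k : ℕ) : ℝ≥0∞) * δ * (((k * k : ℕ) * δ) ^ t * P B) := by
            gcongr
        _ = ((k * k : ℕ) * δ) ^ (t + 1) * P B := by ring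

/-- continuation after a successful try -/
lemma units_fail {k : ℕ} (hk : 1 ≤ k) (hlv : Monotone lv) {μ : S → ℝ≥0∞} (hμ : A.Start μ)
    {ε ε3 δ3 : ℝ≥0∞} {g : ℝ} {e t : ℕ} (hd : 0 ≤ d) (hd2 : 0 ≤ d2) (hg : g + 2 * k * d ≤ d2)
    (hU : UnitsAt A φ k g (lv (t * k + (k - 1))) e ε3 δ3) {B : Set Ω}
    (hB : MeasurableSet[A.F (lv 0)] B) :
    P ((B ∩ ST A φ lv d d2 k μ ε t) ∩ {ω | ∀ i : Fin k,
      tot (A.push (lv (t * k + (k - 1))) e
        (un A φ lv d d2 (t * k) (A.exitW μ (lv (t * k))) (k - 1) i)) ω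
      < ε3 * tot (un A φ lv d d2 (t * k) (A.exitW μ (lv (t * k))) (k - 1) i) ω})
      ≤ δ3 * P B := by
  have hB' : MeasurableSet[A.F (lv (t * k + (k - 1)))] (B ∩ ST A φ lv d d2 k μ ε t) :=
    (A.F.mono (hlv (Nat.zero_le _)) _ hB).inter (ST_meas hlv hμ ε t)
  have h := hU (fun i => un A φ lv d d2 (t * k) (A.exitW μ (lv (t * k))) (k - 1) i)
    (fun i => un_wt hlv (wt_exitW hμ _) _ _)
    (fun i ω => un_tot hlv (fun ω => tot_exitW_le μ _ ω) _ _ ω) _ hB' (by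
      intro ω _ i j hij x y hx hy
      have hs := un_sep (A := A) (φ := φ) (lv := lv) (m1 := t * k)
        (W := A.exitW μ (lv (t * k))) hd hd2 (k - 1) i j (by exact_mod_cast hij)
        (by have := j.2; omega) ω x y hx hy
      have hk' : ((k - 1 : ℕ) : ℝ) ≤ k := by exact_mod_cast Nat.sub_le k 1
      have : ((k - 1 : ℕ) : ℝ) * d ≤ k * d := mul_le_mul_of_nonneg_right hk' hd
      linarith)
  refine h.trans ?_
  gcongr
  exact inter_subset_left

/-- **HM5**: median split + travellers + sequential tries + `k` separated units -/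
theorem win_of_units {k : ℕ} (hk : 1 ≤ k) (hlv : Monotone lv) {n e : ℕ} (he : lv (n * k) ≤ e)
    {ε δ ε3 δ3 : ℝ≥0∞} {g : ℝ} (hd : 0 ≤ d) (hd2 : 0 ≤ d2) (hg : g + 2 * k * d ≤ d2)
    (hH : ∀ m < n * k, HomeAt A φ lv d ε δ m) (hT : ∀ m < n * k, TravAt A φ lv d2 ε δ m)
    (hU : ∀ t < n, UnitsAt A φ k g (lv (t * k + (k - 1))) e ε3 δ3)
    {μ : S → ℝ≥0∞} (hμ : A.Start μ) {B : Set Ω} (hB : MeasurableSet[A.F (lv 0)] B) :
    P (B ∩ {ω | A.Sh μ (lv (n * k)) ω ≠ 0 ∧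
      A.Sh μ e ω < ε3 * (ε / 2) ^ (k - 1) * A.Sh μ (lv (n * k)) ω})
      ≤ (((k * k : ℕ) * δ) ^ n + n * δ3) * P B := by
  classical
  set F : ℕ → Set Ω := fun t => (B ∩ ST A φ lv d d2 k μ ε t) ∩ {ω | ∀ i : Fin k,
      tot (A.push (lv (t * k + (k - 1))) e
        (un A φ lv d d2 (t * k) (A.exitW μ (lv (t * k))) (k - 1) i)) ω
      < ε3 * tot (un A φ lv d d2 (t * k) (A.exitW μ (lv (t * k))) (k - 1) i) ω} with hF
  have htk : ∀ t < n, t * k + k ≤ n * k := by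
    intro t ht
    have : (t + 1) * k ≤ n * k := Nat.mul_le_mul_right k ht
    linarith [this, add_mul t 1 k, one_mul k]
  have hae : ∀ᵐ ω ∂P, ∀ t ∈ Finset.range n, ∀ i z,
      A.push (lv (t * k + (k - 1))) e
        (un A φ lv d d2 (t * k) (A.exitW μ (lv (t * k))) (k - 1) i) ω z
      ≤ A.push (lv (t * k)) e (A.exitW μ (lv (t * k))) ω z := by
    refine (Finset.eventually_all _).2 fun t ht => ?_
    have := htk t (Finset.mem_range.1 ht)
    exact un_push hlv _ ((hlv (by omega)).trans he)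
  have hae2 : ∀ᵐ ω ∂P, ∀ t ∈ Finset.range n,
      A.Sh μ (lv (t * k)) ω * tot (A.push (lv (t * k)) e (A.exitW μ (lv (t * k)))) ω
        ≤ A.Sh μ e ω := by
    refine (Finset.eventually_all _).2 fun t ht => ?_
    have := htk t (Finset.mem_range.1 ht)
    exact Sh_ge1 hμ ((hlv (by omega)).trans he)
  have hsub : ∀ᵐ ω ∂P, ω ∈ (B ∩ {ω | A.Sh μ (lv (n * k)) ω ≠ 0 ∧
      A.Sh μ e ω < ε3 * (ε / 2) ^ (k - 1) * A.Sh μ (lv (n * k)) ω} : Set Ω) →
      ω ∈ ((B ∩ ⋂ l ∈ Finset.range n, (ST A φ lv d d2 k μ ε l)ᶜ) ∪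
        ⋃ t ∈ Finset.range n, F t : Set Ω) := by
    filter_upwards [hae, hae2] with ω h1 h2 hω
    obtain ⟨hωB, hω0, hωlt⟩ := hω
    by_cases hall : ∀ l ∈ Finset.range n, ω ∈ (ST A φ lv d d2 k μ ε l)ᶜ
    · left
      exact ⟨hωB, by simpa only [mem_iInter] using hall⟩
    · right
      push Not at hall
      obtain ⟨t, ht, htS⟩ := hall
      have htS' : ω ∈ ST A φ lv d d2 k μ ε t := by
        by_contra h; exact htS h
      have hkn := htk t (Finset.mem_range.1 ht)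
      simp only [mem_iUnion]
      refine ⟨t, ht, ⟨hωB, htS'⟩, ?_⟩
      intro i
      by_contra hc
      push Not at hc
      have hanti : A.Sh μ (lv (n * k)) ω ≤ A.Sh μ (lv (t * k)) ω := Sh_anti (hlv (by omega)) ω
      have hne : A.Sh μ (lv (t * k)) ω ≠ 0 := fun h0 => hω0 (le_antisymm (hanti.trans h0.le) zero_le)
      have hone : tot (A.exitW μ (lv (t * k))) ω = 1 := tot_exitW_eq hμ _ ω hne
      have hm := Suc_mass (A := A) (φ := φ) (lv := lv) (d := d) (d2 := d2) (m1 := t * k)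
        (W := A.exitW μ (lv (t * k))) hlv (fun ω => tot_exitW_le μ _ ω) ε (k - 1) ω htS' i
        (by have := i.2; omega)
      rw [hone, mul_one] at hm
      refine absurd hωlt (not_lt.2 ?_)
      calc ε3 * (ε / 2) ^ (k - 1) * A.Sh μ (lv (n * k)) ω
          ≤ A.Sh μ (lv (t * k)) ω * (ε3 *
            tot (un A φ lv d d2 (t * k) (A.exitW μ (lv (t * k))) (k - 1) i) ω) := by
            rw [mul_comm (ε3 * _)]
            gcongr
        _ ≤ A.Sh μ (lv (t * k)) ω * tot (A.push (lv (t * k + (k - 1))) e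
            (un A φ lv d d2 (t * k) (A.exitW μ (lv (t * k))) (k - 1) i)) ω := by
            gcongr
        _ ≤ A.Sh μ (lv (t * k)) ω * tot (A.push (lv (t * k)) e (A.exitW μ (lv (t * k)))) ω := by
            gcongr
            exact tot_mono (h1 t ht i)
        _ ≤ A.Sh μ e ω := h2 t ht
  calc P (B ∩ {ω | A.Sh μ (lv (n * k)) ω ≠ 0 ∧
      A.Sh μ e ω < ε3 * (ε / 2) ^ (k - 1) * A.Sh μ (lv (n * k)) ω})
      ≤ P ((B ∩ ⋂ l ∈ Finset.range n, (ST A φ lv d d2 k μ ε l)ᶜ) ∪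
        ⋃ t ∈ Finset.range n, F t) := measure_mono_ae hsub
    _ ≤ P (B ∩ ⋂ l ∈ Finset.range n, (ST A φ lv d d2 k μ ε l)ᶜ) + P (⋃ t ∈ Finset.range n, F t) :=
        measure_union_le _ _
    _ ≤ ((k * k : ℕ) * δ) ^ n * P B + ∑ t ∈ Finset.range n, δ3 * P B := by
        refine add_le_add (tries_fail hk hlv hμ hH hT hB n le_rfl).2 ?_
        refine (measure_biUnion_finset_le _ _).trans (Finset.sum_le_sum fun t ht => ?_)
        exact units_fail hk hlv hμ hd hd2 hg (hU t (Finset.mem_range.1 ht)) hB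
    _ = (((k * k : ℕ) * δ) ^ n + n * δ3) * P B := by
        rw [Finset.sum_const, Finset.card_range, nsmul_eq_mul]
        ring

end Tries

/-! ### normalised laws -/

section Norm

variable {φ : S → ℝ}

/-- normalised weight -/
noncomputable def nw (w : Ω → S → ℝ≥0∞) (ω : Ω) (x : S) : ℝ≥0∞ := (tot w ω)⁻¹ * w ω x

lemma nw_wt {a : ℕ} {w : Ω → S → ℝ≥0∞} (hw : A.Wt a w) : A.Wt a (nw w) where
  meas x := hw.meas_tot.inv.mul (hw.meas x)
  supp ω x hx := by unfold nw; rw [hw.supp ω x hx, mul_zero]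

lemma tot_nw {w : Ω → S → ℝ≥0∞} {ω : Ω} (h0 : tot w ω ≠ 0) (h1 : tot w ω ≠ ∞) :
    tot (nw w) ω = 1 := by
  unfold nw
  show ∑' x, (tot w ω)⁻¹ * w ω x = 1
  rw [ENNReal.tsum_mul_left]
  exact ENNReal.inv_mul_cancel h0 h1

lemma nw_ne {w : Ω → S → ℝ≥0∞} {ω : Ω} {x : S} (h : nw w ω x ≠ 0) : w ω x ≠ 0 := by
  intro h0; apply h; unfold nw; rw [h0, mul_zero]

lemma tot_rp_nw (D : S → S → Prop) (a b : ℕ) (w : Ω → S → ℝ≥0∞) (ω : Ω) :
    tot (rp A D a b (nw w)) ω = (tot w ω)⁻¹ * tot (rp A D a b w) ω := by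
  unfold rp nw
  show ∑' y, ∑' x, (tot w ω)⁻¹ * w ω x * _ = (tot w ω)⁻¹ * ∑' y, ∑' x, w ω x * _
  rw [← ENNReal.tsum_mul_left]
  refine tsum_congr fun y => ?_
  rw [← ENNReal.tsum_mul_left]
  exact tsum_congr fun x => by ring

/-- from normalised laws to relative masses, one law -/
theorem rel_of_norm {D : S → S → Prop} {a b : ℕ} {ε δ : ℝ≥0∞}
    (h : ∀ w : Ω → S → ℝ≥0∞, A.Wt a w → ∀ B, MeasurableSet[A.F a] B → (∀ ω ∈ B, tot w ω = 1) →
      P (B ∩ {ω | tot (rp A D a b w) ω ≤ ε}) ≤ δ * P B) :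
    ∀ w : Ω → S → ℝ≥0∞, A.Wt a w → (∀ ω, tot w ω ≤ 1) → ∀ B, MeasurableSet[A.F a] B →
      P (B ∩ {ω | tot (rp A D a b w) ω < ε * tot w ω}) ≤ δ * P B := by
  intro w hw hw1 B hB
  have hfin : ∀ ω, tot w ω ≠ ∞ := fun ω => ne_top_of_le_ne_top ENNReal.one_ne_top (hw1 ω)
  have hB0 : MeasurableSet[A.F a] {ω | tot w ω ≠ 0} :=
    (hw.meas_tot (measurableSet_singleton 0)).compl
  have h1 := h (nw w) (nw_wt hw) (B ∩ {ω | tot w ω ≠ 0}) (hB.inter hB0)
    (fun ω hω => tot_nw hω.2 (hfin ω))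
  calc P (B ∩ {ω | tot (rp A D a b w) ω < ε * tot w ω})
      ≤ P ((B ∩ {ω | tot w ω ≠ 0}) ∩ {ω | tot (rp A D a b (nw w)) ω ≤ ε}) := by
        refine measure_mono ?_
        rintro ω ⟨hω, hlt⟩
        have h0 : tot w ω ≠ 0 := by
          intro h0
          simp only [mem_setOf_eq, h0, mul_zero] at hlt
          exact absurd hlt (not_lt.2 zero_le)
        refine ⟨⟨hω, h0⟩, ?_⟩
        show tot (rp A D a b (nw w)) ω ≤ ε
        rw [tot_rp_nw]
        calc (tot w ω)⁻¹ * tot (rp A D a b w) ω ≤ (tot w ω)⁻¹ * (ε * tot w ω) := by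
              gcongr; exact le_of_lt hlt
          _ = ε * ((tot w ω)⁻¹ * tot w ω) := by ring
          _ = ε := by rw [ENNReal.inv_mul_cancel h0 (hfin ω), mul_one]
    _ ≤ δ * P (B ∩ {ω | tot w ω ≠ 0}) := h1
    _ ≤ δ * P B := by gcongr; exact inter_subset_left

/-- 263's `STAT` (normalised laws, product of the home masses) gives `UnitsAt` -/
theorem unitsAt_of_stat {k : ℕ} {g : ℝ} {D : S → S → Prop} {a e : ℕ} {ε δ : ℝ≥0∞}
    (h : ∀ w : Fin k → Ω → S → ℝ≥0∞, (∀ i, A.Wt a (w i)) → ∀ B, MeasurableSet[A.F a] B →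
      (∀ ω ∈ B, ∀ i, tot (w i) ω = 1) →
      (∀ ω ∈ B, ∀ i j, i < j → ∀ x y, w i ω x ≠ 0 → w j ω y ≠ 0 → φ x + g ≤ φ y) →
      P (B ∩ {ω | ∏ i, tot (rp A D a e (w i)) ω ≤ ε ^ k}) ≤ δ * P B) :
    UnitsAt A φ k g a e ε δ := by
  intro w hw hw1 B hB hsep
  have hfin : ∀ i ω, tot (w i) ω ≠ ∞ := fun i ω =>
    ne_top_of_le_ne_top ENNReal.one_ne_top (hw1 i ω)
  set Z : Set Ω := ⋂ i, {ω | tot (w i) ω ≠ 0} with hZ
  have hB0 : MeasurableSet[A.F a] Z :=
    MeasurableSet.iInter fun i => ((hw i).meas_tot (measurableSet_singleton 0)).compl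
  have h1 := h (fun i => nw (w i)) (fun i => nw_wt (hw i)) (B ∩ Z) (hB.inter hB0)
    (fun ω hω i => tot_nw (mem_iInter.1 hω.2 i) (hfin i ω))
    (fun ω hω i j hij x y hx hy => hsep ω hω.1 i j hij x y (nw_ne hx) (nw_ne hy))
  calc P (B ∩ {ω | ∀ i, tot (A.push a e (w i)) ω < ε * tot (w i) ω})
      ≤ P ((B ∩ Z) ∩ {ω | ∏ i, tot (rp A D a e (nw (w i))) ω ≤ ε ^ k}) := by
        refine measure_mono ?_
        rintro ω ⟨hω, hlt⟩
        have h0 : ∀ i, tot (w i) ω ≠ 0 := by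
          intro i h0
          have := hlt i
          rw [h0, mul_zero] at this
          exact absurd this (not_lt.2 zero_le)
        refine ⟨⟨hω, mem_iInter.2 h0⟩, ?_⟩
        show ∏ i, tot (rp A D a e (nw (w i))) ω ≤ ε ^ k
        calc ∏ i, tot (rp A D a e (nw (w i))) ω ≤ ∏ _i : Fin k, ε := by
              refine Finset.prod_le_prod' fun i _ => ?_
              rw [tot_rp_nw]
              calc (tot (w i) ω)⁻¹ * tot (rp A D a e (w i)) ω
                  ≤ (tot (w i) ω)⁻¹ * (ε * tot (w i) ω) := by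
                    gcongr
                    exact (tot_mono fun y => rp_le_push A D a e (w i) ω y).trans (hlt i).le
                _ = ε * ((tot (w i) ω)⁻¹ * tot (w i) ω) := by ring
                _ = ε := by rw [ENNReal.inv_mul_cancel (h0 i) (hfin i ω), mul_one]
          _ = ε ^ k := by simp
    _ ≤ δ * P (B ∩ Z) := h1
    _ ≤ δ * P B := by gcongr; exact inter_subset_left

end Norm

end Crest.Agent.R154.Try9
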