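import Crest.Agent.R154.HomeC_903

/-!
Row 154, HOME v1, HM8 (helper299): the number-free joints between STAT (product bound for `k` gapped
normalised laws) and the Props of 9's `win_of_units` (#37344) / 32's `trav` (#37605).

* `ProdAt A φ k a e D g z p`: the product bound over one window `[a, e]`, normalised laws.
* `unitsAt`: all `k` units bad is expensive (laws of mass `≤ 1`).
* `homeAt`: the confined mass of one law (k = 1).
* `hHome`: 32's scores.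
* `comp_two`: two consecutive restricted pushes (traveller, then static rest of the grid step).
-/

set_option autoImplicit false
set_option linter.unusedSectionVars false
set_option linter.unusedVariables false

namespace Crest.Agent.R154.Units299

open MeasureTheory ProbabilityTheory Set
open Crest.Agent.R154.RatioR872 Crest.Agent.R154.RatioR872.KerSys Crest.Agent.R154.Home903
open scoped ENNReal Classical

variable {S : Type*} [Countable S] {Ω : Type*} {m0 : MeasurableSpace Ω} {P : Measure Ω}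
variable {A : KerSys S P}

/-- the normalised law -/
noncomputable def nrm (w : Ω → S → ℝ≥0∞) (ω : Ω) (x : S) : ℝ≥0∞ := (tot w ω)⁻¹ * w ω x

lemma nrm_wt {a : ℕ} {w : Ω → S → ℝ≥0∞} (hw : A.Wt a w) : A.Wt a (nrm w) where
  meas x := by
    unfold nrm
    exact hw.meas_tot.inv.mul (hw.meas x)
  supp ω x hx := by
    unfold nrm
    rw [hw.supp ω x hx, mul_zero]

lemma tot_nrm {w : Ω → S → ℝ≥0∞} {ω : Ω} (h0 : tot w ω ≠ 0) (h1 : tot w ω ≠ ∞) :
    tot (nrm w) ω = 1 := by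
  have e : tot (nrm w) ω = (tot w ω)⁻¹ * tot w ω := by
    show ∑' x, (tot w ω)⁻¹ * w ω x = _
    rw [ENNReal.tsum_mul_left]
    rfl
  rw [e, ENNReal.inv_mul_cancel h0 h1]

lemma nrm_ne_zero {w : Ω → S → ℝ≥0∞} {ω : Ω} {x : S} (h : nrm w ω x ≠ 0) : w ω x ≠ 0 := by
  intro h0
  exact h (by unfold nrm; rw [h0, mul_zero])

lemma tot_rpush_nrm (D : S → S → Prop) (a b : ℕ) (w : Ω → S → ℝ≥0∞) (ω : Ω) :
    tot (rpush A D a b (nrm w)) ω = (tot w ω)⁻¹ * tot (rpush A D a b w) ω :=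
  tot_rpush_smul D a b w (fun ω => (tot w ω)⁻¹) ω

/-- below `ε * tot w` implies: `tot w ≠ 0` and the normalised push is `≤ ε` -/
lemma nrm_small {X : ℝ≥0∞} {t ε : ℝ≥0∞} (h : X < ε * t) (ht : t ≠ ∞) : t ≠ 0 ∧ t⁻¹ * X ≤ ε := by
  have h0 : t ≠ 0 := by
    rintro rfl
    simp at h
  refine ⟨h0, ?_⟩
  calc t⁻¹ * X ≤ t⁻¹ * (ε * t) := mul_le_mul_right h.le _
    _ = ε * (t⁻¹ * t) := by ring
    _ = ε := by rw [ENNReal.inv_mul_cancel h0 ht, mul_one]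

/-- **product bound** over one window `[a, e]` for `k` normalised laws at level `a` whose supports
are `g`-separated in the order of the indices. -/
def ProdAt (A : KerSys S P) (φ : S → ℝ) (k : ℕ) (a e : ℕ) (D g : ℝ) (z p : ℝ≥0∞) : Prop :=
  ∀ w : Fin k → Ω → S → ℝ≥0∞, (∀ i, A.Wt a (w i)) → ∀ B, MeasurableSet[A.F a] B →
    (∀ ω ∈ B, ∀ i, tot (w i) ω = 1) →
    (∀ ω ∈ B, ∀ i j, i < j → ∀ x y, w i ω x ≠ 0 → w j ω y ≠ 0 → φ x + g ≤ φ y) →
    P (B ∩ {ω | ∏ i, tot (rpush A (fun x y => |φ y - φ x| ≤ D) a e (w i)) ω ≤ z}) ≤ p * P B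

/-- the same with the gap in absolute value -/
def ProdAbs (A : KerSys S P) (φ : S → ℝ) (k : ℕ) (a e : ℕ) (D g : ℝ) (z p : ℝ≥0∞) : Prop :=
  ∀ w : Fin k → Ω → S → ℝ≥0∞, (∀ i, A.Wt a (w i)) → ∀ B, MeasurableSet[A.F a] B →
    (∀ ω ∈ B, ∀ i, tot (w i) ω = 1) →
    (∀ ω ∈ B, ∀ i j, i ≠ j → ∀ x y, w i ω x ≠ 0 → w j ω y ≠ 0 → g ≤ |φ x - φ y|) →
    P (B ∩ {ω | ∏ i, tot (rpush A (fun x y => |φ y - φ x| ≤ D) a e (w i)) ω ≤ z}) ≤ p * P B

lemma ProdAbs.toProdAt {φ : S → ℝ} {k a e : ℕ} {D g : ℝ} {z p : ℝ≥0∞}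
    (h : ProdAbs A φ k a e D g z p) : ProdAt A φ k a e D g z p := by
  intro w hw B hB h1 hg
  refine h w hw B hB h1 fun ω hω i j hij x y hx hy => ?_
  rcases lt_or_gt_of_ne hij with h2 | h2
  · have := hg ω hω i j h2 x y hx hy
    rw [abs_sub_comm]
    exact le_trans (by linarith) (le_abs_self _)
  · have := hg ω hω j i h2 y x hy hx
    exact le_trans (by linarith) (le_abs_self _)

lemma ProdAbs.neg {φ : S → ℝ} {k a e : ℕ} {D g : ℝ} {z p : ℝ≥0∞}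
    (h : ProdAbs A φ k a e D g z p) : ProdAbs A (fun x => -φ x) k a e D g z p := by
  intro w hw B hB h1 hg
  have e1 : (fun x y : S => |(-φ y) - (-φ x)| ≤ D) = fun x y => |φ y - φ x| ≤ D := by
    funext x y
    rw [← abs_neg]
    congr 2
    ring
  have h2 := h w hw B hB h1 fun ω hω i j hij x y hx hy => by
    have h3 := hg ω hω i j hij x y hx hy
    have e2 : |(-φ x) - (-φ y)| = |φ x - φ y| := by
      rw [← abs_neg]
      congr 1
      ring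
    rwa [e2] at h3
  simp only [e1]
  exact h2

/-- **UnitsAt** (confined form): all `k` units bad -/
theorem units_conf {φ : S → ℝ} {k a e : ℕ} {D g : ℝ} {ε p : ℝ≥0∞}
    (h : ProdAt A φ k a e D g (ε ^ k) p) (w : Fin k → Ω → S → ℝ≥0∞) (hw : ∀ i, A.Wt a (w i))
    (hw1 : ∀ i ω, tot (w i) ω ≤ 1) {B : Set Ω} (hB : MeasurableSet[A.F a] B)
    (hg : ∀ ω ∈ B, ∀ i j, i < j → ∀ x y, w i ω x ≠ 0 → w j ω y ≠ 0 → φ x + g ≤ φ y) :
    P (B ∩ {ω | ∀ i, tot (rpush A (fun x y => |φ y - φ x| ≤ D) a e (w i)) ω < ε * tot (w i) ω})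
      ≤ p * P B := by
  set B' : Set Ω := B ∩ {ω | ∀ i, tot (w i) ω ≠ 0} with hB'
  have hB'm : MeasurableSet[A.F a] B' := by
    refine hB.inter ?_
    have e1 : {ω | ∀ i, tot (w i) ω ≠ 0} = ⋂ i, {ω | tot (w i) ω = 0}ᶜ := by
      ext ω; simp
    rw [e1]
    exact MeasurableSet.iInter fun i =>
      (measurableSet_eq_fun (hw i).meas_tot measurable_const).compl
  have h1 := h (fun i => nrm (w i)) (fun i => nrm_wt (hw i)) B' hB'm
    (fun ω hω i => tot_nrm (hω.2 i) (ne_top_of_le_ne_top ENNReal.one_ne_top (hw1 i ω)))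
    (fun ω hω i j hij x y hx hy => hg ω hω.1 i j hij x y (nrm_ne_zero hx) (nrm_ne_zero hy))
  refine le_trans (measure_mono ?_) (h1.trans (mul_le_mul_right (measure_mono inter_subset_left) _))
  rintro ω ⟨hωB, hω⟩
  have h2 : ∀ i, tot (w i) ω ≠ 0 ∧
      (tot (w i) ω)⁻¹ * tot (rpush A (fun x y => |φ y - φ x| ≤ D) a e (w i)) ω ≤ ε := fun i =>
    nrm_small (hω i) (ne_top_of_le_ne_top ENNReal.one_ne_top (hw1 i ω))
  refine ⟨⟨hωB, fun i => (h2 i).1⟩, ?_⟩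
  show ∏ i, tot (rpush A (fun x y => |φ y - φ x| ≤ D) a e (nrm (w i))) ω ≤ ε ^ k
  calc ∏ i, tot (rpush A (fun x y => |φ y - φ x| ≤ D) a e (nrm (w i))) ω
      ≤ ∏ _i : Fin k, ε := Finset.prod_le_prod' fun i _ => by
        rw [tot_rpush_nrm]
        exact (h2 i).2
    _ = ε ^ k := by simp

/-- **9's UnitsAt**, from the product bound -/
theorem unitsAt {φ : S → ℝ} {k a e : ℕ} {D g : ℝ} {ε p : ℝ≥0∞}
    (h : ProdAt A φ k a e D g (ε ^ k) p) :
    ∀ w : Fin k → Ω → S → ℝ≥0∞, (∀ i, A.Wt a (w i)) → (∀ i ω, tot (w i) ω ≤ 1) →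
      ∀ B, MeasurableSet[A.F a] B →
      (∀ ω ∈ B, ∀ i j, i < j → ∀ x y, w i ω x ≠ 0 → w j ω y ≠ 0 → φ x + g ≤ φ y) →
      P (B ∩ {ω | ∀ i, tot (A.push a e (w i)) ω < ε * tot (w i) ω}) ≤ p * P B := by
  intro w hw hw1 B hB hg
  refine le_trans (measure_mono ?_) (units_conf h w hw hw1 hB hg)
  rintro ω ⟨hωB, hω⟩
  exact ⟨hωB, fun i => lt_of_le_of_lt (tot_rpush_le _ _ _ _ _) (hω i)⟩

/-- **9's HomeAt**, from the product bound with `k = 1` -/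
theorem homeAt {φ : S → ℝ} {a e : ℕ} {D g : ℝ} {ε p : ℝ≥0∞}
    (h : ProdAt A φ 1 a e D g ε p) :
    ∀ w, A.Wt a w → (∀ ω, tot w ω ≤ 1) → ∀ B, MeasurableSet[A.F a] B →
      P (B ∩ {ω | tot (rpush A (fun x y => |φ y - φ x| ≤ D) a e w) ω < ε * tot w ω})
        ≤ p * P B := by
  intro w hw hw1 B hB
  have h' : ProdAt A φ 1 a e D g (ε ^ 1) p := by rwa [pow_one]
  refine le_trans (measure_mono ?_) (units_conf h' (fun _ => w) (fun _ => hw) (fun _ => hw1) hB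
    (fun ω _ i j hij => absurd hij (by rw [Subsingleton.elim i j]; exact lt_irrefl j)))
  rintro ω ⟨hωB, hω⟩
  exact ⟨hωB, fun _ => hω⟩

/-- **32's hHome** over one macro step: scores `j ≥ 1` -/
theorem hHome {φ : S → ℝ} {a e : ℕ} {D1 g : ℝ} {ε1 C q : ℝ≥0∞}
    (h : ∀ j : ℕ, 1 ≤ j → ∃ g, ProdAt A φ 1 a e (j * D1) g (ε1 ^ j) (C * q ^ j)) :
    ∀ w, A.Wt a w → (∀ ω, tot w ω ≤ 1) → ∀ B, MeasurableSet[A.F a] B → ∀ j : ℕ, 1 ≤ j →
      P (B ∩ {ω | tot (rpush A (fun x y => |φ y - φ x| ≤ j * D1) a e w) ω < ε1 ^ j * tot w ω})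
        ≤ C * q ^ j * P B := by
  intro w hw hw1 B hB j hj
  obtain ⟨g, hg⟩ := h j hj
  exact homeAt hg w hw hw1 B hB

/-- **two consecutive restricted pushes** -/
theorem comp_two {D₁ D₂ D : S → S → Prop} (hD : ∀ x y z, D₁ x y → D₂ y z → D x z)
    {a b e : ℕ} (hab : a ≤ b) (hbe : b ≤ e) {w : Ω → S → ℝ≥0∞} (hw : A.Wt a w)
    (hw1 : ∀ ω, tot w ω ≤ 1) {B : Set Ω} (hB : MeasurableSet[A.F a] B) {e1 e2 p1 p2 : ℝ≥0∞}
    (h1 : P (B ∩ {ω | tot (rpush A D₁ a b w) ω < e1 * tot w ω}) ≤ p1 * P B)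
    (h2 : ∀ w', A.Wt b w' → (∀ ω, tot w' ω ≤ 1) →
      P (B ∩ {ω | tot (rpush A D₂ b e w') ω < e2 * tot w' ω}) ≤ p2 * P B) :
    P (B ∩ {ω | tot (rpush A D a e w) ω < e1 * e2 * tot w ω}) ≤ (p1 + p2) * P B := by
  have hw' : A.Wt b (rpush A D₁ a b w) := rpush_wt hab hw
  have hw'1 : ∀ ω, tot (rpush A D₁ a b w) ω ≤ 1 := fun ω =>
    ((tot_rpush_le _ _ _ _ _).trans (A.tot_push_le hab w ω)).trans (hw1 ω)
  have h3 := h2 _ hw' hw'1
  rw [add_mul]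
  refine le_trans ?_ (add_le_add h1 h3)
  refine le_trans (measure_mono_ae ?_) (measure_union_le _ _)
  filter_upwards [tot_rpush_comp (A := A) hD hab hbe] with ω hω
  rintro ⟨hωB, hlt⟩
  have hlt' : tot (rpush A D a e w) ω < e1 * e2 * tot w ω := hlt
  by_cases h4 : tot (rpush A D₁ a b w) ω < e1 * tot w ω
  · exact Or.inl ⟨hωB, h4⟩
  · refine Or.inr ⟨hωB, ?_⟩
    show tot (rpush A D₂ b e (rpush A D₁ a b w)) ω < e2 * tot (rpush A D₁ a b w) ω
    refine lt_of_le_of_lt (hω w) (lt_of_lt_of_le hlt' ?_)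
    calc e1 * e2 * tot w ω = e2 * (e1 * tot w ω) := by ring
      _ ≤ e2 * tot (rpush A D₁ a b w) ω := mul_le_mul_right (not_lt.1 h4) _

/-- **traveller, then static rest**: 9's TravAt for one grid step `[a, e]` from the traveller over
`[a, b]` and the confined mass over `[b, e]`. -/
theorem trav_rest {φ : S → ℝ} {a b e : ℕ} (hab : a ≤ b) (hbe : b ≤ e) {d1 d2 D : ℝ}
    {e1 e2 p1 p2 : ℝ≥0∞} (hd : d2 + D ≤ d1)
    (h1 : ∀ w, A.Wt a w → (∀ ω, tot w ω ≤ 1) → ∀ B, MeasurableSet[A.F a] B →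
      P (B ∩ {ω | tot (rpush A (fun x y => d1 ≤ φ y - φ x) a b w) ω < e1 * tot w ω}) ≤ p1 * P B)
    (h2 : ∀ w, A.Wt b w → (∀ ω, tot w ω ≤ 1) → ∀ B, MeasurableSet[A.F b] B →
      P (B ∩ {ω | tot (rpush A (fun x y => |φ y - φ x| ≤ D) b e w) ω < e2 * tot w ω}) ≤ p2 * P B) :
    ∀ w, A.Wt a w → (∀ ω, tot w ω ≤ 1) → ∀ B, MeasurableSet[A.F a] B →
      P (B ∩ {ω | tot (rpush A (fun x y => d2 ≤ φ y - φ x) a e w) ω < e1 * e2 * tot w ω})
        ≤ (p1 + p2) * P B := by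
  intro w hw hw1 B hB
  refine comp_two (fun x y z hxy hyz => ?_) hab hbe hw hw1 hB (h1 w hw hw1 B hB)
    (fun w' hw' hw'1 => h2 w' hw' hw'1 B (A.F.mono hab _ hB))
  have h5 := (abs_le.1 hyz).1
  linarith

end Crest.Agent.R154.Units299
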