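import Crest.Agent.R154.HM7_299
import Crest.Agent.R154.HMIn_263
import Crest.Agent.R154.Try_9
import Crest.Agent.R154.Trav_32
import Crest.Agent.R154.UnitsAt_299
import Crest.Agent.R154.HMnum_460
import Crest.Agent.R154.HMnum2_460
import Crest.Agent.R154.HMnum3_460

/-!
# Row 154, `d ≥ 3`, `κ > 0`, HOME MASS (263), L6 = HM8 (helper388)

`core`  : one window from the static bounds (`k` units and one unit), the jump over one macro step,
          and the numbers.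
`irr_of`: `STAT`, `JUMP`, `TailIn`, `WInf`, `JumpIn` ⟹ 299's `Irr`.
-/

set_option autoImplicit false
set_option linter.unusedSectionVars false
set_option linter.unusedVariables false

namespace Crest.Agent.R154.HM8388

open MeasureTheory ProbabilityTheory Set
open Crest.Agent.R154.RatioR872 Crest.Agent.R154.RatioR872.KerSys Crest.Agent.R154.Home903
open Crest.Agent.R154.Doc74 Crest.Agent.R154.HM263 Crest.Agent.R154.Units299
open Crest.Agent.R154.HM7299 Crest.Agent.R154.HMnum460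
open scoped ENNReal Classical

variable {S : Type*} [Countable S] {Ω : Type*} {m0 : MeasurableSpace Ω} {P : Measure Ω}
variable {A : KerSys S P}

/-- inside of `STAT` in 299's letters -/
def StatP (A : KerSys S P) (φ : S → ℝ) (k N : ℕ) (D g0 θ : ℝ) (η Ks : ℝ≥0∞) : Prop :=
  ∀ r s L n : ℕ, n ≤ r * N → ∀ z : ℝ≥0∞,
    ProdAbs A φ k L (L + n) (2 * s * D) (g0 + 4 * s * D) z
      ((2 * Ks) ^ r * z ^ θ + (2 * η) ^ s * (1 / η) ^ r)

lemma StatP.of {φ : S → ℝ} {k N : ℕ} {D g0 θ : ℝ} {η Ks : ℝ≥0∞}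
    (h : StatAt A φ k N D g0 θ η Ks) : StatP A φ k N D g0 θ η Ks := by
  intro r s L n hn z w hw B hB h1 hg
  exact h r s L n hn w B hB hw h1 hg z

lemma StatP.neg {φ : S → ℝ} {k N : ℕ} {D g0 θ : ℝ} {η Ks : ℝ≥0∞}
    (h : StatP A φ k N D g0 θ η Ks) : StatP A (fun x => -φ x) k N D g0 θ η Ks :=
  fun r s L n hn z => (h r s L n hn z).neg

lemma StatP.mono {φ : S → ℝ} {k N : ℕ} {D g0 θ θ' : ℝ} {η Ks : ℝ≥0∞}
    (h : StatP A φ k N D g0 θ η Ks) (h0 : 0 < θ') (hθ : θ' ≤ θ) (hKs : 1 ≤ Ks) :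
    StatP A φ k N D g0 θ' η Ks := by
  intro r s L n hn z w hw B hB h1 hg
  rcases le_total z 1 with hz | hz
  · refine (h r s L n hn z w hw B hB h1 hg).trans ?_
    exact mul_le_mul_left (add_le_add (mul_le_mul_right
      (ENNReal.rpow_le_rpow_of_exponent_ge hz hθ) _) le_rfl) _
  · calc P (B ∩ {ω | ∏ i, tot (rpush A (fun x y => |φ y - φ x| ≤ 2 * s * D) L (L + n) (w i)) ω ≤ z})
        ≤ P B := measure_mono inter_subset_left
      _ = 1 * P B := (one_mul _).symm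
      _ ≤ _ := by
        refine mul_le_mul_left ?_ _
        have h2 : (1 : ℝ≥0∞) ≤ (2 * Ks) ^ r := one_le_pow₀ (hKs.trans (by
          rw [two_mul]; exact le_self_add))
        have h3 : (1 : ℝ≥0∞) ≤ z ^ θ' := ENNReal.one_le_rpow hz h0
        calc (1 : ℝ≥0∞) = 1 * 1 := (one_mul 1).symm
          _ ≤ (2 * Ks) ^ r * z ^ θ' := mul_le_mul' h2 h3
          _ ≤ _ := le_self_add

lemma mono_p {φ : S → ℝ} {k a e : ℕ} {D g : ℝ} {z p p' : ℝ≥0∞}
    (h : ProdAt A φ k a e D g z p) (hp : p ≤ p') : ProdAt A φ k a e D g z p' :=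
  fun w hw B hB h1 hg => (h w hw B hB h1 hg).trans (mul_le_mul_left hp _)

/-- **one window** from the static bounds, the jump and the numbers -/
theorem core {φ : S → ℝ} {k n : ℕ} (hk : 1 ≤ k) {N : ℕ} {D g1 g2 θ : ℝ} (hθ : 0 < θ)
    (hD : 0 ≤ D) {η1 Ks1 η2 Ks2 : ℝ≥0∞}
    (hS1 : StatP A φ k N D g1 θ η1 Ks1) (hS2 : StatP A φ 1 N D g2 θ η2 Ks2)
    (hKs2 : 1 ≤ Ks2) (hη2 : η2 ≤ ENNReal.ofReal (Real.exp (-4)) / 2)
    {l rm s m : ℕ} (hs : 1 ≤ s) (hl : l ≤ rm * N) {Δ : ℝ} (hΔ : 0 ≤ Δ) {εJ δJ : ℝ≥0∞}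
    (hεJ : εJ ≤ 1) (hδJ1 : δJ ≤ 1) (hδJ0 : δJ ≠ 0) (hJ : JumpAt A φ l Δ εJ δJ)
    {C : ℝ≥0∞} (hC : C = (2 * Ks2) ^ rm + (1 / η2) ^ rm)
    {ε δ : ℝ≥0∞} {v : ℝ} (hv : 0 ≤ v)
    (T1 : (4 * δJ) ^ s + ((1 + 2 * C / ENNReal.ofReal (Real.exp (-3)) + C) *
      ENNReal.ofReal (Real.exp (-3)) ^ m) ^ (2 * s) ≤ δ)
    (T2 : (1 + 2 * C / ENNReal.ofReal (Real.exp (-3)) + C) ^ (2 * s) *
      ENNReal.ofReal (Real.exp (-3)) ^ (m * (2 * s)) ≤ δ)
    (T3 : ε ≤ ENNReal.ofReal (Real.exp (-(4 / θ))) ^ (m * (2 * s)) * εJ ^ (2 * s))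
    (T4 : ε ≤ ENNReal.ofReal (Real.exp (-(4 / θ))) ^ (m * (2 * s)))
    (T5 : ((m * (2 * s) : ℕ) : ℝ) ≤ v)
    {i : ℕ} (hgrid : 10 ^ i + n * k * (2 * s * l) ≤ 10 ^ (i + 1))
    {r su : ℕ} (hr : 10 ^ (i + 2) ≤ r * N) {ε3 δ3 : ℝ≥0∞}
    (hU : (2 * Ks1) ^ r * (ε3 ^ k) ^ θ + (2 * η1) ^ su * (1 / η1) ^ r ≤ δ3)
    (hgap : (g1 + 4 * su * D) + 2 * k * (v * (2 * D)) ≤ s * Δ - v * (2 * D)) (hg1 : 0 ≤ g1)
    {lam : ℝ} (hm1 : ENNReal.ofReal (Real.exp (-v)) < ε3 * (ε / 2) ^ (k - 1))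
    (hp1 : (((k * k : ℕ) : ℝ≥0∞) * δ) ^ n + n * δ3 ≤ ENNReal.ofReal (Real.exp (-(lam * v)))) :
    WinAt A lam i v := by
  set ε1 : ℝ≥0∞ := ENNReal.ofReal (Real.exp (-(4 / θ))) with hε1
  set σ : ℝ≥0∞ := ENNReal.ofReal (Real.exp (-3)) with hσ
  set q : ℝ≥0∞ := ENNReal.ofReal (Real.exp (-4)) with hq
  have hσ0 : σ ≠ 0 := by
    rw [hσ]; exact (ENNReal.ofReal_pos.2 (Real.exp_pos _)).ne'
  have hσ1 : σ ≠ ∞ := ENNReal.ofReal_ne_top
  have hqσ : q ≤ σ / 2 := by
    have h1 : σ / 2 = ENNReal.ofReal (Real.exp (-3) / 2) := by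
      rw [hσ, ENNReal.ofReal_div_of_pos (by norm_num)]
      norm_num
    rw [h1, hq]
    refine ENNReal.ofReal_le_ofReal ?_
    have h2 : Real.exp (-3) = Real.exp (-4) * Real.exp 1 := by rw [← Real.exp_add]; norm_num
    have h3 := Real.exp_one_gt_d9
    have h4 := Real.exp_pos (-4)
    rw [h2]
    nlinarith
  have h1C : 1 ≤ C := by
    rw [hC]
    refine le_trans ?_ le_self_add
    exact one_le_pow₀ (hKs2.trans (by rw [two_mul]; exact le_self_add))
  set lv : ℕ → ℕ := fun t => 10 ^ i + t * (2 * s * l) with hlv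
  have hlvm : Monotone lv := by
    intro a b hab
    simp only [hlv]
    gcongr
  -- the scores of one macro step
  have hHome : ∀ a, ∀ w, A.Wt a w → (∀ ω, tot w ω ≤ 1) → ∀ B, MeasurableSet[A.F a] B →
      ∀ j : ℕ, 1 ≤ j →
      P (B ∩ {ω | tot (rpush A (fun x y => |φ y - φ x| ≤ j * (2 * D)) a (a + l) w) ω
        < ε1 ^ j * tot w ω}) ≤ C * q ^ j * P B := by
    intro a
    refine Units299.hHome (g := 0) fun j hj => ⟨g2 + 4 * j * D, ?_⟩
    have h := (hS2 rm j a l hl (ε1 ^ j)).toProdAt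
    have e : (2 * (j : ℝ) * D) = j * (2 * D) := by ring
    rw [e] at h
    refine mono_p h ?_
    rw [hC]
    exact home_num hθ hη2 rm j
  have hJump : ∀ a, ∀ w, A.Wt a w → (∀ ω, tot w ω ≤ 1) → ∀ B, MeasurableSet[A.F a] B →
      P (B ∩ {ω | tot (rpush A (fun x y => Δ ≤ φ y - φ x) a (a + l) w) ω < εJ * tot w ω})
        ≤ δJ * P B := fun a w hw hw1 B hB => hJ a w B hB hw hw1
  have hmac : ∀ m1, Monotone (fun t => lv m1 + t * l) := by
    intro m1 a b hab
    show lv m1 + a * l ≤ lv m1 + b * l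
    gcongr
  have e0 : ∀ m1, lv m1 + 0 * l = lv m1 := fun m1 => by rw [zero_mul, add_zero]
  have eJ : ∀ m1, lv m1 + 2 * s * l = lv (m1 + 1) := fun m1 => by
    simp only [hlv]; ring
  have e1 : ∀ m1 t, lv m1 + (t + 1) * l = lv m1 + t * l + l := fun m1 t => by ring
  have hTs : ∀ m1, Try9.HomeAt A φ lv (v * (2 * D)) ε δ m1 := by
    intro m1 w hw hw1 B hB
    have h := Trav32.home (A := A) (P := P) (φ := φ) (hmac m1) (J := 2 * s) (by omega)
      (D1 := 2 * D) (ε1 := ε1) (q := q) (C := C) (σ := σ) h1C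
      (fun t _ w' hw' hw1' B' hB' j hj => by
        show P (B' ∩ {ω | tot (rpush A (fun x y => |φ y - φ x| ≤ j * (2 * D)) (lv m1 + t * l)
          (lv m1 + (t + 1) * l) w') ω < ε1 ^ j * tot w' ω}) ≤ C * q ^ j * P B'
        rw [e1]
        exact hHome _ w' hw' hw1' B' hB' j hj)
      (Trav32.hZ_num hσ0 hσ1 hqσ) (m * (2 * s)) (w := w) (by
        show A.Wt (lv m1 + 0 * l) w
        rw [e0]; exact hw) hw1 (B := B) (by
        show MeasurableSet[A.F (lv m1 + 0 * l)] B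
        rw [e0]; exact hB)
    have h' : P (B ∩ {ω | tot (rpush A (fun x y => |φ y - φ x| ≤ (m * (2 * s) : ℕ) * (2 * D))
        (lv m1) (lv (m1 + 1)) w) ω < ε1 ^ (m * (2 * s)) * tot w ω}) ≤ δ * P B := by
      have h2 := h
      simp only [e0, eJ] at h2
      refine h2.trans ?_
      gcongr
    refine le_trans (measure_mono ?_) h'
    rintro ω ⟨hωB, hω⟩
    refine ⟨hωB, ?_⟩
    have hω' : tot (rpush A (fun x y => |φ y - φ x| ≤ v * (2 * D)) (lv m1) (lv (m1 + 1)) w) ω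
      < ε * tot w ω := hω
    refine lt_of_le_of_lt (tot_rpush_mono_D (fun x y hxy => ?_) _ _ _ _) (hω'.trans_le ?_)
    · have h5 : ((m * (2 * s) : ℕ) : ℝ) * (2 * D) ≤ v * (2 * D) :=
        mul_le_mul_of_nonneg_right T5 (by positivity)
      exact le_trans hxy h5
    · gcongr
  have hTt : ∀ m1, Try9.TravAt A φ lv (s * Δ - v * (2 * D)) ε δ m1 := by
    intro m1 w hw hw1 B hB
    have h := Trav32.trav_half (A := A) (P := P) (φ := φ) (hmac m1) hs (Δ := Δ) (D1 := 2 * D) hΔ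
      (η := εJ) (ε1 := ε1) (δ := δJ) (q := q) (C := C) (σ := σ) hεJ h1C hδJ1 hδJ0 hσ0 hσ1 hqσ
      (fun t _ w' hw' hw1' B' hB' => by
        show P (B' ∩ {ω | tot (rpush A (fun x y => Δ ≤ φ y - φ x) (lv m1 + t * l)
          (lv m1 + (t + 1) * l) w') ω < εJ * tot w' ω}) ≤ δJ * P B'
        rw [e1]
        exact hJump _ w' hw' hw1' B' hB')
      (fun t _ w' hw' hw1' B' hB' j hj => by
        show P (B' ∩ {ω | tot (rpush A (fun x y => |φ y - φ x| ≤ j * (2 * D)) (lv m1 + t * l)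
          (lv m1 + (t + 1) * l) w') ω < ε1 ^ j * tot w' ω}) ≤ C * q ^ j * P B'
        rw [e1]
        exact hHome _ w' hw' hw1' B' hB' j hj)
      m (w := w) (by
        show A.Wt (lv m1 + 0 * l) w
        rw [e0]; exact hw) hw1 (B := B) (by
        show MeasurableSet[A.F (lv m1 + 0 * l)] B
        rw [e0]; exact hB)
    have h' : P (B ∩ {ω | tot (rpush A (fun x y => s * Δ - (m * (2 * s) : ℕ) * (2 * D) ≤ φ y - φ x)
        (lv m1) (lv (m1 + 1)) w) ω < ε1 ^ (m * (2 * s)) * εJ ^ (2 * s) * tot w ω}) ≤ δ * P B := by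
      have h2 := h
      simp only [e0, eJ] at h2
      refine h2.trans ?_
      gcongr
    refine le_trans (measure_mono ?_) h'
    rintro ω ⟨hωB, hω⟩
    refine ⟨hωB, ?_⟩
    have hω' : tot (rpush A (fun x y => s * Δ - v * (2 * D) ≤ φ y - φ x) (lv m1) (lv (m1 + 1)) w) ω
      < ε * tot w ω := hω
    refine lt_of_le_of_lt (tot_rpush_mono_D (fun x y hxy => ?_) _ _ _ _) (hω'.trans_le ?_)
    · have h5 : ((m * (2 * s) : ℕ) : ℝ) * (2 * D) ≤ v * (2 * D) :=
        mul_le_mul_of_nonneg_right T5 (by positivity)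
      have h6 : s * Δ - (m * (2 * s) : ℕ) * (2 * D) ≤ φ y - φ x := hxy
      linarith
    · gcongr
  have hle : lv (n * k) ≤ 10 ^ (i + 1) := by
    simp only [hlv]; exact hgrid
  have h12 : (10 : ℕ) ^ (i + 1) ≤ 10 ^ (i + 2) := Nat.pow_le_pow_right (by norm_num) (by omega)
  have hUn : ∀ t < n, Try9.UnitsAt A φ k (g1 + 4 * su * D) (lv (t * k + (k - 1)))
      (10 ^ (i + 2)) ε3 δ3 := by
    intro t ht
    have hlt : lv (t * k + (k - 1)) ≤ 10 ^ (i + 2) := by
      refine le_trans (hlvm ?_) (hle.trans h12)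
      have : (t + 1) * k ≤ n * k := Nat.mul_le_mul_right k ht
      have e : (t + 1) * k = t * k + k := by ring
      omega
    obtain ⟨b, hb⟩ := Nat.exists_eq_add_of_le hlt
    rw [hb]
    have h := (hS1 r su (lv (t * k + (k - 1))) b (by omega) (ε3 ^ k)).toProdAt
    exact Units299.unitsAt (mono_p h hU)
  intro μ hμ B hB
  have hB' : MeasurableSet[A.F (lv 0)] B := by
    have e : lv 0 = 10 ^ i := by simp only [hlv]; ring
    rw [e]; exact hB
  have hfin := Try9.win_of_units (A := A) (P := P) (φ := φ) (lv := lv) (d := v * (2 * D))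
    (d2 := s * Δ - v * (2 * D)) hk hlvm (n := n) (e := 10 ^ (i + 2)) (hle.trans h12)
    (ε := ε) (δ := δ) (ε3 := ε3) (δ3 := δ3) (g := g1 + 4 * su * D) (by positivity)
    (by
      refine le_trans ?_ hgap
      positivity) hgap (fun m1 _ => hTs m1) (fun m1 _ => hTt m1) hUn hμ hB'
  refine le_trans (measure_mono ?_) (hfin.trans (mul_le_mul_left hp1 _))
  rintro ω ⟨hωB, hω0, hω⟩
  have ha : A.Sh μ (10 ^ (i + 1)) ω ≤ A.Sh μ (lv (n * k)) ω := Sh_anti hle ω
  have hne : A.Sh μ (lv (n * k)) ω ≠ 0 := fun h0 => hω0 (le_antisymm (h0 ▸ ha) zero_le)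
  have htop : A.Sh μ (lv (n * k)) ω ≠ ∞ :=
    ne_top_of_le_ne_top ENNReal.one_ne_top (Sh_le_one hμ _ ω)
  refine ⟨hωB, hne, ?_⟩
  calc A.Sh μ (10 ^ (i + 2)) ω ≤ ENNReal.ofReal (Real.exp (-v)) * A.Sh μ (10 ^ (i + 1)) ω := hω
    _ ≤ ENNReal.ofReal (Real.exp (-v)) * A.Sh μ (lv (n * k)) ω := by gcongr
    _ < ε3 * (ε / 2) ^ (k - 1) * A.Sh μ (lv (n * k)) ω := by
      rw [mul_comm, mul_comm (ε3 * (ε / 2) ^ (k - 1))]
      exact (ENNReal.mul_lt_mul_iff_right hne htop).2 hm1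

lemma tailH_neg {φ : S → ℝ} {N : ℕ} {D : ℝ} {ν : ℝ≥0∞} (h : TailH A φ N D ν) :
    TailH A (fun x => -φ x) N D ν := by
  intro a c hac hc
  obtain ⟨Bd, h1, h2, h3⟩ := h a c hac hc
  refine ⟨Bd, h1, h2, fun b hab hbc => ?_⟩
  filter_upwards [h3 b hab hbc] with ω hω x hx
  simp only [Hm_neg]
  exact hω x hx

/-- a real number below an extended one -/
lemma exists_real {ν : ℝ≥0∞} (h : ν ≠ 0) : ∃ r : ℝ, 0 < r ∧ ENNReal.ofReal r ≤ ν := by
  refine ⟨(min ν 1).toReal, ?_, ?_⟩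
  · refine ENNReal.toReal_pos ?_ (ne_top_of_le_ne_top ENNReal.one_ne_top (min_le_right _ _))
    rcases min_choice ν 1 with h1 | h1
    · rw [h1]; exact h
    · rw [h1]; exact one_ne_zero
  · rw [ENNReal.ofReal_toReal (ne_top_of_le_ne_top ENNReal.one_ne_top (min_le_right _ _))]
    exact min_le_left _ _

set_option maxHeartbeats 4000000 in
/-- **HM8** -/
theorem irr_of (A : KerSys S P) (lat lev : S → ℝ) (W : ℕ → ℝ) (reg : ℕ → ℕ → ℝ → ℕ → Prop)
    (hW : ∀ n, 0 ≤ W n) (hInf : WInf W) (hST : STAT A lat lev) (hJU : JUMP A)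
    (hTI : TailIn A lat lev W) (hJI : JumpIn A lat lev W reg) : Irr A reg := by
  intro lam hlam
  obtain ⟨θ0, hθ0, hST⟩ := hST
  set θ : ℝ := min θ0 1 with hθdef
  have hθ : 0 < θ := lt_min hθ0 one_pos
  have hθ1 : θ ≤ 1 := min_le_right _ _
  have hθθ : θ ≤ θ0 := min_le_left _ _
  obtain ⟨k, hk, η1, hη1, hη1', hη1t, hnum1⟩ := stat_num (lam := 2 * lam + 1) (θ := θ)
    (q := 1 / 8) (T := 200) (by linarith) hθ (by norm_num) (by norm_num)
  obtain ⟨Ks1, ν1, N01, g1, hKs1t, hKs1, hν1, hg1, hS1⟩ := hST k hk η1 hη1 hη1'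
  obtain ⟨C01, hC01, v01, hv01, hnum1⟩ := hnum1 Ks1 hKs1t
  obtain ⟨Ks2, ν2, N02, g2, hKs2t, hKs2, hν2, hg2, hS2⟩ := hST 1 le_rfl (et 4) (et_pos 4)
    (et_le (by norm_num))
  obtain ⟨L, hL0, hL1, hL2⟩ := exists_L (η := et 4) (Ks := Ks2) (et_pos 4).ne' hKs2t
  obtain ⟨π, c, nJ0, hπ0, hπ1, hc, hJI⟩ := hJI
  obtain ⟨x1, hx1, hJU⟩ := hJU π hπ0 hπ1
  obtain ⟨c1, C02, Y0, hc1, hC02, hY0, hnum2⟩ := trav_num hθ hθ1 hx1 hL0 hk
  obtain ⟨n', hn', v02, hv02, hnum3⟩ := win_num hlam hc1 hk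
  obtain ⟨νr1, hνr1, hνr1'⟩ := exists_real hν1
  obtain ⟨νr2, hνr2, hνr2'⟩ := exists_real hν2
  obtain ⟨a, hTI⟩ := hTI (min νr1 νr2) (lt_min hνr1 hνr2)
  obtain ⟨α, n0a, hT1, hT2⟩ := hTI a le_rfl
  have hkr : (1 : ℝ) ≤ k := by exact_mod_cast hk
  have hnr : (1 : ℝ) ≤ n' := by exact_mod_cast hn'
  -- the constant
  set C2 : ℝ := C01 * 2 ^ a + Y0 + 2 ^ a * C02 + 1080 / c + 2700 * k * (n' * k * 128) / c with hC2
  have p1 : 0 < C01 * 2 ^ a := by positivity
  have p2 : 0 < 2 ^ a * C02 := by positivity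
  have p3 : 0 < 1080 / c := by positivity
  have p4 : 0 < 2700 * k * (n' * k * 128) / c := by positivity
  have side : ∀ K1 : ℝ, 1 ≤ K1 → C2 ≤ K1 → ∀ m' : ℕ, 3 ≤ m' → ∃ (n0 : ℕ) (v0 : ℝ),
      ∀ n, n0 ≤ n → ∀ X : ℝ, 1080 ≤ c * X → 2700 * k * (n' * k * m' * K1) ≤ c * X →
      ∀ φ : S → ℝ, (φ = ph lat lev (α n) ∨ φ = fun x => - ph lat lev (α n) x) →
      JumpTail A φ (m' * 2 ^ n) (c * X * W n) π → ∀ (i : ℕ) (v : ℝ), v0 ≤ v →
      v * 2 ^ n ≤ K1 * 10 ^ i → K1 * 10 ^ i ≤ 2 * (v * 2 ^ n) → WinAt A lam i v := by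
    intro K1 hK1 hCK m' hm'
    have hmr : (3 : ℝ) ≤ m' := by exact_mod_cast hm'
    have hK0 : 0 < K1 := by linarith
    set y : ℝ := n' * k * m' * K1 with hy
    have hnk : (1 : ℝ) ≤ n' * k := one_le_mul_of_one_le_of_one_le hnr hkr
    have hnkm : (m' : ℝ) ≤ n' * k * m' := le_mul_of_one_le_left (by positivity) hnk
    have hyK : m' * K1 ≤ y := by
      rw [hy]
      gcongr
    have hy0 : 0 < y := by
      rw [hy]; positivity
    have hK1y : K1 ≤ m' * K1 := le_mul_of_one_le_left hK0.le (by linarith)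
    have hYy : Y0 ≤ y := by
      refine le_trans ?_ (hK1y.trans hyK)
      refine le_trans ?_ hCK
      rw [hC2]; linarith [hC02]
    set rm : ℕ := (m' + 1) * 2 ^ a with hrm
    have hrmC : (rm : ℝ) * C02 ≤ 3 * y := by
      have h1 : (2 : ℝ) ^ a * C02 ≤ K1 := by
        refine le_trans ?_ hCK
        rw [hC2]; linarith
      have h2 : (rm : ℝ) = (m' + 1) * 2 ^ a := by rw [hrm]; push_cast; ring
      calc (rm : ℝ) * C02 = (m' + 1) * (2 ^ a * C02) := by rw [h2]; ring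
        _ ≤ (m' + 1) * K1 := by gcongr
        _ ≤ (3 * m') * K1 := by
          gcongr
          linarith
        _ = 3 * (m' * K1) := by ring
        _ ≤ 3 * y := by gcongr
    obtain ⟨δ, hδ0, hδ1, m, hm, hnum2⟩ := hnum2 y hYy rm hrmC
    obtain ⟨ν', hν', hJU⟩ := hJU δ hδ0 hδ1
    obtain ⟨νr, hνr, hνr'⟩ := exists_real hν'
    obtain ⟨b, hT2⟩ := hT2 νr hνr
    obtain ⟨n1, hT2⟩ := hT2 b le_rfl
    obtain ⟨s0, hJU⟩ := hJU (1 + m' * 2 ^ b)
    obtain ⟨n2, hn2⟩ := hInf (g1 + g2)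
    refine ⟨n0a + n1 + n2 + (a + N01 + N02) + (b + s0), max (max v01 v02) (max (1 / c1) (max y 1)),
      fun n hn X hX1 hX2 φ hφ hJT i v hv hv1 hv2 => ?_⟩
    have hvv01 : v01 ≤ v := ((le_max_left _ _).trans (le_max_left _ _)).trans hv
    have hvv02 : v02 ≤ v := ((le_max_right _ _).trans (le_max_left _ _)).trans hv
    have hvc : 1 / c1 ≤ v := ((le_max_left _ _).trans (le_max_right _ _)).trans hv
    have hvy : y ≤ v := ((le_max_left _ _).trans ((le_max_right _ _).trans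
      (le_max_right _ _))).trans hv
    have hv11 : 1 ≤ v := ((le_max_right _ _).trans ((le_max_right _ _).trans
      (le_max_right _ _))).trans hv
    have hv0 : 0 < v := by linarith
    have han : a ≤ n := by omega
    have hbn : b ≤ n := by omega
    have hWn := hn2 n (by omega)
    have hW0 := hW n
    set D : ℝ := 180 * W n with hD
    have hD0 : 0 ≤ D := by rw [hD]; positivity
    have hD1 : g1 ≤ D := by rw [hD]; linarith
    have hD2 : g2 ≤ D := by rw [hD]; linarith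
    set N : ℕ := 2 ^ (n - a) with hN
    have hNN : N * 2 ^ a = 2 ^ n := by
      rw [hN, ← pow_add]
      congr 1
      omega
    have hzz : 2 ^ (n - b) * 2 ^ b = 2 ^ n := by
      rw [← pow_add]
      congr 1
      omega
    have hNge : n - a ≤ N := (Nat.lt_two_pow_self (n := n - a)).le
    have hzge : n - b ≤ 2 ^ (n - b) := (Nat.lt_two_pow_self (n := n - b)).le
    -- the static bounds
    have hTail := hT1 n (by omega)
    have hP1 : StatP A (ph lat lev (α n)) k N D g1 θ η1 Ks1 :=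
      (StatP.of (hS1 N (by omega) (α n) D hD1 (hTail.mono le_rfl
        ((ENNReal.ofReal_le_ofReal (min_le_left _ _)).trans hνr1')))).mono hθ hθθ hKs1
    have hP2 : StatP A (ph lat lev (α n)) 1 N D g2 θ (et 4) Ks2 :=
      (StatP.of (hS2 N (by omega) (α n) D hD2 (hTail.mono le_rfl
        ((ENNReal.ofReal_le_ofReal (min_le_right _ _)).trans hνr2')))).mono hθ hθθ hKs2
    have hQ1 : StatP A φ k N D g1 θ η1 Ks1 := by
      rcases hφ with rfl | rfl
      · exact hP1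
      · exact hP1.neg
    have hQ2 : StatP A φ 1 N D g2 θ (et 4) Ks2 := by
      rcases hφ with rfl | rfl
      · exact hP2
      · exact hP2.neg
    -- the jump
    set Δ : ℝ := c * X * W n / 2 with hΔ
    have hcX : 0 ≤ c * X := by linarith
    have hΔ0 : 0 ≤ Δ := by rw [hΔ]; positivity
    have h540 : 540 * W n ≤ Δ := by
      rw [hΔ]
      nlinarith
    have hTb := hT2 n (by omega)
    have hTz : TailH A φ (2 ^ (n - b)) Δ ν' := by
      have h1 := (hTb.mono_D h540).mono le_rfl hνr'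
      rcases hφ with rfl | rfl
      · exact h1
      · exact tailH_neg h1
    set l : ℕ := 2 ^ (n - b) + m' * 2 ^ n with hl
    have hJ : JumpAt A φ l Δ (ENNReal.ofReal (Real.exp (-(x1 * (1 + Real.log (1 / δ))))))
        (ENNReal.ofReal δ) := by
      refine hJU (2 ^ (n - b)) (by omega) (m' * 2 ^ n) ?_ φ Δ ?_ hTz
      · rw [← hzz]
        ring_nf
        exact le_rfl
      · have e : 2 * Δ = c * X * W n := by rw [hΔ]; ring
        rw [e]; exact hJT
    have hl1 : l ≤ (m' + 1) * 2 ^ n := by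
      have : 2 ^ (n - b) ≤ 2 ^ n := Nat.pow_le_pow_right (by norm_num) (by omega)
      rw [hl]
      linarith [this, add_mul m' 1 (2 ^ n), one_mul (2 ^ n)]
    have hl2 : m' * 2 ^ n ≤ l := by rw [hl]; exact Nat.le_add_left _ _
    have hlrm : l ≤ rm * N := by
      refine hl1.trans (le_of_eq ?_)
      rw [hrm, ← hNN]
      ring
    have h2n : (0 : ℝ) < 2 ^ n := by positivity
    have hl1r : (l : ℝ) ≤ (m' + 1) * 2 ^ n := by exact_mod_cast hl1
    have hl2r : (m' : ℝ) * 2 ^ n ≤ l := by exact_mod_cast hl2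
    have hl0r : (0 : ℝ) < l := lt_of_lt_of_le (by positivity) hl2r
    -- number of macro steps
    have hden : 0 < n' * k * 2 * l := by
      have : 0 < l := by exact_mod_cast hl0r
      positivity
    set s : ℕ := 9 * 10 ^ i / (n' * k * 2 * l) with hs
    have hs1 : (n' * k * 2 * l) * s ≤ 9 * 10 ^ i := Nat.mul_div_le _ _
    have hs2 : 9 * 10 ^ i < (n' * k * 2 * l) * (s + 1) := Nat.lt_mul_div_succ _ hden
    have hs1r : ((n' : ℝ) * k * 2 * l) * s ≤ 9 * 10 ^ i := by exact_mod_cast hs1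
    have hs2r : (9 : ℝ) * 10 ^ i < (n' * k * 2 * l) * (s + 1) := by exact_mod_cast hs2
    have hHp : (0 : ℝ) < 10 ^ i := by positivity
    have hs18 : y * (2 * s) ≤ 18 * v := by
      -- y (2 s) l = m' K1 (n' k 2 l s) ≤ m' K1 9 H ≤ 18 v m' 2^n ≤ 18 v l
      have h1 : y * (2 * s) * l ≤ 18 * v * l := by
        calc y * (2 * s) * l = m' * K1 * ((n' * k * 2 * l) * s) := by rw [hy]; ring
          _ ≤ m' * K1 * (9 * 10 ^ i) := by gcongr
          _ = 9 * m' * (K1 * 10 ^ i) := by ring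
          _ ≤ 9 * m' * (2 * (v * 2 ^ n)) := by gcongr
          _ = 18 * v * (m' * 2 ^ n) := by ring
          _ ≤ 18 * v * l := by gcongr
      exact le_of_mul_le_mul_right h1 hl0r
    have hs4 : 4 * v ≤ y * (2 * s) := by
      -- y (2 s + 2) l ≥ m' K1 9 H ≥ 9 m' v 2^n ≥ (27/4) v l
      have h1 : (27 / 4) * v * l ≤ (y * (2 * s) + 2 * y) * l := by
        calc (27 / 4) * v * l ≤ (27 / 4) * v * ((m' + 1) * 2 ^ n) := by gcongr
          _ ≤ (27 / 4) * v * ((4 / 3 * m') * 2 ^ n) := by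
            gcongr
            linarith
          _ = 9 * m' * (v * 2 ^ n) := by ring
          _ ≤ 9 * m' * (K1 * 10 ^ i) := by gcongr
          _ = m' * K1 * (9 * 10 ^ i) := by ring
          _ ≤ m' * K1 * ((n' * k * 2 * l) * (s + 1)) := by gcongr
          _ = (y * (2 * s) + 2 * y) * l := by rw [hy]; ring
      have h2 := le_of_mul_le_mul_right h1 hl0r
      linarith
    have hs0 : 1 ≤ s := by
      rcases Nat.eq_zero_or_pos s with h | h
      · exfalso
        rw [h] at hs4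
        simp only [Nat.cast_zero, mul_zero] at hs4
        linarith
      · exact h
    obtain ⟨T1, T2, T3, T4, T5⟩ := hnum2 v hvc s hs4 hs18 (et 4) Ks2
      ((2 * Ks2) ^ rm + (1 / et 4) ^ rm) hL1 hL2 le_rfl
    have hgrid : 10 ^ i + n' * k * (2 * s * l) ≤ 10 ^ (i + 1) := by
      have e : n' * k * (2 * s * l) = (n' * k * 2 * l) * s := by ring
      rw [e, pow_succ]
      omega
    obtain ⟨r, hr1, hr, hrr⟩ := epochs (N := N) (j := a) (n := n) (H := 10 ^ i) (M := 100)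
      (K1 := K1) (v := v) hK0 hNN (by push_cast; exact hv2)
    have hrN : 10 ^ (i + 2) ≤ r * N := by
      refine le_trans (le_of_eq ?_) hr
      ring
    have hKa : C01 ≤ K1 / 2 ^ a := by
      rw [le_div_iff₀ (by positivity)]
      refine le_trans ?_ hCK
      rw [hC2]; linarith
    have hU := hnum1 v hvv01 (K1 / 2 ^ a) hKa r ⌈v⌉₊ (by
      refine hrr.trans (le_of_eq ?_)
      push_cast
      ring) (Nat.le_ceil v)
    obtain ⟨W1, W2⟩ := hnum3 v hvv02 (ENNReal.ofReal (Real.exp (-(c1 * v))))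
      (ENNReal.ofReal (Real.exp (-((2 * lam + 1) * v)))) le_rfl le_rfl
    have hz : (ENNReal.ofReal (Real.exp (-(1 / 8 * v)))) ^ k =
        ENNReal.ofReal (Real.exp (-(k * (1 / 8) * v))) := by
      rw [ofReal_exp_pow]
      congr 2
      ring
    have hceil : (⌈v⌉₊ : ℝ) ≤ 2 * v := by
      have := (Nat.ceil_lt_add_one hv0.le).le
      linarith
    refine core (θ := θ) hk hθ hD0 hQ1 hQ2 hKs2 (et_le_half le_rfl) hs0 hlrm hΔ0
      (εJ := ENNReal.ofReal (Real.exp (-(x1 * (1 + Real.log (1 / δ))))))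
      (δJ := ENNReal.ofReal δ) ?_ ?_ ?_ hJ rfl
      (ε := ENNReal.ofReal (Real.exp (-(v / (8 * k)))))
      (δ := ENNReal.ofReal (Real.exp (-(c1 * v)))) hv0.le T1 T2 T3 T4 T5 hgrid hrN
      (su := ⌈v⌉₊) (ε3 := ENNReal.ofReal (Real.exp (-(1 / 8 * v))))
      (δ3 := ENNReal.ofReal (Real.exp (-((2 * lam + 1) * v)))) (by rw [hz]; exact hU) ?_ hg1 ?_ ?_
    · rw [ENNReal.ofReal_le_one]
      refine Real.exp_le_one_iff.2 ?_
      have h1 : 0 ≤ Real.log (1 / δ) := Real.log_nonneg (by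
        rw [le_div_iff₀ hδ0]; linarith)
      have : 0 ≤ x1 * (1 + Real.log (1 / δ)) := by positivity
      linarith
    · exact ENNReal.ofReal_le_one.2 hδ1
    · exact (ENNReal.ofReal_pos.2 hδ0).ne'
    · -- the gap
      have h1 : 2700 * k * v * W n * y ≤ v * (c * X) * W n := by
        have h2 : 2700 * k * y ≤ c * X := by
          rw [hy]; exact hX2
        calc 2700 * k * v * W n * y = v * (2700 * k * y) * W n := by ring
          _ ≤ v * (c * X) * W n := by gcongr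
      have h3 : 4 * v * Δ ≤ y * (2 * s) * Δ := by gcongr
      have h4 : 2700 * k * v * W n * y ≤ s * Δ * y := by
        have e1 : 4 * v * Δ = 2 * (v * (c * X) * W n) := by rw [hΔ]; ring
        rw [e1] at h3
        nlinarith
      have h5 : 2700 * k * v * W n ≤ s * Δ := le_of_mul_le_mul_right h4 hy0
      have hWv : 0 ≤ v * W n := by positivity
      have hkW : v * W n ≤ k * v * W n := by
        calc v * W n = 1 * (v * W n) := (one_mul _).symm
          _ ≤ k * (v * W n) := by gcongr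
          _ = k * v * W n := by ring
      have hg : g1 ≤ 180 * (v * W n) := by
        have : 180 * W n ≤ 180 * (v * W n) := by nlinarith
        rw [hD] at hD1
        linarith
      have hcD : 4 * (⌈v⌉₊ : ℝ) * D ≤ 4 * (2 * v) * D := by gcongr
      rw [hD] at hcD ⊢
      nlinarith
    · -- mass
      have hpos : ENNReal.ofReal (Real.exp (-(1 / 8 * v))) *
          (ENNReal.ofReal (Real.exp (-(v / (8 * k)))) / 2) ^ (k - 1) ≠ 0 := by
        refine mul_ne_zero (ENNReal.ofReal_pos.2 (Real.exp_pos _)).ne' (pow_ne_zero _ ?_)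
        exact (ENNReal.div_pos (ENNReal.ofReal_pos.2 (Real.exp_pos _)).ne' (by norm_num)).ne'
      have htop : ENNReal.ofReal (Real.exp (-(1 / 8 * v))) *
          (ENNReal.ofReal (Real.exp (-(v / (8 * k)))) / 2) ^ (k - 1) ≠ ∞ := by
        refine ENNReal.mul_ne_top ENNReal.ofReal_ne_top (ENNReal.pow_ne_top ?_)
        exact ENNReal.div_ne_top ENNReal.ofReal_ne_top (by norm_num)
      refine lt_of_le_of_lt ?_ (ENNReal.half_lt_self hpos htop)
      refine W1.trans ?_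
      gcongr
      norm_num
    · rw [Nat.cast_mul]
      exact W2
  refine ⟨C2, fun K1 hK1 hK1' A0 hA0 M hM => ?_⟩
  obtain ⟨nA, vA, hA⟩ := side K1 hK1 hK1' 128 (by norm_num)
  obtain ⟨nB, vB, hB⟩ := side K1 hK1 hK1' M hM
  have hMr : (3 : ℝ) ≤ M := by exact_mod_cast hM
  set B' : ℝ := (1080 + 2700 * k * (n' * k * M * K1)) / c with hB'
  have hcB : c * B' = 1080 + 2700 * k * (n' * k * M * K1) := by rw [hB']; field_simp
  have hX1 : 1080 ≤ c * (2 : ℝ) ^ A0 := by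
    have h1 : 1080 / c ≤ C2 * K1 := by
      have : C2 ≤ C2 * K1 := le_mul_of_one_le_right (by rw [hC2]; positivity) hK1
      refine le_trans ?_ this
      rw [hC2]; linarith
    have h2 := h1.trans hA0
    rw [div_le_iff₀ hc] at h2
    linarith
  have hX2 : 2700 * k * (n' * k * (128 : ℕ) * K1) ≤ c * (2 : ℝ) ^ A0 := by
    have h1 : 2700 * k * (n' * k * 128) / c * K1 ≤ C2 * K1 := by
      gcongr
      rw [hC2]; linarith
    have h2 := h1.trans hA0
    rw [div_mul_eq_mul_div, div_le_iff₀ hc] at h2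
    push_cast
    linarith
  refine ⟨B', max nJ0 (max nA nB), max vA vB, fun n hn hreg i v hv h1 h2 => ?_⟩
  have hnJ : nJ0 ≤ n := (le_max_left _ _).trans hn
  have hnA : nA ≤ n := ((le_max_left _ _).trans (le_max_right _ _)).trans hn
  have hnB : nB ≤ n := ((le_max_right _ _).trans (le_max_right _ _)).trans hn
  have hvA : vA ≤ v := (le_max_left _ _).trans hv
  have hvB : vB ≤ v := (le_max_right _ _).trans hv
  rcases hJI n hnJ A0 M B' hM hreg (α n) with (h | h) | (h | h)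
  · exact hA n hnA _ hX1 hX2 _ (Or.inl rfl) h i v hvA h1 h2
  · exact hA n hnA _ hX1 hX2 _ (Or.inr rfl) h i v hvA h1 h2
  · refine hB n hnB B' ?_ ?_ _ (Or.inl rfl) h i v hvB h1 h2
    · rw [hcB]
      have : 0 ≤ 2700 * k * (n' * k * M * K1) := by positivity
      linarith
    · rw [hcB]; linarith
  · refine hB n hnB B' ?_ ?_ _ (Or.inr rfl) h i v hvB h1 h2
    · rw [hcB]
      have : 0 ≤ 2700 * k * (n' * k * M * K1) := by positivity
      linarith
    · rw [hcB]; linarith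

end Crest.Agent.R154.HM8388
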