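import Crest.Agent.R154.Fin154_843
import Crest.Agent.R154.HM8_388

/-!
# Row 154 (helper843): **the uniformly elliptic half is unconditional**

`hwPos : Top28.HWPos`, `hwUE : Split796.HWUE`, `t0220 : T0220`, `t0221 : T0221`; the row from
`NBProp` alone.
-/

set_option autoImplicit false

namespace Crest.Agent.R154.Fin843

open MeasureTheory ProbabilityTheory Crest.ProbabilityR.RandomEnvironment Crest.Agent.R154
open Crest.Agent.R154.Spine

/-- **(L6)** -/
theorem irrOf : Wrap74.IrrOf := by
  intro S _ Ω m0 P _ A lat lev W reg hST hJU hTI hInf hW hJI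
  exact HM8388.irr_of A lat lev W reg hW hInf hST hJU hTI hJI

theorem hwPos : Top28.HWPos := hwpos irrOf

theorem hwUE : Split796.HWUE := hwue irrOf

/-- **S0220** -/
theorem t0220_final : T0220 := t0220 irrOf

/-- **S0221** -/
theorem t0221_final : T0221 := t0221 irrOf

/-- **THE ROW from `NBProp` alone.** -/
theorem row_of_nb (hNB : NBProp) : T0219 ∧ T0220 ∧ T0221 := Split796.row3 hwUE hNB

end Crest.Agent.R154.Fin843
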