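import Crest.Agent.R154.B5Rec_566
import Crest.Agent.R154.Dens_903
import Crest.Agent.R154.Comp_818

/-! Row 154 (helper803), ROAD 801: composition at joint cuts, pieces of one exact height. -/

set_option autoImplicit false

namespace Crest.Agent.R154.KapComp803

open scoped ENNReal
open Crest.Agent.R154.B5A

variable {B : Type*} (Λ : B → ℝ≥0∞) (ht : B → ℕ)

/-- first passage of height `T` -/
def FP : ℕ → List B → Prop
  | T, [] => T = 0
  | T, b :: L => 0 < T ∧ FP (T - ht b) L

lemma FP_nil (T : ℕ) : FP ht T [] ↔ T = 0 := Iff.rfl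

lemma FP_cons (T : ℕ) (b : B) (L : List B) : FP ht T (b :: L) ↔ 0 < T ∧ FP ht (T - ht b) L := Iff.rfl

lemma FP_le {T : ℕ} {L : List B} (h : FP ht T L) : T ≤ HT ht L := by
  induction L generalizing T with
  | nil => rw [FP_nil] at h; omega
  | cons b L ih => rw [FP_cons] at h; have := ih h.2; rw [HT_cons]; omega

lemma FP_of_HT (h1 : ∀ b, 1 ≤ ht b) {T : ℕ} {L : List B} (h : HT ht L = T) : FP ht T L := by
  induction L generalizing T with
  | nil => rw [FP_nil]; simpa [HT_nil] using h.symm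
  | cons b L ih =>
    rw [HT_cons] at h
    have := h1 b
    exact ⟨by omega, ih (by omega)⟩

lemma FP_zero {L : List B} (h : FP ht 0 L) : L = [] := by
  cases L with
  | nil => rfl
  | cons b L => exact absurd h.1 (by omega)

open Classical in
/-- first passage sum -/
noncomputable def FS (T : ℕ) (F : List B → ℝ≥0∞) : ℝ≥0∞ :=
  ∑' L : List B, if FP ht T L then LW Λ L * F L else 0

lemma FS_zero (F : List B → ℝ≥0∞) : FS Λ ht 0 F = F [] := by
  classical
  rw [FS, tsum_list]
  have : ∀ b (L : List B), ¬ FP ht 0 (b :: L) := fun b L h => absurd h.1 (by omega)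
  simp [this, FP_nil, LW_nil]

lemma FS_pos (T : ℕ) (hT : 0 < T) (F : List B → ℝ≥0∞) :
    FS Λ ht T F = ∑' b, Λ b * FS Λ ht (T - ht b) (fun L => F (b :: L)) := by
  classical
  rw [FS, tsum_list]
  have h0 : ¬ FP ht T ([] : List B) := by rw [FP_nil]; omega
  rw [if_neg h0, zero_add]
  refine tsum_congr fun b => ?_
  rw [FS, ← ENNReal.tsum_mul_left]
  refine tsum_congr fun L => ?_
  by_cases h : FP ht (T - ht b) L
  · rw [if_pos (show FP ht T (b :: L) from ⟨hT, h⟩), if_pos h, LW_cons, mul_assoc]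
  · rw [if_neg (fun hh => h hh.2), if_neg h, mul_zero]

lemma FS_mono (T : ℕ) {F F' : List B → ℝ≥0∞} (h : ∀ L, FP ht T L → F L ≤ F' L) :
    FS Λ ht T F ≤ FS Λ ht T F' := by
  classical
  refine ENNReal.tsum_le_tsum fun L => ?_
  by_cases hL : FP ht T L
  · rw [if_pos hL, if_pos hL]; exact mul_le_mul_right (h L hL) _
  · rw [if_neg hL, if_neg hL]

lemma FS_add (T : ℕ) (F F' : List B → ℝ≥0∞) :
    FS Λ ht T (fun L => F L + F' L) = FS Λ ht T F + FS Λ ht T F' := by
  classical
  rw [FS, FS, FS, ← ENNReal.tsum_add]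
  refine tsum_congr fun L => ?_
  by_cases hL : FP ht T L
  · simp [hL, mul_add]
  · simp [hL]

lemma FS_const_mul (T : ℕ) (a : ℝ≥0∞) (F : List B → ℝ≥0∞) :
    FS Λ ht T (fun L => a * F L) = a * FS Λ ht T F := by
  classical
  rw [FS, FS, ← ENNReal.tsum_mul_left]
  refine tsum_congr fun L => ?_
  by_cases hL : FP ht T L
  · simp only [hL, if_true]; ring
  · simp [hL]

lemma FS_one_le (h1 : ∀ b, 1 ≤ ht b) (hΛ : ∑' b, Λ b ≤ 1) (T : ℕ) : FS Λ ht T (fun _ => 1) ≤ 1 := by
  induction T using Nat.strong_induction_on with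
  | _ T ih =>
    rcases Nat.eq_zero_or_pos T with rfl | hT
    · rw [FS_zero]
    · rw [FS_pos Λ ht T hT]
      calc _ ≤ ∑' b, Λ b * 1 := ENNReal.tsum_le_tsum fun b =>
            mul_le_mul_right (ih _ (by have := h1 b; omega)) _
        _ ≤ 1 := by simpa using hΛ

lemma FS_le_one (h1 : ∀ b, 1 ≤ ht b) (hΛ : ∑' b, Λ b ≤ 1) (T : ℕ) (F : List B → ℝ≥0∞)
    (hF : ∀ L, F L ≤ 1) : FS Λ ht T F ≤ 1 :=
  (FS_mono Λ ht T fun L _ => hF L).trans (FS_one_le Λ ht h1 hΛ T)

/-- composition of first passages -/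
lemma FS_comp (h1 : ∀ b, 1 ≤ ht b) (H T : ℕ) (hHT : H ≤ T) (F : List B → ℝ≥0∞) :
    FS Λ ht T F = FS Λ ht H (fun A => FS Λ ht (T - HT ht A) (fun L => F (A ++ L))) := by
  induction H using Nat.strong_induction_on generalizing T F with
  | _ H ih =>
    rcases Nat.eq_zero_or_pos H with rfl | hH
    · rw [FS_zero]; simp [HT_nil]
    · rw [FS_pos Λ ht H hH, FS_pos Λ ht T (by omega)]
      refine tsum_congr fun b => ?_
      have h1b := h1 b
      rw [ih (H - ht b) (by omega) (T - ht b) (by omega)]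
      congr 2
      funext A
      rw [HT_cons, Nat.sub_sub]
      rfl

/-- splitting of all lists (upper bound of the right side) -/
lemma split_ge (h1 : ∀ b, 1 ≤ ht b) (T : ℕ) (g : List B → ℝ≥0∞) :
    (∑' L1 : List B, ∑' L2 : List B, (open Classical in if FP ht T L1 then g (L1 ++ L2) else 0))
      ≤ ∑' L, g L := by
  classical
  induction T using Nat.strong_induction_on generalizing g with
  | _ T ih =>
    rcases Nat.eq_zero_or_pos T with rfl | hT
    · rw [tsum_eq_single ([] : List B)]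
      · simp [FP_nil]
      · intro L hL
        have : ¬ FP ht 0 L := fun h => hL (FP_zero ht h)
        simp [this]
    · rw [tsum_list, tsum_list g]
      have h0 : ¬ FP ht T ([] : List B) := by rw [FP_nil]; omega
      simp only [h0, if_false, tsum_zero, zero_add]
      refine le_add_left ?_
      refine ENNReal.tsum_le_tsum fun b => ?_
      have := ih (T - ht b) (by have := h1 b; omega) (fun L => g (b :: L))
      refine le_trans (le_of_eq ?_) this
      refine tsum_congr fun L1 => tsum_congr fun L2 => ?_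
      by_cases h : FP ht (T - ht b) L1
      · rw [if_pos (show FP ht T (b :: L1) from ⟨hT, h⟩), if_pos h]; rfl
      · rw [if_neg (fun hh => h hh.2), if_neg h]

lemma split_le (h1 : ∀ b, 1 ≤ ht b) (T : ℕ) (g : List B → ℝ≥0∞)
    (hg : ∀ L, HT ht L < T → g L = 0) :
    ∑' L, g L ≤
    (∑' L1 : List B, ∑' L2 : List B, (open Classical in if FP ht T L1 then g (L1 ++ L2) else 0)) := by
  classical
  induction T using Nat.strong_induction_on generalizing g with
  | _ T ih =>
    rcases Nat.eq_zero_or_pos T with rfl | hT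
    · refine le_trans (le_of_eq ?_) (ENNReal.le_tsum ([] : List B))
      simp [FP_nil]
    · rw [tsum_list g, tsum_list (fun L1 : List B => ∑' L2 : List B, if FP ht T L1 then g (L1 ++ L2) else 0)]
      have h0 : ¬ FP ht T ([] : List B) := by rw [FP_nil]; omega
      simp only [h0, if_false, tsum_zero, zero_add]
      rw [hg [] (by simpa [HT_nil] using hT), zero_add]
      refine ENNReal.tsum_le_tsum fun b => ?_
      have := ih (T - ht b) (by have := h1 b; omega) (fun L => g (b :: L)) (fun L hL =>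
        hg _ (by rw [HT_cons]; omega))
      refine le_trans this (le_of_eq ?_)
      refine tsum_congr fun L1 => tsum_congr fun L2 => ?_
      by_cases h : FP ht (T - ht b) L1
      · rw [if_pos h, if_pos (show FP ht T (b :: L1) from ⟨hT, h⟩)]; rfl
      · rw [if_neg h, if_neg (fun hh : FP ht T (b :: L1) => h hh.2)]

open Classical in
/-- overshoot -/
lemma ovr (h1 : ∀ b, 1 ≤ ht b) (hΛ : ∑' b, Λ b ≤ 1) (i T : ℕ) :
    FS Λ ht T (fun L => if T + i < HT ht L then 1 else 0)
      ≤ ∑ j ∈ Finset.range T, tail Λ ht (j + 1 + i) := by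
  classical
  induction T using Nat.strong_induction_on with
  | _ T ih =>
    rcases Nat.eq_zero_or_pos T with rfl | hT
    · rw [FS_zero]; simp [HT_nil]
    · rw [FS_pos Λ ht T hT]
      obtain ⟨T', rfl⟩ : ∃ T', T = T' + 1 := ⟨T - 1, by omega⟩
      rw [Finset.sum_range_succ]
      have hb : ∀ b, Λ b * FS Λ ht (T' + 1 - ht b)
          (fun L => if T' + 1 + i < HT ht (b :: L) then (1 : ℝ≥0∞) else 0)
          ≤ Λ b * (∑ j ∈ Finset.range T', tail Λ ht (j + 1 + i))
            + (if T' + 1 + i < ht b then Λ b else 0) := by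
        intro b
        have h1b := h1 b
        by_cases h : ht b < T' + 1
        · refine le_add_right (mul_le_mul_right ?_ _)
          refine le_trans (le_of_eq ?_) ((ih (T' + 1 - ht b) (by omega)).trans
            (Finset.sum_le_sum_of_subset (Finset.range_mono (by omega))))
          congr 1
          funext L
          rw [HT_cons]
          exact if_congr (by omega) rfl rfl
        · rw [show T' + 1 - ht b = 0 by omega, FS_zero, HT_cons, HT_nil, add_zero]
          refine le_add_left ?_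
          split_ifs <;> simp
      refine (ENNReal.tsum_le_tsum hb).trans ?_
      rw [ENNReal.tsum_add, ENNReal.tsum_mul_right]
      refine add_le_add ?_ ?_
      · exact mul_le_of_le_one_left zero_le hΛ
      · rw [tail]

open Classical in
lemma ovr' (h1 : ∀ b, 1 ≤ ht b) (hΛ : ∑' b, Λ b ≤ 1) (i T : ℕ) :
    FS Λ ht T (fun L => if T + i < HT ht L then 1 else 0)
      ≤ ∑' k, tail Λ ht (k + i) := by
  refine (ovr Λ ht h1 hΛ i T).trans ?_
  calc ∑ j ∈ Finset.range T, tail Λ ht (j + 1 + i)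
      ≤ ∑' j, tail Λ ht (j + 1 + i) := ENNReal.sum_le_tsum _
    _ ≤ ∑' k, tail Λ ht (k + i) :=
        ENNReal.tsum_comp_le_tsum_of_injective (add_left_injective 1) (fun k => tail Λ ht (k + i))


lemma FS_tsum {ι : Type*} (T : ℕ) (F : ι → List B → ℝ≥0∞) :
    FS Λ ht T (fun L => ∑' x, F x L) = ∑' x, FS Λ ht T (F x) := by
  classical
  simp only [FS]
  rw [ENNReal.tsum_comm]
  refine tsum_congr fun L => ?_
  by_cases hL : FP ht T L
  · simp only [hL, if_true]; rw [ENNReal.tsum_mul_left]
  · simp [hL]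

lemma FS_mul_const (T : ℕ) (a : ℝ≥0∞) (F : List B → ℝ≥0∞) :
    FS Λ ht T (fun L => F L * a) = FS Λ ht T F * a := by
  rw [mul_comm _ a, ← FS_const_mul]
  congr 1
  funext L
  ring

variable {W : Type*} (dl : B → W → W)

open Classical in
/-- law of the position after a first-passage list: smooth part + rest -/
theorem smooth (h1 : ∀ b, 1 ≤ ht b) (hΛ : ∑' b, Λ b ≤ 1) (H r : ℕ) (o th p : ℝ≥0∞)
    (hit : List B → Prop)
    (ho : FS Λ ht H (fun L => if H + r < HT ht L then 1 else 0) ≤ o)
    (hhit : ∀ A, hit A → HT ht A = H)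
    (hp : p ≤ ∑' A, if hit A then LW Λ A else 0)
    (hth : ∀ (L' : List B) (w x : W),
      (∑' A, if hit A ∧ act dl (A ++ L') w = x then LW Λ A else 0) ≤ th) (J : ℕ) :
    ∀ T, J * (H + r) ≤ T → ∀ w, ∃ μ : W → ℝ≥0∞, (∑' x, μ x ≤ 1) ∧ (∀ x, μ x ≤ J * th) ∧
      ∀ f : W → ℝ≥0∞, (∀ x, f x ≤ 1) →
        FS Λ ht T (fun L => f (act dl L w)) ≤ ∑' x, μ x * f x + ((1 - p) ^ J + J * o) := by
  induction J with
  | zero =>
    intro T _ w
    refine ⟨fun _ => 0, by simp, by simp, fun f hf => ?_⟩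
    simpa using FS_le_one Λ ht h1 hΛ T _ fun L => hf _
  | succ J ih =>
    intro T hT w
    have hT' : J * (H + r) + (H + r) ≤ T := by rw [← Nat.succ_mul]; exact hT
    -- the laws after the first attempt
    have hch : ∀ A : List B, ∃ μ : W → ℝ≥0∞, (∑' x, μ x ≤ 1) ∧ (∀ x, μ x ≤ J * th) ∧
        (HT ht A ≤ H + r → ∀ f : W → ℝ≥0∞, (∀ x, f x ≤ 1) →
          FS Λ ht (T - HT ht A) (fun L => f (act dl L (act dl A w)))
            ≤ ∑' x, μ x * f x + ((1 - p) ^ J + J * o)) := by
      intro A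
      by_cases hA : HT ht A ≤ H + r
      · obtain ⟨μ, h2, h3, h4⟩ := ih (T - HT ht A) (by omega) (act dl A w)
        exact ⟨μ, h2, h3, fun _ => h4⟩
      · exact ⟨fun _ => 0, by simp, by simp, fun h => absurd h hA⟩
    choose μA hμ1 hμM hμf using hch
    set nrm : List B → Prop := fun A => ¬ hit A ∧ HT ht A ≤ H + r with hnrm
    set ν : W → ℝ≥0∞ := fun x => FS Λ ht H (fun A => if hit A then
      FS Λ ht (T - H) (fun L' => if act dl (A ++ L') w = x then 1 else 0) else 0) with hν
    set μ' : W → ℝ≥0∞ := fun x => FS Λ ht H (fun A => if nrm A then μA A x else 0) with hμ'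
    have hsum1 : FS Λ ht H (fun A => if hit A then 1 else 0)
        + FS Λ ht H (fun A => if nrm A then 1 else 0) ≤ 1 := by
      rw [← FS_add]
      refine FS_le_one Λ ht h1 hΛ H _ fun A => ?_
      by_cases h : hit A
      · have : ¬ nrm A := fun hh => hh.1 h
        simp [h, this]
      · by_cases h' : nrm A <;> simp [h, h']
    have hhit1 : FS Λ ht H (fun A => if hit A then 1 else 0) = ∑' A, if hit A then LW Λ A else 0 := by
      rw [FS]
      refine tsum_congr fun A => ?_
      by_cases h : hit A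
      · rw [if_pos (FP_of_HT ht h1 (hhit A h)), if_pos h, if_pos h, mul_one]
      · simp [h]
    have hnrm1 : FS Λ ht H (fun A => if nrm A then 1 else 0) ≤ 1 - p := by
      have hpt : p ≠ ⊤ := ne_top_of_le_ne_top ENNReal.one_ne_top
        (hp.trans (hhit1 ▸ (le_self_add.trans hsum1)))
      refine ENNReal.le_sub_of_add_le_right hpt ?_
      rw [add_comm]
      refine le_trans (add_le_add ?_ le_rfl) hsum1
      rw [hhit1]; exact hp
    refine ⟨fun x => ν x + μ' x, ?_, ?_, ?_⟩
    · rw [ENNReal.tsum_add]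
      refine le_trans (add_le_add ?_ ?_) hsum1
      · rw [hν, ← FS_tsum]
        refine FS_mono Λ ht H fun A _ => ?_
        by_cases h : hit A
        · simp only [h, if_true]
          rw [← FS_tsum]
          refine FS_le_one Λ ht h1 hΛ _ _ fun L => ?_
          refine le_of_eq ?_
          rw [tsum_eq_single (act dl (A ++ L) w) (fun x hx => if_neg (Ne.symm hx)), if_pos rfl]
        · simp [h]
      · rw [hμ', ← FS_tsum]
        refine FS_mono Λ ht H fun A _ => ?_
        by_cases h : nrm A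
        · simp only [h, if_true]; exact hμ1 A
        · simp [h]
    · intro x
      rw [Nat.cast_add, Nat.cast_one, add_mul, one_mul, add_comm (_ * th)]
      refine add_le_add ?_ ?_
      · -- ν x ≤ th
        calc ν x = ∑' A : List B, ∑' L' : List B, (if FP ht (T - H) L' then LW Λ L' *
              (if FP ht H A ∧ hit A ∧ act dl (A ++ L') w = x then LW Λ A else 0) else 0) := by
              rw [hν]
              simp only [FS]
              refine tsum_congr fun A => ?_
              by_cases hA : FP ht H A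
              · by_cases h : hit A
                · simp only [hA, h, if_true, true_and]
                  rw [← ENNReal.tsum_mul_left]
                  refine tsum_congr fun L' => ?_
                  by_cases h3 : FP ht (T - H) L'
                  · by_cases h4 : act dl (A ++ L') w = x
                    · simp [h3, h4, mul_comm]
                    · simp [h4]
                  · simp [h3]
                · simp [h]
              · simp [hA]
          _ = ∑' L' : List B, (if FP ht (T - H) L' then LW Λ L' *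
              (∑' A, if FP ht H A ∧ hit A ∧ act dl (A ++ L') w = x then LW Λ A else 0) else 0) := by
              rw [ENNReal.tsum_comm]
              refine tsum_congr fun L' => ?_
              by_cases h3 : FP ht (T - H) L'
              · simp only [h3, if_true]; rw [ENNReal.tsum_mul_left]
              · simp [h3]
          _ ≤ FS Λ ht (T - H) (fun _ => th) := by
              rw [FS]
              refine ENNReal.tsum_le_tsum fun L' => ?_
              by_cases h3 : FP ht (T - H) L'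
              · rw [if_pos h3, if_pos h3]
                refine mul_le_mul_right (le_trans (ENNReal.tsum_le_tsum fun A => ?_) (hth L' w x)) _
                by_cases h4 : hit A ∧ act dl (A ++ L') w = x
                · simp only [h4, and_self, and_true, if_true]; split_ifs <;> simp
                · rw [if_neg (fun hh => h4 hh.2)]; exact zero_le
              · rw [if_neg h3, if_neg h3]
          _ = th * FS Λ ht (T - H) (fun _ => 1) := by rw [← FS_const_mul]; simp
          _ ≤ th * 1 := mul_le_mul_right (FS_one_le Λ ht h1 hΛ _) _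
          _ = th := mul_one _
      · calc μ' x ≤ FS Λ ht H (fun _ => J * th * 1) := by
              refine FS_mono Λ ht H fun A _ => ?_
              by_cases h : nrm A
              · simp only [h, if_true, mul_one]; exact hμM A x
              · simp [h]
          _ = J * th * FS Λ ht H (fun _ => 1) := FS_const_mul Λ ht H _ _
          _ ≤ J * th * 1 := mul_le_mul_right (FS_one_le Λ ht h1 hΛ _) _
          _ = J * th := mul_one _
    · intro f hf
      set q : ℝ≥0∞ := (1 - p) ^ J + J * o with hq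
      have e1 : FS Λ ht T (fun L => f (act dl L w)) ≤
          FS Λ ht H (fun A => (if hit A then
              FS Λ ht (T - H) (fun L' => f (act dl (A ++ L') w)) else 0)
            + ((if nrm A then ∑' x, μA A x * f x + q else 0)
            + (if H + r < HT ht A then 1 else 0))) := by
        rw [FS_comp Λ ht h1 H T (by omega)]
        refine FS_mono Λ ht H fun A _ => ?_
        by_cases h : hit A
        · rw [if_pos h]
          refine le_trans (le_of_eq ?_) le_self_add
          rw [hhit A h]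
        · by_cases h2 : HT ht A ≤ H + r
          · have h3 : nrm A := ⟨h, h2⟩
            rw [if_neg h, if_pos h3, zero_add]
            refine le_trans ?_ le_self_add
            have := hμf A h2 f hf
            simpa only [act_append] using this
          · rw [if_pos (show H + r < HT ht A by omega)]
            refine le_add_left (le_add_left ?_)
            exact FS_le_one Λ ht h1 hΛ _ _ fun L => hf _
      rw [FS_add, FS_add] at e1
      have e2 : FS Λ ht H (fun A => if hit A then
          FS Λ ht (T - H) (fun L' => f (act dl (A ++ L') w)) else 0) = ∑' x, ν x * f x := by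
        have : ∀ A, (if hit A then FS Λ ht (T - H) (fun L' => f (act dl (A ++ L') w)) else 0)
            = ∑' x, (if hit A then
              FS Λ ht (T - H) (fun L' => if act dl (A ++ L') w = x then 1 else 0) else 0) * f x := by
          intro A
          by_cases h : hit A
          · simp only [h, if_true]
            simp_rw [← FS_mul_const]
            rw [← FS_tsum]
            congr 1
            funext L'
            simp
          · simp [h]
        simp_rw [this]
        rw [FS_tsum]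
        refine tsum_congr fun x => ?_
        rw [FS_mul_const]
      have e3 : FS Λ ht H (fun A => if nrm A then ∑' x, μA A x * f x + q else 0)
          ≤ ∑' x, μ' x * f x + ((1 - p) * (1 - p) ^ J + J * o) := by
        have : ∀ A, (if nrm A then ∑' x, μA A x * f x + q else 0)
            = (∑' x, (if nrm A then μA A x else 0) * f x) + (if nrm A then 1 else 0) * q := by
          intro A
          by_cases h : nrm A <;> simp [h]
        simp_rw [this]
        rw [FS_add, FS_tsum, FS_mul_const]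
        refine add_le_add (le_of_eq ?_) ?_
        · refine tsum_congr fun x => ?_
          rw [FS_mul_const]
        · rw [hq, mul_add]
          refine add_le_add (mul_le_mul_left hnrm1 _) ?_
          exact mul_le_of_le_one_left zero_le (hnrm1.trans tsub_le_self)
      refine e1.trans ?_
      rw [e2]
      refine (add_le_add le_rfl (add_le_add e3 ho)).trans (le_of_eq ?_)
      simp only [add_mul]
      rw [ENNReal.tsum_add, pow_succ]
      push_cast
      ring


/-! ### quantile -/

/-- one-sided data at height `H`: smooth hits, local set -/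
lemma quant {G : Type*} (a : G → ℝ≥0∞) (ha : ∑' z, a z ≤ 1) (c u : ℝ≥0∞) (hc : c ≤ ∑' z, a z)
    (hc0 : c ≠ 0) (hu0 : u ≠ 0) (hu1 : u ≤ 1) :
    ∃ th : ℝ≥0∞, th ≠ 0 ∧ th ≠ ⊤ ∧ (open Classical in ∑' z, (if a z < th then a z else 0)) ≤ u ∧
      c * u ≤ (open Classical in ∑' z, (if a z ≤ th then a z else 0)) ∧
      ∃ E : Finset G, (∀ z, z ∈ E ↔ th ≤ a z) ∧ th * E.card ≤ 1 := by
  classical
  set A := ∑' z, a z with hA
  have hA0 : A ≠ 0 := fun h => hc0 (le_antisymm (h ▸ hc) zero_le)
  have hAt : A ≠ ⊤ := ne_top_of_le_ne_top ENNReal.one_ne_top ha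
  obtain ⟨th, h1, h2, h3, h4⟩ := Dens903.quantile (fun z => a z / A) (by
    simp_rw [div_eq_mul_inv]
    rw [ENNReal.tsum_mul_right, ← hA, ENNReal.mul_inv_cancel hA0 hAt]) hu0 hu1
  have hE : {z | th * A ≤ a z}.Finite :=
    ENNReal.finite_const_le_of_tsum_ne_top (hA ▸ hAt) (mul_ne_zero h1 hA0)
  have hdiv : ∀ z, a z = A * (a z / A) := fun z => (ENNReal.mul_div_cancel hA0 hAt).symm
  have hlt : ∀ z, a z < th * A ↔ a z / A < th := fun z =>
    (ENNReal.div_lt_iff (Or.inl hA0) (Or.inl hAt)).symm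
  have hle : ∀ z, a z ≤ th * A ↔ a z / A ≤ th := fun z =>
    (ENNReal.div_le_iff_le_mul (Or.inl hA0) (Or.inl hAt)).symm
  refine ⟨th * A, mul_ne_zero h1 hA0,
    ENNReal.mul_ne_top (ne_top_of_le_ne_top ENNReal.one_ne_top h2) hAt, ?_, ?_,
    hE.toFinset, fun z => by simp, ?_⟩
  · calc (∑' z, (if a z < th * A then a z else 0))
        = ∑' z, A * (if a z / A < th then a z / A else 0) := by
          refine tsum_congr fun z => ?_
          by_cases h : a z / A < th
          · rw [if_pos h, if_pos ((hlt z).2 h)]; exact hdiv z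
          · rw [if_neg h, if_neg (fun hh => h ((hlt z).1 hh)), mul_zero]
      _ = A * ∑' z, (if a z / A < th then a z / A else 0) := ENNReal.tsum_mul_left
      _ ≤ 1 * u := mul_le_mul' ha h3
      _ = u := one_mul u
  · calc c * u ≤ A * ∑' z, (if a z / A ≤ th then a z / A else 0) := mul_le_mul' hc h4
      _ = ∑' z, A * (if a z / A ≤ th then a z / A else 0) := ENNReal.tsum_mul_left.symm
      _ = ∑' z, (if a z ≤ th * A then a z else 0) := by
          refine tsum_congr fun z => ?_
          by_cases h : a z / A ≤ th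
          · rw [if_pos h, if_pos ((hle z).2 h)]; exact (hdiv z).symm
          · rw [if_neg h, if_neg (fun hh => h ((hle z).1 hh)), mul_zero]
  · calc th * A * hE.toFinset.card = ∑ z ∈ hE.toFinset, th * A := by
          rw [Finset.sum_const, nsmul_eq_mul, mul_comm]
      _ ≤ ∑ z ∈ hE.toFinset, a z := Finset.sum_le_sum fun z hz => by simpa using hz
      _ ≤ ∑' z, a z := ENNReal.sum_le_tsum _
      _ ≤ 1 := ha

variable {G : Type*} [AddCommGroup G] (cd : W → B → Set ℕ)

open Classical in
/-- pieces of exact height `H` with a contact, all contacts at distance `> s`, `≥ s` from the ends -/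
noncomputable def WP (H s : ℕ) (P : List B → Prop) (x : W) : ℝ≥0∞ :=
  ∑' L : List B, if HT ht L = H ∧ P L ∧ CD ht dl cd L x ≠ ∅ ∧
    (∀ k ∈ CD ht dl cd L x, s < k ∧ k + s ≤ H) then LW Λ L else 0

lemma WP_le_U (H s : ℕ) (P : List B → Prop) (x : W) : WP Λ ht dl cd H s P x ≤ U Λ ht H := by
  classical
  refine ENNReal.tsum_le_tsum fun L => ?_
  by_cases h : HT ht L = H ∧ P L ∧ CD ht dl cd L x ≠ ∅ ∧
    (∀ k ∈ CD ht dl cd L x, s < k ∧ k + s ≤ H)
  · rw [if_pos h, if_pos h.1]
  · rw [if_neg h]; exact zero_le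

open Classical in
/-- one side (local displacement in the set `E`) -/
lemma side (h1 : ∀ b, 1 ≤ ht b) (hΛ : ∑' b, Λ b ≤ 1) (H r s J T : ℕ) (o c u η th : ℝ≥0∞)
    (hU1 : U Λ ht H ≤ 1)
    (ho : FS Λ ht H (fun L => if H + r < HT ht L then 1 else 0) ≤ o)
    (zX zY : List B → G) (a b : G → ℝ≥0∞) (hb1 : ∑' z, b z ≤ 1)
    (hprod : ∀ F : G → G → ℝ≥0∞, (∑' L : List B, if HT ht L = H then LW Λ L * F (zX L) (zY L) else 0)
      = ∑' x, ∑' y, a x * b y * F x y)
    (hrel : ∀ (L' : List B) (w x : W), ∃ κ : G, ∀ A, act dl (A ++ L') w = x → zX A = zY A + κ)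
    (hcb : c ≤ ∑' z, b z) (hcu : c * u ≤ ∑' z, (if a z ≤ th then a z else 0))
    (E : Finset G) (hE : th * E.card ≤ 1)
    (hWX : ∀ (μ : W → ℝ≥0∞) (M : ℝ≥0∞), ∑' x, μ x ≤ 1 → (∀ x, μ x ≤ M) → M * E.card ≤ J →
      ∑' x, μ x * WP Λ ht dl cd H s (fun L => zX L ∈ E) x ≤ η)
    (hT : J * (H + r) ≤ T) (w : W) :
    FS Λ ht T (fun L => WP Λ ht dl cd H s (fun L => zX L ∈ E) (act dl L w))
      ≤ η + ((1 - c * (c * u)) ^ J + J * o) := by
  obtain ⟨μ, hμ1, hμM, hμ⟩ := smooth Λ ht dl h1 hΛ H r o th (c * (c * u))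
    (fun A => HT ht A = H ∧ a (zX A) ≤ th) ho (fun A hA => hA.1) (by
      calc c * (c * u) ≤ (∑' z, b z) * (∑' z, (if a z ≤ th then a z else 0)) := mul_le_mul' hcb hcu
        _ = ∑' x, ∑' y, a x * b y * (if a x ≤ th then 1 else 0) := by
            rw [mul_comm, ← ENNReal.tsum_mul_right]
            refine tsum_congr fun x => ?_
            rw [← ENNReal.tsum_mul_left]
            refine tsum_congr fun y => ?_
            by_cases h : a x ≤ th <;> simp [h]
        _ = ∑' L : List B, if HT ht L = H then LW Λ L * (if a (zX L) ≤ th then 1 else 0) else 0 :=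
            (hprod (fun x _ => if a x ≤ th then 1 else 0)).symm
        _ ≤ _ := by
            refine ENNReal.tsum_le_tsum fun L => ?_
            by_cases h : HT ht L = H
            · by_cases h2 : a (zX L) ≤ th <;> simp [h, h2]
            · simp [h]) (by
      intro L' w' x'
      obtain ⟨κ, hκ⟩ := hrel L' w' x'
      refine (ENNReal.tsum_le_tsum (g := fun A : List B => if HT ht A = H then LW Λ A *
            (if a (zX A) ≤ th ∧ zX A = zY A + κ then 1 else 0) else 0) fun A => ?_).trans ?_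
      · by_cases h : (HT ht A = H ∧ a (zX A) ≤ th) ∧ act dl (A ++ L') w' = x'
        · rw [if_pos h, if_pos h.1.1, if_pos ⟨h.1.2, hκ A h.2⟩, mul_one]
        · rw [if_neg h]; exact zero_le
      calc (∑' A : List B, if HT ht A = H then LW Λ A *
            (if a (zX A) ≤ th ∧ zX A = zY A + κ then 1 else 0) else 0)
          = ∑' x, ∑' y, a x * b y * (if a x ≤ th ∧ x = y + κ then 1 else 0) :=
            hprod (fun x y => if a x ≤ th ∧ x = y + κ then 1 else 0)
        _ = ∑' y, ∑' x, a x * b y * (if a x ≤ th ∧ x = y + κ then 1 else 0) := ENNReal.tsum_comm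
        _ ≤ ∑' y, th * b y := by
            refine ENNReal.tsum_le_tsum fun y => ?_
            rw [tsum_eq_single (y + κ)]
            · by_cases h : a (y + κ) ≤ th
              · simp only [h, and_self, if_true, mul_one]; exact mul_le_mul_left h _
              · simp [h]
            · intro x hx; simp [hx]
        _ = th * ∑' y, b y := ENNReal.tsum_mul_left
        _ ≤ th * 1 := mul_le_mul_right hb1 _
        _ = th := mul_one _) J T hT w
  refine (hμ _ fun x => (WP_le_U Λ ht dl cd H s _ x).trans hU1).trans (add_le_add ?_ le_rfl)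
  refine hWX μ (J * th) hμ1 hμM ?_
  rw [mul_assoc]
  exact mul_le_of_le_one_right zero_le hE


lemma att_FP {T : ℕ} {L : List B} (h : Comp818.att ht T L) : FP ht T L := by
  induction L generalizing T with
  | nil => rw [FP_nil]; simpa [HT_nil] using h.1
  | cons b L ih =>
    refine ⟨by have := h.2 0 (by simp); simpa [HT_nil] using this, ih ⟨?_, ?_⟩⟩
    · have := h.1; rw [HT_cons] at this; omega
    · intro i hi
      have := h.2 (i + 1) (by simpa using hi)
      rw [List.take_succ_cons, HT_cons] at this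
      omega

lemma numC (c : ℝ≥0∞) (hc0 : c ≠ 0) (hc1 : c ≤ 1) (ε : ℝ≥0∞) (hε : ε ≠ 0) :
    ∃ (J : ℕ) (u : ℝ≥0∞), 1 ≤ J ∧ u ≠ 0 ∧ u ≤ 1 ∧
      (16 * J : ℕ) * (u * u) ≤ ε ∧ (16 * J : ℕ) * (1 - c * (c * u)) ^ J ≤ ε := by
  -- reduce to reals
  set e : ℝ≥0∞ := min ε 1 with he
  have he0 : e ≠ 0 := by rw [he]; simp [hε]
  have het : e ≠ ⊤ := ne_top_of_le_ne_top ENNReal.one_ne_top (min_le_right _ _)
  have hct : c ≠ ⊤ := ne_top_of_le_ne_top ENNReal.one_ne_top hc1
  set δ : ℝ := e.toReal with hδ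
  have hδ0 : 0 < δ := ENNReal.toReal_pos he0 het
  set γ : ℝ := (c * c).toReal with hγ
  have hγ0 : 0 < γ := ENNReal.toReal_pos (mul_ne_zero hc0 hc0) (ENNReal.mul_ne_top hct hct)
  have hγ1 : γ ≤ 1 := by
    have : c * c ≤ 1 := by simpa using mul_le_mul' hc1 hc1
    calc γ = (c * c).toReal := hγ
      _ ≤ (1 : ℝ≥0∞).toReal := ENNReal.toReal_mono ENNReal.one_ne_top this
      _ = 1 := by simp
  have hee : e ≤ ε := min_le_left _ _
  have t1 : Filter.Tendsto (fun N : ℕ => 16 * (1 / ((N : ℝ) + 1))) Filter.atTop (nhds (16 * 0)) :=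
    tendsto_one_div_add_atTop_nhds_zero_nat.const_mul _
  have t2 : Filter.Tendsto (fun x : ℝ => x ^ 3 * Real.exp (-x)) Filter.atTop (nhds 0) :=
    Real.tendsto_pow_mul_exp_neg_atTop_nhds_zero 3
  have t3 : Filter.Tendsto (fun N : ℕ => γ * ((N : ℝ) + 1)) Filter.atTop Filter.atTop := by
    refine Filter.Tendsto.const_mul_atTop hγ0 ?_
    exact Filter.tendsto_atTop_add_const_right _ _ tendsto_natCast_atTop_atTop
  have t4 := (t2.comp t3).const_mul (16 / γ ^ 3)
  rw [mul_zero] at t1 t4
  obtain ⟨N, hN1, hN2⟩ := ((t1.eventually (gt_mem_nhds hδ0)).and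
    (t4.eventually (gt_mem_nhds hδ0))).exists
  simp only [Function.comp] at hN2
  set x : ℝ := (N : ℝ) + 1 with hx
  have hx0 : 0 < x := by positivity
  have hx1 : 1 ≤ x := by rw [hx]; linarith [Nat.cast_nonneg (α := ℝ) N]
  have hux : (0:ℝ) ≤ 1 / x ^ 2 := by positivity
  have hux1 : 1 / x ^ 2 ≤ 1 := by
    rw [div_le_one (by positivity)]; exact one_le_pow₀ hx1
  refine ⟨(N + 1) ^ 3, ENNReal.ofReal (1 / x ^ 2), Nat.one_le_pow _ _ (by omega),
    (ENNReal.ofReal_pos.2 (by positivity)).ne', ENNReal.ofReal_le_one.2 hux1, ?_, ?_⟩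
  · refine le_trans ?_ hee
    rw [← ENNReal.ofReal_mul hux, ← ENNReal.ofReal_natCast, ← ENNReal.ofReal_mul (by positivity),
      ← ENNReal.ofReal_toReal het]
    refine ENNReal.ofReal_le_ofReal (le_trans (le_of_eq ?_) hN1.le)
    push_cast
    rw [← hx]
    field_simp
  · refine le_trans ?_ hee
    have hcc : c * (c * ENNReal.ofReal (1 / x ^ 2)) = ENNReal.ofReal (γ * (1 / x ^ 2)) := by
      rw [ENNReal.ofReal_mul hγ0.le, hγ, ENNReal.ofReal_toReal (ENNReal.mul_ne_top hct hct), mul_assoc]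
    have hy1 : γ * (1 / x ^ 2) ≤ 1 := by nlinarith
    rw [hcc, show (1 : ℝ≥0∞) = ENNReal.ofReal 1 from ENNReal.ofReal_one.symm, ← ENNReal.ofReal_sub _ (by positivity),
      ← ENNReal.ofReal_pow (by linarith), ← ENNReal.ofReal_natCast,
      ← ENNReal.ofReal_mul (by positivity), ← ENNReal.ofReal_toReal het]
    refine ENNReal.ofReal_le_ofReal (le_trans ?_ hN2.le)
    have h1 : (1 - γ * (1 / x ^ 2)) ^ ((N + 1) ^ 3) ≤ Real.exp (-(γ * x)) := by
      calc (1 - γ * (1 / x ^ 2)) ^ ((N + 1) ^ 3)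
          ≤ (Real.exp (-(γ * (1 / x ^ 2)))) ^ ((N + 1) ^ 3) :=
            pow_le_pow_left₀ (by linarith) (Real.one_sub_le_exp_neg _) _
        _ = Real.exp (-(γ * x)) := by
            rw [← Real.exp_nat_mul]
            congr 1
            push_cast
            rw [← hx]
            field_simp
    calc ((16 * (N + 1) ^ 3 : ℕ) : ℝ) * (1 - γ * (1 / x ^ 2)) ^ ((N + 1) ^ 3)
        ≤ ((16 * (N + 1) ^ 3 : ℕ) : ℝ) * Real.exp (-(γ * x)) :=
          mul_le_mul_of_nonneg_left h1 (by positivity)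
      _ = 16 / γ ^ 3 * ((γ * x) ^ 3 * Real.exp (-(γ * x))) := by
          push_cast
          rw [← hx]
          field_simp


open Classical in
/-- pieces where both displacements are non-local -/
lemma nn_le (H s : ℕ) (u : ℝ≥0∞) (zX zY : List B → G) (a b : G → ℝ≥0∞)
    (hprod : ∀ F : G → G → ℝ≥0∞, (∑' L : List B, if HT ht L = H then LW Λ L * F (zX L) (zY L) else 0)
      = ∑' x, ∑' y, a x * b y * F x y)
    (thX thY : ℝ≥0∞) (hX : ∑' z, (if a z < thX then a z else 0) ≤ u)
    (hY : ∑' z, (if b z < thY then b z else 0) ≤ u) (x : W) :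
    WP Λ ht dl cd H s (fun L => a (zX L) < thX ∧ b (zY L) < thY) x ≤ u * u := by
  calc WP Λ ht dl cd H s (fun L => a (zX L) < thX ∧ b (zY L) < thY) x
      ≤ ∑' L : List B, (if HT ht L = H then LW Λ L *
          (if a (zX L) < thX ∧ b (zY L) < thY then 1 else 0) else 0) := by
        refine ENNReal.tsum_le_tsum fun L => ?_
        by_cases h : HT ht L = H ∧ (a (zX L) < thX ∧ b (zY L) < thY) ∧ CD ht dl cd L x ≠ ∅ ∧
          (∀ k ∈ CD ht dl cd L x, s < k ∧ k + s ≤ H)
        · rw [if_pos h, if_pos h.1, if_pos h.2.1, mul_one]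
        · rw [if_neg h]; exact zero_le
    _ = ∑' x, ∑' y, a x * b y * (if a x < thX ∧ b y < thY then 1 else 0) :=
        hprod (fun x y => if a x < thX ∧ b y < thY then 1 else 0)
    _ = (∑' z, (if a z < thX then a z else 0)) * (∑' z, (if b z < thY then b z else 0)) := by
        rw [← ENNReal.tsum_mul_right]
        refine tsum_congr fun x => ?_
        rw [← ENNReal.tsum_mul_left]
        refine tsum_congr fun y => ?_
        by_cases h : a x < thX <;> by_cases h2 : b y < thY <;> simp [h, h2]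
    _ ≤ u * u := mul_le_mul' hX hY

open Classical in
/-- **818's `hWin`** from the product law at exact height and the two window lemmas. -/
theorem hWin_of (h1 : ∀ b, 1 ≤ ht b) (hΛ : ∑' b, Λ b ≤ 1)
    (hmean : ∑' k, tail Λ ht k ≠ ⊤)
    (c : ℝ≥0∞) (hc0 : c ≠ 0) (hU : ∀ n, c ≤ U Λ ht n) (hU1 : ∀ n, U Λ ht n ≤ 1)
    (zX zY : List B → G)
    (hprod : ∀ H, ∃ a b : G → ℝ≥0∞, ∑' z, a z ≤ 1 ∧ ∑' z, b z ≤ 1 ∧ ∀ F : G → G → ℝ≥0∞,
      (∑' L : List B, if HT ht L = H then LW Λ L * F (zX L) (zY L) else 0)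
        = ∑' x, ∑' y, a x * b y * F x y)
    (hrel : ∀ (L' : List B) (w x : W), ∃ κ : G, ∀ A, act dl (A ++ L') w = x → zX A = zY A + κ)
    (hWX : ∀ Cst η : ℝ≥0∞, Cst ≠ ⊤ → η ≠ 0 → ∃ s0 : ℕ, ∀ s, s0 ≤ s → ∀ (H : ℕ) (E : Finset G)
      (μ : W → ℝ≥0∞) (M : ℝ≥0∞), ∑' x, μ x ≤ 1 → (∀ x, μ x ≤ M) → M * E.card ≤ Cst →
      ∑' x, μ x * WP Λ ht dl cd H s (fun L => zX L ∈ E) x ≤ η)
    (hWY : ∀ Cst η : ℝ≥0∞, Cst ≠ ⊤ → η ≠ 0 → ∃ s0 : ℕ, ∀ s, s0 ≤ s → ∀ (H : ℕ) (E : Finset G)
      (μ : W → ℝ≥0∞) (M : ℝ≥0∞), ∑' x, μ x ≤ 1 → (∀ x, μ x ≤ M) → M * E.card ≤ Cst →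
      ∑' x, μ x * WP Λ ht dl cd H s (fun L => zY L ∈ E) x ≤ η) :
    ∀ ε : ℝ≥0∞, ε ≠ 0 → ∃ K : ℕ, 1 ≤ K ∧ ∀ i0 : ℕ, ∃ s H0 : ℕ, ∀ H, H0 ≤ H →
      ∀ a, K * H ≤ 8 * a → ∀ w, ∑' L1 : List B, (if Comp818.att ht a L1 ∧ HT ht L1 ≤ a + i0 then
        LW Λ L1 * Comp818.WLp Λ ht dl cd H s (act dl L1 w) else 0) ≤ ε / K := by
  intro ε hε
  have hc1 : c ≤ 1 := (hU 0).trans (hU1 0)
  by_cases hεt : ε = ⊤
  · refine ⟨1, le_rfl, fun i0 => ⟨0, 0, fun H _ a _ w => ?_⟩⟩
    rw [hεt]; simp
  obtain ⟨J, u, hJ, hu0, hu1, hn1, hn2⟩ := numC c hc0 hc1 (ε / 8) (by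
    simp [ENNReal.div_eq_zero_iff, hε])
  set K : ℕ := 16 * J with hK
  have hK0 : (K : ℝ≥0∞) ≠ 0 := by rw [hK]; exact_mod_cast (by omega : 16 * J ≠ 0)
  have hKt : (K : ℝ≥0∞) ≠ ⊤ := ENNReal.natCast_ne_top _
  have hJt : (J : ℝ≥0∞) ≠ ⊤ := ENNReal.natCast_ne_top _
  refine ⟨K, by omega, fun i0 => ?_⟩
  set η : ℝ≥0∞ := ε / 8 / K with hη
  have hη0 : η ≠ 0 := by
    rw [hη]; simp [ENNReal.div_eq_zero_iff, hε, hKt]
  obtain ⟨s1, hs1⟩ := hWX J η hJt hη0
  obtain ⟨s2, hs2⟩ := hWY J η hJt hη0
  set s := max s1 s2 with hs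
  -- overshoot
  have hto := ENNReal.tendsto_sum_nat_add (fun k => tail Λ ht k) hmean
  have hηJ : η / (J + 1) ≠ 0 := by
    rw [Ne, ENNReal.div_eq_zero_iff, not_or]
    exact ⟨hη0, by exact_mod_cast ENNReal.natCast_ne_top (J + 1)⟩
  obtain ⟨H0, hH0⟩ := Filter.eventually_atTop.1 (hto.eventually (gt_mem_nhds (pos_iff_ne_zero.2 hηJ)))
  refine ⟨s, H0, fun H hH a' ha' w => ?_⟩
  have ho : ∀ T, FS Λ ht T (fun L => if T + H < HT ht L then 1 else 0) ≤ η / (J + 1) := fun T =>
    (ovr' Λ ht h1 hΛ H T).trans (hH0 H hH).le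
  have hJo : (J : ℝ≥0∞) * (η / (J + 1)) ≤ η := by
    calc (J : ℝ≥0∞) * (η / (J + 1)) ≤ (J + 1) * (η / (J + 1)) :=
          mul_le_mul_left (le_self_add) _
      _ ≤ η := ENNReal.mul_div_le
  obtain ⟨a, b, ha1, hb1, hab⟩ := hprod H
  have hUab : U Λ ht H = (∑' x, a x) * (∑' y, b y) := by
    have := hab (fun _ _ => 1)
    simp only [mul_one] at this
    rw [U, this, ← ENNReal.tsum_mul_right]
    refine tsum_congr fun x => ?_
    rw [ENNReal.tsum_mul_left]
  have hca : c ≤ ∑' x, a x := by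
    calc c ≤ U Λ ht H := hU H
      _ = (∑' x, a x) * (∑' y, b y) := hUab
      _ ≤ (∑' x, a x) * 1 := mul_le_mul_right hb1 _
      _ = _ := mul_one _
  have hcb : c ≤ ∑' x, b x := by
    calc c ≤ U Λ ht H := hU H
      _ = (∑' x, a x) * (∑' y, b y) := hUab
      _ ≤ 1 * (∑' y, b y) := mul_le_mul_left ha1 _
      _ = _ := one_mul _
  obtain ⟨thX, -, -, hX1, hX2, EX, hEX, hEX1⟩ := quant a ha1 c u hca hc0 hu0 hu1
  obtain ⟨thY, -, -, hY1, hY2, EY, hEY, hEY1⟩ := quant b hb1 c u hcb hc0 hu0 hu1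
  have hTJ : J * (H + H) ≤ a' := by
    have : 16 * J * H ≤ 8 * a' := ha'
    nlinarith
  have sX := side Λ ht dl cd h1 hΛ H H s J a' (η / (J + 1)) c u η thX (hU1 H) (ho H) zX zY a b hb1
    hab hrel hcb hX2 EX hEX1 (fun μ M h2 h3 h4 => hs1 s (le_max_left _ _) H EX μ M h2 h3 h4) hTJ w
  have sY := side Λ ht dl cd h1 hΛ H H s J a' (η / (J + 1)) c u η thY (hU1 H) (ho H) zY zX b a ha1
    (fun F => by
      have := hab (fun x y => F y x)
      rw [this, ENNReal.tsum_comm]
      refine tsum_congr fun x => tsum_congr fun y => ?_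
      rw [mul_comm (a y)])
    (fun L' w x => by
      obtain ⟨κ, hκ⟩ := hrel L' w x
      exact ⟨-κ, fun A hA => by rw [hκ A hA]; abel⟩)
    hca hY2 EY hEY1 (fun μ M h2 h3 h4 => hs2 s (le_max_right _ _) H EY μ M h2 h3 h4) hTJ w
  -- pointwise splitting
  have hpt : ∀ x, Comp818.WLp Λ ht dl cd H s x ≤
      WP Λ ht dl cd H s (fun L => a (zX L) < thX ∧ b (zY L) < thY) x
      + (WP Λ ht dl cd H s (fun L => zX L ∈ EX) x + WP Λ ht dl cd H s (fun L => zY L ∈ EY) x) := by
    intro x
    rw [Comp818.WLp, WP, WP, WP, ← ENNReal.tsum_add, ← ENNReal.tsum_add]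
    refine ENNReal.tsum_le_tsum fun L => ?_
    by_cases h : HT ht L = H ∧ CD ht dl cd L x ≠ ∅ ∧ (∀ k ∈ CD ht dl cd L x, s < k ∧ k + s ≤ H)
    · rw [if_pos h]
      by_cases hx : zX L ∈ EX
      · refine le_add_left (le_add_right ?_)
        rw [if_pos ⟨h.1, hx, h.2⟩]
      · by_cases hy : zY L ∈ EY
        · refine le_add_left (le_add_left ?_)
          rw [if_pos ⟨h.1, hy, h.2⟩]
        · refine le_add_right ?_
          rw [hEX, not_le] at hx
          rw [hEY, not_le] at hy
          rw [if_pos ⟨h.1, ⟨hx, hy⟩, h.2⟩]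
    · rw [if_neg h]; exact zero_le
  have hfin : FS Λ ht a' (fun L => Comp818.WLp Λ ht dl cd H s (act dl L w))
      ≤ u * u + ((η + ((1 - c * (c * u)) ^ J + J * (η / (J + 1))))
        + (η + ((1 - c * (c * u)) ^ J + J * (η / (J + 1))))) := by
    refine (FS_mono Λ ht a' fun L _ => hpt (act dl L w)).trans ?_
    rw [FS_add, FS_add]
    refine add_le_add ?_ (add_le_add sX sY)
    refine (FS_mono Λ ht a' (F' := fun _ => u * u * 1) fun L _ => ?_).trans ?_
    · rw [mul_one]
      exact nn_le Λ ht dl cd H s u zX zY a b hab thX thY hX1 hY1 _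
    · rw [FS_const_mul]
      exact mul_le_of_le_one_right zero_le (FS_one_le Λ ht h1 hΛ _)
  calc (∑' L1 : List B, (if Comp818.att ht a' L1 ∧ HT ht L1 ≤ a' + i0 then
        LW Λ L1 * Comp818.WLp Λ ht dl cd H s (act dl L1 w) else 0))
      ≤ FS Λ ht a' (fun L => Comp818.WLp Λ ht dl cd H s (act dl L w)) := by
        refine ENNReal.tsum_le_tsum fun L => ?_
        by_cases h : Comp818.att ht a' L ∧ HT ht L ≤ a' + i0
        · rw [if_pos h, if_pos (att_FP ht h.1)]
        · rw [if_neg h]; exact zero_le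
    _ ≤ _ := hfin
    _ ≤ η + ((η + (η + η)) + (η + (η + η))) := by
        have e1 : u * u ≤ η := by
          rw [hη, ENNReal.le_div_iff_mul_le (Or.inl hK0) (Or.inl hKt), mul_comm]; exact hn1
        have e2 : (1 - c * (c * u)) ^ J ≤ η := by
          rw [hη, ENNReal.le_div_iff_mul_le (Or.inl hK0) (Or.inl hKt), mul_comm]; exact hn2
        exact add_le_add e1 (add_le_add (add_le_add le_rfl (add_le_add e2 hJo))
          (add_le_add le_rfl (add_le_add e2 hJo)))
    _ = 7 * η := by ring
    _ ≤ 8 * η := mul_le_mul_left (by norm_num) _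
    _ = ε / K := by
        rw [hη, ENNReal.div_eq_inv_mul (a := ε / 8), ENNReal.div_eq_inv_mul (a := ε) (b := (K : ℝ≥0∞))]
        rw [← mul_assoc, mul_comm 8, mul_assoc, ENNReal.mul_div_cancel (by norm_num) (by norm_num)]

end Crest.Agent.R154.KapComp803
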