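import Crest.Agent.R154.KB_169
import Crest.Agent.R154.KapComp_803
import Crest.Agent.R154.E23_657
import Crest.Agent.R154.NumK_658

/-! Row 154, ROAD 801, frame B (helper30): the last glue: 803's `hWin_of` at 657's word instance,
from the two window lemmas `e2`, `e3`; hence `Spine.NBProp`. -/

set_option autoImplicit false

open MeasureTheory ProbabilityTheory Crest.ProbabilityR.RandomEnvironment
open scoped ENNReal

namespace Crest.Agent.R154.FinB30

open Crest.Agent.R154.B5A Crest.Agent.R154.B5W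
open Crest.Agent.R154.Flux566 (lw endp sitesL)
open Crest.Agent.R154.NB28 (IsUp IsDn Cm)

variable {d : ℕ}

lemma act_val (u : Step d) (L : List (PB u)) (w : Lat u) :
    (act (dl u) L w).1 = w.1 + endp 0 (cat L).1 + endp 0 (cat L).2 := by
  induction L generalizing w with
  | nil => simp [act, cat, endp]
  | cons b L ih =>
    rw [act, ih]
    have e1 : ∀ (a b : List (Step d)), endp (0 : Site d) (a ++ b) = endp 0 a + endp 0 b := by
      intro a b
      rw [Flux566.endp_append, Flux566.endp_eq_add b (endp 0 a)]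
    simp only [dl, dlp, cat, pm, e1]
    abel

open Classical in
/-- push forward -/
noncomputable def psh {ι G : Type*} (p : ι → ℝ≥0∞) (φ : ι → G) (x : G) : ℝ≥0∞ :=
  ∑' i, if φ i = x then p i else 0

lemma push {ι G : Type*} (p : ι → ℝ≥0∞) (φ : ι → G) (f : G → ℝ≥0∞) :
    ∑' i, p i * f (φ i) = ∑' x, psh p φ x * f x := by
  classical
  unfold psh
  have : ∀ x, (∑' i, if φ i = x then p i else 0) * f x
      = ∑' i, (if φ i = x then p i * f x else 0) := by
    intro x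
    rw [← ENNReal.tsum_mul_right]
    refine tsum_congr fun i => ?_
    split_ifs
    · rfl
    · rw [zero_mul]
  simp_rw [this]
  rw [ENNReal.tsum_comm]
  refine tsum_congr fun i => ?_
  rw [tsum_eq_single (φ i)]
  · rw [if_pos rfl]
  · intro x hx
    rw [if_neg (fun h => hx h.symm)]

variable (ν : Measure (Row d)) [IsProbabilityMeasure ν] (u : Step d)

open Classical in
lemma hprod (H : ℕ) : ∃ a b : Site d → ℝ≥0∞, ∑' z, a z ≤ 1 ∧ ∑' z, b z ≤ 1 ∧
    ∀ F : Site d → Site d → ℝ≥0∞,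
      (∑' L : List (PB u), if HT (ht u) L = H then
        LW (Lam ν u) L * F (endp 0 (cat L).1) (-endp 0 (cat L).2) else 0)
        = ∑' x, ∑' y, a x * b y * F x y := by
  set p : List (Step d) → ℝ≥0∞ := fun π => if IsUp u H π then NB28.aw ν π else 0 with hp
  set q : List (Step d) → ℝ≥0∞ := fun γ => if IsDn u H γ then NB28.aw ν γ else 0 with hq
  have hp1 : ∑' π, p π ≤ 1 := WM286.sum_up_le_one ν u H
  have hq1 : ∑' γ, q γ ≤ 1 := WM286.sum_dn_le_one ν u H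
  refine ⟨psh p (fun π => endp (0 : Site d) π), psh q (fun γ => -endp (0 : Site d) γ), ?_, ?_, ?_⟩
  · have := push p (fun π => endp (0 : Site d) π) (fun _ => 1)
    simp only [mul_one] at this
    rw [← this]; exact hp1
  · have := push q (fun γ => -endp (0 : Site d) γ) (fun _ => 1)
    simp only [mul_one] at this
    rw [← this]; exact hq1
  · intro F
    have h := tsum_L ν u H (fun x => F (endp 0 x.1) (-endp 0 x.2))
    refine h.trans ?_
    calc _ = ∑' π, p π * ∑' γ, q γ * F (endp 0 π) (-endp 0 γ) := by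
          refine tsum_congr fun π => ?_
          rw [← ENNReal.tsum_mul_left]
          refine tsum_congr fun γ => ?_
          by_cases h1 : IsUp u H π
          · by_cases h2 : IsDn u H γ
            · simp only [hp, hq, if_pos h1, if_pos h2, if_pos (And.intro h1 h2), mul_assoc]
            · simp [hp, hq, h2]
          · simp [hp, h1]
      _ = ∑' π, p π * ∑' y, psh q (fun γ => -endp (0 : Site d) γ) y *
            F (endp 0 π) y := by
          refine tsum_congr fun π => ?_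
          rw [push q (fun γ => -endp (0 : Site d) γ) (fun y => F (endp 0 π) y)]
      _ = _ := by
          rw [push p (fun π => endp (0 : Site d) π) (fun x => ∑' y,
            psh q (fun γ => -endp (0 : Site d) γ) y * F x y)]
          refine tsum_congr fun x => ?_
          rw [← ENNReal.tsum_mul_left]
          refine tsum_congr fun y => ?_
          rw [mul_assoc]

open Classical in
/-- extension of a function of the lateral sites -/
noncomputable def ext {u : Step d} (μ : Lat u → ℝ≥0∞) (x : Site d) : ℝ≥0∞ :=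
  if h : Flux566.lev u x = 0 then μ ⟨x, h⟩ else 0

open Classical in
lemma lat_sum {u : Step d} (μ : Lat u → ℝ≥0∞) (Φ : Site d → ℝ≥0∞) :
    ∑' x : Lat u, μ x * Φ x.1
      = ∑' x : Site d, (if Flux566.lev u x = 0 then ext μ x * Φ x else 0) := by
  have h := tsum_subtype {w : Site d | Flux566.lev u w = 0} (fun x => ext μ x * Φ x)
  refine Eq.trans ?_ (h.trans ?_)
  · refine tsum_congr fun x => ?_
    have : ext μ x.1 = μ x := by
      unfold ext
      rw [dif_pos x.2]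
      rfl
    show μ x * Φ x.1 = ext μ x.1 * Φ x.1
    rw [this]
  · refine tsum_congr fun x => ?_
    rw [Set.indicator_apply]
    rfl

lemma ext_sum {u : Step d} (μ : Lat u → ℝ≥0∞) : ∑' x : Site d, ext μ x = ∑' x : Lat u, μ x := by
  classical
  have h := lat_sum μ (fun _ => 1)
  simp only [mul_one] at h
  rw [h]
  refine tsum_congr fun x => ?_
  by_cases hx : Flux566.lev u x = 0
  · rw [if_pos hx]
  · rw [if_neg hx]; unfold ext; rw [dif_neg hx]

lemma ext_le {u : Step d} (μ : Lat u → ℝ≥0∞) (M : ℝ≥0∞) (h : ∀ x, μ x ≤ M) (x : Site d) :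
    ext μ x ≤ M := by
  classical
  unfold ext
  split_ifs
  · exact h _
  · exact zero_le

open Classical in
lemma wp_eq (H s : ℕ) (S : List (Step d) → List (Step d) → Prop) (x : Lat u) :
    KapComp803.WP (Lam ν u) (ht u) (dl u) (cd u) H s (fun L => S (cat L).1 (cat L).2) x
      = ∑' π : List (Step d), ∑' γ : List (Step d),
        if IsUp u H π ∧ IsDn u H γ ∧ S π γ ∧ Cm u x.1 π γ ≠ ∅ ∧
          (∀ k ∈ Cm u x.1 π γ, s < k ∧ k + s ≤ H) then NB28.aw ν π * NB28.aw ν γ else 0 := by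
  have h := tsum_L ν u H (fun y => if S y.1 y.2 ∧ cds u y x.1 ≠ ∅ ∧
    (∀ k ∈ cds u y x.1, s < k ∧ k + s ≤ H) then 1 else 0)
  unfold KapComp803.WP
  refine Eq.trans ?_ (h.trans ?_)
  · refine tsum_congr fun L => ?_
    rw [CD_cat]
    by_cases h1 : HT (ht u) L = H
    · by_cases h2 : S (cat L).1 (cat L).2 ∧ cds u (cat L) x.1 ≠ ∅ ∧
        (∀ k ∈ cds u (cat L) x.1, s < k ∧ k + s ≤ H)
      · rw [if_pos ⟨h1, h2⟩, if_pos h1, if_pos h2, mul_one]
      · rw [if_neg (fun h' => h2 h'.2), if_pos h1, if_neg h2, mul_zero]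
    · rw [if_neg (fun h' => h1 h'.1), if_neg h1]
  · refine tsum_congr fun π => tsum_congr fun γ => ?_
    simp only [cds_eq]
    by_cases h1 : IsUp u H π ∧ IsDn u H γ
    · by_cases h2 : S π γ ∧ Cm u x.1 π γ ≠ ∅ ∧ (∀ k ∈ Cm u x.1 π γ, s < k ∧ k + s ≤ H)
      · rw [if_pos h1, if_pos h2, if_pos ⟨h1.1, h1.2, h2⟩, mul_one]
      · rw [if_pos h1, if_neg h2, if_neg (fun h' => h2 h'.2.2), mul_zero]
    · rw [if_neg h1, if_neg (fun h' => h1 ⟨h'.1, h'.2.1⟩)]

lemma num (Cst η : ℝ≥0∞) (hC : Cst ≠ ⊤) (hη : η ≠ 0) (us : ℕ → ℝ≥0∞)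
    (hus : ∀ ε : ℝ≥0∞, ε ≠ 0 → ∃ s0 : ℕ, ∀ s, s0 ≤ s → us s ≤ ε) :
    ∃ lam : ℝ≥0∞, lam ≠ 0 ∧ lam ≠ ⊤ ∧ ∃ s0 : ℕ, ∀ s, s0 ≤ s → ∀ M c : ℝ≥0∞, M * c ≤ Cst →
      8 * (lam + M * c * us s / lam + us s) ≤ η := by
  have hη2 : η / 2 ≠ 0 := (ENNReal.half_pos hη).ne'
  obtain ⟨lam, h0, h1, -, h2⟩ := NumK658.chooseLam 8 (by norm_num) (η / 2) hη2
  obtain ⟨δ, hδ, h3⟩ := NumK658.chooseEta (8 * (Cst / lam + 1))
    (ENNReal.mul_ne_top (by norm_num) (ENNReal.add_ne_top.2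
      ⟨ENNReal.div_ne_top hC h0, ENNReal.one_ne_top⟩)) (η / 2) hη2
  obtain ⟨s0, hs0⟩ := hus δ hδ
  refine ⟨lam, h0, h1, s0, fun s hs M c hMc => ?_⟩
  calc 8 * (lam + M * c * us s / lam + us s)
      ≤ 8 * (lam + Cst * δ / lam + δ) := by
        gcongr
        · exact hs0 s hs
        · exact hs0 s hs
    _ = 8 * lam + 8 * (Cst / lam + 1) * δ := by
        rw [ENNReal.div_eq_inv_mul, ENNReal.div_eq_inv_mul]; ring
    _ ≤ η / 2 + η / 2 := add_le_add h2 h3
    _ = η := ENNReal.add_halves η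

theorem hWX (us_small : ∀ ε : ℝ≥0∞, ε ≠ 0 → ∃ s0 : ℕ, ∀ s, s0 ≤ s → E23W.us ν u s ≤ ε) :
    ∀ Cst η : ℝ≥0∞, Cst ≠ ⊤ → η ≠ 0 → ∃ s0 : ℕ, ∀ s, s0 ≤ s → ∀ (H : ℕ)
      (E : Finset (Site d)) (μ : Lat u → ℝ≥0∞) (M : ℝ≥0∞), ∑' x, μ x ≤ 1 → (∀ x, μ x ≤ M) →
      M * E.card ≤ Cst →
      ∑' x, μ x * KapComp803.WP (Lam ν u) (ht u) (dl u) (cd u) H s
        (fun L => endp 0 (cat L).1 ∈ E) x ≤ η := by
  classical
  intro Cst η hC hη
  obtain ⟨lam, hl0, hlt, s0, hs0⟩ := num Cst η hC hη (E23W.us ν u) us_small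
  refine ⟨s0, fun s hs H E μ M hμ hM hME => ?_⟩
  refine le_trans ?_ (hs0 s hs M E.card hME)
  refine le_trans ?_ (E23W.e2 ν u s H E (ext μ) M lam ((ext_sum μ).le.trans hμ)
    (ext_le μ M hM) hl0 hlt)
  refine le_trans ?_ (lat_sum μ (fun x => ∑' π, ∑' γ,
      (if IsUp u H π ∧ endp 0 π ∈ E ∧ IsDn u H γ ∧ (∃ k, k ∈ Cm u x π γ) ∧
        (∀ k ∈ Cm u x π γ, s < k) then NB28.aw ν π * NB28.aw ν γ else 0))).le
  refine ENNReal.tsum_le_tsum fun x => mul_le_mul_right ?_ _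
  rw [wp_eq ν u H s (fun π _ => endp 0 π ∈ E) x]
  refine ENNReal.tsum_le_tsum fun π => ENNReal.tsum_le_tsum fun γ => ?_
  split_ifs with a b b
  · exact le_rfl
  · exact absurd ⟨a.1, a.2.2.1, a.2.1, Set.nonempty_iff_ne_empty.2 a.2.2.2.1,
      fun k hk => (a.2.2.2.2 k hk).1⟩ b
  · exact zero_le
  · exact le_rfl

theorem hWY (us_small : ∀ ε : ℝ≥0∞, ε ≠ 0 → ∃ s0 : ℕ, ∀ s, s0 ≤ s → E23W.us ν u s ≤ ε) :
    ∀ Cst η : ℝ≥0∞, Cst ≠ ⊤ → η ≠ 0 → ∃ s0 : ℕ, ∀ s, s0 ≤ s → ∀ (H : ℕ)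
      (E : Finset (Site d)) (μ : Lat u → ℝ≥0∞) (M : ℝ≥0∞), ∑' x, μ x ≤ 1 → (∀ x, μ x ≤ M) →
      M * E.card ≤ Cst →
      ∑' x, μ x * KapComp803.WP (Lam ν u) (ht u) (dl u) (cd u) H s
        (fun L => -endp 0 (cat L).2 ∈ E) x ≤ η := by
  classical
  intro Cst η hC hη
  obtain ⟨lam, hl0, hlt, s0, hs0⟩ := num Cst η hC hη (E23W.us ν u) us_small
  refine ⟨s0, fun s hs H E μ M hμ hM hME => ?_⟩
  have hcard : M * ((E.image (fun x => -x)).card : ℝ≥0∞) ≤ Cst := by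
    refine le_trans (mul_le_mul_right ?_ _) hME
    exact_mod_cast Finset.card_image_le
  refine le_trans ?_ (hs0 s hs M (E.image (fun x => -x)).card hcard)
  refine le_trans ?_ (E23W.e3 ν u s H (E.image (fun x => -x)) (ext μ) M lam
    ((ext_sum μ).le.trans hμ) (ext_le μ M hM) hl0 hlt)
  refine le_trans ?_ (lat_sum μ (fun x => ∑' π, ∑' γ,
      (if IsUp u H π ∧ endp 0 γ ∈ E.image (fun x => -x) ∧ IsDn u H γ ∧
        (∃ k, k ∈ Cm u x π γ) ∧
        (∀ k ∈ Cm u x π γ, k + s ≤ H) then NB28.aw ν π * NB28.aw ν γ else 0))).le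
  refine ENNReal.tsum_le_tsum fun x => mul_le_mul_right ?_ _
  rw [wp_eq ν u H s (fun _ γ => -endp 0 γ ∈ E) x]
  refine ENNReal.tsum_le_tsum fun π => ENNReal.tsum_le_tsum fun γ => ?_
  split_ifs with a b b
  · exact le_rfl
  · exact absurd ⟨a.1, Finset.mem_image.2 ⟨_, a.2.2.1, neg_neg _⟩, a.2.1,
      Set.nonempty_iff_ne_empty.2 a.2.2.2.1, fun k hk => (a.2.2.2.2 k hk).2⟩ b
  · exact zero_le
  · exact le_rfl

theorem hWinSt (c : ℝ≥0∞) (hc : c ≠ 0)
    (hU : ∀ n, c ≤ U (Lam ν u) (ht u) n)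
    (us_small : ∀ ε : ℝ≥0∞, ε ≠ 0 → ∃ s0 : ℕ, ∀ s, s0 ≤ s → E23W.us ν u s ≤ ε) :
    KB169.HWinSt (Lam ν u) (ht u) (dl u) (cd u) := by
  classical
  have h1 : ∀ b : PB u, 1 ≤ ht u b := one_le_hb
  have hU1 := HSl169.U_le_one ν u
  have hΛ : ∑' b, Lam ν u b = 1 :=
    le_antisymm (mass_le_one _ _ h1 hU1) (mass_ge_one _ _ c hc 0 fun n _ => hU n)
  have hct : c ≠ ⊤ := ne_top_of_le_ne_top ENNReal.one_ne_top ((hU 0).trans (hU1 0))
  have hE := mean_le (Lam ν u) (ht u) h1 hΛ c hc hct 0 (fun n _ => hU n)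
  rw [sum_tail (Lam ν u) (ht u) hΛ] at hE
  have hmean : ∑' k, tail (Lam ν u) (ht u) k ≠ ⊤ :=
    ne_top_of_le_ne_top (ENNReal.inv_ne_top.2 hc) hE
  exact KapComp803.hWin_of (Lam ν u) (ht u) (dl u) (cd u) h1 hΛ.le hmean c hc hU hU1
    (fun L => endp 0 (cat L).1) (fun L => -endp 0 (cat L).2) (hprod ν u)
    (fun L' w x => ⟨x.1 - w.1 - endp 0 (cat L').1 - endp 0 (cat L').2, fun A hA => by
      have h2 := congrArg Subtype.val hA
      rw [act_append, act_val, act_val] at h2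
      rw [← h2]; abel⟩)
    (hWX ν u us_small) (hWY ν u us_small)

theorem kappaAll : NB28.KappaAll := by
  refine KB169.kappaAll_of fun d hd ν _ hν u hA hB => ?_
  obtain ⟨c, hc, _, hup, hdn⟩ := WM286.mass_pos ν hν u hA hB
  have hU : ∀ n, c * c ≤ U (Lam ν u) (ht u) n := fun n => by
    rw [U_eq28]; exact mul_le_mul' (hup n) (hdn n)
  refine hWinSt ν u (c * c) (mul_ne_zero hc hc) hU ?_
  refine E23W.us_small ν hν u ?_
  rw [← annealed_apply _ 0 (Kal132.measurableSet_escape (Flux566.dir u))]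
  exact hA

theorem nbProp : Spine.NBProp := NB28.nb_of_kappaW kappaAll

end Crest.Agent.R154.FinB30
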