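import Crest.Agent.R154.JHit_139
import Crest.Agent.R154.Num_873

/-! Row 154, road 801, joint-cut frame (helper334): `hW` of helper139 from the two window lemmas at
a common height. -/

set_option autoImplicit false

namespace Crest.Agent.R154.HW334

open scoped ENNReal
open Crest.Agent.R154.B5A
open Crest.Agent.R154.JAsm139 (card Good)

/-- counting form of a window lemma -/
lemma card_le {W : Type*} (Φ : W → ℝ≥0∞) (K N δ lam : ℝ≥0∞) (hK : K ≠ 0) (hK' : K ≠ ⊤)
    (hl : lam ≠ 0) (hl' : lam ≠ ⊤)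
    (h : ∀ (μ : W → ℝ≥0∞) (M : ℝ≥0∞), ∑' w, μ w ≤ 1 → (∀ w, μ w ≤ M) →
      ∑' w, μ w * Φ w ≤ K * (lam + M * N * δ / lam)) :
    card {w | 2 * K * lam < Φ w} ≤ N * δ / (lam * lam) := by
  classical
  unfold card
  rw [ENNReal.tsum_eq_iSup_sum]
  refine iSup_le fun F => ?_
  set F' : Finset W := F.filter (fun w => 2 * K * lam < Φ w) with hF'
  have e1 : ∑ w ∈ F, ({w | 2 * K * lam < Φ w} : Set W).indicator (fun _ => (1 : ℝ≥0∞)) w
      = (F'.card : ℝ≥0∞) := by
    rw [hF', Finset.card_filter, Nat.cast_sum]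
    refine Finset.sum_congr rfl fun w _ => ?_
    by_cases hw : 2 * K * lam < Φ w
    · simp [Set.indicator, hw]
    · simp [Set.indicator, hw]
  rw [e1]
  by_cases h0 : F'.card = 0
  · rw [h0]; simp
  set n : ℝ≥0∞ := (F'.card : ℝ≥0∞) with hn
  have hn0 : n ≠ 0 := by rw [hn]; exact_mod_cast h0
  have hnt : n ≠ ⊤ := ENNReal.natCast_ne_top _
  have hs : ∀ c : ℝ≥0∞, ∑' w, (if w ∈ F' then c else 0) = n * c := by
    intro c
    rw [tsum_eq_sum (s := F') (fun w hw => if_neg hw), Finset.sum_ite_mem, Finset.inter_self,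
      Finset.sum_const, nsmul_eq_mul]
  have h1 := h (fun w => if w ∈ F' then n⁻¹ else 0) n⁻¹
    (by rw [hs, ENNReal.mul_inv_cancel hn0 hnt])
    (fun w => by split_ifs <;> simp)
  have h2 : 2 * K * lam ≤ ∑' w, (if w ∈ F' then n⁻¹ else 0) * Φ w := by
    calc 2 * K * lam = ∑' w, (if w ∈ F' then n⁻¹ * (2 * K * lam) else 0) := by
          rw [hs, ← mul_assoc, ENNReal.mul_inv_cancel hn0 hnt, one_mul]
      _ ≤ _ := by
          refine ENNReal.tsum_le_tsum fun w => ?_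
          split_ifs with hw
          · exact mul_le_mul_right (Finset.mem_filter.1 hw).2.le _
          · exact zero_le
  have h3 : K * lam + K * lam ≤ K * lam + K * (n⁻¹ * N * δ / lam) := by
    calc K * lam + K * lam = 2 * K * lam := by ring
      _ ≤ _ := h2
      _ ≤ _ := h1
      _ = _ := by ring
  have hKl : K * lam ≠ ⊤ := ENNReal.mul_ne_top hK' hl'
  have h4 : K * lam ≤ K * (n⁻¹ * N * δ / lam) := (ENNReal.add_le_add_iff_left hKl).1 h3
  have h5 : lam ≤ n⁻¹ * N * δ / lam := (ENNReal.mul_le_mul_iff_right hK hK').1 h4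
  have hll : lam * lam ≠ 0 := mul_ne_zero hl hl
  have hll' : lam * lam ≠ ⊤ := ENNReal.mul_ne_top hl' hl'
  rw [ENNReal.le_div_iff_mul_le (Or.inl hll) (Or.inl hll')]
  have h6 : lam * lam ≤ n⁻¹ * N * δ := by
    rwa [ENNReal.le_div_iff_mul_le (Or.inl hl) (Or.inl hl')] at h5
  calc n * (lam * lam) ≤ n * (n⁻¹ * N * δ) := mul_le_mul_right h6 _
    _ = (n * n⁻¹) * (N * δ) := by ring
    _ = N * δ := by rw [ENNReal.mul_inv_cancel hn0 hnt, one_mul]

/-- quantile of a law of mass between `c` and `1` -/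
lemma quantile {G : Type*} (p : G → ℝ≥0∞) (c u : ℝ≥0∞) (hc : c ≠ 0) (hcp : c ≤ ∑' z, p z)
    (hp1 : ∑' z, p z ≤ 1) (hu : u ≠ 0) (hu1 : u < 1) :
    ∃ (th : ℝ≥0∞) (E : Finset G), (∀ z, z ∈ E ↔ th ≤ p z) ∧
      (∑' z, (if p z < th then p z else 0)) ≤ u ∧
      c * u ≤ (∑' z, if p z < 2 * th then p z else 0) ∧ (E.card : ℝ≥0∞) * th ≤ 1 := by
  classical
  set T := ∑' z, p z with hT
  have hT0 : T ≠ 0 := fun h => hc (le_antisymm (by rw [← h]; exact hcp) zero_le)
  have hTt : T ≠ ⊤ := ne_top_of_le_ne_top ENNReal.one_ne_top hp1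
  obtain ⟨th, h0, h1, h2, h3, h4, h5⟩ := Num873.quant (fun z => p z * T⁻¹)
    (by rw [ENNReal.tsum_mul_right, ENNReal.mul_inv_cancel hT0 hTt]) u hu hu1
  have key : ∀ (x y : ℝ≥0∞), x * T⁻¹ < y ↔ x < y * T := by
    intro x y
    rw [← div_eq_mul_inv, ENNReal.div_lt_iff (Or.inl hT0) (Or.inl hTt)]
  have key' : ∀ (x y : ℝ≥0∞), y ≤ x * T⁻¹ ↔ y * T ≤ x := by
    intro x y
    rw [← div_eq_mul_inv, ENNReal.le_div_iff_mul_le (Or.inl hT0) (Or.inl hTt)]
  refine ⟨th * T, h4.toFinset, fun z => ?_, ?_, ?_, ?_⟩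
  · rw [Set.Finite.mem_toFinset]
    exact key' _ _
  · calc (∑' z : G, (if p z < th * T then p z else 0))
        = T * ∑' z : G, (if p z * T⁻¹ < th then p z * T⁻¹ else 0) := by
          rw [← ENNReal.tsum_mul_left (a := T)]
          refine tsum_congr fun z => ?_
          by_cases h : p z * T⁻¹ < th
          · rw [if_pos h, if_pos ((key _ _).1 h), mul_comm (p z), ← mul_assoc,
              ENNReal.mul_inv_cancel hT0 hTt, one_mul]
          · rw [if_neg h, if_neg (fun h' => h ((key _ _).2 h')), mul_zero]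
      _ ≤ 1 * u := mul_le_mul' hp1 h2
      _ = u := one_mul u
  · calc c * u ≤ T * ∑' z : G, (if p z * T⁻¹ < 2 * th then p z * T⁻¹ else 0) :=
          mul_le_mul' hcp h3
      _ = ∑' z : G, (if p z < 2 * (th * T) then p z else 0) := by
          rw [← ENNReal.tsum_mul_left]
          refine tsum_congr fun z => ?_
          by_cases h : p z * T⁻¹ < 2 * th
          · rw [if_pos h, if_pos (by rw [← mul_assoc]; exact (key _ _).1 h), mul_comm (p z),
              ← mul_assoc, ENNReal.mul_inv_cancel hT0 hTt, one_mul]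
          · rw [if_neg h, if_neg (by rw [← mul_assoc]; exact fun h' => h ((key _ _).2 h')),
              mul_zero]
  · rw [← mul_assoc]
    calc _ ≤ 1 * (1 : ℝ≥0∞) := by
          refine mul_le_mul' ?_ hp1
          rw [← Set.ncard_eq_toFinset_card _ h4]
          exact h5
      _ = 1 := one_mul 1

open Classical in
lemma fib {R G : Type*} (f : R → ℝ≥0∞) (g : R → G) (F : G → ℝ≥0∞) :
    ∑' z, (∑' r, if g r = z then f r else 0) * F z = ∑' r, f r * F (g r) := by
  calc _ = ∑' z, ∑' r, (if g r = z then f r * F z else 0) := by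
        refine tsum_congr fun z => ?_
        rw [← ENNReal.tsum_mul_right]
        refine tsum_congr fun r => ?_
        split_ifs <;> simp
    _ = ∑' r, ∑' z, (if g r = z then f r * F z else 0) := ENNReal.tsum_comm
    _ = _ := by
        refine tsum_congr fun r => ?_
        rw [tsum_eq_single (g r)]
        · rw [if_pos rfl]
        · intro z hz
          rw [if_neg (Ne.symm hz)]

variable {B W P Q G : Type*} [AddCommGroup G]

open Classical in
lemma half (Λ : B → ℝ≥0∞) (ht : B → ℕ) (dl : B → W → W)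
    (cat : List B → P × Q) (v : W → G) (dX : P → G) (dY : Q → G)
    (a : P → ℝ≥0∞) (b : Q → ℝ≥0∞) (H : ℕ)
    (hcat : ∀ (F : P → Q → ℝ≥0∞),
      ∑' L, (if HT ht L = H then LW Λ L * F (cat L).1 (cat L).2 else 0)
        = ∑' π, ∑' γ, a π * b γ * F π γ)
    (hact : ∀ L w, v (act dl L w) = v w + dX (cat L).1 + dY (cat L).2)
    (c : ℝ≥0∞) (hc : c ≠ 0) (ha : c ≤ ∑' π, a π) (ha1 : ∑' π, a π ≤ 1)
    (hb : c ≤ ∑' γ, b γ) (hb1 : ∑' γ, b γ ≤ 1)
    (R : W → P → Q → Prop) (K lam δ : ℝ≥0∞) (hK : K ≠ 0) (hK' : K ≠ ⊤) (hl : lam ≠ 0)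
    (hl' : lam ≠ ⊤)
    (hW : ∀ (E : Finset G) (μ : W → ℝ≥0∞) (M : ℝ≥0∞), ∑' w, μ w ≤ 1 → (∀ w, μ w ≤ M) →
      ∑' w, μ w * ∑' π, ∑' γ, (if dX π ∈ E ∧ R w π γ then a π * b γ else 0)
        ≤ K * (lam + M * E.card * δ / lam))
    (u2 : ℝ≥0∞) (hu20 : u2 ≠ 0) (hu21 : u2 < 1) (η : ℝ≥0∞) (hδ : 2 * (δ / (lam * lam)) ≤ η) :
    ∃ (S : Set W) (E : Finset G), Good Λ ht dl (c * u2 * c) η H S ∧
      (∀ w, w ∉ S → ∑' π, ∑' γ, (if dX π ∈ E ∧ R w π γ then a π * b γ else 0) ≤ 2 * K * lam) ∧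
      ∑' π, (if dX π ∈ E then 0 else a π) ≤ u2 := by
  set pX : G → ℝ≥0∞ := fun z => ∑' π, if dX π = z then a π else 0 with hpX
  have hsum : ∑' z, pX z = ∑' π, a π := by
    have := fib a dX (fun _ => 1)
    simpa using this
  obtain ⟨th, E, hE, h1, h2, h3⟩ := quantile pX c u2 hc (by rw [hsum]; exact ha)
    (by rw [hsum]; exact ha1) hu20 hu21
  set Φ : W → ℝ≥0∞ := fun w =>
    ∑' π, ∑' γ, (if dX π ∈ E ∧ R w π γ then a π * b γ else 0) with hΦ
  obtain ⟨Sc, hSc⟩ : ∃ Sc : Set (List B), ∀ L, L ∈ Sc ↔ pX (dX (cat L).1) < 2 * th :=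
    ⟨{L | pX (dX (cat L).1) < 2 * th}, fun _ => Iff.rfl⟩
  refine ⟨{w | 2 * K * lam < Φ w}, E, ⟨Sc, 2 * th, ?_, ?_, ?_⟩,
    fun w hw => not_lt.1 hw, ?_⟩
  · -- mass of the low pieces
    have e1 : ∑' L : List B, (if HT ht L = H ∧ L ∈ Sc
        then LW Λ L else 0)
        = ∑' L, (if HT ht L = H then LW Λ L *
          (fun (π : P) (_ : Q) => if pX (dX π) < 2 * th then (1 : ℝ≥0∞) else 0)
            (cat L).1 (cat L).2 else 0) := by
      refine tsum_congr fun L => ?_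
      simp only [hSc]
      by_cases hh : HT ht L = H
      · by_cases hp : pX (dX (cat L).1) < 2 * th
        · rw [if_pos ⟨hh, hp⟩, if_pos hh, if_pos hp, mul_one]
        · rw [if_neg (fun h => hp h.2), if_pos hh, if_neg hp, mul_zero]
      · rw [if_neg (fun h => hh h.1), if_neg hh]
    rw [e1]
    refine le_trans ?_ (hcat (fun (π : P) (_ : Q) =>
      if pX (dX π) < 2 * th then (1 : ℝ≥0∞) else 0)).ge
    have e2 : ∑' π, ∑' γ, a π * b γ * (if pX (dX π) < 2 * th then (1 : ℝ≥0∞) else 0)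
        = (∑' z, if pX z < 2 * th then pX z else 0) * ∑' γ, b γ := by
      have := fib a dX (fun z => if pX z < 2 * th then (1 : ℝ≥0∞) else 0)
      have e3 : (∑' z, if pX z < 2 * th then pX z else 0)
          = ∑' π, a π * (if pX (dX π) < 2 * th then (1 : ℝ≥0∞) else 0) := by
        rw [← this]
        refine tsum_congr fun z => ?_
        split_ifs <;> simp [hpX]
      rw [e3, ← ENNReal.tsum_mul_right]
      refine tsum_congr fun π => ?_
      rw [← ENNReal.tsum_mul_left]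
      refine tsum_congr fun γ => ?_
      ring
    rw [e2]
    exact mul_le_mul' h2 hb
  · -- density
    intro w w'
    have e1 : ∑' L : List B, (if HT ht L = H ∧ L ∈ Sc ∧
          act dl L w = w' then LW Λ L else 0)
        ≤ ∑' L, (if HT ht L = H then LW Λ L *
          (fun (π : P) (γ : Q) => if pX (dX π) < 2 * th ∧ dX π = v w' - v w - dY γ
            then (1 : ℝ≥0∞) else 0) (cat L).1 (cat L).2 else 0) := by
      refine ENNReal.tsum_le_tsum fun L => ?_
      simp only [hSc]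
      by_cases hh : HT ht L = H ∧ pX (dX (cat L).1) < 2 * th ∧ act dl L w = w'
      · have h4 : dX (cat L).1 = v w' - v w - dY (cat L).2 := by
          rw [← hh.2.2, hact]; abel
        rw [if_pos hh, if_pos hh.1, if_pos ⟨hh.2.1, h4⟩, mul_one]
      · rw [if_neg hh]; exact zero_le
    refine e1.trans ((hcat (fun (π : P) (γ : Q) =>
      if pX (dX π) < 2 * th ∧ dX π = v w' - v w - dY γ
            then (1 : ℝ≥0∞) else 0)).le.trans ?_)
    rw [ENNReal.tsum_comm]
    calc _ ≤ ∑' γ, b γ * (2 * th) := by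
          refine ENNReal.tsum_le_tsum fun γ => ?_
          set z := v w' - v w - dY γ with hz
          calc _ = ∑' π, b γ * (if dX π = z then a π else 0) *
                (if pX z < 2 * th then (1 : ℝ≥0∞) else 0) := by
                refine tsum_congr fun π => ?_
                by_cases h4 : dX π = z
                · by_cases h5 : pX z < 2 * th
                  · rw [if_pos ⟨by rw [h4]; exact h5, h4⟩, if_pos h4, if_pos h5]; ring
                  · rw [if_neg (fun h => h5 (by rw [← h4]; exact h.1)), if_neg h5, mul_zero,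
                      mul_zero]
                · rw [if_neg (fun h => h4 h.2), if_neg h4, mul_zero, mul_zero, zero_mul]
            _ = b γ * pX z * (if pX z < 2 * th then (1 : ℝ≥0∞) else 0) := by
                rw [ENNReal.tsum_mul_right, ENNReal.tsum_mul_left]
            _ ≤ b γ * (2 * th) := by
                split_ifs with h5
                · rw [mul_one]; exact mul_le_mul_right h5.le _
                · rw [mul_zero]; exact zero_le
      _ = (∑' γ, b γ) * (2 * th) := ENNReal.tsum_mul_right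
      _ ≤ 1 * (2 * th) := mul_le_mul_left hb1 _
      _ = _ := one_mul _
  · -- small
    have h4 := card_le Φ K E.card δ lam hK hK' hl hl' (fun μ M h h' => hW E μ M h h')
    calc 2 * th * card {w | 2 * K * lam < Φ w}
        ≤ 2 * th * (E.card * δ / (lam * lam)) := mul_le_mul_right h4 _
      _ = (E.card * th) * (2 * (δ / (lam * lam))) := by
          rw [mul_div_assoc]; ring
      _ ≤ 1 * (2 * (δ / (lam * lam))) := mul_le_mul_left h3 _
      _ ≤ η := by rw [one_mul]; exact hδ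
  · -- non-local mass
    refine le_trans (le_of_eq ?_) h1
    have := fib a dX (fun z => if pX z < th then (1 : ℝ≥0∞) else 0)
    have e3 : (∑' z, if pX z < th then pX z else 0)
        = ∑' π, a π * (if pX (dX π) < th then (1 : ℝ≥0∞) else 0) := by
      rw [← this]
      refine tsum_congr fun z => ?_
      split_ifs <;> simp [hpX]
    rw [e3]
    refine tsum_congr fun π => ?_
    by_cases h4 : dX π ∈ E
    · rw [if_pos h4, if_neg (not_lt.2 ((hE _).1 h4)), mul_zero]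
    · rw [if_neg h4, if_pos (not_le.1 (fun h => h4 ((hE _).2 h))), mul_one]

open Classical in
/-- **`hW` of helper139** -/
theorem hW_of (Λ : B → ℝ≥0∞) (ht : B → ℕ) (dl : B → W → W) (cd : W → B → Set ℕ)
    (cat : List B → P × Q) (v : W → G) (dX : P → G) (dY : Q → G)
    (a : ℕ → P → ℝ≥0∞) (b : ℕ → Q → ℝ≥0∞) (C : W → P → Q → Set ℕ)
    (hcat : ∀ (H : ℕ) (F : P → Q → ℝ≥0∞),
      ∑' L, (if HT ht L = H then LW Λ L * F (cat L).1 (cat L).2 else 0)
        = ∑' π, ∑' γ, a H π * b H γ * F π γ)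
    (hact : ∀ L w, v (act dl L w) = v w + dX (cat L).1 + dY (cat L).2)
    (hCD : ∀ L w, CD ht dl cd L w = C w (cat L).1 (cat L).2)
    (c : ℝ≥0∞) (hc : c ≠ 0) (ha : ∀ H, c ≤ ∑' π, a H π) (ha1 : ∀ H, ∑' π, a H π ≤ 1)
    (hb : ∀ H, c ≤ ∑' γ, b H γ) (hb1 : ∀ H, ∑' γ, b H γ ≤ 1)
    (us : ℕ → ℝ≥0∞) (hus : ∀ ε : ℝ≥0∞, ε ≠ 0 → ∃ s, us s ≤ ε)
    (K : ℝ≥0∞) (hK : K ≠ 0) (hK' : K ≠ ⊤)
    (hW2 : ∀ (s H : ℕ) (E : Finset G) (μ : W → ℝ≥0∞) (M lam : ℝ≥0∞), ∑' w, μ w ≤ 1 →
      (∀ w, μ w ≤ M) → lam ≠ 0 → lam ≠ ⊤ →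
      ∑' w, μ w * ∑' π, ∑' γ, (if dX π ∈ E ∧ (∃ k, k ∈ C w π γ) ∧
        (∀ k ∈ C w π γ, s < k ∧ k + s ≤ H) then a H π * b H γ else 0)
        ≤ K * (lam + M * E.card * us s / lam))
    (hW3 : ∀ (s H : ℕ) (E : Finset G) (μ : W → ℝ≥0∞) (M lam : ℝ≥0∞), ∑' w, μ w ≤ 1 →
      (∀ w, μ w ≤ M) → lam ≠ 0 → lam ≠ ⊤ →
      ∑' w, μ w * ∑' π, ∑' γ, (if dY γ ∈ E ∧ (∃ k, k ∈ C w π γ) ∧
        (∀ k ∈ C w π γ, s < k ∧ k + s ≤ H) then a H π * b H γ else 0)
        ≤ K * (lam + M * E.card * us s / lam)) :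
    ∀ u η : ℝ≥0∞, u ≠ 0 → u ≤ 1 → η ≠ 0 → ∃ s : ℕ, ∀ H : ℕ, ∃ S1 S2 : Set W,
      Good Λ ht dl (c * c * 2⁻¹ * u) η H S1 ∧ Good Λ ht dl (c * c * 2⁻¹ * u) η H S2 ∧
      ∀ w, w ∉ S1 → w ∉ S2 →
        (∑' L : List B, (if HT ht L = H ∧ CD ht dl cd L w ≠ ∅ ∧
          (∀ k ∈ CD ht dl cd L w, s < k ∧ k + s ≤ H) then LW Λ L else 0)) ≤ u * u + η := by
  intro u η hu hu1 hη
  have hut : u ≠ ⊤ := ne_top_of_le_ne_top ENNReal.one_ne_top hu1
  -- the thresholds
  set η' := min η 1 with hη'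
  have hη'0 : η' ≠ 0 := by rw [hη']; exact (lt_min (pos_iff_ne_zero.2 hη) one_pos).ne'
  have hη't : η' ≠ ⊤ := ne_top_of_le_ne_top ENNReal.one_ne_top (min_le_right _ _)
  set lam := η' / (4 * K) with hlam
  have h4K : 4 * K ≠ 0 := mul_ne_zero (by norm_num) hK
  have h4K' : 4 * K ≠ ⊤ := ENNReal.mul_ne_top (by norm_num) hK'
  have hl0 : lam ≠ 0 := by rw [hlam]; exact (ENNReal.div_pos hη'0 h4K').ne'
  have hlt : lam ≠ ⊤ := by rw [hlam]; exact (ENNReal.div_lt_top hη't h4K).ne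
  have hll : 2 * K * lam + 2 * K * lam ≤ η := by
    calc 2 * K * lam + 2 * K * lam = (4 * K) * lam := by ring
      _ = η' := by rw [hlam]; exact ENNReal.mul_div_cancel h4K h4K'
      _ ≤ η := min_le_left _ _
  have hll0 : lam * lam ≠ 0 := mul_ne_zero hl0 hl0
  have hllt : lam * lam ≠ ⊤ := ENNReal.mul_ne_top hlt hlt
  obtain ⟨s, hs⟩ := hus (η' * 2⁻¹ * (lam * lam)) (mul_ne_zero (mul_ne_zero hη'0 (by simp)) hll0)
  have hδ : 2 * (us s / (lam * lam)) ≤ η := by
    have h5 : us s / (lam * lam) ≤ η' * 2⁻¹ :=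
      (ENNReal.div_le_iff_le_mul (Or.inl hll0) (Or.inl hllt)).2 hs
    calc 2 * (us s / (lam * lam)) ≤ 2 * (η' * 2⁻¹) := mul_le_mul_right h5 _
      _ = (2 * 2⁻¹) * η' := by ring
      _ = η' := by rw [ENNReal.mul_inv_cancel (by norm_num) (by norm_num), one_mul]
      _ ≤ η := min_le_left _ _
  refine ⟨s, fun H => ?_⟩
  set u2 := u * 2⁻¹ with hu2
  have hu20 : u2 ≠ 0 := mul_ne_zero hu (by simp)
  have hu21 : u2 < 1 := by
    calc u * 2⁻¹ ≤ 1 * 2⁻¹ := mul_le_mul_left hu1 _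
      _ < 1 := by rw [one_mul]; exact ENNReal.inv_lt_one.2 (by norm_num)
  have hu2u : u2 ≤ u := by
    calc u * 2⁻¹ ≤ u * 1 := mul_le_mul_right (ENNReal.inv_le_one.2 (by norm_num)) _
      _ = u := mul_one u
  obtain ⟨R, hR⟩ : ∃ R : W → P → Q → Prop, ∀ w π γ, R w π γ ↔
      ((∃ k, k ∈ C w π γ) ∧ (∀ k ∈ C w π γ, s < k ∧ k + s ≤ H)) := ⟨_, fun _ _ _ => Iff.rfl⟩
  obtain ⟨S1, E, hG1, hS1, hE⟩ := half Λ ht dl cat v dX dY (a H) (b H) H (hcat H) hact c hc
    (ha H) (ha1 H) (hb H) (hb1 H) R K lam (us s) hK hK' hl0 hlt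
    (fun E μ M h h' => by
      refine le_trans (le_of_eq ?_) (hW2 s H E μ M lam h h' hl0 hlt)
      refine tsum_congr fun w => ?_
      congr 1
      exact tsum_congr fun π => tsum_congr fun γ => if_congr (by rw [hR]) rfl rfl)
    u2 hu20 hu21 η hδ
  obtain ⟨S2, E', hG2, hS2, hE'⟩ := half Λ ht dl (fun L => ((cat L).2, (cat L).1)) v dY dX
    (b H) (a H) H
    (fun F => by
      have := hcat H (fun π γ => F γ π)
      rw [show (∑' γ, ∑' π, b H γ * a H π * F γ π) = ∑' π, ∑' γ, a H π * b H γ * F γ π by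
        rw [ENNReal.tsum_comm]
        exact tsum_congr fun π => tsum_congr fun γ => by ring]
      exact this)
    (fun L w => by rw [hact]; abel) c hc
    (hb H) (hb1 H) (ha H) (ha1 H) (fun w γ π => R w π γ) K lam (us s) hK hK' hl0 hlt
    (fun E μ M h h' => by
      have := hW3 s H E μ M lam h h' hl0 hlt
      refine le_trans (le_of_eq ?_) this
      refine tsum_congr fun w => ?_
      congr 1
      rw [ENNReal.tsum_comm]
      refine tsum_congr fun π => tsum_congr fun γ => ?_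
      rw [mul_comm (b H γ)]
      exact if_congr (by rw [hR]) rfl rfl) u2 hu20 hu21 η hδ
  have hq : c * c * 2⁻¹ * u = c * u2 * c := by rw [hu2]; ring
  rw [hq]
  refine ⟨S1, S2, hG1, hG2, fun w hw1 hw2 => ?_⟩
  have e1 : (∑' L : List B, (if HT ht L = H ∧ CD ht dl cd L w ≠ ∅ ∧
          (∀ k ∈ CD ht dl cd L w, s < k ∧ k + s ≤ H) then LW Λ L else 0))
      ≤ ∑' L, (if HT ht L = H then LW Λ L *
        (fun (π : P) (γ : Q) => if R w π γ then (1 : ℝ≥0∞) else 0) (cat L).1 (cat L).2 else 0) := by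
    refine ENNReal.tsum_le_tsum fun L => ?_
    by_cases hh : HT ht L = H ∧ CD ht dl cd L w ≠ ∅ ∧
          (∀ k ∈ CD ht dl cd L w, s < k ∧ k + s ≤ H)
    · have h5 : R w (cat L).1 (cat L).2 := by
        rw [hCD] at hh
        exact (hR _ _ _).2 ⟨Set.nonempty_iff_ne_empty.2 hh.2.1, hh.2.2⟩
      simp only
      rw [if_pos hh, if_pos hh.1, if_pos h5, mul_one]
    · rw [if_neg hh]; exact zero_le
  refine e1.trans ((hcat H (fun π γ => if R w π γ then (1 : ℝ≥0∞) else 0)).le.trans ?_)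
  have h6 : ∀ π γ, a H π * b H γ * (if R w π γ then (1 : ℝ≥0∞) else 0)
      ≤ (if dX π ∈ E ∧ R w π γ then a H π * b H γ else 0)
        + (if dY γ ∈ E' ∧ R w π γ then b H γ * a H π else 0)
        + (if dX π ∈ E then 0 else a H π) * (if dY γ ∈ E' then 0 else b H γ) := by
    intro π γ
    by_cases h7 : R w π γ
    · rw [if_pos h7, mul_one]
      by_cases h8 : dX π ∈ E
      · rw [if_pos (⟨h8, h7⟩ : dX π ∈ E ∧ R w π γ)]
        exact le_add_right (le_add_right le_rfl)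
      · by_cases h9 : dY γ ∈ E'
        · rw [if_pos (⟨h9, h7⟩ : dY γ ∈ E' ∧ R w π γ), mul_comm (b H γ)]
          exact le_add_right (le_add_left le_rfl)
        · rw [if_neg h8, if_neg h9]
          exact le_add_left le_rfl
    · rw [if_neg h7, mul_zero]; exact zero_le
  calc ∑' π, ∑' γ, a H π * b H γ * (if R w π γ then (1 : ℝ≥0∞) else 0)
      ≤ ∑' π, ∑' γ, ((if dX π ∈ E ∧ R w π γ then a H π * b H γ else 0)
        + (if dY γ ∈ E' ∧ R w π γ then b H γ * a H π else 0)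
        + (if dX π ∈ E then 0 else a H π) * (if dY γ ∈ E' then 0 else b H γ)) :=
        ENNReal.tsum_le_tsum fun π => ENNReal.tsum_le_tsum fun γ => h6 π γ
    _ = (∑' π, ∑' γ, (if dX π ∈ E ∧ R w π γ then a H π * b H γ else 0))
        + (∑' π, ∑' γ, (if dY γ ∈ E' ∧ R w π γ then b H γ * a H π else 0))
        + ∑' π, ∑' γ, (if dX π ∈ E then 0 else a H π) * (if dY γ ∈ E' then 0 else b H γ) := by
        rw [← ENNReal.tsum_add, ← ENNReal.tsum_add]
        refine tsum_congr fun π => ?_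
        rw [ENNReal.tsum_add, ENNReal.tsum_add]
    _ ≤ 2 * K * lam + 2 * K * lam + u * u := by
        refine add_le_add (add_le_add (hS1 w hw1) ?_) ?_
        · rw [ENNReal.tsum_comm]
          exact hS2 w hw2
        · calc _ = (∑' π, (if dX π ∈ E then 0 else a H π)) *
                ∑' γ, (if dY γ ∈ E' then 0 else b H γ) := by
                rw [← ENNReal.tsum_mul_right]
                exact tsum_congr fun π => ENNReal.tsum_mul_left
            _ ≤ u * u := mul_le_mul' (hE.trans hu2u) (hE'.trans hu2u)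
    _ ≤ η + u * u := add_le_add_left hll _
    _ = u * u + η := add_comm _ _

end Crest.Agent.R154.HW334
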