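import Crest.Agent.R154.Comp_818
import Crest.Agent.R154.Gap_583
import Crest.Agent.R154.HSl_169
import Crest.Agent.R154.NBTop_28

/-! Row 154, ROAD 801, frame B (helper169): `KappaW` from 818's `hWin` for 657's word instance. -/

set_option autoImplicit false

open MeasureTheory ProbabilityTheory Crest.ProbabilityR.RandomEnvironment
open scoped ENNReal

namespace Crest.Agent.R154.KB169

open Crest.Agent.R154.B5A Crest.Agent.R154.B5W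
open Crest.Agent.R154.NB28 (IsUp IsDn)

variable {d : ℕ}

open Classical in
/-- 818's `hWin` -/
def HWinSt {B W : Type*} (Λ : B → ℝ≥0∞) (ht : B → ℕ) (dl : B → W → W) (cd : W → B → Set ℕ) :
    Prop :=
  ∀ ε : ℝ≥0∞, ε ≠ 0 → ∃ K : ℕ, 1 ≤ K ∧ ∀ i0 : ℕ, ∃ s H0 : ℕ, ∀ H, H0 ≤ H →
    ∀ a, K * H ≤ 8 * a → ∀ w, ∑' L1 : List B, (if Comp818.att ht a L1 ∧ HT ht L1 ≤ a + i0 then
      LW Λ L1 * Comp818.WLp Λ ht dl cd H s (act dl L1 w) else 0) ≤ ε / K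

lemma gap_abs {B : Type*} (Λ : B → ℝ≥0∞) (ht : B → ℕ) (h1 : ∀ b, 1 ≤ ht b) (c : ℝ≥0∞)
    (hc : c ≠ 0) (hU : ∀ n, c ≤ U Λ ht n) (hU1 : ∀ n, U Λ ht n ≤ 1) :
    ∀ ε : ℝ≥0∞, ε ≠ 0 → ∃ i0 : ℕ, ∀ a n, a + i0 ≤ n → Comp818.Gap Λ ht n a i0 ≤ ε := by
  intro ε hε
  have ht0 := Gap583.gap_tendsto Λ ht h1 c hc 0 (fun n _ => hU n) hU1
  obtain ⟨i0, hi0⟩ := (ht0.eventually (ge_mem_nhds (pos_iff_ne_zero.2 hε))).exists
  refine ⟨i0, fun a n hn => le_trans ?_ ((Gap583.gap_le Λ ht hU1 a i0 n hn).trans hi0)⟩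
  unfold Comp818.Gap
  refine ENNReal.tsum_le_tsum fun L => ?_
  by_cases h : HT ht L = n ∧ (∀ i, ¬ (a ≤ HT ht (L.take i) ∧ HT ht (L.take i) ≤ a + i0))
  · have h2 : ∀ L1 L2, L = L1 ++ L2 → ¬ (a ≤ HT ht L1 ∧ HT ht L1 ≤ a + i0) := by
      intro L1 L2 hL
      have := h.2 L1.length
      rwa [hL, List.take_left' rfl] at this
    rw [if_pos h, if_pos ⟨h.1, h2⟩]
  · rw [if_neg h]; exact zero_le

variable (ν : Measure (Row d)) [IsProbabilityMeasure ν]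

open Classical in
theorem kappaW_of (hd : 2 ≤ d) (hν : ∀ᵐ p ∂ν, ∀ e : Step d, 0 < p.1 e) (u : Step d)
    (c : ℝ≥0∞) (hc : c ≠ 0)
    (hup : ∀ n : ℕ, c ≤ ∑' π : List (Step d), if IsUp u n π then NB28.aw ν π else 0)
    (hdn : ∀ n : ℕ, c ≤ ∑' γ : List (Step d), if IsDn u n γ then NB28.aw ν γ else 0)
    (hWin : HWinSt (Lam ν u) (ht u) (dl u) (cd u)) : NB28.KappaW ν u := by
  have hU : ∀ n, c * c ≤ U (Lam ν u) (ht u) n := fun n => by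
    rw [U_eq28]; exact mul_le_mul' (hup n) (hdn n)
  have hU1 := HSl169.U_le_one ν u
  have hcc : c * c ≠ 0 := mul_ne_zero hc hc
  have h1 : ∀ b, 1 ≤ ht u b := one_le_hb
  have hΛ : ∑' b, Lam ν u b = 1 :=
    le_antisymm (mass_le_one _ _ h1 hU1) (mass_ge_one _ _ (c * c) hcc 0 fun n _ => hU n)
  have hmain := Comp818.comp (Lam ν u) (ht u) (dl u) (cd u) h1
    (fun w b k hk => hcd u w b k hk) (c * c) hcc hU hU1
    (gap_abs _ _ h1 (c * c) hcc hU hU1) (HSl169.hSl ν hd hν u hΛ hU1) hWin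
  intro ε hε
  obtain ⟨M, hM⟩ := hmain ε hε
  refine ⟨M, fun m hm n hn w hw => ?_⟩
  exact (Kap1_eq ν u n m (⟨w, hw⟩ : B5W.Lat u)).symm.le.trans (hM m hm n hn ⟨w, hw⟩)

theorem kappaAll_of
    (hW : ∀ (d : ℕ) (_ : 3 ≤ d) (ν : Measure (Row d)) [IsProbabilityMeasure ν],
      (∀ᵐ p ∂ν, ∀ e : Step d, 0 < p.1 e) → ∀ u : Step d,
      annealed (iidEnvironmentLaw ν) 0 (escapeEvent (B2d.dirVec u)) ≠ 0 →
      annealed (iidEnvironmentLaw ν) 0 (escapeEvent (-B2d.dirVec u)) ≠ 0 →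
      HWinSt (Lam ν u) (ht u) (dl u) (cd u)) : NB28.KappaAll := by
  intro d hd ν _ hν u hA hB
  obtain ⟨c, hc, _, hup, hdn⟩ := WM286.mass_pos ν hν u hA hB
  exact kappaW_of ν (by omega) hν u c hc hup hdn (hW d hd ν hν u hA hB)

end Crest.Agent.R154.KB169
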