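import Crest.Agent.R154.Glue_849
import Crest.Agent.R154.KB_169
import Crest.Agent.R154.HW_334
import Crest.Agent.R154.E2_934
import Crest.Agent.R154.E3_934
import Crest.Agent.R154.B5Br_657
import Crest.Agent.R154.NBTop_28

/-! Row 154, ROAD 801, frame B (helper650): the last binding.  334's `hW_of` at 657's instance with
934's window lemmas `E2`, `E3`, then 849's `hWin_of`, 169's `kappaAll_of`. -/

set_option autoImplicit false

open MeasureTheory ProbabilityTheory Crest.ProbabilityR.RandomEnvironment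
open scoped ENNReal

namespace Crest.Agent.R154.FinB650

open Crest.Agent.R154.B5A Crest.Agent.R154.B5W
open Crest.Agent.R154.Flux566 (endp sitesL lev)
open Crest.Agent.R154.NB28 (IsUp IsDn Cm)

variable {d : ℕ}

lemma act_val (u : Step d) (L : List (PB u)) (w : Lat u) :
    (act (dl u) L w).1 = w.1 + endp 0 (cat L).1 + endp 0 (cat L).2 := by
  induction L generalizing w with
  | nil => simp [act, cat, endp]
  | cons b L ih =>
    rw [act, ih]
    simp only [dl, dlp, cat, pm, Flux566.endp_append]
    rw [Flux566.endp_eq_add (cat L).2 (endp 0 b.1.2), Flux566.endp_eq_add b.1.1 (endp 0 (cat L).1)]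
    abel

open Classical in
lemma tsum_lat (u : Step d) (F : Site d → ℝ≥0∞) :
    ∑' w : Lat u, F w.1 = ∑' x : Site d, (if lev u x = 0 then F x else 0) := by
  have h := tsum_subtype {w : Site d | lev u w = 0} F
  refine Eq.trans h (tsum_congr fun x => ?_)
  rw [Set.indicator_apply]
  rfl

open Classical in
/-- extension of a law on the lateral sites by `0` -/
noncomputable def ext (u : Step d) (μ : Lat u → ℝ≥0∞) (x : Site d) : ℝ≥0∞ :=
  if h : lev u x = 0 then μ ⟨x, h⟩ else 0

lemma ext_val (u : Step d) (μ : Lat u → ℝ≥0∞) (w : Lat u) : ext u μ w.1 = μ w := by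
  unfold ext
  rw [dif_pos w.2]
  rfl

open Classical in
lemma ext_sum (u : Step d) (μ : Lat u → ℝ≥0∞) : ∑' x, ext u μ x = ∑' w, μ w := by
  have h := tsum_lat u (ext u μ)
  simp only [ext_val] at h
  rw [h]
  refine tsum_congr fun x => ?_
  unfold ext
  split_ifs <;> rfl

lemma ext_le (u : Step d) (μ : Lat u → ℝ≥0∞) (M : ℝ≥0∞) (hM : ∀ w, μ w ≤ M) (x : Site d) :
    ext u μ x ≤ M := by
  unfold ext
  split_ifs
  · exact hM _
  · exact zero_le

variable (ν : Measure (Row d)) [IsProbabilityMeasure ν] (u : Step d)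

open Classical in
theorem hW (c : ℝ≥0∞) (hc : c ≠ 0)
    (hup : ∀ n : ℕ, c ≤ ∑' π : List (Step d), if IsUp u n π then NB28.aw ν π else 0)
    (hdn : ∀ n : ℕ, c ≤ ∑' γ : List (Step d), if IsDn u n γ then NB28.aw ν γ else 0) :
    Glue849.HW (Lam ν u) (ht u) (dl u) (cd u) (c * c * 2⁻¹) := by
  have key := HW334.hW_of (P := List (Step d)) (Q := List (Step d)) (G := Site d)
    (Lam ν u) (ht u) (dl u) (cd u) (fun L => cat L) (fun w : Lat u => w.1)
    (fun π => endp 0 π) (fun γ => endp 0 γ)
    (fun H π => if IsUp u H π then NB28.aw ν π else 0)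
    (fun H γ => if IsDn u H γ then NB28.aw ν γ else 0)
    (fun w π γ => Cm u w.1 π γ)
    (fun H F => by
      refine (tsum_L ν u H (fun x => F x.1 x.2)).trans ?_
      refine tsum_congr fun π => tsum_congr fun γ => ?_
      by_cases h1 : IsUp u H π
      · by_cases h2 : IsDn u H γ
        · rw [if_pos ⟨h1, h2⟩, if_pos h1, if_pos h2]
        · rw [if_neg (fun h => h2 h.2), if_neg h2, mul_zero, zero_mul]
      · rw [if_neg (fun h => h1 h.1), if_neg h1, zero_mul, zero_mul])
    (fun L w => act_val u L w)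
    (fun L w => by rw [CD_cat]; exact cds_eq u _ _ _)
    c hc hup (fun n => sum_if_le_one ν fun l l' h h' hp => NB28.isUp_prefix h h' hp)
    hdn (fun n => sum_if_le_one ν fun l l' h h' hp => NB28.isDn_prefix h h' hp)
    (fun s => E934.us ν u s + E934.us ν (Flux132.opp u) s)
    (fun ε hε => by
      have h2 : ε / 2 ≠ 0 := (ENNReal.half_pos hε).ne'
      obtain ⟨s1, h1⟩ := E934.us_small ν u (ε / 2) h2
      obtain ⟨s2, h3⟩ := E934.us_small ν (Flux132.opp u) (ε / 2) h2
      refine ⟨max s1 s2, ?_⟩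
      calc _ ≤ ε / 2 + ε / 2 := add_le_add (h1 _ (le_max_left _ _)) (h3 _ (le_max_right _ _))
        _ = ε := ENNReal.add_halves ε)
    8 (by norm_num) (by norm_num)
    (fun s H E μ M lam hμ hM hl hl' => by
      have h := E934.E2 (ν := ν) (u := u) s H E (ext u μ) M lam (by rw [ext_sum]; exact hμ)
        (ext_le u μ M hM) hl hl'
      replace h := (tsum_lat u (fun x => ext u μ x * ∑' π : List (Step d), ∑' γ : List (Step d),
        (if IsUp u H π ∧ endp 0 π ∈ E ∧ IsDn u H γ ∧ (∃ k, k ∈ Cm u x π γ) ∧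
        (∀ k ∈ Cm u x π γ, s < k) then NB28.aw ν π * NB28.aw ν γ else 0))).le.trans h
      refine le_trans (ENNReal.tsum_le_tsum fun w => ?_) (h.trans ?_)
      · simp only [ext_val]
        refine mul_le_mul_right (ENNReal.tsum_le_tsum fun π => ENNReal.tsum_le_tsum fun γ => ?_) _
        by_cases h1 : endp 0 π ∈ E ∧ (∃ k, k ∈ Cm u w.1 π γ) ∧
          (∀ k ∈ Cm u w.1 π γ, s < k ∧ k + s ≤ H)
        · rw [if_pos h1]
          by_cases h2 : IsUp u H π
          · by_cases h3 : IsDn u H γ
            · rw [if_pos h2, if_pos h3, if_pos ⟨h2, h1.1, h3, h1.2.1, fun k hk => (h1.2.2 k hk).1⟩]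
            · rw [if_neg h3, mul_zero]; exact zero_le
          · rw [if_neg h2, zero_mul]; exact zero_le
        · rw [if_neg h1]; exact zero_le
      · have e1 : (8 : ℝ≥0∞) * (lam + M * E.card * (E934.us ν u s + E934.us ν (Flux132.opp u) s) / lam)
            = 8 * lam + 8 * (M * E.card * (E934.us ν u s + E934.us ν (Flux132.opp u) s) / lam) := by
          ring
        rw [e1]
        refine add_le_add ?_ ?_
        · calc lam = 1 * lam := (one_mul _).symm
            _ ≤ 8 * lam := by gcongr; norm_num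
        · calc M * (E.card * E934.us ν u s) / lam
              ≤ M * E.card * (E934.us ν u s + E934.us ν (Flux132.opp u) s) / lam := by
                rw [← mul_assoc]; gcongr; exact le_self_add
            _ = 1 * (M * E.card * (E934.us ν u s + E934.us ν (Flux132.opp u) s) / lam) :=
                (one_mul _).symm
            _ ≤ _ := by gcongr; norm_num)
    (fun s H E μ M lam hμ hM hl hl' => by
      have h := E934.E3 (ν := ν) (u := u) s H E (ext u μ) M lam (by rw [ext_sum]; exact hμ)
        (ext_le u μ M hM) hl hl'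
      replace h := (tsum_lat u (fun x => ext u μ x * ∑' π : List (Step d), ∑' γ : List (Step d),
        (if IsUp u H π ∧ endp 0 γ ∈ E ∧ IsDn u H γ ∧ (∃ k, k ∈ Cm u x π γ) ∧
        (∀ k ∈ Cm u x π γ, k + s ≤ H) then NB28.aw ν π * NB28.aw ν γ else 0))).le.trans h
      refine le_trans (ENNReal.tsum_le_tsum fun w => ?_) (h.trans ?_)
      · simp only [ext_val]
        refine mul_le_mul_right (ENNReal.tsum_le_tsum fun π => ENNReal.tsum_le_tsum fun γ => ?_) _
        by_cases h1 : endp 0 γ ∈ E ∧ (∃ k, k ∈ Cm u w.1 π γ) ∧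
          (∀ k ∈ Cm u w.1 π γ, s < k ∧ k + s ≤ H)
        · rw [if_pos h1]
          by_cases h2 : IsUp u H π
          · by_cases h3 : IsDn u H γ
            · rw [if_pos h2, if_pos h3, if_pos ⟨h2, h1.1, h3, h1.2.1, fun k hk => (h1.2.2 k hk).2⟩]
            · rw [if_neg h3, mul_zero]; exact zero_le
          · rw [if_neg h2, zero_mul]; exact zero_le
        · rw [if_neg h1]; exact zero_le
      · have e1 : (8 : ℝ≥0∞) * (lam + M * E.card * (E934.us ν u s + E934.us ν (Flux132.opp u) s) / lam)
            = 8 * lam + 8 * (M * E.card * (E934.us ν u s + E934.us ν (Flux132.opp u) s) / lam) := by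
          ring
        rw [e1]
        refine add_le_add le_rfl ?_
        calc 2 * (M * (E.card * E934.us ν (Flux132.opp u) s) / lam)
              ≤ 2 * (M * E.card * (E934.us ν u s + E934.us ν (Flux132.opp u) s) / lam) := by
                rw [← mul_assoc M]; gcongr; exact le_add_self
            _ ≤ _ := by gcongr; norm_num)
  intro v η hv hv1 hη
  obtain ⟨s, hs⟩ := key v η hv hv1 hη
  exact ⟨s, 0, fun H _ => hs H⟩

/-- **`KappaAll`** -/
theorem kappaAll : NB28.KappaAll := by
  refine KB169.kappaAll_of fun d hd ν _ hν u hA hB => ?_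
  obtain ⟨c, hc, _, hup, hdn⟩ := WM286.mass_pos ν hν u hA hB
  have hU : ∀ n, c * c ≤ U (Lam ν u) (ht u) n := fun n => by
    rw [U_eq28]; exact mul_le_mul' (hup n) (hdn n)
  have hU1 := HSl169.U_le_one ν u
  have hcc : c * c ≠ 0 := mul_ne_zero hc hc
  have hc1 : c ≤ 1 := (hup 0).trans
    (sum_if_le_one ν fun l l' h h' hp => NB28.isUp_prefix h h' hp)
  exact Glue849.hWin_of (Lam ν u) (ht u) (dl u) (cd u) one_le_hb (hinj u) (c * c) hcc hU hU1
    (c * c * 2⁻¹) (mul_ne_zero hcc (by simp))
    (mul_le_one' (mul_le_one' hc1 hc1) (ENNReal.inv_le_one.2 (by norm_num)))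
    (hW ν u c hc hup hdn)

/-- **`NBProp`** -/
theorem nb : Spine.NBProp := NB28.nb_of_kappaW kappaAll

end Crest.Agent.R154.FinB650
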