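import Crest.Agent.R154.SlbX_926

/-! Row 154 (helper926): frame B: `HWin` alone gives `Spine.NBProp`. -/

set_option autoImplicit false

namespace Crest.Agent.R154.FinB926

open MeasureTheory ProbabilityTheory Crest.ProbabilityR.RandomEnvironment
open scoped ENNReal

/-- everything of `KappaAll` from `HWin` -/
theorem kappaAll_of
    (hW : ∀ (d : ℕ) (_ : 3 ≤ d) (ν : Measure (Row d)) [IsProbabilityMeasure ν],
      (∀ᵐ p ∂ν, ∀ e : Step d, 0 < p.1 e) → ∀ u : Step d,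
      annealed (iidEnvironmentLaw ν) 0 (escapeEvent (B2d.dirVec u)) ≠ 0 →
      annealed (iidEnvironmentLaw ν) 0 (escapeEvent (-B2d.dirVec u)) ≠ 0 → KB391.HWin ν u) :
    NB28.KappaAll :=
  KB391.kappaAll_of
    (fun d hd ν _ hν u hA hB => SlbX926.hSlb u ν (by omega) hν hA hB) hW

theorem nb_of
    (hW : ∀ (d : ℕ) (_ : 3 ≤ d) (ν : Measure (Row d)) [IsProbabilityMeasure ν],
      (∀ᵐ p ∂ν, ∀ e : Step d, 0 < p.1 e) → ∀ u : Step d,
      annealed (iidEnvironmentLaw ν) 0 (escapeEvent (B2d.dirVec u)) ≠ 0 →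
      annealed (iidEnvironmentLaw ν) 0 (escapeEvent (-B2d.dirVec u)) ≠ 0 → KB391.HWin ν u) :
    Spine.NBProp :=
  NB28.nb_of_kappaW (kappaAll_of hW)

end Crest.Agent.R154.FinB926
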