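import Crest.Agent.R154.FP_178

/-! Row 154, road 801, assembly in the joint-cut frame, part 1 (helper139): the relative
displacement at the first joint cut of depth `≥ a` rarely falls in a set which is small on the
scale of the pieces of exact height `H`. -/

set_option autoImplicit false

namespace Crest.Agent.R154.JAsm139

open scoped ENNReal
open Crest.Agent.R154.B5A
open Crest.Agent.R154.FP178

variable {B W : Type*} (Λ : B → ℝ≥0∞) (ht : B → ℕ) (dl : B → W → W)

/-- cardinal of a set as a sum -/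
noncomputable def card (S : Set W) : ℝ≥0∞ := ∑' w, S.indicator (fun _ => (1 : ℝ≥0∞)) w

open Classical in
/-- mass of the first passages of depth `a` which end in `S` -/
noncomputable def hitS (a : ℕ) (S : Set W) (w : W) : ℝ≥0∞ :=
  ∑' L : List B, if fp ht a L then LW Λ L * S.indicator (fun _ => (1 : ℝ≥0∞)) (act dl L w) else 0

open Classical in
/-- `S` is small on the scale of the pieces of exact height `H`: there are pieces (`Sc`) of mass
at least `q` whose displacement has density at most `th`, with `th * |S| ≤ η`. -/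
def Good (q η : ℝ≥0∞) (H : ℕ) (S : Set W) : Prop :=
  ∃ (Sc : Set (List B)) (th : ℝ≥0∞),
    q ≤ ∑' L : List B, (if HT ht L = H ∧ L ∈ Sc then LW Λ L else 0) ∧
    (∀ w w', ∑' L : List B, (if HT ht L = H ∧ L ∈ Sc ∧ act dl L w = w' then LW Λ L else 0) ≤ th) ∧
    th * card S ≤ η

lemma act_inj (hinj : ∀ b, Function.Injective (dl b)) (L : List B) :
    Function.Injective (act dl L) := by
  induction L with
  | nil => exact fun _ _ h => h
  | cons b L ih => exact fun x y h => hinj b (ih h)

lemma fp_of_HT (h1 : ∀ b, 1 ≤ ht b) (L : List B) : ∀ a, HT ht L = a → fp ht a L := by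
  induction L with
  | nil => intro a h; rw [fp_nil]; simpa [HT_nil] using h.symm
  | cons b L ih =>
    intro a h
    rw [HT_cons] at h
    rw [fp_cons]
    exact ⟨by have := h1 b; omega, ih _ (by omega)⟩

lemma sum_hitS (h1 : ∀ b, 1 ≤ ht b) (hΛ : ∑' b, Λ b ≤ 1)
    (hinj : ∀ b, Function.Injective (dl b)) (a : ℕ) (S : Set W) :
    ∑' w, hitS Λ ht dl a S w ≤ card S := by
  classical
  simp only [hitS]
  rw [ENNReal.tsum_comm]
  calc _ ≤ ∑' L : List B, (if fp ht a L then LW Λ L else 0) * card S := by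
        refine ENNReal.tsum_le_tsum fun L => ?_
        by_cases h : fp ht a L
        · simp only [if_pos h]
          rw [ENNReal.tsum_mul_left]
          refine mul_le_mul_right ?_ _
          exact ENNReal.tsum_comp_le_tsum_of_injective (act_inj dl hinj L)
            (fun w => S.indicator (fun _ => (1 : ℝ≥0∞)) w)
        · simp [if_neg h]
    _ = (∑' L : List B, (if fp ht a L then LW Λ L else 0)) * card S := ENNReal.tsum_mul_right
    _ ≤ 1 * card S := mul_le_mul_left (sum_FP Λ ht h1 hΛ a) _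
    _ = _ := one_mul _

lemma hitS_le_one (h1 : ∀ b, 1 ≤ ht b) (hΛ : ∑' b, Λ b ≤ 1) (a : ℕ) (S : Set W) (w : W) :
    hitS Λ ht dl a S w ≤ 1 := by
  classical
  refine le_trans (ENNReal.tsum_le_tsum fun L => ?_) (sum_FP Λ ht h1 hΛ a)
  by_cases h : fp ht a L
  · rw [if_pos h, if_pos h]
    calc LW Λ L * _ ≤ LW Λ L * 1 := mul_le_mul_right (Set.indicator_le_self' (by simp) _ |>.trans
          (by simp)) _
      _ = _ := mul_one _
  · rw [if_neg h, if_neg h]

/-- one attempt -/
lemma hit_step (h1 : ∀ b, 1 ≤ ht b) (hΛ : ∑' b, Λ b = 1) (hU1 : ∀ n, U Λ ht n ≤ 1)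
    (hinj : ∀ b, Function.Injective (dl b)) (q η : ℝ≥0∞) (H : ℕ) (S : Set W)
    (hG : Good Λ ht dl q η H S) (N : ℕ) (v : ℝ≥0∞)
    (hv : ∀ a, N ≤ a → ∀ w, hitS Λ ht dl a S w ≤ v) (a : ℕ) (ha : N + 2 * H ≤ a) (w : W) :
    hitS Λ ht dl a S w ≤ (1 - q) * v + η + ∑' k, tail Λ ht (H + k) := by
  classical
  obtain ⟨Sc, th, hq, hd, hS⟩ := hG
  have e1 : hitS Λ ht dl a S w
      = ∑' A : List B, (if fp ht H A then LW Λ A * hitS Λ ht dl (a - HT ht A) S (act dl A w)
          else 0) := by
    rw [hitS, fp_split Λ ht h1 H a (by omega)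
      (fun L => S.indicator (fun _ => (1 : ℝ≥0∞)) (act dl L w))]
    refine tsum_congr fun A => ?_
    simp only [act_append]
    rfl
  rw [e1]
  set g : List B → ℝ≥0∞ := fun A => hitS Λ ht dl (a - HT ht A) S (act dl A w) with hg
  have hsplit : ∀ A : List B, (if fp ht H A then LW Λ A * g A else 0)
      ≤ (if fp ht H A ∧ ¬ (HT ht A = H ∧ A ∈ Sc) then LW Λ A else 0) * v
        + (if HT ht A = H ∧ A ∈ Sc then LW Λ A * g A else 0)
        + (if fp ht H A ∧ H + H < HT ht A then LW Λ A else 0) := by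
    intro A
    by_cases hf : fp ht H A
    · rw [if_pos hf]
      by_cases hs : HT ht A = H ∧ A ∈ Sc
      · rw [if_pos hs]
        exact le_add_right (le_add_left le_rfl)
      · rw [if_neg hs, if_pos (⟨hf, hs⟩ : fp ht H A ∧ ¬ (HT ht A = H ∧ A ∈ Sc))]
        by_cases hh : H + H < HT ht A
        · rw [if_pos ⟨hf, hh⟩]
          refine le_add_left ?_
          calc LW Λ A * g A ≤ LW Λ A * 1 :=
                mul_le_mul_right (hitS_le_one Λ ht dl h1 hΛ.le _ _ _) _
            _ = _ := mul_one _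
        · refine le_add_right (le_add_right (mul_le_mul_right ?_ _))
          exact hv _ (by omega) _
    · rw [if_neg hf]; exact zero_le
  have hmass : (∑' A : List B, (if fp ht H A ∧ ¬ (HT ht A = H ∧ A ∈ Sc) then LW Λ A else 0))
      ≤ 1 - q := by
    refine ENNReal.le_sub_of_add_le_right (ne_top_of_le_ne_top ENNReal.one_ne_top
      (hq.trans ((ENNReal.tsum_le_tsum fun L => ?_).trans (hU1 H)))) ?_
    · by_cases h : HT ht L = H
      · rw [if_pos h]; split_ifs <;> simp
      · rw [if_neg h, if_neg (fun h' => h h'.1)]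
    · calc _ ≤ (∑' A : List B, (if fp ht H A ∧ ¬ (HT ht A = H ∧ A ∈ Sc) then LW Λ A else 0))
            + ∑' L : List B, (if HT ht L = H ∧ L ∈ Sc then LW Λ L else 0) := by gcongr
        _ = ∑' A : List B, ((if fp ht H A ∧ ¬ (HT ht A = H ∧ A ∈ Sc) then LW Λ A else 0)
            + (if HT ht A = H ∧ A ∈ Sc then LW Λ A else 0)) := ENNReal.tsum_add.symm
        _ ≤ ∑' A : List B, (if fp ht H A then LW Λ A else 0) := by
          refine ENNReal.tsum_le_tsum fun A => ?_
          by_cases hs : HT ht A = H ∧ A ∈ Sc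
          · rw [if_neg (fun h => h.2 hs), if_pos hs, if_pos (fp_of_HT ht h1 A H hs.1), zero_add]
          · rw [if_neg hs, add_zero]
            by_cases hf : fp ht H A
            · rw [if_pos hf, if_pos ⟨hf, hs⟩]
            · rw [if_neg hf, if_neg (fun h => hf h.1)]
        _ ≤ 1 := sum_FP Λ ht h1 hΛ.le H
  have hsucc : (∑' A : List B, (if HT ht A = H ∧ A ∈ Sc then LW Λ A * g A else 0)) ≤ η := by
    have e2 : ∀ A : List B, (if HT ht A = H ∧ A ∈ Sc then LW Λ A * g A else 0)
        = ∑' w', (if HT ht A = H ∧ A ∈ Sc ∧ act dl A w = w' then LW Λ A else 0)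
            * hitS Λ ht dl (a - H) S w' := by
      intro A
      rw [tsum_eq_single (act dl A w)]
      · by_cases hs : HT ht A = H ∧ A ∈ Sc
        · rw [if_pos hs, if_pos ⟨hs.1, hs.2, rfl⟩, hg]
          simp only [hs.1]
        · rw [if_neg hs, if_neg (fun h => hs ⟨h.1, h.2.1⟩), zero_mul]
      · intro w' hw'
        rw [if_neg (fun h => hw' h.2.2.symm), zero_mul]
    rw [tsum_congr e2, ENNReal.tsum_comm]
    calc _ ≤ ∑' w', th * hitS Λ ht dl (a - H) S w' := by
          refine ENNReal.tsum_le_tsum fun w' => ?_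
          rw [ENNReal.tsum_mul_right]
          exact mul_le_mul_left (hd w w') _
      _ = th * ∑' w', hitS Λ ht dl (a - H) S w' := ENNReal.tsum_mul_left
      _ ≤ th * card S := mul_le_mul_right (sum_hitS Λ ht dl h1 hΛ.le hinj _ _) _
      _ ≤ η := hS
  calc _ ≤ ∑' A : List B, ((if fp ht H A ∧ ¬ (HT ht A = H ∧ A ∈ Sc) then LW Λ A else 0) * v
        + (if HT ht A = H ∧ A ∈ Sc then LW Λ A * g A else 0)
        + (if fp ht H A ∧ H + H < HT ht A then LW Λ A else 0)) := ENNReal.tsum_le_tsum hsplit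
    _ = (∑' A : List B, (if fp ht H A ∧ ¬ (HT ht A = H ∧ A ∈ Sc) then LW Λ A else 0)) * v
        + (∑' A : List B, (if HT ht A = H ∧ A ∈ Sc then LW Λ A * g A else 0))
        + ∑' A : List B, (if fp ht H A ∧ H + H < HT ht A then LW Λ A else 0) := by
          rw [ENNReal.tsum_add, ENNReal.tsum_add, ENNReal.tsum_mul_right]
    _ ≤ (1 - q) * v + η + ∑' k, tail Λ ht (H + k) := by
          gcongr
          exact overshoot Λ ht h1 hU1 H H

/-- **hitting a small set** after `J` attempts -/
theorem hit_le (h1 : ∀ b, 1 ≤ ht b) (hΛ : ∑' b, Λ b = 1) (hU1 : ∀ n, U Λ ht n ≤ 1)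
    (hinj : ∀ b, Function.Injective (dl b)) (q η : ℝ≥0∞) (H : ℕ) (S : Set W)
    (hG : Good Λ ht dl q η H S) (J : ℕ) (a : ℕ) (ha : J * (2 * H) ≤ a) (w : W) :
    hitS Λ ht dl a S w ≤ (1 - q) ^ J + J * (η + ∑' k, tail Λ ht (H + k)) := by
  induction J generalizing a w with
  | zero => simpa using hitS_le_one Λ ht dl h1 hΛ.le a S w
  | succ J ih =>
    have := hit_step Λ ht dl h1 hΛ hU1 hinj q η H S hG (J * (2 * H)) _
      (fun a ha w => ih a ha w) a (by linarith [Nat.succ_mul J (2 * H)]) w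
    refine this.trans ?_
    set e := ∑' k, tail Λ ht (H + k)
    calc (1 - q) * ((1 - q) ^ J + J * (η + e)) + η + e
        = (1 - q) ^ (J + 1) + (1 - q) * (J * (η + e)) + (η + e) := by ring
      _ ≤ (1 - q) ^ (J + 1) + 1 * (J * (η + e)) + (η + e) := by
          gcongr
          exact tsub_le_self
      _ = (1 - q) ^ (J + 1) + ((J + 1 : ℕ) : ℝ≥0∞) * (η + e) := by push_cast; ring

end Crest.Agent.R154.JAsm139
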