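import Crest.Agent.R154.Comp_818
import Crest.Agent.R154.JHit_139

/-! Row 154, ROAD 801, frame B (helper19): helper818's `hWin` from helper139's `hit_le` and `hW`. -/

set_option autoImplicit false
set_option linter.unusedSectionVars false
set_option linter.unusedVariables false

namespace Crest.Agent.R154.HWinB19

open Filter Topology
open scoped ENNReal
open Crest.Agent.R154.B5A
open Crest.Agent.R154.FP178
open Crest.Agent.R154.JAsm139 (hitS Good hit_le)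
open Crest.Agent.R154.Comp818 (att WLp)

/-! ### numbers -/

lemma pow_exp (c : ℝ) (hc : 0 < c) (hc1 : c ≤ 1) (r : ℕ) (hr : 1 ≤ r) :
    (1 - c * ((r : ℝ) ^ 3)⁻¹) ^ (r ^ 4) ≤ Real.exp (-(c * r)) := by
  have hr0 : (1 : ℝ) ≤ r := by exact_mod_cast hr
  have h3 : (1 : ℝ) ≤ (r : ℝ) ^ 3 := one_le_pow₀ hr0
  have hi : ((r : ℝ) ^ 3)⁻¹ ≤ 1 := inv_le_one_of_one_le₀ h3
  have hi0 : 0 < ((r : ℝ) ^ 3)⁻¹ := by positivity
  have h0 : 0 ≤ 1 - c * ((r : ℝ) ^ 3)⁻¹ := by nlinarith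
  have h1 : 1 - c * ((r : ℝ) ^ 3)⁻¹ ≤ Real.exp (-(c * ((r : ℝ) ^ 3)⁻¹)) := by
    have := Real.add_one_le_exp (-(c * ((r : ℝ) ^ 3)⁻¹))
    linarith
  calc (1 - c * ((r : ℝ) ^ 3)⁻¹) ^ (r ^ 4) ≤ (Real.exp (-(c * ((r : ℝ) ^ 3)⁻¹))) ^ (r ^ 4) := by
        gcongr
    _ = Real.exp (-(c * r)) := by
        rw [← Real.exp_nat_mul]
        congr 1
        have : (r : ℝ) ≠ 0 := by positivity
        push_cast
        field_simp

theorem num_real (c : ℝ) (hc : 0 < c) (hc1 : c ≤ 1) (ε : ℝ) (hε : 0 < ε) :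
    ∃ r : ℕ, 1 ≤ r ∧ (16 * (r : ℝ) ^ 4) * (((r : ℝ) ^ 3)⁻¹ * ((r : ℝ) ^ 3)⁻¹) ≤ ε ∧
      (16 * (r : ℝ) ^ 4) * (1 - c * ((r : ℝ) ^ 3)⁻¹) ^ (r ^ 4) ≤ ε := by
  have t1 : Tendsto (fun r : ℕ => 16 * ((r : ℝ))⁻¹) atTop (𝓝 0) := by
    have := (tendsto_inv_atTop_nhds_zero_nat (𝕜 := ℝ)).const_mul 16
    simpa using this
  have t2 : Tendsto (fun r : ℕ => (16 * (r : ℝ) ^ 4) * Real.exp (-(c * r))) atTop (𝓝 0) := by
    have hq : Real.exp (-c) < 1 := by
      rw [Real.exp_lt_one_iff]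
      linarith
    have a1 := tendsto_pow_const_mul_const_pow_of_abs_lt_one 4 (r := Real.exp (-c))
      (by rw [abs_of_pos (Real.exp_pos _)]; exact hq)
    have := a1.const_mul 16
    simp only [mul_zero] at this
    refine this.congr fun r => ?_
    rw [← Real.exp_nat_mul]
    have : (r : ℝ) * -c = -(c * r) := by ring
    rw [this]
    ring
  have e1 := t1.eventually (ge_mem_nhds hε)
  have e2 := t2.eventually (ge_mem_nhds hε)
  obtain ⟨r, ⟨h1, h2⟩, h3⟩ := ((e1.and e2).and (eventually_ge_atTop 1)).exists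
  have hr0 : (1 : ℝ) ≤ r := by exact_mod_cast h3
  refine ⟨r, h3, ?_, ?_⟩
  · refine le_trans ?_ h1
    have e : (16 * (r : ℝ) ^ 4) * (((r : ℝ) ^ 3)⁻¹ * ((r : ℝ) ^ 3)⁻¹) = 16 * ((r : ℝ) ^ 2)⁻¹ := by
      have : (r : ℝ) ≠ 0 := by positivity
      field_simp
    rw [e]
    have : ((r : ℝ) ^ 2)⁻¹ ≤ ((r : ℝ))⁻¹ := by
      apply inv_anti₀ (by positivity)
      nlinarith
    linarith
  · refine le_trans ?_ h2
    have := pow_exp c hc hc1 r h3
    gcongr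

theorem numK (c1 : ℝ≥0∞) (hc : c1 ≠ 0) (hc1 : c1 ≤ 1) (ε : ℝ≥0∞) (hε : ε ≠ 0) :
    ∃ (K J : ℕ) (v : ℝ≥0∞), 1 ≤ K ∧ v ≠ 0 ∧ v ≤ 1 ∧ 16 * J ≤ K ∧ (K : ℝ≥0∞) * (v * v) ≤ ε ∧
      (K : ℝ≥0∞) * (1 - c1 * v) ^ J ≤ ε := by
  have hct : c1 ≠ ⊤ := ne_top_of_le_ne_top ENNReal.one_ne_top hc1
  set ε' : ℝ≥0∞ := min ε 1 with hε'
  have he0 : ε' ≠ 0 := by rw [hε']; exact (lt_min (pos_iff_ne_zero.2 hε) one_pos).ne'
  have het : ε' ≠ ⊤ := ne_top_of_le_ne_top ENNReal.one_ne_top (min_le_right _ _)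
  have hcr : 0 < c1.toReal := ENNReal.toReal_pos hc hct
  have hcr1 : c1.toReal ≤ 1 := by
    have := ENNReal.toReal_mono ENNReal.one_ne_top hc1
    simpa using this
  obtain ⟨r, hr, h1, h2⟩ := num_real c1.toReal hcr hcr1 ε'.toReal (ENNReal.toReal_pos he0 het)
  have hr0 : (1 : ℝ) ≤ r := by exact_mod_cast hr
  have h3 : (1 : ℝ) ≤ (r : ℝ) ^ 3 := one_le_pow₀ hr0
  have hi : ((r : ℝ) ^ 3)⁻¹ ≤ 1 := inv_le_one_of_one_le₀ h3
  have hi0 : 0 < ((r : ℝ) ^ 3)⁻¹ := by positivity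
  have hK : ((16 * r ^ 4 : ℕ) : ℝ≥0∞) = ENNReal.ofReal (16 * (r : ℝ) ^ 4) := by
    rw [show (16 * (r : ℝ) ^ 4) = ((16 * r ^ 4 : ℕ) : ℝ) by push_cast; ring, ENNReal.ofReal_natCast]
  have hcc : c1 = ENNReal.ofReal c1.toReal := (ENNReal.ofReal_toReal hct).symm
  refine ⟨16 * r ^ 4, r ^ 4, ENNReal.ofReal (((r : ℝ) ^ 3)⁻¹), ?_, ?_, ?_, le_rfl, ?_, ?_⟩
  · have : 1 ≤ r ^ 4 := Nat.one_le_pow _ _ (by omega)
    omega
  · rw [Ne, ENNReal.ofReal_eq_zero]; linarith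
  · rw [← ENNReal.ofReal_one]; exact ENNReal.ofReal_le_ofReal hi
  · refine le_trans (b := ε') ?_ (min_le_left ε 1)
    rw [hK, ← ENNReal.ofReal_mul (by positivity), ← ENNReal.ofReal_mul (by positivity),
      ← ENNReal.ofReal_toReal het]
    exact ENNReal.ofReal_le_ofReal h1
  · refine le_trans (b := ε') ?_ (min_le_left ε 1)
    have e1 : (1 : ℝ≥0∞) - c1 * ENNReal.ofReal (((r : ℝ) ^ 3)⁻¹)
        = ENNReal.ofReal (1 - c1.toReal * ((r : ℝ) ^ 3)⁻¹) := by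
      rw [ENNReal.ofReal_sub _ (by positivity), ENNReal.ofReal_one,
        ENNReal.ofReal_mul (by positivity), ← hcc]
    rw [e1, ← ENNReal.ofReal_pow (by nlinarith), hK, ← ENNReal.ofReal_mul (by positivity),
      ← ENNReal.ofReal_toReal het]
    exact ENNReal.ofReal_le_ofReal h2

/-! ### lists -/

variable {B W : Type*} (Λ : B → ℝ≥0∞) (ht : B → ℕ) (dl : B → W → W) (cd : W → B → Set ℕ)

lemma fp_of_att (h1 : ∀ b, 1 ≤ ht b) (L : List B) : ∀ a, att ht a L → fp ht a L := by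
  induction L with
  | nil =>
    intro a h
    rw [fp_nil]
    have := h.1
    rw [HT_nil] at this
    omega
  | cons b L ih =>
    intro a h
    have h0 := h.2 0 (by simp)
    simp only [List.take_zero, HT_nil] at h0
    rw [fp_cons]
    refine ⟨h0, ih _ ⟨?_, fun i hi => ?_⟩⟩
    · have := h.1
      rw [HT_cons] at this
      omega
    · have := h.2 (i + 1) (by simpa using hi)
      rw [List.take_succ_cons, HT_cons] at this
      omega

lemma WLp_le_one (hU1 : ∀ n, U Λ ht n ≤ 1) (H s : ℕ) (w : W) : WLp Λ ht dl cd H s w ≤ 1 := by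
  classical
  refine le_trans ?_ (hU1 H)
  unfold WLp U
  refine ENNReal.tsum_le_tsum fun L => ?_
  by_cases h : HT ht L = H
  · rw [if_pos h]
    split_ifs
    · exact le_rfl
    · exact zero_le
  · rw [if_neg (fun hh => h hh.1)]
    exact zero_le

open Classical in
/-- **helper818's `hWin` from helper139's `hW`.** -/
theorem hWin_of (h1 : ∀ b, 1 ≤ ht b) (hΛ : ∑' b, Λ b = 1) (hU1 : ∀ n, U Λ ht n ≤ 1)
    (hinj : ∀ b, Function.Injective (dl b)) (hT : ∑' k, tail Λ ht k ≠ ⊤)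
    (c1 : ℝ≥0∞) (hc : c1 ≠ 0) (hc1 : c1 ≤ 1)
    (hW : ∀ u η : ℝ≥0∞, u ≠ 0 → u ≤ 1 → η ≠ 0 → ∃ s H0 : ℕ, ∀ H, H0 ≤ H → ∃ S1 S2 : Set W,
      Good Λ ht dl (c1 * u) η H S1 ∧ Good Λ ht dl (c1 * u) η H S2 ∧
      ∀ w, w ∉ S1 → w ∉ S2 →
        (∑' L : List B, if HT ht L = H ∧ CD ht dl cd L w ≠ ∅ ∧
          (∀ k ∈ CD ht dl cd L w, s < k ∧ k + s ≤ H) then LW Λ L else 0) ≤ u * u + η) :
    ∀ ε : ℝ≥0∞, ε ≠ 0 → ∃ K : ℕ, 1 ≤ K ∧ ∀ i0 : ℕ, ∃ s H0 : ℕ, ∀ H, H0 ≤ H →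
      ∀ a, K * H ≤ 8 * a → ∀ w, ∑' L1 : List B, (if att ht a L1 ∧ HT ht L1 ≤ a + i0 then
        LW Λ L1 * WLp Λ ht dl cd H s (act dl L1 w) else 0) ≤ ε / K := by
  intro ε hε
  obtain ⟨K, J, v, hK1, hv0, hv1, hJK, n1, n2⟩ := numK c1 hc hc1 (ε / 8)
    (ENNReal.div_pos hε (by norm_num)).ne'
  refine ⟨K, hK1, fun i0 => ?_⟩
  have hKt : (K : ℝ≥0∞) ≠ ⊤ := ENNReal.natCast_ne_top K
  have hK0 : (K : ℝ≥0∞) ≠ 0 := by
    have : K ≠ 0 := by omega
    exact_mod_cast this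
  have hJt : (J : ℝ≥0∞) ≠ ⊤ := ENNReal.natCast_ne_top J
  set A : ℝ≥0∞ := 2 * (K * J) + K with hA
  have hAt : A ≠ ⊤ := ENNReal.add_ne_top.2 ⟨ENNReal.mul_ne_top (by norm_num)
    (ENNReal.mul_ne_top hKt hJt), hKt⟩
  set η : ℝ≥0∞ := ε / 4 / A with hη
  have hη0 : η ≠ 0 := (ENNReal.div_pos (ENNReal.div_pos hε (by norm_num)).ne' hAt).ne'
  have hAη : A * η ≤ ε / 4 := ENNReal.mul_div_le
  obtain ⟨s, H0, hH0⟩ := hW v η hv0 hv1 hη0
  -- tail
  have ht0 : Tendsto (fun H : ℕ => A * ∑' k, tail Λ ht (H + k)) atTop (𝓝 0) := by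
    have := ENNReal.Tendsto.const_mul (a := A)
      (ENNReal.tendsto_sum_nat_add (fun k => tail Λ ht k) hT) (Or.inr hAt)
    simp only [mul_zero] at this
    refine this.congr fun H => ?_
    congr 1
    exact tsum_congr fun k => by rw [add_comm]
  obtain ⟨H1, hH1⟩ := eventually_atTop.1 ((ENNReal.tendsto_nhds_zero.1 ht0) (ε / 4)
    (ENNReal.div_pos hε (by norm_num)))
  refine ⟨s, max H0 H1, fun H hH a ha w => ?_⟩
  obtain ⟨S1, S2, g1, g2, hS⟩ := hH0 H ((le_max_left _ _).trans hH)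
  have hJ : J * (2 * H) ≤ a := by
    have : 16 * J * H ≤ K * H := Nat.mul_le_mul_right _ hJK
    nlinarith
  have k1 := hit_le Λ ht dl h1 hΛ hU1 hinj _ _ H S1 g1 J a hJ w
  have k2 := hit_le Λ ht dl h1 hΛ hU1 hinj _ _ H S2 g2 J a hJ w
  set e := ∑' k, tail Λ ht (H + k) with he
  have hmain : ∑' L1 : List B, (if att ht a L1 then
      LW Λ L1 * WLp Λ ht dl cd H s (act dl L1 w) else 0)
      ≤ hitS Λ ht dl a S1 w + hitS Λ ht dl a S2 w + (v * v + η) := by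
    calc _ ≤ ∑' L1 : List B, ((if fp ht a L1 then
            LW Λ L1 * S1.indicator (fun _ => (1 : ℝ≥0∞)) (act dl L1 w) else 0)
          + (if fp ht a L1 then LW Λ L1 * S2.indicator (fun _ => (1 : ℝ≥0∞)) (act dl L1 w) else 0)
          + (if fp ht a L1 then LW Λ L1 else 0) * (v * v + η)) := by
          refine ENNReal.tsum_le_tsum fun L => ?_
          by_cases hL : att ht a L
          · have hf := fp_of_att ht h1 L a hL
            rw [if_pos hL, if_pos hf, if_pos hf, if_pos hf]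
            by_cases hs1 : act dl L w ∈ S1
            · rw [Set.indicator_of_mem hs1]
              calc LW Λ L * WLp Λ ht dl cd H s (act dl L w) ≤ LW Λ L * 1 := by
                    gcongr; exact WLp_le_one Λ ht dl cd hU1 H s _
                _ ≤ _ := by rw [add_assoc]; exact le_self_add
            · by_cases hs2 : act dl L w ∈ S2
              · rw [Set.indicator_of_mem hs2]
                calc LW Λ L * WLp Λ ht dl cd H s (act dl L w) ≤ LW Λ L * 1 := by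
                      gcongr; exact WLp_le_one Λ ht dl cd hU1 H s _
                  _ ≤ _ := by
                    rw [add_comm (LW Λ L * S1.indicator (fun _ => (1 : ℝ≥0∞)) (act dl L w)),
                      add_assoc]
                    exact le_self_add
              · calc LW Λ L * WLp Λ ht dl cd H s (act dl L w) ≤ LW Λ L * (v * v + η) := by
                      gcongr
                      exact hS _ hs1 hs2
                  _ ≤ _ := le_add_self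
          · rw [if_neg hL]
            exact zero_le
      _ = hitS Λ ht dl a S1 w + hitS Λ ht dl a S2 w
          + (∑' L1 : List B, (if fp ht a L1 then LW Λ L1 else 0)) * (v * v + η) := by
          rw [ENNReal.tsum_add, ENNReal.tsum_add, ENNReal.tsum_mul_right]
          rfl
      _ ≤ hitS Λ ht dl a S1 w + hitS Λ ht dl a S2 w + 1 * (v * v + η) := by
          gcongr
          have := JAsm139.hitS_le_one Λ ht dl h1 hΛ.le a Set.univ w
          refine le_trans (le_of_eq ?_) this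
          unfold hitS
          refine tsum_congr fun L => ?_
          simp
      _ = _ := by rw [one_mul]
  rw [ENNReal.le_div_iff_mul_le (Or.inl hK0) (Or.inl hKt)]
  have hle : ∑' L1 : List B, (if att ht a L1 ∧ HT ht L1 ≤ a + i0 then
      LW Λ L1 * WLp Λ ht dl cd H s (act dl L1 w) else 0)
      ≤ hitS Λ ht dl a S1 w + hitS Λ ht dl a S2 w + (v * v + η) := by
    refine le_trans ?_ hmain
    refine ENNReal.tsum_le_tsum fun L => ?_
    split_ifs with p1 p2 p2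
    · exact le_rfl
    · exact absurd p1.1 p2
    · exact zero_le
    · exact zero_le
  calc _ ≤ (((1 - c1 * v) ^ J + J * (η + e)) + ((1 - c1 * v) ^ J + J * (η + e)) + (v * v + η)) * K := by
        refine mul_le_mul_left (hle.trans ?_) _
        gcongr
    _ = 2 * (K * (1 - c1 * v) ^ J) + K * (v * v) + A * η + (2 * (K * J)) * e := by
        rw [hA]; ring
    _ ≤ 2 * (ε / 8) + ε / 8 + ε / 4 + ε / 4 := by
        gcongr
        refine le_trans ?_ (hH1 H ((le_max_right _ _).trans hH))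
        gcongr
        exact le_self_add
    _ ≤ ε := by
        have h8 : ε / 4 = 2 * (ε / 8) := by
          rw [ENNReal.div_eq_inv_mul, ENNReal.div_eq_inv_mul, ← mul_assoc]
          congr 1
          rw [← ENNReal.toReal_eq_toReal_iff' (by simp) (by
            exact ENNReal.mul_ne_top (by norm_num) (by simp))]
          simp [ENNReal.toReal_mul, ENNReal.toReal_inv]
          norm_num
        rw [h8]
        calc 2 * (ε / 8) + ε / 8 + 2 * (ε / 8) + 2 * (ε / 8) = 7 * (ε / 8) := by ring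
          _ ≤ 8 * (ε / 8) := by gcongr; norm_num
          _ ≤ ε := ENNReal.mul_div_le

open Classical in
/-- the same with `c ≤ U n` (mass one and finite mean follow). -/
theorem hWin_of' (h1 : ∀ b, 1 ≤ ht b) (c : ℝ≥0∞) (hc0 : c ≠ 0) (hU : ∀ n, c ≤ U Λ ht n)
    (hU1 : ∀ n, U Λ ht n ≤ 1) (hinj : ∀ b, Function.Injective (dl b))
    (c1 : ℝ≥0∞) (hc : c1 ≠ 0) (hc1 : c1 ≤ 1)
    (hW : ∀ u η : ℝ≥0∞, u ≠ 0 → u ≤ 1 → η ≠ 0 → ∃ s H0 : ℕ, ∀ H, H0 ≤ H → ∃ S1 S2 : Set W,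
      Good Λ ht dl (c1 * u) η H S1 ∧ Good Λ ht dl (c1 * u) η H S2 ∧
      ∀ w, w ∉ S1 → w ∉ S2 →
        (∑' L : List B, if HT ht L = H ∧ CD ht dl cd L w ≠ ∅ ∧
          (∀ k ∈ CD ht dl cd L w, s < k ∧ k + s ≤ H) then LW Λ L else 0) ≤ u * u + η) :
    ∀ ε : ℝ≥0∞, ε ≠ 0 → ∃ K : ℕ, 1 ≤ K ∧ ∀ i0 : ℕ, ∃ s H0 : ℕ, ∀ H, H0 ≤ H →
      ∀ a, K * H ≤ 8 * a → ∀ w, ∑' L1 : List B, (if att ht a L1 ∧ HT ht L1 ≤ a + i0 then
        LW Λ L1 * WLp Λ ht dl cd H s (act dl L1 w) else 0) ≤ ε / K := by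
  have hΛ : ∑' b, Λ b = 1 := le_antisymm (mass_le_one Λ ht h1 hU1)
    (mass_ge_one Λ ht c hc0 0 fun n _ => hU n)
  have hct : c ≠ ⊤ := ne_top_of_le_ne_top ENNReal.one_ne_top ((hU 0).trans (hU1 0))
  refine hWin_of Λ ht dl cd h1 hΛ hU1 hinj ?_ c1 hc hc1 hW
  rw [← sum_tail Λ ht hΛ]
  exact ne_top_of_le_ne_top (ENNReal.inv_ne_top.2 hc0)
    (mean_le Λ ht h1 hΛ c hc0 hct 0 fun n _ => hU n)

end Crest.Agent.R154.HWinB19
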