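import Crest.Agent.R154.HW_334
import Crest.Agent.R154.E2_934
import Crest.Agent.R154.E3_934
import Crest.Agent.R154.HWinB_19
import Crest.Agent.R154.FinB_926

/-! Row 154 (helper926): last binding of frame B: `KB391.HWin` from 334's `hW_of`, 934's `E2`,
`E3` and 19's `hWin_of'`. -/

set_option autoImplicit false

namespace Crest.Agent.R154.FinW926

open MeasureTheory ProbabilityTheory Crest.ProbabilityR.RandomEnvironment
open Crest.Agent.R154.B5A
open Crest.Agent.R154.B5W (Lat PB cat dlp tsum_L CD_cat cds_eq U_eq28)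
open Crest.Agent.R154.Flux132 (lev opp)
open Crest.Agent.R154.Flux566 (lw endp sitesL)
open Crest.Agent.R154.NB28 (IsUp IsDn aw Cm)
open scoped ENNReal

variable {d : ℕ} (u : Step d)

lemma act_val (L : List (PB u)) (w : Lat u) :
    (act (B5W.dl u) L w).1 = w.1 + endp 0 (cat L).1 + endp 0 (cat L).2 := by
  induction L generalizing w with
  | nil => simp [act, cat, endp]
  | cons b L ih =>
    rw [act, ih]
    have e : cat (b :: L) = (((cat L).1 ++ b.1.1, b.1.2 ++ (cat L).2) : List (Step d) × List (Step d)) := rfl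
    have e2 : (B5W.dl u b w).1 = w.1 + endp 0 b.1.1 + endp 0 b.1.2 := rfl
    rw [e, e2]
    simp only [Flux566.endp_append]
    rw [Flux566.endp_eq_add b.1.1 (endp 0 (cat L).1), Flux566.endp_eq_add (cat L).2 (endp 0 b.1.2)]
    abel

variable (ν : Measure (Row d)) [IsProbabilityMeasure ν]

open Classical in
lemma ext_sum (μ : Lat u → ℝ≥0∞) (F : Site d → ℝ≥0∞) :
    ∑' x : Site d, (if h : lev u x = 0 then μ ⟨x, h⟩ else 0) * F x = ∑' w : Lat u, μ w * F w.1 := by
  have h := tsum_subtype {x : Site d | lev u x = 0}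
    (fun x => (if h : lev u x = 0 then μ ⟨x, h⟩ else 0) * F x)
  have h2 : ∑' w : Lat u, μ w * F w.1 = ∑' x : {x : Site d | lev u x = 0},
      (if h : lev u x.1 = 0 then μ ⟨x.1, h⟩ else 0) * F x.1 := by
    refine tsum_congr fun x => ?_
    have hx : lev u x.1 = 0 := x.2
    rw [dif_pos hx]
    rfl
  rw [h2, h]
  refine tsum_congr fun x => ?_
  by_cases hx : lev u x = 0
  · rw [Set.indicator_of_mem (show x ∈ {x : Site d | lev u x = 0} from hx)]
  · rw [Set.indicator_of_notMem (show x ∉ {x : Site d | lev u x = 0} from hx), dif_neg hx, zero_mul]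

theorem hWin (hν : ∀ᵐ p ∂ν, ∀ e : Step d, 0 < p.1 e)
    (hA : annealed (iidEnvironmentLaw ν) 0 (escapeEvent (B2d.dirVec u)) ≠ 0)
    (hB : annealed (iidEnvironmentLaw ν) 0 (escapeEvent (-B2d.dirVec u)) ≠ 0) :
    KB391.HWin ν u := by
  classical
  obtain ⟨c, hc, -, hup, hdn⟩ := WM286.mass_pos ν hν u hA hB
  obtain ⟨c2, hc2, hU, hU1⟩ := KB391.masses ν u hν hA hB
  have hup1 : ∀ H, (∑' π : List (Step d), if IsUp u H π then aw ν π else 0) ≤ 1 := fun H =>
    B5W.sum_if_le_one ν fun l l' h h' hp => NB28.isUp_prefix h h' hp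
  have hdn1 : ∀ H, (∑' γ : List (Step d), if IsDn u H γ then aw ν γ else 0) ≤ 1 := fun H =>
    B5W.sum_if_le_one ν fun l l' h h' hp => NB28.isDn_prefix h h' hp
  have hc1 : c ≤ 1 := (hup 0).trans (hup1 0)
  have hcc : c * c * 2⁻¹ ≤ 1 :=
    mul_le_one' (mul_le_one' hc1 hc1) (ENNReal.inv_le_one.2 (by norm_num))
  have key := HW334.hW_of (B5W.Lam ν u) (B5W.ht u) (B5W.dl u) (B5W.cd u)
    (cat (h := B5W.hu u) (h' := B5W.hdn u)) (fun w : Lat u => w.1) (endp 0) (endp 0)
    (fun H π => if IsUp u H π then aw ν π else 0) (fun H γ => if IsDn u H γ then aw ν γ else 0)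
    (fun w π γ => Cm u w.1 π γ) ?hcat (fun L w => act_val u L w)
    (fun L w => by rw [CD_cat, ← cds_eq]) c hc hup hup1 hdn hdn1
    (fun s => E934.us ν u s + E934.us ν (opp u) s) ?hus 8 (by norm_num) (by norm_num) ?hW2 ?hW3
  · refine HWinB19.hWin_of' (B5W.Lam ν u) (B5W.ht u) (B5W.dl u) (B5W.cd u) B5W.one_le_hb
      c2 hc2 hU hU1 (B5W.hinj u) (c * c * 2⁻¹)
      (mul_ne_zero (mul_ne_zero hc hc) (by norm_num)) hcc ?_
    intro x η hx hx1 hη
    obtain ⟨s, hs⟩ := key x η hx hx1 hη
    exact ⟨s, 0, fun H _ => hs H⟩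
  case hcat =>
    intro H F
    have h := tsum_L ν u H (fun x => F x.1 x.2)
    refine h.trans (tsum_congr fun π => tsum_congr fun γ => ?_)
    by_cases h1 : IsUp u H π <;> by_cases h2 : IsDn u H γ <;> simp [h1, h2]
  case hus =>
    intro ε hε
    obtain ⟨s1, h1⟩ := E934.us_small ν u (ε / 2) (ENNReal.half_pos hε).ne'
    obtain ⟨s2, h2⟩ := E934.us_small ν (opp u) (ε / 2) (ENNReal.half_pos hε).ne'
    refine ⟨max s1 s2, ?_⟩
    calc _ ≤ ε / 2 + ε / 2 := add_le_add (h1 _ (le_max_left _ _)) (h2 _ (le_max_right _ _))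
      _ = ε := ENNReal.add_halves ε
  case hW2 =>
    intro s H E μ M lam hμ hM hl0 hl
    have hE := E934.E2 (u := u) ν s H E (fun x => if h : lev u x = 0 then μ ⟨x, h⟩ else 0) M lam
      (by
        have := ext_sum u μ (fun _ => 1)
        simp only [mul_one] at this
        rw [this]; exact hμ)
      (fun x => by
        by_cases h : lev u x = 0
        · simp only [dif_pos h]; exact hM _
        · simp only [dif_neg h]; exact zero_le)
      hl0 hl
    have h3 := ext_sum u μ (fun x => ∑' π : List (Step d), ∑' γ : List (Step d),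
      (if IsUp u H π ∧ endp 0 π ∈ E ∧ IsDn u H γ ∧ (∃ k, k ∈ Cm u x π γ) ∧
        (∀ k ∈ Cm u x π γ, s < k) then aw ν π * aw ν γ else 0))
    calc _ ≤ ∑' w : Lat u, μ w * ∑' π : List (Step d), ∑' γ : List (Step d),
      (if IsUp u H π ∧ endp 0 π ∈ E ∧ IsDn u H γ ∧ (∃ k, k ∈ Cm u w.1 π γ) ∧
        (∀ k ∈ Cm u w.1 π γ, s < k) then aw ν π * aw ν γ else 0) := by
          refine ENNReal.tsum_le_tsum fun w => mul_le_mul_right
            (ENNReal.tsum_le_tsum fun π => ENNReal.tsum_le_tsum fun γ => ?_) _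
          by_cases hh : endp 0 π ∈ E ∧ (∃ k, k ∈ Cm u w.1 π γ) ∧
            (∀ k ∈ Cm u w.1 π γ, s < k ∧ k + s ≤ H)
          · rw [if_pos hh]
            by_cases h1 : IsUp u H π
            · by_cases h2 : IsDn u H γ
              · rw [if_pos h1, if_pos h2, if_pos ⟨h1, hh.1, h2, hh.2.1, fun k hk => (hh.2.2 k hk).1⟩]
              · rw [if_neg h2, mul_zero]; exact zero_le
            · rw [if_neg h1, zero_mul]; exact zero_le
          · rw [if_neg hh]; exact zero_le
      _ ≤ lam + M * (E.card * E934.us ν u s) / lam := by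
          rw [← h3]
          refine le_trans (ENNReal.tsum_le_tsum fun x => ?_) hE
          by_cases h : lev u x = 0
          · simp only [dif_pos h, if_pos h]; exact le_rfl
          · simp only [dif_neg h, zero_mul]; exact zero_le
      _ ≤ _ := by
          have e1 : lam + M * (E.card * E934.us ν u s) / lam
              ≤ lam + M * E.card * (E934.us ν u s + E934.us ν (opp u) s) / lam := by
            rw [mul_assoc]
            gcongr
            exact le_self_add
          refine e1.trans ?_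
          calc _ = 1 * (lam + M * E.card * (E934.us ν u s + E934.us ν (opp u) s) / lam) :=
                (one_mul _).symm
            _ ≤ _ := by gcongr; norm_num
  case hW3 =>
    intro s H E μ M lam hμ hM hl0 hl
    have hE := E934.E3 (u := u) ν s H E (fun x => if h : lev u x = 0 then μ ⟨x, h⟩ else 0) M lam
      (by
        have := ext_sum u μ (fun _ => 1)
        simp only [mul_one] at this
        rw [this]; exact hμ)
      (fun x => by
        by_cases h : lev u x = 0
        · simp only [dif_pos h]; exact hM _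
        · simp only [dif_neg h]; exact zero_le)
      hl0 hl
    have h3 := ext_sum u μ (fun x => ∑' π : List (Step d), ∑' γ : List (Step d),
      (if IsUp u H π ∧ endp 0 γ ∈ E ∧ IsDn u H γ ∧ (∃ k, k ∈ Cm u x π γ) ∧
        (∀ k ∈ Cm u x π γ, k + s ≤ H) then aw ν π * aw ν γ else 0))
    calc _ ≤ ∑' w : Lat u, μ w * ∑' π : List (Step d), ∑' γ : List (Step d),
      (if IsUp u H π ∧ endp 0 γ ∈ E ∧ IsDn u H γ ∧ (∃ k, k ∈ Cm u w.1 π γ) ∧
        (∀ k ∈ Cm u w.1 π γ, k + s ≤ H) then aw ν π * aw ν γ else 0) := by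
          refine ENNReal.tsum_le_tsum fun w => mul_le_mul_right
            (ENNReal.tsum_le_tsum fun π => ENNReal.tsum_le_tsum fun γ => ?_) _
          by_cases hh : endp 0 γ ∈ E ∧ (∃ k, k ∈ Cm u w.1 π γ) ∧
            (∀ k ∈ Cm u w.1 π γ, s < k ∧ k + s ≤ H)
          · rw [if_pos hh]
            by_cases h1 : IsUp u H π
            · by_cases h2 : IsDn u H γ
              · rw [if_pos h1, if_pos h2, if_pos ⟨h1, hh.1, h2, hh.2.1, fun k hk => (hh.2.2 k hk).2⟩]
              · rw [if_neg h2, mul_zero]; exact zero_le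
            · rw [if_neg h1, zero_mul]; exact zero_le
          · rw [if_neg hh]; exact zero_le
      _ ≤ 8 * lam + 2 * (M * (E.card * E934.us ν (opp u) s) / lam) := by
          rw [← h3]
          refine le_trans (ENNReal.tsum_le_tsum fun x => ?_) hE
          by_cases h : lev u x = 0
          · simp only [dif_pos h, if_pos h]; exact le_rfl
          · simp only [dif_neg h, zero_mul]; exact zero_le
      _ ≤ _ := by
          rw [mul_add]
          refine add_le_add le_rfl ?_
          rw [mul_assoc]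
          gcongr
          · norm_num
          · exact le_add_self

/-- **KAPPA'** -/
theorem kappaAll : NB28.KappaAll :=
  FinB926.kappaAll_of fun _ _ ν _ hν u hA hB => hWin u ν hν hA hB

/-- **S0219's proposition** -/
theorem nb : Spine.NBProp := NB28.nb_of_kappaW kappaAll

end Crest.Agent.R154.FinW926
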