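import Crest.Agent.R154.HW_334
import Crest.Agent.R154.HWinB_19
import Crest.Agent.R154.E2_934
import Crest.Agent.R154.E3_934
import Crest.Agent.R154.KB_818

/-! Row 154, ROAD 801, frame B (helper135): `hW` at 657's instance from 334's `hW_of` and 934's
`E2`, `E3`; the last link to `Spine.NBProp`. -/

set_option autoImplicit false

open MeasureTheory ProbabilityTheory Crest.ProbabilityR.RandomEnvironment
open scoped ENNReal

namespace Crest.Agent.R154.Fin135

open Crest.Agent.R154.B5A Crest.Agent.R154.B5W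
open Crest.Agent.R154.Flux566 (lw endp sitesL endp_append endp_eq_add)
open Crest.Agent.R154.NB28 (IsUp IsDn Cm)
open Crest.Agent.R154.Flux132 (opp)

variable {d : ℕ}

lemma act_cat (u : Step d) (L : List (PB u)) (w : Lat u) :
    (act (dl u) L w).1 = w.1 + endp 0 (cat L).1 + endp 0 (cat L).2 := by
  induction L generalizing w with
  | nil => simp [act, cat, endp]
  | cons b L ih =>
    rw [act, ih]
    have e1 : endp 0 (cat (b :: L)).1 = endp 0 (cat L).1 + endp 0 b.1.1 := by
      show endp 0 ((cat L).1 ++ b.1.1) = _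
      rw [endp_append, endp_eq_add]
    have e2 : endp 0 (cat (b :: L)).2 = endp 0 b.1.2 + endp 0 (cat L).2 := by
      show endp 0 (b.1.2 ++ (cat L).2) = _
      rw [endp_append, endp_eq_add]
    rw [e1, e2]
    simp only [dl, dlp]
    abel

open Classical in
/-- extension of a function on the lateral lattice -/
noncomputable def ext (u : Step d) (μ : Lat u → ℝ≥0∞) (x : Site d) : ℝ≥0∞ :=
  if h : Flux566.lev u x = 0 then μ ⟨x, h⟩ else 0

open Classical in
lemma tsum_ext (u : Step d) (μ : Lat u → ℝ≥0∞) (F : Site d → ℝ≥0∞) :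
    ∑' w : Lat u, μ w * F w.1
      = ∑' x : Site d, (if Flux132.lev u x = 0 then ext u μ x * F x else 0) := by
  have h := tsum_subtype {x : Site d | Flux566.lev u x = 0} (fun x => ext u μ x * F x)
  refine Eq.trans ?_ (h.trans ?_)
  · refine tsum_congr fun w : Lat u => ?_
    have hw : Flux566.lev u w.1 = 0 := w.2
    show μ w * F w.1 = ext u μ w.1 * F w.1
    unfold ext
    rw [dif_pos hw]
    rfl
  · refine tsum_congr fun x => ?_
    rw [Set.indicator_apply]
    rfl

open Classical in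
lemma ext_sum (u : Step d) (μ : Lat u → ℝ≥0∞) (h1 : ∑' w, μ w ≤ 1) : ∑' x, ext u μ x ≤ 1 := by
  have h := tsum_ext u μ (fun _ => 1)
  simp only [mul_one] at h
  refine le_trans (le_of_eq ?_) (h.symm.le.trans h1)
  refine tsum_congr fun x => ?_
  by_cases hx : Flux132.lev u x = 0
  · rw [if_pos hx]
  · rw [if_neg hx]
    unfold ext
    rw [dif_neg]
    exact hx

lemma ext_le (u : Step d) (μ : Lat u → ℝ≥0∞) (M : ℝ≥0∞) (h : ∀ w, μ w ≤ M) (x : Site d) :
    ext u μ x ≤ M := by
  unfold ext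
  split_ifs
  · exact h _
  · exact zero_le

open Classical in
/-- **`hW` of helper139 at 657's instance** -/
theorem hW (ν : Measure (Row d)) [IsProbabilityMeasure ν] (u : Step d) (c : ℝ≥0∞) (hc : c ≠ 0)
    (hup : ∀ n, c ≤ ∑' π : List (Step d), if IsUp u n π then NB28.aw ν π else 0)
    (hdn : ∀ n, c ≤ ∑' γ : List (Step d), if IsDn u n γ then NB28.aw ν γ else 0) :
    ∀ v η : ℝ≥0∞, v ≠ 0 → v ≤ 1 → η ≠ 0 → ∃ s : ℕ, ∀ H : ℕ, ∃ S1 S2 : Set (Lat u),
      JAsm139.Good (Lam ν u) (ht u) (dl u) (c * c * 2⁻¹ * v) η H S1 ∧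
      JAsm139.Good (Lam ν u) (ht u) (dl u) (c * c * 2⁻¹ * v) η H S2 ∧
      ∀ w, w ∉ S1 → w ∉ S2 →
        (∑' L : List (PB u), (if HT (ht u) L = H ∧ CD (ht u) (dl u) (cd u) L w ≠ ∅ ∧
          (∀ k ∈ CD (ht u) (dl u) (cd u) L w, s < k ∧ k + s ≤ H) then LW (Lam ν u) L else 0))
          ≤ v * v + η := by
  refine HW334.hW_of (Lam ν u) (ht u) (dl u) (cd u) cat (fun w => w.1)
    (fun π => endp 0 π) (fun γ => endp 0 γ)
    (fun H π => if IsUp u H π then NB28.aw ν π else 0)
    (fun H γ => if IsDn u H γ then NB28.aw ν γ else 0)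
    (fun w π γ => Cm u w.1 π γ) ?_ (fun L w => act_cat u L w) ?_ c hc hup ?_ hdn ?_
    (fun s => max (E934.us ν u s) (E934.us ν (opp u) s)) ?_ 8 (by norm_num) (by norm_num) ?_ ?_
  · intro H F
    refine (tsum_L ν u H (fun x => F x.1 x.2)).trans ?_
    refine tsum_congr fun π => tsum_congr fun γ => ?_
    by_cases h1 : IsUp u H π <;> by_cases h2 : IsDn u H γ <;> simp [h1, h2]
  · intro L w
    rw [CD_cat, cds_eq]
  · exact fun H => sum_if_le_one ν fun l l' h h' hp => NB28.isUp_prefix h h' hp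
  · exact fun H => sum_if_le_one ν fun l l' h h' hp => NB28.isDn_prefix h h' hp
  · intro ε hε
    obtain ⟨s1, h1⟩ := E934.us_small ν u ε hε
    obtain ⟨s2, h2⟩ := E934.us_small ν (opp u) ε hε
    exact ⟨max s1 s2, max_le (h1 _ (le_max_left _ _)) (h2 _ (le_max_right _ _))⟩
  · intro s H E μ M lam hμ hM hl0 hlt
    have key := E934.E2 (ν := ν) (u := u) s H E (ext u μ) M lam (ext_sum u μ hμ) (ext_le u μ M hM) hl0 hlt
    rw [← tsum_ext u μ] at key
    refine le_trans (ENNReal.tsum_le_tsum fun w => mul_le_mul_right (ENNReal.tsum_le_tsum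
      fun π => ENNReal.tsum_le_tsum fun γ => ?_) _) (key.trans ?_)
    · by_cases hh : endp 0 π ∈ E ∧ (∃ k, k ∈ Cm u w.1 π γ) ∧
        (∀ k ∈ Cm u w.1 π γ, s < k ∧ k + s ≤ H)
      · rw [if_pos hh]
        by_cases h1 : IsUp u H π
        · by_cases h2 : IsDn u H γ
          · rw [if_pos h1, if_pos h2, if_pos ⟨h1, hh.1, h2, hh.2.1, fun k hk => (hh.2.2 k hk).1⟩]
          · rw [if_neg h2, mul_zero]; exact zero_le
        · rw [if_neg h1, zero_mul]; exact zero_le
      · rw [if_neg hh]; exact zero_le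
    · calc lam + M * (E.card * E934.us ν u s) / lam
          ≤ lam + M * (E.card * max (E934.us ν u s) (E934.us ν (opp u) s)) / lam := by
            gcongr; exact le_max_left _ _
        _ ≤ 8 * (lam + M * E.card * max (E934.us ν u s) (E934.us ν (opp u) s) / lam) := by
            rw [mul_assoc]
            exact le_mul_of_one_le_left zero_le (by norm_num)
  · intro s H E μ M lam hμ hM hl0 hlt
    have key := E934.E3 (ν := ν) (u := u) s H E (ext u μ) M lam (ext_sum u μ hμ) (ext_le u μ M hM) hl0 hlt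
    rw [← tsum_ext u μ] at key
    refine le_trans (ENNReal.tsum_le_tsum fun w => mul_le_mul_right (ENNReal.tsum_le_tsum
      fun π => ENNReal.tsum_le_tsum fun γ => ?_) _) (key.trans ?_)
    · by_cases hh : endp 0 γ ∈ E ∧ (∃ k, k ∈ Cm u w.1 π γ) ∧
        (∀ k ∈ Cm u w.1 π γ, s < k ∧ k + s ≤ H)
      · rw [if_pos hh]
        by_cases h1 : IsUp u H π
        · by_cases h2 : IsDn u H γ
          · rw [if_pos h1, if_pos h2, if_pos ⟨h1, hh.1, h2, hh.2.1, fun k hk => (hh.2.2 k hk).2⟩]
          · rw [if_neg h2, mul_zero]; exact zero_le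
        · rw [if_neg h1, zero_mul]; exact zero_le
      · rw [if_neg hh]; exact zero_le
    · calc 8 * lam + 2 * (M * (E.card * E934.us ν (opp u) s) / lam)
          ≤ 8 * lam + 8 * (M * (E.card * max (E934.us ν u s) (E934.us ν (opp u) s)) / lam) := by
            gcongr
            · norm_num
            · exact le_max_right _ _
        _ = 8 * (lam + M * E.card * max (E934.us ν u s) (E934.us ν (opp u) s) / lam) := by
            rw [mul_add, mul_assoc M]

/-- **the window estimate of 818 / 912 at 657's instance** -/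
theorem hWin (ν : Measure (Row d)) [IsProbabilityMeasure ν]
    (hν : ∀ᵐ p ∂ν, ∀ e : Step d, 0 < p.1 e) (u : Step d)
    (hA : annealed (iidEnvironmentLaw ν) 0 (escapeEvent (B2d.dirVec u)) ≠ 0)
    (hB : annealed (iidEnvironmentLaw ν) 0 (escapeEvent (-B2d.dirVec u)) ≠ 0) :
    KB818.HWin ν u := by
  classical
  obtain ⟨c, hc, -, h1, h2⟩ := WM286.mass_pos ν hν u hA hB
  have hU : ∀ n, c * c ≤ U (Lam ν u) (ht u) n := fun n => by
    rw [U_eq28]; exact mul_le_mul' (h1 n) (h2 n)
  have hU1 : ∀ n, U (Lam ν u) (ht u) n ≤ 1 := fun n => by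
    rw [U_eq28]
    exact mul_le_one' (sum_if_le_one ν fun l l' h h' hp => NB28.isUp_prefix h h' hp)
      (sum_if_le_one ν fun l l' h h' hp => NB28.isDn_prefix h h' hp)
  have hcc : c * c ≤ 1 := (hU 0).trans (hU1 0)
  have h := HWinB19.hWin_of' (Lam ν u) (ht u) (dl u) (cd u) one_le_hb (c * c) (mul_ne_zero hc hc)
    hU hU1 (hinj u) (c * c * 2⁻¹) (mul_ne_zero (mul_ne_zero hc hc) (by simp))
    (mul_le_one' hcc (ENNReal.inv_le_one.2 (by norm_num)))
    (fun v η hv hv1 hη => by
      obtain ⟨s, hs⟩ := hW ν u c hc h1 h2 v η hv hv1 hη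
      exact ⟨s, 0, fun H _ => hs H⟩)
  exact h

/-- **`KappaAll`** -/
theorem kappaAll : NB28.KappaAll :=
  KB818.kappaAll_of fun _ _ ν _ hν u hA hB => hWin ν hν u hA hB

/-- **`Spine.NBProp`** -/
theorem nbProp : Spine.NBProp := NB28.nb_of_kappaW kappaAll

end Crest.Agent.R154.Fin135
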