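import Crest.Agent.R154.HW_280
import Crest.Agent.R154.HWinB_19
import Crest.Agent.R154.KB_818
import Crest.Agent.R154.E23_168
import Crest.Agent.R154.NBTop_28

/-! Row 154 (helper619): last binding, `Spine.NBProp`. -/

set_option autoImplicit false

namespace Crest.Agent.R154.Fin619

open MeasureTheory ProbabilityTheory Crest.ProbabilityR.RandomEnvironment Crest.Agent.R154
open Crest.Agent.R154.B5A Crest.Agent.R154.B5W
open Crest.Agent.R154.NB28 (IsUp IsDn Cm KappaW KappaAll)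
open Crest.Agent.R154.Flux566 (endp)
open scoped ENNReal Topology

theorem e2' {d : ℕ} (ν : Measure (Row d)) [IsProbabilityMeasure ν] (u : Step d) :
    HW280.E2 ν u 4 (E23168.uc ν u) := by
  intro s H E μ M lam a1 a2 a3 a4
  refine le_trans (le_of_eq (tsum_congr fun x => ?_)) (E23168.e2c ν u s H E μ M lam a1 a2 a3 a4)
  by_cases hx : Flux132.lev u x = 0
  · rw [if_pos hx, if_pos hx]
    unfold HW280.PhiX
    congr 1
    refine tsum_congr fun π => tsum_congr fun γ => ?_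
    by_cases h : IsUp u H π ∧ IsDn u H γ ∧ endp 0 π ∈ E ∧ (∃ k, k ∈ Cm u x π γ) ∧
        (∀ k ∈ Cm u x π γ, s < k)
    · rw [if_pos h, if_pos ⟨h.1, h.2.2.1, h.2.1, h.2.2.2⟩]
    · rw [if_neg h, if_neg (fun h' => h ⟨h'.1, h'.2.2.1, h'.2.1, h'.2.2.2⟩)]
  · rw [if_neg hx, if_neg hx]

theorem e3' {d : ℕ} (ν : Measure (Row d)) [IsProbabilityMeasure ν] (u : Step d) :
    HW280.E3 ν u 4 (E23168.uc ν u) := by
  intro s H E μ M lam a1 a2 a3 a4
  refine le_trans (le_of_eq (tsum_congr fun x => ?_)) (E23168.e3c ν u s H E μ M lam a1 a2 a3 a4)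
  by_cases hx : Flux132.lev u x = 0
  · rw [if_pos hx, if_pos hx]
    unfold HW280.PhiY
    congr 1
    refine tsum_congr fun π => tsum_congr fun γ => ?_
    by_cases h : IsUp u H π ∧ IsDn u H γ ∧ endp 0 γ ∈ E ∧ (∃ k, k ∈ Cm u x π γ) ∧
        (∀ k ∈ Cm u x π γ, k + s ≤ H)
    · rw [if_pos h, if_pos ⟨h.1, h.2.2.1, h.2.1, h.2.2.2⟩]
    · rw [if_neg h, if_neg (fun h' => h ⟨h'.1, h'.2.2.1, h'.2.1, h'.2.2.2⟩)]
  · rw [if_neg hx, if_neg hx]

theorem hWin {d : ℕ} (ν : Measure (Row d)) [IsProbabilityMeasure ν]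
    (hν : ∀ᵐ p ∂ν, ∀ e : Step d, 0 < p.1 e) (u : Step d)
    (hA : annealed (iidEnvironmentLaw ν) 0 (escapeEvent (B2d.dirVec u)) ≠ 0)
    (hB : annealed (iidEnvironmentLaw ν) 0 (escapeEvent (-B2d.dirVec u)) ≠ 0) :
    KB818.HWin ν u := by
  obtain ⟨c, hc, hc1, h1, h2⟩ := WM286.mass_pos ν hν u hA hB
  have hU : ∀ n, c * c ≤ U (Lam ν u) (ht u) n := fun n => by
    rw [U_eq28]; exact mul_le_mul' (h1 n) (h2 n)
  have hU1 : ∀ n, U (Lam ν u) (ht u) n ≤ 1 := fun n => by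
    rw [U_eq28]
    exact mul_le_one' (sum_if_le_one ν fun l l' h h' hp => NB28.isUp_prefix h h' hp)
      (sum_if_le_one ν fun l l' h h' hp => NB28.isDn_prefix h h' hp)
  have hcc : c * c ≤ 1 := (hU 0).trans (hU1 0)
  refine HWinB19.hWin_of' (Lam ν u) (ht u) (dl u) (cd u) one_le_hb (c * c) (mul_ne_zero hc hc)
    hU hU1 (B5W.hinj u) (c * c) (mul_ne_zero hc hc) hcc ?_
  intro v η hv hv1 hη
  exact HW280.hW ν u c h1 h2 4 (by norm_num) (E23168.uc ν u) (E23168.uc_tendsto ν u)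
    (e2' ν u) (e3' ν u) v η hv hv1 hη

theorem nbProp : Spine.NBProp :=
  NB28.nb_of_kappaW (KB818.kappaAll_of fun _ _ ν _ hν u hA hB => hWin ν hν u hA hB)

end Crest.Agent.R154.Fin619
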