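import Crest.Agent.R154.Flux1_132

/-! Row 154, FLUX block: truncation and the main inequality. -/

set_option autoImplicit false

namespace Crest.Agent.R154.Flux132

open MeasureTheory ProbabilityTheory Crest.ProbabilityR.RandomEnvironment
open Crest.Agent.R154.Kal132
open Filter
open scoped ENNReal Topology

variable {d : ℕ}

/-- the box of radius `r` in `ℤ^d` -/
noncomputable def box (d : ℕ) (r : ℕ) : Finset (Site d) :=
  Fintype.piFinset fun _ : Fin d => Finset.Icc (-(r : ℤ)) r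

lemma mem_box (r : ℕ) (x : Site d) : x ∈ box d r ↔ ∀ i, |x i| ≤ (r : ℤ) := by
  simp only [box, Fintype.mem_piFinset, Finset.mem_Icc, abs_le]

lemma card_box (d r : ℕ) : (box d r).card = (2 * r + 1) ^ d := by
  simp only [box, Fintype.card_piFinset, Int.card_Icc, Finset.prod_const, Finset.card_univ,
    Fintype.card_fin]
  congr 1
  omega

/-- the starting sites at level `-n` in the box of radius `R` -/
noncomputable def Fset (u : Step d) (n R : ℕ) : Finset (Site d) := (box d R).filter fun x => lev u x = -(n : ℤ)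

lemma card_Fset (u : Step d) (n R : ℕ) : (Fset u n R).card ≤ (2 * R + 1) ^ d := by
  rw [← card_box d R]
  exact Finset.card_filter_le _ _

/-- the event of (LAT) -/
def LatEv (u : Step d) (n R : ℕ) : Set (Path d) :=
  {X : Path d | ∃ m, (∀ i, i < m → lev u (X i) < n) ∧ lev u (X m) = n ∧
      ∀ i, |X m i| ≤ (R : ℤ)}

lemma latEv_subset (u : Step d) (n R : ℕ) :
    LatEv u n R ⊆ ⋃ x ∈ Fset u n R, Q561.tr x ⁻¹' H0 u := by
  rintro X ⟨m, h1, h2, h3⟩
  simp only [Set.mem_iUnion]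
  refine ⟨-(X m), ?_, ?_⟩
  · rw [Fset, Finset.mem_filter, mem_box, lev_neg, h2]
    refine ⟨fun i => ?_, rfl⟩
    simpa using h3 i
  · rw [Set.mem_preimage, mem_H0]
    refine ⟨m, fun i hi => ?_, ?_⟩
    · have := h1 i hi
      simp only [Q561.tr, lev_add, lev_neg, h2]
      omega
    · simp [Q561.tr]

lemma measurable_H0q (u : Step d) (x : Site d) :
    Measurable fun ω : Environment d => quenchedLaw ω x (H0 u) :=
  measurable_quenched_apply x (measurableSet_H0 u)

lemma lat_le {Q : Measure (Environment d)} [IsProbabilityMeasure Q]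
    (hstat : ∀ z : Site d, MeasurePreserving (shiftEnv z) Q Q) (u : Step d) (n R : ℕ) :
    annealed Q 0 (LatEv u n R) ≤ ∫⁻ ω, ∑ x ∈ Fset u n R, quenchedLaw ω x (H0 u) ∂Q := by
  rw [lintegral_finsetSum _ fun x _ => measurable_H0q u x]
  calc annealed Q 0 (LatEv u n R) ≤ annealed Q 0 (⋃ x ∈ Fset u n R, Q561.tr x ⁻¹' H0 u) :=
        measure_mono (latEv_subset u n R)
    _ ≤ ∑ x ∈ Fset u n R, annealed Q 0 (Q561.tr x ⁻¹' H0 u) := measure_biUnion_finset_le _ _
    _ = _ := by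
        refine Finset.sum_congr rfl fun x _ => ?_
        rw [annealed_apply Q 0 (Q561.measurable_tr x (measurableSet_H0 u)),
          ← Q561.annealed_eq_zero_shift hstat x (measurableSet_H0 u)]
        rfl

/-- **main inequality** -/
theorem main_ineq {Q : Measure (Environment d)} [IsProbabilityMeasure Q] {u : Step d}
    (hstat : ∀ z : Site d, MeasurePreserving (shiftEnv z) Q Q)
    {G0 : Set (Environment d)} {θ g0 : ℝ≥0∞} (hG0 : MeasurableSet G0) (hθ : θ ≠ 0) (hθ1 : θ ≤ 1)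
    (hg : ∀ h : Environment d → ℝ≥0∞, Measurable h → Q561.LocOn {x | lev u x < 0} h →
      g0 * ∫⁻ ω, h ω ∂Q ≤ ∫⁻ ω in G0, h ω ∂Q)
    (hexc : ∀ z : Site d, lev u z = 0 → ∃ ρ : Path d, ρ 0 = 0 ∧ ρ (norm1 z + 2) = z ∧
      (∀ j, j ≤ norm1 z + 2 → lev u (ρ j) ≤ 1) ∧ lev u (ρ 1) = 1 ∧
      ∀ f : Environment d → ℝ≥0∞, Measurable f → Q561.LocOn {x | lev u x ≤ 0} f →
        θ ^ (norm1 z + 2) * ∫⁻ ω in G0, f ω ∂Q
          ≤ ∫⁻ ω, f ω * quenchedLaw ω 0 (cyl ρ (norm1 z + 2)) ∂Q)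
    (n R : ℕ) {ε : ℝ≥0∞} (hε : ε ≠ 0) (hε' : ε ≠ ⊤) (Z : Finset (Site d))
    (hZ : ∀ z ∈ Z, lev u z = 0) :
    g0 * annealed Q 0 (LatEv u n R) ≤
      ((2 * R + 1) ^ d : ℕ) * Q {ω | ∀ z ∈ Z, quenchedLaw ω z (Dn u) ≤ ε}
        + ε⁻¹ * ∑ z ∈ Z, (θ ^ (norm1 z + 2))⁻¹ * annealed Q 0 (Mx u (n + 1)) := by
  set a : Environment d → ℝ≥0∞ := fun ω => ∑ x ∈ Fset u n R, quenchedLaw ω x (H0 u) with ha
  have ham : Measurable a := Finset.measurable_sum _ fun x _ => measurable_H0q u x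
  have hal : Q561.LocOn {x | lev u x < 0} a := by
    intro ω ω' h
    simp only [ha]
    exact Finset.sum_congr rfl fun x _ => locOn_H0 u x ω ω' h
  have hal' : Q561.LocOn {x | lev u x ≤ 0} a := by
    intro ω ω' h
    refine hal ω ω' fun z hz => h z ?_
    have hz' : lev u z < 0 := hz
    exact hz'.le
  have hcard : ∀ ω, a ω ≤ ((2 * R + 1) ^ d : ℕ) := by
    intro ω
    calc a ω ≤ ∑ x ∈ Fset u n R, (1 : ℝ≥0∞) := Finset.sum_le_sum fun x _ => prob_le_one
      _ = ((Fset u n R).card : ℝ≥0∞) := by simp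
      _ ≤ _ := by exact_mod_cast card_Fset u n R
  have hqm : ∀ z : Site d, Measurable fun ω : Environment d => quenchedLaw ω z (Dn u) :=
    fun z => measurable_quenched_apply z (measurableSet_dn u)
  set Bd : Set (Environment d) := {ω | ∀ z ∈ Z, quenchedLaw ω z (Dn u) ≤ ε} with hBd
  have hBm : MeasurableSet Bd := by
    have : Bd = ⋂ z ∈ Z, {ω | quenchedLaw ω z (Dn u) ≤ ε} := by
      ext ω; simp [hBd]
    rw [this]
    exact Finset.measurableSet_biInter _ fun z _ => measurableSet_le (hqm z) measurable_const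
  -- one excursion
  have hone : ∀ z ∈ Z, ∫⁻ ω in G0, a ω * quenchedLaw ω z (Dn u) ∂Q
      ≤ (θ ^ (norm1 z + 2))⁻¹ * annealed Q 0 (Mx u (n + 1)) := by
    intro z hz
    obtain ⟨ρ, h0, hK, hle, h1, hf⟩ := hexc z (hZ z hz)
    have hp0 : θ ^ (norm1 z + 2) ≠ 0 := pow_ne_zero _ hθ
    have hpt : θ ^ (norm1 z + 2) ≠ ⊤ := ENNReal.pow_ne_top (ne_top_of_le_ne_top ENNReal.one_ne_top hθ1)
    rw [← ENNReal.mul_le_iff_le_inv hp0 hpt]
    refine (hf (fun ω => a ω * quenchedLaw ω z (Dn u)) (ham.mul (hqm z)) ?_).trans ?_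
    · intro ω ω' h
      have e1 := hal' ω ω' h
      have e2 := locOn_dn u z {x | lev u x ≤ 0}
        (fun w hw => by rw [hZ z hz] at hw; exact hw) ω ω' h
      simp only at e1 e2
      simp only [e1, e2]
    · refine le_trans (le_of_eq ?_) (flux_le hstat u ρ (norm1 z + 2) h0 (by omega) hle h1 n
        (Fset u n R) fun x hx => (Finset.mem_filter.1 hx).2)
      refine lintegral_congr fun ω => ?_
      rw [quenched_Bex, hK]
      ring
  calc g0 * annealed Q 0 (LatEv u n R) ≤ g0 * ∫⁻ ω, a ω ∂Q := by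
        gcongr
        exact lat_le hstat u n R
    _ ≤ ∫⁻ ω in G0, a ω ∂Q := hg a ham hal
    _ ≤ ∫⁻ ω in G0, (Bd.indicator (fun _ => (((2 * R + 1) ^ d : ℕ) : ℝ≥0∞)) ω
          + ε⁻¹ * ∑ z ∈ Z, a ω * quenchedLaw ω z (Dn u)) ∂Q := by
        refine lintegral_mono fun ω => ?_
        by_cases hω : ω ∈ Bd
        · rw [Set.indicator_of_mem hω]
          exact (hcard ω).trans (self_le_add_right _ _)
        · rw [Set.indicator_of_notMem hω, zero_add]
          have : ∃ z ∈ Z, ε < quenchedLaw ω z (Dn u) := by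
            by_contra hcon
            push Not at hcon
            exact hω hcon
          obtain ⟨z, hz, hlt⟩ := this
          calc a ω = ε⁻¹ * (a ω * ε) := by
                rw [mul_comm (a ω) ε, ← mul_assoc, ENNReal.inv_mul_cancel hε hε', one_mul]
            _ ≤ ε⁻¹ * (a ω * quenchedLaw ω z (Dn u)) := by gcongr
            _ ≤ ε⁻¹ * ∑ z ∈ Z, a ω * quenchedLaw ω z (Dn u) := by
                gcongr
                exact Finset.single_le_sum (f := fun z => a ω * quenchedLaw ω z (Dn u))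
                  (fun _ _ => zero_le) hz
    _ = ∫⁻ ω in G0, Bd.indicator (fun _ => (((2 * R + 1) ^ d : ℕ) : ℝ≥0∞)) ω ∂Q
          + ε⁻¹ * ∑ z ∈ Z, ∫⁻ ω in G0, a ω * quenchedLaw ω z (Dn u) ∂Q := by
        have hm1 : ∀ z ∈ Z, Measurable fun ω : Environment d => a ω * quenchedLaw ω z (Dn u) :=
          fun z _ => ham.mul (hqm z)
        have hm2 : Measurable fun ω : Environment d => ∑ z ∈ Z, a ω * quenchedLaw ω z (Dn u) :=
          Finset.measurable_sum _ hm1
        rw [lintegral_add_left (measurable_const.indicator hBm),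
          lintegral_const_mul _ hm2, lintegral_finsetSum _ hm1]
    _ ≤ _ := by
        gcongr with z hz
        · calc ∫⁻ ω in G0, Bd.indicator (fun _ => (((2 * R + 1) ^ d : ℕ) : ℝ≥0∞)) ω ∂Q
              ≤ ∫⁻ ω, Bd.indicator (fun _ => (((2 * R + 1) ^ d : ℕ) : ℝ≥0∞)) ω ∂Q :=
                setLIntegral_le_lintegral _ _
            _ = _ := lintegral_indicator_const hBm _
        · exact hone z hz

end Crest.Agent.R154.Flux132
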