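import Crest.Agent.R154.Strong_541
import Crest.Agent.R154.Prod_561

/-! Row 154, block B5 = FLUX (helper566): definitions and the literal input statements.

`e0` is a coordinate step; `lev e0 x = x · e0`; "up" = direction `e0`.
* `LatUp e0 Q`  : polynomial lateral bound at the first hit of level `n` (for the up-walk);
* `QDn e0 Q`    : all polynomial moments of `1/q⁻(0)` (uniformly elliptic / S0221 form);
* `QDn' e0 r Q` : the same for the maximum of `q⁻` over a lateral ball of radius `r n`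
                  (merely elliptic form, S0219); `r n = o(log n)` is what is used. -/

set_option autoImplicit false

open MeasureTheory ProbabilityTheory Crest.ProbabilityR.RandomEnvironment
open scoped ENNReal

namespace Crest.Agent.R154.Flux566

variable {d : ℕ}

/-- level of a site in direction `e0` -/
def lev (e0 : Step d) (x : Site d) : ℤ := if e0.2 then x e0.1 else - x e0.1

/-- the real direction of the step `e0` -/
noncomputable def dir (e0 : Step d) : Fin d → ℝ := fun i => ((stepVec e0 i : ℤ) : ℝ)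

/-- paths which never go above their initial level -/
def Down (e0 : Step d) : Set (Path d) := {X | ∀ k, lev e0 (X k) ≤ lev e0 (X 0)}

/-- quenched probability, from `y`, of never going above the level of `y` -/
noncomputable def qdn (e0 : Step d) (ω : Environment d) (y : Site d) : ℝ≥0∞ :=
  quenchedLaw ω y (Down e0)

/-- `X` visits `z` at time `k` and is at levels `< n` before time `k` -/
def firstAt (e0 : Step d) (n : ℤ) (z : Site d) (k : ℕ) : Set (Path d) :=
  {X | X k = z ∧ ∀ j < k, lev e0 (X j) < n}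

/-- the first site of level `n` visited is `z` (to be used with `lev e0 z = n`) -/
def reach (e0 : Step d) (n : ℤ) (z : Site d) : Set (Path d) := ⋃ k, firstAt e0 n z k

/-- the maximal level is `n` (and is attained) -/
def maxIs (e0 : Step d) (n : ℤ) : Set (Path d) :=
  {X | (∃ k, lev e0 (X k) = n) ∧ ∀ j, lev e0 (X j) ≤ n}

/-- first hit of level `n` at lateral distance `> s` -/
def latFar (e0 : Step d) (n : ℤ) (s : ℕ) : Set (Path d) :=
  {X | ∃ k, lev e0 (X k) = n ∧ (∀ j < k, lev e0 (X j) < n) ∧ ∃ i, i ≠ e0.1 ∧ (s : ℤ) < |X k i|}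

/-- LAT(+): polynomial lateral bound. -/
def LatUp (e0 : Step d) (Q : Measure (Environment d)) : Prop :=
  ∃ C N0 : ℕ, ∀ n : ℕ, N0 ≤ n →
    annealedProb Q 0 (latFar e0 n (n ^ C)) ≤ annealedProb Q 0 (escapeEvent (dir e0)) / 2

/-- Q(−): `P(q⁻(0) ≤ 1/n) ≤ C n^{-k}` for every `k`. -/
def QDn (e0 : Step d) (Q : Measure (Environment d)) : Prop :=
  ∀ k : ℕ, ∃ C : ℝ≥0∞, C ≠ ⊤ ∧ ∀ n : ℕ, 1 ≤ n →
    Q {ω | n * qdn e0 ω 0 ≤ 1} ≤ C / n ^ k

/-- Q'(−): `P(max_{lev y = 0, |y| ≤ r n} q⁻(y) ≤ 1/n) ≤ C n^{-k}` for every `k`. -/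
def QDn' (e0 : Step d) (r : ℕ → ℕ) (Q : Measure (Environment d)) : Prop :=
  ∀ k : ℕ, ∃ C : ℝ≥0∞, C ≠ ⊤ ∧ ∀ n : ℕ, 1 ≤ n →
    Q {ω | ∀ y : Site d, lev e0 y = 0 → (∀ i, |y i| ≤ r n) → n * qdn e0 ω y ≤ 1} ≤ C / n ^ k

end Crest.Agent.R154.Flux566
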