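import Mathlib

/-! Row 154, d = 2, VARG (V2), abstract part: fourth moment and maximal inequality for bounded
martingale differences with conditional variance at most `U` (in particular independent, centred,
bounded random variables).  Mathlib only. -/

set_option autoImplicit false
set_option linter.unusedSectionVars false

namespace Crest.Agent.R154.Four775

open MeasureTheory ProbabilityTheory Set Filter Finset
open scoped ENNReal NNReal

variable {Ω : Type*} {m0 : MeasurableSpace Ω} {μ : Measure Ω} {𝒢 : Filtration ℕ m0}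

/-- bounded martingale differences, conditional variance at most `U` -/
structure MD (μ : Measure Ω) (𝒢 : Filtration ℕ m0) (X : ℕ → Ω → ℝ) (M U : ℝ) : Prop where
  meas : ∀ i, Measurable[𝒢 (i + 1)] (X i)
  bdd : ∀ i ω, |X i ω| ≤ M
  mean : ∀ i, μ[X i | 𝒢 i] =ᵐ[μ] 0
  var : ∀ i, μ[fun ω => X i ω ^ 2 | 𝒢 i] ≤ᵐ[μ] fun _ => U

/-- partial sums -/
def S (X : ℕ → Ω → ℝ) (n : ℕ) (ω : Ω) : ℝ := ∑ i ∈ range n, X i ω

lemma S_zero (X : ℕ → Ω → ℝ) (ω : Ω) : S X 0 ω = 0 := by simp [S]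

lemma S_succ (X : ℕ → Ω → ℝ) (n : ℕ) (ω : Ω) : S X (n + 1) ω = S X n ω + X n ω := by
  simp [S, sum_range_succ]

section basic

variable {X : ℕ → Ω → ℝ} {M U : ℝ}

lemma MD.M_nonneg (h : MD μ 𝒢 X M U) [Nonempty Ω] : 0 ≤ M :=
  (abs_nonneg _).trans (h.bdd 0 (Classical.arbitrary Ω))

lemma MD.meas0 (h : MD μ 𝒢 X M U) (i : ℕ) : Measurable (X i) := (h.meas i).mono (𝒢.le _) le_rfl

lemma MD.measS (h : MD μ 𝒢 X M U) (n : ℕ) : Measurable[𝒢 n] (S X n) := by
  unfold S
  refine Finset.measurable_sum _ fun i hi => ?_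
  exact (h.meas i).mono (𝒢.mono (Nat.succ_le_of_lt (Finset.mem_range.1 hi))) le_rfl

lemma MD.measS0 (h : MD μ 𝒢 X M U) (n : ℕ) : Measurable (S X n) :=
  (h.measS n).mono (𝒢.le _) le_rfl

lemma MD.S_le (h : MD μ 𝒢 X M U) (n : ℕ) (ω : Ω) : |S X n ω| ≤ n * M := by
  unfold S
  calc |∑ i ∈ range n, X i ω| ≤ ∑ i ∈ range n, |X i ω| := abs_sum_le_sum_abs _ _
    _ ≤ ∑ _i ∈ range n, M := sum_le_sum fun i _ => h.bdd i ω
    _ = n * M := by simp

variable [IsProbabilityMeasure μ]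

lemma int_of_bdd {f : Ω → ℝ} (hf : Measurable f) {C : ℝ} (hC : ∀ ω, |f ω| ≤ C) :
    Integrable f μ :=
  Integrable.of_bound hf.aestronglyMeasurable C (ae_of_all _ fun ω => by
    rw [Real.norm_eq_abs]; exact hC ω)

/-- `E[f X_i] = 0` for bounded `𝒢 i`-measurable `f` -/
lemma MD.int_mul (h : MD μ 𝒢 X M U) (i : ℕ) {f : Ω → ℝ} (hf : Measurable[𝒢 i] f) {C : ℝ}
    (hC : ∀ ω, |f ω| ≤ C) : ∫ ω, f ω * X i ω ∂μ = 0 := by
  have hX : Integrable (X i) μ := int_of_bdd (h.meas0 i) (h.bdd i)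
  have hf0 : Measurable f := hf.mono (𝒢.le i) le_rfl
  have hfX : Integrable (f * X i) μ := by
    refine int_of_bdd (hf0.mul (h.meas0 i)) (C := C * M) fun ω => ?_
    rw [Pi.mul_apply, abs_mul]
    exact mul_le_mul (hC ω) (h.bdd i ω) (abs_nonneg _) ((abs_nonneg _).trans (hC ω))
  have h1 : μ[f * X i | 𝒢 i] =ᵐ[μ] f * μ[X i | 𝒢 i] :=
    condExp_mul_of_stronglyMeasurable_left hf.stronglyMeasurable hfX hX
  have h2 : ∫ ω, (f * X i) ω ∂μ = ∫ ω, (μ[f * X i | 𝒢 i]) ω ∂μ := (integral_condExp (𝒢.le i)).symm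
  have h3 : ∫ ω, (μ[f * X i | 𝒢 i]) ω ∂μ = ∫ _ω, (0 : ℝ) ∂μ := by
    refine integral_congr_ae ?_
    filter_upwards [h1, h.mean i] with ω e1 e2
    rw [e1, Pi.mul_apply, e2, Pi.zero_apply, mul_zero]
  have h4 : ∫ ω, f ω * X i ω ∂μ = ∫ ω, (f * X i) ω ∂μ := rfl
  rw [h4, h2, h3, integral_zero]

/-- `E[f X_i^2] ≤ U E[f]` for bounded nonnegative `𝒢 i`-measurable `f` -/
lemma MD.int_mul_sq (h : MD μ 𝒢 X M U) (i : ℕ) {f : Ω → ℝ} (hf : Measurable[𝒢 i] f) {C : ℝ}
    (hf0 : ∀ ω, 0 ≤ f ω) (hC : ∀ ω, |f ω| ≤ C) :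
    ∫ ω, f ω * X i ω ^ 2 ∂μ ≤ U * ∫ ω, f ω ∂μ := by
  have hM2 : ∀ ω, |X i ω ^ 2| ≤ M ^ 2 := fun ω => by
    rw [abs_of_nonneg (sq_nonneg _), ← sq_abs]
    exact pow_le_pow_left₀ (abs_nonneg _) (h.bdd i ω) 2
  have hX : Integrable (fun ω => X i ω ^ 2) μ := int_of_bdd ((h.meas0 i).pow_const 2) hM2
  have hfm : Measurable f := hf.mono (𝒢.le i) le_rfl
  have hfX : Integrable (f * fun ω => X i ω ^ 2) μ := by
    refine int_of_bdd (hfm.mul ((h.meas0 i).pow_const 2)) (C := C * M ^ 2) fun ω => ?_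
    rw [Pi.mul_apply, abs_mul]
    exact mul_le_mul (hC ω) (hM2 ω) (abs_nonneg _) ((abs_nonneg _).trans (hC ω))
  have h1 : μ[f * (fun ω => X i ω ^ 2) | 𝒢 i] =ᵐ[μ] f * μ[fun ω => X i ω ^ 2 | 𝒢 i] :=
    condExp_mul_of_stronglyMeasurable_left hf.stronglyMeasurable hfX hX
  have h2 : ∫ ω, (f * fun ω => X i ω ^ 2) ω ∂μ
      = ∫ ω, (μ[f * (fun ω => X i ω ^ 2) | 𝒢 i]) ω ∂μ := (integral_condExp (𝒢.le i)).symm
  have h4 : ∫ ω, f ω * X i ω ^ 2 ∂μ = ∫ ω, (f * fun ω => X i ω ^ 2) ω ∂μ := rfl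
  rw [h4, h2, ← integral_const_mul]
  refine integral_mono_ae integrable_condExp ((int_of_bdd hfm hC).const_mul U) ?_
  filter_upwards [h1, h.var i] with ω e1 e2
  rw [e1, Pi.mul_apply, mul_comm]
  exact mul_le_mul_of_nonneg_right e2 (hf0 ω)

lemma MD.intS (h : MD μ 𝒢 X M U) (n k : ℕ) : Integrable (fun ω => S X n ω ^ k) μ := by
  refine int_of_bdd ((h.measS0 n).pow_const k) (C := (n * M) ^ k) fun ω => ?_
  rw [abs_pow]
  exact pow_le_pow_left₀ (abs_nonneg _) (h.S_le n ω) k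

/-- second moment -/
theorem MD.sq (h : MD μ 𝒢 X M U) (n : ℕ) : ∫ ω, S X n ω ^ 2 ∂μ ≤ n * U := by
  induction n with
  | zero => simp [S_zero]
  | succ n ih =>
    have e : ∀ ω, S X (n + 1) ω ^ 2 = S X n ω ^ 2 + (2 * (S X n ω * X n ω) + 1 * X n ω ^ 2) := by
      intro ω; rw [S_succ]; ring
    have i1 : Integrable (fun ω => S X n ω * X n ω) μ := by
      refine int_of_bdd ((h.measS0 n).mul (h.meas0 n)) (C := (n * M) * M) fun ω => ?_
      rw [abs_mul]
      exact mul_le_mul (h.S_le n ω) (h.bdd n ω) (abs_nonneg _) ((abs_nonneg _).trans (h.S_le n ω))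
    have i2 : Integrable (fun ω => (1 : ℝ) * X n ω ^ 2) μ := by
      refine int_of_bdd (((h.meas0 n).pow_const 2).const_mul 1) (C := M ^ 2) fun ω => ?_
      rw [one_mul, abs_pow]
      exact pow_le_pow_left₀ (abs_nonneg _) (h.bdd n ω) 2
    simp_rw [e]
    have a1 : Integrable (fun ω => 2 * (S X n ω * X n ω) + 1 * X n ω ^ 2) μ :=
      (i1.const_mul 2).add i2
    rw [integral_add (h.intS n 2) a1, integral_add (i1.const_mul 2) i2,
      integral_const_mul, h.int_mul n (h.measS n) (h.S_le n)]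
    have h2 := h.int_mul_sq n (f := fun _ => 1) (@measurable_const _ _ _ (𝒢 n) _)
      (fun _ => zero_le_one) (C := 1) (fun _ => by simp)
    simp only [integral_const, smul_eq_mul, mul_one, probReal_univ] at h2
    push_cast
    linarith

/-- **fourth moment** -/
theorem MD.four (h : MD μ 𝒢 X M U) (n : ℕ) :
    ∫ ω, S X n ω ^ 4 ∂μ ≤ 4 * (n * U) ^ 2 + 3 * (n * U * M ^ 2) := by
  have hne : Nonempty Ω := nonempty_of_isProbabilityMeasure μ
  have hM := h.M_nonneg
  have hU : 0 ≤ U := by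
    have h2 := h.int_mul_sq 0 (f := fun _ => 1) (@measurable_const _ _ _ (𝒢 0) _)
      (fun _ => zero_le_one) (C := 1) (fun _ => by simp)
    simp only [integral_const, smul_eq_mul, mul_one, probReal_univ, one_mul] at h2
    exact (integral_nonneg fun ω => sq_nonneg _).trans h2
  induction n with
  | zero => simp [S_zero]
  | succ n ih =>
    have hX2 : ∀ ω, X n ω ^ 2 ≤ M ^ 2 := fun ω => by
      rw [← sq_abs]
      exact pow_le_pow_left₀ (abs_nonneg _) (h.bdd n ω) 2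
    have e : ∀ ω, S X (n + 1) ω ^ 4 ≤ S X n ω ^ 4 + (4 * (S X n ω ^ 3 * X n ω)
        + (8 * (S X n ω ^ 2 * X n ω ^ 2) + 3 * (M ^ 2 * X n ω ^ 2))) := by
      intro ω
      rw [S_succ]
      set a := S X n ω
      set b := X n ω
      have h1 : 4 * a * b ^ 3 ≤ 2 * a ^ 2 * b ^ 2 + 2 * b ^ 4 := by
        nlinarith [sq_nonneg (b * (a - b)), sq_nonneg (a * b), sq_nonneg (b ^ 2)]
      have h2 : b ^ 4 ≤ M ^ 2 * b ^ 2 := by
        have : b ^ 4 = b ^ 2 * b ^ 2 := by ring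
        rw [this]
        exact mul_le_mul_of_nonneg_right (hX2 ω) (sq_nonneg _)
      nlinarith
    have i3 : Integrable (fun ω => S X n ω ^ 3 * X n ω) μ := by
      refine int_of_bdd (((h.measS0 n).pow_const 3).mul (h.meas0 n)) (C := (n * M) ^ 3 * M)
        fun ω => ?_
      rw [abs_mul, abs_pow]
      exact mul_le_mul (pow_le_pow_left₀ (abs_nonneg _) (h.S_le n ω) 3) (h.bdd n ω) (abs_nonneg _)
        (by positivity)
    have i22 : Integrable (fun ω => S X n ω ^ 2 * X n ω ^ 2) μ := by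
      refine int_of_bdd (((h.measS0 n).pow_const 2).mul ((h.meas0 n).pow_const 2))
        (C := (n * M) ^ 2 * M ^ 2) fun ω => ?_
      rw [abs_mul, abs_pow, abs_pow]
      exact mul_le_mul (pow_le_pow_left₀ (abs_nonneg _) (h.S_le n ω) 2)
        (pow_le_pow_left₀ (abs_nonneg _) (h.bdd n ω) 2) (by positivity) (by positivity)
    have i2 : Integrable (fun ω => M ^ 2 * X n ω ^ 2) μ := by
      refine int_of_bdd (((h.meas0 n).pow_const 2).const_mul _) (C := M ^ 2 * M ^ 2) fun ω => ?_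
      rw [abs_mul, abs_of_nonneg (sq_nonneg M), abs_pow]
      exact mul_le_mul_of_nonneg_left (pow_le_pow_left₀ (abs_nonneg _) (h.bdd n ω) 2)
        (sq_nonneg _)
    have j1 : Integrable (fun ω => 8 * (S X n ω ^ 2 * X n ω ^ 2) + 3 * (M ^ 2 * X n ω ^ 2)) μ :=
      (i22.const_mul 8).add (i2.const_mul 3)
    have j2 : Integrable (fun ω => 4 * (S X n ω ^ 3 * X n ω)
        + (8 * (S X n ω ^ 2 * X n ω ^ 2) + 3 * (M ^ 2 * X n ω ^ 2))) μ :=
      (i3.const_mul 4).add j1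
    have hint : ∫ ω, S X (n + 1) ω ^ 4 ∂μ ≤ ∫ ω, (S X n ω ^ 4 + (4 * (S X n ω ^ 3 * X n ω)
        + (8 * (S X n ω ^ 2 * X n ω ^ 2) + 3 * (M ^ 2 * X n ω ^ 2)))) ∂μ :=
      integral_mono (h.intS (n + 1) 4) ((h.intS n 4).add j2) e
    rw [integral_add (h.intS n 4) j2, integral_add (i3.const_mul 4) j1,
      integral_add (i22.const_mul 8) (i2.const_mul 3), integral_const_mul, integral_const_mul,
      integral_const_mul] at hint
    have z3 : ∫ ω, S X n ω ^ 3 * X n ω ∂μ = 0 :=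
      h.int_mul n ((h.measS n).pow_const 3) (C := (n * M) ^ 3) fun ω => by
        rw [abs_pow]; exact pow_le_pow_left₀ (abs_nonneg _) (h.S_le n ω) 3
    have b22 : ∫ ω, S X n ω ^ 2 * X n ω ^ 2 ∂μ ≤ U * ∫ ω, S X n ω ^ 2 ∂μ :=
      h.int_mul_sq n ((h.measS n).pow_const 2) (fun ω => sq_nonneg _) (C := (n * M) ^ 2) fun ω => by
        rw [abs_pow]; exact pow_le_pow_left₀ (abs_nonneg _) (h.S_le n ω) 2
    have b2 : ∫ ω, M ^ 2 * X n ω ^ 2 ∂μ ≤ U * ∫ _ω, M ^ 2 ∂μ :=
      h.int_mul_sq n (f := fun _ => M ^ 2) (@measurable_const _ _ _ (𝒢 n) _)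
        (fun _ => sq_nonneg _) (C := M ^ 2) (fun _ => by rw [abs_of_nonneg (sq_nonneg _)])
    rw [integral_const, probReal_univ, one_smul] at b2
    have hs := h.sq n
    have hs' : U * ∫ ω, S X n ω ^ 2 ∂μ ≤ U * (n * U) := mul_le_mul_of_nonneg_left hs hU
    rw [z3] at hint
    push_cast
    nlinarith

/-- the fourth powers form a submartingale -/
lemma MD.submart (h : MD μ 𝒢 X M U) : Submartingale (fun n ω => S X n ω ^ 4) 𝒢 μ := by
  refine submartingale_of_setIntegral_le_succ (fun n => ?_) (fun n => h.intS n 4) ?_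
  · exact ((h.measS n).pow_const 4).stronglyMeasurable
  · intro n s hs
    have hs0 : MeasurableSet s := 𝒢.le n _ hs
    have e : ∀ ω, S X n ω ^ 4 + 4 * (S X n ω ^ 3 * X n ω) ≤ S X (n + 1) ω ^ 4 := by
      intro ω
      rw [S_succ]
      set a := S X n ω
      set b := X n ω
      nlinarith [sq_nonneg (a * b), sq_nonneg (b * (2 * a + b)), sq_nonneg (b * b)]
    have i3 : Integrable (fun ω => S X n ω ^ 3 * X n ω) μ := by
      refine int_of_bdd (((h.measS0 n).pow_const 3).mul (h.meas0 n)) (C := (n * M) ^ 3 * M)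
        fun ω => ?_
      rw [abs_mul, abs_pow]
      exact mul_le_mul (pow_le_pow_left₀ (abs_nonneg _) (h.S_le n ω) 3) (h.bdd n ω) (abs_nonneg _)
        (pow_nonneg ((abs_nonneg _).trans (h.S_le n ω)) 3)
    have hz : ∫ ω in s, S X n ω ^ 3 * X n ω ∂μ = 0 := by
      rw [← integral_indicator hs0]
      have h1 : ∀ ω, s.indicator (fun ω => S X n ω ^ 3 * X n ω) ω
          = (s.indicator (fun ω => S X n ω ^ 3) ω) * X n ω := by
        intro ω
        by_cases hω : ω ∈ s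
        · rw [indicator_of_mem hω, indicator_of_mem hω]
        · rw [indicator_of_notMem hω, indicator_of_notMem hω, zero_mul]
      simp_rw [h1]
      refine h.int_mul n (((h.measS n).pow_const 3).indicator hs) (C := (n * M) ^ 3) fun ω => ?_
      by_cases hω : ω ∈ s
      · rw [indicator_of_mem hω, abs_pow]
        exact pow_le_pow_left₀ (abs_nonneg _) (h.S_le n ω) 3
      · rw [indicator_of_notMem hω, abs_zero]
        exact pow_nonneg ((abs_nonneg _).trans (h.S_le n ω)) 3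
    have h2 : ∫ ω in s, (S X n ω ^ 4 + 4 * (S X n ω ^ 3 * X n ω)) ∂μ
        ≤ ∫ ω in s, S X (n + 1) ω ^ 4 ∂μ :=
      setIntegral_mono ((h.intS n 4).integrableOn.add (i3.integrableOn.const_mul 4))
        (h.intS (n + 1) 4).integrableOn e
    rw [integral_add (h.intS n 4).integrableOn (i3.integrableOn.const_mul 4), integral_const_mul,
      hz, mul_zero, add_zero] at h2
    exact h2

/-- the bound of the fourth moment -/
def E4 (n : ℕ) (M U : ℝ) : ℝ := 4 * (n * U) ^ 2 + 3 * (n * U * M ^ 2)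

/-- running maximum of the partial sums -/
noncomputable def Mx (X : ℕ → Ω → ℝ) (n : ℕ) (ω : Ω) : ℝ :=
  (range (n + 1)).sup' nonempty_range_add_one fun k => |S X k ω|

lemma le_Mx {k n : ℕ} (hk : k ≤ n) (ω : Ω) : |S X k ω| ≤ Mx X n ω :=
  Finset.le_sup' (fun k => |S X k ω|) (Finset.mem_range.2 (Nat.lt_succ_of_le hk))

lemma Mx_nonneg (n : ℕ) (ω : Ω) : 0 ≤ Mx X n ω := (abs_nonneg _).trans (le_Mx (Nat.zero_le n) ω)

lemma le_Mx_iff {n : ℕ} {ω : Ω} {t : ℝ} : t ≤ Mx X n ω ↔ ∃ k ≤ n, t ≤ |S X k ω| := by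
  unfold Mx
  rw [Finset.le_sup'_iff]
  constructor
  · rintro ⟨k, hk, h⟩
    exact ⟨k, Nat.lt_succ_iff.1 (Finset.mem_range.1 hk), h⟩
  · rintro ⟨k, hk, h⟩
    exact ⟨k, Finset.mem_range.2 (Nat.lt_succ_of_le hk), h⟩

lemma MD.measMx (h : MD μ 𝒢 X M U) (n : ℕ) : Measurable (Mx X n) := by
  refine measurable_of_Ici fun t => ?_
  have : Mx X n ⁻¹' Ici t = ⋃ k ∈ Finset.range (n + 1), {ω | t ≤ |S X k ω|} := by
    ext ω
    simp only [Set.mem_preimage, Set.mem_Ici, le_Mx_iff, mem_iUnion, mem_setOf_eq, Finset.mem_range,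
      Nat.lt_succ_iff, exists_prop]
  rw [this]
  exact Finset.measurableSet_biUnion _ fun k _ => measurableSet_le measurable_const
    (continuous_abs.measurable.comp (h.measS0 k))

/-- **maximal inequality** -/
theorem MD.maxi (h : MD μ 𝒢 X M U) (n : ℕ) {t : ℝ} (ht : 0 < t) :
    μ {ω | t ≤ Mx X n ω} ≤ ENNReal.ofReal (E4 n M U / t ^ 4) := by
  have h1 := maximal_ineq h.submart (fun n ω => by positivity) (ε := (t ^ 4).toNNReal) n
  rw [Real.coe_toNNReal _ (by positivity)] at h1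
  have hset : {ω | t ^ 4 ≤ (range (n + 1)).sup' nonempty_range_add_one fun k => S X k ω ^ 4}
      = {ω | t ≤ Mx X n ω} := by
    ext ω
    simp only [mem_setOf_eq]
    rw [le_Mx_iff, Finset.le_sup'_iff]
    constructor
    · rintro ⟨k, hk, hk2⟩
      refine ⟨k, Nat.lt_succ_iff.1 (Finset.mem_range.1 hk), ?_⟩
      have h2 : t ^ 4 ≤ |S X k ω| ^ 4 := by
        rw [Even.pow_abs (by decide)]; exact hk2
      exact le_of_pow_le_pow_left₀ (by norm_num) (abs_nonneg _) h2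
    · rintro ⟨k, hk, hk2⟩
      refine ⟨k, Finset.mem_range.2 (Nat.lt_succ_of_le hk), ?_⟩
      have h2 : t ^ 4 ≤ |S X k ω| ^ 4 := pow_le_pow_left₀ ht.le hk2 4
      rwa [Even.pow_abs (by decide)] at h2
  rw [hset] at h1
  have h2 : ∫ ω in {ω | t ≤ Mx X n ω}, S X n ω ^ 4 ∂μ ≤ E4 n M U := by
    refine le_trans (setIntegral_le_integral (h.intS n 4) (ae_of_all _ fun ω => ?_)) (h.four n)
    positivity
  have h3 : ENNReal.ofReal (t ^ 4) * μ {ω | t ≤ Mx X n ω} ≤ ENNReal.ofReal (E4 n M U) := by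
    refine le_trans (le_of_eq ?_) (h1.trans (ENNReal.ofReal_le_ofReal h2))
    rfl
  have ht4 : ENNReal.ofReal (t ^ 4) ≠ 0 := by
    rw [Ne, ENNReal.ofReal_eq_zero, not_le]; positivity
  rw [ENNReal.ofReal_div_of_pos (by positivity), ENNReal.le_div_iff_mul_le (Or.inl ht4)
    (Or.inl ENNReal.ofReal_ne_top), mul_comm]
  exact h3

lemma E4_nonneg (h : MD μ 𝒢 X M U) (n : ℕ) : 0 ≤ E4 n M U :=
  (integral_nonneg fun ω => by positivity).trans (h.four n)

/-- **tail of the second moment of the maximum** -/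
theorem MD.tail (h : MD μ 𝒢 X M U) (n : ℕ) {B : ℝ} (hB : 0 < B) :
    ∫⁻ ω in {ω | B ≤ Mx X n ω}, ENNReal.ofReal (Mx X n ω ^ 2) ∂μ
      ≤ ENNReal.ofReal (16 / 3 * (E4 n M U / B ^ 2)) := by
  have hE := E4_nonneg h n
  have hm := h.measMx n
  have hset : ∀ t : ℝ, MeasurableSet {ω | t ≤ Mx X n ω} := fun t => measurableSet_le measurable_const hm
  -- pointwise dyadic bound
  have hp : ∀ ω, ({ω | B ≤ Mx X n ω}).indicator (fun ω => ENNReal.ofReal (Mx X n ω ^ 2)) ω
      ≤ ∑' j : ℕ, ENNReal.ofReal (4 * 4 ^ j * B ^ 2) *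
        ({ω | 2 ^ j * B ≤ Mx X n ω}).indicator 1 ω := by
    intro ω
    by_cases hω : B ≤ Mx X n ω
    · rw [indicator_of_mem (show ω ∈ {ω | B ≤ Mx X n ω} from hω)]
      have h1 : 1 ≤ Mx X n ω / B := by rwa [le_div_iff₀ hB, one_mul]
      obtain ⟨j, hj1, hj2⟩ := exists_nat_pow_near h1 (by norm_num : (1 : ℝ) < 2)
      rw [le_div_iff₀ hB] at hj1
      rw [div_lt_iff₀ hB] at hj2
      refine le_trans ?_ (ENNReal.le_tsum j)
      rw [indicator_of_mem (show ω ∈ {ω | 2 ^ j * B ≤ Mx X n ω} from hj1), Pi.one_apply, mul_one]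
      refine ENNReal.ofReal_le_ofReal ?_
      calc Mx X n ω ^ 2 ≤ (2 ^ (j + 1) * B) ^ 2 :=
            pow_le_pow_left₀ (Mx_nonneg n ω) hj2.le 2
        _ = 4 * 4 ^ j * B ^ 2 := by
            have e2 : ((2 : ℝ) ^ (j + 1)) ^ 2 = 4 * 4 ^ j := by
              rw [← pow_mul, mul_comm (j + 1) 2, pow_mul, pow_succ]
              norm_num
              ring
            rw [mul_pow, e2]
    · rw [indicator_of_notMem (show ω ∉ {ω | B ≤ Mx X n ω} from hω)]
      exact zero_le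
  rw [← lintegral_indicator (hset B)]
  refine (lintegral_mono hp).trans ?_
  rw [lintegral_tsum fun j => ((measurable_one.indicator (hset _)).const_mul _).aemeasurable]
  have hj : ∀ j : ℕ, ∫⁻ ω, ENNReal.ofReal (4 * 4 ^ j * B ^ 2) *
      ({ω | 2 ^ j * B ≤ Mx X n ω}).indicator 1 ω ∂μ
      ≤ ENNReal.ofReal (4 * (E4 n M U / B ^ 2) * (1 / 4) ^ j) := by
    intro j
    rw [lintegral_const_mul _ (measurable_one.indicator (hset _)), lintegral_indicator_one (hset _)]
    have h1 := h.maxi n (t := 2 ^ j * B) (by positivity)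
    calc ENNReal.ofReal (4 * 4 ^ j * B ^ 2) * μ {ω | 2 ^ j * B ≤ Mx X n ω}
        ≤ ENNReal.ofReal (4 * 4 ^ j * B ^ 2) * ENNReal.ofReal (E4 n M U / (2 ^ j * B) ^ 4) := by
          gcongr
      _ = ENNReal.ofReal (4 * (E4 n M U / B ^ 2) * (1 / 4) ^ j) := by
          rw [← ENNReal.ofReal_mul (by positivity)]
          congr 1
          have e1 : ((2 : ℝ) ^ j * B) ^ 4 = 4 ^ j * 4 ^ j * B ^ 4 := by
            rw [mul_pow, ← pow_mul, mul_comm j 4, pow_mul, ← mul_pow]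
            norm_num
          rw [e1, one_div, inv_pow]
          field_simp
  refine (ENNReal.tsum_le_tsum hj).trans ?_
  rw [← ENNReal.ofReal_tsum_of_nonneg (fun j => by positivity)
    ((summable_geometric_of_lt_one (by norm_num) (by norm_num)).mul_left _), tsum_mul_left,
    tsum_geometric_of_lt_one (by norm_num) (by norm_num)]
  refine ENNReal.ofReal_le_ofReal (le_of_eq ?_)
  norm_num
  ring

end basic

/-! ### independent variables -/

section indep

variable {X : ℕ → Ω → ℝ} {M U : ℝ} [IsProbabilityMeasure μ]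

/-- filtration of an independent sequence -/
def fil (X : ℕ → Ω → ℝ) (hX : ∀ i, Measurable (X i)) : Filtration ℕ m0 where
  seq n := ⨆ i, ⨆ _ : i < n, MeasurableSpace.comap (X i) inferInstance
  mono' := fun a b hab => iSup_mono fun i => iSup_mono' fun hi => ⟨lt_of_lt_of_le hi hab, le_rfl⟩
  le' := fun n => iSup_le fun i => iSup_le fun _ => (hX i).comap_le

/-- independent centred bounded variables are bounded martingale differences -/
theorem md_of_indep (hX : ∀ i, Measurable (X i)) (hind : iIndepFun X μ)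
    (hM : ∀ i ω, |X i ω| ≤ M) (h0 : ∀ i, ∫ ω, X i ω ∂μ = 0)
    (hU : ∀ i, ∫ ω, X i ω ^ 2 ∂μ ≤ U) : MD μ (fil X hX) X M U := by
  have hi : ∀ i, Indep (MeasurableSpace.comap (X i) inferInstance) (fil X hX i) μ := by
    intro i
    have h1 := indep_iSup_of_disjoint (m := fun i => MeasurableSpace.comap (X i) inferInstance)
      (fun i => (hX i).comap_le) hind (S := {i}) (T := {j | j < i})
      (by
        rw [Set.disjoint_singleton_left]
        simp)
    simpa [fil] using h1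
  refine ⟨fun i => ?_, hM, fun i => ?_, fun i => ?_⟩
  · have h1 : Measurable[MeasurableSpace.comap (X i) inferInstance] (X i) := comap_measurable _
    refine h1.mono ?_ le_rfl
    exact le_iSup₂_of_le i (Nat.lt_succ_self i) le_rfl
  · have h1 := condExp_indep_eq (hX i).comap_le ((fil X hX).le i)
      (comap_measurable (X i)).stronglyMeasurable (hi i)
    rw [h0 i] at h1
    exact h1
  · have h1 : μ[fun ω => X i ω ^ 2 | fil X hX i] =ᵐ[μ] fun _ => ∫ ω, X i ω ^ 2 ∂μ :=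
      condExp_indep_eq (hX i).comap_le ((fil X hX).le i)
        ((comap_measurable (X i)).pow_const 2).stronglyMeasurable (hi i)
    filter_upwards [h1] with ω hω
    rw [hω]
    exact hU i

end indep

end Crest.Agent.R154.Four775
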