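import Crest.Agent.R154.FP_178

/-! Row 154 (T0219, road 801), line (1): smooth density of the FIRST PASSAGE law, overshoot and
displacement together (helper823; induction after helper616's `Dens616.dens`). -/

set_option autoImplicit false

namespace Crest.Agent.R154.FpDens823

open Crest.Agent.R154.B5A Crest.Agent.R154.FP178
open scoped ENNReal

/-- **density lemma with an extra index**: `α` = (overshoot, displacement), `s z` = shift by `z`,
`e r` = part whose first attempt has overshoot `> i0`. -/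
theorem dens {Z α : Type*} (s : Z → α ≃ α) (p : ℕ → Z → ℝ≥0∞) (f e : ℕ → α → ℝ≥0∞) (T i0 : ℕ)
    (th q ε G : ℝ≥0∞)
    (hrec : ∀ r, T + i0 ≤ r → ∀ x, f r x ≤
      (∑' i, ∑' z', if i ≤ i0 then p i z' * f (r - T - i) (s z' x) else 0) + e r x)
    (hf : ∀ r, ∑' x, f r x ≤ 1) (hs : ∀ r x, ∑' z', f r (s z' x) ≤ 1)
    (he : ∀ r, T + i0 ≤ r → ∑' x, e r x ≤ ε)
    (hq : ∑' i, ∑' z', (if i ≤ i0 ∧ th < p i z' then p i z' else 0) ≤ q) (hq1 : q ≤ 1)
    (hG : (i0 + 1 : ℕ) * th + q * G ≤ G) :
    ∀ J r, J * (T + i0) ≤ r → ∃ b : α → ℝ≥0∞, (∑' x, b x ≤ q ^ J + J * ε) ∧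
      ∀ x, f r x ≤ G + b x := by
  intro J
  induction J with
  | zero =>
    intro r _
    exact ⟨f r, by simpa using hf r, fun z => le_add_self⟩
  | succ J ih =>
    intro r hr
    have hTr : T + i0 ≤ r := by nlinarith
    have hrem : ∀ i, i ≤ i0 → J * (T + i0) ≤ r - T - i := by
      intro i hi
      have : J * (T + i0) + (T + i0) ≤ r := by nlinarith
      omega
    choose! b hb1 hb2 using fun i (hi : i ≤ i0) => ih (r - T - i) (hrem i hi)
    refine ⟨fun x => e r x +
      ∑' i, ∑' z', if i ≤ i0 ∧ th < p i z' then p i z' * b i (s z' x) else 0, ?_, ?_⟩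
    · rw [ENNReal.tsum_add]
      have e2 : ∑' x, ∑' i, ∑' z', (if i ≤ i0 ∧ th < p i z' then p i z' * b i (s z' x) else 0)
          ≤ q * (q ^ J + J * ε) := by
        calc ∑' x, ∑' i, ∑' z', (if i ≤ i0 ∧ th < p i z' then p i z' * b i (s z' x) else 0)
            = ∑' i, ∑' z', ∑' x, (if i ≤ i0 ∧ th < p i z' then p i z' * b i (s z' x) else 0) := by
              rw [ENNReal.tsum_comm]
              refine tsum_congr fun i => ?_
              rw [ENNReal.tsum_comm]
          _ ≤ ∑' i, ∑' z', (if i ≤ i0 ∧ th < p i z' then p i z' else 0) * (q ^ J + J * ε) := by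
              refine ENNReal.tsum_le_tsum fun i => ENNReal.tsum_le_tsum fun z' => ?_
              split_ifs with h
              · rw [ENNReal.tsum_mul_left]
                have : ∑' x, b i (s z' x) = ∑' x, b i x := (s z').tsum_eq fun x => b i x
                rw [this]
                gcongr
                exact hb1 i h.1
              · simp
          _ = (∑' i, ∑' z', (if i ≤ i0 ∧ th < p i z' then p i z' else 0)) * (q ^ J + J * ε) := by
              simp_rw [ENNReal.tsum_mul_right]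
          _ ≤ _ := by gcongr
      calc _ ≤ ε + q * (q ^ J + J * ε) := add_le_add (he r hTr) e2
        _ = q ^ (J + 1) + (ε + q * (J * ε)) := by ring
        _ ≤ q ^ (J + 1) + (ε + 1 * (J * ε)) := by gcongr
        _ = q ^ (J + 1) + ((J + 1 : ℕ) : ℝ≥0∞) * ε := by push_cast; ring
    · intro x
      have hterm : ∀ i z', (if i ≤ i0 then p i z' * f (r - T - i) (s z' x) else 0) ≤
          (if i ≤ i0 then th * f (r - T - i) (s z' x) else 0) +
          ((if i ≤ i0 ∧ th < p i z' then p i z' * b i (s z' x) else 0) +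
            (if i ≤ i0 ∧ th < p i z' then p i z' else 0) * G) := by
        intro i z'
        by_cases hi : i ≤ i0
        · simp only [hi, if_true, true_and]
          by_cases hp : th < p i z'
          · simp only [hp, if_true]
            calc _ ≤ p i z' * (G + b i (s z' x)) := by gcongr; exact hb2 i hi _
              _ = p i z' * b i (s z' x) + p i z' * G := by ring
              _ ≤ _ := le_add_self
          · simp only [hp, if_false, zero_mul, add_zero]
            gcongr
            exact not_lt.1 hp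
        · simp only [hi, if_false]
          exact zero_le
      calc f r x ≤ (∑' i, ∑' z', if i ≤ i0 then p i z' * f (r - T - i) (s z' x) else 0) + e r x :=
            hrec r hTr x
        _ ≤ (∑' i, ∑' z', ((if i ≤ i0 then th * f (r - T - i) (s z' x) else 0) +
          ((if i ≤ i0 ∧ th < p i z' then p i z' * b i (s z' x) else 0) +
            (if i ≤ i0 ∧ th < p i z' then p i z' else 0) * G))) + e r x := by
            gcongr with i z'
            exact hterm i z'
        _ = ((∑' i, ∑' z', (if i ≤ i0 then th * f (r - T - i) (s z' x) else 0)) +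
          ((∑' i, ∑' z', (if i ≤ i0 ∧ th < p i z' then p i z' * b i (s z' x) else 0)) +
            (∑' i, ∑' z', (if i ≤ i0 ∧ th < p i z' then p i z' else 0)) * G)) + e r x := by
            simp_rw [ENNReal.tsum_add, ENNReal.tsum_mul_right]
        _ ≤ (((i0 + 1 : ℕ) * th) +
          ((∑' i, ∑' z', (if i ≤ i0 ∧ th < p i z' then p i z' * b i (s z' x) else 0)) + q * G))
            + e r x := by
            gcongr
            calc ∑' i, ∑' z', (if i ≤ i0 then th * f (r - T - i) (s z' x) else 0)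
                ≤ ∑' i, (if i ≤ i0 then th else 0) := by
                  refine ENNReal.tsum_le_tsum fun i => ?_
                  split_ifs with h
                  · rw [ENNReal.tsum_mul_left]
                    calc th * ∑' z', f (r - T - i) (s z' x) ≤ th * 1 := by gcongr; exact hs _ _
                      _ = th := mul_one _
                  · simp
              _ = ∑ i ∈ Finset.range (i0 + 1), th := by
                  rw [tsum_eq_sum (s := Finset.range (i0 + 1))]
                  · refine Finset.sum_congr rfl fun i hi => ?_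
                    rw [if_pos (by have := Finset.mem_range.1 hi; omega)]
                  · intro i hi
                    rw [if_neg (by intro h; exact hi (Finset.mem_range.2 (by omega)))]
              _ = _ := by simp
        _ = ((i0 + 1 : ℕ) * th + q * G) + (e r x +
            ∑' i, ∑' z', (if i ≤ i0 ∧ th < p i z' then p i z' * b i (s z' x) else 0)) := by ring
        _ ≤ _ := by gcongr

section lists

variable {B Z : Type*} [AddCommGroup Z] (Λ : B → ℝ≥0∞) (ht : B → ℕ) (dsp : B → Z)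

/-- displacement of a list -/
def DL (L : List B) : Z := (L.map dsp).sum

lemma DL_append (L L' : List B) : DL dsp (L ++ L') = DL dsp L + DL dsp L' := by
  simp [DL]

open Classical in
/-- law of (overshoot, displacement) at the first passage of depth `a` -/
noncomputable def fpl (a : ℕ) (x : ℕ × Z) : ℝ≥0∞ :=
  ∑' L : List B, if fp ht a L ∧ HT ht L = a + x.1 ∧ DL dsp L = x.2 then LW Λ L else 0

/-- shift of the displacement -/
def sh (z : Z) : (ℕ × Z) ≃ (ℕ × Z) := Equiv.prodCongr (Equiv.refl ℕ) (Equiv.subRight z)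

lemma sh_apply (z : Z) (x : ℕ × Z) : sh z x = (x.1, x.2 - z) := rfl

open Classical in
lemma sum_fpl (f : ℕ × Z → ℝ≥0∞) (a : ℕ) :
    ∑' x : ℕ × Z, fpl Λ ht dsp a x * f x
      = ∑' L : List B, (if fp ht a L then LW Λ L * f (HT ht L - a, DL dsp L) else 0) := by
  simp only [fpl]
  simp_rw [← ENNReal.tsum_mul_right]
  rw [ENNReal.tsum_comm]
  refine tsum_congr fun L => ?_
  by_cases h : fp ht a L
  · have hle := le_HT_of_fp ht h
    rw [if_pos h, tsum_eq_single ((HT ht L - a, DL dsp L) : ℕ × Z)]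
    · rw [if_pos ⟨h, by simp; omega, rfl⟩]
    · rintro ⟨i, z⟩ hne
      rw [if_neg, zero_mul]
      rintro ⟨_, h2, h3⟩
      apply hne
      simp only at h2 h3
      rw [Prod.mk.injEq]
      exact ⟨by omega, h3.symm⟩
  · rw [if_neg h]
    simp [h]

lemma sum_fpl_le (h1 : ∀ b, 1 ≤ ht b) (hΛ : ∑' b, Λ b ≤ 1) (a : ℕ) :
    ∑' x : ℕ × Z, fpl Λ ht dsp a x ≤ 1 := by
  classical
  have h := sum_fpl Λ ht dsp (fun _ => 1) a
  simp only [mul_one] at h
  rw [h]
  exact sum_FP Λ ht h1 hΛ a

open Classical in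
/-- part of the first passage of `a` whose first attempt has overshoot `> i0` -/
noncomputable def ers (T i0 a : ℕ) (x : ℕ × Z) : ℝ≥0∞ :=
  ∑' A : List B, if fp ht T A ∧ T + i0 < HT ht A then LW Λ A *
    ∑' L, (if fp ht (a - HT ht A) L ∧ HT ht (A ++ L) = a + x.1 ∧ DL dsp (A ++ L) = x.2
      then LW Λ L else 0) else 0

lemma sum_ers (h1 : ∀ b, 1 ≤ ht b) (hΛ : ∑' b, Λ b ≤ 1) (T i0 a : ℕ) (ε : ℝ≥0∞)
    (hε : ∑' x : ℕ × Z, (if i0 < x.1 then fpl Λ ht dsp T x else 0) ≤ ε) :
    ∑' x : ℕ × Z, ers Λ ht dsp T i0 a x ≤ ε := by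
  classical
  refine le_trans ?_ hε
  have e2 := sum_fpl Λ ht dsp (fun y : ℕ × Z => if i0 < y.1 then 1 else 0) T
  have e3 : ∑' x : ℕ × Z, (if i0 < x.1 then fpl Λ ht dsp T x else 0)
      = ∑' x : ℕ × Z, fpl Λ ht dsp T x * (if i0 < x.1 then 1 else 0) :=
    tsum_congr fun x => by split_ifs <;> simp
  rw [e3, e2]
  simp only [ers]
  rw [ENNReal.tsum_comm]
  refine ENNReal.tsum_le_tsum fun A => ?_
  by_cases hA : fp ht T A ∧ T + i0 < HT ht A
  · simp only [hA, and_self, if_true]
    rw [if_pos (by omega), ENNReal.tsum_mul_left]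
    refine mul_le_mul_right ?_ _
    rw [ENNReal.tsum_comm]
    refine le_trans (ENNReal.tsum_le_tsum fun L => ?_) (sum_FP Λ ht h1 hΛ (a - HT ht A))
    by_cases hL : fp ht (a - HT ht A) L
    · rw [if_pos hL]
      have hle : a ≤ HT ht (A ++ L) := by
        have := le_HT_of_fp ht hL
        rw [HT_append]; omega
      rw [tsum_eq_single ((HT ht (A ++ L) - a, DL dsp (A ++ L)) : ℕ × Z)]
      · split_ifs <;> simp
      · rintro ⟨i, z⟩ hne
        rw [if_neg]
        rintro ⟨_, h2, h3⟩
        apply hne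
        simp only at h2 h3
        rw [Prod.mk.injEq]
        exact ⟨by omega, h3.symm⟩
    · simp [hL]
  · simp only [hA, if_false, tsum_zero]
    exact zero_le

open Classical in
lemma fpl_rec (h1 : ∀ b, 1 ≤ ht b) (T i0 a : ℕ) (hT : T + i0 ≤ a) (x : ℕ × Z) :
    fpl Λ ht dsp a x ≤ (∑' i, ∑' z, if i ≤ i0 then
      fpl Λ ht dsp T (i, z) * fpl Λ ht dsp (a - T - i) (sh z x) else 0)
      + ers Λ ht dsp T i0 a x := by
  have e1 : fpl Λ ht dsp a x = ∑' L : List B, (if fp ht a L then LW Λ L *
      (if HT ht L = a + x.1 ∧ DL dsp L = x.2 then 1 else 0) else 0) := by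
    rw [fpl]
    refine tsum_congr fun L => ?_
    by_cases h : fp ht a L <;> by_cases h' : HT ht L = a + x.1 ∧ DL dsp L = x.2 <;> simp [h, h']
  rw [e1, fp_split Λ ht h1 T a (by omega)]
  have e3 : (∑' i, ∑' z, if i ≤ i0 then
      fpl Λ ht dsp T (i, z) * fpl Λ ht dsp (a - T - i) (sh z x) else 0)
      = ∑' y : ℕ × Z, fpl Λ ht dsp T y *
        (if y.1 ≤ i0 then fpl Λ ht dsp (a - T - y.1) (sh y.2 x) else 0) := by
    rw [← ENNReal.tsum_prod (f := fun i z => if i ≤ i0 then
      fpl Λ ht dsp T (i, z) * fpl Λ ht dsp (a - T - i) (sh z x) else 0)]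
    refine tsum_congr fun y => ?_
    split_ifs <;> simp
  rw [e3, sum_fpl Λ ht dsp (fun y : ℕ × Z =>
    if y.1 ≤ i0 then fpl Λ ht dsp (a - T - y.1) (sh y.2 x) else 0) T]
  rw [ers, ← ENNReal.tsum_add]
  refine ENNReal.tsum_le_tsum fun A => ?_
  by_cases hA : fp ht T A
  · have hle := le_HT_of_fp ht hA
    by_cases hov : T + i0 < HT ht A
    · rw [if_pos hA, if_pos hA, if_neg (by omega : ¬ HT ht A - T ≤ i0), mul_zero, zero_add,
        if_pos ⟨hA, hov⟩]
      refine mul_le_mul_right (ENNReal.tsum_le_tsum fun L => ?_) _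
      by_cases hL : fp ht (a - HT ht A) L <;>
        by_cases h' : HT ht (A ++ L) = a + x.1 ∧ DL dsp (A ++ L) = x.2 <;> simp [hL, h']
    · rw [if_pos hA, if_pos hA, if_pos (by omega : HT ht A - T ≤ i0)]
      refine le_add_right (mul_le_mul_right ?_ _)
      have hsub : a - T - (HT ht A - T) = a - HT ht A := by omega
      simp only [hsub]
      rw [fpl]
      refine ENNReal.tsum_le_tsum fun L => ?_
      by_cases hL : fp ht (a - HT ht A) L
      · rw [if_pos hL]
        by_cases h' : HT ht (A ++ L) = a + x.1 ∧ DL dsp (A ++ L) = x.2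
        · rw [if_pos h', mul_one]
          have hleL := le_HT_of_fp ht hL
          rw [HT_append] at h'
          rw [if_pos]
          refine ⟨hL, ?_, ?_⟩
          · rw [sh_apply]; simp only; omega
          · rw [sh_apply]; simp only
            rw [← h'.2, DL_append]; abel
        · rw [if_neg h', mul_zero]; exact zero_le
      · rw [if_neg hL]; exact zero_le
  · rw [if_neg hA, if_neg hA]
    exact zero_le

/-- **smooth density of the first passage law** (line (1) of road 801): off a part of TOTAL mass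
`q ^ J + J ε` (overshoot and displacement summed together) it is at most `G`. -/
theorem fp_dens (h1 : ∀ b, 1 ≤ ht b) (hΛ : ∑' b, Λ b ≤ 1) (T i0 : ℕ) (th q ε G : ℝ≥0∞)
    (hε : ∑' x : ℕ × Z, (if i0 < x.1 then fpl Λ ht dsp T x else 0) ≤ ε)
    (hq : ∑' i, ∑' z, (if i ≤ i0 ∧ th < fpl Λ ht dsp T (i, z) then fpl Λ ht dsp T (i, z) else 0)
      ≤ q) (hq1 : q ≤ 1) (hG : (i0 + 1 : ℕ) * th + q * G ≤ G) (J a : ℕ) (ha : J * (T + i0) ≤ a) :
    ∃ b : ℕ × Z → ℝ≥0∞, (∑' x, b x ≤ q ^ J + J * ε) ∧ ∀ x, fpl Λ ht dsp a x ≤ G + b x := by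
  refine dens (fun z : Z => sh z) (fun i z => fpl Λ ht dsp T (i, z)) (fpl Λ ht dsp)
    (ers Λ ht dsp T i0) T i0 th q ε G (fun r hr x => fpl_rec Λ ht dsp h1 T i0 r hr x)
    (sum_fpl_le Λ ht dsp h1 hΛ) ?_ (fun r _ => sum_ers Λ ht dsp h1 hΛ T i0 r ε hε)
    hq hq1 hG J a ha
  intro r x
  have e : ∑' z, fpl Λ ht dsp r (sh z x) = ∑' z, fpl Λ ht dsp r (x.1, z) := by
    simp only [sh_apply]
    exact (Equiv.subLeft x.2).tsum_eq fun z => fpl Λ ht dsp r (x.1, z)
  rw [e]
  refine le_trans ?_ (sum_fpl_le Λ ht dsp h1 hΛ r)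
  rw [ENNReal.tsum_prod (f := fun i z => fpl Λ ht dsp r (i, z))]
  exact ENNReal.le_tsum (f := fun i => ∑' z, fpl Λ ht dsp r (i, z)) x.1

lemma over_fpl (h1 : ∀ b, 1 ≤ ht b) (hU1 : ∀ n, U Λ ht n ≤ 1) (T i0 : ℕ) :
    ∑' x : ℕ × Z, (if i0 < x.1 then fpl Λ ht dsp T x else 0) ≤ ∑' k, tail Λ ht (i0 + k) := by
  classical
  refine le_trans (le_of_eq ?_) (overshoot Λ ht h1 hU1 i0 T)
  have e3 : ∑' x : ℕ × Z, (if i0 < x.1 then fpl Λ ht dsp T x else 0)
      = ∑' x : ℕ × Z, fpl Λ ht dsp T x * (if i0 < x.1 then 1 else 0) :=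
    tsum_congr fun x => by split_ifs <;> simp
  rw [e3, sum_fpl Λ ht dsp (fun y : ℕ × Z => if i0 < y.1 then 1 else 0) T]
  refine tsum_congr fun L => ?_
  by_cases hL : fp ht T L
  · have hle := le_HT_of_fp ht hL
    by_cases h2 : T + i0 < HT ht L
    · rw [if_pos hL, if_pos (by omega : i0 < HT ht L - T), mul_one, if_pos ⟨hL, h2⟩]
    · rw [if_pos hL, if_neg (by omega : ¬ i0 < HT ht L - T), mul_zero, if_neg (fun h => h2 h.2)]
  · rw [if_neg hL, if_neg (fun h => hL h.1)]

end lists

end Crest.Agent.R154.FpDens823
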