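import Crest.Agent.R154.RatioS_775

/-! Row 154, TILE_RUN (plan 878 #34420 with the repair 950 #34936): the free range in DIRECT form.
`Alive μ p T s a0 b` = one of the exit laws of the sub-levels `a0 + l s` (`l < T`) climbs NATURALLY
(never below its own level) to `b` with mass `≥ p/4`.  This event is `F b`-measurable, decreasing in
`b`, fails with conditional probability `≤ δ` for every `b` (only `h n → h ∞` is used), and on it
`Sh a ≤ (4/p) Sh b`. -/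

set_option autoImplicit false
set_option linter.unusedSectionVars false
set_option linter.deprecated false
set_option linter.unusedVariables false

namespace Crest.Agent.R154.FreeD950

open MeasureTheory ProbabilityTheory Set Filter Finset
open Crest.Agent.R154.RatioR872 Crest.Agent.R154.RatioR872.KerSys Crest.Agent.R154.RatioS775
open scoped ENNReal Topology

variable {S : Type*} [Countable S] {Ω : Type*} {m0 : MeasurableSpace Ω} {P : Measure Ω}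

/-- some sub-level `a0 + l * s`, `l < T`, has natural mass `≥ p/4` up to `b` -/
def Alive (A : KerSys S P) (μ : S → ℝ≥0∞) (p : ℝ≥0∞) (T s a0 b : ℕ) : Set Ω :=
  {ω | ∃ l, l < T ∧ p / 4 ≤ tot (A.push (a0 + l * s) b (A.exitW μ (a0 + l * s))) ω}

lemma lv_le {T s a0 l : ℕ} (hl : l < T) : a0 + l * s ≤ a0 + T * s :=
  Nat.add_le_add_left (Nat.mul_le_mul_right _ hl.le) _

theorem alive_anti (A : KerSys S P) (μ : S → ℝ≥0∞) (p : ℝ≥0∞) {T s a0 b c : ℕ}
    (h : a0 + T * s ≤ b) (hbc : b ≤ c) : Alive A μ p T s a0 c ⊆ Alive A μ p T s a0 b := by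
  rintro ω ⟨l, hl, hω⟩
  exact ⟨l, hl, hω.trans (tot_push_anti A ((lv_le hl).trans h) hbc _ ω)⟩

theorem alive_meas (A : KerSys S P) {μ : S → ℝ≥0∞} (hμ : A.Start μ) (p : ℝ≥0∞) {T s a0 b : ℕ}
    (h : a0 + T * s ≤ b) : MeasurableSet[A.F b] (Alive A μ p T s a0 b) := by
  have e : Alive A μ p T s a0 b = ⋃ l ∈ Finset.range T,
      {ω | p / 4 ≤ tot (A.push (a0 + l * s) b (A.exitW μ (a0 + l * s))) ω} := by
    ext ω
    simp only [Alive, mem_setOf_eq, mem_iUnion, Finset.mem_range, exists_prop]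
  rw [e]
  refine @Finset.measurableSet_biUnion _ _ (A.F b) _ (Finset.range T) fun l hl => ?_
  have hm := ((wt_exitW hμ (a0 + l * s)).push ((lv_le (Finset.mem_range.1 hl)).trans h)).meas_tot
  exact @measurableSet_le _ _ _ _ _ (A.F b) _ _ _ _ _ (@measurable_const _ _ _ (A.F b) _) hm

/-- on `Alive .. b` the mass at `b` is at least `p/4` times the mass at every `a` between -/
theorem Sh_of_alive (A : KerSys S P) {μ : S → ℝ≥0∞} (hμ : A.Start μ) (p : ℝ≥0∞) {T s a0 b : ℕ}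
    (hb : a0 + T * s ≤ b) :
    ∀ᵐ ω ∂P, ω ∈ Alive A μ p T s a0 b → ∀ a, a0 + T * s ≤ a →
      p / 4 * A.Sh μ a ω ≤ A.Sh μ b ω := by
  have hall : ∀ᵐ ω ∂P, ∀ l ∈ Finset.range T, A.Sh μ (a0 + l * s) ω *
      tot (A.push (a0 + l * s) b (A.exitW μ (a0 + l * s))) ω ≤ A.Sh μ b ω := by
    rw [Finset.eventually_all]
    intro l hl
    exact Sh_ge1 A hμ ((lv_le (Finset.mem_range.1 hl)).trans hb)
  filter_upwards [hall] with ω hω
  rintro ⟨l, hl, hm⟩ a ha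
  calc p / 4 * A.Sh μ a ω ≤
        tot (A.push (a0 + l * s) b (A.exitW μ (a0 + l * s))) ω * A.Sh μ (a0 + l * s) ω := by
        gcongr
        exact Sh_anti ((lv_le hl).trans ha) ω
    _ = A.Sh μ (a0 + l * s) ω *
        tot (A.push (a0 + l * s) b (A.exitW μ (a0 + l * s))) ω := mul_comm _ _
    _ ≤ _ := hω l (Finset.mem_range.2 hl)

/-- **direct form of (F), finite** -/
theorem free_dir [IsProbabilityMeasure P] (A : KerSys S P) {p : ℝ≥0∞} (hp0 : p ≠ 0)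
    (hp : ∀ n, p ≤ A.h n) (hh : ∀ n, A.h n ≤ 1)
    (hpos : ∀ μ, A.Start μ → ∀ h, ∀ᵐ ω ∂P, A.Sh μ h ω ≠ 0)
    {ε : ℝ≥0∞} {T s a0 b : ℕ} (hconv : ∀ m, s ≤ m → m ≤ b - a0 → A.h s ≤ A.h m + ε)
    (h0 : a0 + T * s ≤ b)
    {μ : S → ℝ≥0∞} (hμ : A.Start μ) {B : Set Ω} (hB : MeasurableSet[A.F a0] B) :
    P (B ∩ (Alive A μ p T s a0 b)ᶜ) ≤ ((1 - p / 2) ^ T + T * (4 * ε / p)) * P B := by
  have hpt : p ≠ ∞ := ne_top_of_le_ne_top ENNReal.one_ne_top ((hp 0).trans (hh 0))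
  set lv : ℕ → ℕ := fun j => a0 + j * s with hlv
  have hlvm : Monotone lv := fun i j hij => by
    simp only [hlv]
    exact Nat.add_le_add_left (Nat.mul_le_mul_right _ hij) _
  have hlv0 : lv 0 = a0 := by simp [hlv]
  have hlvs : ∀ j, lv (j + 1) = lv j + s := fun j => by simp only [hlv]; ring
  have hlvT : ∀ j, j ≤ T → lv j ≤ b := by
    intro j hj
    simp only [hlv]
    have : j * s ≤ T * s := Nat.mul_le_mul_right _ hj
    omega
  set w : ℕ → Ω → S → ℝ≥0∞ := fun j => A.exitW μ (lv j) with hw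
  set E : ℕ → Set Ω := fun j => {ω | p / 2 ≤ tot (A.push (lv j) (lv (j + 1)) (w j)) ω} with hE
  set Bd : ℕ → Set Ω := fun j => {ω | p / 2 ≤ tot (A.push (lv j) (lv (j + 1)) (w j)) ω ∧
    tot (A.push (lv j) b (w j)) ω < p / 4} with hBd
  have hw1 : ∀ j, ∀ᵐ ω ∂P, tot (w j) ω = 1 := by
    intro j
    filter_upwards [hpos μ hμ (lv j)] with ω hω
    exact tot_exitW_eq hμ _ ω hω
  have hwW : ∀ j, A.Wt (lv j) (w j) := fun j => wt_exitW hμ _
  have hwl : ∀ j ω, tot (w j) ω ≤ 1 := fun j ω => tot_exitW_le μ _ ω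
  have hEm : ∀ j, MeasurableSet[A.F (lv (j + 1))] (E j) := by
    intro j
    have hm := ((hwW j).push (hlvm (Nat.le_succ j))).meas_tot
    exact @measurableSet_le _ _ _ _ _ (A.F (lv (j + 1))) _ _ _ _ _
      (@measurable_const _ _ _ (A.F (lv (j + 1))) _) hm
  have h1 := (all_fail (P := P) A.F lv hlvm E hEm (q := p / 2) T (fun j _ B hB =>
    good_prob (hlvm (Nat.le_succ j)) (hwW j) (hw1 j) (hp _) (hwl j) hB)
    (B := B) (by rw [hlv0]; exact hB) T le_rfl).2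
  have h2 : ∀ j, j < T → P (B ∩ Bd j) ≤ 4 * ε / p * P B := by
    intro j hj
    have hjc : lv (j + 1) ≤ b := hlvT (j + 1) hj
    refine bad_first A (hlvm (Nat.le_succ j)) hjc (hwW j) (hwl j) hh hp0 hpt
      ?_ (A.F.mono (by simp [hlv]) _ hB)
    have e1 : lv (j + 1) - lv j = s := by rw [hlvs]; omega
    rw [e1]
    have h3 := hlvs j
    have h4 : a0 ≤ lv j := by simp [hlv]
    exact hconv _ (by omega) (by omega)
  have hsub : (B ∩ (Alive A μ p T s a0 b)ᶜ : Set Ω)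
      ⊆ (B ∩ ⋂ l ∈ Finset.range T, (E l)ᶜ) ∪ ⋃ j ∈ Finset.range T, (B ∩ Bd j) := by
    rintro ω ⟨hωB, hωA⟩
    by_contra hcon
    have hcon' : ¬ ((ω ∈ B ∩ ⋂ l ∈ Finset.range T, (E l)ᶜ) ∨
        (ω ∈ ⋃ j ∈ Finset.range T, (B ∩ Bd j))) := hcon
    rw [not_or] at hcon'
    obtain ⟨hc1, hc2⟩ := hcon'
    have hc3 : ∃ l ∈ Finset.range T, ω ∈ E l := by
      by_contra h
      refine hc1 ⟨hωB, ?_⟩
      simp only [mem_iInter, mem_compl_iff]
      intro l hl hE'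
      exact h ⟨l, hl, hE'⟩
    obtain ⟨l, hl, hEl⟩ := hc3
    have hBl : ω ∉ Bd l := fun h => hc2 (mem_biUnion (by exact_mod_cast hl) ⟨hωB, h⟩)
    have hm : p / 4 ≤ tot (A.push (lv l) b (w l)) ω := by
      by_contra h
      exact hBl ⟨hEl, not_le.1 h⟩
    exact hωA ⟨l, Finset.mem_range.1 hl, hm⟩
  calc P (B ∩ (Alive A μ p T s a0 b)ᶜ)
      ≤ P ((B ∩ ⋂ l ∈ Finset.range T, (E l)ᶜ) ∪ ⋃ j ∈ Finset.range T, (B ∩ Bd j)) :=
        measure_mono hsub
    _ ≤ P (B ∩ ⋂ l ∈ Finset.range T, (E l)ᶜ) + P (⋃ j ∈ Finset.range T, (B ∩ Bd j)) :=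
        measure_union_le _ _
    _ ≤ (1 - p / 2) ^ T * P B + ∑ j ∈ Finset.range T, P (B ∩ Bd j) := by
        gcongr
        exact measure_biUnion_finset_le _ _
    _ ≤ (1 - p / 2) ^ T * P B + ∑ j ∈ Finset.range T, (4 * ε / p * P B) := by
        gcongr with j hj
        exact h2 j (Finset.mem_range.1 hj)
    _ = _ := by
        rw [Finset.sum_const, Finset.card_range, nsmul_eq_mul]
        ring

/-- **direct form of (F) at a FIXED failure probability `δ`**: only `h n → h ∞` is used. -/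
theorem free_fixed [IsProbabilityMeasure P] (A : KerSys S P) {p : ℝ≥0∞} (hp0 : p ≠ 0)
    (hp : ∀ n, p ≤ A.h n) (hh : ∀ n, A.h n ≤ 1) (hne : (A.L 0).Nonempty)
    (hpos : ∀ μ, A.Start μ → ∀ h, ∀ᵐ ω ∂P, A.Sh μ h ω ≠ 0) {δ : ℝ≥0∞} (hδ : δ ≠ 0) :
    ∃ T : ℕ, 1 ≤ T ∧ ∃ s0 : ℕ, ∀ s, s0 ≤ s → ∀ a0 b, a0 + T * s ≤ b →
      ∀ μ : S → ℝ≥0∞, A.Start μ → ∀ B, MeasurableSet[A.F a0] B →
        P (B ∩ (Alive A μ p T s a0 b)ᶜ) ≤ δ * P B := by
  have hp1 : p ≤ 1 := (hp 0).trans (hh 0)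
  have hpt : p ≠ ∞ := ne_top_of_le_ne_top ENNReal.one_ne_top hp1
  have hδ2 : δ / 2 ≠ 0 := by simpa using hδ
  have hlt : (1 - p / 2 : ℝ≥0∞) < 1 :=
    ENNReal.sub_lt_self ENNReal.one_ne_top one_ne_zero (by simpa using hp0)
  have ht := ENNReal.tendsto_pow_atTop_nhds_zero_of_lt_one hlt
  obtain ⟨T0, hT0⟩ := eventually_atTop.1 ((tendsto_order.1 ht).2 (δ / 2) (pos_iff_ne_zero.2 hδ2))
  set T : ℕ := max T0 1 with hT
  have hT1 : 1 ≤ T := le_max_right _ _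
  have hpow : (1 - p / 2 : ℝ≥0∞) ^ T ≤ δ / 2 := (hT0 T (le_max_left _ _)).le
  -- choice of ε
  set ε : ℝ≥0∞ := min (δ / 2 * p / (4 * T)) 1 with hε
  have hTn : (4 * (T : ℝ≥0∞)) ≠ 0 := by
    have : (T : ℝ≥0∞) ≠ 0 := by exact_mod_cast (by omega : T ≠ 0)
    exact mul_ne_zero (by norm_num) this
  have hTt : (4 * (T : ℝ≥0∞)) ≠ ∞ := ENNReal.mul_ne_top (by norm_num) (ENNReal.natCast_ne_top T)
  have hε0 : ε ≠ 0 := by
    have h1 : δ / 2 * p / (4 * T) ≠ 0 := by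
      rw [Ne, ENNReal.div_eq_zero_iff, not_or]
      exact ⟨mul_ne_zero hδ2 hp0, hTt⟩
    rw [hε]
    exact (lt_min (pos_iff_ne_zero.2 h1) (by norm_num)).ne'
  have hεb : (T : ℝ≥0∞) * (4 * ε / p) ≤ δ / 2 := by
    have h1 : ε ≤ δ / 2 * p / (4 * T) := min_le_left _ _
    calc (T : ℝ≥0∞) * (4 * ε / p) ≤ T * (4 * (δ / 2 * p / (4 * T)) / p) := by gcongr
      _ = (4 * T) * (δ / 2 * p / (4 * T)) / p := by
          rw [div_eq_mul_inv (4 * (δ / 2 * p / (4 * (T : ℝ≥0∞)))) p,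
            div_eq_mul_inv ((4 * (T : ℝ≥0∞)) * (δ / 2 * p / (4 * T))) p]
          ring
      _ = δ / 2 * p / p := by rw [ENNReal.mul_div_cancel hTn hTt]
      _ ≤ δ / 2 := by
          rw [mul_div_assoc, ENNReal.div_self hp0 hpt, mul_one]
  obtain ⟨n1, hn1⟩ := conv_h A hh hne hε0
  refine ⟨T, hT1, n1, fun s hs a0 b hb μ hμ B hB => ?_⟩
  have key := free_dir A hp0 hp hh hpos (ε := ε) (T := T) (s := s) (a0 := a0) (b := b)
    (fun m hm _ => hn1 s hs m (hs.trans hm)) hb hμ hB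
  refine key.trans ?_
  gcongr
  calc (1 - p / 2) ^ T + T * (4 * ε / p) ≤ δ / 2 + δ / 2 := add_le_add hpow hεb
    _ = δ := ENNReal.add_halves δ

end Crest.Agent.R154.FreeD950
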