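import Mathlib

/-!
Row 154, d = 2 (helper177), D2.6: GAMBLER'S RUIN AND STAY FOR THE JOINT BLOCKS, truncated, no moments.
Mathlib only.  `V k` = increment of the difference of the two walkers over the `k`-th joint block,
`B k` = half extent (`|V| ≤ 2 B`), `R k` = height.  `U b = E[V²; B ≤ b]`, `tl b = P(B > b)`.
-/

set_option autoImplicit false

open MeasureTheory ProbabilityTheory Finset

namespace Crest.Agent.R154.Gam177

variable {Ω : Type*} {m0 : MeasurableSpace Ω}

/-- truncated increment -/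
noncomputable def Vb (V B : ℕ → Ω → ℝ) (b : ℝ) (k : ℕ) (ω : Ω) : ℝ :=
  if B k ω ≤ b then V k ω else 0

/-- truncated walk -/
noncomputable def Wb (V B : ℕ → Ω → ℝ) (b w : ℝ) (k : ℕ) (ω : Ω) : ℝ :=
  w + ∑ i ∈ Finset.range k, Vb V B b i ω

/-- iid blocks, in the numbers which are used. -/
structure Blk (P : Measure Ω) (V B R : ℕ → Ω → ℝ) (U tl : ℝ → ℝ) (ρ : ℝ) : Prop where
  measV : ∀ k, Measurable (V k)
  measB : ∀ k, Measurable (B k)
  measR : ∀ k, Measurable (R k)
  indep : iIndepFun (fun k ω => (V k ω, B k ω)) P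
  bd : ∀ k, ∀ᵐ ω ∂P, |V k ω| ≤ 2 * B k ω
  cen : ∀ b k, ∫ ω, Vb V B b k ω ∂P = 0
  var : ∀ b k, ∫ ω, (Vb V B b k ω) ^ 2 ∂P = U b
  tail : ∀ b k, P.real {ω | b < B k ω} ≤ tl b
  R1 : ∀ k, ∀ᵐ ω ∂P, 1 ≤ R k ω
  Rint : ∀ k, Integrable (R k) P
  Rmean : ∀ k, ∫ ω, R k ω ∂P ≤ ρ

variable {P : Measure Ω} [IsProbabilityMeasure P] {V B R : ℕ → Ω → ℝ} {U tl : ℝ → ℝ} {ρ : ℝ}

/-- the first `k` blocks -/
def Gk (V B : ℕ → Ω → ℝ) (k : ℕ) : MeasurableSpace Ω :=
  ⨆ i ∈ Set.Iio k, MeasurableSpace.comap (fun ω => (V i ω, B i ω)) inferInstance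

lemma measurable_VB_G {i k : ℕ} (h : i < k) :
    Measurable[Gk V B k] (fun ω => (V i ω, B i ω)) := by
  have h1 : MeasurableSpace.comap (fun ω => (V i ω, B i ω)) inferInstance ≤ Gk V B k :=
    le_iSup₂_of_le (f := fun i (_ : i ∈ Set.Iio k) =>
      MeasurableSpace.comap (fun ω => (V i ω, B i ω)) inferInstance) i h le_rfl
  exact (comap_measurable _).mono h1 le_rfl

lemma vb_meas (m : MeasurableSpace Ω) {i : ℕ} (b : ℝ)
    (h : Measurable[m] (fun ω => (V i ω, B i ω))) : Measurable[m] (Vb V B b i) := by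
  have h1 : Measurable (fun q : ℝ × ℝ => if q.2 ≤ b then q.1 else 0) :=
    Measurable.ite (measurableSet_le measurable_snd measurable_const) measurable_fst
      measurable_const
  exact h1.comp h

lemma wb_meas (b w : ℝ) (k : ℕ) : Measurable[Gk V B k] (Wb V B b w k) := by
  unfold Wb
  refine Measurable.add (@measurable_const _ _ _ (Gk V B k) _) ?_
  refine Finset.measurable_fun_sum (m := Gk V B k) _ fun i hi => ?_
  exact vb_meas _ b (measurable_VB_G (Finset.mem_range.1 hi))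

lemma gk_mono {k k' : ℕ} (h : k ≤ k') : Gk V B k ≤ Gk V B k' := by
  refine iSup₂_le fun i hi => ?_
  exact le_iSup₂_of_le (f := fun i (_ : i ∈ Set.Iio k') =>
      MeasurableSpace.comap (fun ω => (V i ω, B i ω)) inferInstance) i
      (lt_of_lt_of_le hi h) le_rfl

lemma gk_le (h : Blk P V B R U tl ρ) (k : ℕ) : Gk V B k ≤ m0 := by
  refine iSup₂_le fun i _ => ?_
  exact ((h.measV i).prodMk (h.measB i)).comap_le

/-- alive: the truncated walk stayed in `(lo, hi)` up to time `k`. -/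
def Al (V B : ℕ → Ω → ℝ) (b w lo hi : ℝ) (k : ℕ) : Set Ω :=
  {ω | ∀ j, j ≤ k → lo < Wb V B b w j ω ∧ Wb V B b w j ω < hi}

lemma al_meas (b w lo hi : ℝ) (k : ℕ) : MeasurableSet[Gk V B k] (Al V B b w lo hi k) := by
  have : Al V B b w lo hi k = ⋂ j ∈ Finset.range (k + 1),
      (Wb V B b w j ⁻¹' Set.Ioo lo hi) := by
    ext ω
    simp [Al]
  rw [this]
  refine Finset.measurableSet_biInter _ fun j hj => ?_
  exact gk_mono (by have := Finset.mem_range.1 hj; omega) _ (wb_meas b w j measurableSet_Ioo)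

/-- the walk stopped when it leaves `(lo, hi)`. -/
noncomputable def Zk (V B : ℕ → Ω → ℝ) (b w lo hi : ℝ) (k : ℕ) (ω : Ω) : ℝ :=
  w + ∑ i ∈ Finset.range k, (Al V B b w lo hi i).indicator (Vb V B b i) ω

lemma zk_meas (b w lo hi : ℝ) (k : ℕ) : Measurable[Gk V B k] (Zk V B b w lo hi k) := by
  unfold Zk
  refine Measurable.add (@measurable_const _ _ _ (Gk V B k) _) ?_
  refine Finset.measurable_fun_sum (m := Gk V B k) _ fun i hi => ?_
  have hik := Finset.mem_range.1 hi
  exact (vb_meas _ b (measurable_VB_G hik)).indicator (gk_mono hik.le _ (al_meas b w lo _ i))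

lemma zk_succ (b w lo hi : ℝ) (k : ℕ) (ω : Ω) : Zk V B b w lo hi (k + 1) ω
    = Zk V B b w lo hi k ω + (Al V B b w lo hi k).indicator (Vb V B b k) ω := by
  unfold Zk
  rw [Finset.sum_range_succ]
  ring

lemma indep_fun (h : Blk P V B R U tl ρ) (k : ℕ) {f : Ω → ℝ} {g : ℝ × ℝ → ℝ}
    (hf : Measurable[Gk V B k] f) (hg : Measurable g) :
    ∫ ω, f ω * g (V k ω, B k ω) ∂P = (∫ ω, f ω ∂P) * ∫ ω, g (V k ω, B k ω) ∂P := by
  have hind := indep_iSup_of_disjoint (m := fun i =>
      MeasurableSpace.comap (fun ω => (V i ω, B i ω)) inferInstance)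
    (fun i => ((h.measV i).prodMk (h.measB i)).comap_le) h.indep.iIndep
    (S := Set.Iio k) (T := {k}) (by simp)
  have hfg : IndepFun f (fun ω => g (V k ω, B k ω)) P := by
    rw [IndepFun_iff_Indep]
    refine indep_of_indep_of_le_right (indep_of_indep_of_le_left hind ?_) ?_
    · exact hf.comap_le
    · have h1 : (⨆ i ∈ ({k} : Set ℕ), MeasurableSpace.comap (fun ω => (V i ω, B i ω))
          inferInstance) = MeasurableSpace.comap (fun ω => (V k ω, B k ω)) inferInstance := by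
        simp
      rw [h1]
      rw [show (fun ω => g (V k ω, B k ω)) = g ∘ (fun ω => (V k ω, B k ω)) from rfl,
        ← MeasurableSpace.comap_comp]
      exact MeasurableSpace.comap_mono hg.comap_le
  have hfm : Measurable f := hf.mono (gk_le h k) le_rfl
  exact hfg.integral_fun_mul_eq_mul_integral hfm.aestronglyMeasurable
    (hg.comp ((h.measV k).prodMk (h.measB k))).aestronglyMeasurable

lemma vb_bd (h : Blk P V B R U tl ρ) {b : ℝ} (hb : 0 ≤ b) :
    ∀ᵐ ω ∂P, ∀ k, |Vb V B b k ω| ≤ 2 * b := by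
  rw [ae_all_iff]
  intro k
  filter_upwards [h.bd k] with ω hω
  unfold Vb
  split_ifs with h1
  · linarith
  · simpa using hb

lemma z_alive {b w lo hi : ℝ} {n : ℕ} {ω : Ω} (hA : ω ∈ Al V B b w lo hi n) :
    Zk V B b w lo hi n ω = Wb V B b w n ω := by
  unfold Zk Wb
  congr 1
  refine Finset.sum_congr rfl fun i hi' => ?_
  have h1 : ω ∈ Al V B b w lo hi i := fun j hj => hA j (hj.trans (Finset.mem_range.1 hi').le)
  exact Set.indicator_of_mem h1 _

lemma z_exit {b w lo hi : ℝ} (hlo : lo < w) (hhi : w < hi) (n : ℕ) (ω : Ω)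
    (hA : ω ∉ Al V B b w lo hi n) :
    ∃ m, m < n ∧ ω ∈ Al V B b w lo hi m ∧ Zk V B b w lo hi n ω = Wb V B b w (m + 1) ω ∧
      (hi ≤ Wb V B b w (m + 1) ω ∨ Wb V B b w (m + 1) ω ≤ lo) := by
  induction n with
  | zero =>
    exact absurd (show ω ∈ Al V B b w lo hi 0 from by
      intro j hj
      obtain rfl : j = 0 := by omega
      simpa [Wb] using ⟨hlo, hhi⟩) hA
  | succ n ih =>
    by_cases hn : ω ∈ Al V B b w lo hi n
    · refine ⟨n, Nat.lt_succ_self n, hn, ?_, ?_⟩
      · rw [zk_succ, z_alive hn, Set.indicator_of_mem hn]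
        unfold Wb
        rw [Finset.sum_range_succ]
        ring
      · by_contra hcon
        push Not at hcon
        refine hA fun j hj => ?_
        rcases Nat.lt_or_ge j (n + 1) with h1 | h1
        · exact hn j (by omega)
        · obtain rfl : j = n + 1 := by omega
          exact ⟨hcon.2, hcon.1⟩
    · obtain ⟨m, h1, h2, h3, h4⟩ := ih hn
      refine ⟨m, by omega, h2, ?_, h4⟩
      rw [zk_succ, Set.indicator_of_notMem hn, add_zero, h3]

lemma z_bd {b w lo hi : ℝ} (hb : 0 ≤ b) (hlo : lo < w) (hhi : w < hi) (n : ℕ) (ω : Ω)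
    (hv : ∀ k, |Vb V B b k ω| ≤ 2 * b) :
    lo - 2 * b ≤ Zk V B b w lo hi n ω ∧ Zk V B b w lo hi n ω ≤ hi + 2 * b := by
  by_cases hA : ω ∈ Al V B b w lo hi n
  · rw [z_alive hA]
    have := hA n le_rfl
    constructor <;> linarith [this.1, this.2]
  · obtain ⟨m, _, h2, h3, _⟩ := z_exit hlo hhi n ω hA
    rw [h3]
    have h4 := h2 m le_rfl
    have h5 := abs_le.1 (hv m)
    have h6 : Wb V B b w (m + 1) ω = Wb V B b w m ω + Vb V B b m ω := by
      unfold Wb
      rw [Finset.sum_range_succ]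
      ring
    rw [h6]
    constructor <;> linarith [h4.1, h4.2, h5.1, h5.2]

lemma vb_measurable (h : Blk P V B R U tl ρ) (b : ℝ) (k : ℕ) : Measurable (Vb V B b k) :=
  vb_meas m0 b ((h.measV k).prodMk (h.measB k))

lemma vb_int (h : Blk P V B R U tl ρ) {b : ℝ} (hb : 0 ≤ b) (k : ℕ) :
    Integrable (Vb V B b k) P :=
  Integrable.of_bound (vb_measurable h b k).aestronglyMeasurable (2 * b) (by
    filter_upwards [vb_bd h hb] with ω hω using hω k)

lemma vb_sq_int (h : Blk P V B R U tl ρ) {b : ℝ} (hb : 0 ≤ b) (k : ℕ) :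
    Integrable (fun ω => (Vb V B b k ω) ^ 2) P :=
  Integrable.of_bound ((vb_measurable h b k).pow_const 2).aestronglyMeasurable ((2 * b) ^ 2) (by
    filter_upwards [vb_bd h hb] with ω hω
    rw [Real.norm_eq_abs, abs_pow]
    exact pow_le_pow_left₀ (abs_nonneg _) (hω k) 2)

lemma zk_measurable (h : Blk P V B R U tl ρ) (b w lo hi : ℝ) (k : ℕ) :
    Measurable (Zk V B b w lo hi k) := (zk_meas b w lo hi k).mono (gk_le h k) le_rfl

lemma zk_int (h : Blk P V B R U tl ρ) {b w lo hi : ℝ} (hb : 0 ≤ b) (hlo : lo < w)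
    (hhi : w < hi) (k : ℕ) : Integrable (Zk V B b w lo hi k) P :=
  Integrable.of_bound (zk_measurable h b w lo hi k).aestronglyMeasurable
    (|lo - 2 * b| + |hi + 2 * b|) (by
    filter_upwards [vb_bd h hb] with ω hω
    obtain ⟨h1, h2⟩ := z_bd hb hlo hhi k ω hω
    rw [Real.norm_eq_abs, abs_le]
    constructor
    · linarith [neg_abs_le (lo - 2 * b), abs_nonneg (hi + 2 * b)]
    · linarith [le_abs_self (hi + 2 * b), abs_nonneg (lo - 2 * b)])

lemma zk_sq_int (h : Blk P V B R U tl ρ) {b w lo hi : ℝ} (hb : 0 ≤ b) (hlo : lo < w)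
    (hhi : w < hi) (k : ℕ) : Integrable (fun ω => (Zk V B b w lo hi k ω) ^ 2) P :=
  Integrable.of_bound ((zk_measurable h b w lo hi k).pow_const 2).aestronglyMeasurable
    ((|lo - 2 * b| + |hi + 2 * b|) ^ 2) (by
    filter_upwards [vb_bd h hb] with ω hω
    obtain ⟨h1, h2⟩ := z_bd hb hlo hhi k ω hω
    rw [Real.norm_eq_abs, abs_pow]
    refine pow_le_pow_left₀ (abs_nonneg _) ?_ 2
    rw [abs_le]
    constructor
    · linarith [neg_abs_le (lo - 2 * b), abs_nonneg (hi + 2 * b)]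
    · linarith [le_abs_self (hi + 2 * b), abs_nonneg (lo - 2 * b)])

lemma al_measurable (h : Blk P V B R U tl ρ) (b w lo hi : ℝ) (k : ℕ) :
    MeasurableSet (Al V B b w lo hi k) := gk_le h k _ (al_meas b w lo hi k)

lemma hg_meas (b : ℝ) : Measurable (fun q : ℝ × ℝ => if q.2 ≤ b then q.1 else 0) :=
  Measurable.ite (measurableSet_le measurable_snd measurable_const) measurable_fst measurable_const

lemma z_mean (h : Blk P V B R U tl ρ) {b w lo hi : ℝ} (hb : 0 ≤ b) (hlo : lo < w)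
    (hhi : w < hi) (n : ℕ) : ∫ ω, Zk V B b w lo hi n ω ∂P = w := by
  induction n with
  | zero => simp [Zk]
  | succ n ih =>
    have h1 : ∫ ω, (Al V B b w lo hi n).indicator (Vb V B b n) ω ∂P = 0 := by
      have h2 := indep_fun h n (f := (Al V B b w lo hi n).indicator fun _ => (1 : ℝ))
        (g := fun q : ℝ × ℝ => if q.2 ≤ b then q.1 else 0)
        ((@measurable_const _ _ _ (Gk V B n) (1 : ℝ)).indicator (al_meas b w lo hi n)) (hg_meas b)
      have h3 : ∫ ω, (fun q : ℝ × ℝ => if q.2 ≤ b then q.1 else 0) (V n ω, B n ω) ∂P = 0 :=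
        h.cen b n
      rw [h3, mul_zero] at h2
      rw [← h2]
      refine integral_congr_ae (Filter.Eventually.of_forall fun ω => ?_)
      by_cases hω : ω ∈ Al V B b w lo hi n
      · simp only [Set.indicator_of_mem hω, one_mul]; rfl
      · simp only [Set.indicator_of_notMem hω, zero_mul]
    have h4 : ∀ ω, Zk V B b w lo hi (n + 1) ω
        = Zk V B b w lo hi n ω + (Al V B b w lo hi n).indicator (Vb V B b n) ω :=
      zk_succ b w lo hi n
    simp only [h4]
    rw [integral_add (zk_int h hb hlo hhi n)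
      ((vb_int h hb n).indicator (al_measurable h b w lo hi n)), ih, h1, add_zero]

lemma z_sq (h : Blk P V B R U tl ρ) {b w lo hi : ℝ} (hb : 0 ≤ b) (hlo : lo < w)
    (hhi : w < hi) (n : ℕ) : ∫ ω, (Zk V B b w lo hi n ω) ^ 2 ∂P
      = w ^ 2 + U b * ∑ i ∈ Finset.range n, P.real (Al V B b w lo hi i) := by
  induction n with
  | zero => simp [Zk]
  | succ n ih =>
    set A := Al V B b w lo hi n with hA
    have hAm := al_measurable h b w lo hi n
    have hAG := al_meas (V := V) (B := B) b w lo hi n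
    have h1 : ∫ ω, (A.indicator (Zk V B b w lo hi n) ω) * Vb V B b n ω ∂P = 0 := by
      have h2 := indep_fun h n (f := A.indicator (Zk V B b w lo hi n))
        (g := fun q : ℝ × ℝ => if q.2 ≤ b then q.1 else 0)
        ((zk_meas b w lo hi n).indicator hAG) (hg_meas b)
      have h3 : ∫ ω, (fun q : ℝ × ℝ => if q.2 ≤ b then q.1 else 0) (V n ω, B n ω) ∂P = 0 :=
        h.cen b n
      rw [h3, mul_zero] at h2
      exact h2
    have h5 : ∫ ω, (A.indicator (fun _ => (1 : ℝ)) ω) * (Vb V B b n ω) ^ 2 ∂P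
        = P.real A * U b := by
      have h2 := indep_fun h n (f := A.indicator fun _ => (1 : ℝ))
        (g := fun q : ℝ × ℝ => (if q.2 ≤ b then q.1 else 0) ^ 2)
        ((@measurable_const _ _ _ (Gk V B n) (1 : ℝ)).indicator hAG) ((hg_meas b).pow_const 2)
      have h3 : ∫ ω, (fun q : ℝ × ℝ => (if q.2 ≤ b then q.1 else 0) ^ 2) (V n ω, B n ω) ∂P = U b :=
        h.var b n
      rw [h3] at h2
      have h6 : ∫ ω, A.indicator (fun _ => (1 : ℝ)) ω ∂P = P.real A := by
        rw [integral_indicator_const _ hAm, smul_eq_mul, mul_one]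
      rw [h6] at h2
      exact h2
    have hi1 : Integrable (fun ω => (A.indicator (Zk V B b w lo hi n) ω) * Vb V B b n ω) P := by
      refine Integrable.bdd_mul (c := |lo - 2 * b| + |hi + 2 * b|) (vb_int h hb n)
        ((zk_measurable h b w lo hi n).indicator hAm).aestronglyMeasurable ?_
      filter_upwards [vb_bd h hb] with ω hω
      obtain ⟨h1, h2⟩ := z_bd hb hlo hhi n ω hω
      by_cases hωA : ω ∈ A
      · rw [Set.indicator_of_mem hωA, Real.norm_eq_abs, abs_le]
        constructor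
        · linarith [neg_abs_le (lo - 2 * b), abs_nonneg (hi + 2 * b)]
        · linarith [le_abs_self (hi + 2 * b), abs_nonneg (lo - 2 * b)]
      · rw [Set.indicator_of_notMem hωA]
        simp only [norm_zero]
        positivity
    have hi2 : Integrable (fun ω => (A.indicator (fun _ => (1 : ℝ)) ω) * (Vb V B b n ω) ^ 2) P := by
      refine Integrable.bdd_mul (c := 1) (vb_sq_int h hb n)
        (measurable_const.indicator hAm).aestronglyMeasurable (Filter.Eventually.of_forall ?_)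
      intro ω
      by_cases hωA : ω ∈ A
      · rw [Set.indicator_of_mem hωA]; simp
      · rw [Set.indicator_of_notMem hωA]; simp
    have h7 : ∀ ω, (Zk V B b w lo hi (n + 1) ω) ^ 2 = (Zk V B b w lo hi n ω) ^ 2
        + (2 * ((A.indicator (Zk V B b w lo hi n) ω) * Vb V B b n ω)
          + (A.indicator (fun _ => (1 : ℝ)) ω) * (Vb V B b n ω) ^ 2) := by
      intro ω
      rw [zk_succ]
      by_cases hωA : ω ∈ A
      · rw [← hA, Set.indicator_of_mem hωA, Set.indicator_of_mem hωA, Set.indicator_of_mem hωA]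
        ring
      · rw [← hA, Set.indicator_of_notMem hωA, Set.indicator_of_notMem hωA,
          Set.indicator_of_notMem hωA]
        ring
    simp only [h7]
    have hs2 : Integrable (fun ω => 2 * ((A.indicator (Zk V B b w lo hi n) ω) * Vb V B b n ω)
          + (A.indicator (fun _ => (1 : ℝ)) ω) * (Vb V B b n ω) ^ 2) P := (hi1.const_mul 2).add hi2
    rw [integral_add (zk_sq_int h hb hlo hhi n) hs2,
      integral_add (hi1.const_mul 2) hi2, integral_const_mul, h1, h5, ih, Finset.sum_range_succ]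
    ring

/-- few levels alive -/
lemma alive_le (h : Blk P V B R U tl ρ) {b w lo hi : ℝ} (hb : 0 ≤ b) (hlo0 : 0 ≤ lo)
    (hlo : lo < w) (hhi : w < hi) (hU : 0 ≤ U b) (n : ℕ) :
    n * U b * P.real (Al V B b w lo hi n) ≤ (hi + 2 * b) ^ 2 := by
  have h1 := z_sq h hb hlo hhi n
  have h2 : ∫ ω, (Zk V B b w lo hi n ω) ^ 2 ∂P ≤ ∫ _ω, (hi + 2 * b) ^ 2 ∂P := by
    refine integral_mono_ae (zk_sq_int h hb hlo hhi n) (integrable_const _) ?_
    filter_upwards [vb_bd h hb] with ω hω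
    obtain ⟨h3, h4⟩ := z_bd hb hlo hhi n ω hω
    exact sq_le_sq' (by linarith) h4
  have h3 : (n : ℝ) * P.real (Al V B b w lo hi n)
      ≤ ∑ i ∈ Finset.range n, P.real (Al V B b w lo hi i) := by
    calc (n : ℝ) * P.real (Al V B b w lo hi n)
        = ∑ _i ∈ Finset.range n, P.real (Al V B b w lo hi n) := by simp
      _ ≤ _ := Finset.sum_le_sum fun i hi' => by
          refine measureReal_mono ?_ (measure_ne_top _ _)
          intro ω hω j hj
          exact hω j (hj.trans (Finset.mem_range.1 hi').le)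
  have h4 : ∫ _ω : Ω, (hi + 2 * b) ^ 2 ∂P = (hi + 2 * b) ^ 2 := by simp
  rw [h4, h1] at h2
  nlinarith [mul_le_mul_of_nonneg_left h3 hU, sq_nonneg w]

/-- the truncated walk reaches `hi` before `lo`, within `n` blocks. -/
def UpB (V B : ℕ → Ω → ℝ) (b w lo hi : ℝ) (n : ℕ) : Set Ω :=
  {ω | ∃ m, m ≤ n ∧ hi ≤ Wb V B b w m ω ∧ ∀ j, j ≤ m → lo ≤ Wb V B b w j ω}

lemma upB_meas (h : Blk P V B R U tl ρ) (b w lo hi : ℝ) (n : ℕ) :
    MeasurableSet (UpB V B b w lo hi n) := by
  have h1 : ∀ j, Measurable (Wb V B b w j) := fun j => (wb_meas b w j).mono (gk_le h j) le_rfl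
  have : UpB V B b w lo hi n = ⋃ m ∈ Finset.range (n + 1), ((Wb V B b w m ⁻¹' Set.Ici hi) ∩
      ⋂ j ∈ Finset.range (m + 1), (Wb V B b w j ⁻¹' Set.Ici lo)) := by
    ext ω
    simp only [UpB, Set.mem_ofPred_eq, Set.mem_iUnion, Finset.mem_range, Set.mem_inter_iff,
      Set.mem_preimage, Set.mem_Ici, Set.mem_iInter, exists_prop, Nat.lt_succ_iff]
  rw [this]
  refine Finset.measurableSet_biUnion _ fun m _ => ?_
  exact (h1 m measurableSet_Ici).inter
    (Finset.measurableSet_biInter _ fun j _ => h1 j measurableSet_Ici)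

theorem gambler (h : Blk P V B R U tl ρ) {b w lo hi : ℝ} (hb : 0 ≤ b) (hlo0 : 0 ≤ lo)
    (hlo : lo < w) (hhi : w < hi) (n : ℕ) :
    w ≤ lo + (hi + 2 * b) * P.real (UpB V B b w lo hi n)
      + hi * P.real (Al V B b w lo hi n) := by
  have hUm := upB_meas h b w lo hi n
  have hAm := al_measurable h b w lo hi n
  have hint1 : Integrable ((UpB V B b w lo hi n).indicator fun _ => (hi + 2 * b)) P :=
    (integrable_const _).indicator hUm
  have hint2 : Integrable ((Al V B b w lo hi n).indicator fun _ => hi) P :=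
    (integrable_const _).indicator hAm
  have h1 : ∫ ω, Zk V B b w lo hi n ω ∂P ≤ ∫ ω, (lo + (UpB V B b w lo hi n).indicator
      (fun _ => (hi + 2 * b)) ω + (Al V B b w lo hi n).indicator (fun _ => hi) ω) ∂P := by
    refine integral_mono_ae (zk_int h hb hlo hhi n)
      (((integrable_const lo).add hint1).add hint2) ?_
    filter_upwards [vb_bd h hb] with ω hω
    obtain ⟨_, h4⟩ := z_bd hb hlo hhi n ω hω
    have hhi0 : 0 ≤ hi := by linarith
    have hp1 : 0 ≤ (UpB V B b w lo hi n).indicator (fun _ => (hi + 2 * b)) ω :=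
      Set.indicator_nonneg (fun _ _ => by linarith) _
    have hp2 : 0 ≤ (Al V B b w lo hi n).indicator (fun _ => hi) ω :=
      Set.indicator_nonneg (fun _ _ => hhi0) _
    by_cases hA : ω ∈ Al V B b w lo hi n
    · rw [z_alive hA]
      have := (hA n le_rfl).2
      rw [Set.indicator_of_mem hA] at hp2 ⊢
      linarith
    · obtain ⟨m, hm, h2, h3, h5⟩ := z_exit hlo hhi n ω hA
      rcases h5 with h5 | h5
      · have hup : ω ∈ UpB V B b w lo hi n := by
          refine ⟨m + 1, hm, h5, fun j hj => ?_⟩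
          rcases Nat.lt_or_ge j (m + 1) with h6 | h6
          · exact (h2 j (by omega)).1.le
          · obtain rfl : j = m + 1 := by omega
            linarith
        rw [Set.indicator_of_mem hup]
        linarith
      · rw [h3]
        linarith
  have hs1 : Integrable (fun ω => lo + (UpB V B b w lo hi n).indicator
      (fun _ => (hi + 2 * b)) ω) P := (integrable_const lo).add hint1
  rw [z_mean h hb hlo hhi n, integral_add hs1 hint2,
    integral_add (integrable_const lo) hint1, integral_indicator_const _ hUm,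
    integral_indicator_const _ hAm] at h1
  simp only [integral_const, smul_eq_mul, probReal_univ, one_mul] at h1
  linarith

/-- with probability `≥ 1 - n U b / r²` the truncated walk stays within `r`. -/
theorem stay (h : Blk P V B R U tl ρ) {b w r : ℝ} (hb : 0 ≤ b) (hr : 0 < r) (hU : 0 ≤ U b)
    (n : ℕ) : r ^ 2 * (1 - P.real (Al V B b w (w - r) (w + r) n)) ≤ n * U b := by
  have hlo : w - r < w := by linarith
  have hhi : w < w + r := by linarith
  have hAm := al_measurable h b w (w - r) (w + r) n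
  have h1 := z_sq h hb hlo hhi n
  have h2 := z_mean h hb hlo hhi n
  set Z := Zk V B b w (w - r) (w + r) n with hZ
  set A := Al V B b w (w - r) (w + r) n with hA
  have hsq : ∫ ω, (Z ω - w) ^ 2 ∂P = U b * ∑ i ∈ Finset.range n,
      P.real (Al V B b w (w - r) (w + r) i) := by
    have h3 : ∀ ω, (Z ω - w) ^ 2 = (Z ω) ^ 2 - (2 * w * Z ω - w ^ 2) := fun ω => by ring
    simp only [h3]
    have hs3 : Integrable (fun ω => 2 * w * Z ω - w ^ 2) P :=
      ((zk_int h hb hlo hhi n).const_mul (2 * w)).sub (integrable_const _)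
    rw [integral_sub (zk_sq_int h hb hlo hhi n) hs3,
      integral_sub ((zk_int h hb hlo hhi n).const_mul _) (integrable_const _),
      integral_const_mul, h1, h2]
    simp
    ring
  have h4 : ∑ i ∈ Finset.range n, P.real (Al V B b w (w - r) (w + r) i) ≤ n := by
    calc ∑ i ∈ Finset.range n, P.real (Al V B b w (w - r) (w + r) i)
        ≤ ∑ _i ∈ Finset.range n, (1 : ℝ) := Finset.sum_le_sum fun _ _ => measureReal_le_one
      _ = n := by simp
  have hZi : Integrable (fun ω => (Z ω - w) ^ 2) P := by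
    have h3 : (fun ω => (Z ω - w) ^ 2) = fun ω => (Z ω) ^ 2 - (2 * w * Z ω - w ^ 2) := by
      funext ω; ring
    rw [h3]
    exact (zk_sq_int h hb hlo hhi n).sub
      (((zk_int h hb hlo hhi n).const_mul _).sub (integrable_const _))
  have h5 : ∫ ω, (Aᶜ).indicator (fun _ => r ^ 2) ω ∂P ≤ ∫ ω, (Z ω - w) ^ 2 ∂P := by
    refine integral_mono ((integrable_const _).indicator hAm.compl) hZi fun ω => ?_
    by_cases hω : ω ∈ A
    · simp only [Set.indicator_of_notMem (fun hc : ω ∈ Aᶜ => hc hω)]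
      positivity
    · simp only [Set.indicator_of_mem (show ω ∈ Aᶜ from hω)]
      obtain ⟨m, _, _, h3, h6⟩ := z_exit hlo hhi n ω hω
      rw [← hZ] at h3
      rw [h3]
      rcases h6 with h6 | h6
      · nlinarith
      · nlinarith
  rw [integral_indicator_const _ hAm.compl, hsq, probReal_compl_eq_one_sub hAm] at h5
  simp only [smul_eq_mul] at h5
  nlinarith [mul_le_mul_of_nonneg_left h4 hU]

/-- the true walk of the pair difference at the joint cuts. -/
noncomputable def Wf (V : ℕ → Ω → ℝ) (w : ℝ) (k : ℕ) (ω : Ω) : ℝ :=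
  w + ∑ i ∈ Finset.range k, V i ω

lemma wf_eq {b w : ℝ} {n : ℕ} {ω : Ω} (hB : ∀ i < n, B i ω ≤ b) {m : ℕ} (hm : m ≤ n) :
    Wb V B b w m ω = Wf V w m ω := by
  unfold Wb Wf
  congr 1
  refine Finset.sum_congr rfl fun i hi => ?_
  exact if_pos (hB i (lt_of_lt_of_le (Finset.mem_range.1 hi) hm))

/-- union bound for the long blocks -/
lemma long_le (h : Blk P V B R U tl ρ) (b : ℝ) (n : ℕ) :
    P.real {ω | ¬ ∀ i < n, B i ω ≤ b} ≤ n * tl b := by
  have h1 : {ω | ¬ ∀ i < n, B i ω ≤ b} = ⋃ i ∈ Finset.range n, {ω | b < B i ω} := by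
    ext ω
    simp
  rw [h1]
  calc P.real (⋃ i ∈ Finset.range n, {ω | b < B i ω})
      ≤ ∑ i ∈ Finset.range n, P.real {ω | b < B i ω} := measureReal_biUnion_finset_le _ _
    _ ≤ ∑ _i ∈ Finset.range n, tl b := Finset.sum_le_sum fun i _ => h.tail b i
    _ = n * tl b := by simp

lemma high_le (h : Blk P V B R U tl ρ) (n : ℕ) {H : ℝ} (hH : 0 < H) :
    P.real {ω | ¬ ∑ i ∈ Finset.range n, R i ω ≤ H} ≤ n * ρ / H := by
  have hi : Integrable (fun ω => ∑ i ∈ Finset.range n, R i ω) P :=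
    integrable_finsetSum _ fun i _ => h.Rint i
  have hR : ∀ᵐ ω ∂P, ∀ i, 1 ≤ R i ω := by
    rw [ae_all_iff]; exact h.R1
  have h1 := mul_meas_ge_le_integral_of_nonneg (μ := P)
    (f := fun ω => ∑ i ∈ Finset.range n, R i ω) (by
      filter_upwards [hR] with ω hω
      exact Finset.sum_nonneg fun i _ => by linarith [hω i]) hi H
  rw [integral_finsetSum _ fun i _ => h.Rint i] at h1
  have h2 : ∑ i ∈ Finset.range n, ∫ ω, R i ω ∂P ≤ n * ρ := by
    calc ∑ i ∈ Finset.range n, ∫ ω, R i ω ∂P ≤ ∑ _i ∈ Finset.range n, ρ :=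
          Finset.sum_le_sum fun i _ => h.Rmean i
      _ = n * ρ := by simp
  have h3 : P.real {ω | ¬ ∑ i ∈ Finset.range n, R i ω ≤ H}
      ≤ P.real {ω | H ≤ ∑ i ∈ Finset.range n, R i ω} := by
    refine measureReal_mono (fun ω hω => ?_) (measure_ne_top _ _)
    exact (not_le.1 hω).le
  rw [le_div_iff₀ hH]
  have h4 := mul_le_mul_of_nonneg_left h3 hH.le
  linarith

/-- the event of (E1), in the letters. -/
def UpF (V B R : ℕ → Ω → ℝ) (b w lo hi H : ℝ) (n : ℕ) : Set Ω :=
  {ω | (∃ m, m ≤ n ∧ hi ≤ Wf V w m ω ∧ ∀ j, j ≤ m → lo ≤ Wf V w j ω) ∧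
    (∀ i < n, B i ω ≤ b) ∧ ∑ i ∈ Finset.range n, R i ω ≤ H}

/-- the event of (E2), in the letters. -/
def StF (V B R : ℕ → Ω → ℝ) (b w lo : ℝ) (n : ℕ) : Set Ω :=
  {ω | (∀ j, j ≤ n → lo ≤ Wf V w j ω) ∧ (∀ i < n, B i ω ≤ b) ∧
    (n : ℝ) ≤ ∑ i ∈ Finset.range n, R i ω}

/-- **(E1), finite form.** -/
theorem gam_fin (h : Blk P V B R U tl ρ) {b w lo hi H : ℝ} (hb : 0 ≤ b) (hlo0 : 0 ≤ lo)
    (hlo : lo < w) (hhi : w < hi) (hU : 0 < U b) {n : ℕ} (hn : 0 < n) (hH : 0 < H) :
    (w - lo - hi * ((hi + 2 * b) ^ 2 / (n * U b))) / (hi + 2 * b) - n * tl b - n * ρ / H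
      ≤ P.real (UpF V B R b w lo hi H n) := by
  have h1 := gambler h hb hlo0 hlo hhi n
  have h2 := alive_le h hb hlo0 hlo hhi hU.le n
  have hn' : (0 : ℝ) < n := by exact_mod_cast hn
  have h3 : P.real (Al V B b w lo hi n) ≤ (hi + 2 * b) ^ 2 / (n * U b) := by
    rw [le_div_iff₀ (by positivity)]
    linarith
  have hhi0 : 0 < hi := by linarith
  have hpos : 0 < hi + 2 * b := by linarith
  have h4 : (w - lo - hi * ((hi + 2 * b) ^ 2 / (n * U b))) / (hi + 2 * b)
      ≤ P.real (UpB V B b w lo hi n) := by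
    rw [div_le_iff₀ hpos]
    have := mul_le_mul_of_nonneg_left h3 hhi0.le
    linarith
  have h5 : UpB V B b w lo hi n ⊆ UpF V B R b w lo hi H n ∪
      ({ω | ¬ ∀ i < n, B i ω ≤ b} ∪ {ω | ¬ ∑ i ∈ Finset.range n, R i ω ≤ H}) := by
    rintro ω ⟨m, hm, hm1, hm2⟩
    by_cases hB : ∀ i < n, B i ω ≤ b
    · by_cases hR : ∑ i ∈ Finset.range n, R i ω ≤ H
      · refine Or.inl ⟨⟨m, hm, ?_, fun j hj => ?_⟩, hB, hR⟩
        · rw [← wf_eq hB hm]; exact hm1
        · rw [← wf_eq hB (hj.trans hm)]; exact hm2 j hj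
      · exact Or.inr (Or.inr hR)
    · exact Or.inr (Or.inl hB)
  have h6 := measureReal_mono h5 (measure_ne_top P _)
  have h7 := measureReal_union_le (μ := P) (UpF V B R b w lo hi H n)
    ({ω | ¬ ∀ i < n, B i ω ≤ b} ∪ {ω | ¬ ∑ i ∈ Finset.range n, R i ω ≤ H})
  have h8 := measureReal_union_le (μ := P) {ω | ¬ ∀ i < n, B i ω ≤ b}
    {ω | ¬ ∑ i ∈ Finset.range n, R i ω ≤ H}
  have h9 := long_le h b n
  have h10 := high_le h n hH
  linarith

/-- **(E2), finite form.** -/
theorem stay_fin (h : Blk P V B R U tl ρ) {b w r : ℝ} (hb : 0 ≤ b) (hr : 0 < r) (hU : 0 ≤ U b)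
    (n : ℕ) : 1 - n * U b / r ^ 2 - n * tl b ≤ P.real (StF V B R b w (w - r) n) := by
  have h1 := stay h (w := w) hb hr hU n
  have hr2 : 0 < r ^ 2 := by positivity
  have h2 : 1 - n * U b / r ^ 2 ≤ P.real (Al V B b w (w - r) (w + r) n) := by
    have : 1 - P.real (Al V B b w (w - r) (w + r) n) ≤ n * U b / r ^ 2 := by
      rw [le_div_iff₀ hr2]; linarith
    linarith
  have hR : ∀ᵐ ω ∂P, ∀ i, 1 ≤ R i ω := by
    rw [ae_all_iff]; exact h.R1
  have h3 : ∀ᵐ ω ∂P, ω ∈ Al V B b w (w - r) (w + r) n →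
      ω ∈ StF V B R b w (w - r) n ∪ {ω | ¬ ∀ i < n, B i ω ≤ b} := by
    filter_upwards [hR] with ω hω hA
    by_cases hB : ∀ i < n, B i ω ≤ b
    · refine Or.inl ⟨fun j hj => ?_, hB, ?_⟩
      · rw [← wf_eq hB hj]; exact (hA j hj).1.le
      · calc (n : ℝ) = ∑ _i ∈ Finset.range n, (1 : ℝ) := by simp
          _ ≤ _ := Finset.sum_le_sum fun i _ => hω i
    · exact Or.inr hB
  have h4 : P (Al V B b w (w - r) (w + r) n)
      ≤ P (StF V B R b w (w - r) n ∪ {ω | ¬ ∀ i < n, B i ω ≤ b}) := measure_mono_ae h3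
  have h5 := (ENNReal.toReal_le_toReal (measure_ne_top _ _) (measure_ne_top _ _)).2 h4
  have h6 := measureReal_union_le (μ := P) (StF V B R b w (w - r) n) {ω | ¬ ∀ i < n, B i ω ≤ b}
  have h7 := long_le h b n
  change P.real _ ≤ P.real _ at h5
  linarith

end Crest.Agent.R154.Gam177
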