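import Mathlib

/-!
Row 154 (helper139): THE GAP LEMMA (short form of 998's (G)), abstract, Mathlib only.

`c j` (`j : ℕ`, unit levels) is a nondecreasing real process, adapted to `F`.
* `light`: from (F') `P (B ∩ {v0 ≤ c k - c (j+1)}) ≤ ρ P B` (`k` arbitrary, `B ∈ F j`): the light
  part (increments `< R`) has geometric tails.
* `fam_le`: from (P') the families of disjoint steep intervals.
* `exists_fam`: deterministic, rising sun + Vitali.
* `gap`: conclusion.
-/

set_option autoImplicit false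

namespace Crest.Agent.R154.Gap139

open MeasureTheory Set

variable {Ω : Type*} {m0 : MeasurableSpace Ω}

/-- light part of the increment -/
noncomputable def Xl (c : ℕ → Ω → ℝ) (R : ℝ) (i : ℕ) (ω : Ω) : ℝ :=
  if c (i + 1) ω - c i ω < R then c (i + 1) ω - c i ω else 0

lemma Xl_le (c : ℕ → Ω → ℝ) (R : ℝ) (i : ℕ) (ω : Ω) (h : 0 ≤ c (i + 1) ω - c i ω) :
    Xl c R i ω ≤ c (i + 1) ω - c i ω := by
  unfold Xl
  split_ifs
  · exact le_rfl
  · exact h

lemma Xl_le_R (c : ℕ → Ω → ℝ) {R : ℝ} (hR : 0 ≤ R) (i : ℕ) (ω : Ω) : Xl c R i ω ≤ R := by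
  unfold Xl
  split_ifs with h
  · exact h.le
  · exact hR

lemma Xl_nonneg (c : ℕ → Ω → ℝ) (R : ℝ) (i : ℕ) (ω : Ω) (h : 0 ≤ c (i + 1) ω - c i ω) :
    0 ≤ Xl c R i ω := by
  unfold Xl
  split_ifs
  · exact h
  · exact le_rfl

lemma sum_Xl_le (c : ℕ → Ω → ℝ) (hc : ∀ ω, Monotone fun i => c i ω) (R : ℝ) (ω : Ω) {a b : ℕ}
    (hab : a ≤ b) : ∑ i ∈ Finset.Ico a b, Xl c R i ω ≤ c b ω - c a ω := by
  induction b, hab using Nat.le_induction with
  | base => simp
  | succ b hab ih =>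
    rw [Finset.sum_Ico_succ_top hab]
    have h1 := Xl_le c R b ω (sub_nonneg.2 (hc ω (Nat.le_succ b)))
    linarith

variable {P : Measure Ω} {F : Filtration ℕ m0} {c : ℕ → Ω → ℝ}

/-- **LIGHT PART** -/
theorem light (hc : ∀ ω, Monotone fun i => c i ω) (hm : ∀ i, Measurable[F i] (c i))
    {v0 R : ℝ} (hv : 0 < v0) (hR : 0 ≤ R) {ρ : ENNReal}
    (hF : ∀ j k B, MeasurableSet[F j] B → P (B ∩ {ω | v0 ≤ c k ω - c (j + 1) ω}) ≤ ρ * P B)
    (K : ℕ) : ∀ (m j : ℕ) (B : Set Ω), MeasurableSet[F j] B →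
      P (B ∩ {ω | m * (v0 + 2 * R) + R ≤ ∑ i ∈ Finset.Ico j K, Xl c R i ω}) ≤ ρ ^ m * P B := by
  intro m
  induction m with
  | zero =>
    intro j B hB
    rw [pow_zero, one_mul]
    exact measure_mono inter_subset_left
  | succ m ih =>
    intro j B hB
    have hmm : ∀ i, Measurable (c i) := fun i => (hm i).mono (F.le i) le_rfl
    set T : ℕ → Set Ω := fun t => {ω | v0 ≤ c t ω - c (j + 1) ω ∧ c (t - 1) ω - c (j + 1) ω < v0}
      with hT
    have hTm : ∀ t, j + 2 ≤ t → MeasurableSet[F t] (T t) := by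
      intro t ht
      have h1 : Measurable[F t] (c t) := hm t
      have h2 : Measurable[F t] (c (j + 1)) := (hm (j + 1)).mono (F.mono (by omega)) le_rfl
      have h3 : Measurable[F t] (c (t - 1)) := (hm (t - 1)).mono (F.mono (by omega)) le_rfl
      exact (measurableSet_le measurable_const (h1.sub h2)).inter
        (measurableSet_lt (h3.sub h2) measurable_const)
    have hsub : B ∩ {ω | ((m + 1 : ℕ) : ℝ) * (v0 + 2 * R) + R ≤ ∑ i ∈ Finset.Ico j K, Xl c R i ω} ⊆
        ⋃ t ∈ Finset.Ico (j + 2) (K + 1),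
          (B ∩ T t) ∩ {ω | m * (v0 + 2 * R) + R ≤ ∑ i ∈ Finset.Ico t K, Xl c R i ω} := by
      rintro ω ⟨hωB, hω⟩
      have hω' : ((m + 1 : ℕ) : ℝ) * (v0 + 2 * R) + R ≤ ∑ i ∈ Finset.Ico j K, Xl c R i ω := hω
      push_cast at hω'
      have hmr : (0 : ℝ) ≤ m := Nat.cast_nonneg m
      have hmw : 0 ≤ (m : ℝ) * (v0 + 2 * R) := by positivity
      have hjK : j < K := by
        by_contra h
        rw [Finset.Ico_eq_empty (by omega), Finset.sum_empty] at hω'
        nlinarith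
      rw [Finset.sum_eq_sum_Ico_succ_bot hjK] at hω'
      have h1 := Xl_le_R c hR j ω
      have h2 := sum_Xl_le c hc R ω (a := j + 1) (b := K) hjK
      have hKv : v0 ≤ c K ω - c (j + 1) ω := by nlinarith
      classical
      have hex : ∃ t, v0 ≤ c t ω - c (j + 1) ω := ⟨K, hKv⟩
      obtain ⟨t, ht, htmin⟩ : ∃ t, v0 ≤ c t ω - c (j + 1) ω ∧
          ∀ t' < t, ¬ v0 ≤ c t' ω - c (j + 1) ω :=
        ⟨Nat.find hex, Nat.find_spec hex, fun t' ht' => Nat.find_min hex ht'⟩
      have htK : t ≤ K := by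
        by_contra h
        exact htmin K (by omega) hKv
      have htj : j + 2 ≤ t := by
        by_contra h
        have : c t ω ≤ c (j + 1) ω := hc ω (by omega)
        linarith
      have ht1 : c (t - 1) ω - c (j + 1) ω < v0 := not_le.1 (htmin (t - 1) (by omega))
      refine mem_iUnion₂.2 ⟨t, Finset.mem_Ico.2 ⟨htj, by omega⟩, ⟨hωB, ht, ht1⟩, ?_⟩
      show (m : ℝ) * (v0 + 2 * R) + R ≤ ∑ i ∈ Finset.Ico t K, Xl c R i ω
      have h3 : ∑ i ∈ Finset.Ico (j + 1) K, Xl c R i ω =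
          ∑ i ∈ Finset.Ico (j + 1) t, Xl c R i ω + ∑ i ∈ Finset.Ico t K, Xl c R i ω :=
        (Finset.sum_Ico_consecutive _ (by omega) htK).symm
      have h4 : ∑ i ∈ Finset.Ico (j + 1) t, Xl c R i ω =
          ∑ i ∈ Finset.Ico (j + 1) (t - 1), Xl c R i ω + Xl c R (t - 1) ω := by
        have e : t = (t - 1) + 1 := by omega
        conv_lhs => rw [e]
        rw [Finset.sum_Ico_succ_top (by omega)]
      have h5 := sum_Xl_le c hc R ω (a := j + 1) (b := t - 1) (by omega)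
      have h6 := Xl_le_R c hR (t - 1) ω
      rw [h3, h4] at hω'
      nlinarith
    have hdisj : Set.PairwiseDisjoint (↑(Finset.Ico (j + 2) (K + 1))) fun t => B ∩ T t := by
      intro t ht t' ht' hne
      have ht := Finset.mem_Ico.1 (Finset.mem_coe.1 ht)
      have ht' := Finset.mem_Ico.1 (Finset.mem_coe.1 ht')
      rw [Function.onFun, Set.disjoint_left]
      rintro ω ⟨-, h1, h2⟩ ⟨-, h3, h4⟩
      rcases lt_or_gt_of_ne hne with h | h
      · have : c t ω ≤ c (t' - 1) ω := hc ω (by omega)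
        linarith
      · have : c t' ω ≤ c (t - 1) ω := hc ω (by omega)
        linarith
    calc P (B ∩ {ω | ((m + 1 : ℕ) : ℝ) * (v0 + 2 * R) + R ≤ ∑ i ∈ Finset.Ico j K, Xl c R i ω})
        ≤ P (⋃ t ∈ Finset.Ico (j + 2) (K + 1),
          (B ∩ T t) ∩ {ω | m * (v0 + 2 * R) + R ≤ ∑ i ∈ Finset.Ico t K, Xl c R i ω}) :=
          measure_mono hsub
      _ ≤ ∑ t ∈ Finset.Ico (j + 2) (K + 1),
          P ((B ∩ T t) ∩ {ω | m * (v0 + 2 * R) + R ≤ ∑ i ∈ Finset.Ico t K, Xl c R i ω}) :=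
          measure_biUnion_finset_le _ _
      _ ≤ ∑ t ∈ Finset.Ico (j + 2) (K + 1), ρ ^ m * P (B ∩ T t) := by
          refine Finset.sum_le_sum fun t ht => ih t (B ∩ T t) ?_
          have ht := Finset.mem_Ico.1 ht
          exact (F.mono (by omega) _ hB).inter (hTm t ht.1)
      _ = ρ ^ m * P (⋃ t ∈ Finset.Ico (j + 2) (K + 1), B ∩ T t) := by
          rw [← Finset.mul_sum, measure_biUnion_finset hdisj]
          intro t ht
          have ht := Finset.mem_Ico.1 ht
          exact F.le t _ ((F.mono (by omega) _ hB).inter (hTm t ht.1))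
      _ ≤ ρ ^ m * P (B ∩ {ω | v0 ≤ c K ω - c (j + 1) ω}) := by
          refine mul_le_mul_right (measure_mono ?_) _
          refine iUnion₂_subset fun t ht => ?_
          have ht := Finset.mem_Ico.1 ht
          rintro ω ⟨h1, h2, -⟩
          refine ⟨h1, ?_⟩
          have : c t ω ≤ c K ω := hc ω (by omega)
          show v0 ≤ c K ω - c (j + 1) ω
          linarith
      _ ≤ ρ ^ m * (ρ * P B) := mul_le_mul_right (hF j K B hB) _
      _ = ρ ^ (m + 1) * P B := by rw [pow_succ]; ring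

/-! ### families of steep intervals -/

/-- steep: over the upper half of `[a, a + 2 n)` -/
def Ev (c : ℕ → Ω → ℝ) (s : ℝ) (a n : ℕ) : Set Ω :=
  {ω | s * n ≤ c (a + 2 * n) ω - c (a + n) ω}

/-- a family of steep intervals in `[j, K)` of total length `≥ t` -/
def Fam (c : ℕ → Ω → ℝ) (s : ℝ) (n1 n2 K j : ℕ) (t : ℝ) (ω : Ω) : Prop :=
  ∃ S : Finset (ℕ × ℕ), (∀ p ∈ S, j ≤ p.1 ∧ p.1 < K ∧ n1 ≤ p.2 ∧ p.2 ≤ n2 ∧ ω ∈ Ev c s p.1 p.2) ∧
    (∀ p ∈ S, ∀ q ∈ S, p ≠ q → p.1 + 2 * p.2 ≤ q.1 ∨ q.1 + 2 * q.2 ≤ p.1) ∧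
    t ≤ ∑ p ∈ S, (p.2 : ℝ)

lemma fam_step {s : ℝ} {n1 n2 K j : ℕ} (hn1 : 1 ≤ n1) {t : ℝ} {ω : Ω}
    (h : Fam c s n1 n2 K j t ω) :
    Fam c s n1 n2 K (j + 1) t ω ∨ ∃ n ∈ Finset.Icc n1 n2, ω ∈ Ev c s j n ∧
      Fam c s n1 n2 K (j + 2 * n) (t - n) ω := by
  classical
  obtain ⟨S, h1, h2, h3⟩ := h
  by_cases hj : ∃ p ∈ S, p.1 = j
  · right
    obtain ⟨p, hp, hpj⟩ := hj
    obtain ⟨-, g2, g3, g4, g5⟩ := h1 p hp
    refine ⟨p.2, Finset.mem_Icc.2 ⟨g3, g4⟩, by rw [← hpj]; exact g5, S.erase p, ?_, ?_, ?_⟩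
    · intro q hq
      have hq' := Finset.mem_erase.1 hq
      obtain ⟨e1, e2, e3, e4, e5⟩ := h1 q hq'.2
      refine ⟨?_, e2, e3, e4, e5⟩
      rcases h2 p hp q hq'.2 (Ne.symm hq'.1) with h | h
      · omega
      · omega
    · intro q hq q' hq' hne
      exact h2 q (Finset.mem_of_mem_erase hq) q' (Finset.mem_of_mem_erase hq') hne
    · rw [← Finset.add_sum_erase S (fun p : ℕ × ℕ => (p.2 : ℝ)) hp] at h3
      linarith
  · left
    push Not at hj
    refine ⟨S, fun p hp => ?_, h2, h3⟩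
    obtain ⟨e1, e2, e3, e4, e5⟩ := h1 p hp
    have := hj p hp
    exact ⟨by omega, e2, e3, e4, e5⟩

/-- **FAMILIES** -/
theorem fam_le (hm : ∀ i, Measurable[F i] (c i)) {s Γ Γ' : ℝ} {n1 n2 K : ℕ} (hn1 : 1 ≤ n1)
    (hs : 0 ≤ Γ' * s)
    (hP : ∀ a n B, n1 ≤ n → n ≤ n2 → MeasurableSet[F a] B →
      P (B ∩ Ev c s a n) ≤ ENNReal.ofReal (Real.exp (-(Γ * s * n))) * P B) :
    ∀ (d j : ℕ) (t : ℝ) (B : Set Ω), K ≤ j + d → MeasurableSet[F j] B →
      P (B ∩ {ω | Fam c s n1 n2 K j t ω}) ≤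
        (1 + ∑ n ∈ Finset.Icc n1 n2, ENNReal.ofReal (Real.exp (-((Γ - Γ') * s * n)))) ^ d *
          ENNReal.ofReal (Real.exp (-(Γ' * s * t))) * P B := by
  set G : ENNReal := 1 + ∑ n ∈ Finset.Icc n1 n2, ENNReal.ofReal (Real.exp (-((Γ - Γ') * s * n)))
    with hG
  have hG1 : 1 ≤ G := le_self_add
  intro d
  induction d using Nat.strong_induction_on with
  | _ d ih =>
    intro j t B hd hB
    rcases Nat.lt_or_ge j K with hjK | hjK
    · obtain ⟨e, rfl⟩ : ∃ e, d = e + 1 := ⟨d - 1, by omega⟩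
      have hEv : ∀ n, MeasurableSet[F (j + 2 * n)] (Ev c s j n) := by
        intro n
        have g1 : Measurable[F (j + 2 * n)] (c (j + 2 * n)) := hm _
        have g2 : Measurable[F (j + 2 * n)] (c (j + n)) :=
          (hm _).mono (F.mono (by omega)) le_rfl
        exact measurableSet_le measurable_const (g1.sub g2)
      have hsub : B ∩ {ω | Fam c s n1 n2 K j t ω} ⊆ (B ∩ {ω | Fam c s n1 n2 K (j + 1) t ω}) ∪
          ⋃ n ∈ Finset.Icc n1 n2, (B ∩ Ev c s j n) ∩
            {ω | Fam c s n1 n2 K (j + 2 * n) (t - n) ω} := by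
        rintro ω ⟨hωB, hω⟩
        rcases fam_step hn1 hω with h | ⟨n, hn, h1, h2⟩
        · exact Or.inl ⟨hωB, h⟩
        · exact Or.inr (mem_iUnion₂.2 ⟨n, hn, ⟨hωB, h1⟩, h2⟩)
      have hterm : ∀ n ∈ Finset.Icc n1 n2, P ((B ∩ Ev c s j n) ∩
          {ω | Fam c s n1 n2 K (j + 2 * n) (t - n) ω}) ≤
          G ^ e * ENNReal.ofReal (Real.exp (-(Γ' * s * t))) * P B *
            ENNReal.ofReal (Real.exp (-((Γ - Γ') * s * n))) := by
        intro n hn
        have hn' := Finset.mem_Icc.1 hn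
        have h1 := ih (e + 1 - 2 * n) (by omega) (j + 2 * n) (t - n) (B ∩ Ev c s j n) (by omega)
          ((F.mono (by omega) _ hB).inter (hEv n))
        refine h1.trans ?_
        have h2 : G ^ (e + 1 - 2 * n) ≤ G ^ e := pow_le_pow_right₀ hG1 (by omega)
        calc G ^ (e + 1 - 2 * n) * ENNReal.ofReal (Real.exp (-(Γ' * s * (t - n)))) *
              P (B ∩ Ev c s j n)
            ≤ G ^ e * ENNReal.ofReal (Real.exp (-(Γ' * s * (t - n)))) *
              (ENNReal.ofReal (Real.exp (-(Γ * s * n))) * P B) := by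
              gcongr
              exact hP j n B hn'.1 hn'.2 hB
          _ = G ^ e * (ENNReal.ofReal (Real.exp (-(Γ' * s * (t - n)))) *
              ENNReal.ofReal (Real.exp (-(Γ * s * n)))) * P B := by ring
          _ = G ^ e * (ENNReal.ofReal (Real.exp (-(Γ' * s * t))) *
              ENNReal.ofReal (Real.exp (-((Γ - Γ') * s * n)))) * P B := by
              rw [← ENNReal.ofReal_mul (Real.exp_pos _).le,
                ← ENNReal.ofReal_mul (Real.exp_pos _).le, ← Real.exp_add, ← Real.exp_add]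
              congr 4
              ring
          _ = _ := by ring
      have h0 := ih e (by omega) (j + 1) t B (by omega) (F.mono (by omega) _ hB)
      calc P (B ∩ {ω | Fam c s n1 n2 K j t ω})
          ≤ P (B ∩ {ω | Fam c s n1 n2 K (j + 1) t ω}) +
            P (⋃ n ∈ Finset.Icc n1 n2, (B ∩ Ev c s j n) ∩
              {ω | Fam c s n1 n2 K (j + 2 * n) (t - n) ω}) :=
            (measure_mono hsub).trans (measure_union_le _ _)
        _ ≤ G ^ e * ENNReal.ofReal (Real.exp (-(Γ' * s * t))) * P B +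
            ∑ n ∈ Finset.Icc n1 n2, G ^ e * ENNReal.ofReal (Real.exp (-(Γ' * s * t))) * P B *
            ENNReal.ofReal (Real.exp (-((Γ - Γ') * s * n))) := by
            gcongr
            exact (measure_biUnion_finset_le _ _).trans (Finset.sum_le_sum hterm)
        _ = G ^ (e + 1) * ENNReal.ofReal (Real.exp (-(Γ' * s * t))) * P B := by
            rw [← Finset.mul_sum, pow_succ]
            conv_rhs => rw [mul_assoc (G ^ e), hG]
            ring
    · -- no room
      by_cases ht : t ≤ 0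
      · have h1 : (1 : ENNReal) ≤ ENNReal.ofReal (Real.exp (-(Γ' * s * t))) := by
          rw [← ENNReal.ofReal_one]
          refine ENNReal.ofReal_le_ofReal (Real.one_le_exp ?_)
          nlinarith [mul_nonneg hs (neg_nonneg.2 ht)]
        calc P (B ∩ {ω | Fam c s n1 n2 K j t ω}) ≤ 1 * 1 * P B := by
              rw [one_mul, one_mul]; exact measure_mono inter_subset_left
          _ ≤ _ := by
              gcongr
              exact one_le_pow₀ hG1
      · have : {ω | Fam c s n1 n2 K j t ω} = ∅ := by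
          rw [Set.eq_empty_iff_forall_notMem]
          rintro ω ⟨S, h1, -, h3⟩
          have hS : S = ∅ := by
            rw [Finset.eq_empty_iff_forall_notMem]
            intro p hp
            obtain ⟨e1, e2, -⟩ := h1 p hp
            omega
          rw [hS, Finset.sum_empty] at h3
          exact ht h3
        rw [this, inter_empty, measure_empty]
        exact zero_le

end Crest.Agent.R154.Gap139
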