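import Mathlib

/-!
Row 154 (helper343). TILE_RUN, the gap lemma (G) of 998 #33522 in the short form: chains of items,
one induction for the probability, two pathwise lemmas. Mathlib only.
-/

set_option autoImplicit false
set_option linter.unusedVariables false
set_option linter.deprecated false
set_option linter.unusedSectionVars false

open MeasureTheory ENNReal

namespace Crest.Agent.R154.Gap343

/-! ### chains of items -/

/-- `Ch rel T j m t`: at most `j` successive items after `m`, all ending before `T`,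
of total value `≥ t`. -/
def Ch (rel : ℕ → ℕ → ℕ → Prop) (T : ℕ) : ℕ → ℕ → ℕ → Prop
  | 0, _, t => t = 0
  | j + 1, m, t => Ch rel T j m t ∨ ∃ y v, m < y ∧ y ≤ T ∧ rel m y v ∧ Ch rel T j y (t - v)

section Ch
variable {rel : ℕ → ℕ → ℕ → Prop} {T T' j j' m m' t t' y v : ℕ}

theorem Ch.succ (h : Ch rel T j m t) : Ch rel T (j + 1) m t := Or.inl h

theorem Ch.mono_j (h : Ch rel T j m t) (hj : j ≤ j') : Ch rel T j' m t := by
  induction hj with
  | refl => exact h
  | step _ ih => exact Or.inl ih

theorem Ch.anti_t (h : Ch rel T j m t) (ht : t' ≤ t) : Ch rel T j m t' := by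
  induction j generalizing m t t' with
  | zero => simp only [Ch] at h ⊢; omega
  | succ j ih =>
    rcases h with h | ⟨y, v, h1, h2, h3, h4⟩
    · exact Or.inl (ih h ht)
    · exact Or.inr ⟨y, v, h1, h2, h3, ih h4 (by omega)⟩

theorem Ch.mono_T (h : Ch rel T j m t) (hT : T ≤ T') : Ch rel T' j m t := by
  induction j generalizing m t with
  | zero => exact h
  | succ j ih =>
    rcases h with h | ⟨y, v, h1, h2, h3, h4⟩
    · exact Or.inl (ih h)
    · exact Or.inr ⟨y, v, h1, h2.trans hT, h3, ih h4⟩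

theorem Ch.anti_m (hr : ∀ m' m y v, m' ≤ m → rel m y v → rel m' y v)
    (h : Ch rel T j m t) (hm : m' ≤ m) : Ch rel T j m' t := by
  induction j generalizing m m' t with
  | zero => exact h
  | succ j ih =>
    rcases h with h | ⟨y, v, h1, h2, h3, h4⟩
    · exact Or.inl (ih h hm)
    · exact Or.inr ⟨y, v, lt_of_le_of_lt hm h1, h2, hr _ _ _ _ hm h3, h4⟩

theorem Ch.cons (h : Ch rel T j y t) (hmy : m < y) (hyT : y ≤ T) (hrel : rel m y v) :
    Ch rel T (j + 1) m (v + t) :=
  Or.inr ⟨y, v, hmy, hyT, hrel, by rwa [Nat.add_sub_cancel_left]⟩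

end Ch

/-- **probability of a chain** -/
theorem chain_le {Ω : Type*} {m0 : MeasurableSpace Ω} {P : Measure Ω} (G : Filtration ℕ m0)
    (rel : Ω → ℕ → ℕ → ℕ → Prop) (T : ℕ) {b r ζ Γ : ℝ≥0∞} (hb : b ≤ 1) (hζ0 : ζ ≠ 0)
    (hζ1 : ζ ≤ 1)
    (hm : ∀ m y v, m < y → MeasurableSet[G y] {ω | rel ω m y v})
    (hP : ∀ m y v, m < y → ∀ B, MeasurableSet[G m] B →
      P (B ∩ {ω | rel ω m y v}) ≤ ((y - m : ℕ) : ℝ≥0∞) * (b * r) ^ v * P B)
    (hΓ : 1 + (∑' d : ℕ, (d : ℝ≥0∞) * ζ ^ d) * (∑' v : ℕ, r ^ v) ≤ Γ) :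
    ∀ j m t, m ≤ T → ∀ B, MeasurableSet[G m] B →
      P (B ∩ {ω | Ch (rel ω) T j m t}) ≤ Γ ^ j * (ζ ^ m * (ζ ^ T)⁻¹) * b ^ t * P B := by
  have hζt : ζ ≠ ∞ := ne_top_of_le_ne_top one_ne_top hζ1
  intro j
  induction j with
  | zero =>
    intro m t hmT B hB
    by_cases ht : t = 0
    · subst ht
      have h1 : (1 : ℝ≥0∞) ≤ ζ ^ m * (ζ ^ T)⁻¹ := by
        rw [← ENNReal.mul_inv_cancel (pow_ne_zero T hζ0) (ENNReal.pow_ne_top hζt)]
        gcongr ?_ * _
        exact pow_le_pow_right_of_le_one' hζ1 hmT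
      calc P (B ∩ {ω | Ch (rel ω) T 0 m 0}) ≤ P B := measure_mono Set.inter_subset_left
        _ = 1 * P B := (one_mul _).symm
        _ ≤ (Γ ^ 0 * (ζ ^ m * (ζ ^ T)⁻¹) * b ^ 0) * P B := by
            gcongr
            simpa using h1
    · have : (B ∩ {ω | Ch (rel ω) T 0 m t}) = ∅ := by
        ext ω; simp [Ch, ht]
      rw [this]; simp
  | succ j ih =>
    intro m t hmT B hB
    set X : ℝ≥0∞ := Γ ^ j * (ζ ^ m * (ζ ^ T)⁻¹) * b ^ t * P B with hX
    have hsub : B ∩ {ω | Ch (rel ω) T (j + 1) m t} ⊆ (B ∩ {ω | Ch (rel ω) T j m t}) ∪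
        ⋃ d : ℕ, ⋃ v : ℕ, (if 0 < d ∧ m + d ≤ T then
          (B ∩ {ω | rel ω m (m + d) v}) ∩ {ω | Ch (rel ω) T j (m + d) (t - v)} else ∅) := by
      rintro ω ⟨hB', h⟩
      rcases h with h | ⟨y, v, h1, h2, h3, h4⟩
      · exact Or.inl ⟨hB', h⟩
      · refine Or.inr (Set.mem_iUnion.2 ⟨y - m, Set.mem_iUnion.2 ⟨v, ?_⟩⟩)
        have e : m + (y - m) = y := by omega
        rw [if_pos ⟨by omega, by omega⟩, e]
        exact ⟨⟨hB', h3⟩, h4⟩
    have hterm : ∀ d v : ℕ, P (if 0 < d ∧ m + d ≤ T then
          (B ∩ {ω | rel ω m (m + d) v}) ∩ {ω | Ch (rel ω) T j (m + d) (t - v)} else ∅) ≤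
          X * (((d : ℝ≥0∞) * ζ ^ d) * r ^ v) := by
      intro d v
      by_cases hd : 0 < d ∧ m + d ≤ T
      · rw [if_pos hd]
        have hBm : MeasurableSet[G (m + d)] (B ∩ {ω | rel ω m (m + d) v}) :=
          (G.mono (Nat.le_add_right m d) _ hB).inter (hm m (m + d) v (by omega))
        refine (ih (m + d) (t - v) hd.2 _ hBm).trans ?_
        have h2 := hP m (m + d) v (by omega) B hB
        rw [Nat.add_sub_cancel_left] at h2
        have h3 : b ^ (t - v) * (b * r) ^ v ≤ b ^ t * r ^ v := by
          rw [mul_pow, ← mul_assoc, ← pow_add]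
          gcongr ?_ * _
          exact pow_le_pow_right_of_le_one' hb (by omega)
        calc Γ ^ j * (ζ ^ (m + d) * (ζ ^ T)⁻¹) * b ^ (t - v) * P (B ∩ {ω | rel ω m (m + d) v})
            ≤ Γ ^ j * (ζ ^ (m + d) * (ζ ^ T)⁻¹) * b ^ (t - v) *
                ((d : ℝ≥0∞) * (b * r) ^ v * P B) := by gcongr
          _ = Γ ^ j * (ζ ^ (m + d) * (ζ ^ T)⁻¹) * (b ^ (t - v) * (b * r) ^ v) *
                ((d : ℝ≥0∞) * P B) := by ring
          _ ≤ Γ ^ j * (ζ ^ (m + d) * (ζ ^ T)⁻¹) * (b ^ t * r ^ v) * ((d : ℝ≥0∞) * P B) := by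
                gcongr
          _ = X * (((d : ℝ≥0∞) * ζ ^ d) * r ^ v) := by rw [hX, pow_add]; ring
      · rw [if_neg hd]; simp
    calc P (B ∩ {ω | Ch (rel ω) T (j + 1) m t})
        ≤ P (B ∩ {ω | Ch (rel ω) T j m t}) + ∑' d : ℕ, ∑' v : ℕ,
            P (if 0 < d ∧ m + d ≤ T then
              (B ∩ {ω | rel ω m (m + d) v}) ∩ {ω | Ch (rel ω) T j (m + d) (t - v)} else ∅) := by
          refine (measure_mono hsub).trans ((measure_union_le _ _).trans ?_)
          gcongr
          refine (measure_iUnion_le _).trans (ENNReal.tsum_le_tsum fun d => ?_)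
          exact measure_iUnion_le _
      _ ≤ X + ∑' d : ℕ, ∑' v : ℕ, X * (((d : ℝ≥0∞) * ζ ^ d) * r ^ v) := by
          gcongr with d v
          · exact ih m t hmT B hB
          · exact hterm d v
      _ = X * (1 + (∑' d : ℕ, (d : ℝ≥0∞) * ζ ^ d) * (∑' v : ℕ, r ^ v)) := by
          simp_rw [ENNReal.tsum_mul_left, ENNReal.tsum_mul_right]
          ring
      _ ≤ X * Γ := by gcongr
      _ = Γ ^ (j + 1) * (ζ ^ m * (ζ ^ T)⁻¹) * b ^ t * P B := by rw [hX, pow_succ]; ring

/-! ### pathwise part -/

/-- type 1 items (free range): value `v`, `v0 ≤ v ≤ R`, one unit of shadow -/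
def rel1 (f : ℕ → ℝ) (v0 : ℕ) (R : ℝ) (m y v : ℕ) : Prop :=
  v0 ≤ v ∧ (v : ℝ) ≤ R ∧ ∃ x, m < x ∧ x < y ∧ (v : ℝ) ≤ f y - f x

/-- type 2 items (percolation at the good octave): length `n`, slope `s`, shadow `≥ n / D` -/
def rel2 (f : ℕ → ℝ) (s : ℝ) (K0 D : ℕ) (m y n : ℕ) : Prop :=
  K0 ≤ n ∧ m + n ≤ y ∧ n ≤ D * (y - n - m) ∧ s * n ≤ f y - f (y - n)

theorem rel1_anti {f : ℕ → ℝ} {v0 : ℕ} {R : ℝ} (m' m y v : ℕ) (h : m' ≤ m)
    (hr : rel1 f v0 R m y v) : rel1 f v0 R m' y v := by
  obtain ⟨h1, h2, x, h3, h4, h5⟩ := hr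
  exact ⟨h1, h2, x, by omega, h4, h5⟩

theorem rel2_anti {f : ℕ → ℝ} {s : ℝ} {K0 D : ℕ} (m' m y n : ℕ) (h : m' ≤ m)
    (hr : rel2 f s K0 D m y n) : rel2 f s K0 D m' y n := by
  obtain ⟨h1, h2, h3, h4⟩ := hr
  refine ⟨h1, by omega, h3.trans ?_, h4⟩
  gcongr

/-- total of the heavy units -/
noncomputable def Hv (f : ℕ → ℝ) (R : ℝ) (T p : ℕ) : ℝ :=
  ∑ k ∈ Finset.Ico p T, if R ≤ f (k + 1) - f k then f (k + 1) - f k else 0

/-- bound for the number of pieces -/
noncomputable def gb (f : ℕ → ℝ) (R : ℝ) (T p : ℕ) : ℝ :=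
  if p < T then f (T - 1) - f p + R else 0

section Path
variable {f : ℕ → ℝ} (hf : Monotone f) {R : ℝ} (hR : 0 < R)
include hf hR

theorem hv_term (k : ℕ) : 0 ≤ if R ≤ f (k + 1) - f k then f (k + 1) - f k else 0 := by
  split_ifs with h
  · linarith
  · exact le_rfl

theorem hv_le_term (k : ℕ) :
    (if R ≤ f (k + 1) - f k then f (k + 1) - f k else 0) ≤ f (k + 1) - f k := by
  split_ifs with h
  · exact le_rfl
  · have := hf (Nat.le_succ k); simp only [Nat.succ_eq_add_one] at this; linarith

theorem Hv_anti {T p q : ℕ} (h : p ≤ q) : Hv f R T q ≤ Hv f R T p := by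
  unfold Hv
  exact Finset.sum_le_sum_of_subset_of_nonneg (Finset.Ico_subset_Ico_left h)
    fun k _ _ => hv_term hf hR k

theorem Hv_succ {T p : ℕ} (h : p < T) :
    Hv f R T p = (if R ≤ f (p + 1) - f p then f (p + 1) - f p else 0) + Hv f R T (p + 1) := by
  unfold Hv
  rw [Finset.sum_eq_sum_Ico_succ_bot h]

theorem Hv_le {T p q : ℕ} (h : p ≤ q) : Hv f R T p ≤ (f q - f p) + Hv f R T q := by
  induction q, h using Nat.le_induction with
  | base => simp
  | succ q hq ih =>
    have hm := hf (Nat.le_succ q)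
    simp only [Nat.succ_eq_add_one] at hm
    by_cases hqT : q < T
    · have := Hv_succ hf hR hqT
      have h2 := hv_le_term hf hR q
      linarith
    · have e1 : Hv f R T q = 0 := by
        unfold Hv; rw [Finset.Ico_eq_empty_of_le (by omega)]; simp
      have e2 : Hv f R T (q + 1) = 0 := by
        unfold Hv; rw [Finset.Ico_eq_empty_of_le (by omega)]; simp
      rw [e1] at ih
      rw [e2]
      linarith

theorem gb_nonneg {T p : ℕ} (h : p < T) : R ≤ gb f R T p := by
  unfold gb
  rw [if_pos h]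
  have := hf (show p ≤ T - 1 by omega)
  linarith

theorem gb_step {T p q : ℕ} (h : p < T) (hpq : R ≤ f q - f p) (hq : p < q) {N : ℕ}
    (hN : (N : ℝ) * R ≤ gb f R T q) : ((N + 1 : ℕ) : ℝ) * R ≤ gb f R T p := by
  push_cast
  by_cases hqT : q < T
  · unfold gb at hN ⊢
    rw [if_pos hqT] at hN
    rw [if_pos h]
    nlinarith
  · have h1 := gb_nonneg hf hR h
    have h2 : gb f R T q = 0 := by unfold gb; rw [if_neg hqT]
    rw [h2] at hN
    nlinarith

theorem gb_anti {T p q : ℕ} (hq : p ≤ q) : gb f R T q ≤ gb f R T p := by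
  by_cases hqT : q < T
  · have hm := hf hq
    unfold gb
    rw [if_pos hqT, if_pos (by omega)]
    linarith
  · have h2 : gb f R T q = 0 := by unfold gb; rw [if_neg hqT]
    rw [h2]
    by_cases h : p < T
    · exact hR.le.trans (gb_nonneg hf hR h)
    · unfold gb; rw [if_neg h]

theorem add_item {v0 : ℕ} (hv0 : 1 ≤ v0) {T m x y j t : ℕ} (hx : m < x) (hxy : x < y)
    (hyT : y ≤ T) (hU : f y - f x < R) (h : Ch (rel1 f v0 R) T j y t) :
    ∃ v : ℕ, Ch (rel1 f v0 R) T (j + 1) m (v + t) ∧ f y - f x ≤ v + v0 := by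
  have hU0 : 0 ≤ f y - f x := sub_nonneg.2 (hf hxy.le)
  by_cases hv : v0 ≤ ⌊f y - f x⌋₊
  · refine ⟨⌊f y - f x⌋₊, h.cons (by omega) hyT
      ⟨hv, (Nat.floor_le hU0).trans hU.le, x, hx, hxy, Nat.floor_le hU0⟩, ?_⟩
    have h1 := Nat.lt_floor_add_one (f y - f x)
    have h2 : (1 : ℝ) ≤ v0 := by exact_mod_cast hv0
    linarith
  · refine ⟨0, ?_, ?_⟩
    · rw [zero_add]
      exact (h.anti_m rel1_anti (by omega)).succ
    · push Not at hv
      have h1 := Nat.lt_floor_add_one (f y - f x)
      have h2 : ((⌊f y - f x⌋₊ : ℕ) : ℝ) + 1 ≤ v0 := by exact_mod_cast hv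
      push_cast
      linarith

/-- **pathwise lemma 1**: pieces, light units, heavy units -/
theorem path1 {v0 : ℕ} (hv0 : 1 ≤ v0) (T : ℕ) : ∀ n x : ℕ, 1 ≤ x → x ≤ T → T - x = n →
    ∃ j t1 t2 : ℕ, Ch (rel1 f v0 R) T j (x - 1) t1 ∧ Ch (rel1 f v0 R) T j x t2 ∧
      (j : ℝ) * R ≤ gb f R T x ∧ f T - f x ≤ t1 + t2 + 2 * v0 * j + Hv f R T x := by
  classical
  intro n
  induction n using Nat.strong_induction_on with
  | _ n ih =>
    intro x hx1 hxT hn
    have hH0 : 0 ≤ Hv f R T x := Finset.sum_nonneg fun k _ => hv_term hf hR k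
    have hv0' : (1 : ℝ) ≤ v0 := by exact_mod_cast hv0
    rcases hxT.eq_or_lt with rfl | hlt
    · refine ⟨0, 0, 0, rfl, rfl, ?_, ?_⟩
      · unfold gb; rw [if_neg (lt_irrefl _)]; simp
      · simpa using hH0
    · set y0 := Nat.findGreatest (fun y => f y - f x < R) T with hy0
      have hxy : x ≤ y0 := Nat.le_findGreatest hxT (by simpa using hR)
      have hy0T : y0 ≤ T := Nat.findGreatest_le T
      have hy0P : f y0 - f x < R :=
        Nat.findGreatest_spec (P := fun y => f y - f x < R) hxT (by simpa using hR)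
      rcases hy0T.eq_or_lt with he | hl
      · -- the last piece
        rw [he] at hy0P
        obtain ⟨v, h1, h2⟩ := add_item hf hR hv0 (m := x - 1) (x := x) (y := T) (j := 0) (t := 0)
          (by omega) hlt le_rfl hy0P rfl
        refine ⟨1, v + 0, 0, h1, Or.inl rfl, ?_, ?_⟩
        · simpa using gb_nonneg hf hR hlt
        · push_cast
          linarith
      · have hmax : ¬ (f (y0 + 1) - f x < R) :=
          Nat.findGreatest_is_greatest (P := fun y => f y - f x < R) (Nat.lt_succ_self y0)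
            (Nat.succ_le_of_lt hl)
        push Not at hmax
        obtain ⟨j', t1', t2', hc1, hc2, hj', hs'⟩ := ih (T - (y0 + 1)) (by omega) (y0 + 1)
          (by omega) (by omega) rfl
        rw [Nat.add_sub_cancel] at hc1
        -- pieces
        have hA : ∃ v : ℕ, Ch (rel1 f v0 R) T (j' + 1) (x - 1) (v + t1') ∧
            f y0 - f x ≤ v + v0 := by
          rcases hxy.eq_or_lt with he | hl'
          · refine ⟨0, ?_, ?_⟩
            · rw [zero_add]; exact (hc1.anti_m rel1_anti (by omega)).succ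
            · rw [← he]; push_cast; linarith
          · exact add_item hf hR hv0 (by omega) hl' hy0T hy0P hc1
        obtain ⟨v1, hv1, hv1'⟩ := hA
        have hB : ∃ v : ℕ, Ch (rel1 f v0 R) T (j' + 1) x (v + t2') ∧
            f (y0 + 1) - f y0 ≤ v + v0 +
              (if R ≤ f (y0 + 1) - f y0 then f (y0 + 1) - f y0 else 0) := by
          by_cases hh : R ≤ f (y0 + 1) - f y0
          · refine ⟨0, ?_, ?_⟩
            · rw [zero_add]; exact (hc2.anti_m rel1_anti (by omega)).succ
            · rw [if_pos hh]; push_cast; linarith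
          · have hlt' : x < y0 := by
              rcases hxy.eq_or_lt with he | hl'
              · exfalso; rw [← he] at hh; rw [← he] at hmax; exact hh hmax
              · exact hl'
            push Not at hh
            obtain ⟨v, h1, h2⟩ := add_item hf hR hv0 (m := x) (x := y0) (y := y0 + 1) hlt'
              (Nat.lt_succ_self _) (Nat.succ_le_of_lt hl) hh hc2
            refine ⟨v, h1, ?_⟩
            rw [if_neg (not_le.2 hh)]
            linarith
        obtain ⟨v2, hv2, hv2'⟩ := hB
        refine ⟨j' + 1, v1 + t1', v2 + t2', hv1, hv2, ?_, ?_⟩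
        · exact gb_step hf hR hlt hmax (by omega) hj'
        · have hHa := Hv_anti hf hR (T := T) hxy
          have hHs := Hv_succ hf hR hl
          push_cast
          linarith

/-- **pathwise lemma 2**: heavy units are covered by chains of slope `≥ s` -/
theorem path2 {s : ℝ} (hs : 0 < s) (hsR : s ≤ R) {D : ℕ} (hD : 1 ≤ D) (K0 : ℕ) (hK0 : 1 ≤ K0)
    (T T2 m1 cap : ℕ) (hT2 : T + cap ≤ T2) (hm1 : cap / D + 1 ≤ m1)
    (hcap : ∀ p, m1 ≤ p → p < T → ∃ k ≤ cap, f (p + k) - f p < s * k) :
    ∀ n p : ℕ, m1 ≤ p → T - p = n → ∃ j t L N A : ℕ, Ch (rel2 f s K0 D) T2 j L t ∧ j ≤ N ∧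
      Hv f R T p ≤ s * (A + N) ∧ (N : ℝ) * R ≤ gb f R T p ∧
      D * (A + (p - L)) ≤ (D + 1) * t + D * (K0 + 1) * N := by
  classical
  intro n
  induction n using Nat.strong_induction_on with
  | _ n ih =>
    intro p hp hn
    by_cases hpT : p < T
    swap
    · refine ⟨0, 0, p, 0, 0, rfl, le_rfl, ?_, ?_, ?_⟩
      · unfold Hv; rw [Finset.Ico_eq_empty_of_le (by omega)]; simp
      · unfold gb; rw [if_neg hpT]; simp
      · simp
    · by_cases hh : R ≤ f (p + 1) - f p
      swap
      · obtain ⟨j, t, L, N, A, h1, h2, h3, h4, h5⟩ := ih (T - (p + 1)) (by omega) (p + 1)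
          (by omega) rfl
        refine ⟨j, t, L, N, A, h1, h2, ?_, h4.trans (gb_anti hf hR (Nat.le_succ p)), ?_⟩
        · rw [Hv_succ hf hR hpT, if_neg hh, zero_add]; exact h3
        · refine le_trans ?_ h5
          gcongr
          omega
      · -- heavy unit
        obtain ⟨kc, hkc, hkc'⟩ := hcap p hp hpT
        have hex : ∃ k, f (p + k) - f p < s * k := ⟨kc, hkc'⟩
        set kp := Nat.find hex with hkp
        have hkp1 : f (p + kp) - f p < s * kp := Nat.find_spec hex
        have hkpc : kp ≤ cap := (Nat.find_min' hex hkc').trans hkc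
        have hkpm : ∀ k, k < kp → s * k ≤ f (p + k) - f p := by
          intro k hk
          have := Nat.find_min hex hk
          push Not at this
          exact this
        have hkp0 : kp ≠ 0 := by
          intro h0
          rw [h0] at hkp1
          simp at hkp1
        have hkp1' : kp ≠ 1 := by
          intro h0
          rw [h0] at hkp1
          push_cast at hkp1
          linarith
        obtain ⟨n', hn'⟩ : ∃ n', kp = n' + 1 := ⟨kp - 1, by omega⟩
        have hn1 : 1 ≤ n' := by omega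
        have hup : f (p + n') - f p ≤ s * (n' + 1) := by
          have h1 := hf (show p + n' ≤ p + kp by omega)
          rw [hn'] at hkp1 h1
          push_cast at hkp1
          linarith
        have hstep : R ≤ f (p + n') - f p := by
          have := hf (show p + 1 ≤ p + n' by omega)
          linarith
        obtain ⟨j, t, L, N, A, h1, h2, h3, h4, h5⟩ := ih (T - (p + n')) (by omega) (p + n')
          (by omega) rfl
        have hHv : Hv f R T p ≤ s * (((A + n' : ℕ) : ℝ) + ((N + 1 : ℕ) : ℝ)) := by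
          have := Hv_le hf hR (T := T) (show p ≤ p + n' by omega)
          push_cast
          linarith
        have hgb : ((N + 1 : ℕ) : ℝ) * R ≤ gb f R T p := gb_step hf hR hpT hstep (by omega) h4
        by_cases hL : L ≤ p
        · -- discarded, inside the shadow
          refine ⟨j, t, L, N + 1, A + n', h1, by omega, hHv, hgb, ?_⟩
          have e : A + n' + (p - L) = A + (p + n' - L) := by omega
          rw [e]
          refine h5.trans ?_
          gcongr
          omega
        · push Not at hL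
          set len := min n' (L - p) with hlen
          have e : A + n' = (A + (p + n' - L)) + len := by omega
          by_cases hK : K0 ≤ len
          · -- kept
            obtain ⟨q, hq1, hq2, hq3⟩ : ∃ q : ℕ, len ≤ D * (q + 1) ∧ q + 1 ≤ p ∧ D * q ≤ len := by
              refine ⟨len / D, ?_, ?_, Nat.mul_div_le len D⟩
              · have := Nat.div_add_mod len D
                have h' := Nat.mod_lt len (show 0 < D by omega)
                rw [Nat.mul_add, Nat.mul_one]
                omega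
              · have h7 : len ≤ cap := (min_le_left _ _).trans (by omega)
                have : len / D ≤ cap / D := Nat.div_le_div_right h7
                exact (Nat.succ_le_succ this).trans (hm1.trans hp)
            have hlenL : p + len ≤ L := by
              have := min_le_right n' (L - p)
              omega
            have hlen0 : 1 ≤ len := hK0.trans hK
            have hlenn : len ≤ n' := min_le_left _ _
            clear_value len
            refine ⟨j + 1, len + t, p - (q + 1), N + 1, A + n', ?_,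
              Nat.succ_le_succ h2, hHv, hgb, ?_⟩
            · refine (h1.anti_m rel2_anti hlenL).cons (by omega) (by omega)
                ⟨hK, by omega, ?_, ?_⟩
              · have e2 : p + len - len - (p - (q + 1)) = q + 1 := by omega
                rw [e2]; exact hq1
              · rw [Nat.add_sub_cancel]
                exact hkpm len (by omega)
            · have e3 : A + n' + (p - (p - (q + 1))) =
                  (A + (p + n' - L)) + len + (q + 1) := by omega
              rw [e3]
              calc D * (A + (p + n' - L) + len + (q + 1))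
                  = D * (A + (p + n' - L)) + (D * len + D * q + D) := by ring
                _ ≤ ((D + 1) * t + D * (K0 + 1) * N) + (D * len + len + D * (K0 + 1)) := by
                    gcongr
                    exact Nat.le_mul_of_pos_right D (by omega)
                _ = (D + 1) * (len + t) + D * (K0 + 1) * (N + 1) := by ring
          · -- too short
            push Not at hK
            refine ⟨j, t, L, N + 1, A + n', h1, by omega, hHv, hgb, ?_⟩
            have e3 : A + n' + (p - L) = (A + (p + n' - L)) + len := by omega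
            rw [e3]
            calc D * (A + (p + n' - L) + len) = D * (A + (p + n' - L)) + D * len := by ring
              _ ≤ ((D + 1) * t + D * (K0 + 1) * N) + D * (K0 + 1) := by
                  gcongr
                  omega
              _ = (D + 1) * t + D * (K0 + 1) * (N + 1) := by ring

end Path

end Crest.Agent.R154.Gap343
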