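import Crest.Agent.R154.Sun_95

/-!
# Row 154 (helper388): one-step window lemma over a gap of bad octaves

`c m` = cost at level `h_0 + m N_1` (unit = a regular octave `N_1`), nondecreasing, adapted.
(a) FREE RANGE: for `k ≤ a < e ≤ K` the event `c e - c a ≥ v0` costs `ε0`, given the past
    one unit below `a`;
(b) slope `X` per unit for intervals of `n` units with `2 n X > R`, given the past `n` units below.
Conclusion: `P (c K - c k ≥ u)` is at most
`((K+1)^2 e^(-2 θ k X) + e^(-θ u) e^(θ v0) (1 + e^(θ v0) η)^(K-k)) P Ω`,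
`η = ε0 e^(2 θ R) + ∑_{2nX>R} e^(-4 θ n X)`.
-/

set_option autoImplicit false
set_option linter.unusedVariables false
set_option linter.deprecated false

open MeasureTheory ENNReal

namespace Crest.Agent.R154.Gap388

open Crest.Agent.R154.Sun95

variable {Ω : Type*} {m0 : MeasurableSpace Ω} {P : Measure Ω}

/-- the pathwise majorant of `exp (θ * (c e - c k))` (fuel `j`) -/
noncomputable def V (c : ℕ → Ω → ℝ) (X R v0 θ : ℝ) (k : ℕ) : ℕ → ℕ → Ω → ℝ≥0∞
  | 0, _ => fun _ => 1
  | j + 1, e => fun ω => if e ≤ k then 1 else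
      ENNReal.ofReal (Real.exp (θ * v0)) * (1 + ∑ a ∈ Finset.Ico k e,
        ({ω' | v0 ≤ c e ω' - c a ω'}.indicator
          (fun ω' => ENNReal.ofReal (Real.exp (θ * (2 * R))) * V c X R v0 θ k j (a - 1) ω') ω +
        ∑ n ∈ Finset.Icc 1 ((a + 1) / 2), if R < 2 * (n * X) then
          {ω' | (n : ℝ) * X ≤ c (a + 1) ω' - c (a + 1 - n) ω'}.indicator
            (fun ω' => ENNReal.ofReal (Real.exp (4 * θ * (n * X))) *
              V c X R v0 θ k j (a + 1 - 2 * n) ω') ω else 0))

/-- the steep interval below a heavy unit `[e' - 1, e']` -/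
theorem steep {c : ℕ → Ω → ℝ} (hmono : ∀ ω, Monotone fun m => c m ω) {X R : ℝ}
    (hXR : X ≤ R) {k K : ℕ} (hk : 3 ≤ k) (ω : Ω)
    (hno : ∀ e n : ℕ, k < e → e ≤ K → e < 4 * n → 2 * n ≤ e →
      c e ω - c (e - n) ω < n * X) {e' : ℕ} (hke : k < e') (heK : e' ≤ K)
    (hZ : R ≤ c e' ω - c (e' - 1) ω) :
    ∃ n ∈ Finset.Icc 1 (e' / 2), R < 2 * (n * X) ∧ (n : ℝ) * X ≤ c e' ω - c (e' - n) ω ∧
      c e' ω - c (e' - 2 * n) ω < 2 * (n * X) := by
  let Q : ℕ → Prop := fun n => (n : ℝ) * X ≤ c e' ω - c (e' - n) ω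
  have : DecidablePred Q := fun _ => Classical.propDecidable _
  set n := Nat.findGreatest Q (e' / 4) with hn
  have he4 : 1 ≤ e' / 4 := by omega
  have hQ1 : Q 1 := by
    show ((1 : ℕ) : ℝ) * X ≤ c e' ω - c (e' - 1) ω
    rw [Nat.cast_one, one_mul]; linarith
  have hn1 : 1 ≤ n := Nat.le_findGreatest he4 hQ1
  have hQn : Q n := Nat.findGreatest_spec he4 hQ1
  have hnle : n ≤ e' / 4 := Nat.findGreatest_le _
  have h4n : 4 * n ≤ e' := by omega
  have hcost : c e' ω - c (e' - 2 * n) ω < 2 * (n * X) := by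
    by_cases h2n : 2 * n ≤ e' / 4
    · have : ¬ Q (2 * n) := Nat.findGreatest_is_greatest (by omega) h2n
      simp only [Q, not_le] at this
      push_cast at this
      linarith
    · have := hno e' (2 * n) hke heK (by omega) (by omega)
      push_cast at this
      linarith
  have hmon : c (e' - 2 * n) ω ≤ c (e' - 1) ω := hmono ω (by omega : e' - 2 * n ≤ e' - 1)
  exact ⟨n, Finset.mem_Icc.2 ⟨hn1, by omega⟩, by linarith, hQn, hcost⟩

/-- **the deterministic decomposition** -/
theorem det {c : ℕ → Ω → ℝ} (hmono : ∀ ω, Monotone fun m => c m ω) {X R v0 θ : ℝ}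
    (hXR : X ≤ R) (hR : 0 ≤ R) (hv0 : 0 < v0)
    (hθ : 0 ≤ θ) {k K : ℕ} (hk : 3 ≤ k) (ω : Ω)
    (hno : ∀ e n : ℕ, k < e → e ≤ K → e < 4 * n → 2 * n ≤ e →
      c e ω - c (e - n) ω < n * X) :
    ∀ j e, e ≤ k + j → e ≤ K →
      ENNReal.ofReal (Real.exp (θ * (c e ω - c k ω))) ≤ V c X R v0 θ k j e ω := by
  have hsmall : ∀ e, e ≤ k →
      ENNReal.ofReal (Real.exp (θ * (c e ω - c k ω))) ≤ 1 := by
    intro e he
    rw [ENNReal.ofReal_le_one, Real.exp_le_one_iff]
    have h1 := hmono ω he
    simp only at h1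
    exact mul_nonpos_of_nonneg_of_nonpos hθ (by linarith)
  intro j
  induction j with
  | zero =>
    intro e he _
    exact hsmall e (by omega)
  | succ j ih =>
    intro e he he2
    simp only [V]
    split_ifs with hek
    · exact hsmall e hek
    push Not at hek
    by_cases hsm : c e ω - c k ω < v0
    · calc ENNReal.ofReal (Real.exp (θ * (c e ω - c k ω)))
          ≤ ENNReal.ofReal (Real.exp (θ * v0)) * 1 := by
            rw [mul_one]
            exact ENNReal.ofReal_le_ofReal (Real.exp_le_exp.2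
              (mul_le_mul_of_nonneg_left hsm.le hθ))
        _ ≤ _ := mul_le_mul_right le_self_add _
    push Not at hsm
    -- last index `a` with `c e - c a ≥ v0`
    let Q : ℕ → Prop := fun a => v0 ≤ c e ω - c a ω
    have : DecidablePred Q := fun _ => Classical.propDecidable _
    set a := Nat.findGreatest Q (e - 1) with ha
    have hkle : k ≤ e - 1 := by omega
    have hQa : Q a := Nat.findGreatest_spec hkle hsm
    have hka : k ≤ a := Nat.le_findGreatest hkle hsm
    have hae : a ≤ e - 1 := Nat.findGreatest_le _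
    have hnext : c e ω - c (a + 1) ω < v0 := by
      by_cases h : a + 1 ≤ e - 1
      · have : ¬ Q (a + 1) := Nat.findGreatest_is_greatest (by omega) h
        simpa only [Q, not_le] using this
      · have : a + 1 = e := by omega
        rw [this, sub_self]; exact hv0
    have hmem : a ∈ Finset.Ico k e := Finset.mem_Ico.2 ⟨hka, by omega⟩
    -- the steep term with top `e'`, extra cost `x`
    have hst : ∀ (e' : ℕ) (_ : k < e') (_ : e' ≤ e) (x : ℝ) (_ : x ≤ v0 + R)
        (_ : R ≤ c e' ω - c (e' - 1) ω) (_ : c e ω - c e' ω ≤ x),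
        ENNReal.ofReal (Real.exp (θ * (c e ω - c k ω))) ≤
          ENNReal.ofReal (Real.exp (θ * v0)) * (1 + ∑ a ∈ Finset.Ico k e,
        ({ω' | v0 ≤ c e ω' - c a ω'}.indicator
          (fun ω' => ENNReal.ofReal (Real.exp (θ * (2 * R))) * V c X R v0 θ k j (a - 1) ω') ω +
        ∑ n ∈ Finset.Icc 1 ((a + 1) / 2), if R < 2 * (n * X) then
          {ω' | (n : ℝ) * X ≤ c (a + 1) ω' - c (a + 1 - n) ω'}.indicator
            (fun ω' => ENNReal.ofReal (Real.exp (4 * θ * (n * X))) *
              V c X R v0 θ k j (a + 1 - 2 * n) ω') ω else 0)) := by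
      intro e' h1 h2 x hx hZ hx2
      obtain ⟨n, hn, hRn, hQn, hcost⟩ := steep hmono hXR hk ω hno h1 (h2.trans he2) hZ
      rw [Finset.mem_Icc] at hn
      obtain ⟨a', rfl⟩ : ∃ a', e' = a' + 1 := ⟨e' - 1, by omega⟩
      have hmem' : a' ∈ Finset.Ico k e := Finset.mem_Ico.2 ⟨by omega, by omega⟩
      have hih := ih (a' + 1 - 2 * n) (by omega) (by omega)
      calc ENNReal.ofReal (Real.exp (θ * (c e ω - c k ω)))
          ≤ ENNReal.ofReal (Real.exp (θ * v0)) * (ENNReal.ofReal (Real.exp (4 * θ * (n * X))) *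
              ENNReal.ofReal (Real.exp (θ * (c (a' + 1 - 2 * n) ω - c k ω)))) := by
            rw [← ENNReal.ofReal_mul (Real.exp_pos _).le, ← ENNReal.ofReal_mul (Real.exp_pos _).le,
              ← Real.exp_add, ← Real.exp_add]
            refine ENNReal.ofReal_le_ofReal (Real.exp_le_exp.2 ?_)
            have : θ * (c e ω - c k ω) ≤
                θ * (v0 + (4 * (n * X) + (c (a' + 1 - 2 * n) ω - c k ω))) :=
              mul_le_mul_of_nonneg_left (by linarith) hθ
            calc _ ≤ _ := this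
              _ = _ := by ring
        _ ≤ ENNReal.ofReal (Real.exp (θ * v0)) * (ENNReal.ofReal (Real.exp (4 * θ * (n * X))) *
              V c X R v0 θ k j (a' + 1 - 2 * n) ω) := by gcongr
        _ ≤ _ := by
            refine mul_le_mul_right (le_trans ?_ (le_add_left le_rfl)) _
            refine le_trans ?_ (Finset.single_le_sum (f := fun a => 
              ({ω' | v0 ≤ c e ω' - c a ω'}.indicator
                (fun ω' => ENNReal.ofReal (Real.exp (θ * (2 * R))) *
                  V c X R v0 θ k j (a - 1) ω') ω +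
              ∑ n ∈ Finset.Icc 1 ((a + 1) / 2), if R < 2 * (n * X) then
                {ω' | (n : ℝ) * X ≤ c (a + 1) ω' - c (a + 1 - n) ω'}.indicator
                  (fun ω' => ENNReal.ofReal (Real.exp (4 * θ * (n * X))) *
                    V c X R v0 θ k j (a + 1 - 2 * n) ω') ω else 0)) (fun _ _ => zero_le) hmem')
            refine le_trans ?_ (le_add_left le_rfl)
            refine le_trans ?_ (Finset.single_le_sum (f := fun n : ℕ => if R < 2 * (n * X) then
                {ω' | (n : ℝ) * X ≤ c (a' + 1) ω' - c (a' + 1 - n) ω'}.indicator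
                  (fun ω' => ENNReal.ofReal (Real.exp (4 * θ * (n * X))) *
                    V c X R v0 θ k j (a' + 1 - 2 * n) ω') ω else 0) (fun _ _ => zero_le)
                (Finset.mem_Icc.2 hn))
            simp only [if_pos hRn]
            have hind : ω ∈ {ω' | (n : ℝ) * X ≤ c (a' + 1) ω' - c (a' + 1 - n) ω'} := hQn
            rw [Set.indicator_of_mem hind]
    by_cases hZ1 : R ≤ c (a + 1) ω - c a ω
    · exact hst (a + 1) (by omega) (by omega) v0 (by linarith)
        (by rw [Nat.add_sub_cancel]; exact hZ1) hnext.le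
    push Not at hZ1
    by_cases hZ2 : k < a ∧ R ≤ c a ω - c (a - 1) ω
    · exact hst a hZ2.1 (by omega) (v0 + R) le_rfl hZ2.2 (by linarith)
    -- light case
    have hlight : c a ω - c k ω ≤ R + (c (a - 1) ω - c k ω) ∨ (a = k) := by
      by_cases h : k < a
      · left
        have : ¬ R ≤ c a ω - c (a - 1) ω := fun h' => hZ2 ⟨h, h'⟩
        push Not at this
        linarith
      · right; omega
    have hQa' : ω ∈ {ω' | v0 ≤ c e ω' - c a ω'} := hQa
    have key : ENNReal.ofReal (Real.exp (θ * (c e ω - c k ω))) ≤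
        ENNReal.ofReal (Real.exp (θ * v0)) * (ENNReal.ofReal (Real.exp (θ * (2 * R))) *
          V c X R v0 θ k j (a - 1) ω) := by
      rcases hlight with h | h
      · calc ENNReal.ofReal (Real.exp (θ * (c e ω - c k ω)))
            ≤ ENNReal.ofReal (Real.exp (θ * v0)) * (ENNReal.ofReal (Real.exp (θ * (2 * R))) *
              ENNReal.ofReal (Real.exp (θ * (c (a - 1) ω - c k ω)))) := by
              rw [← ENNReal.ofReal_mul (Real.exp_pos _).le,
                ← ENNReal.ofReal_mul (Real.exp_pos _).le, ← Real.exp_add, ← Real.exp_add]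
              refine ENNReal.ofReal_le_ofReal (Real.exp_le_exp.2 ?_)
              have : θ * (c e ω - c k ω) ≤ θ * (v0 + (2 * R + (c (a - 1) ω - c k ω))) :=
                mul_le_mul_of_nonneg_left (by linarith) hθ
              calc _ ≤ _ := this
                _ = _ := by ring
          _ ≤ _ := by gcongr; exact ih (a - 1) (by omega) (by omega)
      · have hV1 : V c X R v0 θ k j (a - 1) ω = 1 := by
          cases j with
          | zero => rfl
          | succ j => simp only [V]; rw [if_pos (by omega)]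
        rw [hV1, mul_one, ← ENNReal.ofReal_mul (Real.exp_pos _).le, ← Real.exp_add]
        refine ENNReal.ofReal_le_ofReal (Real.exp_le_exp.2 ?_)
        rw [← h]
        have : θ * (c e ω - c a ω) ≤ θ * (v0 + 2 * R) :=
          mul_le_mul_of_nonneg_left (by linarith) hθ
        calc _ ≤ _ := this
          _ = _ := by ring
    refine key.trans (mul_le_mul_right (le_trans ?_ (le_add_left le_rfl)) _)
    refine le_trans ?_ (Finset.single_le_sum (f := fun a => 
              ({ω' | v0 ≤ c e ω' - c a ω'}.indicator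
                (fun ω' => ENNReal.ofReal (Real.exp (θ * (2 * R))) *
                  V c X R v0 θ k j (a - 1) ω') ω +
              ∑ n ∈ Finset.Icc 1 ((a + 1) / 2), if R < 2 * (n * X) then
                {ω' | (n : ℝ) * X ≤ c (a + 1) ω' - c (a + 1 - n) ω'}.indicator
                  (fun ω' => ENNReal.ofReal (Real.exp (4 * θ * (n * X))) *
                    V c X R v0 θ k j (a + 1 - 2 * n) ω') ω else 0)) (fun _ _ => zero_le) hmem)
    refine le_trans ?_ (le_add_right le_rfl)
    rw [Set.indicator_of_mem hQa']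

theorem V_meas {F : Filtration ℕ m0} {c : ℕ → Ω → ℝ} (hcm : ∀ m, Measurable[F m] (c m))
    (X R v0 θ : ℝ) (k : ℕ) : ∀ j e, Measurable[F e] (V c X R v0 θ k j e) := by
  intro j
  induction j with
  | zero => intro e; exact measurable_const
  | succ j ih =>
    intro e
    simp only [V]
    by_cases hek : e ≤ k
    · simp only [hek, if_true]; exact measurable_const
    · simp only [hek, if_false]
      refine Measurable.const_mul (Measurable.const_add ?_ _) _
      refine Finset.measurable_sum _ fun a ha => ?_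
      rw [Finset.mem_Ico] at ha
      refine Measurable.add ?_ (Finset.measurable_sum _ fun n hn => ?_)
      · refine Measurable.indicator ?_ ?_
        · exact Measurable.const_mul ((ih (a - 1)).mono (F.mono (by omega)) le_rfl) _
        · exact measurableSet_le measurable_const
            (Measurable.sub (hcm e) ((hcm a).mono (F.mono (by omega)) le_rfl))
      · split_ifs
        · refine Measurable.indicator ?_ ?_
          · exact Measurable.const_mul ((ih (a + 1 - 2 * n)).mono (F.mono (by omega)) le_rfl) _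
          · exact measurableSet_le measurable_const
              (Measurable.sub ((hcm (a + 1)).mono (F.mono (by omega)) le_rfl)
                ((hcm (a + 1 - n)).mono (F.mono (by omega)) le_rfl))
        · exact measurable_const

theorem geo (x : ℝ≥0∞) (N : ℕ) : 1 + x * ∑ i ∈ Finset.range N, (1 + x) ^ i = (1 + x) ^ N := by
  induction N with
  | zero => simp
  | succ N ih =>
    rw [Finset.sum_range_succ, mul_add, ← add_assoc, ih, pow_succ]
    ring

/-- exponential moment -/
theorem V_int {F : Filtration ℕ m0} {c : ℕ → Ω → ℝ} (hcm : ∀ m, Measurable[F m] (c m))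
    {X R v0 θ : ℝ} (hv0 : 0 < v0) (hθ : 0 ≤ θ) {k K : ℕ} {ε0 η : ℝ≥0∞}
    (ha : ∀ a e : ℕ, k ≤ a → a < e → e ≤ K → ∀ B, MeasurableSet[F (a - 1)] B →
      P (B ∩ {ω | v0 ≤ c e ω - c a ω}) ≤ ε0 * P B)
    (hb : ∀ e n : ℕ, 1 ≤ n → 2 * n ≤ e → e ≤ K → R < 2 * (n * X) →
      ∀ B, MeasurableSet[F (e - 2 * n)] B →
      P (B ∩ {ω | (n : ℝ) * X ≤ c e ω - c (e - n) ω}) ≤
        ENNReal.ofReal (Real.exp (-(8 * θ * (n * X)))) * P B)
    (hη : ∀ M : ℕ, ε0 * ENNReal.ofReal (Real.exp (θ * (2 * R))) +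
      ∑ n ∈ Finset.Icc 1 M, (if R < 2 * (n * X) then
        ENNReal.ofReal (Real.exp (-(4 * θ * (n * X)))) else 0) ≤ η) :
    ∀ j e, e ≤ K → ∫⁻ ω, V c X R v0 θ k j e ω ∂P ≤
      ENNReal.ofReal (Real.exp (θ * v0)) *
        (1 + ENNReal.ofReal (Real.exp (θ * v0)) * η) ^ (e - k) * P Set.univ := by
  set D := ENNReal.ofReal (Real.exp (θ * v0)) with hD
  have hD1 : 1 ≤ D := by
    rw [hD, ENNReal.one_le_ofReal]
    exact Real.one_le_exp (mul_nonneg hθ hv0.le)
  set G := 1 + D * η with hG
  have hG1 : 1 ≤ G := le_self_add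
  have hone : ∀ a : ℕ, P Set.univ ≤ D * G ^ a * P Set.univ := by
    intro a
    calc P Set.univ = 1 * P Set.univ := (one_mul _).symm
      _ ≤ _ := mul_le_mul_left (one_le_mul hD1 (one_le_pow₀ hG1)) _
  intro j
  induction j with
  | zero => intro e _; simp only [V]; rw [lintegral_one]; exact hone _
  | succ j ih =>
    intro e he2
    simp only [V]
    by_cases hek : e ≤ k
    · simp only [hek, if_true]; rw [lintegral_one]; exact hone _
    · simp only [hek, if_false]
      push Not at hek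
      have hVm : ∀ e', Measurable (V c X R v0 θ k j e') := fun e' =>
        (V_meas hcm X R v0 θ k j e').mono (F.le _) le_rfl
      have hmE : ∀ (x : ℝ) (a b : ℕ), MeasurableSet {ω' | x ≤ c b ω' - c a ω'} := fun x a b =>
        measurableSet_le measurable_const
          (Measurable.sub ((hcm b).mono (F.le _) le_rfl) ((hcm a).mono (F.le _) le_rfl))
      have hm1 : ∀ a, Measurable fun ω => {ω' | v0 ≤ c e ω' - c a ω'}.indicator
          (fun ω' => ENNReal.ofReal (Real.exp (θ * (2 * R))) * V c X R v0 θ k j (a - 1) ω') ω :=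
        fun a => Measurable.indicator (Measurable.const_mul (hVm _) _) (hmE _ _ _)
      have hm2 : ∀ a n : ℕ, Measurable fun ω => if R < 2 * (n * X) then
          {ω' | (n : ℝ) * X ≤ c (a + 1) ω' - c (a + 1 - n) ω'}.indicator
            (fun ω' => ENNReal.ofReal (Real.exp (4 * θ * (n * X))) *
              V c X R v0 θ k j (a + 1 - 2 * n) ω') ω else 0 := by
        intro a n
        split_ifs
        · exact Measurable.indicator (Measurable.const_mul (hVm _) _) (hmE _ _ _)
        · exact measurable_const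
      have hm3 : ∀ a : ℕ, Measurable fun ω => ∑ n ∈ Finset.Icc 1 ((a + 1) / 2),
          if R < 2 * (n * X) then
          {ω' | (n : ℝ) * X ≤ c (a + 1) ω' - c (a + 1 - n) ω'}.indicator
            (fun ω' => ENNReal.ofReal (Real.exp (4 * θ * (n * X))) *
              V c X R v0 θ k j (a + 1 - 2 * n) ω') ω else 0 :=
        fun a => Finset.measurable_sum _ fun n _ => hm2 a n
      have hterm : ∀ a ∈ Finset.Ico k e, ∫⁻ ω, ({ω' | v0 ≤ c e ω' - c a ω'}.indicator
          (fun ω' => ENNReal.ofReal (Real.exp (θ * (2 * R))) * V c X R v0 θ k j (a - 1) ω') ω +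
        ∑ n ∈ Finset.Icc 1 ((a + 1) / 2), if R < 2 * (n * X) then
          {ω' | (n : ℝ) * X ≤ c (a + 1) ω' - c (a + 1 - n) ω'}.indicator
            (fun ω' => ENNReal.ofReal (Real.exp (4 * θ * (n * X))) *
              V c X R v0 θ k j (a + 1 - 2 * n) ω') ω else 0) ∂P ≤
          η * (D * G ^ (a - k) * P Set.univ) := by
        intro a hae
        rw [Finset.mem_Ico] at hae
        have hp : ∀ e', e' ≤ a → ∫⁻ ω, V c X R v0 θ k j e' ω ∂P ≤ D * G ^ (a - k) * P Set.univ := by
          intro e' he'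
          exact (ih e' (by omega)).trans
            (mul_le_mul_left (mul_le_mul_right (pow_le_pow_right₀ hG1 (by omega)) _) _)
        rw [lintegral_add_left (hm1 a), lintegral_finset_sum _ fun n _ => hm2 a n]
        have t1 : ∫⁻ ω, {ω' | v0 ≤ c e ω' - c a ω'}.indicator
            (fun ω' => ENNReal.ofReal (Real.exp (θ * (2 * R))) * V c X R v0 θ k j (a - 1) ω') ω ∂P ≤
            ε0 * ENNReal.ofReal (Real.exp (θ * (2 * R))) * (D * G ^ (a - k) * P Set.univ) := by
          refine (lint_ind_le (P := P) (F.le (a - 1)) (hmE _ _ _)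
            (ha a e hae.1 hae.2 he2)
            (f := fun ω' => ENNReal.ofReal (Real.exp (θ * (2 * R))) * V c X R v0 θ k j (a - 1) ω')
            (Measurable.const_mul (V_meas hcm X R v0 θ k j (a - 1)) _)).trans ?_
          rw [lintegral_const_mul _ (hVm _), mul_assoc]
          gcongr
          exact hp _ (by omega)
        have t2 : ∀ n ∈ Finset.Icc 1 ((a + 1) / 2), ∫⁻ ω, (if R < 2 * (n * X) then
            {ω' | (n : ℝ) * X ≤ c (a + 1) ω' - c (a + 1 - n) ω'}.indicator
              (fun ω' => ENNReal.ofReal (Real.exp (4 * θ * (n * X))) *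
                V c X R v0 θ k j (a + 1 - 2 * n) ω') ω else 0) ∂P ≤
            (if R < 2 * (n * X) then
              ENNReal.ofReal (Real.exp (-(4 * θ * (n * X)))) else 0) *
              (D * G ^ (a - k) * P Set.univ) := by
          intro n hn
          rw [Finset.mem_Icc] at hn
          split_ifs with hRn
          · refine (lint_ind_le (P := P) (F.le (a + 1 - 2 * n)) (hmE _ _ _)
              (hb (a + 1) n hn.1 (by omega) (by omega) hRn)
              (f := fun ω' => ENNReal.ofReal (Real.exp (4 * θ * (n * X))) *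
                V c X R v0 θ k j (a + 1 - 2 * n) ω')
              (Measurable.const_mul (V_meas hcm X R v0 θ k j (a + 1 - 2 * n)) _)).trans ?_
            rw [lintegral_const_mul _ (hVm _), ← mul_assoc,
              ← ENNReal.ofReal_mul (Real.exp_pos _).le, ← Real.exp_add]
            refine mul_le_mul' (le_of_eq ?_) (hp _ (by omega))
            congr 2
            ring
          · simp
        calc _ ≤ ε0 * ENNReal.ofReal (Real.exp (θ * (2 * R))) * (D * G ^ (a - k) * P Set.univ) +
              ∑ n ∈ Finset.Icc 1 ((a + 1) / 2), (if R < 2 * (n * X) then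
              ENNReal.ofReal (Real.exp (-(4 * θ * (n * X)))) else 0) *
              (D * G ^ (a - k) * P Set.univ) := add_le_add t1 (Finset.sum_le_sum t2)
          _ = (ε0 * ENNReal.ofReal (Real.exp (θ * (2 * R))) +
              ∑ n ∈ Finset.Icc 1 ((a + 1) / 2), (if R < 2 * (n * X) then
              ENNReal.ofReal (Real.exp (-(4 * θ * (n * X)))) else 0)) *
              (D * G ^ (a - k) * P Set.univ) := by rw [← Finset.sum_mul, ← add_mul]
          _ ≤ _ := mul_le_mul_left (hη _) _
      have hm4 : ∀ a : ℕ, Measurable fun ω => ({ω' | v0 ≤ c e ω' - c a ω'}.indicator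
          (fun ω' => ENNReal.ofReal (Real.exp (θ * (2 * R))) * V c X R v0 θ k j (a - 1) ω') ω +
        ∑ n ∈ Finset.Icc 1 ((a + 1) / 2), if R < 2 * (n * X) then
          {ω' | (n : ℝ) * X ≤ c (a + 1) ω' - c (a + 1 - n) ω'}.indicator
            (fun ω' => ENNReal.ofReal (Real.exp (4 * θ * (n * X))) *
              V c X R v0 θ k j (a + 1 - 2 * n) ω') ω else 0) := fun a => (hm1 a).add (hm3 a)
      rw [lintegral_const_mul _ (by
          exact Measurable.const_add (Finset.measurable_sum _ fun a _ => hm4 a) _),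
        lintegral_add_left measurable_const, lintegral_one,
        lintegral_finset_sum _ fun a _ => hm4 a]
      calc _ ≤ D * (P Set.univ + ∑ a ∈ Finset.Ico k e, η * (D * G ^ (a - k) * P Set.univ)) := by
            gcongr with a hae
            exact hterm a hae
        _ = D * (1 + (D * η) * ∑ i ∈ Finset.range (e - k), G ^ i) * P Set.univ := by
            rw [Finset.sum_Ico_eq_sum_range]
            have : ∀ i ∈ Finset.range (e - k), η * (D * G ^ (k + i - k) * P Set.univ) =
                D * η * P Set.univ * G ^ i := by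
              intro i _
              rw [Nat.add_sub_cancel_left]; ring
            rw [Finset.sum_congr rfl this, ← Finset.mul_sum]
            ring
        _ = D * G ^ (e - k) * P Set.univ := by rw [hG, geo]

/-- **the window lemma over a gap, real cost process** -/
theorem gap_real {F : Filtration ℕ m0} {c : ℕ → Ω → ℝ} (hcm : ∀ m, Measurable[F m] (c m))
    (hmono : ∀ ω, Monotone fun m => c m ω)
    {X R v0 θ : ℝ} (hX : 0 < X) (hXR : X ≤ R) (hv0 : 0 < v0) (hθ : 0 < θ) {k K : ℕ}
    (hk : 3 ≤ k) (hkK : k ≤ K) (hkR : 2 * R < k * X) {ε0 η : ℝ≥0∞}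
    (ha : ∀ a e : ℕ, k ≤ a → a < e → e ≤ K → ∀ B, MeasurableSet[F (a - 1)] B →
      P (B ∩ {ω | v0 ≤ c e ω - c a ω}) ≤ ε0 * P B)
    (hb : ∀ e n : ℕ, 1 ≤ n → 2 * n ≤ e → e ≤ K → R < 2 * (n * X) →
      ∀ B, MeasurableSet[F (e - 2 * n)] B →
      P (B ∩ {ω | (n : ℝ) * X ≤ c e ω - c (e - n) ω}) ≤
        ENNReal.ofReal (Real.exp (-(8 * θ * (n * X)))) * P B)
    (hη : ∀ M : ℕ, ε0 * ENNReal.ofReal (Real.exp (θ * (2 * R))) +
      ∑ n ∈ Finset.Icc 1 M, (if R < 2 * (n * X) then
        ENNReal.ofReal (Real.exp (-(4 * θ * (n * X)))) else 0) ≤ η) (u : ℝ) :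
    P {ω | u ≤ c K ω - c k ω} ≤
      (ENNReal.ofReal ((K + 1) ^ 2 * Real.exp (-(2 * θ * (k * X)))) +
        ENNReal.ofReal (Real.exp (θ * v0 - θ * u)) *
          (1 + ENNReal.ofReal (Real.exp (θ * v0)) * η) ^ (K - k)) * P Set.univ := by
  have hk0 : (3 : ℝ) ≤ k := by exact_mod_cast hk
  set Ix := ((Finset.range (K + 1)) ×ˢ (Finset.range (K + 1))).filter
    (fun q : ℕ × ℕ => k < q.1 ∧ q.1 ≤ K ∧ q.1 < 4 * q.2 ∧ 2 * q.2 ≤ q.1) with hIx
  set Lg : Set Ω := ⋃ q ∈ Ix, {ω | (q.2 : ℝ) * X ≤ c q.1 ω - c (q.1 - q.2) ω} with hLg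
  have hLgP : P Lg ≤ ENNReal.ofReal ((K + 1) ^ 2 * Real.exp (-(2 * θ * (k * X)))) *
      P Set.univ := by
    have h1 : ∀ q ∈ Ix, P {ω | (q.2 : ℝ) * X ≤ c q.1 ω - c (q.1 - q.2) ω} ≤
        ENNReal.ofReal (Real.exp (-(2 * θ * (k * X)))) * P Set.univ := by
      intro q hq
      rw [hIx, Finset.mem_filter] at hq
      obtain ⟨_, h2, h3, h4, h5⟩ := hq
      have h7 : (k : ℝ) ≤ 4 * q.2 := by exact_mod_cast (by omega : k ≤ 4 * q.2)
      have h8 : (k : ℝ) * X ≤ 4 * (q.2 * X) := by nlinarith
      have h6 := hb q.1 q.2 (by omega) h5 h3 (by linarith) Set.univ MeasurableSet.univ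
      rw [Set.univ_inter] at h6
      refine h6.trans (mul_le_mul_left (ENNReal.ofReal_le_ofReal (Real.exp_le_exp.2 ?_)) _)
      have : 2 * θ * (k * X) ≤ 2 * θ * (4 * (q.2 * X)) :=
        mul_le_mul_of_nonneg_left h8 (by linarith)
      linarith
    calc P Lg ≤ ∑ q ∈ Ix, P {ω | (q.2 : ℝ) * X ≤ c q.1 ω - c (q.1 - q.2) ω} :=
          measure_biUnion_finset_le _ _
      _ ≤ ∑ _q ∈ Ix, ENNReal.ofReal (Real.exp (-(2 * θ * (k * X)))) * P Set.univ :=
          Finset.sum_le_sum h1
      _ = ENNReal.ofReal ((Ix.card : ℝ) * Real.exp (-(2 * θ * (k * X)))) * P Set.univ := by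
          rw [Finset.sum_const, nsmul_eq_mul, ← mul_assoc,
            ENNReal.ofReal_mul (Nat.cast_nonneg _), ENNReal.ofReal_natCast]
      _ ≤ _ := by
          refine mul_le_mul_left (ENNReal.ofReal_le_ofReal ?_) _
          have h9 : Ix.card ≤ (K + 1) * (K + 1) := by
            refine (Finset.card_filter_le _ _).trans ?_
            rw [Finset.card_product, Finset.card_range]
          have h10 : ((Ix.card : ℕ) : ℝ) ≤ (K + 1) ^ 2 := by
            rw [pow_two]; exact_mod_cast h9
          gcongr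
  have hVm : Measurable (V c X R v0 θ k (K - k) K) :=
    (V_meas hcm X R v0 θ k (K - k) K).mono (F.le _) le_rfl
  have hV : P {ω | ENNReal.ofReal (Real.exp (θ * u)) ≤ V c X R v0 θ k (K - k) K ω} ≤
      ENNReal.ofReal (Real.exp (θ * v0 - θ * u)) *
          (1 + ENNReal.ofReal (Real.exp (θ * v0)) * η) ^ (K - k) * P Set.univ := by
    have h1 : ∫⁻ ω, V c X R v0 θ k (K - k) K ω ∂P ≤
        ENNReal.ofReal (Real.exp (θ * v0)) *
          ((1 + ENNReal.ofReal (Real.exp (θ * v0)) * η) ^ (K - k) * P Set.univ) := by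
      rw [← mul_assoc]
      exact V_int hcm hv0 hθ.le ha hb hη (K - k) K le_rfl
    refine (markov_exp hVm h1).trans (le_of_eq ?_)
    rw [mul_assoc]
  have hsub : {ω | u ≤ c K ω - c k ω} ⊆ Lg ∪
      {ω | ENNReal.ofReal (Real.exp (θ * u)) ≤ V c X R v0 θ k (K - k) K ω} := by
    intro ω hω
    by_cases hL : ω ∈ Lg
    · exact Or.inl hL
    right
    have hno : ∀ e n : ℕ, k < e → e ≤ K → e < 4 * n → 2 * n ≤ e →
        c e ω - c (e - n) ω < n * X := by
      intro e n h1 h2 h3 h4
      by_contra hcon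
      push Not at hcon
      apply hL
      rw [hLg, Set.mem_iUnion₂]
      refine ⟨(e, n), ?_, hcon⟩
      rw [hIx, Finset.mem_filter, Finset.mem_product, Finset.mem_range, Finset.mem_range]
      exact ⟨⟨by simp only; omega, by simp only; omega⟩, h1, h2, h3, h4⟩
    have hdet := det hmono hXR (hX.le.trans hXR) hv0 hθ.le hk ω hno (K - k) K (by omega) le_rfl
    have hω' : u ≤ c K ω - c k ω := hω
    refine le_trans (ENNReal.ofReal_le_ofReal (Real.exp_le_exp.2 ?_)) hdet
    exact mul_le_mul_of_nonneg_left hω' hθ.le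
  refine (measure_mono hsub).trans ((measure_union_le _ _).trans ?_)
  rw [add_mul]
  exact add_le_add hLgP hV

/-- **the window lemma over a gap**, for a nonincreasing survival process `s`. -/
theorem gap {F : Filtration ℕ m0} {s : ℕ → Ω → ℝ≥0∞} (hsm : ∀ m, Measurable[F m] (s m))
    (hanti : ∀ m ω, s (m + 1) ω ≤ s m ω) (hfin : ∀ m ω, s m ω ≠ ∞)
    {X R v0 θ : ℝ} (hX : 0 < X) (hXR : X ≤ R) (hv0 : 0 < v0) (hθ : 0 < θ) {k K : ℕ}
    (hk : 3 ≤ k) (hkK : k ≤ K) (hkR : 2 * R < k * X) {ε0 η : ℝ≥0∞}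
    (ha : ∀ a e : ℕ, k ≤ a → a < e → e ≤ K → ∀ B, MeasurableSet[F (a - 1)] B →
      P (B ∩ {ω | s a ω ≠ 0 ∧ s e ω ≤ ENNReal.ofReal (Real.exp (-v0)) * s a ω}) ≤ ε0 * P B)
    (hb : ∀ e n : ℕ, 1 ≤ n → 2 * n ≤ e → e ≤ K → R < 2 * (n * X) →
      ∀ B, MeasurableSet[F (e - 2 * n)] B →
      P (B ∩ {ω | s (e - n) ω ≠ 0 ∧ s e ω ≤
        ENNReal.ofReal (Real.exp (-(n * X))) * s (e - n) ω}) ≤
        ENNReal.ofReal (Real.exp (-(8 * θ * (n * X)))) * P B)
    (hη : ∀ M : ℕ, ε0 * ENNReal.ofReal (Real.exp (θ * (2 * R))) +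
      ∑ n ∈ Finset.Icc 1 M, (if R < 2 * (n * X) then
        ENNReal.ofReal (Real.exp (-(4 * θ * (n * X)))) else 0) ≤ η) {u : ℝ} (hupos : 0 < u)
    {B : Set Ω} (hB : MeasurableSet[F 0] B) :
    P (B ∩ {ω | s k ω ≠ 0 ∧ s K ω ≤ ENNReal.ofReal (Real.exp (-u)) * s k ω}) ≤
      (ENNReal.ofReal ((K + 1) ^ 2 * Real.exp (-(2 * θ * (k * X)))) +
        ENNReal.ofReal (Real.exp (θ * v0 - θ * u)) *
          (1 + ENNReal.ofReal (Real.exp (θ * v0)) * η) ^ (K - k)) * P B := by
  have hBm : MeasurableSet[m0] B := F.le 0 _ hB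
  -- the event in real form
  have hev : ∀ (ε : ℝ) (_ : 0 < ε) (x : ℝ) (_ : 0 < x) (a b : ℕ) (ω : Ω),
      x ≤ ce s ε b ω - ce s ε a ω →
        s a ω ≠ 0 ∧ s b ω ≤ ENNReal.ofReal (Real.exp (-x)) * s a ω := by
    intro ε hε x hx a b ω h
    obtain ⟨h1, h2⟩ := (ce_iff hε hx a b ω).1 h
    constructor
    · intro h0
      rw [h0] at h1
      simp at h1
      linarith
    · rw [← ENNReal.ofReal_toReal (hfin b ω), ← ENNReal.ofReal_toReal (hfin a ω),
        ← ENNReal.ofReal_mul (Real.exp_pos _).le]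
      exact ENNReal.ofReal_le_ofReal h2
  -- real version for every truncation
  have hmain : ∀ ε : ℝ, 0 < ε →
      P (B ∩ {ω | u ≤ ce s ε K ω - ce s ε k ω}) ≤
      (ENNReal.ofReal ((K + 1) ^ 2 * Real.exp (-(2 * θ * (k * X)))) +
        ENNReal.ofReal (Real.exp (θ * v0 - θ * u)) *
          (1 + ENNReal.ofReal (Real.exp (θ * v0)) * η) ^ (K - k)) * P B := by
    intro ε hε
    have hcm : ∀ m, Measurable[F m] (ce s ε m) := by
      intro m
      unfold ce
      exact (Real.measurable_log.comp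
        ((ENNReal.measurable_toReal.comp (hsm m)).max measurable_const)).neg
    have hmono : ∀ ω, Monotone fun m => ce s ε m ω := by
      intro ω
      refine monotone_nat_of_le_succ fun m => ?_
      unfold ce
      have h1 : max (s (m + 1) ω).toReal ε ≤ max (s m ω).toReal ε :=
        max_le_max (ENNReal.toReal_mono (hfin m ω) (hanti m ω)) le_rfl
      have h2 := Real.log_le_log (lt_max_of_lt_right hε) h1
      linarith
    have h1 := gap_real (P := P.restrict B) hcm hmono hX hXR hv0 hθ hk hkK hkR (ε0 := ε0) (η := η)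
      (by
        intro a e hm1 hm2 hm3 B' hB'
        rw [Measure.restrict_apply' hBm, Measure.restrict_apply' hBm]
        refine le_trans (measure_mono ?_) (ha a e hm1 hm2 hm3 (B' ∩ B)
          (hB'.inter (F.mono (Nat.zero_le _) _ hB)))
        rintro ω ⟨⟨h2, h3⟩, h4⟩
        exact ⟨⟨h2, h4⟩, hev ε hε v0 hv0 a e ω h3⟩)
      (by
        intro e n hn1 hn2 hn3 hn4 B' hB'
        rw [Measure.restrict_apply' hBm, Measure.restrict_apply' hBm]
        refine le_trans (measure_mono ?_) (hb e n hn1 hn2 hn3 hn4 (B' ∩ B)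
          (hB'.inter (F.mono (Nat.zero_le _) _ hB)))
        rintro ω ⟨⟨h2, h3⟩, h4⟩
        have hn0 : (0 : ℝ) < n := by exact_mod_cast hn1
        exact ⟨⟨h2, h4⟩, hev ε hε (n * X) (by positivity) (e - n) e ω h3⟩)
      hη u
    rw [Measure.restrict_apply' hBm, Measure.restrict_apply' hBm, Set.univ_inter,
      Set.inter_comm] at h1
    exact h1
  -- exhaustion
  set D : ℕ → Set Ω := fun n => B ∩ {ω | u ≤ ce s ((n : ℝ) + 1)⁻¹ K ω -
    ce s ((n : ℝ) + 1)⁻¹ k ω} with hD
  have hDmono : Monotone D := by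
    refine monotone_nat_of_le_succ fun n => ?_
    rintro ω ⟨h1, h2⟩
    refine ⟨h1, ?_⟩
    have hp1 : (0 : ℝ) < ((n : ℝ) + 1)⁻¹ := by positivity
    have hp2 : (0 : ℝ) < (((n + 1 : ℕ) : ℝ) + 1)⁻¹ := by positivity
    obtain ⟨h3, h4⟩ := (ce_iff hp1 hupos k K ω).1 h2
    refine (ce_iff hp2 hupos k K ω).2 ⟨le_trans ?_ h3, h4⟩
    apply inv_anti₀ (by positivity)
    push_cast
    linarith
  have hsub : B ∩ {ω | s k ω ≠ 0 ∧ s K ω ≤ ENNReal.ofReal (Real.exp (-u)) * s k ω} ⊆
      ⋃ n, D n := by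
    rintro ω ⟨h1, h2, h3⟩
    have hA : 0 < (s k ω).toReal := ENNReal.toReal_pos h2 (hfin k ω)
    have hA' : 0 < Real.exp (-u) * (s k ω).toReal := mul_pos (Real.exp_pos _) hA
    obtain ⟨n, hn⟩ := exists_nat_one_div_lt hA'
    rw [Set.mem_iUnion]
    refine ⟨n, h1, (ce_iff (by positivity) hupos k K ω).2 ⟨?_, ?_⟩⟩
    · rw [← one_div]; exact hn.le
    · have h4 := ENNReal.toReal_mono (ENNReal.mul_ne_top ENNReal.ofReal_ne_top (hfin k ω)) h3
      rw [ENNReal.toReal_mul, ENNReal.toReal_ofReal (Real.exp_pos _).le] at h4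
      exact h4
  refine (measure_mono hsub).trans ?_
  rw [hDmono.measure_iUnion]
  exact iSup_le fun n => hmain _ (by positivity)

end Crest.Agent.R154.Gap388
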