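import Crest.Agent.R154.GenWalk_850

/-! Row 154, B0c: the pair theorem on a walk space, K1 and KEY. -/

set_option autoImplicit false

namespace Crest.Agent.R154

open MeasureTheory ProbabilityTheory Crest.ProbabilityR.RandomEnvironment
open scoped ENNReal

variable {d : ℕ} {Ω : Type} [MeasurableSpace Ω]

namespace WalkSpace

variable (W : WalkSpace d Ω)

/-- the path frozen at time `t`. -/
noncomputable def freeze (t : ℕ∞) (X : Ω) : Ω :=
  if t = ⊤ then X else W.ext t.toNat (W.hist t.toNat X)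

lemma freeze_top (X : Ω) : W.freeze ⊤ X = X := by simp [freeze]

lemma freeze_coe (n : ℕ) (X : Ω) : W.freeze (n : ℕ∞) X = W.ext n (W.hist n X) := by
  simp [freeze]

lemma hist_freeze_of_le {n : ℕ} {t : ℕ∞} (h : (n : ℕ∞) ≤ t) (X : Ω) :
    W.hist n (W.freeze t X) = W.hist n X := by
  induction t with
  | top => rw [freeze_top]
  | coe m =>
    rw [freeze_coe]
    exact W.mono _ _ (by exact_mod_cast h) (W.hist_ext m _)

lemma freeze_congr {m : ℕ} {X Y : Ω} (h : W.hist m X = W.hist m Y) :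
    W.freeze (m : ℕ∞) X = W.freeze (m : ℕ∞) Y := by
  rw [freeze_coe, freeze_coe, h]

lemma hist_freeze_self (n : ℕ) (X : Ω) : W.hist n X = W.hist n (W.freeze (n : ℕ∞) X) :=
  (W.hist_freeze_of_le le_rfl X).symm

/-- sites read up to time `t`. -/
def readE (X : Ω) (t : ℕ∞) : Set (Site d) := {z | ∃ i : ℕ, (i : ℕ∞) ≤ t ∧ z ∈ W.read X i}

lemma readE_coe (X : Ω) (n : ℕ) : W.readE X (n : ℕ∞) = W.read X n := by
  ext z
  constructor
  · rintro ⟨i, hi, hz⟩
    exact W.read_mono X (by exact_mod_cast hi) hz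
  · intro hz
    exact ⟨n, le_rfl, hz⟩

lemma readE_mono (X : Ω) {s t : ℕ∞} (h : s ≤ t) : W.readE X s ⊆ W.readE X t :=
  fun _ ⟨i, hi, hz⟩ => ⟨i, hi.trans h, hz⟩

lemma agree_pos {n : ℕ} {X Y : Ω} (h : W.hist n X = W.hist n Y) : Agree n (W.pos X) (W.pos Y) :=
  fun i hi => W.pos_det i X Y (W.mono X Y hi h)

/-- first time the position is within distance `R` of `V`. -/
noncomputable def contact (R : ℕ) (V : Set (Site d)) (X : Ω) : ℕ∞ :=
  Crest.Agent.R154.contact R V (W.pos X)

lemma contact_le {R : ℕ} {V : Set (Site d)} {X : Ω} {n : ℕ} (h : W.pos X n ∉ far R V) :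
    W.contact R V X ≤ n := firstTime_le (p := fun z => z ∉ far R V) (X := W.pos X) h

lemma contact_eq_iff {R : ℕ} {V : Set (Site d)} {X : Ω} {n : ℕ} :
    W.contact R V X = n ↔ W.pos X n ∉ far R V ∧ ∀ i < n, W.pos X i ∈ far R V := by
  have := firstTime_eq_iff (p := fun z => z ∉ far R V) (X := W.pos X) (n := n)
  simp only [not_not] at this
  exact this

lemma contact_eq_top_iff {R : ℕ} {V : Set (Site d)} {X : Ω} :
    W.contact R V X = ⊤ ↔ ∀ i, W.pos X i ∈ far R V := by
  have := firstTime_eq_top_iff (p := fun z => z ∉ far R V) (X := W.pos X)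
  simp only [not_not] at this
  exact this

lemma isStop_pos {T : Path d → ℕ∞} (hT : Crest.Agent.R154.IsStop T) :
    W.IsStop (fun X => T (W.pos X)) :=
  fun X Y n h hn => hT (W.pos X) (W.pos Y) n (W.agree_pos h) hn

lemma isStop_contact (R : ℕ) (V : Set (Site d)) : W.IsStop (W.contact R V) :=
  W.isStop_pos (isStop_firstTime _)

lemma isStop_min_nat {T : Ω → ℕ∞} (hT : W.IsStop T) (k : ℕ) :
    W.IsStop (fun X => min (T X) k) := by
  intro X Y n hXY h
  simp only at h ⊢
  rcases le_total (T X) k with hk | hk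
  · rw [min_eq_left hk] at h
    rw [hT X Y n hXY h, ← h, min_eq_left hk]
  · rw [min_eq_right hk] at h
    have hn : n = k := by exact_mod_cast h.symm
    subst hn
    rcases le_total (T Y) n with h'' | h''
    · obtain ⟨m, hm⟩ := ENat.ne_top_iff_exists.1 (ne_top_of_le_ne_top (ENat.natCast_ne_top n) h'')
      have hmn : m ≤ n := by
        rw [← hm] at h''
        exact_mod_cast h''
      have := hT Y X m (W.mono Y X hmn hXY.symm) hm.symm
      rw [this] at hk
      have : n ≤ m := by exact_mod_cast hk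
      rw [← hm, le_antisymm hmn this, min_self]
    · rw [min_eq_right h'']

lemma isCountablySpanning_cyls [Nonempty Ω] : IsCountablySpanning W.cyls := by
  have : Nonempty (W.H 0) := ⟨W.hist 0 (Classical.arbitrary Ω)⟩
  obtain ⟨f, hf⟩ := exists_surjective_nat (W.H 0)
  refine ⟨fun k => W.hcyl 0 (f k), fun k => ⟨W.ext 0 (f k), 0, ?_⟩, ?_⟩
  · rw [W.hist_ext]; rfl
  rw [Set.eq_univ_iff_forall]
  intro X
  obtain ⟨k, hk⟩ := hf (W.hist 0 X)
  rw [Set.mem_iUnion]
  exact ⟨k, hk.symm⟩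

lemma gen_prod [Nonempty Ω] : (inferInstance : MeasurableSpace (Ω × Ω)) =
    MeasurableSpace.generateFrom (Set.image2 (· ×ˢ ·) W.cyls W.cyls) :=
  (generateFrom_eq_prod W.gen.symm W.gen.symm W.isCountablySpanning_cyls
      W.isCountablySpanning_cyls).symm

lemma measure_ext_prod [Nonempty Ω] {μ ν : Measure (Ω × Ω)} [IsFiniteMeasure μ]
    [IsFiniteMeasure ν]
    (h : ∀ (γ δ : Ω) (n m : ℕ), μ (W.cyl γ n ×ˢ W.cyl δ m) = ν (W.cyl γ n ×ˢ W.cyl δ m)) :
    μ = ν := by
  refine ext_of_generate_finite _ W.gen_prod (W.isPiSystem_cyls.prod W.isPiSystem_cyls) ?_ ?_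
  · rintro _ ⟨_, ⟨γ, n, rfl⟩, _, ⟨δ, m, rfl⟩, rfl⟩
    exact h γ δ n m
  · have : (Set.univ : Set (Ω × Ω))
        = ⋃ h : W.H 0 × W.H 0, W.hcyl 0 h.1 ×ˢ W.hcyl 0 h.2 := by
      ext X
      simp only [Set.mem_univ, Set.mem_iUnion, true_iff]
      exact ⟨(W.hist 0 X.1, W.hist 0 X.2), rfl, rfl⟩
    have hd : Pairwise (Function.onFun Disjoint
        fun h : W.H 0 × W.H 0 => W.hcyl 0 h.1 ×ˢ W.hcyl 0 h.2) := by
      intro h h' hne
      rw [Function.onFun, Set.disjoint_left]
      rintro X ⟨hX, hX1⟩ ⟨hX', hX1'⟩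
      exact hne (Prod.ext (hX.symm.trans hX') (hX1.symm.trans hX1'))
    rw [this, measure_iUnion hd fun _ => (W.measurableSet_hcyl _ _).prod (W.measurableSet_hcyl _ _),
      measure_iUnion hd fun _ => (W.measurableSet_hcyl _ _).prod (W.measurableSet_hcyl _ _)]
    refine tsum_congr fun h' => ?_
    rw [W.hcyl_eq, W.hcyl_eq]
    exact h _ _ _ _

/-- same environment. -/
noncomputable def same (Q : Measure (Environment d)) (P₁ P₂ : Kernel (Environment d) Ω) :
    Measure (Ω × Ω) := Q.bind (P₁ ×ₖ P₂)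

/-- independent environments. -/
noncomputable def ind (Q : Measure (Environment d)) (P₁ P₂ : Kernel (Environment d) Ω) :
    Measure (Ω × Ω) := (Q.bind P₁).prod (Q.bind P₂)

end WalkSpace

open WalkSpace

instance instFinBind (Q : Measure (Environment d)) [IsProbabilityMeasure Q]
    (P : Kernel (Environment d) Ω) [IsFiniteKernel P] : IsFiniteMeasure (Q.bind P) :=
  inferInstance

instance instFinSame (Q : Measure (Environment d)) [IsProbabilityMeasure Q]
    (P₁ P₂ : Kernel (Environment d) Ω) [IsFiniteKernel P₁] [IsFiniteKernel P₂] :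
    IsFiniteMeasure (WalkSpace.same Q P₁ P₂) := by
  unfold WalkSpace.same; infer_instance

instance instFinInd (Q : Measure (Environment d)) [IsProbabilityMeasure Q]
    (P₁ P₂ : Kernel (Environment d) Ω) [IsFiniteKernel P₁] [IsFiniteKernel P₂] :
    IsFiniteMeasure (WalkSpace.ind Q P₁ P₂) := by
  unfold WalkSpace.ind; infer_instance

namespace WalkSpace

variable (W : WalkSpace d Ω)

lemma same_apply (Q : Measure (Environment d)) (P₁ P₂ : Kernel (Environment d) Ω)
    [IsSFiniteKernel P₁] [IsSFiniteKernel P₂] {B : Set (Ω × Ω)} (hB : MeasurableSet B) :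
    same Q P₁ P₂ B = ∫⁻ ω, ((P₁ ω).prod (P₂ ω)) B ∂Q := by
  rw [same, Measure.bind_apply hB (Kernel.measurable _).aemeasurable]
  refine lintegral_congr fun ω => ?_
  rw [Kernel.prod_apply]

/-- the pair `(X stopped at S, T stopped at its first contact with the rows read by X)`. -/
noncomputable def stopPair (R : ℕ) (S : Ω → ℕ∞) (p : Ω × Ω) : Ω × Ω :=
  (W.freeze (S p.1) p.1, W.freeze (W.contact R (W.readE p.1 (S p.1)) p.2) p.2)

/-- rows of a list of stopped paths. -/
def listRows (s : List (Ω × ℕ)) : Set (Site d) := {z | ∃ q ∈ s, z ∈ W.read q.1 q.2}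

/-- stopping time in the pair exploration. -/
noncomputable def pairStop (R : ℕ) (S : Ω → ℕ∞) (k : ℕ) (s : List (Ω × ℕ)) (X : Ω) : ℕ∞ :=
  match s with
  | [] => min (S X) k
  | q :: l => min (W.contact R (W.listRows (q :: l)) X) k

/-- the pair exploration, cut at time `k`. -/
noncomputable def pairExp (R : ℕ) (S : Ω → ℕ∞) (P₁ P₂ : Kernel (Environment d) Ω) (k : ℕ) :
    GExplorer d Ω (List (Ω × ℕ)) where
  rows s := W.listRows s
  law s := match s with
    | [] => P₁
    | _ :: _ => P₂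
  stop := W.pairStop R S k
  next s X := (W.freeze (W.pairStop R S k s X) X, (W.pairStop R S k s X).toNat) :: s

lemma pairExp_valid (R : ℕ) {S : Ω → ℕ∞} (hS : W.IsStop S) (Q : Measure (Environment d))
    {P₁ P₂ : Kernel (Environment d) Ω} (h₁ : W.ReadsOnly Q P₁) (h₂ : W.ReadsOnly Q P₂) (k : ℕ) :
    (W.pairExp R S P₁ P₂ k).Valid W Q R where
  isStop s := by
    cases s with
    | nil => exact W.isStop_min_nat hS k
    | cons q l => exact W.isStop_min_nat (W.isStop_contact _ _) k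
  det s := by
    intro X Y n hXY hn
    have hY : W.pairStop R S k s Y = n := by
      cases s with
      | nil => exact W.isStop_min_nat hS k X Y n hXY hn
      | cons q l => exact W.isStop_min_nat (W.isStop_contact _ _) k X Y n hXY hn
    have hX : W.pairStop R S k s X = n := hn
    simp only [pairExp, hX, hY, W.freeze_congr hXY]
  far s := by
    intro X n hn z hz
    cases s with
    | nil =>
      intro a ha
      obtain ⟨q, hq, _⟩ := ha
      exact absurd hq (List.not_mem_nil)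
    | cons q l =>
      have h1 : min (W.contact R (W.listRows (q :: l)) X) (k : ℕ∞) = n := hn
      obtain ⟨i, hi, rfl⟩ := W.read_sub X n hz
      by_contra hcon
      have h2 : W.contact R (W.listRows (q :: l)) X ≤ i := W.contact_le hcon
      have h3 : (n : ℕ∞) ≤ i := h1 ▸ (min_le_left _ _).trans h2
      have h4 : n ≤ i := by exact_mod_cast h3
      omega
  rows_next s := by
    intro X n hn z hz
    have hX : W.pairStop R S k s X = n := hn
    rcases hz with hz | hz
    · obtain ⟨q, hq, hz⟩ := hz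
      exact ⟨q, List.mem_cons_of_mem _ hq, hz⟩
    · refine ⟨_, List.mem_cons_self, ?_⟩
      simp only [hX, ENat.toNat_natCast]
      rw [← W.read_det n X _ (W.hist_freeze_self n X)]
      exact hz
  reads s := by
    cases s with
    | nil => exact h₁
    | cons q l => exact h₂

/-- the cut events. -/
def cutEv (R : ℕ) (S : Ω → ℕ∞) (γ δ : Ω) (n m k : ℕ) : Set (Ω × Ω) :=
  {p | W.freeze (min (S p.1) k) p.1 ∈ W.cyl γ n ∧
    W.freeze (min (W.contact R (W.readE p.1 (min (S p.1) k)) p.2) k) p.2 ∈ W.cyl δ m}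

lemma measurableSet_of_hist_pair (k : ℕ) (A : Set (Ω × Ω))
    (hA : ∀ p q : Ω × Ω, W.hist k p.1 = W.hist k q.1 → W.hist k p.2 = W.hist k q.2 →
      p ∈ A → q ∈ A) : MeasurableSet A := by
  have : A = ⋃ h : {h : W.H k × W.H k // (W.ext k h.1, W.ext k h.2) ∈ A},
      W.hcyl k h.1.1 ×ˢ W.hcyl k h.1.2 := by
    ext p
    simp only [Set.mem_iUnion, Subtype.exists, hcyl, Set.mem_prod, Set.mem_ofPred_eq]
    constructor
    · intro hp
      exact ⟨(W.hist k p.1, W.hist k p.2),
        hA p _ (W.hist_ext k _).symm (W.hist_ext k _).symm hp, rfl, rfl⟩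
    · rintro ⟨h, hh, h1, h2⟩
      exact hA _ p (by rw [W.hist_ext, h1]) (by rw [W.hist_ext, h2]) hh
  rw [this]
  exact MeasurableSet.iUnion fun h =>
    (W.measurableSet_hcyl _ _).prod (W.measurableSet_hcyl _ _)

lemma cutEv_congr (R : ℕ) {S : Ω → ℕ∞} (hS : W.IsStop S) (γ δ : Ω) (n m k : ℕ)
    (p q : Ω × Ω) (h1 : W.hist k p.1 = W.hist k q.1) (h2 : W.hist k p.2 = W.hist k q.2)
    (hp : p ∈ W.cutEv R S γ δ n m k) : q ∈ W.cutEv R S γ δ n m k := by
  obtain ⟨hp1, hp2⟩ := hp
  obtain ⟨j, hj⟩ := ENat.ne_top_iff_exists.1 (min_nat_lt_top (S p.1) k).ne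
  have hjk : j ≤ k := by
    have : (j : ℕ∞) ≤ k := hj ▸ min_le_right _ _
    exact_mod_cast this
  have hj1 := W.mono _ _ hjk h1
  have hq : min (S q.1) (k : ℕ∞) = j := W.isStop_min_nat hS k p.1 q.1 j hj1 hj.symm
  have e1 : W.freeze (min (S q.1) k) q.1 = W.freeze (min (S p.1) k) p.1 := by
    rw [hq, ← hj]
    exact (W.freeze_congr hj1).symm
  have e2 : W.readE q.1 (min (S q.1) k) = W.readE p.1 (min (S p.1) k) := by
    rw [hq, ← hj, W.readE_coe, W.readE_coe]
    exact (W.read_det j _ _ hj1).symm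
  refine ⟨by rw [e1]; exact hp1, ?_⟩
  rw [e2]
  set V := W.readE p.1 (min (S p.1) k) with hV
  obtain ⟨l, hl⟩ := ENat.ne_top_iff_exists.1 (min_nat_lt_top (W.contact R V p.2) k).ne
  have hlk : l ≤ k := by
    have : (l : ℕ∞) ≤ k := hl ▸ min_le_right _ _
    exact_mod_cast this
  have hl2 := W.mono _ _ hlk h2
  have hq2 : min (W.contact R V q.2) (k : ℕ∞) = l :=
    W.isStop_min_nat (W.isStop_contact _ _) k p.2 q.2 l hl2 hl.symm
  rw [hq2, ← W.freeze_congr hl2, hl]
  exact hp2

lemma measurableSet_cutEv (R : ℕ) {S : Ω → ℕ∞} (hS : W.IsStop S) (γ δ : Ω) (n m k : ℕ) :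
    MeasurableSet (W.cutEv R S γ δ n m k) :=
  W.measurableSet_of_hist_pair k _ fun p q h1 h2 => W.cutEv_congr R hS γ δ n m k p q h1 h2

/-- payoff of the pair exploration. -/
noncomputable def pairPay (γ δ : Ω) (n m : ℕ) (s : List (Ω × ℕ)) : ℝ≥0∞ :=
  match s with
  | q2 :: q1 :: _ => (W.cyl γ n).indicator 1 q1.1 * (W.cyl δ m).indicator 1 q2.1
  | _ => 0

lemma listRows_single (X : Ω) (n : ℕ) : W.listRows [(X, n)] = W.read X n := by
  ext z
  simp [listRows]

lemma pairPay_eq (R : ℕ) {S : Ω → ℕ∞} (P₁ P₂ : Kernel (Environment d) Ω) (γ δ : Ω)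
    (n m k : ℕ) (X T : Ω) :
    W.pairPay γ δ n m ((W.pairExp R S P₁ P₂ k).next ((W.pairExp R S P₁ P₂ k).next [] X) T)
      = (W.cutEv R S γ δ n m k).indicator 1 (X, T) := by
  classical
  obtain ⟨j, hj⟩ := ENat.ne_top_iff_exists.1 (min_nat_lt_top (S X) k).ne
  have e1 : W.pairStop R S k [] X = j := hj.symm
  have e2 : W.listRows [(W.freeze (W.pairStop R S k [] X) X, (W.pairStop R S k [] X).toNat)]
      = W.readE X (min (S X) k) := by
    rw [e1, W.listRows_single, ← hj, W.readE_coe, ENat.toNat_natCast]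
    exact (W.read_det j _ _ (W.hist_freeze_self j X)).symm
  simp only [pairExp, pairPay]
  simp only [pairStop] at e2 ⊢
  rw [e2]
  simp only [Set.indicator_apply, cutEv, Set.mem_ofPred_eq, Pi.one_apply]
  by_cases h1 : W.freeze (min (S X) k) X ∈ W.cyl γ n <;>
    by_cases h2 : W.freeze (min (W.contact R (W.readE X (min (S X) k)) T) k) T ∈ W.cyl δ m <;>
    simp [h1, h2]

lemma pairStop_lt_top (R : ℕ) (S : Ω → ℕ∞) (k : ℕ) (s : List (Ω × ℕ)) (X : Ω) :
    W.pairStop R S k s X < ⊤ := by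
  cases s with
  | nil => exact min_nat_lt_top _ _
  | cons q l => exact min_nat_lt_top _ _

/-- the two laws agree on the cut events. -/
lemma cutEv_eq (R : ℕ) {S : Ω → ℕ∞} (hS : W.IsStop S) (Q : Measure (Environment d))
    [IsProbabilityMeasure Q] (hQ : IndepAt R Q) {P₁ P₂ : Kernel (Environment d) Ω}
    [IsFiniteKernel P₁] [IsFiniteKernel P₂] (h₁ : W.ReadsOnly Q P₁) (h₂ : W.ReadsOnly Q P₂)
    (γ δ : Ω) (n m k : ℕ) :
    same Q P₁ P₂ (W.cutEv R S γ δ n m k) = ind Q P₁ P₂ (W.cutEv R S γ δ n m k) := by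
  have hmeas := W.measurableSet_cutEv R hS γ δ n m k
  have key := (W.pairExp R S P₁ P₂ k).explore_prob (W.pairExp_valid R hS Q h₁ h₂ k) hQ
    (W.pairPay γ δ n m) 2 []
  have huniv : ∀ s, {X | (W.pairExp R S P₁ P₂ k).stop s X < ⊤} = Set.univ := by
    intro s
    rw [Set.eq_univ_iff_forall]
    intro X
    exact W.pairStop_lt_top R S k s X
  have hq : ∀ ω, (W.pairExp R S P₁ P₂ k).qVal (W.pairPay γ δ n m) ω 2 []
      = ((P₁ ω).prod (P₂ ω)) (W.cutEv R S γ δ n m k) := by
    intro ω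
    rw [Measure.prod_apply hmeas]
    simp only [GExplorer.qVal, huniv, Measure.restrict_univ]
    refine lintegral_congr fun X => ?_
    rw [← lintegral_indicator_one (measurable_prodMk_left hmeas)]
    refine lintegral_congr fun T => ?_
    rw [W.pairPay_eq]
    rfl
  have ha : (W.pairExp R S P₁ P₂ k).aVal (W.pairPay γ δ n m) Q 2 []
      = ((Q.bind P₁).prod (Q.bind P₂)) (W.cutEv R S γ δ n m k) := by
    rw [Measure.prod_apply hmeas]
    simp only [GExplorer.aVal, huniv, Measure.restrict_univ]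
    refine lintegral_congr fun X => ?_
    rw [← lintegral_indicator_one (measurable_prodMk_left hmeas)]
    refine lintegral_congr fun T => ?_
    rw [W.pairPay_eq]
    rfl
  rw [same_apply _ _ _ hmeas, ind, ← ha, ← key]
  exact lintegral_congr fun ω => (hq ω).symm

/-! ### passage to the limit -/

lemma hist_freeze_min (t : ℕ∞) (k n : ℕ) (hn : n ≤ k) (X : Ω) :
    W.hist n (W.freeze (min t k) X) = W.hist n (W.freeze t X) := by
  rcases le_total t k with h | h
  · rw [min_eq_left h]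
  · rw [min_eq_right h, W.hist_freeze_of_le (by exact_mod_cast hn),
      W.hist_freeze_of_le (le_trans (by exact_mod_cast hn) h)]

lemma mem_cyl_congr {X Y γ : Ω} {n : ℕ} (h : W.hist n X = W.hist n Y) :
    X ∈ W.cyl γ n ↔ Y ∈ W.cyl γ n :=
  ⟨fun hX => h.symm.trans hX, fun hY => h.trans hY⟩

lemma contact_anti (R : ℕ) {V V' : Set (Site d)} (h : V ⊆ V') (X : Ω) :
    W.contact R V' X ≤ W.contact R V X :=
  Crest.Agent.R154.contact_anti R h (W.pos X)

lemma eventually_cutEv (R : ℕ) (S : Ω → ℕ∞) (γ δ : Ω) (n m : ℕ) (p : Ω × Ω) :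
    ∀ᶠ k in Filter.atTop, p ∈ W.cutEv R S γ δ n m k ↔
      p ∈ W.stopPair R S ⁻¹' (W.cyl γ n ×ˢ W.cyl δ m) := by
  obtain ⟨X, T⟩ := p
  have h1 : ∀ᶠ k in Filter.atTop, W.hist m
      (W.freeze (W.contact R (W.readE X (min (S X) (k : ℕ))) T) T)
      = W.hist m (W.freeze (W.contact R (W.readE X (S X)) T) T) := by
    have hsub : ∀ k : ℕ, W.readE X (min (S X) k) ⊆ W.readE X (S X) :=
      fun k => W.readE_mono X (min_le_left _ _)
    rcases le_or_gt (m : ℕ∞) (W.contact R (W.readE X (S X)) T) with hc | hc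
    · refine Filter.Eventually.of_forall fun k => ?_
      rw [W.hist_freeze_of_le hc, W.hist_freeze_of_le (hc.trans (W.contact_anti R (hsub k) T))]
    · obtain ⟨j, hj⟩ := ENat.ne_top_iff_exists.1 (hc.trans (ENat.natCast_lt_top m)).ne
      have hT := (firstTime_spec (p := fun z => z ∉ far R (W.readE X (S X)))
        (X := W.pos T) hj.symm).1
      simp only [far, Set.mem_ofPred_eq, not_forall] at hT
      obtain ⟨a, ⟨l, hl, ha⟩, ha2⟩ := hT
      filter_upwards [Filter.eventually_ge_atTop l] with k hk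
      have h3 : W.contact R (W.readE X (min (S X) k)) T ≤ j := by
        refine W.contact_le ?_
        simp only [far, Set.mem_ofPred_eq, not_forall]
        exact ⟨a, ⟨l, le_min hl (by exact_mod_cast hk), ha⟩, ha2⟩
      have h4 : W.contact R (W.readE X (min (S X) k)) T = W.contact R (W.readE X (S X)) T :=
        le_antisymm (hj ▸ h3) (W.contact_anti R (hsub k) T)
      rw [h4]
  filter_upwards [h1, Filter.eventually_ge_atTop n, Filter.eventually_ge_atTop m]
    with k hk hn hm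
  simp only [cutEv, Set.mem_ofPred_eq, stopPair, Set.mem_preimage, Set.mem_prod]
  rw [W.mem_cyl_congr (W.hist_freeze_min (S X) k n hn X),
    W.mem_cyl_congr ((W.hist_freeze_min _ k m hm T).trans hk)]

variable [Nonempty Ω]

lemma measurable_stopPair (R : ℕ) {S : Ω → ℕ∞} (hS : W.IsStop S) :
    Measurable (W.stopPair R S) := by
  have h : @Measurable _ _ _ (MeasurableSpace.generateFrom
      (Set.image2 (· ×ˢ ·) W.cyls W.cyls)) (W.stopPair R S) := by
    refine measurable_generateFrom ?_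
    rintro _ ⟨_, ⟨γ, n, rfl⟩, _, ⟨δ, m, rfl⟩, rfl⟩
    exact measurableSet_of_tendsto_indicator Filter.atTop
      (fun k => W.measurableSet_cutEv R hS γ δ n m k)
      (fun p => W.eventually_cutEv R S γ δ n m p)
  exact h.mono le_rfl W.gen_prod.le

/-- **SAME ENVIRONMENT = INDEPENDENT ENVIRONMENTS up to the first contact (generic form).** -/
theorem same_map_eq_ind_map (R : ℕ) {S : Ω → ℕ∞} (hS : W.IsStop S)
    (Q : Measure (Environment d)) [IsProbabilityMeasure Q] (hQ : IndepAt R Q)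
    {P₁ P₂ : Kernel (Environment d) Ω} [IsFiniteKernel P₁] [IsFiniteKernel P₂]
    (h₁ : W.ReadsOnly Q P₁) (h₂ : W.ReadsOnly Q P₂) :
    (same Q P₁ P₂).map (W.stopPair R S) = (ind Q P₁ P₂).map (W.stopPair R S) := by
  have hm := W.measurable_stopPair R hS
  refine W.measure_ext_prod fun γ δ n m => ?_
  rw [Measure.map_apply hm ((W.measurableSet_cyl _ _).prod (W.measurableSet_cyl _ _)),
    Measure.map_apply hm ((W.measurableSet_cyl _ _).prod (W.measurableSet_cyl _ _))]
  have h1 := tendsto_measure_of_tendsto_indicator_of_isFiniteMeasure Filter.atTop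
    (same Q P₁ P₂) (fun k => W.measurableSet_cutEv R hS γ δ n m k)
    (fun p => W.eventually_cutEv R S γ δ n m p)
  have h2 := tendsto_measure_of_tendsto_indicator_of_isFiniteMeasure Filter.atTop
    (ind Q P₁ P₂) (fun k => W.measurableSet_cutEv R hS γ δ n m k)
    (fun p => W.eventually_cutEv R S γ δ n m p)
  simp_rw [W.cutEv_eq R hS Q hQ h₁ h₂] at h1
  exact tendsto_nhds_unique h1 h2

/-- set form. -/
theorem same_eq_ind (R : ℕ) {S : Ω → ℕ∞} (hS : W.IsStop S)
    (Q : Measure (Environment d)) [IsProbabilityMeasure Q] (hQ : IndepAt R Q)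
    {P₁ P₂ : Kernel (Environment d) Ω} [IsFiniteKernel P₁] [IsFiniteKernel P₂]
    (h₁ : W.ReadsOnly Q P₁) (h₂ : W.ReadsOnly Q P₂)
    {B : Set (Ω × Ω)} (hB : MeasurableSet B) (hdet : ∀ p, W.stopPair R S p ∈ B ↔ p ∈ B) :
    same Q P₁ P₂ B = ind Q P₁ P₂ B := by
  have hm := W.measurable_stopPair R hS
  have hpre : W.stopPair R S ⁻¹' B = B := by
    ext p
    exact hdet p
  have := congrArg (fun m => m B) (W.same_map_eq_ind_map R hS Q hQ h₁ h₂)
  simp only [Measure.map_apply hm hB, hpre] at this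
  exact this

/-- functional form. -/
theorem lintegral_same_eq_ind (R : ℕ) {S : Ω → ℕ∞} (hS : W.IsStop S)
    (Q : Measure (Environment d)) [IsProbabilityMeasure Q] (hQ : IndepAt R Q)
    {P₁ P₂ : Kernel (Environment d) Ω} [IsFiniteKernel P₁] [IsFiniteKernel P₂]
    (h₁ : W.ReadsOnly Q P₁) (h₂ : W.ReadsOnly Q P₂)
    {G : Ω × Ω → ℝ≥0∞} (hG : Measurable G) :
    ∫⁻ p, G (W.stopPair R S p) ∂(same Q P₁ P₂) = ∫⁻ p, G (W.stopPair R S p) ∂(ind Q P₁ P₂) := by
  have hm := W.measurable_stopPair R hS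
  rw [← lintegral_map hG hm, ← lintegral_map hG hm, W.same_map_eq_ind_map R hS Q hQ h₁ h₂]

end WalkSpace

end Crest.Agent.R154
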