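import Crest.Agent.R154.Pair_850

/-! Row 154, B0c: generic form of the exploration and pair theorems (walk spaces with read sites). -/

set_option autoImplicit false

namespace Crest.Agent.R154

open MeasureTheory ProbabilityTheory Crest.ProbabilityR.RandomEnvironment
open scoped ENNReal

variable {d : ℕ}

/-- A walk space: countable histories, positions and read sites. -/
structure WalkSpace (d : ℕ) (Ω : Type) [mΩ : MeasurableSpace Ω] where
  /-- histories -/
  H : ℕ → Type
  countH : ∀ n, Countable (H n)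
  /-- the history up to time `n` -/
  hist : ∀ n, Ω → H n
  /-- a path with a given history -/
  ext : ∀ n, H n → Ω
  hist_ext : ∀ n h, hist n (ext n h) = h
  mono : ∀ {m n : ℕ} (X Y : Ω), m ≤ n → hist n X = hist n Y → hist m X = hist m Y
  gen : mΩ
    = MeasurableSpace.generateFrom {s | ∃ (X : Ω) (n : ℕ), s = {Y | hist n Y = hist n X}}
  /-- positions -/
  pos : Ω → ℕ → Site d
  pos_det : ∀ (n : ℕ) (X Y : Ω), hist n X = hist n Y → pos X n = pos Y n
  /-- sites whose rows are read before time `n` -/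
  read : Ω → ℕ → Set (Site d)
  read_det : ∀ (n : ℕ) (X Y : Ω), hist n X = hist n Y → read X n = read Y n
  read_sub : ∀ (X : Ω) (n : ℕ), read X n ⊆ {z | ∃ i, i < n ∧ pos X i = z}
  read_mono : ∀ (X : Ω) {m n : ℕ}, m ≤ n → read X m ⊆ read X n

namespace WalkSpace

variable {Ω : Type} [MeasurableSpace Ω] (W : WalkSpace d Ω)

instance (n : ℕ) : Countable (W.H n) := W.countH n

/-- cylinder of `X` at time `n`. -/
def cyl (X : Ω) (n : ℕ) : Set Ω := {Y | W.hist n Y = W.hist n X}

lemma mem_cyl_self (X : Ω) (n : ℕ) : X ∈ W.cyl X n := rfl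

lemma measurableSet_cyl (X : Ω) (n : ℕ) : MeasurableSet (W.cyl X n) := by
  have h : MeasurableSet[MeasurableSpace.generateFrom
      {s | ∃ (X : Ω) (n : ℕ), s = {Y | W.hist n Y = W.hist n X}}] (W.cyl X n) :=
    MeasurableSpace.measurableSet_generateFrom ⟨X, n, rfl⟩
  rwa [← W.gen] at h

/-- the family of cylinders. -/
def cyls : Set (Set Ω) := {s | ∃ (X : Ω) (n : ℕ), s = {Y | W.hist n Y = W.hist n X}}

lemma isPiSystem_cyls : IsPiSystem W.cyls := by
  rintro _ ⟨γ, n, rfl⟩ _ ⟨δ, m, rfl⟩ ⟨X, hX, hX'⟩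
  refine ⟨X, max n m, ?_⟩
  simp only [Set.mem_ofPred_eq] at hX hX'
  ext Y
  constructor
  · rintro ⟨h1, h2⟩
    simp only [Set.mem_ofPred_eq] at h1 h2 ⊢
    rcases le_total n m with h | h
    · rw [max_eq_right h, h2, hX']
    · rw [max_eq_left h, h1, hX]
  · intro hY
    simp only [Set.mem_ofPred_eq] at hY
    refine ⟨?_, ?_⟩
    · simp only [Set.mem_ofPred_eq]
      rw [W.mono Y X (le_max_left n m) hY, hX]
    · simp only [Set.mem_ofPred_eq]
      rw [W.mono Y X (le_max_right n m) hY, hX']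

/-- the cylinder of a history. -/
def hcyl (n : ℕ) (h : W.H n) : Set Ω := {Y | W.hist n Y = h}

lemma hcyl_eq (n : ℕ) (h : W.H n) : W.hcyl n h = W.cyl (W.ext n h) n := by
  ext Y
  simp [hcyl, cyl, W.hist_ext]

lemma measurableSet_hcyl (n : ℕ) (h : W.H n) : MeasurableSet (W.hcyl n h) := by
  rw [hcyl_eq]; exact W.measurableSet_cyl _ _

lemma iUnion_hcyl (n : ℕ) : ⋃ h : W.H n, W.hcyl n h = Set.univ := by
  rw [Set.eq_univ_iff_forall]
  intro X
  rw [Set.mem_iUnion]
  exact ⟨W.hist n X, rfl⟩

lemma pairwise_hcyl (n : ℕ) : Pairwise (Function.onFun Disjoint fun h : W.H n => W.hcyl n h) := by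
  intro h h' hne
  rw [Function.onFun, Set.disjoint_left]
  intro X hX hX'
  exact hne (hX.symm.trans hX')

lemma measurableSet_of_hist (n : ℕ) (A : Set Ω)
    (hA : ∀ X Y, W.hist n X = W.hist n Y → X ∈ A → Y ∈ A) : MeasurableSet A := by
  have : A = ⋃ h : {h : W.H n // W.ext n h ∈ A}, W.hcyl n h.1 := by
    ext X
    simp only [Set.mem_iUnion, Subtype.exists, hcyl, Set.mem_ofPred_eq]
    constructor
    · intro hX
      exact ⟨W.hist n X, hA X _ (W.hist_ext n _).symm hX, rfl⟩
    · rintro ⟨h, hh, rfl⟩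
      exact hA _ X (W.hist_ext n _) hh
  rw [this]
  exact MeasurableSet.iUnion fun h => W.measurableSet_hcyl _ _

lemma measure_ext {μ ν : Measure Ω} [IsFiniteMeasure μ] [IsFiniteMeasure ν]
    (h : ∀ (γ : Ω) (n : ℕ), μ (W.cyl γ n) = ν (W.cyl γ n)) : μ = ν := by
  refine ext_of_generate_finite W.cyls W.gen W.isPiSystem_cyls ?_ ?_
  · rintro _ ⟨γ, n, rfl⟩
    exact h γ n
  · rw [← W.iUnion_hcyl 0, measure_iUnion (W.pairwise_hcyl 0) fun _ => W.measurableSet_hcyl _ _,
      measure_iUnion (W.pairwise_hcyl 0) fun _ => W.measurableSet_hcyl _ _]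
    refine tsum_congr fun h' => ?_
    rw [W.hcyl_eq]
    exact h _ _

/-- stopping times. -/
def IsStop (T : Ω → ℕ∞) : Prop :=
  ∀ (X Y : Ω) (n : ℕ), W.hist n X = W.hist n Y → T X = n → T Y = n

/-- determined at a stopping time. -/
def DetBy {α : Type*} (T : Ω → ℕ∞) (F : Ω → α) : Prop :=
  ∀ (X Y : Ω) (n : ℕ), W.hist n X = W.hist n Y → T X = n → F X = F Y

lemma detBy_comp {α β : Type*} {T : Ω → ℕ∞} {F : Ω → α} (h : W.DetBy T F) (g : α → β) :
    W.DetBy T (fun X => g (F X)) := fun X Y n hXY hn => by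
  simp only [h X Y n hXY hn]

lemma measurableSet_stop_lt {T : Ω → ℕ∞} (hT : W.IsStop T) : MeasurableSet {X | T X < ⊤} := by
  have : {X | T X < ⊤} = ⋃ n : ℕ, {X | T X = n} := by
    ext X
    simp only [Set.mem_ofPred_eq, Set.mem_iUnion]
    constructor
    · intro h
      obtain ⟨n, hn⟩ := ENat.ne_top_iff_exists.1 h.ne
      exact ⟨n, hn.symm⟩
    · rintro ⟨n, hn⟩
      rw [hn]
      exact ENat.natCast_lt_top n
  rw [this]
  exact MeasurableSet.iUnion fun n => W.measurableSet_of_hist n _ fun X Y h hX => hT X Y n h hX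

/-- **decomposition at a stopping time.** -/
lemma lintegral_stop {T : Ω → ℕ∞} (hT : W.IsStop T) {F : Ω → ℝ≥0∞} (hF : W.DetBy T F)
    (P : Measure Ω) :
    ∫⁻ X in {X | T X < ⊤}, F X ∂P
      = ∑' p : (Σ n, W.H n), if T (W.ext p.1 p.2) = p.1 then
          F (W.ext p.1 p.2) * P (W.hcyl p.1 p.2) else 0 := by
  classical
  let piece : (Σ n, W.H n) → Set Ω :=
    fun p => if T (W.ext p.1 p.2) = p.1 then W.hcyl p.1 p.2 else ∅
  have hu : {X | T X < ⊤} = ⋃ p, piece p := by
    ext X
    simp only [Set.mem_ofPred_eq, Set.mem_iUnion, piece]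
    constructor
    · intro h
      obtain ⟨n, hn⟩ := ENat.ne_top_iff_exists.1 h.ne
      refine ⟨⟨n, W.hist n X⟩, ?_⟩
      have h1 : T (W.ext n (W.hist n X)) = n := hT X _ n (W.hist_ext n _).symm hn.symm
      rw [if_pos h1]
      rfl
    · rintro ⟨p, hp⟩
      by_cases h1 : T (W.ext p.1 p.2) = p.1
      · rw [if_pos h1] at hp
        have hp' : W.hist p.1 X = p.2 := hp
        rw [hT _ X p.1 (by rw [W.hist_ext, hp']) h1]
        exact ENat.natCast_lt_top _
      · rw [if_neg h1] at hp
        exact absurd hp (Set.notMem_empty _)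
  have hd : Pairwise (Function.onFun Disjoint piece) := by
    intro p q hpq
    rw [Function.onFun, Set.disjoint_left]
    intro X hX hX'
    simp only [piece] at hX hX'
    split_ifs at hX with h1
    · split_ifs at hX' with h2
      · have hp' : W.hist p.1 X = p.2 := hX
        have hq' : W.hist q.1 X = q.2 := hX'
        have e1 := hT _ X p.1 (by rw [W.hist_ext, hp']) h1
        have e2 := hT _ X q.1 (by rw [W.hist_ext, hq']) h2
        rw [e1] at e2
        have e3 : p.1 = q.1 := by exact_mod_cast e2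
        obtain ⟨n, h⟩ := p
        obtain ⟨m, h'⟩ := q
        simp only at e3
        subst e3
        simp only at hp' hq'
        exact hpq (by rw [← hp', ← hq'])
      · exact absurd hX' (Set.notMem_empty _)
    · exact absurd hX (Set.notMem_empty _)
  have hm : ∀ p, MeasurableSet (piece p) := by
    intro p
    simp only [piece]
    split_ifs
    · exact W.measurableSet_hcyl _ _
    · exact MeasurableSet.empty
  rw [hu, lintegral_iUnion hm hd]
  refine tsum_congr fun p => ?_
  simp only [piece]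
  split_ifs with h1
  · have : ∫⁻ X in W.hcyl p.1 p.2, F X ∂P = ∫⁻ _ in W.hcyl p.1 p.2, F (W.ext p.1 p.2) ∂P := by
      refine setLIntegral_congr_fun (W.measurableSet_hcyl _ _) fun X hX => ?_
      have hX' : W.hist p.1 X = p.2 := hX
      exact (hF _ X p.1 (by rw [W.hist_ext, hX']) h1).symm
    rw [this, setLIntegral_const]
  · simp

/-- the law `P` reads only the read sites (up to `Q`-null sets). -/
def ReadsOnly (Q : Measure (Environment d)) (P : Kernel (Environment d) Ω) : Prop :=
  ∀ (γ : Ω) (n : ℕ), ∃ f : Environment d → ℝ≥0∞,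
    Measurable[coordSigmaAlgebra (W.read γ n)] f ∧ (fun ω => P ω (W.cyl γ n)) =ᵐ[Q] f

end WalkSpace

open WalkSpace

/-- A sequential exploration. -/
structure GExplorer (d : ℕ) (Ω : Type) [MeasurableSpace Ω] (σ : Type*) where
  /-- rows used so far -/
  rows : σ → Set (Site d)
  /-- law of the next walker -/
  law : σ → Kernel (Environment d) Ω
  /-- stopping time of the next walker -/
  stop : σ → Ω → ℕ∞
  /-- next state -/
  next : σ → Ω → σ

variable {Ω : Type} [MeasurableSpace Ω] {σ : Type*}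

/-- validity at range `R`. -/
structure GExplorer.Valid (E : GExplorer d Ω σ) (W : WalkSpace d Ω) (Q : Measure (Environment d))
    (R : ℕ) : Prop where
  isStop : ∀ s, W.IsStop (E.stop s)
  det : ∀ s, W.DetBy (E.stop s) (E.next s)
  far : ∀ s X (n : ℕ), E.stop s X = n → W.read X n ⊆ far R (E.rows s)
  rows_next : ∀ s X (n : ℕ), E.stop s X = n → E.rows s ∪ W.read X n ⊆ E.rows (E.next s X)
  reads : ∀ s, W.ReadsOnly Q (E.law s)

/-- quenched value. -/
noncomputable def GExplorer.qVal (E : GExplorer d Ω σ) (F : σ → ℝ≥0∞) (ω : Environment d) :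
    ℕ → σ → ℝ≥0∞
  | 0, s => F s
  | n + 1, s => ∫⁻ X in {X | E.stop s X < ⊤}, E.qVal F ω n (E.next s X) ∂(E.law s ω)

/-- value with fresh environments. -/
noncomputable def GExplorer.aVal (E : GExplorer d Ω σ) (F : σ → ℝ≥0∞)
    (Q : Measure (Environment d)) : ℕ → σ → ℝ≥0∞
  | 0, s => F s
  | n + 1, s => ∫⁻ X in {X | E.stop s X < ⊤}, E.aVal F Q n (E.next s X) ∂(Q.bind (E.law s))

section explore

variable (E : GExplorer d Ω σ) {W : WalkSpace d Ω} {Q : Measure (Environment d)} {R : ℕ}
include W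

lemma GExplorer.qVal_succ (hE : E.Valid W Q R) (F : σ → ℝ≥0∞)
    (ω : Environment d) (n : ℕ) (s : σ) :
    E.qVal F ω (n + 1) s = ∑' p : (Σ n, W.H n), if E.stop s (W.ext p.1 p.2) = p.1 then
      E.qVal F ω n (E.next s (W.ext p.1 p.2)) * (E.law s ω) (W.hcyl p.1 p.2) else 0 := by
  rw [GExplorer.qVal,
    W.lintegral_stop (hE.isStop s) (W.detBy_comp (hE.det s) fun t => E.qVal F ω n t)]

lemma GExplorer.aVal_succ (hE : E.Valid W Q R) (F : σ → ℝ≥0∞) (n : ℕ) (s : σ) :
    E.aVal F Q (n + 1) s = ∑' p : (Σ n, W.H n), if E.stop s (W.ext p.1 p.2) = p.1 then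
      E.aVal F Q n (E.next s (W.ext p.1 p.2)) * (Q.bind (E.law s)) (W.hcyl p.1 p.2) else 0 := by
  rw [GExplorer.aVal,
    W.lintegral_stop (hE.isStop s) (W.detBy_comp (hE.det s) fun t => E.aVal F Q n t)]

lemma GExplorer.measurable_law (s : σ) (n : ℕ) (h : W.H n) :
    Measurable fun ω => (E.law s ω) (W.hcyl n h) :=
  Kernel.measurable_coe _ (W.measurableSet_hcyl n h)

lemma GExplorer.measurable_qVal (hE : E.Valid W Q R) (F : σ → ℝ≥0∞)
    (n : ℕ) : ∀ s, Measurable fun ω : Environment d => E.qVal F ω n s := by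
  induction n with
  | zero => intro s; exact measurable_const
  | succ n ih =>
    intro s
    simp_rw [E.qVal_succ hE]
    refine Measurable.ennreal_tsum fun p => ?_
    by_cases h : E.stop s (W.ext p.1 p.2) = p.1
    · simp only [h, if_true]
      exact (ih _).mul (E.measurable_law (W := W) s p.1 p.2)
    · simp only [h, if_false]
      exact measurable_const

/-- **SEQUENTIAL EXPLORATION THEOREM (generic form).** -/
theorem GExplorer.explore (hE : E.Valid W Q R) (hQ : IndepAt R Q) (F : σ → ℝ≥0∞) (n : ℕ) :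
    ∀ (s : σ) (Φ : Environment d → ℝ≥0∞), Measurable[coordSigmaAlgebra (E.rows s)] Φ →
      ∫⁻ ω, Φ ω * E.qVal F ω n s ∂Q = (∫⁻ ω, Φ ω ∂Q) * E.aVal F Q n s := by
  induction n with
  | zero =>
    intro s Φ hΦ
    simp only [GExplorer.qVal, GExplorer.aVal]
    exact lintegral_mul_const _ (hΦ.mono (coordSigmaAlgebra_le _) le_rfl)
  | succ n ih =>
    intro s Φ hΦ
    have hΦ' : Measurable Φ := hΦ.mono (coordSigmaAlgebra_le _) le_rfl
    simp_rw [E.qVal_succ hE, ← ENNReal.tsum_mul_left]
    rw [lintegral_tsum]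
    · rw [E.aVal_succ hE, ← ENNReal.tsum_mul_left]
      refine tsum_congr fun p => ?_
      by_cases h : E.stop s (W.ext p.1 p.2) = p.1
      · simp only [h, if_true]
        have hfar := hE.far s _ p.1 h
        have hrow := hE.rows_next s _ p.1 h
        obtain ⟨f, hf, hfe⟩ := hE.reads s (W.ext p.1 p.2) p.1
        rw [← W.hcyl_eq] at hfe
        have h1 : ∫⁻ ω, Φ ω * (E.qVal F ω n (E.next s (W.ext p.1 p.2)) *
            (E.law s ω) (W.hcyl p.1 p.2)) ∂Q
            = ∫⁻ ω, (Φ ω * f ω) * E.qVal F ω n (E.next s (W.ext p.1 p.2)) ∂Q := by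
          refine lintegral_congr_ae ?_
          filter_upwards [hfe] with ω hω
          rw [hω]; ring
        have h2 : (Q.bind (E.law s)) (W.hcyl p.1 p.2) = ∫⁻ ω, f ω ∂Q := by
          rw [Measure.bind_apply (W.measurableSet_hcyl _ _) (Kernel.measurable _).aemeasurable]
          exact lintegral_congr_ae hfe
        rw [h1, ih _ (fun ω => Φ ω * f ω) ?_, h2]
        · rw [lintegral_mul_eq_lintegral_mul_lintegral_of_independent_measurableSpace
            (coordSigmaAlgebra_le _) (coordSigmaAlgebra_le _)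
            (hQ (E.rows s) (W.read (W.ext p.1 p.2) p.1) ?_) hΦ hf]
          · ring
          · intro a ha b hb
            exact hfar hb a ha
        · refine Measurable.mul ?_ ?_
          · exact hΦ.mono (coordSigmaAlgebra_mono (Set.subset_union_left.trans hrow)) le_rfl
          · exact hf.mono (coordSigmaAlgebra_mono (Set.subset_union_right.trans hrow)) le_rfl
      · simp [h]
    · intro p
      refine Measurable.aemeasurable ?_
      refine hΦ'.mul ?_
      by_cases h : E.stop s (W.ext p.1 p.2) = p.1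
      · simp only [h, if_true]
        exact (E.measurable_qVal hE F n _).mul (E.measurable_law (W := W) s p.1 p.2)
      · simp only [h, if_false]
        exact measurable_const

theorem GExplorer.explore_prob [IsProbabilityMeasure Q] (hE : E.Valid W Q R) (hQ : IndepAt R Q)
    (F : σ → ℝ≥0∞) (n : ℕ) (s : σ) :
      ∫⁻ ω, E.qVal F ω n s ∂Q = E.aVal F Q n s := by
  have := E.explore hE hQ F n s (fun _ => 1) measurable_const
  simpa using this

end explore

end Crest.Agent.R154
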