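import Crest.Agent.R154.Wk_225

/-! Row 154 (helper225), ROAD 801: geometry of the windows and reduction to single windows. -/

set_option autoImplicit false

namespace Crest.Agent.R154.Cd225

open scoped ENNReal
open Crest.Agent.R154.B5A
open Crest.Agent.R154.FP178 (fp)

lemma dec_flat {B : Type*} (P : List (List B)) (j : ℕ) (hj : j < P.length) :
    P.flatten = (P.take j).flatten ++ (P.getD j [] ++ (P.drop (j + 1)).flatten) := by
  conv_lhs => rw [← List.take_append_drop j P]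
  rw [List.flatten_append, List.drop_eq_getElem_cons hj, List.flatten_cons,
    List.getD_eq_getElem _ _ hj]

variable {B G : Type*} [AddCommGroup G]

lemma Wk.mem_piece (W : Wk B G) (P : List (List B)) (j : ℕ) (hj : j < P.length) (R : List B)
    (x z : G) (k : ℕ) (h1 : HT W.h (P.take j).flatten < k)
    (h2 : k ≤ HT W.h (P.take j).flatten + HT W.h (P.getD j [])) :
    (z, k) ∈ W.T (P.flatten ++ R) x 0 ↔
      (z, k) ∈ W.T (P.getD j []) (x + ((P.take j).flatten.map W.z).sum)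
        (HT W.h (P.take j).flatten) := by
  rw [dec_flat P j hj, List.append_assoc, List.append_assoc, W.ap, W.ap, Set.mem_union,
    Set.mem_union, zero_add]
  constructor
  · rintro (h | h | h)
    · have := (W.rg _ _ _ _ _ h).2; omega
    · exact h
    · have := (W.rg _ _ _ _ _ h).1; omega
  · intro h; exact Or.inr (Or.inl h)

lemma Wk.piece_ht (W : Wk B G) (T i0 N : ℕ) (P : List (List B)) (hP : P.length = N)
    (hg : ∀ A ∈ P, W.l T i0 A ≠ 0) (j : ℕ) (hj : j < N) :
    j * T ≤ HT W.h (P.take j).flatten ∧ HT W.h (P.take j).flatten ≤ j * T + j * i0 ∧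
    T ≤ HT W.h (P.getD j []) ∧ HT W.h (P.getD j []) ≤ T + i0 := by
  have h1 := W.HT_good T i0 (P.take j) (fun A hA => hg A (List.mem_of_mem_take hA))
  rw [List.length_take, hP, min_eq_left hj.le] at h1
  have hj' : j < P.length := by omega
  have h2 := W.l_ne (hg (P.getD j []) (by
    rw [List.getD_eq_getElem _ _ hj']; exact List.getElem_mem hj'))
  exact ⟨h1.1, h1.2, h2.1, h2.2⟩

open Classical in
lemma uone (W' : Wk B G) (N : ℕ) (a : ℝ≥0∞) (F : List B → ℝ≥0∞)
    (hF : ∀ L, F L ≤ a) : ∑' L, (if HT W'.h L = N then LW W'.Λ L * F L else 0) ≤ a := by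
  calc ∑' L, (if HT W'.h L = N then LW W'.Λ L * F L else 0)
      ≤ ∑' L, (if HT W'.h L = N then LW W'.Λ L else 0) * a := by
        refine ENNReal.tsum_le_tsum fun L => ?_
        split_ifs
        · exact mul_le_mul_right (hF L) _
        · simp
    _ = U W'.Λ W'.h N * a := ENNReal.tsum_mul_right
    _ ≤ 1 * a := mul_le_mul_left (W'.hU N) _
    _ = a := one_mul _

variable {BX BY : Type*} (X : Wk BX G) (Y : Wk BY G)

/-- contact of two parts, all common sites between `lo` and `hi` -/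
def Cc (lo hi a a' : ℕ) (x : G) (A : List BX) (A' : List BY) : Prop :=
  (∃ z k, (z, k) ∈ X.T A 0 a ∧ (z, k) ∈ Y.T A' x a') ∧
    (∀ z k, (z, k) ∈ X.T A 0 a → (z, k) ∈ Y.T A' x a' → lo ≤ k ∧ k ≤ hi)

def Slab (K T s W : ℕ) (k : ℕ) : Prop := ∃ j, K ≤ j ∧ j ≤ 2 * K ∧ j * T ≤ k + s ∧ k ≤ j * T + W

def Ev (m K T s W : ℕ) (w : G) (L : List BX) (L' : List BY) : Prop :=
  (∃ z k, m < k ∧ k ≤ 2 * m ∧ (z, k) ∈ X.T L 0 0 ∧ (z, k) ∈ Y.T L' w 0) ∧
    ∀ z k, k ≤ 2 * m → (z, k) ∈ X.T L 0 0 → (z, k) ∈ Y.T L' w 0 → ¬ Slab K T s W k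

theorem geo (m K T s W i0 : ℕ) (hT : 1 ≤ T) (hm1 : K * T ≤ m)
    (hm2 : 2 * m ≤ 2 * K * T + W) (hm3 : 2 * K * (T + i0) ≤ 2 * m) (hW : 2 * K * i0 ≤ W) (w : G)
    (P : List (List BX)) (P' : List (List BY)) (hP : P.length = 2 * K) (hP' : P'.length = 2 * K)
    (hg : ∀ A ∈ P, X.l T i0 A ≠ 0) (hg' : ∀ A ∈ P', Y.l T i0 A ≠ 0) (R : List BX) (R' : List BY)
    (hE : Ev X Y m K T s W w (P.flatten ++ R) (P'.flatten ++ R')) :
    ∃ j, K ≤ j ∧ j < 2 * K ∧ Cc X Y (j * T + W) ((j + 1) * T - s)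
      (HT X.h (P.take j).flatten) (HT Y.h (P'.take j).flatten)
      (w + ((P'.take j).flatten.map Y.z).sum - ((P.take j).flatten.map X.z).sum)
      (P.getD j []) (P'.getD j []) := by
  obtain ⟨⟨z, k, hk1, hk2, hx, hy⟩, hns⟩ := hE
  have hns0 := hns z k hk2 hx hy
  set j := k / T with hj
  have hj1 : j * T ≤ k := Nat.div_mul_le_self k T
  have hj2 : k < (j + 1) * T := by
    have := Nat.lt_div_mul_add (a := k) (b := T) (by omega)
    rw [← hj] at this
    nlinarith
  have hKj : K ≤ j := by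
    rw [hj, Nat.le_div_iff_mul_le (by omega)]; omega
  have hjK : j < 2 * K := by
    by_contra hcon
    rw [not_lt] at hcon
    apply hns0
    refine ⟨2 * K, by omega, le_rfl, ?_, by omega⟩
    have : 2 * K * T ≤ j * T := Nat.mul_le_mul_right _ hcon
    omega
  obtain ⟨a1, a2, a3, a4⟩ := X.piece_ht T i0 (2 * K) P hP hg j hjK
  obtain ⟨b1, b2, b3, b4⟩ := Y.piece_ht T i0 (2 * K) P' hP' hg' j hjK
  have hji : j * i0 ≤ 2 * K * i0 := Nat.mul_le_mul_right _ hjK.le
  have hj1T : (j + 1) * T = j * T + T := by ring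
  have hlow : j * T + W < k := by
    by_contra hcon
    exact hns0 ⟨j, hKj, hjK.le, by omega, by omega⟩
  have ex : ∀ z k, k ≤ HT X.h (P.take j).flatten + HT X.h (P.getD j []) →
      HT X.h (P.take j).flatten < k → k ≤ HT Y.h (P'.take j).flatten + HT Y.h (P'.getD j []) →
      HT Y.h (P'.take j).flatten < k →
      (((z, k) ∈ X.T (P.flatten ++ R) 0 0 ∧ (z, k) ∈ Y.T (P'.flatten ++ R') w 0) ↔
      ((z - ((P.take j).flatten.map X.z).sum, k) ∈ X.T (P.getD j []) 0
          (HT X.h (P.take j).flatten) ∧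
        (z - ((P.take j).flatten.map X.z).sum, k) ∈ Y.T (P'.getD j [])
          (w + ((P'.take j).flatten.map Y.z).sum - ((P.take j).flatten.map X.z).sum)
          (HT Y.h (P'.take j).flatten))) := by
    intro z k c1 c2 c3 c4
    rw [X.mem_piece P j (by omega) R 0 z k c2 c1, Y.mem_piece P' j (by omega) R' w z k c4 c3,
      ← X.tr, ← Y.tr, sub_add_cancel]
  refine ⟨j, hKj, hjK, ⟨_, _, (ex z k (by omega) (by omega) (by omega) (by omega)).1 ⟨hx, hy⟩⟩, ?_⟩
  intro z' k' h1 h2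
  have r1 := X.rg _ _ _ _ _ h1
  have r2 := Y.rg _ _ _ _ _ h2
  have hb := (ex (z' + ((P.take j).flatten.map X.z).sum) k' (by omega) (by omega) (by omega)
    (by omega)).2 (by rw [add_sub_cancel_right]; exact ⟨h1, h2⟩)
  have hmm : (j + 1) * (T + i0) ≤ 2 * K * (T + i0) := Nat.mul_le_mul_right _ (by omega)
  have hexp : (j + 1) * (T + i0) = j * T + T + (j * i0 + i0) := by ring
  have hns' := hns _ k' (by omega) hb.1 hb.2
  have hji' : (j + 1) * i0 ≤ 2 * K * i0 := Nat.mul_le_mul_right _ (by omega)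
  have hexp2 : (j + 1) * i0 = j * i0 + i0 := by ring
  constructor
  · by_contra hcon
    exact hns' ⟨j, hKj, hjK.le, by omega, by omega⟩
  · by_contra hcon
    exact hns' ⟨j + 1, by omega, by omega, by omega, by omega⟩

open Classical in
/-- reduction of the no-slab part to windows -/
theorem ev_le (m n K T s W i0 : ℕ) (hT : 1 ≤ T) (hm1 : K * T ≤ m)
    (hm2 : 2 * m ≤ 2 * K * T + W) (hm3 : 2 * K * (T + i0) ≤ 2 * m) (hW : 2 * K * i0 ≤ W)
    (hn : 2 * m ≤ n) (w : G) (eX eY : ℝ≥0∞)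
    (heX : ∑' A, (if fp X.h T A ∧ T + i0 < HT X.h A then LW X.Λ A else 0) ≤ eX)
    (heY : ∑' A, (if fp Y.h T A ∧ T + i0 < HT Y.h A then LW Y.Λ A else 0) ≤ eY) :
    ∑' L, ∑' L', (if HT X.h L = n ∧ HT Y.h L' = n ∧ Ev X Y m K T s W w L L' then
        LW X.Λ L * LW Y.Λ L' else 0)
      ≤ (2 * K : ℕ) * eX + ((2 * K : ℕ) * eY + ∑ j ∈ Finset.Ico K (2 * K),
        SL (X.l T i0) j (fun P => SL (Y.l T i0) j (fun P' => ∑' A, ∑' A',
          X.l T i0 A * (Y.l T i0 A' * (if Cc X Y (j * T + W) ((j + 1) * T - s)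
            (P.map X.f).sum.1 (P'.map Y.f).sum.1
            (w + (P'.map Y.f).sum.2 - (P.map X.f).sum.2) A A' then 1 else 0))))) := by
  set J := 2 * K with hJ
  set c : ℕ → List (List BX) → List BX → List (List BY) → List BY → ℝ≥0∞ :=
    fun j P A P' A' => if Cc X Y (j * T + W) ((j + 1) * T - s)
            (P.map X.f).sum.1 (P'.map Y.f).sum.1
            (w + (P'.map Y.f).sum.2 - (P.map X.f).sum.2) A A' then 1 else 0 with hc
  set S : List (List BX) → List (List BY) → ℝ≥0∞ := fun P P' =>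
    ∑ j ∈ Finset.Ico K J, c j (P.take j) (P.getD j []) (P'.take j) (P'.getD j []) with hS
  set FX : List BX → ℝ≥0∞ := fun L => ∑' L', (if HT Y.h L' = n then
    LW Y.Λ L' * (if Ev X Y m K T s W w L L' then 1 else 0) else 0) with hFX
  have hJn : J * (T + i0) ≤ n := by omega
  have hFX1 : ∀ L, FX L ≤ 1 := fun L => uone Y n 1 _ (fun L' => by split_ifs <;> simp)
  have step1 : ∑' L, ∑' L', (if HT X.h L = n ∧ HT Y.h L' = n ∧ Ev X Y m K T s W w L L' then
        LW X.Λ L * LW Y.Λ L' else 0) = ∑' L, (if HT X.h L = n then LW X.Λ L * FX L else 0) := by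
    refine tsum_congr fun L => ?_
    by_cases hL : HT X.h L = n
    · rw [if_pos hL, hFX, ← ENNReal.tsum_mul_left]
      refine tsum_congr fun L' => ?_
      by_cases h2 : HT Y.h L' = n <;> by_cases h3 : Ev X Y m K T s W w L L' <;> simp [hL, h2, h3]
    · simp [hL]
  rw [step1]
  refine (peel X.Λ X.h X.h1 X.hΛ.le X.hU T i0 eX heX J n hJn FX hFX1).trans ?_
  refine add_le_add le_rfl ?_
  have step2 : SL (lg X.Λ X.h T i0) J (fun P =>
        ∑' R, (if HT X.h R = n - HT X.h P.flatten then LW X.Λ R * FX (P.flatten ++ R) else 0))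
      ≤ SL (X.l T i0) J (fun P => J * eY + SL (Y.l T i0) J (fun P' => S P P')) := by
    refine Wk.SL_mono' _ J fun P hP hg => ?_
    refine uone X _ _ _ fun R => ?_
    have := peel Y.Λ Y.h Y.h1 Y.hΛ.le Y.hU T i0 eY heY J n hJn
      (fun L' => if Ev X Y m K T s W w (P.flatten ++ R) L' then (1 : ℝ≥0∞) else 0)
      (fun L' => by split_ifs <;> simp)
    refine this.trans (add_le_add le_rfl ?_)
    refine Wk.SL_mono' _ J fun P' hP' hg' => ?_
    refine uone Y _ _ _ fun R' => ?_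
    by_cases hE : Ev X Y m K T s W w (P.flatten ++ R) (P'.flatten ++ R')
    · rw [if_pos hE]
      obtain ⟨j, h1, h2, h3⟩ := geo X Y m K T s W i0 hT hm1 hm2 hm3 hW w P P' hP hP' hg hg' R R' hE
      refine le_trans ?_ (Finset.single_le_sum (f := fun j =>
        c j (P.take j) (P.getD j []) (P'.take j) (P'.getD j [])) (fun _ _ => zero_le)
        (Finset.mem_Ico.2 ⟨h1, h2⟩))
      simp only [hc]
      rw [X.sum_f, Y.sum_f, if_pos h3]
    · rw [if_neg hE]; exact zero_le
  refine step2.trans ?_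
  rw [SL_add_fun]
  refine add_le_add ?_ ?_
  · have := SL_const_mul (X.l T i0) J (J * eY) (fun _ => 1)
    simp only [mul_one] at this
    rw [this, SL_pow]
    calc (J : ℝ≥0∞) * eY * (∑' b, X.l T i0 b) ^ J ≤ J * eY * 1 :=
          mul_le_mul_right (pow_le_one₀ zero_le (X.l_le T i0)) _
      _ = _ := mul_one _
  · have e1 : ∀ (s' : Finset ℕ), SL (X.l T i0) J (fun P => SL (Y.l T i0) J (fun P' =>
        ∑ j ∈ s', c j (P.take j) (P.getD j []) (P'.take j) (P'.getD j [])))
        = ∑ j ∈ s', SL (X.l T i0) J (fun P => SL (Y.l T i0) J (fun P' =>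
          c j (P.take j) (P.getD j []) (P'.take j) (P'.getD j []))) := by
      intro s'
      induction s' using Finset.induction_on with
      | empty => simp [SL]
      | insert a s' ha ih =>
        simp only [Finset.sum_insert ha]
        rw [← ih, ← SL_add_fun]
        congr 1
        funext P
        rw [← SL_add_fun]
    rw [hS, e1]
    refine Finset.sum_le_sum fun j hj => ?_
    rw [Finset.mem_Ico] at hj
    obtain ⟨r, hr⟩ : ∃ r, J = j + (r + 1) := ⟨J - j - 1, by omega⟩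
    have s1 := SL_mid (X.l T i0) (X.l_le T i0) [] j r (fun P1 A => SL (Y.l T i0) J (fun P' =>
      c j P1 A (P'.take j) (P'.getD j [])))
    rw [← hr] at s1
    refine s1.trans ?_
    refine SL_mono _ j fun P1 _ => ?_
    calc ∑' A, X.l T i0 A * SL (Y.l T i0) J (fun P' => c j P1 A (P'.take j) (P'.getD j []))
        ≤ ∑' A, X.l T i0 A * SL (Y.l T i0) j (fun P1' => ∑' A', Y.l T i0 A' * c j P1 A P1' A') := by
          refine ENNReal.tsum_le_tsum fun A => mul_le_mul_right ?_ _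
          have s2 := SL_mid (Y.l T i0) (Y.l_le T i0) [] j r (fun P1' A' => c j P1 A P1' A')
          rw [← hr] at s2
          exact s2
      _ = SL (Y.l T i0) j (fun P' => ∑' A, ∑' A', X.l T i0 A * (Y.l T i0 A' * c j P1 A P' A')) := by
          rw [SL_tsum]
          refine tsum_congr fun A => ?_
          rw [← SL_const_mul]
          refine SL_congr _ j fun P' _ => ?_
          rw [ENNReal.tsum_mul_left]

end Crest.Agent.R154.Cd225
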