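import Crest.Agent.R154.Fact_346
import Crest.Agent.R154.Flux1_132

/-! Row 154, ROAD 801 (helper21): from lists of irreducible crossings (540's letters) to crossings
as words (28's letters). -/

set_option autoImplicit false

namespace Crest.Agent.R154.Glue21

open MeasureTheory ProbabilityTheory Crest.ProbabilityR.RandomEnvironment Crest.Agent.R154
open Crest.Agent.R154.Flux132 (lev opp)
open Crest.Agent.R154.Flux566 (lw endp sitesL)
open Crest.Agent.R154.NB28
open Crest.Agent.R154.B5A (LW HT)
open Crest.Agent.R154.Fact346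
open scoped ENNReal

variable {d : ℕ}

/-! ### generic trace of a list of blocks -/

section TT
variable {B G : Type*} [AddCommGroup G]

/-- trace of a list read from the tie down, hung at `x`, depth `a` (540's `TX`, `TY`) -/
def TT (s : B → Set (G × ℕ)) (z : B → G) (h : B → ℕ) : List B → G → ℕ → Set (G × ℕ)
  | [], _, _ => ∅
  | b :: L, x, a => {p | ∃ q ∈ s b, p = (x + q.1, a + q.2)} ∪ TT s z h L (x + z b) (a + h b)

end TT

/-! ### words -/

lemma mem_sitesL_add (l : List (Step d)) (x y z : Site d) :
    z ∈ sitesL (x + y) l ↔ z - x ∈ sitesL y l := by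
  induction l generalizing y with
  | nil => simp [sitesL]
  | cons e l ih =>
    simp only [sitesL, List.mem_cons]
    rw [add_assoc, ih]
    constructor
    · rintro (h | h)
      · left; rw [h]; abel
      · exact Or.inr h
    · rintro (h | h)
      · left; rw [← h]; abel
      · exact Or.inr h

lemma sitesL_append (l l' : List (Step d)) (x : Site d) :
    sitesL x (l ++ l') = sitesL x l ++ sitesL (endp x l) l' := by
  induction l generalizing x with
  | nil => rfl
  | cons e l ih => simp only [List.cons_append, sitesL, endp, ih]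

lemma endp_add (l : List (Step d)) (x : Site d) : endp x l = x + endp 0 l :=
  Flux566.endp_eq_add l x

lemma endp0_append (l l' : List (Step d)) :
    endp 0 (l ++ l') = endp 0 l + endp 0 l' := by
  rw [Flux566.endp_append, endp_add l']

lemma lev_sub (u : Step d) (x y : Site d) : lev u (x - y) = lev u x - lev u y := by
  rw [sub_eq_add_neg, Flux132.lev_add, Flux132.lev_neg]; ring

variable {P : ℕ → List (Step d) → Prop}

/-- the word of a list of up blocks (top block first) -/
def catX : List (Irr P) → List (Step d)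
  | [] => []
  | b :: L => catX L ++ b.1

lemma catX_eq (L : List (Irr P)) : catX L = fl L.reverse := by
  induction L with
  | nil => rfl
  | cons b L ih => rw [catX, ih, List.reverse_cons, fl_append]; simp [fl]

/-- up block: top is `0` -/
def sX (u : Step d) (b : Irr P) : Set (Site d × ℕ) :=
  {q | q.1 ∈ sitesL (-endp 0 b.1) b.1 ∧ lev u q.1 = -(q.2 : ℤ)}

def zX (b : Irr P) : Site d := -endp 0 b.1

/-- down block: starts one step below its top `0` -/
def sY (u : Step d) (b : Irr P) : Set (Site d × ℕ) :=
  {q | q.1 ∈ sitesL (stepVec (opp u)) b.1 ∧ lev u q.1 = -(q.2 : ℤ)}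

def zY (b : Irr P) : Site d := endp 0 b.1

lemma mem_TX (u : Step d) (h : Irr P → ℕ)
    (hh : ∀ b : Irr P, lev u (endp 0 b.1) = (h b : ℤ))
    (hs : ∀ b : Irr P, ∀ q ∈ sitesL (-endp 0 b.1) b.1, lev u q ≤ 0)
    (L : List (Irr P)) :
    ∀ (x : Site d) (a : ℕ) (z : Site d) (k : ℕ),
      (z, k) ∈ TT (sX u) zX h L x a ↔
        z ∈ sitesL (x - endp 0 (catX L)) (catX L) ∧ (k : ℤ) = a + lev u x - lev u z := by
  induction L with
  | nil => intro x a z k; simp [TT, catX, sitesL]
  | cons b L ih =>
    intro x a z k
    have e1 : x - endp 0 (catX (b :: L)) = (x + zX b) - endp 0 (catX L) := by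
      simp only [catX, zX]; rw [endp0_append]; abel
    have e2 : endp (x - endp 0 (catX (b :: L))) (catX L) = x + (-endp 0 b.1) := by
      rw [endp_add, e1]; simp only [zX]; abel
    have e3 : sitesL (x - endp 0 (catX (b :: L))) (catX (b :: L))
        = sitesL ((x + zX b) - endp 0 (catX L)) (catX L) ++ sitesL (x + (-endp 0 b.1)) b.1 := by
      rw [← e2, ← e1]
      exact sitesL_append (catX L) b.1 _
    simp only [TT, Set.mem_union, Set.mem_ofPred_eq, ih]
    rw [e3, List.mem_append, mem_sitesL_add]
    have hb := hh b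
    have l1 : lev u (x + zX b) = lev u x - h b := by
      rw [zX, Flux132.lev_add, Flux132.lev_neg, hb]; ring
    constructor
    · rintro (⟨q, ⟨hq1, hq2⟩, he⟩ | ⟨h1, h2⟩)
      · have h3 : z = x + q.1 := congrArg Prod.fst he
        have h4 : k = a + q.2 := congrArg Prod.snd he
        refine ⟨Or.inr ?_, ?_⟩
        · rw [h3, add_sub_cancel_left]; exact hq1
        · rw [h3, h4, Flux132.lev_add, hq2]; push_cast; ring
      · refine ⟨Or.inl h1, ?_⟩
        rw [l1] at h2; push_cast at h2; rw [h2]; ring
    · rintro ⟨h1 | h1, h2⟩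
      · refine Or.inr ⟨h1, ?_⟩
        rw [l1, h2]; push_cast; ring
      · have h5 := hs b _ h1
        rw [lev_sub] at h5
        have h6 : a ≤ k := by omega
        refine Or.inl ⟨(z - x, k - a), ⟨h1, ?_⟩, ?_⟩
        · simp only [lev_sub]
          omega
        · rw [Prod.mk.injEq]
          exact ⟨by simp only; abel, by simp only; omega⟩

lemma mem_TY (u : Step d) (h : Irr P → ℕ)
    (hh : ∀ b : Irr P, lev u (endp 0 b.1) = -(h b : ℤ))
    (hs : ∀ b : Irr P, ∀ q ∈ sitesL (stepVec (opp u)) b.1, lev u q ≤ 0)
    (L : List (Irr P)) :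
    ∀ (x : Site d) (a : ℕ) (z : Site d) (k : ℕ),
      (z, k) ∈ TT (sY u) zY h L x a ↔
        z ∈ sitesL (x + stepVec (opp u)) (fl L) ∧ (k : ℤ) = a + lev u x - lev u z := by
  induction L with
  | nil => intro x a z k; simp [TT, fl, sitesL]
  | cons b L ih =>
    intro x a z k
    have e2 : endp (x + stepVec (opp u)) b.1 = (x + zY b) + stepVec (opp u) := by
      rw [endp_add]; simp only [zY]; abel
    have e3 : sitesL (x + stepVec (opp u)) (fl (b :: L))
        = sitesL (x + stepVec (opp u)) b.1 ++ sitesL ((x + zY b) + stepVec (opp u)) (fl L) := by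
      rw [← e2]
      exact sitesL_append b.1 (fl L) _
    simp only [TT, Set.mem_union, Set.mem_ofPred_eq, ih]
    rw [e3, List.mem_append, mem_sitesL_add _ x (stepVec (opp u)) z]
    have hb := hh b
    have l1 : lev u (x + zY b) = lev u x - h b := by
      rw [zY, Flux132.lev_add, hb]; ring
    constructor
    · rintro (⟨q, ⟨hq1, hq2⟩, he⟩ | ⟨h1, h2⟩)
      · have h3 : z = x + q.1 := congrArg Prod.fst he
        have h4 : k = a + q.2 := congrArg Prod.snd he
        refine ⟨Or.inl ?_, ?_⟩
        · rw [h3, add_sub_cancel_left]; exact hq1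
        · rw [h3, h4, Flux132.lev_add, hq2]; push_cast; ring
      · refine ⟨Or.inr h1, ?_⟩
        rw [l1] at h2; push_cast at h2; rw [h2]; ring
    · rintro ⟨h1 | h1, h2⟩
      · have h5 := hs b _ h1
        rw [lev_sub] at h5
        have h6 : a ≤ k := by omega
        refine Or.inl ⟨(z - x, k - a), ⟨h1, ?_⟩, ?_⟩
        · simp only [lev_sub]
          omega
        · rw [Prod.mk.injEq]
          exact ⟨by simp only; abel, by simp only; omega⟩
      · refine Or.inr ⟨h1, ?_⟩
        rw [l1, h2]; push_cast; ring

end Crest.Agent.R154.Glue21
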