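import Crest.Agent.R154.B5Rec_566

/-! Row 154, ROAD 801 (helper689): the thin slab at the bottom of a crossing, joint-cut lists. -/

set_option autoImplicit false

namespace Crest.Agent.R154.Slab689

open scoped ENNReal
open Filter Topology
open Crest.Agent.R154.B5A

variable {B W : Type*} (Λ : B → ℝ≥0∞) (ht : B → ℕ) (dl : B → W → W) (cd : W → B → Set ℕ)

lemma CD_far (hinj : ∀ b, Function.Injective (dl b)) (hfar : ∀ b, {w | cd w b ≠ ∅}.Finite)
    (L : List B) : {w | CD ht dl cd L w ≠ ∅}.Finite := by
  induction L with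
  | nil => simp [CD]
  | cons b L ih =>
    refine ((hfar b).union (ih.preimage ((hinj b).injOn))).subset ?_
    intro w hw
    by_contra hne
    simp only [Set.mem_union, Set.mem_ofPred_eq, Set.mem_preimage, not_or, not_not] at hne
    exact hw (by simp [CD, hne.1, hne.2])

open Classical in
/-- splitting off the last `s` blocks -/
lemma tsum_last_le (s : ℕ) (g : List B → ℝ≥0∞) :
    ∑' L : List B, (if s ≤ L.length then g L else 0)
      ≤ ∑' L2 : List B, (if L2.length = s then ∑' L1 : List B, g (L1 ++ L2) else 0) := by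
  have hinj : Function.Injective (fun L : {L : List B // s ≤ L.length} =>
      ((L.1.drop (L.1.length - s), L.1.take (L.1.length - s)) : List B × List B)) := by
    rintro ⟨L, hL⟩ ⟨L', hL'⟩ h
    simp only [Prod.mk.injEq] at h
    apply Subtype.ext
    have h1 := List.take_append_drop (L.length - s) L
    have h2 := List.take_append_drop (L'.length - s) L'
    change L = L'
    rw [← h1, ← h2, h.1, h.2]
  have e1 : ∑' L : List B, (if s ≤ L.length then g L else 0)
      = ∑' L : {L : List B // s ≤ L.length}, g L.1 := by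
    have := tsum_subtype {L : List B | s ≤ L.length} g
    rw [show (∑' L : {L : List B // s ≤ L.length}, g L.1)
      = ∑' L : {L : List B | s ≤ L.length}, g L.1 from rfl, this]
    refine tsum_congr fun L => ?_
    simp [Set.indicator_apply]
  have e2 : ∑' L2 : List B, (if L2.length = s then ∑' L1 : List B, g (L1 ++ L2) else 0)
      = ∑' p : List B × List B, (if p.1.length = s then g (p.2 ++ p.1) else 0) := by
    rw [ENNReal.tsum_prod (f := fun (a b : List B) => if a.length = s then g (b ++ a) else 0)]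
    refine tsum_congr fun L2 => ?_
    by_cases h : L2.length = s <;> simp [h]
  rw [e1, e2]
  refine le_trans (le_of_eq ?_) (ENNReal.tsum_comp_le_tsum_of_injective hinj _)
  refine tsum_congr fun L => ?_
  obtain ⟨L, hL⟩ := L
  simp only
  rw [if_pos (by rw [List.length_drop]; omega), List.take_append_drop]

open Classical in
/-- **thin slab**: contact in the last `s` levels of a crossing of exact height `δ`. -/
theorem slab (h1 : ∀ b, 1 ≤ ht b)
    (hcd : ∀ w b k, k ∈ cd w b → 1 ≤ k ∧ k ≤ ht b)
    (hinj : ∀ b, Function.Injective (dl b)) (hfar : ∀ b, {w | cd w b ≠ ∅}.Finite)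
    (hΛ : ∑' b, Λ b = 1)
    (hU1 : ∀ n, U Λ ht n ≤ 1)
    (hconc : ∀ ε : ℝ≥0∞, ε ≠ 0 → ∃ D : ℕ, ∀ n, D ≤ n → ∀ w w' : W,
      ∑' L : List B, (if HT ht L = n ∧ act dl L w = w' then LW Λ L else 0) ≤ ε) :
    ∀ s : ℕ, ∀ ε : ℝ≥0∞, ε ≠ 0 → ∃ D0 : ℕ, ∀ δ, D0 ≤ δ → ∀ w,
      ∑' L : List B, (if HT ht L = δ ∧ ∃ k ∈ CD ht dl cd L w, δ < k + s then LW Λ L else 0)
        ≤ ε := by
  intro s ε hε
  by_cases hεt : ε = ⊤
  · exact ⟨0, fun δ _ w => by rw [hεt]; exact le_top⟩
  -- finite set of bottom lists
  set f : List B → ℝ≥0∞ := fun L => if L.length = s then LW Λ L else 0 with hf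
  have hf1 : ∑' L, f L = 1 := by
    have := SL_one Λ hΛ s
    rw [SL] at this
    simpa [hf] using this
  have hlim := ENNReal.tendsto_tsum_compl_atTop_zero (f := f) (by rw [hf1]; simp)
  have hε3 : (0 : ℝ≥0∞) < ε / 3 := ENNReal.div_pos hε (by norm_num)
  obtain ⟨S, hS⟩ := ((hlim.eventually (ge_mem_nhds hε3)).exists)
  -- number of displacements in contact
  set N : ℕ := ∑ L ∈ S, ((CD_far ht dl cd hinj hfar L).toFinset).card with hN
  set H0 : ℕ := ∑ L ∈ S, HT ht L with hH0
  obtain ⟨D, hD⟩ := hconc (ε / 3 / (N + 1)) (by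
    refine (ENNReal.div_pos hε3.ne' ?_).ne'
    exact_mod_cast ENNReal.natCast_ne_top (N + 1))
  -- short lists
  obtain ⟨D1, hD1⟩ : ∃ D1 : ℕ, ∀ δ, D1 ≤ δ → ∑' L : List B,
      (if L.length < s ∧ HT ht L = δ then LW Λ L else 0) ≤ ε / 3 := by
    have hsum : ∑' L : List B, (if L.length < s then LW Λ L else 0) ≠ ⊤ := by
      have : ∑' L : List B, (if L.length < s then LW Λ L else 0)
          ≤ ∑ j ∈ Finset.range s, SL Λ j (fun _ => 1) := by
        simp only [SL]
        rw [← Summable.tsum_finsetSum (fun _ _ => ENNReal.summable)]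
        refine ENNReal.tsum_le_tsum fun L => ?_
        by_cases h : L.length < s
        · rw [if_pos h]
          refine le_trans ?_ (Finset.single_le_sum (f := fun j =>
            if L.length = j then LW Λ L * 1 else 0) (fun _ _ => zero_le)
            (Finset.mem_range.2 h))
          simp
        · rw [if_neg h]; exact zero_le
      refine ne_top_of_le_ne_top ?_ this
      simp [SL_one Λ hΛ]
    have hlim2 := ENNReal.tendsto_tsum_compl_atTop_zero hsum
    obtain ⟨S', hS'⟩ := ((hlim2.eventually (ge_mem_nhds hε3)).exists)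
    refine ⟨(∑ L ∈ S', HT ht L) + 1, fun δ hδ => ?_⟩
    refine le_trans ?_ hS'
    have e := tsum_subtype {x | x ∉ S'} (fun L : List B => if L.length < s then LW Λ L else 0)
    rw [show (∑' b : {x // x ∉ S'}, (fun L : List B => if L.length < s then LW Λ L else 0) b)
      = ∑' b : {x | x ∉ S'}, (fun L : List B => if L.length < s then LW Λ L else 0) b from rfl, e]
    refine ENNReal.tsum_le_tsum fun L => ?_
    by_cases h : L.length < s ∧ HT ht L = δ
    · rw [if_pos h, Set.indicator_of_mem, if_pos h.1]
      intro hL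
      have := Finset.single_le_sum (f := fun L => HT ht L) (fun _ _ => Nat.zero_le _) hL
      omega
    · rw [if_neg h]; exact zero_le
  refine ⟨D + H0 + D1 + s + 1, fun δ hδ w => ?_⟩
  -- split in short and long lists
  have hsplit : ∑' L : List B,
      (if HT ht L = δ ∧ ∃ k ∈ CD ht dl cd L w, δ < k + s then LW Λ L else 0)
      ≤ ∑' L : List B, (if L.length < s ∧ HT ht L = δ then LW Λ L else 0)
        + ∑' L : List B, (if s ≤ L.length then
          (if HT ht L = δ ∧ ∃ k ∈ CD ht dl cd L w, δ < k + s then LW Λ L else 0) else 0) := by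
    rw [← ENNReal.tsum_add]
    refine ENNReal.tsum_le_tsum fun L => ?_
    by_cases hA : HT ht L = δ ∧ ∃ k ∈ CD ht dl cd L w, δ < k + s
    · rcases lt_or_ge L.length s with hL | hL
      · simp [hA, hL]
      · simp [hA, hL]
    · rw [if_neg hA]; exact zero_le
  refine hsplit.trans ?_
  have hlong : ∑' L : List B, (if s ≤ L.length then
          (if HT ht L = δ ∧ ∃ k ∈ CD ht dl cd L w, δ < k + s then LW Λ L else 0) else 0)
      ≤ ε / 3 + ε / 3 := by
    refine (tsum_last_le s _).trans ?_
    -- bound for one bottom list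
    have hone : ∀ L2 : List B, L2.length = s → ∑' L1 : List B,
        (if HT ht (L1 ++ L2) = δ ∧ ∃ k ∈ CD ht dl cd (L1 ++ L2) w, δ < k + s
          then LW Λ (L1 ++ L2) else 0)
        ≤ LW Λ L2 * ∑' L1 : List B, (if HT ht L1 + HT ht L2 = δ ∧
          CD ht dl cd L2 (act dl L1 w) ≠ ∅ then LW Λ L1 else 0) := by
      intro L2 hL2
      rw [← ENNReal.tsum_mul_left]
      refine ENNReal.tsum_le_tsum fun L1 => ?_
      by_cases hA : HT ht (L1 ++ L2) = δ ∧ ∃ k ∈ CD ht dl cd (L1 ++ L2) w, δ < k + s
      · obtain ⟨hA1, k, hk, hk2⟩ := hA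
        rw [HT_append] at hA1
        have hs : s ≤ HT ht L2 := by rw [← hL2]; exact length_le_HT ht h1 L2
        have hc : CD ht dl cd L2 (act dl L1 w) ≠ ∅ := by
          rw [CD_append] at hk
          rcases hk with hk | ⟨k', hk', rfl⟩
          · have := CD_pos ht dl cd hcd L1 w k hk
            omega
          · exact fun h => by rw [h] at hk'; exact hk'
        rw [if_pos ⟨by rw [HT_append]; exact hA1, k, hk, hk2⟩, if_pos ⟨hA1, hc⟩, LW_append,
          mul_comm]
      · rw [if_neg hA]; exact zero_le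
    have hle1 : ∀ L2 : List B, ∑' L1 : List B, (if HT ht L1 + HT ht L2 = δ ∧
          CD ht dl cd L2 (act dl L1 w) ≠ ∅ then LW Λ L1 else 0) ≤ 1 := by
      intro L2
      refine le_trans ?_ (hU1 (δ - HT ht L2))
      rw [U]
      refine ENNReal.tsum_le_tsum fun L1 => ?_
      by_cases hA : HT ht L1 + HT ht L2 = δ ∧ CD ht dl cd L2 (act dl L1 w) ≠ ∅
      · rw [if_pos hA, if_pos (by omega)]
      · rw [if_neg hA]; exact zero_le
    have hfin : ∀ L2 ∈ S, ∑' L1 : List B, (if HT ht L1 + HT ht L2 = δ ∧
          CD ht dl cd L2 (act dl L1 w) ≠ ∅ then LW Λ L1 else 0) ≤ ε / 3 := by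
      intro L2 hL2
      have hH : HT ht L2 ≤ H0 :=
        Finset.single_le_sum (f := fun L => HT ht L) (fun _ _ => Nat.zero_le _) hL2
      set Fs := (CD_far ht dl cd hinj hfar L2).toFinset with hFs
      have hcard : Fs.card ≤ N := Finset.single_le_sum
        (f := fun L => ((CD_far ht dl cd hinj hfar L).toFinset).card)
        (fun _ _ => Nat.zero_le _) hL2
      calc ∑' L1 : List B, (if HT ht L1 + HT ht L2 = δ ∧
          CD ht dl cd L2 (act dl L1 w) ≠ ∅ then LW Λ L1 else 0)
          ≤ ∑' L1 : List B, ∑ w' ∈ Fs, (if HT ht L1 = δ - HT ht L2 ∧ act dl L1 w = w'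
              then LW Λ L1 else 0) := by
            refine ENNReal.tsum_le_tsum fun L1 => ?_
            by_cases hA : HT ht L1 + HT ht L2 = δ ∧ CD ht dl cd L2 (act dl L1 w) ≠ ∅
            · rw [if_pos hA]
              have hm : act dl L1 w ∈ Fs := by
                rw [hFs, Set.Finite.mem_toFinset]; exact hA.2
              refine le_trans ?_ (Finset.single_le_sum (f := fun w' =>
                if HT ht L1 = δ - HT ht L2 ∧ act dl L1 w = w' then LW Λ L1 else 0)
                (fun _ _ => zero_le) hm)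
              simp only
              rw [if_pos ⟨by omega, trivial⟩]
            · rw [if_neg hA]; exact zero_le
        _ = ∑ w' ∈ Fs, ∑' L1 : List B, (if HT ht L1 = δ - HT ht L2 ∧ act dl L1 w = w'
              then LW Λ L1 else 0) :=
            Summable.tsum_finsetSum (fun _ _ => ENNReal.summable)
        _ ≤ ∑ _w' ∈ Fs, ε / 3 / (N + 1) :=
            Finset.sum_le_sum fun w' _ => hD _ (by omega) _ _
        _ = Fs.card * (ε / 3 / (N + 1)) := by rw [Finset.sum_const, nsmul_eq_mul]
        _ ≤ (N + 1 : ℝ≥0∞) * (ε / 3 / (N + 1)) := by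
            refine mul_le_mul_left ?_ _
            have : (Fs.card : ℝ≥0∞) ≤ (N : ℝ≥0∞) := by exact_mod_cast hcard
            exact this.trans le_self_add
        _ ≤ ε / 3 := ENNReal.mul_div_le
    calc ∑' L2 : List B, (if L2.length = s then ∑' L1 : List B,
        (if HT ht (L1 ++ L2) = δ ∧ ∃ k ∈ CD ht dl cd (L1 ++ L2) w, δ < k + s
          then LW Λ (L1 ++ L2) else 0) else 0)
        ≤ ∑' L2 : List B, (f L2 * (ε / 3) + (if L2 ∈ S then 0 else f L2)) := by
          refine ENNReal.tsum_le_tsum fun L2 => ?_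
          by_cases h : L2.length = s
          · rw [if_pos h]
            refine (hone L2 h).trans ?_
            by_cases hL : L2 ∈ S
            · rw [if_pos hL, add_zero]
              simp only [hf, if_pos h]
              exact mul_le_mul_right (hfin L2 hL) _
            · rw [if_neg hL]
              refine le_trans ?_ le_add_self
              simp only [hf, if_pos h]
              exact (mul_le_mul_right (hle1 L2) _).trans (mul_one _).le
          · rw [if_neg h]; exact zero_le
      _ = ε / 3 + ∑' L2 : List B, (if L2 ∈ S then 0 else f L2) := by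
          rw [ENNReal.tsum_add, ENNReal.tsum_mul_right, hf1, one_mul]
      _ ≤ ε / 3 + ε / 3 := by
          refine add_le_add le_rfl (le_trans (le_of_eq ?_) hS)
          have e := tsum_subtype {x | x ∉ S} f
          rw [show (∑' b : {x // x ∉ S}, f b) = ∑' b : {x | x ∉ S}, f b from rfl, e]
          refine tsum_congr fun L => ?_
          by_cases hL : L ∈ S <;> simp [Set.indicator_apply, hL]
  refine (add_le_add (hD1 δ (by omega)) hlong).trans (le_of_eq ?_)
  rw [← add_assoc, ENNReal.add_thirds]

end Crest.Agent.R154.Slab689
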