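import Crest.Agent.R154.Comp_818
import Crest.Agent.R154.JHit_139
import Crest.Agent.R154.Num_337
import Crest.Agent.R154.Gap_583
import Crest.Agent.R154.Slab_689

/-! Row 154, ROAD 801, joint-cut frame (helper849): 818's composition `comp` fed by 139's `hit_le`,
583's gap and 689's slab.  Output = 181's `hK` from `hW` (139's literal) and `hconc`. -/

set_option autoImplicit false

namespace Crest.Agent.R154.Glue849

open scoped ENNReal
open Filter Topology Crest.Agent.R154.B5A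
open Crest.Agent.R154.FP178 (fp fp_nil fp_cons sum_FP)
open Crest.Agent.R154.Comp818 (att WLp Slb Gap comp)
open Crest.Agent.R154.JAsm139 (card hitS Good hit_le)

variable {B W : Type*} (Λ : B → ℝ≥0∞) (ht : B → ℕ) (dl : B → W → W) (cd : W → B → Set ℕ)

lemma fp_of_att (L : List B) : ∀ a, att ht a L → fp ht a L := by
  induction L with
  | nil =>
    intro a h
    rw [fp_nil]
    have := h.1
    rw [HT_nil] at this
    omega
  | cons b L ih =>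
    intro a h
    rw [fp_cons]
    have h0 : 0 < a := by
      have := h.2 0 (by simp)
      simpa [HT] using this
    refine ⟨h0, ih _ ⟨?_, fun i hi => ?_⟩⟩
    · have := h.1
      rw [HT_cons] at this
      omega
    · have := h.2 (i + 1) (by simpa using hi)
      rw [List.take_succ_cons, HT_cons] at this
      omega

lemma tail_small (h1 : ∀ b, 1 ≤ ht b) (c : ℝ≥0∞) (hc : c ≠ 0) (hU : ∀ n, c ≤ U Λ ht n)
    (hU1 : ∀ n, U Λ ht n ≤ 1) :
    Tendsto (fun H : ℕ => ∑' k, tail Λ ht (H + k)) atTop (𝓝 0) := by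
  have hcle : c ≤ 1 := (hU 0).trans (hU1 0)
  have hc' : c ≠ ⊤ := ne_top_of_le_ne_top ENNReal.one_ne_top hcle
  have hΛ : ∑' b, Λ b = 1 :=
    le_antisymm (mass_le_one Λ ht h1 hU1) (mass_ge_one Λ ht c hc 0 fun n _ => hU n)
  have hE : ∑' k, tail Λ ht k ≠ ⊤ := by
    rw [← sum_tail Λ ht hΛ]
    exact ne_top_of_le_ne_top (ENNReal.inv_ne_top.2 hc)
      (mean_le Λ ht h1 hΛ c hc hc' 0 fun n _ => hU n)
  have := ENNReal.tendsto_sum_nat_add (fun k => tail Λ ht k) hE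
  refine this.congr fun H => tsum_congr fun k => by rw [add_comm]

/-- 139's window input -/
def HW (c1 : ℝ≥0∞) : Prop :=
  ∀ u η : ℝ≥0∞, u ≠ 0 → u ≤ 1 → η ≠ 0 → ∃ s H0 : ℕ, ∀ H, H0 ≤ H → ∃ S1 S2 : Set W,
    Good Λ ht dl (c1 * u) η H S1 ∧ Good Λ ht dl (c1 * u) η H S2 ∧
    ∀ w, w ∉ S1 → w ∉ S2 → WLp Λ ht dl cd H s w ≤ u * u + η

lemma WLp_le_one (hU1 : ∀ n, U Λ ht n ≤ 1) (H s : ℕ) (w : W) : WLp Λ ht dl cd H s w ≤ 1 := by
  classical
  refine le_trans (ENNReal.tsum_le_tsum fun L => ?_) (hU1 H)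
  by_cases h : HT ht L = H
  · rw [if_pos h]; split_ifs <;> simp
  · rw [if_neg h, if_neg (fun h' => h h'.1)]

open Classical in
/-- 818's `hWin` from 139's density line -/
theorem hWin_of (h1 : ∀ b, 1 ≤ ht b) (hinj : ∀ b, Function.Injective (dl b))
    (c : ℝ≥0∞) (hc : c ≠ 0) (hU : ∀ n, c ≤ U Λ ht n) (hU1 : ∀ n, U Λ ht n ≤ 1)
    (c1 : ℝ≥0∞) (hc1 : c1 ≠ 0) (hc11 : c1 ≤ 1) (hW : HW Λ ht dl cd c1) :
    ∀ ε : ℝ≥0∞, ε ≠ 0 → ∃ K : ℕ, 1 ≤ K ∧ ∀ i0 : ℕ, ∃ s H0 : ℕ, ∀ H, H0 ≤ H →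
      ∀ a, K * H ≤ 8 * a → ∀ w, ∑' L1 : List B, (if att ht a L1 ∧ HT ht L1 ≤ a + i0 then
        LW Λ L1 * WLp Λ ht dl cd H s (act dl L1 w) else 0) ≤ ε / K := by
  intro ε hε
  have hΛ : ∑' b, Λ b = 1 :=
    le_antisymm (mass_le_one Λ ht h1 hU1) (mass_ge_one Λ ht c hc 0 fun n _ => hU n)
  have hc1t : c1 ≠ ⊤ := ne_top_of_le_ne_top ENNReal.one_ne_top hc11
  have h4 : ε / 4 ≠ 0 := (ENNReal.div_pos hε (by norm_num)).ne'
  have h8 : ε / 8 ≠ 0 := (ENNReal.div_pos hε (by norm_num)).ne'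
  set ε' : ℝ≥0∞ := min (c1 * c1) (min (ε / 4 * (c1 * c1)) (ε / 8)) with hε'
  have hcc : c1 * c1 ≠ 0 := mul_ne_zero hc1 hc1
  have hcct : c1 * c1 ≠ ⊤ := ENNReal.mul_ne_top hc1t hc1t
  have hε'0 : ε' ≠ 0 := by
    rw [hε']
    exact (lt_min (pos_iff_ne_zero.2 hcc) (lt_min (pos_iff_ne_zero.2 (mul_ne_zero h4 hcc))
      (pos_iff_ne_zero.2 h8))).ne'
  obtain ⟨K', v, hK4, hv0, hv1, hv2, hv3⟩ := Num337.exKu ε' hε'0
  have hK'8 : (K' : ℝ≥0∞) ≤ ((4 * K' + 8 : ℕ) : ℝ≥0∞) := by exact_mod_cast by omega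
  have h4K'8 : ((4 * K' : ℕ) : ℝ≥0∞) ≤ ((4 * K' + 8 : ℕ) : ℝ≥0∞) := by exact_mod_cast by omega
  have h18 : (1 : ℝ≥0∞) ≤ ((4 * K' + 8 : ℕ) : ℝ≥0∞) := by exact_mod_cast by omega
  have hvt : v ≠ ⊤ := ne_top_of_le_ne_top ENNReal.one_ne_top hv1.le
  -- u = v / c1
  set u : ℝ≥0∞ := v / c1 with hu
  have hcu : c1 * u = v := ENNReal.mul_div_cancel hc1 hc1t
  have hu0 : u ≠ 0 := (ENNReal.div_pos hv0 hc1t).ne'
  have hvv : v * v ≤ c1 * c1 := by
    calc v * v = 1 * (v * v) := (one_mul _).symm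
      _ ≤ ((4 * K' + 8 : ℕ) : ℝ≥0∞) * (v * v) := mul_le_mul_left h18 _
      _ ≤ ε' := hv2
      _ ≤ c1 * c1 := min_le_left _ _
  have hvc : v ≤ c1 := by
    by_contra h
    rw [not_le] at h
    have : c1 * c1 < v * v := ENNReal.mul_lt_mul h h
    exact absurd hvv (not_le.2 this)
  have hu1 : u ≤ 1 := by
    rw [hu]; exact ENNReal.div_le_of_le_mul (by rwa [one_mul])
  set K : ℕ := 4 * K' with hK
  set J : ℕ := K' / 4 with hJ
  have hK1 : 1 ≤ K := by omega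
  have hKt : (K : ℝ≥0∞) ≠ ⊤ := ENNReal.natCast_ne_top K
  have hKu : (K : ℝ≥0∞) * (u * u) ≤ ε / 4 := by
    have e : (c1 * c1) * ((K : ℝ≥0∞) * (u * u)) ≤ (c1 * c1) * (ε / 4) := by
      calc (c1 * c1) * ((K : ℝ≥0∞) * (u * u)) = (K : ℝ≥0∞) * ((c1 * u) * (c1 * u)) := by ring
        _ = (K : ℝ≥0∞) * (v * v) := by rw [hcu]
        _ ≤ ((4 * K' + 8 : ℕ) : ℝ≥0∞) * (v * v) := mul_le_mul_left h4K'8 _
        _ ≤ ε' := hv2
        _ ≤ ε / 4 * (c1 * c1) := (min_le_right _ _).trans (min_le_left _ _)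
        _ = (c1 * c1) * (ε / 4) := mul_comm _ _
    exact (ENNReal.mul_le_mul_iff_right hcc hcct).1 e
  have hKJ : (K : ℝ≥0∞) * (1 - v) ^ J ≤ ε / 8 := by
    calc (K : ℝ≥0∞) * (1 - v) ^ J ≤ ((4 * K' + 8 : ℕ) : ℝ≥0∞) * (1 - v) ^ J :=
          mul_le_mul_left h4K'8 _
      _ ≤ ε' := hv3
      _ ≤ ε / 8 := (min_le_right _ _).trans (min_le_right _ _)
  -- η
  set D : ℝ≥0∞ := (K : ℝ≥0∞) * (1 + 2 * J) with hD
  have hDt : D ≠ ⊤ := by rw [hD]; finiteness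
  set η : ℝ≥0∞ := (ε / 4) / D with hη
  have hη0 : η ≠ 0 := (ENNReal.div_pos h4 hDt).ne'
  have hDη : D * η ≤ ε / 4 := ENNReal.mul_div_le
  obtain ⟨n0, hn0⟩ := Num337.exSmall (fun H : ℕ => ∑' k, tail Λ ht (H + k))
    (tail_small Λ ht h1 c hc hU hU1) ((K : ℝ≥0∞) * (2 * J)) (by finiteness) (ε / 4) h4
  obtain ⟨s, H0, hH0⟩ := hW u η hu0 hu1 hη0
  refine ⟨K, hK1, fun i0 => ⟨s, max H0 n0, fun H hH a ha w => ?_⟩⟩
  obtain ⟨S1, S2, g1, g2, hS⟩ := hH0 H (le_trans (le_max_left _ _) hH)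
  rw [hcu] at g1 g2
  have hJa : J * (2 * H) ≤ a := by
    have e1 : 4 * J ≤ K' := by rw [hJ]; omega
    have e2 : 4 * J * (4 * H) ≤ K' * (4 * H) := Nat.mul_le_mul_right _ e1
    have e3 : K * H = K' * (4 * H) := by rw [hK]; ring
    have e4 : 4 * J * (4 * H) = 8 * (J * (2 * H)) := by ring
    omega
  have b1 := hit_le Λ ht dl h1 hΛ hU1 hinj v η H S1 g1 J a hJa w
  have b2 := hit_le Λ ht dl h1 hΛ hU1 hinj v η H S2 g2 J a hJa w
  have htl := hn0 H (le_trans (le_max_right _ _) hH)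
  set e : ℝ≥0∞ := ∑' k, tail Λ ht (H + k) with he
  have hpt : ∀ x : W, WLp Λ ht dl cd H s x ≤ (u * u + η) +
      (S1.indicator (fun _ => (1 : ℝ≥0∞)) x + S2.indicator (fun _ => (1 : ℝ≥0∞)) x) := by
    intro x
    by_cases x1 : x ∈ S1
    · rw [Set.indicator_of_mem x1]
      refine (WLp_le_one Λ ht dl cd hU1 H s x).trans ?_
      exact le_add_left le_self_add
    · by_cases x2 : x ∈ S2
      · rw [Set.indicator_of_mem x2]
        refine (WLp_le_one Λ ht dl cd hU1 H s x).trans ?_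
        exact le_add_left le_add_self
      · exact (hS x x1 x2).trans le_self_add
  have hsum : ∑' L1 : List B, (if att ht a L1 ∧ HT ht L1 ≤ a + i0 then
        LW Λ L1 * WLp Λ ht dl cd H s (act dl L1 w) else 0)
      ≤ (u * u + η) + (hitS Λ ht dl a S1 w + hitS Λ ht dl a S2 w) := by
    calc _ ≤ ∑' L1 : List B, ((if fp ht a L1 then LW Λ L1 else 0) * (u * u + η) +
          ((if fp ht a L1 then LW Λ L1 * S1.indicator (fun _ => (1 : ℝ≥0∞)) (act dl L1 w) else 0) +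
          (if fp ht a L1 then LW Λ L1 * S2.indicator (fun _ => (1 : ℝ≥0∞)) (act dl L1 w)
            else 0))) := by
          refine ENNReal.tsum_le_tsum fun L1 => ?_
          by_cases h : att ht a L1 ∧ HT ht L1 ≤ a + i0
          · have hf := fp_of_att ht L1 a h.1
            rw [if_pos h, if_pos hf, if_pos hf, if_pos hf, ← mul_add, ← mul_add]
            exact mul_le_mul_right (hpt _) _
          · rw [if_neg h]; exact zero_le
      _ = (∑' L1 : List B, (if fp ht a L1 then LW Λ L1 else 0)) * (u * u + η) +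
          (hitS Λ ht dl a S1 w + hitS Λ ht dl a S2 w) := by
          rw [ENNReal.tsum_add, ENNReal.tsum_add, ENNReal.tsum_mul_right]
          rfl
      _ ≤ 1 * (u * u + η) + (hitS Λ ht dl a S1 w + hitS Λ ht dl a S2 w) :=
          add_le_add (mul_le_mul_left (sum_FP Λ ht h1 hΛ.le a) _) le_rfl
      _ = _ := by rw [one_mul]
  refine hsum.trans ?_
  rw [ENNReal.le_div_iff_mul_le (Or.inl (by exact_mod_cast (by omega : K ≠ 0))) (Or.inl hKt)]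
  calc ((u * u + η) + (hitS Λ ht dl a S1 w + hitS Λ ht dl a S2 w)) * K
      ≤ ((u * u + η) + (((1 - v) ^ J + J * (η + e)) + ((1 - v) ^ J + J * (η + e)))) * K := by
        gcongr
    _ = (K : ℝ≥0∞) * (u * u) + D * η + (K : ℝ≥0∞) * (2 * J) * e
        + ((K : ℝ≥0∞) * (1 - v) ^ J + (K : ℝ≥0∞) * (1 - v) ^ J) := by rw [hD]; ring
    _ ≤ ε / 4 + ε / 4 + ε / 4 + (ε / 8 + ε / 8) := by gcongr
    _ = ε := by
        have e8 : ε / 8 + ε / 8 = ε / 4 := by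
          rw [← ENNReal.add_div, ← two_mul, show (8 : ℝ≥0∞) = 2 * 4 by norm_num]
          exact ENNReal.mul_div_mul_left _ _ (by norm_num) (by norm_num)
        have e4 : ε / 4 + ε / 4 = ε / 2 := by
          rw [← ENNReal.add_div, ← two_mul, show (4 : ℝ≥0∞) = 2 * 2 by norm_num]
          exact ENNReal.mul_div_mul_left _ _ (by norm_num) (by norm_num)
        rw [e8, add_assoc, e4, ENNReal.add_halves]

open Classical in
/-- **181's `hK` from `HW` and `hconc`.** -/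
theorem kap_of (h1 : ∀ b, 1 ≤ ht b) (hcd : ∀ w b k, k ∈ cd w b → 1 ≤ k ∧ k ≤ ht b)
    (hinj : ∀ b, Function.Injective (dl b)) (hfar : ∀ b, {w | cd w b ≠ ∅}.Finite)
    (c : ℝ≥0∞) (hc : c ≠ 0) (hU : ∀ n, c ≤ U Λ ht n) (hU1 : ∀ n, U Λ ht n ≤ 1)
    (hconc : ∀ ε : ℝ≥0∞, ε ≠ 0 → ∃ D : ℕ, ∀ n, D ≤ n → ∀ w w' : W,
      ∑' L : List B, (if HT ht L = n ∧ act dl L w = w' then LW Λ L else 0) ≤ ε)
    (c1 : ℝ≥0∞) (hc1 : c1 ≠ 0) (hc11 : c1 ≤ 1) (hW : HW Λ ht dl cd c1) :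
    ∀ ε : ℝ≥0∞, ε ≠ 0 → ∃ M : ℕ, ∀ m, M ≤ m → ∀ n, 2 * m ≤ n → ∀ w,
      Kap1 Λ ht dl cd n m w ≤ ε := by
  have hΛ : ∑' b, Λ b = 1 :=
    le_antisymm (mass_le_one Λ ht h1 hU1) (mass_ge_one Λ ht c hc 0 fun n _ => hU n)
  refine comp Λ ht dl cd h1 hcd c hc hU hU1 ?_ ?_
    (hWin_of Λ ht dl cd h1 hinj c hc hU hU1 c1 hc1 hc11 hW)
  · intro ε hε
    have ht0 := Gap583.gap_tendsto Λ ht h1 c hc 0 (fun n _ => hU n) hU1
    obtain ⟨i0, hi0⟩ := Num337.exSmall _ ht0 1 ENNReal.one_ne_top ε hε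
    refine ⟨i0, fun a n hn => ?_⟩
    have h2 := hi0 i0 le_rfl
    rw [one_mul] at h2
    refine le_trans ?_ ((Gap583.gap_le Λ ht hU1 a i0 n hn).trans h2)
    refine ENNReal.tsum_le_tsum fun L => ?_
    by_cases h : HT ht L = n ∧ (∀ i, ¬ (a ≤ HT ht (L.take i) ∧ HT ht (L.take i) ≤ a + i0))
    · rw [if_pos h, if_pos]
      refine ⟨h.1, fun L1 L2 hL => ?_⟩
      have := h.2 L1.length
      rwa [hL, List.take_left'] at this
      rfl
    · rw [if_neg h]; exact zero_le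
  · intro s ε hε
    exact Slab689.slab Λ ht dl cd h1 hcd hinj hfar hΛ hU1 hconc s ε hε

end Crest.Agent.R154.Glue849
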