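import Crest.Agent.R154.Sun_95

/-!
# Row 154: one window of an irregular run (greedy at the free-range threshold `R`)

`c m` = cost (`-log`) at level `h_0 + m N_1`, nondecreasing, adapted.  Hypotheses:
(a) [free range] one strength `R`, intervals `[m, e]` of ANY length, given the past one unit below;
(b) [windowK at `N_1`] one slope `s` per unit, `n` units, given the past `n` units below.
If the number of units is at most `exp (μ R / 16) / 64`, then
`P (c (2k) - c k ≥ x) ≤ exp (-(μ/32) x)` for `R ≤ x ≤ s k`.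
-/

set_option autoImplicit false
set_option linter.unusedVariables false
set_option linter.deprecated false

open MeasureTheory ENNReal Crest.Agent.R154.Sun95

namespace Crest.Agent.R154.Greedy719

variable {Ω : Type*} {m0 : MeasurableSpace Ω} {P : Measure Ω}

/-- upper bound of `exp (θ * cost)` (fuel `j`) -/
noncomputable def G (c : ℕ → Ω → ℝ) (R s θ : ℝ) (k : ℕ) : ℕ → ℕ → Ω → ℝ≥0∞
  | 0, _ => fun _ => 1
  | j + 1, e => fun ω => if e ≤ k then 1 else
      ENNReal.ofReal (Real.exp (θ * R)) +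
      (∑ m ∈ Finset.Icc 1 (e - 1),
        {ω' | R ≤ c e ω' - c m ω'}.indicator
          (fun ω' => ENNReal.ofReal (Real.exp (3 * θ * R)) * G c R s θ k j (m - 1) ω') ω +
      ∑ q ∈ Finset.Icc 1 e, ∑ n ∈ (Finset.Icc 1 (q / 2)).filter (fun n : ℕ => R ≤ 2 * s * n),
        {ω' | (n : ℝ) * s ≤ c q ω' - c (q - n) ω'}.indicator
          (fun ω' => ENNReal.ofReal (Real.exp (2 * θ * R + 2 * θ * (n * s))) *
            G c R s θ k j (q - 2 * n) ω') ω)

theorem G_of_le (c : ℕ → Ω → ℝ) (R s θ : ℝ) (k j : ℕ) {e : ℕ} (he : e ≤ k) (ω : Ω) :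
    G c R s θ k j e ω = 1 := by
  cases j with
  | zero => rfl
  | succ j => simp only [G, he, if_true]

/-- **the deterministic decomposition** -/
theorem det {c : ℕ → Ω → ℝ} (hmono : ∀ ω, Monotone fun m => c m ω) {R s θ : ℝ}
    (hθ : 0 ≤ θ) (hRpos : 0 < R) (hs : s ≤ R) {k : ℕ} (hk : 3 ≤ k) (ω : Ω)
    (hno : ∀ e n : ℕ, k < e → e ≤ 2 * k → e < 4 * n → 2 * n ≤ e →
      c e ω - c (e - n) ω < n * s) :
    ∀ j e, e ≤ k + j → e ≤ 2 * k →
      ENNReal.ofReal (Real.exp (θ * (c e ω - c k ω))) ≤ G c R s θ k j e ω := by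
  have hsmall : ∀ e, e ≤ k →
      ENNReal.ofReal (Real.exp (θ * (c e ω - c k ω))) ≤ 1 := by
    intro e he
    rw [ENNReal.ofReal_le_one, Real.exp_le_one_iff]
    have h1 := hmono ω he
    simp only at h1
    exact mul_nonpos_of_nonneg_of_nonpos hθ (by linarith)
  intro j
  induction j with
  | zero =>
    intro e he _
    exact hsmall e (by omega)
  | succ j ih =>
    intro e he he2
    by_cases hek : e ≤ k
    · rw [G_of_le c R s θ k (j + 1) hek ω]; exact hsmall e hek
    simp only [G, hek, if_false]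
    push Not at hek
    by_cases hR : c e ω - c k ω < R
    · refine le_trans (ENNReal.ofReal_le_ofReal (Real.exp_le_exp.2 ?_)) le_self_add
      exact mul_le_mul_of_nonneg_left hR.le hθ
    push Not at hR
    refine le_trans ?_ (le_add_left le_rfl)
    -- a heavy unit with top `q`
    have heavy : ∀ q : ℕ, k < q → q ≤ e → c e ω - c q ω ≤ 2 * R → R ≤ c q ω - c (q - 1) ω →
        ENNReal.ofReal (Real.exp (θ * (c e ω - c k ω))) ≤
          ∑ q ∈ Finset.Icc 1 e, ∑ n ∈ (Finset.Icc 1 (q / 2)).filter (fun n : ℕ => R ≤ 2 * s * n),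
            {ω' | (n : ℝ) * s ≤ c q ω' - c (q - n) ω'}.indicator
              (fun ω' => ENNReal.ofReal (Real.exp (2 * θ * R + 2 * θ * (n * s))) *
                G c R s θ k j (q - 2 * n) ω') ω := by
      intro q hkq hqe hq1 hq2
      let Q : ℕ → Prop := fun n => (n : ℝ) * s ≤ c q ω - c (q - n) ω
      have : DecidablePred Q := fun _ => Classical.propDecidable _
      set n := Nat.findGreatest Q (q / 4) with hn
      have he4 : 1 ≤ q / 4 := by omega
      have hQ1 : Q 1 := by
        show ((1 : ℕ) : ℝ) * s ≤ c q ω - c (q - 1) ω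
        push_cast; linarith
      have hn1 : 1 ≤ n := Nat.le_findGreatest he4 hQ1
      have hQn : Q n := Nat.findGreatest_spec he4 hQ1
      have hnle : n ≤ q / 4 := Nat.findGreatest_le _
      have h4n : 4 * n ≤ q := by omega
      have hcost : c q ω - c (q - 2 * n) ω < 2 * (n * s) := by
        by_cases h2n : 2 * n ≤ q / 4
        · have : ¬ Q (2 * n) := Nat.findGreatest_is_greatest (by omega) h2n
          simp only [Q, not_le] at this
          push_cast at this
          linarith
        · have := hno q (2 * n) hkq (by omega) (by omega) (by omega)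
          push_cast at this
          linarith
      have hRn : R ≤ 2 * s * n := by
        have h1 := hmono ω (show q - 2 * n ≤ q - 1 by omega)
        simp only at h1
        linarith
      have hmem : n ∈ (Finset.Icc 1 (q / 2)).filter (fun n : ℕ => R ≤ 2 * s * n) :=
        Finset.mem_filter.2 ⟨Finset.mem_Icc.2 ⟨hn1, by omega⟩, hRn⟩
      have hqmem : q ∈ Finset.Icc 1 e := Finset.mem_Icc.2 ⟨by omega, hqe⟩
      refine le_trans ?_ (Finset.single_le_sum
        (f := fun q : ℕ => ∑ n ∈ (Finset.Icc 1 (q / 2)).filter (fun n : ℕ => R ≤ 2 * s * n),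
            {ω' | (n : ℝ) * s ≤ c q ω' - c (q - n) ω'}.indicator
              (fun ω' => ENNReal.ofReal (Real.exp (2 * θ * R + 2 * θ * (n * s))) *
                G c R s θ k j (q - 2 * n) ω') ω) (fun _ _ => zero_le) hqmem)
      refine le_trans ?_ (Finset.single_le_sum
        (f := fun n : ℕ => {ω' | (n : ℝ) * s ≤ c q ω' - c (q - n) ω'}.indicator
              (fun ω' => ENNReal.ofReal (Real.exp (2 * θ * R + 2 * θ * (n * s))) *
                G c R s θ k j (q - 2 * n) ω') ω) (fun _ _ => zero_le) hmem)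
      have hind : ω ∈ {ω' | (n : ℝ) * s ≤ c q ω' - c (q - n) ω'} := hQn
      simp only [Set.indicator_of_mem hind]
      refine le_trans ?_ (mul_le_mul_right (ih (q - 2 * n) (by omega) (by omega)) _)
      rw [← ENNReal.ofReal_mul (Real.exp_pos _).le, ← Real.exp_add]
      refine ENNReal.ofReal_le_ofReal (Real.exp_le_exp.2 ?_)
      have : θ * (c e ω - c k ω) ≤
          θ * (2 * R + 2 * (n * s) + (c (q - 2 * n) ω - c k ω)) :=
        mul_le_mul_of_nonneg_left (by linarith) hθ
      calc _ ≤ _ := this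
        _ = _ := by ring
    -- the last index with `c e - c m ≥ R`
    let T : ℕ → Prop := fun m => R ≤ c e ω - c m ω
    have : DecidablePred T := fun _ => Classical.propDecidable _
    set m := Nat.findGreatest T (e - 1) with hm
    have hkm : k ≤ m := Nat.le_findGreatest (by omega) hR
    have hTm : R ≤ c e ω - c m ω :=
      Nat.findGreatest_spec (P := T) (m := k) (by omega) hR
    have hme : m ≤ e - 1 := Nat.findGreatest_le _
    have hm1 : c e ω - c (m + 1) ω < R := by
      by_cases h : m + 1 ≤ e - 1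
      · have h2 : ¬ T (m + 1) := Nat.findGreatest_is_greatest (by omega) h
        simp only [T, not_le] at h2
        exact h2
      · have : m + 1 = e := by omega
        rw [this, sub_self]; exact hRpos
    by_cases hZ1 : R ≤ c (m + 1) ω - c m ω
    · refine le_trans (heavy (m + 1) (by omega) (by omega) (by linarith) ?_) (le_add_left le_rfl)
      simpa using hZ1
    push Not at hZ1
    by_cases hmk : m = k
    · -- the cost is at most `2 R`
      refine le_trans ?_ (le_add_right (Finset.single_le_sum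
        (f := fun m : ℕ => {ω' | R ≤ c e ω' - c m ω'}.indicator
          (fun ω' => ENNReal.ofReal (Real.exp (3 * θ * R)) * G c R s θ k j (m - 1) ω') ω)
        (fun _ _ => zero_le) (Finset.mem_Icc.2 ⟨(by omega : 1 ≤ m), hme⟩)))
      have hind : ω ∈ {ω' | R ≤ c e ω' - c m ω'} := hTm
      simp only [Set.indicator_of_mem hind]
      rw [G_of_le c R s θ k j (show m - 1 ≤ k by omega) ω, mul_one]
      refine ENNReal.ofReal_le_ofReal (Real.exp_le_exp.2 ?_)
      rw [hmk] at hm1 hZ1
      have : θ * (c e ω - c k ω) ≤ θ * (3 * R) := mul_le_mul_of_nonneg_left (by linarith) hθ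
      linarith
    by_cases hZ2 : R ≤ c m ω - c (m - 1) ω
    · exact le_trans (heavy m (by omega) (by omega) (by linarith) hZ2) (le_add_left le_rfl)
    push Not at hZ2
    refine le_trans ?_ (le_add_right (Finset.single_le_sum
      (f := fun m : ℕ => {ω' | R ≤ c e ω' - c m ω'}.indicator
        (fun ω' => ENNReal.ofReal (Real.exp (3 * θ * R)) * G c R s θ k j (m - 1) ω') ω)
      (fun _ _ => zero_le) (Finset.mem_Icc.2 ⟨(by omega : 1 ≤ m), hme⟩)))
    have hind : ω ∈ {ω' | R ≤ c e ω' - c m ω'} := hTm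
    simp only [Set.indicator_of_mem hind]
    refine le_trans ?_ (mul_le_mul_right (ih (m - 1) (by omega) (by omega)) _)
    rw [← ENNReal.ofReal_mul (Real.exp_pos _).le, ← Real.exp_add]
    refine ENNReal.ofReal_le_ofReal (Real.exp_le_exp.2 ?_)
    have : θ * (c e ω - c k ω) ≤ θ * (3 * R + (c (m - 1) ω - c k ω)) :=
      mul_le_mul_of_nonneg_left (by linarith) hθ
    calc _ ≤ _ := this
      _ = _ := by ring

theorem G_meas {F : Filtration ℕ m0} {c : ℕ → Ω → ℝ} (hcm : ∀ m, Measurable[F m] (c m))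
    (R s θ : ℝ) (k : ℕ) : ∀ j e, Measurable[F e] (G c R s θ k j e) := by
  intro j
  induction j with
  | zero => intro e; exact measurable_const
  | succ j ih =>
    intro e
    simp only [G]
    by_cases hek : e ≤ k
    · simp only [hek, if_true]; exact measurable_const
    · simp only [hek, if_false]
      have h1 : Measurable[F e] (fun ω => ∑ m ∈ Finset.Icc 1 (e - 1),
          {ω' | R ≤ c e ω' - c m ω'}.indicator
            (fun ω' => ENNReal.ofReal (Real.exp (3 * θ * R)) * G c R s θ k j (m - 1) ω') ω) := by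
        refine Finset.measurable_sum _ fun m hm => ?_
        rw [Finset.mem_Icc] at hm
        refine Measurable.indicator ?_ ?_
        · exact Measurable.const_mul ((ih (m - 1)).mono (F.mono (by omega)) le_rfl) _
        · exact measurableSet_le measurable_const
            (Measurable.sub (hcm e) ((hcm m).mono (F.mono (by omega)) le_rfl))
      have h2 : Measurable[F e] (fun ω => ∑ q ∈ Finset.Icc 1 e,
          ∑ n ∈ (Finset.Icc 1 (q / 2)).filter (fun n : ℕ => R ≤ 2 * s * n),
            {ω' | (n : ℝ) * s ≤ c q ω' - c (q - n) ω'}.indicator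
              (fun ω' => ENNReal.ofReal (Real.exp (2 * θ * R + 2 * θ * (n * s))) *
                G c R s θ k j (q - 2 * n) ω') ω) := by
        refine Finset.measurable_sum _ fun q hq => Finset.measurable_sum _ fun n _ => ?_
        rw [Finset.mem_Icc] at hq
        refine Measurable.indicator ?_ ?_
        · exact Measurable.const_mul ((ih (q - 2 * n)).mono (F.mono (by omega)) le_rfl) _
        · exact measurableSet_le measurable_const
            (Measurable.sub ((hcm q).mono (F.mono hq.2) le_rfl)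
              ((hcm (q - n)).mono (F.mono (by omega)) le_rfl))
      exact (h1.add h2).const_add _

/-- exponential moment -/
theorem G_int {F : Filtration ℕ m0} {c : ℕ → Ω → ℝ} (hcm : ∀ m, Measurable[F m] (c m))
    {R s μ : ℝ} (hR : 0 ≤ R) (hμ : 0 ≤ μ) (hμs : 8 ≤ μ * s) {k : ℕ}
    (hJ : 8 * (k : ℝ) ≤ Real.exp (μ * R / 16))
    (ha : ∀ m e : ℕ, 1 ≤ m → m ≤ e → e ≤ 2 * k → ∀ B, MeasurableSet[F (m - 1)] B →
      P (B ∩ {ω | R ≤ c e ω - c m ω}) ≤ ENNReal.ofReal (Real.exp (-(μ * R))) * P B)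
    (hb : ∀ e n : ℕ, R ≤ 2 * s * n → 2 * n ≤ e → e ≤ 2 * k →
      ∀ B, MeasurableSet[F (e - 2 * n)] B →
      P (B ∩ {ω | (n : ℝ) * s ≤ c e ω - c (e - n) ω}) ≤
        ENNReal.ofReal (Real.exp (-(μ * (n * s)))) * P B) :
    ∀ j e, e ≤ 2 * k → ∫⁻ ω, G c R s (μ / 8) k j e ω ∂P ≤
      ENNReal.ofReal (2 * Real.exp (μ / 8 * R)) * P Set.univ := by
  have hx1 : 1 ≤ Real.exp (μ / 8 * R) := Real.one_le_exp (by positivity)
  have hone : P Set.univ ≤ ENNReal.ofReal (2 * Real.exp (μ / 8 * R)) * P Set.univ := by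
    calc P Set.univ = 1 * P Set.univ := (one_mul _).symm
      _ ≤ _ := by
        refine mul_le_mul_left ?_ _
        rw [ENNReal.one_le_ofReal]; linarith
  intro j
  induction j with
  | zero => intro e _; simp only [G]; rw [lintegral_one]; exact hone
  | succ j ih =>
    intro e he2
    simp only [G]
    by_cases hek : e ≤ k
    · simp only [hek, if_true]; rw [lintegral_one]; exact hone
    simp only [hek, if_false]
    set W : ℝ≥0∞ := ENNReal.ofReal (2 * Real.exp (μ / 8 * R)) * P Set.univ with hW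
    have hmE1 : ∀ m : ℕ, MeasurableSet {ω' | R ≤ c e ω' - c m ω'} := fun m =>
      measurableSet_le measurable_const
        (Measurable.sub ((hcm e).mono (F.le _) le_rfl) ((hcm m).mono (F.le _) le_rfl))
    have hmE2 : ∀ q n : ℕ, MeasurableSet {ω' | (n : ℝ) * s ≤ c q ω' - c (q - n) ω'} := fun q n =>
      measurableSet_le measurable_const
        (Measurable.sub ((hcm q).mono (F.le _) le_rfl) ((hcm (q - n)).mono (F.le _) le_rfl))
    have hGm : ∀ e, Measurable (G c R s (μ / 8) k j e) := fun e =>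
      (G_meas hcm R s (μ / 8) k j e).mono (F.le _) le_rfl
    have hA : ∀ m ∈ Finset.Icc 1 (e - 1),
        ∫⁻ ω, {ω' | R ≤ c e ω' - c m ω'}.indicator
          (fun ω' => ENNReal.ofReal (Real.exp (3 * (μ / 8) * R)) *
            G c R s (μ / 8) k j (m - 1) ω') ω ∂P ≤
          ENNReal.ofReal (Real.exp (-(5 / 8 * μ * R))) * W := by
      intro m hm
      rw [Finset.mem_Icc] at hm
      refine (lint_ind_le (P := P) (F.le (m - 1)) (hmE1 m) (ha m e hm.1 (by omega) he2)
        (Measurable.const_mul (G_meas hcm R s (μ / 8) k j (m - 1)) _)).trans ?_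
      rw [lintegral_const_mul _ (hGm _), ← mul_assoc, ← ENNReal.ofReal_mul (Real.exp_pos _).le,
        ← Real.exp_add]
      refine mul_le_mul' (le_of_eq ?_) (ih (m - 1) (by omega))
      congr 2
      ring
    have hB : ∀ q ∈ Finset.Icc 1 e, ∀ n ∈ (Finset.Icc 1 (q / 2)).filter
          (fun n : ℕ => R ≤ 2 * s * n),
        ∫⁻ ω, {ω' | (n : ℝ) * s ≤ c q ω' - c (q - n) ω'}.indicator
          (fun ω' => ENNReal.ofReal (Real.exp (2 * (μ / 8) * R + 2 * (μ / 8) * (n * s))) *
            G c R s (μ / 8) k j (q - 2 * n) ω') ω ∂P ≤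
          (2⁻¹ : ℝ≥0∞) ^ n * (ENNReal.ofReal (Real.exp (-(μ * R / 16))) * W) := by
      intro q hq n hn
      rw [Finset.mem_Icc] at hq
      rw [Finset.mem_filter, Finset.mem_Icc] at hn
      refine (lint_ind_le (P := P) (F.le (q - 2 * n)) (hmE2 q n)
        (hb q n hn.2 (by omega) (by omega))
        (Measurable.const_mul (G_meas hcm R s (μ / 8) k j (q - 2 * n)) _)).trans ?_
      rw [lintegral_const_mul _ (hGm _), ← mul_assoc, ← ENNReal.ofReal_mul (Real.exp_pos _).le,
        ← Real.exp_add, ← mul_assoc ((2⁻¹ : ℝ≥0∞) ^ n)]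
      refine mul_le_mul' ?_ (ih (q - 2 * n) (by omega))
      refine le_trans ?_ (mul_le_mul_left (half_pow (t := μ * s / 8) (by linarith) n)
        (ENNReal.ofReal (Real.exp (-(μ * R / 16)))))
      rw [← ENNReal.ofReal_mul (Real.exp_pos _).le, ← Real.exp_add]
      refine ENNReal.ofReal_le_ofReal (Real.exp_le_exp.2 ?_)
      have h1 : μ * R ≤ μ * (2 * s * n) := mul_le_mul_of_nonneg_left hn.2 hμ
      nlinarith
    calc ∫⁻ ω, (ENNReal.ofReal (Real.exp (μ / 8 * R)) +
        (∑ m ∈ Finset.Icc 1 (e - 1),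
          {ω' | R ≤ c e ω' - c m ω'}.indicator
            (fun ω' => ENNReal.ofReal (Real.exp (3 * (μ / 8) * R)) *
              G c R s (μ / 8) k j (m - 1) ω') ω +
        ∑ q ∈ Finset.Icc 1 e, ∑ n ∈ (Finset.Icc 1 (q / 2)).filter (fun n : ℕ => R ≤ 2 * s * n),
          {ω' | (n : ℝ) * s ≤ c q ω' - c (q - n) ω'}.indicator
            (fun ω' => ENNReal.ofReal (Real.exp (2 * (μ / 8) * R + 2 * (μ / 8) * (n * s))) *
              G c R s (μ / 8) k j (q - 2 * n) ω') ω)) ∂P
        = ENNReal.ofReal (Real.exp (μ / 8 * R)) * P Set.univ +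
          (∑ m ∈ Finset.Icc 1 (e - 1), ∫⁻ ω, {ω' | R ≤ c e ω' - c m ω'}.indicator
            (fun ω' => ENNReal.ofReal (Real.exp (3 * (μ / 8) * R)) *
              G c R s (μ / 8) k j (m - 1) ω') ω ∂P +
          ∑ q ∈ Finset.Icc 1 e, ∑ n ∈ (Finset.Icc 1 (q / 2)).filter
            (fun n : ℕ => R ≤ 2 * s * n), ∫⁻ ω,
            {ω' | (n : ℝ) * s ≤ c q ω' - c (q - n) ω'}.indicator
              (fun ω' => ENNReal.ofReal (Real.exp (2 * (μ / 8) * R + 2 * (μ / 8) * (n * s))) *
                G c R s (μ / 8) k j (q - 2 * n) ω') ω ∂P) := by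
          have hm1 : ∀ m ∈ Finset.Icc 1 (e - 1), Measurable
              ({ω' | R ≤ c e ω' - c m ω'}.indicator
                (fun ω' => ENNReal.ofReal (Real.exp (3 * (μ / 8) * R)) *
                  G c R s (μ / 8) k j (m - 1) ω')) := fun m _ =>
            Measurable.indicator (Measurable.const_mul (hGm _) _) (hmE1 m)
          have hm2 : ∀ q n : ℕ, Measurable
              ({ω' | (n : ℝ) * s ≤ c q ω' - c (q - n) ω'}.indicator
                (fun ω' => ENNReal.ofReal (Real.exp (2 * (μ / 8) * R + 2 * (μ / 8) * (n * s))) *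
                  G c R s (μ / 8) k j (q - 2 * n) ω')) := fun q n =>
            Measurable.indicator (Measurable.const_mul (hGm _) _) (hmE2 q n)
          rw [lintegral_add_left measurable_const, lintegral_const,
            lintegral_add_left (Finset.measurable_sum _ hm1),
            lintegral_finset_sum _ hm1,
            lintegral_finset_sum _ fun q _ => Finset.measurable_sum _ fun n _ => hm2 q n]
          congr 2
          exact Finset.sum_congr rfl fun q _ => lintegral_finset_sum _ fun n _ => hm2 q n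
      _ ≤ ENNReal.ofReal (Real.exp (μ / 8 * R)) * P Set.univ +
          (∑ m ∈ Finset.Icc 1 (e - 1), ENNReal.ofReal (Real.exp (-(5 / 8 * μ * R))) * W +
          ∑ q ∈ Finset.Icc 1 e, ∑ n ∈ (Finset.Icc 1 (q / 2)).filter
            (fun n : ℕ => R ≤ 2 * s * n),
            (2⁻¹ : ℝ≥0∞) ^ n * (ENNReal.ofReal (Real.exp (-(μ * R / 16))) * W)) :=
          add_le_add le_rfl (add_le_add (Finset.sum_le_sum hA)
            (Finset.sum_le_sum fun q hq => Finset.sum_le_sum (hB q hq)))
      _ ≤ ENNReal.ofReal (Real.exp (μ / 8 * R)) * P Set.univ +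
          (ENNReal.ofReal (1 / 4) * W + ENNReal.ofReal (1 / 4) * W) := by
          refine add_le_add le_rfl (add_le_add ?_ ?_)
          · rw [Finset.sum_const, nsmul_eq_mul, ← mul_assoc, Nat.card_Icc]
            refine mul_le_mul_left ?_ _
            rw [← ENNReal.ofReal_natCast, ← ENNReal.ofReal_mul (Nat.cast_nonneg _)]
            refine ENNReal.ofReal_le_ofReal ?_
            have h1 : ((e - 1 + 1 - 1 : ℕ) : ℝ) ≤ 2 * k := by
              exact_mod_cast (by omega : e - 1 + 1 - 1 ≤ 2 * k)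
            have h2 : Real.exp (-(5 / 8 * μ * R)) ≤ Real.exp (-(μ * R / 16)) :=
              Real.exp_le_exp.2 (by nlinarith [mul_nonneg hμ hR])
            have h3 : Real.exp (μ * R / 16) * Real.exp (-(μ * R / 16)) = 1 := by
              rw [← Real.exp_add]; simp
            have h4 := (Real.exp_pos (-(μ * R / 16))).le
            calc ((e - 1 + 1 - 1 : ℕ) : ℝ) * Real.exp (-(5 / 8 * μ * R))
                ≤ (2 * k) * Real.exp (-(μ * R / 16)) :=
                  mul_le_mul h1 h2 (Real.exp_pos _).le (by positivity)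
              _ ≤ (Real.exp (μ * R / 16) / 4) * Real.exp (-(μ * R / 16)) :=
                  mul_le_mul_of_nonneg_right (by linarith) h4
              _ = 1 / 4 := by linarith
          · have h5 : ∀ q ∈ Finset.Icc 1 e, ∑ n ∈ (Finset.Icc 1 (q / 2)).filter
                (fun n : ℕ => R ≤ 2 * s * n),
                (2⁻¹ : ℝ≥0∞) ^ n * (ENNReal.ofReal (Real.exp (-(μ * R / 16))) * W) ≤
                ENNReal.ofReal (Real.exp (-(μ * R / 16))) * W := by
              intro q _
              rw [← Finset.sum_mul]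
              have h6 : ∑ n ∈ (Finset.Icc 1 (q / 2)).filter (fun n : ℕ => R ≤ 2 * s * n),
                  (2⁻¹ : ℝ≥0∞) ^ n ≤ 1 := by
                refine (Finset.sum_le_sum_of_subset (Finset.filter_subset _ _)).trans ?_
                rw [← sum_half (q / 2)]; exact le_self_add
              calc _ ≤ 1 * (ENNReal.ofReal (Real.exp (-(μ * R / 16))) * W) :=
                    mul_le_mul_left h6 _
                _ = _ := one_mul _
            refine (Finset.sum_le_sum h5).trans ?_
            rw [Finset.sum_const, nsmul_eq_mul, ← mul_assoc, Nat.card_Icc]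
            refine mul_le_mul_left ?_ _
            rw [← ENNReal.ofReal_natCast, ← ENNReal.ofReal_mul (Nat.cast_nonneg _)]
            refine ENNReal.ofReal_le_ofReal ?_
            have h1 : ((e + 1 - 1 : ℕ) : ℝ) ≤ 2 * k := by
              exact_mod_cast (by omega : e + 1 - 1 ≤ 2 * k)
            have h3 : Real.exp (μ * R / 16) * Real.exp (-(μ * R / 16)) = 1 := by
              rw [← Real.exp_add]; simp
            have h4 := (Real.exp_pos (-(μ * R / 16))).le
            calc ((e + 1 - 1 : ℕ) : ℝ) * Real.exp (-(μ * R / 16))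
                ≤ (2 * k) * Real.exp (-(μ * R / 16)) := mul_le_mul_of_nonneg_right h1 h4
              _ ≤ (Real.exp (μ * R / 16) / 4) * Real.exp (-(μ * R / 16)) :=
                  mul_le_mul_of_nonneg_right (by linarith) h4
              _ = 1 / 4 := by linarith
      _ = W := by
          rw [hW, ← mul_assoc, ← add_mul, ← add_mul,
            ← ENNReal.ofReal_mul (by norm_num : (0 : ℝ) ≤ 1 / 4),
            ← ENNReal.ofReal_add (by positivity) (by positivity),
            ← ENNReal.ofReal_add (by positivity) (by positivity)]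
          congr 2
          ring

/-- **one window, real cost process.** -/
theorem greedy_real {F : Filtration ℕ m0} {c : ℕ → Ω → ℝ} (hcm : ∀ m, Measurable[F m] (c m))
    (hmono : ∀ ω, Monotone fun m => c m ω) {R s μ : ℝ} (hs : s ≤ R) (hμ : 0 ≤ μ)
    (hμs : 8 ≤ μ * s) {k : ℕ} (hk : 3 ≤ k) (hJ : 64 * (k : ℝ) ≤ Real.exp (μ * R / 16))
    (ha : ∀ m e : ℕ, 1 ≤ m → m ≤ e → e ≤ 2 * k → ∀ B, MeasurableSet[F (m - 1)] B →
      P (B ∩ {ω | R ≤ c e ω - c m ω}) ≤ ENNReal.ofReal (Real.exp (-(μ * R))) * P B)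
    (hb : ∀ e n : ℕ, R ≤ 2 * s * n → 2 * n ≤ e → e ≤ 2 * k →
      ∀ B, MeasurableSet[F (e - 2 * n)] B →
      P (B ∩ {ω | (n : ℝ) * s ≤ c e ω - c (e - n) ω}) ≤
        ENNReal.ofReal (Real.exp (-(μ * (n * s)))) * P B)
    {x : ℝ} (hx1 : R ≤ x) (hx2 : x ≤ s * k) :
    P {ω | x ≤ c (2 * k) ω - c k ω} ≤ ENNReal.ofReal (Real.exp (-(μ / 32 * x))) * P Set.univ := by
  have hk0 : (3 : ℝ) ≤ k := by exact_mod_cast hk
  have hspos : 0 < s := by
    by_contra hcon
    push Not at hcon
    nlinarith [mul_nonneg hμ (neg_nonneg.2 hcon)]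
  have hRpos : 0 < R := lt_of_lt_of_le hspos hs
  have hxpos : 0 < x := lt_of_lt_of_le hRpos hx1
  -- small strengths
  by_cases hxR : x < 2 * R
  · have h1 := ha k (2 * k) (by omega) (by omega) le_rfl Set.univ MeasurableSet.univ
    rw [Set.univ_inter] at h1
    refine (measure_mono ?_).trans (h1.trans (mul_le_mul_left
      (ENNReal.ofReal_le_ofReal (Real.exp_le_exp.2 ?_)) _))
    · intro ω hω
      have hω' : x ≤ c (2 * k) ω - c k ω := hω
      exact hx1.trans hω'
    · have : μ * x ≤ μ * (2 * R) := mul_le_mul_of_nonneg_left hxR.le hμ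
      have : 0 ≤ μ * x := mul_nonneg hμ hxpos.le
      linarith
  push Not at hxR
  have hμR : 48 ≤ μ * R := by
    have h1 : (192 : ℝ) ≤ Real.exp (μ * R / 16) := by linarith
    by_contra hcon
    push Not at hcon
    have h2 : Real.exp (μ * R / 16) < Real.exp 3 := Real.exp_lt_exp.2 (by linarith)
    have h3 : Real.exp 3 < 192 := by
      have h4 : Real.exp 1 < 2.7182818286 := Real.exp_one_lt_d9
      have h5 : Real.exp 3 = Real.exp 1 * Real.exp 1 * Real.exp 1 := by
        rw [← Real.exp_add, ← Real.exp_add]; norm_num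
      have h6 := Real.exp_pos 1
      have h7 : Real.exp 1 ≤ 3 := by linarith
      rw [h5]
      calc Real.exp 1 * Real.exp 1 * Real.exp 1 ≤ 3 * 3 * 3 := by gcongr
        _ < 192 := by norm_num
    linarith
  have hμx : 2 * (μ * R) ≤ μ * x := by nlinarith
  -- long steep intervals
  set Ix := ((Finset.range (2 * k + 1)) ×ˢ (Finset.range (2 * k + 1))).filter
    (fun q : ℕ × ℕ => k < q.1 ∧ q.1 ≤ 2 * k ∧ q.1 < 4 * q.2 ∧ 2 * q.2 ≤ q.1) with hIx
  set Lg : Set Ω := ⋃ q ∈ Ix, {ω | (q.2 : ℝ) * s ≤ c q.1 ω - c (q.1 - q.2) ω} with hLg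
  have hLgP : P Lg ≤ ENNReal.ofReal (1 / 2 * Real.exp (-(μ / 32 * x))) * P Set.univ := by
    have h1 : ∀ q ∈ Ix, P {ω | (q.2 : ℝ) * s ≤ c q.1 ω - c (q.1 - q.2) ω} ≤
        ENNReal.ofReal (Real.exp (-(μ * (x / 4)))) * P Set.univ := by
      intro q hq
      rw [hIx, Finset.mem_filter] at hq
      obtain ⟨_, h2, h3, h4, h5⟩ := hq
      have h7 : (k : ℝ) ≤ 4 * q.2 := by exact_mod_cast (by omega : k ≤ 4 * q.2)
      have h8 : x / 4 ≤ q.2 * s := by nlinarith
      have h6 := hb q.1 q.2 (by nlinarith) h5 h3 Set.univ MeasurableSet.univ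
      rw [Set.univ_inter] at h6
      refine h6.trans (mul_le_mul_left (ENNReal.ofReal_le_ofReal (Real.exp_le_exp.2 ?_)) _)
      have : μ * (x / 4) ≤ μ * (q.2 * s) := mul_le_mul_of_nonneg_left h8 hμ
      linarith
    have hcard : (Ix.card : ℝ) ≤ Real.exp (μ * x / 16) / 2 := by
      have h9 : Ix.card ≤ (2 * k + 1) * (2 * k + 1) := by
        refine (Finset.card_filter_le _ _).trans ?_
        rw [Finset.card_product, Finset.card_range]
      have h10 : ((Ix.card : ℕ) : ℝ) ≤ (2 * k + 1) * (2 * k + 1) := by exact_mod_cast h9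
      have h11 : (2 * (k : ℝ) + 1) ≤ Real.exp (μ * R / 16) / 16 := by linarith
      have h12 : Real.exp (μ * R / 16) * Real.exp (μ * R / 16) ≤ Real.exp (μ * x / 16) := by
        rw [← Real.exp_add]
        exact Real.exp_le_exp.2 (by linarith)
      have h13 := Real.exp_pos (μ * R / 16)
      calc (Ix.card : ℝ) ≤ (2 * k + 1) * (2 * k + 1) := h10
        _ ≤ (Real.exp (μ * R / 16) / 16) * (Real.exp (μ * R / 16) / 16) := by gcongr
        _ = (Real.exp (μ * R / 16) * Real.exp (μ * R / 16)) / 256 := by ring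
        _ ≤ Real.exp (μ * x / 16) / 2 := by
            have h14 := Real.exp_pos (μ * x / 16)
            linarith
    calc P Lg ≤ ∑ q ∈ Ix, P {ω | (q.2 : ℝ) * s ≤ c q.1 ω - c (q.1 - q.2) ω} :=
          measure_biUnion_finset_le _ _
      _ ≤ ∑ _q ∈ Ix, ENNReal.ofReal (Real.exp (-(μ * (x / 4)))) * P Set.univ :=
          Finset.sum_le_sum h1
      _ = ENNReal.ofReal ((Ix.card : ℝ) * Real.exp (-(μ * (x / 4)))) * P Set.univ := by
          rw [Finset.sum_const, nsmul_eq_mul, ← mul_assoc,
            ENNReal.ofReal_mul (Nat.cast_nonneg _), ENNReal.ofReal_natCast]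
      _ ≤ _ := by
          refine mul_le_mul_left (ENNReal.ofReal_le_ofReal ?_) _
          calc (Ix.card : ℝ) * Real.exp (-(μ * (x / 4)))
              ≤ Real.exp (μ * x / 16) / 2 * Real.exp (-(μ * (x / 4))) := by gcongr
            _ = 1 / 2 * Real.exp (μ * x / 16 - μ * (x / 4)) := by
                rw [sub_eq_add_neg, Real.exp_add]; ring
            _ ≤ _ := by
                have : Real.exp (μ * x / 16 - μ * (x / 4)) ≤ Real.exp (-(μ / 32 * x)) :=
                  Real.exp_le_exp.2 (by linarith)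
                linarith
  -- greedy part
  have hGm : Measurable (G c R s (μ / 8) k k (2 * k)) :=
    (G_meas hcm R s (μ / 8) k k (2 * k)).mono (F.le _) le_rfl
  have hGP : P {ω | ENNReal.ofReal (Real.exp (μ / 8 * x)) ≤ G c R s (μ / 8) k k (2 * k) ω} ≤
      ENNReal.ofReal (1 / 2 * Real.exp (-(μ / 32 * x))) * P Set.univ := by
    have h1 := G_int hcm hRpos.le hμ hμs (k := k) (by linarith) ha hb k (2 * k) le_rfl
    have h2 : ENNReal.ofReal (2 * Real.exp (μ / 8 * R)) =
        ENNReal.ofReal (Real.exp (Real.log 2 + μ / 8 * R)) := by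
      rw [Real.exp_add, Real.exp_log (by norm_num)]
    rw [h2] at h1
    refine (markov_exp hGm h1).trans (mul_le_mul_left (ENNReal.ofReal_le_ofReal ?_) _)
    have h3 : Real.exp (Real.log 2 + μ / 8 * R - μ / 8 * x) =
        2 * Real.exp (μ / 8 * R - μ / 8 * x) := by
      rw [add_sub_assoc, Real.exp_add, Real.exp_log (by norm_num)]
    have h4 : 2 * Real.exp (μ / 8 * R - μ / 8 * x) ≤ 1 / 2 * Real.exp (-(μ / 32 * x)) := by
      have := quarter (b := μ / 8 * R - μ / 8 * x) (u := μ / 32 * x) (by nlinarith)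
      linarith
    rw [h3]
    exact h4
  -- combination
  have hsub : {ω | x ≤ c (2 * k) ω - c k ω} ⊆ Lg ∪
      {ω | ENNReal.ofReal (Real.exp (μ / 8 * x)) ≤ G c R s (μ / 8) k k (2 * k) ω} := by
    intro ω hω
    by_cases hL : ω ∈ Lg
    · exact Or.inl hL
    right
    have hno : ∀ e n : ℕ, k < e → e ≤ 2 * k → e < 4 * n → 2 * n ≤ e →
        c e ω - c (e - n) ω < n * s := by
      intro e n h1 h2 h3 h4
      by_contra hcon
      push Not at hcon
      apply hL
      rw [hLg, Set.mem_iUnion₂]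
      refine ⟨(e, n), ?_, hcon⟩
      rw [hIx, Finset.mem_filter, Finset.mem_product, Finset.mem_range, Finset.mem_range]
      exact ⟨⟨by simp only; omega, by simp only; omega⟩, h1, h2, h3, h4⟩
    have hdet := det hmono (θ := μ / 8) (by positivity) hRpos hs hk ω hno k (2 * k) (by omega)
      le_rfl
    refine le_trans (ENNReal.ofReal_le_ofReal (Real.exp_le_exp.2 ?_)) hdet
    exact mul_le_mul_of_nonneg_left hω (by positivity)
  refine (measure_mono hsub).trans ((measure_union_le _ _).trans ?_)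
  refine (add_le_add hLgP hGP).trans ?_
  rw [← add_mul, ← ENNReal.ofReal_add (by positivity) (by positivity)]
  refine mul_le_mul_left (ENNReal.ofReal_le_ofReal (le_of_eq ?_)) _
  ring

/-- **one window**, for a nonincreasing survival process `s`. -/
theorem greedy {F : Filtration ℕ m0} {sv : ℕ → Ω → ℝ≥0∞} (hsm : ∀ m, Measurable[F m] (sv m))
    (hanti : ∀ m ω, sv (m + 1) ω ≤ sv m ω) (hfin : ∀ m ω, sv m ω ≠ ∞)
    {R s μ : ℝ} (hs : s ≤ R) (hμ : 0 ≤ μ)
    (hμs : 8 ≤ μ * s) {k : ℕ} (hk : 3 ≤ k) (hJ : 64 * (k : ℝ) ≤ Real.exp (μ * R / 16))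
    (ha : ∀ m e : ℕ, 1 ≤ m → m ≤ e → e ≤ 2 * k → ∀ B, MeasurableSet[F (m - 1)] B →
      P (B ∩ {ω | sv m ω ≠ 0 ∧ sv e ω ≤ ENNReal.ofReal (Real.exp (-R)) * sv m ω}) ≤
        ENNReal.ofReal (Real.exp (-(μ * R))) * P B)
    (hb : ∀ e n : ℕ, R ≤ 2 * s * n → 2 * n ≤ e → e ≤ 2 * k →
      ∀ B, MeasurableSet[F (e - 2 * n)] B →
      P (B ∩ {ω | sv (e - n) ω ≠ 0 ∧ sv e ω ≤
        ENNReal.ofReal (Real.exp (-(n * s))) * sv (e - n) ω}) ≤
        ENNReal.ofReal (Real.exp (-(μ * (n * s)))) * P B)
    {x : ℝ} (hx1 : R ≤ x) (hx2 : x ≤ s * k)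
    {B : Set Ω} (hB : MeasurableSet[F 0] B) :
    P (B ∩ {ω | sv k ω ≠ 0 ∧ sv (2 * k) ω ≤ ENNReal.ofReal (Real.exp (-x)) * sv k ω}) ≤
      ENNReal.ofReal (Real.exp (-(μ / 32 * x))) * P B := by
  have hspos : 0 < s := by
    by_contra hcon
    push Not at hcon
    nlinarith [mul_nonneg hμ (neg_nonneg.2 hcon)]
  have hRpos : 0 < R := lt_of_lt_of_le hspos hs
  have hxpos : 0 < x := lt_of_lt_of_le hRpos hx1
  have hBm : MeasurableSet[m0] B := F.le 0 _ hB
  -- the event in real form
  have hev : ∀ (ε : ℝ) (_ : 0 < ε) (x : ℝ) (_ : 0 < x) (a b : ℕ) (ω : Ω),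
      x ≤ ce sv ε b ω - ce sv ε a ω →
        sv a ω ≠ 0 ∧ sv b ω ≤ ENNReal.ofReal (Real.exp (-x)) * sv a ω := by
    intro ε hε x hx a b ω h
    obtain ⟨h1, h2⟩ := (ce_iff hε hx a b ω).1 h
    constructor
    · intro h0
      rw [h0] at h1
      simp at h1
      linarith
    · rw [← ENNReal.ofReal_toReal (hfin b ω), ← ENNReal.ofReal_toReal (hfin a ω),
        ← ENNReal.ofReal_mul (Real.exp_pos _).le]
      exact ENNReal.ofReal_le_ofReal h2
  -- real version for every truncation
  have hmain : ∀ ε : ℝ, 0 < ε →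
      P (B ∩ {ω | x ≤ ce sv ε (2 * k) ω - ce sv ε k ω}) ≤
        ENNReal.ofReal (Real.exp (-(μ / 32 * x))) * P B := by
    intro ε hε
    have hcm : ∀ m, Measurable[F m] (ce sv ε m) := by
      intro m
      unfold ce
      exact (Real.measurable_log.comp
        ((ENNReal.measurable_toReal.comp (hsm m)).max measurable_const)).neg
    have hmono : ∀ ω, Monotone fun m => ce sv ε m ω := by
      intro ω
      refine monotone_nat_of_le_succ fun m => ?_
      unfold ce
      have h1 : max (sv (m + 1) ω).toReal ε ≤ max (sv m ω).toReal ε :=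
        max_le_max (ENNReal.toReal_mono (hfin m ω) (hanti m ω)) le_rfl
      have h2 := Real.log_le_log (lt_max_of_lt_right hε) h1
      linarith
    have h1 := greedy_real (P := P.restrict B) hcm hmono hs hμ hμs hk hJ (by
        intro m e hm1 hm2 hm3 B' hB'
        rw [Measure.restrict_apply' hBm, Measure.restrict_apply' hBm]
        refine le_trans (measure_mono ?_) (ha m e hm1 hm2 hm3 (B' ∩ B)
          (hB'.inter (F.mono (Nat.zero_le _) _ hB)))
        rintro ω ⟨⟨h2, h3⟩, h4⟩
        exact ⟨⟨h2, h4⟩, hev ε hε R hRpos m e ω h3⟩)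
      (by
        intro e n hn1 hn2 hn3 B' hB'
        rw [Measure.restrict_apply' hBm, Measure.restrict_apply' hBm]
        refine le_trans (measure_mono ?_) (hb e n hn1 hn2 hn3 (B' ∩ B)
          (hB'.inter (F.mono (Nat.zero_le _) _ hB)))
        rintro ω ⟨⟨h2, h3⟩, h4⟩
        have hn0 : (0 : ℝ) < n * s := by nlinarith
        exact ⟨⟨h2, h4⟩, hev ε hε (n * s) hn0 (e - n) e ω h3⟩)
      hx1 hx2
    rw [Measure.restrict_apply' hBm, Measure.restrict_apply' hBm, Set.univ_inter,
      Set.inter_comm] at h1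
    exact h1
  -- exhaustion
  set D : ℕ → Set Ω := fun n => B ∩ {ω | x ≤ ce sv ((n : ℝ) + 1)⁻¹ (2 * k) ω -
    ce sv ((n : ℝ) + 1)⁻¹ k ω} with hD
  have hDmono : Monotone D := by
    refine monotone_nat_of_le_succ fun n => ?_
    rintro ω ⟨h1, h2⟩
    refine ⟨h1, ?_⟩
    have hp1 : (0 : ℝ) < ((n : ℝ) + 1)⁻¹ := by positivity
    have hp2 : (0 : ℝ) < (((n + 1 : ℕ) : ℝ) + 1)⁻¹ := by positivity
    obtain ⟨h3, h4⟩ := (ce_iff hp1 hxpos k (2 * k) ω).1 h2
    refine (ce_iff hp2 hxpos k (2 * k) ω).2 ⟨le_trans ?_ h3, h4⟩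
    apply inv_anti₀ (by positivity)
    push_cast
    linarith
  have hsub : B ∩ {ω | sv k ω ≠ 0 ∧ sv (2 * k) ω ≤ ENNReal.ofReal (Real.exp (-x)) * sv k ω} ⊆
      ⋃ n, D n := by
    rintro ω ⟨h1, h2, h3⟩
    have hA : 0 < (sv k ω).toReal := ENNReal.toReal_pos h2 (hfin k ω)
    have hA' : 0 < Real.exp (-x) * (sv k ω).toReal := mul_pos (Real.exp_pos _) hA
    obtain ⟨n, hn⟩ := exists_nat_one_div_lt hA'
    rw [Set.mem_iUnion]
    refine ⟨n, h1, (ce_iff (by positivity) hxpos k (2 * k) ω).2 ⟨?_, ?_⟩⟩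
    · rw [← one_div]; exact hn.le
    · have h4 := ENNReal.toReal_mono (ENNReal.mul_ne_top ENNReal.ofReal_ne_top (hfin k ω)) h3
      rw [ENNReal.toReal_mul, ENNReal.toReal_ofReal (Real.exp_pos _).le] at h4
      exact h4
  refine (measure_mono hsub).trans ?_
  rw [hDmono.measure_iUnion]
  exact iSup_le fun n => hmain _ (by positivity)

end Crest.Agent.R154.Greedy719
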