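import Mathlib

/-! Row 154, T0219 (helper666): concentration of the Green function of a renewal sequence.
If the block law has two atoms of height `1` whose displacements differ by an element `f` of infinite
order, then `sup_z G h z → 0` as `h → ∞` (`G h z` = weight of the lists of blocks of total height `h`
and total displacement `z`; only the renewal inequality is used). No moment of the displacement. -/

set_option autoImplicit false

open Filter Topology
open scoped ENNReal

namespace Crest.Agent.R154.GreenConc666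

variable {B W : Type*} [AddCommGroup W]

lemma tl_small (Λ : B → ℝ≥0∞) (ht : B → ℕ) (hΛ : ∑' b, Λ b ≠ ⊤) (ε : ℝ≥0∞) (hε : ε ≠ 0) :
    ∃ K : ℕ, ∑' b, (if K < ht b then Λ b else 0) ≤ ε := by
  classical
  have h := ENNReal.tendsto_tsum_compl_atTop_zero hΛ
  obtain ⟨s, hs⟩ := (h.eventually (gt_mem_nhds (pos_iff_ne_zero.2 hε))).exists
  refine ⟨s.sup ht, le_trans ?_ hs.le⟩
  have e : (∑' b : {x // x ∉ s}, Λ b) = ∑' b, Set.indicator {x | x ∉ s} Λ b :=
    tsum_subtype (f := Λ) {x | x ∉ s}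
  rw [e]
  refine ENNReal.tsum_le_tsum fun b => ?_
  split_ifs with hb
  · have : b ∉ s := fun hbs => absurd (Finset.le_sup (f := ht) hbs) (by omega)
    rw [Set.indicator_of_mem (show b ∈ {x | x ∉ s} from this)]
  · exact zero_le

/-- one step down, through an atom `a` of height `1` -/
lemma step (Λ : B → ℝ≥0∞) (ht : B → ℕ) (dp : B → W) (G : ℕ → W → ℝ≥0∞)
    (hΛ : ∑' b, Λ b = 1) (hG1 : ∀ h z, G h z ≤ 1)
    (hR : ∀ h z, 1 ≤ h → G h z ≤ ∑' b, Λ b * (if ht b ≤ h then G (h - ht b) (z - dp b) else 0))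
    (L : ℝ) (hL0 : 0 ≤ L) (hlim : ∀ ε : ℝ, 0 < ε → ∃ H : ℕ, ∀ h, H ≤ h → ∀ z, (G h z).toReal ≤ L + ε)
    (a : B) (hta : ht a = 1) (ha : Λ a ≠ 0) (ε : ℝ) (hε : 0 < ε) :
    ∃ ε' : ℝ, 0 < ε' ∧ ε' ≤ ε ∧ ∃ N : ℕ, ∀ h, N ≤ h → ∀ z, L - ε' ≤ (G h z).toReal →
      L - ε ≤ (G (h - 1) (z - dp a)).toReal := by
  classical
  have hat : Λ a ≠ ⊤ := ne_top_of_le_ne_top ENNReal.one_ne_top (hΛ ▸ ENNReal.le_tsum a)
  set l : ℝ := (Λ a).toReal with hl
  have hl0 : 0 < l := ENNReal.toReal_pos ha hat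
  have hl1 : l ≤ 1 := by
    have : Λ a ≤ 1 := hΛ ▸ ENNReal.le_tsum a
    simpa using ENNReal.toReal_mono ENNReal.one_ne_top this
  set δ : ℝ := ε * l / 3 with hδ
  have hδ0 : 0 < δ := by positivity
  obtain ⟨H, hH⟩ := hlim δ hδ0
  obtain ⟨K, hK⟩ := tl_small Λ ht (by rw [hΛ]; exact ENNReal.one_ne_top) (ENNReal.ofReal δ)
    (by simpa using hδ0)
  refine ⟨δ, hδ0, by rw [hδ]; nlinarith, H + K + 1, fun h hh z hz => ?_⟩
  have hGt : ∀ h z, G h z ≠ ⊤ := fun h z => ne_top_of_le_ne_top ENNReal.one_ne_top (hG1 h z)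
  -- the other blocks
  set r : ℝ≥0∞ := ∑' b, (if b = a then 0 else Λ b) with hr
  have hsum : Λ a + r = 1 := by
    rw [← hΛ, ENNReal.tsum_eq_add_tsum_ite a]
  have hrt : r ≠ ⊤ := ne_top_of_le_ne_top ENNReal.one_ne_top (hsum ▸ le_add_self)
  have hrl : r.toReal = 1 - l := by
    have := congrArg ENNReal.toReal hsum
    rw [ENNReal.toReal_add hat hrt] at this
    simp only [ENNReal.toReal_one] at this
    linarith
  have key : G h z ≤ Λ a * G (h - 1) (z - dp a) + (r * ENNReal.ofReal (L + δ) + ENNReal.ofReal δ) := by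
    refine (hR h z (by omega)).trans ?_
    rw [ENNReal.tsum_eq_add_tsum_ite a]
    refine add_le_add ?_ ?_
    · rw [hta, if_pos (by omega)]
    · rw [hr, ← ENNReal.tsum_mul_right]
      refine le_trans ?_ (add_le_add_right hK _)
      rw [← ENNReal.tsum_add]
      refine ENNReal.tsum_le_tsum fun b => ?_
      by_cases hb : b = a
      · simp [hb]
      · simp only [hb, if_false]
        by_cases hbK : K < ht b
        · simp only [hbK, if_true]
          refine le_trans ?_ le_add_self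
          refine (mul_le_mul_right (show _ ≤ (1 : ℝ≥0∞) from ?_) _).trans (mul_one _).le
          split_ifs
          · exact hG1 _ _
          · exact zero_le
        · simp only [hbK, if_false, add_zero]
          refine mul_le_mul_right ?_ _
          rw [if_pos (by omega)]
          rw [← ENNReal.ofReal_toReal (hGt (h - ht b) (z - dp b))]
          exact ENNReal.ofReal_le_ofReal (hH _ (by omega) _)
  have key2 : (G h z).toReal ≤ l * (G (h - 1) (z - dp a)).toReal + ((1 - l) * (L + δ) + δ) := by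
    have h1 : Λ a * G (h - 1) (z - dp a) ≠ ⊤ := ENNReal.mul_ne_top hat (hGt _ _)
    have h2 : r * ENNReal.ofReal (L + δ) ≠ ⊤ := ENNReal.mul_ne_top hrt ENNReal.ofReal_ne_top
    have h3 : r * ENNReal.ofReal (L + δ) + ENNReal.ofReal δ ≠ ⊤ :=
      ENNReal.add_ne_top.2 ⟨h2, ENNReal.ofReal_ne_top⟩
    have := ENNReal.toReal_mono (ENNReal.add_ne_top.2 ⟨h1, h3⟩) key
    rw [ENNReal.toReal_add h1 h3, ENNReal.toReal_add h2 ENNReal.ofReal_ne_top, ENNReal.toReal_mul,
      ENNReal.toReal_mul, hrl, ENNReal.toReal_ofReal (by linarith), ENNReal.toReal_ofReal hδ0.le] at this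
    exact this
  have h4 : l * (L - ε) ≤ l * (G (h - 1) (z - dp a)).toReal := by
    have e1 : ε * l = 3 * δ := by rw [hδ]; ring
    nlinarith
  exact le_of_mul_le_mul_left h4 hl0

/-- **Concentration of the renewal Green function.** -/
theorem green_conc (Λ : B → ℝ≥0∞) (ht : B → ℕ) (dp : B → W) (G : ℕ → W → ℝ≥0∞)
    (hΛ : ∑' b, Λ b = 1) (hG : ∀ h, ∑' z, G h z ≤ 1)
    (hR : ∀ h z, 1 ≤ h → G h z ≤ ∑' b, Λ b * (if ht b ≤ h then G (h - ht b) (z - dp b) else 0))
    (a b : B) (hta : ht a = 1) (htb : ht b = 1) (ha : Λ a ≠ 0) (hb : Λ b ≠ 0)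
    (hf : ∀ n : ℕ, n ≠ 0 → n • (dp b - dp a) ≠ 0) (ε : ℝ≥0∞) (hε : ε ≠ 0) :
    ∃ H : ℕ, ∀ h, H ≤ h → ∀ z, G h z ≤ ε := by
  classical
  have hG1 : ∀ h z, G h z ≤ 1 := fun h z => (ENNReal.le_tsum z).trans (hG h)
  have hGt : ∀ h z, G h z ≠ ⊤ := fun h z => ne_top_of_le_ne_top ENNReal.one_ne_top (hG1 h z)
  set c : ℕ → ℝ≥0∞ := fun h => ⨆ z, G h z with hc
  set Ls : ℝ≥0∞ := limsup c atTop with hLs
  have hc1 : ∀ h, c h ≤ 1 := fun h => iSup_le (hG1 h)
  have hLs1 : Ls ≤ 1 := by
    refine limsup_le_of_le (by isBoundedDefault) (Eventually.of_forall hc1)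
  have hLst : Ls ≠ ⊤ := ne_top_of_le_ne_top ENNReal.one_ne_top hLs1
  by_cases hL : Ls = 0
  · have : ∀ᶠ h in atTop, c h < ε :=
      eventually_lt_of_limsup_lt (by rw [← hLs, hL]; exact pos_iff_ne_zero.2 hε)
        (by isBoundedDefault)
    obtain ⟨H, hH⟩ := eventually_atTop.1 this
    exact ⟨H, fun h hh z => (le_iSup (G h) z).trans (hH h hh).le⟩
  exfalso
  set L : ℝ := Ls.toReal with hLdef
  have hL0 : 0 < L := ENNReal.toReal_pos hL hLst
  set f : W := dp b - dp a with hfdef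
  have hlim : ∀ ε : ℝ, 0 < ε → ∃ H : ℕ, ∀ h, H ≤ h → ∀ z, (G h z).toReal ≤ L + ε := by
    intro e he
    have h1 : Ls < Ls + ENNReal.ofReal e := ENNReal.lt_add_right hLst (by simpa using he)
    obtain ⟨H, hH⟩ := eventually_atTop.1
      (eventually_lt_of_limsup_lt (u := c) (f := atTop) h1 (by isBoundedDefault))
    refine ⟨H, fun h hh z => ?_⟩
    have h2 : G h z ≤ Ls + ENNReal.ofReal e := (le_iSup (G h) z).trans (hH h hh).le
    have := ENNReal.toReal_mono (ENNReal.add_ne_top.2 ⟨hLst, ENNReal.ofReal_ne_top⟩) h2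
    rwa [ENNReal.toReal_add hLst ENNReal.ofReal_ne_top, ENNReal.toReal_ofReal he.le] at this
  have Cl : ∀ m : ℕ, ∀ e : ℝ, 0 < e → ∀ N : ℕ, ∃ h, N ≤ h ∧ ∃ z, ∀ j : ℕ, j ≤ m →
      L - e ≤ (G h (z - j • f)).toReal := by
    intro m
    induction m with
    | zero =>
      intro e he N
      have h1 : Ls - ENNReal.ofReal e < Ls := ENNReal.sub_lt_self hLst hL (by simpa using he)
      have h2 : ∃ᶠ h in atTop, Ls - ENNReal.ofReal e < c h :=
        frequently_lt_of_lt_limsup (by isBoundedDefault) h1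
      obtain ⟨h, hN, hh⟩ := frequently_atTop.1 h2 N
      obtain ⟨z, hz⟩ := lt_iSup_iff.1 hh
      refine ⟨h, hN, z, fun j hj => ?_⟩
      obtain rfl : j = 0 := by omega
      rw [zero_smul, sub_zero]
      have h3 : Ls ≤ G h z + ENNReal.ofReal e := tsub_le_iff_right.1 hz.le
      have := ENNReal.toReal_mono (ENNReal.add_ne_top.2 ⟨hGt h z, ENNReal.ofReal_ne_top⟩) h3
      rw [ENNReal.toReal_add (hGt h z) ENNReal.ofReal_ne_top, ENNReal.toReal_ofReal he.le] at this
      linarith
    | succ m ih =>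
      intro e he N
      obtain ⟨e1, he1, _, N1, h1⟩ := step Λ ht dp G hΛ hG1 hR L hL0.le hlim a hta ha e he
      obtain ⟨e2, he2, _, N2, h2⟩ := step Λ ht dp G hΛ hG1 hR L hL0.le hlim b htb hb e he
      obtain ⟨h, hN, z, hz⟩ := ih (min e1 e2) (lt_min he1 he2) (N + N1 + N2 + 1)
      refine ⟨h - 1, by omega, z - dp a, fun j hj => ?_⟩
      rcases Nat.lt_or_ge m j with hjm | hjm
      · obtain rfl : j = m + 1 := by omega
        have h3 := h2 h (by omega) (z - m • f) (le_trans (by linarith [min_le_right e1 e2]) (hz m le_rfl))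
        have e3 : z - m • f - dp b = z - dp a - (m + 1) • f := by
          rw [succ_nsmul, hfdef]; abel
        rwa [e3] at h3
      · have h3 := h1 h (by omega) (z - j • f) (le_trans (by linarith [min_le_left e1 e2]) (hz j hjm))
        have e3 : z - j • f - dp a = z - dp a - j • f := by abel
        rwa [e3] at h3
  obtain ⟨m, hm⟩ := exists_nat_gt (2 / L)
  obtain ⟨h, -, z, hz⟩ := Cl m (L / 2) (by positivity) 0
  have hinj : Function.Injective (fun j : ℕ => z - j • f) := by
    intro i j hij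
    simp only at hij
    have hij' : i • f = j • f := by simpa using hij
    by_contra hne
    rcases Nat.lt_or_gt_of_ne hne with hlt | hlt
    · refine hf (j - i) (by omega) ?_
      have : (j - i) • f + i • f = j • f := by rw [← add_nsmul]; congr 1; omega
      rw [hij'] at this
      simpa using this
    · refine hf (i - j) (by omega) ?_
      have : (i - j) • f + j • f = i • f := by rw [← add_nsmul]; congr 1; omega
      rw [hij'] at this
      simpa using this
  have h5 : ∑ j ∈ Finset.range (m + 1), G h (z - j • f) ≤ 1 := by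
    refine le_trans ?_ (hG h)
    rw [← Finset.sum_image (f := fun w => G h w) (g := fun j : ℕ => z - j • f)
      (fun i _ j _ hij => hinj hij)]
    exact ENNReal.sum_le_tsum _
  have h6 : ∑ j ∈ Finset.range (m + 1), (G h (z - j • f)).toReal ≤ 1 := by
    rw [← ENNReal.toReal_sum (fun j _ => hGt _ _)]
    simpa using ENNReal.toReal_mono ENNReal.one_ne_top h5
  have h7 : ∑ j ∈ Finset.range (m + 1), (L / 2) ≤ ∑ j ∈ Finset.range (m + 1), (G h (z - j • f)).toReal :=
    Finset.sum_le_sum fun j hj => by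
      have := hz j (by have := Finset.mem_range.1 hj; omega)
      linarith
  rw [Finset.sum_const, Finset.card_range, nsmul_eq_mul] at h7
  have h8 : ((m + 1 : ℕ) : ℝ) * (L / 2) ≤ 1 := h7.trans h6
  have h9 : 2 < (m : ℝ) * L := by rwa [div_lt_iff₀ hL0] at hm
  push_cast at h8
  nlinarith

end Crest.Agent.R154.GreenConc666
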