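import Mathlib

/-! Row 154, d = 2 (helper305): the killed difference walk `W k = w + Σ_{i<k} X i` of two independent
natural walkers (iid joint blocks: displacement `X`, lateral extent `E`), by Lyapunov functions.
Only `E[X] = 0`, `|X| ≤ E`, `E[E²] < ∞`, `P(X ≠ 0) > 0`.  `A k` = ANY decreasing adapted "alive"
events with `W k > 0` a.s. on `A k` (`Alive`).

* `occ`    **(U)** : `Σ_{k<n} P(A k, W k ≤ R) ≤ C (1 + R) (1 + min w R)` for all `n, w, R, A`;
* `killed` **(u)** : `Σ_{k<n} E[av (W k) ; A k] ≤ C_ε + ε w`, `av v = E[E ; E ≥ v]`;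
* `lower`  **(L)** : if moreover `W k ≤ E k` on `A k \ A (k+1)` (`Kills`) and `w ≥ w0`:
  `E[W n ; A n] ≥ w / 2` and `Σ_{k<n} P(A k) ≥ c min (w √n) n`. -/

set_option autoImplicit false

namespace Crest.Agent.R154.Green305

open MeasureTheory ProbabilityTheory Finset
open scoped ENNReal

/-- law of one joint block `(X, E)`: lateral displacement and extent. -/
structure Blk (ν : Measure (ℤ × ℝ)) : Prop where
  prob : IsProbabilityMeasure ν
  dom : ∀ᵐ p ∂ν, |(p.1 : ℝ)| ≤ p.2
  sq : Integrable (fun p : ℤ × ℝ => p.2 ^ 2) ν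
  mean : ∫ p, (p.1 : ℝ) ∂ν = 0
  nd : ν {p | p.1 ≠ 0} ≠ 0

/-- operator killed on `(-∞, 0]` -/
noncomputable def Kop (ν : Measure (ℤ × ℝ)) (g : ℤ → ℝ≥0∞) (v : ℤ) : ℝ≥0∞ :=
  ∫⁻ p, (if 0 < v + p.1 then g (v + p.1) else 0) ∂ν

/-- `E[E ; E ≥ v]` -/
noncomputable def av (ν : Measure (ℤ × ℝ)) (v : ℤ) : ℝ≥0∞ :=
  ∫⁻ p, (if (v : ℝ) ≤ p.2 then ENNReal.ofReal p.2 else 0) ∂ν

lemma mlt {Ω : Type*} {m : MeasurableSpace Ω} {f g : Ω → ℝ} (hf : Measurable f)
    (hg : Measurable g) : MeasurableSet {ω | f ω < g ω} := measurableSet_lt hf hg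

section walk

variable {Ω : Type*} {mΩ : MeasurableSpace Ω}

/-- iid blocks, adapted to a filtration. -/
structure Walk (ν : Measure (ℤ × ℝ)) (P : Measure Ω) (F : ℕ → MeasurableSpace Ω)
    (X : ℕ → Ω → ℤ) (E : ℕ → Ω → ℝ) : Prop where
  le : ∀ k, F k ≤ mΩ
  mono : Monotone F
  meas : ∀ k, Measurable[F (k + 1)] (fun ω => (X k ω, E k ω))
  ind : ∀ k, Indep (F k) (MeasurableSpace.comap (fun ω => (X k ω, E k ω)) inferInstance) P
  law : ∀ k, P.map (fun ω => (X k ω, E k ω)) = ν

/-- position -/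
def W (X : ℕ → Ω → ℤ) (w : ℤ) (k : ℕ) (ω : Ω) : ℤ := w + ∑ i ∈ range k, X i ω

lemma W_succ (X : ℕ → Ω → ℤ) (w : ℤ) (k : ℕ) (ω : Ω) :
    W X w (k + 1) ω = W X w k ω + X k ω := by
  simp only [W, sum_range_succ]; ring

variable {ν : Measure (ℤ × ℝ)} {P : Measure Ω} {F : ℕ → MeasurableSpace Ω} {X : ℕ → Ω → ℤ}
  {E : ℕ → Ω → ℝ}

lemma Walk.measX (h : Walk ν P F X E) (k : ℕ) : Measurable[F (k + 1)] (X k) :=
  measurable_fst.comp (h.meas k)

lemma Walk.measE (h : Walk ν P F X E) (k : ℕ) : Measurable[F (k + 1)] (E k) :=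
  measurable_snd.comp (h.meas k)

lemma Walk.measW (h : Walk ν P F X E) (w : ℤ) (k : ℕ) : Measurable[F k] (W X w k) := by
  unfold W
  refine Measurable.const_add ?_ w
  refine Finset.measurable_fun_sum _ fun i hi => ?_
  exact (h.measX i).mono (h.mono (by simpa using Finset.mem_range.1 hi)) le_rfl

/-- alive events -/
structure Alive (P : Measure Ω) (F : ℕ → MeasurableSpace Ω) (X : ℕ → Ω → ℤ) (w : ℤ)
    (A : ℕ → Set Ω) : Prop where
  zero : A 0 = Set.univ
  meas : ∀ k, MeasurableSet[F k] (A k)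
  anti : ∀ k, A (k + 1) ⊆ A k
  pos : ∀ k, ∀ᵐ ω ∂P, ω ∈ A k → 0 < W X w k ω

/-- one step -/
theorem Walk.step (h : Walk ν P F X E) (w : ℤ) (k : ℕ) (g : ℤ → ℝ≥0∞) {B : Set Ω}
    (hB : MeasurableSet[F k] B) :
    ∫⁻ ω, B.indicator (fun ω => if 0 < W X w (k + 1) ω then g (W X w (k + 1) ω) else 0) ω ∂P
      = ∫⁻ ω, B.indicator (fun ω => Kop ν g (W X w k ω)) ω ∂P := by
  classical
  have hXE : Measurable (fun ω => (X k ω, E k ω)) := (h.meas k).mono (h.le _) le_rfl
  have hWk : Measurable[F k] (W X w k) := h.measW w k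
  have hgm : ∀ v : ℤ, Measurable (fun p : ℤ × ℝ => if 0 < v + p.1 then g (v + p.1) else 0) := by
    intro v
    exact (measurable_of_countable (fun z : ℤ => if 0 < v + z then g (v + z) else 0)).comp
      measurable_fst
  have hBv : ∀ v : ℤ, MeasurableSet[F k] (B ∩ {ω | W X w k ω = v}) := fun v =>
    hB.inter (hWk (measurableSet_singleton v))
  have hone : ∀ v : ℤ, ∫⁻ ω, (B ∩ {ω | W X w k ω = v}).indicator (fun _ => (1 : ℝ≥0∞)) ω *
      (if 0 < v + X k ω then g (v + X k ω) else 0) ∂P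
      = P (B ∩ {ω | W X w k ω = v}) * Kop ν g v := by
    intro v
    have h1 := lintegral_mul_eq_lintegral_mul_lintegral_of_independent_measurableSpace
      (μ := P) (h.le k) (hXE.comap_le) (h.ind k)
      (f := (B ∩ {ω | W X w k ω = v}).indicator (fun _ => (1 : ℝ≥0∞)))
      (g := fun ω => if 0 < v + X k ω then g (v + X k ω) else 0)
      (measurable_const.indicator (hBv v))
      ((hgm v).comp (comap_measurable _))
    rw [h1]
    have h2 : ∫⁻ ω, (B ∩ {ω | W X w k ω = v}).indicator (fun _ => (1 : ℝ≥0∞)) ω ∂P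
        = P (B ∩ {ω | W X w k ω = v}) := by
      rw [lintegral_indicator_const (h.le k _ (hBv v)), one_mul]
    have h3 : ∫⁻ ω, (if 0 < v + X k ω then g (v + X k ω) else 0) ∂P = Kop ν g v := by
      unfold Kop
      rw [← h.law k, lintegral_map (hgm v) hXE]
    rw [h2, h3]
  have hL : ∀ ω, B.indicator (fun ω => if 0 < W X w (k + 1) ω then
      g (W X w (k + 1) ω) else 0) ω = ∑' v : ℤ, (B ∩ {ω | W X w k ω = v}).indicator
        (fun _ => (1 : ℝ≥0∞)) ω * (if 0 < v + X k ω then g (v + X k ω) else 0) := by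
    intro ω
    rw [tsum_eq_single (W X w k ω)]
    · by_cases hb : ω ∈ B
      · have hb2 : ω ∈ B ∩ {ω' | W X w k ω' = W X w k ω} := ⟨hb, rfl⟩
        rw [Set.indicator_of_mem hb, Set.indicator_of_mem hb2, one_mul, W_succ]
      · rw [Set.indicator_of_notMem hb, Set.indicator_of_notMem (fun hh => hb hh.1), zero_mul]
    · intro v hv
      rw [Set.indicator_of_notMem (fun hh => hv hh.2.symm), zero_mul]
  have hR : ∀ ω, B.indicator (fun ω => Kop ν g (W X w k ω)) ω = ∑' v : ℤ,
      (B ∩ {ω | W X w k ω = v}).indicator (fun _ => Kop ν g v) ω := by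
    intro ω
    rw [tsum_eq_single (W X w k ω)]
    · by_cases hb : ω ∈ B
      · have hb2 : ω ∈ B ∩ {ω' | W X w k ω' = W X w k ω} := ⟨hb, rfl⟩
        rw [Set.indicator_of_mem hb, Set.indicator_of_mem hb2]
      · rw [Set.indicator_of_notMem hb, Set.indicator_of_notMem (fun hh => hb hh.1)]
    · intro v hv
      rw [Set.indicator_of_notMem (fun hh => hv hh.2.symm)]
  rw [lintegral_congr hL, lintegral_congr hR, lintegral_tsum, lintegral_tsum]
  · refine tsum_congr fun v => ?_
    rw [hone v, lintegral_indicator_const (h.le k _ (hBv v)), mul_comm]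
  · intro v
    exact (measurable_const.indicator (h.le k _ (hBv v))).aemeasurable
  · intro v
    exact ((measurable_const.indicator (h.le k _ (hBv v))).mul
      ((hgm v).comp hXE)).aemeasurable

/-- expected sum of `f (W k)` over the alive times `k < n` -/
noncomputable def Sn (P : Measure Ω) (X : ℕ → Ω → ℤ) (w : ℤ) (A : ℕ → Set Ω) (n : ℕ)
    (f : ℤ → ℝ≥0∞) : ℝ≥0∞ :=
  ∑ k ∈ range n, ∫⁻ ω, (A k).indicator (fun ω => f (W X w k ω)) ω ∂P

/-- **Lyapunov inequality.** -/
theorem Walk.lyap (h : Walk ν P F X E) {f g b : ℤ → ℝ≥0∞}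
    (hl : ∀ v : ℤ, 0 < v → f v + Kop ν g v ≤ g v + b v) {w : ℤ}
    [IsProbabilityMeasure P] {A : ℕ → Set Ω} (hA : Alive P F X w A) (n : ℕ) :
    ∫⁻ ω, (A n).indicator (fun ω => g (W X w n ω)) ω ∂P + Sn P X w A n f
      ≤ g w + Sn P X w A n b := by
  classical
  have hfm : ∀ (u : ℤ → ℝ≥0∞) (k : ℕ), Measurable (fun ω => u (W X w k ω)) := fun u k =>
    (measurable_of_countable u).comp ((h.measW w k).mono (h.le k) le_rfl)
  unfold Sn
  induction n with
  | zero =>
    simp only [range_zero, sum_empty, add_zero, hA.zero, Set.indicator_univ]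
    have : ∀ ω, g (W X w 0 ω) = g w := by
      intro ω
      simp [W]
    rw [lintegral_congr this, lintegral_const, measure_univ, mul_one]
  | succ k ih =>
    have hBm' : MeasurableSet (A k) := h.le k _ (hA.meas k)
    have hm1 : Measurable ((A k).indicator fun ω => g (W X w k ω)) := (hfm g k).indicator hBm'
    have hm3 : Measurable ((A k).indicator fun ω => Kop ν g (W X w k ω)) :=
      (hfm (Kop ν g) k).indicator hBm'
    have hstep := h.step w k g (hA.meas k)
    have key0 : ∫⁻ ω, (A (k + 1)).indicator (fun ω => g (W X w (k + 1) ω)) ω ∂P ≤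
        ∫⁻ ω, (A k).indicator (fun ω => if 0 < W X w (k + 1) ω then g (W X w (k + 1) ω) else 0)
          ω ∂P := by
      refine lintegral_mono_ae ?_
      filter_upwards [hA.pos (k + 1)] with ω hω
      by_cases hb : ω ∈ A (k + 1)
      · rw [Set.indicator_of_mem hb, Set.indicator_of_mem (hA.anti k hb), if_pos (hω hb)]
      · rw [Set.indicator_of_notMem hb]
        exact zero_le
    have key : ∫⁻ ω, (A (k + 1)).indicator (fun ω => g (W X w (k + 1) ω)) ω ∂P +
        ∫⁻ ω, (A k).indicator (fun ω => f (W X w k ω)) ω ∂P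
        ≤ ∫⁻ ω, (A k).indicator (fun ω => g (W X w k ω)) ω ∂P +
          ∫⁻ ω, (A k).indicator (fun ω => b (W X w k ω)) ω ∂P := by
      refine (add_le_add (key0.trans hstep.le) le_rfl).trans ?_
      rw [← lintegral_add_left hm3, ← lintegral_add_left hm1]
      refine lintegral_mono_ae ?_
      filter_upwards [hA.pos k] with ω hω
      by_cases hb : ω ∈ A k
      · simp only [Set.indicator_of_mem hb]
        rw [add_comm]
        exact hl _ (hω hb)
      · simp only [Set.indicator_of_notMem hb]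
        simp
    rw [sum_range_succ, sum_range_succ]
    set a2 := ∫⁻ ω, (A (k + 1)).indicator (fun ω => g (W X w (k + 1) ω)) ω ∂P
    set a3 := ∫⁻ ω, (A k).indicator (fun ω => f (W X w k ω)) ω ∂P
    set a4 := ∫⁻ ω, (A k).indicator (fun ω => g (W X w k ω)) ω ∂P
    set a5 := ∫⁻ ω, (A k).indicator (fun ω => b (W X w k ω)) ω ∂P
    set s1 := ∑ k ∈ range k, ∫⁻ ω, (A k).indicator (fun ω => f (W X w k ω)) ω ∂P
    set s2 := ∑ k ∈ range k, ∫⁻ ω, (A k).indicator (fun ω => b (W X w k ω)) ω ∂P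
    calc a2 + (s1 + a3) = (a2 + a3) + s1 := by ring
      _ ≤ (a4 + a5) + s1 := add_le_add key le_rfl
      _ = (a4 + s1) + a5 := by ring
      _ ≤ (g w + s2) + a5 := add_le_add ih le_rfl
      _ = g w + (s2 + a5) := by ring

end walk

/-! ### estimates for one block -/

section blk

variable {ν : Measure (ℤ × ℝ)}

/-- `E[X² ; -M ≤ X < 0]` -/
noncomputable def sig (ν : Measure (ℤ × ℝ)) (M : ℤ) : ℝ :=
  ∫ p, (if -M ≤ p.1 ∧ p.1 < 0 then (p.1 : ℝ) ^ 2 else 0) ∂ν

lemma measZ (f : ℤ → ℝ) : Measurable (fun p : ℤ × ℝ => f p.1) :=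
  (measurable_of_countable f).comp measurable_fst

lemma Blk.intE (hν : Blk ν) : Integrable (fun p : ℤ × ℝ => p.2) ν := by
  have := hν.prob
  refine Integrable.mono' ((integrable_const (1 : ℝ)).add hν.sq)
    measurable_snd.aestronglyMeasurable ?_
  refine Filter.Eventually.of_forall fun p => ?_
  simp only [Pi.add_apply, Real.norm_eq_abs]
  nlinarith [sq_nonneg (|p.2| - 1), sq_abs p.2]

lemma Blk.intX (hν : Blk ν) : Integrable (fun p : ℤ × ℝ => (p.1 : ℝ)) ν := by
  refine Integrable.mono' hν.intE (measZ _).aestronglyMeasurable ?_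
  filter_upwards [hν.dom] with p hp
  simpa using hp

lemma Blk.intX2 (hν : Blk ν) : Integrable (fun p : ℤ × ℝ => (p.1 : ℝ) ^ 2) ν := by
  refine Integrable.mono' hν.sq (measZ fun z => (z : ℝ) ^ 2).aestronglyMeasurable ?_
  filter_upwards [hν.dom] with p hp
  rw [Real.norm_eq_abs, abs_of_nonneg (sq_nonneg _), ← sq_abs (p.1 : ℝ)]
  exact pow_le_pow_left₀ (abs_nonneg _) hp 2

lemma Blk.intSig (hν : Blk ν) (M : ℤ) : Integrable (fun p : ℤ × ℝ =>
    (if -M ≤ p.1 ∧ p.1 < 0 then (p.1 : ℝ) ^ 2 else 0)) ν := by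
  refine Integrable.mono' hν.intX2
    (measZ fun z => if -M ≤ z ∧ z < 0 then (z : ℝ) ^ 2 else 0).aestronglyMeasurable ?_
  refine Filter.Eventually.of_forall fun p => ?_
  rw [Real.norm_eq_abs]
  split_ifs
  · rw [abs_of_nonneg (sq_nonneg _)]
  · rw [abs_zero]; exact sq_nonneg _

lemma Blk.measAv (v : ℤ) : Measurable (fun p : ℤ × ℝ => if (v : ℝ) ≤ p.2 then p.2 else 0) :=
  Measurable.ite (measurableSet_le measurable_const measurable_snd) measurable_snd
    measurable_const

lemma Blk.intAv (hν : Blk ν) (v : ℤ) : Integrable (fun p : ℤ × ℝ =>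
    if (v : ℝ) ≤ p.2 then p.2 else 0) ν := by
  refine Integrable.mono' hν.intE.norm (Blk.measAv v).aestronglyMeasurable ?_
  refine Filter.Eventually.of_forall fun p => ?_
  split_ifs
  · exact le_rfl
  · rw [norm_zero]; exact norm_nonneg _

lemma Blk.nn (hν : Blk ν) : ∀ᵐ p ∂ν, 0 ≤ p.2 := by
  filter_upwards [hν.dom] with p hp using (abs_nonneg _).trans hp

lemma Blk.av_eq (hν : Blk ν) (v : ℤ) :
    av ν v = ENNReal.ofReal (∫ p, (if (v : ℝ) ≤ p.2 then p.2 else 0) ∂ν) := by
  rw [ofReal_integral_eq_lintegral_ofReal (hν.intAv v)]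
  · unfold av
    refine lintegral_congr fun p => ?_
    split_ifs <;> simp
  · filter_upwards [hν.nn] with p hp
    simp only [Pi.zero_apply]
    split_ifs
    · exact hp
    · exact le_rfl

lemma Blk.kop_le (hν : Blk ν) {γ : ℤ → ℝ} {v : ℤ} (hv : 0 < v) {s q : ℝ} (hs : 0 ≤ s)
    (hq : 0 ≤ q) {M : ℤ} (hM : q = 0 ∨ M < v) (h0 : ∀ u : ℤ, 0 < u → 0 ≤ γ u)
    (h1 : ∀ x : ℤ, 0 < v + x →
      γ (v + x) ≤ γ v + s * x - (if -M ≤ x ∧ x < 0 then q * (x : ℝ) ^ 2 else 0)) :
    ENNReal.ofReal (q * sig ν M) + Kop ν (fun u => ENNReal.ofReal (γ u)) v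
      ≤ ENNReal.ofReal (γ v) + ENNReal.ofReal s * av ν v := by
  have := hν.prob
  set ψ : ℤ × ℝ → ℝ := fun p => γ v + s * (p.1 : ℝ) -
    q * (if -M ≤ p.1 ∧ p.1 < 0 then (p.1 : ℝ) ^ 2 else 0) +
    s * (if (v : ℝ) ≤ p.2 then p.2 else 0) with hψ
  have hint : Integrable ψ ν :=
    (((integrable_const _).add (hν.intX.const_mul s)).sub ((hν.intSig M).const_mul q)).add
      ((hν.intAv v).const_mul s)
  have hpt : ∀ᵐ p ∂ν, (if 0 < v + p.1 then γ (v + p.1) else 0) ≤ ψ p := by
    filter_upwards [hν.dom] with p hp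
    have hE : 0 ≤ s * (if (v : ℝ) ≤ p.2 then p.2 else 0) := by
      refine mul_nonneg hs ?_
      split_ifs
      · exact (abs_nonneg _).trans hp
      · exact le_rfl
    split_ifs with hp0
    · have := h1 p.1 hp0
      simp only [hψ]
      have e : (if -M ≤ p.1 ∧ p.1 < 0 then q * (p.1 : ℝ) ^ 2 else 0) =
          q * (if -M ≤ p.1 ∧ p.1 < 0 then (p.1 : ℝ) ^ 2 else 0) := by
        split_ifs <;> ring
      rw [e] at this
      linarith
    · have hx : p.1 ≤ -v := by omega
      have hx' : (p.1 : ℝ) ≤ -(v : ℝ) := by exact_mod_cast hx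
      have hab : |(p.1 : ℝ)| = -(p.1 : ℝ) := abs_of_nonpos (by
        have : (0 : ℝ) < v := by exact_mod_cast hv
        linarith)
      have h2 : (v : ℝ) ≤ p.2 := by linarith
      have h3 : q * (if -M ≤ p.1 ∧ p.1 < 0 then (p.1 : ℝ) ^ 2 else 0) = 0 := by
        rcases hM with hM | hM
        · rw [hM, zero_mul]
        · rw [if_neg (by omega), mul_zero]
      have h4 : s * (-(p.1 : ℝ)) ≤ s * p.2 := mul_le_mul_of_nonneg_left (by linarith) hs
      have h5 := h0 v hv
      simp only [hψ]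
      rw [h3, if_pos h2]
      linarith
  have hpt0 : ∀ᵐ p ∂ν, 0 ≤ ψ p := by
    filter_upwards [hpt] with p hp
    refine le_trans ?_ hp
    split_ifs with h
    · exact h0 _ h
    · exact le_rfl
  have hK : Kop ν (fun u => ENNReal.ofReal (γ u)) v ≤ ENNReal.ofReal (∫ p, ψ p ∂ν) := by
    rw [ofReal_integral_eq_lintegral_ofReal hint hpt0]
    unfold Kop
    refine lintegral_mono_ae ?_
    filter_upwards [hpt] with p hp
    split_ifs with h
    · rw [if_pos h] at hp
      exact ENNReal.ofReal_le_ofReal hp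
    · exact zero_le
  have hI : ∫ p, ψ p ∂ν = γ v - q * sig ν M +
      s * ∫ p, (if (v : ℝ) ≤ p.2 then p.2 else 0) ∂ν := by
    have e1 : ∫ p, ψ p ∂ν = ∫ p, (γ v + s * (p.1 : ℝ) -
        q * (if -M ≤ p.1 ∧ p.1 < 0 then (p.1 : ℝ) ^ 2 else 0)) ∂ν +
        ∫ p, s * (if (v : ℝ) ≤ p.2 then p.2 else 0) ∂ν :=
      integral_add (((integrable_const _).add (hν.intX.const_mul s)).sub
        ((hν.intSig M).const_mul q)) ((hν.intAv v).const_mul s)
    have e2 : ∫ p, (γ v + s * (p.1 : ℝ) -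
        q * (if -M ≤ p.1 ∧ p.1 < 0 then (p.1 : ℝ) ^ 2 else 0)) ∂ν =
        ∫ p, (γ v + s * (p.1 : ℝ)) ∂ν -
        ∫ p, q * (if -M ≤ p.1 ∧ p.1 < 0 then (p.1 : ℝ) ^ 2 else 0) ∂ν :=
      integral_sub ((integrable_const _).add (hν.intX.const_mul s)) ((hν.intSig M).const_mul q)
    have e3 : ∫ p : ℤ × ℝ, (γ v + s * (p.1 : ℝ)) ∂ν = γ v := by
      rw [integral_add (integrable_const _) (hν.intX.const_mul s), integral_const_mul, hν.mean]
      simp
    rw [e1, e2, e3, integral_const_mul, integral_const_mul]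
    rfl
  have hsig : 0 ≤ sig ν M := integral_nonneg fun p => by
    simp only [Pi.zero_apply]
    split_ifs
    · exact sq_nonneg _
    · exact le_rfl
  have ha : 0 ≤ ∫ p, (if (v : ℝ) ≤ p.2 then p.2 else 0) ∂ν := by
    refine integral_nonneg_of_ae ?_
    filter_upwards [hν.nn] with p hp
    simp only [Pi.zero_apply]
    split_ifs
    · exact hp
    · exact le_rfl
  have hψ0 : 0 ≤ ∫ p, ψ p ∂ν := integral_nonneg_of_ae hpt0
  calc ENNReal.ofReal (q * sig ν M) + Kop ν (fun u => ENNReal.ofReal (γ u)) v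
      ≤ ENNReal.ofReal (q * sig ν M) + ENNReal.ofReal (∫ p, ψ p ∂ν) := add_le_add le_rfl hK
    _ = ENNReal.ofReal (q * sig ν M + ∫ p, ψ p ∂ν) :=
        (ENNReal.ofReal_add (mul_nonneg hq hsig) hψ0).symm
    _ = ENNReal.ofReal (γ v + s * ∫ p, (if (v : ℝ) ≤ p.2 then p.2 else 0) ∂ν) := by
        rw [hI]; congr 1; ring
    _ = ENNReal.ofReal (γ v) + ENNReal.ofReal s * av ν v := by
        rw [ENNReal.ofReal_add (h0 v hv) (mul_nonneg hs ha), ENNReal.ofReal_mul hs, hν.av_eq]

/-- the chain steps down with positive probability -/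
lemma Blk.neg_pos (hν : Blk ν) : 0 < ν {p | p.1 < 0} := by
  rw [pos_iff_ne_zero]
  intro h
  have h1 : ∀ᵐ p ∂ν, (0 : ℝ) ≤ (p.1 : ℝ) := by
    rw [ae_iff]
    convert h using 3
    ext p
    simp
  have h2 : (fun p : ℤ × ℝ => (p.1 : ℝ)) =ᵐ[ν] 0 :=
    (integral_eq_zero_iff_of_nonneg_ae h1 hν.intX).1 hν.mean
  refine hν.nd ?_
  have h3 : ∀ᵐ p ∂ν, p.1 = 0 := by
    filter_upwards [h2] with p hp
    simpa using hp
  rw [ae_iff] at h3
  exact h3

lemma Blk.exists_sig (hν : Blk ν) : ∃ M : ℕ, 0 < sig ν M := by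
  have := hν.prob
  have hU : {p : ℤ × ℝ | p.1 < 0} = ⋃ M : ℕ, {p : ℤ × ℝ | -(M : ℤ) ≤ p.1 ∧ p.1 < 0} := by
    ext p
    simp only [Set.mem_ofPred_eq, Set.mem_iUnion]
    constructor
    · intro h
      exact ⟨p.1.natAbs, by omega, h⟩
    · rintro ⟨M, _, h⟩
      exact h
  have hpos := hν.neg_pos
  rw [hU] at hpos
  obtain ⟨M, hM⟩ : ∃ M : ℕ, 0 < ν {p : ℤ × ℝ | -(M : ℤ) ≤ p.1 ∧ p.1 < 0} := by
    by_contra hcon
    push Not at hcon
    have : ν (⋃ M : ℕ, {p : ℤ × ℝ | -(M : ℤ) ≤ p.1 ∧ p.1 < 0}) = 0 :=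
      measure_iUnion_null fun M => le_antisymm (hcon M) zero_le
    exact absurd this hpos.ne'
  refine ⟨M, ?_⟩
  have hms : MeasurableSet {p : ℤ × ℝ | -(M : ℤ) ≤ p.1 ∧ p.1 < 0} :=
    measurable_fst (Set.to_countable {z : ℤ | -(M : ℤ) ≤ z ∧ z < 0}).measurableSet
  have h1 : (ν {p : ℤ × ℝ | -(M : ℤ) ≤ p.1 ∧ p.1 < 0}).toReal ≤ sig ν M := by
    have e : (ν {p : ℤ × ℝ | -(M : ℤ) ≤ p.1 ∧ p.1 < 0}).toReal =
        ∫ p, ({p : ℤ × ℝ | -(M : ℤ) ≤ p.1 ∧ p.1 < 0}).indicator (fun _ => (1 : ℝ)) p ∂ν := by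
      rw [integral_indicator_const _ hms]
      simp [Measure.real]
    rw [e]
    refine integral_mono ((integrable_const (1 : ℝ)).indicator hms) (hν.intSig M) fun p => ?_
    by_cases hp : -(M : ℤ) ≤ p.1 ∧ p.1 < 0
    · rw [Set.indicator_of_mem (show p ∈ {p : ℤ × ℝ | -(M : ℤ) ≤ p.1 ∧ p.1 < 0} from hp)]
      simp only
      rw [if_pos hp]
      have : (p.1 : ℝ) ≤ -1 := by exact_mod_cast (by omega : p.1 ≤ -1)
      nlinarith
    · rw [Set.indicator_of_notMem (show p ∉ {p : ℤ × ℝ | -(M : ℤ) ≤ p.1 ∧ p.1 < 0} from hp)]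
      simp only
      rw [if_neg hp]
  exact lt_of_lt_of_le (ENNReal.toReal_pos hM.ne' (measure_ne_top _ _)) h1

/-- Lyapunov function of the bounded region -/
lemma Blk.small (hν : Blk ν) (R0 : ℕ) : ∃ (C : ℝ) (g : ℤ → ℝ≥0∞), 0 ≤ C ∧
    (∀ v, g v ≤ ENNReal.ofReal C) ∧
    ∀ v : ℤ, 0 < v → (if v ≤ R0 then (1 : ℝ≥0∞) else 0) + Kop ν g v ≤ g v + 0 := by
  have := hν.prob
  set q : ℝ := (ν {p | p.1 < 0}).toReal with hq
  have hq0 : 0 < q := ENNReal.toReal_pos hν.neg_pos.ne' (measure_ne_top _ _)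
  have hq1 : q ≤ 1 := by
    rw [hq]
    exact ENNReal.toReal_le_of_le_ofReal zero_le_one (by simpa using prob_le_one)
  set β : ℝ := q / 2 with hβ
  have hβ0 : 0 < β := by positivity
  have hβ1 : β < 1 := by rw [hβ]; linarith
  set A : ℝ := 2 / (q * β ^ R0) with hA
  have hA0 : 0 < A := by positivity
  set γ : ℤ → ℝ := fun v => if v ≤ R0 then A * (1 - β ^ v.toNat) else A with hγ
  have hγA : ∀ v, γ v ≤ A := by
    intro v
    simp only [hγ]
    split_ifs
    · have : 0 ≤ A * β ^ v.toNat := by positivity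
      linarith
    · exact le_rfl
  have hγ0 : ∀ v, 0 ≤ γ v := by
    intro v
    simp only [hγ]
    split_ifs
    · have : β ^ v.toNat ≤ 1 := pow_le_one₀ hβ0.le hβ1.le
      have : 0 ≤ 1 - β ^ v.toNat := by linarith
      positivity
    · exact hA0.le
  refine ⟨A, fun v => ENNReal.ofReal (γ v), hA0.le, fun v => ENNReal.ofReal_le_ofReal (hγA v), ?_⟩
  intro v hv
  rw [add_zero]
  by_cases hvR : v ≤ R0
  · rw [if_pos hvR]
    have hms : MeasurableSet {p : ℤ × ℝ | p.1 < 0} :=
      measurable_fst (Set.to_countable {z : ℤ | z < 0}).measurableSet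
    -- upper bound of Kop
    have hb : ∀ p : ℤ × ℝ, (if 0 < v + p.1 then ENNReal.ofReal (γ (v + p.1)) else 0) ≤
        ({p : ℤ × ℝ | p.1 < 0}).indicator (fun _ => ENNReal.ofReal (γ (v - 1))) p +
        ({p : ℤ × ℝ | p.1 < 0}ᶜ).indicator (fun _ => ENNReal.ofReal A) p := by
      intro p
      by_cases hp : p.1 < 0
      · rw [Set.indicator_of_mem (show p ∈ {p : ℤ × ℝ | p.1 < 0} from hp),
          Set.indicator_of_notMem (show p ∉ {p : ℤ × ℝ | p.1 < 0}ᶜ from fun hh => hh hp), add_zero]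
        split_ifs with h0
        · refine ENNReal.ofReal_le_ofReal ?_
          simp only [hγ]
          rw [if_pos (by omega), if_pos (by omega)]
          refine mul_le_mul_of_nonneg_left ?_ hA0.le
          have : β ^ (v - 1).toNat ≤ β ^ (v + p.1).toNat :=
            pow_le_pow_of_le_one hβ0.le hβ1.le (by omega)
          linarith
        · exact zero_le
      · rw [Set.indicator_of_notMem (show p ∉ {p : ℤ × ℝ | p.1 < 0} from hp),
          Set.indicator_of_mem (show p ∈ {p : ℤ × ℝ | p.1 < 0}ᶜ from hp), zero_add]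
        split_ifs with h0
        · exact ENNReal.ofReal_le_ofReal (hγA _)
        · exact zero_le
    have hK : Kop ν (fun v => ENNReal.ofReal (γ v)) v ≤
        ENNReal.ofReal (γ (v - 1)) * ν {p | p.1 < 0} + ENNReal.ofReal A * ν {p | p.1 < 0}ᶜ := by
      unfold Kop
      refine (lintegral_mono hb).trans ?_
      rw [lintegral_add_left (measurable_const.indicator hms), lintegral_indicator_const hms,
        lintegral_indicator_const hms.compl]
    have hq' : ν {p | p.1 < 0} = ENNReal.ofReal q := by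
      rw [hq, ENNReal.ofReal_toReal (measure_ne_top _ _)]
    have hqc : ν {p | p.1 < 0}ᶜ = ENNReal.ofReal (1 - q) := by
      rw [prob_compl_eq_one_sub hms, hq', ENNReal.ofReal_sub _ hq0.le, ENNReal.ofReal_one]
    rw [hq', hqc] at hK
    refine (add_le_add le_rfl hK).trans ?_
    rw [← ENNReal.ofReal_mul (hγ0 _), ← ENNReal.ofReal_mul hA0.le, ← ENNReal.ofReal_one,
      ← ENNReal.ofReal_add (mul_nonneg (hγ0 _) hq0.le) (mul_nonneg hA0.le (by linarith)),
      ← ENNReal.ofReal_add zero_le_one (add_nonneg (mul_nonneg (hγ0 _) hq0.le)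
        (mul_nonneg hA0.le (by linarith)))]
    refine ENNReal.ofReal_le_ofReal ?_
    obtain ⟨m, hm⟩ : ∃ m : ℕ, v = m + 1 := ⟨(v - 1).toNat, by omega⟩
    have e1 : v.toNat = m + 1 := by omega
    have e2 : (v - 1).toNat = m := by omega
    have hmR : m ≤ R0 := by omega
    simp only [hγ]
    rw [if_pos (by omega), if_pos hvR, e1, e2]
    have h1 : 1 ≤ A * β ^ m * (q / 2) := by
      have h2 : β ^ R0 ≤ β ^ m := pow_le_pow_of_le_one hβ0.le hβ1.le hmR
      have h3 : A * β ^ R0 * (q / 2) = 1 := by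
        rw [hA]; field_simp
      calc (1 : ℝ) = A * β ^ R0 * (q / 2) := h3.symm
        _ ≤ A * β ^ m * (q / 2) := by
          refine mul_le_mul_of_nonneg_right (mul_le_mul_of_nonneg_left h2 hA0.le) (by positivity)
    have e3 : β ^ (m + 1) = β ^ m * (q / 2) := by rw [pow_succ]
    rw [e3]
    nlinarith
  · rw [if_neg hvR, zero_add]
    have e : γ v = A := by simp only [hγ]; rw [if_neg hvR]
    show Kop ν (fun v => ENNReal.ofReal (γ v)) v ≤ ENNReal.ofReal (γ v)
    rw [e]
    unfold Kop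
    calc ∫⁻ p, (if 0 < v + p.1 then ENNReal.ofReal (γ (v + p.1)) else 0) ∂ν
        ≤ ∫⁻ _p, ENNReal.ofReal A ∂ν := by
          refine lintegral_mono fun p => ?_
          split_ifs
          · exact ENNReal.ofReal_le_ofReal (hγA _)
          · exact zero_le
      _ = ENNReal.ofReal A := by rw [lintegral_const, measure_univ, mul_one]

/-- Lyapunov function of the region `(0, R]` -/
noncomputable def gam (R : ℕ) (v : ℤ) : ℝ := if v ≤ R then 2 * (v : ℝ) - (v : ℝ) ^ 2 / R else R

lemma gam_nonneg {R : ℕ} (hR : 0 < R) {v : ℤ} (hv : 0 < v) : 0 ≤ gam R v := by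
  have hR' : (0 : ℝ) < R := by exact_mod_cast hR
  have hv' : (0 : ℝ) < v := by exact_mod_cast hv
  unfold gam
  split_ifs with h
  · have h' : (v : ℝ) ≤ R := by exact_mod_cast h
    have : (v : ℝ) ^ 2 / R ≤ v := by
      rw [div_le_iff₀ hR']
      nlinarith
    linarith
  · exact hR'.le

lemma gam_le_two {R : ℕ} (hR : 0 < R) {v : ℤ} (hv : 0 < v) : gam R v ≤ 2 * min (v : ℝ) R := by
  have hR' : (0 : ℝ) < R := by exact_mod_cast hR
  have hv' : (0 : ℝ) < v := by exact_mod_cast hv
  unfold gam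
  split_ifs with h
  · have h' : (v : ℝ) ≤ R := by exact_mod_cast h
    rw [min_eq_left h']
    have : 0 ≤ (v : ℝ) ^ 2 / R := by positivity
    linarith
  · have h' : (R : ℝ) ≤ v := by exact_mod_cast (not_le.1 h).le
    rw [min_eq_right h']
    linarith

lemma Blk.lyapR (hν : Blk ν) {R : ℕ} (hR : 0 < R) (M : ℤ) (v : ℤ) (hv : 0 < v) :
    (if M < v ∧ v ≤ R then ENNReal.ofReal (1 / R * sig ν M) else 0) +
      Kop ν (fun u => ENNReal.ofReal (gam R u)) v
      ≤ ENNReal.ofReal (gam R v) + (if v ≤ R then 2 * av ν v else 0) := by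
  have hR' : (0 : ℝ) < R := by exact_mod_cast hR
  have hv' : (0 : ℝ) < v := by exact_mod_cast hv
  have hmax : ∀ u : ℤ, gam R u ≤ R := by
    intro u
    unfold gam
    split_ifs with h
    · have : 0 ≤ ((R : ℝ) - u) ^ 2 / R := by positivity
      have e : ((R : ℝ) - u) ^ 2 / R = R - 2 * u + (u : ℝ) ^ 2 / R := by
        field_simp
        ring
      linarith
    · exact le_rfl
  by_cases h : v ≤ R
  · have h' : (v : ℝ) ≤ R := by exact_mod_cast h
    set s : ℝ := 2 - 2 * (v : ℝ) / R with hs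
    have hs0 : 0 ≤ s := by
      rw [hs, sub_nonneg, div_le_iff₀ hR']
      linarith
    have hs2 : s ≤ 2 := by
      have : 0 ≤ 2 * (v : ℝ) / R := by positivity
      rw [hs]; linarith
    have hkey : ∀ x : ℤ, 0 < v + x → gam R (v + x) ≤ gam R v + s * x -
        (if -M ≤ x ∧ x < 0 then 1 / R * (x : ℝ) ^ 2 else 0) := by
      intro x hx
      have ev : gam R v = 2 * (v : ℝ) - (v : ℝ) ^ 2 / R := by unfold gam; rw [if_pos h]
      rw [ev]
      by_cases hu : v + x ≤ R
      · have eu : gam R (v + x) = 2 * ((v : ℝ) + x) - ((v : ℝ) + x) ^ 2 / R := by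
          unfold gam; rw [if_pos hu]; push_cast; ring
        have e2 : 2 * ((v : ℝ) + x) - ((v : ℝ) + x) ^ 2 / R =
            2 * (v : ℝ) - (v : ℝ) ^ 2 / R + s * x - 1 / R * (x : ℝ) ^ 2 := by
          rw [hs]; field_simp; ring
        rw [eu, e2]
        have : (if -M ≤ x ∧ x < 0 then 1 / R * (x : ℝ) ^ 2 else 0) ≤ 1 / R * (x : ℝ) ^ 2 := by
          split_ifs
          · exact le_rfl
          · positivity
        linarith
      · have hx0 : ¬ (-M ≤ x ∧ x < 0) := by
          rintro ⟨_, h2⟩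
          omega
        rw [if_neg hx0, sub_zero]
        refine (hmax _).trans ?_
        have hx1 : (R : ℝ) - v ≤ x := by
          have : (R : ℤ) - v ≤ x := by omega
          exact_mod_cast this
        have h3 : s * ((R : ℝ) - v) ≤ s * x := mul_le_mul_of_nonneg_left hx1 hs0
        have h4 : 2 * (v : ℝ) - (v : ℝ) ^ 2 / R + s * ((R : ℝ) - v) - R =
            ((R : ℝ) - v) ^ 2 / R := by
          rw [hs]; field_simp; ring
        have h5 : 0 ≤ ((R : ℝ) - v) ^ 2 / R := by positivity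
        linarith
    rw [if_pos h]
    have hsa : ENNReal.ofReal s * av ν v ≤ 2 * av ν v := by
      refine mul_le_mul' ?_ le_rfl
      calc ENNReal.ofReal s ≤ ENNReal.ofReal 2 := ENNReal.ofReal_le_ofReal hs2
        _ = 2 := by norm_num
    by_cases hM : M < v
    · rw [if_pos ⟨hM, h⟩]
      refine (hν.kop_le hv hs0 (by positivity : (0 : ℝ) ≤ 1 / R) (Or.inr hM)
        (fun u hu => gam_nonneg hR hu) hkey).trans (add_le_add le_rfl hsa)
    · rw [if_neg (fun hh => hM hh.1)]
      have := hν.kop_le (q := 0) (M := M) hv hs0 le_rfl (Or.inl rfl)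
        (fun u hu => gam_nonneg hR hu) (fun x hx => by
          refine (hkey x hx).trans ?_
          have : (0 : ℝ) ≤ (if -M ≤ x ∧ x < 0 then 1 / R * (x : ℝ) ^ 2 else 0) := by
            split_ifs
            · positivity
            · exact le_rfl
          simp only [zero_mul, ite_self, sub_zero]
          linarith)
      simp only [zero_mul, ENNReal.ofReal_zero] at this
      exact this.trans (add_le_add le_rfl hsa)
  · rw [if_neg h, if_neg (fun hh => h hh.2), add_zero]
    have ev : gam R v = R := by unfold gam; rw [if_neg h]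
    have := hν.kop_le (γ := gam R) (q := 0) (M := M) (s := 0) hv le_rfl le_rfl (Or.inl rfl)
      (fun u hu => gam_nonneg hR hu) (fun x hx => by
        simp only [zero_mul, ite_self, sub_zero, add_zero]
        rw [ev]
        exact hmax _)
    simp only [zero_mul, ENNReal.ofReal_zero, zero_mul, add_zero] at this
    exact this

/-- mass of the extents in `[m, m+1)` -/
noncomputable def cm (ν : Measure (ℤ × ℝ)) (m : ℕ) : ℝ≥0∞ :=
  ∫⁻ p, (if (m : ℝ) ≤ p.2 ∧ p.2 < m + 1 then ENNReal.ofReal p.2 else 0) ∂ν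

lemma measC (m : ℕ) (f : ℝ → ℝ≥0∞) (hf : Measurable f) : Measurable (fun p : ℤ × ℝ =>
    (if (m : ℝ) ≤ p.2 ∧ p.2 < m + 1 then f p.2 else 0)) := by
  refine Measurable.ite ?_ (hf.comp measurable_snd) measurable_const
  exact (measurableSet_le measurable_const measurable_snd).inter
    (measurableSet_lt measurable_snd measurable_const)

lemma Blk.av_le (v : ℤ) (hv : 0 < v) :
    av ν v ≤ ∑' m : ℕ, (if v ≤ m then cm ν m else 0) := by
  have h1 : ∀ m : ℕ, (if v ≤ m then cm ν m else 0) = ∫⁻ p : ℤ × ℝ,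
      (if v ≤ m then (if (m : ℝ) ≤ p.2 ∧ p.2 < m + 1 then ENNReal.ofReal p.2 else 0) else 0) ∂ν := by
    intro m
    split_ifs
    · rfl
    · simp
  rw [tsum_congr h1, ← lintegral_tsum]
  · unfold av
    refine lintegral_mono fun p => ?_
    split_ifs with hp
    · have hp0 : (0 : ℝ) ≤ p.2 := le_trans (by exact_mod_cast hv.le) hp
      have h2 : v ≤ (⌊p.2⌋₊ : ℤ) := by
        have h3 : v ≤ ⌊p.2⌋ := Int.le_floor.2 hp
        rw [Int.natCast_floor_eq_floor hp0]
        exact h3
      refine le_trans ?_ (ENNReal.le_tsum ⌊p.2⌋₊)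
      rw [if_pos h2, if_pos ⟨Nat.floor_le hp0, Nat.lt_floor_add_one _⟩]
    · exact zero_le
  · intro m
    split_ifs
    · exact (measC m _ ENNReal.measurable_ofReal).aemeasurable
    · exact measurable_const.aemeasurable

lemma Blk.sum_cm (hν : Blk ν) : (∑' m : ℕ, cm ν m ≠ ⊤) ∧ (∑' m : ℕ, (m : ℝ≥0∞) * cm ν m ≠ ⊤) := by
  have hA : ∀ (f : ℝ → ℝ≥0∞), Measurable f → (∀ x : ℝ, x < 0 → f x = 0) →
      ∑' m : ℕ, ∫⁻ p : ℤ × ℝ, (if (m : ℝ) ≤ p.2 ∧ p.2 < m + 1 then f p.2 else 0) ∂ν
        ≤ ∫⁻ p : ℤ × ℝ, f p.2 ∂ν := by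
    intro f hf hf0
    rw [← lintegral_tsum (fun m => (measC m f hf).aemeasurable)]
    refine lintegral_mono fun p => ?_
    rw [tsum_eq_single ⌊p.2⌋₊]
    · split_ifs <;> simp
    · intro m hm
      rw [if_neg]
      rintro ⟨h1, h2⟩
      exact hm ((Nat.floor_eq_iff (le_trans (by positivity) h1)).2 ⟨h1, h2⟩).symm
  have h1 := hA ENNReal.ofReal ENNReal.measurable_ofReal
    (fun x hx => ENNReal.ofReal_of_nonpos hx.le)
  have hf1 : ∫⁻ p : ℤ × ℝ, ENNReal.ofReal p.2 ∂ν ≠ ⊤ := hν.intE.lintegral_lt_top.ne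
  have hf2 : ∫⁻ p : ℤ × ℝ, ENNReal.ofReal (p.2 ^ 2) ∂ν ≠ ⊤ := hν.sq.lintegral_lt_top.ne
  refine ⟨ne_top_of_le_ne_top hf1 h1, ?_⟩
  have h2 : ∀ m : ℕ, (m : ℝ≥0∞) * cm ν m ≤ ∫⁻ p : ℤ × ℝ,
      (if (m : ℝ) ≤ p.2 ∧ p.2 < m + 1 then ENNReal.ofReal (p.2 ^ 2) else 0) ∂ν := by
    intro m
    unfold cm
    rw [← lintegral_const_mul _ (measC m _ ENNReal.measurable_ofReal)]
    refine lintegral_mono fun p => ?_
    split_ifs with hp
    · have : (m : ℝ≥0∞) = ENNReal.ofReal m := by simp
      rw [this, ← ENNReal.ofReal_mul (by positivity), pow_two]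
      refine ENNReal.ofReal_le_ofReal ?_
      exact mul_le_mul_of_nonneg_right hp.1 (le_trans (by positivity) hp.1)
    · simp
  have hm2 : Measurable (fun x : ℝ => ENNReal.ofReal (x ^ 2)) :=
    ENNReal.measurable_ofReal.comp (measurable_id.pow_const 2)
  have h3 : ∑' m : ℕ, ∫⁻ p : ℤ × ℝ, (if (m : ℝ) ≤ p.2 ∧ p.2 < m + 1 then
      ENNReal.ofReal (p.2 ^ 2) else 0) ∂ν ≤ ∫⁻ p : ℤ × ℝ, ENNReal.ofReal (p.2 ^ 2) ∂ν := by
    rw [← lintegral_tsum (fun m => (measC m _ hm2).aemeasurable)]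
    refine lintegral_mono fun p => ?_
    rw [tsum_eq_single ⌊p.2⌋₊]
    · split_ifs <;> simp
    · intro m hm
      rw [if_neg]
      rintro ⟨h1, h2⟩
      exact hm ((Nat.floor_eq_iff (le_trans (by positivity) h1)).2 ⟨h1, h2⟩).symm
  exact ne_top_of_le_ne_top hf2 ((ENNReal.tsum_le_tsum h2).trans h3)

end blk

/-! ### the occupation bound -/

section main

universe u

variable {ν : Measure (ℤ × ℝ)}

section sn

variable {Ω : Type u} {mΩ : MeasurableSpace Ω} {P : Measure Ω} {F : ℕ → MeasurableSpace Ω}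
  {X : ℕ → Ω → ℤ} {E : ℕ → Ω → ℝ} {w : ℤ} {A : ℕ → Set Ω}

lemma Sn_mono (hA : Alive P F X w A) (n : ℕ) {f g : ℤ → ℝ≥0∞} (hfg : ∀ v, 0 < v → f v ≤ g v) :
    Sn P X w A n f ≤ Sn P X w A n g := by
  refine Finset.sum_le_sum fun k _ => lintegral_mono_ae ?_
  filter_upwards [hA.pos k] with ω hω
  by_cases hb : ω ∈ A k
  · simp only [Set.indicator_of_mem hb]
    exact hfg _ (hω hb)
  · simp only [Set.indicator_of_notMem hb]
    exact le_rfl

lemma measSn (h : Walk ν P F X E) (hA : Alive P F X w A) (f : ℤ → ℝ≥0∞) (k : ℕ) :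
    Measurable ((A k).indicator fun ω => f (W X w k ω)) :=
  ((measurable_of_countable f).comp ((h.measW w k).mono (h.le k) le_rfl)).indicator
    (h.le k _ (hA.meas k))

lemma Sn_add (h : Walk ν P F X E) (hA : Alive P F X w A) (n : ℕ) (f g : ℤ → ℝ≥0∞) :
    Sn P X w A n (fun v => f v + g v) = Sn P X w A n f + Sn P X w A n g := by
  unfold Sn
  rw [← sum_add_distrib]
  refine Finset.sum_congr rfl fun k _ => ?_
  rw [← lintegral_add_left (measSn h hA f k)]
  refine lintegral_congr fun ω => ?_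
  by_cases hb : ω ∈ A k
  · simp only [Set.indicator_of_mem hb]
  · simp only [Set.indicator_of_notMem hb, add_zero]

lemma Sn_const_mul (h : Walk ν P F X E) (hA : Alive P F X w A) (n : ℕ) (c : ℝ≥0∞)
    (f : ℤ → ℝ≥0∞) : Sn P X w A n (fun v => c * f v) = c * Sn P X w A n f := by
  unfold Sn
  rw [Finset.mul_sum]
  refine Finset.sum_congr rfl fun k _ => ?_
  rw [← lintegral_const_mul _ (measSn h hA f k)]
  refine lintegral_congr fun ω => ?_
  by_cases hb : ω ∈ A k
  · simp only [Set.indicator_of_mem hb]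
  · simp only [Set.indicator_of_notMem hb, mul_zero]

lemma Sn_tsum (h : Walk ν P F X E) (hA : Alive P F X w A) (n : ℕ) (f : ℕ → ℤ → ℝ≥0∞) :
    Sn P X w A n (fun v => ∑' m, f m v) = ∑' m, Sn P X w A n (f m) := by
  unfold Sn
  rw [Summable.tsum_finsetSum (fun _ _ => ENNReal.summable)]
  refine Finset.sum_congr rfl fun k _ => ?_
  rw [← lintegral_tsum (fun m => (measSn h hA (f m) k).aemeasurable)]
  refine lintegral_congr fun ω => ?_
  by_cases hb : ω ∈ A k
  · simp only [Set.indicator_of_mem hb]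
  · simp only [Set.indicator_of_notMem hb, tsum_zero]

end sn

/-- indicator of `(-∞, R]` -/
noncomputable def ind (R : ℤ) (v : ℤ) : ℝ≥0∞ := if v ≤ R then 1 else 0

theorem visits (hν : Blk ν) (R0 : ℕ) : ∃ C : ℝ, 0 ≤ C ∧
    ∀ (Ω : Type u) (_mΩ : MeasurableSpace Ω) (P : Measure Ω) [IsProbabilityMeasure P]
      (F : ℕ → MeasurableSpace Ω) (X : ℕ → Ω → ℤ) (E : ℕ → Ω → ℝ) (_ : Walk ν P F X E)
      (w : ℤ) (A : ℕ → Set Ω) (_ : Alive P F X w A) (n : ℕ),
      Sn P X w A n (ind R0) ≤ ENNReal.ofReal C := by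
  obtain ⟨C, g, hC, hg, hl⟩ := hν.small R0
  refine ⟨C, hC, ?_⟩
  intro Ω mΩ P _ F X E h w A hA n
  have h1 := h.lyap (f := ind R0) (g := g) (b := fun _ => 0) (fun v hv => hl v hv) hA n
  have h2 : Sn P X w A n (fun _ => 0) = 0 := by
    unfold Sn
    refine Finset.sum_eq_zero fun k _ => ?_
    simp
  rw [h2, add_zero] at h1
  exact (le_add_self.trans h1).trans (hg w)

/-- bound of the occupation of `(0,R]` by `Z_R` -/
lemma occ_of_Z (hν : Blk ν) {M : ℕ} (hM : 0 < sig ν M) {C0 : ℝ}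
    {Ω : Type u} {mΩ : MeasurableSpace Ω} {P : Measure Ω} [IsProbabilityMeasure P]
    {F : ℕ → MeasurableSpace Ω} {X : ℕ → Ω → ℤ} {E : ℕ → Ω → ℝ} (h : Walk ν P F X E)
    {w : ℤ} (hw : 0 < w) {A : ℕ → Set Ω} (hA : Alive P F X w A) (n : ℕ)
    (hC0 : Sn P X w A n (ind M) ≤ ENNReal.ofReal C0) {R : ℕ} (hR : 0 < R) :
    Sn P X w A n (ind R) ≤ ENNReal.ofReal C0 + (R : ℝ≥0∞) * (ENNReal.ofReal (2 / sig ν M) *
      (ENNReal.ofReal (min (w : ℝ) R) +
        Sn P X w A n (fun v => if v ≤ R then av ν v else 0))) := by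
  set σ := sig ν M with hσ
  have hR' : (0 : ℝ) < R := by exact_mod_cast hR
  set J : ℤ → ℝ≥0∞ := fun v => if (M : ℤ) < v ∧ v ≤ R then 1 else 0 with hJ
  set Z := Sn P X w A n (fun v => if v ≤ R then av ν v else 0) with hZ
  have h1 := h.lyap (f := fun v => if (M : ℤ) < v ∧ v ≤ R then ENNReal.ofReal (1 / R * σ) else 0)
    (g := fun u => ENNReal.ofReal (gam R u)) (b := fun v => if v ≤ R then 2 * av ν v else 0)
    (fun v hv => hν.lyapR hR M v hv) hA n
  have e1 : Sn P X w A n (fun v => if (M : ℤ) < v ∧ v ≤ R then ENNReal.ofReal (1 / R * σ) else 0)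
      = ENNReal.ofReal (1 / R * σ) * Sn P X w A n J := by
    rw [← Sn_const_mul h hA]
    congr 1
    funext v
    simp only [hJ]
    split_ifs <;> simp
  have e2 : Sn P X w A n (fun v => if v ≤ R then 2 * av ν v else 0) = 2 * Z := by
    rw [hZ, ← Sn_const_mul h hA]
    congr 1
    funext v
    split_ifs <;> simp
  have h2 : ENNReal.ofReal (1 / R * σ) * Sn P X w A n J ≤
      2 * ENNReal.ofReal (min (w : ℝ) R) + 2 * Z := by
    have h3 : ENNReal.ofReal (gam R w) ≤ 2 * ENNReal.ofReal (min (w : ℝ) R) := by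
      calc ENNReal.ofReal (gam R w) ≤ ENNReal.ofReal (2 * min (w : ℝ) R) :=
            ENNReal.ofReal_le_ofReal (gam_le_two hR hw)
        _ = 2 * ENNReal.ofReal (min (w : ℝ) R) := by
            rw [ENNReal.ofReal_mul (by norm_num)]
            norm_num
    rw [← e1]
    refine (le_add_self.trans h1).trans ?_
    rw [e2]
    exact add_le_add h3 le_rfl
  have h4 : Sn P X w A n J ≤ (R : ℝ≥0∞) * (ENNReal.ofReal (2 / σ) *
      (ENNReal.ofReal (min (w : ℝ) R) + Z)) := by
    have e3 : ENNReal.ofReal (R / σ) * ENNReal.ofReal (1 / R * σ) = 1 := by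
      rw [← ENNReal.ofReal_mul (by positivity)]
      have : (R : ℝ) / σ * (1 / R * σ) = 1 := by field_simp
      rw [this, ENNReal.ofReal_one]
    calc Sn P X w A n J = ENNReal.ofReal (R / σ) * (ENNReal.ofReal (1 / R * σ) *
          Sn P X w A n J) := by rw [← mul_assoc, e3, one_mul]
      _ ≤ ENNReal.ofReal (R / σ) * (2 * ENNReal.ofReal (min (w : ℝ) R) + 2 * Z) :=
          mul_le_mul' le_rfl h2
      _ = _ := by
          have e4 : ENNReal.ofReal (R / σ) * 2 = (R : ℝ≥0∞) * ENNReal.ofReal (2 / σ) := by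
            have a1 : (2 : ℝ≥0∞) = ENNReal.ofReal 2 := by norm_num
            have a2 : (R : ℝ≥0∞) = ENNReal.ofReal R := by simp
            rw [a1, a2, ← ENNReal.ofReal_mul (by positivity), ← ENNReal.ofReal_mul (by positivity)]
            congr 1
            field_simp
          rw [← mul_add, ← mul_assoc, e4, mul_assoc]
  calc Sn P X w A n (ind R) ≤ Sn P X w A n (fun v => ind M v + J v) := by
        refine Sn_mono hA n fun v _ => ?_
        simp only [ind, hJ]
        by_cases hv1 : v ≤ R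
        · rw [if_pos hv1]
          by_cases hv2 : v ≤ (M : ℤ)
          · rw [if_pos hv2]; exact le_self_add
          · rw [if_neg hv2, if_pos ⟨not_le.1 hv2, hv1⟩, zero_add]
        · rw [if_neg hv1]; exact zero_le
    _ = Sn P X w A n (ind M) + Sn P X w A n J := Sn_add h hA n _ _
    _ ≤ _ := add_le_add hC0 h4

lemma Z_le {Ω : Type u} {mΩ : MeasurableSpace Ω} {P : Measure Ω}
    [IsProbabilityMeasure P]
    {F : ℕ → MeasurableSpace Ω} {X : ℕ → Ω → ℤ} {E : ℕ → Ω → ℝ} (h : Walk ν P F X E)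
    {w : ℤ} {A : ℕ → Set Ω} (hA : Alive P F X w A) (n : ℕ) (R : ℕ) :
    Sn P X w A n (fun v => if v ≤ R then av ν v else 0) ≤
      ∑' m : ℕ, cm ν m * Sn P X w A n (ind (min m R : ℕ)) := by
  have e : ∀ m : ℕ, cm ν m * Sn P X w A n (ind (min m R : ℕ)) =
      Sn P X w A n (fun v => cm ν m * ind (min m R : ℕ) v) := fun m =>
    (Sn_const_mul h hA n _ _).symm
  rw [tsum_congr e, ← Sn_tsum h hA]
  refine Sn_mono hA n fun v hv => ?_
  split_ifs with hvR
  · refine (Blk.av_le v hv).trans ?_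
    refine ENNReal.tsum_le_tsum fun m => ?_
    split_ifs with hvm
    · simp only [ind]
      rw [if_pos (by push_cast; omega), mul_one]
    · exact zero_le
  · exact zero_le

theorem key (hν : Blk ν) (ε : ℝ) (hε : 0 < ε) : ∃ C : ℝ, 0 ≤ C ∧
    ∀ (Ω : Type u) (_mΩ : MeasurableSpace Ω) (P : Measure Ω) [IsProbabilityMeasure P]
      (F : ℕ → MeasurableSpace Ω) (X : ℕ → Ω → ℤ) (E : ℕ → Ω → ℝ) (_ : Walk ν P F X E)
      (w : ℤ) (_ : 0 < w) (A : ℕ → Set Ω) (_ : Alive P F X w A) (n : ℕ) (R : ℕ), 0 < R →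
      Sn P X w A n (fun v => if v ≤ R then av ν v else 0) ≤
        ENNReal.ofReal (C + ε * min (w : ℝ) R) := by
  obtain ⟨M, hM⟩ := hν.exists_sig
  obtain ⟨C0, hC0, hv0⟩ := visits.{u} hν M
  set σ := sig ν M with hσ
  set η : ℝ := min (ε / 2) (1 / 2) with hη
  have hη0 : 0 < η := by rw [hη]; exact lt_min (by positivity) (by norm_num)
  have hη1 : η ≤ 1 / 2 := min_le_right _ _
  have hη2 : η ≤ ε / 2 := min_le_left _ _
  -- the tail
  have htail := ENNReal.tendsto_sum_nat_add (fun m : ℕ => (m : ℝ≥0∞) * cm ν m) hν.sum_cm.2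
  have hpos : (0 : ℝ≥0∞) < ENNReal.ofReal (η * σ / 2) := ENNReal.ofReal_pos.2 (by positivity)
  obtain ⟨x1, hx1⟩ := ((tendsto_order.1 htail).2 _ hpos).exists_forall_of_atTop
  have hx := hx1 (x1 + 1) (by omega)
  set y : ℕ := x1 + 1 with hy
  obtain ⟨C1, hC1, hv1⟩ := visits.{u} hν y
  set c : ℝ≥0∞ := ∑' m : ℕ, cm ν m with hc
  have hcT : c ≠ ⊤ := hν.sum_cm.1
  set K : ℝ := c.toReal * (C0 + C1) with hK
  have hK0 : 0 ≤ K := by positivity
  refine ⟨2 * K, by positivity, ?_⟩
  intro Ω mΩ P _ F X E h w hw A hA n R hR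
  set Z := Sn P X w A n (fun v => if v ≤ R then av ν v else 0) with hZ
  have hR' : (0 : ℝ) < R := by exact_mod_cast hR
  have hw' : (0 : ℝ) < w := by exact_mod_cast hw
  set wR : ℝ := min (w : ℝ) R with hwR
  have hwR0 : 0 < wR := lt_min hw' hR'
  -- finiteness of `Z`
  have havle : ∀ v : ℤ, av ν v ≤ ∫⁻ p : ℤ × ℝ, ENNReal.ofReal p.2 ∂ν := by
    intro v
    unfold av
    refine lintegral_mono fun p => ?_
    split_ifs
    · exact le_rfl
    · exact zero_le
  have hm1 : ∫⁻ p : ℤ × ℝ, ENNReal.ofReal p.2 ∂ν ≠ ⊤ := hν.intE.lintegral_lt_top.ne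
  have hZT : Z ≠ ⊤ := by
    have : Z ≤ ∑ _k ∈ range n, ∫⁻ p : ℤ × ℝ, ENNReal.ofReal p.2 ∂ν := by
      refine Finset.sum_le_sum fun k _ => ?_
      calc ∫⁻ ω, (A k).indicator (fun ω => if W X w k ω ≤ R then av ν (W X w k ω) else 0) ω ∂P
          ≤ ∫⁻ _ω, (∫⁻ p : ℤ × ℝ, ENNReal.ofReal p.2 ∂ν) ∂P := by
            refine lintegral_mono fun ω => ?_
            by_cases hb : ω ∈ A k
            · simp only [Set.indicator_of_mem hb]
              split_ifs
              · exact havle _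
              · exact zero_le
            · simp only [Set.indicator_of_notMem hb]
              exact zero_le
        _ = ∫⁻ p : ℤ × ℝ, ENNReal.ofReal p.2 ∂ν := by
            rw [lintegral_const, measure_univ, mul_one]
    refine ne_top_of_le_ne_top ?_ this
    rw [Finset.sum_const, nsmul_eq_mul]
    exact ENNReal.mul_ne_top (ENNReal.natCast_ne_top _) hm1
  -- the recursion
  have hrec : Z ≤ ENNReal.ofReal K + ENNReal.ofReal η * (ENNReal.ofReal wR + Z) := by
    refine (Z_le h hA n R).trans ?_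
    rw [← Summable.sum_add_tsum_nat_add' (k := y) ENNReal.summable]
    have hlow : ∑ m ∈ range y, cm ν m * Sn P X w A n (ind (min m R : ℕ)) ≤
        c * ENNReal.ofReal C1 := by
      calc ∑ m ∈ range y, cm ν m * Sn P X w A n (ind (min m R : ℕ))
          ≤ ∑ m ∈ range y, cm ν m * ENNReal.ofReal C1 := by
            refine Finset.sum_le_sum fun m hm => mul_le_mul' le_rfl ?_
            refine le_trans ?_ (hv1 Ω mΩ P F X E h w A hA n)
            refine Sn_mono hA n fun v _ => ?_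
            simp only [ind]
            have hm' := Finset.mem_range.1 hm
            split_ifs with a1 a2
            · exact le_rfl
            · exfalso; push_cast at a1; omega
            · exact zero_le
            · exact le_rfl
        _ = (∑ m ∈ range y, cm ν m) * ENNReal.ofReal C1 := by rw [Finset.sum_mul]
        _ ≤ c * ENNReal.ofReal C1 := mul_le_mul' (ENNReal.sum_le_tsum _) le_rfl
    have hhigh : ∑' k : ℕ, cm ν (k + y) * Sn P X w A n (ind (min (k + y) R : ℕ)) ≤
        c * ENNReal.ofReal C0 + ENNReal.ofReal η * (ENNReal.ofReal wR + Z) := by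
      have hterm : ∀ k : ℕ, cm ν (k + y) * Sn P X w A n (ind (min (k + y) R : ℕ)) ≤
          cm ν (k + y) * ENNReal.ofReal C0 + ((k + y : ℕ) : ℝ≥0∞) * cm ν (k + y) *
            (ENNReal.ofReal (2 / σ) * (ENNReal.ofReal wR + Z)) := by
        intro k
        set m : ℕ := k + y with hm
        have hmR : 0 < min m R := by omega
        have h5 := occ_of_Z hν hM h hw hA n (hv0 Ω mΩ P F X E h w A hA n) hmR
        have h6 : Sn P X w A n (fun v => if v ≤ (min m R : ℕ) then av ν v else 0) ≤ Z := by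
          refine Sn_mono hA n fun v _ => ?_
          split_ifs with a1 a2
          · exact le_rfl
          · exfalso; push_cast at a1; omega
          · exact zero_le
          · exact le_rfl
        have h7 : ENNReal.ofReal (min (w : ℝ) (min m R : ℕ)) ≤ ENNReal.ofReal wR := by
          refine ENNReal.ofReal_le_ofReal ?_
          rw [hwR]
          refine min_le_min le_rfl ?_
          exact_mod_cast min_le_right m R
        have h8 : ((min m R : ℕ) : ℝ≥0∞) ≤ (m : ℝ≥0∞) := by exact_mod_cast min_le_left m R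
        calc cm ν m * Sn P X w A n (ind (min m R : ℕ))
            ≤ cm ν m * (ENNReal.ofReal C0 + (m : ℝ≥0∞) * (ENNReal.ofReal (2 / σ) *
              (ENNReal.ofReal wR + Z))) := by
              refine mul_le_mul' le_rfl (h5.trans ?_)
              refine add_le_add le_rfl (mul_le_mul' h8 (mul_le_mul' le_rfl (add_le_add h7 h6)))
          _ = _ := by ring
      refine (ENNReal.tsum_le_tsum hterm).trans ?_
      rw [ENNReal.tsum_add, ENNReal.tsum_mul_right, ENNReal.tsum_mul_right]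
      refine add_le_add (mul_le_mul' ?_ le_rfl) ?_
      · exact ENNReal.tsum_comp_le_tsum_of_injective (add_left_injective y) _
      · rw [← mul_assoc]
        refine mul_le_mul' ?_ le_rfl
        calc (∑' k : ℕ, ((k + y : ℕ) : ℝ≥0∞) * cm ν (k + y)) * ENNReal.ofReal (2 / σ)
            ≤ ENNReal.ofReal (η * σ / 2) * ENNReal.ofReal (2 / σ) :=
              mul_le_mul' hx.le le_rfl
          _ = ENNReal.ofReal η := by
              rw [← ENNReal.ofReal_mul (by positivity)]
              congr 1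
              field_simp
    calc _ ≤ c * ENNReal.ofReal C1 + (c * ENNReal.ofReal C0 +
          ENNReal.ofReal η * (ENNReal.ofReal wR + Z)) := add_le_add hlow hhigh
      _ = ENNReal.ofReal K + ENNReal.ofReal η * (ENNReal.ofReal wR + Z) := by
          have : ENNReal.ofReal K = c * ENNReal.ofReal C1 + c * ENNReal.ofReal C0 := by
            rw [hK, ENNReal.ofReal_mul ENNReal.toReal_nonneg, ENNReal.ofReal_toReal hcT,
              ENNReal.ofReal_add hC0 hC1]
            ring
          rw [this, add_assoc]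
  -- solve
  have hZr : Z = ENNReal.ofReal Z.toReal := (ENNReal.ofReal_toReal hZT).symm
  rw [hZr, ← ENNReal.ofReal_add hwR0.le ENNReal.toReal_nonneg,
    ← ENNReal.ofReal_mul hη0.le, ← ENNReal.ofReal_add hK0 (by positivity),
    ENNReal.ofReal_le_ofReal_iff (by positivity)] at hrec
  rw [hZr]
  refine ENNReal.ofReal_le_ofReal ?_
  have hz0 : 0 ≤ Z.toReal := ENNReal.toReal_nonneg
  nlinarith

/-- **(U)** occupation bound. -/
theorem occ (hν : Blk ν) : ∃ C : ℝ, 0 ≤ C ∧
    ∀ (Ω : Type u) (_mΩ : MeasurableSpace Ω) (P : Measure Ω) [IsProbabilityMeasure P]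
      (F : ℕ → MeasurableSpace Ω) (X : ℕ → Ω → ℤ) (E : ℕ → Ω → ℝ) (_ : Walk ν P F X E)
      (w : ℤ) (_ : 0 < w) (A : ℕ → Set Ω) (_ : Alive P F X w A) (n : ℕ) (R : ℕ),
      ∑ k ∈ range n, P (A k ∩ {ω | W X w k ω ≤ R}) ≤
        ENNReal.ofReal (C * (1 + R) * (1 + min (w : ℝ) R)) := by
  obtain ⟨M, hM⟩ := hν.exists_sig
  obtain ⟨C0, hC0, hv0⟩ := visits.{u} hν M
  obtain ⟨K, hK, hk⟩ := key.{u} hν 1 one_pos
  set σ := sig ν M with hσ
  refine ⟨C0 + 2 / σ * (K + 2), by positivity, ?_⟩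
  intro Ω mΩ P _ F X E h w hw A hA n R
  have hS : ∑ k ∈ range n, P (A k ∩ {ω | W X w k ω ≤ R}) = Sn P X w A n (ind R) := by
    unfold Sn
    refine Finset.sum_congr rfl fun k _ => ?_
    have hm : MeasurableSet (A k ∩ {ω | W X w k ω ≤ (R : ℤ)}) := by
      refine (h.le k _ (hA.meas k)).inter ?_
      exact ((h.measW w k).mono (h.le k) le_rfl)
        (Set.to_countable {z : ℤ | z ≤ (R : ℤ)}).measurableSet
    rw [← lintegral_indicator_one hm]
    refine lintegral_congr fun ω => ?_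
    by_cases hb : ω ∈ A k
    · rw [Set.indicator_of_mem hb]
      by_cases hr : W X w k ω ≤ (R : ℤ)
      · rw [Set.indicator_of_mem (show ω ∈ A k ∩ {ω | W X w k ω ≤ (R : ℤ)} from ⟨hb, hr⟩)]
        simp [ind, hr]
      · rw [Set.indicator_of_notMem
          (show ω ∉ A k ∩ {ω | W X w k ω ≤ (R : ℤ)} from fun hh => hr hh.2)]
        simp [ind, hr]
    · rw [Set.indicator_of_notMem hb, Set.indicator_of_notMem
        (show ω ∉ A k ∩ {ω | W X w k ω ≤ (R : ℤ)} from fun hh => hb hh.1)]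
  rw [hS]
  have hw' : (0 : ℝ) < w := by exact_mod_cast hw
  rcases Nat.eq_zero_or_pos R with hR | hR
  · subst hR
    have : Sn P X w A n (ind (0 : ℕ)) ≤ Sn P X w A n (fun _ => 0) := by
      refine Sn_mono hA n fun v hv => ?_
      simp only [ind]
      rw [if_neg (by push_cast; omega)]
    refine this.trans ?_
    have h2 : Sn P X w A n (fun _ => 0) = 0 := by
      unfold Sn
      refine Finset.sum_eq_zero fun k _ => ?_
      simp
    rw [h2]
    exact zero_le
  · have hR' : (0 : ℝ) < R := by exact_mod_cast hR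
    set wR : ℝ := min (w : ℝ) R with hwR
    have hwR0 : 0 < wR := lt_min hw' hR'
    refine (occ_of_Z hν hM h hw hA n (hv0 Ω mΩ P F X E h w A hA n) hR).trans ?_
    have h1 := hk Ω mΩ P F X E h w hw A hA n R hR
    refine (add_le_add le_rfl (mul_le_mul' le_rfl (mul_le_mul' le_rfl
      (add_le_add le_rfl h1)))).trans ?_
    have a2 : (R : ℝ≥0∞) = ENNReal.ofReal R := by simp
    rw [← hwR, one_mul, a2, ← ENNReal.ofReal_add hwR0.le (by positivity),
      ← ENNReal.ofReal_mul (by positivity), ← ENNReal.ofReal_mul hR'.le,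
      ← ENNReal.ofReal_add hC0 (by positivity)]
    refine ENNReal.ofReal_le_ofReal ?_
    have hs : 0 < 2 / σ := by positivity
    have e1 : C0 ≤ C0 * ((1 + R) * (1 + wR)) := by
      have : 1 ≤ (1 + (R : ℝ)) * (1 + wR) := by nlinarith
      nlinarith
    have e2 : (R : ℝ) * (2 / σ * (wR + (K + wR))) ≤
        2 / σ * (K + 2) * ((1 + R) * (1 + wR)) := by
      have e3 : (R : ℝ) * (wR + (K + wR)) ≤ (K + 2) * ((1 + R) * (1 + wR)) := by
        have f1 : (R : ℝ) * wR ≤ (1 + R) * (1 + wR) := by nlinarith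
        have f2 : (R : ℝ) ≤ (1 + R) * (1 + wR) := by nlinarith
        nlinarith
      calc (R : ℝ) * (2 / σ * (wR + (K + wR))) = 2 / σ * (R * (wR + (K + wR))) := by ring
        _ ≤ 2 / σ * ((K + 2) * ((1 + R) * (1 + wR))) := mul_le_mul_of_nonneg_left e3 hs.le
        _ = _ := by ring
    calc C0 + (R : ℝ) * (2 / σ * (wR + (K + wR)))
        ≤ C0 * ((1 + R) * (1 + wR)) + 2 / σ * (K + 2) * ((1 + R) * (1 + wR)) := add_le_add e1 e2
      _ = _ := by ring

/-- **(u)** the total extent of the first block with `E k ≥ W k` is `≤ ε w + C`. -/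
theorem killed (hν : Blk ν) (ε : ℝ) (hε : 0 < ε) : ∃ C : ℝ, 0 ≤ C ∧
    ∀ (Ω : Type u) (_mΩ : MeasurableSpace Ω) (P : Measure Ω) [IsProbabilityMeasure P]
      (F : ℕ → MeasurableSpace Ω) (X : ℕ → Ω → ℤ) (E : ℕ → Ω → ℝ) (_ : Walk ν P F X E)
      (w : ℤ) (_ : 0 < w) (A : ℕ → Set Ω) (_ : Alive P F X w A) (n : ℕ),
      Sn P X w A n (av ν) ≤ ENNReal.ofReal (C + ε * w) := by
  obtain ⟨K, hK, hk⟩ := key.{u} hν ε hε
  refine ⟨K, hK, ?_⟩
  intro Ω mΩ P _ F X E h w hw A hA n
  have hw' : (0 : ℝ) < w := by exact_mod_cast hw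
  -- monotone limit in `R`
  have hb : ∀ R : ℕ, Sn P X w A n (fun v => if v ≤ (R : ℤ) then av ν v else 0) ≤
      ENNReal.ofReal (K + ε * w) := by
    intro R
    have h1 := hk Ω mΩ P F X E h w hw A hA n (R + 1) (by omega)
    refine le_trans ?_ (h1.trans (ENNReal.ofReal_le_ofReal ?_))
    · refine Sn_mono hA n fun v _ => ?_
      split_ifs with a1 a2
      · exact le_rfl
      · exfalso; push_cast at a2; omega
      · exact zero_le
      · exact le_rfl
    · have := min_le_left (w : ℝ) ((R + 1 : ℕ) : ℝ)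
      nlinarith
  have hsup : Sn P X w A n (av ν) = ⨆ R : ℕ, Sn P X w A n
      (fun v => if v ≤ (R : ℤ) then av ν v else 0) := by
    have hmono : ∀ v : ℤ, Monotone (fun R : ℕ => (if v ≤ (R : ℤ) then av ν v else 0)) := by
      intro v R R' hRR
      simp only
      split_ifs with a1 a2
      · exact le_rfl
      · exfalso; omega
      · exact zero_le
      · exact le_rfl
    have hpt : ∀ v : ℤ, av ν v = ⨆ R : ℕ, (if v ≤ (R : ℤ) then av ν v else 0) := by
      intro v
      refine le_antisymm ?_ (iSup_le fun R => ?_)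
      · refine le_trans ?_ (le_iSup _ v.toNat)
        rw [if_pos (by omega)]
      · split_ifs
        · exact le_rfl
        · exact zero_le
    unfold Sn
    rw [← ENNReal.finsetSum_iSup_of_monotone]
    · refine Finset.sum_congr rfl fun k _ => ?_
      have hmon : Monotone (fun (R : ℕ) (ω : Ω) => (A k).indicator (fun ω =>
          (fun v : ℤ => if v ≤ (R : ℤ) then av ν v else 0) (W X w k ω)) ω) := by
        intro R R' hRR ω
        by_cases hb : ω ∈ A k
        · simp only [Set.indicator_of_mem hb]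
          exact hmono _ hRR
        · simp only [Set.indicator_of_notMem hb]
          exact le_rfl
      rw [← lintegral_iSup (fun R => measSn h hA (fun v : ℤ => if v ≤ (R : ℤ) then av ν v else 0) k)
        hmon]
      refine lintegral_congr fun ω => ?_
      by_cases hb : ω ∈ A k
      · simp only [Set.indicator_of_mem hb]
        exact hpt _
      · simp only [Set.indicator_of_notMem hb]
        simp
    · intro k R R' hRR
      refine lintegral_mono fun ω => ?_
      by_cases hb : ω ∈ A k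
      · simp only [Set.indicator_of_mem hb]
        exact hmono _ hRR
      · simp only [Set.indicator_of_notMem hb]
        exact le_rfl
  rw [hsup]
  exact iSup_le hb

/-- one step, general form -/
theorem Walk.stepH {Ω : Type u} {mΩ : MeasurableSpace Ω} {P : Measure Ω}
    {F : ℕ → MeasurableSpace Ω} {X : ℕ → Ω → ℤ} {E : ℕ → Ω → ℝ} (h : Walk ν P F X E)
    (w : ℤ) (k : ℕ) (H : ℤ → ℤ × ℝ → ℝ≥0∞) (hH : ∀ v, Measurable (H v)) {B : Set Ω}
    (hB : MeasurableSet[F k] B) :
    ∫⁻ ω, B.indicator (fun ω => H (W X w k ω) (X k ω, E k ω)) ω ∂P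
      = ∫⁻ ω, B.indicator (fun ω => ∫⁻ p, H (W X w k ω) p ∂ν) ω ∂P := by
  classical
  have hXE : Measurable (fun ω => (X k ω, E k ω)) := (h.meas k).mono (h.le _) le_rfl
  have hWk : Measurable[F k] (W X w k) := h.measW w k
  have hBv : ∀ v : ℤ, MeasurableSet[F k] (B ∩ {ω | W X w k ω = v}) := fun v =>
    hB.inter (hWk (measurableSet_singleton v))
  have hone : ∀ v : ℤ, ∫⁻ ω, (B ∩ {ω | W X w k ω = v}).indicator (fun _ => (1 : ℝ≥0∞)) ω *
      H v (X k ω, E k ω) ∂P
      = P (B ∩ {ω | W X w k ω = v}) * ∫⁻ p, H v p ∂ν := by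
    intro v
    have h1 := lintegral_mul_eq_lintegral_mul_lintegral_of_independent_measurableSpace
      (μ := P) (h.le k) (hXE.comap_le) (h.ind k)
      (f := (B ∩ {ω | W X w k ω = v}).indicator (fun _ => (1 : ℝ≥0∞)))
      (g := fun ω => H v (X k ω, E k ω))
      (measurable_const.indicator (hBv v))
      ((hH v).comp (comap_measurable _))
    rw [h1]
    have h2 : ∫⁻ ω, (B ∩ {ω | W X w k ω = v}).indicator (fun _ => (1 : ℝ≥0∞)) ω ∂P
        = P (B ∩ {ω | W X w k ω = v}) := by
      rw [lintegral_indicator_const (h.le k _ (hBv v)), one_mul]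
    have h3 : ∫⁻ ω, H v (X k ω, E k ω) ∂P = ∫⁻ p, H v p ∂ν := by
      rw [← h.law k, lintegral_map (hH v) hXE]
    rw [h2, h3]
  have hL : ∀ ω, B.indicator (fun ω => H (W X w k ω) (X k ω, E k ω)) ω =
      ∑' v : ℤ, (B ∩ {ω | W X w k ω = v}).indicator
        (fun _ => (1 : ℝ≥0∞)) ω * H v (X k ω, E k ω) := by
    intro ω
    rw [tsum_eq_single (W X w k ω)]
    · by_cases hb : ω ∈ B
      · have hb2 : ω ∈ B ∩ {ω' | W X w k ω' = W X w k ω} := ⟨hb, rfl⟩
        rw [Set.indicator_of_mem hb, Set.indicator_of_mem hb2, one_mul]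
      · rw [Set.indicator_of_notMem hb, Set.indicator_of_notMem (fun hh => hb hh.1), zero_mul]
    · intro v hv
      rw [Set.indicator_of_notMem (fun hh => hv hh.2.symm), zero_mul]
  have hR : ∀ ω, B.indicator (fun ω => ∫⁻ p, H (W X w k ω) p ∂ν) ω = ∑' v : ℤ,
      (B ∩ {ω | W X w k ω = v}).indicator (fun _ => ∫⁻ p, H v p ∂ν) ω := by
    intro ω
    rw [tsum_eq_single (W X w k ω)]
    · by_cases hb : ω ∈ B
      · have hb2 : ω ∈ B ∩ {ω' | W X w k ω' = W X w k ω} := ⟨hb, rfl⟩
        rw [Set.indicator_of_mem hb, Set.indicator_of_mem hb2]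
      · rw [Set.indicator_of_notMem hb, Set.indicator_of_notMem (fun hh => hb hh.1)]
    · intro v hv
      rw [Set.indicator_of_notMem (fun hh => hv hh.2.symm)]
  rw [lintegral_congr hL, lintegral_congr hR, lintegral_tsum, lintegral_tsum]
  · refine tsum_congr fun v => ?_
    rw [hone v, lintegral_indicator_const (h.le k _ (hBv v)), mul_comm]
  · intro v
    exact (measurable_const.indicator (h.le k _ (hBv v))).aemeasurable
  · intro v
    exact ((measurable_const.indicator (h.le k _ (hBv v))).mul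
      ((hH v).comp hXE)).aemeasurable

lemma Walk.dom {Ω : Type u} {mΩ : MeasurableSpace Ω} {P : Measure Ω}
    {F : ℕ → MeasurableSpace Ω} {X : ℕ → Ω → ℤ} {E : ℕ → Ω → ℝ} (h : Walk ν P F X E)
    (hν : Blk ν) (k : ℕ) : ∀ᵐ ω ∂P, |(X k ω : ℝ)| ≤ E k ω := by
  have hm : Measurable (fun ω => (X k ω, E k ω)) := (h.meas k).mono (h.le _) le_rfl
  have := hν.dom
  rw [← h.law k] at this
  exact ae_of_ae_map hm.aemeasurable this

section low

variable {Ω : Type u} {mΩ : MeasurableSpace Ω} {P : Measure Ω} [IsProbabilityMeasure P]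
  {F : ℕ → MeasurableSpace Ω} {X : ℕ → Ω → ℤ} {E : ℕ → Ω → ℝ} {w : ℤ} {A : ℕ → Set Ω}

/-- the walk dies in the block `k` only if `W k ≤ E k` -/
def Kills (P : Measure Ω) (X : ℕ → Ω → ℤ) (E : ℕ → Ω → ℝ) (w : ℤ) (A : ℕ → Set Ω) : Prop :=
  ∀ k, ∀ᵐ ω ∂P, ω ∈ A k → ω ∉ A (k + 1) → (W X w k ω : ℝ) ≤ E k ω

/-- first moment -/
theorem first_ge (hν : Blk ν) (h : Walk ν P F X E) (_hw : 0 < w) (hA : Alive P F X w A)
    (hK : Kills P X E w A) (n : ℕ) :
    ENNReal.ofReal w ≤ ∫⁻ ω, (A n).indicator (fun ω => ENNReal.ofReal (W X w n ω)) ω ∂P +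
      4 * Sn P X w A n (av ν) := by
  have := hν.prob
  induction n with
  | zero =>
    simp only [hA.zero, Set.indicator_univ]
    have : ∀ ω, ENNReal.ofReal (W X w 0 ω : ℝ) = ENNReal.ofReal w := by
      intro ω; simp [W]
    rw [lintegral_congr this, lintegral_const, measure_univ, mul_one]
    exact le_self_add
  | succ k ih =>
    refine ih.trans ?_
    let H : ℤ → ℤ × ℝ → ℝ≥0∞ := fun v p =>
      ENNReal.ofReal ((v : ℝ) + (p.1 : ℝ) + 2 * (if (v : ℝ) ≤ p.2 then p.2 else 0))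
    have hHm : ∀ v, Measurable (H v) := fun v =>
      ENNReal.measurable_ofReal.comp ((measurable_const.add (measZ fun z => (z : ℝ))).add
        ((Blk.measAv v).const_mul 2))
    have hHi : ∀ v : ℤ, 0 < v → ENNReal.ofReal (v : ℝ) ≤ ∫⁻ p, H v p ∂ν := by
      intro v hv
      have hv' : (0 : ℝ) < v := by exact_mod_cast hv
      have hint : Integrable (fun p : ℤ × ℝ => (v : ℝ) + (p.1 : ℝ) +
          2 * (if (v : ℝ) ≤ p.2 then p.2 else 0)) ν :=
        ((integrable_const _).add hν.intX).add ((hν.intAv v).const_mul 2)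
      have hnn : 0 ≤ᵐ[ν] fun p : ℤ × ℝ => (v : ℝ) + (p.1 : ℝ) +
          2 * (if (v : ℝ) ≤ p.2 then p.2 else 0) := by
        filter_upwards [hν.dom] with p hp
        simp only [Pi.zero_apply]
        have h1 := neg_abs_le (p.1 : ℝ)
        have h2 := abs_nonneg (p.1 : ℝ)
        split_ifs with h3
        · linarith
        · linarith [not_le.1 h3]
      simp only [H]
      rw [← ofReal_integral_eq_lintegral_ofReal hint hnn]
      refine ENNReal.ofReal_le_ofReal ?_
      have e1 : ∫ p : ℤ × ℝ, ((v : ℝ) + (p.1 : ℝ) + 2 * (if (v : ℝ) ≤ p.2 then p.2 else 0)) ∂ν =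
          v + 2 * ∫ p : ℤ × ℝ, (if (v : ℝ) ≤ p.2 then p.2 else 0) ∂ν := by
        have hi1 : Integrable (fun p : ℤ × ℝ => (v : ℝ) + (p.1 : ℝ)) ν :=
          (integrable_const _).add hν.intX
        rw [integral_add hi1 ((hν.intAv v).const_mul 2),
          integral_add (integrable_const _) hν.intX, hν.mean, integral_const_mul]
        simp
      rw [e1]
      have : 0 ≤ ∫ p : ℤ × ℝ, (if (v : ℝ) ≤ p.2 then p.2 else 0) ∂ν := by
        refine integral_nonneg_of_ae ?_
        filter_upwards [hν.nn] with p hp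
        simp only [Pi.zero_apply]
        split_ifs
        · exact hp
        · exact le_rfl
      linarith
    let H2 : ℤ → ℤ × ℝ → ℝ≥0∞ := fun v p => if (v : ℝ) ≤ p.2 then ENNReal.ofReal p.2 else 0
    have hH2m : ∀ v, Measurable (H2 v) := fun v =>
      Measurable.ite (measurableSet_le measurable_const measurable_snd)
        (ENNReal.measurable_ofReal.comp measurable_snd) measurable_const
    have hs1 := h.stepH w k H hHm (hA.meas k)
    have hs2 := h.stepH w k H2 hH2m (hA.meas k)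
    have hs2' : ∫⁻ ω, (A k).indicator (fun ω => H2 (W X w k ω) (X k ω, E k ω)) ω ∂P =
        ∫⁻ ω, (A k).indicator (fun ω => av ν (W X w k ω)) ω ∂P := hs2
    have hmH2 : Measurable (fun ω => (A k).indicator
        (fun ω => H2 (W X w k ω) (X k ω, E k ω)) ω) := by
      have hX : Measurable (X k) := (h.measX k).mono (h.le _) le_rfl
      have hE : Measurable (E k) := (h.measE k).mono (h.le _) le_rfl
      have hW : Measurable (W X w k) := (h.measW w k).mono (h.le k) le_rfl
      refine Measurable.indicator ?_ (h.le k _ (hA.meas k))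
      simp only [H2]
      refine Measurable.ite ?_ (ENNReal.measurable_ofReal.comp hE) measurable_const
      exact measurableSet_le ((measurable_of_countable (fun z : ℤ => (z : ℝ))).comp hW) hE
    have hmW : Measurable (fun ω => (A (k + 1)).indicator
        (fun ω => ENNReal.ofReal (W X w (k + 1) ω : ℝ)) ω) :=
      measSn h hA (fun z => ENNReal.ofReal (z : ℝ)) (k + 1)
    have step1 : ∫⁻ ω, (A k).indicator (fun ω => ENNReal.ofReal (W X w k ω : ℝ)) ω ∂P ≤
        ∫⁻ ω, (A (k + 1)).indicator (fun ω => ENNReal.ofReal (W X w (k + 1) ω : ℝ)) ω ∂P +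
        4 * ∫⁻ ω, (A k).indicator (fun ω => av ν (W X w k ω)) ω ∂P := by
      calc ∫⁻ ω, (A k).indicator (fun ω => ENNReal.ofReal (W X w k ω : ℝ)) ω ∂P
          ≤ ∫⁻ ω, (A k).indicator (fun ω => ∫⁻ p, H (W X w k ω) p ∂ν) ω ∂P := by
            refine lintegral_mono_ae ?_
            filter_upwards [hA.pos k] with ω hω
            by_cases hb : ω ∈ A k
            · simp only [Set.indicator_of_mem hb]
              exact hHi _ (hω hb)
            · simp only [Set.indicator_of_notMem hb]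
              exact le_rfl
        _ = ∫⁻ ω, (A k).indicator (fun ω => H (W X w k ω) (X k ω, E k ω)) ω ∂P := hs1.symm
        _ ≤ ∫⁻ ω, ((A (k + 1)).indicator (fun ω => ENNReal.ofReal (W X w (k + 1) ω : ℝ)) ω +
              4 * (A k).indicator (fun ω => H2 (W X w k ω) (X k ω, E k ω)) ω) ∂P := by
            refine lintegral_mono_ae ?_
            filter_upwards [hA.pos k, hK k, h.dom hν k] with ω hpos hkill hdom
            by_cases hb : ω ∈ A k
            · have hW0 : (0 : ℝ) < W X w k ω := by exact_mod_cast hpos hb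
              have hE0 : 0 ≤ E k ω := (abs_nonneg _).trans hdom
              have hXE := le_abs_self (X k ω : ℝ)
              have hXE' := neg_abs_le (X k ω : ℝ)
              simp only [Set.indicator_of_mem hb, H, H2]
              have four : (4 : ℝ≥0∞) = ENNReal.ofReal 4 := by norm_num
              by_cases hb' : ω ∈ A (k + 1)
              · rw [Set.indicator_of_mem hb', W_succ]
                push_cast
                by_cases he : (W X w k ω : ℝ) ≤ E k ω
                · rw [if_pos he, if_pos he, four, ← ENNReal.ofReal_mul (by norm_num)]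
                  refine (ENNReal.ofReal_le_ofReal ?_).trans ENNReal.ofReal_add_le
                  linarith
                · rw [if_neg he, if_neg he, mul_zero, mul_zero, add_zero, add_zero]
              · have he := hkill hb hb'
                rw [Set.indicator_of_notMem hb', zero_add, if_pos he, if_pos he, four,
                  ← ENNReal.ofReal_mul (by norm_num)]
                exact ENNReal.ofReal_le_ofReal (by linarith)
            · have hb' : ω ∉ A (k + 1) := fun hh => hb (hA.anti k hh)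
              simp only [Set.indicator_of_notMem hb, Set.indicator_of_notMem hb']
              simp
        _ = _ := by
            rw [lintegral_add_left hmW, lintegral_const_mul _ hmH2, hs2']
    have e : Sn P X w A (k + 1) (av ν) = Sn P X w A k (av ν) +
        ∫⁻ ω, (A k).indicator (fun ω => av ν (W X w k ω)) ω ∂P := by
      unfold Sn; rw [sum_range_succ]
    rw [e, mul_add]
    calc _ ≤ _ := add_le_add step1 le_rfl
      _ = _ := by ring

/-- `E[X²]` -/
noncomputable def s2 (ν : Measure (ℤ × ℝ)) : ℝ := ∫ p : ℤ × ℝ, (p.1 : ℝ) ^ 2 ∂ν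

/-- second moment -/
theorem second_le (hν : Blk ν) (h : Walk ν P F X E) (hA : Alive P F X w A) (n : ℕ) :
    ∫⁻ ω, (A n).indicator (fun ω => ENNReal.ofReal ((W X w n ω : ℝ) ^ 2)) ω ∂P ≤
      ENNReal.ofReal ((w : ℝ) ^ 2) + ENNReal.ofReal (s2 ν) * ∑ k ∈ range n, P (A k) := by
  have := hν.prob
  induction n with
  | zero =>
    simp only [hA.zero, Set.indicator_univ, range_zero, sum_empty, mul_zero, add_zero]
    have : ∀ ω, ENNReal.ofReal ((W X w 0 ω : ℝ) ^ 2) = ENNReal.ofReal ((w : ℝ) ^ 2) := by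
      intro ω; simp [W]
    rw [lintegral_congr this, lintegral_const, measure_univ, mul_one]
  | succ k ih =>
    have hs0 : 0 ≤ s2 ν := integral_nonneg fun p => sq_nonneg _
    let H : ℤ → ℤ × ℝ → ℝ≥0∞ := fun v p => ENNReal.ofReal (((v : ℝ) + (p.1 : ℝ)) ^ 2)
    have hHm : ∀ v, Measurable (H v) := fun v =>
      ENNReal.measurable_ofReal.comp ((measurable_const.add (measZ fun z => (z : ℝ))).pow_const 2)
    have hHi : ∀ v : ℤ, ∫⁻ p, H v p ∂ν = ENNReal.ofReal ((v : ℝ) ^ 2) + ENNReal.ofReal (s2 ν) := by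
      intro v
      have hint0 : Integrable (fun p : ℤ × ℝ => (v : ℝ) ^ 2 + 2 * v * (p.1 : ℝ)) ν :=
        (integrable_const _).add (hν.intX.const_mul _)
      have he : (fun p : ℤ × ℝ => ((v : ℝ) + (p.1 : ℝ)) ^ 2) =
          fun p : ℤ × ℝ => ((v : ℝ) ^ 2 + 2 * v * (p.1 : ℝ)) + (p.1 : ℝ) ^ 2 := by
        funext p; ring
      have hint : Integrable (fun p : ℤ × ℝ => ((v : ℝ) + (p.1 : ℝ)) ^ 2) ν := by
        rw [he]; exact hint0.add hν.intX2
      simp only [H]
      rw [← ofReal_integral_eq_lintegral_ofReal hint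
        (Filter.Eventually.of_forall fun p => sq_nonneg _), he,
        integral_add hint0 hν.intX2, integral_add (integrable_const _) (hν.intX.const_mul _),
        integral_const_mul, hν.mean, ← ENNReal.ofReal_add (sq_nonneg _) hs0]
      simp [s2]
    have hs1 := h.stepH w k H hHm (hA.meas k)
    have hmW : Measurable (fun ω => (A k).indicator
        (fun ω => ENNReal.ofReal ((W X w k ω : ℝ) ^ 2)) ω) :=
      measSn h hA (fun z => ENNReal.ofReal ((z : ℝ) ^ 2)) k
    calc ∫⁻ ω, (A (k + 1)).indicator (fun ω => ENNReal.ofReal ((W X w (k + 1) ω : ℝ) ^ 2)) ω ∂P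
        ≤ ∫⁻ ω, (A k).indicator (fun ω => H (W X w k ω) (X k ω, E k ω)) ω ∂P := by
          refine lintegral_mono fun ω => ?_
          by_cases hb' : ω ∈ A (k + 1)
          · rw [Set.indicator_of_mem hb', Set.indicator_of_mem (hA.anti k hb'), W_succ]
            simp only [H]
            push_cast
            exact le_rfl
          · rw [Set.indicator_of_notMem hb']
            exact zero_le
      _ = ∫⁻ ω, (A k).indicator (fun ω => ∫⁻ p, H (W X w k ω) p ∂ν) ω ∂P := hs1
      _ = ∫⁻ ω, ((A k).indicator (fun ω => ENNReal.ofReal ((W X w k ω : ℝ) ^ 2)) ω +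
            (A k).indicator (fun _ => ENNReal.ofReal (s2 ν)) ω) ∂P := by
          refine lintegral_congr fun ω => ?_
          by_cases hb : ω ∈ A k
          · simp only [Set.indicator_of_mem hb]
            exact hHi _
          · simp only [Set.indicator_of_notMem hb, add_zero]
      _ = ∫⁻ ω, (A k).indicator (fun ω => ENNReal.ofReal ((W X w k ω : ℝ) ^ 2)) ω ∂P +
            ENNReal.ofReal (s2 ν) * P (A k) := by
          rw [lintegral_add_left hmW, lintegral_indicator_const (h.le k _ (hA.meas k))]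
      _ ≤ _ := by
          rw [sum_range_succ, mul_add, ← add_assoc]
          exact add_le_add ih le_rfl

end low

/-- **(L)** lower bound of the expected alive time. -/
theorem lower (hν : Blk ν) : ∃ (c : ℝ) (w0 : ℝ), 0 < c ∧ 0 < w0 ∧
    ∀ (Ω : Type u) (_mΩ : MeasurableSpace Ω) (P : Measure Ω) [IsProbabilityMeasure P]
      (F : ℕ → MeasurableSpace Ω) (X : ℕ → Ω → ℤ) (E : ℕ → Ω → ℝ) (_ : Walk ν P F X E)
      (w : ℤ) (_ : w0 ≤ w) (A : ℕ → Set Ω) (_ : Alive P F X w A) (_ : Kills P X E w A) (n : ℕ),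
      ENNReal.ofReal (w / 2) ≤
        ∫⁻ ω, (A n).indicator (fun ω => ENNReal.ofReal (W X w n ω)) ω ∂P ∧
      ENNReal.ofReal (c * min (w * Real.sqrt n) n) ≤ ∑ k ∈ range n, P (A k) := by
  obtain ⟨K, hK, hk⟩ := killed.{u} hν (1 / 16) (by norm_num)
  have hs0 : 0 ≤ s2 ν := integral_nonneg fun p => sq_nonneg _
  set s : ℝ := s2 ν + 1 with hs
  have hs1 : 1 ≤ s := by linarith
  refine ⟨1 / (8 * s), 16 * K + 1, by positivity, by positivity, ?_⟩
  intro Ω mΩ P _ F X E h w hw0 A hA hKill n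
  have hw' : (0 : ℝ) < w := by linarith
  have hw : 0 < w := by exact_mod_cast hw'
  set m1 := ∫⁻ ω, (A n).indicator (fun ω => ENNReal.ofReal (W X w n ω : ℝ)) ω ∂P with hm1
  set m2 := ∫⁻ ω, (A n).indicator (fun ω => ENNReal.ofReal ((W X w n ω : ℝ) ^ 2)) ω ∂P with hm2
  have hfirst : ENNReal.ofReal (w / 2) ≤ m1 := by
    have h1 := first_ge hν h hw hA hKill n
    have h2 := hk Ω mΩ P F X E h w hw A hA n
    have h3 : ENNReal.ofReal w ≤ m1 + ENNReal.ofReal (4 * (K + 1 / 16 * w)) := by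
      refine h1.trans (add_le_add le_rfl ?_)
      rw [ENNReal.ofReal_mul (by norm_num : (0 : ℝ) ≤ 4)]
      have four : ENNReal.ofReal 4 = (4 : ℝ≥0∞) := by norm_num
      rw [four]
      exact mul_le_mul' le_rfl h2
    have h4 : ENNReal.ofReal (w / 2) + ENNReal.ofReal (4 * (K + 1 / 16 * w)) ≤
        m1 + ENNReal.ofReal (4 * (K + 1 / 16 * w)) := by
      refine le_trans ?_ h3
      rw [← ENNReal.ofReal_add (by positivity) (by positivity)]
      exact ENNReal.ofReal_le_ofReal (by linarith)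
    exact (ENNReal.add_le_add_iff_right ENNReal.ofReal_ne_top).1 h4
  refine ⟨hfirst, ?_⟩
  rcases Nat.eq_zero_or_pos n with hn | hn
  · subst hn
    simp
  have hn' : (0 : ℝ) < n := by exact_mod_cast hn
  set TT := ∑ k ∈ range n, P (A k) with hTT
  have hTtop : TT ≠ ⊤ := by
    rw [hTT]
    exact ENNReal.sum_ne_top.2 fun k _ => measure_ne_top _ _
  set T : ℝ := TT.toReal with hT
  have hT0 : 0 ≤ T := ENNReal.toReal_nonneg
  have hTT' : TT = ENNReal.ofReal T := (ENNReal.ofReal_toReal hTtop).symm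
  set pn : ℝ := (P (A n)).toReal with hpn
  have hpn0 : 0 ≤ pn := ENNReal.toReal_nonneg
  have hPn : P (A n) = ENNReal.ofReal pn := (ENNReal.ofReal_toReal (measure_ne_top _ _)).symm
  -- `n P(A n) ≤ T`
  have hnp : n * pn ≤ T := by
    have hanti : Antitone A := antitone_nat_of_succ_le hA.anti
    have h1 : (n : ℝ≥0∞) * P (A n) ≤ TT := by
      rw [hTT]
      calc (n : ℝ≥0∞) * P (A n) = ∑ _k ∈ range n, P (A n) := by simp
        _ ≤ ∑ k ∈ range n, P (A k) := Finset.sum_le_sum fun k hk =>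
          measure_mono (hanti (Finset.mem_range.1 hk).le)
    rw [hTT', hPn] at h1
    have a2 : (n : ℝ≥0∞) = ENNReal.ofReal n := by simp
    rw [a2, ← ENNReal.ofReal_mul hn'.le, ENNReal.ofReal_le_ofReal_iff hT0] at h1
    exact h1
  set S : ℝ := (w : ℝ) ^ 2 + s * T with hS
  have hS0 : 0 < S := by positivity
  have hsecond : m2 ≤ ENNReal.ofReal S := by
    refine (second_le hν h hA n).trans ?_
    rw [← hTT, hTT', ← ENNReal.ofReal_mul hs0, ← ENNReal.ofReal_add (sq_nonneg _) (by positivity)]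
    refine ENNReal.ofReal_le_ofReal ?_
    rw [hS]
    nlinarith
  -- the quadratic inequality
  set t : ℝ := 2 * S / w with ht
  have ht0 : 0 < t := by positivity
  have hquad : m1 ≤ ENNReal.ofReal (1 / (2 * t)) * m2 + ENNReal.ofReal (t / 2) * P (A n) := by
    have hmW : Measurable (fun ω => (A n).indicator
        (fun ω => ENNReal.ofReal ((W X w n ω : ℝ) ^ 2)) ω) :=
      measSn h hA (fun z => ENNReal.ofReal ((z : ℝ) ^ 2)) n
    have hAn : MeasurableSet (A n) := h.le n _ (hA.meas n)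
    calc m1 ≤ ∫⁻ ω, (ENNReal.ofReal (1 / (2 * t)) * (A n).indicator
          (fun ω => ENNReal.ofReal ((W X w n ω : ℝ) ^ 2)) ω +
          (A n).indicator (fun _ => ENNReal.ofReal (t / 2)) ω) ∂P := by
          refine lintegral_mono fun ω => ?_
          by_cases hb : ω ∈ A n
          · simp only [Set.indicator_of_mem hb]
            rw [← ENNReal.ofReal_mul (by positivity), ← ENNReal.ofReal_add (by positivity)
              (by positivity)]
            refine ENNReal.ofReal_le_ofReal ?_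
            have e : 1 / (2 * t) * (W X w n ω : ℝ) ^ 2 + t / 2 - (W X w n ω : ℝ) =
                ((W X w n ω : ℝ) - t) ^ 2 / (2 * t) := by
              field_simp; ring
            have : 0 ≤ ((W X w n ω : ℝ) - t) ^ 2 / (2 * t) := by positivity
            linarith
          · simp only [Set.indicator_of_notMem hb]
            simp
      _ = _ := by
          rw [lintegral_add_left (hmW.const_mul _), lintegral_const_mul _ hmW,
            lintegral_indicator_const hAn]
  have hreal : (w : ℝ) / 2 ≤ 1 / (2 * t) * S + t / 2 * pn := by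
    have h1 : ENNReal.ofReal ((w : ℝ) / 2) ≤ ENNReal.ofReal (1 / (2 * t) * S + t / 2 * pn) := by
      refine (hfirst.trans hquad).trans ?_
      rw [hPn, ENNReal.ofReal_add (by positivity) (by positivity),
        ENNReal.ofReal_mul (by positivity), ENNReal.ofReal_mul (by positivity)]
      exact add_le_add (mul_le_mul' le_rfl hsecond) le_rfl
    exact (ENNReal.ofReal_le_ofReal_iff (by positivity)).1 h1
  have e1 : 1 / (2 * t) * S = w / 4 := by
    rw [ht]; field_simp; ring
  have h5 : (w : ℝ) / 4 ≤ t / 2 * pn := by linarith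
  have h6 : (w : ℝ) ^ 2 * n / 4 ≤ S * T := by
    have e2 : t / 2 = S / w := by rw [ht]; ring
    rw [e2] at h5
    have h7 : (w : ℝ) / 4 * w ≤ S * pn := by
      have := mul_le_mul_of_nonneg_right h5 hw'.le
      have e3 : S / w * pn * w = S * pn := by field_simp
      linarith
    have h8 : S * (n * pn) ≤ S * T := mul_le_mul_of_nonneg_left hnp hS0.le
    nlinarith
  rw [hTT']
  refine ENNReal.ofReal_le_ofReal ?_
  by_contra hcon
  push Not at hcon
  set c : ℝ := 1 / (8 * s) with hc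
  have hc0 : 0 < c := by positivity
  have hc8 : c ≤ 1 / 8 := by
    rw [hc]
    exact one_div_le_one_div_of_le (by norm_num) (by linarith)
  have hcs : s * c = 1 / 8 := by rw [hc]; field_simp
  have b1 : T < c * n := lt_of_lt_of_le hcon (mul_le_mul_of_nonneg_left (min_le_right _ _) hc0.le)
  have b2 : T < c * (w * Real.sqrt n) :=
    lt_of_lt_of_le hcon (mul_le_mul_of_nonneg_left (min_le_left _ _) hc0.le)
  have hsq : Real.sqrt n ^ 2 = n := Real.sq_sqrt hn'.le
  have b3 : T ^ 2 ≤ c ^ 2 * w ^ 2 * n := by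
    have := pow_le_pow_left₀ hT0 b2.le 2
    calc T ^ 2 ≤ (c * (w * Real.sqrt n)) ^ 2 := this
      _ = c ^ 2 * w ^ 2 * Real.sqrt n ^ 2 := by ring
      _ = _ := by rw [hsq]
  have b4 : (w : ℝ) ^ 2 * T ≤ w ^ 2 * (c * n) := mul_le_mul_of_nonneg_left b1.le (sq_nonneg _)
  have b5 : s * T ^ 2 ≤ 1 / 8 * c * w ^ 2 * n := by
    have := mul_le_mul_of_nonneg_left b3 (by positivity : (0 : ℝ) ≤ s)
    calc s * T ^ 2 ≤ s * (c ^ 2 * w ^ 2 * n) := this
      _ = (s * c) * c * w ^ 2 * n := by ring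
      _ = _ := by rw [hcs]
  have hpos : 0 < (w : ℝ) ^ 2 * n := by positivity
  have b6 : S * T = (w : ℝ) ^ 2 * T + s * T ^ 2 := by rw [hS]; ring
  have b7 : (w : ℝ) ^ 2 * T + s * T ^ 2 ≤ w ^ 2 * n * (c + 1 / 8 * c) := by nlinarith
  have b8 : (w : ℝ) ^ 2 * n * (c + 1 / 8 * c) ≤ w ^ 2 * n * (9 / 64) :=
    mul_le_mul_of_nonneg_left (by linarith) hpos.le
  nlinarith

end main

end Crest.Agent.R154.Green305
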