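import Crest.Agent.R154.Ren_396
import Crest.Agent.R154.Fact2_346
import Crest.Agent.R154.Us_109
import Crest.Agent.R154.WMass_286

/-! Row 154 (helper697): the UNIFORM return bound.  A natural walk which reaches level `β + s`
comes back to level `β` with annealed probability `→ 0` as `s → ∞`, uniformly in `β`. -/

set_option autoImplicit false

open MeasureTheory ProbabilityTheory Filter Crest.ProbabilityR.RandomEnvironment
open Crest.Agent.R154 Crest.Agent.R154.B2d
open Crest.Agent.R154.Flux132 (lev opp)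
open Crest.Agent.R154.Flux566 (lw endp sitesL Fol fol_ge endp_append endp_eq_add)
open Crest.Agent.R154.NB28 (IsUp IsDn aw)
open Crest.Agent.R154.Fact346
open scoped ENNReal

namespace Crest.Agent.R154.URet697

variable {d : ℕ}

/-- the word reaches a level `≥ β + s` and reads a site at level `≤ β` afterwards -/
def Back (v : Step d) (β s : ℕ) (π : List (Step d)) : Prop :=
  ∃ π1 π2, π = π1 ++ π2 ∧ (β : ℤ) + s ≤ lev v (endp 0 π1) ∧
    ∃ y ∈ sitesL (endp 0 π1) π2, lev v y ≤ β

/-- the same from a start `x` -/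
lemma back_cover_aux (v : Step d) (β s : ℕ) (hs : 1 ≤ s) (L : List (Irr (IsUp (d := d) v))) :
    ∀ (x : Site d) (c : ℕ), lev v x = c → c ≤ β →
      (∃ π1 π2, fl L = π1 ++ π2 ∧ (β : ℤ) + s ≤ lev v (endp x π1) ∧
        ∃ y ∈ sitesL (endp x π1) π2, lev v y ≤ β) →
      ∃ (L1 : List (Irr (IsUp (d := d) v))) (b : Irr (IsUp (d := d) v))
        (L2 : List (Irr (IsUp (d := d) v))), L1 ++ b :: L2 = L ∧ c + B5A.HT ht L1 ≤ β ∧
          β + s < c + B5A.HT ht L1 + ht b := by
  induction L with
  | nil =>
    rintro x c hx hc ⟨π1, π2, h1, h2, y, hy, hy2⟩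
    have h1' : π1 ++ π2 = [] := h1.symm
    obtain ⟨rfl, rfl⟩ := List.append_eq_nil_iff.1 h1'
    simp [sitesL] at hy
  | cons b L ih =>
    rintro x c hx hc ⟨π1, π2, h1, h2, y, hy, hy2⟩
    have hb := (up_from v (ht b) b.1 x).1 (ht_spec b)
    have hfl : fl (b :: L) = b.1 ++ fl L := rfl
    rw [hfl] at h1
    -- the part of the word after `b`
    have hL : ∀ z ∈ sitesL (endp x b.1) (fl L), lev v x + ht b ≤ lev v z := by
      intro z hz
      have h3 := ((up_from v (B5A.HT ht L) (fl L) (endp x b.1)).1 (P_fl (fac_up v) L)).1 z hz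
      rw [hb.2] at h3
      exact h3.1
    rcases List.append_eq_append_iff.1 h1 with ⟨f, hf1, hf2⟩ | ⟨f, hf1, hf2⟩
    · -- `π1 = b.1 ++ f`
      by_cases hcb : c + ht b ≤ β
      · obtain ⟨L1, b', L2, h5, h6, h7⟩ := ih (endp x b.1) (c + ht b)
          (by rw [hb.2, hx]; push_cast; rfl) hcb
          ⟨f, π2, hf2, by rw [← endp_append, ← hf1]; exact h2, y,
            by rw [← endp_append, ← hf1]; exact hy, hy2⟩
        refine ⟨b :: L1, b', L2, by rw [← h5]; rfl, ?_, ?_⟩
        · rw [B5A.HT_cons]; omega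
        · rw [B5A.HT_cons]; omega
      · exfalso
        have h8 : y ∈ sitesL (endp x b.1) (fl L) := by
          rw [hf2, Fact346.sitesL_append, ← endp_append, ← hf1]
          exact List.mem_append_right _ hy
        have h9 := hL y h8
        omega
    · -- `b.1 = π1 ++ f`
      cases f with
      | nil =>
        -- `π1 = b.1`
        rw [List.append_nil] at hf1
        rw [List.nil_append] at hf2
        rw [← hf1, hb.2, hx] at h2
        rw [hf2, ← hf1] at hy
        have h9 := hL y hy
        omega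
      | cons e f =>
        have h10 : endp x π1 ∈ sitesL x b.1 := by
          rw [hf1, Fact346.sitesL_append]
          exact List.mem_append_right _ (by simp [sitesL])
        have h11 := (hb.1 _ h10).2
        refine ⟨[], b, L, rfl, by rw [B5A.HT_nil]; omega, ?_⟩
        rw [B5A.HT_nil]
        omega

open Classical in
/-- **gap bound in words** -/
theorem back_le (ν : Measure (Row d)) [IsProbabilityMeasure ν] (v : Step d) (β s n : ℕ)
    (hs : 1 ≤ s) :
    ∑' π : List (Step d), (if IsUp v n π ∧ Back v β s π then aw ν π else 0)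
      ≤ Ren396.TS (fun b : Irr (IsUp (d := d) v) => aw ν b.1) ht s := by
  have h1 : ∑' π : List (Step d), (if IsUp v n π ∧ Back v β s π then aw ν π else 0)
      = ∑' π : List (Step d), (if IsUp v n π then (if Back v β s π then aw ν π else 0) else 0) :=
    tsum_congr fun π => by
      by_cases h : IsUp v n π <;> by_cases h' : Back v β s π <;> simp [h, h']
  rw [h1, tsum_fact (fac_up v) n]
  have hU1 : ∀ n, B5A.U (fun b : Irr (IsUp (d := d) v) => aw ν b.1) ht n ≤ 1 := fun n => by
    rw [U_up]; exact WM286.sum_up_le_one ν v n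
  refine le_trans ?_ ((Ren396.cover_le (fun b : Irr (IsUp (d := d) v) => aw ν b.1) ht hU1 n
    (β + 1) (s - 1)).trans (le_of_eq (by rw [Nat.sub_add_cancel hs])))
  refine ENNReal.tsum_le_tsum fun L => ?_
  by_cases hL : B5A.HT ht L = n
  · rw [if_pos hL]
    by_cases hB : Back v β s (fl L)
    · rw [if_pos hB, if_pos, LW_up]
      obtain ⟨L1, b, L2, h3, h4, h5⟩ := back_cover_aux v β s hs L 0 0
        (by rw [lev_z]; rfl) (Nat.zero_le _) hB
      refine ⟨(L1, b, L2), h3, ?_, ?_, ?_⟩
      · simp only; rw [h3]; exact hL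
      · simp only; omega
      · simp only; omega
    · rw [if_neg hB]; exact zero_le
  · rw [if_neg hL]; exact zero_le

/-! ### paths and words -/

lemma fol_le (ω : Environment d) (l : List (Step d)) (x : Site d) :
    quenchedLaw ω x (Fol l Set.univ) ≤ lw ω x l := by
  induction l generalizing x with
  | nil => simpa [lw] using prob_le_one
  | cons e l ih =>
    rw [Doob804.quenched_markov_one ω x _ (Flux566.measurableSet_Fol (e :: l) MeasurableSet.univ)]
    rw [Finset.sum_eq_single e]
    · simp only [lw]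
      refine mul_le_mul_right ((measure_mono_ae ?_).trans (ih (x + stepVec e))) _
      filter_upwards [quenched_zero_eq ω (x + stepVec e)] with X hX hXF
      obtain ⟨_, h2⟩ := hXF
      have h3 : shift 1 (Doob804.consP x X) = X := by
        funext i
        simp only [shift]
        rw [Nat.add_comm]
        rfl
      rw [h3] at h2
      exact h2
    · intro e' _ hne
      have h0 : quenchedLaw ω (x + stepVec e')
          {X | Doob804.consP x X ∈ Fol (e :: l) Set.univ} = 0 := by
        rw [measure_eq_zero_iff_ae_notMem]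
        filter_upwards [quenched_zero_eq ω (x + stepVec e')] with X hX hXF
        obtain ⟨h1, _⟩ := hXF
        have h2 : X 0 = x + stepVec e := h1
        rw [hX] at h2
        exact hne (stepVec_injective (add_left_cancel h2))
      rw [h0, mul_zero]
    · intro h
      exact absurd (Finset.mem_univ e) h

lemma fol_app (l1 l2 : List (Step d)) : ∀ X : Path d, X ∈ Fol l1 Set.univ →
    shift l1.length X ∈ Fol l2 Set.univ → X ∈ Fol (l1 ++ l2) Set.univ := by
  induction l1 with
  | nil =>
    intro X _ h
    have : shift ([] : List (Step d)).length X = X := by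
      funext i; simp [shift]
    rwa [this] at h
  | cons e l ih =>
    rintro X ⟨h1, h2⟩ h3
    refine ⟨h1, ih _ h2 ?_⟩
    have : shift l.length (shift 1 X) = shift (e :: l).length X := by
      funext i
      simp only [shift, List.length_cons]
      congr 1
      omega
    rw [this]
    exact h3

lemma exists_word (X : Path d) (hX : ∀ n, ∃ e : Step d, X (n + 1) = X n + stepVec e) (n : ℕ) :
    ∀ k, ∃ l : List (Step d), l.length = n ∧ shift k X ∈ Fol l Set.univ := by
  induction n with
  | zero => exact fun k => ⟨[], rfl, Set.mem_univ _⟩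
  | succ n ih =>
    intro k
    obtain ⟨e, he⟩ := hX k
    obtain ⟨l, h1, h2⟩ := ih (k + 1)
    refine ⟨e :: l, by rw [List.length_cons, h1], ?_, ?_⟩
    · simp only [shift, add_zero]; exact he
    · have : shift 1 (shift k X) = shift (k + 1) X := by
        funext i
        simp only [shift]
        congr 1
        omega
      rw [this]
      exact h2

lemma fol_sites' (l : List (Step d)) : ∀ (X : Path d), X ∈ Fol l Set.univ →
    ∀ y ∈ sitesL (X 0) l, ∃ k, k < l.length ∧ X k = y := by
  induction l with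
  | nil => intro X _ y hy; simp [sitesL] at hy
  | cons e l ih =>
    intro X h y hy
    obtain ⟨a1, a2⟩ := h
    simp only [sitesL, List.mem_cons] at hy
    rcases hy with rfl | hy
    · exact ⟨0, by simp, rfl⟩
    · rw [← a1] at hy
      obtain ⟨k, hk, hk2⟩ := ih (shift 1 X) a2 y hy
      refine ⟨k + 1, by rw [List.length_cons]; omega, ?_⟩
      rw [← hk2]
      simp only [shift]
      rw [Nat.add_comm]

lemma ann_zero (Q : Measure (Environment d)) [IsProbabilityMeasure Q] :
    ∀ᵐ X ∂annealed Q (0 : Site d), X 0 = 0 :=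
  annealed_ae (A := {X : Path d | X 0 = 0})
    (measurableSet_eq_fun (measurable_pi_apply 0) measurable_const)
    (Eventually.of_forall fun ω => quenched_zero_eq ω 0)

lemma ann_nn (Q : Measure (Environment d)) [IsProbabilityMeasure Q] :
    ∀ᵐ X ∂annealed Q (0 : Site d), ∀ n, ∃ e : Step d, X (n + 1) = X n + stepVec e := by
  have hm : MeasurableSet {X : Path d | ∀ n, ∃ e : Step d, X (n + 1) = X n + stepVec e} := by
    have : {X : Path d | ∀ n, ∃ e : Step d, X (n + 1) = X n + stepVec e} =
        ⋂ n, ⋃ e : Step d, {X : Path d | X (n + 1) = X n + stepVec e} := by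
      ext X; simp
    rw [this]
    refine MeasurableSet.iInter fun n => MeasurableSet.iUnion fun e => ?_
    exact measurableSet_eq_fun (measurable_pi_apply _)
      ((measurable_pi_apply n).add_const _)
  exact annealed_ae (A := {X | ∀ n, ∃ e : Step d, X (n + 1) = X n + stepVec e}) hm
    (Eventually.of_forall fun ω => quenched_nn ω 0)

open Classical in
lemma ann_words (ν : Measure (Row d)) [IsProbabilityMeasure ν] (S : Set (List (Step d))) :
    annealed (iidEnvironmentLaw ν) 0 (⋃ π ∈ S, Fol π Set.univ)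
      ≤ ∑' π, (if π ∈ S then aw ν π else 0) := by
  have : IsProbabilityMeasure (iidEnvironmentLaw ν) := by unfold iidEnvironmentLaw; infer_instance
  calc annealed (iidEnvironmentLaw ν) 0 (⋃ π ∈ S, Fol π Set.univ)
      = annealed (iidEnvironmentLaw ν) 0
          (⋃ π, (if π ∈ S then Fol π Set.univ else ∅)) := by
        congr 1
        ext X
        simp only [Set.mem_iUnion]
        constructor
        · rintro ⟨π, h, h'⟩; exact ⟨π, by rw [if_pos h]; exact h'⟩
        · rintro ⟨π, h⟩
          by_cases hπ : π ∈ S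
          · rw [if_pos hπ] at h; exact ⟨π, hπ, h⟩
          · rw [if_neg hπ] at h; exact absurd h (Set.notMem_empty X)
    _ ≤ ∑' π, annealed (iidEnvironmentLaw ν) 0 (if π ∈ S then Fol π Set.univ else ∅) :=
        measure_iUnion_le _
    _ ≤ ∑' π, (if π ∈ S then aw ν π else 0) := by
        refine ENNReal.tsum_le_tsum fun π => ?_
        by_cases hπ : π ∈ S
        · rw [if_pos hπ, if_pos hπ,
            annealed_apply _ 0 (Flux566.measurableSet_Fol π MeasurableSet.univ)]
          exact lintegral_mono fun ω => fol_le ω π 0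
        · rw [if_neg hπ, if_neg hπ, measure_empty]

/-! ### the uniform return bound -/

open Classical in
lemma ret_step (ν : Measure (Row d)) [IsProbabilityMeasure ν]
    (hν : ∀ᵐ p ∂ν, ∀ e : Step d, 0 < p.1 e) (v : Step d)
    (h : annealed (iidEnvironmentLaw ν) 0 (escapeEvent (dirVec v)) ≠ 0) (β s H : ℕ)
    (hs : 1 ≤ s) (hH : β + s < H) :
    annealed (iidEnvironmentLaw ν) 0 (Us475.Ret v β (β + s))
      ≤ annealed (iidEnvironmentLaw ν) 0 (Us475.Ret v (-1) (β + s))
        + annealed (iidEnvironmentLaw ν) 0 (Us475.Ret v β H)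
        + Ren396.TS (fun b : Irr (IsUp (d := d) v) => aw ν b.1) ht s := by
  have : IsProbabilityMeasure (iidEnvironmentLaw ν) := by unfold iidEnvironmentLaw; infer_instance
  have hk := Kal132.kalikow_ae (Q561.iid_shift ν) (Kal132.slabProp_iid ν hν) (dirVec v)
    (WM286.dirVec_ne_zero v) (Kal132.retry_iid ν _ (WM286.dirVec_ne_zero v)) h
  have key : annealed (iidEnvironmentLaw ν) 0 (Us475.Ret v β (β + s))
      ≤ annealed (iidEnvironmentLaw ν) 0 (Us475.Ret v (-1) (β + s) ∪ Us475.Ret v β H ∪
        ⋃ π ∈ {π : List (Step d) | IsUp v H π ∧ Back v β s π}, Fol π Set.univ) := by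
    refine measure_mono_ae ?_
    filter_upwards [hk, ann_zero (iidEnvironmentLaw ν), ann_nn (iidEnvironmentLaw ν)]
      with X hX hX0 hnn hret
    refine (?_ : X ∈ (Us475.Ret v (-1) (β + s) ∪ Us475.Ret v β H ∪
        ⋃ π ∈ {π : List (Step d) | IsUp v H π ∧ Back v β s π}, Fol π Set.univ))
    by_cases h1 : X ∈ Us475.Ret v (-1) (β + s)
    · exact Or.inl (Or.inl h1)
    by_cases h2 : X ∈ Us475.Ret v β H
    · exact Or.inl (Or.inr h2)
    refine Or.inr ?_
    obtain ⟨a, ha1, ha2, b, hab, hb⟩ := hret
    have hpos : ∀ m, 0 ≤ lev v (X m) := by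
      intro m
      by_contra hneg
      rw [not_le] at hneg
      rcases le_total m a with hma | hma
      · have := ha1 m hma; omega
      · exact h1 ⟨a, ha1, ha2, m, hma, by omega⟩
    -- the walk reaches level `H`
    have hex : ∃ m, (H : ℤ) ≤ lev v (X m) := by
      rcases hX with h3 | h3
      · rw [Kal132.mem_escape_iff] at h3
        obtain ⟨m, hm⟩ := (h3.eventually_ge_atTop (H : ℝ)).exists
        rw [WM286.L_dirVec] at hm
        exact ⟨m, by exact_mod_cast hm⟩
      · exfalso
        rw [Kal132.mem_escape_iff] at h3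
        obtain ⟨m, hm⟩ := (h3.eventually_ge_atTop 1).exists
        rw [Kal132.L_neg, WM286.L_dirVec] at hm
        have h4 : (0 : ℝ) ≤ (lev v (X m) : ℝ) := by exact_mod_cast hpos m
        linarith
    set N := Nat.find hex with hN
    have hN1 : (H : ℤ) ≤ lev v (X N) := Nat.find_spec hex
    have hN2 : ∀ m, m < N → lev v (X m) < H := fun m hm => not_le.1 (Nat.find_min hex hm)
    have hNpos : N ≠ 0 := by
      intro h0
      rw [h0, hX0, lev_z] at hN1
      omega
    have hN3 : lev v (X N) = H := by
      obtain ⟨N', hN'⟩ := Nat.exists_eq_succ_of_ne_zero hNpos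
      obtain ⟨e, he⟩ := hnn N'
      have h5 := hN2 N' (by omega)
      have h6 := WM286.lev_step_le v e (X N')
      rw [← he] at h6
      have h7 : X N = X (N' + 1) := by rw [hN']
      rw [h7] at hN1 ⊢
      omega
    have hbN : b < N := by
      by_contra hcon
      rw [not_lt] at hcon
      exact h2 ⟨N, fun j _ => hpos j, hN1, b, hcon, hb⟩
    have haN : a < N := lt_of_le_of_lt hab hbN
    obtain ⟨π1, hl1, hf1⟩ := exists_word X hnn a 0
    obtain ⟨π2, hl2, hf2⟩ := exists_word X hnn (N - a) a
    have hs0 : shift 0 X = X := by funext i; simp [shift]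
    rw [hs0] at hf1
    have hF : X ∈ Fol (π1 ++ π2) Set.univ := fol_app π1 π2 X hf1 (by rw [hl1]; exact hf2)
    have hlen : (π1 ++ π2).length = N := by rw [List.length_append, hl1, hl2]; omega
    have he1 : endp 0 π1 = X a := by
      have := Us109.fol_end π1 X hf1
      rw [hX0, hl1] at this
      exact this.symm
    simp only [Set.mem_iUnion]
    refine ⟨π1 ++ π2, ⟨⟨?_, ?_⟩, ⟨π1, π2, rfl, ?_, X b, ?_, hb⟩⟩, hF⟩
    · intro y hy
      rw [← hX0] at hy
      obtain ⟨k, hk1, hk2⟩ := fol_sites' _ X hF y hy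
      rw [hlen] at hk1
      rw [← hk2]
      exact ⟨hpos k, hN2 k hk1⟩
    · have := Us109.fol_end _ X hF
      rw [hX0, hlen] at this
      rw [← this, hN3]
    · rw [he1]; exact_mod_cast ha2
    · rw [he1]
      have h8 := Us109.fol_sites π2 (shift a X) hf2 (b - a) (by rw [hl2]; omega)
      have h9 : shift a X (b - a) = X b := by
        simp only [shift]; congr 1; omega
      have h10 : shift a X 0 = X a := by simp only [shift, add_zero]
      rw [h9, h10] at h8
      exact h8
  refine key.trans ((measure_union_le _ _).trans (add_le_add (measure_union_le _ _) ?_))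
  refine (ann_words ν _).trans (le_trans (le_of_eq (tsum_congr fun π => ?_))
    (back_le ν v β s H hs))
  by_cases hπ : IsUp v H π ∧ Back v β s π
  · rw [if_pos hπ, if_pos (show π ∈ {π : List (Step d) | IsUp v H π ∧ Back v β s π} from hπ)]
  · rw [if_neg hπ, if_neg (show π ∉ {π : List (Step d) | IsUp v H π ∧ Back v β s π} from hπ)]

/-- the uniform return quantity -/
noncomputable def usU (ν : Measure (Row d)) [IsProbabilityMeasure ν] (v : Step d) (s : ℕ) : ℝ≥0∞ :=
  annealed (iidEnvironmentLaw ν) 0 (Us475.Ret v (-1) s)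
    + Ren396.TS (fun b : Irr (IsUp (d := d) v) => aw ν b.1) ht s

/-- **uniform return bound, path form** -/
theorem ret_unif (ν : Measure (Row d)) [IsProbabilityMeasure ν]
    (hν : ∀ᵐ p ∂ν, ∀ e : Step d, 0 < p.1 e) (v : Step d)
    (h : annealed (iidEnvironmentLaw ν) 0 (escapeEvent (dirVec v)) ≠ 0) (β s : ℕ)
    (hs : 1 ≤ s) :
    annealed (iidEnvironmentLaw ν) 0 (Us475.Ret v β (β + s)) ≤ usU ν v s := by
  have h1 : ∀ H : ℕ, β + s < H → annealed (iidEnvironmentLaw ν) 0 (Us475.Ret v β (β + s))
      ≤ usU ν v s + annealed (iidEnvironmentLaw ν) 0 (Us475.Ret v β H) := by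
    intro H hH
    refine (ret_step ν hν v h β s H hs hH).trans ?_
    unfold usU
    have h2 : annealed (iidEnvironmentLaw ν) 0 (Us475.Ret v (-1) (β + s))
        ≤ annealed (iidEnvironmentLaw ν) 0 (Us475.Ret v (-1) s) :=
      measure_mono (Us475.ret_anti v (-1) (Nat.le_add_left s β))
    calc _ ≤ annealed (iidEnvironmentLaw ν) 0 (Us475.Ret v (-1) s)
          + annealed (iidEnvironmentLaw ν) 0 (Us475.Ret v β H)
          + Ren396.TS (fun b : Irr (IsUp (d := d) v) => aw ν b.1) ht s := by gcongr
      _ = _ := by ring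
  have h3 := Us475.us_tendsto ν hν v h (β : ℤ)
  have h4 : Tendsto (fun H : ℕ => usU ν v s + annealed (iidEnvironmentLaw ν) 0 (Us475.Ret v β H))
      atTop (nhds (usU ν v s + 0)) := h3.const_add _
  rw [add_zero] at h4
  refine ge_of_tendsto h4 ?_
  filter_upwards [eventually_gt_atTop (β + s)] with H hH using h1 H hH

open Classical in
/-- **uniform return bound, prefix-free word form** -/
theorem ret_words (ν : Measure (Row d)) [IsProbabilityMeasure ν]
    (hν : ∀ᵐ p ∂ν, ∀ e : Step d, 0 < p.1 e) (v : Step d)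
    (h : annealed (iidEnvironmentLaw ν) 0 (escapeEvent (dirVec v)) ≠ 0) (β s : ℕ)
    (hs : 1 ≤ s) (W : Set (List (Step d))) (hW : Us109.PF W)
    (hR : W ⊆ Us109.RetW v β ((β + s : ℕ) : ℤ)) :
    ∑' l, (if l ∈ W then aw ν l else 0) ≤ usU ν v s :=
  (Us109.ret_le ν v β (β + s) W hW hR).trans (ret_unif ν hν v h β s hs)

open Classical in
/-- **the natural words which come back** -/
theorem back_le_usU (ν : Measure (Row d)) [IsProbabilityMeasure ν] (v : Step d) (β s n : ℕ)
    (hs : 1 ≤ s) :
    ∑' π : List (Step d), (if IsUp v n π ∧ Back v β s π then aw ν π else 0) ≤ usU ν v s :=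
  (back_le ν v β s n hs).trans (by unfold usU; exact le_add_self)

/-- **`usU → 0`** -/
theorem usU_tendsto (ν : Measure (Row d)) [IsProbabilityMeasure ν]
    (hν : ∀ᵐ p ∂ν, ∀ e : Step d, 0 < p.1 e) (v : Step d)
    (hA : annealed (iidEnvironmentLaw ν) 0 (escapeEvent (dirVec v)) ≠ 0) :
    Tendsto (usU ν v) atTop (nhds 0) := by
  classical
  have hc0 : annealed (iidEnvironmentLaw ν) 0 (Kal132.Stay (dirVec v)) ≠ 0 :=
    WM286.stay_ne_zero ν v hA
  have : IsProbabilityMeasure (iidEnvironmentLaw ν) := by unfold iidEnvironmentLaw; infer_instance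
  have hc1 : annealed (iidEnvironmentLaw ν) 0 (Kal132.Stay (dirVec v)) ≠ ⊤ :=
    measure_ne_top _ _
  have hU : ∀ n, annealed (iidEnvironmentLaw ν) 0 (Kal132.Stay (dirVec v))
      ≤ B5A.U (fun b : Irr (IsUp (d := d) v) => aw ν b.1) ht n := fun n => by
    rw [U_up]; exact WM286.stay_le_sum_up ν hν v hA n
  have hU1 : ∀ n, B5A.U (fun b : Irr (IsUp (d := d) v) => aw ν b.1) ht n ≤ 1 := fun n => by
    rw [U_up]; exact WM286.sum_up_le_one ν v n
  have hΛ : ∑' b : Irr (IsUp (d := d) v), aw ν b.1 = 1 :=
    le_antisymm (B5A.mass_le_one _ ht ht_pos hU1) (B5A.mass_ge_one _ ht _ hc0 0 fun n _ => hU n)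
  have h1 := Us475.us_tendsto ν hν v hA (-1)
  have h2 := Ren396.tendsto_TS (fun b : Irr (IsUp (d := d) v) => aw ν b.1) ht _ hc0 hc1 ht_pos hΛ 0
    fun n _ => hU n
  have h3 := h1.add h2
  rw [add_zero] at h3
  exact h3

end Crest.Agent.R154.URet697
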