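import Crest.Agent.R154.H2_220
import Crest.Agent.R154.URet_697

/-! Row 154 (S0219, ROAD 801), helper220: 419's literals `H2W`, `H3W` (= 540's H2, H3 in words). -/

set_option autoImplicit false

namespace Crest.Agent.R154.H23220

open MeasureTheory ProbabilityTheory Crest.ProbabilityR.RandomEnvironment Crest.Agent.R154
open Crest.Agent.R154.Flux132 (lev opp)
open Crest.Agent.R154.Flux566 (lw endp sitesL)
open Crest.Agent.R154.NB28 (IsUp IsDn aw)
open Crest.Agent.R154.KWB419 (Ct H2W H3W)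
open Crest.Agent.R154.H3220 Crest.Agent.R154.H2220
open Filter Topology
open scoped ENNReal

variable {d : ℕ}

/-- the common return bound -/
noncomputable def us (ν : Measure (Row d)) [IsProbabilityMeasure ν] (u : Step d) (s : ℕ) : ℝ≥0∞ :=
  if s < 2 then 1 else URet697.usU ν u s + URet697.usU ν (opp u) (s - 1)

open Classical in
lemma triv (ν : Measure (Row d)) [IsProbabilityMeasure ν] (u : Step d) (h h' : ℕ)
    (μ : Site d → ℝ≥0∞) (hμ1 : ∑' x, μ x ≤ 1) (P : Site d → List (Step d) → List (Step d) → Prop)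
    (dec : ∀ x π γ, Decidable (P x π γ))
    (hP : ∀ x π γ, P x π γ → IsUp u h π ∧ IsDn u h' γ) :
    ∑' x, μ x * (∑' π, ∑' γ, @ite _ (P x π γ) (dec x π γ) (aw ν π * aw ν γ) 0) ≤ 1 := by
  have hd : dec = fun x π γ => Classical.propDecidable (P x π γ) := by
    funext x π γ; exact Subsingleton.elim _ _
  subst hd
  calc ∑' x, μ x * (∑' π, ∑' γ, if P x π γ then aw ν π * aw ν γ else 0)
      ≤ ∑' x, μ x * ((∑' π, if π ∈ {π | IsUp u h π} then aw ν π else 0)
          * ∑' γ, if γ ∈ {γ | IsDn u h' γ} then aw ν γ else 0) := by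
        refine ENNReal.tsum_le_tsum fun x => mul_le_mul_right ?_ _
        rw [← ENNReal.tsum_mul_right]
        refine ENNReal.tsum_le_tsum fun π => ?_
        rw [← ENNReal.tsum_mul_left]
        refine ENNReal.tsum_le_tsum fun γ => ?_
        by_cases h1 : P x π γ
        · have hπ : π ∈ {π | IsUp u h π} := (hP x π γ h1).1
          have hγ : γ ∈ {γ | IsDn u h' γ} := (hP x π γ h1).2
          rw [if_pos h1, if_pos hπ, if_pos hγ]
        · rw [if_neg h1]; exact zero_le
    _ = (∑' x, μ x) * ((∑' π, if π ∈ {π | IsUp u h π} then aw ν π else 0)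
          * ∑' γ, if γ ∈ {γ | IsDn u h' γ} then aw ν γ else 0) := ENNReal.tsum_mul_right
    _ ≤ 1 * (1 * 1) := mul_le_mul' hμ1 (mul_le_mul' (sum_le_one ν (pf_up u h))
        (sum_le_one ν (pf_dn u h')))
    _ = 1 := by simp

lemma fin_le (C lam A b c : ℝ≥0∞) (hC : 4 ≤ C) (hbc : b ≤ c) :
    4 * lam + A * b / lam + b ≤ C * (lam + A * c / lam + c) := by
  have h1 : (1 : ℝ≥0∞) ≤ C := le_trans (by norm_num) hC
  calc 4 * lam + A * b / lam + b ≤ C * lam + C * (A * c / lam) + C * c := by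
        refine add_le_add (add_le_add (mul_le_mul_left hC _) ?_) ?_
        · calc A * b / lam ≤ A * c / lam := ENNReal.div_le_div_right (mul_le_mul_right hbc _) _
            _ = 1 * (A * c / lam) := (one_mul _).symm
            _ ≤ C * (A * c / lam) := mul_le_mul_left h1 _
        · calc b ≤ c := hbc
            _ = 1 * c := (one_mul _).symm
            _ ≤ C * c := mul_le_mul_left h1 _
    _ = C * (lam + A * c / lam + c) := by ring

theorem h3W (ν : Measure (Row d)) [IsProbabilityMeasure ν]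
    (hν : ∀ᵐ p ∂ν, ∀ e : Step d, 0 < p.1 e) (u : Step d)
    (hA : annealed (iidEnvironmentLaw ν) 0 (escapeEvent (B2d.dirVec u)) ≠ 0) :
    H3W ν u (us ν u) 4 := by
  intro s h h' a a' hi E μ M lam hμ1 hμM hl0 hlt h1 h2
  by_cases hs : s < 2
  · refine le_trans (@triv d ν _ u h h' μ hμ1 (fun x π γ => lev u x = 0 ∧ IsUp u h π ∧
      IsDn u h' γ ∧ (endp 0 γ + h' • stepVec u) ∈ E ∧ (∃ y, Ct u π γ x a a' y) ∧
      (∀ y, Ct u π γ x a a' y → -lev u y ≤ (hi : ℤ))) _
      (fun x π γ hP => ⟨hP.2.1, hP.2.2.1⟩)) ?_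
    have e : us ν u s = 1 := if_pos hs
    rw [e]
    calc (1 : ℝ≥0∞) ≤ 4 * (0 + 1) := by norm_num
      _ ≤ 4 * (lam + M * E.card * 1 / lam + 1) :=
        mul_le_mul_right (add_le_add zero_le le_rfl) _
  · set r : ℕ := (a + h) - (a' + h') with hr
    refine (h3 ν u r (r + s) h h' a a' hi E μ M lam hμ1 hμM hl0 hlt (by omega)
      (by omega)).trans ?_
    refine fin_le 4 lam (M * E.card) _ _ le_rfl ?_
    refine (URet697.ret_unif ν hν u hA r s (by omega)).trans ?_
    rw [us, if_neg hs]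
    exact le_self_add

theorem h2W (ν : Measure (Row d)) [IsProbabilityMeasure ν]
    (hν : ∀ᵐ p ∂ν, ∀ e : Step d, 0 < p.1 e) (u : Step d)
    (hB : annealed (iidEnvironmentLaw ν) 0 (escapeEvent (B2d.dirVec (opp u))) ≠ 0) :
    H2W ν u (us ν u) 4 := by
  intro s h h' a a' lo E μ M lam hμ1 hμM hl0 hlt h1 h2
  by_cases hs : s < 2
  · refine le_trans (@triv d ν _ u h h' μ hμ1 (fun x π γ => lev u x = 0 ∧ IsUp u h π ∧
      IsDn u h' γ ∧ (h • stepVec u - endp 0 π) ∈ E ∧ (∃ y, Ct u π γ x a a' y) ∧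
      (∀ y, Ct u π γ x a a' y → (lo : ℤ) ≤ -lev u y)) _
      (fun x π γ hP => ⟨hP.2.1, hP.2.2.1⟩)) ?_
    have e : us ν u s = 1 := if_pos hs
    rw [e]
    calc (1 : ℝ≥0∞) ≤ 4 * (0 + 1) := by norm_num
      _ ≤ 4 * (lam + M * E.card * 1 / lam + 1) :=
        mul_le_mul_right (add_le_add zero_le le_rfl) _
  · set r : ℕ := a - a' with hr
    refine (H2220.h2 ν u r (r + s) h h' a a' lo E μ M lam hμ1 hμM hl0 hlt (by omega)
      (by omega)).trans ?_
    have e1 : r + s - 1 = r + (s - 1) := by omega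
    rw [e1]
    have hb : annealed (iidEnvironmentLaw ν) 0 (Us475.Ret (opp u) r (r + (s - 1)))
        ≤ us ν u s := by
      refine (URet697.ret_unif ν hν (opp u) hB r (s - 1) (by omega)).trans ?_
      rw [us, if_neg hs]
      exact le_add_self
    refine le_trans ?_ (fin_le 4 lam (M * E.card) _ _ le_rfl hb)
    refine add_le_add (add_le_add ?_ le_rfl) le_rfl
    calc lam = 1 * lam := (one_mul _).symm
      _ ≤ 4 * lam := mul_le_mul_left (by norm_num) _

theorem us_tendsto (ν : Measure (Row d)) [IsProbabilityMeasure ν]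
    (hν : ∀ᵐ p ∂ν, ∀ e : Step d, 0 < p.1 e) (u : Step d)
    (hA : annealed (iidEnvironmentLaw ν) 0 (escapeEvent (B2d.dirVec u)) ≠ 0)
    (hB : annealed (iidEnvironmentLaw ν) 0 (escapeEvent (B2d.dirVec (opp u))) ≠ 0) :
    Tendsto (us ν u) atTop (𝓝 0) := by
  have h1 := URet697.usU_tendsto ν hν u hA
  have h2 := (URet697.usU_tendsto ν hν (opp u) hB).comp (tendsto_sub_atTop_nat 1)
  have h3 := h1.add h2
  rw [add_zero] at h3
  refine h3.congr' ?_
  filter_upwards [eventually_ge_atTop 2] with s hs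
  rw [us, if_neg (by omega)]
  rfl

lemma dirVec_opp (u : Step d) : B2d.dirVec (opp u) = -B2d.dirVec u := by
  funext i
  unfold B2d.dirVec
  rw [Flux132.stepVec_opp]
  simp

end Crest.Agent.R154.H23220
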