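import Crest.Agent.R154.Fact_346
import Crest.Agent.R154.WordB_956

/-!
Row 154 (helper91), ROAD 801: words -> lists. Single-walker blocks read from the tie DOWN:
`BX u` = irreducible up words (hung at their END), `BY u` = irreducible down words; the sets
`TX`, `TY` of 540's assembly are the sites read by the word, and sums over lists of blocks of
total height `h` are sums over crossing words of height `h`.
-/

set_option autoImplicit false
set_option linter.unusedSectionVars false

namespace Crest.Agent.R154.H23

open MeasureTheory ProbabilityTheory Crest.ProbabilityR.RandomEnvironment Crest.Agent.R154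
open Crest.Agent.R154.Flux132 (lev opp)
open Crest.Agent.R154.Flux566 (lw endp sitesL)
open Crest.Agent.R154.Fact346 (Irr ht fl Fac fac_up tsum_fact P_fl weight_fl fl_append lev_a lev_z
  lev_opp up_from sitesL_append sitesL_add ht_spec)
open Crest.Agent.R154.NB28 (IsUp IsDn aw)
open Crest.Agent.R154.B5A (LW HT)
open scoped ENNReal

/-! ### read sets of lists of blocks -/

/-- sites (position, depth) read by a list of blocks hung at `(x, a)`, from the tie down -/
def T {B G : Type*} [Add G] (s : B → Set (G × ℕ)) (z : B → G) (h : B → ℕ) :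
    List B → G → ℕ → Set (G × ℕ)
  | [], _, _ => ∅
  | b :: L, x, a => {p | ∃ q ∈ s b, p = (x + q.1, a + q.2)} ∪ T s z h L (x + z b) (a + h b)

variable {d : ℕ} (u : Step d)

/-- blocks of `X` -/
abbrev BX := Irr (IsUp u)

/-- blocks of `Y` -/
abbrev BY := Irr (IsUp (opp u))

/-- displacement of an `X` block, from its top (end) to its bottom (start) -/
def zX (b : BX u) : Site d := -endp 0 b.1

/-- displacement of a `Y` block -/
def zY (b : BY u) : Site d := endp 0 b.1

/-- sites read by an `X` block hung at `0`: (site, depth) -/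
def sX (b : BX u) : Set (Site d × ℕ) :=
  {p | p.1 ∈ sitesL (-endp 0 b.1) b.1 ∧ lev u p.1 = -(p.2 : ℤ)}

/-- sites read by a `Y` block hung at `0` -/
def sY (b : BY u) : Set (Site d × ℕ) :=
  {p | p.1 ∈ sitesL (stepVec (opp u)) b.1 ∧ lev u p.1 = -(p.2 : ℤ)}

/-- the word of a list of `X` blocks read from the tie down -/
def wX (L : List (BX u)) : List (Step d) := fl L.reverse

lemma wX_cons (b : BX u) (L : List (BX u)) : wX u (b :: L) = wX u L ++ b.1 := by
  unfold wX
  rw [List.reverse_cons, fl_append]
  simp [fl]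

lemma HT_reverse {B : Type*} (h : B → ℕ) (L : List B) : HT h L.reverse = HT h L := by
  unfold HT
  rw [List.map_reverse, List.sum_reverse]

lemma LW_reverse {B : Type*} (Λ : B → ℝ≥0∞) (L : List B) : LW Λ L.reverse = LW Λ L := by
  unfold LW
  rw [List.map_reverse, List.prod_reverse]

lemma isUp_wX (L : List (BX u)) : IsUp u (HT ht L) (wX u L) := by
  have := P_fl (fac_up u) L.reverse
  rwa [HT_reverse] at this

/-- read set of a word hung at its end -/
def RX (π : List (Step d)) (x : Site d) (a : ℕ) : Set (Site d × ℕ) :=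
  {p | ∃ q : Site d × ℕ, q.1 ∈ sitesL (-endp 0 π) π ∧ lev u q.1 = -(q.2 : ℤ) ∧
    p = (x + q.1, a + q.2)}

/-- read set of a down word -/
def RY (ρ : List (Step d)) (x : Site d) (a : ℕ) : Set (Site d × ℕ) :=
  {p | ∃ q : Site d × ℕ, q.1 ∈ sitesL (stepVec (opp u)) ρ ∧ lev u q.1 = -(q.2 : ℤ) ∧
    p = (x + q.1, a + q.2)}

lemma sitesL_shift (l : List (Step d)) (x z : Site d) (y : Site d) :
    y ∈ sitesL (x + z) l ↔ ∃ y' ∈ sitesL x l, y = y' + z := by
  rw [sitesL_add, List.mem_map]
  exact ⟨fun ⟨a, h1, h2⟩ => ⟨a, h1, h2.symm⟩, fun ⟨a, h1, h2⟩ => ⟨a, h1, h2.symm⟩⟩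

lemma lev_n (x : Site d) : lev u (-x) = -lev u x := by
  have h := lev_a u x (-x)
  rw [add_neg_cancel, lev_z] at h
  omega

lemma TX_eq (L : List (BX u)) (x : Site d) (a : ℕ) :
    T (sX u) (zX u) ht L x a = RX u (wX u L) x a := by
  induction L generalizing x a with
  | nil =>
    ext p
    simp [T, RX, wX, fl, sitesL]
  | cons b L ih =>
    have hb := (ht_spec b).2
    have hbs := (ht_spec b).1
    have hL := (isUp_wX u L)
    rw [T, ih, wX_cons]
    ext p
    have e0 : -endp 0 (wX u L ++ b.1) = -endp 0 (wX u L) + -endp 0 b.1 := by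
      rw [Flux566.endp_append, Flux566.endp_eq_add b.1 (endp 0 (wX u L))]
      abel
    have e1 : endp (-endp 0 (wX u L) + -endp 0 b.1) (wX u L) = -endp 0 b.1 := by
      rw [Flux566.endp_eq_add]
      abel
    simp only [RX, Set.mem_union, Set.mem_ofPred_eq, e0, sitesL_append, List.mem_append, e1]
    constructor
    · rintro (⟨q, hq, rfl⟩ | ⟨q, h1, h2, rfl⟩)
      · exact ⟨q, Or.inr hq.1, hq.2, rfl⟩
      · refine ⟨(q.1 + -endp 0 b.1, q.2 + ht b), Or.inl ?_, ?_, ?_⟩
        · exact (sitesL_shift _ _ _ _).2 ⟨q.1, h1, rfl⟩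
        · simp only [lev_a, lev_n, h2, hb]
          push_cast
          ring
        · simp only [zX, Prod.mk.injEq]
          constructor
          · abel
          · ring
    · rintro ⟨q, h1 | h1, h2, rfl⟩
      · obtain ⟨y', hy', hq⟩ := (sitesL_shift _ _ _ _).1 h1
        refine Or.inr ?_
        have hlev : lev u y' = -(((q.2 : ℤ) - ht b)) := by
          rw [hq, lev_a, lev_n, hb] at h2
          omega
        have hpos : (ht b : ℤ) ≤ q.2 := by
          -- `y'` has level `< 0`
          have h3 := (up_from u _ _ (-endp 0 (wX u L))).1 hL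
          have h4 := (h3.1 y' hy').2
          rw [lev_n, hL.2] at h4
          omega
        have hle : ht b ≤ q.2 := by exact_mod_cast hpos
        refine ⟨(y', q.2 - ht b), hy', ?_, ?_⟩
        · simp only [hlev]
          rw [Nat.cast_sub hle]
        · simp only [zX, Prod.mk.injEq]
          refine ⟨?_, by omega⟩
          rw [hq]
          abel
      · exact Or.inl ⟨q, ⟨h1, h2⟩, rfl⟩

lemma TY_eq (L : List (BY u)) (x : Site d) (a : ℕ) :
    T (sY u) (zY u) ht L x a = RY u (fl L) x a := by
  induction L generalizing x a with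
  | nil =>
    ext p
    simp [T, RY, fl, sitesL]
  | cons b L ih =>
    have hb := (ht_spec b).2
    rw [lev_opp] at hb
    have hL := P_fl (fac_up (opp u)) L
    rw [T, ih]
    ext p
    have e1 : endp (stepVec (opp u)) b.1 = stepVec (opp u) + endp 0 b.1 :=
      Flux566.endp_eq_add _ _
    change _ ↔ p ∈ RY u (b.1 ++ fl L) x a
    simp only [RY, Set.mem_union, Set.mem_ofPred_eq, sitesL_append, List.mem_append, e1]
    constructor
    · rintro (⟨q, hq, rfl⟩ | ⟨q, h1, h2, rfl⟩)
      · exact ⟨q, Or.inl hq.1, hq.2, rfl⟩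
      · refine ⟨(q.1 + endp 0 b.1, q.2 + ht b), Or.inr ?_, ?_, ?_⟩
        · exact (sitesL_shift _ _ _ _).2 ⟨q.1, h1, rfl⟩
        · simp only [lev_a, h2]
          push_cast
          linarith
        · simp only [zY, Prod.mk.injEq]
          constructor
          · abel
          · ring
    · rintro ⟨q, h1 | h1, h2, rfl⟩
      · exact Or.inl ⟨q, ⟨h1, h2⟩, rfl⟩
      · obtain ⟨y', hy', hq⟩ := (sitesL_shift _ _ _ _).1 h1
        refine Or.inr ?_
        have hlev : lev u y' = -(((q.2 : ℤ) - ht b)) := by
          rw [hq, lev_a] at h2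
          linarith
        have hpos : (ht b : ℤ) ≤ q.2 := by
          have h3 := (up_from (opp u) _ _ (stepVec (opp u))).1 hL
          have h4 := (h3.1 y' hy').1
          rw [lev_opp, lev_opp] at h4
          have h5 : lev u (stepVec (opp u)) ≤ 0 := by
            have := lev_opp u (stepVec (opp u))
            have h6 : lev (opp u) (stepVec (opp u)) = 1 := Flux566.lev_self (opp u)
            omega
          omega
        have hle : ht b ≤ q.2 := by exact_mod_cast hpos
        refine ⟨(y', q.2 - ht b), hy', ?_, ?_⟩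
        · simp only [hlev]
          rw [Nat.cast_sub hle]
        · simp only [zY, Prod.mk.injEq]
          refine ⟨?_, by omega⟩
          rw [hq]
          abel

lemma DpX_eq (L : List (BX u)) : (L.map (zX u)).sum = -endp 0 (wX u L) := by
  induction L with
  | nil => simp [wX, fl, endp]
  | cons b L ih =>
    rw [List.map_cons, List.sum_cons, ih, wX_cons, Flux566.endp_append,
      Flux566.endp_eq_add b.1 (endp 0 (wX u L)), zX]
    abel

lemma DpY_eq (L : List (BY u)) : (L.map (zY u)).sum = endp 0 (fl L) := by
  induction L with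
  | nil => simp [fl, endp]
  | cons b L ih =>
    change _ = endp 0 (b.1 ++ fl L)
    rw [List.map_cons, List.sum_cons, ih, Flux566.endp_append,
      Flux566.endp_eq_add (fl L) (endp 0 b.1), zY]

end Crest.Agent.R154.H23
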