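import Crest.Agent.R154.WinE_546
import Crest.Agent.R154.Us_109
import Crest.Agent.R154.WLit_763
import Crest.Agent.R154.KWin_327

/-! Row 154, ROAD 801 (helper150): 763's `H2P` (X local) from 546's `win2` and 109's `us_zero`. -/

set_option autoImplicit false
set_option linter.unusedVariables false

namespace Crest.Agent.R154.HP150

open MeasureTheory ProbabilityTheory Crest.ProbabilityR.RandomEnvironment Crest.Agent.R154
open Crest.Agent.R154.Flux132 (lev opp)
open Crest.Agent.R154.Flux566 (lw endp sitesL endp_append)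
open Crest.Agent.R154.NB28 (IsUp IsDn aw)
open Crest.Agent.R154.Win546 (PF Mn Hit exists_Mn win2 mem_sitesL)
open Crest.Agent.R154.KWin327 (lev_add lev_neg lev_zero lev_opp)
open scoped ENNReal

variable {d : ℕ}

lemma aw_eq546 (ν : Measure (Row d)) [IsProbabilityMeasure ν] (l : List (Step d)) :
    Win546.aw ν l = aw ν l := rfl

lemma sitesL_app (x : Site d) (l l' : List (Step d)) :
    sitesL x (l ++ l') = sitesL x l ++ sitesL (endp x l) l' := by
  induction l generalizing x with
  | nil => simp [sitesL, endp]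
  | cons e l ih =>
    simp only [List.cons_append, sitesL, endp]
    rw [ih]

lemma endp_tr (x z : Site d) (l : List (Step d)) : endp (x + z) l = endp x l + z := by
  induction l generalizing x with
  | nil => rfl
  | cons e l ih =>
    simp only [endp]
    rw [show x + z + stepVec e = x + stepVec e + z by abel, ih]

lemma sites_tr (x z y : Site d) (l : List (Step d)) : y ∈ sitesL (x + z) l ↔ y - z ∈ sitesL x l := by
  induction l generalizing x with
  | nil => simp [sitesL]
  | cons e l ih =>
    simp only [sitesL, List.mem_cons]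
    rw [show x + z + stepVec e = x + stepVec e + z by abel, ih]
    constructor
    · rintro (h | h)
      · left; rw [h]; abel
      · right; exact h
    · rintro (h | h)
      · left; rw [← h]; abel
      · right; exact h

lemma mem_end {x : Site d} {l r : List (Step d)} (h : r ≠ []) : endp x l ∈ sitesL x (l ++ r) := by
  rw [sitesL_app]
  refine List.mem_append.mpr (Or.inr ?_)
  cases r with
  | nil => exact absurd rfl h
  | cons e l => simp [sitesL]

lemma pf_up (u : Step d) (h : ℕ) : PF {l : List (Step d) | IsUp u h l} := by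
  intro l hl r hr
  by_contra hne
  have h1 := (hr.1 _ (mem_end (x := 0) (l := l) hne)).2
  have h2 := hl.2
  omega

lemma pf_dn (u : Step d) (h : ℕ) : PF {l : List (Step d) | IsDn u h l} := by
  intro l hl r hr
  by_contra hne
  have h1 := (hr.1 _ (mem_end (x := 0) (l := l) hne)).1
  have h2 := hl.2
  omega

lemma lev_opp' (u : Step d) (x : Site d) : lev (opp u) x = - lev u x := by
  obtain ⟨i, b⟩ := u
  cases b <;> simp [lev, opp]

/-- turned words in direction `v`: `≥ 0`-side excursion to height `s`, first hit of level `-δ` -/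
def TTv (v : Step d) (s δ : ℕ) : Set (List (Step d)) :=
  {t | (∀ z ∈ sitesL 0 t, -(δ : ℤ) < lev v z) ∧ lev v (endp 0 t) = -(δ : ℤ) ∧
    ∃ l1 l2, t = l1 ++ l2 ∧ (∀ y ∈ sitesL 0 l1, 0 ≤ lev v y) ∧ (s : ℤ) ≤ lev v (endp 0 l1)}

lemma pf_TT (v : Step d) (s δ : ℕ) : Us109.PF (TTv v s δ) := by
  rintro l hl l' hl' ⟨r, rfl⟩
  by_contra hne
  have hr : r ≠ [] := by
    rintro rfl
    exact hne (by simp)
  have h1 := hl'.1 _ (mem_end (x := 0) (l := l) hr)
  have h2 := hl.2.1
  omega

lemma TT_ret (v : Step d) (s δ : ℕ) : TTv v s δ ⊆ Us109.RetW v 0 s := by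
  rintro t ⟨h1, h2, l1, l2, h3, h4, h5⟩
  exact ⟨⟨l1, l2, h3, h4, h5⟩, by rw [h2]; omega⟩

open Classical in
/-- **763's `H2P`.** -/
theorem h2P (ν : Measure (Row d)) [IsProbabilityMeasure ν]
    (hν : ∀ᵐ p ∂ν, ∀ e : Step d, 0 < p.1 e) (u : Step d)
    (hesc : annealed (iidEnvironmentLaw ν) 0 (escapeEvent (B2d.dirVec (opp u))) ≠ 0) :
    WL763.H2P ν u := by
  refine ⟨1, ENNReal.one_ne_top, fun r0 η hη => ?_⟩
  obtain ⟨s0, hs0⟩ := Us109.us_zero ν hν (opp u) hesc 0 η hη
  refine ⟨s0, fun s hs h h' δ E μ M lam hδ1 hδ2 hh1 hh2 hμ hM hMt hsupp hl0 hl1 => ?_⟩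
  have hT := hs0 s hs (TTv (opp u) s δ) (pf_TT _ s δ) (TT_ret _ s δ)
  set XX : Set (List (Step d)) := {l | IsUp u h l} with hXX
  set YY : Set (List (Step d)) := {l | IsDn u h' l} with hYY
  set Dp : Set (Site d) := {z | lev u z + s ≤ (h : ℤ) - δ} with hDp
  set DX : Site d → Set (List (Step d)) := fun v =>
    {r | (∀ z ∈ sitesL v r, lev u z < h) ∧ lev u (endp v r) = h} with hDX
  set XS : Set (Site d) := {z | lev u z = (h : ℤ) - δ} with hXS
  have key := win2 ν (XX := XX) (YY := YY) (pf_up u h) (pf_dn u h') E Dp DX ?_ XS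
    (TTv (opp u) s δ) ?_ μ M hM hμ hl0 hl1
  · have hr : lam + M * (lam⁻¹ * (E.card * ∑' t, (if t ∈ TTv (opp u) s δ then
        Win546.aw ν t else 0))) ≤ 1 * (lam + M * E.card * η / lam + η) := by
      rw [one_mul]
      refine le_trans ?_ le_self_add
      refine add_le_add le_rfl ?_
      have e1 : M * E.card * η / lam = M * (lam⁻¹ * (E.card * η)) := by
        rw [div_eq_mul_inv]; ring
      rw [e1]
      exact mul_le_mul_right (mul_le_mul_right (mul_le_mul_right hT _) _) _
    refine le_trans (le_trans ?_ key) hr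
    -- change of anchor
    calc ∑' x, μ x * ∑' π : List (Step d), ∑' γ : List (Step d),
          (if IsUp u h π ∧ endp 0 π ∈ E ∧ IsDn u h' γ ∧
              (∃ y, y ∈ sitesL (-endp 0 π) π ∧ y ∈ sitesL x γ) ∧
              (∀ y, y ∈ sitesL (-endp 0 π) π → y ∈ sitesL x γ → lev u y + s ≤ -(δ : ℤ))
            then aw ν π * aw ν γ else 0)
        = ∑' π : List (Step d), ∑' x, ∑' γ : List (Step d),
          μ x * (if IsUp u h π ∧ endp 0 π ∈ E ∧ IsDn u h' γ ∧
              (∃ y, y ∈ sitesL (-endp 0 π) π ∧ y ∈ sitesL x γ) ∧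
              (∀ y, y ∈ sitesL (-endp 0 π) π → y ∈ sitesL x γ → lev u y + s ≤ -(δ : ℤ))
            then aw ν π * aw ν γ else 0) := by
          rw [← ENNReal.tsum_comm]
          refine tsum_congr fun x => ?_
          rw [← ENNReal.tsum_mul_left]
          refine tsum_congr fun π => ?_
          rw [← ENNReal.tsum_mul_left]
      _ ≤ ∑' π : List (Step d), ∑' x, ∑' γ : List (Step d),
          (if ((x + endp 0 π) ∈ XS ∧ π ∈ XX ∧ endp 0 π ∈ E) ∧ γ ∈ YY ∧
            Hit Dp (x + endp 0 π) 0 π γ then
            μ (x + endp 0 π - endp 0 π) * (Win546.aw ν π * Win546.aw ν γ) else 0) := by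
          refine ENNReal.tsum_le_tsum fun π => ENNReal.tsum_le_tsum fun x =>
            ENNReal.tsum_le_tsum fun γ => ?_
          by_cases hμ0 : μ x = 0
          · rw [hμ0, zero_mul]; exact zero_le
          split_ifs with h1 h2
          · rw [add_sub_cancel_right]; exact le_rfl
          · exfalso
            apply h2
            obtain ⟨a1, a2, a3, ⟨y, a4, a5⟩, a6⟩ := h1
            have hx := hsupp x hμ0
            have he := a1.2
            refine ⟨⟨?_, a1, a2⟩, a3, ?_⟩
            · show lev u (x + endp 0 π) = (h : ℤ) - δ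
              rw [lev_add, hx, he]; ring
            · -- first hit
              have b1 : ∀ z, z ∈ sitesL 0 π ↔ z - endp 0 π ∈ sitesL (-endp 0 π) π := by
                intro z
                have := sites_tr (-endp 0 π) (endp 0 π) z π
                rwa [neg_add_cancel] at this
              have b2 : ∀ z, z ∈ sitesL (x + endp 0 π) γ ↔ z - endp 0 π ∈ sitesL x γ :=
                fun z => sites_tr x (endp 0 π) z γ
              have c1 : y + endp 0 π ∈ sitesL 0 π := by rw [b1, add_sub_cancel_right]; exact a4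
              have c2 : y + endp 0 π ∈ sitesL (x + endp 0 π) γ := by
                rw [b2, add_sub_cancel_right]; exact a5
              obtain ⟨p, r, d1, d2, d3⟩ := (mem_sitesL γ (x + endp 0 π) (y + endp 0 π)).1 c2
              obtain ⟨q, r', e1, e2⟩ := exists_Mn
                (fun p => endp (x + endp 0 π) p ∈ sitesL 0 π) p
                (by show endp (x + endp 0 π) p ∈ sitesL 0 π; rw [d3]; exact c1)
              have hrr : r' ++ r ≠ [] := by simp [d2]
              refine ⟨q, r' ++ r, by rw [d1, e1, List.append_assoc], hrr, e2, ?_⟩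
              have f1 : endp (x + endp 0 π) q ∈ sitesL 0 π := e2.1
              have f2 : endp (x + endp 0 π) q ∈ sitesL (x + endp 0 π) γ := by
                rw [d1, e1, List.append_assoc]; exact mem_end hrr
              have f3 := a6 _ ((b1 _).1 f1) ((b2 _).1 f2)
              show lev u (endp (x + endp 0 π) q) + s ≤ (h : ℤ) - δ
              rw [sub_eq_add_neg, lev_add, lev_neg, he] at f3
              linarith
          · rw [mul_zero]; exact zero_le
          · rw [mul_zero]
      _ = ∑' π : List (Step d), ∑' x, ∑' γ : List (Step d),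
          (if (x ∈ XS ∧ π ∈ XX ∧ endp 0 π ∈ E) ∧ γ ∈ YY ∧ Hit Dp x 0 π γ then
            μ (x - endp 0 π) * (Win546.aw ν π * Win546.aw ν γ) else 0) := by
          refine tsum_congr fun π => ?_
          exact (Equiv.addRight (endp 0 π)).tsum_eq fun x => ∑' γ : List (Step d),
            (if (x ∈ XS ∧ π ∈ XX ∧ endp 0 π ∈ E) ∧ γ ∈ YY ∧ Hit Dp x 0 π γ then
            μ (x - endp 0 π) * (Win546.aw ν π * Win546.aw ν γ) else 0)
      _ = _ := by
          rw [ENNReal.tsum_comm]
          refine tsum_congr fun x => tsum_congr fun π => tsum_congr fun γ => ?_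
          congr
  · -- hDX
    intro p r hpr
    refine ⟨fun z hz => (hpr.1 z ?_).2, ?_⟩
    · rw [sitesL_app]; exact List.mem_append.mpr (Or.inr hz)
    · rw [← endp_append]; exact hpr.2
  · -- hTT
    intro x hx p r hr hpr hdp t ht
    have hx' : lev u x = (h : ℤ) - δ := hx
    have ex : ∀ l : List (Step d), endp x l = endp 0 l + x := by
      intro l
      have := endp_tr 0 x l
      rwa [zero_add] at this
    have hdp' : lev u (endp x p) + s ≤ (h : ℤ) - δ := hdp
    have g1 : lev u (endp 0 p) + s ≤ 0 := by
      rw [ex, lev_add, hx'] at hdp'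
      linarith
    have g2 : ∀ z ∈ sitesL 0 p, lev u z ≤ 0 := fun z hz => (hpr.1 z (by
      rw [sitesL_app]; exact List.mem_append.mpr (Or.inl hz))).2
    refine ⟨?_, ?_, p, t, rfl, ?_, ?_⟩
    · intro z hz
      rw [sitesL_app] at hz
      rw [lev_opp']
      rcases List.mem_append.mp hz with hz | hz
      · have := g2 z hz
        omega
      · have h3 : z + x ∈ sitesL (endp x p) t := by
          rw [ex, sites_tr, add_sub_cancel_right]; exact hz
        have h4 := ht.1 _ h3
        rw [lev_add, hx'] at h4
        omega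
    · have h5 := ht.2
      rw [ex, endp_tr, lev_add, hx'] at h5
      rw [endp_append, lev_opp']
      omega
    · intro z hz
      rw [lev_opp']
      have := g2 z hz
      omega
    · rw [lev_opp']
      omega

end Crest.Agent.R154.HP150
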