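import Crest.Agent.R154.WinE_546
import Crest.Agent.R154.Us_109
import Crest.Agent.R154.WLit_763
import Crest.Agent.R154.NBTop_28

/-! Row 154, ROAD 801 (helper28): 763's literal `WL763.H2P` (X local) from 546's `win2` and 109's
`us_zero`. -/

set_option autoImplicit false

namespace Crest.Agent.R154.H2P28

open MeasureTheory ProbabilityTheory Crest.ProbabilityR.RandomEnvironment Crest.Agent.R154
open Crest.Agent.R154.Flux132 (lev opp lev_add lev_neg lev_zero)
open Crest.Agent.R154.Flux566 (lw endp sitesL measurable_lw endp_append endp_eq_add)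
open Crest.Agent.R154.NB28
open scoped ENNReal

variable {d : ℕ}

lemma prefix_of_pf {W : Set (List (Step d))}
    (h : ∀ l ∈ W, ∀ l' ∈ W, l <+: l' → l = l') : Win546.PF W := by
  intro l hl r hr
  have := h l hl (l ++ r) hr (List.prefix_append l r)
  exact List.self_eq_append_right.1 this

lemma sub_sites {x z : Site d} {l : List (Step d)} (y : Site d) :
    y ∈ sitesL (x + z) l ↔ y - z ∈ sitesL x l := by
  have := mem_sitesL_add l x z (y - z)
  rwa [sub_add_cancel] at this

/-- turned words -/
def TT (u : Step d) (s δ : ℕ) : Set (List (Step d)) :=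
  {t | (∃ p r, t = p ++ r ∧ (∀ y ∈ sitesL 0 p, lev u y ≤ 0) ∧ lev u (endp 0 p) ≤ -(s : ℤ)) ∧
    (∀ y ∈ sitesL 0 t, lev u y < δ) ∧ lev u (endp 0 t) = δ}

lemma pf_TT (u : Step d) (s δ : ℕ) : Us109.PF (TT (d := d) u s δ) := by
  intro l hl l' hl' hp
  exact prefix_eq 0 (fun y => lev u y = δ) (fun y hy he => by
    have := hl'.2.1 y hy; omega) hl.2.2 hp

lemma TT_ret (u : Step d) (s δ : ℕ) : TT (d := d) u s δ ⊆ Us109.RetW (opp u) 0 s := by
  rintro t ⟨⟨p, r, rfl, h1, h2⟩, -, h3⟩
  refine ⟨⟨p, r, rfl, fun y hy => ?_, ?_⟩, ?_⟩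
  · rw [WM286.lev_opp]; have := h1 y hy; omega
  · rw [WM286.lev_opp]; omega
  · rw [WM286.lev_opp, h3]; omega

open Classical in
theorem h2p (ν : Measure (Row d)) [IsProbabilityMeasure ν]
    (hν : ∀ᵐ p ∂ν, ∀ e : Step d, 0 < p.1 e) (u : Step d)
    (hB : annealed (iidEnvironmentLaw ν) 0 (escapeEvent (-B2d.dirVec u)) ≠ 0) :
    WL763.H2P ν u := by
  have hB' : annealed (iidEnvironmentLaw ν) 0 (escapeEvent (B2d.dirVec (opp u))) ≠ 0 := by
    rw [WM286.dirVec_opp]; exact hB
  refine ⟨1, ENNReal.one_ne_top, fun r0 η hη => ?_⟩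
  obtain ⟨s0, hs0⟩ := Us109.us_zero ν hν (opp u) hB' 0 η hη
  refine ⟨s0, fun s hs h h' δ E μ M lam hδ _ _ _ hμ hM hMt hμl hl0 hlt => ?_⟩
  have hus := hs0 s hs (TT u s δ) (pf_TT u s δ) (TT_ret u s δ)
  set XX : Set (List (Step d)) := {π | IsUp u h π} with hXX
  set YY : Set (List (Step d)) := {γ | IsDn u h' γ} with hYY
  set XS : Set (Site d) := {x | lev u x = (h : ℤ) - δ} with hXS
  set Dp : Set (Site d) := {z | lev u z ≤ (h : ℤ) - δ - s} with hDp
  set DX : Site d → Set (List (Step d)) := fun v =>
    {r | (∀ y ∈ sitesL v r, lev u y < h) ∧ lev u (endp v r) = h} with hDX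
  have w2 := Win546.win2 ν (XX := XX) (YY := YY)
    (prefix_of_pf fun l hl l' hl' hp => isUp_prefix hl hl' hp)
    (prefix_of_pf fun l hl l' hl' hp => isDn_prefix hl hl' hp) E Dp DX
    (fun p r hpr => by
      refine ⟨fun y hy => ?_, ?_⟩
      · refine (hpr.1 y ?_).2
        rw [sitesL_append, List.mem_append]
        exact Or.inr hy
      · have := hpr.2
        rwa [endp_append] at this) XS (TT u s δ)
    (fun x hx p r hr hpr hd q hq => by
      have hx' : lev u x = (h : ℤ) - δ := hx
      have hd' : lev u (endp x p) ≤ (h : ℤ) - δ - s := hd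
      have he : lev u (endp x p) = lev u x + lev u (endp 0 p) := by
        rw [endp_eq_add p x, lev_add]
      refine ⟨⟨p, q, rfl, fun y hy => ?_, by omega⟩, fun y hy => ?_, ?_⟩
      · refine (hpr.1 y ?_).2
        rw [sitesL_append, List.mem_append]
        exact Or.inl hy
      · rw [sitesL_append, List.mem_append] at hy
        rcases hy with hy | hy
        · have := (hpr.1 y (by rw [sitesL_append, List.mem_append]; exact Or.inl hy)).2
          omega
        · have h1 : y + x ∈ sitesL (endp x p) q := by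
            rw [show endp x p = endp 0 p + x by rw [endp_eq_add p x, add_comm]]
            exact (mem_sitesL_add q (endp 0 p) x y).2 hy
          have h2 := hq.1 _ h1
          rw [lev_add] at h2
          omega
      · have h1 := hq.2
        rw [show endp x p = endp 0 p + x by rw [endp_eq_add p x, add_comm],
          endp_eq_add q, lev_add, lev_add] at h1
        rw [endp_append, endp_eq_add q, lev_add]
        omega) μ M hM hμ hl0 hlt
  refine le_trans ?_ (w2.trans ?_)
  · -- conversion of the sums
    calc ∑' x, μ x * ∑' π : List (Step d), ∑' γ : List (Step d),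
          (if IsUp u h π ∧ endp 0 π ∈ E ∧ IsDn u h' γ ∧
            (∃ y, y ∈ sitesL (-endp 0 π) π ∧ y ∈ sitesL x γ) ∧
            (∀ y, y ∈ sitesL (-endp 0 π) π → y ∈ sitesL x γ → lev u y + s ≤ -(δ : ℤ))
          then aw ν π * aw ν γ else 0)
        = ∑' π : List (Step d), ∑' x, ∑' γ : List (Step d), μ x *
          (if IsUp u h π ∧ endp 0 π ∈ E ∧ IsDn u h' γ ∧
            (∃ y, y ∈ sitesL (-endp 0 π) π ∧ y ∈ sitesL x γ) ∧
            (∀ y, y ∈ sitesL (-endp 0 π) π → y ∈ sitesL x γ → lev u y + s ≤ -(δ : ℤ))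
          then aw ν π * aw ν γ else 0) := by
          rw [ENNReal.tsum_comm]
          refine tsum_congr fun x => ?_
          rw [← ENNReal.tsum_mul_left]
          refine tsum_congr fun π => ?_
          rw [← ENNReal.tsum_mul_left]
      _ = ∑' π : List (Step d), ∑' x, ∑' γ : List (Step d), μ (x - endp 0 π) *
          (if IsUp u h π ∧ endp 0 π ∈ E ∧ IsDn u h' γ ∧
            (∃ y, y ∈ sitesL (-endp 0 π) π ∧ y ∈ sitesL (x - endp 0 π) γ) ∧
            (∀ y, y ∈ sitesL (-endp 0 π) π → y ∈ sitesL (x - endp 0 π) γ →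
              lev u y + s ≤ -(δ : ℤ))
          then aw ν π * aw ν γ else 0) := by
          refine tsum_congr fun π => ?_
          exact ((Equiv.subRight (endp 0 π)).tsum_eq (fun x => ∑' γ : List (Step d), μ x *
          (if IsUp u h π ∧ endp 0 π ∈ E ∧ IsDn u h' γ ∧
            (∃ y, y ∈ sitesL (-endp 0 π) π ∧ y ∈ sitesL x γ) ∧
            (∀ y, y ∈ sitesL (-endp 0 π) π → y ∈ sitesL x γ → lev u y + s ≤ -(δ : ℤ))
          then aw ν π * aw ν γ else 0))).symm
      _ = ∑' x, ∑' π : List (Step d), ∑' γ : List (Step d), μ (x - endp 0 π) *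
          (if IsUp u h π ∧ endp 0 π ∈ E ∧ IsDn u h' γ ∧
            (∃ y, y ∈ sitesL (-endp 0 π) π ∧ y ∈ sitesL (x - endp 0 π) γ) ∧
            (∀ y, y ∈ sitesL (-endp 0 π) π → y ∈ sitesL (x - endp 0 π) γ →
              lev u y + s ≤ -(δ : ℤ))
          then aw ν π * aw ν γ else 0) := ENNReal.tsum_comm
      _ ≤ _ := by
          refine ENNReal.tsum_le_tsum fun x => ENNReal.tsum_le_tsum fun π =>
            ENNReal.tsum_le_tsum fun γ => ?_
          by_cases hμ0 : μ (x - endp 0 π) = 0
          · rw [hμ0, zero_mul]; exact zero_le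
          by_cases hc : IsUp u h π ∧ endp 0 π ∈ E ∧ IsDn u h' γ ∧
            (∃ y, y ∈ sitesL (-endp 0 π) π ∧ y ∈ sitesL (x - endp 0 π) γ) ∧
            (∀ y, y ∈ sitesL (-endp 0 π) π → y ∈ sitesL (x - endp 0 π) γ →
              lev u y + s ≤ -(δ : ℤ))
          · rw [if_pos hc]
            obtain ⟨h1, h2, h3, ⟨y0, hy0, hy0'⟩, h5⟩ := hc
            have hx : x ∈ XS := by
              have := hμl _ hμ0
              rw [sub_eq_add_neg, lev_add, lev_neg, h1.2] at this
              change lev u x = (h : ℤ) - δ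
              omega
            have hX : ∀ y, y ∈ sitesL 0 π → y - endp 0 π ∈ sitesL (-endp 0 π) π := by
              intro y hy
              rw [mem_sitesL_iff, sub_neg_eq_add, sub_add_cancel]; exact hy
            have hY : ∀ y, y ∈ sitesL x γ ↔ y - endp 0 π ∈ sitesL (x - endp 0 π) γ := by
              intro y
              rw [← sub_sites, sub_add_cancel]
            have hhit : Win546.Hit Dp x 0 π γ := by
              have hz : y0 + endp 0 π ∈ sitesL x γ := by
                rw [hY, add_sub_cancel_right]; exact hy0'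
              have hz' : y0 + endp 0 π ∈ sitesL 0 π := by
                rw [mem_sitesL_iff, sub_neg_eq_add] at hy0; exact hy0
              obtain ⟨p0, hp0, hne, he0⟩ := mem_pref.1 hz
              obtain ⟨p, r, h6, h7⟩ := Win546.exists_Mn
                (fun p : List (Step d) => endp x p ∈ sitesL 0 π) p0 (by rw [he0]; exact hz')
              obtain ⟨t, ht⟩ := hp0
              have htn : t ≠ [] := by
                rintro rfl
                exact hne (by rw [← ht, List.append_nil])
              refine ⟨p, r ++ t, by rw [← ht, h6, List.append_assoc], by simp [htn], h7, ?_⟩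
              have h8 : endp x p ∈ sitesL x γ := by
                refine mem_pref.2 ⟨p, ⟨r ++ t, by rw [← ht, h6, List.append_assoc]⟩, ?_, rfl⟩
                intro h9
                have := congrArg List.length h9
                rw [← ht, h6] at this
                simp only [List.length_append] at this
                have h10 : 0 < t.length := List.length_pos_iff.2 htn
                omega
              have h11 := h5 _ (hX _ h7.1) ((hY _).1 h8)
              rw [sub_eq_add_neg, lev_add, lev_neg, h1.2] at h11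
              change lev u (endp x p) ≤ (h : ℤ) - δ - s
              omega
            rw [if_pos ⟨⟨hx, h1, h2⟩, h3, hhit⟩]
            exact le_rfl
          · rw [if_neg hc, mul_zero]; exact zero_le
  · rw [one_mul]
    refine le_trans ?_ le_self_add
    refine add_le_add le_rfl ?_
    calc M * (lam⁻¹ * (E.card * ∑' t, (if t ∈ TT u s δ then Win546.aw ν t else 0)))
        ≤ M * (lam⁻¹ * (E.card * η)) := by gcongr; exact hus
      _ = M * E.card * η / lam := by rw [div_eq_mul_inv]; ring

end Crest.Agent.R154.H2P28
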