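import Crest.Agent.R154.H2w_386
import Crest.Agent.R154.UsW_778
import Crest.Agent.R154.WLit_763

/-! Row 154, KAPPA' (801): `WL763.H2P` (X local) from `H2w386.core` (helper386). -/

set_option autoImplicit false

namespace Crest.Agent.R154.H2P386

open MeasureTheory ProbabilityTheory Crest.ProbabilityR.RandomEnvironment Crest.Agent.R154
open Crest.Agent.R154.Flux132 (lev opp)
open Crest.Agent.R154.Flux566 (lw endp sitesL)
open Crest.Agent.R154.NB28 (IsUp IsDn aw)
open Crest.Agent.R154.H2w386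
open scoped ENNReal

variable {d : ℕ}

open Classical in
theorem UU_le_us (ν : Measure (Row d)) [IsProbabilityMeasure ν] (u : Step d) (K : ℤ) (hK : 0 ≤ K)
    (s : ℕ) : UU ν u K (-(s : ℤ)) ≤ Us778.us ν u s := by
  have h := Us778.dip_words (iidEnvironmentLaw ν) u s (TT u K (-(s : ℤ)))
    (fun l hl l' hl' hp => pf_TT u K _ l hl l' hl' hp)
    (fun l hl => ⟨hl.1.1, hK.trans hl.1.2⟩)
  unfold UU Us778.us
  exact h.trans le_self_add

open Classical in
/-- (2) with `X` hung at `0`, `Y` from `x` of level `-δ`. -/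
theorem h2G (ν : Measure (Row d)) [IsProbabilityMeasure ν] (u : Step d) (h h' δ s : ℕ)
    (E : Finset (Site d)) (μ : Site d → ℝ≥0∞) (M lam : ℝ≥0∞) (h1 : ∑' x, μ x ≤ 1)
    (h2 : ∀ x, μ x ≤ M) (h3 : ∀ x, μ x ≠ 0 → lev u x = -(δ : ℤ)) (hl : lam ≠ 0)
    (hl' : lam ≠ ⊤) :
    ∑' x, μ x * ∑' π : List (Step d), ∑' γ : List (Step d),
        (if IsUp u h π ∧ endp 0 π ∈ E ∧ IsDn u h' γ ∧
            (∃ y, y ∈ sitesL (-endp 0 π) π ∧ y ∈ sitesL x γ) ∧
            (∀ y, y ∈ sitesL (-endp 0 π) π → y ∈ sitesL x γ → lev u y + s ≤ -(δ : ℤ))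
          then aw ν π * aw ν γ else 0)
      ≤ lam + M * E.card * Us778.us ν u s / lam + Us778.us ν u s := by
  set m : Site d → ℝ≥0∞ := fun t => μ (-t) with hm
  have hcore := core ν u h h' (δ : ℤ) (-(s : ℤ)) E m M lam (fun x => h2 _) hl hl'
  set F : Site d → List (Step d) → List (Step d) → ℝ≥0∞ := fun y π ρ =>
    (if lev u (y + endp 0 π) = (δ : ℤ) ∧ IsUp u h π ∧ endp 0 π ∈ E ∧ IsDn u h' ρ ∧
        (∀ z, z ∈ sitesL y π → z ∈ sitesL 0 ρ → lev u z ≤ -(s : ℤ)) ∧
        (∃ z, z ∈ sitesL y π ∧ z ∈ sitesL 0 ρ)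
      then m (y + endp 0 π) * (aw ν π * aw ν ρ) else 0) with hF
  have hterm : ∀ x π γ, μ x * (if IsUp u h π ∧ endp 0 π ∈ E ∧ IsDn u h' γ ∧
            (∃ y, y ∈ sitesL (-endp 0 π) π ∧ y ∈ sitesL x γ) ∧
            (∀ y, y ∈ sitesL (-endp 0 π) π → y ∈ sitesL x γ → lev u y + s ≤ -(δ : ℤ))
          then aw ν π * aw ν γ else 0) ≤ F (-endp 0 π - x) π γ := by
    intro x π γ
    by_cases hc : IsUp u h π ∧ endp 0 π ∈ E ∧ IsDn u h' γ ∧
            (∃ y, y ∈ sitesL (-endp 0 π) π ∧ y ∈ sitesL x γ) ∧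
            (∀ y, y ∈ sitesL (-endp 0 π) π → y ∈ sitesL x γ → lev u y + s ≤ -(δ : ℤ))
    · by_cases hx : μ x = 0
      · rw [hx, zero_mul]; exact zero_le
      · have hlx := h3 x hx
        obtain ⟨c1, c2, c3, ⟨y0, c4, c4'⟩, c5⟩ := id hc
        have e1 : -endp 0 π - x + endp 0 π = -x := by abel
        have e2 : lev u (-x) = (δ : ℤ) := by
          have h0 : lev u (x + -x) = 0 := by
            rw [add_neg_cancel]; unfold lev; split_ifs <;> simp
          rw [H2w386.lev_add, hlx] at h0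
          omega
        have e3 : sitesL (-endp 0 π) π = (sitesL (-endp 0 π - x) π).map (· + x) := by
          rw [← sitesL_add, sub_add_cancel]
        have e4 : sitesL x γ = (sitesL 0 γ).map (· + x) := by
          rw [← sitesL_add, zero_add]
        have hmem : ∀ (l : List (Site d)) (z : Site d), z ∈ l → z + x ∈ l.map (· + x) :=
          fun l z hz => List.mem_map.2 ⟨z, hz, rfl⟩
        have hmem' : ∀ (l : List (Site d)) (z : Site d), z ∈ l.map (· + x) → z - x ∈ l := by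
          intro l z hz
          obtain ⟨z', hz', rfl⟩ := List.mem_map.1 hz
          simpa using hz'
        rw [if_pos hc, hF]
        simp only
        rw [if_pos, e1, hm]
        · simp
        · refine ⟨by rw [e1, e2], c1, c2, c3, ?_, ?_⟩
          · intro z hz hz'
            have h5 := c5 (z + x) (by rw [e3]; exact hmem _ _ hz) (by rw [e4]; exact hmem _ _ hz')
            rw [H2w386.lev_add, hlx] at h5
            omega
          · exact ⟨y0 - x, hmem' _ _ (by rw [← e3]; exact c4), hmem' _ _ (by rw [← e4]; exact c4')⟩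
    · rw [if_neg hc, mul_zero]; exact zero_le
  have hU : UU ν u (δ : ℤ) (-(s : ℤ)) ≤ Us778.us ν u s :=
    UU_le_us ν u δ (by positivity) s
  have hms : ∑' x, m x ≤ 1 := by
    have h6 := (Equiv.neg (Site d)).tsum_eq μ
    simp only [Equiv.neg_apply] at h6
    rw [hm]
    simp only
    rw [h6]; exact h1
  calc _ = ∑' x, ∑' π, ∑' γ, μ x * (if IsUp u h π ∧ endp 0 π ∈ E ∧ IsDn u h' γ ∧
            (∃ y, y ∈ sitesL (-endp 0 π) π ∧ y ∈ sitesL x γ) ∧
            (∀ y, y ∈ sitesL (-endp 0 π) π → y ∈ sitesL x γ → lev u y + s ≤ -(δ : ℤ))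
          then aw ν π * aw ν γ else 0) := by
        simp_rw [← ENNReal.tsum_mul_left]
    _ ≤ ∑' x, ∑' π, ∑' γ, F (-endp 0 π - x) π γ :=
        ENNReal.tsum_le_tsum fun x => ENNReal.tsum_le_tsum fun π => ENNReal.tsum_le_tsum fun γ =>
          hterm x π γ
    _ = ∑' π, ∑' x, ∑' γ, F (-endp 0 π - x) π γ := ENNReal.tsum_comm
    _ = ∑' π, ∑' y, ∑' γ, F y π γ := by
        refine tsum_congr fun π => ?_
        exact (Equiv.subLeft (-endp 0 π)).tsum_eq (fun y => ∑' γ, F y π γ)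
    _ = ∑' y, ∑' π, ∑' γ, F y π γ := ENNReal.tsum_comm
    _ ≤ (lam + UU ν u δ (-(s : ℤ))) * (∑' x, m x) + M * E.card * UU ν u δ (-(s : ℤ)) / lam := hcore
    _ ≤ (lam + Us778.us ν u s) * 1 + M * E.card * Us778.us ν u s / lam := by gcongr
    _ = _ := by ring

/-- **H2P** -/
theorem h2P (ν : Measure (Row d)) [IsProbabilityMeasure ν]
    (hν : ∀ᵐ p ∂ν, ∀ e : Step d, 0 < p.1 e) (u : Step d)
    (hA : annealedProb (iidEnvironmentLaw ν) 0 (escapeEvent (Flux566.dir u)) ≠ 0) :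
    WL763.H2P ν u := by
  refine ⟨1, ENNReal.one_ne_top, fun r0 η hη => ?_⟩
  obtain ⟨s0, hs0⟩ := Us778.us_eventually ν hν u hA η hη
  refine ⟨s0, fun s hs h h' δ E μ M lam _ _ _ _ h1 h2 _ h3 hl hl' => ?_⟩
  refine (h2G ν u h h' δ s E μ M lam h1 h2 h3 hl hl').trans ?_
  rw [one_mul]
  have := hs0 s hs
  gcongr

end Crest.Agent.R154.H2P386
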