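import Crest.Agent.R154.KWBind_419

/-! Row 154 (S0219, ROAD 801), helper419: the binder, part 2: window lemmas in words -> window lemmas
on block lists; list form of KAPPA' -> 28's `KappaW`. -/

set_option autoImplicit false

namespace Crest.Agent.R154.KWB419

open MeasureTheory ProbabilityTheory Crest.ProbabilityR.RandomEnvironment Crest.Agent.R154
open Crest.Agent.R154.Flux132 (lev opp)
open Crest.Agent.R154.Flux566 (lw endp sitesL endp_append endp_eq_add)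
open Crest.Agent.R154.NB28
open Crest.Agent.R154.B5A (LW HT)
open scoped ENNReal

variable {d : ℕ}

lemma isUp_append {u : Step d} {m n : ℕ} {l l' : List (Step d)} (h : IsUp u m l)
    (h' : IsUp u n l') : IsUp u (m + n) (l ++ l') := by
  refine ⟨fun y hy => ?_, ?_⟩
  · rw [sitesA, List.mem_append] at hy
    rcases hy with hy | hy
    · obtain ⟨h1, h2⟩ := h.1 y hy
      exact ⟨h1, by push_cast; omega⟩
    · have h0 : y - endp 0 l ∈ sitesL 0 l' := (mem_sitesT l' 0 (endp 0 l) y).1 (by simpa using hy)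
      obtain ⟨h1, h2⟩ := h'.1 _ h0
      rw [levS, h.2] at h1 h2
      exact ⟨by omega, by push_cast; omega⟩
  · rw [endp_append, endp_eq_add, levA, h.2, h'.2]; push_cast; ring

lemma isDn_append {u : Step d} {m n : ℕ} {l l' : List (Step d)} (h : IsDn u m l)
    (h' : IsDn u n l') : IsDn u (m + n) (l ++ l') := by
  refine ⟨fun y hy => ?_, ?_⟩
  · rw [sitesA, List.mem_append] at hy
    rcases hy with hy | hy
    · obtain ⟨h1, h2⟩ := h.1 y hy
      exact ⟨by push_cast; omega, h2⟩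
    · have h0 : y - endp 0 l ∈ sitesL 0 l' := (mem_sitesT l' 0 (endp 0 l) y).1 (by simpa using hy)
      obtain ⟨h1, h2⟩ := h'.1 _ h0
      rw [levS, h.2] at h1 h2
      exact ⟨by push_cast; omega, by omega⟩
  · rw [endp_append, endp_eq_add, levA, h.2, h'.2]; push_cast; ring

lemma isUp_nil (u : Step d) : IsUp u 0 [] := ⟨by simp [sitesL], by simp [endp, levZ]⟩

lemma isDn_nil (u : Step d) : IsDn u 0 [] := ⟨by simp [sitesL], by simp [endp, levZ]⟩

section

variable {BX : Type*} (vX : BX → List (Step d)) (hX : BX → ℕ) (u : Step d)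

lemma isUp_cat (hUp : ∀ b, IsUp u (hX b) (vX b)) (L : List BX) :
    IsUp u (HT hX L) (catU vX L) := by
  induction L with
  | nil => exact isUp_nil u
  | cons b L ih => rw [B5A.HT_cons, add_comm]; exact isUp_append ih (hUp b)

lemma isDn_cat (hDn : ∀ b, IsDn u (hX b) (vX b)) (L : List BX) :
    IsDn u (HT hX L) (catD vX L) := by
  induction L with
  | nil => exact isDn_nil u
  | cons b L ih => rw [B5A.HT_cons]; exact isDn_append (hDn b) ih

lemma Dp_U (L : List BX) : (L.map (zU vX hX u)).sum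
    = HT hX L • stepVec u - endp 0 (catU vX L) := by
  induction L with
  | nil => simp [catU, endp, B5A.HT_nil]
  | cons b L ih =>
    rw [List.map_cons, List.sum_cons, ih, B5A.HT_cons, catU, endp_append,
      endp_eq_add (vX b) (endp 0 (catU vX L)), add_smul]
    unfold zU
    abel

lemma Dp_D (L : List BX) : (L.map (zD vX hX u)).sum
    = endp 0 (catD vX L) + HT hX L • stepVec u := by
  induction L with
  | nil => simp [catD, endp, B5A.HT_nil]
  | cons b L ih =>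
    rw [List.map_cons, List.sum_cons, ih, B5A.HT_cons, catD, endp_append,
      endp_eq_add (catD vX L) (endp 0 (vX b)), add_smul]
    unfold zD
    abel

end

section Pair

variable {BX BY : Type*} (vX : BX → List (Step d)) (hX : BX → ℕ) (vY : BY → List (Step d))
  (hY : BY → ℕ) (u : Step d)
variable (hUp : ∀ b, IsUp u (hX b) (vX b)) (hDn : ∀ b, IsDn u (hY b) (vY b))

/-- common site of the word `π` hung at depth `a` and the word `γ` from `x - (a'+1) u` -/
def Ct (u : Step d) (π γ : List (Step d)) (x : Site d) (a a' : ℕ) (y : Site d) : Prop :=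
  y ∈ sitesL (-endp 0 π - a • stepVec u) π ∧ y ∈ sitesL (x - (a' + 1) • stepVec u) γ

include hUp hDn in
lemma ex_iff (L : List BX) (L' : List BY) (x : Site d) (a a' : ℕ) (R : ℕ → Prop) :
    (∃ z k, (z, k) ∈ TT (sU vX u) hX (zU vX hX u) L 0 a ∧
      (z, k) ∈ TT (sD vY u) hY (zD vY hY u) L' x a' ∧ R k) ↔
    lev u x = 0 ∧ ∃ y, Ct u (catU vX L) (catD vY L') x a a' y ∧ R (-lev u y).toNat := by
  have e0 : (0 : Site d) - a • stepVec u - endp 0 (catU vX L)
      = -endp 0 (catU vX L) - a • stepVec u := by abel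
  constructor
  · rintro ⟨z, k, h1, h2, hR⟩
    rw [mem_TU vX hX u hUp, levZ, e0] at h1
    rw [mem_TD vY hY u hDn] at h2
    refine ⟨h2.2.symm.trans h1.2, _, ⟨h1.1, h2.1⟩, ?_⟩
    have : (-lev u (z - k • stepVec u)).toNat = k := by
      rw [levS, levM, levU, h1.2]; simp
    rw [this]; exact hR
  · rintro ⟨hx, y, ⟨h1, h2⟩, hR⟩
    have hy : 1 ≤ - lev u y := by
      have hI := isUp_cat vX hX u hUp L
      have h3 : y + a • stepVec u ∈ sitesL (-endp 0 (catU vX L)) (catU vX L) := by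
        have := (mem_sitesT (catU vX L) (-endp 0 (catU vX L)) (-(a • stepVec u)) y).1
          (by rw [← sub_eq_add_neg]; exact h1)
        simpa using this
      have h4 := IsUp_start_sites u hI h3
      rw [levA, levM, levU] at h4
      omega
    have hk : ((-lev u y).toNat : ℤ) = - lev u y := Int.toNat_of_nonneg (by omega)
    have hz : lev u (y + (-lev u y).toNat • stepVec u) = 0 := by
      rw [levA, levM, levU, hk]; ring
    refine ⟨y + (-lev u y).toNat • stepVec u, (-lev u y).toNat, ?_, ?_, hR⟩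
    · rw [mem_TU vX hX u hUp, levZ, e0]
      refine ⟨?_, hz⟩
      rw [add_sub_cancel_right]; exact h1
    · rw [mem_TD vY hY u hDn]
      refine ⟨?_, hz.trans hx.symm⟩
      rw [add_sub_cancel_right]; exact h2

include hUp hDn in
lemma all_iff (L : List BX) (L' : List BY) (x : Site d) (a a' : ℕ) (R : ℕ → Prop) :
    (∀ z k, (z, k) ∈ TT (sU vX u) hX (zU vX hX u) L 0 a →
      (z, k) ∈ TT (sD vY u) hY (zD vY hY u) L' x a' → R k) ↔
    (lev u x = 0 → ∀ y, Ct u (catU vX L) (catD vY L') x a a' y → R (-lev u y).toNat) := by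
  have h := ex_iff vX hX vY hY u hUp hDn L L' x a a' (fun k => ¬ R k)
  constructor
  · intro H hx y hy
    by_contra hR
    obtain ⟨z, k, h1, h2, h3⟩ := h.2 ⟨hx, y, hy, hR⟩
    exact h3 (H z k h1 h2)
  · intro H z k h1 h2
    by_contra hR
    obtain ⟨hx, y, hy, h3⟩ := h.1 ⟨z, k, h1, h2, hR⟩
    exact h3 (H hx y hy)

variable (tU : ∀ (n : ℕ) (F : List (Step d) → ℝ≥0∞), (∑' l, open Classical in if IsUp u n l then F l else 0)
    = ∑' L : List BX, if HT hX L = n then F (catU vX L) else 0)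
  (tD : ∀ (n : ℕ) (F : List (Step d) → ℝ≥0∞), (∑' l, open Classical in if IsDn u n l then F l else 0)
    = ∑' L : List BY, if HT hY L = n then F (catD vY L) else 0)

open Classical in
include tU tD in
lemma conv2 (h h' : ℕ) (f : List (Step d) → List (Step d) → ℝ≥0∞) :
    (∑' π, ∑' γ, if IsUp u h π ∧ IsDn u h' γ then f π γ else 0)
      = ∑' L : List BX, ∑' L' : List BY,
        if HT hX L = h ∧ HT hY L' = h' then f (catU vX L) (catD vY L') else 0 := by
  have h1 : ∀ π, (∑' γ, if IsUp u h π ∧ IsDn u h' γ then f π γ else 0)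
      = if IsUp u h π then (∑' L' : List BY, if HT hY L' = h' then f π (catD vY L') else 0)
        else 0 := by
    intro π
    split_ifs with hπ
    · rw [← tD h' (f π)]
      refine tsum_congr fun γ => ?_
      simp [hπ]
    · simp [hπ]
  rw [tsum_congr h1, tU h (fun π => ∑' L' : List BY, if HT hY L' = h' then f π (catD vY L') else 0)]
  refine tsum_congr fun L => ?_
  split_ifs with hL
  · refine tsum_congr fun L' => ?_
    simp [hL]
  · simp [hL]

variable (ν : Measure (Row d)) [IsProbabilityMeasure ν] (ΛX : BX → ℝ≥0∞) (ΛY : BY → ℝ≥0∞)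
variable (wU : ∀ L, aw ν (catU vX L) = LW ΛX L) (wD : ∀ L, aw ν (catD vY L) = LW ΛY L)

open Classical in
/-- window lemma (2) in words: the up walker is local -/
def H2W (ν : Measure (Row d)) [IsProbabilityMeasure ν] (u : Step d) (us : ℕ → ℝ≥0∞)
    (C : ℝ≥0∞) : Prop :=
  ∀ (s h h' a a' lo : ℕ) (E : Finset (Site d)) (μ : Site d → ℝ≥0∞) (M lam : ℝ≥0∞),
    ∑' x, μ x ≤ 1 → (∀ x, μ x ≤ M) → lam ≠ 0 → lam ≠ ⊤ → a + s ≤ lo → a' + s ≤ lo →
    ∑' x, μ x * (∑' π, ∑' γ, if lev u x = 0 ∧ IsUp u h π ∧ IsDn u h' γ ∧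
      (h • stepVec u - endp 0 π) ∈ E ∧ (∃ y, Ct u π γ x a a' y) ∧
      (∀ y, Ct u π γ x a a' y → (lo : ℤ) ≤ -lev u y) then aw ν π * aw ν γ else 0)
      ≤ C * (lam + M * E.card * us s / lam + us s)

open Classical in
/-- window lemma (3) in words: the down walker is local -/
def H3W (ν : Measure (Row d)) [IsProbabilityMeasure ν] (u : Step d) (us : ℕ → ℝ≥0∞)
    (C : ℝ≥0∞) : Prop :=
  ∀ (s h h' a a' hi : ℕ) (E : Finset (Site d)) (μ : Site d → ℝ≥0∞) (M lam : ℝ≥0∞),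
    ∑' x, μ x ≤ 1 → (∀ x, μ x ≤ M) → lam ≠ 0 → lam ≠ ⊤ → hi + s ≤ a + h → hi + s ≤ a' + h' →
    ∑' x, μ x * (∑' π, ∑' γ, if lev u x = 0 ∧ IsUp u h π ∧ IsDn u h' γ ∧
      (endp 0 γ + h' • stepVec u) ∈ E ∧ (∃ y, Ct u π γ x a a' y) ∧
      (∀ y, Ct u π γ x a a' y → -lev u y ≤ (hi : ℤ)) then aw ν π * aw ν γ else 0)
      ≤ C * (lam + M * E.card * us s / lam + us s)

lemma ct_lev (L : List BX) (hUp : ∀ b, IsUp u (hX b) (vX b)) {γ : List (Step d)} {x y : Site d}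
    {a a' : ℕ} (h : Ct u (catU vX L) γ x a a' y) : 1 ≤ - lev u y := by
  have hI := isUp_cat vX hX u hUp L
  have h3 : y + a • stepVec u ∈ sitesL (-endp 0 (catU vX L)) (catU vX L) := by
    have := (mem_sitesT (catU vX L) (-endp 0 (catU vX L)) (-(a • stepVec u)) y).1
      (by rw [← sub_eq_add_neg]; exact h.1)
    simpa using this
  have h4 := IsUp_start_sites u hI h3
  rw [levA, levM, levU] at h4
  omega

open Classical in
include hUp hDn tU tD wU wD in
theorem H2_of_word {us : ℕ → ℝ≥0∞} {C : ℝ≥0∞} (H : H2W ν u us C) :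
    ∀ (s h h' a a' lo : ℕ) (E : Finset (Site d)) (μ : Site d → ℝ≥0∞) (M lam : ℝ≥0∞),
    ∑' x, μ x ≤ 1 → (∀ x, μ x ≤ M) → lam ≠ 0 → lam ≠ ⊤ → a + s ≤ lo → a' + s ≤ lo →
    ∑' x, μ x * (∑' L : List BX, ∑' L' : List BY, if HT hX L = h ∧
        (L.map (zU vX hX u)).sum ∈ E ∧ HT hY L' = h' ∧
        (∃ z k, (z, k) ∈ TT (sU vX u) hX (zU vX hX u) L 0 a ∧
          (z, k) ∈ TT (sD vY u) hY (zD vY hY u) L' x a') ∧
        (∀ z k, (z, k) ∈ TT (sU vX u) hX (zU vX hX u) L 0 a →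
          (z, k) ∈ TT (sD vY u) hY (zD vY hY u) L' x a' → lo ≤ k)
        then LW ΛX L * LW ΛY L' else 0)
      ≤ C * (lam + M * E.card * us s / lam + us s) := by
  intro s h h' a a' lo E μ M lam h1 h2 h3 h4 h5 h6
  refine le_trans (le_of_eq ?_) (H s h h' a a' lo E μ M lam h1 h2 h3 h4 h5 h6)
  refine tsum_congr fun x => ?_
  congr 1
  have hc := conv2 vX hX vY hY u tU tD h h' (fun π γ => if lev u x = 0 ∧
      (h • stepVec u - endp 0 π) ∈ E ∧ (∃ y, Ct u π γ x a a' y) ∧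
      (∀ y, Ct u π γ x a a' y → (lo : ℤ) ≤ -lev u y) then aw ν π * aw ν γ else 0)
  have hl : (∑' π, ∑' γ, if lev u x = 0 ∧ IsUp u h π ∧ IsDn u h' γ ∧
      (h • stepVec u - endp 0 π) ∈ E ∧ (∃ y, Ct u π γ x a a' y) ∧
      (∀ y, Ct u π γ x a a' y → (lo : ℤ) ≤ -lev u y) then aw ν π * aw ν γ else 0)
      = ∑' π, ∑' γ, if IsUp u h π ∧ IsDn u h' γ then (if lev u x = 0 ∧
      (h • stepVec u - endp 0 π) ∈ E ∧ (∃ y, Ct u π γ x a a' y) ∧
      (∀ y, Ct u π γ x a a' y → (lo : ℤ) ≤ -lev u y) then aw ν π * aw ν γ else 0) else 0 := by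
    refine tsum_congr fun π => tsum_congr fun γ => ?_
    rw [← ite_and]
    refine if_congr ?_ rfl rfl
    tauto
  rw [hl, hc]
  refine tsum_congr fun L => tsum_congr fun L' => ?_
  rw [← ite_and, wU, wD]
  refine if_congr ?_ rfl rfl
  have k1 := ex_iff vX hX vY hY u hUp hDn L L' x a a' (fun _ => True)
  have k2 := all_iff vX hX vY hY u hUp hDn L L' x a a' (fun k => lo ≤ k)
  simp only [and_true] at k1
  rw [k1, k2]
  constructor
  · rintro ⟨e1, e2, e3, ⟨e4, e5⟩, e6⟩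
    rw [Dp_U, e1] at e2
    refine ⟨⟨e1, e3⟩, e4, e2, e5, fun y hy => ?_⟩
    have := e6 e4 y hy
    have h7 := ct_lev vX hX u L hUp hy
    omega
  · rintro ⟨⟨e1, e3⟩, e4, e2, e5, e6⟩
    refine ⟨e1, ?_, e3, ⟨e4, e5⟩, fun _ y hy => ?_⟩
    · rw [Dp_U, e1]; exact e2
    · have := e6 y hy
      omega

open Classical in
include hUp hDn tU tD wU wD in
theorem H3_of_word {us : ℕ → ℝ≥0∞} {C : ℝ≥0∞} (H : H3W ν u us C) :
    ∀ (s h h' a a' hi : ℕ) (E : Finset (Site d)) (μ : Site d → ℝ≥0∞) (M lam : ℝ≥0∞),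
    ∑' x, μ x ≤ 1 → (∀ x, μ x ≤ M) → lam ≠ 0 → lam ≠ ⊤ → hi + s ≤ a + h → hi + s ≤ a' + h' →
    ∑' x, μ x * (∑' L : List BX, ∑' L' : List BY, if HT hX L = h ∧ HT hY L' = h' ∧
        (L'.map (zD vY hY u)).sum ∈ E ∧
        (∃ z k, (z, k) ∈ TT (sU vX u) hX (zU vX hX u) L 0 a ∧
          (z, k) ∈ TT (sD vY u) hY (zD vY hY u) L' x a') ∧
        (∀ z k, (z, k) ∈ TT (sU vX u) hX (zU vX hX u) L 0 a →
          (z, k) ∈ TT (sD vY u) hY (zD vY hY u) L' x a' → k ≤ hi)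
        then LW ΛX L * LW ΛY L' else 0)
      ≤ C * (lam + M * E.card * us s / lam + us s) := by
  intro s h h' a a' hi E μ M lam h1 h2 h3 h4 h5 h6
  refine le_trans (le_of_eq ?_) (H s h h' a a' hi E μ M lam h1 h2 h3 h4 h5 h6)
  refine tsum_congr fun x => ?_
  congr 1
  have hc := conv2 vX hX vY hY u tU tD h h' (fun π γ => if lev u x = 0 ∧
      (endp 0 γ + h' • stepVec u) ∈ E ∧ (∃ y, Ct u π γ x a a' y) ∧
      (∀ y, Ct u π γ x a a' y → -lev u y ≤ (hi : ℤ)) then aw ν π * aw ν γ else 0)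
  have hl : (∑' π, ∑' γ, if lev u x = 0 ∧ IsUp u h π ∧ IsDn u h' γ ∧
      (endp 0 γ + h' • stepVec u) ∈ E ∧ (∃ y, Ct u π γ x a a' y) ∧
      (∀ y, Ct u π γ x a a' y → -lev u y ≤ (hi : ℤ)) then aw ν π * aw ν γ else 0)
      = ∑' π, ∑' γ, if IsUp u h π ∧ IsDn u h' γ then (if lev u x = 0 ∧
      (endp 0 γ + h' • stepVec u) ∈ E ∧ (∃ y, Ct u π γ x a a' y) ∧
      (∀ y, Ct u π γ x a a' y → -lev u y ≤ (hi : ℤ)) then aw ν π * aw ν γ else 0) else 0 := by
    refine tsum_congr fun π => tsum_congr fun γ => ?_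
    rw [← ite_and]
    refine if_congr ?_ rfl rfl
    tauto
  rw [hl, hc]
  refine tsum_congr fun L => tsum_congr fun L' => ?_
  rw [← ite_and, wU, wD]
  refine if_congr ?_ rfl rfl
  have k1 := ex_iff vX hX vY hY u hUp hDn L L' x a a' (fun _ => True)
  have k2 := all_iff vX hX vY hY u hUp hDn L L' x a a' (fun k => k ≤ hi)
  simp only [and_true] at k1
  rw [k1, k2]
  constructor
  · rintro ⟨e1, e3, e2, ⟨e4, e5⟩, e6⟩
    rw [Dp_D, e3] at e2
    refine ⟨⟨e1, e3⟩, e4, e2, e5, fun y hy => ?_⟩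
    have := e6 e4 y hy
    omega
  · rintro ⟨⟨e1, e3⟩, e4, e2, e5, e6⟩
    refine ⟨e1, e3, ?_, ⟨e4, e5⟩, fun _ y hy => ?_⟩
    · rw [Dp_D, e3]; exact e2
    · have := e6 y hy
      omega

open Classical in
include hUp hDn tU tD wU wD in
/-- list form of KAPPA' gives 28's `KappaW` -/
theorem kappaW_of_list
    (K : ∀ ε : ℝ≥0∞, ε ≠ 0 → ∃ M : ℕ, ∀ m, M ≤ m → ∀ n, 2 * m ≤ n → ∀ w : Site d, lev u w = 0 →
      (∑' L : List BX, ∑' L' : List BY, if HT hX L = n ∧ HT hY L' = n ∧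
        (∀ z k, (z, k) ∈ TT (sU vX u) hX (zU vX hX u) L 0 0 →
          (z, k) ∈ TT (sD vY u) hY (zD vY hY u) L' w 0 → m < k) ∧
        (∃ z k, (z, k) ∈ TT (sU vX u) hX (zU vX hX u) L 0 0 ∧
          (z, k) ∈ TT (sD vY u) hY (zD vY hY u) L' w 0 ∧ k ≤ 2 * m)
        then LW ΛX L * LW ΛY L' else 0) ≤ ε) : KappaW ν u := by
  intro ε hε
  obtain ⟨M, hM⟩ := K ε hε
  refine ⟨M, fun m hm n hn w hw => ?_⟩
  refine le_trans (le_of_eq ?_) (hM m hm n hn w hw)
  unfold KW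
  have hc := conv2 vX hX vY hY u tU tD n n (fun π γ =>
    if (∀ k ∈ Cm u w π γ, m < k) ∧ (∃ k ∈ Cm u w π γ, k ≤ 2 * m) then aw ν π * aw ν γ else 0)
  have hl : (∑' π, ∑' γ, if IsUp u n π ∧ IsDn u n γ ∧ (∀ k ∈ Cm u w π γ, m < k) ∧
      (∃ k ∈ Cm u w π γ, k ≤ 2 * m) then aw ν π * aw ν γ else 0)
      = ∑' π, ∑' γ, if IsUp u n π ∧ IsDn u n γ then (if (∀ k ∈ Cm u w π γ, m < k) ∧
        (∃ k ∈ Cm u w π γ, k ≤ 2 * m) then aw ν π * aw ν γ else 0) else 0 := by
    refine tsum_congr fun π => tsum_congr fun γ => ?_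
    rw [← ite_and]
    refine if_congr ?_ rfl rfl
    tauto
  rw [hl, hc]
  refine tsum_congr fun L => tsum_congr fun L' => ?_
  rw [← ite_and, wU, wD]
  refine if_congr ?_ rfl rfl
  have hCm : ∀ k, k ∈ Cm u w (catU vX L) (catD vY L') ↔
      ∃ y, Ct u (catU vX L) (catD vY L') w 0 0 y ∧ k = (-lev u y).toNat := by
    intro k
    have e1 : -endp 0 (catU vX L) - (0 : ℕ) • stepVec u = -endp 0 (catU vX L) := by simp
    have e2 : w - ((0 : ℕ) + 1) • stepVec u = w + stepVec (opp u) := by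
      rw [oppV]; simp [sub_eq_add_neg]
    constructor
    · rintro ⟨y, h1, h2, h3⟩
      refine ⟨y, ⟨by rw [e1]; exact h1, by rw [e2]; exact h2⟩, ?_⟩
      rw [h3]; simp
    · rintro ⟨y, hy, hk⟩
      have h7 := ct_lev vX hX u L hUp hy
      obtain ⟨h1, h2⟩ := hy
      rw [e1] at h1
      rw [e2] at h2
      exact ⟨y, h1, h2, by omega⟩
  have k1 := ex_iff vX hX vY hY u hUp hDn L L' w 0 0 (fun k => k ≤ 2 * m)
  have k2 := all_iff vX hX vY hY u hUp hDn L L' w 0 0 (fun k => m < k)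
  rw [k1, k2]
  constructor
  · rintro ⟨⟨e1, e2⟩, e3, k, hk, hk2⟩
    refine ⟨e1, e2, fun _ y hy => e3 _ ((hCm _).2 ⟨y, hy, rfl⟩), hw, ?_⟩
    obtain ⟨y, hy, rfl⟩ := (hCm k).1 hk
    exact ⟨y, hy, hk2⟩
  · rintro ⟨e1, e2, e3, _, y, hy, hk2⟩
    refine ⟨⟨e1, e2⟩, fun k hk => ?_, _, (hCm _).2 ⟨y, hy, rfl⟩, hk2⟩
    obtain ⟨y, hy, rfl⟩ := (hCm k).1 hk
    exact e3 hw y hy

end Pair

end Crest.Agent.R154.KWB419
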