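import Crest.Agent.R154.H2P_386
import Crest.Agent.R154.KWBind2_419

/-! Row 154, KAPPA' (801): 419's `H2W` with `a ≤ a'` (X local) from `H2P386.h2G` (helper386). -/

set_option autoImplicit false

namespace Crest.Agent.R154.H2P386

open MeasureTheory ProbabilityTheory Crest.ProbabilityR.RandomEnvironment Crest.Agent.R154
open Crest.Agent.R154.Flux132 (lev opp)
open Crest.Agent.R154.Flux566 (lw endp sitesL)
open Crest.Agent.R154.NB28 (IsUp IsDn aw)
open Crest.Agent.R154.H2w386
open Crest.Agent.R154.KWB419 (Ct)
open scoped ENNReal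

variable {d : ℕ}

/-- common return probability (shifted by one) -/
noncomputable def us1 (ν : Measure (Row d)) [IsProbabilityMeasure ν] (u : Step d) (s : ℕ) :
    ℝ≥0∞ := Us778.us ν u (s - 1)

lemma lev_smul (u : Step d) (n : ℕ) : lev u (n • stepVec u) = n := by
  induction n with
  | zero => simp only [zero_smul]; unfold lev; split_ifs <;> simp
  | succ n ih =>
    rw [succ_nsmul, H2w386.lev_add, ih]
    have : lev u (stepVec u) = 1 := Flux566.lev_self u
    rw [this]; push_cast; ring

lemma lev_neg' (u : Step d) (x : Site d) : lev u (-x) = - lev u x := by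
  have h0 : lev u (x + -x) = 0 := by
    rw [add_neg_cancel]; unfold lev; split_ifs <;> simp
  rw [H2w386.lev_add] at h0
  omega

open Classical in
/-- **(2) in 419's words**, `a ≤ a'`. -/
theorem h2Ct (ν : Measure (Row d)) [IsProbabilityMeasure ν] (u : Step d)
    (s h h' a a' lo : ℕ) (E : Finset (Site d)) (μ : Site d → ℝ≥0∞) (M lam : ℝ≥0∞)
    (h1 : ∑' x, μ x ≤ 1) (h2 : ∀ x, μ x ≤ M) (hl : lam ≠ 0) (hl' : lam ≠ ⊤)
    (hlo' : a' + s ≤ lo) (haa : a ≤ a') :
    ∑' x, μ x * (∑' π, ∑' γ, if lev u x = 0 ∧ IsUp u h π ∧ IsDn u h' γ ∧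
      (h • stepVec u - endp 0 π) ∈ E ∧ (∃ y, Ct u π γ x a a' y) ∧
      (∀ y, Ct u π γ x a a' y → (lo : ℤ) ≤ -lev u y) then aw ν π * aw ν γ else 0)
      ≤ 1 * (lam + M * E.card * us1 ν u s / lam + us1 ν u s) := by
  obtain ⟨δ, hδ⟩ : ∃ δ : ℕ, a' + 1 = a + δ := ⟨a' + 1 - a, by omega⟩
  set μ' : Site d → ℝ≥0∞ := fun x => if lev u x = -(δ : ℤ) then μ (x + δ • stepVec u) else 0
    with hμ'
  set E' : Finset (Site d) := E.image fun e => h • stepVec u - e with hE'
  have hG := h2G ν u h h' δ (s - 1) E' μ' M lam ?_ ?_ ?_ hl hl'
  · have hcard : (E'.card : ℝ≥0∞) ≤ E.card := by exact_mod_cast Finset.card_image_le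
    refine le_trans ?_ (hG.trans ?_)
    · rw [← (Equiv.addRight (δ • stepVec u)).tsum_eq]
      refine ENNReal.tsum_le_tsum fun x => ?_
      simp only [Equiv.coe_addRight]
      by_cases hx : lev u x = -(δ : ℤ)
      · have e0 : μ' x = μ (x + δ • stepVec u) := by rw [hμ']; simp only; rw [if_pos hx]
        rw [e0]
        refine mul_le_mul_right (ENNReal.tsum_le_tsum fun π => ENNReal.tsum_le_tsum fun γ => ?_) _
        by_cases hc : lev u (x + δ • stepVec u) = 0 ∧ IsUp u h π ∧ IsDn u h' γ ∧
          (h • stepVec u - endp 0 π) ∈ E ∧ (∃ y, Ct u π γ (x + δ • stepVec u) a a' y) ∧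
          (∀ y, Ct u π γ (x + δ • stepVec u) a a' y → (lo : ℤ) ≤ -lev u y)
        · obtain ⟨c1, c2, c3, c4, ⟨y0, c5, c6⟩, c7⟩ := id hc
          have f1 : sitesL (-endp 0 π) π
              = (sitesL (-endp 0 π - a • stepVec u) π).map (· + a • stepVec u) := by
            rw [← sitesL_add, sub_add_cancel]
          have f2 : x + δ • stepVec u - (a' + 1) • stepVec u = x - a • stepVec u := by
            rw [hδ, add_smul]; abel
          have f3 : sitesL x γ
              = (sitesL (x + δ • stepVec u - (a' + 1) • stepVec u) γ).map (· + a • stepVec u) := by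
            rw [← sitesL_add, f2, sub_add_cancel]
          have hmem : ∀ (l : List (Site d)) (z : Site d), z ∈ l →
              z + a • stepVec u ∈ l.map (· + a • stepVec u) :=
            fun l z hz => List.mem_map.2 ⟨z, hz, rfl⟩
          have hmem' : ∀ (l : List (Site d)) (z : Site d), z ∈ l.map (· + a • stepVec u) →
              z - a • stepVec u ∈ l := by
            intro l z hz
            obtain ⟨z', hz', rfl⟩ := List.mem_map.1 hz
            simpa using hz'
          refine (le_of_eq (if_pos hc)).trans (le_of_eq (if_pos ?_).symm)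
          refine ⟨c2, ?_, c3, ⟨y0 + a • stepVec u, by rw [f1]; exact hmem _ _ c5,
            by rw [f3]; exact hmem _ _ c6⟩, ?_⟩
          · rw [hE']
            refine Finset.mem_image.2 ⟨_, c4, ?_⟩
            abel
          · intro z hz hz'
            have g1 := c7 (z - a • stepVec u) ⟨hmem' _ _ (by rw [← f1]; exact hz),
              hmem' _ _ (by rw [← f3]; exact hz')⟩
            have g2 : lev u z = lev u (z - a • stepVec u) + a := by
              conv_lhs => rw [← sub_add_cancel z (a • stepVec u)]
              rw [H2w386.lev_add, lev_smul]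
            have g3 : lev u z ≤ -(δ : ℤ) := by
              have g4 : z - x ∈ sitesL 0 γ := by
                have g5 : sitesL x γ = (sitesL 0 γ).map (· + x) := by
                  rw [← sitesL_add, zero_add]
                rw [g5] at hz'
                obtain ⟨z', hz'', rfl⟩ := List.mem_map.1 hz'
                simpa using hz''
              have g6 := (c3.1 _ g4).2
              have g7 : lev u z = lev u (z - x) + lev u x := by
                conv_lhs => rw [← sub_add_cancel z x]
                rw [H2w386.lev_add]
              omega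
            rcases Nat.eq_zero_or_pos s with rfl | hs
            · simpa using g3
            · have : ((s - 1 : ℕ) : ℤ) = s - 1 := by omega
              omega
        · exact (le_of_eq (if_neg hc)).trans zero_le
      · refine le_trans (le_of_eq ?_) zero_le
        rw [mul_eq_zero]
        right
        rw [ENNReal.tsum_eq_zero]
        intro π
        rw [ENNReal.tsum_eq_zero]
        intro γ
        refine if_neg ?_
        rintro ⟨c1, -⟩
        rw [H2w386.lev_add, lev_smul] at c1
        omega
    · rw [one_mul]
      unfold us1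
      gcongr
  · refine le_trans ?_ h1
    rw [← (Equiv.addRight (δ • stepVec u)).tsum_eq μ]
    refine ENNReal.tsum_le_tsum fun x => ?_
    simp only [Equiv.coe_addRight, hμ']
    split_ifs
    · exact le_rfl
    · exact zero_le
  · intro x
    simp only [hμ']
    split_ifs
    · exact h2 _
    · exact zero_le
  · intro x hx
    by_contra hne
    exact hx (by simp only [hμ']; rw [if_neg hne])

end Crest.Agent.R154.H2P386
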