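import Crest.Agent.R154.H3_220
import Crest.Agent.R154.Face2_504

/-! Row 154 (S0219, ROAD 801), helper220: window lemma (2) in words (the up walker is local). -/

set_option autoImplicit false

namespace Crest.Agent.R154.H2220

open MeasureTheory ProbabilityTheory Crest.ProbabilityR.RandomEnvironment Crest.Agent.R154
open Crest.Agent.R154.Flux132 (lev opp)
open Crest.Agent.R154.Flux566 (lw endp sitesL endp_append endp_eq_add measurable_lw)
open Crest.Agent.R154.NB28 (IsUp IsDn aw)
open Crest.Agent.R154.KWB419 (levA levN levS levU levM levZ oppV mem_sitesT sitesA Ct)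
open Crest.Agent.R154.Face504 (PF tw tw_le_tw tw_le_one min_pf an face2_one bad bad_sum
  fhd_of_contact FHD end_mem_sites mem_sites_prefix)
open Crest.Agent.R154.H3220
open scoped ENNReal

variable {d : ℕ}

lemma lev_opp (u : Step d) (x : Site d) : lev (opp u) x = - lev u x := by
  unfold lev opp
  cases u.2 <;> simp

lemma up_opp (u : Step d) (n : ℕ) (l : List (Step d)) : IsUp (opp u) n l ↔ IsDn u n l := by
  unfold IsUp IsDn
  constructor
  · rintro ⟨h1, h2⟩
    refine ⟨fun y hy => ?_, ?_⟩
    · have := h1 y hy; rw [lev_opp] at this; omega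
    · rw [lev_opp] at h2; omega
  · rintro ⟨h1, h2⟩
    refine ⟨fun y hy => ?_, ?_⟩
    · have := h1 y hy; rw [lev_opp]; omega
    · rw [lev_opp]; omega

lemma dn_opp (u : Step d) (n : ℕ) (l : List (Step d)) : IsDn (opp u) n l ↔ IsUp u n l := by
  unfold IsUp IsDn
  constructor
  · rintro ⟨h1, h2⟩
    refine ⟨fun y hy => ?_, ?_⟩
    · have := h1 y hy; rw [lev_opp] at this; omega
    · rw [lev_opp] at h2; omega
  · rintro ⟨h1, h2⟩
    refine ⟨fun y hy => ?_, ?_⟩
    · have := h1 y hy; rw [lev_opp]; omega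
    · rw [lev_opp]; omega

lemma hT (v : Step d) (h : ℕ) (E : Finset (Site d)) (x w : Site d) :
    Tc v h E x (w + x) = Tc v h E 0 w := by
  ext τ
  have e1 : endp (w + x) τ = endp w τ + x := by
    rw [endp_eq_add τ (w + x), endp_eq_add τ w]; abel
  have e2 : endp w τ + x - x + h • stepVec v = endp w τ - 0 + h • stepVec v := by abel
  simp only [Tc, Set.mem_ofPred_eq]
  rw [e1, e2, levA, levZ]
  constructor
  · rintro ⟨h1, h2, h3⟩
    refine ⟨fun y hy => ?_, by omega, h3⟩
    have := h1 (y + x) ((mem_sitesT τ w x (y + x)).2 (by simpa using hy))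
    rw [levA] at this
    omega
  · rintro ⟨h1, h2, h3⟩
    refine ⟨fun y hy => ?_, by omega, h3⟩
    have := h1 (y - x) ((mem_sitesT τ w x y).1 hy)
    rw [levS] at this
    omega

open Classical in
/-- **H2 in words**: the up walker is local. -/
theorem h2 (ν : Measure (Row d)) [IsProbabilityMeasure ν] (u : Step d) (i0 s h h' a a' lo : ℕ)
    (E : Finset (Site d)) (μ : Site d → ℝ≥0∞) (M lam : ℝ≥0∞) (hμ1 : ∑' x, μ x ≤ 1)
    (hμM : ∀ x, μ x ≤ M) (hl0 : lam ≠ 0) (hlt : lam ≠ ⊤) (hs1 : a' + s ≤ lo)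
    (hs2 : a ≤ a' + i0) :
    ∑' x, μ x * (∑' π, ∑' γ, if lev u x = 0 ∧ IsUp u h π ∧ IsDn u h' γ ∧
      (h • stepVec u - endp 0 π) ∈ E ∧ (∃ y, Ct u π γ x a a' y) ∧
      (∀ y, Ct u π γ x a a' y → (lo : ℤ) ≤ -lev u y) then aw ν π * aw ν γ else 0)
      ≤ lam + M * E.card
          * annealed (iidEnvironmentLaw ν) 0 (Us475.Ret (opp u) i0 ((s - 1 : ℕ))) / lam
        + annealed (iidEnvironmentLaw ν) 0 (Us475.Ret (opp u) i0 ((s - 1 : ℕ))) := by
  set v := opp u with hv
  set s' : ℕ := s - 1 with hs'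
  set us := annealed (iidEnvironmentLaw ν) 0 (Us475.Ret v i0 s') with hus
  set e : ℤ := (a : ℤ) - a' - 1 with he
  have hei : e ≤ (i0 : ℤ) := by omega
  set E' : Finset (Site d) := E.image (fun z => -z) with hE'
  set cc : Site d := (a' + 1) • stepVec u - a • stepVec u with hcc
  set P : Site d → List (Step d) → List (Step d) → Prop := fun x π γ =>
    lev u x = 0 ∧ IsUp u h π ∧ IsDn u h' γ ∧
      (h • stepVec u - endp 0 π) ∈ E ∧ (∃ y, Ct u π γ x a a' y) ∧
      (∀ y, Ct u π γ x a a' y → (lo : ℤ) ≤ -lev u y) with hP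
  have hsplit : ∑' x, μ x * (∑' π, ∑' γ, if P x π γ then aw ν π * aw ν γ else 0)
      ≤ ∑' x, (∑' π, ∑' γ, if γ ∈ Ar v h' s' e ∧ P x π γ then μ x * (aw ν π * aw ν γ) else 0)
        + ∑' x, μ x * ((∑' π, if π ∈ {π | IsUp u h π} then aw ν π else 0)
          * ∑' γ, if γ ∈ Bd v h' s' e then aw ν γ else 0) := by
    rw [← ENNReal.tsum_add]
    refine ENNReal.tsum_le_tsum fun x => ?_
    rw [← ENNReal.tsum_mul_left, ← ENNReal.tsum_mul_right, ← ENNReal.tsum_mul_left,
      ← ENNReal.tsum_add]
    refine ENNReal.tsum_le_tsum fun π => ?_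
    rw [← ENNReal.tsum_mul_left, ← ENNReal.tsum_mul_left, ← ENNReal.tsum_mul_left,
      ← ENNReal.tsum_add]
    refine ENNReal.tsum_le_tsum fun γ => ?_
    by_cases hPx : P x π γ
    · rw [if_pos hPx]
      have hup : IsUp v h' γ := (up_opp u h' γ).2 hPx.2.2.1
      by_cases hA : γ ∈ Ar v h' s' e
      · rw [if_pos ⟨hA, hPx⟩]; exact le_self_add
      · have hB : γ ∈ Bd v h' s' e := by
          refine ⟨hup, ?_⟩
          by_contra hcon
          exact hA ⟨hup, hcon⟩
        have hπ : π ∈ {π | IsUp u h π} := hPx.2.1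
        rw [if_pos hB, if_pos hπ]
        exact le_add_self
    · rw [if_neg hPx, mul_zero]; exact zero_le
  have hbad : ∑' x, μ x * ((∑' π, if π ∈ {π | IsUp u h π} then aw ν π else 0)
          * ∑' γ, if γ ∈ Bd v h' s' e then aw ν γ else 0) ≤ us := by
    rw [ENNReal.tsum_mul_right]
    calc (∑' x, μ x) * ((∑' π, if π ∈ {π | IsUp u h π} then aw ν π else 0)
          * ∑' γ, if γ ∈ Bd v h' s' e then aw ν γ else 0)
        ≤ 1 * (1 * us) := mul_le_mul' hμ1 (mul_le_mul' (sum_le_one ν (pf_up u h))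
          (bd_le ν v h' s' e i0 hei))
      _ = us := by rw [one_mul, one_mul]
  have hre : ∑' x, (∑' π, ∑' γ, if γ ∈ Ar v h' s' e ∧ P x π γ then
        μ x * (aw ν π * aw ν γ) else 0)
      = ∑' x, (∑' π, ∑' γ, if γ ∈ Ar v h' s' e ∧ P (cc - endp 0 π - x) π γ then
        μ (cc - endp 0 π - x) * (aw ν π * aw ν γ) else 0) := by
    rw [ENNReal.tsum_comm]
    rw [ENNReal.tsum_comm (f := fun x π => ∑' γ, if γ ∈ Ar v h' s' e ∧
        P (cc - endp 0 π - x) π γ then μ (cc - endp 0 π - x) * (aw ν π * aw ν γ) else 0)]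
    refine tsum_congr fun π => ?_
    exact ((Equiv.subLeft (cc - endp 0 π)).tsum_eq (fun x => ∑' γ, if γ ∈ Ar v h' s' e ∧
        P x π γ then μ x * (aw ν π * aw ν γ) else 0)).symm
  have hone : ∀ x, (∑' π, ∑' γ, if γ ∈ Ar v h' s' e ∧ P (cc - endp 0 π - x) π γ then
        μ (cc - endp 0 π - x) * (aw ν π * aw ν γ) else 0)
      ≤ (if lev v x = e + h then M / lam *
          ∫⁻ ω, tw ω 0 (Rc v h' h s' e E' x) ∂(iidEnvironmentLaw ν) else 0)
        + ∫⁻ ω, bad (Bc v h E') (Tc v h E') lam (fun z => μ (cc - z)) x ω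
          ∂(iidEnvironmentLaw ν) := by
    intro x
    by_cases hx : lev v x = e + h
    · rw [if_pos hx]
      have key := face2_one ν x (A := Ar v h' s' e) (B := Bc v h E')
        (pf_mono (pf_up v h') fun l hl => hl.1) (pf_mono (pf_dn v h) fun l hl => hl.1)
        (Tc v h E') (wt := fun z => μ (cc - z)) (M := M) (fun z => hμM _)
        {y | (s' : ℤ) ≤ lev v y} (Rc v h' h s' e E' x)
        (fun σ τ hσ hD hτ => ⟨σ, τ, rfl, hσ, hD, hτ⟩) hl0 hlt
      refine le_trans ?_ key
      refine ENNReal.tsum_le_tsum fun π => ENNReal.tsum_le_tsum fun γ => ?_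
      by_cases hPx : γ ∈ Ar v h' s' e ∧ P (cc - endp 0 π - x) π γ
      · rw [if_pos hPx]
        obtain ⟨hA, h0, hup, hdn, hE, ⟨y, hy1, hy2⟩, hall⟩ := hPx
        have hend := hup.2
        have hxu : lev u x = -(e + h) := by rw [hv, lev_opp] at hx; omega
        set D0 : Site d := -(a • stepVec u) - endp 0 π - x with hD0
        have hD0l : lev u D0 = -(a' : ℤ) - 1 := by
          simp only [hD0]
          rw [levS, levS, levN, levM, levU, hend, hxu]
          omega
        have ex1 : cc - endp 0 π - x - (a' + 1) • stepVec u = 0 + D0 := by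
          simp only [hcc, hD0]; abel
        have ex2 : -endp 0 π - a • stepVec u = x + D0 := by
          simp only [hD0]; abel
        have hconv : ∀ z, z ∈ sitesL 0 γ → z ∈ sitesL x π →
            Ct u π γ (cc - endp 0 π - x) a a' (z + D0) := by
          intro z hz1 hz2
          refine ⟨?_, ?_⟩
          · rw [ex2, mem_sitesT]
            simpa using hz2
          · rw [ex1, mem_sitesT]
            simpa using hz1
        have hF : FHD 0 x {y | (s' : ℤ) ≤ lev v y} γ π := by
          refine fhd_of_contact ⟨y - D0, ?_, ?_⟩ ?_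
          · rw [ex1, mem_sitesT] at hy2
            exact hy2
          · rw [ex2, mem_sitesT] at hy1
            exact hy1
          · intro z hz1 hz2
            have h7 := hall _ (hconv z hz1 hz2)
            rw [levA, hD0l] at h7
            have h8 := (hA.1.1 z hz1).1
            change (s' : ℤ) ≤ lev v z
            rw [hv, lev_opp] at h8 ⊢
            omega
        have hBc : π ∈ Bc v h E' := by
          refine ⟨(dn_opp u h π).2 hup, ?_⟩
          rw [hE', Finset.mem_image]
          refine ⟨_, hE, ?_⟩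
          rw [hv, oppV]
          simp only [smul_neg]
          abel
        rw [if_pos ⟨hBc, hA, hF⟩]
        have e1 : an ν x π = aw ν π := NB28.aw_shift ν x π
        have e2 : an ν 0 γ = aw ν γ := rfl
        have e3 : cc - endp x π = cc - endp 0 π - x := by
          rw [endp_eq_add π x]; abel
        rw [e1, e2, e3]
        exact le_of_eq (by ring)
      · rw [if_neg hPx]; exact zero_le
    · rw [if_neg hx, zero_add]
      refine le_trans (le_of_eq ?_) zero_le
      rw [ENNReal.tsum_eq_zero]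
      intro π
      rw [ENNReal.tsum_eq_zero]
      intro γ
      refine if_neg ?_
      rintro ⟨hA, h0, hup, _⟩
      apply hx
      simp only [hcc] at h0
      rw [levS, levS, levS, levM, levM, levU, hup.2] at h0
      rw [hv, lev_opp]
      push_cast at h0
      omega
  have hgood : ∑' x, (∑' π, ∑' γ, if γ ∈ Ar v h' s' e ∧ P (cc - endp 0 π - x) π γ then
        μ (cc - endp 0 π - x) * (aw ν π * aw ν γ) else 0) ≤ M * E.card * us / lam + lam := by
    refine (ENNReal.tsum_le_tsum hone).trans ?_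
    rw [ENNReal.tsum_add]
    refine add_le_add ?_ ?_
    · calc ∑' x, (if lev v x = e + h then M / lam *
          ∫⁻ ω, tw ω 0 (Rc v h' h s' e E' x) ∂(iidEnvironmentLaw ν) else 0)
          = M / lam * ∑' x, (if lev v x = e + h then
            ∫⁻ ω, tw ω 0 (Rc v h' h s' e E' x) ∂(iidEnvironmentLaw ν) else 0) := by
            rw [← ENNReal.tsum_mul_left]
            refine tsum_congr fun x => ?_
            split_ifs <;> simp
        _ ≤ M / lam * (E'.card * us) := mul_le_mul_right (land_sum ν v h' h s' e i0 hei E') _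
        _ ≤ M / lam * (E.card * us) := by
            refine mul_le_mul_right (mul_le_mul_left ?_ _) _
            exact_mod_cast Finset.card_image_le
        _ = M * E.card * us / lam := by
            rw [div_eq_mul_inv, div_eq_mul_inv]; ring
    · refine bad_sum ν (Tc v h E') (fun γ₁ γ₂ hγ _ => hcl v h E' 0 γ₁ γ₂ hγ) (hT v h E') ?_ lam
      calc ∑' z, μ (cc - z) = ∑' z, μ z := (Equiv.subLeft cc).tsum_eq μ
        _ ≤ 1 := hμ1
  calc _ ≤ _ := hsplit
    _ ≤ (M * E.card * us / lam + lam) + us := add_le_add (hre ▸ hgood) hbad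
    _ = _ := by rw [add_comm (M * E.card * us / lam)]

end Crest.Agent.R154.H2220
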