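import Crest.Agent.R154.H3_799

/-! Row 154, T0219, ROAD 801 (helper799): window lemma (2) in words: weight on the explored walker. -/

set_option autoImplicit false

open MeasureTheory ProbabilityTheory Crest.ProbabilityR.RandomEnvironment
open scoped ENNReal

namespace Crest.Agent.R154.Tie799

open Crest.Agent.R154.Flux566 (lw endp sitesL measurable_lw endp_eq_add endp_append)
open Crest.Agent.R154.Flux132 (lev opp)
open Crest.Agent.R154.NB28 (IsUp IsDn)
open Crest.Agent.R154.Surg799 (aw aw_shift ann_mul endp_mem_sites mem_sitesL_add lvadd lvneg)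
open Crest.Agent.R154.WordB956 (PF FH Vis lw_append sitesL_append pf_FH pf_sum_le vis_le mem_sitesL)

variable {d : ℕ}

open Classical in
/-- total weight from `v` of the words landing in `EE` -/
noncomputable def eL (u : Step d) (b : ℤ) (EE : Finset (Site d)) (ω : Environment d)
    (v : Site d) : ℝ≥0∞ :=
  ∑' τ : List (Step d), (if τ ∈ Land u b EE v then lw ω v τ else 0)

open Classical in
lemma bad_le (u : Step d) (h' : ℕ) (EE : Finset (Site d)) (ω : Environment d) (c : ℝ≥0∞) :
    ∑' r : List (Step d), (if r ∈ GD u h' EE ∧ r ∈ Vis {v | eL u h' EE ω v ≤ c} 0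
      then lw ω 0 r else 0) ≤ c := by
  refine vis_le ω 0 (GD u h' EE) {v | eL u h' EE ω v ≤ c} c ?_
  intro l1 hl1
  refine le_trans ?_ (show eL u h' EE ω (endp 0 l1) ≤ c from hl1.1)
  refine ENNReal.tsum_le_tsum fun l2 => ?_
  by_cases h2 : l1 ++ l2 ∈ GD u h' EE
  · rw [if_pos h2, if_pos]
    refine ⟨?_, ?_, ?_⟩
    · intro y hy
      exact (h2.1.1 y (by rw [sitesL_append]; exact List.mem_append_right _ hy)).1
    · have := h2.1.2; rwa [endp_append] at this
    · have := h2.2; rwa [endp_append] at this
  · rw [if_neg h2]; exact zero_le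

open Classical in
lemma hits_le (u : Step d) (h' : ℕ) (l t : ℤ) (hl : l < h') (EE : Finset (Site d)) (x : Site d)
    (ω : Environment d) (r : List (Step d)) (hr : r ∈ GD u h' EE) (c : ℝ≥0∞) (hc0 : c ≠ 0)
    (hc : c ≠ ⊤) :
    ∑' s : List (Step d), (if Rel u h' l t EE x r s then lw ω x s else 0)
      ≤ (if r ∈ Vis {v | eL u h' EE ω v ≤ c} 0 then 1 else 0) +
        c⁻¹ * ∑' σ : List (Step d), (if σ ∈ Turn u h' t EE x then lw ω x σ else 0) := by
  by_cases hb : r ∈ Vis {v | eL u h' EE ω v ≤ c} 0
  · rw [if_pos hb]
    refine le_add_right ?_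
    have hPF : PF {s | Rel u h' l t EE x r s} :=
      (pf_FH {y | y ∈ sitesL 0 r} x).mono fun s hs => hs.2.1
    exact pf_sum_le ω x hPF
  · rw [if_neg hb, zero_add]
    refine le_trans ?_ (turn_le u h' l t hl EE x ω r c hc0 hc)
    refine ENNReal.tsum_le_tsum fun s => ?_
    by_cases hs : Rel u h' l t EE x r s
    · rw [if_pos hs, if_pos]
      refine ⟨hs, ?_⟩
      by_contra hle
      rw [not_lt] at hle
      apply hb
      have hv : endp x s ∈ sitesL 0 r := hs.2.1.1
      obtain ⟨l1, e, l2, h12, hend⟩ := mem_sitesL.1 hv
      refine ⟨l1, e :: l2, h12, ?_⟩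
      rw [hend]
      exact hle
    · rw [if_neg hs]; exact zero_le

open Classical in
/-- the annealed sum over the free walker -/
lemma free_le (ν : Measure (Row d)) [IsProbabilityMeasure ν] (u : Step d) (h h' : ℕ) (l t : ℤ)
    (hl : l < h') (EE : Finset (Site d)) (x : Site d) (hx : lev u x = -l) (γ : List (Step d))
    (hγ : γ ∈ GD u h' EE) (c : ℝ≥0∞) (hc0 : c ≠ 0) (hc : c ≠ ⊤) :
    aw ν γ * ∑' π : List (Step d), (if IsUp u h π ∧ (∃ y, y ∈ sitesL x π ∧ y ∈ sitesL 0 γ) ∧
        (∀ y, y ∈ sitesL x π → y ∈ sitesL 0 γ → -t ≤ lev u y) then aw ν π else 0)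
      ≤ ∫⁻ ω, ((if γ ∈ Vis {v | eL u h' EE ω v ≤ c} 0 then lw ω 0 γ else 0) +
        c⁻¹ * (lw ω 0 γ * ∑' σ : List (Step d), (if σ ∈ Turn u h' t EE x then lw ω x σ else 0)))
          ∂(iidEnvironmentLaw ν) := by
  have h1 := rel_sum_le ν u h h' l t EE (fun _ => 1) x hx γ hγ
  simp only [mul_one] at h1
  refine (mul_le_mul' le_rfl h1).trans ?_
  calc aw ν γ * ∑' s : List (Step d), (if Rel u h' l t EE x γ s then
        W ν {π | IsUp u h π} (fun _ => 1) x s else 0)
      ≤ ∑' s : List (Step d), ∫⁻ ω, (if Rel u h' l t EE x γ s then lw ω 0 γ * lw ω x s else 0)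
        ∂(iidEnvironmentLaw ν) := by
        rw [← ENNReal.tsum_mul_left]
        refine ENNReal.tsum_le_tsum fun s => ?_
        by_cases hs : Rel u h' l t EE x γ s
        · simp only [if_pos hs]
          rw [ann_mul ν 0 x γ s (disj_of_rel hs)]
          refine mul_le_mul' le_rfl ?_
          have := W_le ν (pf_Up u h) (f := fun _ => (1 : ℝ≥0∞)) (M := 1) (fun _ => le_rfl) x s
          rwa [mul_one] at this
        · simp [if_neg hs]
    _ = ∫⁻ ω, ∑' s : List (Step d), (if Rel u h' l t EE x γ s then lw ω 0 γ * lw ω x s else 0)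
        ∂(iidEnvironmentLaw ν) := by
        rw [lintegral_tsum]
        intro s
        split_ifs
        · exact ((measurable_lw 0 γ).mul (measurable_lw x s)).aemeasurable
        · exact aemeasurable_const
    _ ≤ _ := by
        refine lintegral_mono fun ω => ?_
        have h2 := hits_le u h' l t hl EE x ω γ hγ c hc0 hc
        calc ∑' s : List (Step d), (if Rel u h' l t EE x γ s then lw ω 0 γ * lw ω x s else 0)
            = lw ω 0 γ * ∑' s : List (Step d), (if Rel u h' l t EE x γ s then lw ω x s else 0) := by
              rw [← ENNReal.tsum_mul_left]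
              refine tsum_congr fun s => ?_
              split_ifs <;> simp
          _ ≤ lw ω 0 γ * ((if γ ∈ Vis {v | eL u h' EE ω v ≤ c} 0 then 1 else 0) +
              c⁻¹ * ∑' σ : List (Step d), (if σ ∈ Turn u h' t EE x then lw ω x σ else 0)) := by
              gcongr
          _ = _ := by
              rw [mul_add]
              congr 1
              · split_ifs <;> simp
              · ring

lemma measurable_eL (u : Step d) (b : ℤ) (EE : Finset (Site d)) (v : Site d) :
    Measurable fun ω : Environment d => eL u b EE ω v := by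
  classical
  unfold eL
  refine Measurable.ennreal_tsum fun τ => ?_
  split_ifs
  · exact measurable_lw v τ
  · exact measurable_const

lemma vis_iff (D : Set (Site d)) (x : Site d) (l : List (Step d)) :
    l ∈ Vis D x ↔ ∃ i ∈ Finset.range (l.length + 1), endp x (l.take i) ∈ D := by
  constructor
  · rintro ⟨l1, l2, h1, h2⟩
    refine ⟨l1.length, ?_, ?_⟩
    · rw [Finset.mem_range, h1, List.length_append]; omega
    · rw [h1, List.take_left']
      · exact h2
      · rfl
  · rintro ⟨i, -, hi⟩
    exact ⟨l.take i, l.drop i, (List.take_append_drop i l).symm, hi⟩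

lemma measurableSet_bad (u : Step d) (b : ℤ) (EE : Finset (Site d)) (c : ℝ≥0∞)
    (γ : List (Step d)) : MeasurableSet {ω : Environment d | γ ∈ Vis {v | eL u b EE ω v ≤ c} 0} := by
  have : {ω : Environment d | γ ∈ Vis {v | eL u b EE ω v ≤ c} 0} =
      ⋃ i ∈ Finset.range (γ.length + 1), {ω : Environment d | eL u b EE ω (endp 0 (γ.take i)) ≤ c} := by
    ext ω
    simp only [Set.mem_iUnion, vis_iff, exists_prop]
    rfl
  rw [this]
  exact Finset.measurableSet_biUnion _ fun i _ =>
    (measurable_eL u b EE _) measurableSet_Iic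

open Classical in
/-- **window lemma (2), core form** -/
theorem h2core (ν : Measure (Row d)) [IsProbabilityMeasure ν] (u : Step d) (h h' : ℕ) (l t : ℤ)
    (EE : Finset (Site d)) (g : Site d → ℝ≥0∞) (M lam : ℝ≥0∞) (hl0 : lam ≠ 0)
    (hlt : lam ≠ ⊤) (hg : ∀ z, g z ≤ M) (hg1 : ∑' z, g z ≤ 1) (hl : l < h') :
    ∑' x : Site d, (if lev u x = -l then ∑' γ : List (Step d), ∑' π : List (Step d),
      (if IsDn u h' γ ∧ endp 0 γ ∈ EE ∧ IsUp u h π ∧ (∃ y, y ∈ sitesL x π ∧ y ∈ sitesL 0 γ) ∧
        (∀ y, y ∈ sitesL x π → y ∈ sitesL 0 γ → -t ≤ lev u y)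
        then aw ν γ * aw ν π * g (x - endp 0 γ) else 0) else 0)
      ≤ lam + M * (lam⁻¹ * (EE.card * ret ν u (l - t) (h' - l))) := by
  have hmB : ∀ γ : List (Step d), Measurable fun ω : Environment d =>
      (if γ ∈ Vis {v | eL u h' EE ω v ≤ lam} 0 then lw ω 0 γ else 0) := fun γ =>
    Measurable.ite (measurableSet_bad u h' EE lam γ) (measurable_lw 0 γ) measurable_const
  have hmT : ∀ x : Site d, Measurable fun ω : Environment d =>
      ∑' σ : List (Step d), (if σ ∈ Turn u h' t EE x then lw ω x σ else 0) := fun x => by
    refine Measurable.ennreal_tsum fun σ => ?_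
    split_ifs
    · exact measurable_lw x σ
    · exact measurable_const
  -- per x
  have h1 : ∀ x : Site d, (if lev u x = -l then ∑' γ : List (Step d), ∑' π : List (Step d),
      (if IsDn u h' γ ∧ endp 0 γ ∈ EE ∧ IsUp u h π ∧ (∃ y, y ∈ sitesL x π ∧ y ∈ sitesL 0 γ) ∧
        (∀ y, y ∈ sitesL x π → y ∈ sitesL 0 γ → -t ≤ lev u y)
        then aw ν γ * aw ν π * g (x - endp 0 γ) else 0) else 0)
      ≤ (∑' γ : List (Step d), (if γ ∈ GD u h' EE then (∫⁻ ω,
          (if γ ∈ Vis {v | eL u h' EE ω v ≤ lam} 0 then lw ω 0 γ else 0) ∂(iidEnvironmentLaw ν)) *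
            g (x - endp 0 γ) else 0))
        + M * (lam⁻¹ * (if lev u x = -l then ∑' σ : List (Step d),
          (if σ ∈ Turn u h' t EE x then aw ν σ else 0) else 0)) := by
    intro x
    by_cases hx : lev u x = -l
    · rw [if_pos hx, if_pos hx]
      calc ∑' γ : List (Step d), ∑' π : List (Step d),
          (if IsDn u h' γ ∧ endp 0 γ ∈ EE ∧ IsUp u h π ∧
            (∃ y, y ∈ sitesL x π ∧ y ∈ sitesL 0 γ) ∧
            (∀ y, y ∈ sitesL x π → y ∈ sitesL 0 γ → -t ≤ lev u y)
            then aw ν γ * aw ν π * g (x - endp 0 γ) else 0)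
          ≤ ∑' γ : List (Step d), ((if γ ∈ GD u h' EE then (∫⁻ ω,
            (if γ ∈ Vis {v | eL u h' EE ω v ≤ lam} 0 then lw ω 0 γ else 0)
              ∂(iidEnvironmentLaw ν)) * g (x - endp 0 γ) else 0) +
            (if γ ∈ GD u h' EE then ∫⁻ ω, (lw ω 0 γ * (M * (lam⁻¹ *
              ∑' σ : List (Step d), (if σ ∈ Turn u h' t EE x then lw ω x σ else 0))))
                ∂(iidEnvironmentLaw ν) else 0)) := by
            refine ENNReal.tsum_le_tsum fun γ => ?_
            by_cases hγ : γ ∈ GD u h' EE
            · rw [if_pos hγ, if_pos hγ]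
              calc ∑' π : List (Step d), (if IsDn u h' γ ∧ endp 0 γ ∈ EE ∧ IsUp u h π ∧
                    (∃ y, y ∈ sitesL x π ∧ y ∈ sitesL 0 γ) ∧
                    (∀ y, y ∈ sitesL x π → y ∈ sitesL 0 γ → -t ≤ lev u y)
                    then aw ν γ * aw ν π * g (x - endp 0 γ) else 0)
                  ≤ (aw ν γ * ∑' π : List (Step d), (if IsUp u h π ∧
                    (∃ y, y ∈ sitesL x π ∧ y ∈ sitesL 0 γ) ∧
                    (∀ y, y ∈ sitesL x π → y ∈ sitesL 0 γ → -t ≤ lev u y) then aw ν π else 0))
                    * g (x - endp 0 γ) := by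
                    rw [← ENNReal.tsum_mul_left, ← ENNReal.tsum_mul_right]
                    refine ENNReal.tsum_le_tsum fun π => ?_
                    split_ifs with c1 c2 c2
                    · exact le_rfl
                    · exact absurd c1.2.2 c2
                    · exact zero_le
                    · exact zero_le
                _ ≤ (∫⁻ ω, ((if γ ∈ Vis {v | eL u h' EE ω v ≤ lam} 0 then lw ω 0 γ else 0) +
                    lam⁻¹ * (lw ω 0 γ * ∑' σ : List (Step d),
                      (if σ ∈ Turn u h' t EE x then lw ω x σ else 0)))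
                      ∂(iidEnvironmentLaw ν)) * g (x - endp 0 γ) :=
                    mul_le_mul' (free_le ν u h h' l t hl EE x hx γ hγ lam hl0 hlt) le_rfl
                _ = (∫⁻ ω, (if γ ∈ Vis {v | eL u h' EE ω v ≤ lam} 0 then lw ω 0 γ else 0)
                      ∂(iidEnvironmentLaw ν)) * g (x - endp 0 γ) +
                    (∫⁻ ω, lam⁻¹ * (lw ω 0 γ * ∑' σ : List (Step d),
                      (if σ ∈ Turn u h' t EE x then lw ω x σ else 0))
                      ∂(iidEnvironmentLaw ν)) * g (x - endp 0 γ) := by
                    rw [lintegral_add_left (hmB γ), add_mul]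
                _ ≤ _ := by
                    refine add_le_add le_rfl ?_
                    have hm2 : Measurable fun ω : Environment d => lam⁻¹ * (lw ω 0 γ *
                        ∑' σ : List (Step d),
                          (if σ ∈ Turn u h' t EE x then lw ω x σ else 0)) :=
                      ((measurable_lw 0 γ).mul (hmT x)).const_mul _
                    rw [← lintegral_mul_const _ hm2]
                    refine lintegral_mono fun ω => ?_
                    calc lam⁻¹ * (lw ω 0 γ * ∑' σ : List (Step d),
                          (if σ ∈ Turn u h' t EE x then lw ω x σ else 0)) * g (x - endp 0 γ)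
                        ≤ lam⁻¹ * (lw ω 0 γ * ∑' σ : List (Step d),
                          (if σ ∈ Turn u h' t EE x then lw ω x σ else 0)) * M :=
                          mul_le_mul' le_rfl (hg _)
                      _ = _ := by ring
            · rw [if_neg hγ, if_neg hγ, add_zero]
              refine le_of_eq ?_
              rw [ENNReal.tsum_eq_zero]
              intro π
              rw [if_neg]
              rintro ⟨c1, c2, _⟩
              exact hγ ⟨c1, c2⟩
        _ = _ := ENNReal.tsum_add
        _ ≤ _ := by
            refine add_le_add le_rfl ?_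
            calc ∑' γ : List (Step d), (if γ ∈ GD u h' EE then ∫⁻ ω, (lw ω 0 γ * (M * (lam⁻¹ *
                  ∑' σ : List (Step d), (if σ ∈ Turn u h' t EE x then lw ω x σ else 0))))
                    ∂(iidEnvironmentLaw ν) else 0)
                = ∫⁻ ω, ∑' γ : List (Step d), (if γ ∈ GD u h' EE then (lw ω 0 γ * (M * (lam⁻¹ *
                  ∑' σ : List (Step d), (if σ ∈ Turn u h' t EE x then lw ω x σ else 0))))
                    else 0) ∂(iidEnvironmentLaw ν) := by
                  rw [lintegral_tsum]
                  · refine tsum_congr fun γ => ?_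
                    split_ifs <;> simp
                  · intro γ
                    split_ifs
                    · exact ((measurable_lw 0 γ).mul (((hmT x).const_mul _).const_mul _)).aemeasurable
                    · exact aemeasurable_const
              _ ≤ ∫⁻ ω, M * (lam⁻¹ *
                  ∑' σ : List (Step d), (if σ ∈ Turn u h' t EE x then lw ω x σ else 0))
                    ∂(iidEnvironmentLaw ν) := by
                  refine lintegral_mono fun ω => ?_
                  calc ∑' γ : List (Step d), (if γ ∈ GD u h' EE then (lw ω 0 γ * (M * (lam⁻¹ *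
                        ∑' σ : List (Step d), (if σ ∈ Turn u h' t EE x then lw ω x σ else 0))))
                          else 0)
                      = (∑' γ : List (Step d), (if γ ∈ GD u h' EE then lw ω 0 γ else 0)) *
                        (M * (lam⁻¹ * ∑' σ : List (Step d),
                          (if σ ∈ Turn u h' t EE x then lw ω x σ else 0))) := by
                        rw [← ENNReal.tsum_mul_right]
                        refine tsum_congr fun γ => ?_
                        split_ifs <;> simp
                    _ ≤ 1 * (M * (lam⁻¹ * ∑' σ : List (Step d),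
                          (if σ ∈ Turn u h' t EE x then lw ω x σ else 0))) :=
                        mul_le_mul' (pf_sum_le ω 0 (pf_GD u h' EE)) le_rfl
                    _ = _ := one_mul _
              _ = _ := by
                  rw [lintegral_const_mul _ ((hmT x).const_mul _), lintegral_const_mul _ (hmT x),
                    lintegral_tsum]
                  · congr 2
                    refine tsum_congr fun σ => ?_
                    by_cases hσ : σ ∈ Turn u h' t EE x
                    · simp only [if_pos hσ]; rw [aw_shift]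
                    · simp [if_neg hσ]
                  · intro σ
                    split_ifs
                    · exact (measurable_lw x σ).aemeasurable
                    · exact aemeasurable_const
    · rw [if_neg hx]; exact zero_le
  refine (ENNReal.tsum_le_tsum h1).trans ?_
  rw [ENNReal.tsum_add, ENNReal.tsum_mul_left, ENNReal.tsum_mul_left]
  refine add_le_add ?_ (mul_le_mul' le_rfl (mul_le_mul' le_rfl (turn_sum ν u h' l t EE)))
  rw [ENNReal.tsum_comm]
  calc ∑' γ : List (Step d), ∑' x : Site d, (if γ ∈ GD u h' EE then (∫⁻ ω,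
          (if γ ∈ Vis {v | eL u h' EE ω v ≤ lam} 0 then lw ω 0 γ else 0) ∂(iidEnvironmentLaw ν)) *
            g (x - endp 0 γ) else 0)
      ≤ ∑' γ : List (Step d), ∫⁻ ω, (if γ ∈ GD u h' EE ∧
          γ ∈ Vis {v | eL u h' EE ω v ≤ lam} 0 then lw ω 0 γ else 0) ∂(iidEnvironmentLaw ν) := by
        refine ENNReal.tsum_le_tsum fun γ => ?_
        by_cases hγ : γ ∈ GD u h' EE
        · simp only [hγ, true_and, if_true]
          rw [ENNReal.tsum_mul_left]
          calc _ ≤ (∫⁻ ω, (if γ ∈ Vis {v | eL u h' EE ω v ≤ lam} 0 then lw ω 0 γ else 0)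
                ∂(iidEnvironmentLaw ν)) * 1 := by
                refine mul_le_mul' le_rfl ?_
                refine le_trans ?_ hg1
                exact ENNReal.tsum_comp_le_tsum_of_injective
                  (f := fun x : Site d => x - endp 0 γ) (fun a b hab => sub_left_injective hab) g
            _ = _ := mul_one _
        · simp [hγ]
    _ = ∫⁻ ω, ∑' γ : List (Step d), (if γ ∈ GD u h' EE ∧
          γ ∈ Vis {v | eL u h' EE ω v ≤ lam} 0 then lw ω 0 γ else 0) ∂(iidEnvironmentLaw ν) := by
        rw [lintegral_tsum]
        intro γ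
        by_cases hγ : γ ∈ GD u h' EE
        · simp only [hγ, true_and]; exact (hmB γ).aemeasurable
        · simp only [hγ, false_and, if_false]; exact aemeasurable_const
    _ ≤ ∫⁻ _ : Environment d, lam ∂(iidEnvironmentLaw ν) :=
        lintegral_mono fun ω => bad_le u h' EE ω lam
    _ = lam := by simp

end Crest.Agent.R154.Tie799
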