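import Crest.Agent.R154.NBSurg_28
import Crest.Agent.R154.DoobW_431
import Crest.Agent.R154.RetW_458
import Crest.Agent.R154.WMass_286
import Crest.Agent.R154.KWBind2_419

/-! Row 154, ROAD 801 (helper96): window lemma (2) (the up walker local) in words. -/

set_option autoImplicit false

namespace Crest.Agent.R154.H2w96

open MeasureTheory ProbabilityTheory Crest.ProbabilityR.RandomEnvironment Crest.Agent.R154
open Crest.Agent.R154.Flux132 (lev opp lev_add lev_neg lev_zero)
open Crest.Agent.R154.Flux566 (lw endp sitesL endp_append endp_eq_add measurable_lw)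
open Crest.Agent.R154.NB28 (IsUp IsDn aw lw_append lw_shiftEnv aw_shift lint_mul isUp_prefix
  isDn_prefix mem_sitesL_iff mem_sitesL_add)
open Crest.Agent.R154.DoobW431 (PF kraft markov_pf First pf_First exists_First bad_le ville)
open scoped ENNReal

variable {d : ℕ}

local macro "ifc" : tactic => `(tactic| (split_ifs with h1 h2 h2 <;>
  first | rfl | exact absurd h1 h2 | exact absurd h2 h1))

open Classical in
/-- Kraft extension -/
lemma ke (ω : Environment d) (x : Site d) {W P : Set (List (Step d))} (hW : PF W)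
    (hd : ∀ ρ ∈ W, ∃ γ ∈ P, γ <+: ρ) :
    ∑' ρ, (if ρ ∈ W then lw ω x ρ else 0) ≤ ∑' γ, (if γ ∈ P then lw ω x γ else 0) := by
  have h := markov_pf ω x (W := W) (P := P) (fun γ => {ρ2 | γ ++ ρ2 ∈ W}) (fun _ => 1)
    (fun ρ hρ => by
      obtain ⟨γ, hγ, ρ2, rfl⟩ := hd ρ hρ
      exact ⟨γ, ρ2, rfl, hγ, hρ⟩)
    (fun γ _ => kraft ω _ (fun l hl l' hl' hp => by
      have := hW _ hl _ hl' ((List.prefix_append_right_inj γ).2 hp)
      exact List.append_cancel_left this))
  simpa using h

lemma mem_sitesL_pre (l : List (Step d)) (x y : Site d) :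
    y ∈ sitesL x l ↔ ∃ γ, γ <+: l ∧ γ ≠ l ∧ endp x γ = y := by
  induction l generalizing x with
  | nil => simp [sitesL]
  | cons e l ih =>
    simp only [sitesL, List.mem_cons, ih]
    constructor
    · rintro (rfl | ⟨γ, h1, h2, h3⟩)
      · exact ⟨[], List.nil_prefix, by simp, rfl⟩
      · exact ⟨e :: γ, (List.prefix_cons_inj e).2 h1, by simpa using h2, h3⟩
    · rintro ⟨γ, h1, h2, h3⟩
      cases γ with
      | nil => exact Or.inl h3.symm
      | cons e' γ =>
        obtain ⟨rfl, h4⟩ := List.cons_prefix_cons.1 h1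
        exact Or.inr ⟨γ, h4, by rintro rfl; exact h2 rfl, h3⟩

lemma lev_sub' (u : Step d) (x y : Site d) : lev u (x - y) = lev u x - lev u y := by
  rw [sub_eq_add_neg, lev_add, lev_neg]; ring

/-- a word cannot jump over a level -/
lemma ivt (u : Step d) (k : ℤ) (l : List (Step d)) (x : Site d) (h0 : lev u x ≤ k)
    (h1 : k ≤ lev u (endp x l)) : ∃ γ, γ <+: l ∧ lev u (endp x γ) = k := by
  induction l generalizing x with
  | nil => exact ⟨[], List.nil_prefix, le_antisymm h0 h1⟩
  | cons e l ih =>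
    rcases h0.eq_or_lt with h | h
    · exact ⟨[], List.nil_prefix, h⟩
    · obtain ⟨γ, h2, h3⟩ := ih (x + stepVec e)
        (by have := WM286.lev_step_le u e x; omega) h1
      exact ⟨e :: γ, (List.prefix_cons_inj e).2 h2, h3⟩

open Classical in
/-- turning words: first visit of level `1`, having visited a level `≤ 1 - s` -/
noncomputable def us (ν : Measure (Row d)) [IsProbabilityMeasure ν] (u : Step d) (s : ℕ) : ℝ≥0∞ :=
  ∑' l : List (Step d), (if (∀ y ∈ sitesL 0 l, lev u y < 1) ∧ lev u (endp 0 l) = 1 ∧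
    (∃ y ∈ sitesL 0 l, lev u y ≤ 1 - (s : ℤ)) then aw ν l else 0)

/-- turning words with target level `L` -/
def TT (u : Step d) (L : ℤ) (s : ℕ) : Set (List (Step d)) :=
  {ξ | (∀ y ∈ sitesL 0 ξ, lev u y < L) ∧ lev u (endp 0 ξ) = L ∧
    ∃ γ, γ <+: ξ ∧ (∀ y ∈ sitesL 0 γ, lev u y ≤ 0) ∧ lev u (endp 0 γ) ≤ 0 ∧
      lev u (endp 0 γ) ≤ 1 - (s : ℤ)}

/-- turning words with target level `1` -/
def T1 (u : Step d) (s : ℕ) : Set (List (Step d)) :=
  {l | (∀ y ∈ sitesL 0 l, lev u y < 1) ∧ lev u (endp 0 l) = 1 ∧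
      (∃ y ∈ sitesL 0 l, lev u y ≤ 1 - (s : ℤ))}

/-- down words stopped at their first visit of `B` -/
def PB (u : Step d) (B : Set (Site d)) : Set (List (Step d)) :=
  {γ | γ ∈ First 0 B ∧ ∀ y ∈ sitesL 0 γ, lev u y ≤ 0}

lemma pf_TT (u : Step d) (L : ℤ) (s : ℕ) : PF (TT u L s) := by
  intro l hl l' hl' hp
  by_contra hne
  have h1 := hl'.1 (endp 0 l) ((mem_sitesL_pre _ _ _).2 ⟨l, hp, hne, rfl⟩)
  exact absurd hl.2.1 (ne_of_lt h1)

open Classical in
lemma TT_le (ν : Measure (Row d)) [IsProbabilityMeasure ν] (u : Step d) (L : ℤ) (hL : 1 ≤ L)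
    (s : ℕ) (ω : Environment d) :
    ∑' ξ, (if ξ ∈ TT u L s then lw ω 0 ξ else 0) ≤
    ∑' l : List (Step d), (if l ∈ T1 u s then lw ω 0 l else 0) := by
  refine ke ω 0 (pf_TT u L s) fun ξ hξ => ?_
  obtain ⟨h1, h2, γ, h3, h4, h5, h6⟩ := hξ
  obtain ⟨γ', h7, h8⟩ := ivt u 1 ξ 0 (by rw [lev_zero]; omega) (by rw [h2]; exact hL)
  obtain ⟨τ, h9, h10⟩ := exists_First 0 {y | lev u y = 1} ξ ⟨γ', h7, h8⟩
  refine ⟨τ, ⟨?_, h9.1, ?_⟩, h10⟩
  · intro y hy
    obtain ⟨δ, h11, h12, h13⟩ := (mem_sitesL_pre _ _ _).1 hy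
    by_contra hlt
    obtain ⟨δ', h14, h15⟩ := ivt u 1 δ 0 (by rw [lev_zero]; omega) (by rw [h13]; omega)
    refine h9.2 δ' (h14.trans h11) ?_ h15
    intro he
    have := h14.length_le
    rw [he] at this
    exact h12 (h11.eq_of_length (le_antisymm h11.length_le this))
  · refine ⟨endp 0 γ, (mem_sitesL_pre _ _ _).2 ⟨γ, ?_, ?_, rfl⟩, h6⟩
    · rcases List.prefix_or_prefix_of_prefix h3 h10 with h | h
      · exact h
      · exfalso
        by_cases he : τ = γ
        · have := h9.1; rw [he] at this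
          have h20 : lev u (endp 0 γ) = 1 := this
          omega
        · have h21 := h4 _ ((mem_sitesL_pre _ _ _).2 ⟨τ, h, he, rfl⟩)
          have h22 : lev u (endp 0 τ) = 1 := h9.1
          omega
    · rintro rfl
      have h20 : lev u (endp 0 γ) = 1 := h9.1
      omega

/-! ### the event walker `X` (up, local), started at `z`; the free walker `Y` from `0` -/

open Classical in
/-- quenched mass of the local continuations (from `v`) of an up crossing started at `0` -/
noncomputable def e0 (u : Step d) (h : ℕ) (E : Finset (Site d)) (ω : Environment d)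
    (v : Site d) : ℝ≥0∞ :=
  ∑' p : List (Step d), if (∀ y ∈ sitesL v p, lev u y < h) ∧ lev u (endp v p) = h ∧
    (h • stepVec u - endp v p) ∈ E then lw ω v p else 0

lemma measurable_e0 (u : Step d) (h : ℕ) (E : Finset (Site d)) (v : Site d) :
    Measurable fun ω : Environment d => e0 u h E ω v := by
  unfold e0
  refine Measurable.ennreal_tsum fun p => ?_
  split_ifs
  · exact measurable_lw v p
  · exact measurable_const

/-- condition on the event walker -/
def P1 (u : Step d) (h : ℕ) (E : Finset (Site d)) (π : List (Step d)) : Prop :=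
  IsUp u h π ∧ (h • stepVec u - endp 0 π) ∈ E

/-- first hit of `X` by `Y` -/
def RR (u : Step d) (s : ℕ) (z : Site d) (π γ : List (Step d)) : Prop :=
  γ ∈ First 0 {y | y ∈ sitesL z π} ∧ (∀ y ∈ sitesL 0 γ, lev u y ≤ 0) ∧ lev u (endp 0 γ) ≤ 0 ∧
    lev u (endp 0 γ) ≤ 1 - (s : ℤ)

/-- first hits at a bad site -/
def RG (u : Step d) (h : ℕ) (E : Finset (Site d)) (s : ℕ) (lam : ℝ≥0∞) (z : Site d)
    (π : List (Step d)) (ω : Environment d) : Set (List (Step d)) :=
  {γ | RR u s z π γ ∧ lam < e0 u h E (shiftEnv z ω) (endp 0 γ - z)}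

open Classical in
/-- part (a) -/
noncomputable def FA (u : Step d) (h : ℕ) (E : Finset (Site d)) (lam : ℝ≥0∞)
    (w : Site d → ℝ≥0∞) (z : Site d) (ω : Environment d) : ℝ≥0∞ :=
  ∑' π : List (Step d), if P1 u h E π ∧ ∃ γ, γ <+: π ∧ e0 u h E ω (endp 0 γ) ≤ lam
    then w (z + endp 0 π) * lw ω 0 π else 0

open Classical in
/-- part (b) -/
noncomputable def FB (u : Step d) (h : ℕ) (E : Finset (Site d)) (L : ℤ) (s : ℕ) (z : Site d)
    (ω : Environment d) : ℝ≥0∞ :=
  ∑' ξ : List (Step d), if ξ ∈ TT u L s ∧ (h • stepVec u - (endp 0 ξ - z)) ∈ E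
    then lw ω 0 ξ else 0

lemma shift_lw (ω : Environment d) (z : Site d) (l : List (Step d)) :
    lw (shiftEnv z ω) 0 l = lw ω z l := by rw [lw_shiftEnv, zero_add]

lemma endp_z (z : Site d) (l : List (Step d)) : endp z l = z + endp 0 l := endp_eq_add l z

open Classical in
lemma e0_shift (u : Step d) (h : ℕ) (E : Finset (Site d)) (ω : Environment d) (z v : Site d) :
    e0 u h E (shiftEnv z ω) (v - z) = ∑' p : List (Step d),
      if (∀ y ∈ sitesL v p, lev u y < lev u z + h) ∧ lev u (endp v p) = lev u z + h ∧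
        (h • stepVec u - (endp v p - z)) ∈ E then lw ω v p else 0 := by
  unfold e0
  refine tsum_congr fun p => ?_
  have e1 : lw (shiftEnv z ω) (v - z) p = lw ω v p := by rw [lw_shiftEnv, sub_add_cancel]
  have e2 : endp (v - z) p = endp v p - z := by
    rw [endp_eq_add p (v - z), endp_eq_add p v]; abel
  have e3 : (∀ y ∈ sitesL (v - z) p, lev u y < h) ↔ ∀ y ∈ sitesL v p, lev u y < lev u z + h := by
    constructor
    · intro H y hy
      have := H (y - z) ((mem_sitesL_add p (v - z) z (y - z)).1 (by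
        rw [sub_add_cancel, sub_add_cancel]; exact hy))
      rw [lev_sub'] at this; omega
    · intro H y hy
      have := H (y + z) (by
        have := (mem_sitesL_add p (v - z) z y).2 hy
        rwa [sub_add_cancel] at this)
      rw [lev_add] at this; omega
  have e4 : lev u (endp v p - z) = h ↔ lev u (endp v p) = lev u z + h := by
    rw [lev_sub']; omega
  rw [e1, e2]
  simp only [e3, e4]

open Classical in
lemma HB_le (u : Step d) (h : ℕ) (E : Finset (Site d)) (L : ℤ) (hL : 1 ≤ L) (s : ℕ)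
    (lam : ℝ≥0∞) (z : Site d) (hz : lev u z + h = L) (ω : Environment d) :
    lam * ∑' γ : List (Step d), (if γ ∈ PB u {v | lev u v ≤ 0 ∧ lev u v ≤ 1 - (s : ℤ) ∧
      lam < e0 u h E (shiftEnv z ω) (v - z)} then lw ω 0 γ else 0) ≤ FB u h E L s z ω := by
  unfold FB
  refine ville (P := PB u {v | lev u v ≤ 0 ∧ lev u v ≤ 1 - (s : ℤ) ∧
      lam < e0 u h E (shiftEnv z ω) (v - z)})
    ((pf_First 0 _).mono fun γ hγ => hγ.1) (lw ω 0) _ lam fun γ hγ => ?_
  obtain ⟨⟨⟨h1, h2, h3⟩, -⟩, h4⟩ := hγ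
  calc lam * lw ω 0 γ ≤ e0 u h E (shiftEnv z ω) (endp 0 γ - z) * lw ω 0 γ := by gcongr
    _ = ∑' p : List (Step d), (if (∀ y ∈ sitesL (endp 0 γ) p, lev u y < lev u z + h) ∧
          lev u (endp (endp 0 γ) p) = lev u z + h ∧
          (h • stepVec u - (endp (endp 0 γ) p - z)) ∈ E then lw ω 0 (γ ++ p) else 0) := by
        rw [e0_shift, ← ENNReal.tsum_mul_right]
        refine tsum_congr fun p => ?_
        rw [ite_mul, zero_mul, lw_append, mul_comm]
    _ ≤ ∑' p : List (Step d), (if γ <+: (γ ++ p) then (if (γ ++ p) ∈ TT u L s ∧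
          (h • stepVec u - (endp 0 (γ ++ p) - z)) ∈ E then lw ω 0 (γ ++ p) else 0) else 0) := by
        refine ENNReal.tsum_le_tsum fun p => ?_
        rw [if_pos (List.prefix_append γ p)]
        split_ifs with h5 h6 h6
        · exact le_refl _
        · exfalso
          refine h6 ⟨⟨?_, ?_, γ, List.prefix_append γ p, h4, h1, h2⟩, ?_⟩
          · intro y hy
            rw [NB28.sitesL_append, List.mem_append] at hy
            rcases hy with hy | hy
            · have := h4 y hy; omega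
            · have := h5.1 y hy; omega
          · rw [endp_append, h5.2.1, hz]
          · rw [endp_append]; exact h5.2.2
        · exact zero_le
        · exact le_refl _
    _ ≤ _ := ENNReal.tsum_comp_le_tsum_of_injective (f := fun p => γ ++ p)
        (fun p q hpq => List.append_cancel_left hpq) (fun ξ => if γ <+: ξ then
          (if ξ ∈ TT u L s ∧ (h • stepVec u - (endp 0 ξ - z)) ∈ E then lw ω 0 ξ else 0) else 0)
  exact le_of_eq (tsum_congr fun ξ => by ifc)

open Classical in
lemma up_le_one (u : Step d) (h : ℕ) (ω : Environment d) (z : Site d) :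
    ∑' π : List (Step d), (if IsUp u h π then lw ω z π else 0) ≤ 1 := by
  have := kraft ω z (W := {π | IsUp u h π}) (fun l hl l' hl' hp => isUp_prefix hl hl' hp)
  simpa using this

open Classical in
/-- the two parts, pointwise in the environment -/
lemma pt (u : Step d) (h : ℕ) (E : Finset (Site d)) (L : ℤ) (hL : 1 ≤ L) (s : ℕ)
    (lam M : ℝ≥0∞) (hl0 : lam ≠ 0) (hl : lam ≠ ⊤) (w : Site d → ℝ≥0∞) (hw : ∀ x, w x ≤ M)
    (z : Site d) (hz : lev u z + h = L) (ω : Environment d) :
    ∑' π : List (Step d), ∑' γ : List (Step d), (if P1 u h E π ∧ RR u s z π γ then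
      w (z + endp 0 π) * (lw ω z π * lw ω 0 γ) else 0) ≤
    FA u h E lam w z (shiftEnv z ω) + M * (lam⁻¹ * FB u h E L s z ω) := by
  set B : Set (Site d) := {v | lev u v ≤ 0 ∧ lev u v ≤ 1 - (s : ℤ) ∧
      lam < e0 u h E (shiftEnv z ω) (v - z)} with hB
  set HB : ℝ≥0∞ := ∑' γ : List (Step d), (if γ ∈ PB u B then lw ω 0 γ else 0) with hHB
  have hHBle : HB ≤ lam⁻¹ * FB u h E L s z ω := by
    have h1 : lam * HB ≤ FB u h E L s z ω := HB_le u h E L hL s lam z hz ω
    calc HB = lam⁻¹ * (lam * HB) := by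
          rw [← mul_assoc, ENNReal.inv_mul_cancel hl0 hl, one_mul]
      _ ≤ _ := by gcongr
  have hsplit : ∀ π γ, (if P1 u h E π ∧ RR u s z π γ then
      w (z + endp 0 π) * (lw ω z π * lw ω 0 γ) else 0) ≤
      (if P1 u h E π ∧ RR u s z π γ ∧ e0 u h E (shiftEnv z ω) (endp 0 γ - z) ≤ lam then
        w (z + endp 0 π) * (lw ω z π * lw ω 0 γ) else 0) +
      (if P1 u h E π ∧ RR u s z π γ ∧ lam < e0 u h E (shiftEnv z ω) (endp 0 γ - z) then
        w (z + endp 0 π) * (lw ω z π * lw ω 0 γ) else 0) := by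
    intro π γ
    by_cases h1 : P1 u h E π ∧ RR u s z π γ
    · rcases le_or_gt (e0 u h E (shiftEnv z ω) (endp 0 γ - z)) lam with h2 | h2
      · rw [if_pos h1, if_pos ⟨h1.1, h1.2, h2⟩]; exact le_self_add
      · rw [if_pos h1, if_pos (⟨h1.1, h1.2, h2⟩ : _ ∧ _ ∧ lam < _)]; exact le_add_self
    · rw [if_neg h1]; exact zero_le
  refine (ENNReal.tsum_le_tsum fun π => ENNReal.tsum_le_tsum fun γ => hsplit π γ).trans ?_
  rw [show (∑' π : List (Step d), ∑' γ : List (Step d), ((if P1 u h E π ∧ RR u s z π γ ∧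
      e0 u h E (shiftEnv z ω) (endp 0 γ - z) ≤ lam then
        w (z + endp 0 π) * (lw ω z π * lw ω 0 γ) else 0) +
      (if P1 u h E π ∧ RR u s z π γ ∧ lam < e0 u h E (shiftEnv z ω) (endp 0 γ - z) then
        w (z + endp 0 π) * (lw ω z π * lw ω 0 γ) else 0))) =
      (∑' π : List (Step d), ∑' γ : List (Step d), (if P1 u h E π ∧ RR u s z π γ ∧
      e0 u h E (shiftEnv z ω) (endp 0 γ - z) ≤ lam then
        w (z + endp 0 π) * (lw ω z π * lw ω 0 γ) else 0)) +
      ∑' π : List (Step d), ∑' γ : List (Step d),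
      (if P1 u h E π ∧ RR u s z π γ ∧ lam < e0 u h E (shiftEnv z ω) (endp 0 γ - z) then
        w (z + endp 0 π) * (lw ω z π * lw ω 0 γ) else 0) by
    rw [← ENNReal.tsum_add]
    exact tsum_congr fun π => ENNReal.tsum_add]
  refine add_le_add ?_ ?_
  · unfold FA
    refine ENNReal.tsum_le_tsum fun π => ?_
    by_cases h1 : P1 u h E π ∧ ∃ γ, γ <+: π ∧ e0 u h E (shiftEnv z ω) (endp 0 γ) ≤ lam
    · rw [if_pos h1, shift_lw]
      calc ∑' γ : List (Step d), (if P1 u h E π ∧ RR u s z π γ ∧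
            e0 u h E (shiftEnv z ω) (endp 0 γ - z) ≤ lam then
            w (z + endp 0 π) * (lw ω z π * lw ω 0 γ) else 0)
          ≤ ∑' γ : List (Step d), (w (z + endp 0 π) * lw ω z π) *
            (if γ ∈ First 0 {y | y ∈ sitesL z π} then lw ω 0 γ else 0) := by
            refine ENNReal.tsum_le_tsum fun γ => ?_
            split_ifs with h2 h3 h3
            · rw [mul_assoc]
            · exact absurd h2.2.1.1 h3
            · exact zero_le
            · exact zero_le
        _ ≤ (w (z + endp 0 π) * lw ω z π) * 1 := by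
            rw [ENNReal.tsum_mul_left]
            gcongr
            exact kraft ω 0 (pf_First 0 _)
        _ = _ := mul_one _
    · rw [if_neg h1]
      refine le_of_eq (ENNReal.tsum_eq_zero.2 fun γ => ?_)
      rw [if_neg]
      rintro ⟨h2, h3, h4⟩
      refine h1 ⟨h2, ?_⟩
      have h5 : endp 0 γ ∈ sitesL z π := h3.1.1
      obtain ⟨γ', h6, -, h7⟩ := (mem_sitesL_pre _ _ _).1 h5
      refine ⟨γ', h6, ?_⟩
      have h8 : endp 0 γ' = endp 0 γ - z := by rw [← h7, endp_z z γ']; abel
      rw [h8]; exact h4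
  · have hπ : ∀ π : List (Step d), ∑' γ : List (Step d),
        (if P1 u h E π ∧ RR u s z π γ ∧ lam < e0 u h E (shiftEnv z ω) (endp 0 γ - z) then
        w (z + endp 0 π) * (lw ω z π * lw ω 0 γ) else 0) ≤
        (M * HB) * (if IsUp u h π then lw ω z π else 0) := by
      intro π
      by_cases h1 : P1 u h E π
      · rw [if_pos h1.1]
        calc ∑' γ : List (Step d), (if P1 u h E π ∧ RR u s z π γ ∧
              lam < e0 u h E (shiftEnv z ω) (endp 0 γ - z) then
              w (z + endp 0 π) * (lw ω z π * lw ω 0 γ) else 0)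
            ≤ ∑' γ : List (Step d), (M * lw ω z π) * (if γ ∈ RG u h E s lam z π ω
              then lw ω 0 γ else 0) := by
              refine ENNReal.tsum_le_tsum fun γ => ?_
              by_cases h2 : RR u s z π γ ∧ lam < e0 u h E (shiftEnv z ω) (endp 0 γ - z)
              · rw [if_pos ⟨h1, h2⟩, if_pos (show γ ∈ RG u h E s lam z π ω from h2), ← mul_assoc]
                gcongr
                exact hw _
              · rw [if_neg fun h3 => h2 h3.2]; exact zero_le
          _ ≤ (M * lw ω z π) * HB := by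
              rw [ENNReal.tsum_mul_left]
              gcongr
              refine ke ω 0 (W := RG u h E s lam z π ω) (P := PB u B)
                ((pf_First 0 {y | y ∈ sitesL z π}).mono fun γ hγ => hγ.1.1) ?_
              rintro γ ⟨⟨h3, h4, h5, h6⟩, h7⟩
              obtain ⟨γ0, h8, h9⟩ := exists_First 0 B γ ⟨γ, List.prefix_rfl, h5, h6, h7⟩
              refine ⟨γ0, ⟨h8, fun y hy => h4 y ?_⟩, h9⟩
              obtain ⟨t, rfl⟩ := h9
              rw [NB28.sitesL_append, List.mem_append]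
              exact Or.inl hy
          _ = (M * HB) * lw ω z π := by ring
      · refine (le_of_eq (ENNReal.tsum_eq_zero.2 fun γ => ?_)).trans zero_le
        rw [if_neg fun h2 => h1 h2.1]
    calc _ ≤ ∑' π : List (Step d), (M * HB) * (if IsUp u h π then lw ω z π else 0) :=
          ENNReal.tsum_le_tsum hπ
      _ ≤ (M * HB) * 1 := by
          rw [ENNReal.tsum_mul_left]
          gcongr
          exact up_le_one u h ω z
      _ ≤ _ := by rw [mul_one]; gcongr

/-! ### integration -/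

section main

variable (ν : Measure (Row d)) [IsProbabilityMeasure ν]

lemma measurable_FA (u : Step d) (h : ℕ) (E : Finset (Site d)) (lam : ℝ≥0∞)
    (w : Site d → ℝ≥0∞) (z : Site d) : Measurable (FA u h E lam w z) := by
  unfold FA
  refine Measurable.ennreal_tsum fun π => ?_
  refine Measurable.ite ?_ ((measurable_lw 0 π).const_mul _) measurable_const
  have e : {ω : Environment d | P1 u h E π ∧ ∃ γ, γ <+: π ∧ e0 u h E ω (endp 0 γ) ≤ lam} =
      {_ω | P1 u h E π} ∩ ⋃ γ : List (Step d), ({_ω | γ <+: π} ∩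
        {ω | e0 u h E ω (endp 0 γ) ≤ lam}) := by
    ext ω; simp
  rw [e]
  exact (MeasurableSet.const _).inter (MeasurableSet.iUnion fun γ =>
    (MeasurableSet.const _).inter (measurableSet_le (measurable_e0 u h E _) measurable_const))

open Classical in
lemma measurable_FB (u : Step d) (h : ℕ) (E : Finset (Site d)) (L : ℤ) (s : ℕ) (z : Site d) :
    Measurable (FB u h E L s z) := by
  unfold FB
  refine Measurable.ennreal_tsum fun ξ => ?_
  split_ifs
  · exact measurable_lw 0 ξ
  · exact measurable_const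

open Classical in
lemma bad_up (u : Step d) (h : ℕ) (E : Finset (Site d)) (lam : ℝ≥0∞) (ω : Environment d) :
    ∑' π : List (Step d), (if P1 u h E π ∧ ∃ γ, γ <+: π ∧ e0 u h E ω (endp 0 γ) ≤ lam
      then lw ω 0 π else 0) ≤ lam := by
  refine le_trans (le_of_eq (tsum_congr fun π => ?_))
    (bad_le ω 0 {π | P1 u h E π} {v | e0 u h E ω v ≤ lam}
      (fun v => {p | (∀ y ∈ sitesL v p, lev u y < h) ∧ lev u (endp v p) = h ∧
        (h • stepVec u - endp v p) ∈ E}) lam ?_ ?_)
  · by_cases h1 : P1 u h E π ∧ ∃ γ, γ <+: π ∧ e0 u h E ω (endp 0 γ) ≤ lam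
    · rw [if_pos h1]; exact (if_pos h1).symm
    · rw [if_neg h1]; exact (if_neg h1).symm
  · rintro γ ρ2 ⟨⟨h1, h2⟩, h3⟩
    rw [endp_append] at h2 h3
    refine ⟨fun y hy => (h1 y ?_).2, h2, h3⟩
    rw [NB28.sitesL_append, List.mem_append]
    exact Or.inr hy
  · intro v hv
    refine le_trans (le_of_eq ?_) (show e0 u h E ω v ≤ lam from hv)
    unfold e0
    refine tsum_congr fun p => ?_
    by_cases h1 : (∀ y ∈ sitesL v p, lev u y < h) ∧ lev u (endp v p) = h ∧
        (h • stepVec u - endp v p) ∈ E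
    · rw [if_pos h1]; exact if_pos h1
    · rw [if_neg h1]; exact if_neg h1

lemma sum_FA (u : Step d) (h : ℕ) (E : Finset (Site d)) (lam : ℝ≥0∞)
    (w : Site d → ℝ≥0∞) (hw : ∑' x, w x ≤ 1) :
    ∑' z, ∫⁻ ω, FA u h E lam w z (shiftEnv z ω) ∂(iidEnvironmentLaw ν) ≤ lam := by
  classical
  have h1 : ∀ z, ∫⁻ ω, FA u h E lam w z (shiftEnv z ω) ∂(iidEnvironmentLaw ν) =
      ∑' π : List (Step d), w (z + endp 0 π) * ∫⁻ ω, (if P1 u h E π ∧
        ∃ γ, γ <+: π ∧ e0 u h E ω (endp 0 γ) ≤ lam then lw ω 0 π else 0)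
          ∂(iidEnvironmentLaw ν) := by
    intro z
    rw [(Q561.iid_shift ν z).lintegral_comp (measurable_FA u h E lam w z)]
    unfold FA
    have hm : ∀ π : List (Step d), Measurable fun ω : Environment d => (if P1 u h E π ∧
        ∃ γ, γ <+: π ∧ e0 u h E ω (endp 0 γ) ≤ lam then lw ω 0 π else 0) := by
      intro π
      refine Measurable.ite ?_ (measurable_lw 0 π) measurable_const
      have e : {ω : Environment d | P1 u h E π ∧ ∃ γ, γ <+: π ∧ e0 u h E ω (endp 0 γ) ≤ lam} =
          {_ω | P1 u h E π} ∩ ⋃ γ : List (Step d), ({_ω | γ <+: π} ∩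
            {ω | e0 u h E ω (endp 0 γ) ≤ lam}) := by
        ext ω; simp
      rw [e]
      exact (MeasurableSet.const _).inter (MeasurableSet.iUnion fun γ =>
        (MeasurableSet.const _).inter (measurableSet_le (measurable_e0 u h E _) measurable_const))
    have e2 : ∀ π : List (Step d), ∀ ω : Environment d, (if P1 u h E π ∧
        ∃ γ, γ <+: π ∧ e0 u h E ω (endp 0 γ) ≤ lam then w (z + endp 0 π) * lw ω 0 π else 0) =
        w (z + endp 0 π) * (if P1 u h E π ∧
        ∃ γ, γ <+: π ∧ e0 u h E ω (endp 0 γ) ≤ lam then lw ω 0 π else 0) := by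
      intro π ω
      split_ifs <;> simp
    simp only [e2]
    rw [lintegral_tsum fun π => ((hm π).const_mul _).aemeasurable]
    exact tsum_congr fun π => lintegral_const_mul _ (hm π)
  simp only [h1]
  rw [ENNReal.tsum_comm]
  have h2 : ∀ π : List (Step d), ∑' z : Site d, w (z + endp 0 π) ≤ 1 := by
    intro π
    have := (Equiv.addRight (endp 0 π)).tsum_eq w
    simp only [Equiv.coe_addRight] at this
    rw [this]; exact hw
  calc ∑' (π : List (Step d)) (z : Site d), w (z + endp 0 π) * ∫⁻ ω, (if P1 u h E π ∧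
        ∃ γ, γ <+: π ∧ e0 u h E ω (endp 0 γ) ≤ lam then lw ω 0 π else 0)
          ∂(iidEnvironmentLaw ν)
      ≤ ∑' (π : List (Step d)), ∫⁻ ω, (if P1 u h E π ∧
        ∃ γ, γ <+: π ∧ e0 u h E ω (endp 0 γ) ≤ lam then lw ω 0 π else 0)
          ∂(iidEnvironmentLaw ν) := by
        refine ENNReal.tsum_le_tsum fun π => ?_
        rw [ENNReal.tsum_mul_right]
        calc _ ≤ 1 * _ := mul_le_mul_left (h2 π) _
          _ = _ := one_mul _
    _ = ∫⁻ ω, ∑' (π : List (Step d)), (if P1 u h E π ∧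
        ∃ γ, γ <+: π ∧ e0 u h E ω (endp 0 γ) ≤ lam then lw ω 0 π else 0)
          ∂(iidEnvironmentLaw ν) := by
        refine (lintegral_tsum fun π => ?_).symm
        refine (Measurable.ite ?_ (measurable_lw 0 π) measurable_const).aemeasurable
        have e : {ω : Environment d | P1 u h E π ∧ ∃ γ, γ <+: π ∧ e0 u h E ω (endp 0 γ) ≤ lam} =
            {_ω | P1 u h E π} ∩ ⋃ γ : List (Step d), ({_ω | γ <+: π} ∩
              {ω | e0 u h E ω (endp 0 γ) ≤ lam}) := by
          ext ω; simp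
        rw [e]
        exact (MeasurableSet.const _).inter (MeasurableSet.iUnion fun γ =>
          (MeasurableSet.const _).inter (measurableSet_le (measurable_e0 u h E _)
            measurable_const))
    _ ≤ ∫⁻ _, lam ∂(iidEnvironmentLaw ν) := lintegral_mono fun ω => bad_up u h E lam ω
    _ = lam := by simp

open Classical in
lemma sum_TT (u : Step d) (L : ℤ) (hL : 1 ≤ L) (s : ℕ) :
    ∑' ξ, (if ξ ∈ TT u L s then aw ν ξ else 0) ≤ us ν u s := by
  have e1 : ∀ (S : Set (List (Step d))), ∑' ξ, (if ξ ∈ S then aw ν ξ else 0) =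
      ∫⁻ ω, ∑' ξ, (if ξ ∈ S then lw ω 0 ξ else 0) ∂(iidEnvironmentLaw ν) := by
    intro S
    rw [lintegral_tsum fun ξ => ?_]
    · refine tsum_congr fun ξ => ?_
      split_ifs
      · rfl
      · simp
    · split_ifs
      · exact (measurable_lw 0 ξ).aemeasurable
      · exact aemeasurable_const
  rw [e1]
  calc _ ≤ ∫⁻ ω, ∑' ξ, (if ξ ∈ T1 u s then lw ω 0 ξ else 0) ∂(iidEnvironmentLaw ν) :=
        lintegral_mono fun ω => TT_le ν u L hL s ω
    _ = _ := by
        rw [← e1]; unfold us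
        refine tsum_congr fun ξ => ?_
        by_cases h1 : ξ ∈ T1 u s
        · rw [if_pos h1]; exact (if_pos h1).symm
        · rw [if_neg h1]; exact (if_neg h1).symm

lemma sum_FB (u : Step d) (h : ℕ) (E : Finset (Site d)) (L : ℤ) (hL : 1 ≤ L) (s : ℕ) :
    ∑' z, ∫⁻ ω, FB u h E L s z ω ∂(iidEnvironmentLaw ν) ≤ E.card * us ν u s := by
  classical
  have h1 : ∀ z, ∫⁻ ω, FB u h E L s z ω ∂(iidEnvironmentLaw ν) =
      ∑' ξ : List (Step d), (if (h • stepVec u - (endp 0 ξ - z)) ∈ E then 1 else 0) *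
        (if ξ ∈ TT u L s then aw ν ξ else 0) := by
    intro z
    unfold FB
    rw [lintegral_tsum fun ξ => ?_]
    · refine tsum_congr fun ξ => ?_
      by_cases h2 : ξ ∈ TT u L s
      · by_cases h3 : (h • stepVec u - (endp 0 ξ - z)) ∈ E
        · simp only [h2, h3, and_self, if_true, one_mul]; rfl
        · simp only [h2, h3, and_false, if_false, zero_mul, lintegral_zero]
      · simp only [h2, false_and, if_false, mul_zero, lintegral_zero]
    · split_ifs
      · exact (measurable_lw 0 ξ).aemeasurable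
      · exact aemeasurable_const
  simp only [h1]
  rw [ENNReal.tsum_comm]
  have h2 : ∀ ξ : List (Step d), ∑' z : Site d,
      (if (h • stepVec u - (endp 0 ξ - z)) ∈ E then (1 : ℝ≥0∞) else 0) = E.card := by
    intro ξ
    have h3 := (Equiv.addLeft (h • stepVec u - endp 0 ξ)).tsum_eq
      (fun z : Site d => if z ∈ E then (1 : ℝ≥0∞) else 0)
    simp only [Equiv.coe_addLeft] at h3
    refine (tsum_congr fun z => ?_).trans (h3.trans ?_)
    · have hz' : h • stepVec u - (endp 0 ξ - z) = h • stepVec u - endp 0 ξ + z := by abel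
      by_cases hE : (h • stepVec u - endp 0 ξ + z) ∈ E
      · rw [if_pos (hz' ▸ hE)]; exact (if_pos hE).symm
      · rw [if_neg (hz' ▸ hE)]; exact (if_neg hE).symm
    · rw [tsum_eq_sum (s := E) (fun z hz => by simp [hz])]
      simp
  calc _ = ∑' ξ : List (Step d), (E.card : ℝ≥0∞) * (if ξ ∈ TT u L s then aw ν ξ else 0) := by
        refine tsum_congr fun ξ => ?_
        rw [ENNReal.tsum_mul_right, h2]
    _ ≤ _ := by
        rw [ENNReal.tsum_mul_left]
        gcongr
        exact sum_TT ν u L hL s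

end main

/-! ### the inequality, `X` from `z`, `Y` from `0` -/

section win

variable (ν : Measure (Row d)) [IsProbabilityMeasure ν]

open Classical in
lemma aw_int (S : Set (List (Step d))) : ∑' ξ, (if ξ ∈ S then aw ν ξ else 0) =
    ∫⁻ ω, ∑' ξ, (if ξ ∈ S then lw ω 0 ξ else 0) ∂(iidEnvironmentLaw ν) := by
  rw [lintegral_tsum fun ξ => ?_]
  · refine tsum_congr fun ξ => ?_
    split_ifs
    · rfl
    · simp
  · split_ifs
    · exact (measurable_lw 0 ξ).aemeasurable
    · exact aemeasurable_const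

open Classical in
lemma ke_aw {W P : Set (List (Step d))} (hW : PF W) (hd : ∀ ρ ∈ W, ∃ γ ∈ P, γ <+: ρ) :
    ∑' ρ, (if ρ ∈ W then aw ν ρ else 0) ≤ ∑' γ, (if γ ∈ P then aw ν γ else 0) := by
  rw [aw_int, aw_int]
  exact lintegral_mono fun ω => ke ω 0 hW hd

/-- the down words of the event -/
def WY (u : Step d) (h' s : ℕ) (z : Site d) (π : List (Step d)) : Set (List (Step d)) :=
  {γ | IsDn u h' γ ∧ (∃ y, y ∈ sitesL z π ∧ y ∈ sitesL 0 γ) ∧
    (∀ y, y ∈ sitesL z π → y ∈ sitesL 0 γ → lev u y ≤ 1 - (s : ℤ))}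

/-- first hits -/
def WR (u : Step d) (s : ℕ) (z : Site d) (π : List (Step d)) : Set (List (Step d)) :=
  {γ | RR u s z π γ}

open Classical in
lemma Y_le (u : Step d) (h' s : ℕ) (z : Site d) (π : List (Step d)) :
    ∑' γ, (if γ ∈ WY u h' s z π then aw ν γ else 0) ≤
    ∑' γ, (if γ ∈ WR u s z π then aw ν γ else 0) := by
  refine ke_aw ν (fun l hl l' hl' hp => isDn_prefix hl.1 hl'.1 hp) ?_
  rintro γ ⟨h1, ⟨y, h2, h3⟩, h4⟩
  obtain ⟨γ', h5, h6, h7⟩ := (mem_sitesL_pre _ _ _).1 h3
  obtain ⟨τ, h8, h9⟩ := exists_First 0 {y | y ∈ sitesL z π} γ ⟨γ', h5, by rw [h7]; exact h2⟩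
  have hne : τ ≠ γ := by
    rintro rfl
    exact h8.2 γ' h5 h6 (by rw [h7]; exact h2)
  have hs : endp 0 τ ∈ sitesL 0 γ := (mem_sitesL_pre _ _ _).2 ⟨τ, h9, hne, rfl⟩
  refine ⟨τ, ⟨h8, ?_, (h1.1 _ hs).2, h4 _ h8.1 hs⟩, h9⟩
  intro y' hy'
  refine (h1.1 y' ?_).2
  obtain ⟨t, rfl⟩ := h9
  rw [NB28.sitesL_append, List.mem_append]
  exact Or.inl hy'

lemma mul_int {u : Step d} {s : ℕ} {z : Site d} {π γ : List (Step d)} (h : RR u s z π γ) :
    aw ν π * aw ν γ = ∫⁻ ω, lw ω z π * lw ω 0 γ ∂(iidEnvironmentLaw ν) := by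
  rw [lint_mul ν z 0 π γ]
  intro y hy hy'
  obtain ⟨γ', h1, h2, h3⟩ := (mem_sitesL_pre _ _ _).1 hy'
  exact h.1.2 γ' h1 h2 (by rw [h3]; exact hy)

open Classical in
theorem win2z (u : Step d) (h h' s : ℕ) (E : Finset (Site d)) (L : ℤ) (hL : 1 ≤ L)
    (lam M : ℝ≥0∞) (hl0 : lam ≠ 0) (hl : lam ≠ ⊤) (w : Site d → ℝ≥0∞) (hw1 : ∑' x, w x ≤ 1)
    (hw : ∀ x, w x ≤ M) :
    ∑' z : Site d, ∑' π : List (Step d), ∑' γ : List (Step d),
      (if lev u z + h = L ∧ P1 u h E π ∧ γ ∈ WY u h' s z π then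
        w (z + endp 0 π) * (aw ν π * aw ν γ) else 0) ≤
      lam + M * (lam⁻¹ * (E.card * us ν u s)) := by
  have hm : ∀ z (π γ : List (Step d)), Measurable fun ω : Environment d =>
      (if P1 u h E π ∧ RR u s z π γ then w (z + endp 0 π) * (lw ω z π * lw ω 0 γ) else 0) := by
    intro z π γ
    split_ifs
    · exact ((measurable_lw z π).mul (measurable_lw 0 γ)).const_mul _
    · exact measurable_const
  have h1 : ∀ z, ∑' π : List (Step d), ∑' γ : List (Step d),
      (if lev u z + h = L ∧ P1 u h E π ∧ γ ∈ WY u h' s z π then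
        w (z + endp 0 π) * (aw ν π * aw ν γ) else 0) ≤
      ∫⁻ ω, FA u h E lam w z (shiftEnv z ω) ∂(iidEnvironmentLaw ν) +
      M * (lam⁻¹ * ∫⁻ ω, FB u h E L s z ω ∂(iidEnvironmentLaw ν)) := by
    intro z
    by_cases hz : lev u z + h = L
    · calc ∑' π : List (Step d), ∑' γ : List (Step d),
            (if lev u z + h = L ∧ P1 u h E π ∧ γ ∈ WY u h' s z π then
              w (z + endp 0 π) * (aw ν π * aw ν γ) else 0)
          ≤ ∑' π : List (Step d), ∑' γ : List (Step d),
            (if P1 u h E π ∧ RR u s z π γ then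
              w (z + endp 0 π) * (aw ν π * aw ν γ) else 0) := by
            refine ENNReal.tsum_le_tsum fun π => ?_
            by_cases hπ : P1 u h E π
            · calc _ = ∑' γ : List (Step d), (w (z + endp 0 π) * aw ν π) *
                    (if γ ∈ WY u h' s z π then aw ν γ else 0) := by
                    refine tsum_congr fun γ => ?_
                    by_cases h2 : γ ∈ WY u h' s z π
                    · rw [if_pos ⟨hz, hπ, h2⟩, if_pos h2, mul_assoc]
                    · rw [if_neg fun h3 => h2 h3.2.2, if_neg h2, mul_zero]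
                _ ≤ ∑' γ : List (Step d), (w (z + endp 0 π) * aw ν π) *
                    (if γ ∈ WR u s z π then aw ν γ else 0) := by
                    rw [ENNReal.tsum_mul_left, ENNReal.tsum_mul_left]
                    exact mul_le_mul' le_rfl (Y_le ν u h' s z π)
                _ = _ := by
                    refine tsum_congr fun γ => ?_
                    by_cases h2 : RR u s z π γ
                    · rw [if_pos (show γ ∈ WR u s z π from h2), if_pos ⟨hπ, h2⟩, mul_assoc]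
                    · rw [if_neg (show γ ∉ WR u s z π from h2), if_neg fun h3 => h2 h3.2, mul_zero]
            · refine (le_of_eq (ENNReal.tsum_eq_zero.2 fun γ => ?_)).trans zero_le
              rw [if_neg fun h2 => hπ h2.2.1]
        _ = ∑' π : List (Step d), ∑' γ : List (Step d), ∫⁻ ω, (if P1 u h E π ∧ RR u s z π γ then
              w (z + endp 0 π) * (lw ω z π * lw ω 0 γ) else 0) ∂(iidEnvironmentLaw ν) := by
            refine tsum_congr fun π => tsum_congr fun γ => ?_
            by_cases h2 : P1 u h E π ∧ RR u s z π γ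
            · simp only [if_pos h2]
              rw [mul_int ν h2.2, lintegral_const_mul]
              exact (measurable_lw z π).mul (measurable_lw 0 γ)
            · simp only [if_neg h2, lintegral_zero]
        _ = ∫⁻ ω, ∑' π : List (Step d), ∑' γ : List (Step d), (if P1 u h E π ∧ RR u s z π γ then
              w (z + endp 0 π) * (lw ω z π * lw ω 0 γ) else 0) ∂(iidEnvironmentLaw ν) := by
            rw [lintegral_tsum fun π => (Measurable.ennreal_tsum fun γ => hm z π γ).aemeasurable]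
            refine tsum_congr fun π => ?_
            rw [lintegral_tsum fun γ => (hm z π γ).aemeasurable]
        _ ≤ ∫⁻ ω, (FA u h E lam w z (shiftEnv z ω) + M * (lam⁻¹ * FB u h E L s z ω))
              ∂(iidEnvironmentLaw ν) :=
            lintegral_mono fun ω => pt u h E L hL s lam M hl0 hl w hw z hz ω
        _ = _ := by
            rw [lintegral_add_right _ (((measurable_FB u h E L s z).const_mul _).const_mul _),
              lintegral_const_mul _ ((measurable_FB u h E L s z).const_mul _),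
              lintegral_const_mul _ (measurable_FB u h E L s z)]
    · refine (le_of_eq (ENNReal.tsum_eq_zero.2 fun π => ENNReal.tsum_eq_zero.2 fun γ => ?_)).trans
        zero_le
      rw [if_neg fun h2 => hz h2.1]
  calc _ ≤ ∑' z, (∫⁻ ω, FA u h E lam w z (shiftEnv z ω) ∂(iidEnvironmentLaw ν) +
      M * (lam⁻¹ * ∫⁻ ω, FB u h E L s z ω ∂(iidEnvironmentLaw ν))) :=
        ENNReal.tsum_le_tsum h1
    _ ≤ _ := by
        rw [ENNReal.tsum_add, ENNReal.tsum_mul_left, ENNReal.tsum_mul_left]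
        gcongr
        · exact sum_FA ν u h E lam w hw1
        · exact sum_FB ν u h E L hL s

end win


/-! ### the literal of the binder (helper419's `H2W`, with `a ≤ a'`) -/

section lit

variable (ν : Measure (Row d)) [IsProbabilityMeasure ν]

lemma lev_smul_u (u : Step d) (k : ℕ) : lev u (k • stepVec u) = k := by
  rw [KWB419.levM, KWB419.levU, mul_one]

open Classical in
theorem h2w (u : Step d) (s h h' a a' lo : ℕ) (E : Finset (Site d)) (μ : Site d → ℝ≥0∞)
    (M lam : ℝ≥0∞) (hμ : ∑' x, μ x ≤ 1) (hM : ∀ x, μ x ≤ M) (hl0 : lam ≠ 0) (hl : lam ≠ ⊤)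
    (haa : a ≤ a') (hlo : a' + s ≤ lo) :
    ∑' x, μ x * (∑' π, ∑' γ, if lev u x = 0 ∧ IsUp u h π ∧ IsDn u h' γ ∧
      (h • stepVec u - endp 0 π) ∈ E ∧ (∃ y, KWB419.Ct u π γ x a a' y) ∧
      (∀ y, KWB419.Ct u π γ x a a' y → (lo : ℤ) ≤ -lev u y) then aw ν π * aw ν γ else 0)
      ≤ lam + M * (lam⁻¹ * (E.card * us ν u s)) := by
  set c0 : Site d := (a' + 1) • stepVec u - a • stepVec u with hc0
  have hlc : lev u c0 = (a' : ℤ) + 1 - a := by
    rw [hc0, lev_sub', lev_smul_u, lev_smul_u]; push_cast; ring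
  have hL : (1 : ℤ) ≤ (a' : ℤ) + 1 - a := by omega
  have hw1 : ∑' t, μ (c0 - t) ≤ 1 := by
    have := (Equiv.subLeft c0).tsum_eq μ
    simp only [Equiv.subLeft_apply] at this
    rw [this]; exact hμ
  refine le_trans ?_ (win2z ν u h h' s E ((a' : ℤ) + 1 - a) hL lam M hl0 hl (fun t => μ (c0 - t))
    hw1 (fun t => hM _))
  have e1 : ∀ x, μ x * (∑' π, ∑' γ, if lev u x = 0 ∧ IsUp u h π ∧ IsDn u h' γ ∧
      (h • stepVec u - endp 0 π) ∈ E ∧ (∃ y, KWB419.Ct u π γ x a a' y) ∧
      (∀ y, KWB419.Ct u π γ x a a' y → (lo : ℤ) ≤ -lev u y) then aw ν π * aw ν γ else 0) =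
      ∑' π, ∑' γ, (if lev u x = 0 ∧ IsUp u h π ∧ IsDn u h' γ ∧
      (h • stepVec u - endp 0 π) ∈ E ∧ (∃ y, KWB419.Ct u π γ x a a' y) ∧
      (∀ y, KWB419.Ct u π γ x a a' y → (lo : ℤ) ≤ -lev u y) then μ x * (aw ν π * aw ν γ) else 0) := by
    intro x
    rw [← ENNReal.tsum_mul_left]
    refine tsum_congr fun π => ?_
    rw [← ENNReal.tsum_mul_left]
    refine tsum_congr fun γ => ?_
    rw [mul_ite, mul_zero]
  rw [tsum_congr e1, ENNReal.tsum_comm,
    ENNReal.tsum_comm (f := fun (z : Site d) (π : List (Step d)) => ∑' γ : List (Step d), _)]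
  refine ENNReal.tsum_le_tsum fun π => ?_
  rw [ENNReal.tsum_comm, ENNReal.tsum_comm (f := fun (z : Site d) (γ : List (Step d)) => _)]
  refine ENNReal.tsum_le_tsum fun γ => ?_
  rw [← (Equiv.subLeft (c0 - endp 0 π)).tsum_eq]
  refine ENNReal.tsum_le_tsum fun z => ?_
  simp only [Equiv.subLeft_apply]
  by_cases hc : lev u (c0 - endp 0 π - z) = 0 ∧ IsUp u h π ∧ IsDn u h' γ ∧
      (h • stepVec u - endp 0 π) ∈ E ∧ (∃ y, KWB419.Ct u π γ (c0 - endp 0 π - z) a a' y) ∧
      (∀ y, KWB419.Ct u π γ (c0 - endp 0 π - z) a a' y → (lo : ℤ) ≤ -lev u y)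
  · rw [if_pos hc]
    obtain ⟨h1, h2, h3, h4, ⟨y, h5⟩, h6⟩ := hc
    have hz : lev u z + h = (a' : ℤ) + 1 - a := by
      rw [lev_sub', lev_sub', hlc, h2.2] at h1; omega
    -- the common translation
    set q : Site d := c0 - endp 0 π - z - (a' + 1) • stepVec u with hq
    have hlq : lev u q = -((a' : ℤ) + 1) := by
      rw [hq, lev_sub', h1, lev_smul_u]; push_cast; ring
    have hqz : -endp 0 π - a • stepVec u = z + q := by rw [hq, hc0]; abel
    have hct : ∀ y, KWB419.Ct u π γ (c0 - endp 0 π - z) a a' (y + q) ↔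
        (y ∈ sitesL z π ∧ y ∈ sitesL 0 γ) := by
      intro y
      unfold KWB419.Ct
      rw [hqz, ← hq, mem_sitesL_add π z q y]
      have := mem_sitesL_add γ 0 q y
      rw [zero_add] at this
      rw [this]
    have hY : γ ∈ WY u h' s z π := by
      refine ⟨h3, ⟨y - q, (hct _).1 (by rw [sub_add_cancel]; exact h5)⟩, fun y' hy1 hy2 => ?_⟩
      have h7 := h6 (y' + q) ((hct y').2 ⟨hy1, hy2⟩)
      rw [lev_add, hlq] at h7
      omega
    rw [if_pos ⟨hz, ⟨h2, h4⟩, hY⟩]
    refine le_of_eq ?_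
    congr 2
    abel
  · rw [if_neg hc]; exact zero_le

end lit

end Crest.Agent.R154.H2w96
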