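import Crest.Agent.R154.WLit_763
import Crest.Agent.R154.Win_775
import Crest.Agent.R154.Us_109
import Crest.Agent.R154.NBSurg_28

/-! Row 154, ROAD 801 (helper658): 763's `H3P` (strict clause) from 775's window lemma `win3`. -/

set_option autoImplicit false

namespace Crest.Agent.R154.H3P658

open MeasureTheory ProbabilityTheory Crest.ProbabilityR.RandomEnvironment Crest.Agent.R154
open Crest.Agent.R154.Flux132 (lev opp lev_add lev_neg lev_zero)
open Crest.Agent.R154.Flux566 (lw endp sitesL endp_append endp_eq_add Fol)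
open Crest.Agent.R154.NB28 Crest.Agent.R154.Kal132 Crest.Agent.R154.B2d
open Filter
open scoped ENNReal Topology

variable {d : ℕ}

/-! ### returns, no naturality -/

/-- climb to height `s`, then a return to a level `≤ i0` -/
def Ret2 (u : Step d) (i0 : ℤ) (s : ℕ) : Set (Path d) :=
  {X | ∃ a, (s : ℤ) ≤ lev u (X a) ∧ ∃ b, a ≤ b ∧ lev u (X b) ≤ i0}

lemma ret2_anti (u : Step d) (i0 : ℤ) : Antitone (Ret2 u i0) := by
  intro s s' h X hX
  obtain ⟨a, h2, h3⟩ := hX
  exact ⟨a, le_trans (by exact_mod_cast h) h2, h3⟩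

lemma measurableSet_ret2 (u : Step d) (i0 : ℤ) (s : ℕ) : MeasurableSet (Ret2 u i0 s) := by
  have e : Ret2 u i0 s = ⋃ a : ℕ, ({X : Path d | lev u (X a) ∈ Set.Ici (s : ℤ)}
      ∩ ⋃ b : ℕ, ⋃ (_ : a ≤ b), {X : Path d | lev u (X b) ∈ Set.Iic i0}) := by
    ext X
    simp [Ret2]
  rw [e]
  refine MeasurableSet.iUnion fun a => (Flux132.measurableSet_lev u a _).inter ?_
  exact MeasurableSet.iUnion fun b => MeasurableSet.iUnion fun _ => Flux132.measurableSet_lev u b _

lemma bdd_prefix (u : Step d) (X : Path d) (T : ℕ) : ∃ M : ℕ, ∀ j, j ≤ T → lev u (X j) < M := by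
  refine ⟨(Finset.range (T + 1)).sup (fun j => (lev u (X j)).toNat) + 1, fun j hj => ?_⟩
  have h1 : (lev u (X j)).toNat ≤ (Finset.range (T + 1)).sup (fun j => (lev u (X j)).toNat) :=
    Finset.le_sup (f := fun j => (lev u (X j)).toNat) (Finset.mem_range.2 (by omega))
  have := Int.self_le_toNat (lev u (X j))
  push_cast
  omega

lemma notMem_iInter2 (u : Step d) (i0 : ℤ) (X : Path d)
    (hX : X ∈ escapeEvent (dirVec u) ∨ X ∈ escapeEvent (-dirVec u)) :
    X ∉ ⋂ s, Ret2 u i0 s := by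
  intro h
  rw [Set.mem_iInter] at h
  rcases hX with hX | hX
  · rw [mem_escape_iff] at hX
    obtain ⟨T, hT⟩ := (tendsto_atTop.1 hX ((i0 : ℝ) + 1)).exists_forall_of_atTop
    obtain ⟨M, hM⟩ := bdd_prefix u X T
    obtain ⟨a, ha, b, hab, hb⟩ := h M
    have hTa : T < a := by
      by_contra hc
      have := hM a (by omega)
      omega
    have := hT b (by omega)
    rw [Us475.L_dirVec] at this
    have hb' : (lev u (X b) : ℝ) ≤ i0 := by exact_mod_cast hb
    linarith
  · rw [mem_escape_iff] at hX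
    obtain ⟨T, hT⟩ := (tendsto_atTop.1 hX 1).exists_forall_of_atTop
    obtain ⟨M, hM⟩ := bdd_prefix u X T
    obtain ⟨a, ha, -⟩ := h M
    have hTa : T < a := by
      by_contra hc
      have := hM a (by omega)
      omega
    have hT' := hT a (by omega)
    rw [L_neg, Us475.L_dirVec] at hT'
    have hlt : lev u (X a) < 0 := by
      have : (lev u (X a) : ℝ) < 0 := by linarith
      exact_mod_cast this
    omega

theorem ret2_tendsto (ν : Measure (Row d)) [IsProbabilityMeasure ν]
    (hν : ∀ᵐ p ∂ν, ∀ e : Step d, 0 < p.1 e) (u : Step d)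
    (h : annealed (iidEnvironmentLaw ν) 0 (escapeEvent (dirVec u)) ≠ 0) (i0 : ℤ) :
    Tendsto (fun s : ℕ => annealed (iidEnvironmentLaw ν) 0 (Ret2 u i0 s)) atTop (𝓝 0) := by
  have hk := kalikow_ae (Q561.iid_shift ν) (slabProp_iid ν hν) (dirVec u) (dirVec_ne_zero u)
    (retry_iid ν (dirVec u) (dirVec_ne_zero u)) h
  have h0 : annealed (iidEnvironmentLaw ν) 0 (⋂ s, Ret2 u i0 s) = 0 := by
    rw [measure_eq_zero_iff_ae_notMem]
    filter_upwards [hk] with X hX
    exact notMem_iInter2 u i0 X hX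
  have h1 := tendsto_measure_iInter_atTop (μ := annealed (iidEnvironmentLaw ν) (0 : Site d))
    (s := Ret2 u i0) (fun s => (measurableSet_ret2 u i0 s).nullMeasurableSet) (ret2_anti u i0)
    ⟨0, measure_ne_top _ _⟩
  rw [h0] at h1
  exact h1

lemma fol_mem (l : List (Step d)) : ∀ (X : Path d), X ∈ Fol l Set.univ →
    ∀ y ∈ sitesL (X 0) l, ∃ k, k < l.length ∧ X k = y := by
  induction l with
  | nil => intro X _ y hy; simp [sitesL] at hy
  | cons e l ih =>
    intro X h y hy
    obtain ⟨a1, a2⟩ := h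
    simp only [sitesL, List.mem_cons] at hy
    rcases hy with rfl | hy
    · exact ⟨0, by simp, rfl⟩
    · have h3 := ih (shift 1 X) a2 y (by
        have : shift 1 X 0 = X 0 + stepVec e := by
          rw [← a1]; simp [shift]
        rw [this]; exact hy)
      obtain ⟨k, hk, hk2⟩ := h3
      refine ⟨k + 1, by simpa using hk, ?_⟩
      rw [← hk2]
      simp [shift, Nat.add_comm]

open Classical in
/-- words which read a site of height `≥ s` and end at a level `≤ i0` -/
theorem words_small (ν : Measure (Row d)) [IsProbabilityMeasure ν]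
    (hν : ∀ᵐ p ∂ν, ∀ e : Step d, 0 < p.1 e) (u : Step d)
    (h : annealed (iidEnvironmentLaw ν) 0 (escapeEvent (dirVec u)) ≠ 0) (i0 : ℤ)
    (ε : ℝ≥0∞) (hε : ε ≠ 0) :
    ∃ s0 : ℕ, ∀ s : ℕ, s0 ≤ s → ∀ W : Set (List (Step d)), Us109.PF W →
      (∀ l ∈ W, (∃ y ∈ sitesL 0 l, (s : ℤ) ≤ lev u y) ∧ lev u (endp 0 l) ≤ i0) →
      ∑' l, (if l ∈ W then aw ν l else 0) ≤ ε := by
  have h1 := ret2_tendsto ν hν u h i0
  have h2 := h1.eventually_le_const (pos_iff_ne_zero.2 hε)
  obtain ⟨s0, hs0⟩ := eventually_atTop.1 h2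
  refine ⟨s0, fun s hs W hW hWR => ?_⟩
  refine (Us109.pf_sum_le ν W hW (Ret2 u i0 s) (measurableSet_ret2 u i0 s) ?_).trans (hs0 s hs)
  intro l hl X h0 hX
  obtain ⟨⟨y, hy, hys⟩, hend⟩ := hWR l hl
  obtain ⟨k, hk, hk2⟩ := fol_mem l X hX y (by rw [h0]; exact hy)
  refine ⟨k, by rw [hk2]; exact hys, l.length, hk.le, ?_⟩
  rw [Us109.fol_end l X hX, h0]
  exact hend

/-! ### the binder -/

lemma mem_shift (l : List (Step d)) (x z y : Site d) :
    y + z ∈ sitesL (x + z) l ↔ y ∈ sitesL x l := by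
  induction l generalizing x with
  | nil => simp [sitesL]
  | cons e l ih =>
    simp only [sitesL, List.mem_cons]
    rw [show x + z + stepVec e = x + stepVec e + z by abel, ih]
    constructor
    · rintro (h | h)
      · exact Or.inl (add_right_cancel h)
      · exact Or.inr h
    · rintro (h | h)
      · exact Or.inl (by rw [h])
      · exact Or.inr h

open Classical in
/-- `H3P` of 763 with the strict clause `h + 1 ≤ h' + δ` -/
def H3S (ν : Measure (Row d)) [IsProbabilityMeasure ν] (u : Step d) : Prop :=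
  ∃ C : ℝ≥0∞, C ≠ ⊤ ∧ ∀ r0 : ℕ, ∀ η : ℝ≥0∞, η ≠ 0 → ∃ s0 : ℕ, ∀ s : ℕ, s0 ≤ s →
    ∀ (h h' δ : ℕ) (E : Finset (Site d)) (μ : Site d → ℝ≥0∞) (M lam : ℝ≥0∞),
      1 ≤ δ → δ ≤ r0 → h + 1 ≤ h' + δ → h' + δ ≤ h + r0 →
      (∑' x, μ x ≤ 1) → (∀ x, μ x ≤ M) → M ≠ ⊤ → (∀ x, μ x ≠ 0 → lev u x = -(δ : ℤ)) →
      lam ≠ 0 → lam ≠ ⊤ →
      ∑' x, μ x * ∑' π : List (Step d), ∑' γ : List (Step d),
        (if IsUp u h π ∧ endp 0 γ ∈ E ∧ IsDn u h' γ ∧
            (∃ y, y ∈ sitesL (-endp 0 π) π ∧ y ∈ sitesL x γ) ∧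
            (∀ y, y ∈ sitesL (-endp 0 π) π → y ∈ sitesL x γ → -(h : ℤ) + s ≤ lev u y)
          then aw ν π * aw ν γ else 0) ≤ C * (lam + M * E.card * η / lam + η)

lemma awx_eq (ν : Measure (Row d)) [IsProbabilityMeasure ν] (x : Site d) (l : List (Step d)) :
    Win775.awx ν x l = aw ν l := aw_shift ν x l

open Classical in
/-- the bound for fixed data -/
theorem h3_core (ν : Measure (Row d)) [IsProbabilityMeasure ν] (u : Step d) (s : ℕ)
    (h h' δ : ℕ) (E : Finset (Site d)) (μ : Site d → ℝ≥0∞) (M lam η : ℝ≥0∞)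
    (hh : h + 1 ≤ h' + δ) (hμ : ∑' x, μ x ≤ 1) (hM : ∀ x, μ x ≤ M) (hMt : M ≠ ⊤)
    (hlev : ∀ x, μ x ≠ 0 → lev u x = -(δ : ℤ)) (hl : lam ≠ 0) (hl' : lam ≠ ⊤)
    (hr : ∀ W : Set (List (Step d)), Us109.PF W →
      (∀ l ∈ W, (∃ y ∈ sitesL 0 l, (s : ℤ) ≤ lev u y) ∧ lev u (endp 0 l) ≤ 0) →
      ∑' l, (if l ∈ W then aw ν l else 0) ≤ η) :
    ∑' x, μ x * ∑' π : List (Step d), ∑' γ : List (Step d),
        (if IsUp u h π ∧ endp 0 γ ∈ E ∧ IsDn u h' γ ∧
            (∃ y, y ∈ sitesL (-endp 0 π) π ∧ y ∈ sitesL x γ) ∧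
            (∀ y, y ∈ sitesL (-endp 0 π) π → y ∈ sitesL x γ → -(h : ℤ) + s ≤ lev u y)
          then aw ν π * aw ν γ else 0) ≤ 4 * lam + M / lam * (E.card * η) := by
  by_cases hM0 : M = 0
  · have : ∀ x, μ x = 0 := fun x => le_antisymm ((hM x).trans hM0.le) zero_le
    simp [this]
  set q : ℤ := (h : ℤ) - δ - h' with hq
  have hq0 : q < 0 := by rw [hq]; have : (h : ℤ) + 1 ≤ h' + δ := by exact_mod_cast hh
                         omega
  set S : Site d → Set (Site d) := fun _ => {z | q < lev u z ∧ lev u z ≤ (h : ℤ) - δ} with hS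
  set T : Site d → Set (Site d) := fun x => {z | z - x ∈ E ∧ lev u z = q} with hT
  set S' : Set (Site d) := {z | 0 ≤ lev u z ∧ lev u z < h} with hS'
  set T' : Set (Site d) := {z | lev u z = h} with hT'
  set Q : Set (Site d) := {z | lev u z ≤ q} with hQ
  set A : Set (Site d) := {z | (s : ℤ) ≤ lev u z} with hA
  set δf : Site d → Site d → ℝ≥0∞ := fun x z => μ (x - z) with hδf
  have key := Win775.win3 ν (S := S) (T := T) (S' := S') (T' := T') (Q := Q) (A := A)
    (y := (0 : Site d)) (δ := δf) (M := M) (lam := lam) (N := (E.card : ℝ≥0∞)) (r := η)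
    hM0 hMt hl hl'
    (by
      rw [Set.disjoint_left]; rintro z ⟨_, h2⟩ h3
      simp only [hT', Set.mem_ofPred_eq] at h3; omega)
    (fun x z => hM _)
    (fun z => by
      refine le_trans (le_of_eq ?_) hμ
      exact (Equiv.subRight z).tsum_eq μ)
    (fun x z hz => by
      simp only [hS, hQ, Set.mem_ofPred_eq, Set.mem_compl_iff] at hz ⊢; omega)
    (fun x z hz => by
      simp only [hT, hQ, Set.mem_ofPred_eq] at hz ⊢; omega)
    (fun z hz => by
      simp only [hS', hQ, Set.mem_ofPred_eq, Set.mem_compl_iff] at hz ⊢; omega)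
    (fun z => by
      refine le_trans (ENNReal.tsum_le_tsum
        (g := fun x : Site d => if z - x ∈ E then (1 : ℝ≥0∞) else 0) fun x => ?_) ?_
      · by_cases hx : z ∈ T x
        · rw [if_pos hx, if_pos hx.1]
        · rw [if_neg hx]; exact zero_le
      refine le_of_eq ?_
      calc ∑' x : Site d, (if z - x ∈ E then (1 : ℝ≥0∞) else 0)
          = ∑' x : Site d, (if x ∈ E then (1 : ℝ≥0∞) else 0) :=
            (Equiv.subLeft z).tsum_eq (fun x => if x ∈ E then (1 : ℝ≥0∞) else 0)
        _ = (E.card : ℝ≥0∞) := by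
            rw [tsum_eq_sum (s := E) (fun x hx => if_neg hx)]
            rw [Finset.sum_congr rfl (fun x hx => if_pos hx)]
            simp)
    (by
      have h5 := hr {σ | Win775.FP Qᶜ Q 0 σ ∧ ∃ z ∈ sitesL 0 σ, z ∈ A} ?_ ?_
      · refine le_trans (le_of_eq (tsum_congr fun σ => ?_)) h5
        rw [awx_eq]
        by_cases hc : Win775.FP Qᶜ Q 0 σ ∧ ∃ z ∈ sitesL 0 σ, z ∈ A
        · rw [if_pos hc, if_pos (show σ ∈ {σ | Win775.FP Qᶜ Q 0 σ ∧ ∃ z ∈ sitesL 0 σ, z ∈ A}
            from hc)]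
        · rw [if_neg hc, if_neg (show ¬ σ ∈ {σ | Win775.FP Qᶜ Q 0 σ ∧ ∃ z ∈ sitesL 0 σ, z ∈ A}
            from hc)]
      · rintro l ⟨hl1, _⟩ l' ⟨hl2, _⟩ ⟨c, hc⟩
        exact Win775.FP.prefix_free (l2 := c) (l2' := []) disjoint_compl_left hl1 hl2
          (by rw [hc]; simp)
      · rintro l ⟨hl1, y, hy, hyA⟩
        refine ⟨⟨y, hy, hyA⟩, ?_⟩
        have := hl1.2
        simp only [hQ, Set.mem_ofPred_eq] at this
        omega)
  refine le_trans ?_ key
  -- change of variables
  calc ∑' x, μ x * ∑' π : List (Step d), ∑' γ : List (Step d),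
        (if IsUp u h π ∧ endp 0 γ ∈ E ∧ IsDn u h' γ ∧
            (∃ y, y ∈ sitesL (-endp 0 π) π ∧ y ∈ sitesL x γ) ∧
            (∀ y, y ∈ sitesL (-endp 0 π) π → y ∈ sitesL x γ → -(h : ℤ) + s ≤ lev u y)
          then aw ν π * aw ν γ else 0)
      = ∑' π : List (Step d), ∑' x, μ x * ∑' γ : List (Step d),
        (if IsUp u h π ∧ endp 0 γ ∈ E ∧ IsDn u h' γ ∧
            (∃ y, y ∈ sitesL (-endp 0 π) π ∧ y ∈ sitesL x γ) ∧
            (∀ y, y ∈ sitesL (-endp 0 π) π → y ∈ sitesL x γ → -(h : ℤ) + s ≤ lev u y)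
          then aw ν π * aw ν γ else 0) := by
        rw [ENNReal.tsum_comm]
        exact tsum_congr fun x => (ENNReal.tsum_mul_left).symm
    _ = ∑' π : List (Step d), ∑' x, μ (x - endp 0 π) * ∑' γ : List (Step d),
        (if IsUp u h π ∧ endp 0 γ ∈ E ∧ IsDn u h' γ ∧
            (∃ y, y ∈ sitesL (-endp 0 π) π ∧ y ∈ sitesL (x - endp 0 π) γ) ∧
            (∀ y, y ∈ sitesL (-endp 0 π) π → y ∈ sitesL (x - endp 0 π) γ →
              -(h : ℤ) + s ≤ lev u y)
          then aw ν π * aw ν γ else 0) := by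
        refine tsum_congr fun π => ?_
        exact ((Equiv.subRight (endp 0 π)).tsum_eq (fun x => μ x * ∑' γ : List (Step d),
          (if IsUp u h π ∧ endp 0 γ ∈ E ∧ IsDn u h' γ ∧
            (∃ y, y ∈ sitesL (-endp 0 π) π ∧ y ∈ sitesL x γ) ∧
            (∀ y, y ∈ sitesL (-endp 0 π) π → y ∈ sitesL x γ → -(h : ℤ) + s ≤ lev u y)
          then aw ν π * aw ν γ else 0))).symm
    _ = ∑' x, ∑' γ : List (Step d), ∑' π : List (Step d), μ (x - endp 0 π) *
        (if IsUp u h π ∧ endp 0 γ ∈ E ∧ IsDn u h' γ ∧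
            (∃ y, y ∈ sitesL (-endp 0 π) π ∧ y ∈ sitesL (x - endp 0 π) γ) ∧
            (∀ y, y ∈ sitesL (-endp 0 π) π → y ∈ sitesL (x - endp 0 π) γ →
              -(h : ℤ) + s ≤ lev u y)
          then aw ν π * aw ν γ else 0) := by
        rw [ENNReal.tsum_comm]
        refine tsum_congr fun x => ?_
        rw [ENNReal.tsum_comm]
        refine tsum_congr fun π => ?_
        exact (ENNReal.tsum_mul_left).symm
    _ ≤ _ := by
        refine ENNReal.tsum_le_tsum fun x => ENNReal.tsum_le_tsum fun γ =>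
          ENNReal.tsum_le_tsum fun π => ?_
        by_cases hμ0 : μ (x - endp 0 π) = 0
        · rw [hμ0, zero_mul]; exact zero_le
        split_ifs with hc hg
        · obtain ⟨-, -, -⟩ := hg
          rw [awx_eq, awx_eq]
          refine le_of_eq ?_
          simp only [hδf]
          ring
        · exfalso
          apply hg
          obtain ⟨hup, hE, hdn, hex, hall⟩ := hc
          have hlx : lev u x = (h : ℤ) - δ := by
            have h1 := hlev _ hμ0
            rw [sub_eq_add_neg, lev_add, lev_neg, hup.2] at h1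
            omega
          refine ⟨⟨?_, ?_, ?_⟩, ⟨?_, hup.2⟩, ?_⟩
          · intro z hz
            have hz' : z - x ∈ sitesL 0 γ := by
              have := (mem_shift γ 0 x (z - x)).1
              rw [zero_add, sub_add_cancel] at this
              exact this hz
            have h2 := hdn.1 _ hz'
            rw [sub_eq_add_neg, lev_add, lev_neg, hlx] at h2
            simp only [hS, Set.mem_ofPred_eq]
            omega
          · rw [endp_eq_add, add_sub_cancel_left]; exact hE
          · rw [endp_eq_add, lev_add, hlx, hdn.2]; omega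
          · intro z hz
            exact hup.1 z hz
          · -- the hit
            obtain ⟨y, hy1, hy2⟩ := hex
            have hy1' : y + endp 0 π ∈ sitesL 0 π := by
              have := (mem_shift π (-endp 0 π) (endp 0 π) y).2 hy1
              rwa [neg_add_cancel] at this
            have hy2' : y + endp 0 π ∈ sitesL x γ := by
              have := (mem_shift γ (x - endp 0 π) (endp 0 π) y).2 hy2
              rwa [sub_add_cancel] at this
            obtain ⟨π1, π2, e1, e2, e3, e4⟩ := Win775.exists_first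
              (A := {z | z ∈ sitesL x γ}) π 0 ⟨_, hy1', hy2'⟩
            refine ⟨π1, π2, e1, e2, e3, ?_⟩
            have hm : endp 0 π1 ∈ sitesL 0 π := by
              rw [e1, Win775.sitesL_append, List.mem_append]
              right
              cases π2 with
              | nil => exact absurd rfl e4
              | cons e π2 => simp [sitesL]
            have h3 := hall (endp 0 π1 - endp 0 π) (by
                have := (mem_shift π (-endp 0 π) (endp 0 π) (endp 0 π1 - endp 0 π)).1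
                rw [neg_add_cancel, sub_add_cancel] at this
                exact this hm) (by
                have := (mem_shift γ (x - endp 0 π) (endp 0 π) (endp 0 π1 - endp 0 π)).1
                rw [sub_add_cancel, sub_add_cancel] at this
                exact this e3)
            rw [sub_eq_add_neg (endp 0 π1), lev_add, lev_neg, hup.2] at h3
            simp only [hA, Set.mem_ofPred_eq]
            omega
        · rw [mul_zero]; exact zero_le
        · rw [mul_zero]

/-- **order (3) in words** -/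
theorem h3s (ν : Measure (Row d)) [IsProbabilityMeasure ν]
    (hν : ∀ᵐ p ∂ν, ∀ e : Step d, 0 < p.1 e) (u : Step d)
    (hu : annealed (iidEnvironmentLaw ν) 0 (escapeEvent (dirVec u)) ≠ 0) : H3S ν u := by
  refine ⟨4, by norm_num, fun r0 η hη => ?_⟩
  obtain ⟨s0, hs0⟩ := words_small ν hν u hu 0 η hη
  refine ⟨s0, fun s hs h h' δ E μ M lam _ _ hh _ hμ hM hMt hlev hl hl' => ?_⟩
  refine (h3_core ν u s h h' δ E μ M lam η hh hμ hM hMt hlev hl hl' (hs0 s hs)).trans ?_
  have e1 : M / lam * (E.card * η) = M * E.card * η / lam := by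
    rw [div_eq_mul_inv, div_eq_mul_inv]; ring
  rw [e1]
  calc 4 * lam + M * E.card * η / lam ≤ 4 * lam + 4 * (M * E.card * η / lam) + 4 * η := by
        refine le_trans (add_le_add_right ?_ _) le_self_add
        calc M * E.card * η / lam = 1 * (M * E.card * η / lam) := (one_mul _).symm
          _ ≤ 4 * (M * E.card * η / lam) := mul_le_mul_left (by norm_num) _
    _ = 4 * (lam + M * E.card * η / lam + η) := by ring

end Crest.Agent.R154.H3P658
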