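import Crest.Agent.R154.WordB_956
import Crest.Agent.R154.DoobW_431
import Crest.Agent.R154.NBDefs_28

/-! Row 154, KAPPA' (801 #38888), window lemma (3) in words (helper582): guest word from a fixed
start, local word from `x`, weight on the guest; threshold proportional to the weight. -/

set_option autoImplicit false

open MeasureTheory ProbabilityTheory Crest.ProbabilityR.RandomEnvironment
open scoped ENNReal

namespace Crest.Agent.R154.H3W582

open Crest.Agent.R154.Flux566 (lw endp sitesL measurable_lw)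
open Crest.Agent.R154.DoobW431 (PF First pf_First kraft markov_pf bad_le ville lw_append)

section abs
variable {α : Type*}

lemma exists_min (Q : List α → Prop) (ρ : List α) (h : ∃ γ, γ <+: ρ ∧ Q γ) :
    ∃ γ, γ <+: ρ ∧ Q γ ∧ ∀ γ', γ' <+: γ → γ' ≠ γ → ¬ Q γ' := by
  classical
  have hex : ∃ n, ∃ γ, γ <+: ρ ∧ Q γ ∧ γ.length = n := by
    obtain ⟨γ, h1, h2⟩ := h; exact ⟨_, γ, h1, h2, rfl⟩
  obtain ⟨γ, h1, h2, h3⟩ := Nat.find_spec hex
  refine ⟨γ, h1, h2, fun γ' hp hne hB => ?_⟩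
  have hlt : γ'.length < Nat.find hex := by
    rw [← h3]
    exact lt_of_le_of_ne hp.length_le fun h => hne (hp.eq_of_length h)
  exact Nat.find_min hex hlt ⟨γ', hp.trans h1, hB, rfl⟩

/-- minimal words with `c < m` -/
def Mn (m : List α → ℝ≥0∞) (c : ℝ≥0∞) : Set (List α) :=
  {γ | c < m γ ∧ ∀ γ', γ' <+: γ → γ' ≠ γ → ¬ c < m γ'}

lemma pf_Mn (m : List α → ℝ≥0∞) (c : ℝ≥0∞) : PF (Mn m c) := by
  intro l hl l' hl' hp
  by_contra hne
  exact hl'.2 l hp hne hl.1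

end abs

variable {d : ℕ}

/-- departure sites of a word -/
def VS (x : Site d) (γ : List (Step d)) : Set (Site d) := {z | z ∈ sitesL x γ}

open Classical in
/-- completions weigh -/
noncomputable def cw (ω : Environment d) (T : Site d → Set (List (Step d))) (v : Site d) : ℝ≥0∞ :=
  ∑' τ, if τ ∈ T v then lw ω v τ else 0

open Classical in
lemma mn_le (ω : Environment d) (x0 : Site d) (W : Set (List (Step d))) (hW : PF W)
    (m : List (Step d) → ℝ≥0∞) (c : ℝ≥0∞) :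
    ∑' σ, (if σ ∈ W ∧ c < m σ then lw ω x0 σ else 0)
      ≤ ∑' σ, (if σ ∈ Mn m c then lw ω x0 σ else 0) := by
  have h := markov_pf ω x0 (W := {σ | σ ∈ W ∧ c < m σ}) (P := Mn m c)
    (fun γ => {ρ | γ ++ ρ ∈ W}) (fun _ => 1)
    (fun ρ hρ => by
      obtain ⟨γ, ⟨ρ2, rfl⟩, h1, h2⟩ := exists_min (fun γ => c < m γ) ρ ⟨ρ, List.prefix_rfl, hρ.2⟩
      exact ⟨γ, ρ2, rfl, ⟨h1, h2⟩, hρ.1⟩)
    (fun γ _ => kraft ω _ (fun l hl l' hl' hp => by
      have := hW _ hl _ hl' ((List.prefix_append_right_inj γ).2 hp)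
      exact List.append_cancel_left this))
  refine le_trans (le_of_eq (tsum_congr fun ρ => ?_)) (h.trans (le_of_eq (tsum_congr fun ρ => ?_)))
  · by_cases h1 : ρ ∈ W ∧ c < m ρ
    · rw [if_pos h1, if_pos (show ρ ∈ {σ | σ ∈ W ∧ c < m σ} from h1)]
    · rw [if_neg h1, if_neg (show ¬ ρ ∈ {σ | σ ∈ W ∧ c < m σ} from h1)]
  · rw [mul_one]

open Classical in
lemma ret_le (ω : Environment d) (x0 : Site d) (P : Set (List (Step d))) (hP : PF P)
    (T : Site d → Set (List (Step d))) (R : Set (List (Step d)))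
    (hR : ∀ σ ∈ P, ∀ τ ∈ T (endp x0 σ), σ ++ τ ∈ R) :
    ∑' σ, (if σ ∈ P then lw ω x0 σ * cw ω T (endp x0 σ) else 0)
      ≤ ∑' ρ, (if ρ ∈ R then lw ω x0 ρ else 0) := by
  have h := ville hP (fun σ => lw ω x0 σ * cw ω T (endp x0 σ))
    (fun ρ => if ρ ∈ R then lw ω x0 ρ else 0) 1 (fun γ hγ => by
      rw [one_mul, cw, ← ENNReal.tsum_mul_left]
      refine le_trans (ENNReal.tsum_le_tsum fun τ => ?_)
        (ENNReal.tsum_comp_le_tsum_of_injective (List.append_right_injective γ) _)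
      by_cases hτ : τ ∈ T (endp x0 γ)
      · simp [hτ, hR γ hγ τ hτ, lw_append]
      · simp [hτ])
  simpa using h

open Classical in
/-- the quenched facing inequality -/
theorem point (ω : Environment d) (x x0 : Site d) (L : Set (List (Step d))) (hL : PF L)
    (T : Site d → Set (List (Step d))) (hcl : ∀ γ1 γ2, γ1 ++ γ2 ∈ L → γ2 ∈ T (endp x γ1))
    (Dp R : Set (List (Step d))) (hR : ∀ σ ∈ Dp, ∀ τ ∈ T (endp x0 σ), σ ++ τ ∈ R)
    (m : List (Step d) → ℝ≥0∞) (M lam : ℝ≥0∞) (hM : M ≠ ⊤) (hM0 : M ≠ 0) (hm : ∀ σ, m σ ≤ M)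
    (hl0 : lam ≠ 0) (hl : lam ≠ ⊤) :
    ∑' γ, ∑' σ, (if γ ∈ L ∧ σ ∈ First x0 (VS x γ) ∧ σ ∈ Dp
        then m σ * (lw ω x γ * lw ω x0 σ) else 0)
      ≤ ∑' j : ℕ, (M * (4⁻¹ : ℝ≥0∞) ^ j * (lam * (4⁻¹ : ℝ≥0∞) ^ j)) *
          ∑' σ, (if σ ∈ Mn m (M * (4⁻¹ : ℝ≥0∞) ^ (j + 1)) then lw ω x0 σ else 0)
        + (M / lam) * ∑' ρ, (if ρ ∈ R then lw ω x0 ρ else 0) := by
  -- termwise split
  have hterm : ∀ σ : List (Step d), m σ ≤ ∑' j : ℕ,
      (if cw ω T (endp x0 σ) ≤ lam * (4⁻¹ : ℝ≥0∞) ^ j ∧ M * (4⁻¹ : ℝ≥0∞) ^ (j + 1) < m σ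
        then M * (4⁻¹ : ℝ≥0∞) ^ j else 0) + (M / lam) * cw ω T (endp x0 σ) := by
    intro σ
    by_cases h1 : m σ ≤ (M / lam) * cw ω T (endp x0 σ)
    · exact h1.trans le_add_self
    · push Not at h1
      obtain ⟨j, hj1, hj2⟩ := Dyad431.exists_class M (m σ) hM (hm σ) (ne_bot_of_gt h1)
      refine le_trans ?_ le_self_add
      refine le_trans ?_ (ENNReal.le_tsum j)
      rw [if_pos]
      · exact hj2
      · refine ⟨?_, hj1⟩
        have h2 : (M / lam) * cw ω T (endp x0 σ) ≤ M * (4⁻¹ : ℝ≥0∞) ^ j := h1.le.trans hj2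
        have h3 : lam / M * ((M / lam) * cw ω T (endp x0 σ)) ≤ lam / M * (M * (4⁻¹ : ℝ≥0∞) ^ j) := by
          gcongr
        have e1 : lam / M * ((M / lam) * cw ω T (endp x0 σ)) = cw ω T (endp x0 σ) := by
          rw [← mul_assoc, ENNReal.div_eq_inv_mul, ENNReal.div_eq_inv_mul]
          rw [show M⁻¹ * lam * (lam⁻¹ * M) = (M⁻¹ * M) * (lam * lam⁻¹) by ring,
            ENNReal.inv_mul_cancel hM0 hM, ENNReal.mul_inv_cancel hl0 hl, one_mul, one_mul]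
        have e2 : lam / M * (M * (4⁻¹ : ℝ≥0∞) ^ j) = lam * (4⁻¹ : ℝ≥0∞) ^ j := by
          rw [← mul_assoc, ENNReal.div_mul_cancel hM0 hM]
        rwa [e1, e2] at h3
  have hstep : ∀ γ σ : List (Step d), (if γ ∈ L ∧ σ ∈ First x0 (VS x γ) ∧ σ ∈ Dp
        then m σ * (lw ω x γ * lw ω x0 σ) else 0)
      ≤ (∑' j : ℕ, (M * (4⁻¹ : ℝ≥0∞) ^ j) *
          (if γ ∈ L ∧ (∃ γ1, γ1 <+: γ ∧ endp x γ1 ∈ {v | cw ω T v ≤ lam * (4⁻¹ : ℝ≥0∞) ^ j}) then
            lw ω x γ * (if σ ∈ First x0 (VS x γ) ∧ M * (4⁻¹ : ℝ≥0∞) ^ (j + 1) < m σ then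
              lw ω x0 σ else 0) else 0))
        + (M / lam) * (if γ ∈ L then lw ω x γ *
            (if σ ∈ {σ | σ ∈ First x0 (VS x γ) ∧ σ ∈ Dp} then
              lw ω x0 σ * cw ω T (endp x0 σ) else 0) else 0) := by
    intro γ σ
    by_cases h : γ ∈ L ∧ σ ∈ First x0 (VS x γ) ∧ σ ∈ Dp
    · rw [if_pos h]
      obtain ⟨h1, h2, h3⟩ := h
      refine le_trans (mul_le_mul_left (hterm σ) _) ?_
      rw [add_mul, ← ENNReal.tsum_mul_right]
      refine add_le_add (ENNReal.tsum_le_tsum fun j => ?_) ?_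
      · by_cases hc : cw ω T (endp x0 σ) ≤ lam * (4⁻¹ : ℝ≥0∞) ^ j ∧
            M * (4⁻¹ : ℝ≥0∞) ^ (j + 1) < m σ
        · rw [if_pos hc, if_pos, if_pos ⟨h2, hc.2⟩]
          refine ⟨h1, ?_⟩
          have h4 : endp x0 σ ∈ sitesL x γ := h2.1
          obtain ⟨l1, e, l2, hl, hl'⟩ := WordB956.mem_sitesL.1 h4
          exact ⟨l1, ⟨e :: l2, hl.symm⟩, by rw [hl']; exact hc.1⟩
        · rw [if_neg hc]; simp
      · rw [if_pos h1, if_pos (show σ ∈ {σ | σ ∈ First x0 (VS x γ) ∧ σ ∈ Dp} from ⟨h2, h3⟩)]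
        refine le_of_eq ?_
        ring
    · rw [if_neg h]; exact bot_le
  calc _ ≤ ∑' γ, ∑' σ, ((∑' j : ℕ, (M * (4⁻¹ : ℝ≥0∞) ^ j) *
          (if γ ∈ L ∧ (∃ γ1, γ1 <+: γ ∧ endp x γ1 ∈ {v | cw ω T v ≤ lam * (4⁻¹ : ℝ≥0∞) ^ j}) then
            lw ω x γ * (if σ ∈ First x0 (VS x γ) ∧ M * (4⁻¹ : ℝ≥0∞) ^ (j + 1) < m σ then
              lw ω x0 σ else 0) else 0))
        + (M / lam) * (if γ ∈ L then lw ω x γ *
            (if σ ∈ {σ | σ ∈ First x0 (VS x γ) ∧ σ ∈ Dp} then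
              lw ω x0 σ * cw ω T (endp x0 σ) else 0) else 0)) :=
        ENNReal.tsum_le_tsum fun γ => ENNReal.tsum_le_tsum fun σ => hstep γ σ
    _ = ∑' γ, ∑' σ, (∑' j : ℕ, (M * (4⁻¹ : ℝ≥0∞) ^ j) *
          (if γ ∈ L ∧ (∃ γ1, γ1 <+: γ ∧ endp x γ1 ∈ {v | cw ω T v ≤ lam * (4⁻¹ : ℝ≥0∞) ^ j}) then
            lw ω x γ * (if σ ∈ First x0 (VS x γ) ∧ M * (4⁻¹ : ℝ≥0∞) ^ (j + 1) < m σ then
              lw ω x0 σ else 0) else 0))
        + ∑' γ, ∑' σ, (M / lam) * (if γ ∈ L then lw ω x γ *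
            (if σ ∈ {σ | σ ∈ First x0 (VS x γ) ∧ σ ∈ Dp} then
              lw ω x0 σ * cw ω T (endp x0 σ) else 0) else 0) := by
        rw [← ENNReal.tsum_add]
        exact tsum_congr fun γ => ENNReal.tsum_add
    _ ≤ _ := by
        refine add_le_add ?_ ?_
        · calc _ = ∑' γ, ∑' j : ℕ, ∑' σ, (M * (4⁻¹ : ℝ≥0∞) ^ j) *
                (if γ ∈ L ∧ (∃ γ1, γ1 <+: γ ∧ endp x γ1 ∈ {v | cw ω T v ≤ lam * (4⁻¹ : ℝ≥0∞) ^ j})
                then lw ω x γ * (if σ ∈ First x0 (VS x γ) ∧ M * (4⁻¹ : ℝ≥0∞) ^ (j + 1) < m σ then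
                  lw ω x0 σ else 0) else 0) := tsum_congr fun γ => ENNReal.tsum_comm
            _ = ∑' j : ℕ, ∑' γ, ∑' σ, (M * (4⁻¹ : ℝ≥0∞) ^ j) *
                (if γ ∈ L ∧ (∃ γ1, γ1 <+: γ ∧ endp x γ1 ∈ {v | cw ω T v ≤ lam * (4⁻¹ : ℝ≥0∞) ^ j})
                then lw ω x γ * (if σ ∈ First x0 (VS x γ) ∧ M * (4⁻¹ : ℝ≥0∞) ^ (j + 1) < m σ then
                  lw ω x0 σ else 0) else 0) := ENNReal.tsum_comm
            _ ≤ _ := by
              refine ENNReal.tsum_le_tsum fun j => ?_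
              have hb := bad_le ω x L {v | cw ω T v ≤ lam * (4⁻¹ : ℝ≥0∞) ^ j} T
                (lam * (4⁻¹ : ℝ≥0∞) ^ j) hcl (fun v hv => hv)
              calc _ ≤ ∑' γ, (M * (4⁻¹ : ℝ≥0∞) ^ j) * ((if γ ∈ L ∧ (∃ γ1, γ1 <+: γ ∧
                      endp x γ1 ∈ {v | cw ω T v ≤ lam * (4⁻¹ : ℝ≥0∞) ^ j}) then lw ω x γ else 0) *
                    ∑' σ, (if σ ∈ Mn m (M * (4⁻¹ : ℝ≥0∞) ^ (j + 1)) then lw ω x0 σ else 0)) := by
                    refine ENNReal.tsum_le_tsum fun γ => ?_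
                    rw [ENNReal.tsum_mul_left]
                    gcongr
                    by_cases hγ : γ ∈ L ∧ (∃ γ1, γ1 <+: γ ∧
                      endp x γ1 ∈ {v | cw ω T v ≤ lam * (4⁻¹ : ℝ≥0∞) ^ j})
                    · simp only [if_pos hγ]
                      rw [ENNReal.tsum_mul_left]
                      exact mul_le_mul' le_rfl (mn_le ω x0 _ (pf_First x0 (VS x γ)) m _)
                    · simp only [if_neg hγ]; simp
                _ = (M * (4⁻¹ : ℝ≥0∞) ^ j) * ((∑' γ, (if γ ∈ L ∧ (∃ γ1, γ1 <+: γ ∧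
                      endp x γ1 ∈ {v | cw ω T v ≤ lam * (4⁻¹ : ℝ≥0∞) ^ j}) then lw ω x γ else 0)) *
                    ∑' σ, (if σ ∈ Mn m (M * (4⁻¹ : ℝ≥0∞) ^ (j + 1)) then lw ω x0 σ else 0)) := by
                    rw [ENNReal.tsum_mul_left, ENNReal.tsum_mul_right]
                _ ≤ (M * (4⁻¹ : ℝ≥0∞) ^ j) * ((lam * (4⁻¹ : ℝ≥0∞) ^ j) *
                    ∑' σ, (if σ ∈ Mn m (M * (4⁻¹ : ℝ≥0∞) ^ (j + 1)) then lw ω x0 σ else 0)) := by
                    gcongr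
                _ = _ := by rw [← mul_assoc]
        · calc _ = ∑' γ, (M / lam) * ((if γ ∈ L then lw ω x γ else 0) *
                  ∑' σ, (if σ ∈ {σ | σ ∈ First x0 (VS x γ) ∧ σ ∈ Dp} then
                    lw ω x0 σ * cw ω T (endp x0 σ) else 0)) := by
                refine tsum_congr fun γ => ?_
                rw [ENNReal.tsum_mul_left]
                congr 1
                by_cases hγ : γ ∈ L
                · simp only [if_pos hγ]; rw [ENNReal.tsum_mul_left]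
                · simp only [if_neg hγ]; simp
            _ ≤ ∑' γ, (M / lam) * ((if γ ∈ L then lw ω x γ else 0) *
                  ∑' ρ, (if ρ ∈ R then lw ω x0 ρ else 0)) := by
                refine ENNReal.tsum_le_tsum fun γ => ?_
                have hret := ret_le ω x0 {σ | σ ∈ First x0 (VS x γ) ∧ σ ∈ Dp}
                    ((pf_First x0 (VS x γ)).mono fun σ h => h.1) T R
                    (fun σ hσ τ hτ => hR σ hσ.2 τ hτ)
                refine mul_le_mul' le_rfl (mul_le_mul' le_rfl ?_)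
                refine le_trans (le_of_eq (tsum_congr fun σ => ?_)) hret
                congr 1
            _ = (M / lam) * ((∑' γ, (if γ ∈ L then lw ω x γ else 0)) *
                  ∑' ρ, (if ρ ∈ R then lw ω x0 ρ else 0)) := by
                rw [ENNReal.tsum_mul_left, ENNReal.tsum_mul_right]
            _ ≤ (M / lam) * (1 * ∑' ρ, (if ρ ∈ R then lw ω x0 ρ else 0)) := by
                gcongr
                exact kraft ω x hL
            _ = _ := by rw [one_mul]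

end Crest.Agent.R154.H3W582
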