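import Crest.Agent.R154.Win3n_775
import Crest.Agent.R154.KWBind2_419
import Crest.Agent.R154.Us_109

/-! Row 154, ROAD 801 (helper775): window lemma (3) in 28's letters (`H3W` with `a + h ≤ a' + h'`). -/

set_option autoImplicit false
set_option linter.unusedVariables false

namespace Crest.Agent.R154.H3W775

open MeasureTheory ProbabilityTheory Crest.ProbabilityR.RandomEnvironment Crest.Agent.R154
open Crest.Agent.R154.Flux132 (lev opp)
open Crest.Agent.R154.Flux566 (lw endp sitesL endp_append endp_eq_add measurable_lw)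
open Crest.Agent.R154.NB28
open Crest.Agent.R154.KWB419
open Crest.Agent.R154.Win3n775
open Crest.Agent.R154.B2d
open scoped ENNReal Classical

variable {d : ℕ}

/-- return mass -/
noncomputable def us (ν : Measure (Row d)) [IsProbabilityMeasure ν] (v : Step d) (s : ℕ) : ℝ≥0∞ :=
  annealed (iidEnvironmentLaw ν) 0 (Us475.Ret v 0 s)

lemma lw_shift (ω : Environment d) (l : List (Step d)) (x y : Site d) :
    lw (shiftEnv y ω) x l = lw ω (x + y) l := by
  induction l generalizing x with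
  | nil => rfl
  | cons e l ih =>
    simp only [lw]
    rw [ih, add_right_comm]
    rfl

lemma awx_eq (ν : Measure (Row d)) [IsProbabilityMeasure ν] (x : Site d) (l : List (Step d)) :
    awx ν x l = aw ν l := by
  have h := (Q561.iid_shift ν x).lintegral_comp (measurable_lw (0 : Site d) l)
  unfold aw awx
  rw [← h]
  refine lintegral_congr fun ω => ?_
  rw [lw_shift, zero_add]

lemma mem_sites_shift (l : List (Step d)) (x z y : Site d) :
    y ∈ sitesL x l ↔ y + z ∈ sitesL (x + z) l := by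
  rw [mem_sitesT, add_sub_cancel_right]

lemma hN_aux (E : Finset (Site d)) (L0 : ℤ) (u : Step d) (c z : Site d) :
    ∑' x : Site d, (if z ∈ {z | lev u z = L0 ∧ z - x + c ∈ E} then (1 : ℝ≥0∞) else 0)
      ≤ E.card := by
  calc ∑' x : Site d, (if z ∈ {z | lev u z = L0 ∧ z - x + c ∈ E} then (1 : ℝ≥0∞) else 0)
      ≤ ∑' x : Site d, (if (Equiv.subLeft (z + c)) x ∈ E then (1 : ℝ≥0∞) else 0) := by
        refine ENNReal.tsum_le_tsum fun x => ?_
        by_cases h : z ∈ {z | lev u z = L0 ∧ z - x + c ∈ E}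
        · rw [if_pos h, if_pos]
          change z + c - x ∈ E
          have e : z + c - x = z - x + c := by abel
          rw [e]; exact h.2
        · rw [if_neg h]; exact zero_le
    _ = ∑' x : Site d, (if x ∈ E then (1 : ℝ≥0∞) else 0) :=
        (Equiv.subLeft (z + c)).tsum_eq (fun x => if x ∈ E then (1 : ℝ≥0∞) else 0)
    _ = E.card := by
        rw [tsum_eq_sum (s := E) (fun x hx => if_neg hx)]
        rw [Finset.sum_congr rfl fun x hx => if_pos hx]
        simp

lemma hr_aux (ν : Measure (Row d)) [IsProbabilityMeasure ν] (u : Step d) (L0 : ℤ) (hL0 : L0 ≤ 0)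
    (h : ℕ) (s : ℕ) :
    ∑' σ : List (Step d), (if FP {z | lev u z ≤ L0}ᶜ {z | lev u z ≤ L0} 0 σ ∧
      Vis {z | 0 ≤ lev u z ∧ lev u z < h} {z | (s : ℤ) ≤ lev u z} 0 σ then awx ν 0 σ else 0)
      ≤ us ν u s := by
  set W : Set (List (Step d)) := {σ | FP {z | lev u z ≤ L0}ᶜ {z | lev u z ≤ L0} 0 σ ∧
      Vis {z | 0 ≤ lev u z ∧ lev u z < h} {z | (s : ℤ) ≤ lev u z} 0 σ} with hW
  have h1 : Us109.PF W := by
    rintro l hl l' hl' ⟨t, ht⟩
    exact FP.prefix_free (S := {z | lev u z ≤ L0}ᶜ) (T := {z | lev u z ≤ L0})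
      disjoint_compl_left hl.1 hl'.1 (l2 := t) (l2' := []) (by rw [ht, List.append_nil])
  have h2 : W ⊆ Us109.RetW u 0 s := by
    rintro l ⟨hl1, l1, l2, e, h3, h4, h5⟩
    refine ⟨⟨l1, l2, e, fun y hy => (h3 y hy).1, h4⟩, ?_⟩
    have : lev u (endp 0 l) ≤ L0 := hl1.2
    exact this.trans hL0
  refine le_trans (le_of_eq ?_) (Us109.ret_le ν u 0 s W h1 h2)
  refine tsum_congr fun σ => ?_
  by_cases hs : σ ∈ W
  · rw [if_pos hs, if_pos (show _ ∧ _ from hs)]; rfl
  · rw [if_neg hs, if_neg (show ¬ (_ ∧ _) from hs)]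

/-- core, `M ≠ 0, ⊤` -/
theorem H3_core (ν : Measure (Row d)) [IsProbabilityMeasure ν] (u : Step d)
    (s h h' a a' hi : ℕ) (E : Finset (Site d)) (μ : Site d → ℝ≥0∞) (M lam : ℝ≥0∞)
    (hμ : ∑' x, μ x ≤ 1) (hM : ∀ x, μ x ≤ M) (hM0 : M ≠ 0) (hMt : M ≠ ⊤)
    (hl : lam ≠ 0) (hl' : lam ≠ ⊤) (h1 : hi + s ≤ a + h) (h2 : a + h ≤ a' + h') :
    ∑' x, μ x * (∑' π, ∑' γ, if lev u x = 0 ∧ IsUp u h π ∧ IsDn u h' γ ∧
      (endp 0 γ + h' • stepVec u) ∈ E ∧ (∃ y, Ct u π γ x a a' y) ∧
      (∀ y, Ct u π γ x a a' y → -lev u y ≤ (hi : ℤ)) then aw ν π * aw ν γ else 0)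
      ≤ 4 * lam + M / lam * (E.card * us ν u s) := by
  set L0 : ℤ := (a : ℤ) + h - a' - h' - 1 with hL0
  have hL0' : L0 ≤ -1 := by
    have : (a : ℤ) + h ≤ a' + h' := by exact_mod_cast h2
    omega
  set c : Site d := (a' + 1) • stepVec u - a • stepVec u with hc
  have key := win3n (d := d) ν (S := fun _ => {z | lev u z ≤ L0}ᶜ)
    (T := fun x => {z | lev u z = L0 ∧ z - x + h' • stepVec u ∈ E})
    (S' := {z | 0 ≤ lev u z ∧ lev u z < h}) (T' := {z | lev u z = h})
    (Q := {z | lev u z ≤ L0}) (A := {z | (s : ℤ) ≤ lev u z}) (y := 0)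
    (δ := fun x z => μ (x - z + c)) (M := M) (lam := lam) (N := E.card) (r := us ν u s)
    hM0 hMt hl hl'
    (Set.disjoint_left.2 fun z hz hz' => by
      have e1 : lev u z < h := hz.2
      have e2 : lev u z = h := hz'
      omega)
    (fun x z => hM _)
    (fun z => by
      have := (Equiv.addRight (-z + c)).tsum_eq μ
      refine le_trans (le_of_eq ?_) hμ
      rw [← this]
      refine tsum_congr fun x => ?_
      congr 1
      simp only [Equiv.coe_addRight]
      abel)
    (fun x => le_rfl)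
    (fun x z hz => le_of_eq hz.1)
    (fun z hz => by
      have e1 : 0 ≤ lev u z := hz.1
      simp only [Set.mem_compl_iff, Set.mem_ofPred_eq, not_le]
      omega)
    (fun z => le_trans (le_of_eq (tsum_congr fun x => by congr))
      (hN_aux E L0 u (h' • stepVec u) z))
    (hr_aux ν u L0 (by omega) h s)
  refine le_trans ?_ key
  calc ∑' x, μ x * (∑' π, ∑' γ, if lev u x = 0 ∧ IsUp u h π ∧ IsDn u h' γ ∧
      (endp 0 γ + h' • stepVec u) ∈ E ∧ (∃ y, Ct u π γ x a a' y) ∧
      (∀ y, Ct u π γ x a a' y → -lev u y ≤ (hi : ℤ)) then aw ν π * aw ν γ else 0)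
      = ∑' x, ∑' π, ∑' γ, (if lev u x = 0 ∧ IsUp u h π ∧ IsDn u h' γ ∧
      (endp 0 γ + h' • stepVec u) ∈ E ∧ (∃ y, Ct u π γ x a a' y) ∧
      (∀ y, Ct u π γ x a a' y → -lev u y ≤ (hi : ℤ)) then μ x * (aw ν π * aw ν γ) else 0) := by
        refine tsum_congr fun x => ?_
        rw [← ENNReal.tsum_mul_left]
        refine tsum_congr fun π => ?_
        rw [← ENNReal.tsum_mul_left]
        refine tsum_congr fun γ => ?_
        split_ifs <;> simp
    _ = ∑' π, ∑' γ, ∑' x, (if lev u x = 0 ∧ IsUp u h π ∧ IsDn u h' γ ∧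
      (endp 0 γ + h' • stepVec u) ∈ E ∧ (∃ y, Ct u π γ x a a' y) ∧
      (∀ y, Ct u π γ x a a' y → -lev u y ≤ (hi : ℤ)) then μ x * (aw ν π * aw ν γ) else 0) := by
        rw [ENNReal.tsum_comm]
        refine tsum_congr fun π => ?_
        rw [ENNReal.tsum_comm]
    _ ≤ ∑' π, ∑' γ, ∑' x : Site d, (if FP ({z | lev u z ≤ L0}ᶜ)
          {z | lev u z = L0 ∧ z - x + h' • stepVec u ∈ E} x γ ∧
          FP {z | 0 ≤ lev u z ∧ lev u z < h} {z | lev u z = h} 0 π ∧
          Hit x γ 0 {z | (s : ℤ) ≤ lev u z} π then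
        awx ν x γ * (awx ν 0 π * μ (x - endp 0 π + c)) else 0) := by
        refine ENNReal.tsum_le_tsum fun π => ENNReal.tsum_le_tsum fun γ => ?_
        rw [← (Equiv.addRight (-endp 0 π + c)).tsum_eq]
        refine ENNReal.tsum_le_tsum fun x => ?_
        generalize hx0' : (Equiv.addRight (-endp 0 π + c)) x = x0
        have hx0 : x0 = x + (-endp 0 π + c) := by rw [← hx0']; rfl
        by_cases hc0 : lev u x0 = 0 ∧ IsUp u h π ∧ IsDn u h' γ ∧
          (endp 0 γ + h' • stepVec u) ∈ E ∧ (∃ y, Ct u π γ x0 a a' y) ∧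
          (∀ y, Ct u π γ x0 a a' y → -lev u y ≤ (hi : ℤ))
        swap
        · rw [if_neg hc0]; exact zero_le
        obtain ⟨hx, hπ, hγ, hE, ⟨y, hy1, hy2⟩, hall⟩ := hc0
        have hlx : lev u x = h + a - a' - 1 := by
          rw [hx0, levA, levA, levN, hπ.2, hc, levS, levM, levM, levU] at hx
          push_cast at hx
          linarith
        have e1 : x - endp 0 π + c = x0 := by rw [hx0]; abel
        -- start of `γ` moved
        have e2 : x0 - (a' + 1) • stepVec u + (endp 0 π + a • stepVec u) = x := by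
          rw [hx0, hc]; abel
        have e3 : -endp 0 π - a • stepVec u + (endp 0 π + a • stepVec u) = 0 := by abel
        have hct : ∀ z : Site d, z ∈ sitesL 0 π → z ∈ sitesL x γ →
            Ct u π γ x0 a a' (z - (endp 0 π + a • stepVec u)) := by
          intro z hz1 hz2
          refine ⟨?_, ?_⟩
          · rw [mem_sites_shift _ _ (endp 0 π + a • stepVec u), e3, sub_add_cancel]; exact hz1
          · rw [mem_sites_shift _ _ (endp 0 π + a • stepVec u), e2, sub_add_cancel]; exact hz2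
        rw [mem_sites_shift _ _ (endp 0 π + a • stepVec u), e3] at hy1
        rw [mem_sites_shift _ _ (endp 0 π + a • stepVec u), e2] at hy2
        have hHit : Hit x γ 0 {z | (s : ℤ) ≤ lev u z} π := by
          obtain ⟨π1, π2, q1, q2, q3, q4⟩ := exists_first (A := {z | z ∈ sitesL x γ}) π 0
            ⟨_, hy1, hy2⟩
          refine ⟨π1, π2, q1, q2, q3, ?_⟩
          have q5 : endp 0 π1 ∈ sitesL 0 π := by
            rw [q1, sitesL_append, List.mem_append]
            right
            cases π2 with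
            | nil => exact absurd rfl q4
            | cons e τ => simp [sitesL]
          have q6 := hall _ (hct _ q5 q3)
          rw [levS, levA, hπ.2, levM, levU] at q6
          have h1' : (hi : ℤ) + s ≤ a + h := by exact_mod_cast h1
          simp only [Set.mem_ofPred_eq]
          linarith
        have hFP1 : FP ({z | lev u z ≤ L0}ᶜ)
            {z | lev u z = L0 ∧ z - x + h' • stepVec u ∈ E} x γ := by
          refine ⟨fun z hz => ?_, ?_, ?_⟩
          · have : z - x ∈ sitesL 0 γ := (mem_sitesT γ 0 x z).1 (by simpa using hz)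
            have h3 := (hγ.1 _ this).1
            rw [levS] at h3
            simp only [Set.mem_compl_iff, Set.mem_ofPred_eq, not_le]
            omega
          · rw [endp_eq_add, levA, hγ.2]; omega
          · rw [endp_eq_add, add_sub_cancel_left]; exact hE
        have hFP2 : FP {z | 0 ≤ lev u z ∧ lev u z < h} {z | lev u z = h} 0 π :=
          ⟨fun z hz => hπ.1 z hz, hπ.2⟩
        rw [if_pos ⟨hx, hπ, hγ, hE, ⟨_, hct _ hy1 hy2⟩, hall⟩, if_pos ⟨hFP1, hFP2, hHit⟩,
          awx_eq, awx_eq, e1]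
        apply le_of_eq
        ring
    _ = _ := by
        rw [ENNReal.tsum_comm]
        have e4 : ∀ γ : List (Step d), (∑' π : List (Step d), ∑' x : Site d,
          (if FP ({z | lev u z ≤ L0}ᶜ)
            {z | lev u z = L0 ∧ z - x + h' • stepVec u ∈ E} x γ ∧
            FP {z | 0 ≤ lev u z ∧ lev u z < h} {z | lev u z = h} 0 π ∧
            Hit x γ 0 {z | (s : ℤ) ≤ lev u z} π then
          awx ν x γ * (awx ν 0 π * μ (x - endp 0 π + c)) else 0)) =
          ∑' x : Site d, ∑' π : List (Step d), (if FP ({z | lev u z ≤ L0}ᶜ)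
            {z | lev u z = L0 ∧ z - x + h' • stepVec u ∈ E} x γ ∧
            FP {z | 0 ≤ lev u z ∧ lev u z < h} {z | lev u z = h} 0 π ∧
            Hit x γ 0 {z | (s : ℤ) ≤ lev u z} π then
          awx ν x γ * (awx ν 0 π * μ (x - endp 0 π + c)) else 0) :=
          fun γ => ENNReal.tsum_comm
        rw [tsum_congr e4, ENNReal.tsum_comm]

/-- **H3 in words** (419's `H3W` with the extra hypothesis `a + h ≤ a' + h'`), every `M` -/
theorem H3w (ν : Measure (Row d)) [IsProbabilityMeasure ν] (u : Step d)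
    (s h h' a a' hi : ℕ) (E : Finset (Site d)) (μ : Site d → ℝ≥0∞) (M lam : ℝ≥0∞)
    (hμ : ∑' x, μ x ≤ 1) (hM : ∀ x, μ x ≤ M)
    (hl : lam ≠ 0) (hl' : lam ≠ ⊤) (h1 : hi + s ≤ a + h) (h2 : a + h ≤ a' + h') :
    ∑' x, μ x * (∑' π, ∑' γ, if lev u x = 0 ∧ IsUp u h π ∧ IsDn u h' γ ∧
      (endp 0 γ + h' • stepVec u) ∈ E ∧ (∃ y, Ct u π γ x a a' y) ∧
      (∀ y, Ct u π γ x a a' y → -lev u y ≤ (hi : ℤ)) then aw ν π * aw ν γ else 0)
      ≤ 4 * (lam + M * E.card * us ν u s / lam + us ν u s) := by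
  by_cases hM0 : M = 0
  · have : ∀ x, μ x = 0 := fun x => le_antisymm ((hM x).trans (le_of_eq hM0)) zero_le
    simp [this]
  have hM1 : ∀ x, μ x ≤ min M 1 := fun x => le_min (hM x) ((ENNReal.le_tsum x).trans hμ)
  have key := H3_core ν u s h h' a a' hi E μ (min M 1) lam hμ hM1
    (by rw [Ne, min_eq_iff]; rintro (⟨h, _⟩ | ⟨h, _⟩); exacts [hM0 h, one_ne_zero h])
    (ne_top_of_le_ne_top ENNReal.one_ne_top (min_le_right _ _)) hl hl' h1 h2
  refine key.trans ?_
  have e1 : min M 1 / lam * (E.card * us ν u s) ≤ M * E.card * us ν u s / lam := by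
    calc min M 1 / lam * (E.card * us ν u s) ≤ M / lam * (E.card * us ν u s) := by
          gcongr
          exact min_le_left _ _
      _ = _ := by rw [div_eq_mul_inv, div_eq_mul_inv]; ring
  calc 4 * lam + min M 1 / lam * (E.card * us ν u s)
      ≤ 4 * lam + 4 * (M * E.card * us ν u s / lam) :=
        add_le_add le_rfl (e1.trans (le_mul_of_one_le_left zero_le (by norm_num)))
    _ = 4 * (lam + M * E.card * us ν u s / lam) := by ring
    _ ≤ _ := mul_le_mul_right le_self_add _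

theorem us_tendsto (ν : Measure (Row d)) [IsProbabilityMeasure ν]
    (hν : ∀ᵐ p ∂ν, ∀ e : Step d, 0 < p.1 e) (v : Step d)
    (h : annealed (iidEnvironmentLaw ν) 0 (escapeEvent (B2d.dirVec v)) ≠ 0) :
    Filter.Tendsto (us ν v) Filter.atTop (nhds 0) :=
  Us475.us_tendsto ν hν v h 0

end Crest.Agent.R154.H3W775
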