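import Crest.Agent.R154.Face_504
import Crest.Agent.R154.Us_109
import Crest.Agent.R154.KWBind2_419
import Crest.Agent.R154.NBSurg_28

/-! Row 154 (S0219, ROAD 801), helper220: window lemma (3) in words (the down walker is local). -/

set_option autoImplicit false

namespace Crest.Agent.R154.H3220

open MeasureTheory ProbabilityTheory Crest.ProbabilityR.RandomEnvironment Crest.Agent.R154
open Crest.Agent.R154.Flux132 (lev opp)
open Crest.Agent.R154.Flux566 (lw endp sitesL endp_append endp_eq_add measurable_lw)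
open Crest.Agent.R154.NB28 (IsUp IsDn aw)
open Crest.Agent.R154.KWB419 (levA levN levS levU levM levZ mem_sitesT sitesA Ct)
open Crest.Agent.R154.Face504 (PF tw tw_le_tw tw_le_one min_pf an face3_one fhd_of_contact FHD
  end_mem_sites mem_sites_prefix)
open scoped ENNReal

variable {d : ℕ}

lemma pf_up (u : Step d) (h : ℕ) : PF {π | IsUp u h π} := by
  rintro l hl l' hl' ⟨t, rfl⟩
  by_cases ht : t = []
  · rw [ht, List.append_nil]
  · have := (hl'.1 _ (end_mem_sites 0 l t ht)).2
    rw [hl.2] at this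
    omega

lemma pf_dn (u : Step d) (h : ℕ) : PF {π | IsDn u h π} := by
  rintro l hl l' hl' ⟨t, rfl⟩
  by_cases ht : t = []
  · rw [ht, List.append_nil]
  · have := (hl'.1 _ (end_mem_sites 0 l t ht)).1
    rw [hl.2] at this
    omega

lemma pf_mono {S S' : Set (List (Step d))} (h : PF S') (hs : S ⊆ S') : PF S :=
  fun l hl l' hl' hp => h l (hs hl) l' (hs hl') hp

lemma int_tw (ν : Measure (Row d)) [IsProbabilityMeasure ν] (S : Set (List (Step d))) :
    ∫⁻ ω, tw ω 0 S ∂(iidEnvironmentLaw ν)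
      = ∑' l : List (Step d), (@ite _ (l ∈ S) (Classical.propDecidable _) (aw ν l) 0) := by
  classical
  unfold tw
  rw [lintegral_tsum]
  · refine tsum_congr fun l => ?_
    by_cases h : l ∈ S
    · simp only [h, if_true]; rfl
    · simp [h]
  · intro l
    by_cases h : l ∈ S
    · simp only [h, if_true]; exact (measurable_lw 0 l).aemeasurable
    · simp only [h, if_false]; exact aemeasurable_const

lemma sum_le_one (ν : Measure (Row d)) [IsProbabilityMeasure ν] {S : Set (List (Step d))}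
    (hS : PF S) :
    ∑' l : List (Step d), (@ite _ (l ∈ S) (Classical.propDecidable _) (aw ν l) 0) ≤ 1 := by
  rw [← int_tw]
  calc ∫⁻ ω, tw ω 0 S ∂(iidEnvironmentLaw ν) ≤ ∫⁻ _, 1 ∂(iidEnvironmentLaw ν) :=
        lintegral_mono fun ω => tw_le_one ω 0 hS
    _ = 1 := by simp

/-- up crossings which, after height `s`, come back to level `≤ e` -/
def Bd (u : Step d) (h s : ℕ) (e : ℤ) : Set (List (Step d)) :=
  {π | IsUp u h π ∧ ∃ l1 l2, l1 ++ l2 <+: π ∧ (s : ℤ) ≤ lev u (endp 0 l1) ∧
    lev u (endp 0 (l1 ++ l2)) ≤ e}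

/-- up crossings without such a return -/
def Ar (u : Step d) (h s : ℕ) (e : ℤ) : Set (List (Step d)) :=
  {π | IsUp u h π ∧ ¬ ∃ l1 l2, l1 ++ l2 <+: π ∧ (s : ℤ) ≤ lev u (endp 0 l1) ∧
    lev u (endp 0 (l1 ++ l2)) ≤ e}

lemma prefix_sites {l π : List (Step d)} (h : l <+: π) (x : Site d) {y : Site d}
    (hy : y ∈ sitesL x l) : y ∈ sitesL x π := by
  obtain ⟨t, rfl⟩ := h
  rw [sitesA]
  exact List.mem_append_left _ hy

lemma bd_le (ν : Measure (Row d)) [IsProbabilityMeasure ν] (u : Step d) (h s : ℕ) (e : ℤ)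
    (i0 : ℤ) (he : e ≤ i0) :
    ∑' l : List (Step d), (@ite _ (l ∈ Bd u h s e) (Classical.propDecidable _) (aw ν l) 0)
      ≤ annealed (iidEnvironmentLaw ν) 0 (Us475.Ret u i0 s) := by
  classical
  set P : List (Step d) → Prop := fun l => l ∈ Us109.RetW u e s with hP
  set Wm : Set (List (Step d)) := {σ | P σ ∧ ∀ σ', σ' <+: σ → P σ' → σ' = σ} with hWm
  have hpf : PF Wm := min_pf P
  calc ∑' l : List (Step d), (@ite _ (l ∈ Bd u h s e) (Classical.propDecidable _) (aw ν l) 0)
      = ∫⁻ ω, tw ω 0 (Bd u h s e) ∂(iidEnvironmentLaw ν) := (int_tw ν _).symm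
    _ ≤ ∫⁻ ω, tw ω 0 Wm ∂(iidEnvironmentLaw ν) := by
        refine lintegral_mono fun ω => tw_le_tw ω 0 (pf_mono (pf_up u h) fun l hl => hl.1) ?_
        rintro l ⟨hl, l1, l2, hp, h1, h2⟩
        have hPl : P (l1 ++ l2) := by
          refine ⟨⟨l1, l2, rfl, fun y hy => ?_, h1⟩, h2⟩
          exact (hl.1 y (prefix_sites ((List.prefix_append l1 l2).trans hp) 0 hy)).1
        have hex : ∃ n, ∃ σ' : List (Step d), σ'.length = n ∧ σ' <+: l ∧ P σ' :=
          ⟨_, l1 ++ l2, rfl, hp, hPl⟩
        obtain ⟨σ, h1, h2, h3⟩ := Nat.find_spec hex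
        refine ⟨σ, ⟨h3, ?_⟩, h2⟩
        intro σ' hσ' hP'
        have := Nat.find_min' hex ⟨σ', rfl, hσ'.trans h2, hP'⟩
        rw [← h1] at this
        exact hσ'.eq_of_length (le_antisymm hσ'.length_le this)
    _ = ∑' l : List (Step d), (@ite _ (l ∈ Wm) (Classical.propDecidable _) (aw ν l) 0) :=
        int_tw ν _
    _ ≤ _ := by
        have h := Us109.ret_le ν u i0 s Wm hpf (fun l hl => ⟨hl.1.1, hl.1.2.trans he⟩)
        exact h

/-- completions of the down walker started at `x` -/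
def Tc (u : Step d) (h' : ℕ) (E : Finset (Site d)) (x v : Site d) : Set (List (Step d)) :=
  {τ | (∀ y ∈ sitesL v τ, lev u x - h' < lev u y) ∧ lev u (endp v τ) = lev u x - h' ∧
    endp v τ - x + h' • stepVec u ∈ E}

/-- the local down crossings -/
def Bc (u : Step d) (h' : ℕ) (E : Finset (Site d)) : Set (List (Step d)) :=
  {γ | IsDn u h' γ ∧ endp 0 γ + h' • stepVec u ∈ E}

lemma hcl (u : Step d) (h' : ℕ) (E : Finset (Site d)) (x : Site d) (γ₁ γ₂ : List (Step d))
    (h : γ₁ ++ γ₂ ∈ Bc u h' E) : γ₂ ∈ Tc u h' E x (endp x γ₁) := by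
  obtain ⟨hd, hE⟩ := h
  refine ⟨fun y hy => ?_, ?_, ?_⟩
  · have h1 : y ∈ sitesL x (γ₁ ++ γ₂) := by rw [sitesA]; exact List.mem_append_right _ hy
    have h2 : y - x ∈ sitesL 0 (γ₁ ++ γ₂) := (mem_sitesT _ 0 x y).1 (by rwa [zero_add])
    have h3 := (hd.1 _ h2).1
    rw [levS] at h3
    omega
  · rw [← endp_append, endp_eq_add, levA, hd.2]; ring
  · rw [← endp_append, endp_eq_add]
    have : x + endp 0 (γ₁ ++ γ₂) - x + h' • stepVec u = endp 0 (γ₁ ++ γ₂) + h' • stepVec u := by
      abel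
    rw [this]; exact hE

/-- composite words -/
def Rc (u : Step d) (h h' s : ℕ) (e : ℤ) (E : Finset (Site d)) (x : Site d) :
    Set (List (Step d)) :=
  {l | ∃ σ τ, l = σ ++ τ ∧ (∃ π ∈ Ar u h s e, σ <+: π) ∧ (s : ℤ) ≤ lev u (endp 0 σ) ∧
    τ ∈ Tc u h' E x (endp 0 σ)}

/-- all composite words with exit level `e` -/
def Wc (u : Step d) (h s : ℕ) (e : ℤ) : Set (List (Step d)) :=
  {l | ∃ σ τ, l = σ ++ τ ∧ (∃ π ∈ Ar u h s e, σ <+: π) ∧ (s : ℤ) ≤ lev u (endp 0 σ) ∧
    (∀ y ∈ sitesL (endp 0 σ) τ, e < lev u y) ∧ lev u (endp 0 l) = e}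

lemma pf_Wc (u : Step d) (h s : ℕ) (e : ℤ) : PF (Wc u h s e) := by
  rintro l ⟨σ, τ, hl, ⟨π, hπ, hσπ⟩, hs, hτ, hle⟩ l' ⟨σ', τ', hl', ⟨π', hπ', hσπ'⟩, hs', hτ', hle'⟩
    ⟨t, ht⟩
  by_contra hne
  have ht0 : t ≠ [] := by
    rintro rfl
    rw [List.append_nil] at ht
    exact hne ht
  rcases le_or_gt σ'.length l.length with hlen | hlen
  · -- `l = σ' ++ τ1`
    have hpre : σ' <+: l := by
      refine List.prefix_of_prefix_length_le (l₃ := l') ?_ ⟨t, ht⟩ hlen
      exact ⟨τ', hl'.symm⟩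
    obtain ⟨τ1, hτ1⟩ := hpre
    have e1 : τ' = τ1 ++ t := by
      have : σ' ++ τ' = σ' ++ (τ1 ++ t) := by rw [← hl', ← ht, ← hτ1, List.append_assoc]
      exact List.append_cancel_left this
    have h1 := hτ' (endp (endp 0 σ') τ1) (by rw [e1]; exact end_mem_sites _ τ1 t ht0)
    rw [← endp_append, hτ1, hle] at h1
    exact lt_irrefl _ h1
  · have hpre : l <+: σ' := by
      refine List.prefix_of_prefix_length_le (l₃ := l') ⟨t, ht⟩ ?_ hlen.le
      exact ⟨τ', hl'.symm⟩
    apply hπ'.2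
    refine ⟨σ, τ, ?_, hs, ?_⟩
    · rw [← hl]; exact hpre.trans hσπ'
    · rw [← hl, hle]

lemma Wc_sub (u : Step d) (h s : ℕ) (e i0 : ℤ) (he : e ≤ i0) :
    Wc u h s e ⊆ Us109.RetW u i0 s := by
  rintro l ⟨σ, τ, hl, ⟨π, hπ, hσπ⟩, hs, _, hle⟩
  exact ⟨⟨σ, τ, hl, fun y hy => (hπ.1.1 y (prefix_sites hσπ 0 hy)).1, hs⟩, by rw [hle]; exact he⟩

open Classical in
lemma land_sum (ν : Measure (Row d)) [IsProbabilityMeasure ν] (u : Step d) (h h' s : ℕ) (e i0 : ℤ)
    (he : e ≤ i0) (E : Finset (Site d)) :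
    ∑' x : Site d, (if lev u x = e + h' then
        ∫⁻ ω, tw ω 0 (Rc u h h' s e E x) ∂(iidEnvironmentLaw ν) else 0)
      ≤ E.card * annealed (iidEnvironmentLaw ν) 0 (Us475.Ret u i0 s) := by
  calc ∑' x : Site d, (if lev u x = e + h' then
        ∫⁻ ω, tw ω 0 (Rc u h h' s e E x) ∂(iidEnvironmentLaw ν) else 0)
      ≤ ∑' x : Site d, ∑' l : List (Step d), ∑ w ∈ E,
        (if l ∈ Wc u h s e ∧ endp 0 l - x + h' • stepVec u = w then aw ν l else 0) := by
        refine ENNReal.tsum_le_tsum fun x => ?_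
        split_ifs with hx
        · rw [int_tw]
          refine ENNReal.tsum_le_tsum fun l => ?_
          by_cases hl : l ∈ Rc u h h' s e E x
          · simp only [hl, if_true]
            obtain ⟨σ, τ, h1, h2, h3, h4, h5, h6⟩ := hl
            have e1 : endp (endp 0 σ) τ = endp 0 l := by rw [h1, endp_append]
            rw [e1] at h5 h6
            have hW : l ∈ Wc u h s e := by
              refine ⟨σ, τ, h1, h2, h3, fun y hy => ?_, by rw [h5, hx]; ring⟩
              have := h4 y hy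
              rw [hx] at this
              linarith
            refine le_trans ?_ (Finset.single_le_sum (f := fun w =>
              (if l ∈ Wc u h s e ∧ endp 0 l - x + h' • stepVec u = w then aw ν l else 0))
              (fun _ _ => zero_le) h6)
            rw [if_pos ⟨hW, rfl⟩]
          · simp only [hl, if_false]; exact zero_le
        · exact zero_le
    _ = ∑ w ∈ E, ∑' l : List (Step d), ∑' x : Site d,
        (if l ∈ Wc u h s e ∧ endp 0 l - x + h' • stepVec u = w then aw ν l else 0) := by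
        rw [ENNReal.tsum_comm]
        rw [← Summable.tsum_finsetSum (fun _ _ => ENNReal.summable)]
        refine tsum_congr fun l => ?_
        rw [Summable.tsum_finsetSum (fun _ _ => ENNReal.summable)]
    _ ≤ ∑ w ∈ E, ∑' l : List (Step d), (if l ∈ Wc u h s e then aw ν l else 0) := by
        refine Finset.sum_le_sum fun w _ => ENNReal.tsum_le_tsum fun l => ?_
        by_cases hl : l ∈ Wc u h s e
        · simp only [hl, true_and, if_true]
          refine Face504.tsum_at_most_one _ _ ?_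
          intro x y hx hy
          have : endp 0 l - x + h' • stepVec u = endp 0 l - y + h' • stepVec u := hx.trans hy.symm
          have := add_right_cancel this
          exact sub_right_injective this
        · simp [hl]
    _ ≤ ∑ w ∈ E, annealed (iidEnvironmentLaw ν) 0 (Us475.Ret u i0 s) := by
        refine Finset.sum_le_sum fun w _ => ?_
        exact Us109.ret_le ν u i0 s _ (pf_Wc u h s e) (Wc_sub u h s e i0 he)
    _ = _ := by simp

open Classical in
/-- **H3 in words**: the down walker is local. -/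
theorem h3 (ν : Measure (Row d)) [IsProbabilityMeasure ν] (u : Step d) (i0 s h h' a a' hi : ℕ)
    (E : Finset (Site d)) (μ : Site d → ℝ≥0∞) (M lam : ℝ≥0∞) (hμ1 : ∑' x, μ x ≤ 1)
    (hμM : ∀ x, μ x ≤ M) (hl0 : lam ≠ 0) (hlt : lam ≠ ⊤) (hs1 : hi + s ≤ a + h)
    (hs2 : a + h ≤ a' + h' + i0) :
    ∑' x, μ x * (∑' π, ∑' γ, if lev u x = 0 ∧ IsUp u h π ∧ IsDn u h' γ ∧
      (endp 0 γ + h' • stepVec u) ∈ E ∧ (∃ y, Ct u π γ x a a' y) ∧
      (∀ y, Ct u π γ x a a' y → -lev u y ≤ (hi : ℤ)) then aw ν π * aw ν γ else 0)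
      ≤ 4 * lam + M * E.card * annealed (iidEnvironmentLaw ν) 0 (Us475.Ret u i0 s) / lam
        + annealed (iidEnvironmentLaw ν) 0 (Us475.Ret u i0 s) := by
  set us := annealed (iidEnvironmentLaw ν) 0 (Us475.Ret u i0 s) with hus
  set e : ℤ := (a : ℤ) + h - a' - 1 - h' with he
  have hei : e ≤ (i0 : ℤ) := by omega
  set M' : ℝ≥0∞ := min M 1 with hM'
  have hM'M : M' ≤ M := min_le_left _ _
  have hM't : M' ≠ ⊤ := ne_top_of_le_ne_top ENNReal.one_ne_top (min_le_right _ _)
  have hμM' : ∀ x, μ x ≤ M' := fun x => le_min (hμM x) ((ENNReal.le_tsum x).trans hμ1)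
  by_cases hM0 : M' = 0
  · have hμ0 : ∀ x, μ x = 0 := fun x => le_antisymm (by rw [← hM0]; exact hμM' x) zero_le
    simp [hμ0]
  set c : List (Step d) → Site d := fun π => (a' + 1) • stepVec u - endp 0 π - a • stepVec u with hc
  set P : Site d → List (Step d) → List (Step d) → Prop := fun x π γ =>
    lev u x = 0 ∧ IsUp u h π ∧ IsDn u h' γ ∧
      (endp 0 γ + h' • stepVec u) ∈ E ∧ (∃ y, Ct u π γ x a a' y) ∧
      (∀ y, Ct u π γ x a a' y → -lev u y ≤ (hi : ℤ)) with hP
  -- split
  have hsplit : ∑' x, μ x * (∑' π, ∑' γ, if P x π γ then aw ν π * aw ν γ else 0)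
      ≤ ∑' x, (∑' π, ∑' γ, if π ∈ Ar u h s e ∧ P x π γ then μ x * (aw ν π * aw ν γ) else 0)
        + ∑' x, μ x * ((∑' π, if π ∈ Bd u h s e then aw ν π else 0)
          * ∑' γ, if γ ∈ {γ | IsDn u h' γ} then aw ν γ else 0) := by
    rw [← ENNReal.tsum_add]
    refine ENNReal.tsum_le_tsum fun x => ?_
    rw [← ENNReal.tsum_mul_left, ← ENNReal.tsum_mul_right, ← ENNReal.tsum_mul_left,
      ← ENNReal.tsum_add]
    refine ENNReal.tsum_le_tsum fun π => ?_
    rw [← ENNReal.tsum_mul_left, ← ENNReal.tsum_mul_left, ← ENNReal.tsum_mul_left,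
      ← ENNReal.tsum_add]
    refine ENNReal.tsum_le_tsum fun γ => ?_
    by_cases hPx : P x π γ
    · rw [if_pos hPx]
      by_cases hA : π ∈ Ar u h s e
      · rw [if_pos ⟨hA, hPx⟩]; exact le_self_add
      · have hB : π ∈ Bd u h s e := by
          refine ⟨hPx.2.1, ?_⟩
          by_contra hcon
          exact hA ⟨hPx.2.1, hcon⟩
        have hγ : γ ∈ {γ | IsDn u h' γ} := hPx.2.2.1
        rw [if_pos hB, if_pos hγ]
        exact le_add_self
    · rw [if_neg hPx, mul_zero]; exact zero_le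
  have hbad : ∑' x, μ x * ((∑' π, if π ∈ Bd u h s e then aw ν π else 0)
          * ∑' γ, if γ ∈ {γ | IsDn u h' γ} then aw ν γ else 0) ≤ us := by
    rw [ENNReal.tsum_mul_right]
    calc (∑' x, μ x) * ((∑' π, if π ∈ Bd u h s e then aw ν π else 0)
          * ∑' γ, if γ ∈ {γ | IsDn u h' γ} then aw ν γ else 0)
        ≤ 1 * (us * 1) := mul_le_mul' hμ1 (mul_le_mul' (bd_le ν u h s e i0 hei)
          (sum_le_one ν (pf_dn u h')))
      _ = us := by rw [one_mul, mul_one]
  -- reindexing
  have hre : ∑' x, (∑' π, ∑' γ, if π ∈ Ar u h s e ∧ P x π γ then μ x * (aw ν π * aw ν γ) else 0)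
      = ∑' x, (∑' π, ∑' γ, if π ∈ Ar u h s e ∧ P (x + c π) π γ then
        μ (x + c π) * (aw ν π * aw ν γ) else 0) := by
    rw [ENNReal.tsum_comm]
    rw [ENNReal.tsum_comm (f := fun x π => ∑' γ, if π ∈ Ar u h s e ∧ P (x + c π) π γ then
        μ (x + c π) * (aw ν π * aw ν γ) else 0)]
    refine tsum_congr fun π => ?_
    exact ((Equiv.addRight (c π)).tsum_eq (fun x => ∑' γ, if π ∈ Ar u h s e ∧ P x π γ then
        μ x * (aw ν π * aw ν γ) else 0)).symm
  have hone : ∀ x, (∑' π, ∑' γ, if π ∈ Ar u h s e ∧ P (x + c π) π γ then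
        μ (x + c π) * (aw ν π * aw ν γ) else 0)
      ≤ (if lev u x = e + h' then M' / lam *
          ∫⁻ ω, tw ω 0 (Rc u h h' s e E x) ∂(iidEnvironmentLaw ν) else 0)
        + 4 * lam * ∑' π, (if π ∈ Ar u h s e then aw ν π * μ (x + c π) else 0) := by
    intro x
    by_cases hx : lev u x = e + h'
    · rw [if_pos hx]
      have key := face3_one ν (0 : Site d) x (A := Ar u h s e) (B := Bc u h' E)
        (pf_mono (pf_up u h) fun l hl => hl.1) (pf_mono (pf_dn u h') fun l hl => hl.1)
        (Tc u h' E x) (fun γ₁ γ₂ hγ _ => hcl u h' E x γ₁ γ₂ hγ)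
        (wt := fun π => μ (x + c π)) (M := M') hM0 hM't (fun π => hμM' _)
        {y | (s : ℤ) ≤ lev u y} (Rc u h h' s e E x)
        (fun σ τ hσ hD hτ => ⟨σ, τ, rfl, hσ, hD, hτ⟩) hl0 hlt
      refine le_trans ?_ key
      refine ENNReal.tsum_le_tsum fun π => ENNReal.tsum_le_tsum fun γ => ?_
      by_cases hPx : π ∈ Ar u h s e ∧ P (x + c π) π γ
      · rw [if_pos hPx]
        obtain ⟨hA, h0, hup, hdn, hE, ⟨y, hy1, hy2⟩, hall⟩ := hPx
        have hend := hup.2
        have hx2 : x + c π - (a' + 1) • stepVec u = x + (-(endp 0 π) - a • stepVec u) := by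
          simp only [hc]; abel
        have hconv : ∀ z, z ∈ sitesL 0 π → z ∈ sitesL x γ →
            Ct u π γ (x + c π) a a' (z + (-(endp 0 π) - a • stepVec u)) := by
          intro z hz1 hz2
          refine ⟨?_, ?_⟩
          · have : (-(endp 0 π) - a • stepVec u : Site d)
                = 0 + (-(endp 0 π) - a • stepVec u) := by rw [zero_add]
            rw [this, mem_sitesT]
            simpa using hz1
          · rw [hx2, mem_sitesT]
            simpa using hz2
        have hF : FHD 0 x {y | (s : ℤ) ≤ lev u y} π γ := by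
          refine fhd_of_contact ⟨y - (-(endp 0 π) - a • stepVec u), ?_, ?_⟩ ?_
          · have : (-(endp 0 π) - a • stepVec u : Site d)
                = 0 + (-(endp 0 π) - a • stepVec u) := by rw [zero_add]
            rw [this, mem_sitesT] at hy1
            exact hy1
          · rw [hx2, mem_sitesT] at hy2
            exact hy2
          · intro z hz1 hz2
            have h7 := hall _ (hconv z hz1 hz2)
            rw [levA, levS, levN, levM, levU, hend] at h7
            change (s : ℤ) ≤ lev u z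
            omega
        rw [if_pos ⟨hA, ⟨hdn, hE⟩, hF⟩]
        have e1 : an ν 0 π = aw ν π := rfl
        have e2 : an ν x γ = aw ν γ := NB28.aw_shift ν x γ
        rw [e1, e2]
        exact le_of_eq (by ring)
      · rw [if_neg hPx]; exact zero_le
    · rw [if_neg hx, zero_add]
      refine le_trans (le_of_eq ?_) zero_le
      rw [ENNReal.tsum_eq_zero]
      intro π
      rw [ENNReal.tsum_eq_zero]
      intro γ
      refine if_neg ?_
      rintro ⟨hA, h0, hup, _⟩
      apply hx
      simp only [hc] at h0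
      rw [levA, levS, levS, levM, levM, levU, hup.2] at h0
      push_cast at h0
      omega
  have hgood : ∑' x, (∑' π, ∑' γ, if π ∈ Ar u h s e ∧ P (x + c π) π γ then
        μ (x + c π) * (aw ν π * aw ν γ) else 0) ≤ M * E.card * us / lam + 4 * lam := by
    refine (ENNReal.tsum_le_tsum hone).trans ?_
    rw [ENNReal.tsum_add]
    refine add_le_add ?_ ?_
    · calc ∑' x, (if lev u x = e + h' then M' / lam *
          ∫⁻ ω, tw ω 0 (Rc u h h' s e E x) ∂(iidEnvironmentLaw ν) else 0)
          = M' / lam * ∑' x, (if lev u x = e + h' then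
            ∫⁻ ω, tw ω 0 (Rc u h h' s e E x) ∂(iidEnvironmentLaw ν) else 0) := by
            rw [← ENNReal.tsum_mul_left]
            refine tsum_congr fun x => ?_
            split_ifs <;> simp
        _ ≤ M' / lam * (E.card * us) := mul_le_mul_right (land_sum ν u h h' s e i0 hei E) _
        _ ≤ M / lam * (E.card * us) := mul_le_mul_left (ENNReal.div_le_div_right hM'M _) _
        _ = M * E.card * us / lam := by
            rw [div_eq_mul_inv, div_eq_mul_inv]; ring
    · rw [ENNReal.tsum_mul_left]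
      have : ∑' x, ∑' π, (if π ∈ Ar u h s e then aw ν π * μ (x + c π) else 0) ≤ 1 := by
        rw [ENNReal.tsum_comm]
        calc ∑' π, ∑' x, (if π ∈ Ar u h s e then aw ν π * μ (x + c π) else 0)
            ≤ ∑' π, (if π ∈ Ar u h s e then aw ν π else 0) := by
              refine ENNReal.tsum_le_tsum fun π => ?_
              by_cases hA : π ∈ Ar u h s e
              · simp only [hA, if_true]
                rw [ENNReal.tsum_mul_left]
                have e3 : ∑' x, μ (x + c π) = ∑' x, μ x := (Equiv.addRight (c π)).tsum_eq μ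
                rw [e3]
                exact (mul_le_mul_right hμ1 _).trans (by rw [mul_one])
              · simp [hA]
          _ ≤ 1 := sum_le_one ν (pf_mono (pf_up u h) fun l hl => hl.1)
      calc 4 * lam * ∑' x, ∑' π, (if π ∈ Ar u h s e then aw ν π * μ (x + c π) else 0)
          ≤ 4 * lam * 1 := mul_le_mul_right this _
        _ = 4 * lam := mul_one _
  calc _ ≤ _ := hsplit
    _ ≤ (M * E.card * us / lam + 4 * lam) + us := add_le_add (hre ▸ hgood) hbad
    _ = _ := by rw [add_comm (M * E.card * us / lam)]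

end Crest.Agent.R154.H3220
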