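import Crest.Agent.R154.NBDefs_28
import Crest.Agent.R154.WordB_956

/-! Row 154, ROAD 801 (helper687): the window lemma of order 3 (`Y` local, `X` anything) in words,
with the thresholds `lam / 2^k` attached to the conditional density of `X`'s landing. -/

set_option autoImplicit false

open MeasureTheory ProbabilityTheory Crest.ProbabilityR.RandomEnvironment
open Crest.Agent.R154.Flux566 (lw endp sitesL endp_append endp_eq_add measurable_lw locOn_lw)
open Crest.Agent.R154.Flux132 (lev)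
open Crest.Agent.R154.WordB956
open Crest.Agent.R154.NB28 (IsUp IsDn)
open scoped ENNReal

namespace Crest.Agent.R154.H3w687

variable {d : ℕ}

/-- words with a prefix in `S` -/
def Ext (S : Set (List (Step d))) : Set (List (Step d)) := {l | ∃ a b, l = a ++ b ∧ a ∈ S}

lemma pf_unique {S : Set (List (Step d))} (hS : PF S) {a b a' b' : List (Step d)}
    (h : a ++ b = a' ++ b') (ha : a ∈ S) (ha' : a' ∈ S) : a = a' ∧ b = b' := by
  have hh : a = a' := by
    rcases List.append_eq_append_iff.1 h with ⟨c, hc, _⟩ | ⟨c, hc, _⟩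
    · have : c = [] := hS a ha c (hc ▸ ha')
      rw [hc, this, List.append_nil]
    · have : c = [] := hS a' ha' c (hc ▸ ha)
      rw [hc, this, List.append_nil]
  subst hh
  exact ⟨rfl, List.append_cancel_left h⟩

open Classical in
theorem tsum_ext {S : Set (List (Step d))} (hS : PF S) (F : List (Step d) → ℝ≥0∞) :
    ∑' l : List (Step d), (if l ∈ Ext S then F l else 0)
      = ∑' a : List (Step d), (if a ∈ S then ∑' b : List (Step d), F (a ++ b) else 0) := by
  have e1 : ∑' l1 : List (Step d), (if l1 ∈ S then ∑' l2 : List (Step d), F (l1 ++ l2)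
      else 0) = ∑' p : List (Step d) × List (Step d),
        (if p.1 ∈ S then F (p.1 ++ p.2) else 0) := by
    rw [ENNReal.tsum_prod (f := fun a b : List (Step d) => if a ∈ S then F (a ++ b) else 0)]
    refine tsum_congr fun l1 => ?_
    by_cases h : l1 ∈ S <;> simp [h]
  rw [e1]
  have e2 : ∑' p : List (Step d) × List (Step d),
        (if p.1 ∈ S then F (p.1 ++ p.2) else 0)
      = ∑' q : {p : List (Step d) × List (Step d) // p.1 ∈ S}, F (q.1.1 ++ q.1.2) := by
    rw [← tsum_subtype_eq_of_support_subset (s := {p : List (Step d) × List (Step d) |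
      p.1 ∈ S})]
    · refine tsum_congr fun q => ?_
      exact if_pos q.2
    · intro p hp
      by_contra h
      exact hp (if_neg h)
  rw [e2]
  set g : {p : List (Step d) × List (Step d) // p.1 ∈ S} → List (Step d) :=
    fun q => q.1.1 ++ q.1.2 with hg
  have hinj : Function.Injective g := by
    rintro ⟨⟨a, b⟩, ha⟩ ⟨⟨a', b'⟩, ha'⟩ h
    obtain ⟨h1, h2⟩ := pf_unique hS h ha ha'
    simp only at h1 h2
    subst h1; subst h2; rfl
  have hs : Function.support (fun l : List (Step d) => if l ∈ Ext S then F l else 0)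
      ⊆ Set.range g := by
    intro l hl
    have hv : l ∈ Ext S := by
      by_contra h
      exact hl (if_neg h)
    obtain ⟨l1, l2, h1, h2⟩ := hv
    exact ⟨⟨(l1, l2), h2⟩, h1.symm⟩
  rw [← hinj.tsum_eq hs]
  refine tsum_congr fun q => ?_
  rw [if_pos]
  exact ⟨q.1.1, q.1.2, rfl, q.2⟩

lemma mem_sitesL_add {x w z : Site d} {l : List (Step d)} :
    z ∈ sitesL (x + w) l ↔ z - w ∈ sitesL x l := by
  rw [mem_sitesL, mem_sitesL]
  constructor
  · rintro ⟨l1, e, l2, h, h'⟩
    refine ⟨l1, e, l2, h, ?_⟩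
    rw [endp_add] at h'
    rw [← h']; abel
  · rintro ⟨l1, e, l2, h, h'⟩
    refine ⟨l1, e, l2, h, ?_⟩
    rw [endp_add, h']; abel

lemma site_left {x z : Site d} {a b : List (Step d)} (h : z ∈ sitesL x a) :
    z ∈ sitesL x (a ++ b) := by
  rw [sitesL_append]; exact List.mem_append_left _ h

lemma site_right {x z : Site d} {a b : List (Step d)} (h : z ∈ sitesL (endp x a) b) :
    z ∈ sitesL x (a ++ b) := by
  rw [sitesL_append]; exact List.mem_append_right _ h

lemma site_mid {x : Site d} {a b : List (Step d)} (h : b ≠ []) :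
    endp x a ∈ sitesL x (a ++ b) := by
  obtain ⟨e, t, rfl⟩ := List.exists_cons_of_ne_nil h
  exact mem_sitesL.2 ⟨a, e, t, rfl, rfl⟩

/-- first elements -/
def Fst (Cl : Set (List (Step d))) : Set (List (Step d)) :=
  {l | l ∈ Cl ∧ ∀ a b, l = a ++ b → b ≠ [] → a ∉ Cl}

lemma pf_fst (Cl : Set (List (Step d))) : PF (Fst Cl) := by
  intro l hl l' hl'
  by_contra h
  exact hl'.2 l l' rfl h hl.1

lemma ext_fst {Cl : Set (List (Step d))} {l : List (Step d)} (h : l ∈ Cl) : l ∈ Ext (Fst Cl) := by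
  induction hn : l.length using Nat.strong_induction_on generalizing l with
  | _ n ih =>
    by_cases h1 : ∀ a b, l = a ++ b → b ≠ [] → a ∉ Cl
    · exact ⟨l, [], (List.append_nil l).symm, h, h1⟩
    · push Not at h1
      obtain ⟨a, b, hab, hb, ha⟩ := h1
      have hlen : a.length < n := by
        rw [← hn, hab, List.length_append]
        have := List.length_pos_iff.2 hb
        omega
      obtain ⟨a', b', h2, h3⟩ := ih a.length hlen ha rfl
      exact ⟨a', b' ++ b, by rw [hab, h2, List.append_assoc], h3⟩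

variable (u : Step d)

/-- first return to a level `≤ b` after the first visit of a level `≥ s`, natural before it -/
def Xi (s b : ℤ) : Set (List (Step d)) :=
  {l | ∃ l1 l2, l = l1 ++ l2 ∧ (∀ z ∈ sitesL 0 l1, 0 ≤ lev u z ∧ lev u z < s) ∧
    s ≤ lev u (endp 0 l1) ∧ (∀ z ∈ sitesL (endp 0 l1) l2, b < lev u z) ∧ lev u (endp 0 l) ≤ b}

lemma pf_Xi (s b : ℤ) : PF (Xi u s b) := by
  rintro l ⟨l1, l2, rfl, h1, h2, h3, h4⟩ l' ⟨m1, m2, hm, g1, g2, g3, g4⟩
  have hf1 : l1 ∈ FH {z | s ≤ lev u z} 0 := by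
    refine ⟨h2, fun a b hab hb hc => ?_⟩
    have := h1 (endp 0 a) (by rw [hab]; exact site_mid hb)
    exact absurd hc (not_le.2 this.2)
  have hf2 : m1 ∈ FH {z | s ≤ lev u z} 0 := by
    refine ⟨g2, fun a b hab hb hc => ?_⟩
    have := g1 (endp 0 a) (by rw [hab]; exact site_mid hb)
    exact absurd hc (not_le.2 this.2)
  rw [List.append_assoc] at hm
  obtain ⟨e1, e2⟩ := FH_unique hm hf1 hf2
  subst e1; subst e2
  by_contra hl'
  have := g3 (endp (endp 0 l1) l2) (site_mid hl')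
  rw [← endp_append] at this
  exact absurd h4 (not_le.2 this)

/-- natural words which are at a level `≥ s` and have not returned -/
def P1 (s b : ℤ) : Set (List (Step d)) :=
  {l | (∀ z ∈ sitesL 0 l, 0 ≤ lev u z) ∧ s ≤ lev u (endp 0 l) ∧ l ∉ Ext (Xi u s b)}

/-- down words from `v` to the level `b`, landing in `y + E` -/
def Tm (b : ℤ) (E : Finset (Site d)) (y v : Site d) : Set (List (Step d)) :=
  {t | (∀ z ∈ sitesL v t, b < lev u z) ∧ lev u (endp v t) = b ∧ endp v t - y ∈ E}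

lemma pf_Tm (b : ℤ) (E : Finset (Site d)) (y v : Site d) : PF (Tm u b E y v) := by
  rintro l ⟨h1, h2, h3⟩ l' ⟨g1, g2, g3⟩
  by_contra hl'
  have := g1 (endp v l) (site_mid hl')
  omega

lemma comp_Xi {s b : ℤ} {E : Finset (Site d)} {y : Site d} {p t : List (Step d)}
    (hp : p ∈ P1 u s b) (ht : t ∈ Tm u b E y (endp 0 p)) :
    p ++ t ∈ Xi u s b ∧ endp 0 (p ++ t) - y ∈ E := by
  obtain ⟨h1, h2, h3⟩ := hp
  obtain ⟨g1, g2, g3⟩ := ht
  have hv : p ∈ Vis {z | s ≤ lev u z} (0 : Site d) := ⟨p, [], (List.append_nil p).symm, h2⟩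
  obtain ⟨l1, l2, rfl, hl1⟩ := exists_FH hv
  have hs1 : ∀ z ∈ sitesL 0 l1, 0 ≤ lev u z ∧ lev u z < s := by
    intro z hz
    refine ⟨h1 z (site_left hz), ?_⟩
    obtain ⟨a, e, t', h, h'⟩ := mem_sitesL.1 hz
    have := hl1.2 a (e :: t') h (List.cons_ne_nil _ _)
    rw [h'] at this
    exact not_le.1 this
  have hnv : l2 ∉ Vis {z | lev u z ≤ b} (endp 0 l1) := by
    intro hv2
    obtain ⟨c, c', rfl, hc⟩ := exists_FH hv2
    refine h3 ⟨l1 ++ c, c', by rw [List.append_assoc], l1, c, rfl, hs1, hl1.1, ?_, ?_⟩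
    · intro z hz
      obtain ⟨a, e, t', h, h'⟩ := mem_sitesL.1 hz
      have := hc.2 a (e :: t') h (List.cons_ne_nil _ _)
      rw [h'] at this
      exact not_le.1 this
    · rw [endp_append]; exact hc.1
  refine ⟨⟨l1, l2 ++ t, by rw [List.append_assoc], hs1, hl1.1, ?_, ?_⟩, ?_⟩
  · intro z hz
    rw [sitesL_append, List.mem_append] at hz
    rcases hz with hz | hz
    · by_contra hc
      refine hnv ?_
      obtain ⟨a, e, t', h, h'⟩ := mem_sitesL.1 hz
      refine ⟨a, e :: t', h, ?_⟩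
      rw [h']; exact not_lt.1 hc
    · rw [← endp_append] at hz
      exact g1 z hz
  · rw [endp_append, g2]
  · rw [endp_append]; exact g3

open Classical in
/-- the quenched split: cold contacts and hot contacts -/
lemma cold_hot (ω : Environment d) (y : Site d) (s b : ℤ) (E : Finset (Site d))
    (Cl : Set (List (Step d))) (lam : ℝ≥0∞) (hl0 : lam ≠ 0) (hlT : lam ≠ ⊤) :
    ∑' γ : List (Step d), ∑' p : List (Step d),
      (if γ ∈ Tm u b E y y ∧ p ∈ FH {z | z ∈ sitesL y γ} 0 ∧ p ∈ P1 u s b ∧ p ∈ Cl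
        then lw ω 0 p * lw ω y γ else 0)
    ≤ lam * ∑' σ : List (Step d), (if σ ∈ Fst Cl then lw ω 0 σ else 0)
      + lam⁻¹ * ∑' χ : List (Step d), (if χ ∈ Xi u s b ∧ endp 0 χ - y ∈ E then lw ω 0 χ else 0) := by
  set e : Site d → ℝ≥0∞ := fun v => ∑' t : List (Step d), (if t ∈ Tm u b E y v then lw ω v t else 0)
    with he
  set C : Set (Site d) := {v | e v ≤ lam} with hC
  set FS : ℝ≥0∞ := ∑' σ : List (Step d), (if σ ∈ Fst Cl then lw ω 0 σ else 0) with hFS
  set XS : ℝ≥0∞ := ∑' χ : List (Step d), (if χ ∈ Xi u s b ∧ endp 0 χ - y ∈ E then lw ω 0 χ else 0)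
    with hXS
  have hcold : ∀ γ : List (Step d), ∑' p : List (Step d),
      (if p ∈ FH {z | z ∈ sitesL y γ} 0 ∧ p ∈ Cl then lw ω 0 p else 0) ≤ FS := by
    intro γ
    calc ∑' p : List (Step d),
        (if p ∈ FH {z | z ∈ sitesL y γ} 0 ∧ p ∈ Cl then lw ω 0 p else 0)
        ≤ ∑' p : List (Step d), (if p ∈ Ext (Fst Cl) then
          (if p ∈ FH {z | z ∈ sitesL y γ} 0 then lw ω 0 p else 0) else 0) := by
          refine ENNReal.tsum_le_tsum fun p => ?_
          by_cases h : p ∈ FH {z | z ∈ sitesL y γ} 0 ∧ p ∈ Cl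
          · rw [if_pos h, if_pos (ext_fst h.2), if_pos h.1]
          · rw [if_neg h]; exact zero_le
      _ = ∑' a : List (Step d), (if a ∈ Fst Cl then ∑' b : List (Step d),
            (if a ++ b ∈ FH {z | z ∈ sitesL y γ} 0 then lw ω 0 (a ++ b) else 0) else 0) :=
          tsum_ext (pf_fst Cl) _
      _ ≤ FS := by
          refine ENNReal.tsum_le_tsum fun a => ?_
          by_cases h : a ∈ Fst Cl
          · rw [if_pos h, if_pos h]
            calc ∑' b : List (Step d),
                (if a ++ b ∈ FH {z | z ∈ sitesL y γ} 0 then lw ω 0 (a ++ b) else 0)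
                = lw ω 0 a * ∑' b : List (Step d),
                  (if b ∈ {b | a ++ b ∈ FH {z | z ∈ sitesL y γ} 0} then lw ω (endp 0 a) b
                    else 0) := by
                  rw [← ENNReal.tsum_mul_left]
                  refine tsum_congr fun b => ?_
                  rw [lw_append, mul_ite, mul_zero]
                  rfl
              _ ≤ lw ω 0 a * 1 := by
                  refine mul_le_mul_right (pf_sum_le ω _ ?_) _
                  intro l hl l' hl'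
                  exact pf_FH _ _ (a ++ l) hl l' (by rw [List.append_assoc]; exact hl')
              _ = lw ω 0 a := mul_one _
          · rw [if_neg h, if_neg h]
  have hhot : ∀ γ : List (Step d), ∑' p : List (Step d),
      (if p ∈ FH {z | z ∈ sitesL y γ} 0 ∧ p ∈ P1 u s b ∧ endp 0 p ∉ C then lw ω 0 p else 0)
        ≤ lam⁻¹ * XS := by
    intro γ
    have h1 : ∑' χ : List (Step d), (if χ ∈ Ext (FH {z | z ∈ sitesL y γ} 0) then
        (if χ ∈ Xi u s b ∧ endp 0 χ - y ∈ E then lw ω 0 χ else 0) else 0) ≤ XS := by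
      refine ENNReal.tsum_le_tsum fun χ => ?_
      by_cases h : χ ∈ Ext (FH {z | z ∈ sitesL y γ} 0)
      · rw [if_pos h]
      · rw [if_neg h]; exact zero_le
    rw [tsum_ext (pf_FH _ _)] at h1
    have h2 : lam * ∑' p : List (Step d),
      (if p ∈ FH {z | z ∈ sitesL y γ} 0 ∧ p ∈ P1 u s b ∧ endp 0 p ∉ C then lw ω 0 p else 0)
        ≤ XS := by
      refine le_trans ?_ h1
      rw [← ENNReal.tsum_mul_left]
      refine ENNReal.tsum_le_tsum fun p => ?_
      by_cases h : p ∈ FH {z | z ∈ sitesL y γ} 0 ∧ p ∈ P1 u s b ∧ endp 0 p ∉ C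
      · rw [if_pos h, if_pos h.1]
        calc lam * lw ω 0 p ≤ e (endp 0 p) * lw ω 0 p :=
              mul_le_mul_left (not_le.1 h.2.2).le _
          _ = ∑' t : List (Step d), (if t ∈ Tm u b E y (endp 0 p) then lw ω 0 (p ++ t) else 0) := by
              rw [mul_comm, he, ← ENNReal.tsum_mul_left]
              refine tsum_congr fun t => ?_
              rw [lw_append, mul_ite, mul_zero]
          _ ≤ _ := by
              refine ENNReal.tsum_le_tsum fun t => ?_
              by_cases ht : t ∈ Tm u b E y (endp 0 p)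
              · rw [if_pos ht, if_pos (comp_Xi u h.2.1 ht)]
              · rw [if_neg ht]; exact zero_le
      · rw [if_neg h, mul_zero]; exact zero_le
    calc _ = lam⁻¹ * (lam * ∑' p : List (Step d),
      (if p ∈ FH {z | z ∈ sitesL y γ} 0 ∧ p ∈ P1 u s b ∧ endp 0 p ∉ C then lw ω 0 p else 0)) := by
          rw [← mul_assoc, ENNReal.inv_mul_cancel hl0 hlT, one_mul]
      _ ≤ _ := mul_le_mul_right h2 _
  have hvis : ∑' γ : List (Step d),
      (if γ ∈ Tm u b E y y ∧ γ ∈ Vis C y then lw ω y γ else 0) ≤ lam := by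
    refine vis_le ω y (Tm u b E y y) C lam fun l1 hl1 => ?_
    refine le_trans ?_ (show e (endp y l1) ≤ lam from hl1.1)
    refine ENNReal.tsum_le_tsum fun l2 => ?_
    by_cases h : l1 ++ l2 ∈ Tm u b E y y
    · rw [if_pos h, if_pos]
      obtain ⟨h1, h2, h3⟩ := h
      refine ⟨fun z hz => h1 z (site_right hz), ?_, ?_⟩
      · rw [← endp_append]; exact h2
      · rw [← endp_append]; exact h3
    · rw [if_neg h]; exact zero_le
  have hpt : ∀ γ p : List (Step d),
      (if γ ∈ Tm u b E y y ∧ p ∈ FH {z | z ∈ sitesL y γ} 0 ∧ p ∈ P1 u s b ∧ p ∈ Cl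
        then lw ω 0 p * lw ω y γ else 0)
      ≤ (if γ ∈ Tm u b E y y ∧ γ ∈ Vis C y then lw ω y γ else 0) *
          (if p ∈ FH {z | z ∈ sitesL y γ} 0 ∧ p ∈ Cl then lw ω 0 p else 0)
        + (if γ ∈ Tm u b E y y then lw ω y γ else 0) *
          (if p ∈ FH {z | z ∈ sitesL y γ} 0 ∧ p ∈ P1 u s b ∧ endp 0 p ∉ C then lw ω 0 p else 0) := by
    intro γ p
    by_cases h : γ ∈ Tm u b E y y ∧ p ∈ FH {z | z ∈ sitesL y γ} 0 ∧ p ∈ P1 u s b ∧ p ∈ Cl
    · rw [if_pos h]
      by_cases hc : endp 0 p ∈ C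
      · have hv : γ ∈ Vis C y := by
          have h5 : endp 0 p ∈ sitesL y γ := h.2.1.1
          obtain ⟨l1, e', l2, h6, h7⟩ := mem_sitesL.1 h5
          exact ⟨l1, e' :: l2, h6, by rw [h7]; exact hc⟩
        rw [if_pos ⟨h.1, hv⟩, if_pos ⟨h.2.1, h.2.2.2⟩, mul_comm]
        exact le_self_add
      · rw [if_pos h.1, if_pos (show p ∈ FH {z | z ∈ sitesL y γ} 0 ∧ p ∈ P1 u s b ∧
          endp 0 p ∉ C from ⟨h.2.1, h.2.2.1, hc⟩), mul_comm (lw ω 0 p)]
        exact le_add_self
    · rw [if_neg h]; exact zero_le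
  calc _ ≤ ∑' γ : List (Step d), ∑' p : List (Step d),
        ((if γ ∈ Tm u b E y y ∧ γ ∈ Vis C y then lw ω y γ else 0) *
          (if p ∈ FH {z | z ∈ sitesL y γ} 0 ∧ p ∈ Cl then lw ω 0 p else 0)
        + (if γ ∈ Tm u b E y y then lw ω y γ else 0) *
          (if p ∈ FH {z | z ∈ sitesL y γ} 0 ∧ p ∈ P1 u s b ∧ endp 0 p ∉ C then lw ω 0 p
            else 0)) :=
        ENNReal.tsum_le_tsum fun γ => ENNReal.tsum_le_tsum fun p => hpt γ p
    _ = ∑' γ : List (Step d), ((if γ ∈ Tm u b E y y ∧ γ ∈ Vis C y then lw ω y γ else 0) *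
          ∑' p : List (Step d),
            (if p ∈ FH {z | z ∈ sitesL y γ} 0 ∧ p ∈ Cl then lw ω 0 p else 0)
        + (if γ ∈ Tm u b E y y then lw ω y γ else 0) * ∑' p : List (Step d),
          (if p ∈ FH {z | z ∈ sitesL y γ} 0 ∧ p ∈ P1 u s b ∧ endp 0 p ∉ C then lw ω 0 p
            else 0)) := by
        refine tsum_congr fun γ => ?_
        rw [ENNReal.tsum_add, ENNReal.tsum_mul_left, ENNReal.tsum_mul_left]
    _ ≤ ∑' γ : List (Step d), ((if γ ∈ Tm u b E y y ∧ γ ∈ Vis C y then lw ω y γ else 0) * FS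
        + (if γ ∈ Tm u b E y y then lw ω y γ else 0) * (lam⁻¹ * XS)) :=
        ENNReal.tsum_le_tsum fun γ => add_le_add (mul_le_mul_right (hcold γ) _)
          (mul_le_mul_right (hhot γ) _)
    _ = (∑' γ : List (Step d), (if γ ∈ Tm u b E y y ∧ γ ∈ Vis C y then lw ω y γ else 0)) * FS
        + (∑' γ : List (Step d), (if γ ∈ Tm u b E y y then lw ω y γ else 0)) * (lam⁻¹ * XS) := by
        rw [ENNReal.tsum_add, ENNReal.tsum_mul_right, ENNReal.tsum_mul_right]
    _ ≤ lam * FS + 1 * (lam⁻¹ * XS) :=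
        add_le_add (mul_le_mul_left hvis _) (mul_le_mul_left (pf_sum_le ω y (pf_Tm u b E y y)) _)
    _ = _ := by rw [one_mul]


/-! ### annealed part -/

lemma lint_sum (Q : Measure (Environment d)) (x : Site d) (P : List (Step d) → Prop)
    [DecidablePred P] :
    ∫⁻ ω, ∑' l : List (Step d), (if P l then lw ω x l else 0) ∂Q
      = ∑' l : List (Step d), (if P l then aw Q x l else 0) := by
  rw [lintegral_tsum]
  · refine tsum_congr fun l => ?_
    by_cases h : P l
    · simp [h, aw]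
    · simp [h]
  · intro l
    by_cases h : P l
    · simp only [h, if_true]; exact (measurable_lw x l).aemeasurable
    · simp only [h, if_false]; exact measurable_const.aemeasurable

lemma meas_sum (x : Site d) (P : List (Step d) → Prop) [DecidablePred P] :
    Measurable fun ω : Environment d => ∑' l : List (Step d), (if P l then lw ω x l else 0) := by
  refine Measurable.ennreal_tsum fun l => ?_
  by_cases h : P l
  · simp only [h, if_true]; exact measurable_lw x l
  · simp only [h, if_false]; exact measurable_const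

open Classical in
lemma ann_cold_hot (ν : Measure (Row d)) [IsProbabilityMeasure ν] (y : Site d) (s b : ℤ)
    (E : Finset (Site d)) (Cl : Set (List (Step d))) (lam : ℝ≥0∞) (hl0 : lam ≠ 0)
    (hlT : lam ≠ ⊤) :
    ∑' γ : List (Step d), ∑' p : List (Step d),
      (if γ ∈ Tm u b E y y ∧ p ∈ FH {z | z ∈ sitesL y γ} 0 ∧ p ∈ P1 u s b ∧ p ∈ Cl
        then aw (iidEnvironmentLaw ν) 0 p * aw (iidEnvironmentLaw ν) 0 γ else 0)
    ≤ lam * ∑' σ : List (Step d), (if σ ∈ Fst Cl then aw (iidEnvironmentLaw ν) 0 σ else 0)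
      + lam⁻¹ * ∑' χ : List (Step d), (if χ ∈ Xi u s b ∧ endp 0 χ - y ∈ E then
        aw (iidEnvironmentLaw ν) 0 χ else 0) := by
  have e1 : ∀ γ p : List (Step d),
      (if γ ∈ Tm u b E y y ∧ p ∈ FH {z | z ∈ sitesL y γ} 0 ∧ p ∈ P1 u s b ∧ p ∈ Cl
        then aw (iidEnvironmentLaw ν) 0 p * aw (iidEnvironmentLaw ν) 0 γ else 0)
      = ∫⁻ ω, (if γ ∈ Tm u b E y y ∧ p ∈ FH {z | z ∈ sitesL y γ} 0 ∧ p ∈ P1 u s b ∧ p ∈ Cl
        then lw ω 0 p * lw ω y γ else 0) ∂(iidEnvironmentLaw ν) := by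
    intro γ p
    by_cases h : γ ∈ Tm u b E y y ∧ p ∈ FH {z | z ∈ sitesL y γ} 0 ∧ p ∈ P1 u s b ∧ p ∈ Cl
    · simp only [if_pos h]
      rw [aw_mul ν 0 y p γ, aw_shift _ (Q561.iid_shift ν) y γ]
      intro z hz
      obtain ⟨l1, e, l2, h1, h2⟩ := mem_sitesL.1 hz
      have := h.2.1.2 l1 (e :: l2) h1 (List.cons_ne_nil _ _)
      rw [h2] at this
      exact this
    · simp only [if_neg h, lintegral_zero]
  have hm : ∀ γ p : List (Step d), Measurable fun ω : Environment d =>
      (if γ ∈ Tm u b E y y ∧ p ∈ FH {z | z ∈ sitesL y γ} 0 ∧ p ∈ P1 u s b ∧ p ∈ Cl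
        then lw ω 0 p * lw ω y γ else 0) := by
    intro γ p
    by_cases h : γ ∈ Tm u b E y y ∧ p ∈ FH {z | z ∈ sitesL y γ} 0 ∧ p ∈ P1 u s b ∧ p ∈ Cl
    · simp only [if_pos h]; exact (measurable_lw _ _).mul (measurable_lw _ _)
    · simp only [if_neg h]; exact measurable_const
  simp only [e1]
  have e2 : ∑' γ : List (Step d), ∑' p : List (Step d), ∫⁻ ω,
      (if γ ∈ Tm u b E y y ∧ p ∈ FH {z | z ∈ sitesL y γ} 0 ∧ p ∈ P1 u s b ∧ p ∈ Cl
        then lw ω 0 p * lw ω y γ else 0) ∂(iidEnvironmentLaw ν)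
      = ∫⁻ ω, ∑' γ : List (Step d), ∑' p : List (Step d),
      (if γ ∈ Tm u b E y y ∧ p ∈ FH {z | z ∈ sitesL y γ} 0 ∧ p ∈ P1 u s b ∧ p ∈ Cl
        then lw ω 0 p * lw ω y γ else 0) ∂(iidEnvironmentLaw ν) := by
    rw [lintegral_tsum fun γ => (Measurable.ennreal_tsum fun p => hm γ p).aemeasurable]
    refine tsum_congr fun γ => ?_
    rw [lintegral_tsum fun p => (hm γ p).aemeasurable]
  rw [e2]
  refine (lintegral_mono fun ω => cold_hot u ω y s b E Cl lam hl0 hlT).trans ?_
  rw [lintegral_add_left ((meas_sum 0 _).const_mul _), lintegral_const_mul _ (meas_sum 0 _),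
    lintegral_const_mul _ (meas_sum 0 _), lint_sum, lint_sum]

lemma pf_up (h : ℕ) : PF {l : List (Step d) | IsUp u h l} := by
  intro l hl l' hl'
  by_contra hc
  have := (hl'.1 (endp 0 l) (site_mid hc)).2
  have h2 := hl.2
  omega

open Classical in
/-- weight of the up crossings with the density at their landing -/
noncomputable def ff (ν : Measure (Row d)) [IsProbabilityMeasure ν] (h : ℕ)
    (μ : Site d → ℝ≥0∞) (y : Site d) (l : List (Step d)) : ℝ≥0∞ :=
  if IsUp u h l then aw (iidEnvironmentLaw ν) 0 l * μ (y - endp 0 l) else 0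

/-- conditional version -/
noncomputable def WW (ν : Measure (Row d)) [IsProbabilityMeasure ν] (h : ℕ)
    (μ : Site d → ℝ≥0∞) (y : Site d) (p : List (Step d)) : ℝ≥0∞ :=
  ∑' q : List (Step d), ff u ν h μ y (p ++ q)

open Classical in
lemma WW_le (ν : Measure (Row d)) [IsProbabilityMeasure ν] (h : ℕ) (μ : Site d → ℝ≥0∞)
    (M : ℝ≥0∞) (hM : ∀ x, μ x ≤ M) (y : Site d) (p : List (Step d)) :
    WW u ν h μ y p ≤ M * aw (iidEnvironmentLaw ν) 0 p := by
  unfold WW
  calc ∑' q : List (Step d), ff u ν h μ y (p ++ q)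
      ≤ ∑' q : List (Step d), M * (if q ∈ {q | IsUp u h (p ++ q)} then
          aw (iidEnvironmentLaw ν) 0 (p ++ q) else 0) := by
        refine ENNReal.tsum_le_tsum fun q => ?_
        unfold ff
        by_cases hq : IsUp u h (p ++ q)
        · rw [if_pos hq, if_pos (show q ∈ {q | IsUp u h (p ++ q)} from hq), mul_comm]
          exact mul_le_mul_left (hM _) _
        · rw [if_neg hq]; exact zero_le
    _ = M * ∑' q : List (Step d), (if q ∈ {q | IsUp u h (p ++ q)} then
          aw (iidEnvironmentLaw ν) 0 (p ++ q) else 0) := ENNReal.tsum_mul_left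
    _ ≤ _ := by
        refine mul_le_mul_right (pf_ext_le _ 0 p ?_) _
        intro l hl l' hl'
        exact pf_up u h (p ++ l) hl l' (by rw [List.append_assoc]; exact hl')

lemma ff_sum (ν : Measure (Row d)) [IsProbabilityMeasure ν] (h : ℕ) (μ : Site d → ℝ≥0∞)
    (hμ : ∑' x, μ x ≤ 1) (l : List (Step d)) :
    ∑' y, ff u ν h μ y l ≤ aw (iidEnvironmentLaw ν) 0 l := by
  unfold ff
  by_cases hl : IsUp u h l
  · simp only [if_pos hl]
    rw [ENNReal.tsum_mul_left]
    have : ∑' y : Site d, μ (y - endp 0 l) = ∑' x, μ x :=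
      (Equiv.subRight (endp 0 l)).tsum_eq μ
    rw [this]
    exact (mul_le_mul_right hμ _).trans (mul_one _).le
  · simp only [if_neg hl, tsum_zero]; exact zero_le

open Classical in
lemma ff_sum_up (ν : Measure (Row d)) [IsProbabilityMeasure ν] (h : ℕ) (μ : Site d → ℝ≥0∞)
    (hμ : ∑' x, μ x ≤ 1) :
    ∑' y, ∑' l, ff u ν h μ y l ≤ 1 := by
  rw [ENNReal.tsum_comm]
  calc ∑' l, ∑' y, ff u ν h μ y l ≤ ∑' l : List (Step d), (if l ∈ {l | IsUp u h l} then
        aw (iidEnvironmentLaw ν) 0 l else 0) := by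
        refine ENNReal.tsum_le_tsum fun l => ?_
        by_cases hl : IsUp u h l
        · rw [if_pos (show l ∈ {l | IsUp u h l} from hl)]; exact ff_sum u ν h μ hμ l
        · rw [if_neg (show l ∉ {l | IsUp u h l} from hl)]
          unfold ff
          simp only [if_neg hl, tsum_zero]; exact le_rfl
    _ ≤ 1 := pf_aw_le _ 0 (pf_up u h)

open Classical in
lemma WW_pf (ν : Measure (Row d)) [IsProbabilityMeasure ν] (h : ℕ) (μ : Site d → ℝ≥0∞)
    (y : Site d) {S : Set (List (Step d))} (hS : PF S) :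
    ∑' p : List (Step d), (if p ∈ S then WW u ν h μ y p else 0) ≤ ∑' l, ff u ν h μ y l := by
  have := tsum_ext hS (fun l => ff u ν h μ y l)
  unfold WW
  rw [← this]
  refine ENNReal.tsum_le_tsum fun l => ?_
  by_cases hl : l ∈ Ext S
  · rw [if_pos hl]
  · rw [if_neg hl]; exact zero_le

open Classical in
lemma layer (W M a : ℝ≥0∞) (hM : M ≠ ⊤) (ha : a ≠ ⊤) (hW : W ≤ M * a) :
    W ≤ ∑' k : ℕ, (if M * 4⁻¹ ^ (k + 1) * a < W then M * 4⁻¹ ^ k * a else 0) := by
  by_cases h0 : W = 0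
  · rw [h0]; exact zero_le
  have hex : ∃ k : ℕ, M * 4⁻¹ ^ (k + 1) * a < W := by
    have h1 : Filter.Tendsto (fun n : ℕ => (4⁻¹ : ℝ≥0∞) ^ n) Filter.atTop (nhds 0) :=
      ENNReal.tendsto_pow_atTop_nhds_zero_of_lt_one (by
        rw [ENNReal.inv_lt_one]; norm_num)
    have h2 : Filter.Tendsto (fun n : ℕ => (M * a) * (4⁻¹ : ℝ≥0∞) ^ n) Filter.atTop
        (nhds ((M * a) * 0)) :=
      ENNReal.Tendsto.const_mul h1 (Or.inr (ENNReal.mul_ne_top hM ha))
    rw [mul_zero] at h2
    obtain ⟨n, hn⟩ := ((h2.comp (Filter.tendsto_add_atTop_nat 1)).eventually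
      (gt_mem_nhds (pos_iff_ne_zero.2 h0))).exists
    refine ⟨n, ?_⟩
    simp only [Function.comp] at hn
    rwa [mul_right_comm]
  classical
  set k0 := Nat.find hex with hk0
  have h3 : M * 4⁻¹ ^ (k0 + 1) * a < W := Nat.find_spec hex
  have h4 : W ≤ M * 4⁻¹ ^ k0 * a := by
    rcases Nat.eq_zero_or_pos k0 with h5 | h5
    · rw [h5, pow_zero, mul_one]; exact hW
    · have h6 := Nat.find_min hex (m := k0 - 1) (by omega)
      rw [show k0 - 1 + 1 = k0 by omega] at h6
      exact not_lt.1 h6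
  refine h4.trans ?_
  refine le_trans ?_ (ENNReal.le_tsum k0)
  rw [if_pos h3]


open Classical in
/-- the main part: contacts at natural prefixes -/
lemma main_part (ν : Measure (Row d)) [IsProbabilityMeasure ν] (h : ℕ) (s b : ℤ) (us : ℝ≥0∞)
    (hus : ∑' l : List (Step d), (if l ∈ Xi u s b then aw (iidEnvironmentLaw ν) 0 l else 0) ≤ us)
    (E : Finset (Site d)) (μ : Site d → ℝ≥0∞) (M lam : ℝ≥0∞) (hμ : ∑' x, μ x ≤ 1)
    (hM : ∀ x, μ x ≤ M) (hMT : M ≠ ⊤) (hl0 : lam ≠ 0) (hlT : lam ≠ ⊤) :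
    ∑' y : Site d, ∑' γ : List (Step d), (if γ ∈ Tm u b E y y then
      aw (iidEnvironmentLaw ν) 0 γ else 0) *
        ∑' p : List (Step d), (if p ∈ FH {z | z ∈ sitesL y γ} 0 ∧ p ∈ P1 u s b then
          WW u ν h μ y p else 0)
      ≤ 8 * lam + 2 * (M * E.card * us / lam) := by
  set Q := iidEnvironmentLaw ν with hQ
  obtain ⟨Cl, hCl⟩ : ∃ Cl : ℕ → Site d → Set (List (Step d)), ∀ k y p,
      p ∈ Cl k y ↔ M * 4⁻¹ ^ (k + 1) * aw Q 0 p < WW u ν h μ y p :=
    ⟨fun k y => {p | M * 4⁻¹ ^ (k + 1) * aw Q 0 p < WW u ν h μ y p}, fun _ _ _ => Iff.rfl⟩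
  have haT : ∀ p : List (Step d), aw Q 0 p ≠ ⊤ := by
    intro p
    have h1 : PF ({p} : Set (List (Step d))) := by
      intro l hl l' hl'
      rw [Set.mem_singleton_iff] at hl hl'
      rw [hl] at hl'
      simpa using hl'
    have h2 := pf_aw_le Q 0 h1
    have h3 : aw Q 0 p ≤ 1 := by
      refine le_trans ?_ h2
      refine le_trans ?_ (ENNReal.le_tsum p)
      rw [if_pos (Set.mem_singleton p)]
    exact ne_top_of_le_ne_top ENNReal.one_ne_top h3
  -- layers
  have h1 : ∀ (y : Site d) (γ p : List (Step d)),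
      (if γ ∈ Tm u b E y y then aw Q 0 γ else 0) *
        (if p ∈ FH {z | z ∈ sitesL y γ} 0 ∧ p ∈ P1 u s b then WW u ν h μ y p else 0)
      ≤ ∑' k : ℕ, M * 4⁻¹ ^ k * (if γ ∈ Tm u b E y y ∧ p ∈ FH {z | z ∈ sitesL y γ} 0 ∧
        p ∈ P1 u s b ∧ p ∈ Cl k y then aw Q 0 p * aw Q 0 γ else 0) := by
    intro y γ p
    by_cases hc : γ ∈ Tm u b E y y ∧ p ∈ FH {z | z ∈ sitesL y γ} 0 ∧ p ∈ P1 u s b
    · rw [if_pos hc.1, if_pos hc.2]
      calc aw Q 0 γ * WW u ν h μ y p ≤ aw Q 0 γ * ∑' k : ℕ,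
            (if M * 4⁻¹ ^ (k + 1) * aw Q 0 p < WW u ν h μ y p then
              M * 4⁻¹ ^ k * aw Q 0 p else 0) :=
            mul_le_mul_right (layer _ M _ hMT (haT p) (WW_le u ν h μ M hM y p)) _
        _ = _ := by
            rw [← ENNReal.tsum_mul_left]
            refine tsum_congr fun k => ?_
            by_cases hk : M * 4⁻¹ ^ (k + 1) * aw Q 0 p < WW u ν h μ y p
            · rw [if_pos hk, if_pos ⟨hc.1, hc.2.1, hc.2.2, (hCl k y p).2 hk⟩]; ring
            · rw [if_neg hk, if_neg (fun hcc => hk ((hCl k y p).1 hcc.2.2.2)), mul_zero, mul_zero]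
    · have : (if γ ∈ Tm u b E y y then aw Q 0 γ else 0) *
        (if p ∈ FH {z | z ∈ sitesL y γ} 0 ∧ p ∈ P1 u s b then WW u ν h μ y p else 0) = 0 := by
        by_cases h2 : γ ∈ Tm u b E y y
        · rw [if_neg (fun h3 => hc ⟨h2, h3⟩), mul_zero]
        · rw [if_neg h2, zero_mul]
      rw [this]; exact zero_le
  have h2 : ∀ k : ℕ, ∀ y : Site d, ∑' γ : List (Step d), ∑' p : List (Step d),
      (if γ ∈ Tm u b E y y ∧ p ∈ FH {z | z ∈ sitesL y γ} 0 ∧
        p ∈ P1 u s b ∧ p ∈ Cl k y then aw Q 0 p * aw Q 0 γ else 0)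
      ≤ (lam * 2⁻¹ ^ k) * ∑' σ : List (Step d), (if σ ∈ Fst (Cl k y) then aw Q 0 σ else 0)
      + (lam * 2⁻¹ ^ k)⁻¹ * ∑' χ : List (Step d), (if χ ∈ Xi u s b ∧ endp 0 χ - y ∈ E then
        aw Q 0 χ else 0) := by
    intro k y
    refine ann_cold_hot u ν y s b E (Cl k y) _ ?_ ?_
    · exact mul_ne_zero hl0 (pow_ne_zero _ (by simp))
    · exact ENNReal.mul_ne_top hlT (ENNReal.pow_ne_top (by simp))
  -- cold total
  have h3 : ∀ k : ℕ, M * 4⁻¹ ^ k * ∑' y : Site d, ∑' σ : List (Step d),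
      (if σ ∈ Fst (Cl k y) then aw Q 0 σ else 0) ≤ 4 := by
    intro k
    calc M * 4⁻¹ ^ k * ∑' y : Site d, ∑' σ : List (Step d),
          (if σ ∈ Fst (Cl k y) then aw Q 0 σ else 0)
        = 4 * ∑' y : Site d, ∑' σ : List (Step d),
          (if σ ∈ Fst (Cl k y) then M * 4⁻¹ ^ (k + 1) * aw Q 0 σ else 0) := by
          have e4 : (M * 4⁻¹ ^ k : ℝ≥0∞) = 4 * (M * 4⁻¹ ^ (k + 1)) := by
            rw [pow_succ]
            calc M * 4⁻¹ ^ k = M * 4⁻¹ ^ k * (4⁻¹ * 4) := by
                  rw [ENNReal.inv_mul_cancel (by norm_num) (by norm_num), mul_one]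
              _ = _ := by ring
          rw [e4, mul_assoc 4, ← ENNReal.tsum_mul_left]
          congr 1
          refine tsum_congr fun y => ?_
          rw [← ENNReal.tsum_mul_left]
          refine tsum_congr fun σ => ?_
          rw [mul_ite, mul_zero]
      _ ≤ 4 * ∑' y : Site d, ∑' l, ff u ν h μ y l := by
          refine mul_le_mul_right (ENNReal.tsum_le_tsum fun y => ?_) _
          refine le_trans (ENNReal.tsum_le_tsum fun σ => ?_) (WW_pf u ν h μ y (pf_fst (Cl k y)))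
          by_cases hσ : σ ∈ Fst (Cl k y)
          · rw [if_pos hσ, if_pos hσ]
            exact ((hCl k y σ).1 hσ.1).le
          · rw [if_neg hσ, if_neg hσ]
      _ ≤ 4 * 1 := mul_le_mul_right (ff_sum_up u ν h μ hμ) _
      _ = 4 := mul_one _
  -- hot total
  have h4 : ∑' y : Site d, ∑' χ : List (Step d), (if χ ∈ Xi u s b ∧ endp 0 χ - y ∈ E then
        aw Q 0 χ else 0) ≤ E.card * us := by
    rw [ENNReal.tsum_comm]
    calc ∑' χ : List (Step d), ∑' y : Site d, (if χ ∈ Xi u s b ∧ endp 0 χ - y ∈ E then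
          aw Q 0 χ else 0)
        = ∑' χ : List (Step d), E.card * (if χ ∈ Xi u s b then aw Q 0 χ else 0) := by
          refine tsum_congr fun χ => ?_
          by_cases hχ : χ ∈ Xi u s b
          · simp only [hχ, true_and, if_true]
            rw [← (Equiv.subLeft (endp 0 χ)).tsum_eq (fun y => if endp 0 χ - y ∈ E then
              aw Q 0 χ else 0)]
            simp only [Equiv.subLeft_apply, sub_sub_cancel]
            rw [tsum_eq_sum (s := E) (fun x hx => if_neg hx),
              Finset.sum_congr rfl (fun x hx => if_pos hx), Finset.sum_const, nsmul_eq_mul]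
          · simp only [hχ, false_and, if_false, tsum_zero, mul_zero]
      _ = E.card * ∑' χ : List (Step d), (if χ ∈ Xi u s b then aw Q 0 χ else 0) :=
          ENNReal.tsum_mul_left
      _ ≤ _ := mul_le_mul_right hus _
  calc ∑' y : Site d, ∑' γ : List (Step d), (if γ ∈ Tm u b E y y then aw Q 0 γ else 0) *
        ∑' p : List (Step d), (if p ∈ FH {z | z ∈ sitesL y γ} 0 ∧ p ∈ P1 u s b then
          WW u ν h μ y p else 0)
      ≤ ∑' y : Site d, ∑' γ : List (Step d), ∑' p : List (Step d), ∑' k : ℕ,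
        M * 4⁻¹ ^ k * (if γ ∈ Tm u b E y y ∧ p ∈ FH {z | z ∈ sitesL y γ} 0 ∧
        p ∈ P1 u s b ∧ p ∈ Cl k y then aw Q 0 p * aw Q 0 γ else 0) := by
        refine ENNReal.tsum_le_tsum fun y => ENNReal.tsum_le_tsum fun γ => ?_
        rw [← ENNReal.tsum_mul_left]
        exact ENNReal.tsum_le_tsum fun p => h1 y γ p
    _ = ∑' k : ℕ, M * 4⁻¹ ^ k * ∑' y : Site d, ∑' γ : List (Step d), ∑' p : List (Step d),
        (if γ ∈ Tm u b E y y ∧ p ∈ FH {z | z ∈ sitesL y γ} 0 ∧
        p ∈ P1 u s b ∧ p ∈ Cl k y then aw Q 0 p * aw Q 0 γ else 0) := by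
        simp_rw [← ENNReal.tsum_mul_left]
        rw [ENNReal.tsum_comm (α := ℕ)]
        refine tsum_congr fun y => ?_
        rw [ENNReal.tsum_comm (α := ℕ)]
        refine tsum_congr fun γ => ?_
        rw [ENNReal.tsum_comm (α := ℕ)]
    _ ≤ ∑' k : ℕ, (8 * lam * 2⁻¹ + (M * E.card * us / lam)) * 2⁻¹ ^ k := by
        refine ENNReal.tsum_le_tsum fun k => ?_
        calc M * 4⁻¹ ^ k * ∑' y : Site d, ∑' γ : List (Step d), ∑' p : List (Step d),
              (if γ ∈ Tm u b E y y ∧ p ∈ FH {z | z ∈ sitesL y γ} 0 ∧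
              p ∈ P1 u s b ∧ p ∈ Cl k y then aw Q 0 p * aw Q 0 γ else 0)
            ≤ M * 4⁻¹ ^ k * ∑' y : Site d, ((lam * 2⁻¹ ^ k) * ∑' σ : List (Step d),
                (if σ ∈ Fst (Cl k y) then aw Q 0 σ else 0)
              + (lam * 2⁻¹ ^ k)⁻¹ * ∑' χ : List (Step d),
                (if χ ∈ Xi u s b ∧ endp 0 χ - y ∈ E then aw Q 0 χ else 0)) :=
              mul_le_mul_right (ENNReal.tsum_le_tsum fun y => h2 k y) _
          _ = (lam * 2⁻¹ ^ k) * (M * 4⁻¹ ^ k * ∑' y : Site d, ∑' σ : List (Step d),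
                (if σ ∈ Fst (Cl k y) then aw Q 0 σ else 0))
              + (M * 4⁻¹ ^ k * (lam * 2⁻¹ ^ k)⁻¹) * ∑' y : Site d, ∑' χ : List (Step d),
                (if χ ∈ Xi u s b ∧ endp 0 χ - y ∈ E then aw Q 0 χ else 0) := by
              rw [ENNReal.tsum_add, ENNReal.tsum_mul_left, ENNReal.tsum_mul_left]
              ring
          _ ≤ (lam * 2⁻¹ ^ k) * 4 + (M * 4⁻¹ ^ k * (lam * 2⁻¹ ^ k)⁻¹) * (E.card * us) :=
              add_le_add (mul_le_mul_right (h3 k) _) (mul_le_mul_right h4 _)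
          _ = _ := by
              have e5 : (4⁻¹ : ℝ≥0∞) ^ k * (2⁻¹ ^ k)⁻¹ = 2⁻¹ ^ k := by
                have e6 : (4⁻¹ : ℝ≥0∞) = 2⁻¹ * 2⁻¹ := by
                  rw [← ENNReal.mul_inv (by norm_num) (by norm_num)]; norm_num
                rw [e6, mul_pow, mul_assoc, ENNReal.mul_inv_cancel, mul_one]
                · exact pow_ne_zero _ (by simp)
                · exact ENNReal.pow_ne_top (by simp)
              have e7 : (lam * 2⁻¹ ^ k)⁻¹ = lam⁻¹ * ((2⁻¹ : ℝ≥0∞) ^ k)⁻¹ :=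
                ENNReal.mul_inv (Or.inl hl0) (Or.inl hlT)
              have e8 : (8 : ℝ≥0∞) * lam * 2⁻¹ = lam * 4 := by
                have : (8 : ℝ≥0∞) * 2⁻¹ = 4 := by
                  rw [show (8 : ℝ≥0∞) = 4 * 2 by norm_num, mul_assoc,
                    ENNReal.mul_inv_cancel (by norm_num) (by norm_num), mul_one]
                rw [mul_right_comm, this, mul_comm]
              rw [e7, e8, add_mul, div_eq_mul_inv]
              congr 1
              · ring
              · calc M * 4⁻¹ ^ k * (lam⁻¹ * ((2⁻¹ : ℝ≥0∞) ^ k)⁻¹) * (E.card * us)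
                    = M * E.card * us * lam⁻¹ * ((4⁻¹ : ℝ≥0∞) ^ k * (2⁻¹ ^ k)⁻¹) := by ring
                  _ = _ := by rw [e5]
    _ = (8 * lam * 2⁻¹ + (M * E.card * us / lam)) * 2 := by
        rw [ENNReal.tsum_mul_left, ENNReal.tsum_geometric, ENNReal.one_sub_inv_two, inv_inv]
    _ = _ := by
        rw [add_mul, mul_assoc (8 * lam), ENNReal.inv_mul_cancel (by norm_num) (by norm_num),
          mul_one, mul_comm 2]


lemma lev_add' (x y : Site d) : lev u (x + y) = lev u x + lev u y := by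
  unfold lev; split_ifs <;> simp; ring

lemma lev_neg' (x : Site d) : lev u (-x) = - lev u x := by
  unfold lev; split_ifs <;> simp

open Classical in
/-- the window lemma of order 3, relative to the start of `X` -/
lemma h3_rel (ν : Measure (Row d)) [IsProbabilityMeasure ν] (h : ℕ) (s b : ℤ) (us : ℝ≥0∞)
    (hus : ∑' l : List (Step d), (if l ∈ Xi u s b then aw (iidEnvironmentLaw ν) 0 l else 0) ≤ us)
    (E : Finset (Site d)) (μ : Site d → ℝ≥0∞) (M lam : ℝ≥0∞) (hμ : ∑' x, μ x ≤ 1)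
    (hM : ∀ x, μ x ≤ M) (hMT : M ≠ ⊤) (hl0 : lam ≠ 0) (hlT : lam ≠ ⊤) :
    ∑' y : Site d, ∑' γ : List (Step d), ∑' π : List (Step d),
      μ (y - endp 0 π) * (if γ ∈ Tm u b E y y ∧ IsUp u h π ∧
        (∃ z, z ∈ sitesL 0 π ∧ z ∈ sitesL y γ) ∧
        (∀ z, z ∈ sitesL 0 π → z ∈ sitesL y γ → s ≤ lev u z)
        then aw (iidEnvironmentLaw ν) 0 π * aw (iidEnvironmentLaw ν) 0 γ else 0)
      ≤ 8 * lam + 2 * (M * E.card * us / lam) + us := by
  set Q := iidEnvironmentLaw ν with hQ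
  have key : ∀ (y : Site d) (γ π : List (Step d)), γ ∈ Tm u b E y y ∧ IsUp u h π ∧
        (∃ z, z ∈ sitesL 0 π ∧ z ∈ sitesL y γ) ∧
        (∀ z, z ∈ sitesL 0 π → z ∈ sitesL y γ → s ≤ lev u z) →
      π ∈ Ext (Xi u s b) ∨ π ∈ Ext {p | p ∈ FH {z | z ∈ sitesL y γ} 0 ∧ p ∈ P1 u s b} := by
    rintro y γ π ⟨h1, h2, ⟨z, hz1, hz2⟩, h3⟩
    obtain ⟨l1, e, l2, h4, h5⟩ := mem_sitesL.1 hz1
    have hv : π ∈ Vis {z | z ∈ sitesL y γ} (0 : Site d) :=
      ⟨l1, e :: l2, h4, by rw [h5]; exact hz2⟩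
    obtain ⟨p, q, h6, h7⟩ := exists_FH hv
    have hq : q ≠ [] := by
      rintro rfl
      rw [List.append_nil] at h6
      rw [← h6] at h7
      refine h7.2 l1 (e :: l2) h4 (List.cons_ne_nil _ _) ?_
      rw [h5]; exact hz2
    have hmem : endp 0 p ∈ sitesL 0 π := by rw [h6]; exact site_mid hq
    have hs : s ≤ lev u (endp 0 p) := h3 _ hmem h7.1
    by_cases hx : p ∈ Ext (Xi u s b)
    · left
      obtain ⟨a, c, h8, h9⟩ := hx
      exact ⟨a, c ++ q, by rw [h6, h8, List.append_assoc], h9⟩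
    · right
      refine ⟨p, q, h6, h7, ?_, hs, hx⟩
      intro z' hz'
      exact (h2.1 z' (by rw [h6]; exact site_left hz')).1
  have hpfS : ∀ (y : Site d) (γ : List (Step d)),
      PF {p | p ∈ FH {z | z ∈ sitesL y γ} 0 ∧ p ∈ P1 u s b} := fun y γ =>
    (pf_FH _ _).mono fun p hp => hp.1
  have hpt : ∀ (y : Site d) (γ : List (Step d)), ∑' π : List (Step d),
      μ (y - endp 0 π) * (if γ ∈ Tm u b E y y ∧ IsUp u h π ∧
        (∃ z, z ∈ sitesL 0 π ∧ z ∈ sitesL y γ) ∧
        (∀ z, z ∈ sitesL 0 π → z ∈ sitesL y γ → s ≤ lev u z)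
        then aw Q 0 π * aw Q 0 γ else 0)
      ≤ (if γ ∈ Tm u b E y y then aw Q 0 γ else 0) * ∑' π : List (Step d),
          (if π ∈ Ext (Xi u s b) then ff u ν h μ y π else 0)
        + (if γ ∈ Tm u b E y y then aw Q 0 γ else 0) * ∑' p : List (Step d),
          (if p ∈ FH {z | z ∈ sitesL y γ} 0 ∧ p ∈ P1 u s b then WW u ν h μ y p else 0) := by
    intro y γ
    have e1 := tsum_ext (hpfS y γ) (fun l => ff u ν h μ y l)
    have e2 : ∑' p : List (Step d),
          (if p ∈ FH {z | z ∈ sitesL y γ} 0 ∧ p ∈ P1 u s b then WW u ν h μ y p else 0)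
        = ∑' l : List (Step d),
          (if l ∈ Ext {p | p ∈ FH {z | z ∈ sitesL y γ} 0 ∧ p ∈ P1 u s b} then
            ff u ν h μ y l else 0) := by
      rw [e1]
      refine tsum_congr fun p => ?_
      by_cases hp : p ∈ FH {z | z ∈ sitesL y γ} 0 ∧ p ∈ P1 u s b
      · rw [if_pos hp, if_pos (show p ∈ {p | p ∈ FH {z | z ∈ sitesL y γ} 0 ∧ p ∈ P1 u s b}
          from hp)]
        rfl
      · rw [if_neg hp, if_neg (show p ∉ {p | p ∈ FH {z | z ∈ sitesL y γ} 0 ∧ p ∈ P1 u s b}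
          from hp)]
    rw [e2, ← mul_add, ← ENNReal.tsum_add, ← ENNReal.tsum_mul_left]
    refine ENNReal.tsum_le_tsum fun π => ?_
    by_cases hc : γ ∈ Tm u b E y y ∧ IsUp u h π ∧
        (∃ z, z ∈ sitesL 0 π ∧ z ∈ sitesL y γ) ∧
        (∀ z, z ∈ sitesL 0 π → z ∈ sitesL y γ → s ≤ lev u z)
    · rw [if_pos hc, if_pos hc.1]
      have hff : ff u ν h μ y π = aw Q 0 π * μ (y - endp 0 π) := by
        unfold ff; rw [if_pos hc.2.1]
      have h5 : ff u ν h μ y π ≤ (if π ∈ Ext (Xi u s b) then ff u ν h μ y π else 0) +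
          (if π ∈ Ext {p | p ∈ FH {z | z ∈ sitesL y γ} 0 ∧ p ∈ P1 u s b} then
            ff u ν h μ y π else 0) := by
        rcases key y γ π hc with h6 | h6
        · rw [if_pos h6]; exact le_self_add
        · rw [if_pos h6]; exact le_add_self
      calc μ (y - endp 0 π) * (aw Q 0 π * aw Q 0 γ) = aw Q 0 γ * ff u ν h μ y π := by
            rw [hff]; ring
        _ ≤ _ := mul_le_mul_right h5 _
    · rw [if_neg hc, mul_zero]; exact zero_le
  have hbad : ∑' y : Site d, ∑' γ : List (Step d), (if γ ∈ Tm u b E y y then aw Q 0 γ else 0) *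
      ∑' π : List (Step d), (if π ∈ Ext (Xi u s b) then ff u ν h μ y π else 0) ≤ us := by
    calc _ ≤ ∑' y : Site d, ∑' π : List (Step d),
          (if π ∈ Ext (Xi u s b) then ff u ν h μ y π else 0) := by
          refine ENNReal.tsum_le_tsum fun y => ?_
          rw [ENNReal.tsum_mul_right]
          exact (mul_le_mul_left (pf_aw_le Q 0 (pf_Tm u b E y y)) _).trans (one_mul _).le
      _ = ∑' π : List (Step d), ∑' y : Site d,
          (if π ∈ Ext (Xi u s b) then ff u ν h μ y π else 0) := ENNReal.tsum_comm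
      _ ≤ ∑' π : List (Step d), (if π ∈ Ext (Xi u s b) then
          (if IsUp u h π then aw Q 0 π else 0) else 0) := by
          refine ENNReal.tsum_le_tsum fun π => ?_
          by_cases hπ : π ∈ Ext (Xi u s b)
          · simp only [if_pos hπ]
            by_cases hu : IsUp u h π
            · rw [if_pos hu]; exact ff_sum u ν h μ hμ π
            · rw [if_neg hu]
              unfold ff
              simp only [if_neg hu, tsum_zero]; exact le_rfl
          · simp only [if_neg hπ, tsum_zero]; exact le_rfl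
      _ = ∑' a : List (Step d), (if a ∈ Xi u s b then ∑' c : List (Step d),
          (if IsUp u h (a ++ c) then aw Q 0 (a ++ c) else 0) else 0) := tsum_ext (pf_Xi u s b) _
      _ ≤ ∑' a : List (Step d), (if a ∈ Xi u s b then aw Q 0 a else 0) := by
          refine ENNReal.tsum_le_tsum fun a => ?_
          by_cases ha : a ∈ Xi u s b
          · rw [if_pos ha, if_pos ha]
            have hpf : PF {c | IsUp u h (a ++ c)} := by
              intro l hl l' hl'
              exact pf_up u h (a ++ l) hl l' (by rw [List.append_assoc]; exact hl')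
            exact pf_ext_le Q 0 a hpf
          · rw [if_neg ha, if_neg ha]
      _ ≤ us := hus
  calc _ ≤ ∑' y : Site d, ∑' γ : List (Step d),
        ((if γ ∈ Tm u b E y y then aw Q 0 γ else 0) * ∑' π : List (Step d),
          (if π ∈ Ext (Xi u s b) then ff u ν h μ y π else 0)
        + (if γ ∈ Tm u b E y y then aw Q 0 γ else 0) * ∑' p : List (Step d),
          (if p ∈ FH {z | z ∈ sitesL y γ} 0 ∧ p ∈ P1 u s b then WW u ν h μ y p else 0)) :=
        ENNReal.tsum_le_tsum fun y => ENNReal.tsum_le_tsum fun γ => hpt y γ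
    _ = (∑' y : Site d, ∑' γ : List (Step d),
        (if γ ∈ Tm u b E y y then aw Q 0 γ else 0) * ∑' π : List (Step d),
          (if π ∈ Ext (Xi u s b) then ff u ν h μ y π else 0))
        + ∑' y : Site d, ∑' γ : List (Step d),
        (if γ ∈ Tm u b E y y then aw Q 0 γ else 0) * ∑' p : List (Step d),
          (if p ∈ FH {z | z ∈ sitesL y γ} 0 ∧ p ∈ P1 u s b then WW u ν h μ y p else 0) := by
        simp_rw [ENNReal.tsum_add]
    _ ≤ us + (8 * lam + 2 * (M * E.card * us / lam)) :=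
        add_le_add hbad (main_part u ν h s b us hus E μ M lam hμ hM hMT hl0 hlT)
    _ = _ := add_comm _ _


open Classical in
/-- **the window lemma of order 3 in words** (`X` hung at `0`, crosses from level `-h` up to `0`;
`Y` starts at `x`, crosses `h'` levels down to the level `b - h` and lands in `x + E`; all contacts
are at levels `≥ s - h`). `us` bounds the weight of the first returns to a level `≤ b` after a
natural climb to the level `s`. No condition between `b` and `0`. -/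
theorem h3w (ν : Measure (Row d)) [IsProbabilityMeasure ν] (h h' : ℕ) (s b : ℤ) (us : ℝ≥0∞)
    (hus : ∑' l : List (Step d), (if l ∈ Xi u s b then aw (iidEnvironmentLaw ν) 0 l else 0) ≤ us)
    (E : Finset (Site d)) (μ : Site d → ℝ≥0∞) (M lam : ℝ≥0∞) (hμ : ∑' x, μ x ≤ 1)
    (hM : ∀ x, μ x ≤ M) (hl0 : lam ≠ 0) (hlT : lam ≠ ⊤) :
    ∑' x : Site d, μ x * ∑' π : List (Step d), ∑' γ : List (Step d),
      (if lev u x = b + h' - h ∧ IsUp u h π ∧ IsDn u h' γ ∧ endp 0 γ ∈ E ∧
        (∃ z, z ∈ sitesL (-endp 0 π) π ∧ z ∈ sitesL x γ) ∧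
        (∀ z, z ∈ sitesL (-endp 0 π) π → z ∈ sitesL x γ → s - h ≤ lev u z)
        then aw (iidEnvironmentLaw ν) 0 π * aw (iidEnvironmentLaw ν) 0 γ else 0)
      ≤ 8 * lam + 2 * (M * E.card * us / lam) + us := by
  set Q := iidEnvironmentLaw ν with hQ
  have hM1 : ∀ x, μ x ≤ min M 1 := fun x => le_min (hM x) ((ENNReal.le_tsum x).trans hμ)
  have hMT : min M 1 ≠ ⊤ := ne_top_of_le_ne_top ENNReal.one_ne_top (min_le_right _ _)
  have hrel := h3_rel u ν h s b us hus E μ (min M 1) lam hμ hM1 hMT hl0 hlT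
  have hpt : ∀ (x : Site d) (π γ : List (Step d)),
      (if lev u x = b + h' - h ∧ IsUp u h π ∧ IsDn u h' γ ∧ endp 0 γ ∈ E ∧
        (∃ z, z ∈ sitesL (-endp 0 π) π ∧ z ∈ sitesL x γ) ∧
        (∀ z, z ∈ sitesL (-endp 0 π) π → z ∈ sitesL x γ → s - h ≤ lev u z)
        then aw Q 0 π * aw Q 0 γ else 0)
      ≤ (if γ ∈ Tm u b E (x + endp 0 π) (x + endp 0 π) ∧ IsUp u h π ∧
        (∃ z, z ∈ sitesL 0 π ∧ z ∈ sitesL (x + endp 0 π) γ) ∧
        (∀ z, z ∈ sitesL 0 π → z ∈ sitesL (x + endp 0 π) γ → s ≤ lev u z)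
        then aw Q 0 π * aw Q 0 γ else 0) := by
    intro x π γ
    by_cases hc : lev u x = b + h' - h ∧ IsUp u h π ∧ IsDn u h' γ ∧ endp 0 γ ∈ E ∧
        (∃ z, z ∈ sitesL (-endp 0 π) π ∧ z ∈ sitesL x γ) ∧
        (∀ z, z ∈ sitesL (-endp 0 π) π → z ∈ sitesL x γ → s - h ≤ lev u z)
    · rw [if_pos hc, if_pos]
      obtain ⟨h1, h2, h3, h4, ⟨z, hz1, hz2⟩, h5⟩ := hc
      have hX : ∀ z, z ∈ sitesL 0 π ↔ z - endp 0 π ∈ sitesL (-endp 0 π) π := by
        intro z
        rw [show (0 : Site d) = -endp 0 π + endp 0 π by abel, mem_sitesL_add]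
        rw [show (-endp 0 π + endp 0 π : Site d) = 0 by abel]
      have hY : ∀ z, z ∈ sitesL (x + endp 0 π) γ ↔ z - endp 0 π ∈ sitesL x γ := by
        intro z
        rw [mem_sitesL_add]
      have hlx : lev u (x + endp 0 π) = b + h' := by
        rw [lev_add', h1, h2.2]; ring
      refine ⟨⟨?_, ?_, ?_⟩, h2, ⟨z + endp 0 π, ?_, ?_⟩, ?_⟩
      · intro z' hz'
        have hz'' : z' - (x + endp 0 π) ∈ sitesL 0 γ := by
          rw [← mem_sitesL_add, zero_add]; exact hz'
        have h6 := (h3.1 _ hz'').1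
        have h7 : lev u z' = lev u (z' - (x + endp 0 π)) + lev u (x + endp 0 π) := by
          rw [← lev_add']; congr 1; abel
        omega
      · rw [endp_eq_add, lev_add', hlx, h3.2]; ring
      · rw [endp_eq_add]
        rw [show x + endp 0 π + endp 0 γ - (x + endp 0 π) = endp 0 γ by abel]
        exact h4
      · rw [hX]; simpa using hz1
      · rw [hY]; simpa using hz2
      · intro z' hz1' hz2'
        rw [hX] at hz1'
        rw [hY] at hz2'
        have h6 := h5 _ hz1' hz2'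
        have h7 : lev u z' = lev u (z' - endp 0 π) + lev u (endp 0 π) := by
          rw [← lev_add']; congr 1; abel
        have h8 := h2.2
        omega
    · rw [if_neg hc]; exact zero_le
  set FF : Site d → List (Step d) → List (Step d) → ℝ≥0∞ := fun y π γ =>
    (if γ ∈ Tm u b E y y ∧ IsUp u h π ∧
        (∃ z, z ∈ sitesL 0 π ∧ z ∈ sitesL y γ) ∧
        (∀ z, z ∈ sitesL 0 π → z ∈ sitesL y γ → s ≤ lev u z)
        then aw Q 0 π * aw Q 0 γ else 0) with hFF
  calc ∑' x : Site d, μ x * ∑' π : List (Step d), ∑' γ : List (Step d), _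
      ≤ ∑' x : Site d, μ x * ∑' π : List (Step d), ∑' γ : List (Step d),
        FF (x + endp 0 π) π γ :=
        ENNReal.tsum_le_tsum fun x => mul_le_mul_right (ENNReal.tsum_le_tsum fun π =>
          ENNReal.tsum_le_tsum fun γ => hpt x π γ) _
    _ = ∑' π : List (Step d), ∑' x : Site d, μ x * ∑' γ : List (Step d),
        FF (x + endp 0 π) π γ := by
        simp_rw [← ENNReal.tsum_mul_left]
        rw [ENNReal.tsum_comm]
    _ = ∑' π : List (Step d), ∑' y : Site d, μ (y - endp 0 π) * ∑' γ : List (Step d),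
        FF y π γ := by
        refine tsum_congr fun π => ?_
        rw [← (Equiv.addRight (endp 0 π)).tsum_eq (fun y => μ (y - endp 0 π) *
          ∑' γ : List (Step d), FF y π γ)]
        refine tsum_congr fun x => ?_
        simp only [Equiv.coe_addRight, add_sub_cancel_right]
    _ = ∑' y : Site d, ∑' γ : List (Step d), ∑' π : List (Step d),
        μ (y - endp 0 π) * FF y π γ := by
        rw [ENNReal.tsum_comm]
        refine tsum_congr fun y => ?_
        simp_rw [← ENNReal.tsum_mul_left]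
        rw [ENNReal.tsum_comm]
    _ ≤ 8 * lam + 2 * (min M 1 * E.card * us / lam) + us := hrel
    _ ≤ _ := by
        gcongr
        exact min_le_left _ _

end Crest.Agent.R154.H3w687
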