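import Crest.Agent.R154.HN_697
import Crest.Agent.R154.URet_697
import Crest.Agent.R154.H3_220
import Crest.Agent.R154.KWBind2_419

/-! Row 154, ROAD 801 (helper697): 419's `H2W` and `H3W` (the two window lemmas in words) for ALL
depths `a, a'` and heights `h, h'`, with a return quantity which tends to `0`. -/

set_option autoImplicit false

namespace Crest.Agent.R154.HAll697

open MeasureTheory ProbabilityTheory Filter Crest.ProbabilityR.RandomEnvironment
open Crest.Agent.R154 Crest.Agent.R154.B2d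
open Crest.Agent.R154.Flux132 (lev opp)
open Crest.Agent.R154.Flux566 (lw endp sitesL endp_append endp_eq_add)
open Crest.Agent.R154.NB28 (IsUp IsDn aw)
open Crest.Agent.R154.KWB419 (levA levN levS levU levM levZ mem_sitesT sitesA Ct H2W H3W)
open Crest.Agent.R154.URet697
open scoped ENNReal

variable {d : ℕ}

/-- the common return quantity -/
noncomputable def usA (ν : Measure (Row d)) [IsProbabilityMeasure ν] (u : Step d) (s : ℕ) : ℝ≥0∞ :=
  if s ≤ 1 then ⊤ else usU ν u (s - 1) + usU ν (opp u) (s - 1)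

theorem usA_tendsto (ν : Measure (Row d)) [IsProbabilityMeasure ν]
    (hν : ∀ᵐ p ∂ν, ∀ e : Step d, 0 < p.1 e) (u : Step d)
    (hA : annealed (iidEnvironmentLaw ν) 0 (escapeEvent (dirVec u)) ≠ 0)
    (hB : annealed (iidEnvironmentLaw ν) 0 (escapeEvent (-dirVec u)) ≠ 0) :
    Tendsto (usA ν u) atTop (nhds 0) := by
  have hB' : annealed (iidEnvironmentLaw ν) 0 (escapeEvent (dirVec (opp u))) ≠ 0 := by
    rw [WM286.dirVec_opp]; exact hB
  have h1 := (usU_tendsto ν hν u hA).add (usU_tendsto ν hν (opp u) hB')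
  rw [add_zero] at h1
  have h2 : Tendsto (fun s : ℕ => s - 1) atTop atTop := tendsto_sub_atTop_nat 1
  have h3 := h1.comp h2
  refine h3.congr' ?_
  filter_upwards [eventually_gt_atTop 1] with s hs
  simp only [Function.comp, usA]
  rw [if_neg (by omega)]

lemma top_bound {C M lam : ℝ≥0∞} {n : ℕ} (hC : C ≠ 0) (x : ℝ≥0∞) :
    x ≤ C * (lam + M * n * ⊤ / lam + ⊤) := by
  rw [add_top, ENNReal.mul_top hC]
  exact le_top

open Classical in
/-- **H3W for all depths** -/
theorem h3W (ν : Measure (Row d)) [IsProbabilityMeasure ν]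
    (hν : ∀ᵐ p ∂ν, ∀ e : Step d, 0 < p.1 e) (u : Step d)
    (hA : annealed (iidEnvironmentLaw ν) 0 (escapeEvent (dirVec u)) ≠ 0) :
    H3W ν u (usA ν u) 4 := by
  intro s h h' a a' hi E μ M lam hμ1 hμM hl hl' hs1 hs2
  by_cases hs : s ≤ 1
  · have e : usA ν u s = ⊤ := by simp only [usA]; rw [if_pos hs]
    rw [e]
    exact top_bound (by norm_num) _
  have hus : usU ν u (s - 1) ≤ usA ν u s := by
    simp only [usA]; rw [if_neg hs]; exact le_self_add
  have key : ∀ (T i0 : ℕ), annealed (iidEnvironmentLaw ν) 0 (Us475.Ret u i0 T) ≤ usA ν u s →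
      hi + T ≤ a + h → a + h ≤ a' + h' + i0 →
      ∑' x, μ x * (∑' π, ∑' γ, if lev u x = 0 ∧ IsUp u h π ∧ IsDn u h' γ ∧
        (endp 0 γ + h' • stepVec u) ∈ E ∧ (∃ y, Ct u π γ x a a' y) ∧
        (∀ y, Ct u π γ x a a' y → -lev u y ≤ (hi : ℤ)) then aw ν π * aw ν γ else 0)
        ≤ 4 * (lam + M * E.card * usA ν u s / lam + usA ν u s) := by
    intro T i0 hT h1 h2
    refine (H3220.h3 ν u i0 T h h' a a' hi E μ M lam hμ1 hμM hl hl' h1 h2).trans ?_
    set r := annealed (iidEnvironmentLaw ν) 0 (Us475.Ret u i0 T) with hr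
    have g1 : M * E.card * r / lam ≤ M * E.card * usA ν u s / lam := by gcongr
    have one4 : (1 : ℝ≥0∞) ≤ 4 := by norm_num
    calc 4 * lam + M * E.card * r / lam + r
        ≤ 4 * lam + 4 * (M * E.card * usA ν u s / lam) + 4 * usA ν u s := by
          refine add_le_add (add_le_add le_rfl (g1.trans ?_)) (hT.trans ?_)
          · calc _ = 1 * (M * E.card * usA ν u s / lam) := (one_mul _).symm
              _ ≤ _ := by gcongr
          · calc _ = 1 * usA ν u s := (one_mul _).symm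
              _ ≤ _ := by gcongr
      _ = _ := by ring
  rcases le_or_gt (a + h) (a' + h') with hc | hc
  · -- Y's bottom strictly below
    refine key s 0 ?_ hs1 (by omega)
    have h5 := ret_unif ν hν u hA 0 (s - 1) (by omega)
    refine le_trans (measure_mono ?_) (h5.trans hus)
    exact Us475.ret_anti u _ (by omega)
  · obtain ⟨β, hβ⟩ : ∃ β : ℕ, a + h = a' + h' + β := ⟨a + h - (a' + h'), by omega⟩
    refine key (β + (s - 1)) β ?_ (by omega) (by omega)
    exact (ret_unif ν hν u hA β (s - 1) (by omega)).trans hus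

/-! ### the `X` local lemma -/

open Classical in
lemma UU_le (ν : Measure (Row d)) [IsProbabilityMeasure ν]
    (hν : ∀ᵐ p ∂ν, ∀ e : Step d, 0 < p.1 e) (u : Step d)
    (hB : annealed (iidEnvironmentLaw ν) 0 (escapeEvent (dirVec (opp u))) ≠ 0) (K b : ℤ)
    (β s : ℕ) (hs : 1 ≤ s) (hK : -(β : ℤ) ≤ K) (hb : b ≤ -((β : ℤ) + s)) :
    HN697.UU ν u K b ≤ usU ν (opp u) s := by
  have h1 := ret_words ν hν (opp u) hB β s hs (HN697.TT u K b)
    (fun l hl l' hl' hp => HN697.pf_TT u K b l hl l' hl' hp) ?_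
  · refine le_trans (le_of_eq ?_) h1
    unfold HN697.UU
    refine tsum_congr fun τ => ?_
    by_cases h : τ ∈ HN697.TT u K b
    · simp only [h, if_true]
    · simp only [h, if_false]
  · rintro l ⟨⟨⟨γ, ⟨t, ht⟩, hN, hg⟩, hl⟩, -⟩
    refine ⟨⟨γ, t, ht.symm, fun y hy => ?_, ?_⟩, ?_⟩
    · rw [Fact346.lev_opp]; have := hN y hy; omega
    · rw [Fact346.lev_opp]; push_cast; omega
    · rw [Fact346.lev_opp]; omega

open Classical in
/-- **H2W for all depths** -/
theorem h2W (ν : Measure (Row d)) [IsProbabilityMeasure ν]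
    (hν : ∀ᵐ p ∂ν, ∀ e : Step d, 0 < p.1 e) (u : Step d)
    (hB : annealed (iidEnvironmentLaw ν) 0 (escapeEvent (-dirVec u)) ≠ 0) :
    H2W ν u (usA ν u) 4 := by
  intro s h h' a a' lo E μ M lam hμ1 hμM hl hl' hs1 hs2
  have hB' : annealed (iidEnvironmentLaw ν) 0 (escapeEvent (dirVec (opp u))) ≠ 0 := by
    rw [WM286.dirVec_opp]; exact hB
  by_cases hs : s ≤ 1
  · have e : usA ν u s = ⊤ := by simp only [usA]; rw [if_pos hs]
    rw [e]
    exact top_bound (by norm_num) _
  have hus : usU ν (opp u) (s - 1) ≤ usA ν u s := by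
    simp only [usA]; rw [if_neg hs]; exact le_add_self
  set K : ℤ := (a' : ℤ) + 1 - a with hK
  set b : ℤ := (a' : ℤ) + 1 - lo with hb
  have hUU : HN697.UU ν u K b ≤ usA ν u s := by
    refine le_trans ?_ hus
    rcases le_or_gt a a' with hc | hc
    · exact UU_le ν hν u hB' K b 0 (s - 1) (by omega) (by omega) (by omega)
    · exact UU_le ν hν u hB' K b (a - a') (s - 1) (by omega) (by omega) (by omega)
  set c : Site d := (a' + 1) • stepVec u - a • stepVec u with hc
  set m : Site d → ℝ≥0∞ := fun t => μ (c - t) with hm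
  set E' : Finset (Site d) := E.image fun e => h • stepVec u - e with hE'
  have hcard : (E'.card : ℝ≥0∞) ≤ E.card := by exact_mod_cast Finset.card_image_le
  have hcore := HN697.core ν u h h' K b E' m M lam (fun x => hμM _) hl hl'
  set F : Site d → List (Step d) → List (Step d) → ℝ≥0∞ := fun y π ρ =>
    (if lev u (y + endp 0 π) = K ∧ IsUp u h π ∧ endp 0 π ∈ E' ∧ IsDn u h' ρ ∧
        (∀ z, z ∈ sitesL y π → z ∈ sitesL 0 ρ → lev u z ≤ b) ∧
        (∃ z, z ∈ sitesL y π ∧ z ∈ sitesL 0 ρ)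
      then m (y + endp 0 π) * (aw ν π * aw ν ρ) else 0) with hF
  have hterm : ∀ x π γ, μ x * (if lev u x = 0 ∧ IsUp u h π ∧ IsDn u h' γ ∧
      (h • stepVec u - endp 0 π) ∈ E ∧ (∃ y, Ct u π γ x a a' y) ∧
      (∀ y, Ct u π γ x a a' y → (lo : ℤ) ≤ -lev u y) then aw ν π * aw ν γ else 0)
      ≤ F ((-endp 0 π + c) - x) π γ := by
    intro x π γ
    by_cases hx : lev u x = 0 ∧ IsUp u h π ∧ IsDn u h' γ ∧
      (h • stepVec u - endp 0 π) ∈ E ∧ (∃ y, Ct u π γ x a a' y) ∧
      (∀ y, Ct u π γ x a a' y → (lo : ℤ) ≤ -lev u y)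
    · obtain ⟨c1, c2, c3, c4, ⟨y0, c5, c6⟩, c7⟩ := id hx
      -- the translation
      set w : Site d := x - (a' + 1) • stepVec u with hw
      have e0 : (-endp 0 π - a • stepVec u : Site d) = ((-endp 0 π + c) - x) + w := by
        rw [hc, hw]; abel
      have e1 : ∀ y, y ∈ sitesL (-endp 0 π - a • stepVec u) π ↔
          y - w ∈ sitesL ((-endp 0 π + c) - x) π := by
        intro y; rw [e0]; exact mem_sitesT π _ w y
      have e2 : ∀ y, y ∈ sitesL (x - (a' + 1) • stepVec u) γ ↔ y - w ∈ sitesL 0 γ := by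
        intro y
        have := mem_sitesT γ 0 w y
        rwa [zero_add] at this
      have e3 : (-endp 0 π + c) - x + endp 0 π = c - x := by abel
      have e4 : lev u (c - x) = K := by
        rw [hc, levS, levS, levM, levM, levU, c1, hK]; push_cast; ring
      have e5 : endp 0 π ∈ E' := by
        rw [hE']
        exact Finset.mem_image.2 ⟨_, c4, by abel⟩
      have elw : lev u w = -((a' : ℤ) + 1) := by
        rw [hw, levS, levM, levU, c1]; push_cast; ring
      rw [if_pos hx, hF]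
      simp only
      rw [if_pos, e3, hm]
      · simp only
        rw [sub_sub_cancel]
      · refine ⟨by rw [e3, e4], c2, e5, c3, ?_, ⟨y0 - w, (e1 y0).1 c5, (e2 y0).1 c6⟩⟩
        intro z hz hz'
        have h5 := c7 (z + w) ⟨(e1 (z + w)).2 (by rw [add_sub_cancel_right]; exact hz),
          (e2 (z + w)).2 (by rw [add_sub_cancel_right]; exact hz')⟩
        rw [levA, elw] at h5
        omega
    · rw [if_neg hx, mul_zero]; exact zero_le
  have hms : ∑' x, m x ≤ 1 := by
    rw [hm]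
    exact le_of_eq_of_le ((Equiv.subLeft c).tsum_eq μ) hμ1
  have hone : ∀ z : ℝ≥0∞, z ≤ 4 * z := fun z => by
    calc z = 1 * z := (one_mul _).symm
      _ ≤ _ := by gcongr; norm_num
  calc _ = ∑' x, ∑' π, ∑' γ, μ x * (if lev u x = 0 ∧ IsUp u h π ∧ IsDn u h' γ ∧
      (h • stepVec u - endp 0 π) ∈ E ∧ (∃ y, Ct u π γ x a a' y) ∧
      (∀ y, Ct u π γ x a a' y → (lo : ℤ) ≤ -lev u y) then aw ν π * aw ν γ else 0) := by
        simp_rw [← ENNReal.tsum_mul_left]
    _ ≤ ∑' x, ∑' π, ∑' γ, F ((-endp 0 π + c) - x) π γ :=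
        ENNReal.tsum_le_tsum fun x => ENNReal.tsum_le_tsum fun π => ENNReal.tsum_le_tsum fun γ =>
          hterm x π γ
    _ = ∑' π, ∑' x, ∑' γ, F ((-endp 0 π + c) - x) π γ := ENNReal.tsum_comm
    _ = ∑' π, ∑' y, ∑' γ, F y π γ := by
        refine tsum_congr fun π => ?_
        exact (Equiv.subLeft (-endp 0 π + c)).tsum_eq (fun y => ∑' γ, F y π γ)
    _ = ∑' y, ∑' π, ∑' γ, F y π γ := ENNReal.tsum_comm
    _ ≤ (lam + HN697.UU ν u K b) * (∑' x, m x) + M * E'.card * HN697.UU ν u K b / lam := hcore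
    _ ≤ (lam + usA ν u s) * 1 + M * E.card * usA ν u s / lam := by gcongr
    _ = lam + M * E.card * usA ν u s / lam + usA ν u s := by ring
    _ ≤ _ := hone _

end Crest.Agent.R154.HAll697
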