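import Crest.Agent.R154.NBDefs_28
import Crest.Agent.R154.Flux1_132
import Crest.Agent.R154.B5Abs_566

/-! Row 154, NBProp (S0219), ROAD 801, leaf A0 (helper600): single-walker crossings and lists of
irreducible crossings. `Blk v` = irreducible up crossings in the direction `v` (the down walker is
`v = opp u`, `isDn_iff`). `catF` = bottom block first (walking order), `catR` = last block first. -/

set_option autoImplicit false

namespace Crest.Agent.R154.Sing600

open MeasureTheory ProbabilityTheory Crest.ProbabilityR.RandomEnvironment Crest.Agent.R154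
open Crest.Agent.R154.Flux132 (lev opp lev_add lev_zero lev_neg)
open Crest.Agent.R154.Flux566 (lw endp sitesL endp_append endp_eq_add)
open Crest.Agent.R154.NB28 (IsUp IsDn aw)
open Crest.Agent.R154.B5A (LW HT HT_nil HT_cons HT_append LW_nil LW_cons LW_append)
open scoped ENNReal

variable {d : ℕ}

lemma sitesL_append (x : Site d) (l l' : List (Step d)) :
    sitesL x (l ++ l') = sitesL x l ++ sitesL (endp x l) l' := by
  induction l generalizing x with
  | nil => rfl
  | cons e l ih => simp only [List.cons_append, sitesL, endp, ih]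

lemma sitesL_map (x : Site d) (l : List (Step d)) :
    sitesL x l = (sitesL 0 l).map (fun y => x + y) := by
  induction l generalizing x with
  | nil => rfl
  | cons e l ih =>
    simp only [sitesL, List.map_cons, add_zero, List.cons.injEq, true_and]
    rw [ih (x + stepVec e), ih (0 + stepVec e), List.map_map]
    refine List.map_congr_left fun y _ => ?_
    simp only [Function.comp, zero_add, add_assoc]

lemma mem_sitesL (x y : Site d) (l : List (Step d)) :
    y ∈ sitesL x l ↔ y - x ∈ sitesL 0 l := by
  rw [sitesL_map x l, List.mem_map]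
  constructor
  · rintro ⟨z, hz, rfl⟩
    simpa using hz
  · intro h
    exact ⟨y - x, h, by simp⟩

lemma sitesL_eq_nil (x : Site d) (l : List (Step d)) : sitesL x l = [] ↔ l = [] := by
  cases l with
  | nil => simp [sitesL]
  | cons e l => simp [sitesL]

lemma lw_append (ω : Environment d) (x : Site d) (l l' : List (Step d)) :
    lw ω x (l ++ l') = lw ω x l * lw ω (endp x l) l' := by
  induction l generalizing x with
  | nil => simp [lw, endp]
  | cons e l ih => simp only [List.cons_append, lw, endp, ih, mul_assoc]

lemma lw_shift (ω : Environment d) (x z : Site d) (l : List (Step d)) :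
    lw (shiftEnv z ω) x l = lw ω (x + z) l := by
  induction l generalizing x with
  | nil => simp [lw]
  | cons e l ih =>
    simp only [lw, ih]
    rw [show x + stepVec e + z = x + z + stepVec e by abel]
    rfl

/-- translation invariance of the annealed weight -/
lemma aw_eq (ν : Measure (Row d)) [IsProbabilityMeasure ν] (x : Site d) (l : List (Step d)) :
    ∫⁻ ω, lw ω x l ∂(iidEnvironmentLaw ν) = aw ν l := by
  have h := (Q561.iid_shift ν x).lintegral_comp (Flux566.measurable_lw (d := d) 0 l)
  rw [aw, ← h]
  refine lintegral_congr fun ω => ?_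
  rw [lw_shift, zero_add]

/-- annealed weight of a concatenation which reads disjoint sites -/
lemma aw_append (ν : Measure (Row d)) [IsProbabilityMeasure ν] (l l' : List (Step d))
    (h : Disjoint {y | y ∈ sitesL 0 l} {y | y ∈ sitesL (endp 0 l) l'}) :
    aw ν (l ++ l') = aw ν l * aw ν l' := by
  rw [← aw_eq ν (endp 0 l) l', aw, aw]
  simp only [lw_append]
  exact Q561.iid_lintegral_mul ν h (Flux566.measurable_lw _ _) (Flux566.measurable_lw _ _)
    (Flux566.locOn_lw _ _) (Flux566.locOn_lw _ _)

lemma lev_opp (u : Step d) (x : Site d) : lev (opp u) x = - lev u x := by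
  rcases u with ⟨j, b⟩
  cases b <;> simp [lev, opp]

lemma isDn_iff (u : Step d) (n : ℕ) (l : List (Step d)) : IsDn u n l ↔ IsUp (opp u) n l := by
  simp only [IsDn, IsUp, lev_opp]
  constructor
  · rintro ⟨h, h'⟩
    exact ⟨fun y hy => by have := h y hy; omega, by omega⟩
  · rintro ⟨h, h'⟩
    exact ⟨fun y hy => by have := h y hy; omega, by omega⟩

/-! ### the monoid of crossings -/

lemma isUp_nil (v : Step d) : IsUp v 0 ([] : List (Step d)) := by
  simp [IsUp, sitesL, endp, lev_zero]

lemma isUp_zero {v : Step d} {l : List (Step d)} (h : IsUp v 0 l) : l = [] := by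
  cases l with
  | nil => rfl
  | cons e l =>
    have := h.1 0 (by simp [sitesL])
    simp at this
    omega

lemma isUp_unique {v : Step d} {n m : ℕ} {l : List (Step d)} (h : IsUp v n l) (h' : IsUp v m l) :
    n = m := by
  have := h.2
  rw [h'.2] at this
  exact_mod_cast this.symm

lemma isUp_ne_nil {v : Step d} {n : ℕ} {l : List (Step d)} (h : IsUp v n l) (hn : 1 ≤ n) :
    l ≠ [] := by
  rintro rfl
  have := isUp_unique h (isUp_nil v)
  omega

lemma isUp_append {v : Step d} {h k : ℕ} {l l' : List (Step d)} (hl : IsUp v h l)
    (hl' : IsUp v k l') : IsUp v (h + k) (l ++ l') := by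
  constructor
  · intro y hy
    rw [sitesL_append, List.mem_append] at hy
    rcases hy with hy | hy
    · have := hl.1 y hy
      push_cast
      omega
    · rw [mem_sitesL] at hy
      have h1 := hl'.1 _ hy
      rw [sub_eq_add_neg, lev_add, lev_neg, hl.2] at h1
      push_cast
      omega
  · rw [endp_append, endp_eq_add, lev_add, hl.2, hl'.2]
    push_cast
    ring

/-- levels read by a crossing started at `x` -/
lemma isUp_sites {v : Step d} {n : ℕ} {l : List (Step d)} (hl : IsUp v n l) (x : Site d) {y : Site d}
    (hy : y ∈ sitesL x l) : lev v x ≤ lev v y ∧ lev v y < lev v x + n := by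
  rw [mem_sitesL] at hy
  have h1 := hl.1 _ hy
  rw [sub_eq_add_neg, lev_add, lev_neg] at h1
  omega

lemma aw_append_isUp (ν : Measure (Row d)) [IsProbabilityMeasure ν] {v : Step d} {h k : ℕ}
    {l l' : List (Step d)} (hl : IsUp v h l) (hl' : IsUp v k l') :
    aw ν (l ++ l') = aw ν l * aw ν l' := by
  refine aw_append ν l l' ?_
  rw [Set.disjoint_left]
  intro y hy hy'
  have h1 := hl.1 y hy
  have h2 := isUp_sites hl' (endp 0 l) hy'
  rw [hl.2] at h2
  omega

/-- **stability** of the submonoid of crossings -/
lemma stable {v : Step d} {a b c e : ℕ} {p q r : List (Step d)} (hp : IsUp v a p)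
    (hq : IsUp v b q) (hpr : IsUp v c (p ++ r)) (hrq : IsUp v e (r ++ q)) :
    ∃ k, c = a + k ∧ IsUp v k r := by
  have hend : lev v (endp 0 (p ++ r)) = a + lev v (endp 0 r) := by
    rw [endp_append, endp_eq_add, lev_add, hp.2]
  rw [hpr.2] at hend
  have hend2 : lev v (endp 0 (r ++ q)) = lev v (endp 0 r) + b := by
    rw [endp_append, endp_eq_add, lev_add, hq.2]
  have hac : a ≤ c := by
    cases r with
    | nil =>
      simp only [endp, lev_zero, add_zero] at hend
      omega
    | cons s r =>
      have h1 := hpr.1 (endp 0 p) (by rw [sitesL_append]; simp [sitesL])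
      rw [hp.2] at h1
      omega
  refine ⟨c - a, by omega, fun y hy => ?_, by omega⟩
  have h1 := hrq.1 y (by rw [sitesL_append]; exact List.mem_append_left _ hy)
  have h2 := hpr.1 (endp 0 p + y) (by
    rw [sitesL_append, List.mem_append]
    right
    rw [mem_sitesL]
    simpa using hy)
  rw [lev_add, hp.2] at h2
  omega

/-- irreducible crossings -/
def Irr (v : Step d) (n : ℕ) (l : List (Step d)) : Prop :=
  IsUp v n l ∧ 1 ≤ n ∧ ∀ (l1 l2 : List (Step d)), l = l1 ++ l2 → ∀ h k, IsUp v h l1 → IsUp v k l2 →
    1 ≤ h → 1 ≤ k → False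

/-- blocks = irreducible crossings -/
def Blk (v : Step d) : Type := {p : ℕ × List (Step d) // Irr v p.1 p.2}

variable {v : Step d}

/-- height of a block -/
def htB (b : Blk v) : ℕ := b.1.1

/-- word of a block -/
def wd (b : Blk v) : List (Step d) := b.1.2

/-- displacement of a block -/
def dsB (b : Blk v) : Site d := endp 0 (wd b)

/-- annealed weight of a block -/
noncomputable def LamB (ν : Measure (Row d)) [IsProbabilityMeasure ν] (b : Blk v) : ℝ≥0∞ :=
  aw ν (wd b)

lemma htB_pos (b : Blk v) : 1 ≤ htB b := b.2.2.1

lemma isUp_wd (b : Blk v) : IsUp v (htB b) (wd b) := b.2.1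

lemma wd_ne_nil (b : Blk v) : wd b ≠ [] := isUp_ne_nil (isUp_wd b) (htB_pos b)

lemma wd_inj {b b' : Blk v} (h : wd b = wd b') : b = b' := by
  have h1 := isUp_wd b
  have h2 := isUp_wd b'
  rw [h] at h1
  have h3 := isUp_unique h1 h2
  exact Subtype.ext (Prod.ext h3 h)

/-- concatenation in walking order -/
def catF : List (Blk v) → List (Step d)
  | [] => []
  | b :: L => wd b ++ catF L

lemma catF_append (L L' : List (Blk v)) : catF (L ++ L') = catF L ++ catF L' := by
  induction L with
  | nil => rfl
  | cons b L ih => simp only [List.cons_append, catF, ih, List.append_assoc]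

/-- concatenation, last block first -/
def catR (L : List (Blk v)) : List (Step d) := catF L.reverse

lemma catR_cons (b : Blk v) (L : List (Blk v)) : catR (b :: L) = catR L ++ wd b := by
  simp [catR, catF_append, catF]

lemma HT_reverse (L : List (Blk v)) : HT htB L.reverse = HT htB L := by
  simp only [HT, List.map_reverse, List.sum_reverse]

lemma LW_reverse (Λ : Blk v → ℝ≥0∞) (L : List (Blk v)) : LW Λ L.reverse = LW Λ L := by
  simp only [LW, List.map_reverse]
  exact (List.reverse_perm _).prod_eq

lemma isUp_catF (L : List (Blk v)) : IsUp v (HT htB L) (catF L) := by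
  induction L with
  | nil => simpa [HT_nil, catF] using isUp_nil v
  | cons b L ih =>
    rw [HT_cons]
    exact isUp_append (isUp_wd b) ih

lemma isUp_catR (L : List (Blk v)) : IsUp v (HT htB L) (catR L) := by
  rw [← HT_reverse]
  exact isUp_catF _

lemma aw_catF (ν : Measure (Row d)) [IsProbabilityMeasure ν] (L : List (Blk v)) :
    aw ν (catF L) = LW (LamB ν) L := by
  induction L with
  | nil => simp [catF, LW_nil, aw, lw]
  | cons b L ih =>
    rw [LW_cons, ← ih]
    exact aw_append_isUp ν (isUp_wd b) (isUp_catF L)

lemma aw_catR (ν : Measure (Row d)) [IsProbabilityMeasure ν] (L : List (Blk v)) :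
    aw ν (catR L) = LW (LamB ν) L := by
  rw [catR, aw_catF, LW_reverse]

lemma endp_catF (L : List (Blk v)) : endp 0 (catF L) = (L.map dsB).sum := by
  induction L with
  | nil => rfl
  | cons b L ih =>
    simp only [catF, List.map_cons, List.sum_cons]
    rw [endp_append, endp_eq_add, ih]
    rfl

lemma endp_catR (L : List (Blk v)) : endp 0 (catR L) = (L.map dsB).sum := by
  rw [catR, endp_catF, List.map_reverse, List.sum_reverse]

lemma catF_ne_nil {L : List (Blk v)} (h : L ≠ []) : catF L ≠ [] := by
  cases L with
  | nil => exact absurd rfl h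
  | cons b L => simp [catF, wd_ne_nil]

/-- **unique factorisation** -/
lemma catF_inj : Function.Injective (catF (v := v)) := by
  intro L
  induction L with
  | nil =>
    intro L' h
    by_contra hne
    exact catF_ne_nil (fun hh => hne hh.symm) h.symm
  | cons b L ih =>
    intro L' h
    cases L' with
    | nil => exact absurd h (catF_ne_nil (by simp))
    | cons b' L' =>
      simp only [catF] at h
      have key : wd b = wd b' := by
        rcases List.append_eq_append_iff.1 h with ⟨r, h1, h2⟩ | ⟨r, h1, h2⟩
        · -- wd b' = wd b ++ r, catF L = r ++ catF L'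
          have hb' := isUp_wd b'
          rw [h1] at hb'
          have hL := isUp_catF L
          rw [h2] at hL
          obtain ⟨k, hk, hr⟩ := stable (isUp_wd b) (isUp_catF L') hb' hL
          rcases Nat.eq_zero_or_pos k with hk0 | hk0
          · subst hk0
            rw [h1, isUp_zero hr, List.append_nil]
          · exact (b'.2.2.2 (wd b) r h1 _ _ (isUp_wd b) hr (htB_pos b) hk0).elim
        · have hb := isUp_wd b
          rw [h1] at hb
          have hL := isUp_catF L'
          rw [h2] at hL
          obtain ⟨k, hk, hr⟩ := stable (isUp_wd b') (isUp_catF L) hb hL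
          rcases Nat.eq_zero_or_pos k with hk0 | hk0
          · subst hk0
            rw [h1, isUp_zero hr, List.append_nil]
          · exact (b.2.2.2 (wd b') r h1 _ _ (isUp_wd b') hr (htB_pos b') hk0).elim
      rw [key] at h
      rw [wd_inj key, ih (List.append_cancel_left h)]

lemma catR_inj : Function.Injective (catR (v := v)) := fun L L' h =>
  List.reverse_injective (catF_inj h)

lemma catF_surj : ∀ (n : ℕ) (l : List (Step d)), IsUp v n l →
    ∃ L : List (Blk v), HT htB L = n ∧ catF L = l := by
  intro n
  induction n using Nat.strong_induction_on with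
  | _ n ih =>
    intro l hl
    rcases Nat.eq_zero_or_pos n with rfl | hn
    · exact ⟨[], by simp [HT_nil], (isUp_zero hl).symm⟩
    by_cases hI : Irr v n l
    · refine ⟨[⟨(n, l), hI⟩], ?_, ?_⟩
      · rw [HT_cons, HT_nil]; rfl
      · simp only [catF, List.append_nil]; rfl
    · simp only [Irr, not_and, not_forall] at hI
      obtain ⟨l1, l2, he, h, k, h1, h2, hh, hk, -⟩ := hI hl hn
      have hsum : h + k = n := by
        subst he
        exact isUp_unique (isUp_append h1 h2) hl
      obtain ⟨L1, hL1, hc1⟩ := ih h (by omega) l1 h1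
      obtain ⟨L2, hL2, hc2⟩ := ih k (by omega) l2 h2
      exact ⟨L1 ++ L2, by rw [HT_append, hL1, hL2, hsum], by rw [catF_append, hc1, hc2, he]⟩

lemma catR_surj (n : ℕ) (l : List (Step d)) (h : IsUp v n l) :
    ∃ L : List (Blk v), HT htB L = n ∧ catR L = l := by
  obtain ⟨L, hL, hc⟩ := catF_surj n l h
  exact ⟨L.reverse, by rw [HT_reverse, hL], by rw [catR, List.reverse_reverse, hc]⟩

open Classical in
/-- **sums over crossings = sums over lists of blocks** (walking order) -/
theorem tsum_catF (n : ℕ) (F : List (Step d) → ℝ≥0∞) :
    ∑' l : List (Step d), (if IsUp v n l then F l else 0)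
      = ∑' L : List (Blk v), if HT htB L = n then F (catF L) else 0 := by
  have e := (catF_inj (v := v)).tsum_eq (f := fun l => if IsUp v n l then F l else 0) (by
    intro l hl
    have hl' : IsUp v n l := by
      by_contra hcon
      exact hl (by simp [hcon])
    obtain ⟨L, -, hL⟩ := catF_surj n l hl'
    exact ⟨L, hL⟩)
  rw [← e]
  refine tsum_congr fun L => ?_
  by_cases h : HT htB L = n
  · rw [if_pos h, if_pos (h ▸ isUp_catF L)]
  · rw [if_neg h, if_neg fun hh => h (isUp_unique (isUp_catF L) hh)]

open Classical in
/-- **sums over crossings = sums over lists of blocks** (last block first) -/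
theorem tsum_catR (n : ℕ) (F : List (Step d) → ℝ≥0∞) :
    ∑' l : List (Step d), (if IsUp v n l then F l else 0)
      = ∑' L : List (Blk v), if HT htB L = n then F (catR L) else 0 := by
  have e := (catR_inj (v := v)).tsum_eq (f := fun l => if IsUp v n l then F l else 0) (by
    intro l hl
    have hl' : IsUp v n l := by
      by_contra hcon
      exact hl (by simp [hcon])
    obtain ⟨L, -, hL⟩ := catR_surj n l hl'
    exact ⟨L, hL⟩)
  rw [← e]
  refine tsum_congr fun L => ?_
  by_cases h : HT htB L = n
  · rw [if_pos h, if_pos (h ▸ isUp_catR L)]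
  · rw [if_neg h, if_neg fun hh => h (isUp_unique (isUp_catR L) hh)]

open Classical in
/-- the renewal function of the single walker in words -/
lemma U_eq (ν : Measure (Row d)) [IsProbabilityMeasure ν] (n : ℕ) :
    B5A.U (LamB (v := v) ν) htB n = ∑' l : List (Step d), if IsUp v n l then aw ν l else 0 := by
  rw [tsum_catF n (fun l => aw ν l), B5A.U]
  refine tsum_congr fun L => ?_
  rw [aw_catF]

/-- sites of `catR` of a split list, hung at the endpoint: the first blocks of the list (`L`) occupy
the top, the rest (`L'`) hangs at their start. -/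
lemma sites_catR (L L' : List (Blk v)) (z : Site d) :
    sitesL (z - endp 0 (catR (L ++ L'))) (catR (L ++ L'))
      = sitesL (z - endp 0 (catR L) - endp 0 (catR L')) (catR L')
        ++ sitesL (z - endp 0 (catR L)) (catR L) := by
  have h1 : catR (L ++ L') = catR L' ++ catR L := by
    simp [catR, catF_append]
  have h0 : endp 0 (catR L' ++ catR L) = endp 0 (catR L') + endp 0 (catR L) := by
    rw [endp_append, endp_eq_add (catR L) (endp 0 (catR L'))]
  rw [h1, sitesL_append, h0,
    endp_eq_add (catR L') (z - (endp 0 (catR L') + endp 0 (catR L)))]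
  have h2 : z - (endp 0 (catR L') + endp 0 (catR L)) = z - endp 0 (catR L) - endp 0 (catR L') := by
    abel
  have h3 : z - endp 0 (catR L) - endp 0 (catR L') + endp 0 (catR L') = z - endp 0 (catR L) := by
    abel
  rw [h2, h3]

lemma sites_catF (L L' : List (Blk v)) (z : Site d) :
    sitesL z (catF (L ++ L')) = sitesL z (catF L) ++ sitesL (z + endp 0 (catF L)) (catF L') := by
  rw [catF_append, sitesL_append, endp_eq_add]

end Crest.Agent.R154.Sing600
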