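import Crest.Agent.R154.HBind_646
import Crest.Agent.R154.Sing_600
import Crest.Agent.R154.BindDefs_55

/-! Row 154, ROAD 801 (helper646): binding of the list letters (540: `TX`, `TY`, `Dp`, `HT`, `LW`) on
600's blocks with the word letters (28: `Cm`, `KW`; 55: `CW`, `H2W`, `H3W`, `H5W`). -/

set_option autoImplicit false

namespace Crest.Agent.R154.HB646

open MeasureTheory ProbabilityTheory Crest.ProbabilityR.RandomEnvironment Crest.Agent.R154
open Crest.Agent.R154.Flux132 (lev opp)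
open Crest.Agent.R154.Flux566 (lw endp sitesL)
open Crest.Agent.R154.NB28 Crest.Agent.R154.B5A
open Crest.Agent.R154.Sing600 (Blk htB wd LamB catF catR isUp_wd catR_cons tsum_catF tsum_catR
  aw_catF aw_catR isDn_iff isUp_catF isUp_catR)
open Crest.Agent.R154.BW55 (lt CW H2W H3W H5W)
open scoped ENNReal

variable {d : ℕ}

lemma catR_eq {v : Step d} (L : List (Blk v)) : catR L = catU wd L := by
  induction L with
  | nil => rfl
  | cons b L ih => rw [catR_cons, catU, ih]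

lemma catF_eq {v : Step d} (L : List (Blk v)) : catF L = catD wd L := by
  induction L with
  | nil => rfl
  | cons b L ih => simp only [catF, catD, ih]

lemma lev_opp_step (u : Step d) : lev u (stepVec (opp u) : Site d) = -1 := by
  rw [Flux132.stepVec_opp, lev_neg, Flux132.lev_step_self]

/-- displacement of an up block, read from the top down -/
def zX {u : Step d} (b : Blk u) : Site d := - endp 0 (wd b)

/-- displacement of a down block -/
def zY {u : Step d} (b : Blk (opp u)) : Site d := endp 0 (wd b)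

/-- sites of an up block -/
def sX {u : Step d} (b : Blk u) : Set (Site d × ℕ) := sU u (wd b)

/-- sites of a down block -/
def sY {u : Step d} (b : Blk (opp u)) : Set (Site d × ℕ) := sD u (wd b)

lemma mem_TX {u : Step d} (L : List (Blk u)) (x : Site d) (a : ℕ) (y : Site d) (k : ℕ) :
    (y, k) ∈ TT htB zX sX L x a ↔
      y ∈ sitesL (x - endp 0 (catR L)) (catR L) ∧ (k : ℤ) = a + lev u x - lev u y := by
  rw [catR_eq]
  exact mem_TU u htB wd (fun b => isUp_wd b) L x a y k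

lemma mem_TY {u : Step d} (L : List (Blk (opp u))) (x : Site d) (a : ℕ) (y : Site d) (k : ℕ) :
    (y, k) ∈ TT htB zY sY L x a ↔
      y ∈ sitesL (x + stepVec (opp u)) (catF L) ∧ (k : ℤ) = a + lev u x - lev u y := by
  rw [catF_eq]
  exact mem_TD u htB wd (fun b => (isDn_iff u _ _).2 (isUp_wd b)) (lev_opp_step u) L x a y k

lemma Dp_zX {u : Step d} (L : List (Blk u)) : Dp zX L = - endp 0 (catR L) := by
  rw [catR_eq, endp_catU, neg_neg]; rfl

lemma Dp_zY {u : Step d} (L : List (Blk (opp u))) : Dp zY L = endp 0 (catF L) := by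
  rw [catF_eq, endp_catD]; rfl

open Classical in
/-- double sums over crossings = double sums over lists of blocks -/
lemma tsum_words (u : Step d) (n m : ℕ) (F : List (Step d) → List (Step d) → ℝ≥0∞) :
    ∑' π : List (Step d), ∑' γ : List (Step d), (if IsUp u n π ∧ IsDn u m γ then F π γ else 0)
      = ∑' L : List (Blk u), ∑' L' : List (Blk (opp u)),
          if HT htB L = n ∧ HT htB L' = m then F (catR L) (catF L') else 0 := by
  have h1 : ∀ π : List (Step d), (∑' γ : List (Step d), if IsUp u n π ∧ IsDn u m γ then F π γ else 0)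
      = if IsUp u n π then (∑' γ : List (Step d), if IsUp (opp u) m γ then F π γ else 0) else 0 := by
    intro π
    by_cases h : IsUp u n π
    · rw [if_pos h]
      refine tsum_congr fun γ => ?_
      by_cases h' : IsDn u m γ
      · rw [if_pos ⟨h, h'⟩, if_pos ((isDn_iff u _ _).1 h')]
      · rw [if_neg (fun hh => h' hh.2), if_neg (fun hh => h' ((isDn_iff u _ _).2 hh))]
    · rw [if_neg h]
      simp [h]
  rw [tsum_congr h1, tsum_catR n (fun π => ∑' γ : List (Step d), if IsUp (opp u) m γ then F π γ else 0)]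
  refine tsum_congr fun L => ?_
  by_cases hL : HT htB L = n
  · rw [if_pos hL, tsum_catF m (fun γ => F (catR L) γ)]
    refine tsum_congr fun L' => ?_
    by_cases hL' : HT htB L' = m
    · rw [if_pos hL', if_pos ⟨hL, hL'⟩]
    · rw [if_neg hL', if_neg (fun hh => hL' hh.2)]
  · rw [if_neg hL]
    simp [hL]

lemma mem_Cm_iff (u : Step d) (w : Site d) (hw : lev u w = 0) (LX : List (Blk u))
    (LY : List (Blk (opp u))) (k : ℕ) :
    k ∈ Cm u w (catR LX) (catF LY) ↔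
      ∃ z, (z, k) ∈ TT htB zX sX LX 0 0 ∧ (z, k) ∈ TT htB zY sY LY w 0 := by
  constructor
  · rintro ⟨y, h1, h2, h3⟩
    refine ⟨y, (mem_TX _ _ _ _ _).2 ⟨by rw [zero_sub]; exact h1, ?_⟩, (mem_TY _ _ _ _ _).2 ⟨h2, ?_⟩⟩
    · rw [lev_zero, h3]; simp
    · rw [hw, h3]; simp
  · rintro ⟨y, h1, h2⟩
    rw [mem_TX] at h1
    rw [mem_TY] at h2
    refine ⟨y, by rw [← zero_sub]; exact h1.1, h2.1, ?_⟩
    have h3 := h1.2
    rw [lev_zero] at h3
    push_cast at h3
    linarith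

variable (ν : Measure (Row d)) [IsProbabilityMeasure ν]

open Classical in
/-- `KW` in list letters -/
theorem KW_eq (u : Step d) (n m : ℕ) (w : Site d) (hw : lev u w = 0) :
    KW ν u n m w = ∑' LX : List (Blk u), ∑' LY : List (Blk (opp u)),
      if HT htB LX = n ∧ HT htB LY = n ∧
        (∀ z k, (z, k) ∈ TT htB zX sX LX 0 0 → (z, k) ∈ TT htB zY sY LY w 0 → m < k) ∧
        (∃ z k, k ≤ 2 * m ∧ (z, k) ∈ TT htB zX sX LX 0 0 ∧ (z, k) ∈ TT htB zY sY LY w 0)
      then LW (LamB ν) LX * LW (LamB ν) LY else 0 := by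
  have h1 : KW ν u n m w = ∑' π : List (Step d), ∑' γ : List (Step d),
      (if IsUp u n π ∧ IsDn u n γ then
        (if (∀ k ∈ Cm u w π γ, m < k) ∧ (∃ k ∈ Cm u w π γ, k ≤ 2 * m) then aw ν π * aw ν γ else 0)
        else 0) := by
    rw [KW]
    refine tsum_congr fun π => tsum_congr fun γ => ?_
    by_cases h : IsUp u n π ∧ IsDn u n γ
    · rw [if_pos h]
      by_cases h' : (∀ k ∈ Cm u w π γ, m < k) ∧ (∃ k ∈ Cm u w π γ, k ≤ 2 * m)
      · rw [if_pos h', if_pos ⟨h.1, h.2, h'⟩]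
      · rw [if_neg h', if_neg fun hh => h' hh.2.2]
    · rw [if_neg h, if_neg fun hh => h ⟨hh.1, hh.2.1⟩]
  rw [h1, tsum_words u n n (fun π γ =>
    if (∀ k ∈ Cm u w π γ, m < k) ∧ (∃ k ∈ Cm u w π γ, k ≤ 2 * m) then aw ν π * aw ν γ else 0)]
  refine tsum_congr fun LX => tsum_congr fun LY => ?_
  by_cases h : HT htB LX = n ∧ HT htB LY = n
  · rw [if_pos h]
    have e : ((∀ k ∈ Cm u w (catR LX) (catF LY), m < k) ∧
        (∃ k ∈ Cm u w (catR LX) (catF LY), k ≤ 2 * m)) ↔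
        ((∀ z k, (z, k) ∈ TT htB zX sX LX 0 0 → (z, k) ∈ TT htB zY sY LY w 0 → m < k) ∧
        (∃ z k, k ≤ 2 * m ∧ (z, k) ∈ TT htB zX sX LX 0 0 ∧ (z, k) ∈ TT htB zY sY LY w 0)) := by
      refine and_congr ⟨fun hh z k h1 h2 => hh k ((mem_Cm_iff u w hw LX LY k).2 ⟨z, h1, h2⟩),
        fun hh k hk => ?_⟩ ⟨fun ⟨k, hk, hk'⟩ => ?_, fun ⟨z, k, hk, h1, h2⟩ =>
          ⟨k, (mem_Cm_iff u w hw LX LY k).2 ⟨z, h1, h2⟩, hk⟩⟩
      · obtain ⟨z, h1, h2⟩ := (mem_Cm_iff u w hw LX LY k).1 hk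
        exact hh z k h1 h2
      · obtain ⟨z, h1, h2⟩ := (mem_Cm_iff u w hw LX LY k).1 hk
        exact ⟨z, k, hk', h1, h2⟩
    by_cases h' : (∀ k ∈ Cm u w (catR LX) (catF LY), m < k) ∧
        (∃ k ∈ Cm u w (catR LX) (catF LY), k ≤ 2 * m)
    · rw [if_pos h', if_pos ⟨h.1, h.2, e.1 h'⟩, aw_catR, aw_catF]
    · rw [if_neg h', if_neg fun hh => h' (e.2 hh.2.2)]
  · rw [if_neg h, if_neg fun hh => h ⟨hh.1, hh.2.1⟩]

open Classical in
/-- **(c), first contact form**: `kapS` (lists) gives `KappaW` (words) -/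
theorem kappaW_of_kapF (u : Step d)
    (kapS : ∀ ε : ℝ≥0∞, ε ≠ 0 → ∃ M : ℕ, ∀ m, M ≤ m → ∀ n, 2 * m ≤ n → ∀ w : Site d,
      ∑' LX : List (Blk u), ∑' LY : List (Blk (opp u)),
        (if HT htB LX = n ∧ HT htB LY = n ∧
          (∀ z k, (z, k) ∈ TT htB zX sX LX 0 0 → (z, k) ∈ TT htB zY sY LY w 0 → m < k) ∧
          (∃ z k, k ≤ 2 * m ∧ (z, k) ∈ TT htB zX sX LX 0 0 ∧ (z, k) ∈ TT htB zY sY LY w 0)
        then LW (LamB ν) LX * LW (LamB ν) LY else 0) ≤ ε) : KappaW ν u := by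
  intro ε hε
  obtain ⟨M, hM⟩ := kapS ε hε
  refine ⟨M, fun m hm n hn w hw => ?_⟩
  rw [KW_eq ν u n m w hw]
  exact hM m hm n hn w

open Classical in
/-- **(c)**: `kapS` (lists, any contact in `(m, 2m]`) gives `KappaW` (words) -/
theorem kappaW_of_kapS (u : Step d)
    (kapS : ∀ ε : ℝ≥0∞, ε ≠ 0 → ∃ M : ℕ, ∀ m, M ≤ m → ∀ n, 2 * m ≤ n → ∀ w : Site d,
      ∑' LX : List (Blk u), ∑' LY : List (Blk (opp u)),
        (if HT htB LX = n ∧ HT htB LY = n ∧ (∃ k z, m < k ∧ k ≤ 2 * m ∧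
          (z, k) ∈ TT htB zX sX LX 0 0 ∧ (z, k) ∈ TT htB zY sY LY w 0)
        then LW (LamB ν) LX * LW (LamB ν) LY else 0) ≤ ε) : KappaW ν u := by
  refine kappaW_of_kapF ν u fun ε hε => ?_
  obtain ⟨M, hM⟩ := kapS ε hε
  refine ⟨M, fun m hm n hn w => le_trans ?_ (hM m hm n hn w)⟩
  refine ENNReal.tsum_le_tsum fun LX => ENNReal.tsum_le_tsum fun LY => ?_
  split_ifs with h1 h2
  · exact le_rfl
  · obtain ⟨ha, hb, hc, z, k, hk, h3, h4⟩ := h1
    exact absurd ⟨ha, hb, k, z, hc z k h3 h4, hk, h3, h4⟩ h2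
  · exact bot_le
  · exact le_rfl

/-! ### the window lemmas: words ⟹ lists -/

lemma lt_add (u : Step d) (x : Site d) (n : ℤ) : lt u (x + n • stepVec u) = lt u x := by
  have h : lev u (n • stepVec u : Site d) = n := by
    have h1 := Flux132.lev_step_self (d := d) u
    simp only [lev] at h1 ⊢
    split_ifs at h1 ⊢ with h2
    · simp [h1]
    · simp only [Pi.smul_apply, smul_eq_mul]
      have : - (n * (stepVec u : Site d) u.1) = n * (-(stepVec u : Site d) u.1) := by ring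
      rw [this, h1, mul_one]
  simp only [lt]
  rw [lev_add, h, add_smul]
  abel

lemma lev_smul (u : Step d) (n : ℤ) : lev u (n • stepVec u : Site d) = n := by
  have h1 := Flux132.lev_step_self (d := d) u
  simp only [lev] at h1 ⊢
  split_ifs at h1 ⊢ with h2
  · simp [h1]
  · simp only [Pi.smul_apply, smul_eq_mul]
    have : - (n * (stepVec u : Site d) u.1) = n * (-(stepVec u : Site d) u.1) := by ring
    rw [this, h1, mul_one]

/-- common sites of two placed lists = `CW` of the words -/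
lemma mem_CW_iff (u : Step d) (a a' : ℕ) (x : Site d) (hx : lev u x = (a : ℤ) - a')
    (L : List (Blk u)) (L' : List (Blk (opp u))) (k : ℕ) :
    k ∈ CW u a a' (lt u x) (catR L) (catF L') ↔
      ∃ z, (z, k) ∈ TT htB zX sX L 0 a ∧ (z, k) ∈ TT htB zY sY L' x a' := by
  have e1 : ∀ z : Site d, z - (a : ℤ) • stepVec u - (-((a : ℤ) • stepVec u) - endp 0 (catR L))
      = z - (0 - endp 0 (catR L)) := by intro z; abel
  have e2 : ∀ z : Site d, z - (a : ℤ) • stepVec u - (lt u x - ((a' : ℤ) + 1) • stepVec u)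
      = z - (x + stepVec (opp u)) := by
    intro z
    rw [Flux132.stepVec_opp, lt, hx, sub_smul, add_smul, one_smul]
    abel
  constructor
  · rintro ⟨y, h1, h2, h3⟩
    refine ⟨y + (a : ℤ) • stepVec u, (mem_TX _ _ _ _ _).2 ⟨?_, ?_⟩, (mem_TY _ _ _ _ _).2 ⟨?_, ?_⟩⟩
    · rw [mem_sitesL_iff] at h1 ⊢
      rw [← e1, add_sub_cancel_right]; exact h1
    · rw [lev_zero, lev_add, lev_smul, h3]; ring
    · rw [mem_sitesL_iff] at h2 ⊢
      rw [← e2, add_sub_cancel_right]; exact h2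
    · rw [hx, lev_add, lev_smul, h3]; ring
  · rintro ⟨z, h1, h2⟩
    rw [mem_TX] at h1
    rw [mem_TY] at h2
    refine ⟨z - (a : ℤ) • stepVec u, ?_, ?_, ?_⟩
    · rw [mem_sitesL_iff, e1, ← mem_sitesL_iff]; exact h1.1
    · rw [mem_sitesL_iff, e2, ← mem_sitesL_iff]; exact h2.1
    · have h3 := h1.2
      rw [lev_zero] at h3
      rw [lev_sub, lev_smul]
      linarith

/-- lists placed at inconsistent levels have no common site -/
lemma no_common (u : Step d) (a a' : ℕ) (x : Site d) (hx : lev u x ≠ (a : ℤ) - a')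
    (L : List (Blk u)) (L' : List (Blk (opp u))) (z : Site d) (k : ℕ)
    (h1 : (z, k) ∈ TT htB zX sX L 0 a) (h2 : (z, k) ∈ TT htB zY sY L' x a') : False := by
  rw [mem_TX] at h1
  rw [mem_TY] at h2
  have h3 := h1.2
  have h4 := h2.2
  rw [lev_zero] at h3
  exact hx (by linarith)

lemma ite_le_of {P Q : Prop} {_dP : Decidable P} {_dQ : Decidable Q} {a b : ℝ≥0∞}
    (h : P → Q ∧ a ≤ b) :
    (if P then a else 0) ≤ if Q then b else 0 := by
  by_cases hP : P
  · rw [if_pos hP, if_pos (h hP).1]; exact (h hP).2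
  · rw [if_neg hP]; exact bot_le

open Classical in
/-- **(b), master form**: list sums ≤ word sums, for any condition `Φ` on the contact set -/
theorem bridge (u : Step d) (a a' h h' : ℕ) (μ : Site d → ℝ≥0∞) (E F : Set (Site d))
    (Φ : Set ℕ → Prop) :
    ∑' x : Site d, μ x * ∑' L : List (Blk u), ∑' L' : List (Blk (opp u)),
      (if HT htB L = h ∧ Dp zX L ∈ E ∧ HT htB L' = h' ∧ Dp zY L' ∈ F ∧
        (∃ z k, (z, k) ∈ TT htB zX sX L 0 a ∧ (z, k) ∈ TT htB zY sY L' x a') ∧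
        Φ {k | ∃ z, (z, k) ∈ TT htB zX sX L 0 a ∧ (z, k) ∈ TT htB zY sY L' x a'}
        then LW (LamB ν) L * LW (LamB ν) L' else 0)
      ≤ ∑' x : Site d, (if lev u x = 0 then μ (x + ((a : ℤ) - a') • stepVec u) *
        ∑' π : List (Step d), ∑' γ : List (Step d),
          (if IsUp u h π ∧ lt u (-endp 0 π) ∈ lt u '' E ∧ IsDn u h' γ ∧
            lt u (endp 0 γ) ∈ lt u '' F ∧ (∃ k, k ∈ CW u a a' x π γ) ∧ Φ (CW u a a' x π γ)
            then aw ν π * aw ν γ else 0) else 0) := by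
  have hsh : ∀ (c : Site d) (f : Site d → ℝ≥0∞), ∑' x, f x = ∑' x, f (x + c) := fun c f =>
    ((Equiv.addRight c).tsum_eq f).symm
  refine le_trans (le_of_eq (hsh (((a : ℤ) - a') • stepVec u) _)) ?_
  refine ENNReal.tsum_le_tsum fun x => ?_
  obtain ⟨c, hc⟩ : ∃ c : Site d, c = ((a : ℤ) - a') • stepVec u := ⟨_, rfl⟩
  rw [← hc]
  have hlev : lev u (x + c) = lev u x + ((a : ℤ) - a') := by rw [hc, lev_add, lev_smul]
  by_cases hx : lev u x = 0
  · rw [if_pos hx]
    refine mul_le_mul_right ?_ _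
    have hx' : lev u (x + c) = (a : ℤ) - a' := by rw [hlev, hx, zero_add]
    have hlt : lt u (x + c) = x := by rw [hc, lt_add, lt, hx, zero_smul, sub_zero]
    have hW : (∑' π : List (Step d), ∑' γ : List (Step d),
          (if IsUp u h π ∧ lt u (-endp 0 π) ∈ lt u '' E ∧ IsDn u h' γ ∧
            lt u (endp 0 γ) ∈ lt u '' F ∧ (∃ k, k ∈ CW u a a' x π γ) ∧ Φ (CW u a a' x π γ)
            then aw ν π * aw ν γ else 0))
        = ∑' L : List (Blk u), ∑' L' : List (Blk (opp u)),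
          if HT htB L = h ∧ HT htB L' = h' then
            (if lt u (-endp 0 (catR L)) ∈ lt u '' E ∧
              lt u (endp 0 (catF L')) ∈ lt u '' F ∧ (∃ k, k ∈ CW u a a' x (catR L) (catF L')) ∧
              Φ (CW u a a' x (catR L) (catF L')) then aw ν (catR L) * aw ν (catF L') else 0)
          else 0 := by
      rw [← tsum_words u h h' (fun π γ => if lt u (-endp 0 π) ∈ lt u '' E ∧
              lt u (endp 0 γ) ∈ lt u '' F ∧ (∃ k, k ∈ CW u a a' x π γ) ∧
              Φ (CW u a a' x π γ) then aw ν π * aw ν γ else 0)]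
      refine tsum_congr fun π => tsum_congr fun γ => ?_
      by_cases h1 : IsUp u h π ∧ IsDn u h' γ
      · rw [if_pos h1]
        refine if_congr ?_ rfl rfl
        constructor
        · rintro ⟨-, a2, -, a4⟩; exact ⟨a2, a4⟩
        · rintro ⟨a2, a4⟩; exact ⟨h1.1, a2, h1.2, a4⟩
      · rw [if_neg h1, if_neg fun hh => h1 ⟨hh.1, hh.2.2.1⟩]
    rw [hW]
    refine ENNReal.tsum_le_tsum fun L => ENNReal.tsum_le_tsum fun L' => ?_
    have hset : {k | ∃ z, (z, k) ∈ TT htB zX sX L 0 a ∧ (z, k) ∈ TT htB zY sY L' (x + c) a'}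
        = CW u a a' x (catR L) (catF L') := by
      ext k
      have := mem_CW_iff u a a' (x + c) hx' L L' k
      rw [hlt] at this
      exact this.symm
    refine ite_le_of fun h1 => ⟨⟨h1.1, h1.2.2.1⟩, ?_⟩
    obtain ⟨-, b2, -, b4, ⟨z, k, b5, b5'⟩, b6⟩ := h1
    rw [hset] at b6
    rw [if_pos ?_, aw_catR, aw_catF]
    refine ⟨⟨_, b2, by rw [Dp_zX]⟩, ⟨_, b4, by rw [Dp_zY]⟩, ⟨k, ?_⟩, b6⟩
    rw [← hset]
    exact ⟨z, b5, b5'⟩
  · rw [if_neg hx]
    have hx' : lev u (x + c) ≠ (a : ℤ) - a' := by rw [hlev]; intro hh; exact hx (by linarith)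
    rw [nonpos_iff_eq_zero, mul_eq_zero]
    right
    rw [ENNReal.tsum_eq_zero]
    intro L
    rw [ENNReal.tsum_eq_zero]
    intro L'
    rw [if_neg]
    rintro ⟨-, -, -, -, ⟨z, k, b5, b5'⟩, -⟩
    exact no_common u a a' (x + c) hx' L L' z k b5 b5'

lemma rhs_le (C M lam : ℝ≥0∞) (us : ℕ → ℝ≥0∞) (s : ℕ) (u : Step d) (E : Finset (Site d)) :
    C * (lam + M * ((E.image (lt u)).card : ℝ≥0∞) * us s / lam + us s)
      ≤ C * (lam + M * (E.card : ℝ≥0∞) * us s / lam + us s) := by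
  have : ((E.image (lt u)).card : ℝ≥0∞) ≤ (E.card : ℝ≥0∞) := by exact_mod_cast Finset.card_image_le
  gcongr

open Classical in
/-- **(b)** 540's `H2` (lists) from 55's `H2W` (words) -/
theorem H2_of_words (u : Step d) (C : ℝ≥0∞) (us : ℕ → ℝ≥0∞) (H : H2W ν u C us) :
    ∀ (s h h' a a' lo : ℕ) (E : Finset (Site d)) (μ : Site d → ℝ≥0∞) (M lam : ℝ≥0∞),
      ∑' x, μ x ≤ 1 → (∀ x, μ x ≤ M) → lam ≠ 0 → lam ≠ ⊤ → a + s ≤ lo → a' + s ≤ lo →
      ∑' x : Site d, μ x * ∑' L : List (Blk u), ∑' L' : List (Blk (opp u)),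
        (if HT htB L = h ∧ Dp zX L ∈ E ∧ HT htB L' = h' ∧
          (∃ z k, (z, k) ∈ TT htB zX sX L 0 a ∧ (z, k) ∈ TT htB zY sY L' x a') ∧
          (∀ z k, (z, k) ∈ TT htB zX sX L 0 a → (z, k) ∈ TT htB zY sY L' x a' → lo ≤ k)
          then LW (LamB ν) L * LW (LamB ν) L' else 0)
        ≤ C * (lam + M * E.card * us s / lam + us s) := by
  intro s h h' a a' lo E μ M lam hμ hM h0 ht ha ha'
  refine le_trans ?_ (le_trans ((bridge ν u a a' h h' μ (E : Set (Site d)) Set.univ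
    (fun S => ∀ k ∈ S, lo ≤ k)).trans ?_) (le_trans (H s h h' a a' lo (E.image (lt u))
      (fun x => μ (x + ((a : ℤ) - a') • stepVec u)) M lam ?_ (fun x => hM _) h0 ht ha ha')
        (rhs_le C M lam us s u E)))
  · refine ENNReal.tsum_le_tsum fun x => mul_le_mul_right (ENNReal.tsum_le_tsum fun L =>
      ENNReal.tsum_le_tsum fun L' => ite_le_of fun h1 => ⟨?_, le_rfl⟩) _
    obtain ⟨b1, b2, b3, b4, b5⟩ := h1
    exact ⟨b1, by exact_mod_cast b2, b3, trivial, b4, fun k ⟨z, hz1, hz2⟩ => b5 z k hz1 hz2⟩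
  · refine ENNReal.tsum_le_tsum fun x => ite_le_of fun hx => ⟨hx, mul_le_mul_right
      (ENNReal.tsum_le_tsum fun π => ENNReal.tsum_le_tsum fun γ => ite_le_of fun h1 =>
        ⟨?_, le_rfl⟩) _⟩
    obtain ⟨b1, b2, b3, b4, b5, b6⟩ := h1
    exact ⟨b1, by rw [← Finset.mem_coe, Finset.coe_image]; exact b2, b3, b5, b6⟩
  · exact le_trans (le_of_eq
      ((Equiv.addRight (((a : ℤ) - a') • stepVec u : Site d)).tsum_eq μ)) hμ

open Classical in
/-- **(b)** 540's `H3` (lists) from 55's `H3W` (words) -/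
theorem H3_of_words (u : Step d) (C : ℝ≥0∞) (us : ℕ → ℝ≥0∞) (H : H3W ν u C us) :
    ∀ (s h h' a a' hi : ℕ) (E : Finset (Site d)) (μ : Site d → ℝ≥0∞) (M lam : ℝ≥0∞),
      ∑' x, μ x ≤ 1 → (∀ x, μ x ≤ M) → lam ≠ 0 → lam ≠ ⊤ → hi + s ≤ a + h → hi + s ≤ a' + h' →
      ∑' x : Site d, μ x * ∑' L : List (Blk u), ∑' L' : List (Blk (opp u)),
        (if HT htB L = h ∧ HT htB L' = h' ∧ Dp zY L' ∈ E ∧
          (∃ z k, (z, k) ∈ TT htB zX sX L 0 a ∧ (z, k) ∈ TT htB zY sY L' x a') ∧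
          (∀ z k, (z, k) ∈ TT htB zX sX L 0 a → (z, k) ∈ TT htB zY sY L' x a' → k ≤ hi)
          then LW (LamB ν) L * LW (LamB ν) L' else 0)
        ≤ C * (lam + M * E.card * us s / lam + us s) := by
  intro s h h' a a' hi E μ M lam hμ hM h0 ht ha ha'
  refine le_trans ?_ (le_trans ((bridge ν u a a' h h' μ Set.univ (E : Set (Site d))
    (fun S => ∀ k ∈ S, k ≤ hi)).trans ?_) (le_trans (H s h h' a a' hi (E.image (lt u))
      (fun x => μ (x + ((a : ℤ) - a') • stepVec u)) M lam ?_ (fun x => hM _) h0 ht ha ha')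
        (rhs_le C M lam us s u E)))
  · refine ENNReal.tsum_le_tsum fun x => mul_le_mul_right (ENNReal.tsum_le_tsum fun L =>
      ENNReal.tsum_le_tsum fun L' => ite_le_of fun h1 => ⟨?_, le_rfl⟩) _
    obtain ⟨b1, b3, b2, b4, b5⟩ := h1
    exact ⟨b1, trivial, b3, by exact_mod_cast b2, b4, fun k ⟨z, hz1, hz2⟩ => b5 z k hz1 hz2⟩
  · refine ENNReal.tsum_le_tsum fun x => ite_le_of fun hx => ⟨hx, mul_le_mul_right
      (ENNReal.tsum_le_tsum fun π => ENNReal.tsum_le_tsum fun γ => ite_le_of fun h1 =>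
        ⟨?_, le_rfl⟩) _⟩
    obtain ⟨b1, b2, b3, b4, b5, b6⟩ := h1
    exact ⟨b1, b3, by rw [← Finset.mem_coe, Finset.coe_image]; exact b4, b5, b6⟩
  · exact le_trans (le_of_eq
      ((Equiv.addRight (((a : ℤ) - a') • stepVec u : Site d)).tsum_eq μ)) hμ

open Classical in
/-- **(b)** 540's `H5` (lists) from 55's `H5W` (words) -/
theorem H5_of_words (u : Step d) (H : H5W ν u) :
    ∀ s : ℕ, ∀ η : ℝ≥0∞, η ≠ 0 → ∃ T : ℕ, ∀ a, T ≤ a → ∀ n : ℕ, ∀ w : Site d,
      ∑' LX : List (Blk u), ∑' LY : List (Blk (opp u)),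
        (if HT htB LX = n ∧ HT htB LY = n ∧ (∃ z k, a ≤ k ∧ k < a + s ∧
          (z, k) ∈ TT htB zX sX LX 0 0 ∧ (z, k) ∈ TT htB zY sY LY w 0)
          then LW (LamB ν) LX * LW (LamB ν) LY else 0) ≤ η := by
  intro s η hη
  obtain ⟨T, hT⟩ := H s η hη
  refine ⟨T, fun a ha n w => ?_⟩
  by_cases hw : lev u w = 0
  · refine le_trans ?_ (hT a ha n w hw)
    have e : (∑' π : List (Step d), ∑' γ : List (Step d),
      (if IsUp u n π ∧ IsDn u n γ ∧ (∃ k ∈ Cm u w π γ, a ≤ k ∧ k < a + s)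
        then aw ν π * aw ν γ else 0)) = ∑' π : List (Step d), ∑' γ : List (Step d),
      (if IsUp u n π ∧ IsDn u n γ then
        (if (∃ k ∈ Cm u w π γ, a ≤ k ∧ k < a + s) then aw ν π * aw ν γ else 0) else 0) := by
      refine tsum_congr fun π => tsum_congr fun γ => ?_
      by_cases h : IsUp u n π ∧ IsDn u n γ
      · rw [if_pos h]
        exact if_congr ⟨fun hh => hh.2.2, fun hh => ⟨h.1, h.2, hh⟩⟩ rfl rfl
      · rw [if_neg h, if_neg fun hh => h ⟨hh.1, hh.2.1⟩]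
    rw [e, tsum_words u n n (fun π γ =>
      if (∃ k ∈ Cm u w π γ, a ≤ k ∧ k < a + s) then aw ν π * aw ν γ else 0)]
    refine ENNReal.tsum_le_tsum fun LX => ENNReal.tsum_le_tsum fun LY =>
      ite_le_of fun h1 => ⟨⟨h1.1, h1.2.1⟩, ?_⟩
    obtain ⟨-, -, z, k, b1, b2, b3, b4⟩ := h1
    rw [if_pos ⟨k, (mem_Cm_iff u w hw LX LY k).2 ⟨z, b3, b4⟩, b1, b2⟩, aw_catR, aw_catF]
  · refine le_trans (b := 0) (le_of_eq ?_) bot_le
    rw [ENNReal.tsum_eq_zero]
    intro LX
    rw [ENNReal.tsum_eq_zero]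
    intro LY
    rw [if_neg]
    rintro ⟨-, -, z, k, -, -, b3, b4⟩
    exact no_common u 0 0 w (by simpa using hw) LX LY z k b3 b4

end Crest.Agent.R154.HB646
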