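import Crest.Agent.R154.NBDefs_28
import Crest.Agent.R154.B5Abs_566

/-! Row 154, ROAD 801 (helper646): binding words <-> lists of irreducible words for the window
lemmas (540's letters) and for `KappaW` (28's letters).

The list side is abstract: a block type `B` with weight `Λ`, height `h`, word `wd`, and a
concatenation map `cat`; the facts used are collected in `UpSys` / `DnSys`. -/

set_option autoImplicit false

namespace Crest.Agent.R154.HB646

open MeasureTheory ProbabilityTheory Crest.ProbabilityR.RandomEnvironment Crest.Agent.R154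
open Crest.Agent.R154.Flux132 (lev opp)
open Crest.Agent.R154.Flux566 (lw endp sitesL)
open Crest.Agent.R154.NB28 Crest.Agent.R154.B5A
open scoped ENNReal

variable {d : ℕ}

/-! ### levels, translations -/

lemma lev_add (u : Step d) (x y : Site d) : lev u (x + y) = lev u x + lev u y := by
  simp only [lev]; split_ifs <;> simp [add_comm]

lemma lev_neg (u : Step d) (x : Site d) : lev u (-x) = - lev u x := by
  simp only [lev]; split_ifs <;> simp

lemma lev_sub (u : Step d) (x y : Site d) : lev u (x - y) = lev u x - lev u y := by
  rw [sub_eq_add_neg, lev_add, lev_neg, sub_eq_add_neg]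

lemma lev_zero (u : Step d) : lev u (0 : Site d) = 0 := by
  simp only [lev]; split_ifs <;> simp

lemma sitesL_append (l l' : List (Step d)) (x : Site d) :
    sitesL x (l ++ l') = sitesL x l ++ sitesL (endp x l) l' := by
  induction l generalizing x with
  | nil => rfl
  | cons e l ih => simp only [List.cons_append, sitesL, endp, ih]

lemma sitesL_trans (l : List (Step d)) (x z : Site d) :
    sitesL (x + z) l = (sitesL z l).map (fun y => x + y) := by
  induction l generalizing z with
  | nil => rfl
  | cons e l ih =>
    simp only [sitesL, List.map_cons]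
    rw [add_assoc, ih]

lemma mem_sitesL_iff (l : List (Step d)) (x y : Site d) :
    y ∈ sitesL x l ↔ y - x ∈ sitesL 0 l := by
  have h := sitesL_trans l x 0
  rw [add_zero] at h
  rw [h, List.mem_map]
  constructor
  · rintro ⟨z, hz, rfl⟩; simpa using hz
  · intro hz; exact ⟨y - x, hz, by abel⟩

/-! ### contact sets of lists (540's letters) -/

variable {B G : Type*} [AddCommGroup G]

/-- sites (position, depth) read by a list of blocks whose top is at `x`, depth `a` -/
def TT (h : B → ℕ) (z : B → G) (s : B → Set (G × ℕ)) : List B → G → ℕ → Set (G × ℕ)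
  | [], _, _ => ∅
  | b :: L, x, a => {p | ∃ q ∈ s b, p = (x + q.1, a + q.2)} ∪ TT h z s L (x + z b) (a + h b)

/-- displacement of a list -/
def Dp (z : B → G) (L : List B) : G := (L.map z).sum

/-- sites of an up word hung at its endpoint -/
def sU (u : Step d) (w : List (Step d)) : Set (Site d × ℕ) :=
  {p | p.1 + endp 0 w ∈ sitesL 0 w ∧ (p.2 : ℤ) = - lev u p.1}

/-- sites of a down word below its top -/
def sD (u : Step d) (w : List (Step d)) : Set (Site d × ℕ) :=
  {p | p.1 - stepVec (opp u) ∈ sitesL 0 w ∧ (p.2 : ℤ) = - lev u p.1}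

/-- concatenation, top block first, of up words (the walk runs from the bottom to the top) -/
def catU (wd : B → List (Step d)) : List B → List (Step d)
  | [] => []
  | b :: L => catU wd L ++ wd b

/-- concatenation, top block first, of down words -/
def catD (wd : B → List (Step d)) : List B → List (Step d)
  | [] => []
  | b :: L => wd b ++ catD wd L

lemma endp_catU (wd : B → List (Step d)) (L : List B) :
    endp 0 (catU wd L) = - Dp (fun b => - endp 0 (wd b)) L := by
  induction L with
  | nil => simp [catU, Dp, endp]
  | cons b L ih =>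
    rw [catU, Flux566.endp_append, Flux566.endp_eq_add, ih]
    simp only [Dp, List.map_cons, List.sum_cons]
    abel

lemma endp_catD (wd : B → List (Step d)) (L : List B) :
    endp 0 (catD wd L) = Dp (fun b => endp 0 (wd b)) L := by
  induction L with
  | nil => simp [catD, Dp, endp]
  | cons b L ih =>
    rw [catD, Flux566.endp_append, Flux566.endp_eq_add, ih]
    simp only [Dp, List.map_cons, List.sum_cons]

/-- **(i), up walker** -/
lemma mem_TU (u : Step d) (h : B → ℕ) (wd : B → List (Step d)) (hup : ∀ b, IsUp u (h b) (wd b))
    (L : List B) (x : Site d) (a : ℕ) (y : Site d) (k : ℕ) :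
    (y, k) ∈ TT h (fun b => - endp 0 (wd b)) (fun b => sU u (wd b)) L x a ↔
      y ∈ sitesL (x - endp 0 (catU wd L)) (catU wd L) ∧ (k : ℤ) = a + lev u x - lev u y := by
  induction L generalizing x a with
  | nil => simp [TT, catU, sitesL]
  | cons b L ih =>
    have hb := hup b
    rw [TT, Set.mem_union, ih, catU, sitesL_append, List.mem_append]
    have e1 : endp (x - endp 0 (catU wd L ++ wd b)) (catU wd L) = x - endp 0 (wd b) := by
      rw [Flux566.endp_eq_add, Flux566.endp_append, Flux566.endp_eq_add (wd b)]; abel
    have e2 : x - endp 0 (catU wd L ++ wd b) = x + - endp 0 (wd b) - endp 0 (catU wd L) := by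
      rw [Flux566.endp_append, Flux566.endp_eq_add (wd b)]; abel
    rw [e1, e2, lev_add, lev_neg, hb.2]
    have e3 : ((a + h b : ℕ) : ℤ) + (lev u x + -(h b : ℤ)) - lev u y = a + lev u x - lev u y := by
      push_cast; ring
    rw [e3]
    constructor
    · rintro (⟨q, ⟨hq1, hq2⟩, hq3⟩ | h2)
      · have hy : y = x + q.1 := congrArg Prod.fst hq3
        have hk : k = a + q.2 := congrArg Prod.snd hq3
        refine ⟨Or.inr ?_, ?_⟩
        · rw [mem_sitesL_iff]
          have : y - (x - endp 0 (wd b)) = q.1 + endp 0 (wd b) := by rw [hy]; abel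
          rw [this]; exact hq1
        · rw [hk, hy, lev_add]; push_cast; rw [hq2]; ring
      · exact ⟨Or.inl h2.1, h2.2⟩
    · rintro ⟨h1 | h1, h2⟩
      · exact Or.inr ⟨h1, h2⟩
      · refine Or.inl ⟨(y - x, (- lev u (y - x)).toNat), ⟨?_, ?_⟩, ?_⟩
        · rw [mem_sitesL_iff] at h1
          have : y - x + endp 0 (wd b) = y - (x - endp 0 (wd b)) := by abel
          rw [this]; exact h1
        · rw [mem_sitesL_iff] at h1
          have h3 := (hb.1 _ h1).2
          have : y - (x - endp 0 (wd b)) = (y - x) + endp 0 (wd b) := by abel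
          rw [this, lev_add, hb.2] at h3
          have h4 : 0 ≤ - lev u (y - x) := by linarith
          simp only
          rw [Int.toNat_of_nonneg h4]
        · rw [mem_sitesL_iff] at h1
          have h3 := (hb.1 _ h1).2
          have : y - (x - endp 0 (wd b)) = (y - x) + endp 0 (wd b) := by abel
          rw [this, lev_add, hb.2] at h3
          have h4 : 0 ≤ - lev u (y - x) := by linarith
          refine Prod.ext (by simp) ?_
          have h5 : ((a + (- lev u (y - x)).toNat : ℕ) : ℤ) = k := by
            push_cast
            rw [Int.toNat_of_nonneg h4, h2, lev_sub]; ring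
          simp only
          exact_mod_cast h5.symm

/-- **(i), down walker** -/
lemma mem_TD (u : Step d) (h : B → ℕ) (wd : B → List (Step d)) (hdn : ∀ b, IsDn u (h b) (wd b))
    (hopp : lev u (stepVec (opp u) : Site d) = -1)
    (L : List B) (x : Site d) (a : ℕ) (y : Site d) (k : ℕ) :
    (y, k) ∈ TT h (fun b => endp 0 (wd b)) (fun b => sD u (wd b)) L x a ↔
      y ∈ sitesL (x + stepVec (opp u)) (catD wd L) ∧ (k : ℤ) = a + lev u x - lev u y := by
  induction L generalizing x a with
  | nil => simp [TT, catD, sitesL]
  | cons b L ih =>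
    have hb := hdn b
    rw [TT, Set.mem_union, ih, catD, sitesL_append, List.mem_append]
    have e1 : endp (x + stepVec (opp u)) (wd b) = x + endp 0 (wd b) + stepVec (opp u) := by
      rw [Flux566.endp_eq_add]; abel
    rw [e1, lev_add, hb.2]
    have e3 : ((a + h b : ℕ) : ℤ) + (lev u x + -(h b : ℤ)) - lev u y = a + lev u x - lev u y := by
      push_cast; ring
    rw [e3]
    constructor
    · rintro (⟨q, ⟨hq1, hq2⟩, hq3⟩ | h2)
      · have hy : y = x + q.1 := congrArg Prod.fst hq3
        have hk : k = a + q.2 := congrArg Prod.snd hq3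
        refine ⟨Or.inl ?_, ?_⟩
        · rw [mem_sitesL_iff]
          have : y - (x + stepVec (opp u)) = q.1 - stepVec (opp u) := by rw [hy]; abel
          rw [this]; exact hq1
        · rw [hk, hy, lev_add]; push_cast; rw [hq2]; ring
      · exact ⟨Or.inr h2.1, h2.2⟩
    · rintro ⟨h1 | h1, h2⟩
      · rw [mem_sitesL_iff] at h1
        have h3 := (hb.1 _ h1).2
        have e4 : y - (x + stepVec (opp u)) = (y - x) - stepVec (opp u) := by abel
        rw [e4, lev_sub, hopp] at h3
        have h4 : 0 ≤ - lev u (y - x) := by linarith
        refine Or.inl ⟨(y - x, (- lev u (y - x)).toNat), ⟨?_, ?_⟩, ?_⟩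
        · rw [e4] at h1; exact h1
        · simp only
          rw [Int.toNat_of_nonneg h4]
        · refine Prod.ext (by simp) ?_
          have h5 : ((a + (- lev u (y - x)).toNat : ℕ) : ℤ) = k := by
            push_cast
            rw [Int.toNat_of_nonneg h4, h2, lev_sub]; ring
          simp only
          exact_mod_cast h5.symm
      · exact Or.inr ⟨h1, h2⟩

end Crest.Agent.R154.HB646
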