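import Crest.Agent.R154.BoxMob_272

/-!
Row 154, block B8 (helper272), (init): the tile system of boxes with index `ℤ × ℤ`.
-/

set_option autoImplicit false
set_option linter.unusedSectionVars false
set_option linter.unusedVariables false
set_option linter.deprecated false

namespace Crest.Agent.R154.Box272

open MeasureTheory ProbabilityTheory Set Filter Crest.ProbabilityR.RandomEnvironment
open Crest.Agent.R154.Mk561 Crest.Agent.R154.Q561
open Crest.Agent.R154.Flux132 (lev)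
open Crest.Agent.R154.RatioR872 Crest.Agent.R154.Tile872
open Crest.Agent.R154.KS480
open Crest.Agent.R154.TileInst748 (clsM okM massM enM pushM outM single tsum_single)
open Crest.Agent.R154.MobW437 (wl wl_pos one_le_wl)
open Crest.Agent.R154.B4Inst797 (Nat0 natLaw UU lat natLaw_apply lp natLaw_isProb)
open scoped ENNReal Topology NNReal

/-! ### tails -/

section tail

variable {d : ℕ} {Q : Measure (Environment d)} [IsProbabilityMeasure Q] {κ : ℝ} {R : ℕ}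

/-- the exit site of a natural climb is tight, uniformly in the start -/
lemma exit_tail (F : Bind263.Frame Q κ R) (u : Step d) (n : ℕ) {e : ℝ≥0∞} (he : e ≠ 0) :
    ∃ r : ℕ, ∀ (ℓ : ℕ) (z : Site d), lev u z = ℓ → mkAnn κ Q z
      (succ u R ((ℓ + n : ℕ) : ℤ) {y | ∃ c, (r : ℤ) < |y c - z c|} z) ≤ e := by
  set E : ℕ → Set (MPath d) := fun r => succ u R (n : ℤ) {y | ∃ c, (r : ℤ) < |y c|} 0 with hE
  have h1 : Antitone E := by
    intro r r' hrr M hM
    obtain ⟨m, hm, c, hc⟩ := mem_iUnion.1 hM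
    exact mem_iUnion.2 ⟨m, hm, c, lt_of_le_of_lt (by exact_mod_cast hrr) hc⟩
  have h2 : ∀ r, NullMeasurableSet (E r) (mkAnn κ Q 0) := fun r =>
    (meas_succ u R _ _ _).nullMeasurableSet
  have h3 := tendsto_measure_iInter_atTop h2 h1 ⟨0, measure_ne_top _ _⟩
  have h4 : ⋂ r, E r = ∅ := by
    ext M
    simp only [mem_iInter, mem_empty_iff_false, iff_false]
    intro hcon
    obtain ⟨m, hm, -⟩ := mem_iUnion.1 (hcon 0)
    obtain ⟨m', hm', c, hc⟩ := mem_iUnion.1 (hcon (∑ c, (pos 0 M m c).natAbs))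
    have e := ClM_unique u R hm hm'
    subst e
    have h5 : (pos 0 M m c).natAbs ≤ ∑ c, (pos 0 M m c).natAbs :=
      Finset.single_le_sum (f := fun c => (pos 0 M m c).natAbs) (fun _ _ => Nat.zero_le _)
        (Finset.mem_univ c)
    rw [Int.abs_eq_natAbs] at hc
    have h6 : ∑ c, (pos 0 M m c).natAbs < (pos 0 M m c).natAbs := by exact_mod_cast hc
    omega
  rw [h4, measure_empty] at h3
  have h5 := (tendsto_order.1 h3).2 e (pos_iff_ne_zero.2 he)
  obtain ⟨r, hr⟩ := h5.exists_forall_of_atTop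
  refine ⟨r, fun ℓ z hz => ?_⟩
  have e1 : succ u R ((ℓ + n : ℕ) : ℤ) {y | ∃ c, (r : ℤ) < |y c - z c|} z ⊆ E r := by
    intro M hM
    obtain ⟨m, hm, c, hc⟩ := mem_iUnion.1 hM
    refine mem_iUnion.2 ⟨m, ?_, c, ?_⟩
    · have h6 := ClM_shift u R (0 : Site d) z (n : ℤ) m
      rw [zero_add, hz] at h6
      have e2 : (n : ℤ) + (ℓ : ℤ) = ((ℓ + n : ℕ) : ℤ) := by push_cast; ring
      rw [e2] at h6
      rw [← h6]; exact hm
    · rw [B4Inst797.pos_start] at hc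
      simpa using hc
  rw [mkAnn_stat F.stat κ z]
  exact (measure_mono e1).trans (hr r le_rfl).le

/-- change of centre -/
lemma centre_change {Ω : Type*} [MeasurableSpace Ω] {P : Measure Ω} [IsFiniteMeasure P]
    {X : Ω → ℝ} {c d1 A w t p0 : ℝ} (h1 : p0 ≤ P.real {ω | |X ω - c| ≤ A})
    (h2 : P.real {ω | w < |X ω - d1|} ≤ t) (h : t < p0) :
    P.real {ω | A + 2 * w < |X ω - c|} ≤ t := by
  obtain ⟨ω, g1, g2⟩ : ∃ ω, |X ω - c| ≤ A ∧ |X ω - d1| ≤ w := by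
    by_contra hcon
    push Not at hcon
    have h3 : P.real {ω | |X ω - c| ≤ A} ≤ P.real {ω | w < |X ω - d1|} :=
      measureReal_mono fun ω hω => hcon ω hω
    linarith
  have h3 : |c - d1| ≤ A + w := by
    have e : c - d1 = (X ω - d1) - (X ω - c) := by ring
    rw [e]
    refine (abs_sub _ _).trans ?_
    linarith
  refine (measureReal_mono fun ω' hω' => ?_).trans h2
  have h4 : A + 2 * w < |X ω' - c| := hω'
  have h5 : |X ω' - c| ≤ |X ω' - d1| + |c - d1| := by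
    have e : X ω' - c = (X ω' - d1) - (c - d1) := by ring
    rw [e]
    exact abs_sub _ _
  show w < |X ω' - d1|
  linarith

lemma exists_small {K τ : ℝ≥0∞} (hK : K ≠ ∞) (hτ : τ ≠ 0) :
    ∃ e : ℝ≥0∞, e ≠ 0 ∧ K * e ≤ τ := by
  refine ⟨τ / (K + 1), ?_, ?_⟩
  · exact (ENNReal.div_pos hτ (by simp [hK])).ne'
  · calc K * (τ / (K + 1)) ≤ (K + 1) * (τ / (K + 1)) := by gcongr; exact le_self_add
      _ = τ := ENNReal.mul_div_cancel (by simp) (by simp [hK])

/-- a power of two with a small tail -/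
lemma exists_pow {e : ℝ≥0∞} (he : e ≠ 0) {p0 : ℝ} (hp0 : 0 < p0) :
    ∃ j : ℕ, 2 ≤ j ∧ ENNReal.ofReal (6 / (100 * (2 ^ j : ℕ))) ≤ e ∧
      6 / (100 * ((2 ^ j : ℕ) : ℝ)) < p0 := by
  obtain ⟨e', he'0, he'⟩ : ∃ e' : ℝ, 0 < e' ∧ ENNReal.ofReal e' ≤ e := by
    rcases eq_or_ne e ∞ with h | h
    · exact ⟨1, one_pos, by rw [h]; exact le_top⟩
    · exact ⟨e.toReal, ENNReal.toReal_pos he h, by rw [ENNReal.ofReal_toReal h]⟩
  obtain ⟨q, hq⟩ := exists_nat_gt (max (1 / e') (1 / p0))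
  have h3 : (q : ℝ) < 2 ^ (max 2 q) := by
    have h5 : max 2 q < 2 ^ (max 2 q) := Nat.lt_two_pow_self
    have h6 : q < 2 ^ (max 2 q) := lt_of_le_of_lt (le_max_right _ _) h5
    exact_mod_cast h6
  have h4 : 1 / e' < 2 ^ (max 2 q) := (le_max_left _ _).trans_lt (hq.trans h3)
  have h5 : 1 / p0 < 2 ^ (max 2 q) := (le_max_right _ _).trans_lt (hq.trans h3)
  rw [div_lt_iff₀ he'0] at h4
  rw [div_lt_iff₀ hp0] at h5
  refine ⟨max 2 q, le_max_left _ _, (ENNReal.ofReal_le_ofReal ?_).trans he', ?_⟩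
  · rw [div_le_iff₀ (by positivity)]
    push_cast
    nlinarith
  · rw [div_lt_iff₀ (by positivity)]
    push_cast
    nlinarith

end tail

/-! ### the inputs -/

section inputs

variable {d : ℕ} {Q : Measure (Environment d)} [IsProbabilityMeasure Q] {κ : ℝ} {R : ℕ}

/-- the cells -/
def CellB (u : Step d) (i1 i2 : Fin d) (σ A W c1 c2 D D2 : ℝ) (n : ℕ) (k : ℕ) (x : ℤ × ℤ) :
    Set (Site d) :=
  bx u i1 i2 σ A W (k * n) (k * c1 + x.2 * D) (k * c2 + x.1 * D2)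

/-- the energies -/
noncomputable def EnB (u : Step d) (R : ℕ) (κ : ℝ) (Q : Measure (Environment d)) (n : ℕ) (k : ℕ) :
    Site d → Site d → ℝ≥0∞ := Kc u R κ Q (k * n) ((k + 1) * n)

theorem inputs_box (F : Bind263.Frame Q κ R) {u : Step d} {i1 i2 : Fin d}
    (hc : mkAnn κ Q 0 (Nat0 u R) ≠ 0) {s g γ κ₁ κx ε q g' : ℝ≥0∞} {n : ℕ}
    {σ A W S c1 c2 D D2 : ℝ} (hKS : KSf u R κ Q g s γ κ₁ κx ε q)
    (hSt : Steer u i1 i2 R κ Q σ A W S c1 c2 n g') (hgg : g ≤ mkAnn κ Q 0 (Nat0 u R) * g')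
    (hADS : A + D ≤ S) (hD : 0 ≤ D)
    (hrow : ∀ (ℓ : ℕ) (t1 t2 : ℝ) (o : ℤ), |o| ≤ 1 → ROW u R κ Q s ((ℓ + n : ℕ) : ℤ)
      (fun l : ℤ × ℤ => bx u i1 i2 σ A W ℓ (t1 + l.2 * D) (t2 + l.1 * D2))
      (fun l : ℤ × ℤ => bx u i1 i2 σ A W (ℓ + n) (t1 + c1 + (l.2 + o : ℤ) * D)
        (t2 + c2 + l.1 * D2)) κx)
    (hE : ∀ ℓ : ℕ, ExitE u R κ Q ℓ (ℓ + n) (ℓ + n + n) ε)
    (hne : ∀ (ℓ : ℕ) (t1 t2 : ℝ),
      (clsM (bx u i1 i2 σ A W ℓ t1 t2) (Kc u R κ Q ℓ (ℓ + n)) κ₁).Nonempty) :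
    InitY272.InputsY (kS u R κ Q F.stat F.fin) n Init272.shZ
      (CellB u i1 i2 σ A W c1 c2 D D2 n) (EnB u R κ Q n)
      (fun k x ω => kD u R κ Q s (k * n) ((k + 1) * n)
        (CellB u i1 i2 σ A W c1 c2 D D2 n (k + 1) x) ω)
      (fun k x ω => kD u R κ Q s (k * n) ((k + 1) * n)
        (CellB u i1 i2 σ A W c1 c2 D D2 n (k + 1) (Init272.shZ x)) ω) κ₁ γ q := by
  have hlv : ∀ k : ℕ, k * n + n = (k + 1) * n := fun k => by ring
  constructor
  · exact ⟨fun k x ω y z => kD_le u R κ Q s F.stat F.fin _ _ _ ω y z,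
      fun k x y z => measF_kD u R κ Q s F.stat F.fin _ _ _ y z,
      fun k x y z => measH_kD u R κ Q s F.stat F.fin _ _ _ y z⟩
  · exact ⟨fun k x ω y z => kD_le u R κ Q s F.stat F.fin _ _ _ ω y z,
      fun k x y z => measF_kD u R κ Q s F.stat F.fin _ _ _ y z,
      fun k x y z => measH_kD u R κ Q s F.stat F.fin _ _ _ y z⟩
  · intro k x
    have h3 := hne (k * n) (k * c1 + x.2 * D) (k * c2 + x.1 * D2)
    rw [hlv k] at h3
    exact h3
  · intro k K lam hlam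
    set b := k * n + n with hb
    have hbe : (k + 1) * n = b := (hlv k).symm
    have hbe2 : (k + 1 + 1) * n = b + n := by rw [hb]; ring
    set t1 : ℝ := k * c1 with ht1
    set t2 : ℝ := k * c2 with ht2
    have r1 := hrow (k * n) t1 t2 0 (by norm_num)
    have r2 := hrow (k * n) t1 t2 1 (by norm_num)
    have hcell1 : ∀ x : ℤ × ℤ, CellB u i1 i2 σ A W c1 c2 D D2 n (k + 1) x =
        bx u i1 i2 σ A W b (t1 + c1 + (x.2 + 0 : ℤ) * D) (t2 + c2 + x.1 * D2) := by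
      intro x
      unfold CellB
      rw [hbe, ht1, ht2]
      congr 1
      · push_cast; ring
      · push_cast; ring
    have hcell2 : ∀ x : ℤ × ℤ, CellB u i1 i2 σ A W c1 c2 D D2 n (k + 1) (Init272.shZ x) =
        bx u i1 i2 σ A W b (t1 + c1 + (x.2 + 1 : ℤ) * D) (t2 + c2 + x.1 * D2) := by
      intro x
      unfold CellB
      have e1 : (Init272.shZ x).1 = x.1 := rfl
      have e2 : (Init272.shZ x).2 = x.2 + 1 := rfl
      rw [hbe, ht1, ht2, e1, e2]
      congr 1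
      · push_cast; ring
      · push_cast; ring
    have hw : ∀ x ∈ K, lam x ∈ Cls u R κ Q
        (bx u i1 i2 σ A W (k * n) (t1 + x.2 * D) (t2 + x.1 * D2)) (k * n) b κ₁ := by
      intro x _
      have h3 := hlam x
      unfold EnB at h3
      rw [hbe] at h3
      exact h3
    have hmass : ∀ (o : ℤ), |o| ≤ 1 → ∀ (l : ℤ × ℤ),
        ∀ x ∈ bx u i1 i2 σ A W (k * n) (t1 + l.2 * D) (t2 + l.1 * D2),
        g ≤ mkAnn κ Q x (succ u R (b : ℤ) (bx u i1 i2 σ A W b (t1 + c1 + (l.2 + o : ℤ) * D)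
          (t2 + c2 + l.1 * D2)) x) := by
      intro o ho l x hx
      refine hgg.trans (succ_bx_ge F hc hSt hx.1 ?_ ?_)
      · have h5 := hx.2.1
        have e : lat i1 i2 x 0 + c1 - (t1 + c1 + (l.2 + o : ℤ) * D) =
          (lat i1 i2 x 0 - (t1 + l.2 * D)) - o * D := by push_cast; ring
        rw [e]
        refine (abs_sub _ _).trans ?_
        rw [abs_mul, abs_of_nonneg hD]
        have h6 : |(o : ℝ)| ≤ 1 := by exact_mod_cast ho
        nlinarith
      · have h5 := hx.2.2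
        have e : lat i1 i2 x 1 - σ * lat i1 i2 x 0 + c2 - (t2 + c2 + l.1 * D2) =
          lat i1 i2 x 1 - σ * lat i1 i2 x 0 - (t2 + l.1 * D2) := by ring
        rw [e]
        exact h5
    have h4 := hKS (k * n) b (b + n) (by omega) (by omega) (ℤ × ℤ)
      (fun l : ℤ × ℤ => bx u i1 i2 σ A W (k * n) (t1 + l.2 * D) (t2 + l.1 * D2))
      (fun l : ℤ × ℤ => bx u i1 i2 σ A W b (t1 + c1 + (l.2 + 0 : ℤ) * D)
        (t2 + c2 + l.1 * D2))
      (fun l : ℤ × ℤ => bx u i1 i2 σ A W b (t1 + c1 + (l.2 + 1 : ℤ) * D)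
        (t2 + c2 + l.1 * D2))
      (fun l y hy => hy.1) (hmass 0 (by norm_num)) (hmass 1 (by norm_num)) r1 r2 (hE (k * n))
      lam K hw
    refine le_trans (measure_mono ?_) h4
    intro ω hω x hx hcon
    refine hω x hx ?_
    have hsupp : ∀ y, lev u y ≠ ((k * n : ℕ) : ℤ) → lam x y = 0 :=
      fun y hy => (hw x hx).2.1 y fun h => hy h.1
    have g1 := okM_kD_of_GoodD hsupp hcon.1
    have g2 := okM_kD_of_GoodD hsupp hcon.2
    refine ⟨?_, ?_⟩
    · change okM (CellB u i1 i2 σ A W c1 c2 D D2 n (k + 1) x)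
        (Kc u R κ Q ((k + 1) * n) ((k + 1 + 1) * n)) κ₁ γ (lam x)
        (kD u R κ Q s (k * n) ((k + 1) * n) (CellB u i1 i2 σ A W c1 c2 D D2 n (k + 1) x) ω)
      rw [hcell1, hbe, hbe2]
      exact g1
    · change okM (CellB u i1 i2 σ A W c1 c2 D D2 n (k + 1) (Init272.shZ x))
        (Kc u R κ Q ((k + 1) * n) ((k + 1 + 1) * n)) κ₁ γ (lam x)
        (kD u R κ Q s (k * n) ((k + 1) * n)
          (CellB u i1 i2 σ A W c1 c2 D D2 n (k + 1) (Init272.shZ x)) ω)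
      rw [hcell2, hbe, hbe2]
      exact g2

/-- the inputs do not see the energy of the kernel system -/
lemma inputsY_congr {u : Step d} {hstat : ∀ z : Site d, MeasurePreserving (shiftEnv z) Q Q}
    {hR : IsFiniteRangeDependent Q R} {K K' : ℕ → ℕ → Site d → Site d → ℝ≥0∞} {hK hK'} {N : ℕ}
    {X : Type*} {sh : Equiv.Perm X} {Cell : ℕ → X → Set (Site d)}
    {En : ℕ → Site d → Site d → ℝ≥0∞} {kL kR : ℕ → X → Environment d → Site d → Site d → ℝ≥0∞}
    {κ₁ γ q : ℝ≥0∞}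
    (h : InitY272.InputsY (kerSys u R κ Q hstat hR K hK) N sh Cell En kL kR κ₁ γ q) :
    InitY272.InputsY (kerSys u R κ Q hstat hR K' hK') N sh Cell En kL kR κ₁ γ q :=
  ⟨⟨h.subL.le, h.subL.measF, h.subL.measH⟩, ⟨h.subR.le, h.subR.measF, h.subR.measH⟩, h.nonempty,
    h.kset⟩

end inputs

end Crest.Agent.R154.Box272
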