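import Crest.Agent.R154.Top_169
import Crest.Agent.R154.ChainFL_263
import Crest.Agent.R154.KBEnd_424

/-!
Row 154 (helper169), TOP GLUE, second layer: `Spine.FLeProp` from the window input `HWProp` and the
small-heights input `HIProp`, both only for frames with half coins (`KB424.Half`, so that 424's
`kb`, `smallE`, `lateHyp` apply), on 244's kernel system `kT`.
-/

set_option autoImplicit false

namespace Crest.Agent.R154.Top169

open MeasureTheory ProbabilityTheory Crest.ProbabilityR.RandomEnvironment Crest.Agent.R154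
open Crest.Agent.R154.Spine Crest.Agent.R154.Mk561
open scoped ENNReal

/-- **OPEN INPUT 1 of `d ≥ 3`**: the window lemma (W). -/
def HWProp : Prop :=
  ∀ (d : ℕ) (_ : 3 ≤ d) (Q : Measure (Environment d)) [IsProbabilityMeasure Q] (κ : ℝ) (R : ℕ)
    (F : Bind263.Frame Q κ R) (_ : KB424.Half κ Q) (u : Step d),
    annealedProb Q 0 (escapeEvent (B2d.dirVec u)) ≠ 0 →
      ChainFL.HW (D2Asm244.kT u R κ Q F.stat F.fin)

/-- **OPEN INPUT 2 of `d ≥ 3`**: small heights (init) from the uniform law on a ball. -/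
def HIProp : Prop :=
  ∀ (d : ℕ) (_ : 3 ≤ d) (Q : Measure (Environment d)) [IsProbabilityMeasure Q] (κ : ℝ) (R : ℕ)
    (F : Bind263.Frame Q κ R) (_ : KB424.Half κ Q) (u : Step d),
    annealedProb Q 0 (escapeEvent (B2d.dirVec u)) ≠ 0 →
      ChainFL.HI (D2Asm244.kT u R κ Q F.stat F.fin) u

/-- every frame has a version with half coins -/
theorem half_frame {d : ℕ} {Q : Measure (Environment d)} [IsProbabilityMeasure Q] {κ : ℝ} {R : ℕ}
    (F : Bind263.Frame Q κ R) : ∃ κ' : ℝ, Bind263.Frame Q κ' R ∧ KB424.Half κ' Q := by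
  rcases (kf_nonneg (d := d) κ).eq_or_lt with h0 | h0
  · refine ⟨κ, F, 1, one_pos, Filter.Eventually.of_forall fun ω z e => ?_⟩
    rw [← h0, one_mul, sub_zero]
  · obtain ⟨h1, _, h2⟩ := KB424.frame_half h0 F.stat F.ell F.fin
    exact ⟨kf d κ / 2, h1, h2⟩

/-- **`FLeProp` from the two inputs.** -/
theorem fLeProp (hW : HWProp) (hI : HIProp) : FLeProp := by
  intro d hd Q _ κ R F u hu
  obtain ⟨κ', F', hh⟩ := half_frame F
  have hA : annealedProb Q 0 (escapeEvent (B2d.dirVec u)) ≠ 0 := by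
    rw [← annealed_apply _ 0 (B2d.measurableSet_escapeEvent _)]
    exact hu
  exact ChainFL.fle_of F' u hA (hW d hd Q κ' R F' hh u hA) (hI d hd Q κ' R F' hh u hA)

/-- **THE ROW** from the three open inputs -/
theorem row2 (hW : HWProp) (hI : HIProp) (h2 : D2Asm244.TileD2) : T0219 ∧ T0220 ∧ T0221 :=
  row (fLeProp hW hI) h2

end Crest.Agent.R154.Top169
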