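import Crest.Agent.R154.HIa_272
import Crest.Agent.R154.Top2_169

/-!
Row 154, block B8 (helper272), (init): the geometric data at the regular heights.
-/

set_option autoImplicit false
set_option linter.unusedSectionVars false
set_option linter.unusedVariables false
set_option linter.deprecated false

namespace Crest.Agent.R154.Box272

open MeasureTheory ProbabilityTheory Set Filter Crest.ProbabilityR.RandomEnvironment
open Crest.Agent.R154.Mk561 Crest.Agent.R154.Q561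
open Crest.Agent.R154.Flux132 (lev)
open Crest.Agent.R154.RatioR872 Crest.Agent.R154.Tile872
open Crest.Agent.R154.KS480
open Crest.Agent.R154.TileInst748 (clsM okM massM enM pushM outM single tsum_single)
open Crest.Agent.R154.MobW437 (wl wl_pos one_le_wl Sl)
open Crest.Agent.R154.B4Inst797 (Nat0 natLaw UU lat natLaw_apply lp natLaw_isProb)
open scoped ENNReal Topology NNReal

section geom

variable {d : ℕ} {Q : Measure (Environment d)} [IsProbabilityMeasure Q] {κ : ℝ} {R : ℕ}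

/-- **the geometric data at infinitely many heights** -/
theorem geom (F : Bind263.Frame Q κ R) (hd : 3 ≤ d) {u : Step d} {i1 i2 : Fin d}
    (h1 : i1 ≠ u.1) (h2 : i2 ≠ u.1) (h12 : i1 ≠ i2)
    (hA : annealedProb Q 0 (escapeEvent (B2d.dirVec u)) ≠ 0) (hHalf : KB424.Half κ Q)
    (hc : mkAnn κ Q 0 (Nat0 u R) ≠ 0) :
    ∃ g g' : ℝ≥0∞, g ≠ 0 ∧ g ≤ 1 ∧ g ≤ mkAnn κ Q 0 (Nat0 u R) * g' ∧
      ∀ κx : ℝ≥0∞, κx ≠ 0 → ∀ k0 : ℕ, ∃ N : ℕ, k0 ≤ N ∧
      ∃ σ A W S c1 c2 D D2 : ℝ, 1 / 2 ≤ S ∧ 1 / 2 ≤ W ∧ A + D ≤ S ∧ 0 ≤ D ∧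
        Steer u i1 i2 R κ Q σ A W S c1 c2 (64 * N) g' ∧
        ∀ (ℓ : ℕ) (t1 t2 : ℝ) (o : ℤ), |o| ≤ 1 →
          ROW u R κ Q (g / 2) ((ℓ + 64 * N : ℕ) : ℤ)
          (fun l : ℤ × ℤ => bx u i1 i2 σ A W ℓ (t1 + l.2 * D) (t2 + l.1 * D2))
          (fun l : ℤ × ℤ => bx u i1 i2 σ A W (ℓ + 64 * N) (t1 + c1 + (l.2 + o : ℤ) * D)
            (t2 + c2 + l.1 * D2)) κx := by
  haveI : IsProbabilityMeasure (natLaw κ Q u R) := natLaw_isProb hc
  obtain ⟨C, hC, hgr⟩ := MobW437.growth F u h1 h2 h12 hc hA 0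
  obtain ⟨C', hS⟩ := MobW437.sum_Sl_lp F u h1 h2 h12 hc hA 0
  set L := lp F u h1 h2 h12 hc with hL
  obtain ⟨A₀, hA₀, hreg⟩ := reg_octaves L 0 hC hgr hS
  have hA0r : (1 : ℝ) ≤ A₀ := by exact_mod_cast hA₀
  set g₁ : ℝ := 1 / (51200 * A₀) with hg₁
  have hg₁0 : 0 < g₁ := by positivity
  have hLp := L.p_pos
  set p0 : ℝ := (L.p * (g₁ / 2 / 2)) ^ 64 with hp0
  have hp00 : 0 < p0 := by positivity
  set g' : ℝ≥0∞ := ENNReal.ofReal p0 with hg'
  have hg'0 : g' ≠ 0 := (ENNReal.ofReal_pos.2 hp00).ne'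
  set g : ℝ≥0∞ := min (mkAnn κ Q 0 (Nat0 u R) * g') 1 with hg
  have hg0 : g ≠ 0 := (lt_min (pos_iff_ne_zero.2 (mul_ne_zero hc hg'0)) one_pos).ne'
  have hg1 : g ≤ 1 := min_le_right _ _
  refine ⟨g, g', hg0, hg1, min_le_left _ _, fun κx hκx k0 => ?_⟩
  obtain ⟨H, hH, hCAP⟩ := Cap923.cap_frame (u := u) F hHalf
  have hs0 : g / 2 ≠ 0 := (ENNReal.div_pos hg0 (by norm_num)).ne'
  have hs1 : g / 2 ≤ 1 := ENNReal.half_le_self.trans hg1
  have hst : g / 2 ≠ ∞ := ne_top_of_le_ne_top ENNReal.one_ne_top hs1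
  have hx2 : κx / 2 ≠ 0 := (ENNReal.div_pos hκx (by norm_num)).ne'
  have hx4 : κx / 2 / 2 ≠ 0 := (ENNReal.div_pos hx2 (by norm_num)).ne'
  obtain ⟨e, he0, he⟩ := exists_small (K := H / (g / 2) ^ 2) (τ := κx / 2 / 2)
    (ENNReal.div_ne_top hH (pow_ne_zero 2 hs0)) hx4
  obtain ⟨j, hj, hje, hjp⟩ := exists_pow he0 hp00
  obtain ⟨B, hB, hoct⟩ := hreg (6 + j) (by omega)
  set R0 : ℕ := ⌈24 * B⌉₊ + 1 with hR0
  have hR0r : 24 * B + 1 ≤ R0 := by
    have := Nat.le_ceil (24 * B)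
    rw [hR0]; push_cast; linarith
  set δ : ℝ≥0∞ := κx / 2 / ((2 * R0 + 1 : ℕ) : ℝ≥0∞) with hδ
  have hδ0 : δ ≠ 0 := (ENNReal.div_pos hx2 (ENNReal.natCast_ne_top _)).ne'
  have hδle : ((2 * R0 + 1 : ℕ) : ℝ≥0∞) * δ ≤ κx / 2 := by
    rw [hδ, ENNReal.mul_div_cancel (by positivity) (ENNReal.natCast_ne_top _)]
  obtain ⟨p, N0, hnear⟩ := near_cellsK F u h1 h2 h12 hc 0 (Row12.nearP F hd u hA hHalf) 64
    (by norm_num) hs0 hs1 hδ0
  obtain ⟨l0, hmob⟩ := MobW437.mob L 0 (2 ^ j)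
  obtain ⟨k, hk, hSl, hwl⟩ := hoct (p + N0 + l0 + k0)
  set N : ℕ := 2 ^ k with hN
  have hkN : k ≤ N := (Nat.lt_two_pow_self (n := k)).le
  obtain ⟨hS1, hw128, c1, c2, a, q1, q2, q3, q4, q5, q6, q7⟩ := hmob N (by omega)
  obtain ⟨-, -, d1, d2, a', -, -, -, -, -, -, q7'⟩ := hmob (64 * N) (by omega)
  have hwN := wl_pos L 0 N
  have hwN1 := one_le_wl L 0 N
  have ha : 0 < a := lt_of_lt_of_le (by positivity) q1
  have hSr : (Sl L 0 N : ℝ) ≤ A₀ := by exact_mod_cast hSl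
  have hSr1 : (1 : ℝ) ≤ Sl L 0 N := by exact_mod_cast hS1
  have w1 : g₁ ≤ (natLaw κ Q u R).real {ω | UU u i1 i2 N ω 0 - c1 ∈ Ico 0 a} := by
    have h5 := q5 0 0 ⟨le_rfl, by linarith⟩
    simp only [zero_add] at h5
    refine le_trans ?_ h5
    exact one_div_le_one_div_of_le (by norm_num) (by nlinarith)
  have w2 : g₁ ≤ (natLaw κ Q u R).real {ω | UU u i1 i2 N ω 0 - c2 ∈ Ico 0 a} := by
    have h5 := q6 0 0 ⟨le_rfl, by linarith⟩
    simp only [zero_add] at h5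
    refine le_trans ?_ h5
    exact one_div_le_one_div_of_le (by positivity) (by nlinarith)
  obtain ⟨σ, W, c, c', hW, hSt⟩ := steer_of_windows F h1 h2 h12 hc ha q3 q4 hg₁0 w1 w2
  have m0 : Measurable fun ω : MPath d => UU u i1 i2 (64 * N) ω 0 :=
    (MobW437.meas_U L (64 * N)).eval (a := 0)
  have m1 : Measurable fun ω : MPath d => UU u i1 i2 (64 * N) ω 1 :=
    (MobW437.meas_U L (64 * N)).eval (a := 1)
  -- the tail of the first coordinate
  have hreal : p0 ≤ (natLaw κ Q u R).real {ω | |UU u i1 i2 (64 * N) ω 0 - 64 * c| ≤ 5 * a} := by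
    have h5 := hSt 0 0 (by rw [abs_zero]; positivity) (by rw [abs_zero]; linarith)
    have h6 : ENNReal.ofReal p0 ≤
        natLaw κ Q u R {ω | |UU u i1 i2 (64 * N) ω 0 - 64 * c| ≤ 5 * a} := by
      refine h5.trans (measure_mono ?_)
      rintro ω ⟨g1, g2⟩
      rw [zero_add] at g1
      exact g1
    rw [measureReal_def]
    exact (ENNReal.ofReal_le_iff_le_toReal (measure_ne_top _ _)).1 h6
  have hT0 := q7' (2 ^ j) (by
    calc 3 ≤ 2 ^ 2 := by norm_num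
      _ ≤ 2 ^ j := Nat.pow_le_pow_right (by norm_num) hj) le_rfl
  have hT1 := centre_change (P := natLaw κ Q u R)
    (X := fun ω => UU u i1 i2 (64 * N) ω 0) hreal hT0 (by
    push_cast at hjp ⊢
    exact hjp)
  set w : ℝ := 9 * wl L 0 (2 ^ j * (64 * N)) with hw
  have hpow : 2 ^ j * (64 * N) = 2 ^ (k + (6 + j)) := by
    rw [hN, pow_add, pow_add]; ring
  have hwle : w ≤ 720 * (B * a) := by
    rw [hw, hpow]
    have h5 : B * wl L 0 (2 ^ k) ≤ B * (80 * a) :=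
      mul_le_mul_of_nonneg_left (by rw [← hN]; linarith) hB
    nlinarith
  have hT2 : natLaw κ Q u R {ω | 5 * a + 2 * w < |UU u i1 i2 (64 * N) ω 0 - 64 * c|} ≤ e := by
    rw [← ENNReal.ofReal_toReal (measure_ne_top (natLaw κ Q u R) _)]
    refine (ENNReal.ofReal_le_ofReal hT1).trans (le_trans (le_of_eq ?_) hje)
    push_cast
    rfl
  -- the tail of the second coordinate
  have mY : Measurable fun ω : MPath d =>
      UU u i1 i2 (64 * N) ω 1 - σ * UU u i1 i2 (64 * N) ω 0 - 64 * c' :=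
    (m1.sub (m0.const_mul σ)).sub_const _
  obtain ⟨n2, hn21, hn2⟩ := tight (natLaw κ Q u R) mY he0
  have hn2r : (1 : ℝ) ≤ n2 := by exact_mod_cast hn21
  refine ⟨N, by omega, σ, 5 * a, W, 5 * a + 64 * a, 64 * c, 64 * c', 60 * a, n2 + 4 * W + 1,
    by linarith, by linarith, by linarith, by linarith, hSt, ?_⟩
  intro ℓ t1 t2 o ho
  refine row_bx F (H := H) (δ := δ) (n := 64 * N) (R0 := R0) (a := a) (r1 := 5 * a + 2 * w)
    (r2 := n2) hc (by linarith) (by linarith) m0 m1 (by linarith) (by linarith) (by linarith)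
    (fun b => hCAP _ hs0 hst b) ?_ hδle ?_ (by linarith) ?_ ℓ t1 t2 o ho
  · intro ℓ x x' hx hx' hxx T T'
    exact hnear N (by omega) (Nat.pow_dvd_pow 2 (by omega)) a q1 ℓ x x' hx hx' hxx T T'
  · have h5 : (24 * B + 1) * (60 * a) ≤ R0 * (60 * a) :=
      mul_le_mul_of_nonneg_right hR0r (by linarith)
    nlinarith
  · calc H / (g / 2) ^ 2 * (natLaw κ Q u R {ω | 5 * a + 2 * w < |UU u i1 i2 (64 * N) ω 0 - 64 * c|}
          + natLaw κ Q u R {ω | (n2 : ℝ) < |UU u i1 i2 (64 * N) ω 1 -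
            σ * UU u i1 i2 (64 * N) ω 0 - 64 * c'|})
        ≤ H / (g / 2) ^ 2 * (e + e) := by gcongr
      _ = H / (g / 2) ^ 2 * e + H / (g / 2) ^ 2 * e := by rw [mul_add]
      _ ≤ κx / 2 / 2 + κx / 2 / 2 := add_le_add he he
      _ = κx / 2 := ENNReal.add_halves _

end geom

end Crest.Agent.R154.Box272
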