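import Crest.Agent.R154.Inst_843
import Crest.Agent.R154.H2Wb_386
import Crest.Agent.R154.H3W_775

/-! Row 154 (S0219, ROAD 801), helper843: the window lemmas (2), (3) ON LISTS for the real walkers
(600's blocks, 419's letters), no open hypothesis. -/

set_option autoImplicit false

namespace Crest.Agent.R154.HL843

open MeasureTheory ProbabilityTheory Crest.ProbabilityR.RandomEnvironment Crest.Agent.R154
open Crest.Agent.R154.Flux132 (lev opp)
open Crest.Agent.R154.Flux566 (lw endp sitesL endp_append endp_eq_add)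
open Crest.Agent.R154.NB28
open Crest.Agent.R154.B5A (LW HT)
open Crest.Agent.R154.KWB419
open Crest.Agent.R154.Sing600 (Blk wd htB LamB Irr isUp_wd htB_pos)
open Crest.Agent.R154.Inst843
open Filter Topology
open scoped ENNReal

variable {d : ℕ}

/-- the common return mass -/
noncomputable def us (ν : Measure (Row d)) [IsProbabilityMeasure ν] (u : Step d) (s : ℕ) : ℝ≥0∞ :=
  H2P386.us1 ν u s + H3W775.us ν u s

lemma us_tendsto (ν : Measure (Row d)) [IsProbabilityMeasure ν]
    (hν : ∀ᵐ p ∂ν, ∀ e : Step d, 0 < p.1 e) (u : Step d)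
    (hA : annealed (iidEnvironmentLaw ν) 0 (escapeEvent (B2d.dirVec u)) ≠ 0) :
    Tendsto (us ν u) atTop (𝓝 0) := by
  have hA' : annealedProb (iidEnvironmentLaw ν) 0 (escapeEvent (Flux566.dir u)) ≠ 0 := by
    rw [← annealed_apply _ 0 (B2d.measurableSet_escapeEvent _)]
    exact hA
  have h1 := Us778.us_tendsto_zero ν hν u hA'
  have h2 : Tendsto (fun s : ℕ => H2P386.us1 ν u s) atTop (𝓝 0) :=
    h1.comp (tendsto_sub_atTop_nat 1)
  have h3 := H3W775.us_tendsto ν hν u hA
  have := h2.add h3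
  rwa [add_zero] at this

lemma ite_le {P Q : Prop} {i : Decidable P} {j : Decidable Q} (h : P → Q) (x : ℝ≥0∞) :
    @ite _ P i x 0 ≤ @ite _ Q j x 0 := by
  by_cases hP : P
  · rw [if_pos hP, if_pos (h hP)]
  · rw [if_neg hP]; exact zero_le

open Classical in
/-- (2) on lists: `X` local, contacts at depth `≥ lo ≥ a' + s` -/
theorem h2L (ν : Measure (Row d)) [IsProbabilityMeasure ν] (u : Step d)
    (s h h' a a' lo : ℕ) (E : Finset (Site d)) (μ : Site d → ℝ≥0∞) (M lam : ℝ≥0∞)
    (R : ℕ → Prop) (hR : ∀ k, R k → lo ≤ k)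
    (h1 : ∑' x, μ x ≤ 1) (h2 : ∀ x, μ x ≤ M) (hl : lam ≠ 0) (hl' : lam ≠ ⊤)
    (hlo' : a' + s ≤ lo) (haa : a ≤ a') :
    ∑' x, μ x * (∑' L : List (Blk u), ∑' L' : List (Blk (opp u)),
      if HT htB L = h ∧ (L.map (zX u)).sum ∈ E ∧ HT htB L' = h' ∧
        (∃ z k, (z, k) ∈ TT (sX u) htB (zX u) L 0 a ∧ (z, k) ∈ TT (sY u) htB (zY u) L' x a') ∧
        (∀ z k, (z, k) ∈ TT (sX u) htB (zX u) L 0 a →
          (z, k) ∈ TT (sY u) htB (zY u) L' x a' → R k)
        then LW (LamB ν) L * LW (LamB ν) L' else 0)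
      ≤ 4 * (lam + M * E.card * us ν u s / lam + us ν u s) := by
  have hw := H2P386.h2Ct ν u s h h' a a' lo E μ M lam h1 h2 hl hl' hlo' haa
  refine le_trans (ENNReal.tsum_le_tsum fun x => mul_le_mul_right ?_ _) (hw.trans ?_)
  · have hg := KWG843.gen wd htB wd htB u (hUp u) (hDn u) (tU u) (tD u) ν (LamB ν) (LamB ν)
      (wU ν u) (wD ν u) h h' a a' x (fun z => z ∈ E) (fun _ => True) R
    refine le_trans (ENNReal.tsum_le_tsum fun L => ENNReal.tsum_le_tsum fun L' => ite_le ?_ _)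
      (hg.le.trans ?_)
    · rintro ⟨p1, p2, p3, p4⟩; exact ⟨p1, p3, p2, trivial, p4⟩
    · refine ENNReal.tsum_le_tsum fun π => ENNReal.tsum_le_tsum fun γ => ite_le (fun q1 => ?_) _
      · obtain ⟨c1, c2, c3, c4, -, c5, c6⟩ := q1
        exact ⟨c1, c2, c3, c4, c5, fun y hy => by
          have := hR _ (c6 y hy)
          by_cases h0 : (-lev u y).toNat = 0
          · have h00 : lo = 0 := by omega
            have hI := IsUp_start_sites u c2 (y := y + a • stepVec u) (by
              have := (mem_sitesT π (-endp 0 π) (-(a • stepVec u)) y).1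
                (by rw [← sub_eq_add_neg]; exact hy.1)
              simpa using this)
            rw [levA, levM, levU] at hI
            omega
          · omega⟩
  · have hu : H2P386.us1 ν u s ≤ us ν u s := le_self_add
    gcongr
    norm_num

open Classical in
/-- (3) on lists: `Y` local, contacts at depth `≤ hi ≤ a + h - s` -/
theorem h3L (ν : Measure (Row d)) [IsProbabilityMeasure ν] (u : Step d)
    (s h h' a a' hi : ℕ) (E : Finset (Site d)) (μ : Site d → ℝ≥0∞) (M lam : ℝ≥0∞)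
    (R : ℕ → Prop) (hR : ∀ k, R k → k ≤ hi)
    (h1 : ∑' x, μ x ≤ 1) (h2 : ∀ x, μ x ≤ M) (hl : lam ≠ 0) (hl' : lam ≠ ⊤)
    (hhi : hi + s ≤ a + h) (haa : a + h ≤ a' + h') :
    ∑' x, μ x * (∑' L : List (Blk u), ∑' L' : List (Blk (opp u)),
      if HT htB L = h ∧ HT htB L' = h' ∧ (L'.map (zY u)).sum ∈ E ∧
        (∃ z k, (z, k) ∈ TT (sX u) htB (zX u) L 0 a ∧ (z, k) ∈ TT (sY u) htB (zY u) L' x a') ∧
        (∀ z k, (z, k) ∈ TT (sX u) htB (zX u) L 0 a →
          (z, k) ∈ TT (sY u) htB (zY u) L' x a' → R k)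
        then LW (LamB ν) L * LW (LamB ν) L' else 0)
      ≤ 4 * (lam + M * E.card * us ν u s / lam + us ν u s) := by
  have hw := H3W775.H3w ν u s h h' a a' hi E μ M lam h1 h2 hl hl' hhi haa
  refine le_trans (ENNReal.tsum_le_tsum fun x => mul_le_mul_right ?_ _) (hw.trans ?_)
  · have hg := KWG843.gen wd htB wd htB u (hUp u) (hDn u) (tU u) (tD u) ν (LamB ν) (LamB ν)
      (wU ν u) (wD ν u) h h' a a' x (fun _ => True) (fun z => z ∈ E) R
    refine le_trans (ENNReal.tsum_le_tsum fun L => ENNReal.tsum_le_tsum fun L' => ite_le ?_ _)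
      (hg.le.trans ?_)
    · rintro ⟨p1, p3, p2, p4⟩; exact ⟨p1, p3, trivial, p2, p4⟩
    · refine ENNReal.tsum_le_tsum fun π => ENNReal.tsum_le_tsum fun γ => ite_le (fun q1 => ?_) _
      · obtain ⟨c1, c2, c3, -, c4, c5, c6⟩ := q1
        exact ⟨c1, c2, c3, c4, c5, fun y hy => by
          have := hR _ (c6 y hy)
          omega⟩
  · have hu : H3W775.us ν u s ≤ us ν u s := le_add_self
    gcongr

/-- any trace function with the two recursion equations is `TT` -/
lemma TX_eq {B : Type*} (s : B → Set (Site d × ℕ)) (h : B → ℕ) (z : B → Site d)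
    (TX : List B → Site d → ℕ → Set (Site d × ℕ)) (h0 : ∀ x a, TX [] x a = ∅)
    (h1 : ∀ b L x a, TX (b :: L) x a
      = {p | ∃ q ∈ s b, p = (x + q.1, a + q.2)} ∪ TX L (x + z b) (a + h b)) :
    ∀ L x a, TX L x a = TT s h z L x a := by
  intro L
  induction L with
  | nil => intro x a; rw [h0]; rfl
  | cons b L ih => intro x a; rw [h1, ih]; rfl

end Crest.Agent.R154.HL843
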