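import Crest.Agent.R154.HomeC_903
import Crest.Agent.R154.HomeDoc_74

/-!
Row 154, `d ≥ 3`, `κ > 0` (HWPos), leaf **HM5b** (helper587, doc HOME v1): the static unit and the
traveller over one grid step of the buffer.

* `At A R a b ε δ`: from every law at level `a`, the `R`-part of the push to level `b` has mass
  `≥ ε`, off conditional probability `δ`.
* `home_at` : `StatAt` (one unit) in `At` form (relative to the total mass).
* `trav` : abstract traveller: `J` macro steps, at each of them either the jump law is taken or (if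
  the jump failed) the home law with the smallest score which works.
* `trav_at` : the traveller from `StatAt` and `JumpAt`.
-/

set_option autoImplicit false
set_option linter.unusedSectionVars false

namespace Crest.Agent.R154.HM5b587

open MeasureTheory ProbabilityTheory Set
open Crest.Agent.R154.RatioR872 Crest.Agent.R154.RatioR872.KerSys Crest.Agent.R154.Home903
  Crest.Agent.R154.Doc74
open scoped ENNReal Classical

variable {S : Type*} [Countable S] {Ω : Type*} {m0 : MeasurableSpace Ω} {P : Measure Ω}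

/-- from every law at level `a` the `R`-part of the push to level `b` has relative mass `≥ ε`, off
conditional probability `δ` -/
def At (A : KerSys S P) (R : S → S → Prop) (a b : ℕ) (ε δ : ℝ≥0∞) : Prop :=
  ∀ w : Ω → S → ℝ≥0∞, A.Wt a w → (∀ ω, tot w ω ≤ 1) → ∀ B : Set Ω, MeasurableSet[A.F a] B →
    P (B ∩ {ω | tot (rpush A R a b w) ω < ε * tot w ω}) ≤ δ * P B

variable {A : KerSys S P}

lemma At.mono_δ {R : S → S → Prop} {a b : ℕ} {ε δ δ' : ℝ≥0∞} (h : At A R a b ε δ) (hδ : δ ≤ δ') :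
    At A R a b ε δ' := fun w hw h1 B hB => (h w hw h1 B hB).trans (mul_le_mul_left hδ (P B))

lemma At.mono_ε {R : S → S → Prop} {a b : ℕ} {ε ε' δ : ℝ≥0∞} (h : At A R a b ε δ) (hε : ε' ≤ ε) :
    At A R a b ε' δ := by
  intro w hw h1 B hB
  refine (measure_mono ?_).trans (h w hw h1 B hB)
  rintro ω ⟨hωB, hω⟩
  exact ⟨hωB, lt_of_lt_of_le hω (mul_le_mul_left hε (tot w ω))⟩

lemma At.mono_R {R R' : S → S → Prop} {a b : ℕ} {ε δ : ℝ≥0∞} (h : At A R a b ε δ)
    (hR : ∀ x y, R x y → R' x y) : At A R' a b ε δ := by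
  intro w hw h1 B hB
  refine (measure_mono ?_).trans (h w hw h1 B hB)
  rintro ω ⟨hωB, hω⟩
  exact ⟨hωB, lt_of_le_of_lt (tot_rpush_mono_D hR a b w ω) hω⟩

lemma at_of_jump {φ : S → ℝ} {l : ℕ} {Δ : ℝ} {ε δ : ℝ≥0∞} (h : JumpAt A φ l Δ ε δ) (L : ℕ) :
    At A (Jp φ Δ) L (L + l) ε δ := fun w hw h1 B hB => h L w B hB hw h1

lemma mset_le {m : MeasurableSpace Ω} {f g : Ω → ℝ≥0∞} (hf : Measurable[m] f)
    (hg : Measurable[m] g) : MeasurableSet[m] {ω | f ω ≤ g ω} := measurableSet_le hf hg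

/-- trivial bound -/
lemma At.of_one {R : S → S → Prop} {a b : ℕ} {ε δ : ℝ≥0∞} (h : 1 ≤ δ) : At A R a b ε δ := by
  intro w _ _ B _
  calc P (B ∩ _) ≤ P B := measure_mono inter_subset_left
    _ = 1 * P B := (one_mul _).symm
    _ ≤ δ * P B := by gcongr

/-- **the static unit** (`k = 1` of STAT) relative to the total mass -/
theorem home_at {φ : S → ℝ} {N : ℕ} {D g0 θ : ℝ} {η Ks : ℝ≥0∞}
    (hS : StatAt A φ 1 N D g0 θ η Ks) {r s L n : ℕ} (hn : n ≤ r * N) (ε : ℝ≥0∞) :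
    At A (Hm φ (2 * s * D)) L (L + n) ε ((2 * Ks) ^ r * ε ^ θ + (2 * η) ^ s * (1 / η) ^ r) := by
  intro w hw h1 B hB
  have hmt : Measurable[A.F L] (fun ω => tot w ω) := hw.meas_tot
  set B' : Set Ω := B ∩ {ω | tot w ω ≠ 0} with hB'
  have hB'm : MeasurableSet[A.F L] B' := by
    refine @MeasurableSet.inter _ (A.F L) _ _ hB ?_
    exact @MeasurableSet.compl _ _ (A.F L) (hmt (measurableSet_singleton (0 : ℝ≥0∞)))
  set w' : Fin 1 → Ω → S → ℝ≥0∞ := fun _ ω x => (tot w ω)⁻¹ * w ω x with hw'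
  have hwt : ∀ a, A.Wt L (w' a) := fun a =>
    { meas := fun x => by
        have h2 : Measurable[A.F L] (fun ω => (tot w ω)⁻¹) := hmt.inv
        exact h2.mul (hw.meas x)
      supp := fun ω x hx => by simp [hw', hw.supp ω x hx] }
  have htop : ∀ ω, tot w ω ≠ ∞ := fun ω => ne_top_of_le_ne_top ENNReal.one_ne_top (h1 ω)
  have h2 : ∀ ω ∈ B', ∀ a, tot (w' a) ω = 1 := by
    intro ω hω a
    have e : tot (w' a) ω = (tot w ω)⁻¹ * tot w ω := by
      simp only [hw', tot]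
      rw [ENNReal.tsum_mul_left]
    rw [e]
    exact ENNReal.inv_mul_cancel hω.2 (htop ω)
  have h3 : Sep φ (g0 + 4 * s * D) B' w' := by
    intro ω _ i j hij
    exact absurd (Subsingleton.elim i j) hij
  have key := hS r s L n hn w' B' hB'm hwt h2 h3 ε
  calc P (B ∩ {ω | tot (rpush A (Hm φ (2 * s * D)) L (L + n) w) ω < ε * tot w ω})
      ≤ P (B' ∩ {ω | ∏ a, tot (rpush A (Hm φ (2 * s * D)) L (L + n) (w' a)) ω ≤ ε}) := by
        refine measure_mono ?_
        rintro ω ⟨hωB, hω⟩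
        simp only [mem_setOf_eq] at hω
        have h0 : tot w ω ≠ 0 := by
          intro h0
          rw [h0, mul_zero] at hω
          exact absurd hω (by simp)
        refine ⟨⟨hωB, h0⟩, ?_⟩
        simp only [mem_setOf_eq, Finset.univ_unique, Finset.prod_singleton]
        have e : tot (rpush A (Hm φ (2 * s * D)) L (L + n) (w' default)) ω
            = (tot w ω)⁻¹ * tot (rpush A (Hm φ (2 * s * D)) L (L + n) w) ω :=
          tot_rpush_smul (A := A) (Hm φ (2 * s * D)) L (L + n) w (fun ω => (tot w ω)⁻¹) ω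
        rw [e]
        calc (tot w ω)⁻¹ * tot (rpush A (Hm φ (2 * s * D)) L (L + n) w) ω
            ≤ (tot w ω)⁻¹ * (ε * tot w ω) := by gcongr
          _ = ((tot w ω)⁻¹ * tot w ω) * ε := by ring
          _ = ε := by rw [ENNReal.inv_mul_cancel h0 (htop ω), one_mul]
    _ ≤ _ := key
    _ ≤ _ := by gcongr; exact inter_subset_left

/-! ### the traveller -/

/-- number of successes: `al δ J s` bounds the probability of fewer than `s` successes in `J`
trials, each of which fails with conditional probability `≤ δ` -/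
noncomputable def al (δ : ℝ≥0∞) : ℕ → ℕ → ℝ≥0∞
  | _, 0 => 0
  | 0, (_ + 1) => 1
  | (J + 1), (s + 1) => al δ J s + δ * al δ J (s + 1)

lemma al_zero (δ : ℝ≥0∞) (J : ℕ) : al δ J 0 = 0 := by cases J <;> rfl
lemma al_succ (δ : ℝ≥0∞) (J s : ℕ) :
    al δ (J + 1) (s + 1) = al δ J s + δ * al δ J (s + 1) := rfl
lemma al_base (δ : ℝ≥0∞) (s : ℕ) : al δ 0 (s + 1) = 1 := rfl

lemma al_le {δ : ℝ≥0∞} (hδ : δ ≤ 1) : ∀ J s : ℕ, al δ J (s + 1) ≤ 2 ^ J * δ ^ (J - s)
  | 0, s => by simp [al_base]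
  | (J + 1), 0 => by
      rw [al_succ, al_zero, zero_add]
      calc δ * al δ J (0 + 1) ≤ δ * (2 ^ J * δ ^ (J - 0)) := by gcongr; exact al_le hδ J 0
        _ = 2 ^ J * δ ^ (J + 1 - 0) := by simp only [Nat.sub_zero]; ring
        _ ≤ 2 ^ (J + 1) * δ ^ (J + 1 - 0) := by
            gcongr
            · norm_num
            · omega
  | (J + 1), (s + 1) => by
      rw [al_succ]
      have h1 := al_le hδ J s
      have h2 := al_le hδ J (s + 1)
      have e : J + 1 - (s + 1) = J - s := by omega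
      rw [e]
      have h3 : δ * δ ^ (J - (s + 1)) ≤ δ ^ (J - s) := by
        rcases Nat.lt_or_ge s J with h | h
        · have : J - s = (J - (s + 1)) + 1 := by omega
          rw [this, pow_succ, mul_comm]
        · have e1 : J - s = 0 := by omega
          have e2 : J - (s + 1) = 0 := by omega
          rw [e1, e2]
          simpa using hδ
      calc al δ J (s + 1) + δ * al δ J (s + 1 + 1)
          ≤ 2 ^ J * δ ^ (J - s) + δ * (2 ^ J * δ ^ (J - (s + 1))) := by gcongr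
        _ = 2 ^ J * δ ^ (J - s) + 2 ^ J * (δ * δ ^ (J - (s + 1))) := by ring
        _ ≤ 2 ^ J * δ ^ (J - s) + 2 ^ J * δ ^ (J - s) := by gcongr
        _ = 2 ^ (J + 1) * δ ^ (J - s) := by ring

lemma one_le_al (δ : ℝ≥0∞) : ∀ J s : ℕ, J < s → 1 ≤ al δ J s
  | J, 0, h => absurd h (by omega)
  | 0, (s + 1), _ => le_of_eq rfl
  | (J + 1), (s + 1), h => by
      rw [al_succ]
      exact (one_le_al δ J s (by omega)).trans le_self_add

/-- numbers for the score -/
def ZOk (C q σ Z : ℝ≥0∞) : Prop :=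
  ∀ n : ℕ, σ ^ n + ∑ j ∈ Finset.range n, C * q ^ j * σ ^ (n - 1 - j) + C * q ^ n ≤ Z * σ ^ n

lemma zok_of {C q σ Z : ℝ≥0∞} (hq : 2 * q ≤ σ) (hσ0 : σ ≠ 0) (hσt : σ ≠ ∞)
    (hZ : σ + 2 * C + C * σ ≤ Z * σ) : ZOk C q σ Z := by
  have hq' : q ≤ σ := by
    calc q = 1 * q := (one_mul q).symm
      _ ≤ 2 * q := by gcongr; norm_num
      _ ≤ σ := hq
  have hq2 : q ≤ 2⁻¹ * σ := by
    calc q = 2⁻¹ * (2 * q) := by
          rw [← mul_assoc, ENNReal.inv_mul_cancel (by norm_num) (by norm_num), one_mul]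
      _ ≤ 2⁻¹ * σ := by gcongr
  intro n
  rcases Nat.eq_zero_or_pos n with rfl | hn
  · simp only [pow_zero, Finset.range_zero, Finset.sum_empty, add_zero, mul_one]
    have h1 : (1 + C) * σ ≤ Z * σ := by
      calc (1 + C) * σ = σ + C * σ := by ring
        _ ≤ σ + 2 * C + C * σ := by gcongr; exact le_self_add
        _ ≤ Z * σ := hZ
    exact (ENNReal.mul_le_mul_iff_left hσ0 hσt).1 h1
  · obtain ⟨m, rfl⟩ : ∃ m, n = m + 1 := ⟨n - 1, by omega⟩
    have h1 : ∑ j ∈ Finset.range (m + 1), C * q ^ j * σ ^ (m + 1 - 1 - j) ≤ C * (2 * σ ^ m) := by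
      calc ∑ j ∈ Finset.range (m + 1), C * q ^ j * σ ^ (m + 1 - 1 - j)
          ≤ ∑ j ∈ Finset.range (m + 1), C * σ ^ m * (2⁻¹ : ℝ≥0∞) ^ j := by
            refine Finset.sum_le_sum fun j hj => ?_
            have hj' : j ≤ m := Nat.lt_succ_iff.1 (Finset.mem_range.1 hj)
            have e : m = j + (m + 1 - 1 - j) := by omega
            calc C * q ^ j * σ ^ (m + 1 - 1 - j)
                ≤ C * (2⁻¹ * σ) ^ j * σ ^ (m + 1 - 1 - j) := by gcongr
              _ = C * (σ ^ j * σ ^ (m + 1 - 1 - j)) * (2⁻¹ : ℝ≥0∞) ^ j := by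
                  rw [mul_pow]; ring
              _ = C * σ ^ m * (2⁻¹ : ℝ≥0∞) ^ j := by rw [← pow_add, ← e]
        _ = C * σ ^ m * ∑ j ∈ Finset.range (m + 1), (2⁻¹ : ℝ≥0∞) ^ j := by
            rw [Finset.mul_sum]
        _ ≤ C * σ ^ m * 2 := by
            gcongr
            calc ∑ j ∈ Finset.range (m + 1), (2⁻¹ : ℝ≥0∞) ^ j ≤ ∑' j : ℕ, (2⁻¹ : ℝ≥0∞) ^ j :=
                  ENNReal.sum_le_tsum _
              _ = (1 - 2⁻¹)⁻¹ := ENNReal.tsum_geometric _
              _ = 2 := by rw [ENNReal.one_sub_inv_two, inv_inv]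
        _ = C * (2 * σ ^ m) := by ring
    calc σ ^ (m + 1) + ∑ j ∈ Finset.range (m + 1), C * q ^ j * σ ^ (m + 1 - 1 - j)
          + C * q ^ (m + 1)
        ≤ σ ^ (m + 1) + C * (2 * σ ^ m) + C * σ ^ (m + 1) := by gcongr
      _ = σ ^ m * (σ + 2 * C + C * σ) := by ring
      _ ≤ σ ^ m * (Z * σ) := by gcongr
      _ = Z * σ ^ (m + 1) := by ring

section trav

variable {φ : S → ℝ} {l : ℕ} {Δ D1 : ℝ} {ε1 εJ δ C q σ Z : ℝ≥0∞}

/-- one macro step followed by a known continuation -/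
lemma step (hΔ : 0 ≤ Δ) (hD1 : 0 ≤ D1) (h1 : ε1 ≤ 1) (hJ1 : εJ ≤ 1) (hC : 1 ≤ C)
    {L b c : ℕ} (hLb : L ≤ b) (hbc : b ≤ c)
    (hJ : At A (Jp φ Δ) L b εJ δ)
    (hH : ∀ j : ℕ, 1 ≤ j → At A (Hm φ (j * D1)) L b (ε1 ^ j) (C * q ^ j))
    {E : ℝ≥0∞} {α β : ℕ → ℝ≥0∞}
    (hcont : ∀ s n : ℕ, At A (Jp φ (s * Δ - n * D1)) b c (ε1 ^ n * E) (α s + β n)) (s n : ℕ) :
    At A (Jp φ (s * Δ - n * D1)) L c (ε1 ^ n * (εJ * E))
      (α (s - 1) + δ * α s + (β n + ∑ j ∈ Finset.range n, C * q ^ j * β (n - 1 - j)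
        + C * q ^ n)) := by
  intro w hw hw1 B hB
  have hmt : Measurable[A.F b] (fun ω => tot w ω) := hw.meas_tot.mono (A.F.mono hLb) le_rfl
  have hBb : MeasurableSet[A.F b] B := A.F.mono hLb _ hB
  set w1 : Ω → S → ℝ≥0∞ := rpush A (Jp φ Δ) L b w with hw1d
  have hw1W : A.Wt b w1 := rpush_wt hLb hw
  set w2 : ℕ → Ω → S → ℝ≥0∞ := fun j => rpush A (Hm φ (j * D1)) L b w with hw2d
  have hw2W : ∀ j, A.Wt b (w2 j) := fun j => rpush_wt hLb hw
  have hle : ∀ (D : S → S → Prop) ω, tot (rpush A D L b w) ω ≤ 1 := fun D ω =>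
    (tot_rpush_le D L b w ω).trans ((A.tot_push_le hLb w ω).trans (hw1 ω))
  set G : Set Ω := {ω | εJ * tot w ω ≤ tot w1 ω} with hG
  have hGm : MeasurableSet[A.F b] G :=
    mset_le (hmt.const_mul _) hw1W.meas_tot
  set Hh : ℕ → Set Ω := fun j => {ω | ε1 ^ j * tot w ω ≤ tot (w2 j) ω} with hHh
  have hHm : ∀ j, MeasurableSet[A.F b] (Hh j) := fun j =>
    mset_le (hmt.const_mul _) (hw2W j).meas_tot
  set T : ℕ → Set Ω := fun j => ⋂ i ∈ Finset.Icc 1 j, (Hh i)ᶜ with hT
  have hTm : ∀ j, MeasurableSet[A.F b] (T j) := fun j =>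
    Finset.measurableSet_biInter _ fun i _ => (hHm i).compl
  set X : Set Ω := {ω | tot (rpush A (Jp φ (s * Δ - n * D1)) L c w) ω
    < ε1 ^ n * (εJ * E) * tot w ω} with hX
  set Pc : ℕ → Set Ω := fun j => B ∩ Gᶜ ∩ T j ∩ Hh (j + 1) with hPc
  have hPm : ∀ j, MeasurableSet[A.F b] (Pc j) := fun j =>
    ((hBb.inter hGm.compl).inter (hTm j)).inter (hHm (j + 1))
  -- the jump fails
  have hGc : P (B ∩ Gᶜ) ≤ δ * P B := by
    refine (measure_mono ?_).trans (hJ w hw hw1 B hB)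
    rintro ω ⟨hωB, hω⟩
    refine ⟨hωB, ?_⟩
    by_contra hc
    rw [mem_setOf_eq, not_lt] at hc
    exact hω hc
  -- all scores up to `j` fail
  have hTj : ∀ j, P (B ∩ T j) ≤ C * q ^ j * P B := by
    intro j
    rcases Nat.eq_zero_or_pos j with rfl | hj
    · calc P (B ∩ T 0) ≤ P B := measure_mono inter_subset_left
        _ = 1 * P B := (one_mul _).symm
        _ ≤ C * q ^ 0 * P B := by simpa using mul_le_mul_left hC (P B)
    · refine (measure_mono ?_).trans (hH j hj w hw hw1 B hB)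
      rintro ω ⟨hωB, hω⟩
      refine ⟨hωB, ?_⟩
      have := mem_iInter₂.1 hω j (Finset.mem_Icc.2 ⟨hj, le_rfl⟩)
      by_contra hc
      rw [mem_setOf_eq, not_lt] at hc
      exact this hc
  have hPj : ∀ j, P (Pc j) ≤ C * q ^ j * P B := by
    intro j
    refine (measure_mono (t := B ∩ T j) ?_).trans (hTj j)
    intro ω hω
    exact ⟨hω.1.1.1, hω.1.2⟩
  -- disjointness
  have hdisj : ∀ i j, i < j → Disjoint (Pc i) (Pc j) := by
    intro i j hij
    refine Set.disjoint_left.2 fun ω hi hj => ?_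
    have := mem_iInter₂.1 hj.1.2 (i + 1) (Finset.mem_Icc.2 ⟨by omega, by omega⟩)
    exact this hi.2
  have hsum : ∑ j ∈ Finset.range n, P (Pc j) ≤ δ * P B := by
    rw [← measure_biUnion_finset]
    · refine (measure_mono ?_).trans hGc
      intro ω hω
      obtain ⟨j, _, hj⟩ := mem_iUnion₂.1 hω
      exact hj.1.1
    · intro i _ j _ hij
      rcases lt_or_gt_of_ne hij with h | h
      · exact hdisj i j h
      · exact (hdisj j i h).symm
    · exact fun j _ => A.F.le b _ (hPm j)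
  -- the three parts
  have hcover : B ∩ X ⊆ ((B ∩ G) ∩ X) ∪ ((⋃ j ∈ Finset.range n, (Pc j ∩ X)) ∪ (B ∩ T n)) := by
    rintro ω ⟨hωB, hωX⟩
    by_cases hωG : ω ∈ G
    · exact Or.inl ⟨⟨hωB, hωG⟩, hωX⟩
    · right
      by_cases hωT : ω ∈ T n
      · exact Or.inr ⟨hωB, hωT⟩
      · left
        have hex : ∃ i, i ∈ Finset.Icc 1 n ∧ ω ∈ Hh i := by
          by_contra hcon
          push Not at hcon
          exact hωT (mem_iInter₂.2 fun i hi => hcon i hi)
        have hfind := Nat.find_spec hex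
        have hmin := fun m (hm : m < Nat.find hex) => Nat.find_min hex hm
        set i := Nat.find hex with hi
        rw [Finset.mem_Icc] at hfind
        have hi1 : i - 1 + 1 = i := by omega
        refine mem_iUnion₂.2 ⟨i - 1, Finset.mem_range.2 (by omega), ⟨⟨⟨⟨hωB, hωG⟩, ?_⟩, ?_⟩, hωX⟩⟩
        · refine mem_iInter₂.2 fun m hm => ?_
          rw [Finset.mem_Icc] at hm
          intro hmH
          exact hmin m (by omega) ⟨Finset.mem_Icc.2 ⟨hm.1, by omega⟩, hmH⟩
        · rw [hi1]; exact hfind.2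
  -- part 1
  have hpart1 : P ((B ∩ G) ∩ X) ≤ (α (s - 1) + β n) * P B := by
    have hrel : ∀ x y z, Jp φ Δ x y → Jp φ ((s - 1 : ℕ) * Δ - n * D1) y z →
        Jp φ (s * Δ - n * D1) x z := by
      intro x y z hxy hyz
      unfold Jp at *
      have h2 : (s : ℝ) * Δ ≤ ((s - 1 : ℕ) + 1 : ℝ) * Δ := by
        refine mul_le_mul_of_nonneg_right ?_ hΔ
        have : s ≤ (s - 1) + 1 := by omega
        exact_mod_cast this
      nlinarith
    have hae := tot_rpush_comp (A := A) hrel hLb hbc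
    calc P ((B ∩ G) ∩ X)
        ≤ P ((B ∩ G) ∩ {ω | tot (rpush A (Jp φ ((s - 1 : ℕ) * Δ - n * D1)) b c w1) ω
            < ε1 ^ n * E * tot w1 ω}) := by
          refine measure_mono_ae ?_
          filter_upwards [hae] with ω hω
          rintro ⟨⟨hωB, hωG⟩, hωX⟩
          refine ⟨⟨hωB, hωG⟩, ?_⟩
          calc tot (rpush A (Jp φ ((s - 1 : ℕ) * Δ - n * D1)) b c w1) ω
              ≤ tot (rpush A (Jp φ (s * Δ - n * D1)) L c w) ω := hω w
            _ < ε1 ^ n * (εJ * E) * tot w ω := hωX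
            _ = ε1 ^ n * E * (εJ * tot w ω) := by ring
            _ ≤ ε1 ^ n * E * tot w1 ω := by gcongr; exact hωG
      _ ≤ (α (s - 1) + β n) * P (B ∩ G) :=
          hcont (s - 1) n w1 hw1W (fun ω => hle _ ω) (B ∩ G) (hBb.inter hGm)
      _ ≤ (α (s - 1) + β n) * P B := by gcongr; exact inter_subset_left
  -- part 2
  have hpart2 : ∀ j ∈ Finset.range n, P (Pc j ∩ X) ≤ (α s + β (n - 1 - j)) * P (Pc j) := by
    intro j hj
    have hjn : j < n := Finset.mem_range.1 hj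
    have hrel : ∀ x y z, Hm φ ((j + 1 : ℕ) * D1) x y → Jp φ (s * Δ - (n - 1 - j : ℕ) * D1) y z →
        Jp φ (s * Δ - n * D1) x z := by
      intro x y z hxy hyz
      have h2 := Hm_Jp hxy hyz
      unfold Jp at *
      have e : ((n - 1 - j : ℕ) : ℝ) + ((j + 1 : ℕ) : ℝ) = n := by
        have : (n - 1 - j) + (j + 1) = n := by omega
        exact_mod_cast this
      have e2 : (n : ℝ) * D1 = (n - 1 - j : ℕ) * D1 + (j + 1 : ℕ) * D1 := by
        rw [← add_mul, e]
      rw [e2]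
      linarith
    have hae := tot_rpush_comp (A := A) hrel hLb hbc
    calc P (Pc j ∩ X)
        ≤ P (Pc j ∩ {ω | tot (rpush A (Jp φ (s * Δ - (n - 1 - j : ℕ) * D1)) b c (w2 (j + 1))) ω
            < ε1 ^ (n - 1 - j) * E * tot (w2 (j + 1)) ω}) := by
          refine measure_mono_ae ?_
          filter_upwards [hae] with ω hω
          rintro ⟨hωP, hωX⟩
          refine ⟨hωP, ?_⟩
          have e : n = (n - 1 - j) + (j + 1) := by omega
          calc tot (rpush A (Jp φ (s * Δ - (n - 1 - j : ℕ) * D1)) b c (w2 (j + 1))) ω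
              ≤ tot (rpush A (Jp φ (s * Δ - n * D1)) L c w) ω := hω w
            _ < ε1 ^ n * (εJ * E) * tot w ω := hωX
            _ ≤ ε1 ^ n * (1 * E) * tot w ω := by gcongr
            _ = ε1 ^ (n - 1 - j) * E * (ε1 ^ (j + 1) * tot w ω) := by
                conv_lhs => rw [e, pow_add]
                ring
            _ ≤ ε1 ^ (n - 1 - j) * E * tot (w2 (j + 1)) ω := by
                gcongr
                exact hωP.2
      _ ≤ (α s + β (n - 1 - j)) * P (Pc j) :=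
          hcont s (n - 1 - j) (w2 (j + 1)) (hw2W _) (fun ω => hle _ ω) (Pc j) (hPm j)
  calc P (B ∩ X)
      ≤ P ((B ∩ G) ∩ X) + (P (⋃ j ∈ Finset.range n, (Pc j ∩ X)) + P (B ∩ T n)) :=
        (measure_mono hcover).trans ((measure_union_le _ _).trans
          (by gcongr; exact measure_union_le _ _))
    _ ≤ (α (s - 1) + β n) * P B
        + (∑ j ∈ Finset.range n, (α s + β (n - 1 - j)) * P (Pc j) + C * q ^ n * P B) := by
        gcongr
        · exact (measure_biUnion_finset_le _ _).trans (Finset.sum_le_sum hpart2)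
        · exact hTj n
    _ ≤ (α (s - 1) + β n) * P B
        + ((α s * (δ * P B) + ∑ j ∈ Finset.range n, C * q ^ j * β (n - 1 - j) * P B)
          + C * q ^ n * P B) := by
        gcongr
        calc ∑ j ∈ Finset.range n, (α s + β (n - 1 - j)) * P (Pc j)
            = α s * ∑ j ∈ Finset.range n, P (Pc j)
              + ∑ j ∈ Finset.range n, β (n - 1 - j) * P (Pc j) := by
              rw [Finset.mul_sum, ← Finset.sum_add_distrib]
              exact Finset.sum_congr rfl fun j _ => by ring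
          _ ≤ α s * (δ * P B) + ∑ j ∈ Finset.range n, C * q ^ j * β (n - 1 - j) * P B := by
              refine add_le_add (mul_le_mul_right hsum _) (Finset.sum_le_sum fun j _ => ?_)
              calc β (n - 1 - j) * P (Pc j) ≤ β (n - 1 - j) * (C * q ^ j * P B) :=
                    mul_le_mul_right (hPj j) _
                _ = C * q ^ j * β (n - 1 - j) * P B := by ring
    _ = (α (s - 1) + δ * α s + (β n + ∑ j ∈ Finset.range n, C * q ^ j * β (n - 1 - j)
        + C * q ^ n)) * P B := by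
        rw [← Finset.sum_mul]
        ring

/-- **the traveller**: `J + 1` macro steps of `l` levels, `s` jumps wanted, static budget `n` -/
theorem trav (hΔ : 0 ≤ Δ) (hD1 : 0 ≤ D1) (h1 : ε1 ≤ 1) (hJ1 : εJ ≤ 1) (hC : 1 ≤ C)
    (hZ : ZOk C q σ Z)
    (hJ : ∀ L, At A (Jp φ Δ) L (L + l) εJ δ)
    (hH : ∀ (L j : ℕ), 1 ≤ j → At A (Hm φ (j * D1)) L (L + l) (ε1 ^ j) (C * q ^ j)) :
    ∀ (J s n L : ℕ), At A (Jp φ (s * Δ - n * D1)) L (L + (J + 1) * l) (ε1 ^ n * εJ ^ (J + 1))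
      (al δ (J + 1) s + Z ^ (J + 1) * σ ^ n) := by
  have hZC : ∀ n : ℕ, C * q ^ n ≤ Z * σ ^ n := fun n => le_trans le_add_self (hZ n)
  have hZ1 : 1 ≤ Z := by
    have := hZ 0
    simp only [pow_zero, Finset.range_zero, Finset.sum_empty, add_zero, mul_one] at this
    exact le_trans le_self_add this
  intro J
  induction J with
  | zero =>
    intro s n L
    rw [zero_add, one_mul, pow_one, pow_one]
    rcases s with _ | _ | s
    · rcases Nat.eq_zero_or_pos n with rfl | hn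
      · refine At.of_one ?_
        simpa using le_trans hZ1 (le_add_self (a := Z) (b := al δ 1 0))
      · refine (((hH L n hn).mono_R (R' := Jp φ ((0 : ℕ) * Δ - n * D1)) ?_).mono_ε ?_).mono_δ
          ((hZC n).trans le_add_self)
        · intro x y hxy
          unfold Hm at hxy
          unfold Jp
          rw [abs_le] at hxy
          simp only [Nat.cast_zero, zero_mul, zero_sub]
          exact hxy.1
        · calc ε1 ^ n * εJ ≤ ε1 ^ n * 1 := by gcongr
            _ = ε1 ^ n := mul_one _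
    · refine (((hJ L).mono_R (R' := Jp φ ((0 + 1 : ℕ) * Δ - n * D1)) ?_).mono_ε ?_).mono_δ ?_
      · intro x y hxy
        unfold Jp at *
        have : (0 : ℝ) ≤ n * D1 := by positivity
        push_cast
        linarith
      · calc ε1 ^ n * εJ ≤ 1 ^ n * εJ := by gcongr
          _ = εJ := by simp
      · have e : al δ 1 (0 + 1) = δ := by
          rw [show (1 : ℕ) = 0 + 1 from rfl, al_succ, al_zero, al_base, zero_add, mul_one]
        rw [e]
        exact le_self_add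
    · exact At.of_one ((one_le_al δ 1 (s + 1 + 1) (by omega)).trans le_self_add)
  | succ J ih =>
    intro s n L
    have hstep := step (A := A) (φ := φ) hΔ hD1 h1 hJ1 hC (L := L) (b := L + l)
      (c := L + (J + 1 + 1) * l) (by omega) (by nlinarith) (hJ L) (hH L)
      (E := εJ ^ (J + 1)) (α := al δ (J + 1)) (β := fun n => Z ^ (J + 1) * σ ^ n)
      (by
        intro s n
        have h2 := ih s n (L + l)
        rwa [show L + l + (J + 1) * l = L + (J + 1 + 1) * l by ring] at h2) s n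
    have e1 : ε1 ^ n * (εJ * εJ ^ (J + 1)) = ε1 ^ n * εJ ^ (J + 1 + 1) := by
      rw [pow_succ εJ (J + 1)]; ring
    rw [e1] at hstep
    refine hstep.mono_δ ?_
    refine add_le_add ?_ ?_
    · rcases s with _ | s
      · simp [al_zero]
      · rw [al_succ δ (J + 1) s, Nat.add_sub_cancel]
    · calc Z ^ (J + 1) * σ ^ n
          + ∑ j ∈ Finset.range n, C * q ^ j * (Z ^ (J + 1) * σ ^ (n - 1 - j)) + C * q ^ n
          ≤ Z ^ (J + 1) * σ ^ n
          + ∑ j ∈ Finset.range n, C * q ^ j * (Z ^ (J + 1) * σ ^ (n - 1 - j))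
          + Z ^ (J + 1) * (C * q ^ n) := by
            refine add_le_add le_rfl ?_
            calc C * q ^ n = 1 * (C * q ^ n) := (one_mul _).symm
              _ ≤ Z ^ (J + 1) * (C * q ^ n) := mul_le_mul_left (one_le_pow₀ hZ1) _
        _ = Z ^ (J + 1) * (σ ^ n + ∑ j ∈ Finset.range n, C * q ^ j * σ ^ (n - 1 - j)
            + C * q ^ n) := by
            rw [mul_add, mul_add, Finset.mul_sum]
            congr 2
            exact Finset.sum_congr rfl fun j _ => by ring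
        _ ≤ Z ^ (J + 1) * (Z * σ ^ n) := by gcongr; exact hZ n
        _ = Z ^ (J + 1 + 1) * σ ^ n := by ring

end trav

/-- **HM5b, the traveller from the static unit and the jump** -/
theorem trav_at {φ : S → ℝ} {N : ℕ} {D g0 θ : ℝ} {η Ks : ℝ≥0∞} (hθ : 0 < θ) (hD : 0 ≤ D)
    (hKs : 1 ≤ Ks) (hS : StatAt A φ 1 N D g0 θ η Ks)
    {l : ℕ} {Δ : ℝ} (hΔ : 0 ≤ Δ) {εJ δ : ℝ≥0∞} (hJ1 : εJ ≤ 1) (hδ : δ ≤ 1)
    (hJ : JumpAt A φ l Δ εJ δ) {r1 s1 : ℕ} (hl : l ≤ r1 * N) {ε1 q σ Z : ℝ≥0∞} (h1 : ε1 ≤ 1)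
    (hq1 : ε1 ^ θ ≤ q) (hq2 : (2 * η) ^ s1 ≤ q) (hqσ : 2 * q ≤ σ) (hσ0 : σ ≠ 0) (hσt : σ ≠ ∞)
    (hZ : σ + 2 * ((2 * Ks) ^ r1 + (1 / η) ^ r1) + ((2 * Ks) ^ r1 + (1 / η) ^ r1) * σ ≤ Z * σ)
    {J : ℕ} (hJ0 : 1 ≤ J) (s n L : ℕ) :
    At A (Jp φ (s * Δ - n * (s1 * (2 * D)))) L (L + J * l) (ε1 ^ n * εJ ^ J)
      (2 ^ J * δ ^ (J + 1 - s) + Z ^ J * σ ^ n) := by
  set C : ℝ≥0∞ := (2 * Ks) ^ r1 + (1 / η) ^ r1 with hCdef
  have hC : 1 ≤ C := by
    refine le_trans ?_ (le_self_add (a := (2 * Ks) ^ r1) (b := (1 / η) ^ r1))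
    refine one_le_pow₀ ?_
    calc (1 : ℝ≥0∞) = 1 * 1 := by ring
      _ ≤ 2 * Ks := by gcongr; norm_num
  obtain ⟨J, rfl⟩ : ∃ J', J = J' + 1 := ⟨J - 1, by omega⟩
  have hH : ∀ (L j : ℕ), 1 ≤ j → At A (Hm φ (j * (s1 * (2 * D)))) L (L + l) (ε1 ^ j) (C * q ^ j) := by
    intro L j hj
    have h2 := home_at (A := A) hS (r := r1) (s := j * s1) (L := L) hl (ε1 ^ j)
    have e : 2 * ((j * s1 : ℕ) : ℝ) * D = j * (s1 * (2 * D)) := by push_cast; ring
    rw [e] at h2
    refine h2.mono_δ ?_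
    have e1 : (ε1 ^ j) ^ θ ≤ q ^ j := by
      rw [← ENNReal.rpow_natCast, ← ENNReal.rpow_mul, mul_comm, ENNReal.rpow_mul,
        ENNReal.rpow_natCast]
      gcongr
    have e2 : (2 * η) ^ (j * s1) ≤ q ^ j := by
      rw [mul_comm j s1, pow_mul]
      gcongr
    calc (2 * Ks) ^ r1 * (ε1 ^ j) ^ θ + (2 * η) ^ (j * s1) * (1 / η) ^ r1
        ≤ (2 * Ks) ^ r1 * q ^ j + q ^ j * (1 / η) ^ r1 := by gcongr
      _ = C * q ^ j := by rw [hCdef]; ring
  have hmain := trav (A := A) (φ := φ) (l := l) hΔ (by positivity : (0:ℝ) ≤ s1 * (2 * D)) h1 hJ1 hC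
    (zok_of hqσ hσ0 hσt hZ) (fun L => at_of_jump hJ L) hH J s n L
  refine hmain.mono_δ ?_
  gcongr
  rcases s with _ | s
  · simp [al_zero]
  · refine (al_le hδ (J + 1) s).trans (le_of_eq ?_)
    congr 2
    omega

end Crest.Agent.R154.HM5b587
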