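import Crest.Agent.R154.KSHalf_480
import Crest.Agent.R154.KSFin_333

/-! Row 154, B8, TILE: (KS) with `s = g/2`, `γ = g/8` (independent of the rate `q`), from the energy
half (helper480, helper333, helper402). -/

set_option autoImplicit false
set_option linter.unusedSectionVars false

namespace Crest.Agent.R154.KS480

open MeasureTheory ProbabilityTheory Set Crest.ProbabilityR.RandomEnvironment
open Crest.Agent.R154.Tile872
open scoped ENNReal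

variable {d : ℕ} (u : Step d) (R : ℕ) (κ : ℝ) (Q : Measure (Environment d))
  [IsProbabilityMeasure Q]

/-- the energy half -/
def HalfE : Prop :=
  ∀ s γ κ₁ q : ℝ≥0∞, s ≠ 0 → s ≤ 1 → γ ≠ 0 → γ ≤ 1 → κ₁ ≠ 0 → κ₁ ≤ 1 → q ≠ 0 → q ≤ 1 →
    ∃ κx ε : ℝ≥0∞, κx ≠ 0 ∧ ε ≠ 0 ∧ KSe u R κ Q s γ κ₁ κx ε q

/-- **(KS)** for every rate `q`, killing level and mass threshold depend on `g` only -/
theorem ksf_all (hstat : ∀ z : Site d, MeasurePreserving (shiftEnv z) Q Q)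
    (hR : IsFiniteRangeDependent Q R) (hB : HalfE u R κ Q) {g q : ℝ≥0∞} (hg0 : g ≠ 0)
    (hg1 : g ≤ 1) (hq : q ≠ 0) :
    ∃ κ₁ κx ε : ℝ≥0∞, κ₁ ≠ 0 ∧ κ₁ ≤ 1 ∧ κx ≠ 0 ∧ κx ≤ 1 ∧ ε ≠ 0 ∧
      KSf u R κ Q g (g / 2) (g / 8) κ₁ κx ε q := by
  have hs0 : g / 2 ≠ 0 := (ENNReal.div_pos hg0 (by norm_num)).ne'
  have hs1 : g / 2 ≤ 1 := ENNReal.half_le_self.trans hg1
  have hγ0 : g / 8 ≠ 0 := (ENNReal.div_pos hg0 (by norm_num)).ne'
  have hγ1 : g / 8 ≤ 1 := ENNReal.div_le_of_le_mul (hg1.trans (by norm_num))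
  set r : ℝ≥0∞ := min q 1 / 4 with hrdef
  have hm0 : min q 1 ≠ 0 := (lt_min (pos_iff_ne_zero.2 hq) one_pos).ne'
  have hr0 : r ≠ 0 := (ENNReal.div_pos hm0 (by norm_num)).ne'
  have hr4 : 4 * r = min q 1 := ENNReal.mul_div_cancel (by norm_num) (by norm_num)
  have hr1 : r ≤ 1 := by
    refine le_trans ?_ (min_le_right q 1)
    rw [← hr4]
    calc r = 1 * r := (one_mul r).symm
      _ ≤ 4 * r := by gcongr; norm_num
  have hr40 : r ^ 4 ≠ 0 := pow_ne_zero 4 hr0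
  have hr41 : r ^ 4 ≤ 1 := pow_le_one' hr1 4
  obtain ⟨κ₁, κx, hκ0, hκ1, hx0, hx1, hm⟩ := ksm u R κ Q hstat hR hg0 hg1 hr40
  obtain ⟨κx', ε, hx0', hε0, he⟩ := hB (g / 2) (g / 8) κ₁ (r ^ 4) hs0 hs1 hγ0 hγ1 hκ0 hκ1 hr40 hr41
  refine ⟨κ₁, min κx κx', ε, hκ0, hκ1, ?_, (min_le_left _ _).trans hx1, hε0, ?_⟩
  · exact (lt_min (pos_iff_ne_zero.2 hx0) (pos_iff_ne_zero.2 hx0')).ne'
  have hm' : KSm u R κ Q g (g / 2) (g / 8) κ₁ (min κx κx') (r ^ 4) :=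
    KSm.mono u R κ Q le_rfl (min_le_left _ _) hm
  have he' : KSe u R κ Q (g / 2) (g / 8) κ₁ (min κx κx') ε (r ^ 4) :=
    fun a b c hab hbc ι S T hS hrow => he a b c hab hbc ι S T hS
      (ROW.mono' u R κ Q (min_le_right _ _) hrow)
  have hf := KSf_of u R κ Q hr1 hm' he'
  rw [hr4] at hf
  intro a b c hab hbc ι S T T' hS hg hg' hrow hrow' hE w K hw
  refine (hf a b c hab hbc ι S T T' hS hg hg' hrow hrow' hE w K hw).trans ?_
  gcongr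
  exact min_le_left _ _

end Crest.Agent.R154.KS480
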