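import Crest.Agent.R154.PairK3_402
import Crest.Agent.R154.KSAll_480

/-! Row 154, B8, TILE, (KS): the energy half of the K-set bound (helper402), by the K-set bound for
pair tests `PairK3.main`. -/

set_option autoImplicit false
set_option linter.unusedSectionVars false
set_option linter.unusedVariables false

namespace Crest.Agent.R154.KS480

open MeasureTheory ProbabilityTheory Set Filter Crest.ProbabilityR.RandomEnvironment
open Crest.Agent.R154.Ren263 (Det)
open Crest.Agent.R154.Mk561 Crest.Agent.R154.Q561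
open Crest.Agent.R154.Flux132 (lev)
open Crest.Agent.R154.RatioR872 Crest.Agent.R154.Tile872
open Crest.Agent.R154.Cont (fWS fHist fHist_eq_iff rdM rdSpace_fWS)
open scoped ENNReal

variable {d : ℕ}

section pay

variable (u : Step d) (R : ℕ) (κ : ℝ) (Q : Measure (Environment d)) [IsProbabilityMeasure Q]
  (s : ℝ≥0∞)

lemma Kc_le_one (a b : ℕ) (x x' : Site d) : Kc u R κ Q a b x x' ≤ 1 := by
  classical
  unfold Kc
  split_ifs
  · exact prob_le_one
  · exact zero_le

/-- killed climbs with exit site `z` (paths with start) -/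
def exS (b : ℤ) (T : Set (Site d)) (z : Site d) : Set (SMPath d) :=
  {X | X.2 ∈ goodZ u R κ Q s b T X.1 z}

lemma measurable_exS (b : ℤ) (T : Set (Site d)) (z : Site d) :
    MeasurableSet (exS u R κ Q s b T z) := by
  have : exS u R κ Q s b T z
      = ⋃ x : Site d, ({x} ×ˢ goodZ u R κ Q s b T x z : Set (SMPath d)) := by
    ext X
    simp only [exS, mem_setOf_eq, mem_iUnion, mem_prod, mem_singleton_iff]
    constructor
    · intro h; exact ⟨X.1, rfl, h⟩
    · rintro ⟨x, hx, h⟩; rw [hx]; exact h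
  rw [this]
  exact MeasurableSet.iUnion fun x =>
    (measurableSet_singleton x).prod (meas_goodZ u R κ Q s b T x z)

lemma exS_spec {b : ℤ} {T : Set (Site d)} {z : Site d} {X : SMPath d} {m : ℕ}
    (h : tauS u R κ Q s b T X = m) :
    X ∈ exS u R κ Q s b T z ↔ X.2 ∈ goodM u R κ Q s b T X.1 m ∧ pos X.1 X.2 m = z := by
  constructor
  · intro hX
    obtain ⟨m', hm', hz⟩ := mem_iUnion.1 hX
    have h1 := tau_of_goodM u R κ Q s b T hm'
    unfold tauS at h
    rw [h1] at h
    have : m' = m := by exact_mod_cast h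
    subst this
    exact ⟨hm', hz⟩
  · rintro ⟨h1, h2⟩
    exact mem_iUnion.2 ⟨m, h1, h2⟩

lemma exS_tau {b : ℤ} {T : Set (Site d)} {z : Site d} {X : SMPath d}
    (h : X ∈ exS u R κ Q s b T z) : ∃ m : ℕ, tauS u R κ Q s b T X = m := by
  obtain ⟨m', hm', hz⟩ := mem_iUnion.1 h
  exact ⟨m', tau_of_goodM u R κ Q s b T hm'⟩

lemma exS_det (u₀ : Step d) {b : ℤ} {T : Set (Site d)} {z : Site d} {X Y : SMPath d} {m : ℕ}
    (hm : tauS u R κ Q s b T X = m) (h : (fWS u₀).hist m X = (fWS u₀).hist m Y) :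
    X ∈ exS u R κ Q s b T z ↔ Y ∈ exS u R κ Q s b T z := by
  have hY := isStop_tauS u R κ Q s b T u₀ X Y m h hm
  rw [exS_spec u R κ Q s hm, exS_spec u R κ Q s hY]
  have h' : fHist m X = fHist m Y := h
  rw [fHist_eq_iff] at h'
  obtain ⟨h1, h2, h3⟩ := h'
  rw [det_goodM' u R κ Q s b T X.1 m X.2 Y.2 h2, pos_congr X.1 h2 le_rfl, h1]

/-- exit indicator -/
noncomputable def eS (b : ℤ) (T : Set (Site d)) (z : Site d) (X : SMPath d) : ℝ≥0∞ :=
  (exS u R κ Q s b T z).indicator 1 X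

lemma measurable_eS (b : ℤ) (T : Set (Site d)) (z : Site d) :
    Measurable (eS u R κ Q s b T z) :=
  measurable_one.indicator (measurable_exS u R κ Q s b T z)

lemma tsum_eS_le (b : ℤ) (T : Set (Site d)) (X : SMPath d) :
    ∑' z, eS u R κ Q s b T z X ≤ 1 := by
  classical
  by_cases h : ∃ z, X ∈ exS u R κ Q s b T z
  · obtain ⟨z, hz⟩ := h
    obtain ⟨m, hm⟩ := exS_tau u R κ Q s hz
    rw [tsum_eq_single z]
    · exact indicator_le_self' (fun _ _ => zero_le) _
    · intro z' hz'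
      unfold eS
      refine indicator_of_notMem (fun hcon => hz' ?_) _
      rw [exS_spec u R κ Q s hm] at hz hcon
      exact hcon.2.symm.trans hz.2
  · push Not at h
    have : ∀ z, eS u R κ Q s b T z X = 0 := fun z => indicator_of_notMem (h z) _
    simp [this]

/-- payoff of a pair of killed climbs: pair energy of the exit sites -/
noncomputable def pay (b c : ℕ) (T : Set (Site d)) (X Y : SMPath d) : ℝ≥0∞ :=
  ∑' z, ∑' z', eS u R κ Q s b T z X * (eS u R κ Q s b T z' Y * Kc u R κ Q b c z z')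

lemma measurable_pay (b c : ℕ) (T : Set (Site d)) :
    Measurable (Function.uncurry (pay u R κ Q s b c T)) := by
  have : Function.uncurry (pay u R κ Q s b c T) = fun p : SMPath d × SMPath d =>
      ∑' z, ∑' z', eS u R κ Q s b T z p.1 * (eS u R κ Q s b T z' p.2 * Kc u R κ Q b c z z') := rfl
  rw [this]
  exact Measurable.ennreal_tsum fun z => Measurable.ennreal_tsum fun z' =>
    ((measurable_eS u R κ Q s b T z).comp measurable_fst).mul
      (((measurable_eS u R κ Q s b T z').comp measurable_snd).mul_const _)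

lemma pay_le_one (b c : ℕ) (T : Set (Site d)) (X Y : SMPath d) :
    pay u R κ Q s b c T X Y ≤ 1 := by
  unfold pay
  calc ∑' z, ∑' z', eS u R κ Q s b T z X * (eS u R κ Q s b T z' Y * Kc u R κ Q b c z z')
      ≤ ∑' z, ∑' z', eS u R κ Q s b T z X * (eS u R κ Q s b T z' Y * 1) := by
        refine ENNReal.tsum_le_tsum fun z => ENNReal.tsum_le_tsum fun z' => ?_
        gcongr
        exact Kc_le_one u R κ Q b c z z'
    _ = (∑' z, eS u R κ Q s b T z X) * ∑' z', eS u R κ Q s b T z' Y := by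
        simp only [mul_one]
        rw [← ENNReal.tsum_mul_right]
        exact tsum_congr fun z => ENNReal.tsum_mul_left
    _ ≤ 1 * 1 := mul_le_mul' (tsum_eS_le u R κ Q s b T X) (tsum_eS_le u R κ Q s b T Y)
    _ = 1 := one_mul 1

lemma pay_top (b c : ℕ) (T : Set (Site d)) (X Y : SMPath d)
    (h : tauS u R κ Q s b T X = ⊤ ∨ tauS u R κ Q s b T Y = ⊤) :
    pay u R κ Q s b c T X Y = 0 := by
  have key : ∀ (Z : SMPath d), tauS u R κ Q s b T Z = ⊤ → ∀ z, eS u R κ Q s b T z Z = 0 := by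
    intro Z hZ z
    refine indicator_of_notMem (fun hcon => ?_) _
    obtain ⟨m, hm⟩ := exS_tau u R κ Q s hcon
    rw [hm] at hZ
    exact ENat.natCast_ne_top m hZ
  unfold pay
  rcases h with h | h
  · simp [key X h]
  · simp [key Y h]

lemma pay_det (u₀ : Step d) (b c : ℕ) (T : Set (Site d)) (X X' Y Y' : SMPath d) (m n : ℕ)
    (hm : tauS u R κ Q s b T X = m) (hn : tauS u R κ Q s b T Y = n)
    (h1 : (fWS u₀).hist m X = (fWS u₀).hist m X') (h2 : (fWS u₀).hist n Y = (fWS u₀).hist n Y') :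
    pay u R κ Q s b c T X Y = pay u R κ Q s b c T X' Y' := by
  classical
  unfold pay
  refine tsum_congr fun z => tsum_congr fun z' => ?_
  have e1 : eS u R κ Q s b T z X = eS u R κ Q s b T z X' := by
    unfold eS
    simp only [indicator_apply, exS_det u R κ Q s u₀ hm h1, Pi.one_apply]
  have e2 : eS u R κ Q s b T z' Y = eS u R κ Q s b T z' Y' := by
    unfold eS
    simp only [indicator_apply, exS_det u R κ Q s u₀ hn h2, Pi.one_apply]
  rw [e1, e2]

lemma exS_mass (b : ℤ) (T : Set (Site d)) (z : Site d) (w : Site d → ℝ≥0∞) (ω : Environment d) :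
    smK κ (nu w) ω (exS u R κ Q s b T z) = outd u R κ Q s b T w ω z := by
  rw [smK_nu κ w ω (measurable_exS u R κ Q s b T z)]
  rfl

/-- the quenched mean payoff is the energy of the killed exit weight -/
lemma lintegral_pay (b c : ℕ) (T : Set (Site d)) (w : Site d → ℝ≥0∞) (ω : Environment d) :
    ∫⁻ X, ∫⁻ Y, pay u R κ Q s b c T X Y ∂(smK κ (nu w) ω) ∂(smK κ (nu w) ω)
      = en u R κ Q b c (outd u R κ Q s b T w ω) := by
  have hm := fun z => measurable_eS u R κ Q s (b : ℤ) T z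
  have hi : ∀ z, ∫⁻ X, eS u R κ Q s b T z X ∂(smK κ (nu w) ω) = outd u R κ Q s b T w ω z := by
    intro z
    unfold eS
    rw [lintegral_indicator_one (measurable_exS u R κ Q s b T z)]
    exact exS_mass u R κ Q s b T z w ω
  have h1 : ∀ X, ∫⁻ Y, pay u R κ Q s b c T X Y ∂(smK κ (nu w) ω)
      = ∑' z, ∑' z', eS u R κ Q s b T z X * (outd u R κ Q s b T w ω z' * Kc u R κ Q b c z z') := by
    intro X
    unfold pay
    rw [lintegral_tsum fun z => (Measurable.ennreal_tsum fun z' =>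
      ((hm z').mul_const _).const_mul _).aemeasurable]
    refine tsum_congr fun z => ?_
    rw [lintegral_tsum fun z' => (((hm z').mul_const _).const_mul _).aemeasurable]
    refine tsum_congr fun z' => ?_
    rw [lintegral_const_mul _ ((hm z').mul_const _), lintegral_mul_const _ (hm z'), hi z']
  simp only [h1]
  rw [lintegral_tsum fun z => (Measurable.ennreal_tsum fun z' => (hm z).mul_const _).aemeasurable]
  unfold en
  refine tsum_congr fun z => ?_
  rw [lintegral_tsum fun z' => ((hm z).mul_const _).aemeasurable]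
  refine tsum_congr fun z' => ?_
  rw [lintegral_mul_const _ (hm z), hi z]
  ring

lemma en_mono' {a b : ℕ} {w w' : Site d → ℝ≥0∞} (h : ∀ z, w z ≤ w' z) :
    en u R κ Q a b w ≤ en u R κ Q a b w' := by
  unfold en
  refine ENNReal.tsum_le_tsum fun z => ENNReal.tsum_le_tsum fun z' => ?_
  gcongr
  · exact h z
  · exact h z'

end pay

section main

variable (u : Step d) (R : ℕ) (κ : ℝ) (Q : Measure (Environment d)) [IsProbabilityMeasure Q]

/-- **(KSe)**, explicit form: `e = κ₁ γ²`, `(ε + η + 4 κx / (η / 2)) ≤ e q²`. -/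
theorem kse_explicit (hR : IsFiniteRangeDependent Q R) {s γ κ₁ κx ε η q : ℝ≥0∞}
    (he0 : κ₁ * γ ^ 2 ≠ 0) (het : κ₁ * γ ^ 2 ≠ ∞) (hq1 : q ≤ 1) (hη0 : η ≠ 0) (hηt : η ≠ ∞)
    (hεt : ε ≠ ∞) (hxt : κx ≠ ∞) (hsum : ε + η + 4 * κx / (η / 2) ≤ κ₁ * γ ^ 2 * q ^ 2) :
    KSe u R κ Q s γ κ₁ κx ε q := by
  classical
  intro a b c hab hbc ι S T hS hrow hE w K hw
  rcases K.eq_empty_or_nonempty with hK | hK
  · subst hK
    simp
  have hne : Nonempty {l // l ∈ K} := ⟨⟨hK.choose, hK.choose_spec⟩⟩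
  let _ : MeasurableSpace {l // l ∈ K} := ⊤
  have hms : MeasurableSingletonClass {l // l ∈ K} := ⟨fun _ => trivial⟩
  have hpr : ∀ l : {l // l ∈ K}, IsProbabilityMeasure (nu (w l)) := fun l => nu_prob (hw l l.2).1
  have hker : ∀ l : {l // l ∈ K}, IsMarkovKernel (smK (d := d) κ (nu (w l))) := fun l => by
    have := hpr l
    infer_instance
  have hwa : ∀ l ∈ K, ∀ y, lev u y ≠ a → w l y = 0 := fun l hl y hy =>
    (hw l hl).2.1 y fun h => hy (hS l y h)
  have hneΩ : Nonempty (SMPath d) := ⟨(0, fun _ => (u, true))⟩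
  have key := PairK3.main (W := fWS u) (rd := rdM (d := d))
    (τ := fun l : {l // l ∈ K} => tauS u R κ Q s b (T l))
    (law := fun l : {l // l ∈ K} => smK κ (nu (w l))) Q (rdSpace_fWS u)
    (indepAt_of_finiteRange hR)
    (fun l => isStop_tauS u R κ Q s b (T l) u) (fun l => readsOnly_smKf u Q κ (nu (w l)))
    (v := fun l => pay u R κ Q s b c (T l))
    { meas := fun l => measurable_pay u R κ Q s b c (T l)
      le_one := fun l X Y => pay_le_one u R κ Q s b c (T l) X Y
      top := fun l X Y h => pay_top u R κ Q s b c (T l) X Y h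
      det := fun l X X' Y Y' m n hm hn h1 h2 =>
        pay_det u R κ Q s u b c (T l) X X' Y Y' m n hm hn h1 h2 }
    (δ := ε) (η := η) (κ := κx) (ε := κ₁ * γ ^ 2) hεt hη0 hηt hxt
    (fun l => by
      simp only [lintegral_pay]
      calc ∫⁻ ω, en u R κ Q b c (outd u R κ Q s b (T l) (w l) ω) ∂Q
          ≤ ∫⁻ ω, en u R κ Q b c (outm u R κ univ b (T l) (w l) ω) ∂Q :=
            lintegral_mono fun ω => en_mono' u R κ Q fun z => outd_le u R κ Q s b (T l) (w l) ω z
        _ ≤ ε := en_outm u R κ Q univ hE (T l) (hwa l l.2) (hw l l.2).1.le)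
    (fun l => by
      have h1 : ∀ l' : {l // l ∈ K}, ((Q.bind (smK κ (nu (w l)))).prod
          (Q.bind (smK κ (nu (w l'))))) (KExp.meet (Con.kapCon (rdSpace_fWS u) R)
            (fun l : {l // l ∈ K} => tauS u R κ Q s b (T l)) l l')
          = ∑' x, ∑' x', w l x * w l' x' * mt u R κ Q s b (T l) (T l') x x' := fun l' =>
        meet_eq u R κ Q s b (fun l : {l // l ∈ K} => T l) (fun l => w l) l l' (hw l' l'.2).1
      simp only [h1]
      have h2 : ∑ l' ∈ (Finset.univ : Finset {l // l ∈ K}).erase l,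
          ∑' x, ∑' x', w l x * w l' x' * mt u R κ Q s b (T l) (T l') x x'
          = ∑ l' ∈ K.erase l, ∑' x, ∑' x', w l x * w l' x' * mt u R κ Q s b (T l) (T l') x x' := by
        refine Finset.sum_bij (fun l' _ => l'.1) ?_ ?_ ?_ ?_
        · intro l' hl'
          rw [Finset.mem_erase] at hl' ⊢
          exact ⟨fun h => hl'.1 (Subtype.ext h), l'.2⟩
        · intro a1 _ a2 _ h
          exact Subtype.ext h
        · intro l' hl'
          rw [Finset.mem_erase] at hl'
          exact ⟨⟨l', hl'.2⟩, Finset.mem_erase.2 ⟨fun h => hl'.1 (congrArg Subtype.val h),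
            Finset.mem_univ _⟩, rfl⟩
        · intro l' _
          rfl
      rw [h2]
      exact other_le u R κ Q s b hrow (K.erase l) (Finset.notMem_erase _ _) (hw l l.2).1
        (hw l l.2).2.1 (fun l' hl' => (hw l' (Finset.mem_of_mem_erase hl')).1)
        (fun l' hl' => (hw l' (Finset.mem_of_mem_erase hl')).2.1))
  simp only [lintegral_pay, Fintype.card_coe] at key
  set m := (K.card + 1) / 2 with hm
  have hm2 : K.card ≤ 2 * m := by omega
  have hsub : {ω | ∀ l ∈ K, κ₁ * γ ^ 2 < en u R κ Q b c (outd u R κ Q s b (T l) (w l) ω)}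
      ⊆ {ω | ∀ l : {l // l ∈ K}, κ₁ * γ ^ 2 ≤ en u R κ Q b c
        (outd u R κ Q s b (T l) (w l) ω)} := fun ω h l => (h l l.2).le
  refine (measure_mono hsub).trans ?_
  have h3 : (κ₁ * γ ^ 2) ^ m * Q {ω | ∀ l : {l // l ∈ K}, κ₁ * γ ^ 2 ≤ en u R κ Q b c
      (outd u R κ Q s b (T l) (w l) ω)} ≤ (κ₁ * γ ^ 2) ^ m * (q ^ 2) ^ m := by
    refine key.trans ?_
    rw [← mul_pow]
    gcongr
  have h4 := (ENNReal.mul_le_mul_iff_right (pow_ne_zero m he0) (ENNReal.pow_ne_top het)).1 h3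
  refine h4.trans ?_
  rw [← pow_mul]
  exact pow_le_pow_right_of_le_one' hq1 hm2

/-- **(KSe)**, the energy half. -/
theorem halfE (hR : IsFiniteRangeDependent Q R) : HalfE u R κ Q := by
  intro s γ κ₁ q hs0 hs1 hγ0 hγ1 hκ0 hκ1 hq0 hq1
  set e : ℝ≥0∞ := κ₁ * γ ^ 2 * q ^ 2 with he
  have he0' : κ₁ * γ ^ 2 ≠ 0 := mul_ne_zero hκ0 (pow_ne_zero 2 hγ0)
  have hκt : κ₁ ≠ ∞ := ne_top_of_le_ne_top ENNReal.one_ne_top hκ1
  have hγt : γ ≠ ∞ := ne_top_of_le_ne_top ENNReal.one_ne_top hγ1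
  have hqt : q ≠ ∞ := ne_top_of_le_ne_top ENNReal.one_ne_top hq1
  have het' : κ₁ * γ ^ 2 ≠ ∞ := ENNReal.mul_ne_top hκt (ENNReal.pow_ne_top hγt)
  have he0 : e ≠ 0 := mul_ne_zero he0' (pow_ne_zero 2 hq0)
  have het : e ≠ ∞ := ENNReal.mul_ne_top het' (ENNReal.pow_ne_top hqt)
  have h4 : e / 4 ≠ 0 := (ENNReal.div_pos he0 (by norm_num)).ne'
  have h4t : e / 4 ≠ ∞ := ENNReal.div_ne_top het (by norm_num)
  have h8 : e / 4 / 2 ≠ 0 := (ENNReal.div_pos h4 (by norm_num)).ne'
  have h8t : e / 4 / 2 ≠ ∞ := ENNReal.div_ne_top h4t (by norm_num)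
  set κx : ℝ≥0∞ := (e / 4) * (e / 4 / 2) / 4 with hx
  have hx0 : κx ≠ 0 := (ENNReal.div_pos (mul_ne_zero h4 h8) (by norm_num)).ne'
  have hxt : κx ≠ ∞ := ENNReal.div_ne_top (ENNReal.mul_ne_top h4t h8t) (by norm_num)
  refine ⟨κx, e / 4, hx0, h4, ?_⟩
  refine kse_explicit u R κ Q hR (η := e / 4) he0' het' hq1 h4 h4t h4t hxt ?_
  have e1 : 4 * κx = (e / 4) * (e / 4 / 2) := by
    rw [hx]; exact ENNReal.mul_div_cancel (by norm_num) (by norm_num)
  have e2 : 4 * κx / (e / 4 / 2) = e / 4 := by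
    rw [e1, ENNReal.mul_div_cancel_right h8 h8t]
  rw [e2, ← he]
  have e3 : 4 * (e / 4) = e := ENNReal.mul_div_cancel (by norm_num) (by norm_num)
  calc e / 4 + e / 4 + e / 4 = 3 * (e / 4) := by ring
    _ ≤ 4 * (e / 4) := by gcongr; norm_num
    _ = e := e3

end main

end Crest.Agent.R154.KS480
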