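import Crest.Agent.R154.KSFin_333
import Crest.Agent.R154.TileInst2_333

/-! Row 154, B8, TILE regular: the fields `subL`, `subR`, `kset` of `TileInst2.Inputs` on 872's
kernel system `kS` from 480's `KSf` (helper333). -/

set_option autoImplicit false
set_option linter.unusedSectionVars false
set_option linter.deprecated false
set_option linter.unusedVariables false

namespace Crest.Agent.R154.KS480

open MeasureTheory ProbabilityTheory Set Filter Crest.ProbabilityR.RandomEnvironment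
open Crest.Agent.R154.Mk561 Crest.Agent.R154.Q561
open Crest.Agent.R154.Flux132 (lev)
open Crest.Agent.R154.RatioR872 Crest.Agent.R154.Tile872
open Crest.Agent.R154.TileInst748
open scoped ENNReal

variable {d : ℕ}

section bind

variable (u : Step d) (R : ℕ) (κ : ℝ) (Q : Measure (Environment d)) [IsProbabilityMeasure Q]
variable (hstat : ∀ z : Site d, MeasurePreserving (shiftEnv z) Q Q)
variable (hR : IsFiniteRangeDependent Q R)
variable (s : ℝ≥0∞) (L N : ℕ) (Cell : ℕ → ℤ → Set (Site d))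

/-- left move: killed climb into the own cell. -/
noncomputable def kLD (k : ℕ) (x : ℤ) (ω : Environment d) (y z : Site d) : ℝ≥0∞ :=
  kD u R κ Q s (L + k * N) (L + (k + 1) * N) (Cell (k + 1) x) ω y z

/-- right move: killed climb into the right cell. -/
noncomputable def kRD (k : ℕ) (x : ℤ) (ω : Environment d) (y z : Site d) : ℝ≥0∞ :=
  kD u R κ Q s (L + k * N) (L + (k + 1) * N) (Cell (k + 1) (x + 1)) ω y z

/-- pair energy of the layer `k`, horizon one layer. -/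
noncomputable def EnD (k : ℕ) (y z : Site d) : ℝ≥0∞ :=
  Kc u R κ Q (L + k * N) (L + (k + 1) * N) y z

lemma subKer_kLD : TileInst2.SubKer (kS u R κ Q hstat hR) L N (kLD u R κ Q s L N Cell) where
  le k x ω y z := kD_le u R κ Q s hstat hR _ _ _ ω y z
  measF k x y z := measF_kD u R κ Q s hstat hR _ _ _ y z
  measH k x y z := measH_kD u R κ Q s hstat hR _ _ _ y z

lemma subKer_kRD : TileInst2.SubKer (kS u R κ Q hstat hR) L N (kRD u R κ Q s L N Cell) where
  le k x ω y z := kD_le u R κ Q s hstat hR _ _ _ ω y z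
  measF k x y z := measF_kD u R κ Q s hstat hR _ _ _ y z
  measH k x y z := measH_kD u R κ Q s hstat hR _ _ _ y z

/-- **`kset`** of the tile system from `KSf`. -/
theorem kset_of_KSf {g γ κ₁ κx ε q : ℝ≥0∞} (h : KSf u R κ Q g s γ κ₁ κx ε q)
    (hlev : ∀ k x, ∀ y ∈ Cell k x, lev u y = (L + k * N : ℕ))
    (hg : ∀ k x, ∀ y ∈ Cell k x,
      g ≤ mkAnn κ Q y (succ u R ((L + (k + 1) * N : ℕ) : ℤ) (Cell (k + 1) x) y))
    (hg' : ∀ k x, ∀ y ∈ Cell k x,
      g ≤ mkAnn κ Q y (succ u R ((L + (k + 1) * N : ℕ) : ℤ) (Cell (k + 1) (x + 1)) y))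
    (hrow : ∀ k, ROW u R κ Q s ((L + (k + 1) * N : ℕ) : ℤ) (Cell k) (Cell (k + 1)) κx)
    (hrow' : ∀ k, ROW u R κ Q s ((L + (k + 1) * N : ℕ) : ℤ) (Cell k)
      (fun x => Cell (k + 1) (x + 1)) κx)
    (hE : ∀ k, ExitE u R κ Q (L + k * N) (L + (k + 1) * N) (L + (k + 2) * N) ε)
    (k : ℕ) (K : Finset ℤ) (lam : ℤ → Site d → ℝ≥0∞)
    (hlam : ∀ x, lam x ∈ clsM (Cell k x) (EnD u R κ Q L N k) κ₁) :
    Q {ω | ∀ x ∈ K, ω ∉ TileInst2.goodS Cell (EnD u R κ Q L N) (kLD u R κ Q s L N Cell)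
      (kRD u R κ Q s L N Cell) κ₁ γ k x (lam x)} ≤ q ^ K.card := by
  have h1 : L + k * N ≤ L + (k + 1) * N := by gcongr; omega
  have h2 : L + (k + 1) * N ≤ L + (k + 2) * N := by gcongr; omega
  refine le_trans (measure_mono ?_) (h (L + k * N) (L + (k + 1) * N) (L + (k + 2) * N) h1 h2 ℤ
    (Cell k) (Cell (k + 1)) (fun x => Cell (k + 1) (x + 1)) (fun x y hy => hlev k x y hy)
    (fun x y hy => hg k x y hy) (fun x y hy => hg' k x y hy) (hrow k) (hrow' k) (hE k) lam K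
    (fun x _ => hlam x))
  intro ω hω x hx hgood
  refine hω x hx ?_
  have hsupp : ∀ y, lev u y ≠ (L + k * N : ℕ) → lam x y = 0 := fun y hy =>
    (hlam x).2.1 y fun hm => hy (hlev k x y hm)
  exact ⟨okM_kD_of_GoodD hsupp hgood.1, okM_kD_of_GoodD hsupp hgood.2⟩

/-- **`TileInst2.Inputs` on `kS`** from `KSf`, the geometry of the cells, and the two fields
`nonempty`, `start`. -/
theorem inputs_kS {g γ γ0 κ₁ κx ε q : ℝ≥0∞} {z0 : Site d}
    (h : KSf u R κ Q g s γ κ₁ κx ε q)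
    (hlev : ∀ k x, ∀ y ∈ Cell k x, lev u y = (L + k * N : ℕ))
    (hg : ∀ k x, ∀ y ∈ Cell k x,
      g ≤ mkAnn κ Q y (succ u R ((L + (k + 1) * N : ℕ) : ℤ) (Cell (k + 1) x) y))
    (hg' : ∀ k x, ∀ y ∈ Cell k x,
      g ≤ mkAnn κ Q y (succ u R ((L + (k + 1) * N : ℕ) : ℤ) (Cell (k + 1) (x + 1)) y))
    (hrow : ∀ k, ROW u R κ Q s ((L + (k + 1) * N : ℕ) : ℤ) (Cell k) (Cell (k + 1)) κx)
    (hrow' : ∀ k, ROW u R κ Q s ((L + (k + 1) * N : ℕ) : ℤ) (Cell k)
      (fun x => Cell (k + 1) (x + 1)) κx)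
    (hE : ∀ k, ExitE u R κ Q (L + k * N) (L + (k + 1) * N) (L + (k + 2) * N) ε)
    (hne : ∀ k x, (clsM (Cell k x) (EnD u R κ Q L N k) κ₁).Nonempty)
    (hst : Q (succ0 (kS u R κ Q hstat hR) L N Cell (EnD u R κ Q L N) κ₁ γ0 z0)ᶜ ≤ q) :
    TileInst2.Inputs (kS u R κ Q hstat hR) L N Cell (EnD u R κ Q L N)
      (kLD u R κ Q s L N Cell) (kRD u R κ Q s L N Cell) κ₁ γ γ0 z0 q where
  subL := subKer_kLD u R κ Q hstat hR s L N Cell
  subR := subKer_kRD u R κ Q hstat hR s L N Cell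
  nonempty := hne
  kset k K lam hlam := kset_of_KSf u R κ Q s L N Cell h hlev hg hg' hrow hrow' hE k K lam hlam
  start := hst

/-- annealed mass of the natural climb into `T`: 872's and 480's letters. -/
lemma mkAnn_succ (b : ℤ) (T : Set (Site d)) (x : Site d) :
    mkAnn κ Q x (succ u R b T x) = ∫⁻ ω, gT u R κ univ b T ω x ∂Q := by
  have e : succ u R b T x = CfT u R univ x b T := by
    unfold succ succM CfT CfM
    refine iUnion_congr fun m => ?_
    ext M
    simp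
  rw [mkAnn_apply κ Q x (meas_succ u R b T x), e]
  rfl

end bind

end Crest.Agent.R154.KS480
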