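import Crest.Agent.R154.MobL_437
import Crest.Agent.R154.B4Inst_797
import Crest.Agent.R154.HalfFin_419

/-!
Row 154, TILE: growth input of the mobility package: the widths of 797's level process `lp` grow at
most linearly (asymptotic direction of 419), hence `Σ_{k<J} Sl (2^k) = O(J)` (helper437).
-/

set_option autoImplicit false
set_option linter.unusedSectionVars false
set_option linter.unusedVariables false

namespace Crest.Agent.R154.MobW437

open MeasureTheory ProbabilityTheory Filter Set Crest.ProbabilityR.RandomEnvironment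
open Crest.Agent.R154.B4 Crest.Agent.R154.B4Inst797 Crest.Agent.R154.Mk561
open scoped ENNReal Topology

section abstract

variable {Ω : Type*} [mΩ : MeasurableSpace Ω] {P : Measure Ω} [IsProbabilityMeasure P]

/-- linear growth of the widths from an almost sure speed of the coordinate -/
lemma growth_of_speed (L : LP P) (i : Fin 2) (v : ℝ)
    (h : ∀ᵐ ω ∂P, Tendsto (fun l : ℕ => L.U l ω i / (l : ℝ)) atTop (𝓝 v)) :
    ∃ C : ℝ, 0 ≤ C ∧ ∀ k : ℕ, Real.logb 2 (wl L i (2 ^ k)) ≤ C * (k + 1) := by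
  have hm : ∀ l, Measurable fun ω => L.U l ω i := fun l => measurable_coord (meas_U L l) i
  have h1 : TendstoInMeasure P (fun (l : ℕ) ω => L.U l ω i / (l : ℝ)) atTop (fun _ => v) :=
    tendstoInMeasure_of_tendsto_ae (fun l => ((hm l).div_const _).aestronglyMeasurable) h
  have h2 := h1 (ENNReal.ofReal (1 / 2)) (by simp)
  have h3 := (tendsto_order.1 h2).2 (ENNReal.ofReal (1 / 1000)) (by simp)
  obtain ⟨l0, hl0⟩ := (h3.and (eventually_gt_atTop 0)).exists_forall_of_atTop
  have hw : ∀ l, l0 ≤ l → wl L i l ≤ 10 * l := by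
    intro l hl
    obtain ⟨h4, hl1⟩ := hl0 l hl
    have hlr : (0 : ℝ) < l := by exact_mod_cast hl1
    have hl1' : (1 : ℝ) ≤ l := by exact_mod_cast hl1
    have h5 : P.real {ω | (l : ℝ) / 2 < |L.U l ω i - v * l|} < 1 / 800 := by
      have hsub : {ω | (l : ℝ) / 2 < |L.U l ω i - v * l|} ⊆
          {ω | ENNReal.ofReal (1 / 2) ≤ edist (L.U l ω i / (l : ℝ)) v} := by
        intro ω hω
        have h6 : (l : ℝ) / 2 < |L.U l ω i - v * l| := hω
        show ENNReal.ofReal (1 / 2) ≤ edist (L.U l ω i / (l : ℝ)) v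
        rw [edist_dist, Real.dist_eq]
        refine ENNReal.ofReal_le_ofReal ?_
        have e : L.U l ω i / (l : ℝ) - v = (L.U l ω i - v * l) / l := by field_simp
        rw [e, abs_div, abs_of_pos hlr, le_div_iff₀ hlr]
        linarith
      have h6 : P {ω | (l : ℝ) / 2 < |L.U l ω i - v * l|} < ENNReal.ofReal (1 / 1000) :=
        (measure_mono hsub).trans_lt h4
      rw [measureReal_def]
      refine lt_trans ((ENNReal.toReal_lt_toReal (measure_ne_top _ _) ENNReal.ofReal_ne_top).2 h6) ?_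
      rw [ENNReal.toReal_ofReal (by norm_num)]
      norm_num
    have h7 : (P.prod P).real {q | (l : ℝ) < |Z (L.U l) i q|} ≤ 1 / 400 := by
      by_contra hcon
      push Not at hcon
      have h8 := spread_point (P := P) (meas_U L l) i ((l : ℝ) / 2) (ε := 1 / 400) (by
        have e : 2 * ((l : ℝ) / 2) = l := by ring
        rw [e]; exact hcon.le) (v * l)
      have e2 : (1 : ℝ) / 400 / 2 = 1 / 800 := by norm_num
      rw [e2] at h8
      linarith
    refine (wl_le_of_tail L i l hlr h7).trans ?_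
    exact max_le (by linarith) le_rfl
  -- finitely many small octaves
  obtain ⟨B, hB0, hB⟩ : ∃ B : ℝ, 0 ≤ B ∧ ∀ k < l0, Real.logb 2 (wl L i (2 ^ k)) ≤ B := by
    refine ⟨∑ k ∈ Finset.range l0, Real.logb 2 (wl L i (2 ^ k)),
      Finset.sum_nonneg fun k _ => Real.logb_nonneg (by norm_num) (one_le_wl L i _), fun k hk => ?_⟩
    exact Finset.single_le_sum (f := fun k => Real.logb 2 (wl L i (2 ^ k)))
      (fun k _ => Real.logb_nonneg (by norm_num) (one_le_wl L i _)) (Finset.mem_range.2 hk)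
  refine ⟨B + 4, by positivity, fun k => ?_⟩
  have hk0 : (0 : ℝ) ≤ k := Nat.cast_nonneg k
  rcases lt_or_ge k l0 with hk | hk
  · have := hB k hk
    nlinarith
  · have h8 := hw (2 ^ k) (hk.trans (Nat.lt_two_pow_self (n := k)).le)
    have h9 : Real.logb 2 (wl L i (2 ^ k)) ≤ Real.logb 2 (10 * ((2 ^ k : ℕ) : ℝ)) :=
      Real.logb_le_logb_of_le (by norm_num) (wl_pos L i _) h8
    have h10 : Real.logb 2 (10 * ((2 ^ k : ℕ) : ℝ)) ≤ 4 + k := by
      rw [Real.logb_le_iff_le_rpow (by norm_num) (by positivity)]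
      rw [Real.rpow_add (by norm_num), Real.rpow_natCast]
      push_cast
      have : (2 : ℝ) ^ (4 : ℝ) = 16 := by norm_num
      rw [this]
      have h11 : (0 : ℝ) ≤ 2 ^ k := by positivity
      linarith
    nlinarith

end abstract

variable {d : ℕ} {Q : Measure (Environment d)} [IsProbabilityMeasure Q] {κ : ℝ} {R : ℕ}

/-- almost surely on the natural event: asymptotic direction -/
theorem nat_speed (F : Bind263.Frame Q κ R) (u : Step d)
    (hA : annealedProb Q 0 (escapeEvent (B2d.dirVec u)) ≠ 0) (i1 i2 : Fin d) (i : Fin 2) :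
    ∃ v : ℝ, ∀ᵐ s ∂(natLaw κ Q u R),
      Tendsto (fun l : ℕ => UU u i1 i2 l s i / (l : ℝ)) atTop (𝓝 v) := by
  obtain ⟨v, -, hv⟩ := HalfFin.direction F (B2d.dirVec u) (B2d.dirVec_ne_zero u) hA
  refine ⟨v (![i1, i2] i), ?_⟩
  have hmeas : MeasurableSet {X : Path d | X ∈ escapeEvent (B2d.dirVec u) →
      Half419.Dirc (B2d.dirVec u) v X} := by
    have : {X : Path d | X ∈ escapeEvent (B2d.dirVec u) → Half419.Dirc (B2d.dirVec u) v X} =
        (escapeEvent (B2d.dirVec u))ᶜ ∪ {X | Half419.Dirc (B2d.dirVec u) v X} := by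
      ext X; simp [imp_iff_not_or]
    rw [this]
    exact (B2d.measurableSet_escapeEvent _).compl.union (Half419.measurableSet_Dirc _ v)
  have h1 := F.ae_mpath hmeas hv
  have h2 := F.stay_escape (B2d.dirVec u) (B2d.dirVec_ne_zero u) hA
  have h3 : ∀ᵐ s ∂(mkAnn κ Q 0), s ∈ Nat0 u R → ∀ l : ℕ, ∃ n, Hit u l n s := by
    have h4 : ∀ l : ℕ, ∀ᵐ s ∂(mkAnn κ Q 0), s ∈ Nat0 u R → ∃ n, Hit u l n s := by
      intro l
      rw [ae_iff]
      refine measure_mono_null ?_ (nat_hit F u l)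
      intro s hs
      simp only [mem_ofPred_eq, Classical.not_imp, not_exists] at hs
      exact ⟨hs.1, hs.2⟩
    filter_upwards [ae_all_iff.2 h4] with s hs hN l using hs l hN
  have h5 : ∀ᵐ s ∂(mkAnn κ Q 0), s ∈ Nat0 u R →
      Tendsto (fun l : ℕ => UU u i1 i2 l s i / (l : ℝ)) atTop (𝓝 (v (![i1, i2] i))) := by
    filter_upwards [h1, h2, h3] with s g1 g2 g3 hN
    have hD : Half419.Dirc (B2d.dirVec u) v (mpath 0 s) := g1 (g2 (nat_subset_stay u R hN))
    have hit := g3 hN
    choose n hn using hit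
    have hnl : ∀ l, l ≤ n l := fun l => le_of_hit (hn l)
    have htend : Tendsto n atTop atTop := tendsto_atTop_mono hnl tendsto_id
    have h6 := (hD.2 (![i1, i2] i)).comp htend
    refine h6.congr fun l => ?_
    simp only [Function.comp]
    have e1 : Half419.HH (B2d.dirVec u) (mpath 0 s (n l)) = (l : ℝ) := by
      have e2 : Half419.HH (B2d.dirVec u) (mpath 0 s (n l)) =
          Ren263.hgt (mht (B2d.dirVec u)) s (n l) := by
        rw [← Bind263.L_mpath]
        rfl
      rw [e2, hgt_eq, (hn l).1]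
      push_cast
      rfl
    rw [e1, (hit_eq i1 i2 (hn l)).2]
    unfold lat mpath
    fin_cases i <;> simp
  unfold natLaw
  have h7 := ProbabilityTheory.ae_cond_mem (μ := mkAnn κ Q 0) (measurableSet_Nat0 u R)
  have h8 : (mkAnn κ Q 0)[|Nat0 u R] ≪ mkAnn κ Q 0 := ProbabilityTheory.cond_absolutelyContinuous
  filter_upwards [h8.ae_le h5, h7] with s g1 g2 using g1 g2

/-- **growth input** for 797's level process -/
theorem growth (F : Bind263.Frame Q κ R) (u : Step d) {i1 i2 : Fin d} (h1 : i1 ≠ u.1)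
    (h2 : i2 ≠ u.1) (h12 : i1 ≠ i2) (hc : mkAnn κ Q 0 (Nat0 u R) ≠ 0)
    (hA : annealedProb Q 0 (escapeEvent (B2d.dirVec u)) ≠ 0) (i : Fin 2) :
    ∃ C : ℝ, 0 ≤ C ∧ ∀ k : ℕ, Real.logb 2 (wl (lp F u h1 h2 h12 hc) i (2 ^ k)) ≤ C * (k + 1) := by
  have := natLaw_isProb hc
  obtain ⟨v, hv⟩ := nat_speed F u hA i1 i2 i
  exact growth_of_speed (lp F u h1 h2 h12 hc) i v hv

/-- **sum over octaves** for 797's level process -/
theorem sum_Sl_lp (F : Bind263.Frame Q κ R) (u : Step d) {i1 i2 : Fin d} (h1 : i1 ≠ u.1)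
    (h2 : i2 ≠ u.1) (h12 : i1 ≠ i2) (hc : mkAnn κ Q 0 (Nat0 u R) ≠ 0)
    (hA : annealedProb Q 0 (escapeEvent (B2d.dirVec u)) ≠ 0) (i : Fin 2) :
    ∃ C' : ℝ, ∀ J : ℕ, ∑ k ∈ Finset.range J, (Sl (lp F u h1 h2 h12 hc) i (2 ^ k) : ℝ) ≤
      C' * (J + 1) := by
  have := natLaw_isProb hc
  obtain ⟨C, hC, hg⟩ := growth F u h1 h2 h12 hc hA i
  exact sum_Sl _ i hC hg

end Crest.Agent.R154.MobW437
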