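import Crest.Agent.R154.KSDefs_480
import Crest.Agent.R154.SE_424

/-! Row 154, B8, TILE, (ROW), near part (helper424).

(A) `mt_le`: the contact probability of two KILLED walkers is at most `s⁻²` times the contact
probability of two successful natural climbs (independent environments).
(B) `near`: if the natural climb of the first `l` levels from `x` ends in `B` and the one from `x'`
outside of `B`, up to `η`, then `mt ≤ δ` for the heights `n ≤ 2 ^ k * l`, `n` large. -/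

set_option autoImplicit false
set_option linter.unusedVariables false
set_option linter.unusedSectionVars false
set_option linter.deprecated false

open MeasureTheory ProbabilityTheory Filter Set
open scoped ENNReal Topology

namespace Crest.Agent.R154.Near424

open Crest.ProbabilityR.RandomEnvironment Crest.Agent.R154.Q561
open Crest.Agent.R154.Mk561 Crest.Agent.R154.B6I Crest.Agent.R154.KS480
open Crest.Agent.R154.RatioR872
open Crest.Agent.R154.Flux132 (lev)

variable {d : ℕ}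

/-! ### flagged histories -/

/-- marks before `n` and the flag of `n` -/
def fl (n : ℕ) (M : MPath d) : (Fin n → Mark d) × Bool := (fun i => M i, (M n).2)

lemma measurable_fl (n : ℕ) : Measurable (fl (d := d) n) := by
  refine Measurable.prodMk ?_ ?_
  · exact measurable_pi_lambda _ fun i => measurable_pi_apply _
  · exact (measurable_of_countable (fun m : Mark d => m.2)).comp (measurable_pi_apply n)

lemma fl_eq {n : ℕ} {M M' : MPath d} :
    fl n M = fl n M' ↔ (∀ i < n, M i = M' i) ∧ (M n).2 = (M' n).2 := by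
  unfold fl
  rw [Prod.ext_iff]
  refine and_congr ?_ Iff.rfl
  constructor
  · intro h i hi
    exact congrFun h ⟨i, hi⟩
  · intro h
    funext i
    exact h i i.2

lemma CyF_eq (W : MPath d) (n : ℕ) : CyF W n = fl n ⁻¹' {fl n W} := by
  ext M
  rw [mem_preimage, mem_singleton_iff, fl_eq]
  exact Iff.rfl

lemma fl_mono {m n : ℕ} (h : m ≤ n) {M M' : MPath d} (e : fl n M = fl n M') :
    fl m M = fl m M' := by
  rw [fl_eq] at e ⊢
  refine ⟨fun i hi => e.1 i (by omega), ?_⟩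
  rcases Nat.lt_or_ge m n with h1 | h1
  · rw [e.1 m h1]
  · obtain rfl : m = n := le_antisymm h h1
    exact e.2

lemma CyF_congr {n : ℕ} {M M' : MPath d} (e : fl n M = fl n M') : CyF M n = CyF M' n := by
  rw [CyF_eq, CyF_eq, e]

/-- decided by the flagged history of time `n` -/
def Dc (n : ℕ) (A : Set (MPath d)) : Prop := ∀ M M' : MPath d, fl n M = fl n M' → M ∈ A → M' ∈ A

lemma Dc.pre {n : ℕ} {A : Set (MPath d)} (h : Dc n A) : fl n ⁻¹' (fl n '' A) = A := by
  ext M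
  constructor
  · rintro ⟨M', h1, h2⟩
    exact h M' M h2 h1
  · intro h1
    exact ⟨M, h1, rfl⟩

lemma Dc.meas {n : ℕ} {A : Set (MPath d)} (h : Dc n A) : MeasurableSet A := by
  rw [← h.pre]
  exact measurable_fl n (Set.to_countable _).measurableSet

/-- comparison of two measures on a decided set, cylinder by cylinder -/
lemma cmp_dc (μ ν : Measure (MPath d)) {n : ℕ} {A : Set (MPath d)} (hA : Dc n A)
    (h : ∀ M ∈ A, μ (CyF M n) ≤ ν (CyF M n)) : μ A ≤ ν A := by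
  have e : A = ⋃ b ∈ fl n '' A, fl n ⁻¹' {b} := by
    conv_lhs => rw [← hA.pre]
    ext M
    simp only [mem_preimage, mem_iUnion, mem_singleton_iff, exists_prop, exists_eq_right']
  have hB : (fl n '' A).Countable := Set.to_countable _
  have m : ∀ b ∈ fl n '' A, MeasurableSet (fl n ⁻¹' {b}) := fun b _ =>
    measurable_fl n (measurableSet_singleton b)
  have dj : (fl n '' A).PairwiseDisjoint fun b => fl n ⁻¹' {b} := by
    intro b _ c _ hbc
    exact Disjoint.preimage _ (Set.disjoint_singleton.2 hbc)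
  rw [e, measure_biUnion hB dj m, measure_biUnion hB dj m]
  refine ENNReal.tsum_le_tsum fun b => ?_
  obtain ⟨b, M, hM, rfl⟩ := b
  have := h M hM
  rwa [CyF_eq] at this

/-- sum over the first time at which a predicate of the flagged history holds -/
lemma cmp_first (μ ν : Measure (MPath d)) {p : ℕ → MPath d → Prop}
    (hp : ∀ n M M', fl n M = fl n M' → p n M → p n M')
    (h : ∀ n M, p n M → μ (CyF M n) ≤ ν (CyF M n)) : μ {M | ∃ n, p n M} ≤ ν {M | ∃ n, p n M} := by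
  set A : ℕ → Set (MPath d) := fun n => {M | p n M ∧ ∀ k < n, ¬ p k M} with hAdef
  have hA : ∀ n, Dc n (A n) := by
    intro n M M' e hM
    exact ⟨hp n M M' e hM.1, fun k hk hk' => hM.2 k hk (hp k M' M (fl_mono hk.le e).symm hk')⟩
  have hU : {M : MPath d | ∃ n, p n M} = ⋃ n, A n := by
    ext M
    simp only [mem_setOf_eq, mem_iUnion]
    constructor
    · intro hex
      classical
      exact ⟨Nat.find hex, Nat.find_spec hex, fun k hk => Nat.find_min hex hk⟩
    · rintro ⟨n, h1, -⟩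
      exact ⟨n, h1⟩
  have hd : Pairwise (Function.onFun Disjoint A) := by
    intro m n hmn
    rw [Function.onFun, Set.disjoint_left]
    intro M h1 h2
    rcases lt_or_gt_of_ne hmn with h3 | h3
    · exact h2.2 m h3 h1.1
    · exact h1.2 n h3 h2.1
  rw [hU, measure_iUnion hd fun n => (hA n).meas, measure_iUnion hd fun n => (hA n).meas]
  exact ENNReal.tsum_le_tsum fun n => cmp_dc μ ν (hA n) fun M hM => h n M hM.1

lemma meas_first {p : ℕ → MPath d → Prop}
    (hp : ∀ n M M', fl n M = fl n M' → p n M → p n M') : MeasurableSet {M | ∃ n, p n M} := by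
  have : {M : MPath d | ∃ n, p n M} = ⋃ n, {M | p n M} := by
    ext M
    simp only [mem_setOf_eq, mem_iUnion]
  rw [this]
  exact MeasurableSet.iUnion fun n => Dc.meas (n := n) fun M M' e h => hp n M M' e h

section one

variable {u : Step d} {R : ℕ} {κ : ℝ} {Q : Measure (Environment d)} {s : ℝ≥0∞} {b : ℤ}
  {T T' : Set (Site d)} {x x' : Site d}

lemma pos_congr {n : ℕ} {M M' : MPath d} (e : fl n M = fl n M') :
    pos x M n = pos x M' n := by
  rw [fl_eq] at e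
  have : ∀ k ≤ n, pos x M k = pos x M' k := by
    intro k
    induction k with
    | zero => intro _; rw [pos_zero, pos_zero]
    | succ k ih => intro hk; rw [pos_succ, pos_succ, ih (by omega), e.1 k (by omega)]
  exact this n le_rfl

lemma dp_congr {n : ℕ} {M M' : MPath d} (e : fl n M = fl n M') :
    dp u R κ Q s b T x M n ↔ dp u R κ Q s b T x M' n := by
  unfold dp
  rw [CyF_congr e]

lemma lt_tau {M : MPath d} {i : ℕ} : (i : ℕ∞) < tau u R κ Q s b T x M ↔
    ∀ k ≤ i, lev u (pos x M k) < b ∧ ¬ dp u R κ Q s b T x M k := by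
  unfold tau
  constructor
  · intro h k hk
    have h1 : (k : ℕ∞) < KExp.fst fun n => b ≤ lev u (pos x M n) ∨ dp u R κ Q s b T x M n :=
      lt_of_le_of_lt (by exact_mod_cast hk) h
    have h2 := KExp.not_of_lt_fst h1
    push Not at h2
    exact h2
  · intro h
    by_contra hcon
    rw [not_lt] at hcon
    have h1 : (KExp.fst fun n => b ≤ lev u (pos x M n) ∨ dp u R κ Q s b T x M n)
        < ((i + 1 : ℕ) : ℕ∞) := lt_of_le_of_lt hcon (by exact_mod_cast Nat.lt_succ_self i)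
    obtain ⟨n, h2, h3⟩ := KExp.fst_exists h1
    have h4 : n < i + 1 := by exact_mod_cast h2
    obtain ⟨h5, h6⟩ := h n (by omega)
    rcases h3 with h3 | h3
    · omega
    · exact h6 h3

lemma lt_tau_congr {n : ℕ} {M M' : MPath d} (e : fl n M = fl n M')
    (h : (n : ℕ∞) < tau u R κ Q s b T x M) : (n : ℕ∞) < tau u R κ Q s b T x M' := by
  rw [lt_tau] at h ⊢
  intro k hk
  obtain ⟨h1, h2⟩ := h k hk
  have e' := fl_mono hk e
  rw [← pos_congr (x := x) e']
  exact ⟨h1, fun h3 => h2 ((dp_congr e').2 h3)⟩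

lemma meas_succ : MeasurableSet (succ u R b T x) := by
  unfold succ succM
  refine MeasurableSet.iUnion fun m => (meas_ClM u R x b m).inter ?_
  exact (meas_pos (x := fun _ : MPath d => x) measurable_const measurable_id m)
    (Set.to_countable T).measurableSet

/-- **(one walker)** reading in a set `S` before the decision time -/
lemma one (S : Set (Site d)) :
    s * mkAnn κ Q x {M | ∃ i : ℕ, (i : ℕ∞) < tau u R κ Q s b T x M ∧ (M i).2 = false ∧
      pos x M i ∈ S} ≤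
    mkAnn κ Q x {M | M ∈ succ u R b T x ∧ ∃ i : ℕ, (∀ k ≤ i, lev u (pos x M k) < b) ∧
      (M i).2 = false ∧ pos x M i ∈ S} := by
  set p : ℕ → MPath d → Prop := fun i M => (i : ℕ∞) < tau u R κ Q s b T x M ∧ (M i).2 = false ∧
      pos x M i ∈ S with hpdef
  have hp : ∀ n M M', fl n M = fl n M' → p n M → p n M' := by
    rintro n M M' e ⟨h1, h2, h3⟩
    refine ⟨lt_tau_congr e h1, ?_, ?_⟩
    · rw [← (fl_eq.1 e).2]; exact h2
    · rw [← pos_congr e]; exact h3
  have key := cmp_first (s • mkAnn κ Q x) ((mkAnn κ Q x).restrict (succ u R b T x)) hp ?_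
  · rw [Measure.smul_apply, smul_eq_mul, Measure.restrict_apply (meas_first hp)] at key
    refine key.trans (measure_mono ?_)
    rintro M ⟨⟨i, h1, h2, h3⟩, h4⟩
    exact ⟨h4, i, fun k hk => ((lt_tau.1 h1) k hk).1, h2, h3⟩
  · rintro n M ⟨h1, -, -⟩
    have h2 := ((lt_tau.1 h1) n le_rfl).2
    unfold dp at h2
    rw [not_lt] at h2
    have hm : MeasurableSet (CyF M n) := by
      rw [CyF_eq]; exact measurable_fl n (measurableSet_singleton _)
    rw [Measure.smul_apply, smul_eq_mul, Measure.restrict_apply hm, inter_comm]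
    exact h2

/-- **dip loss** -/
lemma dip_loss [IsProbabilityMeasure Q] :
    mkAnn κ Q x {M | M ∈ succ u R b T x ∧ ∃ i : ℕ, dp u R κ Q s b T x M i} ≤ s := by
  have hp : ∀ n (M M' : MPath d), fl n M = fl n M' → dp u R κ Q s b T x M n →
      dp u R κ Q s b T x M' n := fun n M M' e h => (dp_congr e).1 h
  have key := cmp_first ((mkAnn κ Q x).restrict (succ u R b T x)) (s • mkAnn κ Q x)
    (p := fun n M => dp u R κ Q s b T x M n) hp ?_
  · rw [Measure.smul_apply, smul_eq_mul, Measure.restrict_apply (meas_first hp)] at key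
    refine (measure_mono ?_).trans (key.trans ?_)
    · rintro M ⟨h1, h2⟩
      exact ⟨h2, h1⟩
    · exact (mul_le_mul' le_rfl prob_le_one).trans (mul_one _).le
  · intro n M h
    have hm : MeasurableSet (CyF M n) := by
      rw [CyF_eq]; exact measurable_fl n (measurableSet_singleton _)
    rw [Measure.smul_apply, smul_eq_mul, Measure.restrict_apply hm, inter_comm]
    exact le_of_lt h

end one

/-! ### two walkers -/

section two

variable (u : Step d) (R : ℕ) (κ : ℝ) (Q : Measure (Environment d)) (s : ℝ≥0∞) (b : ℤ)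
  (T T' : Set (Site d)) (x x' : Site d)

/-- before the first hit of level `b` -/
def bfx (x : Site d) (M : MPath d) (i : ℕ) : Prop := ∀ k ≤ i, lev u (pos x M k) < b

/-- the read sites at the times `i`, `j` are within `R` -/
def nr (p : PP d) (i j : ℕ) : Prop :=
  (p.1 i).2 = false ∧ (p.2 j).2 = false ∧ ∀ c, |pos x p.1 i c - pos x' p.2 j c| ≤ (R : ℤ)

/-- contact of two successful natural climbs -/
noncomputable def CCn : ℝ≥0∞ :=
  ((mkAnn κ Q x).prod (mkAnn κ Q x')) {p | p.1 ∈ succ u R b T x ∧ p.2 ∈ succ u R b T' x' ∧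
    ∃ i j : ℕ, bfx u b x p.1 i ∧ bfx u b x' p.2 j ∧ nr R x x' p i j}

variable {u R κ Q s b T T' x x'}

lemma meas_nr (i j : ℕ) : MeasurableSet {p : PP d | nr R x x' p i j} := by
  have h := (measurable_of_countable fun q : (Site d × Site d) × (Mark d × Mark d) =>
    (q.2.1.2 = false ∧ q.2.2.2 = false ∧ ∀ c, |q.1.1 c - q.1.2 c| ≤ (R:ℤ))).comp
    (((meas_pos (x := fun _ : PP d => x) measurable_const measurable_fst i).prodMk
      (meas_pos (x := fun _ : PP d => x') measurable_const measurable_snd j)).prodMk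
      (((measurable_pi_apply i).comp measurable_fst).prodMk
        ((measurable_pi_apply j).comp measurable_snd)) :
      Measurable fun p : PP d => ((pos x p.1 i, pos x' p.2 j), (p.1 i, p.2 j)))
  exact set_of_mp h

lemma meas_bfx (i : ℕ) : MeasurableSet {M : MPath d | bfx u b x M i} := by
  have : {M : MPath d | bfx u b x M i} = ⋂ k ∈ Finset.range (i + 1),
      {M | lev u (pos x M k) < b} := by
    ext M
    simp only [bfx, mem_setOf_eq, mem_iInter, Finset.mem_range, Nat.lt_succ_iff]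
  rw [this]
  refine Finset.measurableSet_biInter _ fun k _ => ?_
  exact (meas_pos (x := fun _ : MPath d => x) measurable_const measurable_id k)
    (Set.to_countable {z : Site d | lev u z < b}).measurableSet

lemma meas_tau_lt (i : ℕ) : MeasurableSet {M : MPath d | (i : ℕ∞) < tau u R κ Q s b T x M} :=
  Dc.meas (n := i) fun M M' e h => lt_tau_congr e h

/-- **(A)** -/
theorem mt_le [IsProbabilityMeasure Q] (hs : s ≠ 0) (hs' : s ≠ ⊤) :
    mt u R κ Q s b T T' x x' ≤ (s ^ 2)⁻¹ * CCn u R κ Q b T T' x x' := by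
  set Z1 : Set (PP d) := {p | ∃ i j : ℕ, (i : ℕ∞) < tau u R κ Q s b T x p.1 ∧
      (j : ℕ∞) < tau u R κ Q s b T' x' p.2 ∧ nr R x x' p i j} with hZ1
  set Z2 : Set (PP d) := {p | p.1 ∈ succ u R b T x ∧ ∃ i j : ℕ, bfx u b x p.1 i ∧
      (j : ℕ∞) < tau u R κ Q s b T' x' p.2 ∧ nr R x x' p i j} with hZ2
  set Z3 : Set (PP d) := {p | p.1 ∈ succ u R b T x ∧ p.2 ∈ succ u R b T' x' ∧
    ∃ i j : ℕ, bfx u b x p.1 i ∧ bfx u b x' p.2 j ∧ nr R x x' p i j} with hZ3
  have m1 : MeasurableSet Z1 := by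
    have : Z1 = ⋃ i : ℕ, ⋃ j : ℕ, (Prod.fst ⁻¹' {M | (i : ℕ∞) < tau u R κ Q s b T x M}) ∩
        ((Prod.snd ⁻¹' {M | (j : ℕ∞) < tau u R κ Q s b T' x' M}) ∩ {p | nr R x x' p i j}) := by
      ext p
      simp only [hZ1, mem_setOf_eq, mem_iUnion, mem_inter_iff, mem_preimage]
    rw [this]
    exact MeasurableSet.iUnion fun i => MeasurableSet.iUnion fun j =>
      (measurable_fst (meas_tau_lt i)).inter ((measurable_snd (meas_tau_lt j)).inter (meas_nr i j))
  have m2 : MeasurableSet Z2 := by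
    have : Z2 = (Prod.fst ⁻¹' succ u R b T x) ∩ ⋃ i : ℕ, ⋃ j : ℕ,
        (Prod.fst ⁻¹' {M | bfx u b x M i}) ∩
        ((Prod.snd ⁻¹' {M | (j : ℕ∞) < tau u R κ Q s b T' x' M}) ∩ {p | nr R x x' p i j}) := by
      ext p
      simp only [hZ2, mem_setOf_eq, mem_iUnion, mem_inter_iff, mem_preimage]
    rw [this]
    exact (measurable_fst meas_succ).inter (MeasurableSet.iUnion fun i =>
      MeasurableSet.iUnion fun j => (measurable_fst (meas_bfx i)).inter
        ((measurable_snd (meas_tau_lt j)).inter (meas_nr i j)))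
  have m3 : MeasurableSet Z3 := by
    have : Z3 = (Prod.fst ⁻¹' succ u R b T x) ∩ ((Prod.snd ⁻¹' succ u R b T' x') ∩
        ⋃ i : ℕ, ⋃ j : ℕ, (Prod.fst ⁻¹' {M | bfx u b x M i}) ∩
        ((Prod.snd ⁻¹' {M | bfx u b x' M j}) ∩ {p | nr R x x' p i j})) := by
      ext p
      simp only [hZ3, mem_setOf_eq, mem_iUnion, mem_inter_iff, mem_preimage]
    rw [this]
    exact (measurable_fst meas_succ).inter ((measurable_snd meas_succ).inter
      (MeasurableSet.iUnion fun i => MeasurableSet.iUnion fun j =>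
        (measurable_fst (meas_bfx i)).inter ((measurable_snd (meas_bfx j)).inter (meas_nr i j))))
  have h12 : s * ((mkAnn κ Q x).prod (mkAnn κ Q x')) Z1 ≤
      ((mkAnn κ Q x).prod (mkAnn κ Q x')) Z2 := by
    rw [Measure.prod_apply_symm m1, Measure.prod_apply_symm m2, ← lintegral_const_mul' _ _ hs']
    refine lintegral_mono fun M' => ?_
    set S : Set (Site d) := {z | ∃ j : ℕ, (j : ℕ∞) < tau u R κ Q s b T' x' M' ∧
      (M' j).2 = false ∧ ∀ c, |z c - pos x' M' j c| ≤ (R : ℤ)} with hS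
    refine le_trans (le_of_eq ?_) ((one (u := u) (R := R) (κ := κ) (Q := Q) (s := s) (b := b)
      (T := T) (x := x) S).trans (measure_mono ?_))
    · congr 2
      ext M
      simp only [hZ1, hS, nr, mem_preimage, mem_setOf_eq]
      constructor
      · rintro ⟨i, j, h1, h2, h3, h4, h5⟩
        exact ⟨i, h1, h3, j, h2, h4, h5⟩
      · rintro ⟨i, h1, h3, j, h2, h4, h5⟩
        exact ⟨i, j, h1, h2, h3, h4, h5⟩
    · rintro M ⟨h0, i, h1, h3, j, h2, h4, h5⟩
      exact ⟨h0, i, j, h1, h2, h3, h4, h5⟩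
  have h23 : s * ((mkAnn κ Q x).prod (mkAnn κ Q x')) Z2 ≤
      ((mkAnn κ Q x).prod (mkAnn κ Q x')) Z3 := by
    rw [Measure.prod_apply m2, Measure.prod_apply m3, ← lintegral_const_mul' _ _ hs']
    refine lintegral_mono fun M => ?_
    by_cases hM : M ∈ succ u R b T x
    swap
    · have : Prod.mk M ⁻¹' Z2 = ∅ := by
        ext M'
        simp only [hZ2, mem_preimage, mem_setOf_eq, mem_empty_iff_false, iff_false]
        exact fun h => hM h.1
      simp only [this, measure_empty, mul_zero, zero_le]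
    set S : Set (Site d) := {z | ∃ i : ℕ, bfx u b x M i ∧
      (M i).2 = false ∧ ∀ c, |pos x M i c - z c| ≤ (R : ℤ)} with hS
    refine le_trans (le_of_eq ?_) ((one (u := u) (R := R) (κ := κ) (Q := Q) (s := s) (b := b)
      (T := T') (x := x') S).trans (measure_mono ?_))
    · congr 2
      ext M'
      simp only [hZ2, hS, nr, mem_preimage, mem_setOf_eq]
      constructor
      · rintro ⟨-, i, j, h1, h2, h3, h4, h5⟩
        exact ⟨j, h2, h4, i, h1, h3, h5⟩
      · rintro ⟨j, h2, h4, i, h1, h3, h5⟩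
        exact ⟨hM, i, j, h1, h2, h3, h4, h5⟩
    · rintro M' ⟨h0, j, h2, h4, i, h1, h3, h5⟩
      exact ⟨hM, h0, i, j, h1, h2, h3, h4, h5⟩
  have h13 : s ^ 2 * mt u R κ Q s b T T' x x' ≤ CCn u R κ Q b T T' x x' := by
    have e : mt u R κ Q s b T T' x x' = ((mkAnn κ Q x).prod (mkAnn κ Q x')) Z1 := rfl
    rw [e, pow_two, mul_assoc]
    exact (mul_le_mul' le_rfl h12).trans h23
  have hs2 : s ^ 2 ≠ 0 := pow_ne_zero 2 hs
  have hs2' : s ^ 2 ≠ ⊤ := ENNReal.pow_ne_top hs'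
  calc mt u R κ Q s b T T' x x' = (s ^ 2)⁻¹ * (s ^ 2 * mt u R κ Q s b T T' x x') := by
        rw [← mul_assoc, ENNReal.inv_mul_cancel hs2 hs2', one_mul]
    _ ≤ _ := mul_le_mul' le_rfl h13

end two

/-! ### late contacts -/

section late

open Crest.Agent.R154.KB424

variable {u : Step d} {R : ℕ} {κ : ℝ} {Q : Measure (Environment d)} [IsProbabilityMeasure Q]

/-- both natural up to level `n` and contact -/
def CCs (u : Step d) (R n : ℕ) (s : SP u) : Set (PP d) :=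
  {p | (Nt u R 0 n p.1 ∧ Nt u R 0 n p.2) ∧ ¬ NoC R 0 n ((s, p) : Om u)}

lemma meas_SN (n : ℕ) (s : SP u) : MeasurableSet (SN u R n s) := by
  refine MeasurableSet.inter ((measurable_fst (meas_nt R 0 n)).inter
    (measurable_snd (meas_nt R 0 n))) ?_
  exact meas_mk s (set_of_mp (mp_noC R 0 n))

lemma meas_CCs (n : ℕ) (s : SP u) : MeasurableSet (CCs u R n s) := by
  refine MeasurableSet.inter ((measurable_fst (meas_nt R 0 n)).inter
    (measurable_snd (meas_nt R 0 n))) ?_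
  exact (meas_mk s (set_of_mp (mp_noC R 0 n))).compl

lemma SN_anti {n n' : ℕ} (h : n ≤ n') (s : SP u) : SN u R n' s ⊆ SN u R n s := by
  rintro p ⟨⟨h1, h2⟩, h3⟩
  refine ⟨⟨h1.left h, h2.left h⟩, fun i i' e1 e2 e3 => h3 i i' ?_ ?_ e3⟩
  · exact fun k hk => lt_of_lt_of_le (e1 k hk) (by exact_mod_cast h)
  · exact fun k hk => lt_of_lt_of_le (e2 k hk) (by exact_mod_cast h)

lemma snI (hR : IsFiniteRangeDependent Q R) (m : ℕ) (s : SP u) :
    PSm κ Q s.1.1 s.1.2 (SN u R m s) = PIm κ Q s.1.1 s.1.2 (SN u R m s) := by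
  have hdt : Dt u m (SN u R m s) := (dt_nt (Nat.zero_le m)).inter (dt_noC (Nat.zero_le m) s)
  exact PS_eq_PI_set hR s (j := m) (fun p hp => ⟨hp.1.1.alv, hp.1.2.alv⟩) hdt (fun p hp => hp.2)

/-- both natural up to `n`: contact or no contact -/
lemma split_both (n : ℕ) (s : SP u) :
    PIm κ Q s.1.1 s.1.2 {p : PP d | Nt u R 0 n p.1 ∧ Nt u R 0 n p.2}
      = PIm κ Q s.1.1 s.1.2 (CCs u R n s) + PIm κ Q s.1.1 s.1.2 (SN u R n s) := by
  rw [← measure_union ?_ (meas_SN n s)]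
  · congr 1
    ext p
    simp only [CCs, SN, mem_union, mem_setOf_eq]
    rcases Classical.em (NoC R 0 n ((s, p) : Om u)) with h | h
    · simp [h]
    · simp [h]
  · rw [Set.disjoint_left]
    exact fun p h1 h2 => h1.2 h2.2

lemma late (hR : IsFiniteRangeDependent Q R) {ε : ℝ≥0∞} {m₀ : ℕ}
    (hKB : ∀ m ≥ m₀, ∀ s : SP u, PSm κ Q s.1.1 s.1.2 (SN u R m s) ≤
      PSm κ Q s.1.1 s.1.2 (SN u R (2 * m) s) + ε) (s : SP u) {l n : ℕ} (k : ℕ) (hl : m₀ ≤ l)
    (hln : l ≤ n) (hnl : n ≤ 2 ^ k * l) :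
    PIm κ Q s.1.1 s.1.2 (CCs u R n s) ≤ PIm κ Q s.1.1 s.1.2 (CCs u R l s) + k * ε := by
  have hchain : ∀ k : ℕ, PIm κ Q s.1.1 s.1.2 (SN u R l s)
      ≤ PIm κ Q s.1.1 s.1.2 (SN u R (2 ^ k * l) s) + k * ε := by
    intro k
    induction k with
    | zero => simp
    | succ k ih =>
      have h2 := hKB (2 ^ k * l) (hl.trans (Nat.le_mul_of_pos_left l (by positivity))) s
      rw [snI hR, snI hR] at h2
      refine ih.trans ?_
      have e : 2 * (2 ^ k * l) = 2 ^ (k + 1) * l := by ring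
      rw [e] at h2
      push_cast
      calc PIm κ Q s.1.1 s.1.2 (SN u R (2 ^ k * l) s) + k * ε
          ≤ (PIm κ Q s.1.1 s.1.2 (SN u R (2 ^ (k + 1) * l) s) + ε) + k * ε := by gcongr
        _ = _ := by ring
  have h1 := split_both (κ := κ) (Q := Q) (R := R) n s
  have h2 := split_both (κ := κ) (Q := Q) (R := R) l s
  have h3 : PIm κ Q s.1.1 s.1.2 {p : PP d | Nt u R 0 n p.1 ∧ Nt u R 0 n p.2}
      ≤ PIm κ Q s.1.1 s.1.2 {p : PP d | Nt u R 0 l p.1 ∧ Nt u R 0 l p.2} :=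
    measure_mono fun p hp => ⟨hp.1.left hln, hp.2.left hln⟩
  have h4 : PIm κ Q s.1.1 s.1.2 (SN u R (2 ^ k * l) s) ≤ PIm κ Q s.1.1 s.1.2 (SN u R n s) :=
    measure_mono (SN_anti hnl s)
  have h5 : PIm κ Q s.1.1 s.1.2 (SN u R n s) ≠ ⊤ := measure_ne_top _ _
  refine (ENNReal.add_le_add_iff_right h5).1 ?_
  rw [← h1]
  refine h3.trans ?_
  rw [h2]
  calc PIm κ Q s.1.1 s.1.2 (CCs u R l s) + PIm κ Q s.1.1 s.1.2 (SN u R l s)
      ≤ PIm κ Q s.1.1 s.1.2 (CCs u R l s) + (PIm κ Q s.1.1 s.1.2 (SN u R n s) + k * ε) := by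
        gcongr
        exact (hchain k).trans (by gcongr)
    _ = _ := by ring

lemma bfx_iff {x : Site d} {M : MPath d} {n i : ℕ} :
    bfx u (lev u x + n) x M i ↔ bf u n M i := by
  have hl : ∀ k, lev u (pos x M k) = lev u x + zt u M k := B6I.lev_pos u x M
  unfold bfx bf
  refine forall_congr' fun k => forall_congr' fun _ => ?_
  rw [hl]
  omega

lemma CCn_le {T T' : Set (Site d)} (s : SP u) (n : ℕ) :
    CCn u R κ Q (lev u s.1.1 + n) T T' s.1.1 s.1.2 ≤ PIm κ Q s.1.1 s.1.2 (CCs u R n s) := by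
  unfold CCn PIm
  refine measure_mono ?_
  rintro p ⟨h1, h2, i, j, h3, h4, h5⟩
  have hs : lev u s.1.1 = lev u s.1.2 := s.2
  simp only [succ, succM, mem_iUnion, mem_setOf_eq] at h1 h2
  obtain ⟨m1, h1, -⟩ := h1
  obtain ⟨m2, h2, -⟩ := h2
  rw [mem_ClM_iff] at h1
  rw [hs, mem_ClM_iff] at h2
  rw [bfx_iff] at h3
  rw [hs, bfx_iff] at h4
  refine ⟨⟨h1.2, h2.2⟩, fun hN => ?_⟩
  have := (hN i j h3 h4 h5).1 0 (Nat.zero_le _)
  simp at this

lemma early {H s' η : ℝ≥0∞} (s : SP u) (l : ℕ)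
    (hCAP : CAP u R κ Q s' (lev u s.1.1 + l) H) (B : Set (Site d))
    (h1 : mkAnn κ Q s.1.1 (succ u R (lev u s.1.1 + l) Bᶜ s.1.1) ≤ η)
    (h2 : mkAnn κ Q s.1.2 (succ u R (lev u s.1.1 + l) B s.1.2) ≤ η) :
    PIm κ Q s.1.1 s.1.2 (CCs u R l s) ≤ η + s' + s' + H / s' ^ 2 * η := by
  set x := s.1.1 with hx
  set x' := s.1.2 with hx'
  have hs : lev u x = lev u x' := s.2
  set b : ℤ := lev u x + l with hb
  have hb' : b = lev u x' + l := by rw [hb, hs]
  set A1 : Set (MPath d) := succ u R b Bᶜ x with hA1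
  set A2 : Set (MPath d) := {M | M ∈ succ u R b B x ∧ ∃ i : ℕ, dp u R κ Q s' b B x M i} with hA2
  set A3 : Set (MPath d) :=
    {M | M ∈ succ u R b univ x' ∧ ∃ i : ℕ, dp u R κ Q s' b univ x' M i} with hA3
  set Z1 : Set (PP d) := {p | ∃ i j : ℕ, (i : ℕ∞) < tau u R κ Q s' b B x p.1 ∧
      (j : ℕ∞) < tau u R κ Q s' b univ x' p.2 ∧
      (p.1 i).2 = false ∧ (p.2 j).2 = false ∧ ∀ c, |pos x p.1 i c - pos x' p.2 j c| ≤ (R : ℤ)}
    with hZ1
  have hsub : CCs u R l s ⊆ (Prod.fst ⁻¹' A1) ∪ ((Prod.fst ⁻¹' A2) ∪ ((Prod.snd ⁻¹' A3) ∪ Z1)) := by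
    rintro p ⟨⟨g1, g2⟩, g3⟩
    obtain ⟨m1, e1⟩ := g1.alv
    obtain ⟨m2, e2⟩ := g2.alv
    have f1 : p.1 ∈ ClM u R x b m1 := by rw [hb, mem_ClM_iff]; exact ⟨e1, g1⟩
    have f2 : p.2 ∈ ClM u R x' b m2 := by rw [hb', mem_ClM_iff]; exact ⟨e2, g2⟩
    by_cases hB : pos x p.1 m1 ∈ B
    swap
    · exact Or.inl (mem_iUnion.2 ⟨m1, f1, hB⟩)
    have k1 : p.1 ∈ succ u R b B x := mem_iUnion.2 ⟨m1, f1, hB⟩
    have k2 : p.2 ∈ succ u R b univ x' := mem_iUnion.2 ⟨m2, f2, mem_univ _⟩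
    by_cases hd1 : ∃ i : ℕ, dp u R κ Q s' b B x p.1 i
    · exact Or.inr (Or.inl ⟨k1, hd1⟩)
    by_cases hd2 : ∃ i : ℕ, dp u R κ Q s' b univ x' p.2 i
    · exact Or.inr (Or.inr (Or.inl ⟨k2, hd2⟩))
    push Not at hd1 hd2
    refine Or.inr (Or.inr (Or.inr ?_))
    unfold NoC at g3
    push Not at g3
    obtain ⟨i, j, c1, c2, c3, -⟩ := g3
    have c1' : bfx u b x p.1 i := by rw [hb, bfx_iff]; exact c1
    have c2' : bfx u b x' p.2 j := by rw [hb', bfx_iff]; exact c2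
    exact ⟨i, j, lt_tau.2 fun k hk => ⟨c1' k hk, hd1 k⟩, lt_tau.2 fun k hk => ⟨c2' k hk, hd2 k⟩, c3⟩
  have hfst : ∀ A : Set (MPath d), ((mkAnn κ Q x).prod (mkAnn κ Q x')) (Prod.fst ⁻¹' A)
      = mkAnn κ Q x A := by
    intro A
    have : (Prod.fst ⁻¹' A : Set (PP d)) = A ×ˢ (univ : Set (MPath d)) := by ext p; simp
    rw [this, Measure.prod_prod, measure_univ, mul_one]
  have hsnd : ∀ A : Set (MPath d), ((mkAnn κ Q x).prod (mkAnn κ Q x')) (Prod.snd ⁻¹' A)
      = mkAnn κ Q x' A := by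
    intro A
    have : (Prod.snd ⁻¹' A : Set (PP d)) = (univ : Set (MPath d)) ×ˢ A := by ext p; simp
    rw [this, Measure.prod_prod, measure_univ, one_mul]
  have hmt : ((mkAnn κ Q x).prod (mkAnn κ Q x')) Z1 ≤ H / s' ^ 2 * η :=
    (hCAP B univ x x' hs).trans (mul_le_mul' le_rfl h2)
  unfold PIm
  refine (measure_mono hsub).trans ((measure_union_le _ _).trans ?_)
  rw [add_assoc, add_assoc]
  refine add_le_add (by rw [hfst]; exact h1) ((measure_union_le _ _).trans ?_)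
  refine add_le_add (by rw [hfst]; exact dip_loss) ((measure_union_le _ _).trans ?_)
  exact add_le_add (by rw [hsnd]; exact dip_loss) hmt

/-- KB in the frame, all pairs of sites -/
lemma kb_enn (F : Bind263.Frame Q κ R) (hd : 3 ≤ d)
    (hA : annealedProb Q 0 (escapeEvent (B2d.dirVec u)) ≠ 0) (hc : Half κ Q) {ε : ℝ≥0∞}
    (hε : ε ≠ 0) :
    ∃ m₀ : ℕ, ∀ m ≥ m₀, ∀ s : SP u, PSm κ Q s.1.1 s.1.2 (SN u R m s) ≤
      PSm κ Q s.1.1 s.1.2 (SN u R (2 * m) s) + ε := by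
  obtain ⟨i1, i2, h1, h2, h12⟩ := lateral hd u.1
  obtain ⟨c, hc0, hc⟩ := hc
  have hp : mkAnn κ Q 0 (NS u) ≠ 0 := by
    rw [NS_eq_stay]
    exact F.hp (B2d.dirVec u) hA
  refine KB_enn (u := u) F.stat F.fin F.frc (c₀ := ENNReal.ofReal c)
    (by simpa using hc0) ENNReal.ofReal_ne_top ?_ hp (J132.trunk F hA h1 h2 h12) ε hε
  filter_upwards [F.ell, hc] with ω h1 h2 z e
  rw [reg_eq (h1 z), ← ENNReal.ofReal_mul hc0.le]
  unfold mw
  refine ENNReal.ofReal_le_ofReal ?_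
  simp only [Bool.false_eq_true, if_false]
  rw [reg_eq (h1 z)]
  exact h2 z e

/-- **(B), near part of (ROW).** -/
theorem near (F : Bind263.Frame Q κ R) (hd : 3 ≤ d)
    (hA : annealedProb Q 0 (escapeEvent (B2d.dirVec u)) ≠ 0) (hc : Half κ Q) {H : ℝ≥0∞}
    (hH : H ≠ ⊤) (hCAP : ∀ (s : ℝ≥0∞) (b : ℤ), s ≠ 0 → s ≤ 1 → CAP u R κ Q s b H)
    {s δ : ℝ≥0∞} (hs : s ≠ 0) (hs1 : s ≤ 1) (hδ : δ ≠ 0) :
    ∃ η : ℝ≥0∞, η ≠ 0 ∧ ∀ k : ℕ, ∃ n0 : ℕ, ∀ n ≥ n0, ∀ l ≤ n, n ≤ 2 ^ k * l → ∀ a : ℤ,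
      ∀ x x' : Site d, lev u x = a → lev u x' = a → ∀ B : Set (Site d),
        mkAnn κ Q x (succ u R (a + l) Bᶜ x) ≤ η → mkAnn κ Q x' (succ u R (a + l) B x') ≤ η →
        ∀ T T' : Set (Site d), mt u R κ Q s (a + n) T T' x x' ≤ δ := by
  have hst : s ≠ ⊤ := ne_top_of_le_ne_top ENNReal.one_ne_top hs1
  have hs2 : s ^ 2 ≠ 0 := pow_ne_zero 2 hs
  have hs2t : s ^ 2 ≠ ⊤ := ENNReal.pow_ne_top hst
  set δ' : ℝ≥0∞ := min δ 1 with hδ'
  have hδ'0 : δ' ≠ 0 := (lt_min (pos_iff_ne_zero.2 hδ) one_pos).ne'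
  have hδ't : δ' ≠ ⊤ := ne_top_of_le_ne_top ENNReal.one_ne_top (min_le_right _ _)
  set D : ℝ≥0∞ := s ^ 2 * δ' / 4 with hD
  have hD0 : D ≠ 0 := (ENNReal.div_pos (mul_ne_zero hs2 hδ'0) (by norm_num)).ne'
  have hDt : D ≠ ⊤ := ENNReal.div_ne_top (ENNReal.mul_ne_top hs2t hδ't) (by norm_num)
  set s' : ℝ≥0∞ := min (D / 2) 1 with hs'
  have hD2 : D / 2 ≠ 0 := (ENNReal.div_pos hD0 (by norm_num)).ne'
  have hs'0 : s' ≠ 0 := (lt_min (pos_iff_ne_zero.2 hD2) one_pos).ne'
  have hs'1 : s' ≤ 1 := min_le_right _ _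
  have hs't : s' ≠ ⊤ := ne_top_of_le_ne_top ENNReal.one_ne_top hs'1
  have hs'2 : s' ^ 2 ≠ 0 := pow_ne_zero 2 hs'0
  have hs'2t : s' ^ 2 ≠ ⊤ := ENNReal.pow_ne_top hs't
  have hs's' : s' + s' ≤ D := by
    calc s' + s' ≤ D / 2 + D / 2 := add_le_add (min_le_left _ _) (min_le_left _ _)
      _ = D := ENNReal.add_halves D
  have hH1 : H + 1 ≠ 0 := by simp
  have hH1t : H + 1 ≠ ⊤ := ENNReal.add_ne_top.2 ⟨hH, ENNReal.one_ne_top⟩
  set A : ℝ≥0∞ := (H + 1) / s' ^ 2 with hA'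
  have hA0 : A ≠ 0 := (ENNReal.div_pos hH1 hs'2t).ne'
  have hAt : A ≠ ⊤ := ENNReal.div_ne_top hH1t hs'2
  set η : ℝ≥0∞ := min D (D / A) with hη
  have hη0 : η ≠ 0 := (lt_min (pos_iff_ne_zero.2 hD0) (ENNReal.div_pos hD0 hAt)).ne'
  refine ⟨η, hη0, fun k => ?_⟩
  have hk0 : ((k : ℝ≥0∞) + 1) ≠ 0 := by simp
  have hkt : ((k : ℝ≥0∞) + 1) ≠ ⊤ :=
    ENNReal.add_ne_top.2 ⟨ENNReal.natCast_ne_top k, ENNReal.one_ne_top⟩
  obtain ⟨m₀, hm₀⟩ := kb_enn F hd hA hc (ε := D / (k + 1)) (ENNReal.div_pos hD0 hkt).ne'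
  refine ⟨2 ^ k * m₀, fun n hn l hl hnl a x x' hx hx' B h1 h2 T T' => ?_⟩
  have hml : m₀ ≤ l := by
    have : 2 ^ k * m₀ ≤ 2 ^ k * l := hn.trans hnl
    exact Nat.le_of_mul_le_mul_left this (by positivity)
  subst hx
  set σ : SP u := ⟨(x, x'), hx'.symm⟩ with hσ
  have e1 := late F.fin hm₀ σ k hml hl hnl
  have e2 := early (κ := κ) (Q := Q) (H := H) (s' := s') (η := η) σ l (hCAP s' _ hs'0 hs'1) B h1 h2
  have e3 := CCn_le (κ := κ) (Q := Q) (R := R) (T := T) (T' := T') σ n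
  have e4 := mt_le (u := u) (R := R) (κ := κ) (Q := Q) (b := lev u x + n) (T := T) (T' := T')
    (x := x) (x' := x') hs hst
  have f1 : H / s' ^ 2 * η ≤ D := by
    calc H / s' ^ 2 * η ≤ A * (D / A) :=
          mul_le_mul' (ENNReal.div_le_div_right le_self_add _) (min_le_right _ _)
      _ = D := ENNReal.mul_div_cancel hA0 hAt
  have f2 : (k : ℝ≥0∞) * (D / (k + 1)) ≤ D := by
    calc (k : ℝ≥0∞) * (D / (k + 1)) ≤ (k + 1) * (D / (k + 1)) := by
          gcongr; exact le_self_add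
      _ = D := ENNReal.mul_div_cancel hk0 hkt
  have f3 : PIm κ Q σ.1.1 σ.1.2 (CCs u R n σ) ≤ 4 * D := by
    calc PIm κ Q σ.1.1 σ.1.2 (CCs u R n σ)
        ≤ (η + s' + s' + H / s' ^ 2 * η) + k * (D / (k + 1)) := e1.trans (by gcongr)
      _ = η + (s' + s') + H / s' ^ 2 * η + k * (D / (k + 1)) := by ring
      _ ≤ D + D + D + D := by
          gcongr
          exact min_le_left _ _
      _ = 4 * D := by ring
  have f4 : (4 : ℝ≥0∞) * D = s ^ 2 * δ' := ENNReal.mul_div_cancel (by norm_num) (by norm_num)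
  calc mt u R κ Q s (lev u x + n) T T' x x'
      ≤ (s ^ 2)⁻¹ * CCn u R κ Q (lev u x + n) T T' x x' := e4
    _ ≤ (s ^ 2)⁻¹ * (s ^ 2 * δ') := by
        gcongr
        exact (e3.trans f3).trans f4.le
    _ = δ' := by rw [← mul_assoc, ENNReal.inv_mul_cancel hs2 hs2t, one_mul]
    _ ≤ δ := min_le_left _ _

end late

end Crest.Agent.R154.Near424
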