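import Crest.Agent.R154.TileMass_872
import Crest.Agent.R154.KSBind_333
import Crest.Agent.R154.MobG_437
import Crest.Agent.R154.Near_424
import Crest.Agent.R154.CapI_923

/-!
Row 154, B8, TILE, (KS): **(ROW)** = the one geometric input of the K-set bound of the unconfined
tile (helper480's `KS480.ROW`), from `CAP` (helper923), `near` (helper424) and the mobility package
of helper437.  Far cells: capacity + disjoint windows + tails of the natural law; near cells: the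
early climb stays in a window, late contacts are rare (helper12).
-/

set_option autoImplicit false
set_option linter.unusedSectionVars false
set_option linter.deprecated false
set_option linter.unusedVariables false

namespace Crest.Agent.R154.Row12

open MeasureTheory ProbabilityTheory Set Filter Crest.ProbabilityR.RandomEnvironment
open Crest.Agent.R154.Mk561 Crest.Agent.R154.Q561
open Crest.Agent.R154.Flux132 (lev)
open Crest.Agent.R154.RatioR872 Crest.Agent.R154.Tile872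
open Crest.Agent.R154.KS480
open Crest.Agent.R154.MobW437 (wl wl_pos one_le_wl four_wl_le mob)
open Crest.Agent.R154.B4Inst797 (Nat0 natLaw UU lat natLaw_apply lp natLaw_isProb)
open scoped ENNReal Topology

variable {d : ℕ}

/-- helper424's near bound (statement) -/
def NearP (u : Step d) (R : ℕ) (κ : ℝ) (Q : Measure (Environment d)) : Prop :=
  ∀ s δ : ℝ≥0∞, s ≠ 0 → s ≤ 1 → δ ≠ 0 → ∃ η : ℝ≥0∞, η ≠ 0 ∧ ∀ k : ℕ, ∃ n0 : ℕ, ∀ n : ℕ, n0 ≤ n →
    ∀ l : ℕ, l ≤ n → n ≤ 2 ^ k * l → ∀ a : ℤ, ∀ x x' : Site d, lev u x = a → lev u x' = a →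
      ∀ B : Set (Site d), mkAnn κ Q x (succ u R (a + l) Bᶜ x) ≤ η →
        mkAnn κ Q x' (succ u R (a + l) B x') ≤ η →
        ∀ T T' : Set (Site d), mt u R κ Q s (a + n) T T' x x' ≤ δ

section basic

variable (u : Step d) (R : ℕ) (i1 i2 : Fin d) (i : Fin 2)

lemma succ_mono (b : ℤ) {T T' : Set (Site d)} (h : T ⊆ T') (x : Site d) :
    succ u R b T x ⊆ succ u R b T' x :=
  iUnion_mono fun _ _ hM => ⟨hM.1, h hM.2⟩

variable {R} {Q : Measure (Environment d)} [IsProbabilityMeasure Q] {κ : ℝ}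

/-- mass outside the window, in the letters of `succ` -/
lemma succ_out_le (F : Bind263.Frame Q κ R) {x : Site d} {ℓ n : ℕ} (hx : lev u x = ℓ) {r v : ℝ}
    {δ : ℝ≥0∞} (hc : mkAnn κ Q 0 (Nat0 u R) ≠ 0)
    (h : natLaw κ Q u R {s | r < |UU u i1 i2 n s i - v|} ≤ δ) (T : Set (Site d))
    (hT : ∀ y ∈ T, lev u y = (ℓ + n : ℕ) → r < |lat i1 i2 y i - lat i1 i2 x i - v|) :
    mkAnn κ Q x (succ u R ((ℓ + n : ℕ) : ℤ) T x) ≤ δ := by
  rw [mkAnn_succ]
  have hm : MeasurableSet {w : B4.V | r < |w i - lat i1 i2 x i - v|} :=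
    measurableSet_lt measurable_const
      ((((measurable_pi_apply i).sub_const _).sub_const _).abs)
  have h1 := mass_lat_le F u i1 i2 x n {w | r < |w i - lat i1 i2 x i - v|} hm T
    (fun y hy hy2 => hT y hy (by rw [hy2, hx]; push_cast; rfl)) hc
  have e : lev u x + (n : ℤ) = ((ℓ + n : ℕ) : ℤ) := by rw [hx]; push_cast; rfl
  rw [e] at h1
  refine h1.trans (le_trans (measure_mono ?_) h)
  intro s hs
  simp only [mem_setOf_eq, Pi.add_apply] at hs ⊢
  have e2 : lat i1 i2 x i + UU u i1 i2 n s i - lat i1 i2 x i - v = UU u i1 i2 n s i - v := by ring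
  rwa [e2] at hs

/-- mass of a climb into a strip: window of the displacement -/
lemma succ_strip_le (F : Bind263.Frame Q κ R) {x : Site d} {ℓ n : ℕ} {a t t' c : ℝ}
    (hx : x ∈ strip u i1 i2 i a ℓ t') (hc : mkAnn κ Q 0 (Nat0 u R) ≠ 0) :
    mkAnn κ Q x (succ u R ((ℓ + n : ℕ) : ℤ) (strip u i1 i2 i a (ℓ + n) (t + c)) x) ≤
      natLaw κ Q u R {s | UU u i1 i2 n s i - c ∈ Ioo (t - t' - a) (t - t' + a)} := by
  rw [mkAnn_succ]
  have hm : MeasurableSet {w : B4.V | w i ∈ Ico (t + c) (t + c + a)} :=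
    (measurable_pi_apply i) measurableSet_Ico
  have h1 := mass_lat_le F u i1 i2 x n {w | w i ∈ Ico (t + c) (t + c + a)} hm
    (strip u i1 i2 i a (ℓ + n) (t + c)) (fun y hy _ => hy.2) hc
  have e : lev u x + (n : ℤ) = ((ℓ + n : ℕ) : ℤ) := by rw [hx.1]; push_cast; rfl
  rw [e] at h1
  refine h1.trans (measure_mono ?_)
  intro s hs
  have h2 := hx.2
  simp only [mem_setOf_eq, Pi.add_apply, mem_Ico, mem_Ioo] at hs h2 ⊢
  constructor <;> linarith

end basic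

section windows

variable {Ω : Type*} [MeasurableSpace Ω] {P : Measure Ω}

/-- **disjoint windows**: the masses of the windows `k Δ + (-a, a)`, `k ∈ K`, far from `0`, sum up to
at most the tail -/
lemma sum_windows {Y : Ω → ℝ} (hY : Measurable Y) {a Δ r : ℝ} (hΔ : 4 * a ≤ |Δ|) (ha : 0 < a)
    (K : Finset ℤ) (f : ℤ → ℤ) (hf : Function.Injective f)
    (hK : ∀ k ∈ K, r ≤ |(f k : ℝ) * Δ| - a) :
    ∑ k ∈ K, P {ω | Y ω ∈ Ioo ((f k : ℝ) * Δ - a) ((f k : ℝ) * Δ + a)} ≤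
      P {ω | r < |Y ω|} := by
  rw [← measure_biUnion_finset]
  · refine measure_mono ?_
    intro ω hω
    simp only [mem_iUnion, mem_setOf_eq, exists_prop, mem_Ioo] at hω ⊢
    obtain ⟨k, hk, h1, h2⟩ := hω
    have h3 := hK k hk
    have h4 : |(f k : ℝ) * Δ| ≤ |Y ω| + |(f k : ℝ) * Δ - Y ω| := by
      have := abs_add_le (Y ω) ((f k : ℝ) * Δ - Y ω)
      simpa using this
    have h5 : |(f k : ℝ) * Δ - Y ω| < a := abs_lt.2 ⟨by linarith, by linarith⟩
    linarith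
  · intro k _ k' _ hkk
    refine Set.disjoint_left.2 fun ω h1 h2 => ?_
    simp only [mem_setOf_eq, mem_Ioo] at h1 h2
    have h3 : f k ≠ f k' := fun h => hkk (hf h)
    have h4 : (1 : ℝ) ≤ |(f k : ℝ) - f k'| := by
      have : (1 : ℤ) ≤ |f k - f k'| := Int.one_le_abs (sub_ne_zero.2 h3)
      exact_mod_cast this
    have h5 : |((f k : ℝ) - f k') * Δ| < 2 * a := by
      have e : ((f k : ℝ) - f k') * Δ = ((f k : ℝ) * Δ - Y ω) - ((f k' : ℝ) * Δ - Y ω) := by ring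
      rw [e, abs_lt]
      constructor <;> linarith
    rw [abs_mul] at h5
    nlinarith [abs_nonneg Δ]
  · intro k _
    exact hY measurableSet_Ioo

end windows

section widths

variable {Ω : Type*} [mΩ : MeasurableSpace Ω] {P : Measure Ω} [IsProbabilityMeasure P]

/-- five iterations of `four_wl_le` -/
lemma wl_iter (L : B4.LP P) (i : Fin 2) : ∃ l0, ∀ l, l0 ≤ l →
    1024 * wl L i l ≤ wl L i (2 ^ 35 * l) := by
  obtain ⟨l0, h⟩ := four_wl_le L i
  refine ⟨l0, fun l hl => ?_⟩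
  have h1 := h l hl
  have h2 := h (128 * l) (by omega)
  have h3 := h (128 * (128 * l)) (by omega)
  have h4 := h (128 * (128 * (128 * l))) (by omega)
  have h5 := h (128 * (128 * (128 * (128 * l)))) (by omega)
  have e : 2 ^ 35 * l = 128 * (128 * (128 * (128 * (128 * l)))) := by ring
  rw [e]
  linarith

/-- centre and tail of the short climb, scale of the long one -/
lemma short_tail (L : B4.LP P) (i : Fin 2) (q : ℕ) (hq : 2 ≤ q) : ∃ l0, ∀ l, l0 ≤ l →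
    ∃ c : ℝ, ∀ a : ℝ, wl L i (2 ^ (q + 35) * l) / 80 ≤ a →
      P.real {ω | a < |L.U l ω i - c|} ≤ 6 / (100 * (2 ^ q : ℕ)) := by
  obtain ⟨l1, h1⟩ := mob L i (2 ^ q)
  obtain ⟨l2, h2⟩ := wl_iter L i
  refine ⟨max l1 l2, fun l hl => ?_⟩
  obtain ⟨-, -, c, -, -, -, -, -, -, -, -, h3⟩ := h1 l ((le_max_left _ _).trans hl)
  refine ⟨c, fun a ha => ?_⟩
  have hq3 : 3 ≤ 2 ^ q := by
    calc 3 ≤ 2 ^ 2 := by norm_num
      _ ≤ 2 ^ q := Nat.pow_le_pow_right (by norm_num) hq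
  refine le_trans ?_ (h3 (2 ^ q) hq3 le_rfl)
  refine measureReal_mono ?_
  intro ω hω
  simp only [mem_setOf_eq] at hω ⊢
  have h4 := h2 (2 ^ q * l) (by
    have : l ≤ 2 ^ q * l := Nat.le_mul_of_pos_left _ (by positivity)
    exact ((le_max_right _ _).trans hl).trans this)
  have e : 2 ^ 35 * (2 ^ q * l) = 2 ^ (q + 35) * l := by rw [pow_add]; ring
  rw [e] at h4
  have h5 := wl_pos L i (2 ^ q * l)
  have h6 : 9 * wl L i (2 ^ q * l) ≤ a := by linarith
  linarith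

end widths

section row

variable {Q : Measure (Environment d)} [IsProbabilityMeasure Q] {κ : ℝ} {R : ℕ}

/-- real tail to measure -/
lemma le_of_real {Ω : Type*} [MeasurableSpace Ω] {P : Measure Ω} [IsFiniteMeasure P] {S : Set Ω}
    {r : ℝ} (h : P.real S ≤ r) : P S ≤ ENNReal.ofReal r := by
  rw [← ofReal_measureReal (μ := P) (s := S)]
  exact ENNReal.ofReal_le_ofReal h

/-- **near cells** -/
lemma near_cells (F : Bind263.Frame Q κ R) (u : Step d) {i1 i2 : Fin d} (h1 : i1 ≠ u.1)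
    (h2 : i2 ≠ u.1) (h12 : i1 ≠ i2) (hc : mkAnn κ Q 0 (Nat0 u R) ≠ 0) (i : Fin 2)
    (hN : NearP u R κ Q) {s δ : ℝ≥0∞} (hs : s ≠ 0) (hs1 : s ≤ 1) (hδ : δ ≠ 0) :
    ∃ p N0 : ℕ, ∀ N : ℕ, N0 ≤ N → 2 ^ p ∣ N → ∀ a : ℝ, 
      wl (lp F u h1 h2 h12 hc) i N / 80 ≤ a →
      ∀ (ℓ : ℕ) (x x' : Site d), lev u x = ℓ → lev u x' = ℓ →
        3 * a ≤ |lat i1 i2 x i - lat i1 i2 x' i| → ∀ T T' : Set (Site d),
        mt u R κ Q s ((ℓ + N : ℕ) : ℤ) T T' x x' ≤ δ := by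
  have := natLaw_isProb hc
  obtain ⟨η, hη, hη2⟩ := hN s δ hs hs1 hδ
  obtain ⟨q, hq2, hq⟩ : ∃ q : ℕ, 2 ≤ q ∧ ENNReal.ofReal (6 / (100 * (2 ^ q : ℕ))) ≤ η := by
    rcases eq_or_ne η ⊤ with h | h
    · exact ⟨2, le_rfl, by rw [h]; exact le_top⟩
    have hpos : 0 < η.toReal := ENNReal.toReal_pos hη h
    obtain ⟨q, hq⟩ := exists_nat_gt (1 / η.toReal)
    refine ⟨max 2 q, le_max_left _ _, ENNReal.ofReal_le_of_le_toReal ?_⟩
    have h3 : (q : ℝ) < 2 ^ (max 2 q) := by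
      have h5 : max 2 q < 2 ^ (max 2 q) := Nat.lt_two_pow_self
      have h6 : q < 2 ^ (max 2 q) := lt_of_le_of_lt (le_max_right _ _) h5
      exact_mod_cast h6
    have h4 : 1 / η.toReal < 2 ^ (max 2 q) := hq.trans h3
    rw [div_lt_iff₀ hpos] at h4
    rw [div_le_iff₀ (by positivity)]
    push_cast
    nlinarith
  obtain ⟨l0, hl0⟩ := short_tail (lp F u h1 h2 h12 hc) i q hq2
  obtain ⟨n0, hn0⟩ := hη2 (q + 35)
  refine ⟨q + 35, max (2 ^ (q + 35) * l0) (max n0 1), ?_⟩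
  rintro N hN0 ⟨l, rfl⟩ a ha ℓ x x' hx hx' hxx T T'
  have hl : l0 ≤ l := by
    have h3 := (le_max_left _ _).trans hN0
    exact Nat.le_of_mul_le_mul_left h3 (by positivity)
  obtain ⟨c, hcc⟩ := hl0 l hl
  have htail : natLaw κ Q u R {s | a < |UU u i1 i2 l s i - c|} ≤ η :=
    (le_of_real (hcc a ha)).trans hq
  have ha0 : 0 < a := lt_of_lt_of_le (by have := wl_pos (lp F u h1 h2 h12 hc) i
                                          (2 ^ (q + 35) * l); positivity) ha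
  have hln : l ≤ 2 ^ (q + 35) * l := Nat.le_mul_of_pos_left _ (by positivity)
  have key := hn0 (2 ^ (q + 35) * l) ((le_max_left _ _).trans ((le_max_right _ _).trans hN0)) l hln
    le_rfl (ℓ : ℤ) x x' hx hx' {y | |lat i1 i2 y i - lat i1 i2 x i - c| ≤ a} ?_ ?_ T T'
  · have e : ((ℓ + 2 ^ (q + 35) * l : ℕ) : ℤ) = (ℓ : ℤ) + ((2 ^ (q + 35) * l : ℕ) : ℤ) := by
      push_cast; ring
    rw [e]; exact key
  · have h3 := succ_out_le u i1 i2 i F hx hc htail
      {y | |lat i1 i2 y i - lat i1 i2 x i - c| ≤ a}ᶜ (fun y hy _ => by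
        simpa using hy)
    have e : ((ℓ + l : ℕ) : ℤ) = (ℓ : ℤ) + (l : ℤ) := by push_cast; ring
    rw [e] at h3; exact h3
  · have h3 := succ_out_le u i1 i2 i F hx' hc htail
      {y | |lat i1 i2 y i - lat i1 i2 x i - c| ≤ a} (fun y hy _ => by
        simp only [mem_setOf_eq] at hy
        have h4 : |lat i1 i2 x i - lat i1 i2 x' i| ≤ |lat i1 i2 y i - lat i1 i2 x' i - c| +
            |lat i1 i2 y i - lat i1 i2 x i - c| := by
          have := abs_sub (lat i1 i2 y i - lat i1 i2 x' i - c) (lat i1 i2 y i - lat i1 i2 x i - c)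
          have e : (lat i1 i2 y i - lat i1 i2 x' i - c) - (lat i1 i2 y i - lat i1 i2 x i - c) =
            lat i1 i2 x i - lat i1 i2 x' i := by ring
          rw [e] at this
          exact this
        linarith)
    have e : ((ℓ + l : ℕ) : ℤ) = (ℓ : ℤ) + (l : ℤ) := by push_cast; ring
    rw [e] at h3; exact h3

/-- **(ROW)** -/
theorem row (F : Bind263.Frame Q κ R) (u : Step d) {i1 i2 : Fin d} (h1 : i1 ≠ u.1)
    (h2 : i2 ≠ u.1) (h12 : i1 ≠ i2) (hc : mkAnn κ Q 0 (Nat0 u R) ≠ 0) (i : Fin 2)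
    (hN : NearP u R κ Q) {s H κx : ℝ≥0∞} (hs : s ≠ 0) (hs1 : s ≤ 1) (hH : H ≠ ⊤)
    (hCAP : ∀ b : ℤ, CAP u R κ Q s b H) (hκ : κx ≠ 0) :
    ∃ m : ℕ, 3 ≤ m ∧ ∀ B : ℝ, ∃ p N0 : ℕ, ∀ N : ℕ, N0 ≤ N → 2 ^ p ∣ N →
      wl (lp F u h1 h2 h12 hc) i (m * N) ≤ B * wl (lp F u h1 h2 h12 hc) i N →
      ∀ c1 c2 a : ℝ, wl (lp F u h1 h2 h12 hc) i N / 80 ≤ a → 4 * a ≤ |c2 - c1| →
        (natLaw κ Q u R).real
          {ω | 9 * wl (lp F u h1 h2 h12 hc) i (m * N) < |UU u i1 i2 N ω i - c1|} ≤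
            6 / (100 * m) →
        ∀ (ℓ : ℕ) (t : ℝ) (o : ℤ), |o| ≤ 1 →
          ROW u R κ Q s ((ℓ + N : ℕ) : ℤ) (fun l : ℤ => strip u i1 i2 i a ℓ (t + l * (c2 - c1)))
            (fun l : ℤ => strip u i1 i2 i a (ℓ + N) (t + c1 + (l + o : ℤ) * (c2 - c1))) κx := by
  have hprob := natLaw_isProb hc
  -- the multiple `m`
  have hs2 : s ^ 2 ≠ 0 := pow_ne_zero 2 hs
  have hHs : H / s ^ 2 ≠ ⊤ := ENNReal.div_ne_top hH hs2
  obtain ⟨m, hm3, hm⟩ : ∃ m : ℕ, 3 ≤ m ∧ H / s ^ 2 * ENNReal.ofReal (6 / (100 * m)) ≤ κx / 2 := by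
    have hk2 : κx / 2 ≠ 0 := (ENNReal.div_pos hκ (by simp)).ne'
    rcases eq_or_ne (κx / 2) ⊤ with h | h
    · exact ⟨3, le_rfl, by rw [h]; exact le_top⟩
    have hpos : 0 < (κx / 2).toReal := ENNReal.toReal_pos hk2 h
    obtain ⟨m, hm⟩ := exists_nat_gt ((H / s ^ 2).toReal / (κx / 2).toReal)
    refine ⟨max 3 m, le_max_left _ _, ?_⟩
    rw [← ENNReal.ofReal_toReal hHs, ← ENNReal.ofReal_mul ENNReal.toReal_nonneg]
    refine ENNReal.ofReal_le_of_le_toReal ?_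
    have h3 : (m : ℝ) ≤ (max 3 m : ℕ) := by exact_mod_cast le_max_right 3 m
    have h5 : (0 : ℝ) < (max 3 m : ℕ) := by
      have : 0 < max 3 m := lt_of_lt_of_le (by norm_num) (le_max_left 3 m)
      exact_mod_cast this
    have h4 := hm.le.trans h3
    rw [div_le_iff₀ hpos] at h4
    rw [← mul_div_assoc, div_le_iff₀ (by positivity)]
    nlinarith [ENNReal.toReal_nonneg (a := H / s ^ 2)]
  refine ⟨m, hm3, fun B => ?_⟩
  -- number of near cells
  obtain ⟨R0, hR0, hR0B⟩ : ∃ R0 : ℕ, 1 ≤ R0 ∧ 240 * B ≤ R0 := by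
    obtain ⟨r, hr⟩ := exists_nat_ge (240 * B)
    exact ⟨max 1 r, le_max_left _ _, hr.trans (by exact_mod_cast le_max_right 1 r)⟩
  set δ : ℝ≥0∞ := κx / 2 / (2 * R0 + 1 : ℕ) with hδdef
  have hδ : δ ≠ 0 := by
    refine (ENNReal.div_pos (ENNReal.div_pos hκ (by simp)).ne' ?_).ne'
    exact ENNReal.natCast_ne_top _
  obtain ⟨p, N0, hnear⟩ := near_cells F u h1 h2 h12 hc i hN hs hs1 hδ
  refine ⟨p, N0, fun N hN0 hpN hB c1 c2 a ha hΔ htail ℓ t o ho => ?_⟩
  have hw := wl_pos (lp F u h1 h2 h12 hc) i N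
  have hwm := wl_pos (lp F u h1 h2 h12 hc) i (m * N)
  have ha0 : 0 < a := lt_of_lt_of_le (by positivity) ha
  intro l x hx K hlK
  classical
  -- split the row
  set Kn := K.filter fun l' => |l' - l| ≤ R0 with hKn
  set Kf := K.filter fun l' => ¬ |l' - l| ≤ R0 with hKf
  have hsplit : ∑ l' ∈ K, ⨆ x' ∈ strip u i1 i2 i a ℓ (t + l' * (c2 - c1)),
      mt u R κ Q s ((ℓ + N : ℕ) : ℤ) (strip u i1 i2 i a (ℓ + N) (t + c1 + (l + o : ℤ) * (c2 - c1)))
        (strip u i1 i2 i a (ℓ + N) (t + c1 + (l' + o : ℤ) * (c2 - c1))) x x' =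
      ∑ l' ∈ Kn, (⨆ x' ∈ strip u i1 i2 i a ℓ (t + l' * (c2 - c1)),
      mt u R κ Q s ((ℓ + N : ℕ) : ℤ) (strip u i1 i2 i a (ℓ + N) (t + c1 + (l + o : ℤ) * (c2 - c1)))
        (strip u i1 i2 i a (ℓ + N) (t + c1 + (l' + o : ℤ) * (c2 - c1))) x x') +
      ∑ l' ∈ Kf, ⨆ x' ∈ strip u i1 i2 i a ℓ (t + l' * (c2 - c1)),
      mt u R κ Q s ((ℓ + N : ℕ) : ℤ) (strip u i1 i2 i a (ℓ + N) (t + c1 + (l + o : ℤ) * (c2 - c1)))
        (strip u i1 i2 i a (ℓ + N) (t + c1 + (l' + o : ℤ) * (c2 - c1))) x x' :=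
    (Finset.sum_filter_add_sum_filter_not K _ _).symm
  show ∑ l' ∈ K, ⨆ x' ∈ strip u i1 i2 i a ℓ (t + l' * (c2 - c1)),
      mt u R κ Q s ((ℓ + N : ℕ) : ℤ) (strip u i1 i2 i a (ℓ + N) (t + c1 + (l + o : ℤ) * (c2 - c1)))
        (strip u i1 i2 i a (ℓ + N) (t + c1 + (l' + o : ℤ) * (c2 - c1))) x x' ≤ κx
  rw [hsplit, ← ENNReal.add_halves κx]
  refine add_le_add ?_ ?_
  · -- near cells
    have hcard : Kn.card ≤ 2 * R0 + 1 := by
      have hsub : Kn ⊆ Finset.Icc (l - R0) (l + R0) := by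
        intro l' hl'
        have h3 := (Finset.mem_filter.1 hl').2
        rw [abs_le] at h3
        rw [Finset.mem_Icc]
        constructor <;> linarith [h3.1, h3.2]
      refine (Finset.card_le_card hsub).trans (le_of_eq ?_)
      rw [Int.card_Icc]
      omega
    have hle : ∀ l' ∈ Kn, (⨆ x' ∈ strip u i1 i2 i a ℓ (t + l' * (c2 - c1)),
      mt u R κ Q s ((ℓ + N : ℕ) : ℤ) (strip u i1 i2 i a (ℓ + N) (t + c1 + (l + o : ℤ) * (c2 - c1)))
        (strip u i1 i2 i a (ℓ + N) (t + c1 + (l' + o : ℤ) * (c2 - c1))) x x') ≤ δ := by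
      intro l' hl'
      refine iSup₂_le fun x' hx' => ?_
      refine hnear N hN0 hpN a ha ℓ x x' hx.1 hx'.1 ?_ _ _
      have hne : l ≠ l' := fun h => hlK (h ▸ (Finset.mem_filter.1 hl').1)
      have h3 : (1 : ℝ) ≤ |(l : ℝ) - l'| := by
        have : (1 : ℤ) ≤ |l - l'| := Int.one_le_abs (sub_ne_zero.2 hne)
        exact_mod_cast this
      have h4 : 4 * a ≤ |((l : ℝ) - l') * (c2 - c1)| := by
        rw [abs_mul]
        nlinarith [abs_nonneg (c2 - c1)]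
      have h5 := hx.2
      have h6 := hx'.2
      simp only [mem_Ico] at h5 h6
      have h7 : |((l : ℝ) - l') * (c2 - c1)| ≤ |lat i1 i2 x i - lat i1 i2 x' i| + a := by
        have e : ((l : ℝ) - l') * (c2 - c1) = (lat i1 i2 x i - lat i1 i2 x' i) -
          ((lat i1 i2 x i - (t + l * (c2 - c1))) - (lat i1 i2 x' i - (t + l' * (c2 - c1)))) := by
          ring
        rw [e]
        refine (abs_sub _ _).trans (add_le_add le_rfl ?_)
        rw [abs_le]; constructor <;> linarith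
      linarith
    refine (Finset.sum_le_card_nsmul _ _ _ hle).trans ?_
    rw [nsmul_eq_mul]
    calc (Kn.card : ℝ≥0∞) * δ ≤ (2 * R0 + 1 : ℕ) * δ := by
          gcongr
      _ ≤ κx / 2 := by
          rw [hδdef]
          exact ENNReal.mul_div_le
  · -- far cells
    have hterm : ∀ l' ∈ Kf, (⨆ x' ∈ strip u i1 i2 i a ℓ (t + l' * (c2 - c1)),
      mt u R κ Q s ((ℓ + N : ℕ) : ℤ) (strip u i1 i2 i a (ℓ + N) (t + c1 + (l + o : ℤ) * (c2 - c1)))
        (strip u i1 i2 i a (ℓ + N) (t + c1 + (l' + o : ℤ) * (c2 - c1))) x x') ≤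
        H / s ^ 2 * natLaw κ Q u R {ω | UU u i1 i2 N ω i - c1 ∈
          Ioo (((l + o - l' : ℤ) : ℝ) * (c2 - c1) - a) (((l + o - l' : ℤ) : ℝ) * (c2 - c1) + a)} := by
      intro l' _
      refine iSup₂_le fun x' hx' => ?_
      refine (hCAP _ _ _ x x' (by rw [hx.1, hx'.1])).trans (mul_le_mul' le_rfl ?_)
      have h3 := succ_strip_le u i1 i2 i F (n := N) (t := t + (l + o : ℤ) * (c2 - c1)) (c := c1)
        hx' hc
      have e1 : t + (l + o : ℤ) * (c2 - c1) + c1 = t + c1 + (l + o : ℤ) * (c2 - c1) := by ring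
      rw [e1] at h3
      refine h3.trans (le_of_eq ?_)
      have e2 : t + ((l + o : ℤ) : ℝ) * (c2 - c1) - (t + l' * (c2 - c1)) =
        ((l + o - l' : ℤ) : ℝ) * (c2 - c1) := by push_cast; ring
      rw [e2]
    refine (Finset.sum_le_sum hterm).trans ?_
    rw [← Finset.mul_sum]
    refine le_trans ?_ hm
    gcongr
    have hmeas : Measurable fun ω : MPath d => UU u i1 i2 N ω i - c1 :=
      ((MobW437.meas_U (lp F u h1 h2 h12 hc) N).eval (a := i)).sub_const _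
    have h3 := sum_windows (P := natLaw κ Q u R) hmeas hΔ ha0 Kf (fun l' => l + o - l')
      (fun x y h => by simpa using h) (r := 9 * wl (lp F u h1 h2 h12 hc) i (m * N)) ?_
    · exact h3.trans (le_of_real htail)
    · intro l' hl'
      have h4 := (Finset.mem_filter.1 hl').2
      have h5 : (R0 : ℤ) ≤ |l + o - l'| := by
        have h6 : |l' - l| ≤ |l + o - l'| + |o| := by
          have := abs_sub o (l + o - l')
          have e : o - (l + o - l') = l' - l := by ring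
          rw [e] at this
          linarith
        omega
      have h6 : (R0 : ℝ) ≤ |((l + o - l' : ℤ) : ℝ)| := by exact_mod_cast h5
      have h7 : (1 : ℝ) ≤ R0 := by exact_mod_cast hR0
      rw [abs_mul]
      have h8 : (R0 : ℝ) * (4 * a) ≤ |((l + o - l' : ℤ) : ℝ)| * |c2 - c1| := by gcongr
      have h9 : 9 * wl (lp F u h1 h2 h12 hc) i (m * N) ≤ 3 * a * R0 := by
        have h10 : 240 * B * wl (lp F u h1 h2 h12 hc) i N ≤ R0 * (80 * a) := by
          have hB0 : 0 ≤ B := by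
            by_contra hneg
            push Not at hneg
            nlinarith
          have : wl (lp F u h1 h2 h12 hc) i N ≤ 80 * a := by linarith
          gcongr
        nlinarith
      nlinarith

/-- the near bound of helper424 from helper923's capacity bound -/
lemma nearP (F : Bind263.Frame Q κ R) (hd : 3 ≤ d) (u : Step d)
    (hA : annealedProb Q 0 (escapeEvent (B2d.dirVec u)) ≠ 0) (hHalf : KB424.Half κ Q) :
    NearP u R κ Q := by
  intro s δ hs hs1 hδ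
  obtain ⟨H, hH, hCAP⟩ := Cap923.cap_frame (u := u) F hHalf
  exact Near424.near F hd hA hHalf hH
    (fun s b hs hs1 => hCAP s hs (ne_top_of_le_ne_top ENNReal.one_ne_top hs1) b) hs hs1 hδ

/-- **(ROW), closed**: for `s, κx` there is a multiple `m` such that at every dyadic height `N ≥ N0`
with `wl (m N) ≤ B wl N` the cells of helper437's `mob` satisfy both row conditions of helper872's
binding (own target cell, right target cell). -/
theorem row_final (F : Bind263.Frame Q κ R) (hd : 3 ≤ d) (u : Step d) {i1 i2 : Fin d}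
    (h1 : i1 ≠ u.1) (h2 : i2 ≠ u.1) (h12 : i1 ≠ i2) (hc : mkAnn κ Q 0 (Nat0 u R) ≠ 0)
    (hA : annealedProb Q 0 (escapeEvent (B2d.dirVec u)) ≠ 0) (hHalf : KB424.Half κ Q) (i : Fin 2)
    {s κx : ℝ≥0∞} (hs : s ≠ 0) (hs1 : s ≤ 1) (hκ : κx ≠ 0) :
    ∃ m : ℕ, 3 ≤ m ∧ ∀ B : ℝ, ∃ p N0 : ℕ, ∀ N : ℕ, N0 ≤ N → 2 ^ p ∣ N →
      wl (lp F u h1 h2 h12 hc) i (m * N) ≤ B * wl (lp F u h1 h2 h12 hc) i N →
      ∀ c1 c2 a : ℝ, wl (lp F u h1 h2 h12 hc) i N / 80 ≤ a → 4 * a ≤ |c2 - c1| →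
        (natLaw κ Q u R).real
          {ω | 9 * wl (lp F u h1 h2 h12 hc) i (m * N) < |UU u i1 i2 N ω i - c1|} ≤
            6 / (100 * m) →
        ∀ (ℓ : ℕ) (t : ℝ),
          ROW u R κ Q s ((ℓ + N : ℕ) : ℤ) (fun x : ℤ => strip u i1 i2 i a ℓ (t + x * (c2 - c1)))
            (fun x : ℤ => strip u i1 i2 i a (ℓ + N) (t + c1 + x * (c2 - c1))) κx ∧
          ROW u R κ Q s ((ℓ + N : ℕ) : ℤ) (fun x : ℤ => strip u i1 i2 i a ℓ (t + x * (c2 - c1)))
            (fun x : ℤ => strip u i1 i2 i a (ℓ + N) (t + c1 + (x + 1) * (c2 - c1))) κx := by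
  obtain ⟨H, hH, hCAP⟩ := Cap923.cap_frame (u := u) F hHalf
  obtain ⟨m, hm, hrow⟩ := row F u h1 h2 h12 hc i (nearP F hd u hA hHalf) hs hs1 hH
    (fun b => hCAP s hs (ne_top_of_le_ne_top ENNReal.one_ne_top hs1) b) hκ
  refine ⟨m, hm, fun B => ?_⟩
  obtain ⟨p, N0, h⟩ := hrow B
  refine ⟨p, N0, fun N hN0 hpN hB c1 c2 a ha hΔ htail ℓ t => ⟨?_, ?_⟩⟩
  · have h3 := h N hN0 hpN hB c1 c2 a ha hΔ htail ℓ t 0 (by simp)
    simpa using h3
  · have h3 := h N hN0 hpN hB c1 c2 a ha hΔ htail ℓ t 1 (by simp)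
    simpa using h3

end row

end Crest.Agent.R154.Row12
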