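import Crest.Agent.R154.TileReg_872
import Crest.Agent.R154.Row_12
import Crest.Agent.R154.KSe_402
import Crest.Agent.R154.KSAll_480
import Crest.Agent.R154.D2Asm_244
import Crest.Agent.R154.ChainFL_263

/-! Row 154, B8, TILE, with the EXPLICIT cost `m = log (409600 / p) + log A₀` (for the dichotomy of
263 #36390 / 903 #36944): **regular tiles with no open input**, `d ≥ 3`: at every height `N` (multiple of
`2 ^ P`) at which the right move of 437 has probability `≥ 1/(51200 A₀)` and the widths satisfy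
`wl (M N) ≤ B wl N`, the natural climbs form a tile system with cost `m = m(A₀)` and rate `Λ m`. -/

set_option autoImplicit false
set_option linter.unusedSectionVars false
set_option linter.deprecated false
set_option linter.unusedVariables false

namespace Crest.Agent.R154.TileExp872

open MeasureTheory ProbabilityTheory Set Filter Crest.ProbabilityR.RandomEnvironment
open Crest.Agent.R154.Mk561 Crest.Agent.R154.Q561
open Crest.Agent.R154.Flux132 (lev)
open Crest.Agent.R154.RatioR872 Crest.Agent.R154.Tile872 Crest.Agent.R154.KS480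
open Crest.Agent.R154.TileReg872
open Crest.Agent.R154.B4Inst797 (Nat0 natLaw UU lat lp natLaw_isProb nat_ne_zero)
open Crest.Agent.R154.MobW437 (wl Sl)
open Crest.Agent.R154.WindowK299 (TileSys)
open scoped ENNReal Topology

variable {d : ℕ}
variable {Q : Measure (Environment d)} [IsProbabilityMeasure Q] {κ : ℝ} {R : ℕ}
variable {u : Step d} {i1 i2 : Fin d}

/-- **REGULAR TILES**, no open input. Order of the constants: `A₀`, `m`, `Λ`, `(m1, M)`, `B`,
`(P, N0)`. -/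
theorem tile_regular_exp (F : Bind263.Frame Q κ R) (hd : 3 ≤ d) (h1 : i1 ≠ u.1) (h2 : i2 ≠ u.1)
    (h12 : i1 ≠ i2) (hA : annealedProb Q 0 (escapeEvent (B2d.dirVec u)) ≠ 0)
    (hHalf : KB424.Half κ Q) (i : Fin 2) (A₀ : ℕ) (hA₀ : 1 ≤ A₀) :
    ∃ m : ℝ, 1 ≤ m ∧ m = Real.log (409600 / (mkAnn κ Q 0 (Nat0 u R)).toReal) + Real.log A₀ ∧
      ∀ Λ : ℝ, ∃ (m1 : ℝ) (M : ℕ), 3 ≤ M ∧ ∀ B : ℝ, ∃ P N0 : ℕ,
      ∀ N : ℕ, N0 ≤ N → 2 ^ P ∣ N →
        Sl (lp F u h1 h2 h12 (nat_ne_zero F u hA)) i N ≤ A₀ →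
        wl (lp F u h1 h2 h12 (nat_ne_zero F u hA)) i (M * N)
          ≤ B * wl (lp F u h1 h2 h12 (nat_ne_zero F u hA)) i N →
        TileSys (kS u R κ Q F.stat F.fin) N (ENNReal.ofReal (Real.exp (-m1)))
          (ENNReal.ofReal (Real.exp (-m))) (ENNReal.ofReal (Real.exp (-(Λ * m)))) := by
  have hc := nat_ne_zero F u hA
  haveI : IsProbabilityMeasure (natLaw κ Q u R) := natLaw_isProb hc
  set L := lp F u h1 h2 h12 (nat_ne_zero F u hA) with hLdef
  set p : ℝ≥0∞ := mkAnn κ Q 0 (Nat0 u R) with hp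
  have hp1 : p ≤ 1 := prob_le_one
  have hpt : p ≠ ∞ := ne_top_of_le_ne_top ENNReal.one_ne_top hp1
  have hA0r : (1 : ℝ) ≤ A₀ := by exact_mod_cast hA₀
  set g' : ℝ≥0∞ := ENNReal.ofReal (1 / (51200 * A₀)) with hg'
  have hg'0 : g' ≠ 0 := (ENNReal.ofReal_pos.2 (by positivity)).ne'
  have hg't : g' ≠ ∞ := ENNReal.ofReal_ne_top
  set g : ℝ≥0∞ := p * g' with hg
  have hg0 : g ≠ 0 := mul_ne_zero hc hg'0
  have hg'1 : g' ≤ ENNReal.ofReal (1 / 51200) := by
    refine ENNReal.ofReal_le_ofReal (one_div_le_one_div_of_le (by norm_num) (by nlinarith))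
  have hgb : g ≤ ENNReal.ofReal (1 / 51200) := by
    calc g ≤ 1 * ENNReal.ofReal (1 / 51200) := mul_le_mul' hp1 hg'1
      _ = _ := one_mul _
  have hg1 : g ≤ 1 := by
    refine hgb.trans ?_
    rw [← ENNReal.ofReal_one]
    exact ENNReal.ofReal_le_ofReal (by norm_num)
  set γ : ℝ≥0∞ := g / 8 with hγ
  have hγ0 : γ ≠ 0 := (ENNReal.div_pos hg0 (by norm_num)).ne'
  have hγg : γ ≤ g := ENNReal.div_le_of_le_mul (by
    calc g = g * 1 := (mul_one _).symm
      _ ≤ g * 8 := by gcongr; norm_num)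
  have hγ1 : γ ≤ 1 := hγg.trans hg1
  have hγt : γ ≠ ∞ := ne_top_of_le_ne_top ENNReal.one_ne_top hγ1
  set γr : ℝ := γ.toReal with hγr
  have hγrpos : 0 < γr := ENNReal.toReal_pos hγ0 hγt
  have hγrle : γr ≤ 1 / 51200 := by
    refine ENNReal.toReal_le_of_le_ofReal (by norm_num) (hγg.trans hgb)
  set m : ℝ := -Real.log γr with hm
  have hexpm : ENNReal.ofReal (Real.exp (-m)) = γ := by
    rw [hm, neg_neg, Real.exp_log hγrpos, hγr, ENNReal.ofReal_toReal hγt]
  have hm1 : 1 ≤ m := by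
    have h3 : Real.log γr ≤ Real.log (1 / 51200) := Real.log_le_log hγrpos hγrle
    have h4 : Real.log (1 / 51200) ≤ -1 := by
      rw [Real.log_le_iff_le_exp (by norm_num), Real.exp_neg, one_div]
      refine inv_anti₀ (Real.exp_pos 1) ?_
      have := Real.exp_one_lt_d9
      linarith
    linarith
  have hp0r : 0 < p.toReal := ENNReal.toReal_pos hc hpt
  have hmeq : m = Real.log (409600 / p.toReal) + Real.log A₀ := by
    have hγreq : γr = p.toReal * (1 / (51200 * A₀)) / 8 := by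
      rw [hγr, hγ, hg, hg', ENNReal.toReal_div, ENNReal.toReal_mul,
        ENNReal.toReal_ofReal (by positivity)]
      norm_num
    rw [hm, ← Real.log_mul (by positivity) (by positivity), ← Real.log_inv]
    congr 1
    rw [hγreq]
    field_simp
    try norm_num
  refine ⟨m, hm1, hmeq, fun Λ => ?_⟩
  have hm0 : 0 < m := by linarith
  set θ : ℝ≥0∞ := ENNReal.ofReal (Real.exp (-(max Λ 0 * m))) with hθ
  have hθ0 : θ ≠ 0 := (ENNReal.ofReal_pos.2 (Real.exp_pos _)).ne'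
  have hθ1 : θ ≤ 1 := by
    rw [hθ, ← ENNReal.ofReal_one]
    refine ENNReal.ofReal_le_ofReal ?_
    rw [Real.exp_le_one_iff]
    have : 0 ≤ max Λ 0 * m := mul_nonneg (le_max_right _ _) hm0.le
    linarith
  have hθt : θ ≠ ∞ := ENNReal.ofReal_ne_top
  set q : ℝ≥0∞ := θ ^ 2 / 54 with hq
  have hq0 : q ≠ 0 := (ENNReal.div_pos (pow_ne_zero 2 hθ0) (by norm_num)).ne'
  have hq54 : 54 * q = θ ^ 2 := ENNReal.mul_div_cancel (by norm_num) (by norm_num)
  have hθsq : θ ^ 2 ≤ 1 := pow_le_one' hθ1 2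
  obtain ⟨κ₁, κx, ε, hκ0, hκ1, hx0, hx1, hε0, hKS⟩ :=
    ksf_all u R κ Q F.stat F.fin (halfE u R κ Q F.fin) hg0 hg1 hq0
  obtain ⟨n0, hLate⟩ := KB424.lateHyp F hd hA hHalf
  obtain ⟨γ₀, hγ00, hγ01, N1, hreg⟩ := tileSys_reg F h1 h2 h12 hA i hLate hγ0 hγ1 hκ0
    (ne_top_of_le_ne_top ENNReal.one_ne_top hκ1) hε0 hq0 hKS (hq54.trans_le hθsq) hθ1 (by
      calc 27 * q ≤ 54 * q := by gcongr; norm_num
        _ = θ ^ 2 := hq54)
  have hs0 : g / 2 ≠ 0 := (ENNReal.div_pos hg0 (by norm_num)).ne'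
  have hs1 : g / 2 ≤ 1 := ENNReal.half_le_self.trans hg1
  obtain ⟨M, hM3, hrow⟩ := Row12.row_final F hd u h1 h2 h12 (nat_ne_zero F u hA) hA hHalf i hs0 hs1 hx0
  obtain ⟨l0, hmob⟩ := MobW437.mob L i M
  have hγ0t : γ₀ ≠ ∞ := ne_top_of_le_ne_top ENNReal.one_ne_top hγ01
  have hγ0pos : 0 < γ₀.toReal := ENNReal.toReal_pos hγ00 hγ0t
  refine ⟨-Real.log γ₀.toReal, M, hM3, fun B => ?_⟩
  obtain ⟨P, N2, hrow2⟩ := hrow B
  refine ⟨P, N1 + N2 + l0, fun N hN hPN hS hwl => ?_⟩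
  obtain ⟨hS1, hw128, c1, c2, a, g1, g2, g3, g4, g5, g6, g7⟩ := hmob N (by omega)
  have hSr : (Sl L i N : ℝ) ≤ A₀ := by exact_mod_cast hS
  have hSr1 : (1 : ℝ) ≤ Sl L i N := by exact_mod_cast hS1
  have htail := g7 M hM3 le_rfl
  have hR := hrow2 N (by omega) hPN hwl c1 c2 a g1 g3 htail
  have hT := hreg N (by omega) c1 c2 a g' g1 le_rfl
    (fun α z hz => by
      refine (ENNReal.ofReal_le_ofReal ?_).trans (ofReal_le_of_real (g5 α z hz))
      exact one_div_le_one_div_of_le (by norm_num) (by nlinarith))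
    (fun α z hz => by
      refine (ENNReal.ofReal_le_ofReal ?_).trans (ofReal_le_of_real (g6 α z hz))
      exact one_div_le_one_div_of_le (by positivity) (by nlinarith))
    hR
  refine WindowK299.TileSys.mono hT ?_ (le_of_eq hexpm) ?_
  · rw [neg_neg, Real.exp_log hγ0pos, ENNReal.ofReal_toReal hγ0t]
  · rw [hθ]
    refine ENNReal.ofReal_le_ofReal (Real.exp_le_exp.2 ?_)
    have : Λ * m ≤ max Λ 0 * m := mul_le_mul_of_nonneg_right (le_max_left _ _) hm0.le
    linarith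

end Crest.Agent.R154.TileExp872
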