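import Crest.Agent.R154.HM7_299
import Crest.Agent.R154.TileExp_872

/-!
# (HM7), frame version: `hw_of_irr`
-/

set_option autoImplicit false
set_option linter.deprecated false
set_option linter.unusedVariables false
set_option linter.unusedSectionVars false

open MeasureTheory ENNReal Crest.ProbabilityR.RandomEnvironment
open Crest.Agent.R154.RatioR872 Crest.Agent.R154.WindowK299
open Crest.Agent.R154.Mk561 Crest.Agent.R154.Q561
open Crest.Agent.R154.B4Inst797 (Nat0 natLaw UU lat lp natLaw_isProb nat_ne_zero)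
open Crest.Agent.R154.MobW437 (wl Sl)

namespace Crest.Agent.R154.HM7299

/-- the regularity predicate of an octave -/
def regL {Ω : Type*} [MeasurableSpace Ω] {P : Measure Ω} (L : B4.LP P) (i : Fin 2) :
    ℕ → ℕ → ℝ → ℕ → Prop :=
  fun A0 M B' n => Sl L i (2 ^ n) ≤ A0 ∧ wl L i (M * 2 ^ n) ≤ B' * wl L i (2 ^ n)

theorem sq_le_pow (n : ℕ) (hn : 4 ≤ n) : n ^ 2 ≤ 2 ^ n := by
  induction n, hn using Nat.le_induction with
  | base => norm_num
  | succ m hm ih =>
    have h3 : (m + 1) ^ 2 ≤ 2 * m ^ 2 := by nlinarith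
    calc (m + 1) ^ 2 ≤ 2 * m ^ 2 := h3
      _ ≤ 2 * 2 ^ m := Nat.mul_le_mul_left 2 ih
      _ = 2 ^ (m + 1) := by ring

/-- logarithms against powers of `2` -/
theorem grow_log (c : ℝ) (C : ℝ) : ∃ A0 : ℕ, 1 ≤ A0 ∧ C ≤ c + Real.log A0 ∧
    800 * C * (c + Real.log A0) ≤ 2 ^ A0 := by
  obtain ⟨k1, hk1⟩ := exists_nat_ge (|800 * C| * (|c| + 1))
  obtain ⟨k2, hk2⟩ := exists_nat_ge (Real.exp (C - c))
  set k : ℕ := k1 + k2 with hkdef
  have hk : |800 * C| * (|c| + 1) ≤ (k : ℝ) := hk1.trans (by exact_mod_cast (by omega : k1 ≤ k))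
  refine ⟨k + 4, by omega, ?_, ?_⟩
  · have h1 : Real.exp (C - c) ≤ ((k + 4 : ℕ) : ℝ) :=
      hk2.trans (by exact_mod_cast (by omega : k2 ≤ k + 4))
    have h2 := Real.log_le_log (Real.exp_pos _) h1
    rw [Real.log_exp] at h2
    linarith
  generalize hC' : 800 * C = C' at hk ⊢
  clear hk1
  set n : ℕ := k + 4 with hn
  have hn4 : 4 ≤ n := by omega
  have hn1 : (1 : ℝ) ≤ n := by exact_mod_cast (by omega : 1 ≤ n)
  have h1 : Real.log n ≤ n := by
    have := Real.log_le_sub_one_of_pos (show (0 : ℝ) < n by linarith)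
    linarith
  have h0 : 0 ≤ Real.log n := Real.log_nonneg hn1
  have h2 : (n : ℝ) ^ 2 ≤ 2 ^ n := by
    have : n ^ 2 ≤ 2 ^ n := sq_le_pow n hn4
    exact_mod_cast this
  have hkn : |C'| * (|c| + 1) ≤ n := by
    refine hk.trans ?_
    exact_mod_cast (by omega : k ≤ n)
  calc C' * (c + Real.log n) ≤ |C'| * |c + Real.log n| := by
        rw [← abs_mul]; exact le_abs_self _
    _ ≤ |C'| * (|c| + n) := by
        gcongr
        calc |c + Real.log n| ≤ |c| + |Real.log n| := abs_add_le _ _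
          _ ≤ |c| + n := by rw [abs_of_nonneg h0]; linarith
    _ ≤ |C'| * ((|c| + 1) * n) := by
        gcongr
        have : 0 ≤ |c| := abs_nonneg c
        nlinarith
    _ = (|C'| * (|c| + 1)) * n := by ring
    _ ≤ n * n := by gcongr
    _ = (n : ℝ) ^ 2 := by ring
    _ ≤ 2 ^ n := h2

variable {d : ℕ} {Q : Measure (Environment d)} [IsProbabilityMeasure Q] {κ : ℝ} {R : ℕ}
variable {u : Step d} {i1 i2 : Fin d}

/-- **(HM7)** HW from the irregular side, every frame of dimension `≥ 3` with half coins. -/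
theorem hw_of_irr (F : Bind263.Frame Q κ R) (hd : 3 ≤ d) (h1 : i1 ≠ u.1) (h2 : i2 ≠ u.1)
    (h12 : i1 ≠ i2) (hA : annealedProb Q 0 (escapeEvent (B2d.dirVec u)) ≠ 0)
    (hHalf : KB424.Half κ Q) (i : Fin 2)
    (hIrr : Irr (D2Asm244.kT u R κ Q F.stat F.fin)
      (regL (lp F u h1 h2 h12 (nat_ne_zero F u hA)) i)) :
    ChainFL.HW (D2Asm244.kT u R κ Q F.stat F.fin) := by
  have hc := nat_ne_zero F u hA
  haveI : IsProbabilityMeasure (natLaw κ Q u R) := natLaw_isProb hc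
  refine hW_of_win F u (win_of (A := D2Asm244.kT u R κ Q F.stat F.fin) _
    (fun A0 => Real.log (409600 / (mkAnn κ Q 0 (Nat0 u R)).toReal) + Real.log A0)
    (fun A0 hA0 => ?_) (grow_log _) (fun A0 hA0 Λ => ?_) hIrr)
  · obtain ⟨m, hm1, hm, -⟩ := TileExp872.tile_regular_exp F hd h1 h2 h12 hA hHalf i A0 hA0
    rw [← hm]; exact hm1
  · obtain ⟨m, hm1, hm, hT⟩ := TileExp872.tile_regular_exp F hd h1 h2 h12 hA hHalf i A0 hA0
    obtain ⟨m1, M, hM, hT2⟩ := hT Λ
    refine ⟨m1, M, hM, fun B' => ?_⟩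
    obtain ⟨P', N0, hT3⟩ := hT2 B'
    refine ⟨P' + N0, fun n hn hreg => ?_⟩
    have hN0 : N0 ≤ 2 ^ n := by
      have := (Nat.lt_two_pow_self (n := n)).le
      omega
    rw [← hm]
    exact D2Asm244.tileSys_congr (hT3 (2 ^ n) hN0 (Nat.pow_dvd_pow 2 (by omega)) hreg.1 hreg.2)

end Crest.Agent.R154.HM7299
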