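import Crest.Agent.R154.HMIn_263
import Crest.Agent.R154.Try_9
import Crest.Agent.R154.Trav_32
import Crest.Agent.R154.UnitsAt_299
import Crest.Agent.R154.HMnum2_460

/-!
Row 154, HOME, HM8 (helper187), part A: one window with explicit numbers.
-/

set_option autoImplicit false
set_option linter.unusedSectionVars false
set_option linter.unusedVariables false

namespace Crest.Agent.R154.HM8187

open MeasureTheory ProbabilityTheory Set
open Crest.Agent.R154.RatioR872 Crest.Agent.R154.RatioR872.KerSys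
open Crest.Agent.R154.Home903 Crest.Agent.R154.Doc74 Crest.Agent.R154.Units299
open scoped ENNReal Classical

/-- `e ^ x` in `ℝ≥0∞` -/
noncomputable def E (x : ℝ) : ℝ≥0∞ := ENNReal.ofReal (Real.exp x)

lemma E_mul (x y : ℝ) : E x * E y = E (x + y) := HMnum460.ofReal_exp_mul x y

lemma E_pow (x : ℝ) (n : ℕ) : E x ^ n = E (n * x) := HMnum460.ofReal_exp_pow x n

lemma E_le {x y : ℝ} (h : x ≤ y) : E x ≤ E y :=
  ENNReal.ofReal_le_ofReal (Real.exp_le_exp.2 h)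

lemma E_ne_top (x : ℝ) : E x ≠ ∞ := ENNReal.ofReal_ne_top

lemma E_ne_zero (x : ℝ) : E x ≠ 0 := by
  unfold E
  rw [Ne, ENNReal.ofReal_eq_zero, not_le]
  exact Real.exp_pos x

lemma E_zero : E 0 = 1 := by
  unfold E
  rw [Real.exp_zero, ENNReal.ofReal_one]

lemma E_inv (x : ℝ) : (E (-x))⁻¹ = E x := by
  refine (ENNReal.eq_inv_of_mul_eq_one_left ?_).symm
  rw [E_mul, add_neg_cancel, E_zero]

lemma E_rpow (x θ : ℝ) : E x ^ θ = E (x * θ) := by
  unfold E
  rw [ENNReal.ofReal_rpow_of_pos (Real.exp_pos _), ← Real.exp_mul]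

lemma two_le : (2 : ℝ≥0∞) ≤ E 1 := by
  have h5 := Real.exp_one_gt_d9
  have e : (2 : ℝ≥0∞) = ENNReal.ofReal 2 := by norm_num
  rw [e]
  exact ENNReal.ofReal_le_ofReal (by linarith)

lemma E_neg1 : E (-1) ≤ 2⁻¹ := by
  rw [← ENNReal.inv_le_inv, inv_inv]
  have := E_inv 1
  rw [this]
  exact two_le

lemma add_E {x y z : ℝ} (hx : x + 1 ≤ z) (hy : y + 1 ≤ z) : E x + E y ≤ E z := by
  calc E x + E y ≤ E (z - 1) + E (z - 1) := add_le_add (E_le (by linarith)) (E_le (by linarith))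
    _ = 2 * E (z - 1) := by ring
    _ ≤ E 1 * E (z - 1) := mul_le_mul' two_le le_rfl
    _ = E z := by rw [E_mul]; congr 1; ring

/-- the STAT price -/
lemma statE {Ks : ℝ≥0∞} {L b θ x y ρ : ℝ} {r s : ℕ} (hKs : 2 * Ks ≤ E L) (hL : L * r ≤ ρ)
    (hb : b * r ≤ ρ) (h1 : ρ - x * θ ≤ y - 1) (h2 : ρ - (b - 1) * s ≤ y - 1) :
    (2 * Ks) ^ r * E (-x) ^ θ + (2 * E (-b)) ^ s * (1 / E (-b)) ^ r ≤ E y := by
  have e1 : (2 * Ks) ^ r ≤ E (r * L) := by
    rw [← E_pow]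
    exact pow_le_pow_left₀ zero_le hKs r
  have e2 : (2 * E (-b)) ^ s ≤ E (s * (1 - b)) := by
    rw [← E_pow]
    refine pow_le_pow_left₀ zero_le ?_ s
    calc 2 * E (-b) ≤ E 1 * E (-b) := mul_le_mul' two_le le_rfl
      _ = E (1 - b) := by rw [E_mul]; congr 1
  have e3 : (1 / E (-b)) ^ r = E (r * b) := by
    rw [one_div, E_inv, E_pow]
  rw [E_rpow, e3]
  calc (2 * Ks) ^ r * E (-x * θ) + (2 * E (-b)) ^ s * E (r * b)
      ≤ E (r * L) * E (-x * θ) + E (s * (1 - b)) * E (r * b) := by gcongr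
    _ = E (r * L + -x * θ) + E (s * (1 - b) + r * b) := by rw [E_mul, E_mul]
    _ ≤ E y := add_E (by linarith) (by linarith)

variable {S : Type*} [Countable S] {Ω : Type*} {m0 : MeasurableSpace Ω} {P : Measure Ω}
variable {A : KerSys S P}

lemma prodAbs_of_stat {φ : S → ℝ} {k N : ℕ} {D g0 θ : ℝ} {η Ks : ℝ≥0∞}
    (h : StatAt A φ k N D g0 θ η Ks) {r s a e : ℕ} (hae : a ≤ e) (her : e ≤ a + r * N)
    {z p : ℝ≥0∞} (hp : (2 * Ks) ^ r * z ^ θ + (2 * η) ^ s * (1 / η) ^ r ≤ p) :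
    ProdAbs A φ k a e (2 * s * D) (g0 + 4 * s * D) z p := by
  intro w hw B hB h1 hg
  obtain ⟨l, rfl⟩ := Nat.exists_eq_add_of_le hae
  exact (h r s a l (by omega) w B hB hw h1 hg z).trans (mul_le_mul' hp le_rfl)

/-- one law, static, over `[a, e]` -/
lemma home1 {φ : S → ℝ} {N : ℕ} {D g0 θ : ℝ} {η Ks : ℝ≥0∞}
    (h : StatAt A φ 1 N D g0 θ η Ks) {r s a e : ℕ} (hae : a ≤ e) (her : e ≤ a + r * N)
    {z p : ℝ≥0∞} (hp : (2 * Ks) ^ r * z ^ θ + (2 * η) ^ s * (1 / η) ^ r ≤ p) :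
    ∀ w, A.Wt a w → (∀ ω, tot w ω ≤ 1) → ∀ B, MeasurableSet[A.F a] B →
      P (B ∩ {ω | tot (rpush A (fun x y => |φ y - φ x| ≤ 2 * s * D) a e w) ω < z * tot w ω})
        ≤ p * P B :=
  homeAt (prodAbs_of_stat h hae her hp).toProdAt

/-- the numbers of the traveller -/
lemma Z_le {x : ℝ} (hx : 0 ≤ x) :
    1 + 2 * (E x + E x) / E (-1) + (E x + E x) ≤ E (x + 3) := by
  have h1 : 1 ≤ E x := by rw [← E_zero]; exact E_le hx
  have h2 : 2 * (E x + E x) / E (-1) = 4 * (E 1 * E x) := by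
    rw [div_eq_mul_inv, E_inv]; ring
  rw [h2]
  have h3 : (1 : ℝ≥0∞) + 4 * E 1 + 2 ≤ E 3 := by
    have h5 := Real.exp_one_gt_d9
    have h6 := Real.exp_one_lt_d9
    have e1 : E 1 = ENNReal.ofReal (Real.exp 1) := rfl
    have e3 : E 3 = ENNReal.ofReal (Real.exp 3) := rfl
    have e4 : (1 : ℝ≥0∞) + 4 * E 1 + 2 = ENNReal.ofReal (1 + 4 * Real.exp 1 + 2) := by
      rw [ENNReal.ofReal_add (by positivity) (by norm_num),
        ENNReal.ofReal_add (by norm_num) (by positivity),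
        ENNReal.ofReal_mul (by norm_num), e1]
      norm_num
    rw [e4, e3]
    refine ENNReal.ofReal_le_ofReal ?_
    have e5 : Real.exp 3 = Real.exp 1 ^ 3 := by
      rw [← Real.exp_nat_mul]; norm_num
    rw [e5]
    nlinarith [sq_nonneg (Real.exp 1)]
  calc 1 + 4 * (E 1 * E x) + (E x + E x) ≤ E x + 4 * (E 1 * E x) + (E x + E x) := by gcongr
    _ = (1 + 4 * E 1 + 2) * E x := by ring
    _ ≤ E 3 * E x := mul_le_mul' h3 le_rfl
    _ = E (x + 3) := by rw [E_mul]; congr 1; ring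

/-- **the traveller over one grid step** -/
theorem travGrid {φ : S → ℝ} {N : ℕ} {D g1 θ b L : ℝ} (hθ : 0 < θ) (hb : 3 ≤ b)
    (hbL : b ≤ L) {Ks : ℝ≥0∞} (hKs : 2 * Ks ≤ E L)
    (h1 : StatAt A φ 1 N D g1 θ (E (-b)) Ks)
    {Lm : ℕ} {Δ X ℓ : ℝ} (hΔ : 0 ≤ Δ) (hX : 0 ≤ X) (hℓ : 0 ≤ ℓ)
    (hJ : JumpAt A φ Lm Δ (E (-X)) (E (-ℓ)))
    {s m rm : ℕ} (hs : 1 ≤ s) (hrm : Lm ≤ rm * N) {a e : ℕ} (hae : a + 2 * s * Lm ≤ e)
    {D2 : ℝ} {z p2 : ℝ≥0∞}
    (hrest : ∀ w, A.Wt (a + 2 * s * Lm) w → (∀ ω, tot w ω ≤ 1) →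
      ∀ B, MeasurableSet[A.F (a + 2 * s * Lm)] B →
      P (B ∩ {ω | tot (rpush A (fun x y => |φ y - φ x| ≤ D2) (a + 2 * s * Lm) e w) ω
        < z * tot w ω}) ≤ p2 * P B) :
    ∀ w, A.Wt a w → (∀ ω, tot w ω ≤ 1) → ∀ B, MeasurableSet[A.F a] B →
      P (B ∩ {ω | tot (rpush A (fun x y => s * Δ - (m * (2 * s) : ℕ) * (2 * D) - D2
          ≤ φ y - φ x) a e w) ω
        < E (-((2 / θ) * (m * (2 * s)) + X * (2 * s))) * z * tot w ω}) ≤
        ((E ((2 - ℓ) * s) + E ((L * rm + 3 - m) * (2 * s))) + p2) * P B := by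
  have hb0 : 0 ≤ b := by linarith
  have hLr : (0 : ℝ) ≤ L * rm := by
    have : (0 : ℝ) ≤ rm := Nat.cast_nonneg _
    have : 0 ≤ L := hb0.trans hbL
    positivity
  set lv : ℕ → ℕ := fun t => a + t * Lm with hlv
  have hlvm : Monotone lv := fun t t' h => by
    simp only [hlv]
    exact Nat.add_le_add_left (Nat.mul_le_mul_right _ h) _
  have hstep : ∀ t, lv (t + 1) = lv t + Lm := fun t => by simp only [hlv]; ring
  have hq : E (-2) ≤ E (-1) / 2 := by
    calc E (-2) = E (-1) * E (-1) := by rw [E_mul]; congr 1; norm_num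
      _ ≤ E (-1) * 2⁻¹ := mul_le_mul' le_rfl E_neg1
      _ = E (-1) / 2 := by rw [div_eq_mul_inv]
  have hC : 1 ≤ E (L * rm) + E (L * rm) := by
    refine le_trans ?_ le_self_add
    rw [← E_zero]; exact E_le hLr
  have key := fun (w : Ω → S → ℝ≥0∞) (hw : A.Wt (lv 0) w) (hw1 : ∀ ω, tot w ω ≤ 1) (B : Set Ω)
      (hB : MeasurableSet[A.F (lv 0)] B) => Trav32.trav_half (A := A) (P := P) (φ := φ) (lv := lv) hlvm (s := s) hs (Δ := Δ)
    (D1 := 2 * D) hΔ (η := E (-X)) (ε1 := E (-(2 / θ))) (δ := E (-ℓ)) (q := E (-2))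
    (C := E (L * rm) + E (L * rm)) (σ := E (-1))
    (by rw [← E_zero]; exact E_le (by linarith)) hC
    (by rw [← E_zero]; exact E_le (by linarith)) (E_ne_zero _) (E_ne_zero _) (E_ne_top _) hq
    (by
      intro t ht w hw hw1 B hB
      rw [hstep]
      exact hJ (lv t) w B hB hw hw1)
    (by
      intro t ht w hw hw1 B hB j hj
      have hjr : (1 : ℝ) ≤ j := by exact_mod_cast hj
      have h2 := home1 h1 (r := rm) (s := j) (a := lv t) (e := lv (t + 1))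
        (hlvm (Nat.le_succ t)) (by rw [hstep]; omega) (z := E (-(2 / θ)) ^ j)
        (p := (E (L * rm) + E (L * rm)) * E (-2) ^ j) (by
          rw [E_pow, E_rpow, E_pow]
          have e1 : (2 * Ks) ^ rm ≤ E (L * rm) := by
            rw [mul_comm L, ← E_pow]
            exact pow_le_pow_left₀ zero_le hKs rm
          have e2 : (2 * E (-b)) ^ j ≤ E (j * (-2)) := by
            rw [← E_pow]
            refine pow_le_pow_left₀ zero_le ?_ j
            calc 2 * E (-b) ≤ E 1 * E (-b) := mul_le_mul' two_le le_rfl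
              _ = E (1 + -b) := by rw [E_mul]
              _ ≤ E (-2) := E_le (by linarith)
          have e3 : (1 / E (-b)) ^ rm ≤ E (L * rm) := by
            rw [one_div, E_inv, E_pow]
            refine E_le ?_
            rw [mul_comm L]
            exact mul_le_mul_of_nonneg_left hbL (Nat.cast_nonneg _)
          have e4 : (j : ℝ) * -(2 / θ) * θ = j * (-2) := by field_simp
          rw [e4, add_mul]
          exact add_le_add (mul_le_mul' e1 le_rfl) (by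
            rw [mul_comm (E (L * rm))]
            exact mul_le_mul' e2 e3)) w hw hw1 B hB
      have e5 : (2 * (j : ℝ) * D) = j * (2 * D) := by ring
      rw [e5] at h2
      exact h2)
    m hw hw1 hB
  have hlv0 : lv 0 = a := by simp [hlv]
  have hlvJ : lv (2 * s) = a + 2 * s * Lm := by simp only [hlv]
  have htr := trav_rest (A := A) (P := P) (φ := φ) (a := a) (b := a + 2 * s * Lm) (e := e)
    (by omega) hae (d1 := s * Δ - (m * (2 * s) : ℕ) * (2 * D))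
    (d2 := s * Δ - (m * (2 * s) : ℕ) * (2 * D) - D2) (D := D2)
    (e1 := E (-(2 / θ)) ^ (m * (2 * s)) * E (-X) ^ (2 * s)) (e2 := z)
    (p1 := (4 * E (-ℓ)) ^ s + ((1 + 2 * (E (L * rm) + E (L * rm)) / E (-1)
      + (E (L * rm) + E (L * rm))) * E (-1) ^ m) ^ (2 * s)) (p2 := p2) (by linarith)
    (by
      intro w hw hw1 B hB
      have h3 := key w (by rw [hlv0]; exact hw) hw1 B (by rw [hlv0]; exact hB)
      rw [hlv0, hlvJ] at h3
      exact h3)
    hrest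
  intro w hw hw1 B hB
  have h4 := htr w hw hw1 B hB
  have em : E (-(2 / θ)) ^ (m * (2 * s)) * E (-X) ^ (2 * s)
      = E (-((2 / θ) * (m * (2 * s)) + X * (2 * s))) := by
    rw [E_pow, E_pow, E_mul]
    congr 1
    push_cast
    ring
  rw [em] at h4
  refine h4.trans (mul_le_mul' (add_le_add (add_le_add ?_ ?_) le_rfl) le_rfl)
  · have h5 : 4 * E (-ℓ) ≤ E (2 - ℓ) := by
      calc 4 * E (-ℓ) = 2 * (2 * E (-ℓ)) := by ring
        _ ≤ E 1 * (E 1 * E (-ℓ)) := mul_le_mul' two_le (mul_le_mul' two_le le_rfl)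
        _ = E (2 - ℓ) := by rw [E_mul, E_mul]; congr 1; ring
    calc (4 * E (-ℓ)) ^ s ≤ E (2 - ℓ) ^ s := pow_le_pow_left₀ zero_le h5 s
      _ = E ((2 - ℓ) * s) := by rw [E_pow, mul_comm]
  · have h6 : (1 + 2 * (E (L * rm) + E (L * rm)) / E (-1)
      + (E (L * rm) + E (L * rm))) * E (-1) ^ m ≤ E (L * rm + 3 - m) := by
      calc _ ≤ E (L * rm + 3) * E (-1) ^ m := mul_le_mul' (Z_le hLr) le_rfl
        _ = E (L * rm + 3 - m) := by rw [E_pow, E_mul]; congr 1; ring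
    calc _ ≤ E (L * rm + 3 - m) ^ (2 * s) := pow_le_pow_left₀ zero_le h6 _
      _ = _ := by rw [E_pow]; congr 1; push_cast; ring

end Crest.Agent.R154.HM8187
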