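import Crest.Agent.R154.HM8A_187

/-!
Row 154, HOME, HM8 (helper187), part B: the window from explicit numbers.
-/

set_option autoImplicit false
set_option linter.unusedSectionVars false
set_option linter.unusedVariables false

namespace Crest.Agent.R154.HM8187

open MeasureTheory ProbabilityTheory Set
open Crest.Agent.R154.RatioR872 Crest.Agent.R154.RatioR872.KerSys
open Crest.Agent.R154.Home903 Crest.Agent.R154.Doc74 Crest.Agent.R154.Units299
open scoped ENNReal Classical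

variable {S : Type*} [Countable S] {Ω : Type*} {m0 : MeasurableSpace Ω} {P : Measure Ω}
variable {A : KerSys S P}

theorem winAt_core {φ : S → ℝ} {k nt N : ℕ} (hk : 1 ≤ k) (hnt : 1 ≤ nt) {D g0 g1 θ b L : ℝ}
    (hD : 0 ≤ D) (hg0 : 0 ≤ g0) (hθ : 0 < θ) (hb : 3 ≤ b) (hbL : b ≤ L) {Ks Ks1 : ℝ≥0∞}
    (hKs : 2 * Ks ≤ E L) (hKs1 : 2 * Ks1 ≤ E L)
    (hSk : StatAt A φ k N D g0 θ (E (-b)) Ks) (hS1 : StatAt A φ 1 N D g1 θ (E (-b)) Ks1)
    {Lm : ℕ} {Δ X ℓ : ℝ} (hΔ : 0 ≤ Δ) (hX : 0 ≤ X) (hℓ : 0 ≤ ℓ)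
    (hJ : JumpAt A φ Lm Δ (E (-X)) (E (-ℓ)))
    {i : ℕ} {v lam c1 ρ : ℝ} {r sv s m rm : ℕ} (hr : 100 * 10 ^ i ≤ r * N) (hLr : L * r ≤ ρ)
    (hs : 1 ≤ s) (hrm : Lm ≤ rm * N) (hT : nt * k * (2 * s * Lm) ≤ 9 * 10 ^ i)
    (q1 : ρ - (k * (v / 8)) * θ ≤ -((2 * lam + 1) * v) - 1)
    (q2 : ρ - (b - 1) * sv ≤ -((2 * lam + 1) * v) - 1)
    (q3 : ρ - (v / (8 * k)) * θ ≤ (-(c1 * v) - 2) - 1)
    (q4 : ρ - (b - 1) * sv ≤ (-(c1 * v) - 2) - 1)
    (q5 : (2 - ℓ) * s ≤ -(c1 * v) - 2)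
    (q6 : (L * rm + 3 - m) * (2 * s) ≤ -(c1 * v) - 2)
    (q7 : (2 / θ) * (m * (2 * s)) + X * (2 * s) ≤ v / (8 * k))
    (q8 : g0 + 4 * sv * D + 2 * k * (2 * sv * D) ≤ s * Δ - (m * (2 * s) : ℕ) * (2 * D) - 2 * sv * D)
    (hwin : ∀ δ δ3 : ℝ≥0∞, δ ≤ E (-(c1 * v)) → δ3 ≤ E (-((2 * lam + 1) * v)) →
      E (-v) ≤ E (-(1 / 8 * v)) * (E (-(v / (4 * k))) / 2) ^ (k - 1) / 2 ∧
        ((k : ℝ≥0∞) * k * δ) ^ nt + nt * δ3 ≤ E (-(lam * v))) :
    ∀ μ : S → ℝ≥0∞, A.Start μ → ∀ B, MeasurableSet[A.F (10 ^ i)] B →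
    P (B ∩ {ω | A.Sh μ (10 ^ (i + 1)) ω ≠ 0 ∧ A.Sh μ (10 ^ (i + 2)) ω ≤
      E (-v) * A.Sh μ (10 ^ (i + 1)) ω}) ≤ E (-(lam * v)) * P B := by
  intro μ hμ B hB
  set T : ℕ := nt * k with hTdef
  have hT1 : 1 ≤ T := Nat.one_le_iff_ne_zero.2 (by positivity)
  set G : ℕ := 9 * 10 ^ i / T with hG
  have hTG : T * G ≤ 9 * 10 ^ i := Nat.mul_div_le _ _
  have hsG : 2 * s * Lm ≤ G := by
    rw [hG]
    exact (Nat.le_div_iff_mul_le hT1).2 (by rw [mul_comm]; exact hT)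
  set lv : ℕ → ℕ := fun t => if T ≤ t then 10 ^ (i + 1) else 10 ^ i + t * G with hlv
  have h10 : (10 : ℕ) ^ (i + 1) = 10 ^ i + 9 * 10 ^ i := by ring
  have h10' : (10 : ℕ) ^ (i + 2) = 100 * 10 ^ i := by ring
  have hlvlt : ∀ t, t < T → lv t = 10 ^ i + t * G := fun t ht => by
    simp only [hlv]; rw [if_neg (by omega)]
  have hlvge : ∀ t, T ≤ t → lv t = 10 ^ (i + 1) := fun t ht => by
    simp only [hlv]; rw [if_pos ht]
  have hlvle : ∀ t, lv t ≤ 10 ^ (i + 1) := fun t => by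
    rcases lt_or_ge t T with h | h
    · rw [hlvlt t h, h10]
      have : t * G ≤ T * G := Nat.mul_le_mul_right _ h.le
      omega
    · rw [hlvge t h]
  have hlvm : Monotone lv := fun t t' htt => by
    rcases lt_or_ge t' T with h | h
    · rw [hlvlt t (by omega), hlvlt t' h]
      have : t * G ≤ t' * G := Nat.mul_le_mul_right _ htt
      omega
    · rw [hlvge t' h]
      exact hlvle t
  have hlv0 : lv 0 = 10 ^ i := by rw [hlvlt 0 hT1]; ring
  have hlvlow : ∀ t, 10 ^ i ≤ lv t := fun t => by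
    rw [← hlv0]; exact hlvm (Nat.zero_le t)
  have hstep : ∀ t, t < T → lv t + G ≤ lv (t + 1) := fun t ht => by
    rcases lt_or_ge (t + 1) T with h | h
    · rw [hlvlt t ht, hlvlt (t + 1) h]
      have : (t + 1) * G = t * G + G := by ring
      omega
    · rw [hlvlt t ht, hlvge (t + 1) h, h10]
      have h1 : (t + 1) * G ≤ T * G := Nat.mul_le_mul_right _ (by omega)
      have h2 : (t + 1) * G = t * G + G := by ring
      omega
  have hb0 : b * r ≤ ρ :=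
    (mul_le_mul_of_nonneg_right hbL (Nat.cast_nonneg _)).trans hLr
  -- one law over at most `r` epochs
  have hhome : ∀ a e, a ≤ e → e ≤ a + r * N → ∀ w, A.Wt a w → (∀ ω, tot w ω ≤ 1) →
      ∀ B, MeasurableSet[A.F a] B →
      P (B ∩ {ω | tot (rpush A (fun x y => |φ y - φ x| ≤ 2 * sv * D) a e w) ω
        < E (-(v / (8 * k))) * tot w ω}) ≤ E (-(c1 * v) - 2) * P B := fun a e hae her =>
    home1 hS1 hae her (statE hKs1 hLr hb0 q3 q4)
  have hkr : (1 : ℝ) ≤ k := by exact_mod_cast hk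
  have hsvD : (0 : ℝ) ≤ 2 * sv * D := by positivity
  -- v is nonnegative
  have hv0 : 0 ≤ v / (8 * k) := by
    have h1 : 0 ≤ (2 / θ) * (m * (2 * s)) := by positivity
    have h2 : 0 ≤ X * (2 * (s : ℝ)) := by positivity
    linarith
  have hkk : (v / (8 * (k : ℝ))) + v / (8 * k) = v / (4 * k) := by
    field_simp; ring
  -- HomeAt
  have hH : ∀ t < nt * k, Try9.HomeAt A φ lv (2 * sv * D) (E (-(v / (4 * k)))) (E (-(c1 * v))) t := by
    intro t ht w hw hw1 B hB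
    have h1 := hhome (lv t) (lv (t + 1)) (hlvm (Nat.le_succ t))
      (by have := hlvle (t + 1); have := hlvlow t; rw [h10] at *; omega) w hw hw1 B hB
    refine le_trans (measure_mono ?_) (h1.trans (mul_le_mul' (E_le (by linarith)) le_rfl))
    refine inter_subset_inter_right _ fun ω hω => ?_
    exact lt_of_lt_of_le hω (mul_le_mul' (E_le (by linarith)) le_rfl)
  -- TravAt
  have hTr : ∀ t < nt * k, Try9.TravAt A φ lv (s * Δ - (m * (2 * s) : ℕ) * (2 * D) - 2 * sv * D)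
      (E (-(v / (4 * k)))) (E (-(c1 * v))) t := by
    intro t ht w hw hw1 B hB
    have hst := hstep t ht
    have h1 := travGrid (A := A) (P := P) hθ hb hbL hKs1 hS1 hΔ hX hℓ hJ (s := s) (m := m) hs hrm
      (a := lv t) (e := lv (t + 1)) (by omega)
      (hhome (lv t + 2 * s * Lm) (lv (t + 1)) (by omega)
        (by have := hlvle (t + 1); have := hlvlow t; rw [h10] at *; omega)) w hw hw1 B hB
    refine le_trans (measure_mono ?_) (h1.trans (mul_le_mul' ?_ le_rfl))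
    · refine inter_subset_inter_right _ fun ω hω => ?_
      have hω' : tot (rpush A (fun x y => s * Δ - (m * (2 * s) : ℕ) * (2 * D) - 2 * sv * D
        ≤ φ y - φ x) (lv t) (lv (t + 1)) w) ω < E (-(v / (4 * k))) * tot w ω := hω
      refine lt_of_lt_of_le hω' (mul_le_mul' ?_ le_rfl)
      rw [E_mul]
      exact E_le (by linarith)
    · calc E ((2 - ℓ) * s) + E ((L * rm + 3 - m) * (2 * s)) + E (-(c1 * v) - 2)
          ≤ (E (-(c1 * v) - 2) + E (-(c1 * v) - 2)) + E (-(c1 * v) - 2) := by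
            gcongr
            · exact E_le q5
            · exact E_le q6
        _ ≤ E (-(c1 * v) - 1) + E (-(c1 * v) - 2) := by
            gcongr
            exact add_E (by linarith) (by linarith)
        _ ≤ E (-(c1 * v)) := add_E (by linarith) (by linarith)
  -- UnitsAt
  have hU : ∀ t < nt, Try9.UnitsAt A φ k (g0 + 4 * sv * D) (lv (t * k + (k - 1))) (10 ^ (i + 2))
      (E (-(1 / 8 * v))) (E (-((2 * lam + 1) * v))) := by
    intro t ht w hw hw1 B hB hg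
    refine unitsAt (A := A) (P := P) (φ := φ) (D := 2 * sv * D) (g := g0 + 4 * sv * D)
      (prodAbs_of_stat hSk (r := r) (s := sv) ?_ ?_ ?_).toProdAt w hw hw1 B hB hg
    · have h1 := hlvle (t * k + (k - 1))
      have h2 : (10 : ℕ) ^ (i + 1) ≤ 10 ^ (i + 2) := Nat.pow_le_pow_right (by norm_num) (by omega)
      omega
    · rw [h10']
      have := hlvlow (t * k + (k - 1))
      omega
    · have e1 : E (-(1 / 8 * v)) ^ k = E (-(k * (v / 8))) := by
        rw [E_pow]; congr 1; ring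
      rw [e1]
      exact statE hKs hLr hb0 q1 q2
  obtain ⟨hw1, hw2⟩ := hwin (E (-(c1 * v))) (E (-((2 * lam + 1) * v))) le_rfl le_rfl
  have hlvT : lv (nt * k) = 10 ^ (i + 1) := hlvge _ le_rfl
  have hfin := Try9.win_of_units (A := A) (P := P) (φ := φ) hk hlvm (n := nt) (e := 10 ^ (i + 2))
    (by rw [hlvT]; exact Nat.pow_le_pow_right (by norm_num) (by omega)) hsvD
    (by
      have h1 : (0 : ℝ) ≤ 4 * sv * D := by positivity
      have h2 : (0 : ℝ) ≤ 2 * k * (2 * sv * D) := by positivity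
      linarith)
    q8 hH hTr hU hμ (B := B) (by rw [hlv0]; exact hB)
  rw [hlvT] at hfin
  set Y : ℝ≥0∞ := E (-(1 / 8 * v)) * (E (-(v / (4 * k))) / 2) ^ (k - 1) with hY
  have hY0 : Y ≠ 0 := by
    rw [hY]
    refine mul_ne_zero (E_ne_zero _) (pow_ne_zero _ ?_)
    rw [div_eq_mul_inv]
    exact mul_ne_zero (E_ne_zero _) (by simp)
  have hYt : Y ≠ ∞ := by
    rw [hY]
    refine ENNReal.mul_ne_top (E_ne_top _) (ENNReal.pow_ne_top ?_)
    exact ENNReal.div_ne_top (E_ne_top _) (by norm_num)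
  refine le_trans (measure_mono ?_) (hfin.trans (mul_le_mul' ?_ le_rfl))
  · refine inter_subset_inter_right _ ?_
    rintro ω ⟨h1, h2⟩
    refine ⟨h1, ?_⟩
    have h3 : A.Sh μ (10 ^ (i + 1)) ω ≠ ∞ :=
      ne_top_of_le_ne_top ENNReal.one_ne_top (Sh_le_one hμ _ ω)
    calc A.Sh μ (10 ^ (i + 2)) ω ≤ E (-v) * A.Sh μ (10 ^ (i + 1)) ω := h2
      _ ≤ Y / 2 * A.Sh μ (10 ^ (i + 1)) ω := mul_le_mul' hw1 le_rfl
      _ = (Y * A.Sh μ (10 ^ (i + 1)) ω) / 2 := by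
          rw [div_eq_mul_inv, div_eq_mul_inv]; ring
      _ < Y * A.Sh μ (10 ^ (i + 1)) ω :=
          ENNReal.half_lt_self (mul_ne_zero hY0 h1) (ENNReal.mul_ne_top hYt h3)
  · push_cast
    exact hw2

end Crest.Agent.R154.HM8187
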