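import Mathlib

/-!
Row 154, HOME, HM8 (helper187): the real inequalities.
-/

set_option autoImplicit false

namespace Crest.Agent.R154.HM8187

lemma num_m {θ c1 γ K1 L a' T H k v m s : ℝ} (hθ : 0 < θ) (hc1 : 0 < c1) (hT : 1 ≤ T)
    (hH : 3 ≤ H) (hK1 : 1 ≤ K1) (hγ : γ = 1 / (T * H * K1)) (hL : 0 ≤ L) (ha : 1 ≤ a')
    (hk : 1 ≤ k) (hv : 0 < v) (hm0 : 0 ≤ m) (hs0 : 0 ≤ s)
    (hm : m ≤ L * ((H + 1) * a') + 4 + c1 / γ) (hs : s ≤ 2 * (γ * v))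
    (h1 : 256 * k * c1 ≤ θ) (h2 : 256 * k * (2 * L * a' + 4) ≤ θ * K1) :
    m * (2 * s) ≤ θ * v / (32 * k) := by
  have hγ0 : 0 < γ := by rw [hγ]; positivity
  have hγ1 : γ * K1 ≤ 1 := by
    rw [hγ, div_mul_eq_mul_div, one_mul, div_le_one (by positivity)]
    nlinarith [mul_le_mul hT (by linarith : (1 : ℝ) ≤ H) (by norm_num) (by linarith)]
  have hγ2 : γ * (H + 1) * K1 ≤ 2 := by
    have e : γ * (H + 1) * K1 = (H + 1) / (T * H) := by
      rw [hγ]; field_simp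
    rw [e, div_le_iff₀ (by positivity)]
    nlinarith
  have e1 : m * (2 * s) ≤ (L * ((H + 1) * a') + 4 + c1 / γ) * (4 * (γ * v)) := by
    have h3 : m * (2 * s) ≤ m * (4 * (γ * v)) := mul_le_mul_of_nonneg_left (by linarith) hm0
    exact h3.trans (mul_le_mul_of_nonneg_right hm (by positivity))
  have e2 : (L * ((H + 1) * a') + 4 + c1 / γ) * (4 * (γ * v))
      = 4 * v * (L * a' * (γ * (H + 1)) + 4 * γ + c1) := by
    field_simp
  have e3 : (L * a' * (γ * (H + 1)) + 4 * γ) * K1 ≤ 2 * L * a' + 4 := by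
    have h4 : L * a' * (γ * (H + 1) * K1) ≤ L * a' * 2 :=
      mul_le_mul_of_nonneg_left hγ2 (by positivity)
    nlinarith
  have e4 : 256 * k * (L * a' * (γ * (H + 1)) + 4 * γ) ≤ θ := by
    have h5 : 256 * k * (L * a' * (γ * (H + 1)) + 4 * γ) * K1 ≤ θ * K1 := by
      calc 256 * k * (L * a' * (γ * (H + 1)) + 4 * γ) * K1
          = 256 * k * ((L * a' * (γ * (H + 1)) + 4 * γ) * K1) := by ring
        _ ≤ 256 * k * (2 * L * a' + 4) := mul_le_mul_of_nonneg_left e3 (by positivity)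
        _ ≤ θ * K1 := h2
    exact le_of_mul_le_mul_right h5 (by linarith)
  rw [le_div_iff₀ (by positivity)]
  calc m * (2 * s) * (32 * k) ≤ (4 * v * (L * a' * (γ * (H + 1)) + 4 * γ + c1)) * (32 * k) := by
        rw [← e2]; exact mul_le_mul_of_nonneg_right e1 (by positivity)
    _ = v * ((256 * k * (L * a' * (γ * (H + 1)) + 4 * γ)) / 2 + (256 * k * c1) / 2) := by ring
    _ ≤ v * (θ / 2 + θ / 2) := by gcongr
    _ = θ * v := by ring

lemma num_x {x1 c1 γ K1 T H k v s : ℝ} (hx1 : 0 ≤ x1) (hc1 : 0 < c1) (hT : 1 ≤ T)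
    (hH : 3 ≤ H) (hK1 : 1 ≤ K1) (hγ : γ = 1 / (T * H * K1))
    (hk : 1 ≤ k) (hv : 0 < v) (hs : s ≤ 2 * (γ * v))
    (h1 : 256 * k * (c1 * x1) ≤ 1) (h2 : 384 * k * x1 ≤ K1) :
    x1 * (1 + (2 + 2 * c1 / γ)) * (2 * s) ≤ v / (16 * k) := by
  have hγ0 : 0 < γ := by rw [hγ]; positivity
  have hγ1 : γ * K1 ≤ 1 := by
    rw [hγ, div_mul_eq_mul_div, one_mul, div_le_one (by positivity)]
    nlinarith [mul_le_mul hT (by linarith : (1 : ℝ) ≤ H) (by norm_num) (by linarith)]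
  have e1 : x1 * (1 + (2 + 2 * c1 / γ)) * (2 * s) ≤ x1 * (1 + (2 + 2 * c1 / γ)) * (4 * (γ * v)) :=
    mul_le_mul_of_nonneg_left (by linarith) (by positivity)
  have e2 : x1 * (1 + (2 + 2 * c1 / γ)) * (4 * (γ * v)) = 4 * v * (3 * (x1 * γ) + 2 * (c1 * x1)) := by
    field_simp
    ring
  have e3 : 384 * k * (x1 * γ) ≤ 1 := by
    calc 384 * k * (x1 * γ) = (384 * k * x1) * γ := by ring
      _ ≤ K1 * γ := mul_le_mul_of_nonneg_right h2 hγ0.le
      _ = γ * K1 := by ring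
      _ ≤ 1 := hγ1
  rw [le_div_iff₀ (by positivity)]
  calc x1 * (1 + (2 + 2 * c1 / γ)) * (2 * s) * (16 * k)
      ≤ (4 * v * (3 * (x1 * γ) + 2 * (c1 * x1))) * (16 * k) := by
        rw [← e2]; exact mul_le_mul_of_nonneg_right e1 (by positivity)
    _ = v * ((384 * k * (x1 * γ)) / 2 + (256 * k * (c1 * x1)) / 2) := by ring
    _ ≤ v * (1 / 2 + 1 / 2) := by gcongr
    _ = v := by ring

lemma num_8 {θ γ K1 T H k v Ch W sv s ms g0 : ℝ} (hθ : 0 < θ) (hT : 1 ≤ T)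
    (hH : 3 ≤ H) (hK1 : 1 ≤ K1) (hγ : γ = 1 / (T * H * K1)) (hk : 1 ≤ k) (hv : 1 ≤ v)
    (hW : 1 ≤ W) (hg : g0 ≤ W) (hsv : sv ≤ 2 * v) (hsv0 : 0 ≤ sv)
    (hms : ms ≤ θ * v / (32 * k)) (hs : γ * v ≤ s)
    (hCh : 360 * (13 + 8 * k + θ) * T * K1 * H ≤ Ch) :
    g0 + 4 * sv * (180 * W) + 2 * k * (2 * sv * (180 * W))
      ≤ s * (Ch * W / 2) - ms * (2 * (180 * W)) - 2 * sv * (180 * W) := by
  have hγ0 : 0 < γ := by rw [hγ]; positivity
  have e1 : γ * (360 * (13 + 8 * k + θ) * T * K1 * H) = 360 * (13 + 8 * k + θ) := by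
    rw [hγ]; field_simp
  have e2 : 360 * (13 + 8 * k + θ) ≤ γ * Ch := by
    rw [← e1]; exact mul_le_mul_of_nonneg_left hCh hγ0.le
  have hCh0 : 0 ≤ Ch := le_trans (by positivity) hCh
  have e3 : (360 * (13 + 8 * k + θ)) * v * (W / 2) ≤ s * (Ch * W / 2) := by
    calc (360 * (13 + 8 * k + θ)) * v * (W / 2) ≤ (γ * Ch) * v * (W / 2) := by gcongr
      _ = (γ * v) * (Ch * W / 2) := by ring
      _ ≤ s * (Ch * W / 2) := mul_le_mul_of_nonneg_right hs (by positivity)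
  have e4 : ms ≤ θ * v / 32 := by
    refine hms.trans ?_
    refine div_le_div_of_nonneg_left (by positivity) (by norm_num) (by linarith)
  have e5 : ms * (2 * (180 * W)) ≤ θ * v / 32 * (2 * (180 * W)) :=
    mul_le_mul_of_nonneg_right e4 (by positivity)
  have e6 : sv * (180 * W) ≤ 2 * v * (180 * W) := mul_le_mul_of_nonneg_right hsv (by positivity)
  have e7 : k * (sv * (180 * W)) ≤ k * (2 * v * (180 * W)) :=
    mul_le_mul_of_nonneg_left e6 (by linarith)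
  have e8 : g0 ≤ v * (180 * W) := by nlinarith
  have e9 : 0 ≤ θ * v * W := by positivity
  nlinarith

lemma num_T {γ K1 T H v s Lm tn ti : ℝ} (hT : 1 ≤ T)
    (hH : 3 ≤ H) (hK1 : 1 ≤ K1) (hγ : γ = 1 / (T * H * K1)) (hv : 0 < v) (hs0 : 0 ≤ s)
    (hs : s ≤ 2 * (γ * v)) (hLm : Lm ≤ (H + 1) * tn) (htn : 0 ≤ tn) (hvt : v * tn ≤ K1 * ti) (hti : 0 ≤ ti) :
    T * (2 * s * Lm) ≤ 9 * ti := by
  have hγ0 : 0 < γ := by rw [hγ]; positivity
  have e1 : T * (2 * s * Lm) ≤ T * (2 * s * ((H + 1) * tn)) := by gcongr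
  have e2 : T * (2 * s * ((H + 1) * tn)) ≤ T * (2 * (2 * (γ * v)) * ((H + 1) * tn)) := by gcongr
  have e3 : T * (2 * (2 * (γ * v)) * ((H + 1) * tn)) = 4 * ((H + 1) / H) * ((v * tn) / K1) := by
    rw [hγ]; field_simp; ring
  have e4 : (H + 1) / H ≤ 4 / 3 := by
    rw [div_le_div_iff₀ (by linarith) (by norm_num)]
    linarith
  have e5 : (v * tn) / K1 ≤ ti := by
    rw [div_le_iff₀ (by linarith)]; linarith
  have e6 : 0 ≤ (v * tn) / K1 := by positivity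
  calc T * (2 * s * Lm) ≤ 4 * ((H + 1) / H) * ((v * tn) / K1) := by linarith
    _ ≤ 4 * (4 / 3) * ti := by gcongr
    _ ≤ 9 * ti := by linarith

end Crest.Agent.R154.HM8187
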