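import Crest.Agent.R154.HMIn_263
import Crest.Agent.R154.Try_9

/-! Row 154 (helper9), HOME MASS, HM8 pieces: the two signs of the sheared coordinate, and the
adapters from the contract (`Doc74.StatAt`, `Doc74.JumpAt`) to `Try9.HomeAt`, `TravAt`, `UnitsAt`. -/

set_option autoImplicit false
set_option linter.unusedSectionVars false

namespace Crest.Agent.R154.Sign9

open MeasureTheory ProbabilityTheory Set
open Crest.Agent.R154.RatioR872 Crest.Agent.R154.RatioR872.KerSys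
open Crest.Agent.R154.Home903 Crest.Agent.R154.Doc74 Crest.Agent.R154.HM263
open scoped ENNReal Classical

variable {S : Type*} [Countable S] {Ω : Type*} {m0 : MeasurableSpace Ω} {P : Measure Ω}

/-! ### signs -/

lemma Hm_neg' (φ : S → ℝ) (D : ℝ) : Hm (fun x => - φ x) D = Hm φ D := by
  funext x y
  exact propext (Hm_neg φ D x y)

lemma Sep_neg_iff {k : ℕ} {φ : S → ℝ} {g : ℝ} {B : Set Ω} {w : Fin k → Ω → S → ℝ≥0∞} :
    Sep (fun x => - φ x) g B w ↔ Sep φ g B w := by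
  refine ⟨fun h => ?_, fun h => h.neg⟩
  have := h.neg
  simpa only [neg_neg] using this

theorem statAt_neg {A : KerSys S P} {φ : S → ℝ} {k N : ℕ} {D g0 θ : ℝ} {η Ks : ℝ≥0∞}
    (h : StatAt A φ k N D g0 θ η Ks) : StatAt A (fun x => - φ x) k N D g0 θ η Ks := by
  intro r s L n hn w B hB hw h1 hsep z
  rw [Hm_neg']
  exact h r s L n hn w B hB hw h1 (Sep_neg_iff.1 hsep) z

theorem tailH_neg {A : KerSys S P} {φ : S → ℝ} {N : ℕ} {D : ℝ} {ν : ℝ≥0∞}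
    (h : TailH A φ N D ν) : TailH A (fun x => - φ x) N D ν := by
  intro a c hac hc
  obtain ⟨Bd, h1, h2, h3⟩ := h a c hac hc
  refine ⟨Bd, h1, h2, fun b hab hbc => ?_⟩
  rw [Hm_neg']
  exact h3 b hab hbc

/-- the coordinate or its opposite -/
def sg (b : Bool) (φ : S → ℝ) : S → ℝ := if b then φ else fun x => - φ x

lemma StatAt_sg {A : KerSys S P} {φ : S → ℝ} {k N : ℕ} {D g0 θ : ℝ} {η Ks : ℝ≥0∞} (b : Bool)
    (h : StatAt A φ k N D g0 θ η Ks) : StatAt A (sg b φ) k N D g0 θ η Ks := by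
  cases b
  · exact statAt_neg h
  · exact h

lemma TailH_sg {A : KerSys S P} {φ : S → ℝ} {N : ℕ} {D : ℝ} {ν : ℝ≥0∞} (b : Bool)
    (h : TailH A φ N D ν) : TailH A (sg b φ) N D ν := by
  cases b
  · exact tailH_neg h
  · exact h

/-- **the two sides of `JumpIn` as one sign** -/
theorem jumpIn_sg {A : KerSys S P} {lat lev : S → ℝ} {W : ℕ → ℝ}
    {reg : ℕ → ℕ → ℝ → ℕ → Prop} (h : JumpIn A lat lev W reg) :
    ∃ (π : ℝ≥0∞) (c : ℝ) (n0 : ℕ), π ≠ 0 ∧ π ≤ 1 ∧ 0 < c ∧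
      ∀ n ≥ n0, ∀ (A0 M : ℕ) (B' : ℝ), 3 ≤ M → ¬ reg A0 M B' n → ∀ α : ℝ, ∃ b : Bool,
        JumpTail A (sg b (ph lat lev α)) (128 * 2 ^ n) (c * 2 ^ A0 * W n) π ∨
        JumpTail A (sg b (ph lat lev α)) (M * 2 ^ n) (c * B' * W n) π := by
  obtain ⟨π, c, n0, h1, h2, h3, h4⟩ := h
  refine ⟨π, c, n0, h1, h2, h3, fun n hn A0 M B' hM hreg α => ?_⟩
  rcases h4 n hn A0 M B' hM hreg α with (h | h) | (h | h)
  · exact ⟨true, Or.inl h⟩
  · exact ⟨false, Or.inl h⟩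
  · exact ⟨true, Or.inr h⟩
  · exact ⟨false, Or.inr h⟩

/-! ### adapters to `Try9` -/

lemma rp_eq (A : KerSys S P) (D : S → S → Prop) (a b : ℕ) (w : Ω → S → ℝ≥0∞) :
    Try9.rp A D a b w = rpush A D a b w := rfl

lemma Hm_eq (φ : S → ℝ) (D : ℝ) : Try9.Hm φ D = Hm φ D := rfl

lemma Jp_eq (φ : S → ℝ) (Δ : ℝ) : Try9.Jp φ Δ = Jp φ Δ := rfl

/-- **`k` units from `StatAt`** over `a → e`, `e ≤ a + r N` -/
theorem unitsAt_of_statAt {A : KerSys S P} {φ : S → ℝ} {k N : ℕ} {D g0 θ : ℝ} {η Ks : ℝ≥0∞}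
    (h : StatAt A φ k N D g0 θ η Ks) (r s : ℕ) {a e : ℕ} (hae : a ≤ e) (he : e ≤ a + r * N)
    {ε δ : ℝ≥0∞}
    (hδ : (2 * Ks) ^ r * (ε ^ k) ^ θ + (2 * η) ^ s * (1 / η) ^ r ≤ δ) :
    Try9.UnitsAt A φ k (g0 + 4 * s * D) a e ε δ := by
  obtain ⟨n, rfl⟩ := Nat.exists_eq_add_of_le hae
  refine Try9.unitsAt_of_stat (D := Hm φ (2 * s * D)) fun w hw B hB h1 hsep => ?_
  exact (h r s a n (by omega) w B hB hw h1 (Sep.of_lt hsep) (ε ^ k)).trans (by gcongr)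

/-- **one static unit from `StatAt` (`k = 1`)** over any pair of levels, relative form -/
theorem rel_of_statAt {A : KerSys S P} {φ : S → ℝ} {N : ℕ} {D g0 θ : ℝ} {η Ks : ℝ≥0∞}
    (h : StatAt A φ 1 N D g0 θ η Ks) (r s : ℕ) {a e : ℕ} (hae : a ≤ e) (he : e ≤ a + r * N)
    {ε δ : ℝ≥0∞} (hδ : (2 * Ks) ^ r * ε ^ θ + (2 * η) ^ s * (1 / η) ^ r ≤ δ) :
    ∀ w : Ω → S → ℝ≥0∞, A.Wt a w → (∀ ω, tot w ω ≤ 1) → ∀ B, MeasurableSet[A.F a] B →
      P (B ∩ {ω | tot (rpush A (Hm φ (2 * s * D)) a e w) ω < ε * tot w ω}) ≤ δ * P B := by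
  obtain ⟨n, rfl⟩ := Nat.exists_eq_add_of_le hae
  refine Try9.rel_of_norm fun w hw B hB h1 => ?_
  have h2 := h r s a n (by omega) (fun _ => w) B hB (fun _ => hw) (fun ω hω _ => h1 ω hω)
    (by intro ω _ i j hij; exact absurd (Subsingleton.elim i j) hij) ε
  refine (le_of_eq ?_).trans (h2.trans (by gcongr))
  simp only [Finset.univ_unique, Finset.prod_const, Finset.card_singleton, pow_one]
  rfl

/-- **`HomeAt` from `StatAt` (`k = 1`)** -/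
theorem homeAt_of_statAt {A : KerSys S P} {φ : S → ℝ} {N : ℕ} {D g0 θ : ℝ} {η Ks : ℝ≥0∞}
    (h : StatAt A φ 1 N D g0 θ η Ks) (r s : ℕ) {lv : ℕ → ℕ} (hlv : Monotone lv) {m : ℕ}
    (he : lv (m + 1) ≤ lv m + r * N)
    {ε δ : ℝ≥0∞} (hδ : (2 * Ks) ^ r * ε ^ θ + (2 * η) ^ s * (1 / η) ^ r ≤ δ) :
    Try9.HomeAt A φ lv (2 * s * D) ε δ m :=
  rel_of_statAt h r s (hlv (Nat.le_succ m)) he hδ

end Crest.Agent.R154.Sign9
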