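import Crest.Agent.R154.HM8B_187
import Crest.Agent.R154.HM8N_187
import Crest.Agent.R154.Sign_9

/-!
Row 154, HOME, HM8 (helper187), part C: the window at a good dyadic scale (`win_scale`).
-/

set_option autoImplicit false
set_option linter.unusedSectionVars false
set_option linter.unusedVariables false

namespace Crest.Agent.R154.HM8187

open MeasureTheory ProbabilityTheory Set
open Crest.Agent.R154.RatioR872 Crest.Agent.R154.RatioR872.KerSys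
open Crest.Agent.R154.Home903 Crest.Agent.R154.Doc74 Crest.Agent.R154.Units299
open Crest.Agent.R154.HM263 Crest.Agent.R154.Sign9
open scoped ENNReal Classical

lemma exists_E (x : ℝ≥0∞) (hx : x ≠ ∞) : ∃ L : ℝ, 0 ≤ L ∧ x ≤ E L := by
  refine ⟨x.toReal, ENNReal.toReal_nonneg, ?_⟩
  rw [← ENNReal.ofReal_toReal hx]
  unfold E
  refine ENNReal.ofReal_le_ofReal ?_
  rw [ENNReal.toReal_ofReal ENNReal.toReal_nonneg]
  have := Real.add_one_le_exp x.toReal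
  linarith

lemma exists_real (ν : ℝ≥0∞) (hν : ν ≠ 0) : ∃ y : ℝ, 0 < y ∧ ENNReal.ofReal y ≤ ν := by
  have h1 : min ν 1 ≠ ∞ := ne_top_of_le_ne_top ENNReal.one_ne_top (min_le_right _ _)
  have h0 : min ν 1 ≠ 0 := by
    rw [Ne, ← nonpos_iff_eq_zero, not_le, lt_min_iff]
    exact ⟨pos_iff_ne_zero.2 hν, one_pos⟩
  refine ⟨(min ν 1).toReal, ENNReal.toReal_pos h0 h1, ?_⟩
  rw [ENNReal.ofReal_toReal h1]
  exact min_le_left _ _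

lemma num_Ch {T K1 H k θ Ch : ℝ} (hT : 1 ≤ T) (hK1 : 1 ≤ K1) (hH : 3 ≤ H) (hk : 1 ≤ k)
    (hθ : 0 < θ) (h : 360 * (13 + 8 * k + θ) * T * K1 * H ≤ Ch) : 1080 ≤ Ch := by
  have h1 : (1 : ℝ) ≤ T * K1 := by nlinarith
  have h2 : (3 : ℝ) ≤ T * K1 * H := by nlinarith
  have h3 : (360 : ℝ) ≤ 360 * (13 + 8 * k + θ) := by linarith
  have h4 : (360 : ℝ) * 3 ≤ 360 * (13 + 8 * k + θ) * (T * K1 * H) :=
    mul_le_mul h3 h2 (by norm_num) (by linarith)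
  have h5 : 360 * (13 + 8 * k + θ) * (T * K1 * H) = 360 * (13 + 8 * k + θ) * T * K1 * H := by ring
  linarith

lemma num_540 {Ch W : ℝ} (h : 1080 ≤ Ch) (hW : 0 ≤ W) : 540 * W ≤ Ch * W / 2 := by
  have := mul_le_mul_of_nonneg_right h hW
  linarith

lemma num_r {ti v a' tna K1 : ℝ} {tn : ℝ} (htn : tn = a' * tna) (h2 : 0 < tna) (hK : 0 < K1)
    (h : K1 * ti ≤ 2 * (v * tn)) : (100 * ti) / tna ≤ 200 * a' * v / K1 := by
  rw [div_le_div_iff₀ h2 hK]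
  subst htn
  nlinarith

lemma num_Lr {L r a' v K1 κ : ℝ} (hL : 0 ≤ L) (hr : r ≤ 200 * a' * v / K1 + 1) (hK : 0 < K1)
    (hv : 0 < v) (h1 : 400 * L * a' ≤ κ * K1) (h2 : 2 * L ≤ κ * v) : L * r ≤ κ * v := by
  have h3 : L * r ≤ L * (200 * a' * v / K1 + 1) := mul_le_mul_of_nonneg_left hr hL
  have h4 : L * (200 * a' * v / K1) ≤ κ * v / 2 := by
    have e : L * (200 * a' * v / K1) = (200 * L * a') * v / K1 := by ring
    rw [e, div_le_iff₀ hK]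
    have := mul_le_mul_of_nonneg_right h1 hv.le
    linarith
  linarith

lemma num_q1 {lam k θ κ v : ℝ} (hkθ : 8 * (2 * lam + 4) ≤ k * θ) (hkb : κ * v ≤ v) (hv : 1 ≤ v) :
    κ * v - (k * (v / 8)) * θ ≤ -((2 * lam + 1) * v) - 1 := by
  have h1 := mul_le_mul_of_nonneg_right hkθ (by linarith : (0 : ℝ) ≤ v / 8)
  linarith

lemma num_q2 {lam b sv κ v : ℝ} (hb : b = 2 * lam + 8) (hlam : 1 ≤ lam) (hkb : κ * v ≤ v)
    (hv : 1 ≤ v) (hsv : v ≤ sv) :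
    κ * v - (b - 1) * sv ≤ -((2 * lam + 1) * v) - 1 := by
  have h1 : (2 * lam + 7) * v ≤ (2 * lam + 7) * sv := mul_le_mul_of_nonneg_left hsv (by linarith)
  subst hb
  linarith

lemma num_q3 {θ κ v k c1 : ℝ} (hk : 0 < k) (hκθ : κ ≤ θ / (32 * k)) (hv : 0 < v)
    (hc1 : c1 ≤ κ / 256) (h2 : 2 ≤ c1 * v) :
    κ * v - (v / (8 * k)) * θ ≤ (-(c1 * v) - 2) - 1 := by
  have e : v / (8 * k) * θ = 4 * (θ / (32 * k) * v) := by field_simp; ring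
  have h3 := mul_le_mul_of_nonneg_right hκθ hv.le
  have h4 := mul_le_mul_of_nonneg_right hc1 hv.le
  rw [e]
  linarith

lemma num_q4 {lam b sv κ v c1 : ℝ} (hb : b = 2 * lam + 8) (hlam : 1 ≤ lam) (hkb : κ * v ≤ v)
    (hv : 1 ≤ v) (hsv : v ≤ sv) (hc1 : c1 ≤ κ / 256) :
    κ * v - (b - 1) * sv ≤ (-(c1 * v) - 2) - 1 := by
  have h1 : (2 * lam + 7) * v ≤ (2 * lam + 7) * sv := mul_le_mul_of_nonneg_left hsv (by linarith)
  have h4 := mul_le_mul_of_nonneg_right hc1 (by linarith : (0 : ℝ) ≤ v)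
  have h5 : v ≤ lam * v := le_mul_of_one_le_left (by linarith) hlam
  subst hb
  linarith

lemma num_cs {c1 γ v s : ℝ} (hc1 : 0 < c1) (hγ : 0 < γ) (hs : γ * v ≤ s) :
    c1 * v ≤ c1 / γ * s := by
  have h1 : c1 / γ * (γ * v) = c1 * v := by field_simp
  have h2 : c1 / γ * (γ * v) ≤ c1 / γ * s := mul_le_mul_of_nonneg_left hs (by positivity)
  linarith

lemma num_q5 {c1 γ v s ℓ : ℝ} (hℓ : ℓ = 2 + 2 * c1 / γ) (h : c1 * v ≤ c1 / γ * s)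
    (h2 : 2 ≤ c1 * v) : (2 - ℓ) * s ≤ -(c1 * v) - 2 := by
  have e : (2 - ℓ) * s = -(2 * (c1 / γ * s)) := by rw [hℓ]; ring
  rw [e]
  linarith

lemma num_q6 {c1 γ v s L rm m : ℝ} (hm : L * rm + 3 + c1 / γ ≤ m) (hs0 : 0 ≤ s)
    (h : c1 * v ≤ c1 / γ * s) (h2 : 2 ≤ c1 * v) :
    (L * rm + 3 - m) * (2 * s) ≤ -(c1 * v) - 2 := by
  have h1 : (L * rm + 3 - m) * (2 * s) ≤ (-(c1 / γ)) * (2 * s) :=
    mul_le_mul_of_nonneg_right (by linarith) (by positivity)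
  linarith

lemma num_q7 {θ v k ms xs : ℝ} (hθ : 0 < θ) (hk : 0 < k) (h1 : ms ≤ θ * v / (32 * k))
    (h2 : xs ≤ v / (16 * k)) : 2 / θ * ms + xs ≤ v / (8 * k) := by
  have h3 : 2 / θ * ms ≤ 2 / θ * (θ * v / (32 * k)) :=
    mul_le_mul_of_nonneg_left h1 (by positivity)
  have e : 2 / θ * (θ * v / (32 * k)) = v / (16 * k) := by field_simp; ring
  have q7e : v / (16 * k) + v / (16 * k) = v / (8 * k) := by field_simp; ring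
  linarith

variable {S : Type*} [Countable S] {Ω : Type*} {m0 : MeasurableSpace Ω} {P : Measure Ω}

/-- the window at a good scale, one coordinate -/
theorem win_scale (A : KerSys S P) {φ : S → ℝ} {lam θ x1 b L κ c1 T K1 γ ℓ Ch W v g0 g1 : ℝ}
    {k nt n a b0 H i : ℕ} {Ks Ks' : ℝ≥0∞}
    (hlam : 1 ≤ lam) (hθ : 0 < θ) (hx1 : 0 ≤ x1) (hk1 : 1 ≤ k) (hkθ : 8 * (2 * lam + 4) ≤ k * θ)
    (hb : b = 2 * lam + 8) (hbL : b ≤ L) (hKs : 2 * Ks ≤ E L) (hKs' : 2 * Ks' ≤ E L)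
    (hκ0 : 0 < κ) (hκ1 : κ ≤ 1) (hκθ : κ ≤ θ / (32 * k)) (hc10 : 0 < c1)
    (hc1θ : 256 * k * c1 ≤ θ) (hc1x : 256 * k * (c1 * x1) ≤ 1) (hc1s : c1 ≤ κ / 256)
    (hnt : 1 ≤ nt) (hT : T = nt * k) (hK1 : 1 ≤ K1)
    (hC2a : 400 * L * 2 ^ a ≤ κ * K1) (hC2b : 256 * k * (2 * L * 2 ^ a + 4) ≤ θ * K1)
    (hC2c : 384 * k * x1 ≤ K1) (hH : 3 ≤ H) (hCh : 360 * (13 + 8 * k + θ) * T * K1 * H ≤ Ch)
    (hγ : γ = 1 / (T * H * K1)) (hℓ : ℓ = 2 + 2 * c1 / γ)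
    (hg0 : 0 ≤ g0) (hW1 : 1 ≤ W) (hWg0 : g0 ≤ W) (hna : a ≤ n) (hnb : b0 ≤ n)
    (hStk : StatAt A φ k (2 ^ (n - a)) (180 * W) g0 θ (E (-b)) Ks)
    (hSt1 : StatAt A φ 1 (2 ^ (n - a)) (180 * W) g1 θ (E (-b)) Ks')
    (hjump : JumpAt A φ (2 ^ (n - b0) + H * 2 ^ n) (Ch * W / 2) (E (-(x1 * (1 + ℓ)))) (E (-ℓ)))
    (hv1 : 1 ≤ v) (hvT : T * H * K1 ≤ v) (hvc : 2 ≤ c1 * v) (hvL : 2 * L ≤ κ * v)
    (hvc1 : v * 2 ^ n ≤ K1 * 10 ^ i) (hvc2 : K1 * 10 ^ i ≤ 2 * (v * 2 ^ n))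
    (hwin : ∀ δ δ3 : ℝ≥0∞, δ ≤ E (-(c1 * v)) → δ3 ≤ E (-((2 * lam + 1) * v)) →
      E (-v) ≤ E (-(1 / 8 * v)) * (E (-(v / (4 * k))) / 2) ^ (k - 1) / 2 ∧
        ((k : ℝ≥0∞) * k * δ) ^ nt + nt * δ3 ≤ E (-(lam * v))) :
    ∀ μ : S → ℝ≥0∞, A.Start μ → ∀ B, MeasurableSet[A.F (10 ^ i)] B →
    P (B ∩ {ω | A.Sh μ (10 ^ (i + 1)) ω ≠ 0 ∧ A.Sh μ (10 ^ (i + 2)) ω ≤
      E (-v) * A.Sh μ (10 ^ (i + 1)) ω}) ≤ E (-(lam * v)) * P B := by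
  have hkr : (1 : ℝ) ≤ k := by exact_mod_cast hk1
  have hk0 : (0 : ℝ) < k := by linarith only [hkr]
  have hntr : (1 : ℝ) ≤ nt := by exact_mod_cast hnt
  have hT1 : 1 ≤ T := by rw [hT]; exact one_le_mul_of_one_le_of_one_le hntr hkr
  have hHr : (3 : ℝ) ≤ H := by exact_mod_cast hH
  have hK10 : 0 < K1 := by linarith only [hK1]
  have hγ0 : 0 < γ := by rw [hγ]; positivity
  have hv0 : 0 < v := by linarith only [hv1]
  have hL0 : 0 ≤ L := by linarith only [hbL, hb, hlam]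
  have hℓ0 : 0 ≤ ℓ := by rw [hℓ]; positivity
  have ha1 : (1 : ℝ) ≤ 2 ^ a := one_le_pow₀ (by norm_num)
  have hkb : κ * v ≤ v := mul_le_of_le_one_left hv0.le hκ1
  have e2n : (2 : ℕ) ^ n = 2 ^ a * 2 ^ (n - a) := by
    rw [← pow_add]; congr 1; omega
  have hLmle : 2 ^ (n - b0) + H * 2 ^ n ≤ (H + 1) * 2 ^ n := by
    have h1 : (2 : ℕ) ^ (n - b0) ≤ 2 ^ n := Nat.pow_le_pow_right (by norm_num) (by omega)
    calc 2 ^ (n - b0) + H * 2 ^ n ≤ 2 ^ n + H * 2 ^ n := Nat.add_le_add_right h1 _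
      _ = (H + 1) * 2 ^ n := by ring
  obtain ⟨Lm, hLm⟩ : ∃ Lm : ℕ, Lm = 2 ^ (n - b0) + H * 2 ^ n := ⟨_, rfl⟩
  rw [← hLm] at hLmle hjump
  have hγv : 1 ≤ γ * v := by
    rw [hγ, div_mul_eq_mul_div, one_mul, le_div_iff₀ (by positivity)]
    linarith only [hvT]
  obtain ⟨s, hsdef⟩ : ∃ s : ℕ, s = ⌈γ * v⌉₊ := ⟨_, rfl⟩
  have hsl : γ * v ≤ s := by rw [hsdef]; exact Nat.le_ceil _
  have hsu : (s : ℝ) ≤ 2 * (γ * v) := by
    have h1 := (Nat.ceil_lt_add_one (by linarith only [hγv] : 0 ≤ γ * v)).le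
    rw [← hsdef] at h1
    linarith only [h1, hγv]
  have hs1 : 1 ≤ s := by
    have : (1 : ℝ) ≤ s := hγv.trans hsl
    exact_mod_cast this
  obtain ⟨sv, hsvdef⟩ : ∃ s : ℕ, s = ⌈v⌉₊ := ⟨_, rfl⟩
  have hsvl : v ≤ sv := by rw [hsvdef]; exact Nat.le_ceil _
  have hsvu : (sv : ℝ) ≤ 2 * v := by
    have h1 := (Nat.ceil_lt_add_one hv0.le).le
    rw [← hsvdef] at h1
    linarith only [h1, hv1]
  have h2na : (0 : ℝ) < 2 ^ (n - a) := by positivity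
  obtain ⟨r, hrdef⟩ : ∃ r : ℕ, r = ⌈(100 * 10 ^ i : ℝ) / 2 ^ (n - a)⌉₊ := ⟨_, rfl⟩
  have hrl : (100 * 10 ^ i : ℕ) ≤ r * 2 ^ (n - a) := by
    have h1 : (100 * 10 ^ i : ℝ) / 2 ^ (n - a) ≤ r := by rw [hrdef]; exact Nat.le_ceil _
    rw [div_le_iff₀ h2na] at h1
    exact_mod_cast h1
  have hru : (r : ℝ) ≤ 200 * 2 ^ a * v / K1 + 1 := by
    have h1 := (Nat.ceil_lt_add_one (by positivity :
      0 ≤ (100 * 10 ^ i : ℝ) / 2 ^ (n - a))).le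
    rw [← hrdef] at h1
    have h2 : (100 * 10 ^ i : ℝ) / 2 ^ (n - a) ≤ 200 * 2 ^ a * v / K1 :=
      num_r (by exact_mod_cast e2n) h2na hK10 hvc2
    linarith only [h1, h2]
  have hLr : L * r ≤ κ * v := num_Lr hL0 hru hK10 hv0 hC2a hvL
  obtain ⟨rm, hrmdef⟩ : ∃ rm : ℕ, rm = (H + 1) * 2 ^ a := ⟨_, rfl⟩
  have hrml : Lm ≤ rm * 2 ^ (n - a) := by
    refine hLmle.trans (le_of_eq ?_)
    rw [hrmdef, e2n]; ring
  have hrmr : (rm : ℝ) = (H + 1) * 2 ^ a := by rw [hrmdef]; push_cast; ring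
  obtain ⟨m, hmdef⟩ : ∃ m : ℕ, m = ⌈L * rm + 3 + c1 / γ⌉₊ := ⟨_, rfl⟩
  have hml : L * rm + 3 + c1 / γ ≤ m := by rw [hmdef]; exact Nat.le_ceil _
  have hmu : (m : ℝ) ≤ L * ((H + 1) * 2 ^ a) + 4 + c1 / γ := by
    have h1 := (Nat.ceil_lt_add_one (by positivity : 0 ≤ L * rm + 3 + c1 / γ)).le
    rw [← hmdef] at h1
    rw [← hrmr]
    linarith only [h1]
  have hnum_m := num_m hθ hc10 hT1 hHr hK1 hγ hL0 ha1 hkr hv0 (Nat.cast_nonneg m)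
    (Nat.cast_nonneg s) hmu hsu hc1θ hC2b
  have hnum_x := num_x hx1 hc10 hT1 hHr hK1 hγ hkr hv0 hsu hc1x hC2c
  have hcs := num_cs hc10 hγ0 hsl
  have hCh0 : 0 ≤ Ch := by
    have := num_Ch hT1 hK1 hHr hkr hθ hCh
    linarith only [this]
  refine winAt_core (A := A) (P := P) (φ := φ) (k := k) (nt := nt)
    (N := 2 ^ (n - a)) hk1 hnt (D := 180 * W) (g0 := g0) (g1 := g1) (θ := θ) (b := b) (L := L)
    (by linarith only [hW1]) hg0 hθ (by linarith only [hb, hlam]) hbL hKs hKs' hStk hSt1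
    (Lm := Lm) (Δ := Ch * W / 2) (X := x1 * (1 + ℓ)) (ℓ := ℓ)
    (by positivity) (by positivity) hℓ0 hjump (i := i) (v := v) (lam := lam) (c1 := c1)
    (ρ := κ * v) (r := r) (sv := sv) (s := s) (m := m) (rm := rm) hrl hLr hs1 hrml
    ?_ ?_ ?_ ?_ ?_ ?_ ?_ ?_ ?_ ?_
  · -- levels
    have h1 := num_T (Lm := (Lm : ℝ)) (tn := (2 : ℝ) ^ n) (ti := (10 : ℝ) ^ i) hT1 hHr hK1 hγ
      hv0 (Nat.cast_nonneg s) hsu (by exact_mod_cast hLmle) (by positivity) hvc1 (by positivity)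
    have h2 : ((nt * k * (2 * s * Lm) : ℕ) : ℝ) ≤ ((9 * 10 ^ i : ℕ) : ℝ) := by
      push_cast
      rw [hT] at h1
      exact h1
    exact_mod_cast h2
  · exact num_q1 hkθ hkb hv1
  · exact num_q2 hb hlam hkb hv1 hsvl
  · exact num_q3 hk0 hκθ hv0 hc1s hvc
  · exact num_q4 hb hlam hkb hv1 hsvl hc1s
  · exact num_q5 hℓ hcs hvc
  · exact num_q6 hml (Nat.cast_nonneg s) hcs hvc
  · refine num_q7 hθ hk0 hnum_m ?_
    rw [hℓ]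
    exact hnum_x
  · exact num_8 (g0 := g0) (Ch := Ch) (W := W) hθ hT1 hHr hK1 hγ hkr hv1 hW1 hWg0
      hsvu (Nat.cast_nonneg sv) (ms := ((m * (2 * s) : ℕ) : ℝ)) (by push_cast; exact hnum_m) hsl
      hCh
  · exact hwin

end Crest.Agent.R154.HM8187
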