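import Crest.Agent.R154.TailDoc_736
import Crest.Agent.R154.HMIn_263
import Crest.Agent.R154.HM7b_299

/-! Row 154, HOME v2 (263 #37995), leaves L3 and L4: `TailIn`, `WInf`, `JumpIn` on `kT`
(and on every kernel system of natural climbs). -/

set_option autoImplicit false
set_option linter.unusedSectionVars false
set_option linter.deprecated false

namespace Crest.Agent.R154.Home736

open MeasureTheory ProbabilityTheory Set Filter Crest.ProbabilityR.RandomEnvironment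
open Crest.Agent.R154.Mk561 Crest.Agent.R154.Q561
open Crest.Agent.R154.RatioR872 Crest.Agent.R154.RatioR872.KerSys Crest.Agent.R154.Bd736
open Crest.Agent.R154.Flux132 (lev lev_add lev_neg lev_zero)
open Crest.Agent.R154.Bind263 (Frame)
open Crest.Agent.R154.B4Inst797 (Nat0 natLaw lat lat_add UU lp Hit nat_ne_zero)
open Crest.Agent.R154.MobW437 (wl Sl meas_U wl_pos tl_small tl_pos)
open Crest.Agent.R154.D2Asm244 (kT)
open Crest.Agent.R154.B4 (LP)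
open scoped ENNReal

lemma jumpTail_mono {S : Type*} {Ω : Type*} {m0 : MeasurableSpace Ω} {P : Measure Ω}
    {A : KerSys S P} {φ : S → ℝ} {n : ℕ} {Δ Δ' : ℝ} {π : ℝ≥0∞} (h : Doc74.JumpTail A φ n Δ π)
    (hΔ : Δ' ≤ Δ) : Doc74.JumpTail A φ n Δ' π := by
  classical
  intro a x hx
  refine (h a x hx).trans (lintegral_mono fun ω => ENNReal.tsum_le_tsum fun y => ?_)
  by_cases h1 : Doc74.Jp φ Δ x y
  · have h2 : Doc74.Jp φ Δ' x y := hΔ.trans h1
    rw [if_pos h1, if_pos h2]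
  · rw [if_neg h1]; exact zero_le

/-- the widths tend to infinity -/
theorem wInf_lp {Ω : Type*} [mΩ : MeasurableSpace Ω] {P : Measure Ω} [IsProbabilityMeasure P]
    (L : LP P) (i : Fin 2) : HM263.WInf fun n => wl L i (2 ^ n) := by
  intro g
  obtain ⟨l0, h⟩ := tl_small L i (δ := min 1 (1 / (|g| + 1))) (by positivity) (min_le_left _ _)
  refine ⟨l0, fun n hn => ?_⟩
  have h1 := (h (2 ^ n) (hn.trans Nat.lt_two_pow_self.le)).le.trans (min_le_right _ _)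
  have h2 := tl_pos L i (2 ^ n)
  have h3 : (0 : ℝ) < |g| + 1 := by positivity
  change g ≤ 1 / MobW437.tl L i (2 ^ n)
  rw [le_div_iff₀ h2]
  calc g * MobW437.tl L i (2 ^ n) ≤ |g| * MobW437.tl L i (2 ^ n) := by
        gcongr; exact le_abs_self g
    _ ≤ |g| * (1 / (|g| + 1)) := by gcongr
    _ ≤ 1 := by
        rw [mul_one_div, div_le_one h3]; linarith

variable {d : ℕ} {Q : Measure (Environment d)} [IsProbabilityMeasure Q] {κ : ℝ} {R : ℕ}

/-- **(L3)** -/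
theorem tailIn (F : Frame Q κ R) (u : Step d) {i1 i2 : Fin d} (h1 : i1 ≠ u.1)
    (h2 : i2 ≠ u.1) (h12 : i1 ≠ i2) (hc : mkAnn κ Q 0 (Nat0 u R) ≠ 0) (i : Fin 2)
    (K : ℕ → ℕ → Site d → Site d → ℝ≥0∞) (hK) :
    HM263.TailIn (kerSys u R κ Q F.stat F.fin K hK) (latR i1 i2 i) (levR u)
      (fun n => wl (lp F u h1 h2 h12 hc) i (2 ^ n)) := by
  intro ν hν
  obtain ⟨a0, h⟩ := tail_doc F u h1 h2 h12 hc i K hK hν
  refine ⟨a0, fun a ha => ?_⟩
  obtain ⟨α, ⟨n0, h3⟩, h4⟩ := h a ha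
  exact ⟨α, n0, h3, h4⟩

/-- **(L3)** on `kT` -/
theorem tailIn_kT (F : Frame Q κ R) (u : Step d) {i1 i2 : Fin d} (h1 : i1 ≠ u.1)
    (h2 : i2 ≠ u.1) (h12 : i1 ≠ i2) (hc : mkAnn κ Q 0 (Nat0 u R) ≠ 0) (i : Fin 2) :
    HM263.TailIn (kT u R κ Q F.stat F.fin) (latR i1 i2 i) (levR u)
      (fun n => wl (lp F u h1 h2 h12 hc) i (2 ^ n)) :=
  tailIn F u h1 h2 h12 hc i _ _

/-- **(L4)** -/
theorem jumpIn (F : Frame Q κ R) (u : Step d) {i1 i2 : Fin d} (h1 : i1 ≠ u.1)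
    (h2 : i2 ≠ u.1) (h12 : i1 ≠ i2) (hc : mkAnn κ Q 0 (Nat0 u R) ≠ 0) (i : Fin 2)
    (K : ℕ → ℕ → Site d → Site d → ℝ≥0∞) (hK) :
    HM263.JumpIn (kerSys u R κ Q F.stat F.fin K hK) (latR i1 i2 i) (levR u)
      (fun n => wl (lp F u h1 h2 h12 hc) i (2 ^ n)) (HM7299.regL (lp F u h1 h2 h12 hc) i) := by
  have := B4Inst797.natLaw_isProb (κ := κ) (Q := Q) (R := R) (u := u) hc
  obtain ⟨π, hπ0, hπ1, l0, h⟩ := jumpTail_irr F u h1 h2 h12 hc i K hK
  refine ⟨π, 1 / 3600, l0, hπ0, hπ1, by norm_num, fun n hn A0 M B' hM hreg α => ?_⟩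
  have hw := wl_pos (lp F u h1 h2 h12 hc) i (2 ^ n)
  have hw' := wl_pos (lp F u h1 h2 h12 hc) i (M * 2 ^ n)
  have hirr : ¬ (Sl (lp F u h1 h2 h12 hc) i (2 ^ n) ≤ A0 ∧
      wl (lp F u h1 h2 h12 hc) i (M * 2 ^ n) ≤
        max B' 0 * wl (lp F u h1 h2 h12 hc) i (2 ^ n)) := by
    rintro ⟨g1, g2⟩
    rcases le_total 0 B' with hB | hB
    · rw [max_eq_left hB] at g2
      exact hreg ⟨g1, g2⟩
    · rw [max_eq_right hB, zero_mul] at g2
      exact absurd g2 (not_le.2 hw')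
  have e1 : (1 / 3600 : ℝ) * 2 ^ A0 * wl (lp F u h1 h2 h12 hc) i (2 ^ n)
      ≤ 2 ^ A0 / 3600 * wl (lp F u h1 h2 h12 hc) i (2 ^ n) := le_of_eq (by ring)
  have e2 : (1 / 3600 : ℝ) * B' * wl (lp F u h1 h2 h12 hc) i (2 ^ n)
      ≤ max B' 0 / 20 * wl (lp F u h1 h2 h12 hc) i (2 ^ n) := by
    gcongr
    have g1 := le_max_left B' 0
    have g2 := le_max_right B' 0
    linarith
  have en : Doc74.ph (fun x => - latR i1 i2 i x) (levR u) (-α)
      = fun x => - Doc74.ph (latR i1 i2 i) (levR u) α x :=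
    funext fun x => Doc74.ph_neg _ _ _ _
  rcases h (2 ^ n) (hn.trans Nat.lt_two_pow_self.le) A0 M (max B' 0) (by omega) hirr
    with g | g
  · left
    rcases g α with g | g
    · exact Or.inl (jumpTail_mono g e1)
    · rw [en] at g
      exact Or.inr (jumpTail_mono g e1)
  · right
    rcases g α with g | g
    · exact Or.inl (jumpTail_mono g e2)
    · rw [en] at g
      exact Or.inr (jumpTail_mono g e2)

/-- **(L4)** on `kT` -/
theorem jumpIn_kT (F : Frame Q κ R) (u : Step d) {i1 i2 : Fin d} (h1 : i1 ≠ u.1)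
    (h2 : i2 ≠ u.1) (h12 : i1 ≠ i2) (hc : mkAnn κ Q 0 (Nat0 u R) ≠ 0) (i : Fin 2) :
    HM263.JumpIn (kT u R κ Q F.stat F.fin) (latR i1 i2 i) (levR u)
      (fun n => wl (lp F u h1 h2 h12 hc) i (2 ^ n)) (HM7299.regL (lp F u h1 h2 h12 hc) i) :=
  jumpIn F u h1 h2 h12 hc i _ _

/-- the widths of `lp` tend to infinity -/
theorem wInf_kT (F : Frame Q κ R) (u : Step d) {i1 i2 : Fin d} (h1 : i1 ≠ u.1)
    (h2 : i2 ≠ u.1) (h12 : i1 ≠ i2) (hc : mkAnn κ Q 0 (Nat0 u R) ≠ 0) (i : Fin 2) :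
    HM263.WInf (fun n => wl (lp F u h1 h2 h12 hc) i (2 ^ n)) := by
  have := B4Inst797.natLaw_isProb (κ := κ) (Q := Q) (R := R) (u := u) hc
  exact wInf_lp _ i

end Crest.Agent.R154.Home736
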