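import Crest.Agent.R154.NBDefs_28
import Crest.Agent.R154.DoobW_431

/-! Row 154, KAPPA' (801 #38888), window lemma (2) = H2 in words (helper386): X local, Y anything,
first contact, one environment. -/

set_option autoImplicit false

namespace Crest.Agent.R154.HN697

open MeasureTheory ProbabilityTheory Crest.ProbabilityR.RandomEnvironment Crest.Agent.R154
open Crest.Agent.R154.Flux132 (lev opp)
open Crest.Agent.R154.Flux566 (lw endp sitesL measurable_lw locOn_lw endp_append
  endp_eq_add)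
open Crest.Agent.R154.NB28 (IsUp IsDn aw)
open Crest.Agent.R154.DoobW431
open scoped ENNReal

variable {d : ℕ}

lemma lev_add (u : Step d) (x y : Site d) : lev u (x + y) = lev u x + lev u y := by
  unfold lev
  split_ifs
  · simp
  · simp only [Pi.add_apply]; ring

lemma sitesL_append (x : Site d) (l l' : List (Step d)) :
    sitesL x (l ++ l') = sitesL x l ++ sitesL (endp x l) l' := by
  induction l generalizing x with
  | nil => rfl
  | cons e l ih => simp only [List.cons_append, sitesL, endp, ih]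

lemma mem_sitesL {x z : Site d} {l : List (Step d)} :
    z ∈ sitesL x l ↔ ∃ γ ρ2, l = γ ++ ρ2 ∧ ρ2 ≠ [] ∧ endp x γ = z := by
  constructor
  · intro h
    induction l generalizing x with
    | nil => simp [sitesL] at h
    | cons e l ih =>
      simp only [sitesL, List.mem_cons] at h
      rcases h with rfl | h
      · exact ⟨[], e :: l, rfl, by simp, rfl⟩
      · obtain ⟨γ, ρ2, h1, h2, h3⟩ := ih h
        exact ⟨e :: γ, ρ2, by rw [h1]; rfl, h2, h3⟩
  · rintro ⟨γ, ρ2, rfl, h2, h3⟩
    rw [sitesL_append, List.mem_append]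
    right
    rw [h3]
    cases ρ2 with
    | nil => exact absurd rfl h2
    | cons e l => simp [sitesL]

lemma sitesL_add (x y : Site d) (l : List (Step d)) :
    sitesL (x + y) l = (sitesL x l).map (· + y) := by
  induction l generalizing x with
  | nil => rfl
  | cons e l ih =>
    simp only [sitesL, List.map_cons]
    rw [← ih (x + stepVec e)]
    congr 2
    abel

lemma lw_shift (ω : Environment d) (z x : Site d) (l : List (Step d)) :
    lw (shiftEnv z ω) x l = lw ω (x + z) l := by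
  induction l generalizing x with
  | nil => rfl
  | cons e l ih =>
    simp only [lw]
    rw [ih (x + stepVec e)]
    have : x + stepVec e + z = x + z + stepVec e := by abel
    rw [this]
    rfl

lemma lintegral_lw (ν : Measure (Row d)) [IsProbabilityMeasure ν] (x : Site d)
    (l : List (Step d)) : ∫⁻ ω, lw ω x l ∂(iidEnvironmentLaw ν) = aw ν l := by
  have h := (Q561.iid_shift ν x).lintegral_comp (f := fun ω => lw ω 0 l) (measurable_lw 0 l)
  rw [aw, ← h]
  refine lintegral_congr fun ω => ?_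
  rw [lw_shift, zero_add]

lemma lintegral_lw_mul (ν : Measure (Row d)) [IsProbabilityMeasure ν] (x y : Site d)
    (l l' : List (Step d)) (h : ∀ z, z ∈ sitesL x l → z ∉ sitesL y l') :
    ∫⁻ ω, lw ω x l * lw ω y l' ∂(iidEnvironmentLaw ν) = aw ν l * aw ν l' := by
  rw [Q561.iid_lintegral_mul ν (S := {z | z ∈ sitesL x l}) (T := {z | z ∈ sitesL y l'})
    (Set.disjoint_left.2 fun z hz hz' => h z hz hz') (measurable_lw x l) (measurable_lw y l')
    (locOn_lw x l) (locOn_lw y l'), lintegral_lw, lintegral_lw]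

lemma pf_up (u : Step d) (h : ℕ) : PF {l : List (Step d) | IsUp u h l} := by
  rintro l hl l' hl' ⟨t, rfl⟩
  by_contra hne
  have ht : t ≠ [] := by rintro rfl; simp at hne
  have h1 := hl'.1 (endp 0 l) (mem_sitesL.2 ⟨l, t, rfl, ht, rfl⟩)
  have h2 := hl.2
  omega

lemma pf_dn (u : Step d) (h : ℕ) : PF {l : List (Step d) | IsDn u h l} := by
  rintro l hl l' hl' ⟨t, rfl⟩
  by_contra hne
  have ht : t ≠ [] := by rintro rfl; simp at hne
  have h1 := hl'.1 (endp 0 l) (mem_sitesL.2 ⟨l, t, rfl, ht, rfl⟩)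
  have h2 := hl.2
  omega

lemma pf_cont {W : Set (List (Step d))} (hW : PF W) (γ : List (Step d)) :
    PF {ρ2 | γ ++ ρ2 ∈ W} := by
  intro l hl l' hl' hp
  have := hW _ hl _ hl' ((List.prefix_append_right_inj γ).2 hp)
  exact List.append_cancel_left this

open Classical in
lemma tsum_aw (ν : Measure (Row d)) [IsProbabilityMeasure ν] (W : Set (List (Step d))) :
    ∑' l, (if l ∈ W then aw ν l else 0)
      = ∫⁻ ω, ∑' l, (if l ∈ W then lw ω 0 l else 0) ∂(iidEnvironmentLaw ν) := by
  rw [lintegral_tsum fun l => by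
    by_cases h : l ∈ W
    · simp only [h, if_true]; exact (measurable_lw 0 l).aemeasurable
    · simp only [h, if_false]; exact aemeasurable_const]
  refine tsum_congr fun l => ?_
  by_cases h : l ∈ W
  · simp only [h, if_true]; rfl
  · simp [h]

open Classical in
lemma tsum_aw_le_one (ν : Measure (Row d)) [IsProbabilityMeasure ν] {W : Set (List (Step d))}
    (hW : PF W) : ∑' l, (if l ∈ W then aw ν l else 0) ≤ 1 := by
  rw [tsum_aw]
  calc _ ≤ ∫⁻ _ω, 1 ∂(iidEnvironmentLaw ν) := lintegral_mono fun ω => kraft ω 0 hW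
    _ = 1 := by simp

open Classical in
/-- reverse of `markov_pf` -/
lemma join_le (ω : Environment d) (x : Site d) {W T : Set (List (Step d))} (hW : PF W)
    (C : List (Step d) → Set (List (Step d))) (h : ∀ γ ∈ W, ∀ σ ∈ C γ, γ ++ σ ∈ T) :
    ∑' γ, (if γ ∈ W then lw ω x γ * ∑' σ, (if σ ∈ C γ then lw ω (endp x γ) σ else 0) else 0)
      ≤ ∑' τ, (if τ ∈ T then lw ω x τ else 0) := by
  have h1 : ∑' γ, (if γ ∈ W then lw ω x γ * ∑' σ, (if σ ∈ C γ then lw ω (endp x γ) σ else 0) else 0)
      = ∑' p : List (Step d) × List (Step d),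
        (if p.1 ∈ W ∧ p.2 ∈ C p.1 then lw ω x (p.1 ++ p.2) else 0) := by
    rw [ENNReal.tsum_prod']
    refine tsum_congr fun γ => ?_
    by_cases hγ : γ ∈ W
    · simp only [hγ, if_true, true_and]
      rw [← ENNReal.tsum_mul_left]
      refine tsum_congr fun σ => ?_
      by_cases hσ : σ ∈ C γ
      · simp [hσ, lw_append]
      · simp [hσ]
    · simp [hγ]
  rw [h1]
  set S : Set (List (Step d) × List (Step d)) := {p | p.1 ∈ W ∧ p.2 ∈ C p.1} with hS
  have h2 : ∑' p : List (Step d) × List (Step d),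
        (if p.1 ∈ W ∧ p.2 ∈ C p.1 then lw ω x (p.1 ++ p.2) else 0)
      = ∑' p : S, lw ω x (p.1.1 ++ p.1.2) := by
    rw [tsum_subtype S fun p => lw ω x (p.1 ++ p.2)]
    refine tsum_congr fun p => ?_
    simp only [Set.indicator, hS, Set.mem_ofPred_eq]
  rw [h2]
  have hinj : Function.Injective fun p : S => p.1.1 ++ p.1.2 := by
    rintro ⟨⟨γ, σ⟩, h3, h4⟩ ⟨⟨γ', σ'⟩, h3', h4'⟩ he
    simp only at he h3 h3' ⊢
    have hγ : γ = γ' := pf_unique hW h3 h3' (List.prefix_append γ σ)
      (by rw [he]; exact List.prefix_append γ' σ')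
    subst hγ
    have := List.append_cancel_left he
    subst this
    rfl
  calc ∑' p : S, lw ω x (p.1.1 ++ p.1.2)
      ≤ ∑' p : S, (fun τ => if τ ∈ T then lw ω x τ else 0) (p.1.1 ++ p.1.2) := by
        refine ENNReal.tsum_le_tsum fun p => ?_
        have := h p.1.1 p.2.1 p.1.2 p.2.2
        simp [this]
    _ ≤ _ := ENNReal.tsum_comp_le_tsum_of_injective hinj _


/-- natural (down) prefix -/
def Nd (u : Step d) (γ : List (Step d)) : Prop := ∀ z ∈ sitesL 0 γ, lev u z ≤ 0

lemma Nd.pre {u : Step d} {γ ρ : List (Step d)} (h : Nd u ρ) (hp : γ <+: ρ) : Nd u γ := by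
  obtain ⟨t, rfl⟩ := hp
  intro z hz
  refine h z ?_
  rw [sitesL_append, List.mem_append]
  exact Or.inl hz

/-- visited level `≤ b` naturally, now at level `≥ K` -/
def V (u : Step d) (K b : ℤ) (τ : List (Step d)) : Prop :=
  (∃ γ, γ <+: τ ∧ Nd u γ ∧ lev u (endp 0 γ) ≤ b) ∧ K ≤ lev u (endp 0 τ)

/-- first return to level `≥ K` after level `≤ b` -/
def TT (u : Step d) (K b : ℤ) : Set (List (Step d)) :=
  {τ | V u K b τ ∧ ∀ γ, γ <+: τ → V u K b γ → γ = τ}

/-- has returned -/
def NF (u : Step d) (K b : ℤ) (ρ : List (Step d)) : Prop := ∃ γ, γ <+: ρ ∧ V u K b γ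

lemma pf_TT (u : Step d) (K b : ℤ) : PF (TT u K b) := fun _ hl _ hl' hp => hl'.2 _ hp hl.1

lemma exists_TT (u : Step d) (K b : ℤ) (ρ : List (Step d)) (h : NF u K b ρ) :
    ∃ τ ∈ TT u K b, τ <+: ρ := by
  classical
  obtain ⟨γ, hγ, hV⟩ := h
  have hex : ∃ n, ∃ γ, γ <+: ρ ∧ V u K b γ ∧ γ.length = n := ⟨_, γ, hγ, hV, rfl⟩
  obtain ⟨τ, h1, h2, h3⟩ := Nat.find_spec hex
  refine ⟨τ, ⟨h2, fun γ' hp hV' => ?_⟩, h1⟩
  have h4 := Nat.find_min' hex ⟨γ', hp.trans h1, hV', rfl⟩
  exact hp.eq_of_length (le_antisymm hp.length_le (by omega))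

open Classical in
/-- annealed weight of the returns -/
noncomputable def UU (ν : Measure (Row d)) [IsProbabilityMeasure ν] (u : Step d) (K b : ℤ) :
    ℝ≥0∞ := ∑' τ, (if τ ∈ TT u K b then aw ν τ else 0)

/-- continuations from `v` reaching level `K` (from below) in `y + E` -/
def SE (u : Step d) (K : ℤ) (E : Finset (Site d)) (y v : Site d) : Set (List (Step d)) :=
  {σ | (∀ z ∈ sitesL v σ, lev u z < K) ∧ lev u (endp v σ) = K ∧ endp v σ - y ∈ E}

open Classical in
/-- quenched probability from `v` to reach level `K` (from below) in `y + E` -/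
noncomputable def eE (u : Step d) (K : ℤ) (E : Finset (Site d)) (ω : Environment d)
    (y v : Site d) : ℝ≥0∞ :=
  ∑' σ, (if σ ∈ SE u K E y v then lw ω v σ else 0)

lemma measurable_eE (u : Step d) (K : ℤ) (E : Finset (Site d)) (y v : Site d) :
    Measurable fun ω => eE u K E ω y v := by
  classical
  unfold eE
  refine Measurable.tsum fun σ => ?_
  split_ifs
  · exact measurable_lw v σ
  · exact measurable_const

/-- down crossings which have returned -/
def DnNF (u : Step d) (K b : ℤ) (h' : ℕ) : Set (List (Step d)) :=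
  {ρ | IsDn u h' ρ ∧ NF u K b ρ}

open Classical in
lemma NF_le (ν : Measure (Row d)) [IsProbabilityMeasure ν] (u : Step d) (K b : ℤ) (h' : ℕ) :
    ∑' ρ, (if ρ ∈ DnNF u K b h' then aw ν ρ else 0) ≤ UU ν u K b := by
  rw [tsum_aw, UU, tsum_aw]
  refine lintegral_mono fun ω => ?_
  refine (markov_pf ω 0 (P := TT u K b) (fun γ => {ρ2 | γ ++ ρ2 ∈ {l | IsDn u h' l}})
    (fun _ => 1) ?_ ?_).trans (le_of_eq ?_)
  · rintro ρ ⟨h1, h2⟩
    obtain ⟨τ, hτ, t, rfl⟩ := exists_TT u K b ρ h2
    exact ⟨τ, t, rfl, hτ, h1⟩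
  · intro γ _
    exact kraft ω _ (pf_cont (pf_dn u h') γ)
  · exact tsum_congr fun γ => by simp

lemma tsum_shift (m : Site d → ℝ≥0∞) (c : Site d) : ∑' y, m (y + c) = ∑' x, m x :=
  (Equiv.addRight c).tsum_eq m

/-- words of `Y` up to the first contact -/
def Pc (u : Step d) (K b : ℤ) (y : Site d) (π : List (Step d)) : Set (List (Step d)) :=
  {ρ1 | ρ1 ∈ First 0 {z | z ∈ sitesL y π} ∧ lev u (endp 0 ρ1) ≤ b ∧ ¬ NF u K b ρ1 ∧ Nd u ρ1}

/-- the sites with large `e` -/
def Gs (u : Step d) (K b : ℤ) (E : Finset (Site d)) (lam : ℝ≥0∞) (ω : Environment d)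
    (y : Site d) : Set (Site d) := {v | lev u v ≤ b ∧ lam < eE u K E ω y v}

/-- words visiting `Gs` for the first time before returning -/
def Wr (u : Step d) (K b : ℤ) (E : Finset (Site d)) (lam : ℝ≥0∞) (ω : Environment d)
    (y : Site d) : Set (List (Step d)) :=
  {ρ | ρ ∈ First 0 (Gs u K b E lam ω y) ∧ ¬ NF u K b ρ ∧ Nd u ρ}

/-- returns landing in `y + E` -/
def TE (u : Step d) (K b : ℤ) (E : Finset (Site d)) (y : Site d) : Set (List (Step d)) :=
  {τ | τ ∈ TT u K b ∧ endp 0 τ - y ∈ E}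

open Classical in
/-- `Y` visits a site with large `e` before returning -/
noncomputable def Rr (u : Step d) (K b : ℤ) (E : Finset (Site d)) (lam : ℝ≥0∞)
    (ω : Environment d) (y : Site d) : ℝ≥0∞ :=
  ∑' ρ, (if ρ ∈ Wr u K b E lam ω y then lw ω 0 ρ else 0)

/-- `π` visits a site with small `e` -/
def Bad (u : Step d) (K : ℤ) (E : Finset (Site d)) (lam : ℝ≥0∞) (ω : Environment d)
    (y : Site d) (π : List (Step d)) : Prop :=
  ∃ v, v ∈ sitesL y π ∧ eE u K E ω y v ≤ lam

open Classical in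
/-- Step 4 -/
lemma step4 (u : Step d) (K b : ℤ) (E : Finset (Site d)) (lam : ℝ≥0∞) (ω : Environment d)
    (y : Site d) (π : List (Step d)) :
    ∑' ρ1, (if ρ1 ∈ Pc u K b y π then lw ω 0 ρ1 else 0)
      ≤ (if Bad u K E lam ω y π then 1 else 0) + Rr u K b E lam ω y := by
  by_cases hB : Bad u K E lam ω y π
  · rw [if_pos hB]
    refine le_add_right ?_
    exact kraft ω 0 ((pf_First 0 _).mono fun _ h => h.1)
  · rw [if_neg hB, zero_add]
    refine (markov_pf ω 0 (P := Wr u K b E lam ω y)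
      (fun γ => {ρ2 | γ ++ ρ2 ∈ First 0 {z | z ∈ sitesL y π}}) (fun _ => 1) ?_ ?_).trans
      (le_of_eq ?_)
    · rintro ρ ⟨h1, h2, h3, hNd⟩
      have hmem : endp 0 ρ ∈ Gs u K b E lam ω y := by
        refine ⟨h2, ?_⟩
        by_contra hle
        exact hB ⟨endp 0 ρ, h1.1, not_lt.1 hle⟩
      obtain ⟨γ, hγ, t, rfl⟩ := exists_First 0 _ ρ ⟨ρ, List.prefix_rfl, hmem⟩
      refine ⟨γ, t, rfl, ⟨hγ, fun hn => h3 ?_, hNd.pre (List.prefix_append γ t)⟩, h1⟩
      obtain ⟨γ', h4, h5⟩ := hn
      exact ⟨γ', h4.trans (List.prefix_append γ t), h5⟩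
    · intro γ _
      exact kraft ω _ (pf_cont (pf_First 0 _) γ)
    · rw [Rr]
      exact tsum_congr fun γ => by simp

lemma prefix_cases {γ' γ σ : List (Step d)} (hp : γ' <+: γ ++ σ) :
    γ' <+: γ ∨ ∃ σ', σ' <+: σ ∧ γ' = γ ++ σ' := by
  rcases List.prefix_or_prefix_of_prefix hp (List.prefix_append γ σ) with h | ⟨t, rfl⟩
  · exact Or.inl h
  · exact Or.inr ⟨t, (List.prefix_append_right_inj γ).1 hp, rfl⟩

open Classical in
/-- Step 5 -/
lemma step5 (u : Step d) (K b : ℤ) (E : Finset (Site d)) (lam : ℝ≥0∞)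
    (ω : Environment d) :
    lam * ∑' y, Rr u K b E lam ω y
      ≤ E.card * ∑' τ, (if τ ∈ TT u K b then lw ω 0 τ else 0) := by
  have h1 : ∀ y, lam * Rr u K b E lam ω y
      ≤ ∑' τ, (if τ ∈ TE u K b E y then lw ω 0 τ else 0) := by
    intro y
    have hWpf : PF (Wr u K b E lam ω y) := (pf_First 0 _).mono fun _ h => h.1
    refine le_trans ?_ (join_le ω 0 hWpf (fun γ => SE u K E y (endp 0 γ)) ?_)
    · rw [Rr, ← ENNReal.tsum_mul_left]
      refine ENNReal.tsum_le_tsum fun ρ => ?_
      by_cases hρ : ρ ∈ Wr u K b E lam ω y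
      · rw [if_pos hρ, if_pos hρ, mul_comm]
        refine mul_le_mul_right ?_ _
        exact hρ.1.1.2.le
      · rw [if_neg hρ, if_neg hρ, mul_zero]
    · rintro γ ⟨h2, h3, hNd⟩ σ ⟨h4, h5, h6⟩
      have he : endp 0 (γ ++ σ) = endp (endp 0 γ) σ := endp_append _ _ _
      refine ⟨⟨⟨⟨γ, List.prefix_append γ σ, hNd, h2.1.1⟩, by rw [he, h5]⟩, ?_⟩, by rw [he]; exact h6⟩
      intro γ' hp hV
      rcases prefix_cases hp with h7 | ⟨σ', ⟨t, rfl⟩, rfl⟩
      · exact absurd ⟨γ', h7, hV⟩ h3
      · by_cases ht : t = []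
        · rw [ht, List.append_nil]
        · exfalso
          have h8 := h4 (endp (endp 0 γ) σ') (mem_sitesL.2 ⟨σ', t, rfl, ht, rfl⟩)
          have h9 := hV.2
          rw [endp_append] at h9
          omega
  calc lam * ∑' y, Rr u K b E lam ω y = ∑' y, lam * Rr u K b E lam ω y := by
        rw [ENNReal.tsum_mul_left]
    _ ≤ ∑' y, ∑' τ, (if τ ∈ TE u K b E y then lw ω 0 τ else 0) :=
        ENNReal.tsum_le_tsum h1
    _ = ∑' τ, ∑' y, (if τ ∈ TE u K b E y then lw ω 0 τ else 0) :=
        ENNReal.tsum_comm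
    _ = ∑' τ, E.card * (if τ ∈ TT u K b then lw ω 0 τ else 0) := by
        refine tsum_congr fun τ => ?_
        by_cases hτ : τ ∈ TT u K b
        · rw [if_pos hτ]
          have h8 : ∀ y, (if τ ∈ TE u K b E y then lw ω 0 τ else 0)
              = (if endp 0 τ - y ∈ E then (1 : ℝ≥0∞) else 0) * lw ω 0 τ := by
            intro y
            by_cases h : endp 0 τ - y ∈ E
            · rw [if_pos h, if_pos ⟨hτ, h⟩, one_mul]
            · rw [if_neg h, if_neg (fun h' => h h'.2), zero_mul]
          simp only [h8]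
          rw [ENNReal.tsum_mul_right]
          congr 1
          have h9 := (Equiv.subLeft (endp 0 τ)).tsum_eq
            (fun z : Site d => if z ∈ E then (1 : ℝ≥0∞) else 0)
          simp only [Equiv.subLeft_apply] at h9
          rw [h9, tsum_eq_sum (s := E) (fun z hz => by simp [hz])]
          simp
        · rw [if_neg hτ, mul_zero, ENNReal.tsum_eq_zero]
          intro y
          rw [if_neg fun h => hτ h.1]
    _ = _ := ENNReal.tsum_mul_left


lemma SE_shift (u : Step d) (K : ℤ) (E : Finset (Site d)) (y v : Site d) :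
    SE u K E y v = SE u (K - lev u y) E 0 (v - y) := by
  ext σ
  have h1 : sitesL v σ = (sitesL (v - y) σ).map (· + y) := by
    rw [← sitesL_add, sub_add_cancel]
  have h2 : endp v σ = endp (v - y) σ + y := by
    rw [endp_eq_add σ v, endp_eq_add σ (v - y)]; abel
  simp only [SE, Set.mem_ofPred_eq, h1, h2, List.mem_map, forall_exists_index, and_imp,
    forall_apply_eq_imp_iff₂, lev_add, add_sub_cancel_right, sub_zero]
  constructor
  · rintro ⟨a1, a2, a3⟩
    exact ⟨fun z hz => by have := a1 z hz; omega, by omega, a3⟩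
  · rintro ⟨a1, a2, a3⟩
    exact ⟨fun z hz => by have := a1 z hz; omega, by omega, a3⟩

lemma eE_shift (u : Step d) (K : ℤ) (E : Finset (Site d)) (ω : Environment d) (y v : Site d) :
    eE u K E ω y v = eE u (K - lev u y) E (shiftEnv y ω) 0 (v - y) := by
  unfold eE
  rw [SE_shift]
  refine tsum_congr fun σ => ?_
  rw [lw_shift, sub_add_cancel]

/-- admissible pieces of `X` -/
def Ax (u : Step d) (h : ℕ) (K : ℤ) (E : Finset (Site d)) (y : Site d) : Set (List (Step d)) :=
  {π | lev u (y + endp 0 π) = K ∧ IsUp u h π ∧ endp 0 π ∈ E}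

/-- local crossings -/
def W0 (u : Step d) (h : ℕ) (E : Finset (Site d)) : Set (List (Step d)) :=
  {π | IsUp u h π ∧ endp 0 π ∈ E}

lemma measurableSet_bad (u : Step d) (K : ℤ) (E : Finset (Site d)) (lam : ℝ≥0∞)
    (y : Site d) (π : List (Step d)) : MeasurableSet {ω | Bad u K E lam ω y π} := by
  have : {ω | Bad u K E lam ω y π}
      = ⋃ v : Site d, {ω | v ∈ sitesL y π ∧ eE u K E ω y v ≤ lam} := by
    ext ω; simp [Bad]
  rw [this]
  refine MeasurableSet.iUnion fun v => ?_
  by_cases hv : v ∈ sitesL y π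
  · simp only [hv, true_and]
    exact measurableSet_le (measurable_eE u K E y v) measurable_const
  · simp [hv]

open Classical in
lemma measurable_badlw (u : Step d) (K : ℤ) (E : Finset (Site d)) (lam : ℝ≥0∞)
    (y : Site d) (π : List (Step d)) :
    Measurable fun ω : Environment d => if Bad u K E lam ω y π then lw ω y π else 0 :=
  Measurable.ite (measurableSet_bad u K E lam y π) (measurable_lw y π) measurable_const

open Classical in
lemma step6 (ν : Measure (Row d)) [IsProbabilityMeasure ν] (u : Step d) (h : ℕ) (K : ℤ)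
    (E : Finset (Site d)) (m : Site d → ℝ≥0∞) (lam : ℝ≥0∞) :
    ∑' y, ∑' π, (if π ∈ Ax u h K E y then m (y + endp 0 π) *
        ∫⁻ ω, (if Bad u K E lam ω y π then lw ω y π else 0) ∂(iidEnvironmentLaw ν) else 0)
      ≤ lam * ∑' x, m x := by
  set J : List (Step d) → ℝ≥0∞ := fun π => if π ∈ W0 u h E then
    ∫⁻ ω, (if Bad u h E lam ω 0 π then lw ω 0 π else 0) ∂(iidEnvironmentLaw ν) else 0 with hJ
  have h1 : ∀ y π, (if π ∈ Ax u h K E y then m (y + endp 0 π) *
        ∫⁻ ω, (if Bad u K E lam ω y π then lw ω y π else 0) ∂(iidEnvironmentLaw ν) else 0)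
      ≤ m (y + endp 0 π) * J π := by
    intro y π
    by_cases hA : π ∈ Ax u h K E y
    · rw [if_pos hA, hJ]
      simp only
      rw [if_pos (show π ∈ W0 u h E from hA.2)]
      refine mul_le_mul_right (le_of_eq ?_) _
      have hK : K - lev u y = h := by
        have h2 := hA.1
        rw [lev_add, hA.2.1.2] at h2
        omega
      rw [← (Q561.iid_shift ν y).lintegral_comp (measurable_badlw u h E lam 0 π)]
      refine lintegral_congr fun ω => ?_
      have h3 : Bad u K E lam ω y π ↔ Bad u h E lam (shiftEnv y ω) 0 π := by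
        have h4 : sitesL y π = (sitesL 0 π).map (· + y) := by rw [← sitesL_add, zero_add]
        constructor
        · rintro ⟨v, hv, hle⟩
          rw [h4, List.mem_map] at hv
          obtain ⟨v', hv', rfl⟩ := hv
          refine ⟨v', hv', ?_⟩
          rw [eE_shift, hK, add_sub_cancel_right] at hle
          exact hle
        · rintro ⟨v', hv', hle⟩
          refine ⟨v' + y, by rw [h4]; exact List.mem_map.2 ⟨v', hv', rfl⟩, ?_⟩
          rw [eE_shift, hK, add_sub_cancel_right]
          exact hle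
      by_cases hB : Bad u K E lam ω y π
      · rw [if_pos hB, if_pos (h3.1 hB), lw_shift, zero_add]
      · rw [if_neg hB, if_neg fun h => hB (h3.2 h)]
    · rw [if_neg hA]; exact zero_le
  calc _ ≤ ∑' y, ∑' π, m (y + endp 0 π) * J π :=
        ENNReal.tsum_le_tsum fun y => ENNReal.tsum_le_tsum fun π => h1 y π
    _ = ∑' π, ∑' y, m (y + endp 0 π) * J π := ENNReal.tsum_comm
    _ = (∑' x, m x) * ∑' π, J π := by
        rw [← ENNReal.tsum_mul_left]
        refine tsum_congr fun π => ?_
        rw [ENNReal.tsum_mul_right, tsum_shift]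
    _ ≤ (∑' x, m x) * lam := by
        refine mul_le_mul_right ?_ _
        have h5 : ∑' π, J π = ∫⁻ ω, ∑' π, (if π ∈ W0 u h E then
            (if Bad u h E lam ω 0 π then lw ω 0 π else 0) else 0) ∂(iidEnvironmentLaw ν) := by
          rw [lintegral_tsum fun π => by
            by_cases hπ : π ∈ W0 u h E
            · simp only [hπ, if_true]; exact (measurable_badlw u h E lam 0 π).aemeasurable
            · simp only [hπ, if_false]; exact aemeasurable_const]
          refine tsum_congr fun π => ?_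
          by_cases hπ : π ∈ W0 u h E
          · simp only [hJ, hπ, if_true]
          · simp [hJ, hπ]
        rw [h5]
        calc _ ≤ ∫⁻ _ω, lam ∂(iidEnvironmentLaw ν) := lintegral_mono fun ω => by
              have h6 := bad_le ω 0 (W0 u h E) {v | eE u h E ω 0 v ≤ lam}
                (fun v => SE u h E 0 v) lam ?_ ?_
              · refine le_trans (ENNReal.tsum_le_tsum fun π => ?_) h6
                by_cases hπ : π ∈ W0 u h E
                · rw [if_pos hπ]
                  by_cases hB : Bad u h E lam ω 0 π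
                  · rw [if_pos hB, if_pos]
                    obtain ⟨v, hv, hle⟩ := hB
                    obtain ⟨γ, t, h7, _, h8⟩ := mem_sitesL.1 hv
                    exact ⟨hπ, γ, ⟨t, h7.symm⟩, by rw [h8]; exact hle⟩
                  · rw [if_neg hB]; exact zero_le
                · rw [if_neg hπ]; exact zero_le
              · rintro γ ρ2 ⟨h9, h10⟩
                refine ⟨fun z hz => (h9.1 z ?_).2, ?_, ?_⟩
                · rw [sitesL_append, List.mem_append]; exact Or.inr hz
                · rw [← endp_append]; exact h9.2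
                · rw [← endp_append, sub_zero]; exact h10
              · intro v hv
                exact hv
          _ = lam := by simp
    _ = _ := mul_comm _ _

lemma tsum_lintegral_le {Ω ι : Type*} {m0 : MeasurableSpace Ω} (P : Measure Ω)
    (f : ι → Ω → ℝ≥0∞) : ∑' i, ∫⁻ ω, f i ω ∂P ≤ ∫⁻ ω, ∑' i, f i ω ∂P := by
  classical
  rw [ENNReal.tsum_eq_iSup_sum]
  refine iSup_le fun s => ?_
  have : ∀ s : Finset ι, ∑ i ∈ s, ∫⁻ ω, f i ω ∂P ≤ ∫⁻ ω, ∑ i ∈ s, f i ω ∂P := by
    intro s
    induction s using Finset.induction_on with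
    | empty => simp
    | insert a s ha ih =>
      simp only [Finset.sum_insert ha]
      exact (add_le_add le_rfl ih).trans (le_lintegral_add _ _)
  exact (this s).trans (lintegral_mono fun ω => ENNReal.sum_le_tsum s)


open Classical in
/-- `IsUp` words as a set -/
def UpS (u : Step d) (h : ℕ) : Set (List (Step d)) := {l | IsUp u h l}

/-- down crossings with a first contact at level `≤ b`, not returned -/
def DnF (u : Step d) (K b : ℤ) (h' : ℕ) (y : Site d) (π : List (Step d)) :
    Set (List (Step d)) :=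
  {ρ | IsDn u h' ρ ∧ ¬ NF u K b ρ ∧ (∀ z, z ∈ sitesL y π → z ∈ sitesL 0 ρ → lev u z ≤ b) ∧
    ∃ z, z ∈ sitesL y π ∧ z ∈ sitesL 0 ρ}

open Classical in
lemma stepP (ν : Measure (Row d)) [IsProbabilityMeasure ν] (u : Step d) (K b : ℤ) (h' : ℕ)
    (y : Site d) (π : List (Step d)) :
    ∑' ρ, (if ρ ∈ DnF u K b h' y π then aw ν ρ else 0)
      ≤ ∑' ρ, (if ρ ∈ Pc u K b y π then aw ν ρ else 0) := by
  rw [tsum_aw, tsum_aw]
  refine lintegral_mono fun ω => ?_
  refine (markov_pf ω 0 (P := Pc u K b y π) (fun γ => {ρ2 | γ ++ ρ2 ∈ {l | IsDn u h' l}})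
    (fun _ => 1) ?_ ?_).trans (le_of_eq ?_)
  · rintro ρ ⟨h1, h2, h3, z, hz, hz'⟩
    obtain ⟨γ, t, h4, h5, h6⟩ := mem_sitesL.1 hz'
    obtain ⟨γ1, h7, t1, h8⟩ := exists_First 0 {z | z ∈ sitesL y π} γ
      ⟨γ, List.prefix_rfl, by rw [h6]; exact hz⟩
    have h9 : ρ = γ1 ++ (t1 ++ t) := by rw [h4, ← h8, List.append_assoc]
    refine ⟨γ1, t1 ++ t, h9, ⟨h7, ?_, ?_, ?_⟩, by
      show γ1 ++ (t1 ++ t) ∈ {l | IsDn u h' l}
      rw [← h9]; exact h1⟩
    · refine h3 _ h7.1 (mem_sitesL.2 ⟨γ1, t1 ++ t, h9, ?_, rfl⟩)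
      simp [h5]
    · rintro ⟨γ', h10, h11⟩
      exact h2 ⟨γ', h10.trans ⟨t1 ++ t, h9.symm⟩, h11⟩
    · exact (show Nd u ρ from fun z hz => (h1.1 z hz).2).pre ⟨t1 ++ t, h9.symm⟩
  · intro γ _
    exact kraft ω _ (pf_cont (pf_dn u h') γ)
  · exact tsum_congr fun γ => by simp

open Classical in
lemma stepQ (ν : Measure (Row d)) [IsProbabilityMeasure ν] (u : Step d) (K b : ℤ)
    (E : Finset (Site d)) (lam : ℝ≥0∞) (y : Site d) (π : List (Step d)) :
    aw ν π * ∑' ρ, (if ρ ∈ Pc u K b y π then aw ν ρ else 0)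
      ≤ ∫⁻ ω, (if Bad u K E lam ω y π then lw ω y π else 0) ∂(iidEnvironmentLaw ν)
        + ∫⁻ ω, lw ω y π * Rr u K b E lam ω y ∂(iidEnvironmentLaw ν) := by
  have h1 : aw ν π * ∑' ρ, (if ρ ∈ Pc u K b y π then aw ν ρ else 0)
      = ∫⁻ ω, lw ω y π * ∑' ρ, (if ρ ∈ Pc u K b y π then lw ω 0 ρ else 0)
          ∂(iidEnvironmentLaw ν) := by
    simp_rw [← ENNReal.tsum_mul_left]
    rw [lintegral_tsum fun ρ => by
      by_cases h : ρ ∈ Pc u K b y π
      · simp only [h, if_true]
        exact ((measurable_lw y π).mul (measurable_lw 0 ρ)).aemeasurable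
      · simp only [h, if_false, mul_zero]; exact aemeasurable_const]
    refine tsum_congr fun ρ => ?_
    by_cases h : ρ ∈ Pc u K b y π
    · simp only [h, if_true]
      rw [lintegral_lw_mul ν y 0 π ρ]
      intro z hz hz'
      obtain ⟨γ, t, h4, h5, h6⟩ := mem_sitesL.1 hz'
      refine h.1.2 γ ⟨t, h4.symm⟩ ?_ (by rw [h6]; exact hz)
      rintro rfl
      exact h5 (List.append_right_eq_self.1 h4.symm)
    · simp [h]
  rw [h1, ← lintegral_add_left (measurable_badlw u K E lam y π)]
  refine lintegral_mono fun ω => ?_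
  refine (mul_le_mul_right (step4 u K b E lam ω y π) (lw ω y π)).trans (le_of_eq ?_)
  rw [mul_add]
  congr 1
  by_cases hB : Bad u K E lam ω y π
  · rw [if_pos hB, if_pos hB, mul_one]
  · rw [if_neg hB, if_neg hB, mul_zero]

open Classical in
lemma stepR (ν : Measure (Row d)) [IsProbabilityMeasure ν] (u : Step d) (h : ℕ) (K b : ℤ)
    (E : Finset (Site d)) (m : Site d → ℝ≥0∞) (M lam : ℝ≥0∞) (hM : ∀ x, m x ≤ M)
    (hl : lam ≠ 0) (hl' : lam ≠ ⊤) :
    ∑' y, ∑' π, (if π ∈ Ax u h K E y then m (y + endp 0 π) *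
        ∫⁻ ω, lw ω y π * Rr u K b E lam ω y ∂(iidEnvironmentLaw ν) else 0)
      ≤ M * E.card * UU ν u K b / lam := by
  rw [ENNReal.le_div_iff_mul_le (Or.inl hl) (Or.inl hl')]
  have h1 : ∑' y, ∑' π, (if π ∈ Ax u h K E y then m (y + endp 0 π) *
        ∫⁻ ω, lw ω y π * Rr u K b E lam ω y ∂(iidEnvironmentLaw ν) else 0)
      ≤ M * ∫⁻ ω, ∑' y, Rr u K b E lam ω y ∂(iidEnvironmentLaw ν) := by
    calc _ ≤ ∑' y, ∑' π, M * ∫⁻ ω, (if π ∈ UpS u h then lw ω y π else 0) *
            Rr u K b E lam ω y ∂(iidEnvironmentLaw ν) := by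
          refine ENNReal.tsum_le_tsum fun y => ENNReal.tsum_le_tsum fun π => ?_
          by_cases hA : π ∈ Ax u h K E y
          · rw [if_pos hA]
            refine mul_le_mul' (hM _) (le_of_eq (lintegral_congr fun ω => ?_))
            rw [if_pos (show π ∈ UpS u h from hA.2.1)]
          · rw [if_neg hA]; exact zero_le
      _ = M * ∑' y, ∑' π, ∫⁻ ω, (if π ∈ UpS u h then lw ω y π else 0) *
            Rr u K b E lam ω y ∂(iidEnvironmentLaw ν) := by
          simp_rw [ENNReal.tsum_mul_left]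
      _ ≤ M * ∫⁻ ω, ∑' y, Rr u K b E lam ω y ∂(iidEnvironmentLaw ν) := by
          refine mul_le_mul_right ?_ _
          calc _ ≤ ∑' y, ∫⁻ ω, Rr u K b E lam ω y ∂(iidEnvironmentLaw ν) := by
                refine ENNReal.tsum_le_tsum fun y => ?_
                refine (tsum_lintegral_le _ _).trans (lintegral_mono fun ω => ?_)
                simp only
                rw [ENNReal.tsum_mul_right]
                calc _ ≤ 1 * Rr u K b E lam ω y := by
                      gcongr
                      exact kraft ω y (pf_up u h)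
                  _ = _ := one_mul _
            _ ≤ _ := tsum_lintegral_le _ _
  calc _ ≤ (M * ∫⁻ ω, ∑' y, Rr u K b E lam ω y ∂(iidEnvironmentLaw ν)) * lam := by gcongr
    _ = M * (lam * ∫⁻ ω, ∑' y, Rr u K b E lam ω y ∂(iidEnvironmentLaw ν)) := by ring
    _ ≤ M * ∫⁻ ω, lam * ∑' y, Rr u K b E lam ω y ∂(iidEnvironmentLaw ν) := by
        refine mul_le_mul_right ?_ _
        exact lintegral_const_mul_le _ _
    _ ≤ M * ∫⁻ ω, E.card * ∑' τ, (if τ ∈ TT u K b then lw ω 0 τ else 0)
          ∂(iidEnvironmentLaw ν) := by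
        refine mul_le_mul_right (lintegral_mono fun ω => step5 u K b E lam ω) _
    _ = M * E.card * UU ν u K b := by
        rw [lintegral_const_mul' _ _ (ENNReal.natCast_ne_top _), UU, tsum_aw]
        ring

open Classical in
/-- **Window lemma (2)**, `Y` started at `0`, `X` at `y`, one environment, first contact. -/
theorem core (ν : Measure (Row d)) [IsProbabilityMeasure ν] (u : Step d) (h h' : ℕ) (K b : ℤ)
    (E : Finset (Site d)) (m : Site d → ℝ≥0∞) (M lam : ℝ≥0∞) (hM : ∀ x, m x ≤ M)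
    (hl : lam ≠ 0) (hl' : lam ≠ ⊤) :
    ∑' y, ∑' π, ∑' ρ, (if lev u (y + endp 0 π) = K ∧ IsUp u h π ∧ endp 0 π ∈ E ∧ IsDn u h' ρ ∧
        (∀ z, z ∈ sitesL y π → z ∈ sitesL 0 ρ → lev u z ≤ b) ∧
        (∃ z, z ∈ sitesL y π ∧ z ∈ sitesL 0 ρ)
      then m (y + endp 0 π) * (aw ν π * aw ν ρ) else 0)
      ≤ (lam + UU ν u K b) * (∑' x, m x) + M * E.card * UU ν u K b / lam := by
  have h1 : ∀ y π ρ, (if lev u (y + endp 0 π) = K ∧ IsUp u h π ∧ endp 0 π ∈ E ∧ IsDn u h' ρ ∧
        (∀ z, z ∈ sitesL y π → z ∈ sitesL 0 ρ → lev u z ≤ b) ∧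
        (∃ z, z ∈ sitesL y π ∧ z ∈ sitesL 0 ρ)
      then m (y + endp 0 π) * (aw ν π * aw ν ρ) else 0)
      ≤ (m (y + endp 0 π) * (if π ∈ UpS u h then aw ν π else 0)) *
          (if ρ ∈ DnNF u K b h' then aw ν ρ else 0)
        + (if π ∈ Ax u h K E y then m (y + endp 0 π) * (aw ν π *
          (if ρ ∈ DnF u K b h' y π then aw ν ρ else 0)) else 0) := by
    intro y π ρ
    by_cases a1 : lev u (y + endp 0 π) = K ∧ IsUp u h π ∧ endp 0 π ∈ E ∧ IsDn u h' ρ ∧
        (∀ z, z ∈ sitesL y π → z ∈ sitesL 0 ρ → lev u z ≤ b) ∧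
        (∃ z, z ∈ sitesL y π ∧ z ∈ sitesL 0 ρ)
    · obtain ⟨b1, b2, b3, b4, b5, b6⟩ := id a1
      rw [if_pos a1, if_pos (show π ∈ UpS u h from b2), if_pos (show π ∈ Ax u h K E y from
        ⟨b1, b2, b3⟩)]
      by_cases hn : NF u K b ρ
      · rw [if_pos (show ρ ∈ DnNF u K b h' from ⟨b4, hn⟩), mul_assoc]
        exact le_self_add
      · rw [if_pos (show ρ ∈ DnF u K b h' y π from ⟨b4, hn, b5, b6⟩)]
        exact le_add_self
    · rw [if_neg a1]; exact zero_le
  calc _ ≤ ∑' y, ∑' π, ∑' ρ, ((m (y + endp 0 π) * (if π ∈ UpS u h then aw ν π else 0)) *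
          (if ρ ∈ DnNF u K b h' then aw ν ρ else 0)
        + (if π ∈ Ax u h K E y then m (y + endp 0 π) * (aw ν π *
          (if ρ ∈ DnF u K b h' y π then aw ν ρ else 0)) else 0)) :=
        ENNReal.tsum_le_tsum fun y => ENNReal.tsum_le_tsum fun π => ENNReal.tsum_le_tsum fun ρ =>
          h1 y π ρ
    _ = (∑' y, ∑' π, (m (y + endp 0 π) * (if π ∈ UpS u h then aw ν π else 0)) *
          ∑' ρ, (if ρ ∈ DnNF u K b h' then aw ν ρ else 0))
        + ∑' y, ∑' π, (if π ∈ Ax u h K E y then m (y + endp 0 π) * (aw ν π *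
          ∑' ρ, (if ρ ∈ DnF u K b h' y π then aw ν ρ else 0)) else 0) := by
        rw [← ENNReal.tsum_add]
        refine tsum_congr fun y => ?_
        rw [← ENNReal.tsum_add]
        refine tsum_congr fun π => ?_
        rw [ENNReal.tsum_add, ENNReal.tsum_mul_left]
        congr 1
        by_cases hA : π ∈ Ax u h K E y
        · simp only [hA, if_true, ENNReal.tsum_mul_left]
        · simp [hA]
    _ ≤ (∑' x, m x) * UU ν u K b + (lam * (∑' x, m x) + M * E.card * UU ν u K b / lam) := by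
        refine add_le_add ?_ ?_
        · calc _ ≤ ∑' y, ∑' π, (m (y + endp 0 π) * (if π ∈ UpS u h then aw ν π else 0)) *
                UU ν u K b := by
                gcongr
                exact NF_le ν u K b h'
            _ = (∑' π, ∑' y, m (y + endp 0 π) * (if π ∈ UpS u h then aw ν π else 0)) *
                UU ν u K b := by
                rw [ENNReal.tsum_comm]
                simp_rw [ENNReal.tsum_mul_right]
            _ = ((∑' x, m x) * ∑' π, (if π ∈ UpS u h then aw ν π else 0)) * UU ν u K b := by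
                congr 1
                rw [← ENNReal.tsum_mul_left]
                refine tsum_congr fun π => ?_
                rw [ENNReal.tsum_mul_right, tsum_shift]
            _ ≤ ((∑' x, m x) * 1) * UU ν u K b := by
                gcongr
                exact tsum_aw_le_one ν (pf_up u h)
            _ = _ := by rw [mul_one]
        · calc _ ≤ ∑' y, ∑' π, ((if π ∈ Ax u h K E y then m (y + endp 0 π) *
                  ∫⁻ ω, (if Bad u K E lam ω y π then lw ω y π else 0)
                    ∂(iidEnvironmentLaw ν) else 0)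
                + (if π ∈ Ax u h K E y then m (y + endp 0 π) *
                  ∫⁻ ω, lw ω y π * Rr u K b E lam ω y ∂(iidEnvironmentLaw ν) else 0)) := by
                refine ENNReal.tsum_le_tsum fun y => ENNReal.tsum_le_tsum fun π => ?_
                by_cases hA : π ∈ Ax u h K E y
                · rw [if_pos hA, if_pos hA, if_pos hA, ← mul_add]
                  refine mul_le_mul_right ?_ _
                  exact (mul_le_mul_right (stepP ν u K b h' y π) _).trans
                    (stepQ ν u K b E lam y π)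
                · rw [if_neg hA]; exact zero_le
            _ = _ := by
                rw [← ENNReal.tsum_add]
                refine tsum_congr fun y => ?_
                rw [← ENNReal.tsum_add]
            _ ≤ _ := add_le_add (step6 ν u h K E m lam) (stepR ν u h K b E m M lam hM hl hl')
    _ = _ := by ring

end Crest.Agent.R154.HN697
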