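import Crest.Agent.R154.WJ_74
import Crest.Agent.R154.E2_742
import Crest.Agent.R154.PFDefs_692
import Crest.Agent.R154.B5Br_657
import Crest.Agent.R154.LstB_2

/-! Row 154, frame B (helper179): `HPiece` at 657's instance from the window lemmas E2 / E3. -/

set_option autoImplicit false
set_option linter.unusedSectionVars false

namespace Crest.Agent.R154.HP179

open MeasureTheory ProbabilityTheory Crest.ProbabilityR.RandomEnvironment Crest.Agent.R154
open Crest.Agent.R154.Flux132 (lev opp)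
open Crest.Agent.R154.Flux566 (endp)
open Crest.Agent.R154.B5A
open Crest.Agent.R154.NB28 (IsUp IsDn Cm)
open scoped ENNReal Topology
open Filter

variable {d : ℕ}

lemma ifc {α : Type*} {b c : Prop} {i : Decidable b} {j : Decidable c} {x y : α} (h : b ↔ c) :
    @ite α b i x y = @ite α c j x y := by
  by_cases hb : b
  · rw [if_pos hb, if_pos (h.1 hb)]
  · rw [if_neg hb, if_neg (fun hc => hb (h.2 hc))]

lemma le4 (x : ℝ≥0∞) : x ≤ 4 * x := by
  calc x = 1 * x := (one_mul x).symm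
    _ ≤ 4 * x := mul_le_mul_left (by norm_num) _

lemma fin4 (x y z : ℝ≥0∞) : x + y ≤ 4 * (x + y + z) := le_self_add.trans (le4 _)

lemma fin4' (x y z : ℝ≥0∞) : 4 * x + y ≤ 4 * (x + y + z) :=
  calc 4 * x + y ≤ 4 * x + 4 * y := add_le_add le_rfl (le4 y)
    _ ≤ 4 * x + 4 * y + 4 * z := le_self_add
    _ = _ := by ring

/-! ### quantile -/

open Classical in
lemma quant {Z : Type*} (p : Z → ℝ≥0∞) (hp1 : ∑' z, p z ≤ 1) (v : ℝ≥0∞) (hv : v ≠ 0)
    (hvp : v ≤ ∑' z, p z) : ∃ th : ℝ≥0∞, th ≠ 0 ∧ th ≠ ⊤ ∧ ∃ E : Finset Z,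
      (∑' z, (if z ∈ E then 0 else p z)) ≤ v ∧ v ≤ ∑' z, (if p z ≤ th then p z else 0) ∧
      (E.card : ℝ≥0∞) ≤ th⁻¹ := by
  have hp : ∑' z, p z ≠ ⊤ := ne_top_of_le_ne_top ENNReal.one_ne_top hp1
  rcases hvp.lt_or_eq with h | h
  · obtain ⟨th, h0, ht, h1, h2⟩ := Lst2.quantile p hp v hv h
    have hfin : {z | th ≤ p z}.Finite := ENNReal.finite_const_le_of_tsum_ne_top hp h0
    refine ⟨th, h0, ht, hfin.toFinset, ?_, h2, ?_⟩
    · refine le_trans (ENNReal.tsum_le_tsum fun z => ?_) h1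
      by_cases hz : z ∈ hfin.toFinset
      · rw [if_pos hz]; exact zero_le
      · rw [if_neg hz]
        have : ¬ th ≤ p z := fun hh => hz (hfin.mem_toFinset.2 hh)
        rw [if_pos (not_le.1 this)]
    · rw [ENNReal.le_inv_iff_mul_le]
      calc (hfin.toFinset.card : ℝ≥0∞) * th = ∑ z ∈ hfin.toFinset, th := by
            rw [Finset.sum_const, nsmul_eq_mul]
        _ ≤ ∑ z ∈ hfin.toFinset, p z := Finset.sum_le_sum fun z hz => hfin.mem_toFinset.1 hz
        _ ≤ ∑' z, p z := ENNReal.sum_le_tsum _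
        _ ≤ 1 := hp1
  · refine ⟨1, one_ne_zero, ENNReal.one_ne_top, ∅, ?_, ?_, ?_⟩
    · simp only [Finset.notMem_empty, if_false]; exact h.ge
    · refine le_trans (le_of_eq h) (ENNReal.tsum_le_tsum fun z => ?_)
      rw [if_pos ((ENNReal.le_tsum z).trans hp1)]
    · simp

/-! ### words -/

variable (ν : Measure (Row d)) [IsProbabilityMeasure ν] (u : Step d)

open Classical in
lemma words (n : ℕ) (P : List (Step d) × List (Step d) → Prop) :
    ∑' L : List (B5W.PB u), (if HT (B5W.ht u) L = n ∧ P (B5W.cat L) then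
        LW (B5W.Lam ν u) L else 0)
      = ∑' π : List (Step d), ∑' γ : List (Step d),
        if IsUp u n π ∧ IsDn u n γ ∧ P (π, γ) then NB28.aw ν π * NB28.aw ν γ else 0 := by
  have h := B5W.tsum_L ν u n (fun x => if P x then 1 else 0)
  refine Eq.trans ?_ (h.trans ?_)
  · refine tsum_congr fun L => ?_
    by_cases h1 : HT (B5W.ht u) L = n <;> by_cases h2 : P (B5W.cat L) <;> simp [h1, h2]
  · refine tsum_congr fun π => tsum_congr fun γ => ?_
    by_cases h1 : IsUp u n π <;> by_cases h2 : IsDn u n γ <;> by_cases h3 : P (π, γ) <;>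
      simp [h1, h2, h3]

open Classical in
/-- product law -/
lemma prodw (A B : List (Step d) → Prop) :
    (∑' π : List (Step d), ∑' γ : List (Step d),
        if A π ∧ B γ then NB28.aw ν π * NB28.aw ν γ else 0)
      = (∑' π : List (Step d), if A π then NB28.aw ν π else 0) *
        ∑' γ : List (Step d), if B γ then NB28.aw ν γ else 0 := by
  rw [← ENNReal.tsum_mul_right]
  refine tsum_congr fun π => ?_
  rw [← ENNReal.tsum_mul_left]
  refine tsum_congr fun γ => ?_
  by_cases h1 : A π <;> by_cases h2 : B γ <;> simp [h1, h2]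

open Classical in
/-- law of the end point -/
noncomputable def pz (A : List (Step d) → Prop) (z : Site d) : ℝ≥0∞ :=
  ∑' π : List (Step d), if A π ∧ endp 0 π = z then NB28.aw ν π else 0

open Classical in
lemma fiber (A : List (Step d) → Prop) (Q : Site d → Prop) :
    (∑' π : List (Step d), if A π ∧ Q (endp 0 π) then NB28.aw ν π else 0)
      = ∑' z, (if Q z then pz ν A z else 0) := by
  have h1 : ∀ z : Site d, (if Q z then pz ν A z else 0)
      = ∑' π : List (Step d), (if Q z ∧ A π ∧ endp 0 π = z then NB28.aw ν π else 0) := by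
    intro z
    by_cases h : Q z
    · simp only [h, true_and, if_true]; rfl
    · simp [h]
  simp_rw [h1]
  rw [ENNReal.tsum_comm]
  refine tsum_congr fun π => ?_
  rw [tsum_eq_single (endp 0 π)]
  · by_cases h1 : A π <;> by_cases h2 : Q (endp 0 π) <;> simp [h1, h2]
  · intro z hz
    rw [if_neg]
    rintro ⟨_, _, h⟩
    exact hz h.symm

open Classical in
lemma words_prod (n : ℕ) (A B : Site d → Prop) :
    ∑' L : List (B5W.PB u), (if HT (B5W.ht u) L = n ∧ A (endp 0 (B5W.cat L).1) ∧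
        B (endp 0 (B5W.cat L).2) then LW (B5W.Lam ν u) L else 0)
      = (∑' z, (if A z then pz ν (IsUp u n) z else 0)) *
        ∑' z, (if B z then pz ν (IsDn u n) z else 0) := by
  rw [← fiber ν (IsUp u n) A, ← fiber ν (IsDn u n) B]
  refine Eq.trans (tsum_congr fun L => ifc Iff.rfl)
    ((words ν u n (fun x => A (endp 0 x.1) ∧ B (endp 0 x.2))).trans
      (Eq.trans (tsum_congr fun π => tsum_congr fun γ => ifc ?_)
        ((prodw ν (fun π => IsUp u n π ∧ A (endp 0 π)) (fun γ => IsDn u n γ ∧ B (endp 0 γ))).trans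
          (congrArg₂ (· * ·) (tsum_congr fun π => ifc Iff.rfl)
            (tsum_congr fun γ => ifc Iff.rfl)))))
  constructor
  · rintro ⟨a, b, c', d'⟩; exact ⟨⟨a, c'⟩, b, d'⟩
  · rintro ⟨⟨a, c'⟩, b, d'⟩; exact ⟨a, b, c', d'⟩

lemma act_val (L : List (B5W.PB u)) (w : B5W.Lat u) :
    (act (B5W.dl u) L w).1 = w.1 + endp 0 (B5W.cat L).1 + endp 0 (B5W.cat L).2 := by
  induction L generalizing w with
  | nil => simp [act, B5W.cat, endp]
  | cons b L ih =>
    rw [act, ih]
    show (w.1 + endp 0 b.1.1 + endp 0 b.1.2) + _ + _ = _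
    simp only [B5W.cat, B5W.pm, Flux566.endp_append]
    rw [Flux566.endp_eq_add b.1.1 (endp 0 (B5W.cat L).1), Flux566.endp_eq_add (B5W.cat L).2 (endp 0 b.1.2)]
    abel

lemma act_iff (L : List (B5W.PB u)) (w w' : B5W.Lat u) : act (B5W.dl u) L w = w' ↔
    w.1 + endp 0 (B5W.cat L).1 + endp 0 (B5W.cat L).2 = w'.1 := by
  rw [← act_val]
  exact ⟨fun h => congrArg Subtype.val h, fun h => Subtype.ext h⟩

open Classical in
/-- X local -/
noncomputable def GX (s h : ℕ) (E : Finset (Site d)) (x : Site d) : ℝ≥0∞ :=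
  ∑' π, ∑' γ, (if IsUp u h π ∧ endp 0 π ∈ E ∧ IsDn u h γ ∧
    (∃ k, k ∈ Cm u x π γ) ∧ (∀ k ∈ Cm u x π γ, s < k) then NB28.aw ν π * NB28.aw ν γ else 0)

open Classical in
/-- Y local -/
noncomputable def GY (s h : ℕ) (E : Finset (Site d)) (x : Site d) : ℝ≥0∞ :=
  ∑' π, ∑' γ, (if IsUp u h π ∧ IsDn u h γ ∧ endp 0 γ ∈ E ∧
    (∃ k, k ∈ Cm u x π γ) ∧ (∀ k ∈ Cm u x π γ, k + s ≤ h) then NB28.aw ν π * NB28.aw ν γ else 0)

lemma up_pf (n : ℕ) (l l' : List (Step d)) (h : IsUp u n l) (h' : IsUp u n l') (hp : l <+: l') :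
    l = l' := by
  by_contra hne
  have h1 := B5W.prefix_mem (x := (0 : Site d)) hp hne
  have h2 := (h'.1 _ h1).2
  have h3 := h.2
  omega

lemma dn_pf (n : ℕ) (l l' : List (Step d)) (h : IsDn u n l) (h' : IsDn u n l') (hp : l <+: l') :
    l = l' := by
  by_contra hne
  have h1 := B5W.prefix_mem (x := (0 : Site d)) hp hne
  have h2 := (h'.1 _ h1).1
  have h3 := h.2
  omega

open Classical in
lemma up_le_one (n : ℕ) : (∑' l : List (Step d), if IsUp u n l then NB28.aw ν l else 0) ≤ 1 :=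
  B5W.sum_if_le_one ν (fun l l' h h' hp => up_pf u n l l' h h' hp)

open Classical in
lemma dn_le_one (n : ℕ) : (∑' l : List (Step d), if IsDn u n l then NB28.aw ν l else 0) ≤ 1 :=
  B5W.sum_if_le_one ν (fun l l' h h' hp => dn_pf u n l l' h h' hp)

open Classical in
lemma low_le' (A : List (Step d) → Prop) (th : ℝ≥0∞) (z0 : Site d) :
    (∑' π : List (Step d), if A π ∧ pz ν A (endp 0 π) ≤ th ∧ endp 0 π = z0
      then NB28.aw ν π else 0) ≤ th := by
  by_cases h : pz ν A z0 ≤ th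
  · refine le_trans (ENNReal.tsum_le_tsum fun π => ?_) h
    by_cases h1 : A π ∧ pz ν A (endp 0 π) ≤ th ∧ endp 0 π = z0
    · rw [if_pos h1, if_pos ⟨h1.1, h1.2.2⟩]
    · rw [if_neg h1]; exact zero_le
  · refine le_of_eq_of_le (ENNReal.tsum_eq_zero.2 fun π => ?_) zero_le
    rw [if_neg]
    rintro ⟨_, h2, h3⟩
    exact h (h3 ▸ h2)

open Classical in
/-- local/low displacement of a pair: `A` carries the low endpoint -/
lemma low_pair (A B : List (Step d) → Prop) (hB : (∑' γ, if B γ then NB28.aw ν γ else 0) ≤ 1)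
    (th : ℝ≥0∞) (x x' : Site d) :
    (∑' π : List (Step d), ∑' γ : List (Step d),
      if A π ∧ B γ ∧ (pz ν A (endp 0 π) ≤ th ∧ x + endp 0 π + endp 0 γ = x')
        then NB28.aw ν π * NB28.aw ν γ else 0) ≤ th := by
  rw [ENNReal.tsum_comm]
  calc _ ≤ ∑' γ : List (Step d), (if B γ then NB28.aw ν γ else 0) * th := by
        refine ENNReal.tsum_le_tsum fun γ => ?_
        by_cases hγ : B γ
        · rw [if_pos hγ]
          refine le_trans ?_ (mul_le_mul_right (low_le' ν A th (x' - x - endp 0 γ)) (NB28.aw ν γ))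
          rw [← ENNReal.tsum_mul_left]
          refine ENNReal.tsum_le_tsum fun π => ?_
          by_cases h1 : A π ∧ B γ ∧ (pz ν A (endp 0 π) ≤ th ∧ x + endp 0 π + endp 0 γ = x')
          · rw [if_pos h1, if_pos ⟨h1.1, h1.2.2.1, by rw [← h1.2.2.2]; abel⟩, mul_comm]
          · rw [if_neg h1]; exact zero_le
        · refine le_of_eq_of_le (ENNReal.tsum_eq_zero.2 fun π => ?_) zero_le
          rw [if_neg (fun h => hγ h.2.1)]
    _ = (∑' γ : List (Step d), if B γ then NB28.aw ν γ else 0) * th := ENNReal.tsum_mul_right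
    _ ≤ 1 * th := mul_le_mul_left hB _
    _ = th := one_mul th

/-! ### sums over `Lat u` -/

open Classical in
/-- extension by zero -/
noncomputable def ext (nu : B5W.Lat u → ℝ≥0∞) (x : Site d) : ℝ≥0∞ :=
  if h : lev u x = 0 then nu ⟨x, h⟩ else 0

open Classical in
lemma sum_ext (nu : B5W.Lat u → ℝ≥0∞) (G : Site d → ℝ≥0∞) :
    ∑' w : B5W.Lat u, nu w * G w.1 = ∑' x : Site d, (if lev u x = 0 then ext u nu x * G x else 0) := by
  have h := tsum_subtype {x : Site d | lev u x = 0} (fun x => ext u nu x * G x)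
  refine Eq.trans ?_ (h.trans ?_)
  · refine tsum_congr fun w => ?_
    have hw : lev u w.1 = 0 := w.2
    show nu w * G w.1 = ext u nu w.1 * G w.1
    rw [ext, dif_pos hw]
    rfl
  · refine tsum_congr fun x => ?_
    rw [Set.indicator_apply]
    rfl

open Classical in
lemma ext_sum (nu : B5W.Lat u → ℝ≥0∞) : ∑' x, ext u nu x = ∑' w, nu w := by
  have h := sum_ext u nu (fun _ => 1)
  simp only [mul_one] at h
  rw [h]
  refine tsum_congr fun x => ?_
  by_cases hx : lev u x = 0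
  · rw [if_pos hx]
  · rw [if_neg hx, ext, dif_neg hx]

lemma ext_le (nu : B5W.Lat u → ℝ≥0∞) (M : ℝ≥0∞) (h : ∀ w, nu w ≤ M) (x : Site d) :
    ext u nu x ≤ M := by
  unfold ext
  split_ifs with hx
  · exact h _
  · exact zero_le

/-- the small function -/
noncomputable def del (s : ℕ) : ℝ≥0∞ :=
  annealedProb (iidEnvironmentLaw ν) 0 (Us778.Dip u s) + WJ74.rt ν u s

theorem del_tendsto (hν : ∀ᵐ p ∂ν, ∀ e : Step d, 0 < p.1 e)
    (h : annealedProb (iidEnvironmentLaw ν) 0 (escapeEvent (Flux566.dir u)) ≠ 0) :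
    Tendsto (del ν u) atTop (𝓝 0) := by
  have h1 := Us778.us_tendsto ν hν u h
  have h2 : Tendsto (fun s => WJ74.rt ν u s) atTop (𝓝 0) := by
    rw [ENNReal.tendsto_nhds_zero]
    intro ε hε
    obtain ⟨s0, hs⟩ := WJ74.rt_zero ν u ε hε.ne'
    exact Filter.eventually_atTop.2 ⟨s0, hs⟩
  have h3 := h1.add h2
  rw [add_zero] at h3
  exact h3

open Classical in
theorem hpiece (c : ℝ≥0∞)
    (hup : ∀ n : ℕ, c ≤ ∑' l : List (Step d), if IsUp u n l then NB28.aw ν l else 0)
    (hdn : ∀ n : ℕ, c ≤ ∑' l : List (Step d), if IsDn u n l then NB28.aw ν l else 0) :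
    HPiece (B5W.Lam ν u) (B5W.ht u) (B5W.dl u) (B5W.cd u) c 4 (del ν u) := by
  intro v hv hvc h
  have sX : ∑' z, pz ν (IsUp u h) z = ∑' l : List (Step d), if IsUp u h l then NB28.aw ν l else 0 := by
    have := fiber ν (IsUp u h) (fun _ => True)
    simpa using this.symm
  have sY : ∑' z, pz ν (IsDn u h) z = ∑' l : List (Step d), if IsDn u h l then NB28.aw ν l else 0 := by
    have := fiber ν (IsDn u h) (fun _ => True)
    simpa using this.symm
  obtain ⟨tX, tX0, tXt, EX, eX1, eX2, eX3⟩ := quant (pz ν (IsUp u h)) (by rw [sX]; exact up_le_one ν u h)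
    v hv (by rw [sX]; exact hvc.trans (hup h))
  obtain ⟨tY, tY0, tYt, EY, eY1, eY2, eY3⟩ := quant (pz ν (IsDn u h)) (by rw [sY]; exact dn_le_one ν u h)
    v hv (by rw [sY]; exact hvc.trans (hdn h))
  refine ⟨fun L => endp 0 (B5W.cat L).1 ∈ EX, fun L => endp 0 (B5W.cat L).2 ∈ EY, ?_, ?_, ?_⟩
  · -- both non local
    refine le_trans (le_of_eq (Eq.trans (tsum_congr fun L => ifc Iff.rfl)
      (words_prod ν u h (fun z => ¬ z ∈ EX) (fun z => ¬ z ∈ EY)))) ?_
    refine mul_le_mul' ?_ ?_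
    · refine le_trans (le_of_eq (tsum_congr fun z => ?_)) eX1
      by_cases hz : z ∈ EX <;> simp [hz]
    · refine le_trans (le_of_eq (tsum_congr fun z => ?_)) eY1
      by_cases hz : z ∈ EY <;> simp [hz]
  · -- X local
    refine ⟨tX, tX0, tXt, fun L => pz ν (IsUp u h) (endp 0 (B5W.cat L).1) ≤ tX, ?_, ?_, ?_⟩
    · intro w w'
      have e := words ν u h (fun x => pz ν (IsUp u h) (endp 0 x.1) ≤ tX ∧
        w.1 + endp 0 x.1 + endp 0 x.2 = w'.1)
      refine le_trans (le_of_eq ?_) (low_pair ν (IsUp u h) (IsDn u h) (dn_le_one ν u h) tX w.1 w'.1)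
      refine Eq.trans (Eq.trans (tsum_congr fun L => ifc ?_) e)
        (tsum_congr fun π => tsum_congr fun γ => ifc Iff.rfl)
      exact and_congr Iff.rfl (and_congr Iff.rfl (act_iff u L w w'))
    · refine le_of_le_of_eq ?_ (Eq.trans (tsum_congr fun L => ifc ?_)
        (words_prod ν u h (fun z => pz ν (IsUp u h) z ≤ tX) (fun _ => True))).symm
      · rw [mul_comm]
        refine mul_le_mul' (le_of_le_of_eq eX2 (tsum_congr fun z => ifc Iff.rfl)) ?_
        simp only [if_true]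
        rw [sY]; exact hdn h
      · simp only [and_true]
    · intro s lam M hl hl' nu hnu hM
      have hd1 : annealedProb (iidEnvironmentLaw ν) 0 (Us778.Dip u s) ≤ del ν u s := le_self_add
      have key := W2742.E2 ν u s h EX (ext u nu) M lam (by rw [ext_sum]; exact hnu)
        (ext_le u nu M hM) hl hl'
      have h1 : ∀ w : B5W.Lat u, FI (B5W.Lam ν u) (B5W.ht u) (B5W.dl u) (B5W.cd u)
          (fun L => endp 0 (B5W.cat L).1 ∈ EX) h s w ≤
          GX ν u s h EX w.1 := by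
        intro w
        unfold FI GX
        refine le_trans (le_of_eq (Eq.trans (tsum_congr fun L => ifc (?_ :
          _ ↔ (HT (B5W.ht u) L = h ∧ (fun x : List (Step d) × List (Step d) => endp 0 x.1 ∈ EX ∧
            B5W.cds u x w.1 ≠ ∅ ∧ ∀ k ∈ B5W.cds u x w.1, s < k ∧ k + s ≤ h) (B5W.cat L))))
          (words ν u h (fun x => endp 0 x.1 ∈ EX ∧ B5W.cds u x w.1 ≠ ∅ ∧
          ∀ k ∈ B5W.cds u x w.1, s < k ∧ k + s ≤ h)))) ?_
        · rw [B5W.CD_cat]
        refine ENNReal.tsum_le_tsum fun π => ENNReal.tsum_le_tsum fun γ => ?_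
        rw [B5W.cds_eq]
        by_cases hh : IsUp u h π ∧ IsDn u h γ ∧ (endp 0 (π, γ).1 ∈ EX ∧ Cm u w.1 π γ ≠ ∅ ∧
          ∀ k ∈ Cm u w.1 π γ, s < k ∧ k + s ≤ h)
        · rw [if_pos hh, if_pos ⟨hh.1, hh.2.2.1, hh.2.1,
            Set.nonempty_iff_ne_empty.2 hh.2.2.2.1, fun k hk => (hh.2.2.2.2 k hk).1⟩]
        · rw [if_neg hh]; exact zero_le
      calc _ ≤ ∑' w : B5W.Lat u, nu w * GX ν u s h EX w.1 :=
            ENNReal.tsum_le_tsum fun w => mul_le_mul_right (h1 w) _
        _ = ∑' x : Site d, (if lev u x = 0 then ext u nu x * GX ν u s h EX x else 0) :=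
            sum_ext u nu _
        _ ≤ _ := key
        _ ≤ lam + M * tX⁻¹ * del ν u s / lam := by gcongr
        _ ≤ 4 * (lam + M * tX⁻¹ * del ν u s / lam + del ν u s) := fin4 _ _ _
  · -- Y local
    refine ⟨tY, tY0, tYt, fun L => pz ν (IsDn u h) (endp 0 (B5W.cat L).2) ≤ tY, ?_, ?_, ?_⟩
    · intro w w'
      have e := words ν u h (fun x => pz ν (IsDn u h) (endp 0 x.2) ≤ tY ∧
        w.1 + endp 0 x.1 + endp 0 x.2 = w'.1)
      refine le_trans (le_of_eq ?_) (low_pair ν (IsDn u h) (IsUp u h) (up_le_one ν u h) tY w.1 w'.1)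
      refine Eq.trans (Eq.trans (tsum_congr fun L => ifc ?_) e) ?_
      · exact and_congr Iff.rfl (and_congr Iff.rfl (act_iff u L w w'))
      · rw [ENNReal.tsum_comm]
        refine tsum_congr fun γ => tsum_congr fun π => ?_
        rw [mul_comm]
        refine ifc ?_
        constructor
        · rintro ⟨a, b, c', d'⟩; exact ⟨b, a, c', by rw [← d']; abel⟩
        · rintro ⟨b, a, c', d'⟩; exact ⟨a, b, c', by rw [← d']; abel⟩
    · refine le_of_le_of_eq ?_ (Eq.trans (tsum_congr fun L => ifc ?_)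
        (words_prod ν u h (fun _ => True) (fun z => pz ν (IsDn u h) z ≤ tY))).symm
      · refine mul_le_mul' ?_ (le_of_le_of_eq eY2 (tsum_congr fun z => ifc Iff.rfl))
        simp only [if_true]
        rw [sX]; exact hup h
      · simp only [true_and]
    · intro s lam M hl hl' nu hnu hM
      have hd2 : WJ74.rt ν u s ≤ del ν u s := le_add_self
      have key := WJ74.piece3 ν u h s EY (ext u nu) M lam (by rw [ext_sum]; exact hnu)
        (ext_le u nu M hM) hl hl'
      have h1 : ∀ w : B5W.Lat u, FI (B5W.Lam ν u) (B5W.ht u) (B5W.dl u) (B5W.cd u)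
          (fun L => endp 0 (B5W.cat L).2 ∈ EY) h s w ≤
          GY ν u s h EY w.1 := by
        intro w
        unfold FI GY
        refine le_trans (le_of_eq (Eq.trans (tsum_congr fun L => ifc (?_ :
          _ ↔ (HT (B5W.ht u) L = h ∧ (fun x : List (Step d) × List (Step d) => endp 0 x.2 ∈ EY ∧
            B5W.cds u x w.1 ≠ ∅ ∧ ∀ k ∈ B5W.cds u x w.1, s < k ∧ k + s ≤ h) (B5W.cat L))))
          (words ν u h (fun x => endp 0 x.2 ∈ EY ∧ B5W.cds u x w.1 ≠ ∅ ∧
          ∀ k ∈ B5W.cds u x w.1, s < k ∧ k + s ≤ h)))) ?_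
        · rw [B5W.CD_cat]
        refine ENNReal.tsum_le_tsum fun π => ENNReal.tsum_le_tsum fun γ => ?_
        rw [B5W.cds_eq]
        by_cases hh : IsUp u h π ∧ IsDn u h γ ∧ (endp 0 (π, γ).2 ∈ EY ∧ Cm u w.1 π γ ≠ ∅ ∧
          ∀ k ∈ Cm u w.1 π γ, s < k ∧ k + s ≤ h)
        · rw [if_pos hh, if_pos ⟨hh.1, hh.2.1, hh.2.2.1,
            Set.nonempty_iff_ne_empty.2 hh.2.2.2.1, fun k hk => (hh.2.2.2.2 k hk).2⟩]
        · rw [if_neg hh]; exact zero_le
      calc _ ≤ ∑' w : B5W.Lat u, nu w * GY ν u s h EY w.1 :=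
            ENNReal.tsum_le_tsum fun w => mul_le_mul_right (h1 w) _
        _ = ∑' x : Site d, (if lev u x = 0 then ext u nu x * GY ν u s h EY x else 0) :=
            sum_ext u nu _
        _ ≤ _ := key
        _ ≤ 4 * lam + M * tY⁻¹ * del ν u s / lam := by gcongr
        _ ≤ 4 * (lam + M * tY⁻¹ * del ν u s / lam + del ν u s) := fin4' _ _ _

end Crest.Agent.R154.HP179
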