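import Crest.Agent.R154.E2_22
import Crest.Agent.R154.E3_934
import Crest.Agent.R154.B5Br_657
import Crest.Agent.R154.PFDefs_692
import Crest.Agent.R154.Sel_300

/-! Row 154, ROAD 801, frame B: `HPiece` (692) at 657's instance from E2 / E3 (helper22). -/

set_option autoImplicit false

namespace Crest.Agent.R154.HP22

open MeasureTheory ProbabilityTheory Crest.ProbabilityR.RandomEnvironment Crest.Agent.R154
open Crest.Agent.R154.B5A Crest.Agent.R154.B5W
open Crest.Agent.R154.NB28 (IsUp IsDn Cm)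
open Crest.Agent.R154.Flux566 (endp sitesL endp_append endp_eq_add)
open scoped ENNReal Topology

variable {d : ℕ} (ν : Measure (Row d)) [IsProbabilityMeasure ν] (u : Step d)

lemma act_cat (L : List (PB u)) (w : Lat u) : (act (dl u) L w).1 = dlp (cat L) w.1 := by
  induction L generalizing w with
  | nil => simp [act, cat, dlp, endp]
  | cons b L ih =>
    rw [act, ih]
    simp only [dl, dlp, cat, pm]
    rw [endp_append, endp_append, endp_eq_add b.1.1 (endp 0 (cat L).1),
      endp_eq_add (cat L).2 (endp 0 b.1.2)]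
    abel

open Classical in
/-- law of the end point of a family of words -/
noncomputable def law (P : List (Step d) → Prop) (z : Site d) : ℝ≥0∞ :=
  ∑' l, (if P l ∧ endp 0 l = z then NB28.aw ν l else 0)

open Classical in
lemma law_sum (P : List (Step d) → Prop) (F : Site d → ℝ≥0∞) :
    ∑' z, law ν P z * F z = ∑' l, (if P l then NB28.aw ν l * F (endp 0 l) else 0) := by
  unfold law
  simp_rw [← ENNReal.tsum_mul_right]
  rw [ENNReal.tsum_comm]
  refine tsum_congr fun l => ?_
  rw [tsum_eq_single (endp 0 l)]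
  · by_cases h : P l <;> simp [h]
  · intro z hz
    rw [if_neg (fun h => hz h.2.symm), zero_mul]

open Classical in
lemma law_mass (P : List (Step d) → Prop) :
    ∑' z, law ν P z = ∑' l, (if P l then NB28.aw ν l else 0) := by
  have := law_sum ν P (fun _ => 1)
  simpa using this

open Classical in
lemma law_sum_if (P : List (Step d) → Prop) (Q : Site d → Prop) [DecidablePred Q] :
    ∑' z, (if Q z then law ν P z else 0)
      = ∑' l, (if P l ∧ Q (endp 0 l) then NB28.aw ν l else 0) := by
  have := law_sum ν P (fun z => if Q z then 1 else 0)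
  refine Eq.trans (tsum_congr fun z => ?_) (this.trans (tsum_congr fun l => ?_))
  · split_ifs <;> simp
  · by_cases h1 : P l <;> by_cases h2 : Q (endp 0 l) <;> simp [h1, h2]

open Classical in
/-- product sums over lists -/
lemma list_prod (n : ℕ) (f g : List (Step d) → Prop) :
    ∑' L : List (PB u), (if HT (ht u) L = n ∧ f (cat L).1 ∧ g (cat L).2 then LW (Lam ν u) L else 0)
      = (∑' π, (if IsUp u n π ∧ f π then NB28.aw ν π else 0)) *
        ∑' γ, (if IsDn u n γ ∧ g γ then NB28.aw ν γ else 0) := by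
  have h := tsum_L ν u n (fun x => if f x.1 ∧ g x.2 then 1 else 0)
  refine Eq.trans (tsum_congr fun L => ?_) (h.trans ?_)
  · by_cases h1 : HT (ht u) L = n <;> by_cases h2 : f (cat L).1 <;> by_cases h3 : g (cat L).2 <;>
      simp [h1, h2, h3]
  · rw [← ENNReal.tsum_mul_right]
    refine tsum_congr fun π => ?_
    rw [← ENNReal.tsum_mul_left]
    refine tsum_congr fun γ => ?_
    by_cases h1 : IsUp u n π <;> by_cases h2 : IsDn u n γ <;> by_cases h3 : f π <;>
      by_cases h4 : g γ <;> simp [h1, h2, h3, h4]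

open Classical in
/-- the quantile of the law of a family of words -/
lemma quant (P : List (Step d) → Prop) (hP : ∑' l, (if P l then NB28.aw ν l else 0) ≤ 1)
    (v : ℝ≥0∞) (hv : v ≠ 0) (hm : v ≤ ∑' l, (if P l then NB28.aw ν l else 0)) :
    ∃ (t : ℝ≥0∞) (E : Finset (Site d)), t ≠ 0 ∧ t ≠ ⊤ ∧ (E.card : ℝ≥0∞) ≤ 2 * t⁻¹ ∧
      (∑' l, (if P l ∧ ¬ (endp 0 l ∈ E) then NB28.aw ν l else 0)) ≤ v ∧
      v ≤ (∑' l, (if P l ∧ law ν P (endp 0 l) ≤ t then NB28.aw ν l else 0)) := by
  obtain ⟨k, h1, h2, h3, h4⟩ := Sel300.dyq (law ν P) (by rw [law_mass]; exact hP) hv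
  have hk0 : (2 ^ k : ℝ≥0∞) ≠ 0 := pow_ne_zero _ (by simp)
  have hkt : (2 ^ k : ℝ≥0∞) ≠ ⊤ := ENNReal.pow_ne_top (by simp)
  refine ⟨2 * (2 ^ k)⁻¹, h3.toFinset, mul_ne_zero (by simp) (ENNReal.inv_ne_zero.2 hkt),
    ENNReal.mul_ne_top (by simp) (ENNReal.inv_ne_top.2 hk0), ?_, ?_, ?_⟩
  · rw [← Set.ncard_eq_toFinset_card _ h3]
    rw [ENNReal.mul_inv (Or.inl (by simp)) (Or.inl (by simp)), inv_inv, ← mul_assoc,
      ENNReal.mul_inv_cancel (by simp) (by simp), one_mul]
    exact_mod_cast h4
  · refine le_trans (le_of_eq ?_) h1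
    refine Eq.trans ?_ (law_sum_if ν P (fun z => law ν P z < (2 ^ k)⁻¹)).symm
    refine tsum_congr fun l => ?_
    simp
  · rcases h2 with h2 | h2
    · subst h2
      refine le_trans hm (le_of_eq ?_)
      refine tsum_congr fun l => ?_
      have : law ν P (endp 0 l) ≤ 2 := by
        have h5 : law ν P (endp 0 l) ≤ 1 := le_trans (ENNReal.le_tsum _) (by
          rw [law_mass]; exact hP)
        refine le_trans h5 ?_
        norm_num
      simp [this]
    · exact le_trans h2 (le_of_eq (law_sum_if ν P (fun z => law ν P z ≤ 2 * (2 ^ k)⁻¹)))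

end Crest.Agent.R154.HP22
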