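import Crest.Agent.R154.HPiece_692

/-! Row 154, FRAME B (helper692): `HPiece` at 657's instance. -/

set_option autoImplicit false

namespace Crest.Agent.R154.HP692

open MeasureTheory ProbabilityTheory Crest.ProbabilityR.RandomEnvironment Crest.Agent.R154
open Crest.Agent.R154.B5A Crest.Agent.R154.B5W
open Crest.Agent.R154.NB28 (IsUp IsDn Cm)
open Crest.Agent.R154.Flux566 (endp endp_append endp_eq_add)
open scoped ENNReal Topology
open Filter

variable {d : ℕ} (ν : Measure (Row d)) [IsProbabilityMeasure ν] (u : Step d)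

lemma del_tendsto : Tendsto (del ν u) atTop (𝓝 0) := by
  rw [ENNReal.tendsto_atTop_zero]
  intro ε hε
  have hε2 : ε / 2 ≠ 0 := by simp [hε.ne']
  obtain ⟨s1, h1⟩ := W22.us_small ν u (ε / 2) hε2
  obtain ⟨s2, h2⟩ := E934.us_small ν (Flux132.opp u) (ε / 2) hε2
  refine ⟨max s1 s2, fun s hs => ?_⟩
  calc del ν u s ≤ ε / 2 + ε / 2 :=
        add_le_add (h1 s (le_trans (le_max_left _ _) hs)) (h2 s (le_trans (le_max_right _ _) hs))
    _ = ε := ENNReal.add_halves ε

open Classical in
lemma up_le_one (h : ℕ) : (∑' l : List (Step d), if IsUp u h l then NB28.aw ν l else 0) ≤ 1 :=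
  sum_if_le_one ν fun l l' h h' hp => NB28.isUp_prefix h h' hp

open Classical in
lemma dn_le_one (h : ℕ) : (∑' l : List (Step d), if IsDn u h l then NB28.aw ν l else 0) ≤ 1 :=
  sum_if_le_one ν fun l l' h h' hp => NB28.isDn_prefix h h' hp

lemma act_iff (L : List (PB u)) (w w' : Lat u) :
    act (dl u) L w = w' ↔ w.1 + endp 0 (cat L).1 + endp 0 (cat L).2 = w'.1 := by
  rw [← act_cat]
  exact ⟨fun h => by rw [h], fun h => Subtype.ext h⟩

open Classical in
/-- product sum -/
noncomputable def GG (Q : List (Step d) × List (Step d) → Prop) : ℝ≥0∞ :=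
  ∑' π : List (Step d), ∑' γ : List (Step d), if Q (π, γ) then NB28.aw ν π * NB28.aw ν γ else 0

open Classical in
lemma sum_GG (h : ℕ) (F : List (Step d) × List (Step d) → Prop)
    (F' : List (PB u) → Prop) (hF : ∀ L, F' L ↔ (HT (ht u) L = h ∧ F (cat L))) :
    (∑' L : List (PB u), if F' L then LW (Lam ν u) L else 0)
      = GG ν (fun x => IsUp u h x.1 ∧ IsDn u h x.2 ∧ F x) := by
  refine Eq.trans ?_ ((sum_prod ν u h F).trans ?_)
  · exact tsum_congr fun L => ite_iff (hF L) _ _
  · exact tsum_congr fun π => tsum_congr fun γ => ite_iff Iff.rfl _ _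

open Classical in
/-- density, `X` low -/
lemma dens_X (h : ℕ) (th : ℝ≥0∞) (w w' : Lat u) :
    (∑' L : List (PB u), if HT (ht u) L = h ∧ law ν (IsUp u h) (endp 0 (cat L).1) ≤ th ∧
      act (dl u) L w = w' then LW (Lam ν u) L else 0) ≤ th := by
  calc _ = ∑' L : List (PB u), (if HT (ht u) L = h ∧ (fun x : List (Step d) × List (Step d) =>
          law ν (IsUp u h) (endp 0 x.1) ≤ th ∧ w.1 + endp 0 x.1 + endp 0 x.2 = w'.1) (cat L)
          then LW (Lam ν u) L else 0) := by
        refine tsum_congr fun L => ite_iff ?_ _ _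
        rw [act_iff]
    _ = ∑' π : List (Step d), ∑' γ : List (Step d),
        (if IsUp u h π ∧ IsDn u h γ ∧ law ν (IsUp u h) (endp 0 π) ≤ th ∧
          w.1 + endp 0 π + endp 0 γ = w'.1
          then NB28.aw ν π * NB28.aw ν γ else 0) := by
        refine Eq.trans ?_ ((sum_prod ν u h (fun x : List (Step d) × List (Step d) =>
          law ν (IsUp u h) (endp 0 x.1) ≤ th ∧ w.1 + endp 0 x.1 + endp 0 x.2 = w'.1)).trans ?_)
        · exact tsum_congr fun L => ite_iff Iff.rfl _ _
        · exact tsum_congr fun π => tsum_congr fun γ => ite_iff Iff.rfl _ _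
    _ = ∑' γ : List (Step d), ∑' π : List (Step d),
        (if IsUp u h π ∧ IsDn u h γ ∧ law ν (IsUp u h) (endp 0 π) ≤ th ∧
          w.1 + endp 0 π + endp 0 γ = w'.1
          then NB28.aw ν π * NB28.aw ν γ else 0) := ENNReal.tsum_comm
    _ ≤ ∑' γ : List (Step d), (if IsDn u h γ then NB28.aw ν γ else 0) * th := by
        refine ENNReal.tsum_le_tsum fun γ => ?_
        by_cases hγ : IsDn u h γ
        · rw [if_pos hγ]
          set z : Site d := w'.1 - w.1 - endp 0 γ with hz
          by_cases hzth : law ν (IsUp u h) z ≤ th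
          · refine le_trans ?_ (mul_le_mul_right hzth _)
            rw [law, ← ENNReal.tsum_mul_left]
            refine ENNReal.tsum_le_tsum fun π => ?_
            by_cases hh : IsUp u h π ∧ IsDn u h γ ∧ law ν (IsUp u h) (endp 0 π) ≤ th ∧
                w.1 + endp 0 π + endp 0 γ = w'.1
            · rw [if_pos (c := IsUp u h π ∧ IsDn u h γ ∧ _) hh, if_pos (c := IsUp u h π ∧ endp 0 π = z)
                ⟨hh.1, by rw [hz, ← hh.2.2.2]; abel⟩, mul_comm]
            · rw [if_neg (c := IsUp u h π ∧ IsDn u h γ ∧ _) hh]; exact zero_le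
          · refine le_trans (le_of_eq ?_) (zero_le)
            rw [ENNReal.tsum_eq_zero]
            intro π
            refine if_neg fun hh => hzth ?_
            have h3 : endp 0 π = z := by rw [hz, ← hh.2.2.2]; abel
            rw [← h3]
            exact hh.2.2.1
        · rw [if_neg hγ, zero_mul]
          refine le_of_eq ?_
          rw [ENNReal.tsum_eq_zero]
          exact fun π => if_neg fun hh => hγ hh.2.1
    _ = (∑' γ : List (Step d), (if IsDn u h γ then NB28.aw ν γ else 0)) * th :=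
        ENNReal.tsum_mul_right
    _ ≤ 1 * th := mul_le_mul_left (dn_le_one ν u h) _
    _ = th := one_mul _

open Classical in
/-- density, `Y` low -/
lemma dens_Y (h : ℕ) (th : ℝ≥0∞) (w w' : Lat u) :
    (∑' L : List (PB u), if HT (ht u) L = h ∧ law ν (IsDn u h) (endp 0 (cat L).2) ≤ th ∧
      act (dl u) L w = w' then LW (Lam ν u) L else 0) ≤ th := by
  calc _ = ∑' L : List (PB u), (if HT (ht u) L = h ∧ (fun x : List (Step d) × List (Step d) =>
          law ν (IsDn u h) (endp 0 x.2) ≤ th ∧ w.1 + endp 0 x.1 + endp 0 x.2 = w'.1) (cat L)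
          then LW (Lam ν u) L else 0) := by
        refine tsum_congr fun L => ite_iff ?_ _ _
        rw [act_iff]
    _ = ∑' π : List (Step d), ∑' γ : List (Step d),
        (if IsUp u h π ∧ IsDn u h γ ∧ law ν (IsDn u h) (endp 0 γ) ≤ th ∧
          w.1 + endp 0 π + endp 0 γ = w'.1
          then NB28.aw ν π * NB28.aw ν γ else 0) := by
        refine Eq.trans ?_ ((sum_prod ν u h (fun x : List (Step d) × List (Step d) =>
          law ν (IsDn u h) (endp 0 x.2) ≤ th ∧ w.1 + endp 0 x.1 + endp 0 x.2 = w'.1)).trans ?_)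
        · exact tsum_congr fun L => ite_iff Iff.rfl _ _
        · exact tsum_congr fun π => tsum_congr fun γ => ite_iff Iff.rfl _ _
    _ ≤ ∑' π : List (Step d), (if IsUp u h π then NB28.aw ν π else 0) * th := by
        refine ENNReal.tsum_le_tsum fun π => ?_
        by_cases hπ : IsUp u h π
        · rw [if_pos hπ]
          set z : Site d := w'.1 - w.1 - endp 0 π with hz
          by_cases hzth : law ν (IsDn u h) z ≤ th
          · refine le_trans ?_ (mul_le_mul_right hzth _)
            rw [law, ← ENNReal.tsum_mul_left]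
            refine ENNReal.tsum_le_tsum fun γ => ?_
            by_cases hh : IsUp u h π ∧ IsDn u h γ ∧ law ν (IsDn u h) (endp 0 γ) ≤ th ∧
                w.1 + endp 0 π + endp 0 γ = w'.1
            · rw [if_pos (c := IsUp u h π ∧ IsDn u h γ ∧ _) hh, if_pos (c := IsDn u h γ ∧ endp 0 γ = z)
                ⟨hh.2.1, by rw [hz, ← hh.2.2.2]; abel⟩]
            · rw [if_neg (c := IsUp u h π ∧ IsDn u h γ ∧ _) hh]; exact zero_le
          · refine le_trans (le_of_eq ?_) (zero_le)
            rw [ENNReal.tsum_eq_zero]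
            intro γ
            refine if_neg fun hh => hzth ?_
            have h3 : endp 0 γ = z := by rw [hz, ← hh.2.2.2]; abel
            rw [← h3]
            exact hh.2.2.1
        · rw [if_neg hπ, zero_mul]
          refine le_of_eq ?_
          rw [ENNReal.tsum_eq_zero]
          exact fun γ => if_neg fun hh => hπ hh.1
    _ = (∑' π : List (Step d), (if IsUp u h π then NB28.aw ν π else 0)) * th :=
        ENNReal.tsum_mul_right
    _ ≤ 1 * th := mul_le_mul_left (up_le_one ν u h) _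
    _ = th := one_mul _

open Classical in
/-- window, `X` local -/
lemma win_X (h s : ℕ) (th : ℝ≥0∞) (E : Finset (Site d)) (hE : ∀ a, a ∈ E ↔ th ≤ law ν (IsUp u h) a)
    (hEc : (E.card : ℝ≥0∞) ≤ th⁻¹) (lam M : ℝ≥0∞) (h0 : lam ≠ 0) (ht' : lam ≠ ⊤)
    (nu : Lat u → ℝ≥0∞) (hnu : ∑' w, nu w ≤ 1) (hM : ∀ w, nu w ≤ M) :
    ∑' w, nu w * FI (Lam ν u) (ht u) (dl u) (cd u)
      (fun L => (fun z => th ≤ law ν (IsUp u h) z) (endp 0 (cat L).1) ∧
        (fun _ => True) (endp 0 (cat L).2)) h s w
      ≤ 8 * (lam + M * th⁻¹ * del ν u s / lam + del ν u s) := by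
  have key := W22.E2 ν u s h E (ext u nu) M lam ((ext_total u nu).le.trans hnu)
    (ext_le u nu M hM) h0 ht'
  have e := ext_sum u nu (fun x => ∑' π : List (Step d), ∑' γ : List (Step d),
        if IsUp u h π ∧ IsDn u h γ ∧ (th ≤ law ν (IsUp u h) (endp 0 π) ∧ True) ∧ Cm u x π γ ≠ ∅ ∧
          (∀ k ∈ Cm u x π γ, s < k ∧ k + s ≤ h) then NB28.aw ν π * NB28.aw ν γ else 0)
  refine le_trans (le_of_eq (Eq.trans ?_ e.symm)) ?_
  · refine tsum_congr fun w => ?_
    rw [FI_eq ν u h s (fun z => th ≤ law ν (IsUp u h) z) (fun _ => True)]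
    refine congrArg (fun x => nu w * x) ?_
    exact tsum_congr fun π => tsum_congr fun γ => ite_iff Iff.rfl _ _
  refine le_trans (ENNReal.tsum_le_tsum fun x => ?_) (key.trans ?_)
  · by_cases hx : Flux132.lev u x = 0
    · rw [if_pos hx, if_pos hx]
      refine mul_le_mul_right (ENNReal.tsum_le_tsum fun π => ENNReal.tsum_le_tsum fun γ => ?_) _
      by_cases hh : IsUp u h π ∧ IsDn u h γ ∧ (th ≤ law ν (IsUp u h) (endp 0 π) ∧ True) ∧
          Cm u x π γ ≠ ∅ ∧ (∀ k ∈ Cm u x π γ, s < k ∧ k + s ≤ h)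
      · rw [if_pos hh, if_pos ⟨hh.1, (hE _).2 hh.2.2.1.1, hh.2.1,
          Set.nonempty_iff_ne_empty.2 hh.2.2.2.1, fun k hk => (hh.2.2.2.2 k hk).1⟩]
      · rw [if_neg hh]; exact zero_le
    · rw [if_neg hx, if_neg hx]
  · have h1 : W22.us ν u s ≤ del ν u s := le_self_add
    have h2 : M * (E.card : ℝ≥0∞) * W22.us ν u s / lam ≤ M * th⁻¹ * del ν u s / lam := by gcongr
    calc 1 * (lam + M * (E.card : ℝ≥0∞) * W22.us ν u s / lam + W22.us ν u s)
        ≤ 8 * (lam + M * th⁻¹ * del ν u s / lam + del ν u s) := by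
          refine mul_le_mul' (by norm_num) (add_le_add (add_le_add le_rfl h2) h1)
      _ = _ := rfl

open Classical in
/-- window, `Y` local -/
lemma win_Y (h s : ℕ) (th : ℝ≥0∞) (E : Finset (Site d)) (hE : ∀ a, a ∈ E ↔ th ≤ law ν (IsDn u h) a)
    (hEc : (E.card : ℝ≥0∞) ≤ th⁻¹) (lam M : ℝ≥0∞) (h0 : lam ≠ 0) (ht' : lam ≠ ⊤)
    (nu : Lat u → ℝ≥0∞) (hnu : ∑' w, nu w ≤ 1) (hM : ∀ w, nu w ≤ M) :
    ∑' w, nu w * FI (Lam ν u) (ht u) (dl u) (cd u)
      (fun L => (fun _ => True) (endp 0 (cat L).1) ∧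
        (fun z => th ≤ law ν (IsDn u h) z) (endp 0 (cat L).2)) h s w
      ≤ 8 * (lam + M * th⁻¹ * del ν u s / lam + del ν u s) := by
  have key := E934.E3 (ν := ν) (u := u) s h E (ext u nu) M lam ((ext_total u nu).le.trans hnu)
    (ext_le u nu M hM) h0 ht'
  have e := ext_sum u nu (fun x => ∑' π : List (Step d), ∑' γ : List (Step d),
        if IsUp u h π ∧ IsDn u h γ ∧ (True ∧ th ≤ law ν (IsDn u h) (endp 0 γ)) ∧ Cm u x π γ ≠ ∅ ∧
          (∀ k ∈ Cm u x π γ, s < k ∧ k + s ≤ h) then NB28.aw ν π * NB28.aw ν γ else 0)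
  refine le_trans (le_of_eq (Eq.trans ?_ e.symm)) ?_
  · refine tsum_congr fun w => ?_
    rw [FI_eq ν u h s (fun _ => True) (fun z => th ≤ law ν (IsDn u h) z)]
    refine congrArg (fun x => nu w * x) ?_
    exact tsum_congr fun π => tsum_congr fun γ => ite_iff Iff.rfl _ _
  refine le_trans (ENNReal.tsum_le_tsum fun x => ?_) (key.trans ?_)
  · by_cases hx : Flux132.lev u x = 0
    · rw [if_pos hx, if_pos hx]
      refine mul_le_mul_right (ENNReal.tsum_le_tsum fun π => ENNReal.tsum_le_tsum fun γ => ?_) _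
      by_cases hh : IsUp u h π ∧ IsDn u h γ ∧ (True ∧ th ≤ law ν (IsDn u h) (endp 0 γ)) ∧
          Cm u x π γ ≠ ∅ ∧ (∀ k ∈ Cm u x π γ, s < k ∧ k + s ≤ h)
      · rw [if_pos hh, if_pos ⟨hh.1, (hE _).2 hh.2.2.1.2, hh.2.1,
          Set.nonempty_iff_ne_empty.2 hh.2.2.2.1, fun k hk => (hh.2.2.2.2 k hk).2⟩]
      · rw [if_neg hh]; exact zero_le
    · rw [if_neg hx, if_neg hx]
  · have h1 : E934.us ν (Flux132.opp u) s ≤ del ν u s := le_add_self
    have h2 : M * ((E.card : ℝ≥0∞) * E934.us ν (Flux132.opp u) s) / lam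
        ≤ M * th⁻¹ * del ν u s / lam := by
      rw [mul_assoc M]; gcongr
    calc 8 * lam + 2 * (M * ((E.card : ℝ≥0∞) * E934.us ν (Flux132.opp u) s) / lam)
        ≤ 8 * lam + 8 * (M * th⁻¹ * del ν u s / lam) := by
          refine add_le_add le_rfl (mul_le_mul' (by norm_num) h2)
      _ ≤ 8 * (lam + M * th⁻¹ * del ν u s / lam + del ν u s) := by
          rw [mul_add, mul_add]; exact le_self_add

open Classical in
/-- **`HPiece` for the pair letters** -/
theorem hpiece (cw : ℝ≥0∞) (hc1 : cw ≤ 1)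
    (hup : ∀ n, cw ≤ ∑' π : List (Step d), if IsUp u n π then NB28.aw ν π else 0)
    (hdn : ∀ n, cw ≤ ∑' γ : List (Step d), if IsDn u n γ then NB28.aw ν γ else 0) :
    HPiece (Lam ν u) (ht u) (dl u) (cd u) (cw * cw) 8 (del ν u) := by
  intro v hv hvc h
  have hcc : cw * cw ≤ cw := by
    calc cw * cw ≤ cw * 1 := by gcongr
      _ = cw := mul_one _
  have hX1 : ∑' z, law ν (IsUp u h) z ≤ 1 := by rw [law_total]; exact up_le_one ν u h
  have hY1 : ∑' z, law ν (IsDn u h) z ≤ 1 := by rw [law_total]; exact dn_le_one ν u h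
  have hXc : cw ≤ ∑' z, law ν (IsUp u h) z := by rw [law_total]; exact hup h
  have hYc : cw ≤ ∑' z, law ν (IsDn u h) z := by rw [law_total]; exact hdn h
  obtain ⟨tX, tX0, tXt, hXa, hXb⟩ := quantile2 (law ν (IsUp u h)) hX1 cw v hXc hv (hvc.trans hcc)
  obtain ⟨tY, tY0, tYt, hYa, hYb⟩ := quantile2 (law ν (IsDn u h)) hY1 cw v hYc hv (hvc.trans hcc)
  obtain ⟨EX, hEX, hEXc⟩ := level_card (law ν (IsUp u h)) hX1 tX tX0 tXt
  obtain ⟨EY, hEY, hEYc⟩ := level_card (law ν (IsDn u h)) hY1 tY tY0 tYt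
  refine ⟨fun L => (fun z => tX ≤ law ν (IsUp u h) z) (endp 0 (cat L).1) ∧
        (fun _ => True) (endp 0 (cat L).2),
    fun L => (fun _ => True) (endp 0 (cat L).1) ∧
        (fun z => tY ≤ law ν (IsDn u h) z) (endp 0 (cat L).2), ?_, ?_, ?_⟩
  · calc _ = ∑' L : List (PB u), (if HT (ht u) L = h ∧
          (fun z => law ν (IsUp u h) z < tX) (endp 0 (cat L).1) ∧
          (fun z => law ν (IsDn u h) z < tY) (endp 0 (cat L).2) then LW (Lam ν u) L else 0) := by
          refine tsum_congr fun L => ite_iff ?_ _ _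
          simp only [and_true, true_and, not_le]
      _ = (∑' z, if law ν (IsUp u h) z < tX then law ν (IsUp u h) z else 0)
          * ∑' z, (if law ν (IsDn u h) z < tY then law ν (IsDn u h) z else 0) := by
          refine Eq.trans ?_ ((sum_prod2 ν u h (fun z => law ν (IsUp u h) z < tX)
            (fun z => law ν (IsDn u h) z < tY)).trans ?_)
          · exact tsum_congr fun L => ite_iff Iff.rfl _ _
          · refine congrArg₂ (fun x y => x * y) ?_ ?_
            · exact tsum_congr fun z => ite_iff Iff.rfl _ _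
            · exact tsum_congr fun z => ite_iff Iff.rfl _ _
      _ ≤ v * v := mul_le_mul' hXa hYa
  · refine ⟨tX, tX0, tXt, fun L => law ν (IsUp u h) (endp 0 (cat L).1) ≤ tX,
      fun w w' => le_trans (le_of_eq (tsum_congr fun L => ite_iff Iff.rfl _ _)) (dens_X ν u h tX w w'), ?_, ?_⟩
    · have e := sum_prod2 ν u h (fun z => law ν (IsUp u h) z ≤ tX) (fun _ => True)
      calc cw * cw * v ≤ v * cw := by
            rw [mul_comm v]; exact mul_le_mul_left hcc _
        _ ≤ (∑' z, (if law ν (IsUp u h) z ≤ tX then law ν (IsUp u h) z else 0))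
          * ∑' z, (if True then law ν (IsDn u h) z else 0) := by
            refine mul_le_mul' hXb ?_
            simpa using hYc
        _ = _ := by
            refine Eq.trans ?_ (e.symm.trans ?_)
            · refine congrArg₂ (fun x y => x * y) ?_ ?_
              · exact tsum_congr fun z => ite_iff Iff.rfl _ _
              · exact tsum_congr fun z => ite_iff Iff.rfl _ _
            · refine tsum_congr fun L => ite_iff ?_ _ _
              simp only [and_true]
    · intro s lam M h0 ht' nu hnu hM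
      exact win_X ν u h s tX EX hEX hEXc lam M h0 ht' nu hnu hM
  · refine ⟨tY, tY0, tYt, fun L => law ν (IsDn u h) (endp 0 (cat L).2) ≤ tY,
      fun w w' => le_trans (le_of_eq (tsum_congr fun L => ite_iff Iff.rfl _ _)) (dens_Y ν u h tY w w'), ?_, ?_⟩
    · have e := sum_prod2 ν u h (fun _ => True) (fun z => law ν (IsDn u h) z ≤ tY)
      calc cw * cw * v ≤ cw * v := mul_le_mul_left hcc _
        _ ≤ (∑' z, (if True then law ν (IsUp u h) z else 0))
          * ∑' z, (if law ν (IsDn u h) z ≤ tY then law ν (IsDn u h) z else 0) := by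
            refine mul_le_mul' ?_ hYb
            simpa using hXc
        _ = _ := by
            refine Eq.trans ?_ (e.symm.trans ?_)
            · refine congrArg₂ (fun x y => x * y) ?_ ?_
              · exact tsum_congr fun z => ite_iff Iff.rfl _ _
              · exact tsum_congr fun z => ite_iff Iff.rfl _ _
            · refine tsum_congr fun L => ite_iff ?_ _ _
              simp only [true_and]
    · intro s lam M h0 ht' nu hnu hM
      exact win_Y ν u h s tY EY hEY hEYc lam M h0 ht' nu hnu hM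

end Crest.Agent.R154.HP692
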