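import Crest.Agent.R154.E2_22
import Crest.Agent.R154.E3_934
import Crest.Agent.R154.PFDefs_692
import Crest.Agent.R154.B5Br_657
import Crest.Agent.R154.Sel_300

/-! Row 154 (T0219, joint cut frame, helper216): `HPiece` of 692's pair frame at 657's word
instance, from `W22.E2` and `E934.E3`. -/

set_option autoImplicit false

open MeasureTheory ProbabilityTheory Crest.ProbabilityR.RandomEnvironment
open scoped ENNReal

namespace Crest.Agent.R154.HPiece216

open Crest.Agent.R154.B5A
open Crest.Agent.R154.B5W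
open Crest.Agent.R154.Flux566 (lw endp sitesL)
open Crest.Agent.R154.NB28 (IsUp IsDn Cm)
open Crest.Agent.R154.Flux132 (opp)

variable {d : ℕ}

lemma act_cat (u : Step d) (L : List (PB u)) (w : Lat u) :
    (act (dl u) L w).1 = w.1 + endp 0 (cat L).1 + endp 0 (cat L).2 := by
  induction L generalizing w with
  | nil => simp [act, cat, endp]
  | cons b L ih =>
    rw [act, ih]
    simp only [dl, dlp, cat, pm]
    rw [Flux566.endp_append, Flux566.endp_append, Flux566.endp_eq_add b.1.1 (endp 0 (cat L).1),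
      Flux566.endp_eq_add (cat L).2 (endp 0 b.1.2)]
    abel

section sums

variable (ν : Measure (Row d)) [IsProbabilityMeasure ν] (u : Step d)

open Classical in
/-- displacement law of the up crossings of height `h` -/
noncomputable def aX (h : ℕ) (z : Site d) : ℝ≥0∞ :=
  ∑' π : List (Step d), if IsUp u h π ∧ endp 0 π = z then NB28.aw ν π else 0

open Classical in
/-- displacement law of the down crossings of height `h` -/
noncomputable def aY (h : ℕ) (z : Site d) : ℝ≥0∞ :=
  ∑' γ : List (Step d), if IsDn u h γ ∧ endp 0 γ = z then NB28.aw ν γ else 0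

open Classical in
lemma fib (P : List (Step d) → Prop) (R : Site d → Prop) :
    ∑' π : List (Step d), (if P π ∧ R (endp 0 π) then NB28.aw ν π else 0)
      = ∑' z, if R z then (∑' π : List (Step d), if P π ∧ endp 0 π = z then NB28.aw ν π else 0)
        else 0 := by
  have : ∀ z, (if R z then (∑' π : List (Step d), if P π ∧ endp 0 π = z then NB28.aw ν π else 0)
      else 0) = ∑' π : List (Step d), if z = endp 0 π then (if P π ∧ R (endp 0 π) then
        NB28.aw ν π else 0) else 0 := by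
    intro z
    by_cases hR : R z
    · rw [if_pos hR]
      refine tsum_congr fun π => ?_
      by_cases hz : z = endp 0 π
      · subst hz; simp [hR]
      · rw [if_neg hz, if_neg (fun h => hz h.2.symm)]
    · rw [if_neg hR]
      symm
      rw [ENNReal.tsum_eq_zero]
      intro π
      by_cases hz : z = endp 0 π
      · subst hz; simp [hR]
      · rw [if_neg hz]
  simp_rw [this]
  rw [ENNReal.tsum_comm]
  refine tsum_congr fun π => ?_
  rw [tsum_ite_eq]

open Classical in
lemma prodsum (h : ℕ) (P Q : List (Step d) → Prop) :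
    ∑' L : List (PB u), (if HT (ht u) L = h ∧ P (cat L).1 ∧ Q (cat L).2 then
      LW (Lam ν u) L else 0)
      = (∑' π : List (Step d), if IsUp u h π ∧ P π then NB28.aw ν π else 0)
        * ∑' γ : List (Step d), if IsDn u h γ ∧ Q γ then NB28.aw ν γ else 0 := by
  have e := tsum_L ν u h (fun x => if P x.1 ∧ Q x.2 then 1 else 0)
  refine Eq.trans (Eq.trans ?_ e) ?_
  · refine tsum_congr fun L => ?_
    by_cases h1 : HT (ht u) L = h <;> by_cases h2 : P (cat L).1 ∧ Q (cat L).2
    · rw [if_pos ⟨h1, h2⟩, if_pos h1, if_pos h2, mul_one]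
    · rw [if_neg (fun h' => h2 h'.2), if_pos h1, if_neg h2, mul_zero]
    · rw [if_neg (fun h' => h1 h'.1), if_neg h1]
    · rw [if_neg (fun h' => h1 h'.1), if_neg h1]
  · rw [← ENNReal.tsum_mul_right]
    refine tsum_congr fun π => ?_
    rw [← ENNReal.tsum_mul_left]
    refine tsum_congr fun γ => ?_
    by_cases h1 : IsUp u h π <;> by_cases h2 : IsDn u h γ <;> by_cases h3 : P π <;>
      by_cases h4 : Q γ <;> simp [h1, h2, h3, h4]

end sums

/-- quantile -/
lemma quant {ι : Type*} (p : ι → ℝ≥0∞) (hp : ∑' i, p i ≤ 1) {v : ℝ≥0∞} (hv : v ≠ 0)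
    (hv' : v ≤ ∑' i, p i) : (open Classical in
    ∃ th : ℝ≥0∞, th ≠ 0 ∧ th ≠ ⊤ ∧ (∑' i, (if p i < th then p i else 0)) ≤ v ∧
      (v ≤ ∑' i, (if p i ≤ 2 * th then p i else 0)) ∧
      ∃ E : Finset ι, (∀ i, i ∈ E ↔ th ≤ p i) ∧ (E.card : ℝ≥0∞) ≤ th⁻¹) := by
  classical
  obtain ⟨k, h1, h2, h3, h4⟩ := Crest.Agent.R154.Sel300.dyq p hp hv
  have h2k : (2 : ℝ≥0∞) ^ k ≠ 0 := pow_ne_zero _ two_ne_zero
  have h2k' : (2 : ℝ≥0∞) ^ k ≠ ⊤ := ENNReal.pow_ne_top ENNReal.ofNat_ne_top
  refine ⟨(2 ^ k)⁻¹, ENNReal.inv_ne_zero.2 h2k', ENNReal.inv_ne_top.2 h2k, ?_, ?_,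
    h3.toFinset, fun i => ?_, ?_⟩
  · convert h1
  · rcases h2 with rfl | h2
    · refine hv'.trans (ENNReal.tsum_le_tsum fun i => ?_)
      rw [if_pos]
      refine (ENNReal.le_tsum i).trans (hp.trans ?_)
      rw [pow_zero, inv_one, mul_one]
      exact one_le_two
    · convert h2
  · simp
  · rw [inv_inv, ← Set.ncard_eq_toFinset_card _ h3]
    exact_mod_cast h4

section main

variable (ν : Measure (Row d)) [IsProbabilityMeasure ν] (u : Step d)

open Classical in
lemma FI_words (P : List (Step d) → List (Step d) → Prop) (h s : ℕ) (w : Lat u) :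
    FI (Lam ν u) (ht u) (dl u) (cd u) (fun L => P (cat L).1 (cat L).2) h s w
      = ∑' π : List (Step d), ∑' γ : List (Step d),
        (if IsUp u h π ∧ IsDn u h γ ∧ P π γ ∧ (∃ k, k ∈ Cm u w.1 π γ) ∧
          (∀ k ∈ Cm u w.1 π γ, s < k ∧ k + s ≤ h) then NB28.aw ν π * NB28.aw ν γ else 0) := by
  have e := tsum_L ν u h (fun x => if P x.1 x.2 ∧ (∃ k, k ∈ Cm u w.1 x.1 x.2) ∧
    (∀ k ∈ Cm u w.1 x.1 x.2, s < k ∧ k + s ≤ h) then 1 else 0)
  refine Eq.trans (Eq.trans ?_ e) ?_
  · unfold FI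
    refine tsum_congr fun L => ?_
    rw [CD_cat]
    have e2 : cds u (cat L) w.1 = Cm u w.1 (cat L).1 (cat L).2 := cds_eq u _ _ _
    rw [e2]
    have e3 : (Cm u w.1 (cat L).1 (cat L).2 ≠ ∅) ↔ ∃ k, k ∈ Cm u w.1 (cat L).1 (cat L).2 :=
      Set.nonempty_iff_ne_empty.symm
    by_cases h1 : HT (ht u) L = h <;> by_cases h2 : P (cat L).1 (cat L).2 ∧
      (∃ k, k ∈ Cm u w.1 (cat L).1 (cat L).2) ∧
      (∀ k ∈ Cm u w.1 (cat L).1 (cat L).2, s < k ∧ k + s ≤ h)
    · rw [if_pos ⟨h1, h2.1, e3.2 h2.2.1, h2.2.2⟩, if_pos h1, if_pos h2, mul_one]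
    · rw [if_neg (fun h' => h2 ⟨h'.2.1, e3.1 h'.2.2.1, h'.2.2.2⟩), if_pos h1, if_neg h2, mul_zero]
    · rw [if_neg (fun h' => h1 h'.1), if_neg h1]
    · rw [if_neg (fun h' => h1 h'.1), if_neg h1]
  · refine tsum_congr fun π => tsum_congr fun γ => ?_
    by_cases h1 : IsUp u h π ∧ IsDn u h γ
    · rw [if_pos h1]
      by_cases h2 : P π γ ∧ (∃ k, k ∈ Cm u w.1 π γ) ∧
        (∀ k ∈ Cm u w.1 π γ, s < k ∧ k + s ≤ h)
      · rw [if_pos h2, if_pos ⟨h1.1, h1.2, h2⟩, mul_one]
      · rw [if_neg h2, if_neg (fun h' => h2 h'.2.2), mul_zero]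
    · rw [if_neg h1, if_neg (fun h' => h1 ⟨h'.1, h'.2.1⟩)]

open Classical in
/-- extension by zero -/
noncomputable def ext (nu : Lat u → ℝ≥0∞) (x : Site d) : ℝ≥0∞ :=
  if h : Flux132.lev u x = 0 then nu ⟨x, h⟩ else 0

lemma ext_val (nu : Lat u → ℝ≥0∞) (w : Lat u) : ext u nu w.1 = nu w := by
  have hw : Flux132.lev u w.1 = 0 := w.2
  unfold ext
  exact dif_pos hw

lemma ext_le (nu : Lat u → ℝ≥0∞) (M : ℝ≥0∞) (hM : ∀ w, nu w ≤ M) (x : Site d) :
    ext u nu x ≤ M := by
  unfold ext
  split_ifs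
  · exact hM _
  · exact zero_le

lemma val_inj : Function.Injective (fun w : Lat u => w.1) := fun _ _ h => Subtype.ext h

lemma ext_sum (nu : Lat u → ℝ≥0∞) : ∑' x, ext u nu x = ∑' w, nu w := by
  rw [← (val_inj u).tsum_eq (f := ext u nu)]
  · exact tsum_congr fun w => ext_val u nu w
  · intro x hx
    by_cases h : Flux132.lev u x = 0
    · exact ⟨⟨x, h⟩, rfl⟩
    · exact absurd (by unfold ext; rw [dif_neg h]) hx

open Classical in
lemma lat_sum (nu : Lat u → ℝ≥0∞) (g : Site d → ℝ≥0∞) :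
    ∑' w : Lat u, nu w * g w.1
      ≤ ∑' x, (if Flux132.lev u x = 0 then ext u nu x * g x else 0) := by
  refine le_trans (le_of_eq ?_) (ENNReal.tsum_comp_le_tsum_of_injective (val_inj u)
    (fun x => if Flux132.lev u x = 0 then ext u nu x * g x else 0))
  refine tsum_congr fun w => ?_
  have hw : Flux132.lev u w.1 = 0 := w.2
  simp only [hw, if_true]
  rw [ext_val]

open Classical in
lemma winX (E : Finset (Site d)) (h s : ℕ) (lam M : ℝ≥0∞) (hl : lam ≠ 0) (hl' : lam ≠ ⊤)
    (nu : Lat u → ℝ≥0∞) (h1 : ∑' w, nu w ≤ 1) (h2 : ∀ w, nu w ≤ M) :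
    ∑' w, nu w * FI (Lam ν u) (ht u) (dl u) (cd u) (fun L => endp 0 (cat L).1 ∈ E) h s w
      ≤ lam + M * E.card * W22.us ν u s / lam + W22.us ν u s := by
  have key := W22.E2 ν u s h E (ext u nu) M lam ((ext_sum u nu).le.trans h1)
    (ext_le u nu M h2) hl hl'
  rw [one_mul] at key
  refine le_trans ?_ key
  have e := lat_sum u nu (fun x => ∑' π : List (Step d), ∑' γ : List (Step d),
    (if IsUp u h π ∧ endp 0 π ∈ E ∧ IsDn u h γ ∧ (∃ k, k ∈ Cm u x π γ) ∧
      (∀ k ∈ Cm u x π γ, s < k) then NB28.aw ν π * NB28.aw ν γ else 0))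
  refine le_trans (ENNReal.tsum_le_tsum fun w => mul_le_mul_right ?_ _) e
  rw [FI_words ν u (fun π _ => endp 0 π ∈ E)]
  refine ENNReal.tsum_le_tsum fun π => ENNReal.tsum_le_tsum fun γ => ?_
  by_cases hc : IsUp u h π ∧ IsDn u h γ ∧ endp 0 π ∈ E ∧ (∃ k, k ∈ Cm u w.1 π γ) ∧
          (∀ k ∈ Cm u w.1 π γ, s < k ∧ k + s ≤ h)
  · rw [if_pos hc, if_pos ⟨hc.1, hc.2.2.1, hc.2.1, hc.2.2.2.1, fun k hk => (hc.2.2.2.2 k hk).1⟩]
  · rw [if_neg hc]; exact zero_le

open Classical in
lemma winY (E : Finset (Site d)) (h s : ℕ) (lam M : ℝ≥0∞) (hl : lam ≠ 0) (hl' : lam ≠ ⊤)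
    (nu : Lat u → ℝ≥0∞) (h1 : ∑' w, nu w ≤ 1) (h2 : ∀ w, nu w ≤ M) :
    ∑' w, nu w * FI (Lam ν u) (ht u) (dl u) (cd u) (fun L => endp 0 (cat L).2 ∈ E) h s w
      ≤ 8 * lam + 2 * (M * (E.card * E934.us ν (opp u) s) / lam) := by
  have key := E934.E3 (ν := ν) (u := u) s h E (ext u nu) M lam ((ext_sum u nu).le.trans h1)
    (ext_le u nu M h2) hl hl'
  refine le_trans ?_ key
  have e := lat_sum u nu (fun x => ∑' π : List (Step d), ∑' γ : List (Step d),
    (if IsUp u h π ∧ endp 0 γ ∈ E ∧ IsDn u h γ ∧ (∃ k, k ∈ Cm u x π γ) ∧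
      (∀ k ∈ Cm u x π γ, k + s ≤ h) then NB28.aw ν π * NB28.aw ν γ else 0))
  refine le_trans (ENNReal.tsum_le_tsum fun w => mul_le_mul_right ?_ _) e
  rw [FI_words ν u (fun _ γ => endp 0 γ ∈ E)]
  refine ENNReal.tsum_le_tsum fun π => ENNReal.tsum_le_tsum fun γ => ?_
  by_cases hc : IsUp u h π ∧ IsDn u h γ ∧ endp 0 γ ∈ E ∧ (∃ k, k ∈ Cm u w.1 π γ) ∧
          (∀ k ∈ Cm u w.1 π γ, s < k ∧ k + s ≤ h)
  · rw [if_pos hc, if_pos ⟨hc.1, hc.2.2.1, hc.2.1, hc.2.2.2.1, fun k hk => (hc.2.2.2.2 k hk).2⟩]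
  · rw [if_neg hc]; exact zero_le

/-- the rate -/
noncomputable def dlt (s : ℕ) : ℝ≥0∞ := W22.us ν u s + E934.us ν (opp u) s

open Filter Topology in
lemma dlt_tendsto : Tendsto (dlt ν u) atTop (𝓝 0) := by
  rw [ENNReal.tendsto_atTop_zero]
  intro ε hε
  have h2 : ε / 2 ≠ 0 := (ENNReal.half_pos hε.ne').ne'
  obtain ⟨s1, hs1⟩ := W22.us_small ν u (ε / 2) h2
  obtain ⟨s2, hs2⟩ := E934.us_small ν (opp u) (ε / 2) h2
  refine ⟨max s1 s2, fun s hs => ?_⟩
  calc dlt ν u s ≤ ε / 2 + ε / 2 :=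
        add_le_add (hs1 s ((le_max_left _ _).trans hs)) (hs2 s ((le_max_right _ _).trans hs))
    _ = ε := ENNReal.add_halves ε

lemma numX {lam M N t δ' δ : ℝ≥0∞} (hN : N ≤ t⁻¹) (hδ : δ' ≤ δ) :
    lam + M * N * δ' / lam + δ' ≤ 8 * (lam + M * (2 * t)⁻¹ * δ / lam + δ) := by
  have e : t⁻¹ = 2 * (2 * t)⁻¹ := by
    rw [ENNReal.mul_inv (Or.inl two_ne_zero) (Or.inl ENNReal.ofNat_ne_top), ← mul_assoc,
      ENNReal.mul_inv_cancel two_ne_zero ENNReal.ofNat_ne_top, one_mul]
  have h1 : M * N * δ' / lam ≤ 2 * (M * (2 * t)⁻¹ * δ / lam) := by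
    calc M * N * δ' / lam ≤ M * (2 * (2 * t)⁻¹) * δ / lam := by
          rw [← e]; gcongr
      _ = 2 * (M * (2 * t)⁻¹ * δ / lam) := by
          simp only [div_eq_mul_inv]; ring
  calc lam + M * N * δ' / lam + δ' ≤ lam + 2 * (M * (2 * t)⁻¹ * δ / lam) + δ := by gcongr
    _ ≤ 8 * lam + 8 * (M * (2 * t)⁻¹ * δ / lam) + 8 * δ := by
        gcongr
        · exact le_mul_of_one_le_left' (by norm_num)
        · norm_num
        · exact le_mul_of_one_le_left' (by norm_num)
    _ = _ := by ring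

lemma numY {lam M N t δ' δ : ℝ≥0∞} (hN : N ≤ t⁻¹) (hδ : δ' ≤ δ) :
    8 * lam + 2 * (M * (N * δ') / lam) ≤ 8 * (lam + M * (2 * t)⁻¹ * δ / lam + δ) := by
  have e : t⁻¹ = 2 * (2 * t)⁻¹ := by
    rw [ENNReal.mul_inv (Or.inl two_ne_zero) (Or.inl ENNReal.ofNat_ne_top), ← mul_assoc,
      ENNReal.mul_inv_cancel two_ne_zero ENNReal.ofNat_ne_top, one_mul]
  have h1 : M * (N * δ') / lam ≤ 2 * (M * (2 * t)⁻¹ * δ / lam) := by
    calc M * (N * δ') / lam ≤ M * ((2 * (2 * t)⁻¹) * δ) / lam := by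
          rw [← e]; gcongr
      _ = 2 * (M * (2 * t)⁻¹ * δ / lam) := by
          simp only [div_eq_mul_inv]; ring
  calc 8 * lam + 2 * (M * (N * δ') / lam) ≤ 8 * lam + 2 * (2 * (M * (2 * t)⁻¹ * δ / lam)) := by
        gcongr
    _ = 8 * lam + 4 * (M * (2 * t)⁻¹ * δ / lam) + 0 := by ring
    _ ≤ 8 * lam + 8 * (M * (2 * t)⁻¹ * δ / lam) + 8 * δ := by
        gcongr
        · norm_num
        · exact zero_le
    _ = _ := by ring

open Classical in
lemma up_one (n : ℕ) : (∑' π : List (Step d), if IsUp u n π then NB28.aw ν π else 0) ≤ 1 :=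
  sum_if_le_one ν fun l l' h h' hp => NB28.isUp_prefix h h' hp

open Classical in
lemma dn_one (n : ℕ) : (∑' π : List (Step d), if IsDn u n π then NB28.aw ν π else 0) ≤ 1 :=
  sum_if_le_one ν fun l l' h h' hp => NB28.isDn_prefix h h' hp

open Classical in
lemma aX_sum (h : ℕ) :
    ∑' z, aX ν u h z = ∑' π : List (Step d), if IsUp u h π then NB28.aw ν π else 0 := by
  have := fib ν (fun π => IsUp u h π) (fun _ => True)
  simp only [and_true, if_true] at this
  exact this.symm

open Classical in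
lemma aY_sum (h : ℕ) :
    ∑' z, aY ν u h z = ∑' γ : List (Step d), if IsDn u h γ then NB28.aw ν γ else 0 := by
  have := fib ν (fun γ => IsDn u h γ) (fun _ => True)
  simp only [and_true, if_true] at this
  exact this.symm

open Classical in
/-- hits have a bounded density, `X` type -/
lemma hitX (h : ℕ) (t : ℝ≥0∞) (w w' : Lat u) :
    (∑' L : List (PB u), if HT (ht u) L = h ∧ aX ν u h (endp 0 (cat L).1) ≤ t ∧
      act (dl u) L w = w' then LW (Lam ν u) L else 0) ≤ t := by
  have e := tsum_L ν u h (fun x => if aX ν u h (endp 0 x.1) ≤ t ∧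
    endp 0 x.1 = w'.1 - w.1 - endp 0 x.2 then 1 else 0)
  calc _ = ∑' L : List (PB u), (if HT (ht u) L = h then LW (Lam ν u) L *
        (if aX ν u h (endp 0 (cat L).1) ≤ t ∧
          endp 0 (cat L).1 = w'.1 - w.1 - endp 0 (cat L).2 then 1 else 0) else 0) := by
        refine tsum_congr fun L => ?_
        have e1 : act (dl u) L w = w' ↔ endp 0 (cat L).1 = w'.1 - w.1 - endp 0 (cat L).2 := by
          constructor
          · intro hh
            rw [← hh, act_cat]; abel
          · intro hh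
            apply Subtype.ext
            rw [act_cat, hh]; abel
        by_cases h1 : HT (ht u) L = h <;> by_cases h2 : aX ν u h (endp 0 (cat L).1) ≤ t <;>
          by_cases h3 : endp 0 (cat L).1 = w'.1 - w.1 - endp 0 (cat L).2
        · rw [if_pos ⟨h1, h2, e1.2 h3⟩, if_pos h1, if_pos ⟨h2, h3⟩, mul_one]
        · rw [if_neg (fun h' => h3 (e1.1 h'.2.2)), if_pos h1, if_neg (fun h' => h3 h'.2), mul_zero]
        · rw [if_neg (fun h' => h2 h'.2.1), if_pos h1, if_neg (fun h' => h2 h'.1), mul_zero]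
        · rw [if_neg (fun h' => h2 h'.2.1), if_pos h1, if_neg (fun h' => h2 h'.1), mul_zero]
        · rw [if_neg (fun h' => h1 h'.1), if_neg h1]
        · rw [if_neg (fun h' => h1 h'.1), if_neg h1]
        · rw [if_neg (fun h' => h1 h'.1), if_neg h1]
        · rw [if_neg (fun h' => h1 h'.1), if_neg h1]
    _ = _ := e
    _ = ∑' γ : List (Step d), ∑' π : List (Step d), if IsUp u h π ∧ IsDn u h γ then
        NB28.aw ν π * NB28.aw ν γ * (if aX ν u h (endp 0 π) ≤ t ∧
          endp 0 π = w'.1 - w.1 - endp 0 γ then 1 else 0) else 0 := ENNReal.tsum_comm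
    _ ≤ ∑' γ : List (Step d), (if IsDn u h γ then NB28.aw ν γ else 0) * t := by
        refine ENNReal.tsum_le_tsum fun γ => ?_
        by_cases hγ : IsDn u h γ
        · rw [if_pos hγ]
          set z := w'.1 - w.1 - endp 0 γ with hz
          calc _ = ∑' π : List (Step d), NB28.aw ν γ * (if IsUp u h π ∧ endp 0 π = z then
                (if aX ν u h z ≤ t then NB28.aw ν π else 0) else 0) := by
                refine tsum_congr fun π => ?_
                by_cases h1 : IsUp u h π <;> by_cases h2 : endp 0 π = z <;>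
                  by_cases h3 : aX ν u h z ≤ t <;> simp [h1, hγ, h2, h3, mul_comm]
            _ = NB28.aw ν γ * ∑' π : List (Step d), (if IsUp u h π ∧ endp 0 π = z then
                (if aX ν u h z ≤ t then NB28.aw ν π else 0) else 0) := ENNReal.tsum_mul_left
            _ ≤ NB28.aw ν γ * t := by
                refine mul_le_mul_right ?_ _
                by_cases h3 : aX ν u h z ≤ t
                · simp only [if_pos h3]; exact h3
                · simp [if_neg h3]
        · rw [if_neg hγ, zero_mul]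
          refine le_of_eq (ENNReal.tsum_eq_zero.2 fun π => if_neg (fun h' => hγ h'.2))
    _ = (∑' γ : List (Step d), (if IsDn u h γ then NB28.aw ν γ else 0)) * t :=
        ENNReal.tsum_mul_right
    _ ≤ 1 * t := mul_le_mul_left (dn_one ν u h) _
    _ = t := one_mul t

open Classical in
/-- hits have a bounded density, `Y` type -/
lemma hitY (h : ℕ) (t : ℝ≥0∞) (w w' : Lat u) :
    (∑' L : List (PB u), if HT (ht u) L = h ∧ aY ν u h (endp 0 (cat L).2) ≤ t ∧
      act (dl u) L w = w' then LW (Lam ν u) L else 0) ≤ t := by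
  have e := tsum_L ν u h (fun x => if aY ν u h (endp 0 x.2) ≤ t ∧
    endp 0 x.2 = w'.1 - w.1 - endp 0 x.1 then 1 else 0)
  calc _ = ∑' L : List (PB u), (if HT (ht u) L = h then LW (Lam ν u) L *
        (if aY ν u h (endp 0 (cat L).2) ≤ t ∧
          endp 0 (cat L).2 = w'.1 - w.1 - endp 0 (cat L).1 then 1 else 0) else 0) := by
        refine tsum_congr fun L => ?_
        have e1 : act (dl u) L w = w' ↔ endp 0 (cat L).2 = w'.1 - w.1 - endp 0 (cat L).1 := by
          constructor
          · intro hh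
            rw [← hh, act_cat]; abel
          · intro hh
            apply Subtype.ext
            rw [act_cat, hh]; abel
        by_cases h1 : HT (ht u) L = h <;> by_cases h2 : aY ν u h (endp 0 (cat L).2) ≤ t <;>
          by_cases h3 : endp 0 (cat L).2 = w'.1 - w.1 - endp 0 (cat L).1
        · rw [if_pos ⟨h1, h2, e1.2 h3⟩, if_pos h1, if_pos ⟨h2, h3⟩, mul_one]
        · rw [if_neg (fun h' => h3 (e1.1 h'.2.2)), if_pos h1, if_neg (fun h' => h3 h'.2), mul_zero]
        · rw [if_neg (fun h' => h2 h'.2.1), if_pos h1, if_neg (fun h' => h2 h'.1), mul_zero]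
        · rw [if_neg (fun h' => h2 h'.2.1), if_pos h1, if_neg (fun h' => h2 h'.1), mul_zero]
        · rw [if_neg (fun h' => h1 h'.1), if_neg h1]
        · rw [if_neg (fun h' => h1 h'.1), if_neg h1]
        · rw [if_neg (fun h' => h1 h'.1), if_neg h1]
        · rw [if_neg (fun h' => h1 h'.1), if_neg h1]
    _ = _ := e
    _ ≤ ∑' π : List (Step d), (if IsUp u h π then NB28.aw ν π else 0) * t := by
        refine ENNReal.tsum_le_tsum fun π => ?_
        by_cases hπ : IsUp u h π
        · rw [if_pos hπ]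
          set z := w'.1 - w.1 - endp 0 π with hz
          calc _ = ∑' γ : List (Step d), NB28.aw ν π * (if IsDn u h γ ∧ endp 0 γ = z then
                (if aY ν u h z ≤ t then NB28.aw ν γ else 0) else 0) := by
                refine tsum_congr fun γ => ?_
                by_cases h1 : IsDn u h γ <;> by_cases h2 : endp 0 γ = z <;>
                  by_cases h3 : aY ν u h z ≤ t <;> simp [h1, hπ, h2, h3, ← hz]
            _ = NB28.aw ν π * ∑' γ : List (Step d), (if IsDn u h γ ∧ endp 0 γ = z then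
                (if aY ν u h z ≤ t then NB28.aw ν γ else 0) else 0) := ENNReal.tsum_mul_left
            _ ≤ NB28.aw ν π * t := by
                refine mul_le_mul_right ?_ _
                by_cases h3 : aY ν u h z ≤ t
                · simp only [if_pos h3]; exact h3
                · simp [if_neg h3]
        · rw [if_neg hπ, zero_mul]
          refine le_of_eq (ENNReal.tsum_eq_zero.2 fun γ => if_neg (fun h' => hπ h'.1))
    _ = (∑' π : List (Step d), (if IsUp u h π then NB28.aw ν π else 0)) * t :=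
        ENNReal.tsum_mul_right
    _ ≤ 1 * t := mul_le_mul_left (up_one ν u h) _
    _ = t := one_mul t

open Classical in
lemma fibX (h : ℕ) (R : Site d → Prop) :
    ∑' π : List (Step d), (if IsUp u h π ∧ R (endp 0 π) then NB28.aw ν π else 0)
      = ∑' z, if R z then aX ν u h z else 0 := fib ν (fun π => IsUp u h π) R

open Classical in
lemma fibY (h : ℕ) (R : Site d → Prop) :
    ∑' π : List (Step d), (if IsDn u h π ∧ R (endp 0 π) then NB28.aw ν π else 0)
      = ∑' z, if R z then aY ν u h z else 0 := fib ν (fun π => IsDn u h π) R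

open Classical in
/-- **`HPiece`** at the words. -/
theorem hpiece (c : ℝ≥0∞) (hup : ∀ n : ℕ, c ≤ ∑' π : List (Step d), if IsUp u n π then
      NB28.aw ν π else 0)
    (hdn : ∀ n : ℕ, c ≤ ∑' γ : List (Step d), if IsDn u n γ then NB28.aw ν γ else 0) :
    HPiece (Lam ν u) (ht u) (dl u) (cd u) (c * c) 8 (dlt ν u) := by
  intro v hv hvc h
  have hc1 : c ≤ 1 := (hup 0).trans (up_one ν u 0)
  have hcc : c * c ≤ c := (mul_le_mul_right hc1 c).trans (mul_one c).le
  obtain ⟨tX, tX0, tXt, hX1, hX2, EX, hEX, hcX⟩ := quant (aX ν u h)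
    (by rw [aX_sum]; exact up_one ν u h) hv (by
      rw [aX_sum]; exact (hvc.trans hcc).trans (hup h))
  obtain ⟨tY, tY0, tYt, hY1, hY2, EY, hEY, hcY⟩ := quant (aY ν u h)
    (by rw [aY_sum]; exact dn_one ν u h) hv (by
      rw [aY_sum]; exact (hvc.trans hcc).trans (hdn h))
  refine ⟨fun L => endp 0 (cat L).1 ∈ EX, fun L => endp 0 (cat L).2 ∈ EY, ?_, ?_, ?_⟩
  · have e := prodsum ν u h (fun π => aX ν u h (endp 0 π) < tX) (fun γ => aY ν u h (endp 0 γ) < tY)
    have e1 := fibX ν u h (fun z => aX ν u h z < tX)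
    have e2 := fibY ν u h (fun z => aY ν u h z < tY)
    calc _ = ∑' L : List (PB u), (if HT (ht u) L = h ∧ aX ν u h (endp 0 (cat L).1) < tX ∧
          aY ν u h (endp 0 (cat L).2) < tY then LW (Lam ν u) L else 0) := by
          refine tsum_congr fun L => ?_
          simp only [hEX, hEY, not_le]
      _ = (∑' π : List (Step d), if IsUp u h π ∧ aX ν u h (endp 0 π) < tX then NB28.aw ν π else 0)
          * ∑' γ : List (Step d), (if IsDn u h γ ∧ aY ν u h (endp 0 γ) < tY then
            NB28.aw ν γ else 0) := by convert e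
      _ ≤ v * v := by
          refine mul_le_mul' ?_ ?_
          · refine le_trans (le_of_eq ?_) hX1
            convert e1
          · refine le_trans (le_of_eq ?_) hY1
            convert e2
  · refine ⟨2 * tX, mul_ne_zero two_ne_zero tX0, ENNReal.mul_ne_top ENNReal.ofNat_ne_top tXt,
      fun L => aX ν u h (endp 0 (cat L).1) ≤ 2 * tX, fun w w' => by convert hitX ν u h (2 * tX) w w', ?_, ?_⟩
    · have e := prodsum ν u h (fun π => aX ν u h (endp 0 π) ≤ 2 * tX) (fun _ => True)
      have e1 := fibX ν u h (fun z => aX ν u h z ≤ 2 * tX)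
      simp only [and_true] at e
      calc c * c * v ≤ c * v := mul_le_mul_left hcc v
        _ = v * c := mul_comm _ _
        _ ≤ (∑' i : Site d, if aX ν u h i ≤ 2 * tX then aX ν u h i else 0) *
            ∑' γ : List (Step d), (if IsDn u h γ then NB28.aw ν γ else 0) :=
              mul_le_mul' hX2 (hdn h)
        _ = (∑' π : List (Step d), if IsUp u h π ∧ aX ν u h (endp 0 π) ≤ 2 * tX then
              NB28.aw ν π else 0) *
            ∑' γ : List (Step d), (if IsDn u h γ then NB28.aw ν γ else 0) := by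
              congr 1
              convert e1.symm
        _ = _ := by convert e.symm
    · intro s lam M hl hl' nu h1 h2
      exact (winX ν u EX h s lam M hl hl' nu h1 h2).trans (numX hcX le_self_add)
  · refine ⟨2 * tY, mul_ne_zero two_ne_zero tY0, ENNReal.mul_ne_top ENNReal.ofNat_ne_top tYt,
      fun L => aY ν u h (endp 0 (cat L).2) ≤ 2 * tY, fun w w' => by convert hitY ν u h (2 * tY) w w', ?_, ?_⟩
    · have e := prodsum ν u h (fun _ => True) (fun γ => aY ν u h (endp 0 γ) ≤ 2 * tY)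
      have e1 := fibY ν u h (fun z => aY ν u h z ≤ 2 * tY)
      simp only [and_true, true_and] at e
      calc c * c * v ≤ c * v := mul_le_mul_left hcc v
        _ ≤ (∑' π : List (Step d), (if IsUp u h π then NB28.aw ν π else 0)) *
            (∑' i : Site d, if aY ν u h i ≤ 2 * tY then aY ν u h i else 0) :=
              mul_le_mul' (hup h) hY2
        _ = (∑' π : List (Step d), (if IsUp u h π then NB28.aw ν π else 0)) *
            ∑' γ : List (Step d), (if IsDn u h γ ∧ aY ν u h (endp 0 γ) ≤ 2 * tY then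
              NB28.aw ν γ else 0) := by
              congr 1
              convert e1.symm
        _ = _ := by convert e.symm
    · intro s lam M hl hl' nu h1 h2
      exact (winY ν u EY h s lam M hl hl' nu h1 h2).trans (numY hcY le_add_self)

end main

end Crest.Agent.R154.HPiece216
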