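import Crest.Agent.R154.PFDefs_692
import Crest.Agent.R154.B5Br_657
import Crest.Agent.R154.Dens_903
import Crest.Agent.R154.WinE_546
import Crest.Agent.R154.Win_775

/-! Row 154, pair frame (helper46): the one-piece hypothesis `HPiece` (PFDefs_692) of the word
instance (B5Inst_657) from the window lemmas `win2` (546) and `win3` (775). -/

set_option autoImplicit false
set_option linter.unusedSectionVars false
set_option linter.unusedVariables false

open MeasureTheory ProbabilityTheory Crest.ProbabilityR.RandomEnvironment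
open scoped ENNReal

namespace Crest.Agent.R154.HP46

open Crest.Agent.R154.B5A
open Crest.Agent.R154.B5W (PB ht Lam dl cd cds Lat dlp cat pm hu hdn)
open Crest.Agent.R154.NB28 (IsUp IsDn aw)
open Crest.Agent.R154.Flux566 (lw endp sitesL lev lev_add lev_neg lev_zero lev_self endp_append
  endp_eq_add)

/-- quantile of a sub-probability -/
lemma quant_sub {ι : Type*} (p : ι → ℝ≥0∞) (hp : ∑' i, p i ≤ 1) {v : ℝ≥0∞} (hv : v ≠ 0)
    (hvp : v ≤ ∑' i, p i) :
    ∃ th : ℝ≥0∞, th ≠ 0 ∧ th ≠ ⊤ ∧ ∑' a, (open Classical in if p a < th then p a else 0) ≤ v ∧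
      v ≤ ∑' a, (open Classical in if p a ≤ th then p a else 0) := by
  classical
  set m := ∑' i, p i with hm
  have hm0 : m ≠ 0 := fun h => hv (le_antisymm (h ▸ hvp) zero_le)
  have hmt : m ≠ ⊤ := ne_top_of_le_ne_top ENNReal.one_ne_top hp
  have h1 : ∑' i, p i / m = 1 := by
    simp only [div_eq_mul_inv]
    rw [ENNReal.tsum_mul_right, ← hm, ENNReal.mul_inv_cancel hm0 hmt]
  obtain ⟨th, h2, h3, h4, h5⟩ := Dens903.quantile (fun i => p i / m) h1 (u := v / m)
    (by rw [ne_eq, ENNReal.div_eq_zero_iff]; push Not; exact ⟨hv, hmt⟩)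
    (by rw [ENNReal.div_le_iff hm0 hmt, one_mul]; exact hvp)
  refine ⟨th * m, mul_ne_zero h2 hm0, ENNReal.mul_ne_top (ne_top_of_le_ne_top ENNReal.one_ne_top h3)
    hmt, ?_, ?_⟩
  · have e : ∀ a, (if p a / m < th then p a / m else 0) = (if p a < th * m then p a else 0) * m⁻¹ := by
      intro a
      have hi : p a / m < th ↔ p a < th * m := ENNReal.div_lt_iff (Or.inl hm0) (Or.inl hmt)
      by_cases ha : p a / m < th
      · rw [if_pos ha, if_pos (hi.1 ha), div_eq_mul_inv]
      · rw [if_neg ha, if_neg (fun h => ha (hi.2 h)), zero_mul]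
    simp only [e] at h4
    rw [ENNReal.tsum_mul_right, ← div_eq_mul_inv] at h4
    have h6 := (ENNReal.div_le_iff hm0 hmt).1 h4
    rwa [ENNReal.div_mul_cancel hm0 hmt] at h6
  · have e : ∀ a, (if p a / m ≤ th then p a / m else 0) = (if p a ≤ th * m then p a else 0) * m⁻¹ := by
      intro a
      have hi : p a / m ≤ th ↔ p a ≤ th * m := ENNReal.div_le_iff hm0 hmt
      by_cases ha : p a / m ≤ th
      · rw [if_pos ha, if_pos (hi.1 ha), div_eq_mul_inv]
      · rw [if_neg ha, if_neg (fun h => ha (hi.2 h)), zero_mul]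
    simp only [e] at h5
    rw [ENNReal.tsum_mul_right, ← div_eq_mul_inv] at h5
    have h6 := (ENNReal.div_le_iff hm0 hmt).1 h5
    rwa [ENNReal.div_mul_cancel hm0 hmt] at h6

/-- the heavy points -/
lemma heavy {ι : Type*} (p : ι → ℝ≥0∞) (hp : ∑' i, p i ≤ 1) {th : ℝ≥0∞} (h0 : th ≠ 0)
    (ht : th ≠ ⊤) : ∃ E : Finset ι, (∀ z, z ∈ E ↔ th ≤ p z) ∧ (E.card : ℝ≥0∞) ≤ th⁻¹ := by
  have hf := ENNReal.finite_const_le_of_tsum_ne_top
    (ne_top_of_le_ne_top ENNReal.one_ne_top hp) h0
  refine ⟨hf.toFinset, fun z => by simp, ?_⟩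
  rw [ENNReal.le_inv_iff_mul_le]
  calc (hf.toFinset.card : ℝ≥0∞) * th = ∑ z ∈ hf.toFinset, th := by simp
    _ ≤ ∑ z ∈ hf.toFinset, p z := Finset.sum_le_sum fun z hz => by simpa using hz
    _ ≤ ∑' z, p z := ENNReal.sum_le_tsum _
    _ ≤ 1 := hp

variable {d : ℕ} (ν : Measure (Row d)) [IsProbabilityMeasure ν] (u : Step d)

open Classical in
/-- translation to words -/
lemma tr (n : ℕ) (P : List (Step d) × List (Step d) → Prop) :
    ∑' L : List (PB u), (if HT (ht u) L = n ∧ P (cat L) then LW (Lam ν u) L else 0)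
      = ∑' π : List (Step d), ∑' γ : List (Step d),
        if (IsUp u n π ∧ IsDn u n γ) ∧ P (π, γ) then aw ν π * aw ν γ else 0 := by
  have h := B5W.tsum_L ν u n (fun x => if P x then 1 else 0)
  refine Eq.trans ?_ (h.trans ?_)
  · refine tsum_congr fun L => ?_
    by_cases h1 : HT (ht u) L = n <;> by_cases h2 : P (cat L) <;> simp [h1, h2]
  · refine tsum_congr fun π => tsum_congr fun γ => ?_
    by_cases h1 : IsUp u n π ∧ IsDn u n γ
    · by_cases h2 : P (π, γ) <;> simp [h1, h2]
    · simp [h1]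

lemma act_cat (L : List (PB u)) (w : Lat u) : (act (dl u) L w).1 = dlp (cat L) w.1 := by
  induction L generalizing w with
  | nil => simp [act, cat, dlp, endp]
  | cons b L ih =>
    rw [act, ih]
    simp only [dl, dlp, cat, pm, endp_append]
    rw [endp_eq_add b.1.1 (endp 0 (cat L).1), endp_eq_add (cat L).2 (endp 0 b.1.2)]
    abel

open Classical in
/-- fibres of a law of words -/
lemma fiber {ι κ' : Type*} (P : ι → Prop) (f : ι → κ') (g : ι → ℝ≥0∞) (R : κ' → Prop) :
    ∑' i, (if P i ∧ R (f i) then g i else 0)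
      = ∑' z, (if R z then ∑' i, (if P i ∧ f i = z then g i else 0) else 0) := by
  have e : ∀ z, (if R z then ∑' i, (if P i ∧ f i = z then g i else 0) else 0)
      = ∑' i, (if f i = z then (if P i ∧ R (f i) then g i else 0) else 0) := by
    intro z
    by_cases hz : R z
    · rw [if_pos hz]
      refine tsum_congr fun i => ?_
      by_cases h : f i = z
      · subst h; simp [hz]
      · simp [h]
    · rw [if_neg hz]
      symm
      refine ENNReal.tsum_eq_zero.2 fun i => ?_
      by_cases h : f i = z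
      · subst h; simp [hz]
      · simp [h]
  simp only [e]
  rw [ENNReal.tsum_comm]
  refine tsum_congr fun i => ?_
  rw [tsum_eq_single (f i) (fun z hz => if_neg (Ne.symm hz)), if_pos rfl]

open Classical in
/-- the law of the end point of the up crossings -/
noncomputable def pu (h : ℕ) (z : Site d) : ℝ≥0∞ :=
  ∑' π : List (Step d), if IsUp u h π ∧ endp 0 π = z then aw ν π else 0

open Classical in
/-- the law of the end point of the down crossings -/
noncomputable def pd (h : ℕ) (z : Site d) : ℝ≥0∞ :=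
  ∑' π : List (Step d), if IsDn u h π ∧ endp 0 π = z then aw ν π else 0

open Classical in
lemma pu_sum (h : ℕ) (R : Site d → Prop) :
    ∑' π : List (Step d), (if IsUp u h π ∧ R (endp 0 π) then aw ν π else 0)
      = ∑' z, (if R z then pu ν u h z else 0) := by
  unfold pu
  refine (fiber (fun π : List (Step d) => IsUp u h π) (fun π => endp 0 π)
    (fun π => aw ν π) R).trans ?_
  congr!

open Classical in
lemma pd_sum (h : ℕ) (R : Site d → Prop) :
    ∑' π : List (Step d), (if IsDn u h π ∧ R (endp 0 π) then aw ν π else 0)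
      = ∑' z, (if R z then pd ν u h z else 0) := by
  unfold pd
  refine (fiber (fun π : List (Step d) => IsDn u h π) (fun π => endp 0 π)
    (fun π => aw ν π) R).trans ?_
  congr!

open Classical in
lemma pu_tot (h : ℕ) : ∑' z, pu ν u h z = ∑' π : List (Step d), (if IsUp u h π then aw ν π else 0) := by
  have := pu_sum ν u h (fun _ => True)
  simpa using this.symm

open Classical in
lemma pd_tot (h : ℕ) : ∑' z, pd ν u h z = ∑' π : List (Step d), (if IsDn u h π then aw ν π else 0) := by
  have := pd_sum ν u h (fun _ => True)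
  simpa using this.symm

open Classical in
/-- product form -/
lemma prod_form (h : ℕ) (R R' : Site d → Prop) :
    ∑' π : List (Step d), ∑' γ : List (Step d),
        (if (IsUp u h π ∧ IsDn u h γ) ∧ R (endp 0 π) ∧ R' (endp 0 γ) then aw ν π * aw ν γ else 0)
      = (∑' z, (if R z then pu ν u h z else 0)) * ∑' z, (if R' z then pd ν u h z else 0) := by
  rw [← pu_sum, ← pd_sum, ← ENNReal.tsum_mul_right]
  refine tsum_congr fun π => ?_
  rw [← ENNReal.tsum_mul_left]
  refine tsum_congr fun γ => ?_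
  by_cases h1 : IsUp u h π <;> by_cases h2 : IsDn u h γ <;> by_cases h3 : R (endp 0 π) <;>
    by_cases h4 : R' (endp 0 γ) <;> simp [h1, h2, h3, h4]

/-! ### geometry -/

lemma up_lev {n : ℕ} {l : List (Step d)} (h : IsUp u n l) :
    (∀ y ∈ sitesL 0 l, 0 ≤ lev u y ∧ lev u y < n) ∧ lev u (endp 0 l) = n := h

lemma dn_lev {n : ℕ} {l : List (Step d)} (h : IsDn u n l) (x y : Site d) (hy : y ∈ sitesL x l) :
    lev u x - n < lev u y ∧ lev u y ≤ lev u x := by
  have h1 := B5W.lev_mem_dn ((B5W.dn_iff u n l).2 h) hy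
  exact ⟨h1.2, h1.1⟩

lemma dn_end {n : ℕ} {l : List (Step d)} (h : IsDn u n l) (x : Site d) :
    lev u (endp x l) = lev u x - n := B5W.lev_endp_dn ((B5W.dn_iff u n l).2 h) x

lemma pf_up (n : ℕ) : Win546.PF {l : List (Step d) | IsUp u n l} := by
  intro l hl r hr
  by_contra hne
  obtain ⟨e, r', rfl⟩ := List.exists_cons_of_ne_nil hne
  have h1 := (up_lev u hr).1 (endp 0 l) (by rw [B5W.sitesL_append]; simp [sitesL])
  have h2 := (up_lev u hl).2
  omega

lemma pf_dn (n : ℕ) : Win546.PF {l : List (Step d) | IsDn u n l} := by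
  intro l hl r hr
  by_contra hne
  obtain ⟨e, r', rfl⟩ := List.exists_cons_of_ne_nil hne
  have h1 := dn_lev u hr 0 (endp 0 l) (by rw [B5W.sitesL_append]; simp [sitesL])
  have h2 := dn_end u hl 0
  omega

/-- first hit -/
lemma first_hit {x y s : Site d} {π ρ : List (Step d)} (h1 : s ∈ sitesL y π) (h2 : s ∈ sitesL x ρ) :
    ∃ p r, ρ = p ++ r ∧ r ≠ [] ∧ p ∈ Win546.Mn (fun p => endp x p ∈ sitesL y π) ∧
      endp x p ∈ sitesL x ρ := by
  obtain ⟨p', hp', hne, rfl⟩ := B5W.mem_sitesL h2
  obtain ⟨p, r, hpr, hM⟩ := Win546.exists_Mn (fun p => endp x p ∈ sitesL y π) p' h1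
  obtain ⟨q, hq⟩ := hp'
  have hq0 : q ≠ [] := by
    rintro rfl
    exact hne (by simpa using hq)
  refine ⟨p, r ++ q, by rw [← hq, hpr, List.append_assoc], by simp [hq0], hM, ?_⟩
  have e : ρ = p ++ (r ++ q) := by rw [← hq, hpr, List.append_assoc]
  obtain ⟨e0, t, ht⟩ := List.exists_cons_of_ne_nil (l := r ++ q) (by simp [hq0])
  rw [e, ht, B5W.sitesL_append]
  simp [sitesL]

/-- shifted law on the site lattice -/
noncomputable def mu (nu : Lat u → ℝ≥0∞) : Site d → ℝ≥0∞ :=
  Function.extend (fun w : Lat u => w.1 - stepVec u) nu 0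

lemma mu_inj : Function.Injective (fun w : Lat u => w.1 - stepVec u) := by
  intro w w' h
  exact Subtype.ext (by simpa using h)

lemma mu_app (nu : Lat u → ℝ≥0∞) (w : Lat u) : mu u nu (w.1 - stepVec u) = nu w :=
  (mu_inj u).extend_apply nu 0 w

lemma mu_tot (nu : Lat u → ℝ≥0∞) : ∑' z, mu u nu z = ∑' w, nu w :=
  tsum_extend_zero (mu_inj u) nu

lemma mu_le (nu : Lat u → ℝ≥0∞) {M : ℝ≥0∞} (h : ∀ w, nu w ≤ M) (z : Site d) : mu u nu z ≤ M := by
  by_cases hz : ∃ w : Lat u, w.1 - stepVec u = z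
  · obtain ⟨w, rfl⟩ := hz
    rw [mu_app]; exact h w
  · unfold mu
    rw [Function.extend_apply' _ _ _ hz]
    exact zero_le

open Classical in
/-- weight of the words which go down to depth `s` and come back one level above the start -/
noncomputable def rt (s : ℕ) : ℝ≥0∞ :=
  ∑' l : List (Step d), (if (∀ y ∈ sitesL 0 l, lev u y < 1) ∧ lev u (endp 0 l) = 1 ∧
    (∃ y ∈ sitesL 0 l, lev u y ≤ -(s : ℤ)) then ∫⁻ ω, lw ω 0 l ∂(iidEnvironmentLaw ν) else 0)

lemma ite_dec {p : Prop} (d1 d2 : Decidable p) (a : ℝ≥0∞) :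
    @ite _ p d1 a 0 = @ite _ p d2 a 0 := by
  have : d1 = d2 := Subsingleton.elim _ _
  rw [this]

open Classical in
lemma FI_eq (Pl : List (Step d) × List (Step d) → Prop) (h s : ℕ) (w : Lat u) :
    FI (Lam ν u) (ht u) (dl u) (cd u) (fun L => Pl (cat L)) h s w
      = ∑' π : List (Step d), ∑' γ : List (Step d), (if (IsUp u h π ∧ IsDn u h γ) ∧
          (Pl (π, γ) ∧ cds u (π, γ) w.1 ≠ ∅ ∧
            ∀ k ∈ cds u (π, γ) w.1, s < k ∧ k + s ≤ h) then aw ν π * aw ν γ else 0) := by
  have h2 := tr ν u h (fun x => Pl x ∧ cds u x w.1 ≠ ∅ ∧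
            ∀ k ∈ cds u x w.1, s < k ∧ k + s ≤ h)
  refine Eq.trans ?_ (h2.trans (tsum_congr fun π => tsum_congr fun γ => ite_dec _ _ _))
  unfold FI
  refine tsum_congr fun L => ?_
  rw [B5W.CD_cat]
  exact ite_dec _ _ _

open Classical in
/-- `X` local -/
lemma winX (h s : ℕ) (E : Finset (Site d)) (nu : Lat u → ℝ≥0∞) (hnu : ∑' w, nu w ≤ 1)
    (M : ℝ≥0∞) (hM : ∀ w, nu w ≤ M) {lam : ℝ≥0∞} (h0 : lam ≠ 0) (h1 : lam ≠ ⊤) :
    ∑' w, nu w * FI (Lam ν u) (ht u) (dl u) (cd u) (fun L => endp 0 (cat L).1 ∈ E) h s w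
      ≤ lam + M * (lam⁻¹ * (E.card * rt ν u s)) := by
  have key := Win546.win2 ν (XX := {l | IsUp u h l}) (YY := {l | IsDn u h l}) (pf_up u h)
    (pf_dn u h) E {v | lev u v < (h : ℤ) - s}
    (fun v => {r | (∀ z ∈ sitesL v r, lev u z < h) ∧ lev u (endp v r) = h})
    (by
      intro p r hpr
      refine ⟨fun z hz => ((up_lev u hpr).1 z ?_).2, ?_⟩
      · rw [B5W.sitesL_append]; exact List.mem_append_right _ hz
      · rw [← endp_append]; exact (up_lev u hpr).2)
    {x | lev u x = (h : ℤ) - 1}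
    {t | (∀ y ∈ sitesL 0 t, lev u y < 1) ∧ lev u (endp 0 t) = 1 ∧
      (∃ y ∈ sitesL 0 t, lev u y ≤ -(s : ℤ))}
    (by
      intro x hx p r hr hpr hv δ hδ
      have hx' : lev u x = (h : ℤ) - 1 := hx
      have hv' : lev u (endp x p) < (h : ℤ) - s := hv
      have hδ1 : ∀ z ∈ sitesL (endp x p) δ, lev u z < h := hδ.1
      have hδ2 : lev u (endp (endp x p) δ) = h := hδ.2
      have hshift : ∀ y ∈ sitesL 0 (p ++ δ), x + y ∈ sitesL x (p ++ δ) := by
        intro y hy
        have := (B5W.mem_sitesL_add x 0 y (p ++ δ)).2 hy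
        simpa using this
      refine ⟨?_, ?_, ?_⟩
      · intro y hy
        have h2 := hshift y hy
        rw [B5W.sitesL_append, List.mem_append] at h2
        have h3 : lev u (x + y) < h := by
          rcases h2 with h2 | h2
          · have h4 := dn_lev u hpr x (x + y) (by
              rw [B5W.sitesL_append]; exact List.mem_append_left _ h2)
            omega
          · exact hδ1 _ h2
        rw [lev_add] at h3
        omega
      · have h2 : endp x (p ++ δ) = x + endp 0 (p ++ δ) := endp_eq_add _ _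
        have h3 : lev u (endp x (p ++ δ)) = h := by rw [endp_append]; exact hδ2
        rw [h2, lev_add] at h3
        omega
      · refine ⟨endp 0 p, ?_, ?_⟩
        · have hne : δ ≠ [] := by
            rintro rfl
            simp only [endp] at hδ2
            omega
          obtain ⟨e, t, rfl⟩ := List.exists_cons_of_ne_nil hne
          rw [B5W.sitesL_append]; simp [sitesL]
        · have h2 : endp x p = x + endp 0 p := endp_eq_add _ _
          rw [h2, lev_add] at hv'
          omega)
    (mu u nu) M (mu_le u nu hM) (by rw [mu_tot]; exact hnu) h0 h1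
  refine le_trans ?_ (key.trans (add_le_add le_rfl (mul_le_mul' le_rfl (mul_le_mul' le_rfl
    (mul_le_mul' le_rfl ?_)))))
  swap
  · unfold rt
    refine ENNReal.tsum_le_tsum fun t => ?_
    split_ifs with a b b
    · exact le_rfl
    · exact absurd a b
    · exact zero_le
    · exact le_rfl
  have e1 : ∀ w : Lat u, nu w * FI (Lam ν u) (ht u) (dl u) (cd u)
      (fun L => endp 0 (cat L).1 ∈ E) h s w
      = ∑' π : List (Step d), ∑' γ : List (Step d), (if (IsUp u h π ∧ IsDn u h γ) ∧
          (endp 0 π ∈ E ∧ cds u (π, γ) w.1 ≠ ∅ ∧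
            ∀ k ∈ cds u (π, γ) w.1, s < k ∧ k + s ≤ h) then nu w * (aw ν π * aw ν γ) else 0) := by
    intro w
    rw [FI_eq ν u (fun x => endp 0 x.1 ∈ E) h s w, ← ENNReal.tsum_mul_left]
    refine tsum_congr fun π => ?_
    rw [← ENNReal.tsum_mul_left]
    refine tsum_congr fun γ => ?_
    rw [mul_ite, mul_zero]
    exact ite_dec _ _ _
  simp only [e1]
  rw [ENNReal.tsum_comm]
  rw [ENNReal.tsum_comm (f := fun (x : Site d) (π : List (Step d)) =>
    ∑' ρ : List (Step d), _)]
  refine ENNReal.tsum_le_tsum fun π => ?_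
  have hinj : Function.Injective (fun w : Lat u => endp 0 π + w.1 - stepVec u) := by
    intro w w' hw
    exact Subtype.ext (by simpa using hw)
  refine le_trans (ENNReal.tsum_le_tsum fun w => ?_)
    (ENNReal.tsum_comp_le_tsum_of_injective hinj _)
  refine ENNReal.tsum_le_tsum fun γ => ?_
  by_cases hc : (IsUp u h π ∧ IsDn u h γ) ∧
          (endp 0 π ∈ E ∧ cds u (π, γ) w.1 ≠ ∅ ∧
            ∀ k ∈ cds u (π, γ) w.1, s < k ∧ k + s ≤ h)
  swap
  · rw [if_neg hc]; exact zero_le
  obtain ⟨⟨hπ, hγ⟩, hE, hne, hall⟩ := hc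
  have hlx : lev u (endp 0 π + w.1 - stepVec u) = (h : ℤ) - 1 := by
    rw [sub_eq_add_neg, lev_add, lev_add, lev_neg, lev_self, w.2, (up_lev u hπ).2]; ring
  rw [if_pos ⟨⟨hπ, hγ⟩, hE, hne, hall⟩, if_pos]
  · refine le_of_eq ?_
    have : (endp 0 π + w.1 - stepVec u) - endp 0 π = w.1 - stepVec u := by abel
    simp only [this, mu_app]
    rfl
  refine ⟨⟨hlx, hπ, hE⟩, hγ, ?_⟩
  obtain ⟨k, s', hs1, hs2, -⟩ := Set.nonempty_iff_ne_empty.2 hne
  obtain ⟨p, r, hpr, hr, hp, hv⟩ := first_hit (x := endp 0 π + w.1 - stepVec u) hs1 hs2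
  refine ⟨p, r, hpr, hr, hp, ?_⟩
  have hv1 : endp (endp 0 π + w.1 - stepVec u) p ∈ sitesL 0 π := hp.1
  have hl1 := ((up_lev u hπ).1 _ hv1)
  have hk := hall (h - (lev u (endp (endp 0 π + w.1 - stepVec u) p)).toNat)
    ⟨_, hv1, hv, by rw [(up_lev u hπ).2]; omega⟩
  show lev u (endp (endp 0 π + w.1 - stepVec u) p) < (h : ℤ) - s
  omega

lemma lev_opp' (x : Site d) : lev (Flux132.opp u) x = - lev u x := by
  have h := B5W.stepVec_opp' u
  unfold lev Flux132.opp
  rcases u with ⟨i, b⟩
  cases b <;> simp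

open Classical in
/-- `Y` local -/
lemma winY (h s : ℕ) (E : Finset (Site d)) (nu : Lat u → ℝ≥0∞) (hnu : ∑' w, nu w ≤ 1)
    {M : ℝ≥0∞} (hM0 : M ≠ 0) (hMt : M ≠ ⊤) (hM : ∀ w, nu w ≤ M) {lam : ℝ≥0∞} (h0 : lam ≠ 0)
    (h1 : lam ≠ ⊤) :
    ∑' w, nu w * FI (Lam ν u) (ht u) (dl u) (cd u) (fun L => endp 0 (cat L).2 ∈ E) h s w
      ≤ 4 * lam + M / lam * (E.card * rt ν (Flux132.opp u) s) := by
  have key := Win775.win3 ν (S := fun x => {z | 0 ≤ lev u z ∧ lev u z < h})
    (T := fun x => {z | lev u x = (h : ℤ) - 1 ∧ lev u z = -1 ∧ z - x ∈ E})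
    (S' := {z | 0 ≤ lev u z ∧ lev u z < h}) (T' := {z | lev u z = h}) (Q := {z | lev u z < 0})
    (A := {z | (s : ℤ) ≤ lev u z}) (y := 0) (δ := fun x z => mu u nu (x - z)) (M := M)
    (lam := lam) (N := E.card) (r := rt ν (Flux132.opp u) s) hM0 hMt h0 h1
    (by
      rw [Set.disjoint_left]
      intro z hz hz'
      have a : 0 ≤ lev u z ∧ lev u z < h := hz
      have b : lev u z = h := hz'
      omega)
    (fun x z => mu_le u nu hM _)
    (fun z => by
      have e := (Equiv.subRight z).tsum_eq (mu u nu)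
      simp only [Equiv.subRight_apply] at e
      rw [e, mu_tot]; exact hnu)
    (fun x z hz hz' => by
      have a : 0 ≤ lev u z ∧ lev u z < h := hz
      have b : lev u z < 0 := hz'
      omega)
    (fun x z hz => by
      have a : lev u x = (h : ℤ) - 1 ∧ lev u z = -1 ∧ z - x ∈ E := hz
      show lev u z < 0
      omega)
    (fun z hz hz' => by
      have a : 0 ≤ lev u z ∧ lev u z < h := hz
      have b : lev u z < 0 := hz'
      omega)
    (fun z => by
      have e := (Equiv.subLeft z).tsum_eq (fun x : Site d => if x ∈ E then (1 : ℝ≥0∞) else 0)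
      simp only [Equiv.subLeft_apply] at e
      have e2 : ∑' x : Site d, (if x ∈ E then (1 : ℝ≥0∞) else 0) = E.card := by
        rw [tsum_eq_sum (s := E) (fun x hx => if_neg hx)]
        rw [Finset.sum_congr rfl (fun x hx => if_pos hx)]
        simp
      rw [← e2, ← e]
      refine ENNReal.tsum_le_tsum fun x => ?_
      split_ifs with a b b
      · exact le_rfl
      · exact absurd a.2.2 b
      · exact zero_le
      · exact le_rfl)
    (by
      unfold rt
      refine ENNReal.tsum_le_tsum fun σ => ?_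
      split_ifs with a b b
      · exact le_rfl
      · exfalso
        apply b
        obtain ⟨⟨a1, a2⟩, z, hz, hzA⟩ := a
        have a3 : lev u (endp 0 σ) < 0 := a2
        have a4 : (s : ℤ) ≤ lev u z := hzA
        have a5 : ∀ y ∈ sitesL 0 σ, 0 ≤ lev u y := fun y hy => by
          have : ¬ lev u y < 0 := a1 y hy
          omega
        have hne : σ ≠ [] := by rintro rfl; simp [sitesL] at hz
        obtain ⟨σ', e, rfl⟩ : ∃ σ' e, σ = σ' ++ [e] :=
          ⟨σ.dropLast, σ.getLast hne, (List.dropLast_append_getLast hne).symm⟩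
        have h2 : lev u (endp 0 (σ' ++ [e])) = lev u (endp 0 σ') + lev u (stepVec e) := by
          rw [endp_append]
          show lev u (endp 0 σ' + stepVec e) = _
          rw [lev_add]
        have h3 := abs_le.1 (Flux566.abs_lev_stepVec u e)
        have h4 := a5 (endp 0 σ') (by rw [B5W.sitesL_append]; simp [sitesL])
        refine ⟨fun y hy => ?_, ?_, z, hz, ?_⟩
        · rw [lev_opp']; have := a5 y hy; omega
        · rw [lev_opp']; omega
        · rw [lev_opp']; omega
      · exact zero_le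
      · exact le_rfl)
  refine le_trans ?_ key
  have e1 : ∀ w : Lat u, nu w * FI (Lam ν u) (ht u) (dl u) (cd u)
      (fun L => endp 0 (cat L).2 ∈ E) h s w
      = ∑' γ : List (Step d), ∑' π : List (Step d), (if (IsUp u h π ∧ IsDn u h γ) ∧
          (endp 0 γ ∈ E ∧ cds u (π, γ) w.1 ≠ ∅ ∧
            ∀ k ∈ cds u (π, γ) w.1, s < k ∧ k + s ≤ h) then nu w * (aw ν π * aw ν γ) else 0) := by
    intro w
    rw [FI_eq ν u (fun x => endp 0 x.2 ∈ E) h s w, ENNReal.tsum_comm, ← ENNReal.tsum_mul_left]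
    refine tsum_congr fun γ => ?_
    rw [← ENNReal.tsum_mul_left]
    refine tsum_congr fun π => ?_
    rw [mul_ite, mul_zero]
    exact ite_dec _ _ _
  simp only [e1]
  rw [ENNReal.tsum_comm, ENNReal.tsum_comm (f := fun (x : Site d) (ρ : List (Step d)) =>
    ∑' π : List (Step d), _)]
  refine ENNReal.tsum_le_tsum fun γ => ?_
  rw [ENNReal.tsum_comm, ENNReal.tsum_comm (f := fun (x : Site d) (π : List (Step d)) => _)]
  refine ENNReal.tsum_le_tsum fun π => ?_
  have hinj : Function.Injective (fun w : Lat u => endp 0 π + w.1 - stepVec u) := by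
    intro w w' hw
    exact Subtype.ext (by simpa using hw)
  refine le_trans (ENNReal.tsum_le_tsum fun w => ?_)
    (ENNReal.tsum_comp_le_tsum_of_injective hinj _)
  by_cases hc : (IsUp u h π ∧ IsDn u h γ) ∧
          (endp 0 γ ∈ E ∧ cds u (π, γ) w.1 ≠ ∅ ∧
            ∀ k ∈ cds u (π, γ) w.1, s < k ∧ k + s ≤ h)
  swap
  · rw [if_neg hc]; exact zero_le
  obtain ⟨⟨hπ, hγ⟩, hE, hne, hall⟩ := hc
  have hlx : lev u (endp 0 π + w.1 - stepVec u) = (h : ℤ) - 1 := by
    rw [sub_eq_add_neg, lev_add, lev_add, lev_neg, lev_self, w.2, (up_lev u hπ).2]; ring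
  rw [if_pos ⟨⟨hπ, hγ⟩, hE, hne, hall⟩, if_pos]
  · refine le_of_eq ?_
    have e3 : (endp 0 π + w.1 - stepVec u) - endp 0 π = w.1 - stepVec u := by abel
    have e4 : ∀ (x : Site d) (l : List (Step d)), Win775.awx ν x l = aw ν l :=
      fun x l => B5W.aw_at ν x l
    simp only [e3, mu_app, e4]
    ring
  refine ⟨⟨?_, ?_⟩, ⟨?_, ?_⟩, ?_⟩
  · intro z hz
    have := dn_lev u hγ _ z hz
    exact ⟨by omega, by omega⟩
  · refine ⟨hlx, ?_, ?_⟩
    · rw [dn_end u hγ, hlx]; ring
    · rw [endp_eq_add, add_sub_cancel_left]; exact hE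
  · exact (up_lev u hπ).1
  · exact (up_lev u hπ).2
  obtain ⟨k, s', hs1, hs2, -⟩ := Set.nonempty_iff_ne_empty.2 hne
  obtain ⟨p, r, hpr, hr, hp, hv⟩ := first_hit (x := 0) (y := endp 0 π + w.1 - stepVec u) hs2 hs1
  have hv1 : endp 0 p ∈ sitesL (endp 0 π + w.1 - stepVec u) γ := hp.1
  refine ⟨p, r, hpr, ?_, hv1, ?_⟩
  · intro z hz hz'
    obtain ⟨p', hp', hne', rfl⟩ := B5W.mem_sitesL hz
    obtain ⟨q, hq⟩ := hp'
    have := hp.2 p' q hq.symm hz'
    exact hne' (by simpa [this] using hq)
  · have hl1 := ((up_lev u hπ).1 _ hv)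
    have hk := hall (h - (lev u (endp 0 p)).toNat)
      ⟨_, hv, hv1, by rw [(up_lev u hπ).2]; omega⟩
    show (s : ℤ) ≤ lev u (endp 0 p)
    omega

open Classical in
/-- mass of the up crossings -/
noncomputable def mU (h : ℕ) : ℝ≥0∞ := ∑' π : List (Step d), if IsUp u h π then aw ν π else 0

open Classical in
/-- mass of the down crossings -/
noncomputable def mD (h : ℕ) : ℝ≥0∞ := ∑' π : List (Step d), if IsDn u h π then aw ν π else 0

/-- the total return weight -/
noncomputable def dlt (s : ℕ) : ℝ≥0∞ := rt ν u s + rt ν (Flux132.opp u) s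

/-- **(HP)** the one-piece hypothesis of PFDefs_692 for the word instance. -/
theorem hPiece (c : ℝ≥0∞) (hcU : ∀ h, c ≤ mU ν u h) (hcD : ∀ h, c ≤ mD ν u h)
    (hU1 : ∀ h, mU ν u h ≤ 1) (hD1 : ∀ h, mD ν u h ≤ 1) :
    HPiece (Lam ν u) (ht u) (dl u) (cd u) c 4 (dlt ν u) := by
  classical
  intro v hv hvc h
  have hpu : ∑' z, pu ν u h z ≤ 1 := (pu_tot ν u h).trans_le (hU1 h)
  have hpd : ∑' z, pd ν u h z ≤ 1 := (pd_tot ν u h).trans_le (hD1 h)
  have hcu : c ≤ ∑' z, pu ν u h z := (hcU h).trans_eq (pu_tot ν u h).symm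
  have hcd' : c ≤ ∑' z, pd ν u h z := (hcD h).trans_eq (pd_tot ν u h).symm
  obtain ⟨tx, tx0, txt, tx1, tx2⟩ := quant_sub (pu ν u h) hpu hv (hvc.trans hcu)
  obtain ⟨ty, ty0, tyt, ty1, ty2⟩ := quant_sub (pd ν u h) hpd hv (hvc.trans hcd')
  obtain ⟨EX, hEX, cX⟩ := heavy (pu ν u h) hpu tx0 txt
  obtain ⟨EY, hEY, cY⟩ := heavy (pd ν u h) hpd ty0 tyt
  refine ⟨fun L => endp 0 (cat L).1 ∈ EX, fun L => endp 0 (cat L).2 ∈ EY, ?_, ?_, ?_⟩
  · -- both non local
    have e := tr ν u h (fun x => ¬ endp 0 x.1 ∈ EX ∧ ¬ endp 0 x.2 ∈ EY)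
    have e2 := prod_form ν u h (fun z => ¬ z ∈ EX) (fun z => ¬ z ∈ EY)
    refine le_trans (le_of_eq (Eq.trans (tsum_congr fun L => ite_dec _ _ _) (e.trans
      (Eq.trans (tsum_congr fun π => tsum_congr fun γ => ite_dec _ _ _) e2)))) ?_
    refine mul_le_mul' (le_trans (ENNReal.tsum_le_tsum fun z => ?_) tx1)
      (le_trans (ENNReal.tsum_le_tsum fun z => ?_) ty1)
    · by_cases hz : z ∈ EX
      · rw [if_neg (not_not.2 hz)]; exact zero_le
      · rw [if_pos hz, if_pos (not_le.1 (fun h' => hz ((hEX z).2 h')))]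
    · by_cases hz : z ∈ EY
      · rw [if_neg (not_not.2 hz)]; exact zero_le
      · rw [if_pos hz, if_pos (not_le.1 (fun h' => hz ((hEY z).2 h')))]
  · refine ⟨tx, tx0, txt, fun L => pu ν u h (endp 0 (cat L).1) ≤ tx, ?_, ?_, ?_⟩
    · intro w w'
      have e := tr ν u h (fun x => pu ν u h (endp 0 x.1) ≤ tx ∧ dlp x w.1 = w'.1)
      have e0 : (∑' L : List (PB u), if HT (ht u) L = h ∧ pu ν u h (endp 0 (cat L).1) ≤ tx ∧
          act (dl u) L w = w' then LW (Lam ν u) L else 0)
          = ∑' L : List (PB u), if HT (ht u) L = h ∧ (pu ν u h (endp 0 (cat L).1) ≤ tx ∧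
            dlp (cat L) w.1 = w'.1) then LW (Lam ν u) L else 0 := by
        refine tsum_congr fun L => ?_
        have hi : act (dl u) L w = w' ↔ dlp (cat L) w.1 = w'.1 := by
          rw [← act_cat]; exact ⟨fun h => congrArg Subtype.val h, fun h => Subtype.ext h⟩
        by_cases hc : act (dl u) L w = w'
        · simp only [hc, hi.1 hc]
        · simp only [hc, fun h => hc (hi.2 h), and_false, if_false]
          rw [if_neg]
          rintro ⟨-, -, h3⟩
          exact hc (hi.2 h3)
      refine le_trans (le_of_eq (Eq.trans (tsum_congr fun L => ite_dec _ _ _) (e0.trans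
        (Eq.trans (tsum_congr fun L => ite_dec _ _ _) e)))) ?_
      rw [ENNReal.tsum_comm]
      calc _ ≤ ∑' γ : List (Step d), (if IsDn u h γ then aw ν γ else 0) * tx := by
            refine ENNReal.tsum_le_tsum fun γ => ?_
            by_cases hγ : IsDn u h γ
            swap
            · rw [if_neg hγ, zero_mul]
              refine le_of_eq (ENNReal.tsum_eq_zero.2 fun π => ?_)
              rw [if_neg]
              exact fun h' => hγ h'.1.2
            rw [if_pos hγ]
            set z0 : Site d := w'.1 - w.1 - endp 0 γ with hz0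
            by_cases hz : pu ν u h z0 ≤ tx
            · refine le_trans ?_ (mul_le_mul' le_rfl hz)
              rw [pu, ← ENNReal.tsum_mul_left]
              refine ENNReal.tsum_le_tsum fun π => ?_
              by_cases hc : (IsUp u h π ∧ IsDn u h γ) ∧
                  pu ν u h (endp 0 (π, γ).1) ≤ tx ∧ dlp (π, γ) w.1 = w'.1
              · have hz1 : endp 0 π = z0 := by
                  rw [hz0, ← hc.2.2]; simp only [dlp]; abel
                rw [if_pos hc, if_pos ⟨hc.1.1, hz1⟩, mul_comm]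
              · rw [if_neg hc]; exact zero_le
            · refine le_trans (le_of_eq (ENNReal.tsum_eq_zero.2 fun π => ?_)) zero_le
              rw [if_neg]
              rintro ⟨-, h3, h4⟩
              apply hz
              have : z0 = endp 0 π := by rw [hz0, ← h4]; unfold dlp; abel
              rw [this]; exact h3
        _ = mD ν u h * tx := by rw [ENNReal.tsum_mul_right]; rfl
        _ ≤ 1 * tx := mul_le_mul' (hD1 h) le_rfl
        _ = tx := one_mul _
    · have e := tr ν u h (fun x => pu ν u h (endp 0 x.1) ≤ tx ∧ True)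
      have e2 := prod_form ν u h (fun z => pu ν u h z ≤ tx) (fun _ => True)
      have e3 : (∑' L : List (PB u), if HT (ht u) L = h ∧ pu ν u h (endp 0 (cat L).1) ≤ tx then
          LW (Lam ν u) L else 0) = (∑' z, (if pu ν u h z ≤ tx then pu ν u h z else 0)) *
            ∑' z, (if True then pd ν u h z else 0) := by
        refine Eq.trans (tsum_congr fun L => ?_) (e.trans
          (Eq.trans (tsum_congr fun π => tsum_congr fun γ => ite_dec _ _ _) (e2.trans
            (congrArg₂ (· * ·) (tsum_congr fun z => ite_dec _ _ _)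
              (tsum_congr fun z => ite_dec _ _ _)))))
        simp only [and_true]
      refine le_trans ?_ (le_of_eq (Eq.trans e3.symm (tsum_congr fun L => ite_dec _ _ _)))
      rw [mul_comm]
      refine mul_le_mul' (tx2.trans (le_of_eq (tsum_congr fun z => ite_dec _ _ _))) ?_
      simpa using hcd'
    · intro s lam M h0 h1 nu hnu hM
      have key := winX ν u h s EX nu hnu M hM h0 h1
      refine key.trans ?_
      have hr : rt ν u s ≤ dlt ν u s := le_self_add
      calc lam + M * (lam⁻¹ * (EX.card * rt ν u s))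
          ≤ lam + M * (lam⁻¹ * (tx⁻¹ * dlt ν u s)) := by gcongr
        _ = lam + M * tx⁻¹ * dlt ν u s / lam := by rw [div_eq_mul_inv]; ring
        _ = 1 * (lam + M * tx⁻¹ * dlt ν u s / lam) := (one_mul _).symm
        _ ≤ 4 * (lam + M * tx⁻¹ * dlt ν u s / lam) := mul_le_mul' (by norm_num) le_rfl
        _ ≤ 4 * (lam + M * tx⁻¹ * dlt ν u s / lam + dlt ν u s) :=
            mul_le_mul' le_rfl le_self_add
  · refine ⟨ty, ty0, tyt, fun L => pd ν u h (endp 0 (cat L).2) ≤ ty, ?_, ?_, ?_⟩
    · intro w w'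
      have e := tr ν u h (fun x => pd ν u h (endp 0 x.2) ≤ ty ∧ dlp x w.1 = w'.1)
      have e0 : (∑' L : List (PB u), if HT (ht u) L = h ∧ pd ν u h (endp 0 (cat L).2) ≤ ty ∧
          act (dl u) L w = w' then LW (Lam ν u) L else 0)
          = ∑' L : List (PB u), if HT (ht u) L = h ∧ (pd ν u h (endp 0 (cat L).2) ≤ ty ∧
            dlp (cat L) w.1 = w'.1) then LW (Lam ν u) L else 0 := by
        refine tsum_congr fun L => ?_
        have hi : act (dl u) L w = w' ↔ dlp (cat L) w.1 = w'.1 := by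
          rw [← act_cat]; exact ⟨fun h => congrArg Subtype.val h, fun h => Subtype.ext h⟩
        by_cases hc : act (dl u) L w = w'
        · simp only [hc, hi.1 hc]
        · simp only [hc, fun h => hc (hi.2 h), and_false, if_false]
          rw [if_neg]
          rintro ⟨-, -, h3⟩
          exact hc (hi.2 h3)
      refine le_trans (le_of_eq (Eq.trans (tsum_congr fun L => ite_dec _ _ _) (e0.trans
        (Eq.trans (tsum_congr fun L => ite_dec _ _ _) e)))) ?_
      calc _ ≤ ∑' π : List (Step d), (if IsUp u h π then aw ν π else 0) * ty := by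
            refine ENNReal.tsum_le_tsum fun π => ?_
            by_cases hπ : IsUp u h π
            swap
            · rw [if_neg hπ, zero_mul]
              refine le_of_eq (ENNReal.tsum_eq_zero.2 fun γ => ?_)
              rw [if_neg]
              exact fun h' => hπ h'.1.1
            rw [if_pos hπ]
            set z0 : Site d := w'.1 - w.1 - endp 0 π with hz0
            by_cases hz : pd ν u h z0 ≤ ty
            · refine le_trans ?_ (mul_le_mul' le_rfl hz)
              rw [pd, ← ENNReal.tsum_mul_left]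
              refine ENNReal.tsum_le_tsum fun γ => ?_
              by_cases hc : (IsUp u h π ∧ IsDn u h γ) ∧
                  pd ν u h (endp 0 (π, γ).2) ≤ ty ∧ dlp (π, γ) w.1 = w'.1
              · have hz1 : endp 0 γ = z0 := by
                  rw [hz0, ← hc.2.2]; simp only [dlp]; abel
                rw [if_pos hc, if_pos ⟨hc.1.2, hz1⟩]
              · rw [if_neg hc]; exact zero_le
            · refine le_trans (le_of_eq (ENNReal.tsum_eq_zero.2 fun γ => ?_)) zero_le
              rw [if_neg]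
              rintro ⟨-, h3, h4⟩
              apply hz
              have : z0 = endp 0 γ := by rw [hz0, ← h4]; unfold dlp; abel
              rw [this]; exact h3
        _ = mU ν u h * ty := by rw [ENNReal.tsum_mul_right]; rfl
        _ ≤ 1 * ty := mul_le_mul' (hU1 h) le_rfl
        _ = ty := one_mul _
    · have e := tr ν u h (fun x => True ∧ pd ν u h (endp 0 x.2) ≤ ty)
      have e2 := prod_form ν u h (fun _ => True) (fun z => pd ν u h z ≤ ty)
      have e3 : (∑' L : List (PB u), if HT (ht u) L = h ∧ pd ν u h (endp 0 (cat L).2) ≤ ty then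
          LW (Lam ν u) L else 0) = (∑' z, (if True then pu ν u h z else 0)) *
            ∑' z, (if pd ν u h z ≤ ty then pd ν u h z else 0) := by
        refine Eq.trans (tsum_congr fun L => ?_) (e.trans
          (Eq.trans (tsum_congr fun π => tsum_congr fun γ => ite_dec _ _ _) (e2.trans
            (congrArg₂ (· * ·) (tsum_congr fun z => ite_dec _ _ _)
              (tsum_congr fun z => ite_dec _ _ _)))))
        simp only [true_and]
      refine le_trans ?_ (le_of_eq (Eq.trans e3.symm (tsum_congr fun L => ite_dec _ _ _)))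
      refine mul_le_mul' ?_ (ty2.trans (le_of_eq (tsum_congr fun z => ite_dec _ _ _)))
      simpa using hcu
    · intro s lam M h0 h1 nu hnu hM
      by_cases hM0 : M = 0
      · have : ∀ w, nu w = 0 := fun w => le_antisymm ((hM w).trans_eq hM0) zero_le
        simp only [this, zero_mul, tsum_zero]
        exact zero_le
      have hM' : ∀ w, nu w ≤ min M 1 := fun w => le_min (hM w) ((ENNReal.le_tsum w).trans hnu)
      have key := winY ν u h s EY nu hnu (M := min M 1)
        (by
          rcases min_choice M 1 with h5 | h5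
          · rw [h5]; exact hM0
          · rw [h5]; exact one_ne_zero)
        (ne_top_of_le_ne_top ENNReal.one_ne_top (min_le_right _ _)) hM' h0 h1
      refine key.trans ?_
      have hr : rt ν (Flux132.opp u) s ≤ dlt ν u s := le_add_self
      calc 4 * lam + min M 1 / lam * (EY.card * rt ν (Flux132.opp u) s)
          ≤ 4 * lam + M / lam * (ty⁻¹ * dlt ν u s) := by gcongr; exact min_le_left _ _
        _ = 4 * lam + M * ty⁻¹ * dlt ν u s / lam := by
            simp only [div_eq_mul_inv]; ring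
        _ = 4 * lam + 1 * (M * ty⁻¹ * dlt ν u s / lam) := by rw [one_mul]
        _ ≤ 4 * lam + 4 * (M * ty⁻¹ * dlt ν u s / lam) :=
            add_le_add le_rfl (mul_le_mul' (by norm_num) le_rfl)
        _ = 4 * (lam + M * ty⁻¹ * dlt ν u s / lam) := by rw [mul_add]
        _ ≤ 4 * (lam + M * ty⁻¹ * dlt ν u s / lam + dlt ν u s) :=
            mul_le_mul' le_rfl le_self_add

end Crest.Agent.R154.HP46
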