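import Crest.Agent.R154.PFDefs_692
import Crest.Agent.R154.B5Br_657
import Crest.Agent.R154.Dens_903
import Crest.Agent.R154.E2_22
import Crest.Agent.R154.E3_934

/-! Row 154, FRAME B (helper692): the one-piece input `HPiece` at 657's instance, from `E2`, `E3`. -/

set_option autoImplicit false

namespace Crest.Agent.R154.HP692

open MeasureTheory ProbabilityTheory Crest.ProbabilityR.RandomEnvironment Crest.Agent.R154
open Crest.Agent.R154.B5A Crest.Agent.R154.B5W
open Crest.Agent.R154.NB28 (IsUp IsDn Cm)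
open Crest.Agent.R154.Flux566 (endp endp_append endp_eq_add)
open scoped ENNReal Topology
open Filter

variable {d : ℕ}

lemma ite_iff {α : Type*} {p q : Prop} {ip : Decidable p} {iq : Decidable q} (h : p ↔ q) (a b : α) :
    @ite α p ip a b = @ite α q iq a b := by
  by_cases hp : p
  · rw [if_pos hp, if_pos (h.1 hp)]
  · rw [if_neg hp, if_neg (fun hq => hp (h.2 hq))]

/-! ### quantile -/

lemma quantile2 {α : Type*} (p : α → ℝ≥0∞) (hp : ∑' a, p a ≤ 1) (c v : ℝ≥0∞) (hcp : c ≤ ∑' a, p a)
    (hv : v ≠ 0) (hvc : v ≤ c) : ∃ th : ℝ≥0∞, th ≠ 0 ∧ th ≠ ⊤ ∧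
      (∑' a, (open Classical in if p a < th then p a else 0)) ≤ v ∧
      v ≤ ∑' a, (open Classical in if p a ≤ th then p a else 0) := by
  classical
  set m : ℝ≥0∞ := ∑' a, p a with hm
  have hm0 : m ≠ 0 := fun h => hv (le_antisymm ((hvc.trans hcp).trans h.le) zero_le)
  have hmt : m ≠ ⊤ := ne_top_of_le_ne_top ENNReal.one_ne_top hp
  have h1 : ∑' a, p a * m⁻¹ = 1 := by
    rw [ENNReal.tsum_mul_right, ← hm, ENNReal.mul_inv_cancel hm0 hmt]
  obtain ⟨th, hth, hth1, hA, hB⟩ := Dens903.quantile (fun a => p a * m⁻¹) h1 (u := v * m⁻¹)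
    (mul_ne_zero hv (ENNReal.inv_ne_zero.2 hmt))
    (by rw [← div_eq_mul_inv, ENNReal.div_le_iff hm0 hmt, one_mul]; exact hvc.trans hcp)
  have hlt : ∀ a, p a * m⁻¹ < th ↔ p a < th * m := fun a => by
    rw [← div_eq_mul_inv, ENNReal.div_lt_iff (Or.inl hm0) (Or.inl hmt)]
  have hle : ∀ a, p a * m⁻¹ ≤ th ↔ p a ≤ th * m := fun a => by
    rw [← div_eq_mul_inv, ENNReal.div_le_iff hm0 hmt]
  have hmul : ∀ x : ℝ≥0∞, x * m⁻¹ * m = x := fun x => by
    rw [mul_assoc, ENNReal.inv_mul_cancel hm0 hmt, mul_one]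
  refine ⟨th * m, mul_ne_zero hth hm0, ENNReal.mul_ne_top
    (ne_top_of_le_ne_top ENNReal.one_ne_top hth1) hmt, ?_, ?_⟩
  · calc (∑' a, if p a < th * m then p a else 0)
        = (∑' a, (if p a * m⁻¹ < th then p a * m⁻¹ else 0)) * m := by
          rw [← ENNReal.tsum_mul_right]
          refine tsum_congr fun a => ?_
          by_cases h : p a < th * m
          · rw [if_pos h, if_pos ((hlt a).2 h), hmul]
          · rw [if_neg h, if_neg (fun h' => h ((hlt a).1 h')), zero_mul]
      _ ≤ v * m⁻¹ * m := mul_le_mul_left hA _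
      _ = v := hmul v
  · calc v = v * m⁻¹ * m := (hmul v).symm
      _ ≤ (∑' a, (if p a * m⁻¹ ≤ th then p a * m⁻¹ else 0)) * m := mul_le_mul_left hB _
      _ = ∑' a, if p a ≤ th * m then p a else 0 := by
          rw [← ENNReal.tsum_mul_right]
          refine tsum_congr fun a => ?_
          by_cases h : p a ≤ th * m
          · rw [if_pos h, if_pos ((hle a).2 h), hmul]
          · rw [if_neg h, if_neg (fun h' => h ((hle a).1 h')), zero_mul]

lemma level_card {α : Type*} (p : α → ℝ≥0∞) (hp : ∑' a, p a ≤ 1) (th : ℝ≥0∞) (h0 : th ≠ 0)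
    (ht : th ≠ ⊤) : ∃ E : Finset α, (∀ a, a ∈ E ↔ th ≤ p a) ∧ (E.card : ℝ≥0∞) ≤ th⁻¹ := by
  classical
  have hfin := Dens903.finite_level p (ne_top_of_le_ne_top ENNReal.one_ne_top hp) h0
  refine ⟨hfin.toFinset, fun a => by simp, ?_⟩
  have h1 := (Dens903.card_le p th).trans hp
  have h2 : (hfin.toFinset.card : ℝ≥0∞) ≤ ∑' a, (if th ≤ p a then 1 else 0) := by
    calc (hfin.toFinset.card : ℝ≥0∞) = ∑ a ∈ hfin.toFinset, (if th ≤ p a then (1 : ℝ≥0∞) else 0) := by
          rw [Finset.sum_congr rfl (fun a ha => if_pos (by simpa using ha))]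
          simp
      _ ≤ _ := ENNReal.sum_le_tsum _
  rw [← one_div, ENNReal.le_div_iff_mul_le (Or.inl h0) (Or.inl ht), mul_comm]
  exact (mul_le_mul_right h2 th).trans h1

/-! ### laws of end points -/

variable (ν : Measure (Row d)) [IsProbabilityMeasure ν] (u : Step d)

open Classical in
/-- law of the end point -/
noncomputable def law (P : List (Step d) → Prop) (z : Site d) : ℝ≥0∞ :=
  ∑' l : List (Step d), if P l ∧ endp 0 l = z then NB28.aw ν l else 0

open Classical in
lemma law_sum (P : List (Step d) → Prop) (S : Site d → Prop) :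
    (∑' l : List (Step d), if P l ∧ S (endp 0 l) then NB28.aw ν l else 0)
      = ∑' z, if S z then law ν P z else 0 := by
  have h : ∀ z, (if S z then law ν P z else 0)
      = ∑' l : List (Step d), if S z ∧ P l ∧ endp 0 l = z then NB28.aw ν l else 0 := by
    intro z
    by_cases hz : S z
    · simp only [hz, true_and, if_true, law]
    · simp only [hz, false_and, if_false, tsum_zero]
  simp_rw [h]
  rw [ENNReal.tsum_comm]
  refine tsum_congr fun l => ?_
  rw [tsum_eq_single (endp 0 l)]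
  · by_cases hP : P l <;> by_cases hS : S (endp 0 l) <;> simp [hP, hS]
  · intro z hz
    rw [if_neg (fun h => hz h.2.2.symm)]

open Classical in
lemma law_total (P : List (Step d) → Prop) :
    ∑' z, law ν P z = ∑' l : List (Step d), if P l then NB28.aw ν l else 0 := by
  have := law_sum ν P (fun _ => True)
  simpa using this.symm

variable {u} in
lemma act_cat (L : List (PB u)) (w : Lat u) :
    (act (dl u) L w).1 = w.1 + endp 0 (cat L).1 + endp 0 (cat L).2 := by
  induction L generalizing w with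
  | nil => simp [act, cat, endp]
  | cons b L ih =>
    simp only [act, cat, pm]
    rw [ih]
    simp only [dl, dlp]
    rw [endp_append, endp_append, endp_eq_add (cat L).2 (endp 0 b.1.2),
      endp_eq_add b.1.1 (endp 0 (cat L).1)]
    abel

open Classical in
/-- product form of a sum over the lists of height `h` -/
lemma sum_prod (h : ℕ) (F : List (Step d) × List (Step d) → Prop) :
    (∑' L : List (PB u), if HT (ht u) L = h ∧ F (cat L) then LW (Lam ν u) L else 0)
      = ∑' π : List (Step d), ∑' γ : List (Step d),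
        if IsUp u h π ∧ IsDn u h γ ∧ F (π, γ) then NB28.aw ν π * NB28.aw ν γ else 0 := by
  have h1 := tsum_L ν u h (fun x => if F x then 1 else 0)
  refine Eq.trans ?_ (h1.trans ?_)
  · refine tsum_congr fun L => ?_
    by_cases hL : HT (ht u) L = h <;> by_cases hF : F (cat L) <;> simp [hL, hF]
  · refine tsum_congr fun π => tsum_congr fun γ => ?_
    by_cases h1 : IsUp u h π <;> by_cases h2 : IsDn u h γ <;> by_cases h3 : F (π, γ) <;>
      simp [h1, h2, h3]

open Classical in
lemma sum_prod2 (h : ℕ) (S T : Site d → Prop) :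
    (∑' L : List (PB u), if HT (ht u) L = h ∧ S (endp 0 (cat L).1) ∧ T (endp 0 (cat L).2)
        then LW (Lam ν u) L else 0)
      = (∑' z, if S z then law ν (IsUp u h) z else 0) * ∑' z, if T z then law ν (IsDn u h) z else 0 := by
  refine Eq.trans ?_
    ((sum_prod ν u h (fun x => S (endp 0 x.1) ∧ T (endp 0 x.2))).trans ?_)
  · exact tsum_congr fun L => ite_iff Iff.rfl _ _
  rw [← law_sum, ← law_sum, ← ENNReal.tsum_mul_right]
  refine tsum_congr fun π => ?_
  rw [← ENNReal.tsum_mul_left]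
  refine tsum_congr fun γ => ?_
  by_cases h1 : IsUp u h π <;> by_cases h2 : IsDn u h γ <;> by_cases h3 : S (endp 0 π) <;>
    by_cases h4 : T (endp 0 γ) <;> simp [h1, h2, h3, h4]

/-! ### the two types -/

/-- the error sequence -/
noncomputable def del (s : ℕ) : ℝ≥0∞ := W22.us ν u s + E934.us ν (Flux132.opp u) s

open Classical in
/-- extension of a weight from the lateral sites -/
noncomputable def ext (nu : Lat u → ℝ≥0∞) (x : Site d) : ℝ≥0∞ :=
  if hx : Flux566.lev u x = 0 then nu ⟨x, hx⟩ else 0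

lemma ext_pos (nu : Lat u → ℝ≥0∞) (w : Lat u) : ext u nu w.1 = nu w := by
  unfold ext
  exact dif_pos w.2

lemma ext_neg (nu : Lat u → ℝ≥0∞) {x : Site d} (h : ¬ Flux566.lev u x = 0) : ext u nu x = 0 := by
  unfold ext
  exact dif_neg h

lemma ext_sum (nu : Lat u → ℝ≥0∞) (G : Site d → ℝ≥0∞) :
    (∑' x, (open Classical in if Flux132.lev u x = 0 then ext u nu x * G x else 0))
      = ∑' w : Lat u, nu w * G w.1 := by
  classical
  have hinj : Function.Injective (fun w : Lat u => w.1) := fun _ _ h => Subtype.ext h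
  have hs : Function.support (fun x : Site d => if Flux132.lev u x = 0 then ext u nu x * G x else 0)
      ⊆ Set.range (fun w : Lat u => w.1) := by
    intro x hx
    by_cases h : Flux132.lev u x = 0
    · exact ⟨⟨x, h⟩, rfl⟩
    · simp [h] at hx
  rw [← hinj.tsum_eq hs]
  refine tsum_congr fun w => ?_
  have hw : Flux132.lev u w.1 = 0 := w.2
  rw [if_pos hw, ext_pos]

lemma ext_total (nu : Lat u → ℝ≥0∞) : ∑' x, ext u nu x = ∑' w : Lat u, nu w := by
  classical
  have := ext_sum u nu (fun _ => 1)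
  simp only [mul_one] at this
  rw [← this]
  refine tsum_congr fun x => ?_
  by_cases h : Flux132.lev u x = 0
  · rw [if_pos h]
  · rw [if_neg h]; exact ext_neg u nu h

lemma ext_le (nu : Lat u → ℝ≥0∞) (M : ℝ≥0∞) (h : ∀ w, nu w ≤ M) (x : Site d) : ext u nu x ≤ M := by
  unfold ext
  split_ifs
  · exact h _
  · exact zero_le

open Classical in
lemma FI_eq (h s : ℕ) (S : Site d → Prop) (T : Site d → Prop) (w : Lat u) :
    FI (Lam ν u) (ht u) (dl u) (cd u) (fun L => S (endp 0 (cat L).1) ∧ T (endp 0 (cat L).2)) h s w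
      = ∑' π : List (Step d), ∑' γ : List (Step d),
        if IsUp u h π ∧ IsDn u h γ ∧ (S (endp 0 π) ∧ T (endp 0 γ)) ∧ Cm u w.1 π γ ≠ ∅ ∧
          (∀ k ∈ Cm u w.1 π γ, s < k ∧ k + s ≤ h) then NB28.aw ν π * NB28.aw ν γ else 0 := by
  have h1 := sum_prod ν u h (fun x => (S (endp 0 x.1) ∧ T (endp 0 x.2)) ∧ cds u x w.1 ≠ ∅ ∧
    (∀ k ∈ cds u x w.1, s < k ∧ k + s ≤ h))
  refine Eq.trans ?_ (h1.trans ?_)
  · unfold FI
    refine tsum_congr fun L => ite_iff ?_ _ _
    rw [CD_cat]
  · refine tsum_congr fun π => tsum_congr fun γ => ite_iff ?_ _ _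
    simp only [cds_eq]

end Crest.Agent.R154.HP692
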