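import Crest.Agent.R154.Slab_689
import Crest.Agent.R154.Conc_430
import Crest.Agent.R154.B5Br_657
import Crest.Agent.R154.WMass_286

/-! Row 154, ROAD 801 (helper689): the thin slab for helper657's instance (pair blocks). -/

set_option autoImplicit false

namespace Crest.Agent.R154.HSl689

open MeasureTheory ProbabilityTheory Crest.ProbabilityR.RandomEnvironment
open scoped ENNReal
open Crest.Agent.R154.B5A Crest.Agent.R154.B5W
open Crest.Agent.R154.Flux566 (lw endp sitesL lev lev_add lev_neg lev_zero lev_self endp_append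
  endp_eq_add)
open Crest.Agent.R154.NB28 (IsUp IsDn Cm KW KappaW)

variable {d : ℕ}

/-- displacement of a pair block -/
def ds (u : Step d) (b : PB u) : Site d := endp 0 b.1.1 + endp 0 b.1.2

lemma act_val (u : Step d) (L : List (PB u)) (w : Lat u) :
    (act (dl u) L w).1 = w.1 + (L.map (ds u)).sum := by
  induction L generalizing w with
  | nil => simp [act]
  | cons b L ih =>
    rw [act, ih, List.map_cons, List.sum_cons]
    simp only [dl, dlp, ds]
    abel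

lemma mass_one (ν : Measure (Row d)) [IsProbabilityMeasure ν] (u : Step d) (c : ℝ≥0∞)
    (hc : c ≠ 0) (hU : ∀ n, c ≤ U (Lam ν u) (ht u) n) (hU1 : ∀ n, U (Lam ν u) (ht u) n ≤ 1) :
    ∑' b, Lam ν u b = 1 :=
  le_antisymm (mass_le_one (Lam ν u) (ht u) one_le_hb hU1)
    (mass_ge_one (Lam ν u) (ht u) c hc 0 fun n _ => hU n)

lemma U_le (ν : Measure (Row d)) [IsProbabilityMeasure ν] (u : Step d) (n : ℕ) :
    U (Lam ν u) (ht u) n ≤ 1 := by
  classical
  rw [U_eq28]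
  exact mul_le_one' (sum_if_le_one ν fun l l' h h' hp => NB28.isUp_prefix h h' hp)
    (sum_if_le_one ν fun l l' h h' hp => NB28.isDn_prefix h h' hp)

open Classical in
lemma U_ge (ν : Measure (Row d)) [IsProbabilityMeasure ν] (u : Step d) (c : ℝ≥0∞)
    (hup : ∀ n, c ≤ ∑' π : List (Step d), if IsUp u n π then NB28.aw ν π else 0)
    (hdn : ∀ n, c ≤ ∑' γ : List (Step d), if IsDn u n γ then NB28.aw ν γ else 0) (n : ℕ) :
    c * c ≤ U (Lam ν u) (ht u) n := by
  rw [U_eq28]; exact mul_le_mul' (hup n) (hdn n)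

lemma aw_ne (ν : Measure (Row d)) [IsProbabilityMeasure ν]
    (hν : ∀ᵐ p ∂ν, ∀ e : Step d, 0 < p.1 e) (l : List (Step d)) (hl : (sitesL 0 l).Nodup) :
    B5W.aw (iidEnvironmentLaw ν) l ≠ 0 := by
  obtain ⟨c, hc0, hc1, hc⟩ := FinE804.exists_c ν hν
  have := Flux566.ann_lw_ge ν (ENNReal.ofReal c) hc l 0 hl
  intro h0
  unfold B5W.aw at h0
  rw [h0, nonpos_iff_eq_zero] at this
  exact (pow_ne_zero _ (by simpa using hc0)) this

/-- a pair of height one is a block -/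
def mk1 (u : Step d) (x : List (Step d) × List (Step d)) (hx : x ∈ PC (hu u) (hdn u) 1) : PB u :=
  ⟨x, 1, le_rfl, hx, fun a c k l ha hc he => by
    have h := pm_mem ha hc
    rw [← he] at h
    have := PC_height hx h
    omega⟩

lemma stepVec_opp2 (u : Step d) : stepVec (Flux566.opp u) = - stepVec u := Flux566.stepVec_opp u

lemma exists_lat (hd : 2 ≤ d) (u : Step d) : ∃ e : Step d, lev u (stepVec e) = 0 := by
  obtain ⟨i, hi⟩ : ∃ i : Fin d, i ≠ u.1 := by
    by_cases h0 : u.1 = ⟨0, by omega⟩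
    · exact ⟨⟨1, by omega⟩, by rw [h0]; simp [Fin.ext_iff]⟩
    · exact ⟨⟨0, by omega⟩, fun h => h0 h.symm⟩
  exact ⟨(i, true), by simp [lev, stepVec, hi.symm]⟩

lemma up1 (u : Step d) : [u] ∈ UpW (hu u) 1 := by
  rw [up_iff]
  refine ⟨fun y hy => ?_, ?_⟩
  · simp only [sitesL, List.mem_cons, List.not_mem_nil, or_false] at hy
    subst hy
    change 0 ≤ Flux566.lev u 0 ∧ Flux566.lev u 0 < ((1 : ℕ) : ℤ)
    rw [lev_zero]; norm_num
  · change Flux566.lev u (0 + stepVec u) = ((1 : ℕ) : ℤ)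
    rw [zero_add, lev_self]; norm_num

lemma up2 (u e : Step d) (he : lev u (stepVec e) = 0) : [e, u] ∈ UpW (hu u) 1 := by
  rw [up_iff]
  refine ⟨fun y hy => ?_, ?_⟩
  · simp only [sitesL, List.mem_cons, List.not_mem_nil, or_false] at hy
    rcases hy with rfl | rfl
    · change 0 ≤ Flux566.lev u 0 ∧ Flux566.lev u 0 < ((1 : ℕ) : ℤ)
      rw [lev_zero]; norm_num
    · change 0 ≤ Flux566.lev u (0 + stepVec e) ∧ Flux566.lev u (0 + stepVec e) < ((1 : ℕ) : ℤ)
      rw [zero_add, he]; norm_num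
  · change Flux566.lev u (0 + stepVec e + stepVec u) = ((1 : ℕ) : ℤ)
    rw [lev_add, zero_add, he, lev_self]; norm_num

lemma dn1 (u : Step d) : [Flux566.opp u] ∈ UpW (hdn u) 1 := by
  rw [dn_iff]
  refine ⟨fun y hy => ?_, ?_⟩
  · simp only [sitesL, List.mem_cons, List.not_mem_nil, or_false] at hy
    subst hy
    change -((1 : ℕ) : ℤ) < Flux566.lev u 0 ∧ Flux566.lev u 0 ≤ 0
    rw [lev_zero]; norm_num
  · change Flux566.lev u (0 + stepVec (Flux566.opp u)) = -((1 : ℕ) : ℤ)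
    rw [zero_add, stepVec_opp2, lev_neg, lev_self]; norm_num

open Classical in
/-- concentration of the displacement of the pair blocks -/
theorem conc (hd : 2 ≤ d) (ν : Measure (Row d)) [IsProbabilityMeasure ν]
    (hν : ∀ᵐ p ∂ν, ∀ e : Step d, 0 < p.1 e) (u : Step d) (hΛ : ∑' b, Lam ν u b = 1)
    (ε : ℝ≥0∞) (hε : ε ≠ 0) : ∃ D : ℕ, ∀ n, D ≤ n → ∀ w w' : Lat u,
      ∑' L : List (PB u), (if HT (ht u) L = n ∧ act (dl u) L w = w' then LW (Lam ν u) L else 0)
        ≤ ε := by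
  obtain ⟨e, he⟩ := exists_lat hd u
  have hse : stepVec e ≠ 0 := by
    intro h
    have := congrFun h e.1
    unfold stepVec at this
    cases hb : e.2 <;> simp [hb] at this
  have m1 : (([u], [Flux566.opp u]) : List (Step d) × List (Step d)) ∈ PC (hu u) (hdn u) 1 :=
    ⟨up1 u, dn1 u⟩
  have m2 : (([e, u], [Flux566.opp u]) : List (Step d) × List (Step d)) ∈ PC (hu u) (hdn u) 1 :=
    ⟨up2 u e he, dn1 u⟩
  have a1 : B5W.aw (iidEnvironmentLaw ν) [u] ≠ 0 := aw_ne ν hν _ (by simp [sitesL])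
  have a2 : B5W.aw (iidEnvironmentLaw ν) [Flux566.opp u] ≠ 0 := aw_ne ν hν _ (by simp [sitesL])
  have a3 : B5W.aw (iidEnvironmentLaw ν) [e, u] ≠ 0 :=
    aw_ne ν hν _ (by simpa [sitesL, eq_comm] using hse)
  obtain ⟨N, hN⟩ := Conc430.conc (Λ := Lam ν u) (ht := ht u) (dsp := ds u)
    (b1 := mk1 u _ m1) (b2 := mk1 u _ m2) one_le_hb hΛ
    (by rw [show ht u (mk1 u _ m1) = 1 from hb_eq m1, show ht u (mk1 u _ m2) = 1 from hb_eq m2])
    (mul_ne_zero a1 a2) (mul_ne_zero a3 a2)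
    (fun k hk h => by
      have h2 : ds u (mk1 u _ m2) - ds u (mk1 u _ m1) = stepVec e := by
        simp only [ds, mk1, endp]; abel
      rw [h2] at h
      exact hse ((smul_eq_zero.1 h).resolve_left hk)) ε hε
  refine ⟨N, fun n hn w w' => le_trans (le_of_eq ?_) (hN n hn (w'.1 - w.1))⟩
  refine tsum_congr fun L => ?_
  have : act (dl u) L w = w' ↔ (L.map (ds u)).sum = w'.1 - w.1 := by
    constructor
    · intro h
      have := congrArg Subtype.val h
      rw [act_val] at this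
      rw [← this]; abel
    · intro h
      apply Subtype.ext
      rw [act_val, h]; abel
  by_cases h : HT (ht u) L = n ∧ act (dl u) L w = w'
  · rw [if_pos h, if_pos ⟨h.1, this.1 h.2⟩]
  · rw [if_neg h, if_neg fun h' => h ⟨h'.1, this.2 h'.2⟩]

open Classical in
/-- **the thin slab** for the pair blocks: helper139's `hSl`, helper818's `hSlab`. -/
theorem hSl (hd : 2 ≤ d) (ν : Measure (Row d)) [IsProbabilityMeasure ν]
    (hν : ∀ᵐ p ∂ν, ∀ e : Step d, 0 < p.1 e) (u : Step d) (hΛ : ∑' b, Lam ν u b = 1) :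
    ∀ (s : ℕ) (ε : ℝ≥0∞), ε ≠ 0 → ∃ H0 : ℕ, ∀ H, H0 ≤ H → ∀ w : Lat u,
      ∑' L : List (PB u), (if HT (ht u) L = H ∧ ∃ k ∈ CD (ht u) (dl u) (cd u) L w, H < k + s
        then LW (Lam ν u) L else 0) ≤ ε :=
  Slab689.slab (Lam ν u) (ht u) (dl u) (cd u) one_le_hb (fun w b k hk => hcd u w b k hk)
    (hinj u) (hfar u) hΛ (U_le ν u) (conc hd ν hν u hΛ)

open Classical in
/-- the same from the two escape probabilities -/
theorem hSl' (hd : 2 ≤ d) (ν : Measure (Row d)) [IsProbabilityMeasure ν]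
    (hν : ∀ᵐ p ∂ν, ∀ e : Step d, 0 < p.1 e) (u : Step d)
    (hA : annealed (iidEnvironmentLaw ν) 0 (escapeEvent (B2d.dirVec u)) ≠ 0)
    (hB : annealed (iidEnvironmentLaw ν) 0 (escapeEvent (-B2d.dirVec u)) ≠ 0) :
    ∀ (s : ℕ) (ε : ℝ≥0∞), ε ≠ 0 → ∃ H0 : ℕ, ∀ H, H0 ≤ H → ∀ w : Lat u,
      ∑' L : List (PB u), (if HT (ht u) L = H ∧ ∃ k ∈ CD (ht u) (dl u) (cd u) L w, H < k + s
        then LW (Lam ν u) L else 0) ≤ ε := by
  obtain ⟨c, hc, _, hup, hdn⟩ := WM286.mass_pos ν hν u hA hB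
  exact hSl hd ν hν u (mass_one ν u (c * c) (mul_ne_zero hc hc) (U_ge ν u c hup hdn) (U_le ν u))

end Crest.Agent.R154.HSl689
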