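import Crest.Agent.R154.Win_775
import Crest.Agent.R154.RetW_458
import Crest.Agent.R154.NBSurg_28
import Crest.Agent.R154.BindH_135

/-! Row 154, ROAD 801 (helper582): window lemma (3) for staggered pieces
(`a + h ≤ a' + h' ≤ a + h + i`), words and lists, from `Win775.win3` and `RetW458.ret_small_unif`. -/

set_option autoImplicit false

namespace Crest.Agent.R154.HStag582

open MeasureTheory ProbabilityTheory Crest.ProbabilityR.RandomEnvironment Crest.Agent.R154
open Crest.Agent.R154.Flux132 (lev opp)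
open Crest.Agent.R154.Flux566 (lw endp sitesL endp_append endp_eq_add)
open Crest.Agent.R154.NB28 (IsUp IsDn aw)
open Crest.Agent.R154.BindH135 (TX TY DX DY CE CA lists_words)
open Crest.Agent.R154.Bind12 (lev_add lev_neg lev_sub lev_zero lev_opp)
open scoped ENNReal

variable {d : ℕ}

lemma mem_tr (l : List (Step d)) : ∀ (x z y : Site d), y ∈ sitesL x l ↔ y + z ∈ sitesL (x + z) l := by
  induction l with
  | nil => intro x z y; simp [sitesL]
  | cons e l ih =>
    intro x z y
    simp only [sitesL, List.mem_cons, add_left_inj]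
    rw [ih (x + stepVec e) z y, show x + stepVec e + z = x + z + stepVec e by abel]

/-- the return weight -/
noncomputable def rw0 (ν : Measure (Row d)) [IsProbabilityMeasure ν] (u : Step d) (g s : ℕ) :
    ℝ≥0∞ := by
  classical
  exact ∑' l : List (Step d), (if (∀ y ∈ sitesL 0 l, -(g : ℤ) < lev u y) ∧
    lev u (endp 0 l) = -(g : ℤ) ∧ (∃ y ∈ sitesL 0 l, (s : ℤ) ≤ lev u y) then aw ν l else 0)

/-- sup over offsets -/
noncomputable def us (ν : Measure (Row d)) [IsProbabilityMeasure ν] (u : Step d) (i s : ℕ) : ℝ≥0∞ :=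
  ⨆ g : Fin (i + 2), rw0 ν u g.1 s

open Filter Topology in
theorem us_tendsto (ν : Measure (Row d)) [IsProbabilityMeasure ν] (u : Step d) (i : ℕ) :
    Tendsto (us ν u i) atTop (𝓝 0) := by
  rw [ENNReal.tendsto_atTop_zero]
  intro ε hε
  obtain ⟨s0, hs0⟩ := RetW458.ret_small_unif ν (opp u) (i + 1) ε hε.ne'
  refine ⟨s0, fun s hs => iSup_le fun g => ?_⟩
  refine le_trans (le_of_eq ?_) (hs0 s hs g.1 (by omega))
  unfold rw0
  refine tsum_congr fun l => ?_
  have hl : ∀ y : Site d, lev (opp u) y = - lev u y := fun y => Fact346.lev_opp u y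
  have hc : ((∀ y ∈ sitesL 0 l, -((g : ℕ) : ℤ) < lev u y) ∧
    lev u (endp 0 l) = -((g : ℕ) : ℤ) ∧ (∃ y ∈ sitesL 0 l, (s : ℤ) ≤ lev u y)) ↔
    ((∀ y ∈ sitesL 0 l, lev (opp u) y < ((g : ℕ) : ℤ)) ∧ lev (opp u) (endp 0 l) = ((g : ℕ) : ℤ) ∧
        (∃ y ∈ sitesL 0 l, lev (opp u) y ≤ -(s : ℤ))) := by
    simp only [hl]
    constructor
    · rintro ⟨h1, h2, y, hy, h3⟩
      exact ⟨fun y hy => by have := h1 y hy; omega, by omega, y, hy, by omega⟩
    · rintro ⟨h1, h2, y, hy, h3⟩
      exact ⟨fun y hy => by have := h1 y hy; omega, by omega, y, hy, by omega⟩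
  by_cases h : ((∀ y ∈ sitesL 0 l, -((g : ℕ) : ℤ) < lev u y) ∧
    lev u (endp 0 l) = -((g : ℕ) : ℤ) ∧ (∃ y ∈ sitesL 0 l, (s : ℤ) ≤ lev u y))
  · rw [if_pos h]; exact (if_pos (hc.1 h)).symm
  · rw [if_neg h]; exact (if_neg (fun h' => h (hc.2 h'))).symm

lemma lev_step_ge (u e : Step d) (x : Site d) : lev u x - 1 ≤ lev u (x + stepVec e) := by
  rw [lev_add]
  have : -1 ≤ lev u (stepVec e : Site d) := by
    unfold lev stepVec
    obtain ⟨i, b⟩ := u
    obtain ⟨j, c⟩ := e
    by_cases hij : i = j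
    · subst hij
      cases b <;> cases c <;> simp
    · cases b <;> cases c <;> simp [hij]
  omega

open Classical in
/-- window lemma (3) in words, staggered -/
theorem h3w (ν : Measure (Row d)) [IsProbabilityMeasure ν] (u : Step d) (i s h h' a a' hi : ℕ)
    (E : Finset (Site d)) (μ : Site d → ℝ≥0∞) (M lam : ℝ≥0∞) (hμ : ∑' x, μ x ≤ 1)
    (hμM : ∀ x, μ x ≤ M) (hM0 : M ≠ 0) (hMt : M ≠ ⊤) (hl0 : lam ≠ 0) (hlt : lam ≠ ⊤)
    (hhi : hi + s ≤ a + h) (hst : a + h ≤ a' + h') (hst' : a' + h' ≤ a + h + i) :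
    ∑' x, μ x * ∑' π : List (Step d), ∑' ρ : List (Step d),
      (if IsUp u h π ∧ IsDn u h' ρ ∧ endp 0 ρ ∈ E ∧ CE u a a' x π ρ ∧
          CA u a (fun k => k ≤ (hi : ℤ)) x π ρ then aw ν π * aw ν ρ else 0)
      ≤ 4 * lam + M / lam * (E.card * us ν u i s) := by
  set g : ℕ := a' + h' + 1 - (a + h) with hg
  set c : Site d := stepVec (opp u) with hc
  have hw := Win775.win3 (ν := ν) (S := fun _ => {z | -(g : ℤ) < lev u z})
    (T := fun x0 => {z | lev u z = -(g : ℤ) ∧ z - x0 ∈ E})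
    (S' := {z | 0 ≤ lev u z ∧ lev u z < h}) (T' := {z | lev u z = h})
    (Q := {z | lev u z ≤ -(g : ℤ)}) (A := {z | (s : ℤ) ≤ lev u z}) (y := 0)
    (δ := fun x0 z => μ (x0 - c - z)) (M := M) (lam := lam) (N := E.card) (r := us ν u i s)
    hM0 hMt hl0 hlt
    (by
      rw [Set.disjoint_left]
      rintro z ⟨_, h1⟩ h2
      simp only [Set.mem_ofPred_eq] at h2
      omega)
    (fun x z => hμM _)
    (fun z => by
      refine le_trans (le_of_eq ?_) hμ
      exact (Equiv.subRight (c + z)).tsum_eq μ |>.symm ▸ by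
        refine tsum_congr fun x => ?_
        simp [Equiv.subRight, sub_sub])
    (fun x z hz => by
      simp only [Set.mem_ofPred_eq, Set.mem_compl_iff] at hz ⊢
      omega)
    (fun x z hz => by
      simp only [Set.mem_ofPred_eq] at hz ⊢
      omega)
    (fun z hz => by
      simp only [Set.mem_ofPred_eq, Set.mem_compl_iff] at hz ⊢
      omega)
    (fun z => by
      refine le_trans (ENNReal.tsum_le_tsum (g := fun x => if z - x ∈ E then (1 : ℝ≥0∞) else 0)
        fun x => ?_) ?_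
      · by_cases h1 : z - x ∈ E
        · simp only [if_pos h1]; split_ifs <;> simp
        · simp only [if_neg h1]; rw [if_neg (fun h2 => h1 h2.2)]
      refine le_of_eq ?_
      calc ∑' x : Site d, (if z - x ∈ E then (1 : ℝ≥0∞) else 0)
          = ∑' x : Site d, (if x ∈ E then (1 : ℝ≥0∞) else 0) :=
            (Equiv.subLeft z).tsum_eq (fun x : Site d => if x ∈ E then (1 : ℝ≥0∞) else 0)
        _ = E.card := by
            rw [tsum_eq_sum (s := E) (fun x hx => if_neg hx), Finset.sum_congr rfl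
              (fun x hx => if_pos hx)]
            simp)
    (by
      refine le_trans (le_of_eq ?_) (le_iSup (fun g : Fin (i + 2) => rw0 ν u g.1 s)
        ⟨g, by omega⟩)
      unfold rw0
      refine tsum_congr fun l => ?_
      have h1 : (Win775.FP {z | lev u z ≤ -(g : ℤ)}ᶜ {z | lev u z ≤ -(g : ℤ)} 0 l ∧
          ∃ z ∈ sitesL 0 l, z ∈ {z | (s : ℤ) ≤ lev u z}) ↔
          ((∀ y ∈ sitesL 0 l, -(g : ℤ) < lev u y) ∧
            lev u (endp 0 l) = -(g : ℤ) ∧ (∃ y ∈ sitesL 0 l, (s : ℤ) ≤ lev u y)) := by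
        constructor
        · rintro ⟨⟨h2, h3⟩, z, hz, h4⟩
          have h5 : ∀ y ∈ sitesL 0 l, -(g : ℤ) < lev u y := fun y hy => by
            have := h2 y hy
            simp only [Set.mem_compl_iff, Set.mem_ofPred_eq, not_le] at this
            exact this
          refine ⟨h5, ?_, z, hz, h4⟩
          have h3' : lev u (endp 0 l) ≤ -(g : ℤ) := h3
          rcases List.eq_nil_or_concat l with rfl | ⟨l1, e, rfl⟩
          · simp [sitesL] at hz
          · have h6 := h5 (endp 0 l1) (by rw [List.concat_eq_append, NB28.sitesL_append]; simp [sitesL])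
            have h7 : lev u (endp 0 l1) - 1 ≤ lev u (endp 0 (l1.concat e)) := by
              rw [List.concat_eq_append, endp_append]
              simp only [endp]
              exact lev_step_ge u e _
            omega
        · rintro ⟨h2, h3, z, hz, h4⟩
          refine ⟨⟨fun y hy => ?_, ?_⟩, z, hz, h4⟩
          · simp only [Set.mem_compl_iff, Set.mem_ofPred_eq, not_le]
            exact h2 y hy
          · show lev u (endp 0 l) ≤ -(g : ℤ)
            exact h3.le
      by_cases h2 : ((∀ y ∈ sitesL 0 l, -(g : ℤ) < lev u y) ∧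
            lev u (endp 0 l) = -(g : ℤ) ∧ (∃ y ∈ sitesL 0 l, (s : ℤ) ≤ lev u y))
      · rw [if_pos (h1.2 h2), if_pos h2]
        exact NB28.aw_shift ν 0 l
      · rw [if_neg (fun h3 => h2 (h1.1 h3)), if_neg h2])
  refine le_trans (le_of_eq ?_) (le_trans (ENNReal.tsum_le_tsum fun x0 =>
    ENNReal.tsum_le_tsum fun ρ => ENNReal.tsum_le_tsum fun π =>
      (?_ : (if IsUp u h π ∧ IsDn u h' ρ ∧ endp 0 ρ ∈ E ∧ CE u a a' (x0 - (c + endp 0 π)) π ρ ∧
          CA u a (fun k => k ≤ (hi : ℤ)) (x0 - (c + endp 0 π)) π ρ then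
          μ (x0 - (c + endp 0 π)) * (aw ν π * aw ν ρ) else 0) ≤ _)) hw)
  · simp_rw [← ENNReal.tsum_mul_left, mul_ite, mul_zero]
    rw [ENNReal.tsum_comm]
    rw [show ∀ f : Site d → List (Step d) → List (Step d) → ℝ≥0∞,
      ∑' x0, ∑' ρ, ∑' π, f x0 ρ π = ∑' π, ∑' x0, ∑' ρ, f x0 ρ π from fun f => by
        calc ∑' x0, ∑' ρ, ∑' π, f x0 ρ π = ∑' x0, ∑' π, ∑' ρ, f x0 ρ π :=
              tsum_congr fun x0 => ENNReal.tsum_comm
          _ = _ := ENNReal.tsum_comm]
    refine tsum_congr fun π => ?_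
    exact ((Equiv.subRight (c + endp 0 π)).tsum_eq (fun x => ∑' ρ : List (Step d),
      (if IsUp u h π ∧ IsDn u h' ρ ∧ endp 0 ρ ∈ E ∧ CE u a a' x π ρ ∧
          CA u a (fun k => k ≤ (hi : ℤ)) x π ρ then μ x * (aw ν π * aw ν ρ) else 0))).symm
  · by_cases hC : IsUp u h π ∧ IsDn u h' ρ ∧ endp 0 ρ ∈ E ∧ CE u a a' (x0 - (c + endp 0 π)) π ρ ∧
          CA u a (fun k => k ≤ (hi : ℤ)) (x0 - (c + endp 0 π)) π ρ
    · rw [if_pos hC]
      obtain ⟨hup, hdn, hE, ⟨hlx, y, hy1, hy2⟩, hCA⟩ := hC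
      have hxc : x0 - (c + endp 0 π) + stepVec (opp u) = x0 - endp 0 π := by rw [hc]; abel
      have hcl : lev u c = -1 := lev_opp u
      have hx0 : lev u x0 = a - a' - 1 + h := by
        rw [lev_sub, lev_add, hcl, hup.2] at hlx
        omega
      rw [if_pos]
      · rw [show Win775.awx ν x0 ρ = aw ν ρ from NB28.aw_shift ν x0 ρ,
          show Win775.awx ν 0 π = aw ν π from NB28.aw_shift ν 0 π, ← sub_sub]
        exact le_of_eq (by ring)
      · refine ⟨⟨fun z hz => ?_, ?_⟩, ⟨fun z hz => hup.1 z hz, hup.2⟩, ?_⟩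
        · have h1 := (mem_tr ρ x0 (-x0) z).1 hz
          rw [add_neg_cancel] at h1
          have h2 := (hdn.1 _ h1).1
          rw [lev_add, lev_neg, hx0] at h2
          show -(g : ℤ) < lev u z
          omega
        · have h1 : endp x0 ρ - x0 = endp 0 ρ := by rw [endp_eq_add ρ x0]; abel
          refine ⟨?_, by rw [h1]; exact hE⟩
          have h2 : lev u (endp x0 ρ) - lev u x0 = -(h' : ℤ) := by
            rw [← lev_sub, h1]; exact hdn.2
          omega
        · rw [hxc] at hy2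
          have hy1' : y + endp 0 π ∈ sitesL 0 π := by
            have := (mem_tr π (-endp 0 π) (endp 0 π) y).1 hy1
            rwa [neg_add_cancel] at this
          have hy2' : y + endp 0 π ∈ sitesL x0 ρ := by
            have := (mem_tr ρ (x0 - endp 0 π) (endp 0 π) y).1 hy2
            rwa [sub_add_cancel] at this
          obtain ⟨l1, l2, hl, h1, h2, h3⟩ := Win775.exists_first (A := {z | z ∈ sitesL x0 ρ}) π 0
            ⟨_, hy1', hy2'⟩
          refine ⟨l1, l2, hl, h1, h2, ?_⟩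
          have h4 : endp 0 l1 ∈ sitesL 0 π := by
            cases l2 with
            | nil => exact absurd rfl h3
            | cons e l2 => rw [hl, NB28.sitesL_append]; simp [sitesL]
          have h5 := hCA (endp 0 l1 - endp 0 π) (by
              rw [mem_tr π (-endp 0 π) (endp 0 π)]
              rw [sub_add_cancel, neg_add_cancel]; exact h4) (by
              rw [hxc, mem_tr ρ (x0 - endp 0 π) (endp 0 π), sub_add_cancel, sub_add_cancel]
              exact h2)
          simp only at h5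
          rw [lev_sub, hup.2] at h5
          show (s : ℤ) ≤ lev u (endp 0 l1)
          omega
    · rw [if_neg hC]; exact bot_le

open Classical in
/-- window lemma (3) on lists of blocks, staggered -/
theorem h3 (ν : Measure (Row d)) [IsProbabilityMeasure ν] (u : Step d) (i s h h' a a' hi : ℕ)
    (E : Finset (Site d)) (μ : Site d → ℝ≥0∞) (M lam : ℝ≥0∞) (hμ : ∑' x, μ x ≤ 1)
    (hμM : ∀ x, μ x ≤ M) (hl0 : lam ≠ 0) (hlt : lam ≠ ⊤)
    (hhi : hi + s ≤ a + h) (hst : a + h ≤ a' + h') (hst' : a' + h' ≤ a + h + i) :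
    ∑' x, μ x * ∑' L : List (Fact346.Irr (IsUp u)), ∑' L' : List (Fact346.Irr (IsDn u)),
      (if B5A.HT Fact346.ht L = h ∧ B5A.HT Fact346.ht L' = h' ∧ DY u L' ∈ E ∧
          (∃ z k, (z, k) ∈ TX u L 0 a ∧ (z, k) ∈ TY u L' x a') ∧
          (∀ z k, (z, k) ∈ TX u L 0 a → (z, k) ∈ TY u L' x a' → k ≤ hi)
        then B5A.LW (fun b : Fact346.Irr (IsUp u) => aw ν b.1) L *
          B5A.LW (fun b : Fact346.Irr (IsDn u) => aw ν b.1) L' else 0)
      ≤ 4 * lam + M * (E.card * us ν u i s) / lam := by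
  have key : ∀ M' : ℝ≥0∞, M' ≠ 0 → M' ≠ ⊤ → (∀ x, μ x ≤ M') →
    ∑' x, μ x * ∑' L : List (Fact346.Irr (IsUp u)), ∑' L' : List (Fact346.Irr (IsDn u)),
      (if B5A.HT Fact346.ht L = h ∧ B5A.HT Fact346.ht L' = h' ∧ DY u L' ∈ E ∧
          (∃ z k, (z, k) ∈ TX u L 0 a ∧ (z, k) ∈ TY u L' x a') ∧
          (∀ z k, (z, k) ∈ TX u L 0 a → (z, k) ∈ TY u L' x a' → k ≤ hi)
        then B5A.LW (fun b : Fact346.Irr (IsUp u) => aw ν b.1) L *
          B5A.LW (fun b : Fact346.Irr (IsDn u) => aw ν b.1) L' else 0)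
      ≤ 4 * lam + M' / lam * (E.card * us ν u i s) := by
    intro M' h0 ht hb
    refine le_trans (le_of_eq (tsum_congr fun x => ?_))
      (h3w ν u i s h h' a a' hi E μ M' lam hμ hb h0 ht hl0 hlt hhi hst hst')
    congr 1
    have hlw := lists_words ν u h h' a a' x (fun _ => True) (fun y => y ∈ E)
      (fun k => k ≤ (hi : ℤ))
    simp only [true_and, Nat.cast_le] at hlw
    exact hlw
  by_cases hM : M = 0
  · have : ∀ x, μ x = 0 := fun x => le_antisymm (by rw [← hM]; exact hμM x) bot_le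
    simp [this]
  · have h1 := key (min M 1) (by
      intro h
      rcases min_choice M 1 with h2 | h2 <;> rw [h2] at h
      · exact hM h
      · exact one_ne_zero h) (ne_top_of_le_ne_top ENNReal.one_ne_top (min_le_right _ _))
      (fun x => le_min (hμM x) ((ENNReal.le_tsum x).trans hμ))
    refine h1.trans ?_
    rw [mul_comm M, ENNReal.div_eq_inv_mul, ENNReal.div_eq_inv_mul]
    calc 4 * lam + lam⁻¹ * min M 1 * (E.card * us ν u i s)
        ≤ 4 * lam + lam⁻¹ * M * (E.card * us ν u i s) := by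
          gcongr
          exact min_le_left _ _
      _ = _ := by ring

end Crest.Agent.R154.HStag582
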