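import Crest.Agent.R154.Joint4_412

/-! Row 154, B4 trunk side, part 5: uniform tightness along levels. -/

set_option autoImplicit false
set_option linter.unusedSectionVars false

namespace Crest.Agent.R154.J132

open MeasureTheory ProbabilityTheory Filter Topology Set
open scoped ENNReal

variable {A : Type*}

/-- a functional of the pair and of the level, invariant at joint cuts -/
def Inv (Y : A → ℕ) (F : ℕ → (ℕ → A) × (ℕ → A) → ℝ) : Prop :=
  ∀ (k l : ℕ) (q : ℕ × ℕ) (p : (ℕ → A) × (ℕ → A)), p ∈ At Y k q → k ≤ l →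
    F l p = F (l - k) (sh2 q.1 q.2 p)

variable [MeasurableSpace A] [MeasurableSingletonClass A] [Countable A] [Inhabited A]

lemma exists_tight {Ω : Type*} [MeasurableSpace Ω] (P : Measure Ω) [IsFiniteMeasure P]
    {W : Ω → ℝ} (hW : Measurable W) {η : ℝ≥0∞} (hη : 0 < η) :
    ∃ M : ℕ, P {ω | (M : ℝ) < W ω} ≤ η := by
  have hm : ∀ n : ℕ, MeasurableSet {ω | (n : ℝ) < W ω} := fun n =>
    measurableSet_lt measurable_const hW
  have h1 : Tendsto (fun n : ℕ => P {ω | (n : ℝ) < W ω}) atTop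
      (𝓝 (P (⋂ n : ℕ, {ω | (n : ℝ) < W ω}))) := by
    refine tendsto_measure_iInter_atTop (fun n => (hm n).nullMeasurableSet) ?_
      ⟨0, measure_ne_top _ _⟩
    intro m n hmn ω hω
    have h2 : (m : ℝ) ≤ n := by exact_mod_cast hmn
    exact lt_of_le_of_lt h2 hω
  have h2 : (⋂ n : ℕ, {ω | (n : ℝ) < W ω}) = ∅ := by
    ext ω
    simp only [mem_iInter, mem_ofPred_eq, mem_empty_iff_false, iff_false, not_forall, not_lt]
    exact exists_nat_ge (W ω)
  rw [h2, measure_empty] at h1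
  exact ((tendsto_order.1 h1).2 η hη).exists.imp fun n hn => hn.le

/-- **uniform tightness at the last joint cut** -/
theorem tight_atLast (μ : Measure A) [IsProbabilityMeasure μ] {Y : A → ℕ}
    (hY : ∀ a, 1 ≤ Y a) {c : ℝ≥0∞} (hc : c ≠ 0) (hc' : c ≠ ⊤) (hU : ∀ l, c ≤ Ur μ Y l)
    {W : ℕ → (ℕ → A) × (ℕ → A) → ℝ} (hW : ∀ m, Measurable (W m)) {η : ℝ≥0∞} (hη : 0 < η) :
    ∃ M : ℕ, ∀ l, pairL μ (AtLast Y l fun m => {p | (M : ℝ) < W m p}) ≤ η := by
  have hη2 : 0 < η / 2 := ENNReal.half_pos hη.ne'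
  obtain ⟨h, hh⟩ := ((tendsto_order.1 (tendsto_tl μ hY hc hc' hU)).2 _ hη2).exists
  have hpos : 0 < η / 2 / ((h : ℝ≥0∞) + 1) :=
    ENNReal.div_pos hη2.ne' (by simp)
  choose M hM using fun m => exists_tight (pairL μ) (hW m) hpos
  refine ⟨∑ m ∈ Finset.range h, M m, fun l => ?_⟩
  refine (measure_atLast_le' μ hY l h (fun m => measurableSet_lt measurable_const (hW m))).trans ?_
  have h1 : ∑ m ∈ Finset.range h, pairL μ (NoCut Y m ∩
      {p | ((∑ m ∈ Finset.range h, M m : ℕ) : ℝ) < W m p}) ≤ η / 2 := by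
    calc _ ≤ ∑ m ∈ Finset.range h, η / 2 / ((h : ℝ≥0∞) + 1) := by
          refine Finset.sum_le_sum fun m hm => ?_
          refine (measure_mono ?_).trans (hM m)
          rintro p ⟨-, hp⟩
          have h3 : M m ≤ ∑ m ∈ Finset.range h, M m :=
            Finset.single_le_sum (f := M) (fun _ _ => Nat.zero_le _) hm
          have h4 : (M m : ℝ) ≤ ((∑ m ∈ Finset.range h, M m : ℕ) : ℝ) := by exact_mod_cast h3
          exact lt_of_le_of_lt h4 hp
      _ = h * (η / 2 / ((h : ℝ≥0∞) + 1)) := by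
          rw [Finset.sum_const, Finset.card_range, nsmul_eq_mul]
      _ ≤ ((h : ℝ≥0∞) + 1) * (η / 2 / ((h : ℝ≥0∞) + 1)) := by
          gcongr
          exact le_self_add
      _ = η / 2 := by
          rw [ENNReal.mul_div_cancel (by simp) (by simp)]
  calc _ ≤ η / 2 + η / 2 := add_le_add h1 hh.le
    _ = η := ENNReal.add_halves η

/-- **uniform tightness of an invariant functional** -/
theorem tight_inv (μ : Measure A) [IsProbabilityMeasure μ] {Y : A → ℕ}
    (hY : ∀ a, 1 ≤ Y a) {c : ℝ≥0∞} (hc : c ≠ 0) (hc' : c ≠ ⊤) (hU : ∀ l, c ≤ Ur μ Y l)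
    {F : ℕ → (ℕ → A) × (ℕ → A) → ℝ} (hF : ∀ m, Measurable (F m)) (hI : Inv Y F)
    {η : ℝ≥0∞} (hη : 0 < η) :
    ∃ M : ℕ, ∀ l, pairL μ {p | (M : ℝ) < F l p} ≤ η := by
  obtain ⟨M, hM⟩ := tight_atLast μ hY hc hc' hU hF hη
  refine ⟨M, fun l => (measure_mono ?_).trans (hM l)⟩
  intro p hp
  obtain ⟨k, hk, hl⟩ := exists_last Y l p
  simp only [AtLast, mem_iUnion]
  refine ⟨k, Finset.mem_range.2 (by omega), ?_⟩
  simp only [Last, mem_iUnion] at hl ⊢
  obtain ⟨q, hq, hn, -⟩ := hl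
  refine ⟨q, hq, hn, ?_⟩
  have := hI k l q p hq hk
  change (M : ℝ) < F (l - k) (sh2 q.1 q.2 p)
  rw [← this]
  exact hp

end Crest.Agent.R154.J132
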