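import Crest.Agent.R154.Joint4_132
import Crest.Agent.R154.Joint5_412

/-! Row 154, B4 trunk side: `SumRTail` and Claim (PI): close at different levels implies close at
the same level. -/

set_option autoImplicit false
set_option linter.unusedSectionVars false

namespace Crest.Agent.R154.J132

open MeasureTheory ProbabilityTheory Filter Topology Set
open Crest.Agent.R154.Conc412 (dot)
open scoped ENNReal

section det
variable {A : Type*}

lemma fi_spec' {Y : A → ℕ} (hY : ∀ a, 1 ≤ Y a) (l : ℕ) (a : ℕ → A) : l ≤ H Y (fi Y l a) a := by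
  have h : (sInf {i | l ≤ H Y i a}) ∈ {i | l ≤ H Y i a} := Nat.sInf_mem ⟨l, le_H hY l a⟩
  exact h

lemma fi_lt' {Y : A → ℕ} {l i : ℕ} {a : ℕ → A} (h : i < fi Y l a) : H Y i a < l := by
  have h1 : i ∉ {i | l ≤ H Y i a} := Nat.notMem_of_lt_sInf h
  simpa using h1

lemma fi_eq' {Y : A → ℕ} {l i : ℕ} {a : ℕ → A} (h1 : l ≤ H Y i a)
    (h2 : ∀ i' < i, H Y i' a < l) : fi Y l a = i := by
  have h3 : fi Y l a ≤ i := Nat.sInf_le h1
  rcases h3.lt_or_eq with h | h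
  · have h4 := h2 _ h
    have h5 : l ≤ H Y (fi Y l a) a := Nat.sInf_mem (s := {i | l ≤ H Y i a}) ⟨i, h1⟩
    omega
  · exact h

/-- first `k` with `close_k`, with the indices of the next own cuts. -/
def CK (Y : A → ℕ) (V : A → (Fin 2 → ℝ)) (U : ℕ → (ℕ → A) → (Fin 2 → ℝ)) (t K M r : ℕ)
    (G : ℕ → Set ((ℕ → A) × (ℕ → A))) (x : ℕ × ℕ × ℕ × ℕ) : Set ((ℕ → A) × (ℕ → A)) :=
  {p | K ≤ 2 * x.1 ∧ x.1 ≤ M ∧ p ∈ G x.1 ∧ (∀ k', K ≤ 2 * k' → k' < x.1 → p ∉ G k') ∧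
    (x.1 + 7) * t ≤ H Y x.2.1 p.1 ∧ (∀ i' < x.2.1, H Y i' p.1 < (x.1 + 7) * t) ∧
    x.1 * t ≤ H Y x.2.2.1 p.2 ∧ H Y x.2.2.1 p.2 = x.1 * t + x.2.2.2 ∧ x.2.2.2 ≤ r ∧
    (∀ j' < x.2.2.1, H Y j' p.2 < x.1 * t) ∧ ‖U (x.1 * t) p.2 - Dd V x.2.2.1 p.2‖ ≤ r}

/-- `G k` is decided by the letters up to the next own cuts above `(k + 7) t` and `k t`. -/
def GDet (Y : A → ℕ) (t : ℕ) (G : ℕ → Set ((ℕ → A) × (ℕ → A))) : Prop :=
  ∀ (k i j : ℕ) (p p' : (ℕ → A) × (ℕ → A)), (k + 7) * t ≤ H Y i p.1 → k * t ≤ H Y j p.2 →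
    (∀ x < i, p.1 x = p'.1 x) → (∀ x < j, p.2 x = p'.2 x) → (p ∈ G k ↔ p' ∈ G k)

lemma det2_CK {Y : A → ℕ} {V : A → (Fin 2 → ℝ)} {U : ℕ → (ℕ → A) → (Fin 2 → ℝ)}
    (hU : ∀ (a b : ℕ → A) (i l : ℕ), l ≤ H Y i a → (∀ k < i, a k = b k) → U l a = U l b)
    (t K M r : ℕ) {G : ℕ → Set ((ℕ → A) × (ℕ → A))} (hG : GDet Y t G)
    (x : ℕ × ℕ × ℕ × ℕ) : Det2 x.2.1 x.2.2.1 (CK Y V U t K M r G x) := by
  have main : ∀ p p' : (ℕ → A) × (ℕ → A), (∀ k < x.2.1, p.1 k = p'.1 k) →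
      (∀ k < x.2.2.1, p.2 k = p'.2 k) → p ∈ CK Y V U t K M r G x →
      p' ∈ CK Y V U t K M r G x := by
    rintro p p' h1 h2 ⟨a1, a2, a3, a4, a5, a6, a7, a8, a9, a10, a11⟩
    have e1 : ∀ i ≤ x.2.1, H Y i p.1 = H Y i p'.1 :=
      fun i hi => H_congr fun k hk => h1 k (by omega)
    have e2 : ∀ j ≤ x.2.2.1, H Y j p.2 = H Y j p'.2 :=
      fun i hi => H_congr fun k hk => h2 k (by omega)
    have u2 : U (x.1 * t) p.2 = U (x.1 * t) p'.2 := hU _ _ x.2.2.1 _ a7 h2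
    have g : ∀ k ≤ x.1, (p ∈ G k ↔ p' ∈ G k) := by
      intro k hk
      exact hG k x.2.1 x.2.2.1 p p' (le_trans (Nat.mul_le_mul_right t (by omega)) a5)
        (le_trans (Nat.mul_le_mul_right t hk) a7) h1 h2
    refine ⟨a1, a2, (g _ le_rfl).1 a3, fun k' hk1 hk2 hg => a4 k' hk1 hk2 ((g k' hk2.le).2 hg),
      ?_, ?_, ?_, ?_, a9, ?_, ?_⟩
    · rw [← e1 _ le_rfl]; exact a5
    · intro i' hi'; rw [← e1 _ hi'.le]; exact a6 i' hi'
    · rw [← e2 _ le_rfl]; exact a7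
    · rw [← e2 _ le_rfl]; exact a8
    · intro j' hj'; rw [← e2 _ hj'.le]; exact a10 j' hj'
    · rw [← u2, ← Dd_congr h2]; exact a11
  intro p p' h1 h2
  exact ⟨main p p' h1 h2, main p' p (fun k hk => (h1 k hk).symm) fun k hk => (h2 k hk).symm⟩

lemma disj_CK (Y : A → ℕ) (V : A → (Fin 2 → ℝ)) (U : ℕ → (ℕ → A) → (Fin 2 → ℝ))
    (t K M r : ℕ) (G : ℕ → Set ((ℕ → A) × (ℕ → A))) :
    Pairwise (Function.onFun Disjoint (CK Y V U t K M r G)) := by
  intro x x' hne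
  rw [Function.onFun, Set.disjoint_left]
  rintro p ⟨a1, a2, a3, a4, a5, a6, a7, a8, a9, a10, a11⟩
    ⟨b1, b2, b3, b4, b5, b6, b7, b8, b9, b10, b11⟩
  apply hne
  have hk : x.1 = x'.1 := by
    rcases lt_trichotomy x.1 x'.1 with h | h | h
    · exact absurd a3 (b4 _ a1 h)
    · exact h
    · exact absurd b3 (a4 _ b1 h)
  have hi : x.2.1 = x'.2.1 := by
    rcases lt_trichotomy x.2.1 x'.2.1 with h | h | h
    · have h1 := b6 _ h
      rw [← hk] at h1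
      omega
    · exact h
    · have h1 := a6 _ h
      rw [hk] at h1
      omega
  have hj : x.2.2.1 = x'.2.2.1 := by
    rcases lt_trichotomy x.2.2.1 x'.2.2.1 with h | h | h
    · have h1 := b10 _ h
      rw [← hk] at h1
      omega
    · exact h
    · have h1 := a10 _ h
      rw [hk] at h1
      omega
  have hm : x.2.2.2 = x'.2.2.2 := by
    rw [hj, hk] at a8
    omega
  exact Prod.ext hk (Prod.ext hi (Prod.ext hj hm))

lemma R0_mono (Y : A → ℕ) {m n : ℕ} (h : m ≤ n) (p : (ℕ → A) × (ℕ → A)) :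
    RR Y m p ≤ RR Y n p :=
  Finset.sum_le_sum_of_subset (Finset.range_mono h)

/-- the bad event of `TightCut` -/
def BC (Y : A → ℕ) (V : A → (Fin 2 → ℝ)) (U : ℕ → (ℕ → A) → (Fin 2 → ℝ)) (r L : ℕ) :
    Set (ℕ → A) :=
  {a | ¬ (H Y (fi Y L a) a ≤ L + r ∧ ‖U L a - Dd V (fi Y L a) a‖ ≤ r)}

/-- the bad event of `CloseSum` -/
def BS (Y : A → ℕ) (V : A → (Fin 2 → ℝ)) (U : ℕ → (ℕ → A) → (Fin 2 → ℝ)) (h r l : ℕ) :
    Set ((ℕ → A) × (ℕ → A)) :=
  {p | ¬ ∃ k, k ≤ RR Y k p ∧ RR Y k p ≤ l ∧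
    l < RR Y k p + h ∧ ‖U l p.1 - U l p.2 - SS Y V k p‖ ≤ r}

lemma cover {Y : A → ℕ} (hY : ∀ a, 1 ≤ Y a) {V : A → (Fin 2 → ℝ)}
    {U : ℕ → (ℕ → A) → (Fin 2 → ℝ)}
    (hcov : ∀ (a : ℕ → A) (i l : ℕ), H Y i a ≤ l → U l a = Dd V i a + U (l - H Y i a) (sh i a))
    {t K M r h r' R N : ℕ} (hr : r ≤ t) (hr' : r' ≤ t) (hN : N = K * t) (h4 : 4 * h ≤ N)
    (hM : (M + 7) * t ≤ R * N) (hR : 1 ≤ R)
    {b : Fin 2 → Fin 2 → ℝ} {g : ℝ} {c y : Fin 2 → ℝ} (hg0 : 0 ≤ g)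
    (hg : ∀ i, ∀ x : Fin 2 → ℝ, |dot (b i) x| ≤ g * ‖x‖) (hgr : g * r ≤ 1 / 7)
    (hgr' : g * r' ≤ 1 / 7) :
    {p : (ℕ → A) × (ℕ → A) | ∃ k, K ≤ 2 * k ∧ k ≤ M ∧
        nb b (10 / 7) (U ((k + 7) * t) p.1 - U (k * t) p.2 - c - y)} ⊆
      (⋃ k ∈ Finset.range (M + 1), univ ×ˢ BC Y V U r (k * t)) ∪
      ((⋃ x : ℕ × ℕ × ℕ × ℕ, (CK Y V U t K M r
          (fun k => {p | nb b (10 / 7) (U ((k + 7) * t) p.1 - U (k * t) p.2 - c - y)}) x ∩
        sh2 x.2.1 x.2.2.1 ⁻¹' (univ ×ˢ {a | ¬ nb b (9 / 7) (U (7 * t - x.2.2.2) a - c)}))) ∪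
      ((⋃ k ∈ Finset.range (M + 1), BS Y V U h r' ((k + 7) * t)) ∪
      ({p | ∃ j, N ≤ R * j ∧ j ≤ R * N ∧ ∀ i, |dot (b i) (SS Y V j p - y)| ≤ 3} ∪
      {p | (N : ℝ) / 4 ≤ RR Y (N / R + 1) p}))) := by
  classical
  intro p hp
  obtain ⟨k1, k2, k3⟩ := Nat.find_spec hp
  have hfirst : ∀ k' < Nat.find hp, ¬ (K ≤ 2 * k' ∧ k' ≤ M ∧
      nb b (10 / 7) (U ((k' + 7) * t) p.1 - U (k' * t) p.2 - c - y)) :=
    fun k' hk' => Nat.find_min hp hk'
  generalize Nat.find hp = k at k1 k2 k3 hfirst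
  by_cases hb : p.2 ∈ BC Y V U r (k * t)
  · left
    simp only [mem_iUnion]
    exact ⟨k, Finset.mem_range.2 (by omega), trivial, hb⟩
  right
  simp only [BC, mem_ofPred_eq, not_not] at hb
  obtain ⟨hb1, hb2⟩ := hb
  have hj1 := fi_spec' hY (k * t) p.2
  have hi1 := fi_spec' hY ((k + 7) * t) p.1
  set j := fi Y (k * t) p.2 with hj
  set i := fi Y ((k + 7) * t) p.1 with hi
  obtain ⟨m, hm⟩ := Nat.exists_eq_add_of_le hj1
  have hmr : m ≤ r := by omega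
  have hmem : p ∈ CK Y V U t K M r
      (fun k => {p | nb b (10 / 7) (U ((k + 7) * t) p.1 - U (k * t) p.2 - c - y)})
      (k, i, j, m) := by
    refine ⟨k1, k2, k3, fun k' hk1 hk2 hg => hfirst k' hk2 ⟨hk1, ?_, hg⟩, hi1, ?_, hj1, hm, hmr,
      ?_, hb2⟩
    · change k' < k at hk2
      omega
    · exact fun i' hi' => fi_lt' hi'
    · exact fun j' hj' => fi_lt' hj'
  by_cases hf : nb b (9 / 7) (U (7 * t - m) (sh j p.2) - c)
  swap
  · left
    exact mem_iUnion.2 ⟨(k, i, j, m), hmem, trivial, hf⟩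
  right
  have he : (k + 7) * t = k * t + 7 * t := by ring
  have hle : H Y j p.2 ≤ (k + 7) * t := by omega
  have h1 := hcov p.2 j ((k + 7) * t) hle
  have h2 : (k + 7) * t - H Y j p.2 = 7 * t - m := by omega
  rw [h2] at h1
  have hn1 : nb b (1 / 7) (U (k * t) p.2 - Dd V j p.2) := nb_of_norm hg hg0 hgr hb2
  have hsame : nb b (20 / 7) (U ((k + 7) * t) p.1 - U ((k + 7) * t) p.2 - y) := by
    have h3 := nb_add (nb_add k3 hn1) (nb_neg hf)
    have h4 : (U ((k + 7) * t) p.1 - U (k * t) p.2 - c - y + (U (k * t) p.2 - Dd V j p.2)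
        + -(U (7 * t - m) (sh j p.2) - c)) = U ((k + 7) * t) p.1 - U ((k + 7) * t) p.2 - y := by
      rw [h1]; abel
    rw [h4] at h3
    exact nb_mono (by norm_num) h3
  by_cases hs : p ∈ BS Y V U h r' ((k + 7) * t)
  · left
    simp only [mem_iUnion]
    exact ⟨k, Finset.mem_range.2 (by omega), hs⟩
  right
  simp only [BS, mem_ofPred_eq, not_not] at hs
  obtain ⟨n, hn1, hn2, hn3, hn4⟩ := hs
  by_cases hRn : N ≤ R * n
  · left
    refine ⟨n, hRn, ?_, ?_⟩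
    · have h5 : (k + 7) * t ≤ (M + 7) * t := Nat.mul_le_mul_right t (by omega)
      omega
    · have h6 : nb b (1 / 7) (U ((k + 7) * t) p.1 - U ((k + 7) * t) p.2 - SS Y V n p) :=
        nb_of_norm hg hg0 hgr' hn4
      have h7 := nb_add hsame (nb_neg h6)
      have h8 : (U ((k + 7) * t) p.1 - U ((k + 7) * t) p.2 - y
          + -(U ((k + 7) * t) p.1 - U ((k + 7) * t) p.2 - SS Y V n p)) = SS Y V n p - y := by
        abel
      rw [h8] at h7
      exact nb_mono (by norm_num) h7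
  · right
    push Not at hRn
    have h5 : n ≤ N / R := (Nat.le_div_iff_mul_le (by omega)).2 (by rw [mul_comm]; exact hRn.le)
    have h6 : RR Y n p ≤ RR Y (N / R + 1) p := R0_mono Y (by omega) p
    have h7 : N ≤ 2 * (k * t) := by
      rw [hN]
      calc K * t ≤ (2 * k) * t := Nat.mul_le_mul_right t k1
        _ = 2 * (k * t) := by ring
    have h8 : N ≤ 4 * RR Y (N / R + 1) p := by omega
    have h9 : (N : ℝ) ≤ 4 * (RR Y (N / R + 1) p : ℝ) := by exact_mod_cast h8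
    change (N : ℝ) / 4 ≤ RR Y (N / R + 1) p
    linarith

end det

variable {A : Type*} [MeasurableSpace A] [MeasurableSingletonClass A] [Countable A] [Inhabited A]

/-- restart along a countable disjoint family of determined events, with varying fresh events of
small probability -/
theorem restart_le (μ : Measure A) [IsProbabilityMeasure μ] {ι : Type*} [Countable ι]
    (n m : ι → ℕ) (C : ι → Set ((ℕ → A) × (ℕ → A))) (hC : ∀ i, Det2 (n i) (m i) (C i))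
    (hd : Pairwise (Function.onFun Disjoint C)) {B : ι → Set ((ℕ → A) × (ℕ → A))}
    (hB : ∀ i, MeasurableSet (B i)) {w : ℝ≥0∞}
    (hw : ∀ i, (C i).Nonempty → pairL μ (B i) ≤ w) :
    pairL μ (⋃ i, (C i ∩ sh2 (n i) (m i) ⁻¹' (B i))) ≤ w := by
  rw [measure_iUnion (fun q q' h => (hd h).mono inter_subset_left inter_subset_left)
      (fun q => (hC q).measurableSet.inter (measurable_sh2 _ _ (hB q)))]
  calc ∑' i, pairL μ (C i ∩ sh2 (n i) (m i) ⁻¹' (B i))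
      ≤ ∑' i, pairL μ (C i) * w := by
        refine ENNReal.tsum_le_tsum fun i => ?_
        rw [restart μ (hC i) (hB i)]
        rcases (C i).eq_empty_or_nonempty with h | h
        · rw [h, measure_empty, zero_mul, zero_mul]
        · gcongr
          exact hw i h
    _ = pairL μ (⋃ i, C i) * w := by
        rw [ENNReal.tsum_mul_right, measure_iUnion hd fun q => (hC q).measurableSet]
    _ ≤ 1 * w := by gcongr; exact prob_le_one
    _ = w := one_mul w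

/-- **Claim (Π)** -/
theorem claimPi (μ : Measure A) [IsProbabilityMeasure μ] {Y : A → ℕ} (hY : ∀ a, 1 ≤ Y a)
    {V : A → (Fin 2 → ℝ)} {U : ℕ → (ℕ → A) → (Fin 2 → ℝ)} (hpos : Pos Y V U)
    (hcs : CloseSum μ Y V U) (htc : TightCut μ Y V U) : ClaimPi μ Y V U := by
  intro η hη
  obtain ⟨h, r', hcs⟩ := hcs η hη
  obtain ⟨r, htc⟩ := htc η hη
  refine ⟨max r r', h, ?_⟩
  intro t K M R N b g w c y hrt hN h4 hM hR hg0 hg hgr hw
  have hgr1 : g * r ≤ 1 / 7 := by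
    refine le_trans ?_ hgr
    have : (r : ℝ) ≤ (max r r' : ℕ) := by exact_mod_cast le_max_left r r'
    exact mul_le_mul_of_nonneg_left this hg0
  have hgr2 : g * r' ≤ 1 / 7 := by
    refine le_trans ?_ hgr
    have : (r' : ℝ) ≤ (max r r' : ℕ) := by exact_mod_cast le_max_right r r'
    exact mul_le_mul_of_nonneg_left this hg0
  have hw0 : 0 ≤ w := le_trans measureReal_nonneg (hw 0 (Nat.zero_le _))
  have hnbm : ∀ (s : ℝ), MeasurableSet {x : Fin 2 → ℝ | nb b s x} := by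
    intro s
    have : {x : Fin 2 → ℝ | nb b s x} = ⋂ i, {x | |dot (b i) x| ≤ s} := by
      ext x; simp [nb]
    rw [this]
    refine MeasurableSet.iInter fun i => ?_
    have hd : Measurable fun x : Fin 2 → ℝ => dot (b i) x := by
      unfold dot
      exact Finset.measurable_sum _ fun j _ => measurable_const.mul (measurable_pi_apply j)
    exact measurableSet_le (by simpa [Real.norm_eq_abs] using hd.norm) measurable_const
  have hGdet : GDet Y t
      (fun k => {p : (ℕ → A) × (ℕ → A) |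
        nb b (10 / 7) (U ((k + 7) * t) p.1 - U (k * t) p.2 - c - y)}) := by
    intro k i j p p' h1 h2 h3 h4
    simp only [mem_ofPred_eq]
    rw [hpos.det p.1 p'.1 i _ h1 h3, hpos.det p.2 p'.2 j _ h2 h4]
  have hmid : pairL μ (⋃ x : ℕ × ℕ × ℕ × ℕ, (CK Y V U t K M r
          (fun k => {p | nb b (10 / 7) (U ((k + 7) * t) p.1 - U (k * t) p.2 - c - y)}) x ∩
        sh2 x.2.1 x.2.2.1 ⁻¹' (univ ×ˢ {a | ¬ nb b (9 / 7) (U (7 * t - x.2.2.2) a - c)})))
      ≤ ENNReal.ofReal w := by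
    refine restart_le μ (fun x : ℕ × ℕ × ℕ × ℕ => x.2.1) (fun x => x.2.2.1) _
      (det2_CK hpos.det t K M r hGdet) (disj_CK Y V U t K M r _)
      (B := fun x => (univ : Set (ℕ → A)) ×ˢ {a | ¬ nb b (9 / 7) (U (7 * t - x.2.2.2) a - c)})
      ?_ ?_
    · intro x
      refine MeasurableSet.univ.prod ?_
      have h1 : Measurable fun a : ℕ → A => U (7 * t - x.2.2.2) a - c :=
        (hpos.meas _).sub measurable_const
      exact (h1 (hnbm (9 / 7))).compl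
    · rintro x ⟨p, hp⟩
      have hmr : x.2.2.2 ≤ max r r' := le_trans hp.2.2.2.2.2.2.2.2.1 (le_max_left _ _)
      have h1 := hw _ hmr
      rw [Measure.prod_prod, measure_univ, one_mul]
      rw [← ENNReal.ofReal_toReal (measure_ne_top (iidL μ)
        {a | ¬ nb b (9 / 7) (U (7 * t - x.2.2.2) a - c)})]
      exact ENNReal.ofReal_le_ofReal h1
  have hmid' : (pairL μ).real (⋃ x : ℕ × ℕ × ℕ × ℕ, (CK Y V U t K M r
          (fun k => {p | nb b (10 / 7) (U ((k + 7) * t) p.1 - U (k * t) p.2 - c - y)}) x ∩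
        sh2 x.2.1 x.2.2.1 ⁻¹' (univ ×ˢ {a | ¬ nb b (9 / 7) (U (7 * t - x.2.2.2) a - c)}))) ≤ w :=
    ENNReal.toReal_le_of_le_ofReal hw0 hmid
  have hA : (pairL μ).real (⋃ k ∈ Finset.range (M + 1),
      (univ : Set (ℕ → A)) ×ˢ BC Y V U r (k * t)) ≤ (M + 1) * η := by
    refine (measureReal_biUnion_finset_le _ _).trans ?_
    calc _ ≤ ∑ _k ∈ Finset.range (M + 1), η := by
          refine Finset.sum_le_sum fun k _ => ?_
          rw [measureReal_def, Measure.prod_prod, measure_univ, one_mul]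
          exact htc (k * t)
      _ = (M + 1) * η := by
          rw [Finset.sum_const, Finset.card_range, nsmul_eq_mul]
          push_cast
          ring
  have hB : (pairL μ).real (⋃ k ∈ Finset.range (M + 1), BS Y V U h r' ((k + 7) * t))
      ≤ (M + 1) * η := by
    refine (measureReal_biUnion_finset_le _ _).trans ?_
    calc _ ≤ ∑ _k ∈ Finset.range (M + 1), η := Finset.sum_le_sum fun k _ => hcs _
      _ = (M + 1) * η := by
          rw [Finset.sum_const, Finset.card_range, nsmul_eq_mul]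
          push_cast
          ring
  have hcover := cover (A := A) hY (V := V) (U := U) hpos.cov (t := t) (K := K) (M := M) (r := r)
    (h := h) (r' := r') (R := R) (N := N) (le_trans (le_max_left _ _) hrt)
    (le_trans (le_max_right _ _) hrt) hN h4 hM hR (b := b) (g := g) (c := c) (y := y) hg0 hg
    hgr1 hgr2
  refine (measureReal_mono hcover (measure_ne_top _ _)).trans ?_
  refine (measureReal_union_le _ _).trans ?_
  have hu1 := measureReal_union_le (μ := pairL μ) (⋃ x : ℕ × ℕ × ℕ × ℕ, (CK Y V U t K M r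
          (fun k => {p | nb b (10 / 7) (U ((k + 7) * t) p.1 - U (k * t) p.2 - c - y)}) x ∩
        sh2 x.2.1 x.2.2.1 ⁻¹' (univ ×ˢ {a | ¬ nb b (9 / 7) (U (7 * t - x.2.2.2) a - c)})))
      ((⋃ k ∈ Finset.range (M + 1), BS Y V U h r' ((k + 7) * t)) ∪
      ({p | ∃ j, N ≤ R * j ∧ j ≤ R * N ∧ ∀ i, |dot (b i) (SS Y V j p - y)| ≤ 3} ∪
      {p | (N : ℝ) / 4 ≤ RR Y (N / R + 1) p}))
  have hu2 := measureReal_union_le (μ := pairL μ)
      (⋃ k ∈ Finset.range (M + 1), BS Y V U h r' ((k + 7) * t))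
      ({p | ∃ j, N ≤ R * j ∧ j ≤ R * N ∧ ∀ i, |dot (b i) (SS Y V j p - y)| ≤ 3} ∪
      {p | (N : ℝ) / 4 ≤ RR Y (N / R + 1) p})
  have hu3 := measureReal_union_le (μ := pairL μ)
      {p | ∃ j, N ≤ R * j ∧ j ≤ R * N ∧ ∀ i, |dot (b i) (SS Y V j p - y)| ≤ 3}
      {p | (N : ℝ) / 4 ≤ RR Y (N / R + 1) p}
  linarith

/-- `E[R₀] ≤ e` -/
lemma lintegral_R0_le (μ : Measure A) [IsProbabilityMeasure μ] {Y : A → ℕ} (hY : ∀ a, 1 ≤ Y a)
    (hg : pairL μ (Good Y)ᶜ = 0) :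
    ∫⁻ p, (R0 Y p : ℝ≥0∞) ∂(pairL μ) ≤ ∑' m, pairL μ (NoCut Y m) := by
  have h1 : ∀ p, (R0 Y p : ℝ≥0∞) = ∑' m : ℕ, if m < R0 Y p then 1 else 0 := by
    intro p
    rw [tsum_eq_sum (s := Finset.range (R0 Y p))]
    · rw [Finset.sum_congr rfl fun m hm => if_pos (Finset.mem_range.1 hm)]
      simp
    · intro m hm
      rw [if_neg (by simpa using hm)]
  simp_rw [h1]
  have hm : ∀ m : ℕ, MeasurableSet {p : (ℕ → A) × (ℕ → A) | m < R0 Y p} := fun m =>
    measurable_R0 hY (measurableSet_Ioi : MeasurableSet (Set.Ioi m))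
  rw [lintegral_tsum fun m =>
    (Measurable.ite (hm m) measurable_const measurable_const).aemeasurable]
  refine ENNReal.tsum_le_tsum fun m => ?_
  have h2 : ∀ p : (ℕ → A) × (ℕ → A), (if m < R0 Y p then (1 : ℝ≥0∞) else 0)
      = {p | m < R0 Y p}.indicator 1 p := by
    intro p
    by_cases h : m < R0 Y p
    · rw [if_pos h, Set.indicator_of_mem (show p ∈ {p | m < R0 Y p} from h)]; rfl
    · rw [if_neg h, Set.indicator_of_notMem (show p ∉ {p | m < R0 Y p} from h)]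
  simp_rw [h2]
  rw [lintegral_indicator_one (hm m), ← measure_inter_conull hg]
  refine measure_mono ?_
  rintro p ⟨hp, hpg⟩ l hl1 hl2
  exact fst_nocut hY (mem_fst_idx hY hpg) hl1 (lt_of_le_of_lt hl2 hp)

theorem sumRTail (μ : Measure A) [IsProbabilityMeasure μ] {Y : A → ℕ}
    (hY : ∀ a, 1 ≤ Y a) {c : ℝ≥0∞} (hc : c ≠ 0) (hc' : c ≠ ⊤) (hU : ∀ l, c ≤ Ur μ Y l) :
    SumRTail μ Y (c⁻¹).toReal := by
  intro n x hx
  have hg : pairL μ (Good Y)ᶜ = 0 := good_ae μ hY (noCut_tendsto μ hY hc hc' hU)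
  have hR : ∀ i : ℕ, Measurable fun p : (ℕ → A) × (ℕ → A) => (R0 Y ((rest Y)^[i] p) : ℝ≥0∞) :=
    fun i => (measurable_of_countable (fun n : ℕ => (n : ℝ≥0∞))).comp
      ((measurable_R0 hY).comp ((measurable_rest hY).iterate i))
  have h1 : ∫⁻ p, (RR Y n p : ℝ≥0∞) ∂(pairL μ) ≤ n * c⁻¹ := by
    have h2 : ∀ p : (ℕ → A) × (ℕ → A), (RR Y n p : ℝ≥0∞)
        = ∑ i ∈ Finset.range n, (R0 Y ((rest Y)^[i] p) : ℝ≥0∞) := by
      intro p; unfold RR; push_cast; rfl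
    simp_rw [h2]
    rw [lintegral_finsetSum _ fun i _ => hR i]
    calc _ ≤ ∑ _i ∈ Finset.range n, c⁻¹ := by
          refine Finset.sum_le_sum fun i _ => ?_
          have h3 := ((preserving_rest μ hY hg).iterate i).lintegral_comp (f := fun p =>
            (R0 Y p : ℝ≥0∞)) ((measurable_of_countable (fun n : ℕ => (n : ℝ≥0∞))).comp
              (measurable_R0 hY))
          rw [h3]
          exact (lintegral_R0_le μ hY hg).trans (tsum_noCut_le μ hY hc hc' hU)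
      _ = n * c⁻¹ := by rw [Finset.sum_const, Finset.card_range, nsmul_eq_mul]
  have hRm : Measurable fun p : (ℕ → A) × (ℕ → A) => (RR Y n p : ℝ≥0∞) := by
    have h2 : (fun p : (ℕ → A) × (ℕ → A) => (RR Y n p : ℝ≥0∞))
        = fun p => ∑ i ∈ Finset.range n, (R0 Y ((rest Y)^[i] p) : ℝ≥0∞) := by
      funext p; unfold RR; push_cast; rfl
    rw [h2]
    exact Finset.measurable_sum _ fun i _ => hR i
  have h3 := mul_meas_ge_le_lintegral₀ (μ := pairL μ) hRm.aemeasurable (ENNReal.ofReal x)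
  have h4 : {p : (ℕ → A) × (ℕ → A) | x ≤ (RR Y n p : ℝ)}
      = {p | ENNReal.ofReal x ≤ (RR Y n p : ℝ≥0∞)} := by
    ext p
    simp only [mem_ofPred_eq]
    rw [← ENNReal.ofReal_natCast, ENNReal.ofReal_le_ofReal_iff (Nat.cast_nonneg _)]
  rw [h4, le_div_iff₀ hx, measureReal_def]
  have h5 : (ENNReal.ofReal x * pairL μ {p | ENNReal.ofReal x ≤ (RR Y n p : ℝ≥0∞)}).toReal
      ≤ (n * c⁻¹ : ℝ≥0∞).toReal := by
    refine ENNReal.toReal_mono ?_ (h3.trans h1)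
    exact ENNReal.mul_ne_top (by simp) (ENNReal.inv_ne_top.2 hc)
  rw [ENNReal.toReal_mul, ENNReal.toReal_mul, ENNReal.toReal_ofReal hx.le,
    ENNReal.toReal_natCast] at h5
  linarith

end Crest.Agent.R154.J132
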