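import Crest.Agent.R154.Joint5_132
import Crest.Agent.R154.JPi_412
import Crest.Agent.R154.Center_818

/-! Row 154, B4 trunk side: Claim (U): the displacement of one walker over `7t` levels. -/

set_option autoImplicit false
set_option linter.unusedSectionVars false

namespace Crest.Agent.R154.J132

open MeasureTheory ProbabilityTheory Filter Topology Set
open Crest.Agent.R154.Conc412 (dot)
open scoped ENNReal

lemma measurableSet_nb818 (b : Fin 2 → Fin 2 → ℝ) (s : ℝ) :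
    MeasurableSet {x : Fin 2 → ℝ | nb b s x} := by
  have : {x : Fin 2 → ℝ | nb b s x} = ⋂ i, {x | |dot (b i) x| ≤ s} := by
    ext x; simp [nb]
  rw [this]
  refine MeasurableSet.iInter fun i => ?_
  have hd : Measurable fun x : Fin 2 → ℝ => dot (b i) x := by
    unfold dot
    exact Finset.measurable_sum _ fun j _ => measurable_const.mul (measurable_pi_apply j)
  exact measurableSet_le (by simpa [Real.norm_eq_abs] using hd.norm) measurable_const

variable {A : Type*} [MeasurableSpace A] [MeasurableSingletonClass A] [Countable A] [Inhabited A]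

/-- the family of events `first cut above L has index j and height L + m`. -/
def CU818 (Y : A → ℕ) (L r : ℕ) (x : ℕ × ℕ) : Set ((ℕ → A) × (ℕ → A)) :=
  {p | x.2 ≤ r ∧ fi Y L p.1 = x.1 ∧ H Y x.1 p.1 = L + x.2}

/-- **Claim (U)** -/
theorem claimU (μ : Measure A) [IsProbabilityMeasure μ] {Y : A → ℕ} (hY : ∀ a, 1 ≤ Y a)
    {V : A → (Fin 2 → ℝ)} {U : ℕ → (ℕ → A) → (Fin 2 → ℝ)} (hpos : Pos Y V U)
    (hcs : CloseSum μ Y V U) (htc : TightCut μ Y V U) (hti : TightInc μ U) :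
    ClaimU μ Y V U := by
  intro η hη r₂
  obtain ⟨h, r₁, hcs⟩ := hcs η hη
  obtain ⟨rT, htc⟩ := htc η hη
  choose ri hri using hti η hη
  -- the constant
  set M := max r₂ rT with hM
  set rI := ∑ m ∈ Finset.range (M + 1), ri m with hrI
  refine ⟨r₁ + rT + M + rI, ?_⟩
  intro t ht b g v hg0 hg hgr hv
  have hle : ∀ n : ℕ, n ≤ r₁ + rT + M + rI → g * n ≤ 1 / 7 := by
    intro n hn
    refine le_trans ?_ hgr
    have : (n : ℝ) ≤ ((r₁ + rT + M + rI : ℕ) : ℝ) := by exact_mod_cast hn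
    exact mul_le_mul_of_nonneg_left this hg0
  have hv0 : 0 ≤ v := measureReal_nonneg.trans hv
  have hmU : ∀ (n : ℕ) (c : Fin 2 → ℝ) (s : ℝ), MeasurableSet {a : ℕ → A | ¬ nb b s (U n a - c)} :=
    fun n c s => (((hpos.meas n).sub measurable_const) (measurableSet_nb818 b s)).compl
  -- (i)
  have h1 : (pairL μ).real {p | ¬ nb b (8 / 7) (U (7 * t) p.1 - U (7 * t) p.2)} ≤ v + η := by
    have hsub : {p : (ℕ → A) × (ℕ → A) | ¬ nb b (8 / 7) (U (7 * t) p.1 - U (7 * t) p.2)} ⊆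
        {p | ∃ j ≤ 7 * t, ∃ i, 1 < |dot (b i) (SS Y V j p)|} ∪
        {p | ¬ ∃ k, k ≤ RR Y k p ∧ RR Y k p ≤ 7 * t ∧
          7 * t < RR Y k p + h ∧ ‖U (7 * t) p.1 - U (7 * t) p.2 - SS Y V k p‖ ≤ r₁} := by
      intro p hp
      by_contra hc
      rw [mem_union, not_or] at hc
      obtain ⟨c1, c2⟩ := hc
      simp only [mem_ofPred_eq, not_exists, not_and, not_lt] at c1
      simp only [mem_ofPred_eq, not_not] at c2
      obtain ⟨k, k1, k2, k3, k4⟩ := c2
      apply hp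
      have h2 : nb b (1 / 7) (U (7 * t) p.1 - U (7 * t) p.2 - SS Y V k p) :=
        nb_of_norm hg hg0 (hle r₁ (by omega)) k4
      have h3 : nb b 1 (SS Y V k p) := fun i => c1 k (k1.trans k2) i
      have h4 := nb_add h3 h2
      rw [add_sub_cancel] at h4
      exact nb_mono (by norm_num) h4
    refine (measureReal_mono hsub (measure_ne_top _ _)).trans
      ((measureReal_union_le _ _).trans (add_le_add hv (hcs _)))
  -- (ii)
  obtain ⟨c, hc⟩ : ∃ c : Fin 2 → ℝ, (iidL μ).real {a | ¬ nb b (8 / 7) (U (7 * t) a - c)} ≤ v + η := by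
    obtain ⟨c, hc⟩ := Center818.exists_center_map (iidL μ) (hpos.meas (7 * t))
      (measurableSet_nb818 b (8 / 7)) (q := ENNReal.ofReal (v + η)) (by
        have h2 : pairL μ {p : (ℕ → A) × (ℕ → A) | ¬ nb b (8 / 7) (U (7 * t) p.1 - U (7 * t) p.2)}
            ≤ ENNReal.ofReal (v + η) := by
          rw [← ENNReal.ofReal_toReal (measure_ne_top (pairL μ) _)]
          exact ENNReal.ofReal_le_ofReal h1
        exact h2)
    exact ⟨c, ENNReal.toReal_le_of_le_ofReal (by linarith) hc⟩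
  -- (iii)
  have h3 : ∀ m ≤ M, (iidL μ).real {a | ¬ nb b (9 / 7) (U (7 * t - m) a - c)} ≤ v + 2 * η := by
    intro m hm
    have hm7 : m ≤ 7 * t := by omega
    have hsub : {a : ℕ → A | ¬ nb b (9 / 7) (U (7 * t - m) a - c)} ⊆
        {a | ¬ nb b (8 / 7) (U (7 * t) a - c)} ∪
        {a | (ri m : ℝ) < ‖U (7 * t - m + m) a - U (7 * t - m) a‖} := by
      intro a ha
      by_contra hcc
      simp only [mem_union, mem_ofPred_eq, not_or, not_not, not_lt] at hcc
      obtain ⟨c1, c2⟩ := hcc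
      apply ha
      rw [Nat.sub_add_cancel hm7] at c2
      have hrm : ri m ≤ rI := Finset.single_le_sum (f := ri) (fun _ _ => Nat.zero_le _)
        (Finset.mem_range.2 (by omega))
      have h4 : nb b (1 / 7) (U (7 * t) a - U (7 * t - m) a) :=
        nb_of_norm hg hg0 (hle (ri m) (by omega)) c2
      have h5 := nb_add c1 (nb_neg h4)
      have h6 : U (7 * t) a - c + -(U (7 * t) a - U (7 * t - m) a) = U (7 * t - m) a - c := by abel
      rw [h6] at h5
      exact nb_mono (by norm_num) h5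
    refine (measureReal_mono hsub (measure_ne_top _ _)).trans
      ((measureReal_union_le _ _).trans ?_)
    have := hri m (7 * t - m)
    linarith
  refine ⟨c, fun m hm => h3 m (hm.trans (le_max_left _ _)), fun L => ?_⟩
  -- (iv)
  have hdet : ∀ x : ℕ × ℕ, Det2 x.1 0 (CU818 Y L rT x) := by
    have main : ∀ (x : ℕ × ℕ) (p p' : (ℕ → A) × (ℕ → A)), (∀ k < x.1, p.1 k = p'.1 k) →
        p ∈ CU818 Y L rT x → p' ∈ CU818 Y L rT x := by
      rintro x p p' h1 ⟨a1, a2, a3⟩
      exact ⟨a1, fi_congr hY a2 h1, by rw [← H_congr h1]; exact a3⟩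
    exact fun x p p' h1 _ => ⟨main x p p' h1, main x p' p fun k hk => (h1 k hk).symm⟩
  have hdisj : Pairwise (Function.onFun Disjoint (CU818 Y L rT)) := by
    intro x x' hne
    rw [Function.onFun, Set.disjoint_left]
    rintro p ⟨a1, a2, a3⟩ ⟨b1, b2, b3⟩
    apply hne
    have e1 : x.1 = x'.1 := a2.symm.trans b2
    have e2 : x.2 = x'.2 := by rw [e1] at a3; omega
    exact Prod.ext e1 e2
  have hmid : pairL μ (⋃ x : ℕ × ℕ, (CU818 Y L rT x ∩
      sh2 x.1 0 ⁻¹' ({a | ¬ nb b (9 / 7) (U (7 * t - x.2) a - c)} ×ˢ (univ : Set (ℕ → A)))))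
      ≤ ENNReal.ofReal (v + 2 * η) := by
    refine restart_le μ (fun x : ℕ × ℕ => x.1) (fun _ => 0) _ hdet hdisj
      (B := fun x => {a | ¬ nb b (9 / 7) (U (7 * t - x.2) a - c)} ×ˢ (univ : Set (ℕ → A)))
      (fun x => (hmU _ c _).prod MeasurableSet.univ) ?_
    rintro x ⟨p, hp⟩
    have h4 := h3 x.2 (hp.1.trans (le_max_right _ _))
    rw [Measure.prod_prod, measure_univ, mul_one]
    rw [← ENNReal.ofReal_toReal (measure_ne_top (iidL μ) _)]
    exact ENNReal.ofReal_le_ofReal h4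
  have hmid' := ENNReal.toReal_le_of_le_ofReal (by linarith : (0:ℝ) ≤ v + 2 * η) hmid
  rw [← pair_fst_real]
  have hsub : {p : (ℕ → A) × (ℕ → A) | p.1 ∈ {a | ¬ nb b (10 / 7) (U (L + 7 * t) a - U L a - c)}} ⊆
      {p | p.1 ∈ {a | ¬ (H Y (fi Y L a) a ≤ L + rT ∧ ‖U L a - Dd V (fi Y L a) a‖ ≤ rT)}} ∪
      (⋃ x : ℕ × ℕ, (CU818 Y L rT x ∩
      sh2 x.1 0 ⁻¹' ({a | ¬ nb b (9 / 7) (U (7 * t - x.2) a - c)} ×ˢ (univ : Set (ℕ → A))))) := by
    intro p hp
    by_contra hcc
    simp only [mem_union, not_or] at hcc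
    obtain ⟨c1, c2⟩ := hcc
    simp only [mem_ofPred_eq, not_not] at c1
    obtain ⟨c3, c4⟩ := c1
    have hspec := fi_spec hY L p.1
    obtain ⟨m, hm⟩ := Nat.exists_eq_add_of_le hspec
    have hmr : m ≤ rT := by omega
    have hnb : nb b (9 / 7) (U (7 * t - m) (sh (fi Y L p.1) p.1) - c) := by
      by_contra hn
      apply c2
      rw [mem_iUnion]
      exact ⟨(fi Y L p.1, m), ⟨hmr, rfl, hm⟩, hn, trivial⟩
    apply hp
    have hle2 : H Y (fi Y L p.1) p.1 ≤ L + 7 * t := by omega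
    have h4 := hpos.cov p.1 (fi Y L p.1) (L + 7 * t) hle2
    have h5 : L + 7 * t - H Y (fi Y L p.1) p.1 = 7 * t - m := by omega
    rw [h5] at h4
    have h6 : nb b (1 / 7) (U L p.1 - Dd V (fi Y L p.1) p.1) :=
      nb_of_norm hg hg0 (hle rT (by omega)) c4
    have h7 := nb_add (nb_neg h6) hnb
    have h8 : -(U L p.1 - Dd V (fi Y L p.1) p.1) + (U (7 * t - m) (sh (fi Y L p.1) p.1) - c)
        = U (L + 7 * t) p.1 - U L p.1 - c := by
      rw [h4]; abel
    rw [h8] at h7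
    exact nb_mono (by norm_num) h7
  refine (measureReal_mono hsub (measure_ne_top _ _)).trans
    ((measureReal_union_le _ _).trans ?_)
  rw [pair_fst_real]
  have h9 := htc L
  have h10 : (pairL μ).real (⋃ x : ℕ × ℕ, (CU818 Y L rT x ∩
      sh2 x.1 0 ⁻¹' ({a | ¬ nb b (9 / 7) (U (7 * t - x.2) a - c)} ×ˢ (univ : Set (ℕ → A)))))
      ≤ v + 2 * η := hmid'
  linarith

end Crest.Agent.R154.J132
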