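import Crest.Agent.R154.Joint5_132

/-! Row 154, B4 trunk side, part 6: the final constants. -/

set_option autoImplicit false
set_option linter.unusedSectionVars false

namespace Crest.Agent.R154.J132

open MeasureTheory ProbabilityTheory Filter Topology Set
open Crest.Agent.R154.Conc412 (dot)
open Crest.Agent.R154.Body818 (BodyProp IID)
open scoped ENNReal

lemma measurableSet_nb (b : Fin 2 → Fin 2 → ℝ) (s : ℝ) : MeasurableSet {x | nb b s x} := by
  have : {x | nb b s x} = ⋂ i, {x | |dot (b i) x| ≤ s} := by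
    ext x; simp [nb]
  rw [this]
  refine MeasurableSet.iInter fun i => ?_
  have h : Measurable fun x : Fin 2 → ℝ => |dot (b i) x| := by
    unfold Conc412.dot
    fun_prop
  exact measurableSet_le h measurable_const

/-- **output form** of the trunk part of B4, in letters. -/
def TrunkOut {A : Type} [MeasurableSpace A] (μ : Measure A) (Y : A → ℕ)
    (U : ℕ → (ℕ → A) → (Fin 2 → ℝ)) : Prop :=
  ∀ ε : ℝ, 0 < ε → ∀ C₀ : ℕ, ∃ K₀ : ℕ, ∀ K : ℕ, K₀ ≤ K → ∃ T₀ : ℕ, ∀ t : ℕ, T₀ ≤ t →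
    ∃ (E : Set (Fin 2 → ℝ)) (u : ℝ), MeasurableSet E ∧ 0 ≤ u ∧ (C₀ + 1) * K * u ^ 2 ≤ ε ∧
      (∀ L, (iidL μ).real {a | U (L + 7 * t) a - U L a ∉ E} ≤ u) ∧
      (∀ y, (pairL μ).real {p | ∃ k, K ≤ 2 * k ∧ k ≤ C₀ * K ∧
        U ((k + 7) * t) p.1 - U (k * t) p.2 - y ∈ E} ≤ ε) ∧
      (∀ L, (iidL μ).real {a | ∀ i, ¬ (L < H Y i a ∧ H Y i a ≤ L + t)} ≤ ε / K)

variable {A : Type} [MeasurableSpace A] [MeasurableSingletonClass A] [Countable A] [Inhabited A]

theorem iid_X (μ : Measure A) [IsProbabilityMeasure μ] {Y : A → ℕ} (hY : ∀ a, 1 ≤ Y a)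
    (hg : pairL μ (Good Y)ᶜ = 0) (V : A → (Fin 2 → ℝ)) :
    IID (pairL μ) (jlaw μ Y V) (fun k p => X0 Y V ((rest Y)^[k] p)) where
  meas := fun k => (measurable_X0 hY V).comp ((measurable_rest hY).iterate k)
  indep := indep_X μ hY hg V
  law := fun k => law_X μ hY hg V k

theorem trunkOut (μ : Measure A) [IsProbabilityMeasure μ] {Y : A → ℕ} (hY : ∀ a, 1 ≤ Y a)
    (hg : pairL μ (Good Y)ᶜ = 0) {V : A → (Fin 2 → ℝ)} {U : ℕ → (ℕ → A) → (Fin 2 → ℝ)}
    (hbody : BodyProp (jlaw μ Y V)) (hcU : ClaimU μ Y V U) (hcP : ClaimPi μ Y V U)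
    (hcut : CutWindow μ Y) {e : ℝ} (he : 0 ≤ e) (hR : SumRTail μ Y e) : TrunkOut μ Y U := by
  intro ε hε C₀
  obtain ⟨R, hRe⟩ := exists_nat_ge (max ((C₀ : ℝ) + 7) (64 * e / ε))
  have hR1 : (C₀ : ℝ) + 7 ≤ R := (le_max_left _ _).trans hRe
  have hR2 : 64 * e / ε ≤ R := (le_max_right _ _).trans hRe
  have hR1' : C₀ + 7 ≤ R := by exact_mod_cast hR1
  have hR0 : (0 : ℝ) < R := by
    have : (0 : ℝ) ≤ C₀ := Nat.cast_nonneg _
    linarith
  obtain ⟨C, hC, N₀, hN⟩ := hbody (ε / 4) (by linarith) R (by omega)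
  obtain ⟨K₀, hK₀⟩ := exists_nat_ge (max 1 (max (56 * C / ε) ((7 * C + 3) ^ 2 * (C₀ + 1) / ε)))
  refine ⟨K₀, fun K hK => ?_⟩
  have hKr : max 1 (max (56 * C / ε) ((7 * C + 3) ^ 2 * (C₀ + 1) / ε)) ≤ (K : ℝ) :=
    hK₀.trans (by exact_mod_cast hK)
  have hK1 : (1 : ℝ) ≤ K := (le_max_left _ _).trans hKr
  have hK2 : 56 * C / ε ≤ K := (le_max_left _ _).trans ((le_max_right _ _).trans hKr)
  have hK3 : (7 * C + 3) ^ 2 * (C₀ + 1) / ε ≤ K :=
    (le_max_right _ _).trans ((le_max_right _ _).trans hKr)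
  have hK1' : 1 ≤ K := by exact_mod_cast hK1
  have hK0 : (0 : ℝ) < K := by linarith
  set M : ℕ := C₀ * K with hM
  have hM0 : (0 : ℝ) < (M : ℝ) + 1 := by positivity
  set η : ℝ := min (1 / K) (ε / (32 * ((M : ℝ) + 1))) with hη
  have hη0 : 0 < η := lt_min (by positivity) (by positivity)
  have hη1 : η ≤ 1 / K := min_le_left _ _
  have hη2 : η ≤ ε / (32 * ((M : ℝ) + 1)) := min_le_right _ _
  obtain ⟨r₂, h, hPi⟩ := hcP η hη0
  obtain ⟨r, hUr⟩ := hcU η hη0 r₂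
  obtain ⟨t₁, ht₁⟩ := hcut (ε / K) (by positivity)
  obtain ⟨t₂, ht₂⟩ := exists_nat_ge ((7 * C * (max r r₂ : ℕ)) ^ 2)
  refine ⟨r + r₂ + N₀ + 4 * h + R + t₁ + t₂ + 1, fun t ht => ?_⟩
  have hKt : t ≤ K * t := Nat.le_mul_of_pos_left t hK1'
  have htpos : 0 < t := by omega
  have hNpos : 0 < K * t := by omega
  have hNr : (0 : ℝ) < ((K * t : ℕ) : ℝ) := by exact_mod_cast hNpos
  obtain ⟨b, hb, hbody'⟩ := hN (K * t) (by omega)
  obtain ⟨hba, hbb⟩ := hbody' ((ℕ → A) × (ℕ → A)) (pairL μ) _ (iid_X μ hY hg V)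
  set g : ℝ := C / Real.sqrt ((K * t : ℕ) : ℝ) with hgdef
  have hg0 : 0 ≤ g := by positivity
  have hsq : 7 * C * (max r r₂ : ℕ) ≤ Real.sqrt ((K * t : ℕ) : ℝ) := by
    apply Real.le_sqrt_of_sq_le
    refine ht₂.trans ?_
    have : t₂ ≤ K * t := by omega
    exact_mod_cast this
  have hgr : ∀ x : ℕ, x ≤ max r r₂ → g * x ≤ 1 / 7 := by
    intro x hx
    have hs : 0 < Real.sqrt ((K * t : ℕ) : ℝ) := Real.sqrt_pos.2 hNr
    rw [hgdef, div_mul_eq_mul_div, div_le_iff₀ hs]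
    have hx' : (x : ℝ) ≤ ((max r r₂ : ℕ) : ℝ) := by exact_mod_cast hx
    have := mul_le_mul_of_nonneg_left hx' hC.le
    linarith
  have hKtc : ((K * t : ℕ) : ℝ) = (K : ℝ) * t := by push_cast; ring
  have htr : (0 : ℝ) < t := by exact_mod_cast htpos
  -- the bound (b)
  have hv : (pairL μ).real {p | ∃ j ≤ 7 * t, ∃ i, 1 < |dot (b i) (SS Y V j p)|} ≤ 7 * C / K := by
    refine (hbb (7 * t)).trans (le_of_eq ?_)
    rw [hKtc]
    push_cast
    field_simp
  obtain ⟨c, hA, hB⟩ := hUr t (by omega) b g (7 * C / K) hg0 hb (hgr r (le_max_left _ _)) hv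
  refine ⟨{x | nb b (10 / 7) (x - c)}, 7 * C / K + 3 * η, ?_, by positivity, ?_, fun L => hB L,
    fun y => ?_, ht₁ t (by omega)⟩
  · exact (measurable_id.sub measurable_const) (measurableSet_nb b _)
  · have h1 : 7 * C / K + 3 * η ≤ (7 * C + 3) / K := by
      have : 3 * η ≤ 3 * (1 / K) := by linarith
      calc _ ≤ 7 * C / K + 3 * (1 / K) := by linarith
        _ = _ := by ring
    have h0 : 0 ≤ 7 * C / K + 3 * η := by positivity
    calc ((C₀ : ℝ) + 1) * K * (7 * C / K + 3 * η) ^ 2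
        ≤ ((C₀ : ℝ) + 1) * K * ((7 * C + 3) / K) ^ 2 := by
          gcongr
      _ = (7 * C + 3) ^ 2 * (C₀ + 1) / K := by field_simp
      _ ≤ ε := by
          rw [div_le_iff₀ hK0]
          rw [div_le_iff₀ hε] at hK3
          linarith
  · have hPi' := hPi t K M R (K * t) b g (7 * C / K + 2 * η) c y (by omega) rfl (by omega)
      (by
        have e1 : (M + 7) * t ≤ (C₀ + 7) * (K * t) := by
          rw [hM]
          calc (C₀ * K + 7) * t = C₀ * (K * t) + 7 * t := by ring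
            _ ≤ C₀ * (K * t) + 7 * (K * t) := by gcongr
            _ = _ := by ring
        exact e1.trans (Nat.mul_le_mul_right _ hR1')) (by omega) hg0 hb
      (hgr r₂ (le_max_right _ _)) hA
    have e2 : {p : (ℕ → A) × (ℕ → A) | ∃ k, K ≤ 2 * k ∧ k ≤ C₀ * K ∧
        U ((k + 7) * t) p.1 - U (k * t) p.2 - y ∈ {x | nb b (10 / 7) (x - c)}}
        = {p | ∃ k, K ≤ 2 * k ∧ k ≤ M ∧
        nb b (10 / 7) (U ((k + 7) * t) p.1 - U (k * t) p.2 - c - y)} := by
      ext p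
      simp only [mem_ofPred_eq]
      refine exists_congr fun k => and_congr_right fun _ => and_congr_right fun _ => ?_
      rw [sub_right_comm]
    rw [e2]
    refine hPi'.trans ?_
    have b1 := hba y
    have b2 := hR (K * t / R + 1) (((K * t : ℕ) : ℝ) / 4) (by positivity)
    have b1' : (pairL μ).real {p | ∃ j, K * t ≤ R * j ∧ j ≤ R * (K * t) ∧
        ∀ i, |dot (b i) (SS Y V j p - y)| ≤ 3} ≤ ε / 4 := b1
    have b3 : ((K * t / R + 1 : ℕ) : ℝ) * e / (((K * t : ℕ) : ℝ) / 4) ≤ ε / 8 := by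
      have hdiv : ((K * t / R : ℕ) : ℝ) ≤ ((K * t : ℕ) : ℝ) / R := Nat.cast_div_le
      have hRN : (R : ℝ) ≤ ((K * t : ℕ) : ℝ) := by
        have : R ≤ K * t := by omega
        exact_mod_cast this
      have hn1 : ((K * t / R + 1 : ℕ) : ℝ) ≤ 2 * (((K * t : ℕ) : ℝ) / R) := by
        have : (1 : ℝ) ≤ ((K * t : ℕ) : ℝ) / R := by
          rw [le_div_iff₀ hR0]; linarith
        push_cast at hdiv ⊢
        push_cast at this
        linarith
      rw [div_le_iff₀ (by positivity)]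
      have h8 : 2 * (((K * t : ℕ) : ℝ) / R) * e ≤ ε / 8 * (((K * t : ℕ) : ℝ) / 4) := by
        have h9 : 64 * e ≤ R * ε := by
          rw [div_le_iff₀ hε] at hR2; linarith
        have h10 : 2 * (((K * t : ℕ) : ℝ) / R) * e = ((K * t : ℕ) : ℝ) * (2 * e) / R := by ring
        rw [h10, div_le_iff₀ hR0]
        have := mul_le_mul_of_nonneg_left h9 hNr.le
        linarith only [this]
      exact (mul_le_mul_of_nonneg_right hn1 he).trans h8
    have b4 : 2 * ((M : ℝ) + 1) * η + 2 * η ≤ ε / 8 := by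
      have h11 : 4 * ((M : ℝ) + 1) * η ≤ ε / 8 := by
        rw [le_div_iff₀ (by positivity)] at hη2
        linarith only [hη2]
      have h12 : (0 : ℝ) ≤ M * η := by positivity
      linarith only [h11, h12]
    have b5 : 7 * C / K ≤ ε / 8 := by
      rw [div_le_iff₀ hK0]
      rw [div_le_iff₀ hε] at hK2
      linarith only [hK2]
    have b6 := b2.trans b3
    linarith only [b1', b4, b5, b6, hε]

end Crest.Agent.R154.J132
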