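import Crest.Agent.R154.JBind3_132
import Crest.Agent.R154.Joint6_132
import Crest.Agent.R154.JPi_412
import Crest.Agent.R154.KBDefs_424
import Crest.Agent.R154.JU_818

/-! Row 154, B4 trunk side, binding part 4: from letters to the marked walk; `KB424.Trunk`. -/

set_option autoImplicit false
set_option linter.unusedSectionVars false
set_option linter.deprecated false

namespace Crest.Agent.R154.J132

open MeasureTheory ProbabilityTheory Filter Set Crest.ProbabilityR.RandomEnvironment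
open Crest.Agent.R154.Mk561 Crest.Agent.R154.Bind263 Crest.Agent.R154.B4Inst797
open Crest.Agent.R154.Ren263 (Word pre hgt Stay Record len_pre hgt_zero hgt_shift Det
  measurableSet_Stay)
open Crest.Agent.R154.RenG263 (RecSys Reg tau tau_spec tau_min blk0 blks RegInf rest_mem reg_shift
  wordLaw RenewalG Climb det_Climb climb_hgt measurable_blks wordLaw_apply)
open Crest.Agent.R154.KB424 (Up NS NoCutW Trunk)
open scoped ENNReal Topology

theorem sumRTail' {A : Type*} [MeasurableSpace A] [MeasurableSingletonClass A] [Countable A]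
    [Inhabited A] (μ : Measure A) [IsProbabilityMeasure μ] {Y : A → ℕ}
    (hY : ∀ a, 1 ≤ Y a) (hs : ∑' m, pairL μ (NoCut Y m) ≠ ⊤) :
    SumRTail μ Y (∑' m, pairL μ (NoCut Y m)).toReal := by
  intro n x hx
  set S : ℝ≥0∞ := ∑' m, pairL μ (NoCut Y m) with hS
  have hg : pairL μ (Good Y)ᶜ = 0 := good_ae μ hY (noCut_tendsto' μ hs)
  have hR : ∀ i : ℕ, Measurable fun p : (ℕ → A) × (ℕ → A) => (R0 Y ((rest Y)^[i] p) : ℝ≥0∞) :=
    fun i => (measurable_of_countable (fun n : ℕ => (n : ℝ≥0∞))).comp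
      ((measurable_R0 hY).comp ((measurable_rest hY).iterate i))
  have h1 : ∫⁻ p, (RR Y n p : ℝ≥0∞) ∂(pairL μ) ≤ n * S := by
    have h2 : ∀ p : (ℕ → A) × (ℕ → A), (RR Y n p : ℝ≥0∞)
        = ∑ i ∈ Finset.range n, (R0 Y ((rest Y)^[i] p) : ℝ≥0∞) := by
      intro p; unfold RR; push_cast; rfl
    simp_rw [h2]
    rw [lintegral_finsetSum _ fun i _ => hR i]
    calc _ ≤ ∑ _i ∈ Finset.range n, S := by
          refine Finset.sum_le_sum fun i _ => ?_
          have h3 := ((preserving_rest μ hY hg).iterate i).lintegral_comp (f := fun p =>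
            (R0 Y p : ℝ≥0∞)) ((measurable_of_countable (fun n : ℕ => (n : ℝ≥0∞))).comp
              (measurable_R0 hY))
          rw [h3]
          exact lintegral_R0_le μ hY hg
      _ = n * S := by rw [Finset.sum_const, Finset.card_range, nsmul_eq_mul]
  have hRm : Measurable fun p : (ℕ → A) × (ℕ → A) => (RR Y n p : ℝ≥0∞) := by
    have h2 : (fun p : (ℕ → A) × (ℕ → A) => (RR Y n p : ℝ≥0∞))
        = fun p => ∑ i ∈ Finset.range n, (R0 Y ((rest Y)^[i] p) : ℝ≥0∞) := by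
      funext p; unfold RR; push_cast; rfl
    rw [h2]
    exact Finset.measurable_sum _ fun i _ => hR i
  have h3 := mul_meas_ge_le_lintegral₀ (μ := pairL μ) hRm.aemeasurable (ENNReal.ofReal x)
  have h4 : {p : (ℕ → A) × (ℕ → A) | x ≤ (RR Y n p : ℝ)}
      = {p | ENNReal.ofReal x ≤ (RR Y n p : ℝ≥0∞)} := by
    ext p
    simp only [mem_setOf_eq]
    rw [← ENNReal.ofReal_natCast, ENNReal.ofReal_le_ofReal_iff (Nat.cast_nonneg _)]
  rw [h4, le_div_iff₀ hx, measureReal_def]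
  have h5 : (ENNReal.ofReal x * pairL μ {p | ENNReal.ofReal x ≤ (RR Y n p : ℝ≥0∞)}).toReal
      ≤ (n * S : ℝ≥0∞).toReal := by
    refine ENNReal.toReal_mono ?_ (h3.trans h1)
    exact ENNReal.mul_ne_top (by simp) hs
  rw [ENNReal.toReal_mul, ENNReal.toReal_mul, ENNReal.toReal_ofReal hx.le,
    ENNReal.toReal_natCast] at h5
  linarith

variable {d : ℕ} {u : Step d} {κ : ℝ} {R : ℕ} {Q : Measure (Environment d)}
  [IsProbabilityMeasure Q]

/-- the position process of the letters -/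
noncomputable abbrev UW (u : Step d) (i1 i2 : Fin d) : ℕ → (ℕ → Word (Mark d)) → (Fin 2 → ℝ) :=
  Uf (Yw u) (Vw i1 i2) (Iw u i1 i2)

theorem posW (u : Step d) (i1 i2 : Fin d) : Pos (Yw u) (Vw i1 i2) (UW u i1 i2) :=
  pos_Uf (one_le_Yw u) (Vw i1 i2) (Iw_zero u i1 i2)

/-- **the trunk statement for the letters of the walk** -/
theorem trunkOutW (F : Frame Q κ R) (hA : annealedProb Q 0 (escapeEvent (B2d.dirVec u)) ≠ 0)
    {i1 i2 : Fin d} (h1 : i1 ≠ u.1) (h2 : i2 ≠ u.1) (h12 : i1 ≠ i2)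
    (hcU : ClaimU (muW Q κ R u) (Yw u) (Vw i1 i2) (UW u i1 i2)) :
    TrunkOut (muW Q κ R u) (Yw u) (UW u i1 i2) := by
  have := probW F hA
  have hs := sum_noCut_ne_top F hA
  have hg : pairL (muW Q κ R u) (Good (Yw u))ᶜ = 0 :=
    good_ae _ (one_le_Yw u) (noCut_tendsto' _ hs)
  have ht := tendsto_tl' (muW Q κ R u) hs
  have hpos := posW u i1 i2
  have hcs := closeSum (muW Q κ R u) (one_le_Yw u) ht hpos hg
  have htc := tightCut (muW Q κ R u) (one_le_Yw u) ht hpos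
  exact trunkOut (muW Q κ R u) (one_le_Yw u) hg (body F hA h1 h2 h12) hcU
    (claimPi (muW Q κ R u) (one_le_Yw u) hpos hcs htc)
    (cutWindow (muW Q κ R u) (one_le_Yw u) ht) ENNReal.toReal_nonneg
    (sumRTail' (muW Q κ R u) (one_le_Yw u) hs)

/-! ### heights of 833 and 797 agree -/

lemma lev_eq_zht (m : Mark d) : Flux132.lev u (stp m) = zht u m := by
  obtain ⟨⟨f1, f2⟩, b⟩ := m
  obtain ⟨u1, u2⟩ := u
  unfold Flux132.lev zht stp stepVec
  by_cases h : f1 = u1
  · subst h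
    cases u2 <;> cases f2 <;> simp
  · have h' : u1 ≠ f1 := fun h' => h h'.symm
    cases u2 <;> cases f2 <;> simp [h, h']

lemma zt_eq (M : MPath d) (n : ℕ) : B6I.zt u M n = zh u M n := by
  unfold B6I.zt zh
  exact Finset.sum_congr rfl fun i _ => lev_eq_zht (M i)

lemma hit_iff' (l : ℕ) (M : MPath d) (n : ℕ) : B6I.Hit u l M n ↔ Hit u l n M := by
  unfold B6I.Hit B4Inst797.Hit
  simp only [zt_eq]

lemma NS_eq : NS u = Stay (mht (B2d.dirVec u)) := by
  ext M
  rw [stay_zh]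
  simp only [NS, mem_setOf_eq, zt_eq]

/-! ### from the marked walk to letters -/

lemma lat_sub' (i1 i2 : Fin d) (y z : Site d) : lat i1 i2 (y - z) = lat i1 i2 y - lat i1 i2 z := by
  have := lat_add i1 i2 (y - z) z
  rw [sub_add_cancel] at this
  rw [this]
  exact (add_sub_cancel_right _ _).symm

lemma exists_hit_regInf {s : MPath d} (hs : s ∈ RegInf (rhoU u κ R)) (l : ℕ) :
    ∃ n, Hit u l n s := by
  obtain ⟨n, hn, _⟩ := cut_hit hs l
  obtain ⟨k, _, hk⟩ := exists_hit (u := u) (l := l) (s := s) (N := n) (by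
    rw [hn.1]
    exact_mod_cast le_H (one_le_Yw u) l _)
  exact ⟨k, hk⟩

lemma lat_Up (i1 i2 : Fin d) {s : MPath d} (hs : s ∈ RegInf (rhoU u κ R)) (l : ℕ) :
    lat i1 i2 (Up u l s) = UW u i1 i2 l (blks (rhoU u κ R) s) := by
  obtain ⟨n, hn⟩ := exists_hit_regInf hs l
  have h0 : UU u i1 i2 l s = UW u i1 i2 l (blks (rhoU u κ R) s) := Uf_congr_ge i1 i2 hs
  rw [← h0, (hit_eq i1 i2 hn).2]
  unfold Up
  rw [B6I.hn_eq ((hit_iff' l s n).2 hn)]

lemma restrict_eq (F : Frame Q κ R) (hA : annealedProb Q 0 (escapeEvent (B2d.dirVec u)) ≠ 0) :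
    (mkAnn κ Q 0).restrict (NS u) = mkAnn κ Q 0 (NS u) • stL Q κ u := by
  rw [NS_eq]
  unfold stL ProbabilityTheory.cond
  rw [smul_smul, ENNReal.mul_inv_cancel (F.hp _ hA) (measure_ne_top _ _), one_smul]

lemma le_ofReal_of_real {Ω : Type*} [MeasurableSpace Ω] (μ : Measure Ω) [IsFiniteMeasure μ]
    {C : Set Ω} {v : ℝ} (h : μ.real C ≤ v) : μ C ≤ ENNReal.ofReal v := by
  rw [← ENNReal.ofReal_toReal (measure_ne_top μ C)]
  exact ENNReal.ofReal_le_ofReal h

theorem pull1 (F : Frame Q κ R) (hA : annealedProb Q 0 (escapeEvent (B2d.dirVec u)) ≠ 0)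
    {B : Set (MPath d)} {C : Set (ℕ → Word (Mark d))} (hC : MeasurableSet C)
    (h : ∀ s ∈ RegInf (rhoU u κ R), s ∈ B → blks (rhoU u κ R) s ∈ C) {v : ℝ}
    (hv : (iidL (muW Q κ R u)).real C ≤ v) :
    mkAnn κ Q 0 {M | M ∈ NS u ∧ M ∈ B} ≤ ENNReal.ofReal v := by
  have := probW F hA
  have hSm : MeasurableSet (NS u) := by rw [NS_eq]; exact measurableSet_Stay _
  have e1 : mkAnn κ Q 0 {M | M ∈ NS u ∧ M ∈ B} = ((mkAnn κ Q 0).restrict (NS u)) B := by
    rw [Measure.restrict_apply' hSm]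
    congr 1
    ext M; simp only [mem_setOf_eq, mem_inter_iff]; tauto
  rw [e1, restrict_eq F hA, Measure.smul_apply, smul_eq_mul]
  calc mkAnn κ Q 0 (NS u) * stL Q κ u B ≤ 1 * stL Q κ u B := by
        gcongr
        exact prob_le_one
    _ = stL Q κ u B := one_mul _
    _ ≤ stL Q κ u (blks (rhoU u κ R) ⁻¹' C) := by
        refine measure_mono_ae ?_
        filter_upwards [ae_regInfU F hA] with s hs hsB
        exact h s hs hsB
    _ = iidL (muW Q κ R u) C := by
        rw [← map_blksU F hA, Measure.map_apply (measurable_blks _) hC]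
    _ ≤ ENNReal.ofReal v := le_ofReal_of_real _ hv

theorem pull2 (F : Frame Q κ R) (hA : annealedProb Q 0 (escapeEvent (B2d.dirVec u)) ≠ 0)
    {B : Set (MPath d × MPath d)} {C : Set ((ℕ → Word (Mark d)) × (ℕ → Word (Mark d)))}
    (hC : MeasurableSet C)
    (h : ∀ p : MPath d × MPath d, p.1 ∈ RegInf (rhoU u κ R) → p.2 ∈ RegInf (rhoU u κ R) → p ∈ B →
      (blks (rhoU u κ R) p.1, blks (rhoU u κ R) p.2) ∈ C) {v : ℝ}
    (hv : (pairL (muW Q κ R u)).real C ≤ v) :
    ((mkAnn κ Q 0).prod (mkAnn κ Q 0)) {p | p.1 ∈ NS u ∧ p.2 ∈ NS u ∧ p ∈ B}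
      ≤ ENNReal.ofReal v := by
  have := probW F hA
  have hp : mkAnn κ Q 0 (Stay (mht (B2d.dirVec u))) ≠ 0 := F.hp _ hA
  have hst : IsProbabilityMeasure (stL Q κ u) := cond_isProbabilityMeasure hp
  have hSm : MeasurableSet (NS u) := by rw [NS_eq]; exact measurableSet_Stay _
  have e1 : ((mkAnn κ Q 0).prod (mkAnn κ Q 0)) {p | p.1 ∈ NS u ∧ p.2 ∈ NS u ∧ p ∈ B}
      = (((mkAnn κ Q 0).restrict (NS u)).prod ((mkAnn κ Q 0).restrict (NS u))) B := by
    rw [Measure.prod_restrict, Measure.restrict_apply' (hSm.prod hSm)]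
    congr 1
    ext p; simp only [mem_setOf_eq, mem_inter_iff, mem_prod]; tauto
  have hm : Measurable (blks (rhoU u κ R)) := measurable_blks _
  rw [e1, restrict_eq F hA, Measure.prod_smul_left, Measure.prod_smul_right, smul_smul,
    Measure.smul_apply, smul_eq_mul]
  calc mkAnn κ Q 0 (NS u) * mkAnn κ Q 0 (NS u) * ((stL Q κ u).prod (stL Q κ u)) B
      ≤ 1 * 1 * ((stL Q κ u).prod (stL Q κ u)) B := by
        gcongr
        · exact prob_le_one
        · exact prob_le_one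
    _ = ((stL Q κ u).prod (stL Q κ u)) B := by rw [one_mul, one_mul]
    _ ≤ ((stL Q κ u).prod (stL Q κ u))
        (Prod.map (blks (rhoU u κ R)) (blks (rhoU u κ R)) ⁻¹' C) := by
        refine measure_mono_ae ?_
        have h1 := Measure.quasiMeasurePreserving_fst (μ := stL Q κ u) (ν := stL Q κ u)
          |>.ae (ae_regInfU F hA)
        have h2 := Measure.quasiMeasurePreserving_snd (μ := stL Q κ u) (ν := stL Q κ u)
          |>.ae (ae_regInfU F hA)
        filter_upwards [h1, h2] with p hp1 hp2 hpB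
        exact h p hp1 hp2 hpB
    _ = pairL (muW Q κ R u) C := by
        rw [pairL, ← map_blksU F hA, Measure.map_prod_map _ _ hm hm,
          Measure.map_apply (hm.prodMap hm) hC]
    _ ≤ ENNReal.ofReal v := le_ofReal_of_real _ hv

/-- **THE TRUNK INPUT OF B4** (424's literal), every frame, two lateral directions. -/
theorem trunk (F : Frame Q κ R) (hA : annealedProb Q 0 (escapeEvent (B2d.dirVec u)) ≠ 0)
    {i1 i2 : Fin d} (h1 : i1 ≠ u.1) (h2 : i2 ≠ u.1) (h12 : i1 ≠ i2) : Trunk u κ Q := by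
  have hprob := probW F hA
  have hs := sum_noCut_ne_top F hA
  have hg : pairL (muW Q κ R u) (Good (Yw u))ᶜ = 0 :=
    good_ae _ (one_le_Yw u) (noCut_tendsto' _ hs)
  have ht := tendsto_tl' (muW Q κ R u) hs
  have hpos := posW u i1 i2
  have hT : TrunkOut (muW Q κ R u) (Yw u) (UW u i1 i2) := trunkOutW F hA h1 h2 h12
    (claimU (muW Q κ R u) (one_le_Yw u) hpos (closeSum (muW Q κ R u) (one_le_Yw u) ht hpos hg)
      (tightCut (muW Q κ R u) (one_le_Yw u) ht hpos) (tightInc (muW Q κ R u) (one_le_Yw u) ht hpos))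
  intro ε hε
  set ε' : ℝ := (min ε 1).toReal with hε'
  have hmin : min ε 1 ≠ ⊤ := ne_top_of_le_ne_top ENNReal.one_ne_top (min_le_right _ _)
  have hε'0 : 0 < ε' :=
    ENNReal.toReal_pos (lt_min (pos_iff_ne_zero.2 hε) one_pos).ne' hmin
  have hε'le : ENNReal.ofReal ε' ≤ ε := by
    rw [hε', ENNReal.ofReal_toReal hmin]
    exact min_le_left _ _
  obtain ⟨K₀, hK₀⟩ := hT ε' hε'0 3
  refine ⟨max K₀ 1, fun K hK => ?_⟩
  obtain ⟨T₀, hT₀⟩ := hK₀ K ((le_max_left _ _).trans hK)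
  have hK1 : 1 ≤ K := (le_max_right _ _).trans hK
  have hKr : (0 : ℝ) < K := by exact_mod_cast hK1
  refine ⟨T₀, fun t ht' => ?_⟩
  obtain ⟨E, v, hEm, hv0, hv, hU, hPi, hD⟩ := hT₀ t ht'
  refine ⟨{z | lat i1 i2 z ∈ E}, ENNReal.ofReal v, ?_, fun L => ?_, fun y => ?_, fun L => ?_⟩
  · have e : (K : ℝ≥0∞) * ENNReal.ofReal v ^ 2 = ENNReal.ofReal (K * v ^ 2) := by
      rw [ENNReal.ofReal_mul (Nat.cast_nonneg _), ENNReal.ofReal_natCast,
        ENNReal.ofReal_pow hv0]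
    rw [e]
    refine le_trans (ENNReal.ofReal_le_ofReal ?_) hε'le
    have h3 : 0 ≤ (K : ℝ) * v ^ 2 := by positivity
    push_cast at hv
    nlinarith
  · refine pull1 F hA (B := {M | Up u (L + 7 * t) M - Up u L M ∉ {z | lat i1 i2 z ∈ E}})
      (C := {a | UW u i1 i2 (L + 7 * t) a - UW u i1 i2 L a ∉ E}) ?_ ?_ (hU L)
    · exact (((hpos.meas (L + 7 * t)).sub (hpos.meas L)) hEm).compl
    · intro s hs hsB
      simp only [mem_setOf_eq] at hsB ⊢
      rwa [lat_sub', lat_Up i1 i2 hs, lat_Up i1 i2 hs] at hsB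
  · refine pull2 F hA (B := {p | ∃ k, K ≤ 2 * k ∧ k ≤ 3 * K ∧
        Up u ((k + 7) * t) p.1 - Up u (k * t) p.2 - y ∈ {z | lat i1 i2 z ∈ E}})
      (C := {p | ∃ k, K ≤ 2 * k ∧ k ≤ 3 * K ∧
        UW u i1 i2 ((k + 7) * t) p.1 - UW u i1 i2 (k * t) p.2 - lat i1 i2 y ∈ E}) ?_ ?_
      (hPi (lat i1 i2 y)) |>.trans hε'le
    · have : {p : (ℕ → Word (Mark d)) × (ℕ → Word (Mark d)) | ∃ k, K ≤ 2 * k ∧ k ≤ 3 * K ∧
          UW u i1 i2 ((k + 7) * t) p.1 - UW u i1 i2 (k * t) p.2 - lat i1 i2 y ∈ E}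
          = ⋃ k : ℕ, ⋃ _ : K ≤ 2 * k ∧ k ≤ 3 * K,
            {p | UW u i1 i2 ((k + 7) * t) p.1 - UW u i1 i2 (k * t) p.2 - lat i1 i2 y ∈ E} := by
        ext p
        simp only [mem_setOf_eq, mem_iUnion, exists_prop]
        constructor
        · rintro ⟨k, a, b, c⟩; exact ⟨k, ⟨a, b⟩, c⟩
        · rintro ⟨k, ⟨a, b⟩, c⟩; exact ⟨k, a, b, c⟩
      rw [this]
      refine MeasurableSet.iUnion fun k => MeasurableSet.iUnion fun _ => ?_
      exact ((((hpos.meas ((k + 7) * t)).comp measurable_fst).sub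
        ((hpos.meas (k * t)).comp measurable_snd)).sub_const _) hEm
    · rintro p hp1 hp2 ⟨k, a, b, c⟩
      refine ⟨k, a, b, ?_⟩
      simp only [mem_setOf_eq] at c
      rwa [lat_sub', lat_sub', lat_Up i1 i2 hp1, lat_Up i1 i2 hp2] at c
  · have h3 : mkAnn κ Q 0 {M | M ∈ NS u ∧ NoCutW u L t M} ≤ ENNReal.ofReal (ε' / K) := by
      refine pull1 F hA (B := {M | NoCutW u L t M})
        (C := {a | ∀ i, ¬ (L < H (Yw u) i a ∧ H (Yw u) i a ≤ L + t)}) ?_ ?_ (hD L)
      · have : {a : ℕ → Word (Mark d) | ∀ i, ¬ (L < H (Yw u) i a ∧ H (Yw u) i a ≤ L + t)}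
            = ⋂ i : ℕ, ({a | L < H (Yw u) i a} ∩ {a | H (Yw u) i a ≤ L + t})ᶜ := by
          ext a
          simp only [mem_setOf_eq, mem_iInter, mem_compl_iff, mem_inter_iff]
        rw [this]
        exact MeasurableSet.iInter fun i => ((measurableSet_lt measurable_const
          (measurable_H _ i)).inter (measurableSet_le (measurable_H _ i) measurable_const)).compl
      · intro s hs hsB i hi
        obtain ⟨n, hn, hst⟩ := cut_hit hs i
        obtain ⟨j, hj1, hj2⟩ := hsB _ n hi.1.le hi.2 ((hit_iff' _ s n).2 hn)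
        rw [zt_eq] at hj2
        obtain ⟨m, rfl⟩ := Nat.exists_eq_add_of_le hj1
        rw [zh_add, hn.1] at hj2
        have := stay_zh.1 hst m
        linarith
    calc (K : ℝ≥0∞) * mkAnn κ Q 0 {M | M ∈ NS u ∧ NoCutW u L t M}
        ≤ (K : ℝ≥0∞) * ENNReal.ofReal (ε' / K) := by gcongr
      _ = ENNReal.ofReal ε' := by
          rw [← ENNReal.ofReal_natCast, ← ENNReal.ofReal_mul (Nat.cast_nonneg _)]
          congr 1
          field_simp
      _ ≤ ε := hε'le

end Crest.Agent.R154.J132
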