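import Crest.Agent.R154.J6_24
import Crest.Agent.R154.JObj1_132
import Crest.Agent.R154.Slab_491

/-! Row 154, block `d = 2`, D2.2: the tail of the joint block from a tube of width `w` for the
levels `[0, 4h)`: `h P(h ≤ R < 2h, B ≥ r) ≤ C ρ ^ ⌊c r / w⌋` (J6 + slab lemma). -/

set_option autoImplicit false
set_option linter.unusedSectionVars false
set_option linter.deprecated false

namespace Crest.Agent.R154.J6_24

open MeasureTheory ProbabilityTheory Filter Set Crest.ProbabilityR.RandomEnvironment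
open Crest.Agent.R154.Mk561 Crest.Agent.R154.Bind263 Crest.Agent.R154.B4Inst797
open Crest.Agent.R154.J132
open Crest.Agent.R154.Flux132 (lev)
open Crest.Agent.R154.Ren263 (Word pre hgt Stay Record len_pre hgt_zero hgt_shift measurableSet_Stay)
open Crest.Agent.R154.RenG263 (RecSys Reg tau tau_spec tau_min blk0 blks RegInf rest_mem reg_shift
  wordLaw RenewalG measurable_blks)
open scoped ENNReal Topology

variable {d : ℕ} {u : Step d} {κ : ℝ} {R : ℕ}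

/-- the `i`-th coordinate as a real functional -/
def phi (i : Fin d) : Site d →+ ℝ := (Int.castAddHom ℝ).comp (Pi.evalAddMonoidHom (fun _ => ℤ) i)

@[simp] lemma phi_apply (i : Fin d) (z : Site d) : phi i z = (z i : ℝ) := rfl

/-- the functional `Bj` of 132 is a same-level extent -/
lemma bad_of_le_Bj (i : Fin d) (w : List (Word (Mark d)) × List (Word (Mark d))) (r : ℕ)
    (h : r ≤ ⌊Bj u (phi i) w⌋₊) : w ∈ Bad u i r := by
  have h1 : (r : ℝ) ≤ Bj u (phi i) w :=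
    (Nat.cast_le.2 h).trans (Nat.floor_le (Bj_nonneg (u := u) (phi i) w))
  unfold Bj dev at h1
  obtain ⟨q, hq, he⟩ := Finset.exists_mem_eq_sup' (same_nonempty u (flw w.1) (flw w.2))
    (fun q => |phi i (ps ((flw w.1).take q.1)) - phi i (ps ((flw w.2).take q.2))|)
  rw [he] at h1
  simp only [same, Finset.mem_filter, Finset.mem_product, Finset.mem_range] at hq
  refine ⟨(flw w.1).take q.1, (flw w.2).take q.2, List.take_prefix _ _, List.take_prefix _ _,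
    hq.2, ?_⟩
  have h2 : (r : ℝ) ≤ ((|wl i ((flw w.1).take q.1) - wl i ((flw w.2).take q.2)| : ℤ) : ℝ) := by
    push_cast
    exact h1
  exact_mod_cast h2

section law
variable {Q : Measure (Environment d)} [IsProbabilityMeasure Q]

/-- a tube for the natural walk gives an annealed climb -/
theorem climb_of_tube (F : Frame Q κ R) (hA : annealedProb Q 0 (escapeEvent (B2d.dirVec u)) ≠ 0)
    (i : Fin d) (v : ℤ → ℤ) (n : ℕ) (w A : ℤ) (hwA : w < A) {c : ℝ≥0∞}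
    (hv : c ≤ stL Q κ u {s | ∀ t, zh u s t < n → |pos 0 s t i - v (zh u s t)| ≤ w}) :
    mkAnn κ Q 0 (Stay (mht (B2d.dirVec u))) * c ≤ annealedProb Q 0
      {X | ∃ m, lev u (X m) = (n : ℤ) ∧ ∀ j < m, 0 ≤ lev u (X j) ∧ lev u (X j) < (n : ℤ) ∧
        |X j i - v (lev u (X j))| < A} := by
  set p := mkAnn κ Q 0 (Stay (mht (B2d.dirVec u))) with hp
  have hp0 : p ≠ 0 := F.hp _ hA
  set C : Set (Path d) := {X | ∃ m, lev u (X m) = (n : ℤ) ∧ ∀ j < m, 0 ≤ lev u (X j) ∧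
    lev u (X j) < (n : ℤ) ∧ |X j i - v (lev u (X j))| < A} with hC
  have hCm : MeasurableSet C := by
    have e : C = ⋃ m : ℕ, ((fun X : Path d => X m) ⁻¹' {z | lev u z = (n : ℤ)} ∩
        ⋂ j : ℕ, ⋂ _ : j < m, (fun X : Path d => X j) ⁻¹' {z | 0 ≤ lev u z ∧
          lev u z < (n : ℤ) ∧ |z i - v (lev u z)| < A}) := by
      ext X
      simp [hC]
    rw [e]
    refine MeasurableSet.iUnion fun m => (measurable_pi_apply m
      (Set.to_countable _).measurableSet).inter (MeasurableSet.iInter fun j =>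
      MeasurableSet.iInter fun _ => measurable_pi_apply j (Set.to_countable _).measurableSet)
  have h1 : stL Q κ u {s | ∀ t, zh u s t < n → |pos 0 s t i - v (zh u s t)| ≤ w}
      ≤ stL Q κ u (mpath 0 ⁻¹' C) := by
    refine measure_mono_ae ?_
    filter_upwards [ae_regInfU F hA] with s hs hw
    obtain ⟨m, hm⟩ := exists_hit_regInf hs n
    refine ⟨m, ?_, fun j hj => ?_⟩
    · change lev u (pos 0 s m) = _
      rw [lev_pos]; exact hm.1
    · change 0 ≤ lev u (pos 0 s j) ∧ lev u (pos 0 s j) < (n : ℤ) ∧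
        |pos 0 s j i - v (lev u (pos 0 s j))| < A
      rw [lev_pos]
      exact ⟨stay_zh.1 hs.1 j, hm.2 j hj, lt_of_le_of_lt (hw j (hm.2 j hj)) hwA⟩
  have h2 : stL Q κ u (mpath 0 ⁻¹' C) ≤ p⁻¹ * annealedProb Q 0 C := by
    rw [stL, cond_apply (measurableSet_Stay _), ← F.prob_eq hCm]
    gcongr
    exact inter_subset_right
  calc p * c ≤ p * (p⁻¹ * annealedProb Q 0 C) := by
        gcongr
        exact hv.trans (h1.trans h2)
    _ = annealedProb Q 0 C := by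
        rw [← mul_assoc, ENNReal.mul_inv_cancel hp0 (measure_ne_top _ _), one_mul]

end law

section two

variable {u : Step 2} {i : Fin 2}

/-- a deviation of the annealed walk from a tube, `d = 2` -/
theorem dev_le (ν : Measure (Row 2)) [IsProbabilityMeasure ν]
    (hν : ∀ᵐ q ∂ν, ∀ e : Step 2, 0 < q.1 e) (hi : i ≠ u.1)
    (hA : annealedProb (iidEnvironmentLaw ν) 0 (escapeEvent (B2d.dirVec u)) ≠ 0)
    (v : ℤ → ℤ) {n w : ℕ} (hn : 1 ≤ n) (hw : 1 ≤ w) {c : ℝ≥0∞}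
    (hv : c ≤ stL (iidEnvironmentLaw ν) 0 u
      {s | ∀ t, zh u s t < n → |pos 0 s t i - v (zh u s t)| ≤ 2 * w}) :
    ∃ v' : ℤ → ℤ, ∀ r : ℕ, annealedProb (iidEnvironmentLaw ν) 0 (DevX u i v' n r)
      ≤ 2 * (1 - mkAnn 0 (iidEnvironmentLaw ν) 0 (Stay (mht (B2d.dirVec u))) * c) ^ (r / (84 * w))
        := by
  have F := frame_iid ν hν
  have hp0 : mkAnn 0 (iidEnvironmentLaw ν) 0 (Stay (mht (B2d.dirVec u))) ≠ 0 := F.hp _ hA
  have hone : ∀ (v : ℤ → ℤ) (r : ℕ),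
      annealedProb (iidEnvironmentLaw ν) 0 (DevX u i v n r) ≤ 2 := fun v r => by
    have : annealedProb (iidEnvironmentLaw ν) 0 (DevX u i v n r) ≤ 1 := by
      rw [← F.prob_eq (measurableSet_DevX u i v n r)]
      exact prob_le_one
    exact this.trans (by norm_num)
  by_cases hc0 : c = 0
  · refine ⟨v, fun r => ?_⟩
    rw [hc0, mul_zero, tsub_zero, one_pow, mul_one]
    exact hone v r
  -- some path stays in the tube: |v 0| ≤ 2 w
  have hv0 : |v 0| ≤ 2 * (w : ℤ) := by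
    have hne : stL (iidEnvironmentLaw ν) 0 u
        {s | ∀ t, zh u s t < n → |pos 0 s t i - v (zh u s t)| ≤ 2 * w} ≠ 0 := by
      intro h
      rw [h] at hv
      exact hc0 (le_antisymm hv (zero_le))
    obtain ⟨s, hs⟩ := nonempty_of_measure_ne_zero hne
    have := hs 0 (by rw [zh_zero]; exact_mod_cast hn)
    rw [zh_zero, pos_zero] at this
    simpa using this
  set v' : ℤ → ℤ := fun l => v l - v 0 with hv'
  have hv'' : c ≤ stL (iidEnvironmentLaw ν) 0 u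
      {s | ∀ t, zh u s t < n → |pos 0 s t i - v' (zh u s t)| ≤ 4 * w} := by
    refine hv.trans (measure_mono fun s hs t ht => ?_)
    have h1 := hs t ht
    have h2 : pos 0 s t i - v' (zh u s t) = (pos 0 s t i - v (zh u s t)) + v 0 := by
      simp only [hv']; ring
    rw [h2]
    exact (abs_add_le _ _).trans (by linarith)
  have hcl := climb_of_tube F hA i v' n (4 * w) (4 * w + 1) (by omega) hv''
  refine ⟨v', fun r => ?_⟩
  rcases Nat.eq_zero_or_pos r with hr0 | hr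
  · rw [hr0, Nat.zero_div, pow_zero, mul_one]
    exact hone v' 0
  set K := r / (84 * w) with hK
  have hl : (0 : ℤ) < (n : ℤ) := by exact_mod_cast hn
  have hw' : (1 : ℤ) ≤ w := by exact_mod_cast hw
  have hlev0 : lev u (0 : Site 2) = 0 := by unfold lev; split_ifs <;> simp
  have key := Slab491.slab2' ν hν u hi v' (l0 := 0) (l1 := (n : ℤ)) (A := 4 * w + 1) (r := 1)
    (by omega) hl (xb := 0) (x0 := 0) hlev0 (by simp [hv']) hcl (by rw [hlev0])
    (by rw [hlev0]; exact hl) (by rw [hlev0]; simp [hv']) K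
  refine le_trans ?_ key
  have F' := F.prob_eq (measurableSet_DevX u i v' n r)
  unfold annealedProb
  refine lintegral_mono fun ω => measure_mono ?_
  rintro X ⟨t, ht1, ht2⟩
  refine ⟨t, ?_, ht1⟩
  have hKr : 84 * w * K ≤ r := Nat.mul_div_le r (84 * w)
  have hKr' : 84 * (w : ℤ) * K ≤ r := by exact_mod_cast hKr
  have hr' : (1 : ℤ) ≤ r := by exact_mod_cast hr
  rcases Nat.eq_zero_or_pos K with h0 | h0
  · rw [h0]
    push_cast
    omega
  · have h0' : (1 : ℤ) ≤ K := by exact_mod_cast h0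
    have h5 : (1 : ℤ) ≤ (w : ℤ) * K := by nlinarith
    have h6 : (K : ℤ) ≤ (w : ℤ) * K := by nlinarith
    nlinarith

/-- law of the first joint block -/
theorem tail_of_tube (ν : Measure (Row 2)) [IsProbabilityMeasure ν]
    (hν : ∀ᵐ q ∂ν, ∀ e : Step 2, 0 < q.1 e) (hi : i ≠ u.1)
    (hA : annealedProb (iidEnvironmentLaw ν) 0 (escapeEvent (B2d.dirVec u)) ≠ 0)
    (v : ℤ → ℤ) {h w : ℕ} (hw : 1 ≤ w) {c : ℝ≥0∞}
    (hv : c ≤ stL (iidEnvironmentLaw ν) 0 u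
      {s | ∀ t, zh u s t < ((4 * h : ℕ) : ℤ) → |pos 0 s t i - v (zh u s t)| ≤ 2 * w})
    (r : ℕ) :
    (h : ℝ≥0∞) * (mkAnn 0 (iidEnvironmentLaw ν) 0 (Stay (mht (B2d.dirVec u)))) ^ 2 *
        pairL (muW (iidEnvironmentLaw ν) 0 0 u) {p | h ≤ Rj u (wd (Yw u) p) ∧
          Rj u (wd (Yw u) p) < 2 * h ∧ (r : ℝ) ≤ Bj u (phi i) (wd (Yw u) p)}
      ≤ 4 * ((mkAnn 0 (iidEnvironmentLaw ν) 0 (Stay (mht (B2d.dirVec u))))⁻¹ *
        (1 - mkAnn 0 (iidEnvironmentLaw ν) 0 (Stay (mht (B2d.dirVec u))) * c) ^ (r / (84 * w))) := by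
  have F := frame_iid ν hν
  rcases Nat.eq_zero_or_pos h with h0 | h0
  · subst h0
    rw [Nat.cast_zero, zero_mul, zero_mul]
    exact zero_le
  obtain ⟨v', hv'⟩ := dev_le ν hν hi hA v (n := 4 * h) (by omega) hw hv
  have key := J6 (κ := 0) F hA i (fun w => ⌊Bj u (phi i) w⌋₊)
    (fun w r hr => bad_of_le_Bj i w r hr) v' h r
  have e : {p : (ℕ → Word (Mark 2)) × (ℕ → Word (Mark 2)) | h ≤ Rj u (wd (Yw u) p) ∧
          Rj u (wd (Yw u) p) < 2 * h ∧ (r : ℝ) ≤ Bj u (phi i) (wd (Yw u) p)}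
      = {p | h ≤ R0 (Yw u) p ∧ R0 (Yw u) p < 2 * h ∧ r ≤ ⌊Bj u (phi i) (wd (Yw u) p)⌋₊} := by
    ext p
    simp only [mem_setOf_eq, Rj, hw_wd]
    rw [Nat.le_floor_iff (Bj_nonneg _ _)]
  rw [e]
  refine key.trans ?_
  calc 2 * ((mkAnn 0 (iidEnvironmentLaw ν) 0 (Stay (mht (B2d.dirVec u))))⁻¹ *
        annealedProb (iidEnvironmentLaw ν) 0 (DevX u i v' (4 * h) r))
      ≤ 2 * ((mkAnn 0 (iidEnvironmentLaw ν) 0 (Stay (mht (B2d.dirVec u))))⁻¹ *
        (2 * (1 - mkAnn 0 (iidEnvironmentLaw ν) 0 (Stay (mht (B2d.dirVec u))) * c)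
          ^ (r / (84 * w)))) := by
        gcongr
        exact hv' r
    _ = _ := by ring

/-- **D2.2**: the hypothesis `htail` of `nda_geo` (738) for the law of the joint blocks of two
independent natural walkers, from tubes of width `2 wdt n` for the levels `[0, n)` -/
theorem htail_of_tubes (ν : Measure (Row 2)) [IsProbabilityMeasure ν]
    (hν : ∀ᵐ q ∂ν, ∀ e : Step 2, 0 < q.1 e) (hi : i ≠ u.1)
    (hA : annealedProb (iidEnvironmentLaw ν) 0 (escapeEvent (B2d.dirVec u)) ≠ 0)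
    {c : ℝ≥0∞} (hc : c ≠ 0) {wdt : ℕ → ℕ} (hw : ∀ n, 1 ≤ wdt n)
    (htube : ∀ n : ℕ, 1 ≤ n → ∃ v : ℤ → ℤ, c ≤ stL (iidEnvironmentLaw ν) 0 u
      {s | ∀ t, zh u s t < (n : ℤ) → |pos 0 s t i - v (zh u s t)| ≤ 2 * wdt n}) :
    ∃ C ρ c' : ℝ, 0 ≤ C ∧ 0 ≤ ρ ∧ ρ < 1 ∧ 0 < c' ∧ ∀ h : ℕ, 1 ≤ h → ∀ r : ℝ, 0 < r →
      (h : ℝ) * (pairL (muW (iidEnvironmentLaw ν) 0 0 u)).real {p | h ≤ Rj u (wd (Yw u) p) ∧
          Rj u (wd (Yw u) p) < 2 * h ∧ r ≤ Bj u (phi i) (wd (Yw u) p)}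
        ≤ C * ρ ^ ⌊c' * r / (wdt (4 * h) : ℝ)⌋₊ := by
  have F := frame_iid ν hν
  have hpr := probW F hA
  set p := mkAnn 0 (iidEnvironmentLaw ν) 0 (Stay (mht (B2d.dirVec u))) with hp
  have hp0 : p ≠ 0 := F.hp _ hA
  have hpt : p ≠ ⊤ := measure_ne_top _ _
  set P := pairL (muW (iidEnvironmentLaw ν) 0 0 u) with hP
  have hpc : p * c ≠ 0 := mul_ne_zero hp0 hc
  set C : ℝ≥0∞ := 4 * p⁻¹ * (p ^ 2)⁻¹ with hC
  have hCt : C ≠ ⊤ := ENNReal.mul_ne_top (ENNReal.mul_ne_top (by norm_num)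
    (ENNReal.inv_ne_top.2 hp0)) (ENNReal.inv_ne_top.2 (pow_ne_zero _ hp0))
  have h1 : 1 - p * c < 1 := ENNReal.sub_lt_self ENNReal.one_ne_top one_ne_zero hpc
  refine ⟨C.toReal, (1 - p * c).toReal, 1 / 84, ENNReal.toReal_nonneg, ENNReal.toReal_nonneg, ?_,
    by norm_num, fun h hh r hr => ?_⟩
  · have := (ENNReal.toReal_lt_toReal h1.ne_top ENNReal.one_ne_top).2 h1
    simpa using this
  obtain ⟨v, hv⟩ := htube (4 * h) (by omega)
  have key := tail_of_tube ν hν hi hA v (hw (4 * h)) hv ⌊r⌋₊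
  rw [← hp, ← hP] at key
  have hfl : ⌊1 / 84 * r / (wdt (4 * h) : ℝ)⌋₊ = ⌊r⌋₊ / (84 * wdt (4 * h)) := by
    have e : 1 / 84 * r / (wdt (4 * h) : ℝ) = r / ((84 * wdt (4 * h) : ℕ) : ℝ) := by
      push_cast
      have : (wdt (4 * h) : ℝ) ≠ 0 := by
        have := hw (4 * h)
        positivity
      field_simp
    rw [e, Nat.floor_div_natCast]
  rw [hfl]
  have hsub : P {q | h ≤ Rj u (wd (Yw u) q) ∧ Rj u (wd (Yw u) q) < 2 * h ∧
        r ≤ Bj u (phi i) (wd (Yw u) q)}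
      ≤ P {q | h ≤ Rj u (wd (Yw u) q) ∧ Rj u (wd (Yw u) q) < 2 * h ∧
        (⌊r⌋₊ : ℝ) ≤ Bj u (phi i) (wd (Yw u) q)} :=
    measure_mono fun q hq => ⟨hq.1, hq.2.1, (Nat.floor_le hr.le).trans hq.2.2⟩
  have main : (h : ℝ≥0∞) * P {q | h ≤ Rj u (wd (Yw u) q) ∧ Rj u (wd (Yw u) q) < 2 * h ∧
        r ≤ Bj u (phi i) (wd (Yw u) q)} ≤ C * (1 - p * c) ^ (⌊r⌋₊ / (84 * wdt (4 * h))) := by
    have hp2 : p ^ 2 ≠ 0 := pow_ne_zero _ hp0
    have hp2t : p ^ 2 ≠ ⊤ := ENNReal.pow_ne_top hpt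
    have e1 : (h : ℝ≥0∞) * P {q | h ≤ Rj u (wd (Yw u) q) ∧ Rj u (wd (Yw u) q) < 2 * h ∧
        r ≤ Bj u (phi i) (wd (Yw u) q)} = (p ^ 2)⁻¹ * ((h : ℝ≥0∞) * p ^ 2 *
          P {q | h ≤ Rj u (wd (Yw u) q) ∧ Rj u (wd (Yw u) q) < 2 * h ∧
            r ≤ Bj u (phi i) (wd (Yw u) q)}) := by
      rw [← mul_assoc, mul_comm (h : ℝ≥0∞) (p ^ 2), ← mul_assoc, ENNReal.inv_mul_cancel hp2 hp2t,
        one_mul]
    rw [e1]
    calc (p ^ 2)⁻¹ * ((h : ℝ≥0∞) * p ^ 2 *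
          P {q | h ≤ Rj u (wd (Yw u) q) ∧ Rj u (wd (Yw u) q) < 2 * h ∧
            r ≤ Bj u (phi i) (wd (Yw u) q)})
        ≤ (p ^ 2)⁻¹ * (4 * (p⁻¹ * (1 - p * c) ^ (⌊r⌋₊ / (84 * wdt (4 * h))))) := by
          refine mul_le_mul' le_rfl (le_trans ?_ key)
          gcongr
      _ = C * (1 - p * c) ^ (⌊r⌋₊ / (84 * wdt (4 * h))) := by rw [hC]; ring
  have hfin : C * (1 - p * c) ^ (⌊r⌋₊ / (84 * wdt (4 * h))) ≠ ⊤ :=
    ENNReal.mul_ne_top hCt (ENNReal.pow_ne_top h1.ne_top)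
  have := ENNReal.toReal_mono hfin main
  rw [ENNReal.toReal_mul, ENNReal.toReal_mul, ENNReal.toReal_pow, ENNReal.toReal_natCast] at this
  exact this

end two

end Crest.Agent.R154.J6_24
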