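import Crest.Agent.R154.TubeObj_504
import Crest.Agent.R154.JObj3_132
import Crest.Agent.R154.Hair_738
import Crest.Agent.R154.J6Fin_24

/-!
# Row 154, d = 2: the hypothesis `htube` of `htail_of_tubes` (24) with the Kolmogorov width of 738

`tube_int` : object form with a general `η` (natural law of 132).
`htube_of` : any `n, r` with `n P(B > r) ≤ 1/16`, `n ∫_{B ≤ r} V² ≤ r²/64`.
`htube`    : `r = Hair738.wd P V B n`.
-/

set_option autoImplicit false
set_option linter.unusedSectionVars false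
set_option linter.deprecated false

namespace Crest.Agent.R154.Tube504

open MeasureTheory ProbabilityTheory Filter Set Crest.ProbabilityR.RandomEnvironment
open Crest.Agent.R154.Mk561 Crest.Agent.R154.Bind263 Crest.Agent.R154.B4Inst797
open Crest.Agent.R154.Ren263 (Word Stay)
open Crest.Agent.R154.RenG263 (blks RegInf measurable_blks)
open Crest.Agent.R154.J132
open Crest.Agent.R154.KB424 (NS)
open scoped ENNReal

variable {d : ℕ} {u : Step d} {κ : ℝ} {R : ℕ} {Q : Measure (Environment d)}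
  [IsProbabilityMeasure Q]

lemma latR_eq_phi (i : Fin d) : (latR i : Site d →+ ℝ) = J6_24.phi i := rfl

/-- **TUBE, object form, general `η`** -/
theorem tube_int (F : Frame Q κ R)
    (hA : annealedProb Q 0 (escapeEvent (B2d.dirVec u)) ≠ 0) (i : Fin d) {r : ℕ}
    (hr : 0 < r) (n : ℕ) {η : ℝ}
    (hη : 2 * (n * trV Q κ R u (J6_24.phi i) r) + n * tlB Q κ R u (J6_24.phi i) r ≤ η) :
    ∃ w : ℤ → ℤ, w 0 = 0 ∧ ENNReal.ofReal (1 - η) ≤ stL Q κ u
      {s | ∀ t, zh u s t < (n : ℤ) → |pos 0 s t i - w (zh u s t)| ≤ 2 * r} := by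
  have hp : mkAnn κ Q 0 (Stay (mht (B2d.dirVec u))) ≠ 0 := F.hp _ hA
  have hst : IsProbabilityMeasure (stL Q κ u) := cond_isProbabilityMeasure hp
  have hr0 : (0:ℝ) < r := by exact_mod_cast hr
  obtain ⟨y, hy0, -, hy⟩ := tube_nat F hA (J6_24.phi i) hr0 n hη
  refine ⟨fun l => y l.toNat i, by simp [hy0], ?_⟩
  set v : ℤ → ℤ := fun l => y l.toNat i with hv
  set Bad : Set (MPath d) := {s | ∃ t, zh u s t < n ∧
    2 * (r : ℝ) < |J6_24.phi i (pos 0 s t) - J6_24.phi i (y (zh u s t).toNat)|} with hBad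
  have hBm : MeasurableSet Bad := by
    have e : Bad = ⋃ t : ℕ, {s : MPath d | zh u s t < n ∧
        2 * (r : ℝ) < |J6_24.phi i (pos 0 s t) - J6_24.phi i (y (zh u s t).toNat)|} := by
      ext s; simp [hBad]
    rw [e]
    refine MeasurableSet.iUnion fun t => ?_
    have m1 : Measurable fun s : MPath d => (zh u s t, pos 0 s t) :=
      (measurable_zh t).prodMk (B4Inst797.measurable_pos 0 t)
    exact m1 (Set.to_countable {x : ℤ × Site d | x.1 < n ∧
      2 * (r : ℝ) < |J6_24.phi i x.2 - J6_24.phi i (y x.1.toNat)|}).measurableSet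
  have h1 : ENNReal.ofReal (1 - η) ≤ stL Q κ u Badᶜ := by
    rw [measure_compl hBm (measure_ne_top _ _), measure_univ]
    rw [ENNReal.ofReal_sub _ (by
      have h0 : 0 ≤ trV Q κ R u (J6_24.phi i) r :=
        integral_nonneg fun p => le_min (sq_nonneg _) zero_le_one
      have h0' : 0 ≤ tlB Q κ R u (J6_24.phi i) r := measureReal_nonneg
      have : (0:ℝ) ≤ n := Nat.cast_nonneg n
      refine le_trans ?_ hη
      positivity), ENNReal.ofReal_one]
    exact tsub_le_tsub_left hy 1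
  refine h1.trans (measure_mono ?_)
  intro s hs t ht
  by_contra hc
  push Not at hc
  apply hs
  refine ⟨t, ht, ?_⟩
  rw [J6_24.phi_apply, J6_24.phi_apply]
  have hc' : ((2 * r : ℤ) : ℝ) < ((|pos 0 s t i - v (zh u s t)| : ℤ) : ℝ) := by
    exact_mod_cast hc
  rw [Int.cast_abs] at hc'
  push_cast at hc'
  exact hc'

/-- increment of the difference, on letter sequences -/
noncomputable def VJ (u : Step d) (φ : Site d →+ ℝ)
    (p : (ℕ → Word (Mark d)) × (ℕ → Word (Mark d))) : ℝ := Vj φ (wd (Yw u) p)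

/-- deviation of the difference, on letter sequences -/
noncomputable def BJ (u : Step d) (φ : Site d →+ ℝ)
    (p : (ℕ → Word (Mark d)) × (ℕ → Word (Mark d))) : ℝ := Bj u φ (wd (Yw u) p)

lemma measurable_VJ (φ : Site d →+ ℝ) : Measurable (VJ u φ) := measurable_wd (Vj φ) (one_le_Yw u)

lemma measurable_BJ (φ : Site d →+ ℝ) : Measurable (BJ u φ) :=
  measurable_wd (Bj u φ) (one_le_Yw u)

theorem ae_VJ_le (F : Frame Q κ R) (hA : annealedProb Q 0 (escapeEvent (B2d.dirVec u)) ≠ 0)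
    (φ : Site d →+ ℝ) : ∀ᵐ p ∂(pairL (muW Q κ R u)), |VJ u φ p| ≤ BJ u φ p := by
  have h := tri_le F hA φ
  unfold triL jlawOf at h
  have h2 := ae_of_ae_map (measurable_wd (tri u φ) (one_le_Yw u)).aemeasurable h
  filter_upwards [h2] with p hp
  exact hp.1

/-- the increment cut to `|V| ≤ B` everywhere -/
noncomputable def VJ' (u : Step d) (φ : Site d →+ ℝ)
    (p : (ℕ → Word (Mark d)) × (ℕ → Word (Mark d))) : ℝ :=
  if |VJ u φ p| ≤ BJ u φ p then VJ u φ p else 0

lemma measurable_VJ' (φ : Site d →+ ℝ) : Measurable (VJ' u φ) :=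
  Measurable.ite (measurableSet_le (measurable_VJ φ).abs (measurable_BJ φ)) (measurable_VJ φ)
    measurable_const

lemma abs_VJ'_le (φ : Site d →+ ℝ) (p : (ℕ → Word (Mark d)) × (ℕ → Word (Mark d))) :
    |VJ' u φ p| ≤ BJ u φ p := by
  unfold VJ'
  split_ifs with h
  · exact h
  · rw [abs_zero]; exact Bj_nonneg φ _

theorem ae_VJ' (F : Frame Q κ R) (hA : annealedProb Q 0 (escapeEvent (B2d.dirVec u)) ≠ 0)
    (φ : Site d →+ ℝ) : ∀ᵐ p ∂(pairL (muW Q κ R u)), VJ' u φ p = VJ u φ p := by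
  filter_upwards [ae_VJ_le F hA φ] with p hp
  unfold VJ'
  rw [if_pos hp]

theorem U_VJ' (F : Frame Q κ R) (hA : annealedProb Q 0 (escapeEvent (B2d.dirVec u)) ≠ 0)
    (φ : Site d →+ ℝ) (w : ℝ) :
    Hair738.U (pairL (muW Q κ R u)) (VJ' u φ) (BJ u φ) w
      = Hair738.U (pairL (muW Q κ R u)) (VJ u φ) (BJ u φ) w := by
  unfold Hair738.U
  refine integral_congr_ae (ae_restrict_of_ae ?_)
  filter_upwards [ae_VJ' F hA φ] with p hp
  rw [hp]

theorem wd_VJ' (F : Frame Q κ R) (hA : annealedProb Q 0 (escapeEvent (B2d.dirVec u)) ≠ 0)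
    (φ : Site d →+ ℝ) (n : ℕ) :
    Hair738.wd (pairL (muW Q κ R u)) (VJ' u φ) (BJ u φ) n
      = Hair738.wd (pairL (muW Q κ R u)) (VJ u φ) (BJ u φ) n := by
  unfold Hair738.wd
  simp_rw [U_VJ' F hA φ]

theorem coreJ (F : Frame Q κ R) (hA : annealedProb Q 0 (escapeEvent (B2d.dirVec u)) ≠ 0)
    (φ : Site d →+ ℝ) (hne : pairL (muW Q κ R u) {p | VJ u φ p ≠ 0} ≠ 0) :
    Hair738.Core (Hair738.T (pairL (muW Q κ R u)) (BJ u φ))
      (Hair738.U (pairL (muW Q κ R u)) (VJ' u φ) (BJ u φ)) := by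
  have := probW F hA
  refine Hair738.core (measurable_VJ' φ) (measurable_BJ φ) (abs_VJ'_le φ) ?_
  have h1 : pairL (muW Q κ R u) {p | VJ' u φ p ≠ 0} = pairL (muW Q κ R u) {p | VJ u φ p ≠ 0} := by
    refine measure_congr ?_
    filter_upwards [ae_VJ' F hA φ] with p hp
    exact propext (by
      change VJ' u φ p ≠ 0 ↔ VJ u φ p ≠ 0
      rw [hp])
  rw [h1]; exact hne

/-- truncation: `E min((V/r)², 1) ≤ U(r)/r² + P(B > r)` -/
theorem trV_le (F : Frame Q κ R) (hA : annealedProb Q 0 (escapeEvent (B2d.dirVec u)) ≠ 0)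
    (φ : Site d →+ ℝ) {r : ℝ} (hr : 0 < r) :
    trV Q κ R u φ r ≤ Hair738.U (pairL (muW Q κ R u)) (VJ u φ) (BJ u φ) r / r ^ 2
      + (pairL (muW Q κ R u)).real {p | r < BJ u φ p} := by
  have := probW F hA
  set P := pairL (muW Q κ R u) with hP
  have hmB : MeasurableSet {p | BJ u φ p ≤ r} := measurableSet_le (measurable_BJ φ) measurable_const
  have hmB' : MeasurableSet {p | r < BJ u φ p} :=
    measurableSet_lt measurable_const (measurable_BJ φ)
  have hV := measurable_VJ (u := u) φ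
  have hI1 : Integrable (({p | BJ u φ p ≤ r}).indicator fun p => VJ u φ p ^ 2 / r ^ 2) P := by
    refine Integrable.of_bound (C := 1) ?_ ?_
    · exact ((hV.pow_const 2).div_const _).indicator hmB |>.aestronglyMeasurable
    · filter_upwards [ae_VJ_le F hA φ] with p hp
      by_cases h : BJ u φ p ≤ r
      · rw [Set.indicator_of_mem (by exact h), Real.norm_eq_abs, abs_of_nonneg (by positivity),
          div_le_one (by positivity)]
        have h1 : |VJ u φ p| ≤ r := hp.trans h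
        calc VJ u φ p ^ 2 = |VJ u φ p| ^ 2 := (sq_abs _).symm
          _ ≤ r ^ 2 := by gcongr
      · rw [Set.indicator_of_notMem (by exact h)]; simp
  have hI2 : Integrable (({p | r < BJ u φ p}).indicator fun _ => (1:ℝ)) P :=
    (integrable_const 1).indicator hmB'
  have hI3 : Integrable (fun p => min ((VJ u φ p / r) ^ 2) 1) P := by
    refine Integrable.of_bound (C := 1) ?_ (Eventually.of_forall fun p => ?_)
    · exact (((hV.div_const r).pow_const 2).min measurable_const).aestronglyMeasurable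
    · rw [Real.norm_eq_abs, abs_of_nonneg (le_min (sq_nonneg _) zero_le_one)]
      exact min_le_right _ _
  have h1 : trV Q κ R u φ r = ∫ p, min ((VJ u φ p / r) ^ 2) 1 ∂P := rfl
  have h2 : Hair738.U P (VJ u φ) (BJ u φ) r / r ^ 2
      = ∫ p, ({p | BJ u φ p ≤ r}).indicator (fun p => VJ u φ p ^ 2 / r ^ 2) p ∂P := by
    rw [integral_indicator hmB]
    unfold Hair738.U
    rw [integral_div]
  have h3 : P.real {p | r < BJ u φ p}
      = ∫ p, ({p | r < BJ u φ p}).indicator (fun _ => (1:ℝ)) p ∂P := by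
    rw [integral_indicator hmB']
    simp [Measure.real]
  rw [h1, h2, h3, ← integral_add hI1 hI2]
  refine integral_mono hI3 (hI1.add hI2) fun p => ?_
  by_cases h : BJ u φ p ≤ r
  · have e1 : ({p | BJ u φ p ≤ r}).indicator (fun p => VJ u φ p ^ 2 / r ^ 2) p
        = VJ u φ p ^ 2 / r ^ 2 := Set.indicator_of_mem (by exact h) _
    have e2 : ({p | r < BJ u φ p}).indicator (fun _ => (1:ℝ)) p = 0 :=
      Set.indicator_of_notMem (by simpa using h) _
    simp only [Pi.add_apply]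
    rw [e1, e2, add_zero, ← div_pow]
    exact min_le_left _ _
  · have e1 : ({p | BJ u φ p ≤ r}).indicator (fun p => VJ u φ p ^ 2 / r ^ 2) p = 0 :=
      Set.indicator_of_notMem (by exact h) _
    have e2 : ({p | r < BJ u φ p}).indicator (fun _ => (1:ℝ)) p = 1 :=
      Set.indicator_of_mem (by simpa using h) _
    simp only [Pi.add_apply]
    rw [e1, e2, zero_add]
    exact min_le_right _ _

/-- the tube for any `n, r` with the two Kolmogorov conditions -/
theorem htube_of (F : Frame Q κ R)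
    (hA : annealedProb Q 0 (escapeEvent (B2d.dirVec u)) ≠ 0) (i : Fin d) {n r : ℕ} (hr : 1 ≤ r)
    (h1 : (n : ℝ) * (pairL (muW Q κ R u)).real {p | (r : ℝ) < BJ u (J6_24.phi i) p} ≤ 1 / 16)
    (h2 : (n : ℝ) * Hair738.U (pairL (muW Q κ R u)) (VJ u (J6_24.phi i)) (BJ u (J6_24.phi i)) r
      ≤ (r : ℝ) ^ 2 / 64) :
    ∃ v : ℤ → ℤ, v 0 = 0 ∧ ENNReal.ofReal (3 / 4) ≤ stL Q κ u
      {s | ∀ t, zh u s t < (n : ℤ) → |pos 0 s t i - v (zh u s t)| ≤ 2 * r} := by
  have hr0 : (0:ℝ) < r := by exact_mod_cast hr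
  have h3 := trV_le F hA (J6_24.phi i) hr0
  have hn : (0:ℝ) ≤ n := Nat.cast_nonneg n
  have h4 : (n : ℝ) * (Hair738.U (pairL (muW Q κ R u)) (VJ u (J6_24.phi i))
      (BJ u (J6_24.phi i)) r / (r : ℝ) ^ 2) ≤ 1 / 64 := by
    rw [← mul_div_assoc, div_le_iff₀ (by positivity)]
    linarith
  have h5 : (n : ℝ) * trV Q κ R u (J6_24.phi i) r ≤ 1 / 64 + 1 / 16 := by
    calc _ ≤ _ := mul_le_mul_of_nonneg_left h3 hn
      _ ≤ _ := by rw [mul_add]; exact add_le_add h4 h1
  have h6 : (n : ℝ) * tlB Q κ R u (J6_24.phi i) r ≤ 1 / 16 := h1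
  have h7 := tube_int F hA i (lt_of_lt_of_le Nat.zero_lt_one hr) n (η := 1 / 4) (by linarith)
  obtain ⟨v, hv0, hv⟩ := h7
  refine ⟨v, hv0, ?_⟩
  have e : (1 - 1 / 4 : ℝ) = 3 / 4 := by norm_num
  rw [e] at hv
  exact hv

theorem hneJ (F : Frame Q κ R) (hA : annealedProb Q 0 (escapeEvent (B2d.dirVec u)) ≠ 0)
    {i : Fin d} (hi : i ≠ u.1) :
    pairL (muW Q κ R u) {p | VJ u (J6_24.phi i) p ≠ 0} ≠ 0 := by
  have h := tri_ne F hA (φ := J6_24.phi i) hi (by
    rw [J6_24.phi_apply]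
    simp [stepVec])
  unfold triL jlawOf at h
  have hS : MeasurableSet {t : ℝ × ℝ × ℕ | t.1 ≠ 0} :=
    measurable_fst (measurableSet_singleton (0:ℝ)).compl
  rw [Measure.map_apply (measurable_wd _ (one_le_Yw u)) hS] at h
  exact h

/-- **`htube` of 24 with 738's width** -/
theorem htube (F : Frame Q κ R)
    (hA : annealedProb Q 0 (escapeEvent (B2d.dirVec u)) ≠ 0) {i : Fin d} (hi : i ≠ u.1) (n : ℕ) :
    ∃ v : ℤ → ℤ, v 0 = 0 ∧ ENNReal.ofReal (3 / 4) ≤ stL Q κ u
      {s | ∀ t, zh u s t < (n : ℤ) → |pos 0 s t i - v (zh u s t)|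
        ≤ 2 * Hair738.wd (pairL (muW Q κ R u)) (VJ u (J6_24.phi i)) (BJ u (J6_24.phi i)) n} := by
  have hc := coreJ F hA (J6_24.phi i) (hneJ F hA hi)
  have hs := hc.wd_spec n
  have e : Hair738.wdC (Hair738.T (pairL (muW Q κ R u)) (BJ u (J6_24.phi i)))
      (Hair738.U (pairL (muW Q κ R u)) (VJ' u (J6_24.phi i)) (BJ u (J6_24.phi i))) n
      = Hair738.wd (pairL (muW Q κ R u)) (VJ u (J6_24.phi i)) (BJ u (J6_24.phi i)) n :=
    wd_VJ' F hA (J6_24.phi i) n
  rw [e] at hs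
  rw [U_VJ' F hA (J6_24.phi i)] at hs
  exact htube_of F hA i hs.1 hs.2.1 hs.2.2

end Crest.Agent.R154.Tube504
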