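import Crest.Agent.R154.B5Br_657
import Crest.Agent.R154.JHit_139
import Crest.Agent.R154.KWBind2_419
import Crest.Agent.R154.Dens_903

/-! Row 154, ROAD 801, joint-cut frame (helper998): 139's input `hW` for 657's instance, from the
window lemmas `KWB419.H2W`, `KWB419.H3W` (same cut levels, equal heights, uniform weights). -/

set_option autoImplicit false

open MeasureTheory ProbabilityTheory Crest.ProbabilityR.RandomEnvironment
open scoped ENNReal

namespace Crest.Agent.R154.HW1998

open Crest.Agent.R154.B5A Crest.Agent.R154.B5W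
open Crest.Agent.R154.NB28 (IsUp IsDn Cm)
open Crest.Agent.R154.Flux566 (endp sitesL endp_eq_add lev lev_add lev_neg lev_self lev_zero)
open Crest.Agent.R154.JAsm139 (Good card)

section abs

open Classical in
/-- law of `g` under the weights `f` -/
noncomputable def pf {α γ : Type*} (f : α → ℝ≥0∞) (g : α → γ) (z : γ) : ℝ≥0∞ :=
  ∑' a, if g a = z then f a else 0

lemma pf_eq {α γ : Type*} [DecidableEq γ] (f : α → ℝ≥0∞) (g : α → γ) (z : γ) :
    ∑' a, (if g a = z then f a else 0) = pf f g z := by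
  unfold pf
  refine tsum_congr fun a => ?_
  by_cases h : g a = z <;> simp [h]

lemma pf_sum {α γ : Type*} (f : α → ℝ≥0∞) (g : α → γ) (F : γ → ℝ≥0∞) :
    ∑' z, pf f g z * F z = ∑' a, f a * F (g a) := by
  classical
  simp only [pf]
  simp_rw [← ENNReal.tsum_mul_right]
  rw [ENNReal.tsum_comm]
  refine tsum_congr fun a => ?_
  rw [tsum_eq_single (g a)]
  · simp
  · intro z hz; rw [if_neg (fun h => hz h.symm), zero_mul]

open Classical in
lemma thr {α γ : Type*} (f : α → ℝ≥0∞) (g : α → γ) (c : ℝ≥0∞) (hc : c ≠ 0)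
    (h1 : c ≤ ∑' a, f a) (h2 : ∑' a, f a ≤ 1) (v : ℝ≥0∞) (hv0 : v ≠ 0) (hv1 : v ≤ 1) :
    ∃ th : ℝ≥0∞, th ≠ 0 ∧ (∑' a, if pf f g (g a) < th then f a else 0) ≤ v ∧
      c * v ≤ ∑' a, (if pf f g (g a) ≤ th then f a else 0) ∧ {z | th ≤ pf f g z}.Finite ∧
      th * ∑' z, (if th ≤ pf f g z then (1 : ℝ≥0∞) else 0) ≤ 1 := by
  set P := ∑' a, f a with hP
  have hP0 : P ≠ 0 := fun h => hc (le_antisymm (h ▸ h1) zero_le)
  have hPt : P ≠ ⊤ := ne_top_of_le_ne_top ENNReal.one_ne_top h2
  have hsum : ∑' z, pf f g z = P := by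
    have := pf_sum f g (fun _ => 1)
    simpa using this
  have hp : ∑' z, P⁻¹ * pf f g z = 1 := by
    rw [ENNReal.tsum_mul_left, hsum, ENNReal.inv_mul_cancel hP0 hPt]
  obtain ⟨t, ht0, -, hlo, hhi⟩ := Dens903.quantile (fun z => P⁻¹ * pf f g z) hp hv0 hv1
  have e1 : ∀ x : ℝ≥0∞, t ≤ P⁻¹ * x ↔ P * t ≤ x := by
    intro x
    constructor
    · intro h
      calc P * t ≤ P * (P⁻¹ * x) := mul_le_mul_right h _
        _ = x := by rw [← mul_assoc, ENNReal.mul_inv_cancel hP0 hPt, one_mul]
    · intro h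
      calc t = P⁻¹ * (P * t) := by rw [← mul_assoc, ENNReal.inv_mul_cancel hP0 hPt, one_mul]
        _ ≤ P⁻¹ * x := mul_le_mul_right h _
  have e2 : ∀ x : ℝ≥0∞, P⁻¹ * x ≤ t ↔ x ≤ P * t := by
    intro x
    constructor
    · intro h
      calc x = P * (P⁻¹ * x) := by rw [← mul_assoc, ENNReal.mul_inv_cancel hP0 hPt, one_mul]
        _ ≤ P * t := mul_le_mul_right h _
    · intro h
      calc P⁻¹ * x ≤ P⁻¹ * (P * t) := mul_le_mul_right h _
        _ = t := by rw [← mul_assoc, ENNReal.inv_mul_cancel hP0 hPt, one_mul]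
  have e3 : ∀ x : ℝ≥0∞, P⁻¹ * x < t ↔ x < P * t := by
    intro x
    rw [← not_le, ← not_le, e1]
  have key : ∀ (R : ℝ≥0∞ → Prop) [DecidablePred R],
      (∑' z, if R (pf f g z) then P⁻¹ * pf f g z else 0)
      = P⁻¹ * ∑' a, (if R (pf f g (g a)) then f a else 0) := by
    intro R _
    have := pf_sum f g (fun z => if R (pf f g z) then 1 else 0)
    simp only [mul_ite, mul_one, mul_zero] at this
    rw [← this, ← ENNReal.tsum_mul_left]
    refine tsum_congr fun z => ?_
    split_ifs <;> simp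
  have hth0 : P * t ≠ 0 := mul_ne_zero hP0 ht0
  refine ⟨P * t, hth0, ?_, ?_, ?_, ?_⟩
  · have h3 : (∑' z, if pf f g z < P * t then P⁻¹ * pf f g z else 0) ≤ v := by
      refine le_trans (le_of_eq (tsum_congr fun z => ?_)) hlo
      by_cases hz : pf f g z < P * t
      · rw [if_pos hz, if_pos ((e3 _).2 hz)]
      · rw [if_neg hz, if_neg (fun h => hz ((e3 _).1 h))]
    have h4 : (∑' z, if pf f g z < P * t then P⁻¹ * pf f g z else 0)
        = P⁻¹ * ∑' a, (if pf f g (g a) < P * t then f a else 0) := key (fun x => x < P * t)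
    rw [h4] at h3
    calc _ = P * (P⁻¹ * ∑' a, (if pf f g (g a) < P * t then f a else 0)) := by
          rw [← mul_assoc, ENNReal.mul_inv_cancel hP0 hPt, one_mul]
      _ ≤ P * v := mul_le_mul_right h3 _
      _ ≤ 1 * v := mul_le_mul_left h2 _
      _ = v := one_mul _
  · have h3 : v ≤ (∑' z, if pf f g z ≤ P * t then P⁻¹ * pf f g z else 0) := by
      refine hhi.trans (le_of_eq (tsum_congr fun z => ?_))
      by_cases hz : pf f g z ≤ P * t
      · rw [if_pos hz, if_pos ((e2 _).2 hz)]
      · rw [if_neg hz, if_neg (fun h => hz ((e2 _).1 h))]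
    have h4 : (∑' z, if pf f g z ≤ P * t then P⁻¹ * pf f g z else 0)
        = P⁻¹ * ∑' a, (if pf f g (g a) ≤ P * t then f a else 0) := key (fun x => x ≤ P * t)
    rw [h4] at h3
    calc c * v ≤ P * v := mul_le_mul_left h1 _
      _ ≤ P * (P⁻¹ * ∑' a, (if pf f g (g a) ≤ P * t then f a else 0)) := mul_le_mul_right h3 _
      _ = _ := by rw [← mul_assoc, ENNReal.mul_inv_cancel hP0 hPt, one_mul]
  · exact Dens903.finite_level (pf f g) (by rw [hsum]; exact hPt) hth0
  · refine le_trans ?_ (hsum.le.trans h2)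
    exact Dens903.card_le (pf f g) (P * t)

open Classical in
lemma card_le_of {W : Type*} (S : Set W) (th η : ℝ≥0∞)
    (h : ∀ F : Finset W, F.Nonempty → (∀ w ∈ F, w ∈ S) → th * (F.card : ℝ≥0∞) ≤ η) :
    th * card S ≤ η := by
  rw [card, ← ENNReal.tsum_mul_left, ENNReal.tsum_eq_iSup_sum]
  refine iSup_le fun F => ?_
  have e : ∑ w ∈ F, th * S.indicator (fun _ => (1 : ℝ≥0∞)) w
      = th * ((F.filter (fun w => w ∈ S)).card : ℝ≥0∞) := by
    rw [← Finset.mul_sum]
    congr 1
    rw [Finset.card_filter]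
    push_cast
    refine Finset.sum_congr rfl fun w _ => ?_
    by_cases hw : w ∈ S <;> simp [hw]
  rw [e]
  by_cases hne : (F.filter (fun w => w ∈ S)).Nonempty
  · exact h _ hne fun w hw => (Finset.mem_filter.1 hw).2
  · rw [Finset.not_nonempty_iff_eq_empty.1 hne]; simp

lemma small_set {W : Type*} (A : W → ℝ≥0∞) (C' lam us Ec th η : ℝ≥0∞) (hC0 : C' ≠ 0)
    (hCt : C' ≠ ⊤) (hl0 : lam ≠ 0) (hlt : lam ≠ ⊤) (hus : us ≤ lam)
    (hus2 : us ≤ η * (lam * lam)) (hE : th * Ec ≤ 1)
    (hw : ∀ F : Finset W, F.Nonempty → (F.card : ℝ≥0∞)⁻¹ * ∑ w ∈ F, A w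
      ≤ C' * (lam + (F.card : ℝ≥0∞)⁻¹ * Ec * us / lam + us)) :
    th * card {w | C' * (3 * lam) < A w} ≤ η := by
  refine card_le_of _ _ _ fun F hne hF => ?_
  set N : ℝ≥0∞ := (F.card : ℝ≥0∞) with hN
  have hN0 : N ≠ 0 := by
    rw [hN]; exact_mod_cast hne.card_ne_zero
  have hNt : N ≠ ⊤ := ENNReal.natCast_ne_top _
  set X := N⁻¹ * Ec * us / lam with hX
  have h1 : C' * (3 * lam) ≤ C' * (lam + X + us) := by
    refine le_trans ?_ (hw F hne)
    calc C' * (3 * lam) = (N⁻¹ * N) * (C' * (3 * lam)) := by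
          rw [ENNReal.inv_mul_cancel hN0 hNt, one_mul]
      _ = N⁻¹ * (N * (C' * (3 * lam))) := mul_assoc _ _ _
      _ = N⁻¹ * ∑ _w ∈ F, C' * (3 * lam) := by rw [Finset.sum_const, nsmul_eq_mul]
      _ ≤ _ := mul_le_mul_right (Finset.sum_le_sum fun w hwF => (hF w hwF).le) _
  have h2 : 3 * lam ≤ lam + X + us := (ENNReal.mul_le_mul_iff_right hC0 hCt).1 h1
  have h3 : 2 * lam + lam ≤ 2 * lam + X := by
    calc 2 * lam + lam = 3 * lam := by ring
      _ ≤ lam + X + us := h2
      _ ≤ lam + X + lam := add_le_add le_rfl hus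
      _ = 2 * lam + X := by ring
  have h2t : 2 * lam ≠ ⊤ := ENNReal.mul_ne_top (by norm_num) hlt
  have h4 : lam ≤ X := (ENNReal.add_le_add_iff_left h2t).1 h3
  have h5 : lam * lam ≤ N⁻¹ * Ec * us := by
    rw [hX] at h4
    exact (ENNReal.le_div_iff_mul_le (Or.inl hl0) (Or.inl hlt)).1 h4
  have hll0 : lam * lam ≠ 0 := mul_ne_zero hl0 hl0
  have hllt : lam * lam ≠ ⊤ := ENNReal.mul_ne_top hlt hlt
  refine (ENNReal.mul_le_mul_iff_left hll0 hllt).1 ?_
  calc th * N * (lam * lam) ≤ th * N * (N⁻¹ * Ec * us) := mul_le_mul_right h5 _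
    _ = th * Ec * (N * N⁻¹) * us := by ring
    _ = th * Ec * us := by rw [ENNReal.mul_inv_cancel hN0 hNt, mul_one]
    _ ≤ 1 * us := mul_le_mul_left hE _
    _ = us := one_mul _
    _ ≤ η * (lam * lam) := hus2

end abs

variable {d : ℕ} (ν : Measure (Row d)) [IsProbabilityMeasure ν] (u : Step d)

/-- a clean contact -/
def Cl (u : Step d) (s H : ℕ) (w : Site d) (π γ : List (Step d)) : Prop :=
  (∃ k, k ∈ Cm u w π γ) ∧ ∀ k ∈ Cm u w π γ, s < k ∧ k + s ≤ H

lemma act_cat (L : List (PB u)) (w : Lat u) :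
    (act (dl u) L w).1 = w.1 + endp 0 (cat L).1 + endp 0 (cat L).2 := by
  induction L generalizing w with
  | nil => simp [act, cat, endp]
  | cons b L ih =>
    rw [act, ih]
    change dlp b.1 w.1 + endp 0 (cat L).1 + endp 0 (cat L).2
      = w.1 + endp 0 (pm b.1 (cat L)).1 + endp 0 (pm b.1 (cat L)).2
    simp only [dlp, pm]
    rw [Flux566.endp_append, Flux566.endp_append, endp_eq_add _ (endp 0 (cat L).1),
      endp_eq_add _ (endp 0 b.1.2)]
    abel

lemma ct_iff {H : ℕ} {π γ : List (Step d)} (hγ : IsDn u H γ) {x y : Site d} (hx : lev u x = 0)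
    (h : KWB419.Ct u π γ x 0 0 y) : ∃ k : ℕ, k ∈ Cm u x π γ ∧ lev u y = -(k : ℤ) := by
  obtain ⟨h1, h2⟩ := h
  simp only [zero_smul, sub_zero, zero_add, one_smul] at h1 h2
  have h3 : x - stepVec u = x + stepVec (Flux132.opp u) := by rw [stepVec_opp']; abel
  have h4 := lev_mem_dn ((dn_iff u H γ).2 hγ) h2
  have h5 : lev u (x - stepVec u) = -1 := by
    rw [h3, stepVec_opp', lev_add, lev_neg, lev_self, hx]; ring
  rw [h5] at h4
  refine ⟨(-lev u y).toNat, ⟨y, h1, by rw [← h3]; exact h2, ?_⟩, ?_⟩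
  · change lev u y = _
    rw [Int.toNat_of_nonneg (by linarith [h4.1]), neg_neg]
  · rw [Int.toNat_of_nonneg (by linarith [h4.1]), neg_neg]

lemma ct_of {π γ : List (Step d)} {x : Site d} {k : ℕ} (h : k ∈ Cm u x π γ) :
    ∃ y, KWB419.Ct u π γ x 0 0 y := by
  obtain ⟨y, h1, h2, _⟩ := h
  refine ⟨y, ?_, ?_⟩
  · simpa using h1
  · have h3 : x - stepVec u = x + stepVec (Flux132.opp u) := by rw [stepVec_opp']; abel
    simp only [zero_add, one_smul]
    rw [h3]; exact h2

open Classical in
/-- finite sets of the level sets of a density -/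
lemma fin_card {γ : Type*} (p : γ → ℝ≥0∞) (th : ℝ≥0∞) (hf : {z | th ≤ p z}.Finite) :
    ((hf.toFinset).card : ℝ≥0∞) = ∑' z, (if th ≤ p z then (1 : ℝ≥0∞) else 0) := by
  rw [tsum_eq_sum (s := hf.toFinset)]
  · rw [Finset.sum_congr rfl (fun z hz => if_pos (by simpa using hz))]
    simp
  · intro z hz
    rw [if_neg (by simpa using hz)]

open Classical in
/-- **139's input `hW`** for 657's instance. -/
theorem hW (us : ℕ → ℝ≥0∞) (hus : Filter.Tendsto us Filter.atTop (nhds 0)) (C : ℝ≥0∞)
    (hC : C ≠ ⊤) (h2 : KWB419.H2W ν u us C) (h3 : KWB419.H3W ν u us C)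
    (c : ℝ≥0∞) (hc : c ≠ 0)
    (hcX : ∀ n : ℕ, c ≤ ∑' π : List (Step d), if IsUp u n π then NB28.aw ν π else 0)
    (hcY : ∀ n : ℕ, c ≤ ∑' γ : List (Step d), if IsDn u n γ then NB28.aw ν γ else 0)
    (h1X : ∀ n : ℕ, ∑' π : List (Step d), (if IsUp u n π then NB28.aw ν π else 0) ≤ 1)
    (h1Y : ∀ n : ℕ, ∑' γ : List (Step d), (if IsDn u n γ then NB28.aw ν γ else 0) ≤ 1)
    (υ η : ℝ≥0∞) (hυ : υ ≠ 0) (hυ1 : υ ≤ 1) (hη : η ≠ 0) :
    ∃ s H0 : ℕ, ∀ H, H0 ≤ H → ∃ S1 S2 : Set (Lat u),
      Good (Lam ν u) (ht u) (dl u) (c * c * υ) η H S1 ∧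
      Good (Lam ν u) (ht u) (dl u) (c * c * υ) η H S2 ∧
      ∀ w, w ∉ S1 → w ∉ S2 →
        (∑' L : List (PB u), if HT (ht u) L = H ∧ CD (ht u) (dl u) (cd u) L w ≠ ∅ ∧
          (∀ k ∈ CD (ht u) (dl u) (cd u) L w, s < k ∧ k + s ≤ H) then LW (Lam ν u) L else 0)
        ≤ υ * υ + η := by
  set C' := C + 1 with hC'
  have hC0 : C' ≠ 0 := by simp [hC']
  have hCt : C' ≠ ⊤ := by simp [hC', hC]
  have hCC : C ≤ C' := le_self_add
  -- choice of `lam`
  obtain ⟨lam, hl0, hlt, hl⟩ : ∃ lam : ℝ≥0∞, lam ≠ 0 ∧ lam ≠ ⊤ ∧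
      C' * (3 * lam) + C' * (3 * lam) ≤ η := by
    refine ⟨min 1 (η / (6 * C')), ?_, ?_, ?_⟩
    · refine (lt_min one_pos (ENNReal.div_pos hη ?_)).ne'
      exact ENNReal.mul_ne_top (by norm_num) hCt
    · exact ne_top_of_le_ne_top ENNReal.one_ne_top (min_le_left _ _)
    · calc C' * (3 * min 1 (η / (6 * C'))) + C' * (3 * min 1 (η / (6 * C')))
          = (6 * C') * min 1 (η / (6 * C')) := by ring
        _ ≤ (6 * C') * (η / (6 * C')) := mul_le_mul_right (min_le_right _ _) _
        _ ≤ η := ENNReal.mul_div_le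
  -- choice of `s`
  obtain ⟨s, hs⟩ : ∃ s : ℕ, us s ≤ min lam (η * (lam * lam)) := by
    have : (0 : ℝ≥0∞) < min lam (η * (lam * lam)) :=
      lt_min (pos_iff_ne_zero.2 hl0)
        (pos_iff_ne_zero.2 (mul_ne_zero hη (mul_ne_zero hl0 hl0)))
    exact (hus.eventually_le_const this).exists
  have hs1 : us s ≤ lam := hs.trans (min_le_left _ _)
  have hs2 : us s ≤ η * (lam * lam) := hs.trans (min_le_right _ _)
  refine ⟨s, 0, fun H _ => ?_⟩
  set fX : List (Step d) → ℝ≥0∞ := fun π => if IsUp u H π then NB28.aw ν π else 0 with hfX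
  set fY : List (Step d) → ℝ≥0∞ := fun γ => if IsDn u H γ then NB28.aw ν γ else 0 with hfY
  obtain ⟨tX, htX0, hX1, hX2, hX3, hX4⟩ := thr fX (endp (0 : Site d)) c hc (hcX H) (h1X H) υ hυ hυ1
  obtain ⟨tY, htY0, hY1, hY2, hY3, hY4⟩ := thr fY (endp (0 : Site d)) c hc (hcY H) (h1Y H) υ hυ hυ1
  set pX := pf fX (endp (0 : Site d)) with hpX
  set pY := pf fY (endp (0 : Site d)) with hpY
  set AX : Lat u → ℝ≥0∞ := fun w => ∑' π : List (Step d), ∑' γ : List (Step d),
    if (IsUp u H π ∧ IsDn u H γ) ∧ Cl u s H w.1 π γ ∧ tX ≤ pX (endp 0 π)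
      then NB28.aw ν π * NB28.aw ν γ else 0 with hAX
  set AY : Lat u → ℝ≥0∞ := fun w => ∑' π : List (Step d), ∑' γ : List (Step d),
    if (IsUp u H π ∧ IsDn u H γ) ∧ Cl u s H w.1 π γ ∧ tY ≤ pY (endp 0 γ)
      then NB28.aw ν π * NB28.aw ν γ else 0 with hAY
  -- uniform weights
  have unif : ∀ F : Finset (Lat u), F.Nonempty → ∀ (G : Site d → ℝ≥0∞) (A : Lat u → ℝ≥0∞),
      (∀ w, A w ≤ G w.1) → ∀ μ : Site d → ℝ≥0∞,
      (∀ x, μ x = if x ∈ F.image Subtype.val then (F.card : ℝ≥0∞)⁻¹ else 0) →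
      ∑' x, μ x ≤ 1 ∧ (∀ x, μ x ≤ (F.card : ℝ≥0∞)⁻¹) ∧
      (F.card : ℝ≥0∞)⁻¹ * ∑ w ∈ F, A w ≤ ∑' x, μ x * G x := by
    intro F hF G A hA μ hμ
    have hN0 : (F.card : ℝ≥0∞) ≠ 0 := by exact_mod_cast hF.card_ne_zero
    have hNt : (F.card : ℝ≥0∞) ≠ ⊤ := ENNReal.natCast_ne_top _
    have hinj : Set.InjOn (Subtype.val : Lat u → Site d) (F : Set (Lat u)) :=
      fun a _ b _ h => Subtype.ext h
    refine ⟨?_, ?_, ?_⟩
    · rw [tsum_eq_sum (s := F.image Subtype.val)]
      · rw [Finset.sum_congr rfl (fun x hx => by rw [hμ, if_pos hx]), Finset.sum_const,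
          Finset.card_image_of_injOn hinj, nsmul_eq_mul]
        exact le_of_eq (ENNReal.mul_inv_cancel hN0 hNt)
      · intro x hx; rw [hμ, if_neg hx]
    · intro x; rw [hμ]; split_ifs
      · exact le_rfl
      · exact zero_le
    · calc (F.card : ℝ≥0∞)⁻¹ * ∑ w ∈ F, A w
          = ∑ w ∈ F, (F.card : ℝ≥0∞)⁻¹ * A w := Finset.mul_sum _ _ _
        _ ≤ ∑ w ∈ F, μ w.1 * G w.1 := by
            refine Finset.sum_le_sum fun w hw => ?_
            rw [hμ, if_pos (Finset.mem_image_of_mem Subtype.val hw)]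
            exact mul_le_mul_right (hA w) _
        _ = ∑ x ∈ F.image Subtype.val, μ x * G x :=
            (Finset.sum_image (f := fun x => μ x * G x) hinj).symm
        _ ≤ _ := ENNReal.sum_le_tsum _
  -- the two window lemmas
  have wX : tX * card {w | C' * (3 * lam) < AX w} ≤ η := by
    set E : Finset (Site d) := (hX3.toFinset).image (fun z => H • stepVec u - z) with hE
    have hEc : tX * (E.card : ℝ≥0∞) ≤ 1 := by
      refine le_trans (mul_le_mul_right ?_ _) hX4
      rw [← fin_card pX tX hX3]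
      exact_mod_cast Finset.card_image_le
    refine small_set AX C' lam (us s) (E.card : ℝ≥0∞) tX η hC0 hCt hl0 hlt hs1 hs2 hEc ?_
    intro F hF
    have hq := h2 s H H 0 0 s E
      (fun x => if x ∈ F.image Subtype.val then (F.card : ℝ≥0∞)⁻¹ else 0)
      ((F.card : ℝ≥0∞)⁻¹) lam
    obtain ⟨q1, q2, q3⟩ := unif F hF (fun x => ∑' π, ∑' γ, if lev u x = 0 ∧ IsUp u H π ∧
      IsDn u H γ ∧ (H • stepVec u - endp 0 π) ∈ E ∧ (∃ y, KWB419.Ct u π γ x 0 0 y) ∧
      (∀ y, KWB419.Ct u π γ x 0 0 y → (s : ℤ) ≤ -lev u y) then NB28.aw ν π * NB28.aw ν γ else 0)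
      AX (by
        intro w
        refine ENNReal.tsum_le_tsum fun π => ENNReal.tsum_le_tsum fun γ => ?_
        by_cases hcd : (IsUp u H π ∧ IsDn u H γ) ∧ Cl u s H w.1 π γ ∧ tX ≤ pX (endp 0 π)
        · rw [if_pos hcd]
          obtain ⟨⟨a1, a2⟩, ⟨⟨k, hk⟩, a3⟩, a4⟩ := hcd
          rw [if_pos]
          refine ⟨w.2, a1, a2, ?_, ct_of u hk, ?_⟩
          · rw [hE]
            refine Finset.mem_image_of_mem _ ?_
            simpa using a4
          · intro y hy
            obtain ⟨k', hk', e⟩ := ct_iff u a2 w.2 hy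
            have := (a3 k' hk').1
            rw [e]; omega
        · rw [if_neg hcd]; exact zero_le)
      (fun x => if x ∈ F.image Subtype.val then (F.card : ℝ≥0∞)⁻¹ else 0) (fun x => rfl)
    exact q3.trans ((hq q1 q2 hl0 hlt (by omega) (by omega)).trans
      (mul_le_mul_left hCC _))
  have wY : tY * card {w | C' * (3 * lam) < AY w} ≤ η := by
    set E : Finset (Site d) := (hY3.toFinset).image (fun z => z + H • stepVec u) with hE
    have hEc : tY * (E.card : ℝ≥0∞) ≤ 1 := by
      refine le_trans (mul_le_mul_right ?_ _) hY4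
      rw [← fin_card pY tY hY3]
      exact_mod_cast Finset.card_image_le
    refine small_set AY C' lam (us s) (E.card : ℝ≥0∞) tY η hC0 hCt hl0 hlt hs1 hs2 hEc ?_
    intro F hF
    by_cases hsH : s ≤ H
    · have hq := h3 s H H 0 0 (H - s) E
        (fun x => if x ∈ F.image Subtype.val then (F.card : ℝ≥0∞)⁻¹ else 0)
        ((F.card : ℝ≥0∞)⁻¹) lam
      obtain ⟨q1, q2, q3⟩ := unif F hF (fun x => ∑' π, ∑' γ, if lev u x = 0 ∧ IsUp u H π ∧
        IsDn u H γ ∧ (endp 0 γ + H • stepVec u) ∈ E ∧ (∃ y, KWB419.Ct u π γ x 0 0 y) ∧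
        (∀ y, KWB419.Ct u π γ x 0 0 y → -lev u y ≤ ((H - s : ℕ) : ℤ))
        then NB28.aw ν π * NB28.aw ν γ else 0)
        AY (by
          intro w
          refine ENNReal.tsum_le_tsum fun π => ENNReal.tsum_le_tsum fun γ => ?_
          by_cases hcd : (IsUp u H π ∧ IsDn u H γ) ∧ Cl u s H w.1 π γ ∧ tY ≤ pY (endp 0 γ)
          · rw [if_pos hcd]
            obtain ⟨⟨a1, a2⟩, ⟨⟨k, hk⟩, a3⟩, a4⟩ := hcd
            rw [if_pos]
            refine ⟨w.2, a1, a2, ?_, ct_of u hk, ?_⟩
            · rw [hE]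
              refine Finset.mem_image_of_mem (fun z => z + H • stepVec u) ?_
              simpa using a4
            · intro y hy
              obtain ⟨k', hk', e⟩ := ct_iff u a2 w.2 hy
              have := (a3 k' hk').2
              rw [e]; omega
          · rw [if_neg hcd]; exact zero_le)
        (fun x => if x ∈ F.image Subtype.val then (F.card : ℝ≥0∞)⁻¹ else 0) (fun x => rfl)
      exact q3.trans ((hq q1 q2 hl0 hlt (by omega) (by omega)).trans
        (mul_le_mul_left hCC _))
    · -- no clean contact at all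
      have hz : ∀ w, AY w = 0 := by
        intro w
        rw [hAY]
        simp only [ENNReal.tsum_eq_zero]
        intro π γ
        rw [if_neg]
        rintro ⟨-, ⟨⟨k, hk⟩, a3⟩, -⟩
        have := a3 k hk
        omega
      simp only [hz]
      simp
  refine ⟨{w | C' * (3 * lam) < AX w}, {w | C' * (3 * lam) < AY w}, ?_, ?_, ?_⟩
  · refine ⟨{L | pX (endp 0 (cat L).1) ≤ tX}, tX, ?_, ?_, wX⟩
    · have h := tsum_L ν u H (fun x => if pX (endp 0 x.1) ≤ tX then 1 else 0)
      calc c * c * υ = (c * υ) * c := by ring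
        _ ≤ (∑' π, (if pX (endp 0 π) ≤ tX then fX π else 0)) * ∑' γ, fY γ :=
            mul_le_mul' hX2 (hcY H)
        _ = ∑' π : List (Step d), ∑' γ : List (Step d), if IsUp u H π ∧ IsDn u H γ then
              NB28.aw ν π * NB28.aw ν γ * (if pX (endp 0 π) ≤ tX then 1 else 0) else 0 := by
            rw [← ENNReal.tsum_mul_right]
            refine tsum_congr fun π => ?_
            rw [← ENNReal.tsum_mul_left]
            refine tsum_congr fun γ => ?_
            by_cases b1 : IsUp u H π <;> by_cases b2 : IsDn u H γ <;>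
              by_cases b3 : pX (endp 0 π) ≤ tX <;> simp [hfX, hfY, b1, b2, b3]
        _ = _ := h.symm
        _ = _ := by
            refine tsum_congr fun L => ?_
            by_cases b1 : HT (ht u) L = H <;> by_cases b2 : pX (endp 0 (cat L).1) ≤ tX <;>
              simp [b1, b2]
    · intro w w'
      have h := tsum_L ν u H (fun x => if pX (endp 0 x.1) ≤ tX ∧
        w.1 + endp 0 x.1 + endp 0 x.2 = w'.1 then 1 else 0)
      calc _ ≤ ∑' L : List (PB u), (if HT (ht u) L = H then LW (Lam ν u) L *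
            (if pX (endp 0 (cat L).1) ≤ tX ∧
              w.1 + endp 0 (cat L).1 + endp 0 (cat L).2 = w'.1 then 1 else 0) else 0) := by
            refine ENNReal.tsum_le_tsum fun L => ?_
            by_cases b : HT (ht u) L = H ∧ L ∈ {L | pX (endp 0 (cat L).1) ≤ tX} ∧
              act (dl u) L w = w'
            · rw [if_pos b, if_pos b.1, if_pos ⟨b.2.1, by rw [← act_cat, b.2.2]⟩, mul_one]
            · rw [if_neg b]; exact zero_le
        _ = _ := h
        _ ≤ ∑' γ : List (Step d), fY γ * tX := by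
            rw [ENNReal.tsum_comm]
            refine ENNReal.tsum_le_tsum fun γ => ?_
            by_cases b2 : IsDn u H γ
            · set z0 : Site d := w'.1 - w.1 - endp 0 γ with hz0
              by_cases b3 : pX z0 ≤ tX
              · calc _ ≤ ∑' π : List (Step d), fY γ * (if endp 0 π = z0 then fX π else 0) := by
                      refine ENNReal.tsum_le_tsum fun π => ?_
                      by_cases b4 : (IsUp u H π ∧ IsDn u H γ)
                      · rw [if_pos b4]
                        by_cases b5 : pX (endp 0 π) ≤ tX ∧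
                          w.1 + endp 0 π + endp 0 γ = w'.1
                        · rw [if_pos b5, if_pos (by rw [hz0, ← b5.2]; abel)]
                          simp only [hfX, hfY, if_pos b4.1, if_pos b2]
                          rw [mul_one, mul_comm]
                        · rw [if_neg b5, mul_zero]; exact zero_le
                      · rw [if_neg b4]; exact zero_le
                  _ = fY γ * pX z0 := by rw [ENNReal.tsum_mul_left, pf_eq]
                  _ ≤ _ := mul_le_mul_right b3 _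
              · refine le_trans (le_of_eq ?_) zero_le
                rw [ENNReal.tsum_eq_zero]
                intro π
                by_cases b4 : (IsUp u H π ∧ IsDn u H γ)
                · rw [if_pos b4, if_neg, mul_zero]
                  rintro ⟨c1, c2⟩
                  apply b3
                  rwa [show z0 = endp 0 π by rw [hz0, ← c2]; abel]
                · rw [if_neg b4]
            · refine le_trans (le_of_eq ?_) zero_le
              rw [ENNReal.tsum_eq_zero]
              intro π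
              rw [if_neg (fun b => b2 b.2)]
        _ = (∑' γ, fY γ) * tX := ENNReal.tsum_mul_right
        _ ≤ 1 * tX := mul_le_mul_left (h1Y H) _
        _ = tX := one_mul _
  · refine ⟨{L | pY (endp 0 (cat L).2) ≤ tY}, tY, ?_, ?_, wY⟩
    · have h := tsum_L ν u H (fun x => if pY (endp 0 x.2) ≤ tY then 1 else 0)
      calc c * c * υ = c * (c * υ) := by ring
        _ ≤ (∑' π, fX π) * ∑' γ, (if pY (endp 0 γ) ≤ tY then fY γ else 0) :=
            mul_le_mul' (hcX H) hY2
        _ = ∑' π : List (Step d), ∑' γ : List (Step d), if IsUp u H π ∧ IsDn u H γ then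
              NB28.aw ν π * NB28.aw ν γ * (if pY (endp 0 γ) ≤ tY then 1 else 0) else 0 := by
            rw [← ENNReal.tsum_mul_right]
            refine tsum_congr fun π => ?_
            rw [← ENNReal.tsum_mul_left]
            refine tsum_congr fun γ => ?_
            by_cases b1 : IsUp u H π <;> by_cases b2 : IsDn u H γ <;>
              by_cases b3 : pY (endp 0 γ) ≤ tY <;> simp [hfX, hfY, b1, b2, b3]
        _ = _ := h.symm
        _ = _ := by
            refine tsum_congr fun L => ?_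
            by_cases b1 : HT (ht u) L = H <;> by_cases b2 : pY (endp 0 (cat L).2) ≤ tY <;>
              simp [b1, b2]
    · intro w w'
      have h := tsum_L ν u H (fun x => if pY (endp 0 x.2) ≤ tY ∧
        w.1 + endp 0 x.1 + endp 0 x.2 = w'.1 then 1 else 0)
      calc _ ≤ ∑' L : List (PB u), (if HT (ht u) L = H then LW (Lam ν u) L *
            (if pY (endp 0 (cat L).2) ≤ tY ∧
              w.1 + endp 0 (cat L).1 + endp 0 (cat L).2 = w'.1 then 1 else 0) else 0) := by
            refine ENNReal.tsum_le_tsum fun L => ?_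
            by_cases b : HT (ht u) L = H ∧ L ∈ {L | pY (endp 0 (cat L).2) ≤ tY} ∧
              act (dl u) L w = w'
            · rw [if_pos b, if_pos b.1, if_pos ⟨b.2.1, by rw [← act_cat, b.2.2]⟩, mul_one]
            · rw [if_neg b]; exact zero_le
        _ = _ := h
        _ ≤ ∑' π : List (Step d), fX π * tY := by
            refine ENNReal.tsum_le_tsum fun π => ?_
            by_cases b2 : IsUp u H π
            · set z0 : Site d := w'.1 - w.1 - endp 0 π with hz0
              by_cases b3 : pY z0 ≤ tY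
              · calc _ ≤ ∑' γ : List (Step d), fX π * (if endp 0 γ = z0 then fY γ else 0) := by
                      refine ENNReal.tsum_le_tsum fun γ => ?_
                      by_cases b4 : (IsUp u H π ∧ IsDn u H γ)
                      · rw [if_pos b4]
                        by_cases b5 : pY (endp 0 γ) ≤ tY ∧
                          w.1 + endp 0 π + endp 0 γ = w'.1
                        · rw [if_pos b5, if_pos (by rw [hz0, ← b5.2]; abel)]
                          simp only [hfX, hfY, if_pos b4.2, if_pos b2]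
                          rw [mul_one]
                        · rw [if_neg b5, mul_zero]; exact zero_le
                      · rw [if_neg b4]; exact zero_le
                  _ = fX π * pY z0 := by rw [ENNReal.tsum_mul_left, pf_eq]
                  _ ≤ _ := mul_le_mul_right b3 _
              · refine le_trans (le_of_eq ?_) zero_le
                rw [ENNReal.tsum_eq_zero]
                intro γ
                by_cases b4 : (IsUp u H π ∧ IsDn u H γ)
                · rw [if_pos b4, if_neg, mul_zero]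
                  rintro ⟨c1, c2⟩
                  apply b3
                  rwa [show z0 = endp 0 γ by rw [hz0, ← c2]; abel]
                · rw [if_neg b4]
            · refine le_trans (le_of_eq ?_) zero_le
              rw [ENNReal.tsum_eq_zero]
              intro γ
              rw [if_neg (fun b => b2 b.1)]
        _ = (∑' π, fX π) * tY := ENNReal.tsum_mul_right
        _ ≤ 1 * tY := mul_le_mul_left (h1X H) _
        _ = tY := one_mul _
  · intro w hw1 hw2
    have hA1 : AX w ≤ C' * (3 * lam) := not_lt.1 hw1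
    have hA2 : AY w ≤ C' * (3 * lam) := not_lt.1 hw2
    have h := tsum_L ν u H (fun x => if Cl u s H w.1 x.1 x.2 then 1 else 0)
    calc _ ≤ ∑' L : List (PB u), (if HT (ht u) L = H then LW (Lam ν u) L *
            (if Cl u s H w.1 (cat L).1 (cat L).2 then 1 else 0) else 0) := by
          refine ENNReal.tsum_le_tsum fun L => ?_
          by_cases b : HT (ht u) L = H ∧ CD (ht u) (dl u) (cd u) L w ≠ ∅ ∧
            (∀ k ∈ CD (ht u) (dl u) (cd u) L w, s < k ∧ k + s ≤ H)
          · rw [if_pos b, if_pos b.1, if_pos, mul_one]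
            obtain ⟨_, b2, b3⟩ := b
            rw [CD_cat, show cat L = ((cat L).1, (cat L).2) from rfl, cds_eq] at b2 b3
            exact ⟨Set.nonempty_iff_ne_empty.2 b2, b3⟩
          · rw [if_neg b]; exact zero_le
      _ = _ := h
      _ ≤ ((∑' π, if pX (endp 0 π) < tX then fX π else 0)
            * ∑' γ, if pY (endp 0 γ) < tY then fY γ else 0) + (AX w + AY w) := by
          rw [← ENNReal.tsum_mul_right, hAX, hAY, ← ENNReal.tsum_add, ← ENNReal.tsum_add]
          refine ENNReal.tsum_le_tsum fun π => ?_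
          rw [← ENNReal.tsum_mul_left, ← ENNReal.tsum_add, ← ENNReal.tsum_add]
          refine ENNReal.tsum_le_tsum fun γ => ?_
          by_cases b1 : IsUp u H π ∧ IsDn u H γ
          · rw [if_pos b1]
            by_cases b2 : Cl u s H w.1 π γ
            · rw [if_pos b2, mul_one]
              by_cases b3 : tX ≤ pX (endp 0 π)
              · rw [if_pos (show (IsUp u H π ∧ IsDn u H γ) ∧ Cl u s H w.1 π γ ∧
                    tX ≤ pX (endp 0 π) from ⟨b1, b2, b3⟩)]
                exact le_add_left le_self_add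
              · by_cases b4 : tY ≤ pY (endp 0 γ)
                · rw [if_pos (show (IsUp u H π ∧ IsDn u H γ) ∧ Cl u s H w.1 π γ ∧
                    tY ≤ pY (endp 0 γ) from ⟨b1, b2, b4⟩)]
                  exact le_add_left le_add_self
                · rw [if_pos (not_le.1 b3), if_pos (not_le.1 b4)]
                  simp only [hfX, hfY, if_pos b1.1, if_pos b1.2]
                  exact le_self_add
            · rw [if_neg b2, mul_zero]; exact zero_le
          · rw [if_neg b1]; exact zero_le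
      _ ≤ υ * υ + (C' * (3 * lam) + C' * (3 * lam)) :=
          add_le_add (mul_le_mul' hX1 hY1) (add_le_add hA1 hA2)
      _ ≤ υ * υ + η := add_le_add le_rfl hl

end Crest.Agent.R154.HW1998
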