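import Crest.Agent.R154.NBSurg_28
import Crest.Agent.R154.DoobW_431
import Crest.Agent.R154.Us_109

/-! Row 154, ROAD 801: window lemmas in words (helper263), common part. -/

set_option autoImplicit false

open MeasureTheory ProbabilityTheory Crest.ProbabilityR.RandomEnvironment
open scoped ENNReal

namespace Crest.Agent.R154.HW263

open Crest.Agent.R154
open Crest.Agent.R154.Flux132 (lev opp)
open Crest.Agent.R154.Flux566 (lw endp sitesL measurable_lw)
open Crest.Agent.R154.NB28 (IsUp IsDn aw)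
open Crest.Agent.R154.DoobW431 (PF First pf_First exists_First pf_unique markov_pf kraft bad_le ville)

variable {d : ℕ}

open Classical in
lemma split_sum (P : List (Step d) → Prop) (Q : List (Step d) → List (Step d) → Prop)
    (f : List (Step d) → ℝ≥0∞) (h : ∀ π, P π → ∃ l t, π = l ++ t ∧ Q l t) :
    ∑' π, (if P π then f π else 0) ≤ ∑' l, ∑' t, (if Q l t then f (l ++ t) else 0) := by
  calc ∑' π, (if P π then f π else 0)
      ≤ ∑' π, ∑' p : List (Step d) × List (Step d),
          (if π = p.1 ++ p.2 ∧ Q p.1 p.2 then f (p.1 ++ p.2) else 0) := by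
        refine ENNReal.tsum_le_tsum fun π => ?_
        by_cases hπ : P π
        · obtain ⟨l, t, h1, h2⟩ := h π hπ
          rw [if_pos hπ]
          refine le_trans (le_of_eq ?_) (ENNReal.le_tsum (l, t))
          simp only
          rw [if_pos ⟨h1, h2⟩, h1]
        · simp [hπ]
    _ = ∑' p : List (Step d) × List (Step d), ∑' π,
          (if π = p.1 ++ p.2 ∧ Q p.1 p.2 then f (p.1 ++ p.2) else 0) := ENNReal.tsum_comm
    _ = ∑' p : List (Step d) × List (Step d),
          (if Q p.1 p.2 then f (p.1 ++ p.2) else 0) := by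
        refine tsum_congr fun p => ?_
        rw [tsum_eq_single (p.1 ++ p.2)]
        · simp
        · intro ρ hne
          rw [if_neg]
          exact fun h => hne h.1
    _ = _ := by rw [ENNReal.tsum_prod']

open Classical in
/-- pairs `(l, t)`, `l` in a prefix-free set, are determined by `l ++ t` -/
lemma pair_le {W : Set (List (Step d))} (hW : PF W) (Q : List (Step d) → List (Step d) → Prop)
    (g h : List (Step d) → ℝ≥0∞) (hc : ∀ l t, l ∈ W → Q l t → g (l ++ t) ≤ h (l ++ t)) :
    ∑' l, ∑' t, (if l ∈ W ∧ Q l t then g (l ++ t) else 0) ≤ ∑' ρ, h ρ := by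
  calc ∑' l, ∑' t, (if l ∈ W ∧ Q l t then g (l ++ t) else 0)
      = ∑' p : List (Step d) × List (Step d),
          (if p.1 ∈ W ∧ Q p.1 p.2 then g (p.1 ++ p.2) else 0) := by
        rw [ENNReal.tsum_prod']
    _ = ∑' p : {p : List (Step d) × List (Step d) // p.1 ∈ W ∧ Q p.1 p.2},
          g (p.1.1 ++ p.1.2) := by
        rw [← tsum_subtype_eq_of_support_subset
          (s := {p : List (Step d) × List (Step d) | p.1 ∈ W ∧ Q p.1 p.2})]
        · refine tsum_congr fun q => ?_
          exact if_pos q.2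
        · intro p hp
          by_contra h
          exact hp (if_neg h)
    _ ≤ ∑' p : {p : List (Step d) × List (Step d) // p.1 ∈ W ∧ Q p.1 p.2},
          h (p.1.1 ++ p.1.2) := ENNReal.tsum_le_tsum fun p => hc _ _ p.2.1 p.2.2
    _ ≤ ∑' ρ, h ρ := by
        refine ENNReal.tsum_comp_le_tsum_of_injective
          (f := fun p : {p : List (Step d) × List (Step d) // p.1 ∈ W ∧ Q p.1 p.2} =>
            p.1.1 ++ p.1.2) ?_ h
        rintro ⟨⟨a, b⟩, ha, hb⟩ ⟨⟨a', b'⟩, ha', hb'⟩ he
        simp only at he ha ha'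
        have h1 : a = a' := pf_unique hW ha ha' (List.prefix_append a b)
          (he ▸ List.prefix_append a' b')
        subst h1
        have h2 := List.append_cancel_left he
        subst h2
        rfl

/-- minimal elements for the prefix order -/
def Min (S : Set (List (Step d))) : Set (List (Step d)) :=
  {l | l ∈ S ∧ ∀ l', l' <+: l → l' ≠ l → l' ∉ S}

lemma pf_Min (S : Set (List (Step d))) : PF (Min S) := by
  intro l hl l' hl' hp
  by_contra hne
  exact hl'.2 l hp hne hl.1

lemma exists_Min (S : Set (List (Step d))) (ρ : List (Step d)) (h : ∃ l, l <+: ρ ∧ l ∈ S) :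
    ∃ l ∈ Min S, l <+: ρ := by
  classical
  have hex : ∃ n, ∃ γ, γ <+: ρ ∧ γ ∈ S ∧ γ.length = n := by
    obtain ⟨γ, h1, h2⟩ := h; exact ⟨_, γ, h1, h2, rfl⟩
  obtain ⟨γ, h1, h2, h3⟩ := Nat.find_spec hex
  refine ⟨γ, ⟨h2, fun γ' hp hne hB => ?_⟩, h1⟩
  have hlt : γ'.length < Nat.find hex := by
    rw [← h3]
    exact lt_of_le_of_ne hp.length_le fun h => hne (hp.eq_of_length h)
  exact Nat.find_min hex hlt ⟨γ', hp.trans h1, hB, rfl⟩

lemma pf_tail {W : Set (List (Step d))} (hW : PF W) (γ : List (Step d)) :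
    PF {t | γ ++ t ∈ W} := by
  intro l hl l' hl' hp
  exact List.append_cancel_left (hW _ hl _ hl' ((List.prefix_append_right_inj γ).2 hp))

open Classical in
lemma pref_le (ω : Environment d) (x : Site d) {W P : Set (List (Step d))} (hW : PF W)
    (hd : ∀ ρ ∈ W, ∃ γ ∈ P, γ <+: ρ) :
    ∑' ρ, (if ρ ∈ W then lw ω x ρ else 0) ≤ ∑' γ, (if γ ∈ P then lw ω x γ else 0) := by
  have h := markov_pf ω x (W := W) (P := P) (fun γ => {t | γ ++ t ∈ W}) (fun _ => 1)
    (fun ρ hρ => by
      obtain ⟨γ, hγ, t, rfl⟩ := hd ρ hρ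
      exact ⟨γ, t, rfl, hγ, hρ⟩)
    (fun γ _ => kraft ω _ (pf_tail hW γ))
  simpa only [mul_one] using h

lemma lint_sum (ν : Measure (Row d)) [IsProbabilityMeasure ν] (x : Site d)
    (P : List (Step d) → Prop) {iP : DecidablePred P} :
    ∫⁻ ω, (∑' l, (if P l then lw ω x l else 0)) ∂(iidEnvironmentLaw ν)
      = ∑' l, (if P l then aw ν l else 0) := by
  rw [lintegral_tsum]
  · refine tsum_congr fun l => ?_
    by_cases h : P l
    · simp only [h, if_true]; exact NB28.aw_shift ν x l
    · simp [h]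
  · intro l
    by_cases h : P l
    · simp only [h, if_true]; exact (measurable_lw x l).aemeasurable
    · simp only [h, if_false]; exact measurable_const.aemeasurable

lemma meas_sum (x : Site d) (P : List (Step d) → Prop) {iP : DecidablePred P} :
    Measurable fun ω : Environment d => ∑' l, (if P l then lw ω x l else 0) := by
  refine Measurable.ennreal_tsum fun l => ?_
  by_cases h : P l
  · simp only [h, if_true]; exact measurable_lw x l
  · simp only [h, if_false]; exact measurable_const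

open Classical in
lemma pf_aw (ν : Measure (Row d)) [IsProbabilityMeasure ν] {W : Set (List (Step d))} (hW : PF W) :
    ∑' l, (if l ∈ W then aw ν l else 0) ≤ 1 := by
  rw [← lint_sum ν 0 (fun l => l ∈ W)]
  calc _ ≤ ∫⁻ _ : Environment d, (1 : ℝ≥0∞) ∂(iidEnvironmentLaw ν) :=
        lintegral_mono fun ω => kraft ω 0 hW
    _ = 1 := by simp

open Classical in
lemma pref_aw (ν : Measure (Row d)) [IsProbabilityMeasure ν] {W P : Set (List (Step d))}
    (hW : PF W) (hd : ∀ ρ ∈ W, ∃ γ ∈ P, γ <+: ρ) :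
    ∑' ρ, (if ρ ∈ W then aw ν ρ else 0) ≤ ∑' γ, (if γ ∈ P then aw ν γ else 0) := by
  rw [← lint_sum ν 0 (fun l => l ∈ W), ← lint_sum ν 0 (fun l => l ∈ P)]
  exact lintegral_mono fun ω => pref_le ω 0 hW hd

open Classical in
/-- continuations weigh at most the word itself -/
lemma ext_aw (ν : Measure (Row d)) [IsProbabilityMeasure ν] {W : Set (List (Step d))}
    (hW : PF W) (l : List (Step d)) :
    ∑' t, (if l ++ t ∈ W then aw ν (l ++ t) else 0) ≤ aw ν l := by
  have e : ∑' t, (if l ++ t ∈ W then aw ν (l ++ t) else 0)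
      = ∫⁻ ω, (∑' t, (if l ++ t ∈ W then lw ω 0 (l ++ t) else 0)) ∂(iidEnvironmentLaw ν) := by
    rw [lintegral_tsum]
    · refine tsum_congr fun t => ?_
      by_cases h : l ++ t ∈ W
      · simp only [h, if_true]; rfl
      · simp [h]
    · intro t
      by_cases h : l ++ t ∈ W
      · simp only [h, if_true]; exact (measurable_lw 0 _).aemeasurable
      · simp only [h, if_false]; exact measurable_const.aemeasurable
  rw [e]
  unfold NB28.aw
  refine lintegral_mono fun ω => ?_
  calc ∑' t, (if l ++ t ∈ W then lw ω 0 (l ++ t) else 0)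
      = lw ω 0 l * ∑' t, (if t ∈ {t | l ++ t ∈ W} then lw ω (endp 0 l) t else 0) := by
        rw [← ENNReal.tsum_mul_left]
        refine tsum_congr fun t => ?_
        by_cases h : l ++ t ∈ W
        · rw [if_pos h, if_pos (show t ∈ {t | l ++ t ∈ W} from h), NB28.lw_append]
        · rw [if_neg h, if_neg (show ¬ t ∈ {t | l ++ t ∈ W} from h), mul_zero]
    _ ≤ lw ω 0 l * 1 := by gcongr; exact kraft ω _ (pf_tail hW l)
    _ = lw ω 0 l := mul_one _

lemma endp_append (x : Site d) (a b : List (Step d)) :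
    endp x (a ++ b) = endp (endp x a) b := by
  induction a generalizing x with
  | nil => rfl
  | cons e a ih => simp only [List.cons_append, endp, ih]

lemma mem_sites_of (x : Site d) (a t : List (Step d)) (ht : t ≠ []) :
    endp x a ∈ sitesL x (a ++ t) := by
  rw [NB28.sitesL_append]
  cases t with
  | nil => exact absurd rfl ht
  | cons e t => simp [sitesL]

lemma of_mem_sites {x y : Site d} {l : List (Step d)} (h : y ∈ sitesL x l) :
    ∃ a t, l = a ++ t ∧ t ≠ [] ∧ endp x a = y := by
  induction l generalizing x with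
  | nil => simp [sitesL] at h
  | cons e l ih =>
    simp only [sitesL, List.mem_cons] at h
    rcases h with rfl | h
    · exact ⟨[], e :: l, rfl, by simp, rfl⟩
    · obtain ⟨a, t, h1, h2, h3⟩ := ih h
      exact ⟨e :: a, t, by rw [h1]; rfl, h2, h3⟩

/-! ### the free walker (direction `v`, from `0`) -/

/-- natural, and no visit of level `b` after height `s` -/
def NR (v : Step d) (s b : ℤ) (l : List (Step d)) : Prop :=
  (∀ y ∈ sitesL 0 l, 0 ≤ lev v y) ∧
    ∀ l1 l2, l1 ++ l2 <+: l → s ≤ lev v (endp 0 l1) → lev v (endp 0 (l1 ++ l2)) ≠ b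

/-- turning words -/
def RR (v : Step d) (s b : ℤ) : Set (List (Step d)) :=
  {ρ | ∃ ζ τ, ρ = ζ ++ τ ∧ NR v s b ζ ∧ s ≤ lev v (endp 0 ζ) ∧ lev v (endp 0 ρ) = b ∧
    ∀ y ∈ sitesL (endp 0 ζ) τ, b < lev v y}

lemma pf_RR (v : Step d) (s b : ℤ) : PF (RR v s b) := by
  rintro ρ ⟨ζ, τ, h1, h2, h3, h4, h5⟩ ρ' ⟨ζ', τ', h1', h2', h3', h4', h5'⟩ hp
  by_contra hne
  rcases List.prefix_or_prefix_of_prefix hp (h1' ▸ List.prefix_append ζ' τ') with h | h
  · subst h1
    exact h2'.2 ζ τ h h3 h4
  · obtain ⟨a, ha⟩ := h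
    obtain ⟨t, ht⟩ := hp
    have ht0 : t ≠ [] := by
      rintro rfl
      exact hne (by rw [← ht, List.append_nil])
    have h6 : τ' = a ++ t := by
      have : ζ' ++ τ' = ζ' ++ (a ++ t) := by rw [← h1', ← ht, ← ha, List.append_assoc]
      exact List.append_cancel_left this
    have h7 := h5' (endp (endp 0 ζ') a) (by rw [h6]; exact mem_sites_of _ a t ht0)
    rw [← endp_append, ha] at h7
    omega

lemma RR_sub {v : Step d} {s b r : ℤ} (h : b ≤ r) : RR v s b ⊆ Us109.RetW (d := d) v r s := by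
  rintro ρ ⟨ζ, τ, h1, h2, h3, h4, _⟩
  exact ⟨⟨ζ, τ, h1, h2.1, h3⟩, h4 ▸ h⟩

/-- completions of the explored walker -/
def CC (v : Step d) (b : ℤ) (F : Set (Site d)) (w : Site d) : Set (List (Step d)) :=
  {τ | endp w τ ∈ F ∧ lev v (endp w τ) = b ∧ ∀ y ∈ sitesL w τ, b < lev v y}

open Classical in
noncomputable def ee (ω : Environment d) (v : Step d) (b : ℤ) (F : Set (Site d)) (w : Site d) :
    ℝ≥0∞ := ∑' τ, (if τ ∈ CC v b F w then lw ω w τ else 0)

lemma lev_sub (v : Step d) (x y : Site d) : lev v (x - y) = lev v x - lev v y := by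
  have := Flux566.lev_add v (x - y) y
  rw [sub_add_cancel] at this
  have e : ∀ z : Site d, Flux566.lev v z = lev v z := fun z => rfl
  simp only [e] at this
  omega

lemma lev_add (v : Step d) (x y : Site d) : lev v (x + y) = lev v x + lev v y :=
  Flux566.lev_add v x y

lemma endp_shift (q : Site d) (l : List (Step d)) : endp q l = q + endp 0 l :=
  Flux566.endp_eq_add l q

open Classical in
/-- **turning**: from the ends of a prefix-free set of words at which `ee > lam` -/
theorem turn (ω : Environment d) (q : Site d) {W : Set (List (Step d))} (hW : PF W)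
    (lam : ℝ≥0∞) (F : Set (Site d)) (v : Step d) (s b : ℤ)
    (hN : ∀ l ∈ W, NR v s b l ∧ s ≤ lev v (endp 0 l))
    (he : ∀ l ∈ W, lam ≤ ee ω v (b + lev v q) F (endp q l)) :
    lam * ∑' l, (if l ∈ W then lw ω q l else 0)
      ≤ ∑' ρ, (if ρ ∈ RR v s b ∧ endp q ρ ∈ F then lw ω q ρ else 0) := by
  rw [← ENNReal.tsum_mul_left]
  calc ∑' l, lam * (if l ∈ W then lw ω q l else 0)
      ≤ ∑' l, ∑' t, (if l ∈ W ∧ t ∈ CC v (b + lev v q) F (endp q l) then lw ω q (l ++ t) else 0) := by
        refine ENNReal.tsum_le_tsum fun l => ?_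
        by_cases hl : l ∈ W
        · simp only [hl, if_true, true_and]
          calc lam * lw ω q l ≤ ee ω v (b + lev v q) F (endp q l) * lw ω q l := by
                gcongr; exact he l hl
            _ = _ := by
                rw [ee, ← ENNReal.tsum_mul_right]
                refine tsum_congr fun t => ?_
                by_cases ht : t ∈ CC v (b + lev v q) F (endp q l)
                · rw [if_pos ht, if_pos ht, NB28.lw_append, mul_comm]
                · rw [if_neg ht, if_neg ht, zero_mul]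
        · simp [hl]
    _ ≤ _ := by
        refine pair_le hW _ _ _ fun l t hl ht => ?_
        rw [if_pos]
        obtain ⟨h1, h2, h3⟩ := ht
        refine ⟨⟨l, t, rfl, (hN l hl).1, (hN l hl).2, ?_, ?_⟩, by rw [endp_append]; exact h1⟩
        · rw [← endp_append, endp_shift, lev_add] at h2
          omega
        · intro y hy
          have := h3 (q + y) (by
            rw [endp_shift q l, add_comm q, add_comm q]
            exact (NB28.mem_sitesL_add t _ q y).2 hy)
          rw [lev_add] at this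
          omega

open Classical in
/-- sum over the start of the explored walker -/
lemma sum_E (E : Finset (Site d)) (z : Site d) :
    ∑' q : Site d, (if z - q ∈ E then (1 : ℝ≥0∞) else 0) = E.card := by
  refine Eq.trans ((Equiv.subLeft z).tsum_eq (fun y => if y ∈ E then (1 : ℝ≥0∞) else 0)) ?_
  rw [tsum_eq_sum (s := E) (fun y hy => if_neg hy)]
  simp

open Classical in
lemma sum_E' (E : Finset (Site d)) (z : Site d) :
    ∑' q : Site d, (if q + z ∈ E then (1 : ℝ≥0∞) else 0) = E.card := by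
  refine Eq.trans ((Equiv.addRight z).tsum_eq (fun y => if y ∈ E then (1 : ℝ≥0∞) else 0)) ?_
  rw [tsum_eq_sum (s := E) (fun y hy => if_neg hy)]
  simp

open Classical in
/-- words with a return prefix -/
lemma ret_part (ν : Measure (Row d)) [IsProbabilityMeasure ν] (v : Step d) (r s : ℤ) (us : ℝ≥0∞)
    (hus : ∀ W : Set (List (Step d)), PF W → W ⊆ Us109.RetW v r s →
      ∑' l, (if l ∈ W then aw ν l else 0) ≤ us)
    {T : Set (List (Step d))} (hT : PF T) :
    ∑' l, (if l ∈ T ∧ (∃ l', l' <+: l ∧ l' ∈ Us109.RetW v r s) then aw ν l else 0) ≤ us := by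
  refine le_trans ?_ (hus (Min (Us109.RetW v r s)) (pf_Min _) fun l hl => hl.1)
  have := pref_aw ν (W := {l | l ∈ T ∧ (∃ l', l' <+: l ∧ l' ∈ Us109.RetW v r s)})
    (P := Min (Us109.RetW v r s)) (hT.mono fun l hl => hl.1)
    (fun ρ hρ => exists_Min _ ρ hρ.2)
  refine le_trans (le_of_eq (tsum_congr fun ρ => ?_)) this
  by_cases h : ρ ∈ T ∧ (∃ l', l' <+: ρ ∧ l' ∈ Us109.RetW v r s)
  · rw [if_pos h, if_pos (show ρ ∈ {l | l ∈ T ∧ (∃ l', l' <+: l ∧ l' ∈ Us109.RetW v r s)} from h)]
  · rw [if_neg h, if_neg (show ¬ ρ ∈ {l | l ∈ T ∧ (∃ l', l' <+: l ∧ l' ∈ Us109.RetW v r s)} from h)]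

lemma nr_of {v : Step d} {s b r : ℤ} (hb : b ≤ r) {l : List (Step d)}
    (h0 : ∀ y ∈ sitesL 0 l, 0 ≤ lev v y)
    (h : ¬ ∃ l', l' <+: l ∧ l' ∈ Us109.RetW v r s) : NR v s b l := by
  refine ⟨h0, fun l1 l2 hp h1 h2 => h ⟨l1 ++ l2, hp, ⟨l1, l2, rfl, fun y hy => ?_, h1⟩, ?_⟩⟩
  · obtain ⟨t, rfl⟩ := hp
    refine h0 y ?_
    rw [List.append_assoc, NB28.sitesL_append]
    exact List.mem_append_left _ hy
  · rw [h2]; exact hb

end Crest.Agent.R154.HW263
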