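import Crest.Agent.R154.B5Br_657
import Crest.Agent.R154.JHit_139
import Crest.Agent.R154.Comp_818
import Crest.Agent.R154.AsmA_789

/-! Row 154, ROAD 801, frame B (helper416): the small bad sets (`Good` of 139) from the window lemmas. -/

set_option autoImplicit false

namespace Crest.Agent.R154.HW416

open scoped ENNReal
open MeasureTheory ProbabilityTheory Crest.ProbabilityR.RandomEnvironment
open Crest.Agent.R154.B5A
open Crest.Agent.R154.JAsm139 (card Good hitS hit_le)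

section abs

variable {B W : Type*}

/-- Chebyshev by test measures -/
lemma card_small (Q : W → ℝ≥0∞) (A C lam us : ℝ≥0∞) (hC1 : 1 ≤ C) (hC : C ≠ ⊤) (hl0 : lam ≠ 0)
    (hl1 : lam ≠ ⊤) (hus : us ≤ lam)
    (h : ∀ μ : W → ℝ≥0∞, ∀ M : ℝ≥0∞, ∑' x, μ x ≤ 1 → (∀ x, μ x ≤ M) →
      ∑' x, μ x * Q x ≤ C * (lam + M * A * us / lam + us)) :
    card {w | 4 * C * lam < Q w} * (2 * (lam * lam)) ≤ A * us := by
  classical
  rw [card, ENNReal.tsum_eq_iSup_sum, ENNReal.iSup_mul]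
  refine iSup_le fun F => ?_
  set S := {w | 4 * C * lam < Q w} with hS
  set F' := F.filter (· ∈ S) with hF'
  have e : ∑ w ∈ F, S.indicator (fun _ => (1 : ℝ≥0∞)) w = (F'.card : ℝ≥0∞) := by
    simp only [Set.indicator_apply]
    rw [Finset.sum_ite]
    simp [hF']
  rw [e]
  rcases Nat.eq_zero_or_pos F'.card with h0 | hpos
  · rw [h0]; simp
  set n : ℝ≥0∞ := (F'.card : ℝ≥0∞) with hn
  have hn0 : n ≠ 0 := by
    rw [hn]; exact_mod_cast hpos.ne'
  have hn1 : n ≠ ⊤ := ENNReal.natCast_ne_top _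
  have hsum : ∀ g : W → ℝ≥0∞, ∑' x, (if x ∈ F' then g x else 0) = ∑ x ∈ F', g x := by
    intro g
    rw [tsum_eq_sum (s := F')]
    · exact Finset.sum_congr rfl fun x hx => if_pos hx
    · intro x hx; exact if_neg hx
  have h1 := h (fun x => if x ∈ F' then n⁻¹ else 0) n⁻¹ (by
      rw [hsum, Finset.sum_const, nsmul_eq_mul]
      exact (ENNReal.mul_inv_cancel hn0 hn1).le) (by
      intro x; split_ifs
      · exact le_rfl
      · exact zero_le)
  have h2 : 4 * C * lam ≤ ∑' x, (if x ∈ F' then n⁻¹ else 0) * Q x := by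
    have e2 : ∀ x, (if x ∈ F' then n⁻¹ else 0) * Q x = if x ∈ F' then n⁻¹ * Q x else 0 := by
      intro x; split_ifs <;> simp
    simp only [e2]
    rw [hsum]
    calc 4 * C * lam = ∑ x ∈ F', n⁻¹ * (4 * C * lam) := by
          rw [Finset.sum_const, nsmul_eq_mul, ← mul_assoc, ENNReal.mul_inv_cancel hn0 hn1, one_mul]
      _ ≤ _ := Finset.sum_le_sum fun x hx => by
          have : x ∈ S := (Finset.mem_filter.1 hx).2
          exact mul_le_mul_right (le_of_lt this) _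
  have hC0 : C ≠ 0 := fun h0 => by rw [h0] at hC1; exact absurd hC1 (by simp)
  have h3 : 4 * lam ≤ lam + n⁻¹ * A * us / lam + us := by
    have h4 : C * (4 * lam) ≤ C * (lam + n⁻¹ * A * us / lam + us) := by
      calc C * (4 * lam) = 4 * C * lam := by ring
        _ ≤ _ := h2.trans h1
    exact (ENNReal.mul_le_mul_iff_right hC0 hC).1 h4
  have h5 : 2 * lam + 2 * lam ≤ n⁻¹ * A * us / lam + 2 * lam := by
    calc 2 * lam + 2 * lam = 4 * lam := by ring
      _ ≤ lam + n⁻¹ * A * us / lam + us := h3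
      _ ≤ lam + n⁻¹ * A * us / lam + lam := by gcongr
      _ = _ := by ring
  have h6 : 2 * lam ≤ n⁻¹ * A * us / lam :=
    (ENNReal.add_le_add_iff_right (ENNReal.mul_ne_top (by norm_num) hl1)).1 h5
  have h7 : 2 * (lam * lam) ≤ n⁻¹ * A * us := by
    calc 2 * (lam * lam) = (2 * lam) * lam := by ring
      _ ≤ (n⁻¹ * A * us / lam) * lam := mul_le_mul_left h6 _
      _ = _ := ENNReal.div_mul_cancel hl0 hl1
  calc n * (2 * (lam * lam)) ≤ n * (n⁻¹ * A * us) := mul_le_mul_right h7 _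
    _ = (n * n⁻¹) * (A * us) := by ring
    _ = A * us := by rw [ENNReal.mul_inv_cancel hn0 hn1, one_mul]

open Classical in
/-- `Good` from the test-measure inequality -/
lemma good_of (Λ : B → ℝ≥0∞) (ht : B → ℕ) (dl : B → W → W) (H : ℕ) (Q : W → ℝ≥0∞)
    (Sc : Set (List B)) (θ A C lam us q η : ℝ≥0∞) (hC1 : 1 ≤ C) (hC : C ≠ ⊤) (hl0 : lam ≠ 0)
    (hl1 : lam ≠ ⊤) (hus : us ≤ lam) (hη : us ≤ η * (lam * lam))
    (hq : q ≤ ∑' L : List B, (if HT ht L = H ∧ L ∈ Sc then LW Λ L else 0))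
    (hd : ∀ w w', ∑' L : List B, (if HT ht L = H ∧ L ∈ Sc ∧ act dl L w = w' then LW Λ L else 0)
      ≤ 2 * θ) (hA : A * θ ≤ 1)
    (h : ∀ μ : W → ℝ≥0∞, ∀ M : ℝ≥0∞, ∑' x, μ x ≤ 1 → (∀ x, μ x ≤ M) →
      ∑' x, μ x * Q x ≤ C * (lam + M * A * us / lam + us)) :
    Good Λ ht dl q η H {w | 4 * C * lam < Q w} := by
  refine ⟨Sc, 2 * θ, ?_, ?_, ?_⟩
  · convert hq
  · intro w w'
    convert hd w w'
  · have h1 := card_small Q A C lam us hC1 hC hl0 hl1 hus h
    have hll0 : lam * lam ≠ 0 := mul_ne_zero hl0 hl0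
    have hll1 : lam * lam ≠ ⊤ := ENNReal.mul_ne_top hl1 hl1
    refine (ENNReal.mul_le_mul_iff_right hll0 hll1).1 ?_
    calc (lam * lam) * (2 * θ * card {w | 4 * C * lam < Q w})
        = θ * (card {w | 4 * C * lam < Q w} * (2 * (lam * lam))) := by ring
      _ ≤ θ * (A * us) := mul_le_mul_right h1 _
      _ = (A * θ) * us := by ring
      _ ≤ 1 * us := mul_le_mul_left hA _
      _ = us := one_mul _
      _ ≤ η * (lam * lam) := hη
      _ = _ := mul_comm _ _

open Classical in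
/-- dyadic quantile of a sub-law -/
theorem quant' {ι : Type*} (p : ι → ℝ≥0∞) (hp : ∑' i, p i ≤ 1) {v : ℝ≥0∞} (hv : v ≠ 0)
    (hv1 : v ≤ ∑' i, p i) : ∃ θ : ℝ≥0∞, θ ≠ 0 ∧ θ ≤ 1 ∧ (∑' i, if p i < θ then p i else 0) ≤ v ∧
      v ≤ (∑' i, if p i < 2 * θ then p i else 0) := by
  have hex := AsmA789.exists_small p hp hv
  set P : ℕ → Prop := fun q => (∑' i, if p i < (2 : ℝ≥0∞)⁻¹ ^ q then p i else 0) ≤ v with hP
  have hex' : ∃ q, P q := hex
  have hq := Nat.find_spec hex'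
  refine ⟨(2 : ℝ≥0∞)⁻¹ ^ Nat.find hex', ?_, ?_, hq, ?_⟩
  · exact pow_ne_zero _ (by simp)
  · exact pow_le_one' (by simp) _
  · rcases Nat.eq_zero_or_pos (Nat.find hex') with h0 | hpos
    · rw [h0, pow_zero, mul_one]
      have : ∀ i, p i < 2 := by
        intro i
        calc p i ≤ ∑' i, p i := ENNReal.le_tsum i
          _ ≤ 1 := hp
          _ < 2 := by norm_num
      simp only [this, if_true]
      exact hv1
    · obtain ⟨r, hr⟩ := Nat.exists_eq_succ_of_ne_zero hpos.ne'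
      have hnot : ¬ P r := Nat.find_min hex' (by omega)
      have e : 2 * (2 : ℝ≥0∞)⁻¹ ^ Nat.find hex' = (2 : ℝ≥0∞)⁻¹ ^ r := by
        rw [hr, Nat.succ_eq_add_one, pow_succ, mul_comm ((2 : ℝ≥0∞)⁻¹ ^ r), ← mul_assoc,
          ENNReal.mul_inv_cancel (by norm_num) (by norm_num), one_mul]
      rw [e]
      exact (not_le.1 hnot).le

open Classical in
lemma fib {L : Type*} {Z : Type*} (A : L → Prop) (f : L → ℝ≥0∞) (e : L → Z) (P : Z → Prop) :
    ∑' z, (if P z then ∑' π, (if A π ∧ e π = z then f π else 0) else 0)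
      = ∑' π, if A π ∧ P (e π) then f π else 0 := by
  have h1 : ∀ z, (if P z then ∑' π, (if A π ∧ e π = z then f π else 0) else 0)
      = ∑' π, (if P z ∧ A π ∧ e π = z then f π else 0) := by
    intro z
    by_cases h : P z
    · rw [if_pos h]
      refine tsum_congr fun π => ?_
      simp [h]
    · rw [if_neg h]
      symm
      rw [ENNReal.tsum_eq_zero]
      intro π
      rw [if_neg (fun h' => h h'.1)]
  simp only [h1]
  rw [ENNReal.tsum_comm]
  refine tsum_congr fun π => ?_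
  rw [tsum_eq_single (e π)]
  · by_cases h2 : A π ∧ P (e π)
    · rw [if_pos h2, if_pos ⟨h2.2, h2.1, rfl⟩]
    · rw [if_neg h2, if_neg (fun h' => h2 ⟨h'.2.1, h'.1⟩)]
  · intro z hz
    rw [if_neg (fun h' => hz h'.2.2.symm)]

end abs

end Crest.Agent.R154.HW416
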