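import Crest.Agent.R154.B5Rec_566

/-! Row 154, ROAD 801 in 692's frame (helper776): first passage lists, composites, and the density
lemma per height, in the letters of 566 (`LW`, `HT`). -/

set_option autoImplicit false

namespace Crest.Agent.R154.Hit776

open Crest.Agent.R154.B5A
open scoped ENNReal

variable {B : Type*} (Λ : B → ℝ≥0∞) (ht : B → ℕ)

/-- first passage of height `a` (read from the top) -/
def FP : ℕ → List B → Prop
  | a, [] => a = 0
  | a, b :: L => 0 < a ∧ FP (a - ht b) L

lemma FP_zero (L : List B) : FP ht 0 L ↔ L = [] := by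
  cases L with
  | nil => simp [FP]
  | cons b L => simp [FP]

lemma FP_le {a : ℕ} {L : List B} (h : FP ht a L) : a ≤ HT ht L := by
  induction L generalizing a with
  | nil => have : a = 0 := h; omega
  | cons b L ih => rw [HT_cons]; have := ih h.2; omega

open Classical in
/-- weighted sum over the first passage lists -/
noncomputable def S (a : ℕ) (F : List B → ℝ≥0∞) : ℝ≥0∞ :=
  ∑' L : List B, if FP ht a L then LW Λ L * F L else 0

lemma S_zero (F : List B → ℝ≥0∞) : S Λ ht 0 F = F [] := by
  rw [S, tsum_list]
  have : ∀ b (L : List B), ¬ FP ht 0 (b :: L) := fun b L h => by simp [FP] at h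
  simp [this, FP, LW_nil]

lemma S_pos {a : ℕ} (ha : 0 < a) (F : List B → ℝ≥0∞) :
    S Λ ht a F = ∑' b, Λ b * S Λ ht (a - ht b) (fun L => F (b :: L)) := by
  rw [S, tsum_list]
  rw [if_neg (by simp only [FP]; omega), zero_add]
  refine tsum_congr fun b => ?_
  rw [S, ← ENNReal.tsum_mul_left]
  refine tsum_congr fun L => ?_
  by_cases h : FP ht (a - ht b) L
  · rw [if_pos h, if_pos (show FP ht a (b :: L) from ⟨ha, h⟩), LW_cons, mul_assoc]
  · rw [if_neg h, if_neg (fun h' : FP ht a (b :: L) => h h'.2), mul_zero]

lemma S_mono (a : ℕ) {F F' : List B → ℝ≥0∞} (h : ∀ L, FP ht a L → F L ≤ F' L) :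
    S Λ ht a F ≤ S Λ ht a F' := by
  refine ENNReal.tsum_le_tsum fun L => ?_
  by_cases hL : FP ht a L
  · rw [if_pos hL, if_pos hL]; exact mul_le_mul_right (h L hL) _
  · rw [if_neg hL, if_neg hL]

lemma S_add_fun (a : ℕ) (F F' : List B → ℝ≥0∞) :
    S Λ ht a (fun L => F L + F' L) = S Λ ht a F + S Λ ht a F' := by
  rw [S, S, S, ← ENNReal.tsum_add]
  refine tsum_congr fun L => ?_
  by_cases hL : FP ht a L
  · simp [hL, mul_add]
  · simp [hL]

lemma S_const_mul (a : ℕ) (c : ℝ≥0∞) (F : List B → ℝ≥0∞) :
    S Λ ht a (fun L => c * F L) = c * S Λ ht a F := by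
  rw [S, S, ← ENNReal.tsum_mul_left]
  refine tsum_congr fun L => ?_
  by_cases hL : FP ht a L
  · simp [hL, mul_left_comm]
  · simp [hL]

lemma S_tsum {ι : Type*} (a : ℕ) (F : ι → List B → ℝ≥0∞) :
    S Λ ht a (fun L => ∑' i, F i L) = ∑' i, S Λ ht a (F i) := by
  simp only [S]
  rw [ENNReal.tsum_comm]
  refine tsum_congr fun L => ?_
  by_cases hL : FP ht a L
  · simp [hL, ENNReal.tsum_mul_left]
  · simp [hL]

lemma S_one (h1 : ∀ b, 1 ≤ ht b) (hΛ : ∑' b, Λ b = 1) (a : ℕ) : S Λ ht a (fun _ => 1) = 1 := by
  induction a using Nat.strong_induction_on with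
  | _ a ih =>
    rcases Nat.eq_zero_or_pos a with rfl | ha
    · rw [S_zero]
    · rw [S_pos Λ ht ha]
      have : ∀ b, S Λ ht (a - ht b) (fun _ => (1 : ℝ≥0∞)) = 1 := fun b =>
        ih _ (by have := h1 b; omega)
      simp_rw [this, mul_one]
      exact hΛ

/-- **split at the first passage of `a`** -/
theorem split (h1 : ∀ b, 1 ≤ ht b) (a : ℕ) (g : List B → ℝ≥0∞) :
    ∑' L : List B, (if a ≤ HT ht L then g L else 0)
      = ∑' L1 : List B, (open Classical in if FP ht a L1 then ∑' L2, g (L1 ++ L2) else 0) := by
  classical
  induction a using Nat.strong_induction_on generalizing g with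
  | _ a ih =>
    rcases Nat.eq_zero_or_pos a with rfl | ha
    · simp only [Nat.zero_le, if_true]
      symm
      rw [tsum_eq_single ([] : List B)]
      · rw [if_pos ((FP_zero ht _).2 rfl)]; rfl
      · intro L hL
        rw [if_neg (fun h => hL ((FP_zero ht L).1 h))]
    · rw [tsum_list, tsum_list]
      rw [if_neg (by rw [HT_nil]; omega), if_neg (by simp only [FP]; omega), zero_add, zero_add]
      refine tsum_congr fun b => ?_
      have hb := h1 b
      have e := ih (a - ht b) (by omega) (fun L => g (b :: L))
      calc ∑' L, (if a ≤ HT ht (b :: L) then g (b :: L) else 0)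
          = ∑' L, (if a - ht b ≤ HT ht L then g (b :: L) else 0) := by
            refine tsum_congr fun L => ?_
            rw [HT_cons]
            by_cases h : a - ht b ≤ HT ht L
            · rw [if_pos h, if_pos (by omega)]
            · rw [if_neg h, if_neg (by omega)]
        _ = _ := e
        _ = _ := by
            refine tsum_congr fun L => ?_
            by_cases h : FP ht (a - ht b) L
            · rw [if_pos h, if_pos (show FP ht a (b :: L) from ⟨ha, h⟩)]; rfl
            · rw [if_neg h, if_neg (fun h' : FP ht a (b :: L) => h h'.2)]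

/-- restart: a first passage of `a` starts with a first passage of `h ≤ a`. -/
theorem S_restart (h1 : ∀ b, 1 ≤ ht b) (h a : ℕ) (ha : h ≤ a) (F : List B → ℝ≥0∞) :
    S Λ ht a F = S Λ ht h (fun C => S Λ ht (a - HT ht C) (fun L => F (C ++ L))) := by
  induction h using Nat.strong_induction_on generalizing a F with
  | _ h ih =>
    rcases Nat.eq_zero_or_pos h with rfl | hh
    · rw [S_zero]; simp [HT_nil]
    · rw [S_pos Λ ht (by omega : 0 < a), S_pos Λ ht hh]
      refine tsum_congr fun b => ?_
      have hb := h1 b
      congr 1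
      by_cases hc : h ≤ ht b
      · rw [show h - ht b = 0 by omega, S_zero, HT_cons, HT_nil, add_zero]
        rfl
      · rw [ih (h - ht b) (by omega) (a - ht b) (by omega)]
        have : ∀ C : List B, a - HT ht (b :: C) = a - ht b - HT ht C := fun C => by
          rw [HT_cons]; omega
        simp only [this]
        rfl

/-! ### composites -/

/-- sum over `j` composites of type `h` -/
noncomputable def SC (h : ℕ) : ℕ → (List B → ℝ≥0∞) → ℝ≥0∞
  | 0, F => F []
  | j + 1, F => S Λ ht h (fun C => SC h j (fun L => F (C ++ L)))

lemma SC_mono (h j : ℕ) {F F' : List B → ℝ≥0∞} (hF : ∀ L, F L ≤ F' L) :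
    SC Λ ht h j F ≤ SC Λ ht h j F' := by
  induction j generalizing F F' with
  | zero => exact hF []
  | succ j ih => exact S_mono Λ ht h fun C _ => ih fun L => hF _

lemma SC_add_fun (h j : ℕ) (F F' : List B → ℝ≥0∞) :
    SC Λ ht h j (fun L => F L + F' L) = SC Λ ht h j F + SC Λ ht h j F' := by
  induction j generalizing F F' with
  | zero => rfl
  | succ j ih =>
    simp only [SC]
    rw [← S_add_fun]
    congr 1
    funext C
    exact ih _ _

lemma SC_const_mul (h j : ℕ) (c : ℝ≥0∞) (F : List B → ℝ≥0∞) :
    SC Λ ht h j (fun L => c * F L) = c * SC Λ ht h j F := by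
  induction j generalizing F with
  | zero => rfl
  | succ j ih =>
    simp only [SC]
    rw [← S_const_mul]
    congr 1
    funext C
    exact ih _

lemma SC_one (h1 : ∀ b, 1 ≤ ht b) (hΛ : ∑' b, Λ b = 1) (h j : ℕ) :
    SC Λ ht h j (fun _ => 1) = 1 := by
  induction j with
  | zero => rfl
  | succ j ih => simp only [SC]; rw [ih]; exact S_one Λ ht h1 hΛ h

/-- **the first `N` composites inside a first passage of `a`**, off the event that they are high. -/
theorem S_le_SC (h1 : ∀ b, 1 ≤ ht b) (hΛ : ∑' b, Λ b = 1) (h : ℕ) (hh : 0 < h) (N : ℕ) (a : ℕ)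
    (F : List B → ℝ≥0∞) (hF : ∀ L, F L ≤ 1) :
    S Λ ht a F ≤ SC Λ ht h N (fun P => S Λ ht (a - HT ht P) (fun L => F (P ++ L)))
      + SC Λ ht h N (fun P => if a < HT ht P + h then 1 else 0) := by
  induction N generalizing a F with
  | zero =>
    simp only [SC, HT_nil, Nat.sub_zero, List.nil_append]
    exact le_self_add
  | succ N ih =>
    by_cases hah : h ≤ a
    · rw [S_restart Λ ht h1 h a hah]
      simp only [SC]
      rw [← S_add_fun]
      refine S_mono Λ ht h fun C _ => ?_
      refine (ih (a - HT ht C) (fun L => F (C ++ L)) fun L => hF _).trans ?_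
      refine add_le_add ?_ ?_
      · refine SC_mono Λ ht h N fun P => ?_
        have e1 : a - HT ht C - HT ht P = a - HT ht (C ++ P) := by rw [HT_append]; omega
        rw [e1]
        refine S_mono Λ ht _ fun L _ => ?_
        rw [List.append_assoc]
      · refine SC_mono Λ ht h N fun P => ?_
        rw [HT_append]
        by_cases hc : a - HT ht C < HT ht P + h
        · rw [if_pos hc, if_pos (by omega)]
        · rw [if_neg hc]; exact zero_le
    · refine le_trans ?_ le_add_self
      calc S Λ ht a F ≤ S Λ ht a (fun _ => 1) := S_mono Λ ht a fun L _ => hF L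
        _ = 1 := S_one Λ ht h1 hΛ a
        _ = SC Λ ht h (N + 1) (fun _ => 1) := (SC_one Λ ht h1 hΛ h (N + 1)).symm
        _ ≤ _ := SC_mono Λ ht h (N + 1) fun P => by rw [if_pos (by omega)]

/-! ### hits -/

variable (H : List B → Prop)

open Classical in
/-- no composite is a hit -/
noncomputable def NH (h : ℕ) : ℕ → (List B → ℝ≥0∞) → ℝ≥0∞
  | 0, F => F []
  | j + 1, F => S Λ ht h (fun C => if H C then 0 else NH h j (fun L => F (C ++ L)))

open Classical in
/-- some composite is a hit -/
noncomputable def HH (h : ℕ) : ℕ → (List B → ℝ≥0∞) → ℝ≥0∞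
  | 0, _ => 0
  | j + 1, F => S Λ ht h (fun C => if H C then SC Λ ht h j (fun L => F (C ++ L))
      else HH h j (fun L => F (C ++ L)))

lemma SC_eq (h j : ℕ) (F : List B → ℝ≥0∞) :
    SC Λ ht h j F = NH Λ ht H h j F + HH Λ ht H h j F := by
  classical
  induction j generalizing F with
  | zero => simp [SC, NH, HH]
  | succ j ih =>
    simp only [SC, NH, HH]
    rw [← S_add_fun]
    congr 1
    funext C
    by_cases hC : H C
    · simp [hC]
    · simp only [hC, if_false]; exact ih _

lemma HH_le_SC (h j : ℕ) (F : List B → ℝ≥0∞) : HH Λ ht H h j F ≤ SC Λ ht h j F := by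
  rw [SC_eq Λ ht H]; exact le_add_self

open Classical in
lemma NH_le (h N : ℕ) (F : List B → ℝ≥0∞) (hF : ∀ L, F L ≤ 1) (r : ℝ≥0∞)
    (hr : S Λ ht h (fun C => if H C then 0 else 1) ≤ r) : NH Λ ht H h N F ≤ r ^ N := by
  induction N generalizing F with
  | zero => simpa [NH] using hF []
  | succ N ih =>
    simp only [NH]
    calc S Λ ht h (fun C => if H C then 0 else NH Λ ht H h N (fun L => F (C ++ L)))
        ≤ S Λ ht h (fun C => r ^ N * (if H C then 0 else 1)) := by
          refine S_mono Λ ht h fun C _ => ?_
          by_cases hC : H C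
          · simp [hC]
          · simp only [hC, if_false, mul_one]; exact ih _ fun L => hF _
      _ = r ^ N * S Λ ht h (fun C => if H C then 0 else 1) := S_const_mul Λ ht h _ _
      _ ≤ r ^ N * r := mul_le_mul_right hr _
      _ = r ^ (N + 1) := (pow_succ r N).symm

variable {W : Type*} [AddCommGroup W] (dz : B → W)

/-- displacement of a list -/
def DZ (L : List B) : W := (L.map dz).sum

lemma DZ_append (L L' : List B) : DZ dz (L ++ L') = DZ dz L + DZ dz L' := by simp [DZ]

lemma DZ_nil : DZ dz ([] : List B) = 0 := rfl

open Classical in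
/-- the sub-law of the displacement on {some hit} is bounded -/
lemma HH_density (h1 : ∀ b, 1 ≤ ht b) (hΛ : ∑' b, Λ b = 1) (h : ℕ)
    (hH : ∀ C, H C → HT ht C = h) (τ : ℝ≥0∞)
    (hτ : ∀ z : W, S Λ ht h (fun C => if H C ∧ DZ dz C = z then 1 else 0) ≤ τ)
    (c : ℝ≥0∞) (r : ℝ≥0∞) (hr : S Λ ht h (fun C => if H C then 0 else 1) ≤ r)
    (f : ℕ → W → ℝ≥0∞) (hf : ∀ a, ∑' x, f a x ≤ c) (N : ℕ) (a0 : ℕ) (z0 : W) :
    HH Λ ht H h N (fun L => f (a0 + HT ht L) (z0 + DZ dz L))
      ≤ (∑ i ∈ Finset.range N, r ^ i) * (τ * c) := by
  induction N generalizing a0 z0 with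
  | zero => simp [HH]
  | succ N ih =>
    simp only [HH]
    have step : S Λ ht h (fun C => if H C
          then SC Λ ht h N (fun L => f (a0 + HT ht (C ++ L)) (z0 + DZ dz (C ++ L)))
          else HH Λ ht H h N (fun L => f (a0 + HT ht (C ++ L)) (z0 + DZ dz (C ++ L))))
        ≤ S Λ ht h (fun C => (if H C
          then SC Λ ht h N (fun L => f (a0 + h + HT ht L) (z0 + DZ dz C + DZ dz L)) else 0)
          + ((∑ i ∈ Finset.range N, r ^ i) * (τ * c)) * (if H C then 0 else 1)) := by
      refine S_mono Λ ht h fun C _ => ?_
      by_cases hC : H C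
      · simp only [hC, if_true, mul_zero, add_zero]
        refine SC_mono Λ ht h N fun L => ?_
        rw [HT_append, DZ_append, hH C hC, ← add_assoc, ← add_assoc]
      · simp only [hC, if_false, zero_add, mul_one]
        have := ih (a0 + HT ht C) (z0 + DZ dz C)
        refine le_trans (le_of_eq ?_) this
        congr 1
        funext L
        rw [HT_append, DZ_append, ← add_assoc, ← add_assoc]
    refine step.trans ?_
    rw [S_add_fun, S_const_mul]
    have key : S Λ ht h (fun C => (if H C
          then SC Λ ht h N (fun L => f (a0 + h + HT ht L) (z0 + DZ dz C + DZ dz L)) else 0))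
        ≤ τ * c := by
      have sw : S Λ ht h (fun C => (if H C
          then SC Λ ht h N (fun L => f (a0 + h + HT ht L) (z0 + DZ dz C + DZ dz L)) else 0))
          = SC Λ ht h N (fun L => S Λ ht h (fun C => if H C then
              f (a0 + h + HT ht L) (z0 + DZ dz C + DZ dz L) else 0)) := by
        have aux : ∀ (j : ℕ) (Ψ : List B → List B → ℝ≥0∞),
            S Λ ht h (fun C => if H C then SC Λ ht h j (Ψ C) else 0)
              = SC Λ ht h j (fun L => S Λ ht h (fun C => if H C then Ψ C L else 0)) := by
          intro j
          induction j with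
          | zero => intro Ψ; rfl
          | succ j ihj =>
            intro Ψ
            simp only [SC]
            have e2 : ∀ C : List B, (if H C then S Λ ht h (fun D => SC Λ ht h j
                (fun L => Ψ C (D ++ L))) else 0)
                = S Λ ht h (fun D => if H C then SC Λ ht h j (fun L => Ψ C (D ++ L)) else 0) := by
              intro C
              by_cases hC : H C
              · simp [hC]
              · simp [hC, S]
            simp_rw [e2]
            have comm : ∀ (Φ : List B → List B → ℝ≥0∞),
                S Λ ht h (fun C => S Λ ht h (fun D => Φ C D))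
                  = S Λ ht h (fun D => S Λ ht h (fun C => Φ C D)) := by
              intro Φ
              have e3 : ∀ (Φ : List B → List B → ℝ≥0∞),
                  S Λ ht h (fun C => S Λ ht h (fun D => Φ C D)) = ∑' C, ∑' D,
                    (if FP ht h C then LW Λ C else 0) * (if FP ht h D then LW Λ D else 0) * Φ C D := by
                intro Φ
                rw [S]
                refine tsum_congr fun C => ?_
                by_cases hC : FP ht h C
                · rw [if_pos hC, S, ← ENNReal.tsum_mul_left]
                  refine tsum_congr fun D => ?_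
                  by_cases hD : FP ht h D
                  · simp [hC, hD, mul_assoc]
                  · simp [hD]
                · simp [hC]
              rw [e3, e3, ENNReal.tsum_comm]
              refine tsum_congr fun C => tsum_congr fun D => ?_
              rw [mul_comm (if FP ht h D then LW Λ D else 0)]
            rw [comm]
            congr 1
            funext D
            exact ihj (fun C L => Ψ C (D ++ L))
        exact aux N (fun C L => f (a0 + h + HT ht L) (z0 + DZ dz C + DZ dz L))
      rw [sw]
      calc SC Λ ht h N (fun L => S Λ ht h (fun C => if H C then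
              f (a0 + h + HT ht L) (z0 + DZ dz C + DZ dz L) else 0))
          ≤ SC Λ ht h N (fun _ => (τ * c) * 1) := by
            refine SC_mono Λ ht h N fun L => ?_
            rw [mul_one]
            calc S Λ ht h (fun C => if H C then
                  f (a0 + h + HT ht L) (z0 + DZ dz C + DZ dz L) else 0)
                = S Λ ht h (fun C => ∑' z : W, f (a0 + h + HT ht L) (z0 + z + DZ dz L)
                    * (if H C ∧ DZ dz C = z then 1 else 0)) := by
                  congr 1
                  funext C
                  rw [tsum_eq_single (DZ dz C)]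
                  · by_cases hC : H C <;> simp [hC]
                  · intro z hz
                    rw [if_neg (fun h => hz h.2.symm), mul_zero]
              _ = ∑' z : W, f (a0 + h + HT ht L) (z0 + z + DZ dz L)
                    * S Λ ht h (fun C => (if H C ∧ DZ dz C = z then 1 else 0)) := by
                  rw [S_tsum]
                  exact tsum_congr fun z => S_const_mul Λ ht h _ _
              _ ≤ ∑' z : W, f (a0 + h + HT ht L) (z0 + z + DZ dz L) * τ :=
                  ENNReal.tsum_le_tsum fun z => mul_le_mul_right (hτ z) _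
              _ = τ * ∑' z : W, f (a0 + h + HT ht L) (z0 + z + DZ dz L) := by
                  rw [ENNReal.tsum_mul_right, mul_comm]
              _ ≤ τ * c := by
                  refine mul_le_mul_right ?_ _
                  refine le_trans (le_of_eq ?_) (hf (a0 + h + HT ht L))
                  rw [← (Equiv.addRight (z0 + DZ dz L)).tsum_eq
                    (fun x => f (a0 + h + HT ht L) x)]
                  refine tsum_congr fun z => ?_
                  congr 1
                  simp only [Equiv.coe_addRight]
                  abel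
        _ = τ * c := by rw [SC_const_mul, SC_one Λ ht h1 hΛ, mul_one]
    calc _ ≤ τ * c + ((∑ i ∈ Finset.range N, r ^ i) * (τ * c)) * r :=
          add_le_add key (mul_le_mul_right hr _)
      _ = (∑ i ∈ Finset.range (N + 1), r ^ i) * (τ * c) := by
          rw [Finset.sum_range_succ', add_mul, pow_zero, one_mul, add_comm]
          congr 1
          rw [mul_assoc, mul_comm (τ * c) r, ← mul_assoc, Finset.sum_mul]
          congr 1
          exact Finset.sum_congr rfl fun i _ => (pow_succ r i).symm

open Classical in
/-- **DENSITY PER HEIGHT**: a first passage of `a` carries, off `(1-q)^N` and off the event that `N`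
composites of type `h` are high, a sub-law of the displacement with density `≤ τ / q`. -/
theorem density (h1 : ∀ b, 1 ≤ ht b) (hΛ : ∑' b, Λ b = 1) (h : ℕ) (hh : 0 < h)
    (hH : ∀ C, H C → HT ht C = h) (τ : ℝ≥0∞)
    (hτ : ∀ z : W, S Λ ht h (fun C => if H C ∧ DZ dz C = z then 1 else 0) ≤ τ)
    (q : ℝ≥0∞) (hq : q ≤ S Λ ht h (fun C => if H C then 1 else 0)) (N a : ℕ) (w : W) :
    ∃ μ : W → ℝ≥0∞, (∑' x, μ x ≤ 1) ∧ (∀ x, μ x ≤ τ / q) ∧
      ∀ K : W → ℝ≥0∞, (∀ x, K x ≤ 1) →
        S Λ ht a (fun L => K (w + DZ dz L)) ≤ ∑' x, μ x * K x + (1 - q) ^ N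
          + SC Λ ht h N (fun P => if a < HT ht P + h then 1 else 0) := by
  classical
  set q' := S Λ ht h (fun C => if H C then 1 else 0) with hq'
  have hsum : q' + S Λ ht h (fun C => if H C then 0 else 1) = 1 := by
    rw [hq', ← S_add_fun]
    refine Eq.trans ?_ (S_one Λ ht h1 hΛ h)
    congr 1
    funext C
    by_cases hC : H C <;> simp [hC]
  have hq'1 : q' ≤ 1 := by rw [← hsum]; exact le_self_add
  have hr : S Λ ht h (fun C => if H C then 0 else 1) = 1 - q' :=
    ENNReal.eq_sub_of_add_eq (ne_top_of_le_ne_top ENNReal.one_ne_top hq'1)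
      (by rw [add_comm]; exact hsum)
  -- the kernel of the remainder
  set f : W → ℕ → W → ℝ≥0∞ := fun x b z =>
    S Λ ht (a - b) (fun R => if w + z + DZ dz R = x then 1 else 0) with hf
  have hf1 : ∀ x b, ∑' z, f x b z ≤ 1 := by
    intro x b
    simp only [hf]
    rw [← S_tsum]
    calc S Λ ht (a - b) (fun L => ∑' z, (if w + z + DZ dz L = x then (1 : ℝ≥0∞) else 0))
        ≤ S Λ ht (a - b) (fun _ => 1) := by
          refine S_mono Λ ht _ fun L _ => ?_
          rw [tsum_eq_single (x - w - DZ dz L)]
          · split_ifs <;> simp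
          · intro z hz
            rw [if_neg]
            intro h
            apply hz
            rw [← h]; abel
      _ = 1 := S_one Λ ht h1 hΛ _
  refine ⟨fun x => HH Λ ht H h N (fun P => f x (0 + HT ht P) (0 + DZ dz P)), ?_, ?_, ?_⟩
  · -- total mass
    have hswap : ∀ (j : ℕ) (Ψ : W → List B → ℝ≥0∞),
        ∑' x, HH Λ ht H h j (Ψ x) = HH Λ ht H h j (fun L => ∑' x, Ψ x L) := by
      have hSC : ∀ (j : ℕ) (Ψ : W → List B → ℝ≥0∞),
          ∑' x, SC Λ ht h j (Ψ x) = SC Λ ht h j (fun L => ∑' x, Ψ x L) := by
        intro j
        induction j with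
        | zero => intro Ψ; rfl
        | succ j ihj =>
          intro Ψ
          simp only [SC]
          rw [← S_tsum]
          congr 1
          funext C
          exact ihj _
      intro j
      induction j with
      | zero => intro Ψ; simp [HH]
      | succ j ihj =>
        intro Ψ
        simp only [HH]
        rw [← S_tsum]
        congr 1
        funext C
        by_cases hC : H C
        · simp only [hC, if_true]; exact hSC j _
        · simp only [hC, if_false]; exact ihj _
    rw [hswap]
    refine (HH_le_SC Λ ht H h N _).trans ?_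
    rw [← SC_one Λ ht h1 hΛ h N]
    refine SC_mono Λ ht h N fun P => ?_
    simp only [hf]
    rw [← S_tsum]
    refine le_trans (S_mono Λ ht _ (F' := fun _ => 1) fun L _ => ?_) (S_one Λ ht h1 hΛ _).le
    rw [tsum_eq_single (w + (0 + DZ dz P) + DZ dz L)]
    · simp
    · intro x hx
      rw [if_neg (fun h => hx h.symm)]
  · intro x
    have := HH_density Λ ht H dz h1 hΛ h hH τ hτ 1 (1 - q') hr.le (f x) (hf1 x) N 0 0
    refine this.trans ?_
    rw [mul_one, mul_comm, ENNReal.div_eq_inv_mul, mul_comm]
    refine mul_le_mul_left ?_ _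
    calc ∑ i ∈ Finset.range N, (1 - q') ^ i ≤ ∑' i : ℕ, (1 - q') ^ i := ENNReal.sum_le_tsum _
      _ = (1 - (1 - q'))⁻¹ := ENNReal.tsum_geometric _
      _ = q'⁻¹ := by rw [ENNReal.sub_sub_cancel ENNReal.one_ne_top hq'1]
      _ ≤ q⁻¹ := ENNReal.inv_le_inv.2 hq
  · intro K hK
    refine (S_le_SC Λ ht h1 hΛ h hh N a (fun L => K (w + DZ dz L)) fun L => hK _).trans ?_
    refine add_le_add ?_ le_rfl
    rw [SC_eq Λ ht H, add_comm]
    refine add_le_add ?_ ?_
    · -- hits
      have hswap : ∀ (j : ℕ) (Ψ : W → List B → ℝ≥0∞),
          ∑' x, HH Λ ht H h j (Ψ x) = HH Λ ht H h j (fun L => ∑' x, Ψ x L) := by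
        have hSC : ∀ (j : ℕ) (Ψ : W → List B → ℝ≥0∞),
            ∑' x, SC Λ ht h j (Ψ x) = SC Λ ht h j (fun L => ∑' x, Ψ x L) := by
          intro j
          induction j with
          | zero => intro Ψ; rfl
          | succ j ihj =>
            intro Ψ
            simp only [SC]
            rw [← S_tsum]
            congr 1
            funext C
            exact ihj _
        intro j
        induction j with
        | zero => intro Ψ; simp [HH]
        | succ j ihj =>
          intro Ψ
          simp only [HH]
          rw [← S_tsum]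
          congr 1
          funext C
          by_cases hC : H C
          · simp only [hC, if_true]; exact hSC j _
          · simp only [hC, if_false]; exact ihj _
      have hcm : ∀ (j : ℕ) (cc : ℝ≥0∞) (F : List B → ℝ≥0∞),
          HH Λ ht H h j (fun L => cc * F L) = cc * HH Λ ht H h j F := by
        intro j
        induction j with
        | zero => intro cc F; simp [HH]
        | succ j ihj =>
          intro cc F
          simp only [HH]
          rw [← S_const_mul]
          congr 1
          funext C
          by_cases hC : H C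
          · simp only [hC, if_true]; exact SC_const_mul Λ ht h j _ _
          · simp only [hC, if_false]; exact ihj _ _
      have e : ∀ x, HH Λ ht H h N (fun P => f x (0 + HT ht P) (0 + DZ dz P)) * K x
          = HH Λ ht H h N (fun P => K x * f x (0 + HT ht P) (0 + DZ dz P)) := fun x => by
        rw [hcm, mul_comm]
      simp_rw [e]
      rw [hswap]
      refine le_of_eq ?_
      congr 1
      funext P
      simp only [hf]
      simp_rw [← S_const_mul]
      rw [← S_tsum]
      simp only [zero_add]
      congr 1
      funext L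
      rw [tsum_eq_single (w + DZ dz P + DZ dz L)]
      · simp [DZ_append, add_assoc]
      · intro x hx
        rw [if_neg (fun h => hx h.symm), mul_zero]
    · -- no hit
      refine (NH_le Λ ht H h N _ (fun P => ?_) (1 - q') hr.le).trans ?_
      · refine le_trans (S_mono Λ ht _ (F' := fun _ => 1) fun L _ => hK _) (S_one Λ ht h1 hΛ _).le
      · gcongr

end Crest.Agent.R154.Hit776
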