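import Crest.Agent.R154.Comp_818
import Crest.Agent.R154.Hit_776
import Crest.Agent.R154.FP_178
import Crest.Agent.R154.Num_873
import Crest.Agent.R154.Dens_616

/-! Row 154, ROAD 801, frame B (helper481): generic part of `hWin`. -/

set_option autoImplicit false

namespace Crest.Agent.R154.HW481

open Filter Topology
open scoped ENNReal
open Crest.Agent.R154.B5A

variable {B W : Type*} (Λ : B → ℝ≥0∞) (ht : B → ℕ)

lemma FP_of_att (L : List B) : ∀ a : ℕ, Comp818.att ht a L → Hit776.FP ht a L := by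
  induction L with
  | nil =>
    intro a h
    have := h.1
    rw [HT_nil] at this
    change a = 0
    omega
  | cons b L ih =>
    intro a h
    have h0 := h.2 0 (by simp)
    rw [List.take_zero, HT_nil] at h0
    refine ⟨h0, ih _ ⟨?_, fun i hi => ?_⟩⟩
    · have := h.1
      rw [HT_cons] at this
      omega
    · have := h.2 (i + 1) (by simpa using hi)
      rw [List.take_succ_cons, HT_cons] at this
      omega

lemma FP_self (h1 : ∀ b, 1 ≤ ht b) (L : List B) : Hit776.FP ht (HT ht L) L := by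
  induction L with
  | nil => rw [HT_nil]; rfl
  | cons b L ih =>
    rw [HT_cons]
    refine ⟨by have := h1 b; omega, ?_⟩
    rw [Nat.add_sub_cancel_left]
    exact ih

lemma fp_iff (a : ℕ) (L : List B) : FP178.fp ht a L ↔ Hit776.FP ht a L := by
  induction L generalizing a with
  | nil => rfl
  | cons b L ih => exact and_congr Iff.rfl (ih _)

open Classical in
/-- overshoot mass -/
noncomputable def ov (H i : ℕ) : ℝ≥0∞ :=
  Hit776.S Λ ht H (fun C => if H + i < HT ht C then 1 else 0)

lemma ov_le (h1 : ∀ b, 1 ≤ ht b) (hU1 : ∀ n, U Λ ht n ≤ 1) (H i : ℕ) :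
    ov Λ ht H i ≤ ∑' k, tail Λ ht (i + k) := by
  classical
  refine le_trans (le_of_eq ?_) (FP178.overshoot Λ ht h1 hU1 i H)
  rw [ov, Hit776.S]
  refine tsum_congr fun L => ?_
  by_cases h : Hit776.FP ht H L
  · by_cases h' : H + i < HT ht L
    · rw [if_pos h, if_pos h', if_pos ⟨(fp_iff ht H L).2 h, h'⟩, mul_one]
    · rw [if_pos h, if_neg h', if_neg (fun hh => h' hh.2), mul_zero]
  · rw [if_neg h, if_neg (fun hh => h ((fp_iff ht H L).1 hh.1))]

lemma tails_tendsto (h1 : ∀ b, 1 ≤ ht b) (c : ℝ≥0∞) (hc : c ≠ 0)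
    (hU : ∀ n, c ≤ U Λ ht n) (hU1 : ∀ n, U Λ ht n ≤ 1) :
    Tendsto (fun i : ℕ => ∑' k, tail Λ ht (i + k)) atTop (𝓝 0) := by
  have hcle : c ≤ 1 := (hU 0).trans (hU1 0)
  have hc' : c ≠ ⊤ := ne_top_of_le_ne_top ENNReal.one_ne_top hcle
  have hΛ : ∑' b, Λ b = 1 :=
    le_antisymm (mass_le_one Λ ht h1 hU1) (mass_ge_one Λ ht c hc 0 fun n _ => hU n)
  have hE : ∑' b, Λ b * (ht b : ℝ≥0∞) ≠ ⊤ :=
    ne_top_of_le_ne_top (ENNReal.inv_ne_top.2 hc) (mean_le Λ ht h1 hΛ c hc hc' 0 fun n _ => hU n)
  rw [sum_tail Λ ht hΛ] at hE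
  have := ENNReal.tendsto_sum_nat_add (fun k => tail Λ ht k) hE
  refine this.congr fun i => ?_
  exact tsum_congr fun k => by rw [add_comm]

open Classical in
/-- some composite of `N` is high -/
lemma SC_high (h1 : ∀ b, 1 ≤ ht b) (hΛ : ∑' b, Λ b = 1) (h i : ℕ) (N : ℕ) :
    Hit776.SC Λ ht h N (fun P => if N * (h + i) < HT ht P then 1 else 0) ≤ N * ov Λ ht h i := by
  induction N with
  | zero => simp [Hit776.SC, HT_nil]
  | succ N ih =>
    simp only [Hit776.SC]
    calc Hit776.S Λ ht h (fun C => Hit776.SC Λ ht h N (fun L =>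
            if (N + 1) * (h + i) < HT ht (C ++ L) then 1 else 0))
        ≤ Hit776.S Λ ht h (fun C => (if h + i < HT ht C then 1 else 0)
            + Hit776.SC Λ ht h N (fun L => if N * (h + i) < HT ht L then 1 else 0)) := by
          refine Hit776.S_mono Λ ht h fun C _ => ?_
          by_cases hC : h + i < HT ht C
          · rw [if_pos hC]
            refine le_trans ?_ le_self_add
            calc _ ≤ Hit776.SC Λ ht h N (fun _ => 1) :=
                  Hit776.SC_mono Λ ht h N fun L => by split_ifs <;> simp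
              _ = 1 := Hit776.SC_one Λ ht h1 hΛ h N
          · rw [if_neg hC, zero_add]
            refine Hit776.SC_mono Λ ht h N fun L => ?_
            by_cases hL : (N + 1) * (h + i) < HT ht (C ++ L)
            · rw [if_pos hL, if_pos]
              rw [HT_append, add_mul, one_mul] at hL
              omega
            · rw [if_neg hL]; exact zero_le
      _ = ov Λ ht h i + Hit776.SC Λ ht h N (fun L => if N * (h + i) < HT ht L then 1 else 0) := by
          rw [Hit776.S_add_fun]
          congr 1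
          have := Hit776.S_const_mul Λ ht h (Hit776.SC Λ ht h N
            (fun L => if N * (h + i) < HT ht L then 1 else 0)) (fun _ => 1)
          rw [Hit776.S_one Λ ht h1 hΛ h] at this
          simpa using this
      _ ≤ ov Λ ht h i + N * ov Λ ht h i := add_le_add le_rfl ih
      _ = ((N + 1 : ℕ) : ℝ≥0∞) * ov Λ ht h i := by push_cast; ring

lemma SC_room (h1 : ∀ b, 1 ≤ ht b) (hΛ : ∑' b, Λ b = 1) (H N a : ℕ)
    (ha : (2 * N + 1) * H ≤ a) :
    Hit776.SC Λ ht H N (fun P => open Classical in if a < HT ht P + H then 1 else 0)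
      ≤ N * ov Λ ht H H := by
  classical
  refine le_trans (Hit776.SC_mono Λ ht H N fun P => ?_) (SC_high Λ ht h1 hΛ H H N)
  by_cases hP : a < HT ht P + H
  · rw [if_pos hP, if_pos]
    have e : (2 * N + 1) * H = N * (H + H) + H := by ring
    omega
  · rw [if_neg hP]; exact zero_le

end Crest.Agent.R154.HW481
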