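import Crest.Agent.R154.HWA_263

/-! Row 154, ROAD 801: window lemma (3) in words (helper263): the explored walker is local, the weight
sits on the free walker (class thresholds, Dyad_431). -/

set_option autoImplicit false

open MeasureTheory ProbabilityTheory Crest.ProbabilityR.RandomEnvironment
open scoped ENNReal

namespace Crest.Agent.R154.HW263

open Crest.Agent.R154
open Crest.Agent.R154.Flux132 (lev opp)
open Crest.Agent.R154.Flux566 (lw endp sitesL measurable_lw)
open Crest.Agent.R154.NB28 (IsUp IsDn aw)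
open Crest.Agent.R154.DoobW431 (PF First pf_First exists_First pf_unique markov_pf kraft bad_le ville)

variable {d : ℕ}

lemma tsum_if {α : Type*} {P Q : α → Prop} {iP : DecidablePred P} {iQ : DecidablePred Q}
    (f : α → ℝ≥0∞)
    (h : ∀ a, P a ↔ Q a) : ∑' a, (if P a then f a else 0) = ∑' a, (if Q a then f a else 0) :=
  tsum_congr fun a => by
    by_cases hq : Q a
    · rw [if_pos hq, if_pos ((h a).2 hq)]
    · rw [if_neg hq, if_neg (fun hp => hq ((h a).1 hp))]

/-- local descending words -/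
def TY (u : Step d) (n' : ℕ) (E : Finset (Site d)) : Set (List (Step d)) :=
  {γ | IsDn u n' γ ∧ endp 0 γ ∈ E}

lemma pf_TY (u : Step d) (n' : ℕ) (E : Finset (Site d)) : PF (TY u n' E) :=
  fun _ hl _ hl' hp => NB28.isDn_prefix hl.1 hl'.1 hp

lemma pf_Up (u : Step d) (n : ℕ) : PF {l : List (Step d) | IsUp u n l} :=
  fun _ hl _ hl' hp => NB28.isUp_prefix hl hl' hp

open Classical in
/-- weight of the completions -/
noncomputable def num (ν : Measure (Row d)) [IsProbabilityMeasure ν] (u : Step d) (n : ℕ)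
    (w : Site d → ℝ≥0∞) (l : List (Step d)) : ℝ≥0∞ :=
  ∑' t, (if IsUp u n (l ++ t) then aw ν (l ++ t) * w (endp 0 (l ++ t)) else 0)

noncomputable def mm (ν : Measure (Row d)) [IsProbabilityMeasure ν] (u : Step d) (n : ℕ)
    (w : Site d → ℝ≥0∞) (l : List (Step d)) : ℝ≥0∞ := num ν u n w l / aw ν l

lemma num_le (ν : Measure (Row d)) [IsProbabilityMeasure ν] (u : Step d) (n : ℕ)
    (w : Site d → ℝ≥0∞) (M : ℝ≥0∞) (hw : ∀ z, w z ≤ M) (l : List (Step d)) :
    num ν u n w l ≤ M * aw ν l := by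
  classical
  calc num ν u n w l
      ≤ ∑' t, M * (if l ++ t ∈ {l : List (Step d) | IsUp u n l} then aw ν (l ++ t) else 0) := by
        refine ENNReal.tsum_le_tsum fun t => ?_
        by_cases h : IsUp u n (l ++ t)
        · rw [if_pos h, if_pos (show l ++ t ∈ {l : List (Step d) | IsUp u n l} from h), mul_comm]
          gcongr
          exact hw _
        · rw [if_neg h]; exact zero_le
    _ = M * ∑' t, (if l ++ t ∈ {l : List (Step d) | IsUp u n l} then aw ν (l ++ t) else 0) :=
        ENNReal.tsum_mul_left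
    _ ≤ M * aw ν l := by gcongr; exact ext_aw ν (pf_Up u n) l

lemma aw_le_one (ν : Measure (Row d)) [IsProbabilityMeasure ν] (l : List (Step d)) :
    aw ν l ≤ 1 := by
  classical
  have h := pf_aw ν (W := {l}) (by
    intro a ha b hb _
    rw [Set.mem_singleton_iff] at ha hb
    rw [ha, hb])
  refine le_trans ?_ h
  refine le_trans (le_of_eq ?_) (ENNReal.le_tsum l)
  simp

lemma mm_le (ν : Measure (Row d)) [IsProbabilityMeasure ν] (u : Step d) (n : ℕ)
    (w : Site d → ℝ≥0∞) (M : ℝ≥0∞) (hw : ∀ z, w z ≤ M) (l : List (Step d)) :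
    mm ν u n w l ≤ M :=
  ENNReal.div_le_of_le_mul (num_le ν u n w M hw l)

lemma num_le_mm (ν : Measure (Row d)) [IsProbabilityMeasure ν] (u : Step d) (n : ℕ)
    (w : Site d → ℝ≥0∞) (M : ℝ≥0∞) (hM : M ≠ ⊤) (hw : ∀ z, w z ≤ M) (l : List (Step d)) :
    num ν u n w l ≤ aw ν l * mm ν u n w l := by
  by_cases h : aw ν l = 0
  · have := num_le ν u n w M hw l
    rw [h, mul_zero] at this
    exact this.trans zero_le
  · rw [mm, ENNReal.mul_div_cancel h (ne_top_of_le_ne_top ENNReal.one_ne_top (aw_le_one ν l))]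

/-- the explored walker's hit relation -/
def Rel (u : Step d) (n' : ℕ) (E : Finset (Site d)) (L s : ℤ) (q : Site d)
    (γ l : List (Step d)) : Prop :=
  γ ∈ TY u n' E ∧ l ∈ First 0 {y | y ∈ sitesL q γ} ∧ s ≤ lev u (endp 0 l) ∧ NR u s (L - n') l

lemma first_disj {q : Site d} {γ l : List (Step d)} (h : l ∈ First 0 {y | y ∈ sitesL q γ}) :
    ∀ y ∈ sitesL q γ, y ∉ sitesL 0 l := by
  intro y hy hy'
  obtain ⟨a, t, h1, h2, h3⟩ := of_mem_sites hy'
  refine h.2 a (h1 ▸ List.prefix_append a t) ?_ (by rw [h3]; exact hy)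
  intro he
  rw [← he] at h1
  have h4 := congrArg List.length h1
  rw [List.length_append] at h4
  have : t.length = 0 := by omega
  exact h2 (List.length_eq_zero_iff.1 this)

open Classical in
/-- quenched bound for one start `q` -/
lemma cont_le (ν : Measure (Row d)) [IsProbabilityMeasure ν] (u : Step d) (n n' : ℕ)
    (E : Finset (Site d)) (w : Site d → ℝ≥0∞) (M lam : ℝ≥0∞) (L s : ℤ) (q : Site d)
    (hL : lev u q = L)
    (hM : M ≠ ⊤) (hl0 : lam ≠ 0) (hl : lam ≠ ⊤) (hw : ∀ z, w z ≤ M) (ω : Environment d) :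
    (∑' γ, ∑' l, if Rel u n' E L s q γ l then lw ω q γ * lw ω 0 l * mm ν u n w l else 0)
      ≤ ∑' j : ℕ, M * (4⁻¹ : ℝ≥0∞) ^ j *
        ((∑' ξ, if ξ ∈ Min {ξ | M * (4⁻¹ : ℝ≥0∞) ^ (j + 1) < mm ν u n w ξ} then lw ω 0 ξ else 0)
            * (lam * (2⁻¹ : ℝ≥0∞) ^ j)
          + (lam * (2⁻¹ : ℝ≥0∞) ^ j)⁻¹ *
            ∑' ρ, (if ρ ∈ RR u s (L - n') ∧ endp 0 ρ - q ∈ E then lw ω 0 ρ else 0)) := by
  set F : Set (Site d) := {z | z - q ∈ E} with hF
  set e : Site d → ℝ≥0∞ := ee ω u (L - n') F with he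
  have h2ne : ∀ j : ℕ, (2⁻¹ : ℝ≥0∞) ^ j ≠ 0 := fun j => pow_ne_zero _ (by simp)
  have h2top : ∀ j : ℕ, (2⁻¹ : ℝ≥0∞) ^ j ≠ ⊤ := fun j => ENNReal.pow_ne_top (by simp)
  have key := Dyad431.split_words (S := List (Step d)) (T := List (Step d)) M lam hM
    (fun l => lw ω 0 l) (fun γ => if γ ∈ TY u n' E then lw ω q γ else 0)
    (fun γ l => Rel u n' E L s q γ l) (fun l => mm ν u n w l) (fun l => e (endp 0 l))
    (fun j γ => γ ∈ TY u n' E ∧ ∃ γ', γ' <+: γ ∧
      endp q γ' ∈ {v | e v ≤ lam * (2⁻¹ : ℝ≥0∞) ^ j})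
    (fun j => ∑' ξ, if ξ ∈ Min {ξ | M * (4⁻¹ : ℝ≥0∞) ^ (j + 1) < mm ν u n w ξ} then lw ω 0 ξ else 0)
    (fun j => (lam * (2⁻¹ : ℝ≥0∞) ^ j)⁻¹ *
            ∑' ρ, (if ρ ∈ RR u s (L - n') ∧ endp 0 ρ - q ∈ E then lw ω 0 ρ else 0))
    (fun l => mm_le ν u n w M hw l)
    (by
      rintro γ l j ⟨h1, h2, h3, h4⟩ h5
      refine ⟨h1, ?_⟩
      obtain ⟨a, t, h6, h7, h8⟩ := of_mem_sites h2.1
      exact ⟨a, h6 ▸ List.prefix_append a t, by rw [h8]; exact h5⟩)
    (kraft ω q (pf_TY u n' E))
    (by
      intro j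
      have hb := bad_le ω q (TY u n' E) {v | e v ≤ lam * (2⁻¹ : ℝ≥0∞) ^ j}
        (fun v => CC u (L - n') F v) (lam * (2⁻¹ : ℝ≥0∞) ^ j)
        (by
          rintro γ ρ2 ⟨⟨h1, h2⟩, h3⟩
          rw [CC]
          refine ⟨?_, ?_, ?_⟩
          · rw [← endp_append, hF]
            show endp q (γ ++ ρ2) - q ∈ E
            rw [endp_shift, add_sub_cancel_left]; exact h3
          · rw [← endp_append, endp_shift, lev_add, h2, hL]; ring
          · intro y hy
            have hy2 : y ∈ sitesL q (γ ++ ρ2) := by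
              rw [NB28.sitesL_append]; exact List.mem_append_right _ hy
            have := (h1 (y - q) ((NB28.mem_sitesL_iff _ q y).1 hy2)).1
            rw [lev_sub, hL] at this
            omega)
        (fun v hv => hv)
      refine le_trans (ENNReal.tsum_le_tsum fun γ => ?_) hb
      by_cases h : γ ∈ TY u n' E ∧ ∃ γ', γ' <+: γ ∧
        endp q γ' ∈ {v | e v ≤ lam * (2⁻¹ : ℝ≥0∞) ^ j}
      · rw [if_pos h, if_pos h, if_pos h.1]
      · rw [if_neg h]; exact zero_le)
    (by
      intro γ j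
      have := pref_le ω 0 (W := {l | Rel u n' E L s q γ l ∧ M * (4⁻¹ : ℝ≥0∞) ^ (j + 1) < mm ν u n w l})
        (P := Min {ξ | M * (4⁻¹ : ℝ≥0∞) ^ (j + 1) < mm ν u n w ξ})
        ((pf_First 0 _).mono fun l hl => hl.1.2.1)
        (fun ρ hρ => exists_Min _ ρ ⟨ρ, List.prefix_rfl, hρ.2⟩)
      refine le_trans (le_of_eq ?_) this
      exact tsum_if _ fun l => Iff.rfl)
    (by
      intro γ j
      have hc0 : lam * (2⁻¹ : ℝ≥0∞) ^ j ≠ 0 := mul_ne_zero hl0 (h2ne j)
      have hct : lam * (2⁻¹ : ℝ≥0∞) ^ j ≠ ⊤ := ENNReal.mul_ne_top hl (h2top j)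
      have := turn ω 0 (W := {l | Rel u n' E L s q γ l ∧ lam * (2⁻¹ : ℝ≥0∞) ^ j < e (endp 0 l)})
        ((pf_First 0 _).mono fun l hl => hl.1.2.1) (lam * (2⁻¹ : ℝ≥0∞) ^ j) F u s (L - n')
        (fun l hl => ⟨hl.1.2.2.2, hl.1.2.2.1⟩)
        (fun l hl => by
          have h0 : lev u (0 : Site d) = 0 := Flux566.lev_zero u
          rw [h0, add_zero]
          exact hl.2.le)
      have h3 : (∑' l, if Rel u n' E L s q γ l ∧ lam * (2⁻¹ : ℝ≥0∞) ^ j < e (endp 0 l)
          then lw ω 0 l else 0) ≤ (∑' ρ, (if ρ ∈ RR u s (L - n') ∧ endp 0 ρ - q ∈ E then lw ω 0 ρ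
            else 0)) / (lam * (2⁻¹ : ℝ≥0∞) ^ j) := by
        rw [ENNReal.le_div_iff_mul_le (Or.inl hc0) (Or.inl hct)]
        refine le_trans (le_of_eq ?_) (this.trans (le_of_eq ?_))
        · rw [mul_comm]
          congr 1
          exact tsum_if _ fun l => Iff.rfl
        · exact tsum_if _ fun l => Iff.rfl
      rw [ENNReal.div_eq_inv_mul] at h3
      exact h3)
  refine le_trans (ENNReal.tsum_le_tsum fun γ => ENNReal.tsum_le_tsum fun l => ?_) key
  by_cases h : Rel u n' E L s q γ l
  · simp only [if_pos h, if_pos h.1]; exact le_rfl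
  · simp only [if_neg h]; exact le_rfl

open Classical in
lemma sum_num (ν : Measure (Row d)) [IsProbabilityMeasure ν] (u : Step d) (n : ℕ)
    (wt : Site d → Site d → ℝ≥0∞) (hw1 : ∀ z, ∑' q, wt q z ≤ 1) :
    ∑' q, num ν u n (wt q) [] ≤ 1 := by
  unfold num
  rw [ENNReal.tsum_comm]
  refine le_trans (ENNReal.tsum_le_tsum fun t => ?_) (pf_aw ν (pf_Up u n))
  by_cases h : IsUp u n t
  · rw [if_pos (show t ∈ {l : List (Step d) | IsUp u n l} from h)]
    calc ∑' q, (if IsUp u n ([] ++ t) then aw ν ([] ++ t) * wt q (endp 0 ([] ++ t)) else 0)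
        = ∑' q, aw ν t * wt q (endp 0 t) := by simp [h]
      _ = aw ν t * ∑' q, wt q (endp 0 t) := ENNReal.tsum_mul_left
      _ ≤ aw ν t * 1 := by gcongr; exact hw1 _
      _ = aw ν t := mul_one _
  · simp [h]

open Classical in
lemma hA_aux (ν : Measure (Row d)) [IsProbabilityMeasure ν] (u : Step d) (n : ℕ)
    (w : Site d → ℝ≥0∞) (c : ℝ≥0∞) :
    c * ∑' ξ, (if ξ ∈ Min {ξ | c < mm ν u n w ξ} then aw ν ξ else 0) ≤ num ν u n w [] := by
  have hn : num ν u n w [] = ∑' ξ, (if IsUp u n ξ then aw ν ξ * w (endp 0 ξ) else 0) := by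
    simp [num]
  rw [hn]
  refine ville (pf_Min _) (aw ν) (fun ξ => if IsUp u n ξ then aw ν ξ * w (endp 0 ξ) else 0) c ?_
  intro γ hγ
  have h1 : c * aw ν γ ≤ num ν u n w γ := by
    have h2 : c ≤ num ν u n w γ / aw ν γ := le_of_lt hγ.1
    exact ENNReal.mul_le_of_le_div h2
  refine h1.trans ?_
  refine le_trans (le_of_eq ?_) ((ENNReal.tsum_comp_le_tsum_of_injective
    (f := fun t : List (Step d) => γ ++ t) (fun a b h => List.append_cancel_left h)
    (fun ξ => if γ <+: ξ then (if IsUp u n ξ then aw ν ξ * w (endp 0 ξ) else 0) else 0)).trans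
    (le_of_eq (tsum_if _ fun _ => Iff.rfl)))
  unfold num
  refine tsum_congr fun t => ?_
  rw [if_pos (List.prefix_append γ t)]

open Classical in
/-- **window lemma (3)**: `Y` (explored, from `q`) local, `X` (free, from `0`) carries the weight -/
theorem H3F (ν : Measure (Row d)) [IsProbabilityMeasure ν] (u : Step d) (n n' : ℕ)
    (E : Finset (Site d)) (wt : Site d → Site d → ℝ≥0∞) (M lam us : ℝ≥0∞) (L s r : ℤ)
    (hM : M ≠ ⊤) (hl0 : lam ≠ 0) (hl : lam ≠ ⊤) (hwM : ∀ q z, wt q z ≤ M)
    (hw1 : ∀ z, ∑' q, wt q z ≤ 1) (hb : L - n' ≤ r)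
    (hus : ∀ W : Set (List (Step d)), PF W → W ⊆ Us109.RetW u r s →
      ∑' l, (if l ∈ W then aw ν l else 0) ≤ us) :
    ∑' q : Site d, ∑' γ : List (Step d), ∑' π : List (Step d),
      (if lev u q = L ∧ IsUp u n π ∧ (IsDn u n' γ ∧ endp 0 γ ∈ E) ∧
        (∃ y, y ∈ sitesL 0 π ∧ y ∈ sitesL q γ) ∧
        (∀ y, y ∈ sitesL 0 π → y ∈ sitesL q γ → s ≤ lev u y)
        then aw ν γ * aw ν π * wt q (endp 0 π) else 0)
      ≤ us + (8 * lam + 2 * (M * (E.card * us) / lam)) := by
  set ret : List (Step d) → Prop := fun π => ∃ l', l' <+: π ∧ l' ∈ Us109.RetW u r s with hret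
  -- pointwise split
  have h1 : ∀ q γ, ∑' π : List (Step d),
      (if lev u q = L ∧ IsUp u n π ∧ (IsDn u n' γ ∧ endp 0 γ ∈ E) ∧
        (∃ y, y ∈ sitesL 0 π ∧ y ∈ sitesL q γ) ∧
        (∀ y, y ∈ sitesL 0 π → y ∈ sitesL q γ → s ≤ lev u y)
        then aw ν γ * aw ν π * wt q (endp 0 π) else 0)
      ≤ (∑' π, (if γ ∈ TY u n' E then aw ν γ else 0) *
          (if π ∈ {l : List (Step d) | IsUp u n l} ∧ ret π then aw ν π else 0) * wt q (endp 0 π))
        + ∑' l, (if lev u q = L ∧ Rel u n' E L s q γ l then aw ν γ * num ν u n (wt q) l else 0) := by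
    intro q γ
    have h2 := split_sum (d := d) (fun π => (lev u q = L ∧ IsUp u n π ∧ (IsDn u n' γ ∧ endp 0 γ ∈ E) ∧
        (∃ y, y ∈ sitesL 0 π ∧ y ∈ sitesL q γ) ∧
        (∀ y, y ∈ sitesL 0 π → y ∈ sitesL q γ → s ≤ lev u y)) ∧ ¬ ret π)
      (fun l t => (lev u q = L ∧ Rel u n' E L s q γ l) ∧ IsUp u n (l ++ t))
      (fun π => aw ν γ * aw ν π * wt q (endp 0 π))
      (by
        rintro π ⟨⟨a1, a2, a3, ⟨y, a4, a5⟩, a6⟩, a7⟩
        obtain ⟨p, t0, p1, p2, p3⟩ := of_mem_sites a4
        obtain ⟨l, hl1, hl2⟩ := exists_First 0 {y | y ∈ sitesL q γ} p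
          ⟨p, List.prefix_rfl, by rw [p3]; exact a5⟩
        have hlπ : l <+: π := hl2.trans (p1 ▸ List.prefix_append p t0)
        obtain ⟨t, ht⟩ := hlπ
        have ht0 : t ≠ [] := by
          rintro rfl
          rw [List.append_nil] at ht
          have e1 := hl2.length_le
          have e2 := congrArg List.length p1
          rw [List.length_append, ← ht] at e2
          have : t0.length = 0 := by omega
          exact p2 (List.length_eq_zero_iff.1 this)
        have hs : endp 0 l ∈ sitesL 0 π := by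
          rw [← ht]; exact mem_sites_of 0 l t ht0
        refine ⟨l, t, ht.symm, ⟨a1, a3, hl1, a6 _ hs hl1.1, ?_⟩, ht ▸ a2⟩
        refine nr_of hb (fun z hz => (a2.1 z ?_).1) fun ⟨l', h5, h6⟩ =>
          a7 ⟨l', h5.trans (ht ▸ List.prefix_append l t), h6⟩
        rw [← ht, NB28.sitesL_append]
        exact List.mem_append_left _ hz)
    calc _ ≤ ∑' π : List (Step d), ((if γ ∈ TY u n' E then aw ν γ else 0) *
          (if π ∈ {l : List (Step d) | IsUp u n l} ∧ ret π then aw ν π else 0) * wt q (endp 0 π)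
          + (if (lev u q = L ∧ IsUp u n π ∧ (IsDn u n' γ ∧ endp 0 γ ∈ E) ∧
            (∃ y, y ∈ sitesL 0 π ∧ y ∈ sitesL q γ) ∧
            (∀ y, y ∈ sitesL 0 π → y ∈ sitesL q γ → s ≤ lev u y)) ∧ ¬ ret π
            then aw ν γ * aw ν π * wt q (endp 0 π) else 0)) := by
          refine ENNReal.tsum_le_tsum fun π => ?_
          by_cases c : lev u q = L ∧ IsUp u n π ∧ (IsDn u n' γ ∧ endp 0 γ ∈ E) ∧
            (∃ y, y ∈ sitesL 0 π ∧ y ∈ sitesL q γ) ∧
            (∀ y, y ∈ sitesL 0 π → y ∈ sitesL q γ → s ≤ lev u y)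
          · rw [if_pos c]
            by_cases hr : ret π
            · refine le_trans (le_of_eq ?_) le_self_add
              rw [if_pos (show γ ∈ TY u n' E from c.2.2.1),
                if_pos (⟨c.2.1, hr⟩ : π ∈ {l : List (Step d) | IsUp u n l} ∧ ret π)]
            · refine le_trans (le_of_eq ?_) le_add_self
              rw [if_pos ⟨c, hr⟩]
          · rw [if_neg c]; exact zero_le
      _ = _ + _ := ENNReal.tsum_add
      _ ≤ _ := by
          refine add_le_add le_rfl (le_trans (le_of_eq (tsum_if _ fun _ => Iff.rfl))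
            (h2.trans (le_of_eq ?_)))
          refine tsum_congr fun l => ?_
          by_cases hr : lev u q = L ∧ Rel u n' E L s q γ l
          · rw [if_pos hr, num, ← ENNReal.tsum_mul_left]
            refine tsum_congr fun t => ?_
            by_cases ht : IsUp u n (l ++ t)
            · rw [if_pos ⟨hr, ht⟩, if_pos ht, mul_assoc]
            · rw [if_neg (fun h => ht h.2), if_neg ht, mul_zero]
          · rw [if_neg hr]
            simp [hr]
  have hU := ret_part ν u r s us hus (pf_Up (d := d) u n)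
  calc _ ≤ ∑' q : Site d, ∑' γ : List (Step d),
        ((∑' π, (if γ ∈ TY u n' E then aw ν γ else 0) *
          (if π ∈ {l : List (Step d) | IsUp u n l} ∧ ret π then aw ν π else 0) * wt q (endp 0 π))
        + ∑' l, (if lev u q = L ∧ Rel u n' E L s q γ l then aw ν γ * num ν u n (wt q) l else 0)) :=
        ENNReal.tsum_le_tsum fun q => ENNReal.tsum_le_tsum fun γ => h1 q γ
    _ = (∑' q : Site d, ∑' γ : List (Step d), ∑' π, (if γ ∈ TY u n' E then aw ν γ else 0) *
          (if π ∈ {l : List (Step d) | IsUp u n l} ∧ ret π then aw ν π else 0) * wt q (endp 0 π))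
        + ∑' q : Site d, ∑' γ : List (Step d),
          ∑' l, (if lev u q = L ∧ Rel u n' E L s q γ l then aw ν γ * num ν u n (wt q) l else 0) := by
        rw [← ENNReal.tsum_add]
        refine tsum_congr fun q => ?_
        rw [← ENNReal.tsum_add]
    _ ≤ us + (8 * lam + 2 * (M * (E.card * us) / lam)) := by
        refine add_le_add ?_ ?_
        · calc (∑' q : Site d, ∑' γ : List (Step d), ∑' π, (if γ ∈ TY u n' E then aw ν γ else 0) *
                (if π ∈ {l : List (Step d) | IsUp u n l} ∧ ret π then aw ν π else 0) *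
                wt q (endp 0 π))
              = ∑' γ : List (Step d), ∑' π, (if γ ∈ TY u n' E then aw ν γ else 0) *
                (if π ∈ {l : List (Step d) | IsUp u n l} ∧ ret π then aw ν π else 0) *
                ∑' q, wt q (endp 0 π) := by
                rw [ENNReal.tsum_comm]
                refine tsum_congr fun γ => ?_
                rw [ENNReal.tsum_comm]
                refine tsum_congr fun π => ?_
                rw [ENNReal.tsum_mul_left]
            _ ≤ ∑' γ : List (Step d), ∑' π, (if γ ∈ TY u n' E then aw ν γ else 0) *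
                (if π ∈ {l : List (Step d) | IsUp u n l} ∧ ret π then aw ν π else 0) := by
                refine ENNReal.tsum_le_tsum fun γ => ENNReal.tsum_le_tsum fun π => ?_
                exact (mul_le_mul' le_rfl (hw1 _)).trans (le_of_eq (mul_one _))
            _ = (∑' γ, if γ ∈ TY u n' E then aw ν γ else 0) *
                ∑' π, (if π ∈ {l : List (Step d) | IsUp u n l} ∧ ret π then aw ν π else 0) := by
                rw [← ENNReal.tsum_mul_right]
                refine tsum_congr fun γ => ?_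
                rw [ENNReal.tsum_mul_left]
            _ ≤ 1 * us := mul_le_mul' (pf_aw ν (pf_TY u n' E)) hU
            _ = us := one_mul _
        · set cont : Site d → Environment d → ℝ≥0∞ := fun q ω =>
            ∑' γ : List (Step d), ∑' l : List (Step d),
              if lev u q = L ∧ Rel u n' E L s q γ l then lw ω q γ * lw ω 0 l * mm ν u n (wt q) l
              else 0 with hcont
          have hint : ∀ q, ∑' γ : List (Step d),
              ∑' l, (if lev u q = L ∧ Rel u n' E L s q γ l then aw ν γ * num ν u n (wt q) l else 0)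
              ≤ ∫⁻ ω, cont q ω ∂(iidEnvironmentLaw ν) := by
            intro q
            have hme : ∀ γ l : List (Step d), Measurable fun ω : Environment d =>
                (if lev u q = L ∧ Rel u n' E L s q γ l then
                  lw ω q γ * lw ω 0 l * mm ν u n (wt q) l else 0) := by
              intro γ l
              by_cases h : lev u q = L ∧ Rel u n' E L s q γ l
              · simp only [if_pos h]
                exact ((measurable_lw q γ).mul (measurable_lw 0 l)).mul_const _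
              · simp only [if_neg h]; exact measurable_const
            rw [hcont]
            simp only
            rw [lintegral_tsum fun γ => (Measurable.ennreal_tsum fun l => hme γ l).aemeasurable]
            refine ENNReal.tsum_le_tsum fun γ => ?_
            rw [lintegral_tsum fun l => (hme γ l).aemeasurable]
            refine ENNReal.tsum_le_tsum fun l => ?_
            by_cases h : lev u q = L ∧ Rel u n' E L s q γ l
            · simp only [if_pos h]
              have hm2 : Measurable fun ω : Environment d => lw ω q γ * lw ω 0 l :=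
                (measurable_lw q γ).mul (measurable_lw 0 l)
              rw [lintegral_mul_const _ hm2,
                NB28.lint_mul ν q 0 γ l (first_disj h.2.2.1), mul_assoc]
              gcongr
              exact num_le_mm ν u n (wt q) M hM (hwM q) l
            · simp only [if_neg h]; exact zero_le
          refine (ENNReal.tsum_le_tsum hint).trans ?_
          have h2ne : ∀ j : ℕ, (2⁻¹ : ℝ≥0∞) ^ j ≠ 0 := fun j => pow_ne_zero _ (by simp)
          have h2top : ∀ j : ℕ, (2⁻¹ : ℝ≥0∞) ^ j ≠ ⊤ := fun j => ENNReal.pow_ne_top (by simp)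
          refine Dyad431.dyad_sum (iidEnvironmentLaw ν) M lam (E.card : ℝ≥0∞) us hl0 hl cont
            (fun q j ω => ∑' ξ, if ξ ∈ Min {ξ | M * (4⁻¹ : ℝ≥0∞) ^ (j + 1) < mm ν u n (wt q) ξ}
              then lw ω 0 ξ else 0)
            (fun q j ω => (lam * (2⁻¹ : ℝ≥0∞) ^ j)⁻¹ *
              ∑' ρ, (if ρ ∈ RR u s (L - n') ∧ endp 0 ρ - q ∈ E then lw ω 0 ρ else 0))
            (fun q => num ν u n (wt q) [])
            (fun q j => meas_sum 0 _)
            (fun q j => (meas_sum 0 _).const_mul _) ?_ ?_ ?_ (sum_num ν u n wt hw1)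
          · intro q ω
            by_cases hq : lev u q = L
            · refine le_trans (le_of_eq ?_) (cont_le ν u n n' E (wt q) M lam L s q hq hM hl0 hl
                (hwM q) ω)
              rw [hcont]
              simp only [hq, true_and]
            · rw [hcont]
              simp only [hq, false_and, if_false, tsum_zero]
              exact zero_le
          · intro q j
            rw [lint_sum ν 0]
            exact hA_aux ν u n (wt q) _
          · intro j
            have hc0 : lam * (2⁻¹ : ℝ≥0∞) ^ j ≠ 0 := mul_ne_zero hl0 (h2ne j)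
            have hct : lam * (2⁻¹ : ℝ≥0∞) ^ j ≠ ⊤ := ENNReal.mul_ne_top hl (h2top j)
            have e1 : ∀ q : Site d, ∫⁻ ω, (lam * (2⁻¹ : ℝ≥0∞) ^ j)⁻¹ *
                ∑' ρ, (if ρ ∈ RR u s (L - n') ∧ endp 0 ρ - q ∈ E then lw ω 0 ρ else 0)
                ∂(iidEnvironmentLaw ν) = (lam * (2⁻¹ : ℝ≥0∞) ^ j)⁻¹ *
                ∑' ρ, (if ρ ∈ RR u s (L - n') ∧ endp 0 ρ - q ∈ E then aw ν ρ else 0) := by
              intro q
              rw [lintegral_const_mul _ (meas_sum 0 _), lint_sum ν 0]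
            rw [tsum_congr e1, ENNReal.tsum_mul_left, ← mul_assoc, ENNReal.mul_inv_cancel hc0 hct,
              one_mul, ENNReal.tsum_comm]
            calc ∑' ρ, ∑' q : Site d, (if ρ ∈ RR u s (L - n') ∧ endp 0 ρ - q ∈ E then aw ν ρ else 0)
                = ∑' ρ, (E.card : ℝ≥0∞) * (if ρ ∈ RR u s (L - n') then aw ν ρ else 0) := by
                  refine tsum_congr fun ρ => ?_
                  by_cases hρ : ρ ∈ RR u s (L - n')
                  · rw [if_pos hρ, ← sum_E E (endp 0 ρ), ← ENNReal.tsum_mul_right]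
                    refine tsum_congr fun q => ?_
                    by_cases hq : endp 0 ρ - q ∈ E
                    · rw [if_pos ⟨hρ, hq⟩, if_pos hq, one_mul]
                    · rw [if_neg (fun h => hq h.2), if_neg hq, zero_mul]
                  · simp [hρ]
              _ = (E.card : ℝ≥0∞) * ∑' ρ, (if ρ ∈ RR u s (L - n') then aw ν ρ else 0) :=
                  ENNReal.tsum_mul_left
              _ ≤ _ := by
                  gcongr
                  exact hus _ (pf_RR u s _) (RR_sub hb)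

end Crest.Agent.R154.HW263
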