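import Crest.Agent.R154.HWA_416
import Crest.Agent.R154.WMass_286
import Crest.Agent.R154.Num_337

/-! Row 154, ROAD 801, frame B (helper416): `hWin` of 818's composition for the word instance from the
two window lemmas `E2`, `E3` (912's literals). -/

set_option autoImplicit false

namespace Crest.Agent.R154.HW416

open scoped ENNReal Topology
open MeasureTheory ProbabilityTheory Crest.ProbabilityR.RandomEnvironment Filter
open Crest.Agent.R154.B5A Crest.Agent.R154.B5W
open Crest.Agent.R154.Flux566 (endp sitesL lev_zero endp_append endp_eq_add)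
open Crest.Agent.R154.NB28 (IsUp IsDn Cm KW)
open Crest.Agent.R154.JAsm139 (card Good hitS hit_le)
open Crest.Agent.R154.Comp818 (WLp att)
open Crest.Agent.R154.FP178 (fp)

variable {d : ℕ} (ν : Measure (Row d)) [IsProbabilityMeasure ν] (u : Step d)

open Classical in
/-- X local part -/
noncomputable def QX (s H : ℕ) (E : Finset (Site d)) (x : Site d) : ℝ≥0∞ :=
  ∑' π : List (Step d), ∑' γ : List (Step d),
    (if IsUp u H π ∧ endp 0 π ∈ E ∧ IsDn u H γ ∧ (∃ k, k ∈ Cm u x π γ) ∧
      (∀ k ∈ Cm u x π γ, s < k) then NB28.aw ν π * NB28.aw ν γ else 0)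

open Classical in
/-- Y local part -/
noncomputable def QY (s H : ℕ) (E : Finset (Site d)) (x : Site d) : ℝ≥0∞ :=
  ∑' π : List (Step d), ∑' γ : List (Step d),
    (if IsUp u H π ∧ endp 0 γ ∈ E ∧ IsDn u H γ ∧ (∃ k, k ∈ Cm u x π γ) ∧
      (∀ k ∈ Cm u x π γ, k + s ≤ H) then NB28.aw ν π * NB28.aw ν γ else 0)

open Classical in
/-- 912's `E2` -/
def E2 (C : ℝ≥0∞) (us : ℕ → ℝ≥0∞) : Prop :=
  ∀ (s H : ℕ) (E : Finset (Site d)) (μ : Site d → ℝ≥0∞) (M lam : ℝ≥0∞), ∑' x, μ x ≤ 1 →
    (∀ x, μ x ≤ M) → lam ≠ 0 → lam ≠ ⊤ →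
    ∑' x, (if Flux132.lev u x = 0 then μ x * QX ν u s H E x else 0)
      ≤ C * (lam + M * E.card * us s / lam + us s)

open Classical in
/-- 912's `E3` -/
def E3 (C : ℝ≥0∞) (us : ℕ → ℝ≥0∞) : Prop :=
  ∀ (s H : ℕ) (E : Finset (Site d)) (μ : Site d → ℝ≥0∞) (M lam : ℝ≥0∞), ∑' x, μ x ≤ 1 →
    (∀ x, μ x ≤ M) → lam ≠ 0 → lam ≠ ⊤ →
    ∑' x, (if Flux132.lev u x = 0 then μ x * QY ν u s H E x else 0)
      ≤ C * (lam + M * E.card * us s / lam + us s)

open Classical in
lemma lat_sum (f : Lat u → ℝ≥0∞) :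
    ∑' x : Site d, (if h : Flux132.lev u x = 0 then f ⟨x, h⟩ else 0) = ∑' w : Lat u, f w := by
  have h := tsum_subtype {x : Site d | Flux132.lev u x = 0}
    (fun x => if h : Flux132.lev u x = 0 then f ⟨x, h⟩ else 0)
  have h1 : ∑' x : {x : Site d | Flux132.lev u x = 0},
      (if h : Flux132.lev u x.1 = 0 then f ⟨x.1, h⟩ else 0) = ∑' w : Lat u, f w := by
    refine tsum_congr fun w => ?_
    exact dif_pos w.2
  rw [← h1, h]
  refine tsum_congr fun x => ?_
  by_cases hx : Flux132.lev u x = 0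
  · rw [dif_pos hx, Set.indicator_of_mem (by exact hx), dif_pos hx]
  · rw [dif_neg hx, Set.indicator_of_notMem (by exact hx)]

/-- test measures on `Lat u` -/
lemma to_lat {Q : Site d → ℝ≥0∞} {A C lam us : ℝ≥0∞}
    (h : ∀ (μ : Site d → ℝ≥0∞) (M : ℝ≥0∞), ∑' x, μ x ≤ 1 → (∀ x, μ x ≤ M) →
      ∑' x, (open Classical in if Flux132.lev u x = 0 then μ x * Q x else 0)
        ≤ C * (lam + M * A * us / lam + us))
    (μ : Lat u → ℝ≥0∞) (M : ℝ≥0∞) (h1 : ∑' x, μ x ≤ 1) (h2 : ∀ x, μ x ≤ M) :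
    ∑' w : Lat u, μ w * Q w.1 ≤ C * (lam + M * A * us / lam + us) := by
  classical
  have h3 := h (fun x => if h : Flux132.lev u x = 0 then μ ⟨x, h⟩ else 0) M
    (by rw [lat_sum]; exact h1) (by
      intro x
      by_cases hx : Flux132.lev u x = 0
      · simp only [dif_pos hx]; exact h2 _
      · simp only [dif_neg hx]; exact zero_le)
  refine le_trans (le_of_eq ?_) h3
  rw [← lat_sum u (fun w => μ w * Q w.1)]
  refine tsum_congr fun x => ?_
  by_cases hx : Flux132.lev u x = 0
  · simp only [dif_pos hx, if_pos hx]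
  · simp only [dif_neg hx, if_neg hx]

open Classical in
lemma prod_sum (H : ℕ) (P Q : List (Step d) → Prop) :
    ∑' L : List (PB u), (if HT (ht u) L = H ∧ P (cat L).1 ∧ Q (cat L).2 then LW (Lam ν u) L else 0)
      = (∑' π, if IsUp u H π ∧ P π then NB28.aw ν π else 0) *
        ∑' γ, if IsDn u H γ ∧ Q γ then NB28.aw ν γ else 0 := by
  have h := tsum_L ν u H (fun x => if P x.1 ∧ Q x.2 then 1 else 0)
  refine Eq.trans ?_ (h.trans ?_)
  · refine tsum_congr fun L => ?_
    by_cases h1 : HT (ht u) L = H <;> by_cases h2 : P (cat L).1 ∧ Q (cat L).2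
    · rw [if_pos ⟨h1, h2⟩, if_pos h1, if_pos h2, mul_one]
    · rw [if_neg (fun h' => h2 h'.2), if_pos h1, if_neg h2, mul_zero]
    · rw [if_neg (fun h' => h1 h'.1), if_neg h1]
    · rw [if_neg (fun h' => h1 h'.1), if_neg h1]
  · rw [← ENNReal.tsum_mul_right]
    refine tsum_congr fun π => ?_
    rw [← ENNReal.tsum_mul_left]
    refine tsum_congr fun γ => ?_
    by_cases h1 : IsUp u H π <;> by_cases h2 : IsDn u H γ <;> by_cases h3 : P π <;>
      by_cases h4 : Q γ <;> simp [h1, h2, h3, h4]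

open Classical in
lemma WLp_le (s H : ℕ) (EX EY : Finset (Site d)) (w : Lat u) :
    WLp (Lam ν u) (ht u) (dl u) (cd u) H s w ≤ QX ν u s H EX w.1 + QY ν u s H EY w.1
      + (∑' π, if IsUp u H π ∧ endp 0 π ∉ EX then NB28.aw ν π else 0) *
        ∑' γ, if IsDn u H γ ∧ endp 0 γ ∉ EY then NB28.aw ν γ else 0 := by
  have h := tsum_L ν u H (fun x => if cds u x w.1 ≠ ∅ ∧ (∀ k ∈ cds u x w.1, s < k ∧ k + s ≤ H)
    then 1 else 0)
  have e1 : WLp (Lam ν u) (ht u) (dl u) (cd u) H s w
      = ∑' π : List (Step d), ∑' γ : List (Step d),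
        if IsUp u H π ∧ IsDn u H γ then NB28.aw ν π * NB28.aw ν γ *
          (if cds u (π, γ) w.1 ≠ ∅ ∧ (∀ k ∈ cds u (π, γ) w.1, s < k ∧ k + s ≤ H)
            then 1 else 0) else 0 := by
    rw [← h]
    unfold WLp
    refine tsum_congr fun L => ?_
    rw [CD_cat]
    by_cases h1 : HT (ht u) L = H <;>
      by_cases h2 : cds u (cat L) w.1 ≠ ∅ ∧ (∀ k ∈ cds u (cat L) w.1, s < k ∧ k + s ≤ H)
    · rw [if_pos ⟨h1, h2.1, h2.2⟩, if_pos h1, if_pos h2, mul_one]
    · rw [if_neg (fun h' => h2 h'.2), if_pos h1, if_neg h2, mul_zero]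
    · rw [if_neg (fun h' => h1 h'.1), if_neg h1]
    · rw [if_neg (fun h' => h1 h'.1), if_neg h1]
  rw [e1]
  unfold QX QY
  rw [← ENNReal.tsum_mul_right]
  simp only [← ENNReal.tsum_mul_left]
  rw [← ENNReal.tsum_add, ← ENNReal.tsum_add]
  refine ENNReal.tsum_le_tsum fun π => ?_
  rw [← ENNReal.tsum_add, ← ENNReal.tsum_add]
  refine ENNReal.tsum_le_tsum fun γ => ?_
  rw [cds_eq]
  by_cases hud : IsUp u H π ∧ IsDn u H γ
  · rw [if_pos hud]
    by_cases hc : Cm u w.1 π γ ≠ ∅ ∧ (∀ k ∈ Cm u w.1 π γ, s < k ∧ k + s ≤ H)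
    · rw [if_pos hc, mul_one]
      have hne : ∃ k, k ∈ Cm u w.1 π γ := Set.nonempty_iff_ne_empty.2 hc.1
      by_cases hx : endp 0 π ∈ EX
      · rw [if_pos ⟨hud.1, hx, hud.2, hne, fun k hk => (hc.2 k hk).1⟩]
        exact le_add_right (le_add_right le_rfl)
      · by_cases hy : endp 0 γ ∈ EY
        · rw [if_pos (⟨hud.1, hy, hud.2, hne, fun k hk => (hc.2 k hk).2⟩ :
            IsUp u H π ∧ endp 0 γ ∈ EY ∧ IsDn u H γ ∧ (∃ k, k ∈ Cm u w.1 π γ) ∧
              (∀ k ∈ Cm u w.1 π γ, k + s ≤ H))]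
          exact le_add_right (le_add_left le_rfl)
        · rw [if_pos (⟨hud.1, hx⟩ : IsUp u H π ∧ endp 0 π ∉ EX),
            if_pos (⟨hud.2, hy⟩ : IsDn u H γ ∧ endp 0 γ ∉ EY)]
          exact le_add_left le_rfl
    · rw [if_neg hc, mul_zero]; exact zero_le
  · rw [if_neg hud]; exact zero_le

lemma act_cat (L : List (PB u)) (w : Lat u) :
    (act (dl u) L w).1 = w.1 + endp 0 (cat L).1 + endp 0 (cat L).2 := by
  induction L generalizing w with
  | nil => simp [act, cat, endp]
  | cons b L ih =>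
    have e : act (dl u) (b :: L) w = act (dl u) L (dl u b w) := rfl
    rw [e, ih]
    have e2 : cat (b :: L) = pm b.1 (cat L) := rfl
    rw [e2]
    simp only [pm, dl, dlp]
    rw [endp_append, endp_append, endp_eq_add _ (endp 0 (cat L).1), endp_eq_add _ (endp 0 b.1.2)]
    abel

/-- law of the up displacement -/
noncomputable def pX (H : ℕ) (z : Site d) : ℝ≥0∞ :=
  ∑' π, (open Classical in if IsUp u H π ∧ endp 0 π = z then NB28.aw ν π else 0)

/-- law of the down displacement -/
noncomputable def pY (H : ℕ) (z : Site d) : ℝ≥0∞ :=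
  ∑' γ, (open Classical in if IsDn u H γ ∧ endp 0 γ = z then NB28.aw ν γ else 0)

open Classical in
lemma fibX (H : ℕ) (P : Site d → Prop) : ∑' z, (if P z then pX ν u H z else 0)
    = ∑' π, if IsUp u H π ∧ P (endp 0 π) then NB28.aw ν π else 0 := by
  rw [← fib (fun π => IsUp u H π) (fun π => NB28.aw ν π) (fun π => endp 0 π) P]
  refine tsum_congr fun z => ?_
  by_cases hz : P z
  · rw [if_pos hz, if_pos hz]
    unfold pX
    refine tsum_congr fun π => ?_
    by_cases h : IsUp u H π ∧ endp 0 π = z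
    · rw [if_pos h, if_pos h]
    · rw [if_neg h, if_neg h]
  · rw [if_neg hz, if_neg hz]

open Classical in
lemma fibY (H : ℕ) (P : Site d → Prop) : ∑' z, (if P z then pY ν u H z else 0)
    = ∑' π, if IsDn u H π ∧ P (endp 0 π) then NB28.aw ν π else 0 := by
  rw [← fib (fun π => IsDn u H π) (fun π => NB28.aw ν π) (fun π => endp 0 π) P]
  refine tsum_congr fun z => ?_
  by_cases hz : P z
  · rw [if_pos hz, if_pos hz]
    unfold pY
    refine tsum_congr fun π => ?_
    by_cases h : IsDn u H π ∧ endp 0 π = z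
    · rw [if_pos h, if_pos h]
    · rw [if_neg h, if_neg h]
  · rw [if_neg hz, if_neg hz]

open Classical in
lemma sum_pX (H : ℕ) : ∑' z, pX ν u H z = ∑' π, if IsUp u H π then NB28.aw ν π else 0 := by
  have := fibX ν u H (fun _ => True)
  simpa only [if_true, and_true] using this

open Classical in
lemma sum_pY (H : ℕ) : ∑' z, pY ν u H z = ∑' π, if IsDn u H π then NB28.aw ν π else 0 := by
  have := fibY ν u H (fun _ => True)
  simpa only [if_true, and_true] using this

open Classical in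
lemma dens_X (H : ℕ) (th : ℝ≥0∞) (w w' : Lat u) :
    ∑' L : List (PB u), (if HT (ht u) L = H ∧ L ∈ {L : List (PB u) | pX ν u H (endp 0 (cat L).1) < th}
      ∧ act (dl u) L w = w' then LW (Lam ν u) L else 0) ≤ th := by
  have h := tsum_L ν u H (fun x => if pX ν u H (endp 0 x.1) < th ∧
    w.1 + endp 0 x.1 + endp 0 x.2 = w'.1 then 1 else 0)
  have e1 : ∑' L : List (PB u), (if HT (ht u) L = H ∧
      L ∈ {L : List (PB u) | pX ν u H (endp 0 (cat L).1) < th}
      ∧ act (dl u) L w = w' then LW (Lam ν u) L else 0)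
      = ∑' π : List (Step d), ∑' γ : List (Step d),
        if IsUp u H π ∧ IsDn u H γ then NB28.aw ν π * NB28.aw ν γ *
          (if pX ν u H (endp 0 π) < th ∧ w.1 + endp 0 π + endp 0 γ = w'.1 then 1 else 0) else 0 := by
    rw [← h]
    refine tsum_congr fun L => ?_
    have e : (act (dl u) L w = w') ↔ w.1 + endp 0 (cat L).1 + endp 0 (cat L).2 = w'.1 := by
      rw [← act_cat]; exact ⟨fun h => by rw [h], fun h => Subtype.ext h⟩
    by_cases h1 : HT (ht u) L = H <;>
      by_cases h2 : pX ν u H (endp 0 (cat L).1) < th ∧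
        w.1 + endp 0 (cat L).1 + endp 0 (cat L).2 = w'.1
    · rw [if_pos ⟨h1, h2.1, e.2 h2.2⟩, if_pos h1, if_pos h2, mul_one]
    · rw [if_neg (fun h' => h2 ⟨h'.2.1, e.1 h'.2.2⟩), if_pos h1, if_neg h2, mul_zero]
    · rw [if_neg (fun h' => h1 h'.1), if_neg h1]
    · rw [if_neg (fun h' => h1 h'.1), if_neg h1]
  rw [e1, ENNReal.tsum_comm]
  calc _ ≤ ∑' γ : List (Step d), (if IsDn u H γ then NB28.aw ν γ else 0) * th := by
        refine ENNReal.tsum_le_tsum fun γ => ?_
        by_cases hγ : IsDn u H γ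
        · rw [if_pos hγ]
          set z : Site d := w'.1 - w.1 - endp 0 γ with hz
          calc _ ≤ ∑' π : List (Step d), NB28.aw ν γ *
                (if pX ν u H z < th then
                  (if IsUp u H π ∧ endp 0 π = z then NB28.aw ν π else 0) else 0) := by
                refine ENNReal.tsum_le_tsum fun π => ?_
                by_cases hπ : IsUp u H π
                · rw [if_pos ⟨hπ, hγ⟩]
                  by_cases hc : pX ν u H (endp 0 π) < th ∧ w.1 + endp 0 π + endp 0 γ = w'.1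
                  · have hzz : endp 0 π = z := by rw [hz, ← hc.2]; abel
                    rw [if_pos hc, mul_one, if_pos (hzz ▸ hc.1), if_pos ⟨hπ, hzz⟩, mul_comm]
                  · rw [if_neg hc, mul_zero]; exact zero_le
                · rw [if_neg (fun h' => hπ h'.1)]; exact zero_le
            _ = NB28.aw ν γ * (if pX ν u H z < th then pX ν u H z else 0) := by
                rw [ENNReal.tsum_mul_left]
                congr 1
                by_cases hc : pX ν u H z < th
                · simp only [if_pos hc]; rfl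
                · simp only [if_neg hc, tsum_zero]
            _ ≤ NB28.aw ν γ * th := by
                refine mul_le_mul_right ?_ _
                split_ifs with hc
                · exact hc.le
                · exact zero_le
        · rw [if_neg hγ, zero_mul]
          refine le_of_eq ?_
          rw [ENNReal.tsum_eq_zero]
          exact fun π => if_neg (fun h' => hγ h'.2)
    _ = (∑' γ : List (Step d), (if IsDn u H γ then NB28.aw ν γ else 0)) * th :=
        ENNReal.tsum_mul_right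
    _ ≤ 1 * th := mul_le_mul_left (WM286.sum_dn_le_one ν u H) _
    _ = th := one_mul _

open Classical in
lemma dens_Y (H : ℕ) (th : ℝ≥0∞) (w w' : Lat u) :
    ∑' L : List (PB u), (if HT (ht u) L = H ∧ L ∈ {L : List (PB u) | pY ν u H (endp 0 (cat L).2) < th}
      ∧ act (dl u) L w = w' then LW (Lam ν u) L else 0) ≤ th := by
  have h := tsum_L ν u H (fun x => if pY ν u H (endp 0 x.2) < th ∧
    w.1 + endp 0 x.1 + endp 0 x.2 = w'.1 then 1 else 0)
  have e1 : ∑' L : List (PB u), (if HT (ht u) L = H ∧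
      L ∈ {L : List (PB u) | pY ν u H (endp 0 (cat L).2) < th}
      ∧ act (dl u) L w = w' then LW (Lam ν u) L else 0)
      = ∑' π : List (Step d), ∑' γ : List (Step d),
        if IsUp u H π ∧ IsDn u H γ then NB28.aw ν π * NB28.aw ν γ *
          (if pY ν u H (endp 0 γ) < th ∧ w.1 + endp 0 π + endp 0 γ = w'.1 then 1 else 0) else 0 := by
    rw [← h]
    refine tsum_congr fun L => ?_
    have e : (act (dl u) L w = w') ↔ w.1 + endp 0 (cat L).1 + endp 0 (cat L).2 = w'.1 := by
      rw [← act_cat]; exact ⟨fun h => by rw [h], fun h => Subtype.ext h⟩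
    by_cases h1 : HT (ht u) L = H <;>
      by_cases h2 : pY ν u H (endp 0 (cat L).2) < th ∧
        w.1 + endp 0 (cat L).1 + endp 0 (cat L).2 = w'.1
    · rw [if_pos ⟨h1, h2.1, e.2 h2.2⟩, if_pos h1, if_pos h2, mul_one]
    · rw [if_neg (fun h' => h2 ⟨h'.2.1, e.1 h'.2.2⟩), if_pos h1, if_neg h2, mul_zero]
    · rw [if_neg (fun h' => h1 h'.1), if_neg h1]
    · rw [if_neg (fun h' => h1 h'.1), if_neg h1]
  rw [e1]
  calc _ ≤ ∑' π : List (Step d), (if IsUp u H π then NB28.aw ν π else 0) * th := by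
        refine ENNReal.tsum_le_tsum fun π => ?_
        by_cases hπ : IsUp u H π
        · rw [if_pos hπ]
          set z : Site d := w'.1 - w.1 - endp 0 π with hz
          calc _ ≤ ∑' γ : List (Step d), NB28.aw ν π *
                (if pY ν u H z < th then
                  (if IsDn u H γ ∧ endp 0 γ = z then NB28.aw ν γ else 0) else 0) := by
                refine ENNReal.tsum_le_tsum fun γ => ?_
                by_cases hγ : IsDn u H γ
                · rw [if_pos ⟨hπ, hγ⟩]
                  by_cases hc : pY ν u H (endp 0 γ) < th ∧ w.1 + endp 0 π + endp 0 γ = w'.1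
                  · have hzz : endp 0 γ = z := by rw [hz, ← hc.2]; abel
                    rw [if_pos hc, mul_one, if_pos (hzz ▸ hc.1), if_pos ⟨hγ, hzz⟩]
                  · rw [if_neg hc, mul_zero]; exact zero_le
                · rw [if_neg (fun h' => hγ h'.2)]; exact zero_le
            _ = NB28.aw ν π * (if pY ν u H z < th then pY ν u H z else 0) := by
                rw [ENNReal.tsum_mul_left]
                congr 1
                by_cases hc : pY ν u H z < th
                · simp only [if_pos hc]; rfl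
                · simp only [if_neg hc, tsum_zero]
            _ ≤ NB28.aw ν π * th := by
                refine mul_le_mul_right ?_ _
                split_ifs with hc
                · exact hc.le
                · exact zero_le
        · rw [if_neg hπ, zero_mul]
          refine le_of_eq ?_
          rw [ENNReal.tsum_eq_zero]
          exact fun γ => if_neg (fun h' => hπ h'.1)
    _ = (∑' π : List (Step d), (if IsUp u H π then NB28.aw ν π else 0)) * th :=
        ENNReal.tsum_mul_right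
    _ ≤ 1 * th := mul_le_mul_left (WM286.sum_up_le_one ν u H) _
    _ = th := one_mul _

open Classical in
/-- **both bad sets** -/
theorem hW (C : ℝ≥0∞) (us : ℕ → ℝ≥0∞) (hC1 : 1 ≤ C) (hC : C ≠ ⊤) (h2 : E2 ν u C us)
    (h3 : E3 ν u C us) (c : ℝ≥0∞) (hup : ∀ n, c ≤ ∑' π, if IsUp u n π then NB28.aw ν π else 0)
    (hdn : ∀ n, c ≤ ∑' γ, if IsDn u n γ then NB28.aw ν γ else 0)
    (v : ℝ≥0∞) (hv : v ≠ 0) (hvc : v ≤ c) (lam η : ℝ≥0∞) (hl0 : lam ≠ 0) (hl1 : lam ≠ ⊤) (s : ℕ)
    (hus : us s ≤ lam) (hη : us s ≤ η * (lam * lam)) (H : ℕ) :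
    ∃ S1 S2 : Set (Lat u), Good (Lam ν u) (ht u) (dl u) (c * v) η H S1 ∧
      Good (Lam ν u) (ht u) (dl u) (c * v) η H S2 ∧ ∀ w, w ∉ S1 → w ∉ S2 →
        WLp (Lam ν u) (ht u) (dl u) (cd u) H s w ≤ v * v + 8 * C * lam := by
  have hX1 : ∑' z, pX ν u H z ≤ 1 := by rw [sum_pX]; exact WM286.sum_up_le_one ν u H
  have hY1 : ∑' z, pY ν u H z ≤ 1 := by rw [sum_pY]; exact WM286.sum_dn_le_one ν u H
  have hXc : v ≤ ∑' z, pX ν u H z := by rw [sum_pX]; exact hvc.trans (hup H)
  have hYc : v ≤ ∑' z, pY ν u H z := by rw [sum_pY]; exact hvc.trans (hdn H)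
  obtain ⟨θX, hθX0, -, hX2, hX3⟩ := quant' (pX ν u H) hX1 hv hXc
  obtain ⟨θY, hθY0, -, hY2, hY3⟩ := quant' (pY ν u H) hY1 hv hYc
  obtain ⟨hXf, hXk⟩ := AsmA789.card_le (pX ν u H) hX1 hθX0
  obtain ⟨hYf, hYk⟩ := AsmA789.card_le (pY ν u H) hY1 hθY0
  rw [Set.ncard_eq_toFinset_card _ hXf] at hXk
  rw [Set.ncard_eq_toFinset_card _ hYf] at hYk
  set EX := hXf.toFinset with hEX
  set EY := hYf.toFinset with hEY
  refine ⟨{w | 4 * C * lam < QX ν u s H EX w.1}, {w | 4 * C * lam < QY ν u s H EY w.1}, ?_, ?_, ?_⟩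
  · refine good_of (Lam ν u) (ht u) (dl u) H (fun w : Lat u => QX ν u s H EX w.1)
      {L : List (PB u) | pX ν u H (endp 0 (cat L).1) < 2 * θX} θX EX.card C lam (us s) (c * v) η
      hC1 hC hl0 hl1 hus hη ?_ (fun w w' => by convert dens_X ν u H (2 * θX) w w') hXk
      (fun μ M a b => to_lat u (fun μ M a b => h2 s H EX μ M lam a b hl0 hl1) μ M a b)
    have e := prod_sum ν u H (fun π => pX ν u H (endp 0 π) < 2 * θX) (fun _ => True)
    simp only [and_true] at e
    have e3 := fibX ν u H (fun z => pX ν u H z < 2 * θX)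
    have e4 : c * v ≤ ∑' L : List (PB u), (if HT (ht u) L = H ∧
        pX ν u H (endp 0 (cat L).1) < 2 * θX then LW (Lam ν u) L else 0) := by
      rw [e, mul_comm c v]
      refine mul_le_mul' ?_ (hdn H)
      rw [← e3]
      refine hX3.trans (le_of_eq (tsum_congr fun z => ?_))
      split_ifs <;> rfl
    refine e4.trans (le_of_eq (tsum_congr fun L => ?_))
    by_cases hc : HT (ht u) L = H ∧ pX ν u H (endp 0 (cat L).1) < 2 * θX
    · rw [if_pos hc, if_pos (by exact hc)]
    · rw [if_neg hc, if_neg (by exact hc)]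
  · refine good_of (Lam ν u) (ht u) (dl u) H (fun w : Lat u => QY ν u s H EY w.1)
      {L : List (PB u) | pY ν u H (endp 0 (cat L).2) < 2 * θY} θY EY.card C lam (us s) (c * v) η
      hC1 hC hl0 hl1 hus hη ?_ (fun w w' => by convert dens_Y ν u H (2 * θY) w w') hYk
      (fun μ M a b => to_lat u (fun μ M a b => h3 s H EY μ M lam a b hl0 hl1) μ M a b)
    have e := prod_sum ν u H (fun _ => True) (fun π => pY ν u H (endp 0 π) < 2 * θY)
    simp only [and_true, true_and] at e
    have e3 := fibY ν u H (fun z => pY ν u H z < 2 * θY)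
    have e4 : c * v ≤ ∑' L : List (PB u), (if HT (ht u) L = H ∧
        pY ν u H (endp 0 (cat L).2) < 2 * θY then LW (Lam ν u) L else 0) := by
      rw [e]
      refine mul_le_mul' (hup H) ?_
      rw [← e3]
      refine hY3.trans (le_of_eq (tsum_congr fun z => ?_))
      split_ifs <;> rfl
    refine e4.trans (le_of_eq (tsum_congr fun L => ?_))
    by_cases hc : HT (ht u) L = H ∧ pY ν u H (endp 0 (cat L).2) < 2 * θY
    · rw [if_pos hc, if_pos (by exact hc)]
    · rw [if_neg hc, if_neg (by exact hc)]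
  · intro w hw1 hw2
    refine (WLp_le ν u s H EX EY w).trans ?_
    have a1 : QX ν u s H EX w.1 ≤ 4 * C * lam := not_lt.1 hw1
    have a2 : QY ν u s H EY w.1 ≤ 4 * C * lam := not_lt.1 hw2
    have a3 : (∑' π, if IsUp u H π ∧ endp 0 π ∉ EX then NB28.aw ν π else 0) ≤ v := by
      have e3 := fibX ν u H (fun z => z ∉ EX)
      have e4 : (∑' z, (if z ∉ EX then pX ν u H z else 0)) ≤ v := by
        refine le_trans (ENNReal.tsum_le_tsum fun z => ?_) hX2
        by_cases hz : z ∉ EX
        · rw [if_pos hz, if_pos (by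
            rw [hEX, Set.Finite.mem_toFinset] at hz
            exact not_le.1 hz)]
        · rw [if_neg hz]; exact zero_le
      refine le_trans (le_of_eq ?_) e4
      refine Eq.trans ?_ (e3.symm.trans ?_)
      · refine tsum_congr fun z => ?_
        split_ifs <;> rfl
      · refine tsum_congr fun z => ?_
        split_ifs <;> rfl
    have a4 : (∑' γ, if IsDn u H γ ∧ endp 0 γ ∉ EY then NB28.aw ν γ else 0) ≤ v := by
      have e3 := fibY ν u H (fun z => z ∉ EY)
      have e4 : (∑' z, (if z ∉ EY then pY ν u H z else 0)) ≤ v := by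
        refine le_trans (ENNReal.tsum_le_tsum fun z => ?_) hY2
        by_cases hz : z ∉ EY
        · rw [if_pos hz, if_pos (by
            rw [hEY, Set.Finite.mem_toFinset] at hz
            exact not_le.1 hz)]
        · rw [if_neg hz]; exact zero_le
      refine le_trans (le_of_eq ?_) e4
      refine Eq.trans ?_ (e3.symm.trans ?_)
      · refine tsum_congr fun z => ?_
        split_ifs <;> rfl
      · refine tsum_congr fun z => ?_
        split_ifs <;> rfl
    calc _ ≤ 4 * C * lam + 4 * C * lam + v * v := add_le_add (add_le_add a1 a2) (mul_le_mul' a3 a4)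
      _ = _ := by ring

open Classical in
/-- **139's literal `hW`** (`c1 = c * c`) -/
theorem hW139 (C : ℝ≥0∞) (us : ℕ → ℝ≥0∞) (hC1 : 1 ≤ C) (hC : C ≠ ⊤) (hus : Tendsto us atTop (𝓝 0))
    (h2 : E2 ν u C us) (h3 : E3 ν u C us) (c : ℝ≥0∞) (hc : c ≠ 0) (hc1 : c ≤ 1)
    (hup : ∀ n, c ≤ ∑' π, if IsUp u n π then NB28.aw ν π else 0)
    (hdn : ∀ n, c ≤ ∑' γ, if IsDn u n γ then NB28.aw ν γ else 0)
    (v η : ℝ≥0∞) (hv : v ≠ 0) (hv1 : v ≤ 1) (hη : η ≠ 0) :
    ∃ s H0 : ℕ, ∀ H, H0 ≤ H → ∃ S1 S2 : Set (Lat u),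
      Good (Lam ν u) (ht u) (dl u) ((c * c) * v) η H S1 ∧
      Good (Lam ν u) (ht u) (dl u) ((c * c) * v) η H S2 ∧ ∀ w, w ∉ S1 → w ∉ S2 →
        WLp (Lam ν u) (ht u) (dl u) (cd u) H s w ≤ v * v + η := by
  set lam : ℝ≥0∞ := min 1 (η / (8 * C)) with hlam
  have h8C : 8 * C ≠ ⊤ := ENNReal.mul_ne_top (by norm_num) hC
  have hl0 : lam ≠ 0 := by
    have : η / (8 * C) ≠ 0 := (ENNReal.div_pos hη h8C).ne'
    intro h
    rw [hlam] at h
    rcases min_choice 1 (η / (8 * C)) with h' | h' <;> rw [h'] at h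
    · exact one_ne_zero h
    · exact this h
  have hl1 : lam ≠ ⊤ := ne_top_of_le_ne_top ENNReal.one_ne_top (min_le_left _ _)
  have hl2 : 8 * C * lam ≤ η := by
    calc 8 * C * lam ≤ 8 * C * (η / (8 * C)) := mul_le_mul_right (min_le_right _ _) _
      _ ≤ η := ENNReal.mul_div_le
  have hpos : min lam (η * (lam * lam)) ≠ 0 := by
    intro h
    rcases min_choice lam (η * (lam * lam)) with h' | h' <;> rw [h'] at h
    · exact hl0 h
    · exact mul_ne_zero hη (mul_ne_zero hl0 hl0) h
  obtain ⟨s, hs⟩ := (hus.eventually (ge_mem_nhds (pos_iff_ne_zero.2 hpos))).exists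
  refine ⟨s, 0, fun H _ => ?_⟩
  have hcv : c * v ≠ 0 := mul_ne_zero hc hv
  have hcv1 : c * v ≤ c := by
    calc c * v ≤ c * 1 := mul_le_mul_right hv1 _
      _ = c := mul_one _
  obtain ⟨S1, S2, g1, g2, g3⟩ := hW ν u C us hC1 hC h2 h3 c hup hdn (c * v) hcv hcv1 lam η hl0 hl1 s
    (hs.trans (min_le_left _ _)) (hs.trans (min_le_right _ _)) H
  refine ⟨S1, S2, by rw [mul_assoc]; exact g1, by rw [mul_assoc]; exact g2, fun w h1 h2 => ?_⟩
  refine (g3 w h1 h2).trans (add_le_add ?_ hl2)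
  have : c * v ≤ v := by
    calc c * v ≤ 1 * v := mul_le_mul_left hc1 _
      _ = v := one_mul _
  exact mul_le_mul' this this

end Crest.Agent.R154.HW416
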