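import Crest.Agent.R154.Dens_616

/-! Row 154, ROAD 801, frame B (helper481): two families of weights with displacements. -/

set_option autoImplicit false

namespace Crest.Agent.R154.HW481

open scoped ENNReal

lemma ite_any {α : Type*} {p q : Prop} {h1 : Decidable p} {h2 : Decidable q} (h : p ↔ q) (a b : α) :
    @ite α p h1 a b = @ite α q h2 a b := by
  by_cases hp : p
  · rw [if_pos hp, if_pos (h.1 hp)]
  · rw [if_neg hp, if_neg (fun hq => hp (h.2 hq))]

set_option linter.unusedSectionVars false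

variable {A B Z : Type*} [AddCommGroup Z] (f : A → ℝ≥0∞) (e : A → Z) (g : B → ℝ≥0∞) (e' : B → Z)

open Classical in
/-- law of the displacement -/
noncomputable def pp (z : Z) : ℝ≥0∞ := ∑' a, if e a = z then f a else 0

open Classical in
lemma tsum_pp (Q : Z → Prop) :
    ∑' z, (if Q z then pp f e z else 0) = ∑' a, if Q (e a) then f a else 0 := by
  have h1 : ∀ z, (if Q z then pp f e z else 0) = ∑' a, if e a = z then (if Q z then f a else 0) else 0 := by
    intro z
    by_cases hz : Q z
    · simp only [if_pos hz, pp]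
    · simp [if_neg hz]
  rw [tsum_congr h1, ENNReal.tsum_comm]
  refine tsum_congr fun a => ?_
  rw [tsum_eq_single (e a)]
  · rw [if_pos rfl]
  · intro z hz
    rw [if_neg (fun h => hz h.symm)]

lemma tsum_pp_all : ∑' z, pp f e z = ∑' a, f a := by
  classical
  have := tsum_pp f e (fun _ => True)
  simpa using this

open Classical in
lemma low_le (th : ℝ≥0∞) (y : Z) :
    ∑' a, (if pp f e (e a) ≤ th ∧ e a = y then f a else 0) ≤ th := by
  by_cases hy : pp f e y ≤ th
  · refine le_trans (ENNReal.tsum_le_tsum fun a => ?_) hy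
    by_cases ha : pp f e (e a) ≤ th ∧ e a = y
    · rw [if_pos ha, if_pos ha.2]
    · rw [if_neg ha]; exact zero_le
  · refine le_trans (le_of_eq ?_) (zero_le (a := th))
    rw [ENNReal.tsum_eq_zero]
    intro a
    rw [if_neg]
    rintro ⟨h1, rfl⟩
    exact hy h1

open Classical in
/-- the joint displacement is bounded on the low part -/
lemma joint_low (hg : ∑' b, g b ≤ 1) (th : ℝ≥0∞) (z : Z) :
    ∑' a, ∑' b, (if pp f e (e a) ≤ th ∧ e a + e' b = z then f a * g b else 0) ≤ th := by
  rw [ENNReal.tsum_comm]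
  calc ∑' b, ∑' a, (if pp f e (e a) ≤ th ∧ e a + e' b = z then f a * g b else 0)
      = ∑' b, g b * ∑' a, (if pp f e (e a) ≤ th ∧ e a = z - e' b then f a else 0) := by
        refine tsum_congr fun b => ?_
        rw [← ENNReal.tsum_mul_left]
        refine tsum_congr fun a => ?_
        by_cases h : pp f e (e a) ≤ th ∧ e a = z - e' b
        · rw [if_pos h, if_pos ⟨h.1, by rw [h.2]; abel⟩, mul_comm]
        · rw [if_neg h, if_neg, mul_zero]
          rintro ⟨h1, h2⟩
          exact h ⟨h1, by rw [← h2]; abel⟩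
    _ ≤ ∑' b, g b * th := ENNReal.tsum_le_tsum fun b => mul_le_mul_right (low_le f e th _) _
    _ = (∑' b, g b) * th := ENNReal.tsum_mul_right
    _ ≤ 1 * th := mul_le_mul_left hg _
    _ = th := one_mul _

open Classical in
lemma joint_low' (hf : ∑' a, f a ≤ 1) (th : ℝ≥0∞) (z : Z) :
    ∑' a, ∑' b, (if pp g e' (e' b) ≤ th ∧ e a + e' b = z then f a * g b else 0) ≤ th := by
  rw [ENNReal.tsum_comm]
  refine le_trans (le_of_eq ?_) (joint_low g e' f e hf th z)
  refine tsum_congr fun b => tsum_congr fun a => ?_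
  rw [add_comm (e a), mul_comm (f a)]

open Classical in
/-- **quantile** for a sub-law of mass in `[c, 1]` -/
theorem quant (c : ℝ≥0∞) (hc : c ≠ 0) (hcf : c ≤ ∑' a, f a) (hf : ∑' a, f a ≤ 1) (v : ℝ≥0∞)
    (hv : v ≠ 0) (hv1 : v < 1) :
    ∃ th : ℝ≥0∞, th ≠ 0 ∧ th ≠ ⊤ ∧ (∑' a, if pp f e (e a) < th then f a else 0) ≤ v ∧
      (v * c ≤ ∑' a, if pp f e (e a) ≤ th then f a else 0) ∧
      {z | th ≤ pp f e z}.Finite ∧ ∀ E : Finset Z, (∀ z ∈ E, th ≤ pp f e z) → E.card * th ≤ 1 := by
  set m := ∑' a, f a with hm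
  have hm0 : m ≠ 0 := fun h => hc (le_antisymm (h ▸ hcf) zero_le)
  have hmt : m ≠ ⊤ := ne_top_of_le_ne_top ENNReal.one_ne_top hf
  have hs : ∑' z, pp f e z / m = 1 := by
    simp only [div_eq_mul_inv]
    rw [ENNReal.tsum_mul_right, tsum_pp_all, ← hm, ENNReal.mul_inv_cancel hm0 hmt]
  obtain ⟨th, h0, h1, h2, h3⟩ := Dens616.quantile (fun z => pp f e z / m) hs hv hv1
  have htt : th ≠ ⊤ := ne_top_of_le_ne_top ENNReal.one_ne_top h1
  refine ⟨th * m, mul_ne_zero h0 hm0, ENNReal.mul_ne_top htt hmt, ?_, ?_, ?_, ?_⟩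
  · have e1 : (∑' a, if pp f e (e a) < th * m then f a else 0)
        = ∑' z, (if pp f e z < th * m then pp f e z else 0) :=
      Eq.trans (tsum_congr fun a => ite_any Iff.rfl _ _)
        ((tsum_pp f e (fun z => pp f e z < th * m)).symm.trans
          (tsum_congr fun z => ite_any Iff.rfl _ _))
    refine e1.le.trans ?_
    calc ∑' z, (if pp f e z < th * m then pp f e z else 0)
        = (∑' z, (if pp f e z / m < th then pp f e z / m else 0)) * m := by
          rw [← ENNReal.tsum_mul_right]
          refine tsum_congr fun z => ?_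
          have hiff : pp f e z / m < th ↔ pp f e z < th * m :=
            ENNReal.div_lt_iff (Or.inl hm0) (Or.inl hmt)
          by_cases hz : pp f e z < th * m
          · rw [if_pos hz, if_pos (hiff.2 hz), ENNReal.div_mul_cancel hm0 hmt]
          · rw [if_neg hz, if_neg (fun h => hz (hiff.1 h)), zero_mul]
      _ ≤ v * 1 := mul_le_mul' h2 hf
      _ = v := mul_one _
  · have e1 : (∑' a, if pp f e (e a) ≤ th * m then f a else 0)
        = ∑' z, (if pp f e z ≤ th * m then pp f e z else 0) :=
      Eq.trans (tsum_congr fun a => ite_any Iff.rfl _ _)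
        ((tsum_pp f e (fun z => pp f e z ≤ th * m)).symm.trans
          (tsum_congr fun z => ite_any Iff.rfl _ _))
    refine le_trans ?_ e1.ge
    calc v * c ≤ (∑' z, (if pp f e z / m ≤ th then pp f e z / m else 0)) * m := mul_le_mul' h3 hcf
      _ = ∑' z, (if pp f e z ≤ th * m then pp f e z else 0) := by
          rw [← ENNReal.tsum_mul_right]
          refine tsum_congr fun z => ?_
          have hiff : pp f e z / m ≤ th ↔ pp f e z ≤ th * m :=
            ENNReal.div_le_iff hm0 hmt
          by_cases hz : pp f e z ≤ th * m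
          · rw [if_pos hz, if_pos (hiff.2 hz), ENNReal.div_mul_cancel hm0 hmt]
          · rw [if_neg hz, if_neg (fun h => hz (hiff.1 h)), zero_mul]
  · exact Dens616.finite_local (pp f e) (by rw [tsum_pp_all, ← hm]; exact hmt) (mul_ne_zero h0 hm0)
  · intro E hE
    refine (Dens616.card_mul_le (pp f e) _ E hE).trans ?_
    rw [tsum_pp_all]
    exact hf

end Crest.Agent.R154.HW481
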