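import Crest.Agent.R154.B5Inst_657
import Crest.Agent.R154.NBSurg_28
import Crest.Agent.R154.WMass_286
import Crest.Agent.R154.HWA_481
import Crest.Agent.R154.HWG_481

/-! Row 154, ROAD 801, frame B (helper481): `hWin` of `Comp_818` in 657's instance from the two window
lemmas at common height. -/

set_option autoImplicit false

namespace Crest.Agent.R154.HW481

open MeasureTheory ProbabilityTheory Crest.ProbabilityR.RandomEnvironment Crest.Agent.R154
open Crest.Agent.R154.Flux132 (lev opp)
open Crest.Agent.R154.Flux566 (lw endp sitesL)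
open Crest.Agent.R154.NB28 (IsUp IsDn Cm KW KappaW aw)
open Crest.Agent.R154.B5W (UpW hu hdn PC PB Lat cat)
open Crest.Agent.R154.B5A (LW HT act)
open scoped ENNReal

variable {d : ℕ}

lemma mem_of_prefix {x : Site d} {p l : List (Step d)} (hp : p <+: l) (hne : p ≠ l) :
    endp x p ∈ sitesL x l := by
  obtain ⟨q, rfl⟩ := hp
  have hq : q ≠ [] := by
    rintro rfl
    exact hne (by simp)
  rw [B5W.sitesL_append]
  refine List.mem_append_right _ ?_
  cases q with
  | nil => exact absurd rfl hq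
  | cons e q => simp [sitesL]

lemma levW (u : Step d) (l : List (Step d)) : lev u (endp 0 l) = B5W.lv (hu u) l := by
  have := B5W.lev_endp u 0 l
  rw [Flux566.lev_zero, zero_add] at this
  exact this

lemma isUp_iff (u : Step d) (n : ℕ) (l : List (Step d)) : IsUp u n l ↔ l ∈ UpW (hu u) n := by
  constructor
  · rintro ⟨h1, h2⟩
    refine ⟨by rw [← levW, h2], fun p hp hne => ?_⟩
    have := h1 _ (mem_of_prefix hp hne)
    rwa [levW] at this
  · rintro ⟨h1, h2⟩
    refine ⟨fun y hy => ?_, by rw [levW, h1]⟩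
    obtain ⟨p, hp, hne, rfl⟩ := B5W.mem_sitesL hy
    rw [levW]
    exact h2 p hp hne

lemma isDn_iff (u : Step d) (n : ℕ) (l : List (Step d)) : IsDn u n l ↔ l ∈ UpW (hdn u) n := by
  constructor
  · rintro ⟨h1, h2⟩
    refine ⟨by rw [B5W.lv_hdn, ← levW, h2, neg_neg], fun p hp hne => ?_⟩
    have := h1 _ (mem_of_prefix hp hne)
    rw [levW] at this
    rw [B5W.lv_hdn]
    omega
  · rintro ⟨h1, h2⟩
    rw [B5W.lv_hdn] at h1
    refine ⟨fun y hy => ?_, by rw [levW]; omega⟩
    obtain ⟨p, hp, hne, rfl⟩ := B5W.mem_sitesL hy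
    rw [levW]
    have := h2 p hp hne
    rw [B5W.lv_hdn] at this
    omega

lemma cds_eq (u : Step d) (π γ : List (Step d)) (w : Site d) :
    B5W.cds u (π, γ) w = Cm u w π γ := by
  ext k
  have hsv : stepVec (opp u) = - stepVec u := Flux132.stepVec_opp u
  constructor
  · rintro ⟨s, h1, h2, h3⟩
    refine ⟨s - endp 0 π, ?_, ?_, ?_⟩
    · rw [NB28.mem_sitesL_iff, sub_neg_eq_add, sub_add_cancel]
      exact h1
    · simp only at h2
      rw [NB28.mem_sitesL_iff] at h2 ⊢
      rw [hsv]
      rw [show s - endp 0 π - (w + -stepVec u) = s - (endp 0 π + w - stepVec u) by abel]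
      exact h2
    · simp only at h3
      rw [sub_eq_add_neg, Flux132.lev_add, Flux132.lev_neg]
      change (k : ℤ) = lev u (endp 0 π) - lev u s at h3
      omega
  · rintro ⟨y, h1, h2, h3⟩
    refine ⟨y + endp 0 π, ?_, ?_, ?_⟩
    · rw [NB28.mem_sitesL_iff, sub_neg_eq_add] at h1
      exact h1
    · simp only
      rw [NB28.mem_sitesL_iff] at h2 ⊢
      rw [hsv] at h2
      rw [show y + endp 0 π - (endp 0 π + w - stepVec u) = y - (w + -stepVec u) by abel]
      exact h2
    · change (k : ℤ) = lev u (endp 0 π) - lev u (y + endp 0 π)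
      rw [Flux132.lev_add]
      omega

variable (ν : Measure (Row d)) [IsProbabilityMeasure ν]

open Classical in
/-- sums over lists of height `n` = sums over pairs of words -/
lemma sum_lists (u : Step d) (n : ℕ) (P : List (Step d) → List (Step d) → Prop) :
    ∑' L : List (PB u), (if B5A.HT (B5W.ht u) L = n ∧ P (cat L).1 (cat L).2
        then B5A.LW (B5W.Lam ν u) L else 0)
      = ∑' π : List (Step d), ∑' γ : List (Step d),
        if IsUp u n π ∧ IsDn u n γ ∧ P π γ then NB28.aw ν π * NB28.aw ν γ else 0 := by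
  have h := B5W.tsum_lists (h := hu u) (h' := hdn u) (B5W.aw_nil (iidEnvironmentLaw ν))
    (B5W.aw_nil (iidEnvironmentLaw ν)) (B5W.aw_up ν u) (B5W.aw_dn ν u) n
    (fun x => if P x.1 x.2 then 1 else 0)
  have h1 : ∑' L : List (PB u), (if B5A.HT (B5W.ht u) L = n ∧ P (cat L).1 (cat L).2
        then B5A.LW (B5W.Lam ν u) L else 0)
      = ∑' L : List (PB u), (if B5A.HT (B5W.hb (hu u) (hdn u)) L = n then
          B5A.LW (B5W.wt (B5W.aw (iidEnvironmentLaw ν)) (B5W.aw (iidEnvironmentLaw ν))) L *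
            (if P (cat L).1 (cat L).2 then 1 else 0) else 0) := by
    refine tsum_congr fun L => ?_
    by_cases h1 : B5A.HT (B5W.ht u) L = n
    · have h1' : B5A.HT (B5W.hb (hu u) (hdn u)) L = n := h1
      by_cases h2 : P (cat L).1 (cat L).2
      · rw [if_pos ⟨h1, h2⟩, if_pos h1', if_pos h2, mul_one]; rfl
      · rw [if_neg (fun h => h2 h.2), if_pos h1', if_neg h2, mul_zero]
    · have h1' : ¬ B5A.HT (B5W.hb (hu u) (hdn u)) L = n := h1
      rw [if_neg (fun h => h1 h.1), if_neg h1']
  rw [h1, h, ← ENNReal.tsum_prod]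
  have h2 := tsum_subtype (PC (hu u) (hdn u) n) (fun x : List (Step d) × List (Step d) =>
    B5W.aw (iidEnvironmentLaw ν) x.1 * B5W.aw (iidEnvironmentLaw ν) x.2 *
      (if P x.1 x.2 then 1 else 0))
  refine h2.trans (tsum_congr fun x => ?_)
  rw [Set.indicator_apply]
  by_cases hx : x ∈ PC (hu u) (hdn u) n
  · rw [if_pos hx]
    have hx1 : IsUp u n x.1 := (isUp_iff u n _).2 hx.1
    have hx2 : IsDn u n x.2 := (isDn_iff u n _).2 hx.2
    by_cases hP : P x.1 x.2
    · rw [if_pos hP, if_pos ⟨hx1, hx2, hP⟩, mul_one]; rfl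
    · rw [if_neg hP, if_neg (fun h => hP h.2.2), mul_zero]
  · rw [if_neg hx, if_neg]
    rintro ⟨hx1, hx2, _⟩
    exact hx ⟨(isUp_iff u n _).1 hx1, (isDn_iff u n _).1 hx2⟩

lemma CD_eq (u : Step d) (L : List (PB u)) (w : Lat u) :
    B5A.CD (B5W.ht u) (B5W.dl u) (B5W.cd u) L w = Cm u w.1 (cat L).1 (cat L).2 := by
  rw [B5W.CD_cat]
  exact cds_eq u (cat L).1 (cat L).2 w.1


/-! ### words -/

open Classical in
/-- weight of an up crossing -/
noncomputable def fX (u : Step d) (H : ℕ) (π : List (Step d)) : ℝ≥0∞ := if IsUp u H π then aw ν π else 0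

open Classical in
/-- weight of a down crossing -/
noncomputable def fY (u : Step d) (H : ℕ) (π : List (Step d)) : ℝ≥0∞ := if IsDn u H π then aw ν π else 0

open Classical in
lemma sum_lists' (u : Step d) (n : ℕ) (P : List (Step d) → List (Step d) → Prop) :
    ∑' L : List (PB u), (if HT (B5W.ht u) L = n ∧ P (cat L).1 (cat L).2
        then LW (B5W.Lam ν u) L else 0)
      = ∑' π : List (Step d), ∑' γ : List (Step d), if P π γ then fX ν u n π * fY ν u n γ else 0 := by
  rw [sum_lists]
  refine tsum_congr fun π => tsum_congr fun γ => ?_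
  unfold fX fY
  by_cases h1 : IsUp u n π <;> by_cases h2 : IsDn u n γ <;> by_cases h3 : P π γ <;> simp [h1, h2, h3]

/-- displacement of a block -/
def dz (u : Step d) (b : PB u) : Site d := endp 0 b.1.1 + endp 0 b.1.2

lemma endp_cat (u : Step d) (L : List (PB u)) :
    Hit776.DZ (dz u) L = endp 0 (cat L).1 + endp 0 (cat L).2 := by
  induction L with
  | nil => simp [Hit776.DZ, cat, endp]
  | cons b L ih =>
    have h1 : Hit776.DZ (dz u) (b :: L) = dz u b + Hit776.DZ (dz u) L := by simp [Hit776.DZ]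
    rw [h1, ih, dz]
    simp only [cat, B5W.pm]
    rw [Flux566.endp_append, Flux566.endp_append, Flux566.endp_eq_add b.1.1 (endp 0 (cat L).1),
      Flux566.endp_eq_add (cat L).2 (endp 0 b.1.2)]
    abel

lemma act_eq (u : Step d) (L : List (PB u)) (w : Lat u) :
    (act (B5W.dl u) L w).1 = w.1 + Hit776.DZ (dz u) L := by
  induction L generalizing w with
  | nil => simp [Hit776.DZ, act]
  | cons b L ih =>
    have h1 : Hit776.DZ (dz u) (b :: L) = dz u b + Hit776.DZ (dz u) L := by simp [Hit776.DZ]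
    rw [act, ih, h1]
    simp only [B5W.dl, B5W.dlp, dz]
    abel

end Crest.Agent.R154.HW481
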