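import Crest.Agent.R154.HWB_263

/-! Row 154, ROAD 801: window lemma (2) in words (helper263): the explored walker is local and carries
the weight. -/

set_option autoImplicit false

open MeasureTheory ProbabilityTheory Crest.ProbabilityR.RandomEnvironment
open scoped ENNReal

namespace Crest.Agent.R154.HW263

open Crest.Agent.R154
open Crest.Agent.R154.Flux132 (lev opp)
open Crest.Agent.R154.Flux566 (lw endp sitesL measurable_lw)
open Crest.Agent.R154.NB28 (IsUp IsDn aw)
open Crest.Agent.R154.DoobW431 (PF First pf_First exists_First pf_unique markov_pf kraft bad_le ville)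

variable {d : ℕ}

lemma levo (u : Step d) (x : Site d) : lev (opp u) x = - lev u x := by
  unfold Flux132.lev Flux132.opp; cases u.2 <;> simp

/-- local ascending words -/
def TX (u : Step d) (n : ℕ) (E : Finset (Site d)) : Set (List (Step d)) :=
  {γ | IsUp u n γ ∧ endp 0 γ ∈ E}

lemma pf_TX (u : Step d) (n : ℕ) (E : Finset (Site d)) : PF (TX u n E) :=
  fun _ hl _ hl' hp => NB28.isUp_prefix hl.1 hl'.1 hp

lemma pf_Dn (u : Step d) (n : ℕ) : PF {l : List (Step d) | IsDn u n l} :=
  fun _ hl _ hl' hp => NB28.isDn_prefix hl hl' hp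

def Rel2 (u : Step d) (n : ℕ) (E : Finset (Site d)) (L s : ℤ) (q : Site d)
    (π l : List (Step d)) : Prop :=
  π ∈ TX u n E ∧ l ∈ First q {y | y ∈ sitesL 0 π} ∧ s ≤ lev (opp u) (endp 0 l) ∧
    NR (opp u) s (L - n) l

lemma first_disj2 {q : Site d} {π l : List (Step d)} (h : l ∈ First q {y | y ∈ sitesL 0 π}) :
    ∀ y ∈ sitesL 0 π, y ∉ sitesL q l := by
  intro y hy hy'
  obtain ⟨a, t, h1, h2, h3⟩ := of_mem_sites hy'
  refine h.2 a (h1 ▸ List.prefix_append a t) ?_ (by rw [h3]; exact hy)
  intro he
  rw [← he] at h1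
  have h4 := congrArg List.length h1
  rw [List.length_append] at h4
  have : t.length = 0 := by omega
  exact h2 (List.length_eq_zero_iff.1 this)

open Classical in
lemma quench2 (u : Step d) (n : ℕ)
    (E : Finset (Site d)) (wt : Site d → Site d → ℝ≥0∞) (M lam : ℝ≥0∞) (L s : ℤ)
    (hl0 : lam ≠ 0) (hl : lam ≠ ⊤) (hwM : ∀ q z, wt q z ≤ M)
    (hw1 : ∀ z, ∑' q, wt q z ≤ 1) (ω : Environment d) :
    (∑' q : Site d, ∑' π : List (Step d), ∑' l : List (Step d),
      if lev u q = L ∧ Rel2 u n E L s q π l then lw ω 0 π * lw ω q l * wt q (endp 0 π) else 0)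
      ≤ lam + M * (lam⁻¹ * ∑' q : Site d, ∑' ρ : List (Step d),
        (if ρ ∈ RR (opp u) s (L - n) ∧ endp q ρ ∈ E then lw ω q ρ else 0)) := by
  set F : Set (Site d) := {z | z ∈ E} with hF
  set e : Site d → ℝ≥0∞ := ee ω (opp u) (-(n : ℤ)) F with he
  set bad : List (Step d) → Prop := fun π => ∃ γ', γ' <+: π ∧ endp 0 γ' ∈ {v | e v ≤ lam} with hbad
  have hB : ∑' π, (if π ∈ TX u n E ∧ bad π then lw ω 0 π else 0) ≤ lam := by
    refine bad_le ω 0 (TX u n E) {v | e v ≤ lam} (fun v => CC (opp u) (-(n : ℤ)) F v) lam ?_
      (fun v hv => hv)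
    rintro γ ρ2 ⟨⟨h1, h2⟩, h3⟩
    rw [CC]
    refine ⟨?_, ?_, ?_⟩
    · rw [← endp_append]; exact h3
    · rw [← endp_append, levo, h2]
    · intro y hy
      have hy2 : y ∈ sitesL 0 (γ ++ ρ2) := by
        rw [NB28.sitesL_append]; exact List.mem_append_right _ hy
      have := (h1 y hy2).2
      rw [levo]
      omega
  -- per q, π
  have h1 : ∀ q π, (∑' l : List (Step d),
      if lev u q = L ∧ Rel2 u n E L s q π l then lw ω 0 π * lw ω q l * wt q (endp 0 π) else 0)
      ≤ (if π ∈ TX u n E ∧ bad π then lw ω 0 π else 0) * wt q (endp 0 π)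
        + (if π ∈ TX u n E then lw ω 0 π else 0) * (M * (lam⁻¹ * ∑' ρ : List (Step d),
          (if ρ ∈ RR (opp u) s (L - n) ∧ endp q ρ ∈ E then lw ω q ρ else 0))) := by
    intro q π
    by_cases hq : lev u q = L
    swap
    · simp only [hq, false_and, if_false, tsum_zero]; exact zero_le
    by_cases hπ : π ∈ TX u n E
    swap
    · have : ∀ l, ¬ (lev u q = L ∧ Rel2 u n E L s q π l) := fun l h => hπ h.2.1
      simp only [this, if_false, tsum_zero]; exact zero_le
    have a1 : ∑' l, (if l ∈ {l | Rel2 u n E L s q π l ∧ e (endp q l) ≤ lam} then lw ω q l else 0)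
        ≤ (if bad π then 1 else 0) := by
      by_cases hb : bad π
      · rw [if_pos hb]
        exact le_trans (le_of_eq (tsum_if _ fun _ => Iff.rfl))
          (kraft ω q (W := {l | Rel2 u n E L s q π l ∧ e (endp q l) ≤ lam})
            ((pf_First q _).mono fun l hl => hl.1.2.1))
      · rw [if_neg hb]
        refine le_of_eq (ENNReal.tsum_eq_zero.2 fun l => ?_)
        rw [if_neg]
        rintro ⟨⟨b1, b2, b3, b4⟩, b5⟩
        refine hb ?_
        obtain ⟨a, t, h6, h7, h8⟩ := of_mem_sites b2.1
        exact ⟨a, h6 ▸ List.prefix_append a t, by rw [h8]; exact b5⟩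
    have a2 : ∑' l, (if l ∈ {l | Rel2 u n E L s q π l ∧ lam < e (endp q l)} then lw ω q l else 0)
        ≤ lam⁻¹ * ∑' ρ : List (Step d),
          (if ρ ∈ RR (opp u) s (L - n) ∧ endp q ρ ∈ E then lw ω q ρ else 0) := by
      have := turn ω q (W := {l | Rel2 u n E L s q π l ∧ lam < e (endp q l)})
        ((pf_First q _).mono fun l hl => hl.1.2.1) lam F (opp u) s (L - n)
        (fun l hl => ⟨hl.1.2.2.2, hl.1.2.2.1⟩)
        (fun l hl => by
          rw [levo, hq, show L - (n : ℤ) + -L = -(n : ℤ) by ring]
          exact hl.2.le)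
      rw [mul_comm lam⁻¹, ← div_eq_mul_inv, ENNReal.le_div_iff_mul_le (Or.inl hl0) (Or.inl hl),
        mul_comm]
      refine le_trans (mul_le_mul' le_rfl (le_of_eq (tsum_if _ fun _ => Iff.rfl)))
        (this.trans (le_of_eq ?_))
      exact tsum_if _ fun l => Iff.rfl
    calc (∑' l : List (Step d),
        if lev u q = L ∧ Rel2 u n E L s q π l then lw ω 0 π * lw ω q l * wt q (endp 0 π) else 0)
        ≤ ∑' l, (lw ω 0 π * wt q (endp 0 π) *
            (if l ∈ {l | Rel2 u n E L s q π l ∧ e (endp q l) ≤ lam} then lw ω q l else 0)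
          + lw ω 0 π * M *
            (if l ∈ {l | Rel2 u n E L s q π l ∧ lam < e (endp q l)} then lw ω q l else 0)) := by
          refine ENNReal.tsum_le_tsum fun l => ?_
          by_cases hr : Rel2 u n E L s q π l
          · rw [if_pos ⟨hq, hr⟩]
            rcases le_or_gt (e (endp q l)) lam with hle | hgt
            · refine le_trans (le_of_eq ?_) le_self_add
              rw [if_pos (show l ∈ {l | Rel2 u n E L s q π l ∧ e (endp q l) ≤ lam} from ⟨hr, hle⟩)]
              ring
            · refine le_trans ?_ le_add_self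
              rw [if_pos (show l ∈ {l | Rel2 u n E L s q π l ∧ lam < e (endp q l)} from ⟨hr, hgt⟩)]
              calc lw ω 0 π * lw ω q l * wt q (endp 0 π) ≤ lw ω 0 π * lw ω q l * M := by
                    gcongr; exact hwM _ _
                _ = _ := by ring
          · rw [if_neg (fun h => hr h.2)]; exact zero_le
      _ = lw ω 0 π * wt q (endp 0 π) * (∑' l,
            (if l ∈ {l | Rel2 u n E L s q π l ∧ e (endp q l) ≤ lam} then lw ω q l else 0))
          + lw ω 0 π * M * ∑' l,
            (if l ∈ {l | Rel2 u n E L s q π l ∧ lam < e (endp q l)} then lw ω q l else 0) := by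
          rw [ENNReal.tsum_add, ENNReal.tsum_mul_left, ENNReal.tsum_mul_left]
      _ ≤ lw ω 0 π * wt q (endp 0 π) * (if bad π then 1 else 0)
          + lw ω 0 π * M * (lam⁻¹ * ∑' ρ : List (Step d),
          (if ρ ∈ RR (opp u) s (L - n) ∧ endp q ρ ∈ E then lw ω q ρ else 0)) :=
          add_le_add (mul_le_mul' le_rfl a1) (mul_le_mul' le_rfl a2)
      _ = _ := by
          rw [if_pos hπ]
          congr 1
          · by_cases hb : bad π
            · rw [if_pos hb, if_pos ⟨hπ, hb⟩, mul_one]
            · rw [if_neg hb, if_neg (fun h => hb h.2), mul_zero, zero_mul]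
          · ring
  set K : Site d → ℝ≥0∞ := fun q => M * (lam⁻¹ * ∑' ρ : List (Step d),
          (if ρ ∈ RR (opp u) s (L - n) ∧ endp q ρ ∈ E then lw ω q ρ else 0)) with hK
  calc _ ≤ ∑' q : Site d, ∑' π : List (Step d),
        ((if π ∈ TX u n E ∧ bad π then lw ω 0 π else 0) * wt q (endp 0 π)
        + (if π ∈ TX u n E then lw ω 0 π else 0) * K q) :=
        ENNReal.tsum_le_tsum fun q => ENNReal.tsum_le_tsum fun π => h1 q π
    _ = (∑' q : Site d, ∑' π : List (Step d),
          (if π ∈ TX u n E ∧ bad π then lw ω 0 π else 0) * wt q (endp 0 π))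
        + ∑' q : Site d, ∑' π : List (Step d), (if π ∈ TX u n E then lw ω 0 π else 0) * K q := by
        rw [← ENNReal.tsum_add]
        refine tsum_congr fun q => ?_
        rw [← ENNReal.tsum_add]
    _ ≤ lam + ∑' q : Site d, K q := by
        refine add_le_add ?_ ?_
        · rw [ENNReal.tsum_comm]
          refine le_trans (ENNReal.tsum_le_tsum fun π => ?_) hB
          rw [ENNReal.tsum_mul_left]
          exact (mul_le_mul' le_rfl (hw1 _)).trans (le_of_eq (mul_one _))
        · refine ENNReal.tsum_le_tsum fun q => ?_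
          rw [ENNReal.tsum_mul_right]
          exact (mul_le_mul' (kraft ω 0 (pf_TX u n E)) le_rfl).trans (le_of_eq (one_mul _))
    _ = _ := by rw [hK, ENNReal.tsum_mul_left, ENNReal.tsum_mul_left]

open Classical in
/-- **window lemma (2)**: `X` (explored, from `0`) local, `Y` free from `q` -/
theorem H2F (ν : Measure (Row d)) [IsProbabilityMeasure ν] (u : Step d) (n n' : ℕ)
    (E : Finset (Site d)) (wt : Site d → Site d → ℝ≥0∞) (M lam us : ℝ≥0∞) (L s r : ℤ)
    (hl0 : lam ≠ 0) (hl : lam ≠ ⊤) (hwM : ∀ q z, wt q z ≤ M)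
    (hw1 : ∀ z, ∑' q, wt q z ≤ 1) (hb : L - n ≤ r)
    (hus : ∀ W : Set (List (Step d)), PF W → W ⊆ Us109.RetW (opp u) r s →
      ∑' l, (if l ∈ W then aw ν l else 0) ≤ us) :
    ∑' q : Site d, ∑' π : List (Step d), ∑' γ : List (Step d),
      (if lev u q = L ∧ (IsUp u n π ∧ endp 0 π ∈ E) ∧ IsDn u n' γ ∧
        (∃ y, y ∈ sitesL 0 π ∧ y ∈ sitesL q γ) ∧
        (∀ y, y ∈ sitesL 0 π → y ∈ sitesL q γ → s ≤ L - lev u y)
        then aw ν π * aw ν γ * wt q (endp 0 π) else 0)
      ≤ us + (lam + M * (E.card * us) / lam) := by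
  set ret : List (Step d) → Prop := fun π => ∃ l', l' <+: π ∧ l' ∈ Us109.RetW (opp u) r s with hret
  have h1 : ∀ q π, ∑' γ : List (Step d),
      (if lev u q = L ∧ (IsUp u n π ∧ endp 0 π ∈ E) ∧ IsDn u n' γ ∧
        (∃ y, y ∈ sitesL 0 π ∧ y ∈ sitesL q γ) ∧
        (∀ y, y ∈ sitesL 0 π → y ∈ sitesL q γ → s ≤ L - lev u y)
        then aw ν π * aw ν γ * wt q (endp 0 π) else 0)
      ≤ (∑' γ, (if π ∈ TX u n E then aw ν π else 0) *
          (if γ ∈ {l : List (Step d) | IsDn u n' l} ∧ ret γ then aw ν γ else 0) * wt q (endp 0 π))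
        + ∑' l, (if lev u q = L ∧ Rel2 u n E L s q π l then aw ν π * aw ν l * wt q (endp 0 π)
          else 0) := by
    intro q π
    have h2 := split_sum (d := d) (fun γ => (lev u q = L ∧ (IsUp u n π ∧ endp 0 π ∈ E) ∧
        IsDn u n' γ ∧ (∃ y, y ∈ sitesL 0 π ∧ y ∈ sitesL q γ) ∧
        (∀ y, y ∈ sitesL 0 π → y ∈ sitesL q γ → s ≤ L - lev u y)) ∧ ¬ ret γ)
      (fun l t => (lev u q = L ∧ Rel2 u n E L s q π l) ∧ IsDn u n' (l ++ t))
      (fun γ => aw ν π * aw ν γ * wt q (endp 0 π))
      (by
        rintro γ ⟨⟨a1, a3, a2, ⟨y, a4, a5⟩, a6⟩, a7⟩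
        obtain ⟨p, t0, p1, p2, p3⟩ := of_mem_sites a5
        obtain ⟨l, hl1, hl2⟩ := exists_First q {y | y ∈ sitesL 0 π} p
          ⟨p, List.prefix_rfl, by rw [p3]; exact a4⟩
        have hlγ : l <+: γ := hl2.trans (p1 ▸ List.prefix_append p t0)
        obtain ⟨t, ht⟩ := hlγ
        have ht0 : t ≠ [] := by
          rintro rfl
          rw [List.append_nil] at ht
          have e1 := hl2.length_le
          have e2 := congrArg List.length p1
          rw [List.length_append, ← ht] at e2
          have : t0.length = 0 := by omega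
          exact p2 (List.length_eq_zero_iff.1 this)
        have hs : endp q l ∈ sitesL q γ := by
          rw [← ht]; exact mem_sites_of q l t ht0
        have hs2 : s ≤ lev (opp u) (endp 0 l) := by
          have h5 := a6 _ hl1.1 hs
          rw [endp_shift, lev_add, a1] at h5
          rw [levo]
          omega
        refine ⟨l, t, ht.symm, ⟨a1, a3, hl1, hs2, ?_⟩, ht ▸ a2⟩
        refine nr_of hb (fun z hz => ?_) fun ⟨l', h5, h6⟩ =>
          a7 ⟨l', h5.trans (ht ▸ List.prefix_append l t), h6⟩
        have h7 : z ∈ sitesL 0 γ := by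
          rw [← ht, NB28.sitesL_append]
          exact List.mem_append_left _ hz
        have h8 := (a2.1 z h7).2
        rw [levo]
        omega)
    calc _ ≤ ∑' γ : List (Step d), ((if π ∈ TX u n E then aw ν π else 0) *
          (if γ ∈ {l : List (Step d) | IsDn u n' l} ∧ ret γ then aw ν γ else 0) * wt q (endp 0 π)
          + (if (lev u q = L ∧ (IsUp u n π ∧ endp 0 π ∈ E) ∧ IsDn u n' γ ∧
            (∃ y, y ∈ sitesL 0 π ∧ y ∈ sitesL q γ) ∧
            (∀ y, y ∈ sitesL 0 π → y ∈ sitesL q γ → s ≤ L - lev u y)) ∧ ¬ ret γ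
            then aw ν π * aw ν γ * wt q (endp 0 π) else 0)) := by
          refine ENNReal.tsum_le_tsum fun γ => ?_
          by_cases c : lev u q = L ∧ (IsUp u n π ∧ endp 0 π ∈ E) ∧ IsDn u n' γ ∧
            (∃ y, y ∈ sitesL 0 π ∧ y ∈ sitesL q γ) ∧
            (∀ y, y ∈ sitesL 0 π → y ∈ sitesL q γ → s ≤ L - lev u y)
          · rw [if_pos c]
            by_cases hr : ret γ
            · refine le_trans (le_of_eq ?_) le_self_add
              rw [if_pos (show π ∈ TX u n E from c.2.1),
                if_pos (⟨c.2.2.1, hr⟩ : γ ∈ {l : List (Step d) | IsDn u n' l} ∧ ret γ)]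
            · refine le_trans (le_of_eq ?_) le_add_self
              rw [if_pos ⟨c, hr⟩]
          · rw [if_neg c]; exact zero_le
      _ = _ + _ := ENNReal.tsum_add
      _ ≤ _ := by
          refine add_le_add le_rfl (le_trans (le_of_eq (tsum_if _ fun _ => Iff.rfl))
            (h2.trans ?_))
          refine ENNReal.tsum_le_tsum fun l => ?_
          by_cases hr : lev u q = L ∧ Rel2 u n E L s q π l
          · rw [if_pos hr]
            calc _ = ∑' t, aw ν π * wt q (endp 0 π) *
                  (if l ++ t ∈ {l : List (Step d) | IsDn u n' l} then aw ν (l ++ t) else 0) := by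
                  refine tsum_congr fun t => ?_
                  by_cases ht : IsDn u n' (l ++ t)
                  · rw [if_pos ⟨hr, ht⟩,
                      if_pos (show l ++ t ∈ {l : List (Step d) | IsDn u n' l} from ht)]
                    ring
                  · rw [if_neg (fun h => ht h.2),
                      if_neg (show ¬ l ++ t ∈ {l : List (Step d) | IsDn u n' l} from ht), mul_zero]
              _ = aw ν π * wt q (endp 0 π) * ∑' t,
                  (if l ++ t ∈ {l : List (Step d) | IsDn u n' l} then aw ν (l ++ t) else 0) :=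
                  ENNReal.tsum_mul_left
              _ ≤ aw ν π * wt q (endp 0 π) * aw ν l :=
                  mul_le_mul' le_rfl (ext_aw ν (pf_Dn u n') l)
              _ = _ := by ring
          · rw [if_neg hr]
            simp [hr]
  have hU := ret_part ν (opp u) r s us hus (pf_Dn (d := d) u n')
  calc _ ≤ ∑' q : Site d, ∑' π : List (Step d),
        ((∑' γ, (if π ∈ TX u n E then aw ν π else 0) *
          (if γ ∈ {l : List (Step d) | IsDn u n' l} ∧ ret γ then aw ν γ else 0) * wt q (endp 0 π))
        + ∑' l, (if lev u q = L ∧ Rel2 u n E L s q π l then aw ν π * aw ν l * wt q (endp 0 π)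
          else 0)) :=
        ENNReal.tsum_le_tsum fun q => ENNReal.tsum_le_tsum fun π => h1 q π
    _ = (∑' q : Site d, ∑' π : List (Step d), ∑' γ, (if π ∈ TX u n E then aw ν π else 0) *
          (if γ ∈ {l : List (Step d) | IsDn u n' l} ∧ ret γ then aw ν γ else 0) * wt q (endp 0 π))
        + ∑' q : Site d, ∑' π : List (Step d),
          ∑' l, (if lev u q = L ∧ Rel2 u n E L s q π l then aw ν π * aw ν l * wt q (endp 0 π)
          else 0) := by
        rw [← ENNReal.tsum_add]
        refine tsum_congr fun q => ?_
        rw [← ENNReal.tsum_add]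
    _ ≤ us + (lam + M * (E.card * us) / lam) := by
        refine add_le_add ?_ ?_
        · calc (∑' q : Site d, ∑' π : List (Step d), ∑' γ, (if π ∈ TX u n E then aw ν π else 0) *
                (if γ ∈ {l : List (Step d) | IsDn u n' l} ∧ ret γ then aw ν γ else 0) *
                wt q (endp 0 π))
              = ∑' π : List (Step d), ∑' γ, (if π ∈ TX u n E then aw ν π else 0) *
                (if γ ∈ {l : List (Step d) | IsDn u n' l} ∧ ret γ then aw ν γ else 0) *
                ∑' q, wt q (endp 0 π) := by
                rw [ENNReal.tsum_comm]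
                refine tsum_congr fun π => ?_
                rw [ENNReal.tsum_comm]
                refine tsum_congr fun γ => ?_
                rw [ENNReal.tsum_mul_left]
            _ ≤ ∑' π : List (Step d), ∑' γ, (if π ∈ TX u n E then aw ν π else 0) *
                (if γ ∈ {l : List (Step d) | IsDn u n' l} ∧ ret γ then aw ν γ else 0) := by
                refine ENNReal.tsum_le_tsum fun π => ENNReal.tsum_le_tsum fun γ => ?_
                exact (mul_le_mul' le_rfl (hw1 _)).trans (le_of_eq (mul_one _))
            _ = (∑' π, if π ∈ TX u n E then aw ν π else 0) *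
                ∑' γ, (if γ ∈ {l : List (Step d) | IsDn u n' l} ∧ ret γ then aw ν γ else 0) := by
                rw [← ENNReal.tsum_mul_right]
                refine tsum_congr fun π => ?_
                rw [ENNReal.tsum_mul_left]
            _ ≤ 1 * us := mul_le_mul' (pf_aw ν (pf_TX u n E)) hU
            _ = us := one_mul _
        · have hme : ∀ (q : Site d) (π l : List (Step d)), Measurable fun ω : Environment d =>
              (if lev u q = L ∧ Rel2 u n E L s q π l then
                lw ω 0 π * lw ω q l * wt q (endp 0 π) else 0) := by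
            intro q π l
            by_cases h : lev u q = L ∧ Rel2 u n E L s q π l
            · simp only [if_pos h]
              exact ((measurable_lw 0 π).mul (measurable_lw q l)).mul_const _
            · simp only [if_neg h]; exact measurable_const
          have e0 : (∑' q : Site d, ∑' π : List (Step d),
              ∑' l, (if lev u q = L ∧ Rel2 u n E L s q π l then aw ν π * aw ν l * wt q (endp 0 π)
              else 0)) = ∫⁻ ω, (∑' q : Site d, ∑' π : List (Step d), ∑' l : List (Step d),
              if lev u q = L ∧ Rel2 u n E L s q π l then lw ω 0 π * lw ω q l * wt q (endp 0 π)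
              else 0) ∂(iidEnvironmentLaw ν) := by
            rw [lintegral_tsum fun q => (Measurable.ennreal_tsum fun π =>
              Measurable.ennreal_tsum fun l => hme q π l).aemeasurable]
            refine tsum_congr fun q => ?_
            rw [lintegral_tsum fun π => (Measurable.ennreal_tsum fun l => hme q π l).aemeasurable]
            refine tsum_congr fun π => ?_
            rw [lintegral_tsum fun l => (hme q π l).aemeasurable]
            refine tsum_congr fun l => ?_
            by_cases h : lev u q = L ∧ Rel2 u n E L s q π l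
            · simp only [if_pos h]
              have hm2 : Measurable fun ω : Environment d => lw ω 0 π * lw ω q l :=
                (measurable_lw 0 π).mul (measurable_lw q l)
              rw [lintegral_mul_const _ hm2, NB28.lint_mul ν 0 q π l (first_disj2 h.2.2.1)]
            · simp only [if_neg h]; rw [lintegral_zero]
          rw [e0]
          refine (lintegral_mono fun ω => quench2 u n E wt M lam L s hl0 hl hwM hw1 ω).trans ?_
          have hmK : Measurable fun ω : Environment d => ∑' q : Site d, ∑' ρ : List (Step d),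
              (if ρ ∈ RR (opp u) s (L - n) ∧ endp q ρ ∈ E then lw ω q ρ else 0) :=
            Measurable.ennreal_tsum fun q => meas_sum q _
          rw [lintegral_add_left measurable_const, lintegral_const, measure_univ, mul_one,
            lintegral_const_mul _ (hmK.const_mul _), lintegral_const_mul _ hmK]
          refine add_le_add le_rfl ?_
          have e1 : ∫⁻ ω, (∑' q : Site d, ∑' ρ : List (Step d),
              (if ρ ∈ RR (opp u) s (L - n) ∧ endp q ρ ∈ E then lw ω q ρ else 0))
              ∂(iidEnvironmentLaw ν) ≤ E.card * us := by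
            rw [lintegral_tsum fun q => (meas_sum q _).aemeasurable]
            calc _ = ∑' q : Site d, ∑' ρ : List (Step d),
                  (if ρ ∈ RR (opp u) s (L - n) ∧ endp q ρ ∈ E then aw ν ρ else 0) :=
                  tsum_congr fun q => lint_sum ν q _
              _ = ∑' ρ, (E.card : ℝ≥0∞) * (if ρ ∈ RR (opp u) s (L - n) then aw ν ρ else 0) := by
                  rw [ENNReal.tsum_comm]
                  refine tsum_congr fun ρ => ?_
                  by_cases hρ : ρ ∈ RR (opp u) s (L - n)
                  · rw [if_pos hρ, ← sum_E' E (endp 0 ρ), ← ENNReal.tsum_mul_right]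
                    refine tsum_congr fun q => ?_
                    rw [endp_shift q ρ]
                    by_cases hq : q + endp 0 ρ ∈ E
                    · rw [if_pos ⟨hρ, hq⟩, if_pos hq, one_mul]
                    · rw [if_neg (fun h => hq h.2), if_neg hq, zero_mul]
                  · simp [hρ]
              _ = (E.card : ℝ≥0∞) * ∑' ρ, (if ρ ∈ RR (opp u) s (L - n) then aw ν ρ else 0) :=
                  ENNReal.tsum_mul_left
              _ ≤ _ := by
                  gcongr
                  exact hus _ (pf_RR (opp u) s _) (RR_sub hb)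
          rw [ENNReal.div_eq_inv_mul]
          calc M * (lam⁻¹ * _) ≤ M * (lam⁻¹ * (E.card * us)) := by gcongr
            _ = _ := by ring

end Crest.Agent.R154.HW263
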