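import Crest.Agent.R154.HWB_481

/-! Row 154, ROAD 801, frame B (helper481): the window estimate from E2 / E3. -/

set_option autoImplicit false

namespace Crest.Agent.R154.HW481

open MeasureTheory ProbabilityTheory Crest.ProbabilityR.RandomEnvironment Crest.Agent.R154
open Crest.Agent.R154.Flux132 (lev opp)
open Crest.Agent.R154.Flux566 (lw endp sitesL)
open Crest.Agent.R154.NB28 (IsUp IsDn Cm KW KappaW aw)
open Crest.Agent.R154.B5W (UpW hu hdn PC PB Lat cat)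
open Crest.Agent.R154.B5A (LW HT act)
open scoped ENNReal

variable {d : ℕ}

open Classical in
/-- window lemma (2) at common height: the up walker is local -/
def E2 (ν : Measure (Row d)) [IsProbabilityMeasure ν] (u : Step d) (us : ℕ → ℝ≥0∞)
    (C : ℝ≥0∞) : Prop :=
  ∀ (s H : ℕ) (E : Finset (Site d)) (μ : Site d → ℝ≥0∞) (M lam : ℝ≥0∞),
    ∑' x, μ x ≤ 1 → (∀ x, μ x ≤ M) → lam ≠ 0 → lam ≠ ⊤ →
    ∑' x, (if lev u x = 0 then μ x * ∑' π : List (Step d), ∑' γ : List (Step d),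
      (if IsUp u H π ∧ endp 0 π ∈ E ∧ IsDn u H γ ∧ (∃ k, k ∈ Cm u x π γ) ∧
        (∀ k ∈ Cm u x π γ, s < k) then aw ν π * aw ν γ else 0) else 0)
      ≤ C * (lam + M * E.card * us s / lam + us s)

open Classical in
/-- window lemma (3) at common height: the down walker is local -/
def E3 (ν : Measure (Row d)) [IsProbabilityMeasure ν] (u : Step d) (us : ℕ → ℝ≥0∞)
    (C : ℝ≥0∞) : Prop :=
  ∀ (s H : ℕ) (E : Finset (Site d)) (μ : Site d → ℝ≥0∞) (M lam : ℝ≥0∞),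
    ∑' x, μ x ≤ 1 → (∀ x, μ x ≤ M) → lam ≠ 0 → lam ≠ ⊤ →
    ∑' x, (if lev u x = 0 then μ x * ∑' π : List (Step d), ∑' γ : List (Step d),
      (if IsUp u H π ∧ endp 0 γ ∈ E ∧ IsDn u H γ ∧ (∃ k, k ∈ Cm u x π γ) ∧
        (∀ k ∈ Cm u x π γ, k + s ≤ H) then aw ν π * aw ν γ else 0) else 0)
      ≤ C * (lam + M * E.card * us s / lam + us s)

variable (ν : Measure (Row d)) [IsProbabilityMeasure ν] (u : Step d)

lemma sumX_le (H : ℕ) : ∑' π, fX ν u H π ≤ 1 := by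
  classical
  refine le_trans (le_of_eq ?_) (WM286.sum_up_le_one ν u H)
  exact tsum_congr fun π => ite_any Iff.rfl _ _

lemma sumY_le (H : ℕ) : ∑' π, fY ν u H π ≤ 1 := by
  classical
  refine le_trans (le_of_eq ?_) (WM286.sum_dn_le_one ν u H)
  exact tsum_congr fun π => ite_any Iff.rfl _ _

lemma sumXY_le (H : ℕ) : ∑' π, ∑' γ, fX ν u H π * fY ν u H γ ≤ 1 := by
  calc ∑' π, ∑' γ, fX ν u H π * fY ν u H γ = ∑' π, fX ν u H π * ∑' γ, fY ν u H γ :=
        tsum_congr fun π => ENNReal.tsum_mul_left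
    _ = (∑' π, fX ν u H π) * ∑' γ, fY ν u H γ := ENNReal.tsum_mul_right
    _ ≤ 1 * 1 := mul_le_mul' (sumX_le ν u H) (sumY_le ν u H)
    _ = 1 := one_mul 1

open Classical in
lemma half (h1 : ∀ b, 1 ≤ B5W.ht u b) (hΛ : ∑' b, B5W.Lam ν u b = 1) (H N a : ℕ) (hH : 0 < H)
    (ha : (2 * N + 1) * H ≤ a) (Q : List (Step d) → List (Step d) → Prop) (τ q : ℝ≥0∞)
    (hτ : ∀ z, ∑' π, ∑' γ, (if Q π γ ∧ endp 0 π + endp 0 γ = z then fX ν u H π * fY ν u H γ else 0)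
      ≤ τ)
    (hq : q ≤ ∑' π, ∑' γ, (if Q π γ then fX ν u H π * fY ν u H γ else 0)) (w : Site d) :
    ∃ μ : Site d → ℝ≥0∞, (∑' x, μ x ≤ 1) ∧ (∀ x, μ x ≤ τ / q) ∧
      ∀ K : Site d → ℝ≥0∞, (∀ x, K x ≤ 1) →
        Hit776.S (B5W.Lam ν u) (B5W.ht u) a (fun L => K (w + Hit776.DZ (dz u) L))
          ≤ ∑' x, μ x * K x + (1 - q) ^ N + N * ov (B5W.Lam ν u) (B5W.ht u) H H := by
  obtain ⟨μ, hμ1, hμ2, hμ3⟩ := Hit776.density (B5W.Lam ν u) (B5W.ht u)
    (fun C => HT (B5W.ht u) C = H ∧ Q (cat C).1 (cat C).2) (dz u) h1 hΛ H hH (fun C hC => hC.1) τ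
    (by
      intro z
      refine le_trans ?_ (le_trans (le_of_eq ((sum_lists' ν u H
        (fun π γ => Q π γ ∧ endp 0 π + endp 0 γ = z)).trans
          (tsum_congr fun π => tsum_congr fun γ => ite_any Iff.rfl _ _))) (hτ z))
      rw [Hit776.S]
      refine ENNReal.tsum_le_tsum fun L => ?_
      by_cases hL : (HT (B5W.ht u) L = H ∧ Q (cat L).1 (cat L).2) ∧ Hit776.DZ (dz u) L = z
      · rw [if_pos hL, if_pos (show HT (B5W.ht u) L = H ∧ Q (cat L).1 (cat L).2 ∧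
          endp 0 (cat L).1 + endp 0 (cat L).2 = z from ⟨hL.1.1, hL.1.2, by
            rw [← endp_cat]; exact hL.2⟩), mul_one]
        split_ifs
        · exact le_rfl
        · exact zero_le
      · rw [if_neg hL]; simp) q
    (by
      refine hq.trans (le_trans (le_of_eq (Eq.trans
        (tsum_congr fun π => tsum_congr fun γ => ite_any Iff.rfl _ _)
        (sum_lists' ν u H Q).symm)) ?_)
      rw [Hit776.S]
      refine ENNReal.tsum_le_tsum fun L => ?_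
      by_cases hL : HT (B5W.ht u) L = H ∧ Q (cat L).1 (cat L).2
      · have hfp : Hit776.FP (B5W.ht u) H L := by
          have := FP_self (B5W.ht u) h1 L
          rwa [hL.1] at this
        rw [if_pos hL, if_pos hfp, if_pos hL, mul_one]
      · rw [if_neg hL]; exact zero_le) N a w
  refine ⟨μ, hμ1, hμ2, fun K hK => (hμ3 K hK).trans (add_le_add le_rfl ?_)⟩
  refine le_trans (le_of_eq ?_) (SC_room (B5W.Lam ν u) (B5W.ht u) h1 hΛ H N a ha)
  congr 1

open Classical in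
/-- kernel of `E2` -/
noncomputable def KA (H s : ℕ) (E : Finset (Site d)) (x : Site d) : ℝ≥0∞ :=
  if lev u x = 0 then ∑' π : List (Step d), ∑' γ : List (Step d),
      (if IsUp u H π ∧ endp 0 π ∈ E ∧ IsDn u H γ ∧ (∃ k, k ∈ Cm u x π γ) ∧
        (∀ k ∈ Cm u x π γ, s < k) then aw ν π * aw ν γ else 0) else 0

open Classical in
/-- kernel of `E3` -/
noncomputable def KB (H s : ℕ) (E : Finset (Site d)) (x : Site d) : ℝ≥0∞ :=
  if lev u x = 0 then ∑' π : List (Step d), ∑' γ : List (Step d),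
      (if IsUp u H π ∧ endp 0 γ ∈ E ∧ IsDn u H γ ∧ (∃ k, k ∈ Cm u x π γ) ∧
        (∀ k ∈ Cm u x π γ, k + s ≤ H) then aw ν π * aw ν γ else 0) else 0

lemma KA_le (H s : ℕ) (E : Finset (Site d)) (x : Site d) : KA ν u H s E x ≤ 1 := by
  classical
  rw [KA]
  by_cases hx : lev u x = 0
  · rw [if_pos hx]
    refine le_trans (ENNReal.tsum_le_tsum fun π => ENNReal.tsum_le_tsum fun γ => ?_)
      (sumXY_le ν u H)
    split_ifs with h
    · rw [fX, fY, if_pos h.1, if_pos h.2.2.1]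
    · exact zero_le
  · rw [if_neg hx]; exact zero_le

lemma KB_le (H s : ℕ) (E : Finset (Site d)) (x : Site d) : KB ν u H s E x ≤ 1 := by
  classical
  rw [KB]
  by_cases hx : lev u x = 0
  · rw [if_pos hx]
    refine le_trans (ENNReal.tsum_le_tsum fun π => ENNReal.tsum_le_tsum fun γ => ?_)
      (sumXY_le ν u H)
    split_ifs with h
    · rw [fX, fY, if_pos h.1, if_pos h.2.2.1]
    · exact zero_le
  · rw [if_neg hx]; exact zero_le

lemma E2.use {us : ℕ → ℝ≥0∞} {C : ℝ≥0∞} (h : E2 ν u us C) (s H : ℕ) (E : Finset (Site d))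
    (μ : Site d → ℝ≥0∞) (M lam : ℝ≥0∞) (h1 : ∑' x, μ x ≤ 1) (h2 : ∀ x, μ x ≤ M) (h3 : lam ≠ 0)
    (h4 : lam ≠ ⊤) : ∑' x, μ x * KA ν u H s E x ≤ C * (lam + M * E.card * us s / lam + us s) := by
  classical
  refine le_trans (le_of_eq (tsum_congr fun x => ?_)) (h s H E μ M lam h1 h2 h3 h4)
  rw [KA]
  by_cases hx : lev u x = 0
  · rw [if_pos hx, if_pos hx]
  · rw [if_neg hx, if_neg hx, mul_zero]

lemma E3.use {us : ℕ → ℝ≥0∞} {C : ℝ≥0∞} (h : E3 ν u us C) (s H : ℕ) (E : Finset (Site d))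
    (μ : Site d → ℝ≥0∞) (M lam : ℝ≥0∞) (h1 : ∑' x, μ x ≤ 1) (h2 : ∀ x, μ x ≤ M) (h3 : lam ≠ 0)
    (h4 : lam ≠ ⊤) : ∑' x, μ x * KB ν u H s E x ≤ C * (lam + M * E.card * us s / lam + us s) := by
  classical
  refine le_trans (le_of_eq (tsum_congr fun x => ?_)) (h s H E μ M lam h1 h2 h3 h4)
  rw [KB]
  by_cases hx : lev u x = 0
  · rw [if_pos hx, if_pos hx]
  · rw [if_neg hx, if_neg hx, mul_zero]

open Classical in
lemma WLp_le (H s : ℕ) (EX EY : Finset (Site d)) (x : Lat u) :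
    Comp818.WLp (B5W.Lam ν u) (B5W.ht u) (B5W.dl u) (B5W.cd u) H s x
      ≤ KA ν u H s EX x.1 + KB ν u H s EY x.1
        + (∑' π, (if endp 0 π ∉ EX then fX ν u H π else 0))
          * ∑' γ, (if endp 0 γ ∉ EY then fY ν u H γ else 0) := by
  have e1 : Comp818.WLp (B5W.Lam ν u) (B5W.ht u) (B5W.dl u) (B5W.cd u) H s x
      = ∑' π : List (Step d), ∑' γ : List (Step d),
        if (Cm u x.1 π γ ≠ ∅ ∧ ∀ k ∈ Cm u x.1 π γ, s < k ∧ k + s ≤ H)
          then fX ν u H π * fY ν u H γ else 0 := by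
    refine Eq.trans (tsum_congr fun L => ?_) ((sum_lists' ν u H
      (fun π γ => Cm u x.1 π γ ≠ ∅ ∧ ∀ k ∈ Cm u x.1 π γ, s < k ∧ k + s ≤ H)).trans
        (tsum_congr fun π => tsum_congr fun γ => ite_any Iff.rfl _ _))
    rw [CD_eq]
    exact ite_any Iff.rfl _ _
  have e2 : (∑' π, (if endp 0 π ∉ EX then fX ν u H π else 0))
          * ∑' γ, (if endp 0 γ ∉ EY then fY ν u H γ else 0)
      = ∑' π : List (Step d), ∑' γ : List (Step d), (if endp 0 π ∉ EX then fX ν u H π else 0) *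
        (if endp 0 γ ∉ EY then fY ν u H γ else 0) := by
    rw [← ENNReal.tsum_mul_right]
    exact tsum_congr fun π => ENNReal.tsum_mul_left.symm
  have hx : lev u x.1 = 0 := x.2
  rw [e1, e2, KA, KB, if_pos hx, if_pos hx, ← ENNReal.tsum_add, ← ENNReal.tsum_add]
  refine ENNReal.tsum_le_tsum fun π => ?_
  rw [← ENNReal.tsum_add, ← ENNReal.tsum_add]
  refine ENNReal.tsum_le_tsum fun γ => ?_
  by_cases h : Cm u x.1 π γ ≠ ∅ ∧ ∀ k ∈ Cm u x.1 π γ, s < k ∧ k + s ≤ H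
  swap
  · rw [if_neg h]; exact zero_le
  rw [if_pos h]
  by_cases hπ : IsUp u H π
  swap
  · rw [fX, if_neg hπ, zero_mul]; exact zero_le
  by_cases hγ : IsDn u H γ
  swap
  · rw [fY, if_neg hγ, mul_zero]; exact zero_le
  have hex : ∃ k, k ∈ Cm u x.1 π γ := Set.nonempty_iff_ne_empty.2 h.1
  by_cases hEX : endp 0 π ∈ EX
  · refine le_trans (le_trans ?_ le_self_add) le_self_add
    rw [if_pos ⟨hπ, hEX, hγ, hex, fun k hk => (h.2 k hk).1⟩, fX, fY, if_pos hπ, if_pos hγ]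
  by_cases hEY : endp 0 γ ∈ EY
  · refine le_trans (le_trans ?_ le_add_self) le_self_add
    rw [if_pos ⟨hπ, hEY, hγ, hex, fun k hk => (h.2 k hk).2⟩, fX, fY, if_pos hπ, if_pos hγ]
  · refine le_trans ?_ le_add_self
    rw [if_pos hEX, if_pos hEY]

end Crest.Agent.R154.HW481
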