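import Crest.Agent.R154.HM8_388
import Crest.Agent.R154.Fin154_843

/-!
# Row 154: the UE half is closed (helper388)

`irrOf` = the last open leaf (L6 = HM8) of the home-mass route; `hwpos`, `hwue`, `T0220`, `T0221`.
-/

set_option autoImplicit false

namespace Crest.Agent.R154.HWDone388

open Crest.Agent.R154

theorem irrOf : Wrap74.IrrOf :=
  fun A lat lev W reg h1 h2 h3 h4 h5 h6 => HM8388.irr_of A lat lev W reg h5 h4 h1 h2 h3 h6

theorem hwpos : Top28.HWPos := Fin843.hwpos irrOf

theorem hwue : Split796.HWUE := Fin843.hwue irrOf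

end Crest.Agent.R154.HWDone388
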