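import Crest.Agent.R154.B9Br_409
import Crest.Agent.R154.Bind_263

/-!
Row 154, SPINE (helper796): literal S0219, S0220, S0221 from the open inputs, stated as Props.

`HalfProp` (B2)  : half space property in every frame.
`FL3Prop`  (B8)  : `Fin804.FL` for UE, range `R`, `d ≥ 3`.
`FL2Prop`  (B8)  : `Fin804.FL` for iid UE, `d = 2`.
`NBProp`   (B8)  : iid, merely elliptic, `d ≥ 3`: two opposite steps are not both escape directions.
-/

set_option autoImplicit false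

namespace Crest.Agent.R154.Spine

open MeasureTheory ProbabilityTheory Crest.ProbabilityR.RandomEnvironment Crest.Agent.R154
open Crest.Agent.R154.B2d Crest.Agent.R154.Bind263
open scoped ENNReal Topology

/-- half space property of a law `Q`, every real direction. -/
def HalfAll {d : ℕ} (Q : Measure (Environment d)) [IsProbabilityMeasure Q] : Prop :=
  ∀ ℓ : Fin d → ℝ, annealed Q 0 (escapeEvent ℓ) ≠ 0 → ℓ ≠ 0 → HalfSpace (annealed Q 0) ℓ

/-- (FL) of a law `Q` for every coordinate direction of escape. -/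
def FLAll {d : ℕ} (Q : Measure (Environment d)) [IsProbabilityMeasure Q] : Prop :=
  ∀ u : Step d, annealed Q 0 (escapeEvent (dirVec u)) ≠ 0 → Fin804.FL Q u

/-- two opposite steps are not both escape directions. -/
def NBAll {d : ℕ} (Q : Measure (Environment d)) [IsProbabilityMeasure Q] : Prop :=
  ∀ e : Step d, annealed Q 0 (escapeEvent (dirVec e)) ≠ 0 →
    annealed Q 0 (escapeEvent (-dirVec e)) = 0

/-- **OPEN INPUT 1** (B2; 719, 419, 263): half space property in every frame. -/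
def HalfProp : Prop :=
  ∀ (d : ℕ) (Q : Measure (Environment d)) [IsProbabilityMeasure Q] (κ : ℝ) (R : ℕ),
    Frame Q κ R → HalfAll Q

/-- **OPEN INPUT 2** (B3-B8, d ≥ 3, UE, range `R`). -/
def FL3Prop : Prop :=
  ∀ (d : ℕ) (_ : 3 ≤ d) (Q : Measure (Environment d)) [IsProbabilityMeasure Q] (κ : ℝ) (R : ℕ),
    0 < κ → Frame Q κ R → (∀ᵐ ω ∂Q, ∀ (x : Site d) (e : Step d), κ ≤ (ω x).1 e) → FLAll Q

/-- **OPEN INPUT 3** (B8d2): iid UE, `d = 2`. -/
def FL2Prop : Prop :=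
  ∀ (ν : Measure (Row 2)) [IsProbabilityMeasure ν] (κ : ℝ), 0 < κ →
    (∀ᵐ p ∂ν, ∀ e : Step 2, κ ≤ p.1 e) → FLAll (iidEnvironmentLaw ν)

/-- **OPEN INPUT 4**: iid, merely elliptic, `d ≥ 3`. -/
def NBProp : Prop :=
  ∀ (d : ℕ) (_ : 3 ≤ d) (ν : Measure (Row d)) [IsProbabilityMeasure ν],
    (∀ᵐ p ∂ν, ∀ e : Step d, 0 < p.1 e) → NBAll (iidEnvironmentLaw ν)

/-- the type of S0219 -/
def T0219 : Prop :=
  ∀ (d : ℕ) (_ : 3 ≤ d) (ν : Measure (Row d)) [IsProbabilityMeasure ν]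
    (_ : ∀ᵐ p ∂ν, ∀ e : Step d, 0 < p.1 e) (ℓ : Fin d → ℝ) (_ : ℓ ≠ 0),
    annealedProb (iidEnvironmentLaw ν) 0 (escapeEvent ℓ) = 0 ∨
      annealedProb (iidEnvironmentLaw ν) 0 (escapeEvent ℓ) = 1

/-- the type of S0220 -/
def T0220 : Prop :=
  ∀ (d : ℕ) (_ : 2 ≤ d) (ν : Measure (Row d)) [IsProbabilityMeasure ν]
    (κ : ℝ) (_ : 0 < κ) (_ : ∀ᵐ p ∂ν, ∀ e : Step d, κ ≤ p.1 e)
    (ℓ : Fin d → ℝ) (_ : ∑ i, ℓ i ^ 2 = 1)
    (_ : annealedProb (iidEnvironmentLaw ν) 0 (escapeEvent ℓ) = 1),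
    ∃ v : Fin d → ℝ, 0 < ∑ i, v i * ℓ i ∧
      annealedProb (iidEnvironmentLaw ν) 0 (velocityEvent v) = 1

/-- the type of S0221 -/
def T0221 : Prop :=
  ∀ (d : ℕ) (_ : 3 ≤ d) (Q : Measure (Environment d)) [IsProbabilityMeasure Q]
    (_ : ∀ z : Site d, MeasurePreserving (shiftEnv z) Q Q)
    (_ : IsTranslationErgodic Q)
    (κ : ℝ) (_ : 0 < κ) (_ : ∀ᵐ ω ∂Q, ∀ (x : Site d) (e : Step d), κ ≤ (ω x).1 e)
    (R : ℕ) (_ : IsFiniteRangeDependent Q R) (ℓ : Fin d → ℝ) (_ : ℓ ≠ 0),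
    annealedProb Q 0 (escapeEvent ℓ) = 0 ∨ annealedProb Q 0 (escapeEvent ℓ) = 1

lemma pos_of_ue {d : ℕ} {ν : Measure (Row d)} {κ : ℝ} (hκ : 0 < κ)
    (hν : ∀ᵐ p ∂ν, ∀ e : Step d, κ ≤ p.1 e) : ∀ᵐ p ∂ν, ∀ e : Step d, 0 < p.1 e := by
  filter_upwards [hν] with p hp e using lt_of_lt_of_le hκ (hp e)

/-- **S0219** from inputs 1 and 4. -/
theorem s0219 (hH : HalfProp) (hNB : NBProp) : T0219 := by
  intro d hd ν _ hν ℓ hℓ
  exact Asm247.zero_one_iid ν hν (hH d _ 0 0 (frame_iid ν hν)) (hNB d hd ν hν) ℓ hℓ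

/-- **S0220** from inputs 1, 2 and 3. -/
theorem s0220 (hH : HalfProp) (h3 : FL3Prop) (h2 : FL2Prop) : T0220 := by
  intro d hd ν _ κ hκ hν ℓ hℓ htrans
  have hpos := pos_of_ue hκ hν
  have hell := B9409.ue_iid ν hν
  have hℓ0 : ℓ ≠ 0 := by
    rintro rfl
    simp at hℓ
  have hA : annealed (iidEnvironmentLaw ν) 0 (escapeEvent ℓ) ≠ 0 := by
    rw [annealed_apply _ 0 (B2d.measurableSet_escapeEvent ℓ), htrans]
    exact one_ne_zero
  refine B9409.S0220_end ν κ hκ hν ℓ htrans (hH d _ 0 0 (frame_iid ν hpos) ℓ hA hℓ0) ?_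
  rcases Nat.lt_or_ge d 3 with h | h
  · obtain rfl : d = 2 := by omega
    exact h2 ν κ hκ hν
  · exact h3 d h _ κ 0 hκ (frame_ue (Q561.iid_shift ν) hκ hell
      (Q561.iid_isFiniteRangeDependent ν 0)) hell

/-- **S0221** from inputs 1 and 2. -/
theorem s0221 (hH : HalfProp) (h3 : FL3Prop) : T0221 := by
  intro d hd Q _ hstat _ κ hκ hell R hR ℓ hℓ
  have F := frame_ue hstat hκ hell hR
  exact B9409.S0221_end hstat hκ hell hR (hH d Q κ R F) (h3 d hd Q κ R hκ F hell) ℓ hℓ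

/-- `NBAll` from 804's `opp_zero`, for any law with `FL`-type input in the escape directions. -/
theorem nbAll_of_opp {d : ℕ} {Q : Measure (Environment d)} [IsProbabilityMeasure Q]
    (h : ∀ u : Step d, annealed Q 0 (escapeEvent (dirVec u)) ≠ 0 →
      annealed Q 0 (escapeEvent (dirVec (Flux132.opp u))) = 0) : NBAll Q := by
  intro e he
  have h1 : dirVec (Flux132.opp e) = -dirVec e := by
    funext i
    rw [Pi.neg_apply, dirVec_apply, dirVec_apply]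
    simp only [Flux132.opp]
    rcases e with ⟨j, b⟩
    cases b <;> by_cases hij : i = j <;> simp [hij]
  rw [← h1]
  exact h e he

end Crest.Agent.R154.Spine
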