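import Crest.Agent.R154.NBSurg_28
import Crest.Agent.R154.B5Weak_865
import Crest.Agent.R154.B5Words_657
import Crest.Agent.R154.WordB_956
import Crest.Agent.R154.Spine_796

/-! Row 154, NBProp (helper28): the instance of `B5A.abs_main2` (181, 865, 566) with the pair crossings
of 657, in the letters of `NBDefs_28`. -/

set_option autoImplicit false

namespace Crest.Agent.R154.NB28

open MeasureTheory ProbabilityTheory Crest.ProbabilityR.RandomEnvironment Crest.Agent.R154
open Crest.Agent.R154.Flux132 (lev opp lev_add lev_neg lev_zero)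
open Crest.Agent.R154.Flux566 (lw endp sitesL measurable_lw endp_append endp_eq_add)
open Crest.Agent.R154.B5A Crest.Agent.R154.B5W
open scoped ENNReal

variable {d : ℕ}

/-- level of an up step -/
def hU (u : Step d) (e : Step d) : ℤ := lev u (stepVec e)

/-- level of a down step -/
def hD (u : Step d) (e : Step d) : ℤ := -lev u (stepVec e)

lemma lev_endp (u : Step d) (l : List (Step d)) (x : Site d) :
    lev u (endp x l) = lev u x + lv (hU u) l := by
  induction l generalizing x with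
  | nil => simp [endp]
  | cons e l ih =>
    simp only [endp]
    rw [ih, lev_add]
    simp [lv, hU, add_assoc]

lemma lv_hD (u : Step d) (l : List (Step d)) : lv (hD u) l = - lv (hU u) l := by
  induction l with
  | nil => simp [lv]
  | cons e l ih =>
    simp only [lv, List.map_cons, List.sum_cons] at ih ⊢
    rw [ih]; simp [hD, hU]; ring

lemma mem_pref {x y : Site d} {l : List (Step d)} :
    y ∈ sitesL x l ↔ ∃ p, p <+: l ∧ p ≠ l ∧ endp x p = y := by
  rw [WordB956.mem_sitesL]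
  constructor
  · rintro ⟨l1, e, l2, rfl, h⟩
    refine ⟨l1, List.prefix_append _ _, ?_, h⟩
    intro h'
    have := congrArg List.length h'
    simp at this
  · rintro ⟨p, ⟨t, rfl⟩, hne, h⟩
    cases t with
    | nil => exact absurd (by simp) hne
    | cons e t => exact ⟨p, e, t, rfl, h⟩

lemma isUp_iff (u : Step d) (n : ℕ) (l : List (Step d)) : IsUp u n l ↔ l ∈ UpW (hU u) n := by
  have h0 : ∀ p : List (Step d), lev u (endp 0 p) = lv (hU u) p := fun p => by
    rw [lev_endp, lev_zero, zero_add]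
  constructor
  · rintro ⟨h1, h2⟩
    refine ⟨by rw [← h0]; exact h2, fun p hp hne => ?_⟩
    have := h1 (endp 0 p) (mem_pref.2 ⟨p, hp, hne, rfl⟩)
    rwa [h0] at this
  · rintro ⟨h1, h2⟩
    refine ⟨fun y hy => ?_, by rw [h0]; exact h1⟩
    obtain ⟨p, hp, hne, rfl⟩ := mem_pref.1 hy
    rw [h0]
    exact h2 p hp hne

lemma isDn_iff (u : Step d) (n : ℕ) (l : List (Step d)) : IsDn u n l ↔ l ∈ UpW (hD u) n := by
  have h0 : ∀ p : List (Step d), lev u (endp 0 p) = - lv (hD u) p := fun p => by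
    rw [lev_endp, lev_zero, zero_add, lv_hD, neg_neg]
  constructor
  · rintro ⟨h1, h2⟩
    refine ⟨by rw [h0] at h2; linarith, fun p hp hne => ?_⟩
    have := h1 (endp 0 p) (mem_pref.2 ⟨p, hp, hne, rfl⟩)
    rw [h0] at this
    exact ⟨by linarith [this.2], by linarith [this.1]⟩
  · rintro ⟨h1, h2⟩
    refine ⟨fun y hy => ?_, by rw [h0, h1]⟩
    obtain ⟨p, hp, hne, rfl⟩ := mem_pref.1 hy
    rw [h0]
    have := h2 p hp hne
    exact ⟨by linarith [this.2], by linarith [this.1]⟩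

/-! ### weights -/

lemma aw_nil (ν : Measure (Row d)) [IsProbabilityMeasure ν] : aw ν [] = 1 := by
  simp [aw, lw]

lemma aw_append (ν : Measure (Row d)) [IsProbabilityMeasure ν] (a b : List (Step d))
    (h : ∀ y ∈ sitesL 0 a, y ∉ sitesL (endp 0 a) b) : aw ν (a ++ b) = aw ν a * aw ν b :=
  lint_append ν 0 a b h

lemma aw_up (ν : Measure (Row d)) [IsProbabilityMeasure ν] (u : Step d) (m n : ℕ)
    (a : List (Step d)) (ha : a ∈ UpW (hU u) m) (b : List (Step d)) (hb : b ∈ UpW (hU u) n) :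
    aw ν (a ++ b) = aw ν a * aw ν b := by
  rw [← isUp_iff] at ha hb
  refine aw_append ν a b fun y hy hy' => ?_
  rw [mem_sitesL_iff] at hy'
  have h1 := (ha.1 y hy).2
  have h2 := (hb.1 _ hy').1
  rw [sub_eq_add_neg, lev_add, lev_neg, ha.2] at h2
  omega

lemma aw_dn (ν : Measure (Row d)) [IsProbabilityMeasure ν] (u : Step d) (m n : ℕ)
    (a : List (Step d)) (ha : a ∈ UpW (hD u) m) (b : List (Step d)) (hb : b ∈ UpW (hD u) n) :
    aw ν (a ++ b) = aw ν a * aw ν b := by
  rw [← isDn_iff] at ha hb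
  refine aw_append ν a b fun y hy hy' => ?_
  rw [mem_sitesL_iff] at hy'
  have h1 := (ha.1 y hy).1
  have h2 := (hb.1 _ hy').2
  rw [sub_eq_add_neg, lev_add, lev_neg, ha.2] at h2
  omega

/-! ### blocks -/

/-- irreducible pair crossings -/
abbrev PB (u : Step d) : Type := Blk (hU u) (hD u)

instance (u : Step d) : Countable (PB u) := by
  unfold PB Blk; infer_instance

/-- weight of a pair crossing -/
noncomputable def wB (ν : Measure (Row d)) [IsProbabilityMeasure ν] (u : Step d) :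
    PB u → ℝ≥0∞ := B5W.wt (h := hU u) (h' := hD u) (aw ν) (aw ν)

/-- lateral sites -/
abbrev Lt (u : Step d) : Type := {w : Site d // lev u w = 0}

lemma pc_up {u : Step d} {n : ℕ} {x : List (Step d) × List (Step d)}
    (hx : x ∈ PC (hU u) (hD u) n) : IsUp u n x.1 := (isUp_iff u n _).2 hx.1

lemma pc_dn {u : Step d} {n : ℕ} {x : List (Step d) × List (Step d)}
    (hx : x ∈ PC (hU u) (hD u) n) : IsDn u n x.2 := (isDn_iff u n _).2 hx.2

/-- displacement below a block -/
def dlB (u : Step d) (b : PB u) (w : Lt u) : Lt u :=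
  ⟨w.1 + endp 0 b.1.2 + endp 0 b.1.1, by
    have h1 := pc_up (blk_mem b)
    have h2 := pc_dn (blk_mem b)
    rw [lev_add, lev_add, w.2, h1.2, h2.2]; ring⟩

/-- contacts inside a block -/
def cdB (u : Step d) (w : Lt u) (b : PB u) : Set ℕ := Cm u w.1 b.1.1 b.1.2

lemma dlB_inj (u : Step d) (b : PB u) : Function.Injective (dlB u b) := by
  intro w w' h
  have := congrArg Subtype.val h
  simp only [dlB] at this
  exact Subtype.ext (add_right_cancel (add_right_cancel this))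

lemma lev_X {u : Step d} {n : ℕ} {π : List (Step d)} (hπ : IsUp u n π) {y : Site d}
    (hy : y ∈ sitesL (-endp 0 π) π) : -(n : ℤ) ≤ lev u y ∧ lev u y ≤ -1 := by
  rw [mem_sitesL_iff] at hy
  have := hπ.1 _ hy
  rw [sub_neg_eq_add, lev_add, hπ.2] at this
  omega

lemma lev_Y {u : Step d} {n : ℕ} {γ : List (Step d)} (hγ : IsDn u n γ) {w y : Site d}
    (hw : lev u w = 0) (hy : y ∈ sitesL (w + stepVec (opp u)) γ) :
    -(n : ℤ) ≤ lev u y ∧ lev u y ≤ -1 := by
  rw [mem_sitesL_iff] at hy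
  have := hγ.1 _ hy
  rw [sub_eq_add_neg, lev_add, lev_neg, lev_add, hw, lev_opp] at this
  omega

lemma cm_pos {u : Step d} {n : ℕ} {w : Site d} {π γ : List (Step d)} (hπ : IsUp u n π)
    {k : ℕ} (hk : k ∈ Cm u w π γ) : 1 ≤ k ∧ k ≤ n := by
  obtain ⟨y, hy, _, hl⟩ := hk
  have := lev_X hπ hy
  omega

lemma cm_append {u : Step d} {t n : ℕ} {w : Site d} (hw : lev u w = 0)
    {π γ π' γ' : List (Step d)} (hπ : IsUp u t π) (hγ : IsDn u t γ) (hπ' : IsUp u n π')
    (hγ' : IsDn u n γ') :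
    Cm u w (π' ++ π) (γ ++ γ')
      = Cm u w π γ ∪ (fun k => t + k) '' Cm u (w + endp 0 γ + endp 0 π) π' γ' := by
  have hw' : lev u (w + endp 0 γ + endp 0 π) = 0 := by
    rw [lev_add, lev_add, hw, hγ.2, hπ.2]; ring
  have he : endp 0 (π' ++ π) = endp 0 π' + endp 0 π := by
    rw [endp_append, endp_eq_add π]
  have he2 : endp (-(endp 0 π' + endp 0 π)) π' = -endp 0 π := by
    rw [endp_eq_add π']; abel
  have hX : ∀ y, y ∈ sitesL (-endp 0 (π' ++ π)) (π' ++ π)
      ↔ y + endp 0 π ∈ sitesL (-endp 0 π') π' ∨ y ∈ sitesL (-endp 0 π) π := by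
    intro y
    rw [sitesL_append, List.mem_append, he, he2]
    refine or_congr_left ?_
    rw [mem_sitesL_iff, mem_sitesL_iff π' (-endp 0 π')]
    rw [show y - -(endp 0 π' + endp 0 π) = y + endp 0 π - -endp 0 π' by abel]
  have hY : ∀ y, y ∈ sitesL (w + stepVec (opp u)) (γ ++ γ')
      ↔ y ∈ sitesL (w + stepVec (opp u)) γ ∨
        y + endp 0 π ∈ sitesL (w + endp 0 γ + endp 0 π + stepVec (opp u)) γ' := by
    intro y
    rw [sitesL_append, List.mem_append]
    refine or_congr_right ?_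
    rw [mem_sitesL_iff, mem_sitesL_iff γ' (w + endp 0 γ + endp 0 π + stepVec (opp u)),
      endp_eq_add γ]
    rw [show y - (w + stepVec (opp u) + endp 0 γ)
      = y + endp 0 π - (w + endp 0 γ + endp 0 π + stepVec (opp u)) by abel]
  ext k
  constructor
  · rintro ⟨y, hy, hy', hl⟩
    rw [hX] at hy
    rw [hY] at hy'
    rcases hy with hy | hy <;> rcases hy' with hy' | hy'
    · exfalso
      have h1 := lev_X hπ' hy
      have h2 := lev_Y hγ hw hy'
      rw [lev_add, hπ.2] at h1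
      omega
    · refine Or.inr ?_
      have h1 := lev_X hπ' hy
      rw [lev_add, hπ.2] at h1
      refine ⟨k - t, ⟨y + endp 0 π, hy, hy', ?_⟩, ?_⟩
      · rw [lev_add, hπ.2, hl]
        have : t ≤ k := by omega
        push_cast [this]; ring
      · simp only; omega
    · exact Or.inl ⟨y, hy, hy', hl⟩
    · exfalso
      have h1 := lev_X hπ hy
      have h2 := lev_Y hγ' hw' hy'
      rw [lev_add, hπ.2] at h2
      omega
  · rintro (⟨y, hy, hy', hl⟩ | ⟨k', ⟨y, hy, hy', hl⟩, rfl⟩)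
    · exact ⟨y, (hX y).2 (Or.inr hy), (hY y).2 (Or.inl hy'), hl⟩
    · refine ⟨y - endp 0 π, (hX _).2 (Or.inl ?_), (hY _).2 (Or.inr ?_), ?_⟩
      · rwa [sub_add_cancel]
      · rwa [sub_add_cancel]
      · rw [sub_eq_add_neg, lev_add, lev_neg, hl, hπ.2]
        push_cast; ring

lemma cm_nil (u : Step d) (w : Site d) : Cm u w [] [] = ∅ := by
  ext k
  simp [Cm, sitesL]

lemma CD_eq (u : Step d) (L : List (PB u)) (w : Lt u) :
    CD (hb (hU u) (hD u)) (dlB u) (cdB u) L w = Cm u w.1 (cat L).1 (cat L).2 := by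
  induction L generalizing w with
  | nil => simp [CD, cat, cm_nil]
  | cons b L ih =>
    have h1 := blk_mem b
    have h2 := cat_mem L
    simp only [CD, cat, pm]
    rw [cm_append w.2 (pc_up h1) (pc_dn h1) (pc_up h2) (pc_dn h2), ih]
    rfl

lemma cd_far (u : Step d) (b : PB u) : {w : Lt u | cdB u w b ≠ ∅}.Finite := by
  classical
  set S : Set (Site d) := (fun p : Site d × Site d => p.1 - p.2 - stepVec (opp u)) ''
    ({y | y ∈ sitesL (-endp 0 b.1.1) b.1.1} ×ˢ {z | z ∈ sitesL 0 b.1.2}) with hS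
  have hSf : S.Finite := by
    refine Set.Finite.image _ (Set.Finite.prod ?_ ?_)
    · exact (List.finite_toSet _)
    · exact (List.finite_toSet _)
  refine Set.Finite.subset (hSf.preimage (Subtype.val_injective.injOn)) fun w hw => ?_
  obtain ⟨k, y, hy, hy', hl⟩ := Set.nonempty_iff_ne_empty.2 hw
  refine ⟨(y, y - (w.1 + stepVec (opp u))), ⟨hy, ?_⟩, ?_⟩
  · exact (mem_sitesL_iff _ _ _).1 hy'
  · simp only; abel

lemma infinite_Lt (hd : 2 ≤ d) (u : Step d) : Infinite (Lt u) := by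
  obtain ⟨j, hj⟩ : ∃ j : Fin d, j ≠ u.1 := by
    have : Nontrivial (Fin d) := Fin.nontrivial_iff_two_le.2 hd
    exact exists_ne u.1
  have h0 : ∀ z : ℤ, lev u (Pi.single j z : Site d) = 0 := fun z => by
    unfold lev
    have : (Pi.single j z : Site d) u.1 = 0 := by
      rw [Pi.single_apply, if_neg (Ne.symm hj)]
    rw [this]; simp
  refine Infinite.of_injective (fun z : ℤ => (⟨Pi.single j z, h0 z⟩ : Lt u)) ?_
  · intro z z' h
    have := congrArg Subtype.val h
    exact Pi.single_injective j this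

/-! ### the weak form of `KappaW` -/

/-- weak form of `KappaW` -/
def KappaW' (ν : Measure (Row d)) [IsProbabilityMeasure ν] (u : Step d) : Prop :=
  ∀ ε : ℝ≥0∞, ε ≠ 0 → ∃ M : ℕ, ∀ m, M ≤ m → ∃ n0 : ℕ, ∀ n, n0 ≤ n → ∀ w : Site d, lev u w = 0 →
    KW ν u n m w ≤ ε

lemma KappaW.weak {ν : Measure (Row d)} [IsProbabilityMeasure ν] {u : Step d}
    (h : KappaW ν u) : KappaW' ν u := fun ε hε => by
  obtain ⟨M, hM⟩ := h ε hε
  exact ⟨M, fun m hm => ⟨2 * m, fun n hn w hw => hM m hm n hn w hw⟩⟩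

open Classical in
lemma kap1_le (ν : Measure (Row d)) [IsProbabilityMeasure ν] (u : Step d) (n m : ℕ) (w : Lt u) :
    Kap1 (wB ν u) (hb (hU u) (hD u)) (dlB u) (cdB u) n m w ≤ KW ν u n m w.1 := by
  set F : List (Step d) × List (Step d) → ℝ≥0∞ := fun x =>
    if (∀ k ∈ Cm u w.1 x.1 x.2, m < k) ∧ ∃ k ∈ Cm u w.1 x.1 x.2, k ≤ 2 * m then 1 else 0 with hF
  have h1 : ∑' L : List (PB u), (if HT (hb (hU u) (hD u)) L = n then
      LW (wB ν u) L * F (cat L) else 0)
      = ∑' x : PC (hU u) (hD u) n, aw ν x.1.1 * aw ν x.1.2 * F x.1 :=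
    tsum_lists (h := hU u) (h' := hD u) (a₁ := aw ν) (a₂ := aw ν) (aw_nil ν) (aw_nil ν)
      (aw_up ν u) (aw_dn ν u) n F
  have h2 : Kap1 (wB ν u) (hb (hU u) (hD u)) (dlB u) (cdB u) n m w
      = ∑' L : List (PB u), (if HT (hb (hU u) (hD u)) L = n then
        LW (wB ν u) L * F (cat L) else 0) := by
    unfold Kap1
    refine tsum_congr fun L => ?_
    rw [CD_eq]
    by_cases hh : HT (hb (hU u) (hD u)) L = n
    · by_cases hc : (∀ k ∈ Cm u w.1 (cat L).1 (cat L).2, m < k) ∧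
        ∃ k ∈ Cm u w.1 (cat L).1 (cat L).2, k ≤ 2 * m
      · rw [if_pos ⟨hh, hc⟩, if_pos hh, hF]; simp only; rw [if_pos hc, mul_one]
      · rw [if_neg (fun h => hc h.2), if_pos hh, hF]; simp only; rw [if_neg hc, mul_zero]
    · rw [if_neg (fun h => hh h.1), if_neg hh]
  rw [h2, h1, KW, ← ENNReal.tsum_prod (f := fun (π γ : List (Step d)) =>
    if IsUp u n π ∧ IsDn u n γ ∧ (∀ k ∈ Cm u w.1 π γ, m < k) ∧ (∃ k ∈ Cm u w.1 π γ, k ≤ 2 * m)
    then aw ν π * aw ν γ else 0)]
  refine le_trans (le_of_eq ?_) (ENNReal.tsum_comp_le_tsum_of_injective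
    (Subtype.val_injective (p := fun x => x ∈ PC (hU u) (hD u) n)) _)
  refine tsum_congr fun x => ?_
  have hu := pc_up x.2
  have hdn := pc_dn x.2
  by_cases hc : (∀ k ∈ Cm u w.1 x.1.1 x.1.2, m < k) ∧ ∃ k ∈ Cm u w.1 x.1.1 x.1.2, k ≤ 2 * m
  · rw [if_pos ⟨hu, hdn, hc⟩, hF]; simp only; rw [if_pos hc, mul_one]
  · rw [if_neg (fun h => hc h.2.2), hF]; simp only; rw [if_neg hc, mul_zero]

open Classical in
lemma up_sub (ν : Measure (Row d)) [IsProbabilityMeasure ν] (u : Step d) (n : ℕ) :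
    ∑' π : UpW (hU u) n, aw ν π.1 = ∑' π : List (Step d), if IsUp u n π then aw ν π else 0 := by
  rw [tsum_subtype (UpW (hU u) n) (aw ν)]
  refine tsum_congr fun π => ?_
  rw [Set.indicator_apply]
  simp only [isUp_iff]

open Classical in
lemma dn_sub (ν : Measure (Row d)) [IsProbabilityMeasure ν] (u : Step d) (n : ℕ) :
    ∑' π : UpW (hD u) n, aw ν π.1 = ∑' π : List (Step d), if IsDn u n π then aw ν π else 0 := by
  rw [tsum_subtype (UpW (hD u) n) (aw ν)]
  refine tsum_congr fun π => ?_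
  rw [Set.indicator_apply]
  simp only [isDn_iff]

lemma up_le_one (ν : Measure (Row d)) [IsProbabilityMeasure ν] (u : Step d) (n : ℕ) :
    ∑' π : UpW (hU u) n, aw ν π.1 ≤ 1 :=
  pf_aw_le_one ν (fun π : UpW (hU u) n => π.1) fun i j h =>
    Subtype.ext (isUp_prefix ((isUp_iff u n _).2 i.2) ((isUp_iff u n _).2 j.2) h)

lemma dn_le_one (ν : Measure (Row d)) [IsProbabilityMeasure ν] (u : Step d) (n : ℕ) :
    ∑' π : UpW (hD u) n, aw ν π.1 ≤ 1 :=
  pf_aw_le_one ν (fun π : UpW (hD u) n => π.1) fun i j h =>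
    Subtype.ext (isDn_prefix ((isDn_iff u n _).2 i.2) ((isDn_iff u n _).2 j.2) h)

open Classical in
/-- **the contradiction.** -/
theorem false_of (hd : 2 ≤ d) (ν : Measure (Row d)) [IsProbabilityMeasure ν]
    (hν : ∀ᵐ p ∂ν, ∀ e : Step d, 0 < p.1 e) (u : Step d) (c c' : ℝ≥0∞) (hc : c ≠ 0)
    (hc' : c' ≠ 0)
    (hup : ∀ n, c ≤ ∑' π : List (Step d), if IsUp u n π then aw ν π else 0)
    (hdn : ∀ n, c' ≤ ∑' π : List (Step d), if IsDn u n π then aw ν π else 0)
    (hK : KappaW' ν u) : False := by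
  have := infinite_Lt hd u
  have hUeq : ∀ n, U (wB ν u) (hb (hU u) (hD u)) n
      = (∑' π : UpW (hU u) n, aw ν π.1) * ∑' ρ : UpW (hD u) n, aw ν ρ.1 :=
    fun n => U_eq (h := hU u) (h' := hD u) (a₁ := aw ν) (a₂ := aw ν) (aw_nil ν)
    (aw_nil ν) (aw_up ν u) (aw_dn ν u) n
  obtain ⟨w, -, hw⟩ := abs_main2 (wB ν u) (hb (hU u) (hD u)) (dlB u) (cdB u)
    one_le_hb (fun w b k hk => cm_pos (pc_up (blk_mem b)) hk) (dlB_inj u) (cd_far u) (c * c')
    (mul_ne_zero hc hc') 0
    (fun n _ => by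
      rw [hUeq, up_sub, dn_sub]
      exact mul_le_mul' (hup n) (hdn n))
    (fun n => by
      rw [hUeq]
      calc _ ≤ (1 : ℝ≥0∞) * 1 := mul_le_mul' (up_le_one ν u n) (dn_le_one ν u n)
        _ = 1 := one_mul 1)
    (fun ε hε => by
      obtain ⟨M, hM⟩ := hK ε hε
      refine ⟨M, fun m hm => ?_⟩
      obtain ⟨n0, hn0⟩ := hM m hm
      exact ⟨n0, fun n hn w => (kap1_le ν u n m w).trans (hn0 n hn w.1 w.2)⟩)
    ∅ Set.finite_empty
  have hs := surgery ν hν u w.1 w.2 (ι := {L : List (PB u) //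
      CD (hb (hU u) (hD u)) (dlB u) (cdB u) L w = ∅})
    (fun L => HT (hb (hU u) (hD u)) L.1) (fun L => (cat L.1).1) (fun L => (cat L.1).2)
    (fun L => pc_up (cat_mem L.1)) (fun L => pc_dn (cat_mem L.1))
    (fun L y hy hy' => by
      have h1 := L.2
      rw [CD_eq] at h1
      have h2 := lev_X (pc_up (cat_mem L.1)) hy
      have h3 : (-lev u y).toNat ∈ Cm u w.1 (cat L.1).1 (cat L.1).2 := by
        refine ⟨y, hy, hy', ?_⟩
        omega
      rw [h1] at h3
      exact h3)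
    (fun i j h1 h2 => Subtype.ext (cat_inj (Prod.ext h1 h2)))
  refine hs ?_
  rw [← hw]
  have h5 := tsum_subtype {L : List (PB u) | CD (hb (hU u) (hD u)) (dlB u) (cdB u) L w = ∅}
    (fun L => LW (wB ν u) L)
  have h6 : ∀ L : List (PB u), LW (wB ν u) L = aw ν (cat L).1 * aw ν (cat L).2 :=
    LW_wt (aw_nil ν) (aw_nil ν) (aw_up ν u) (aw_dn ν u)
  calc ∑' L : {L : List (PB u) // CD (hb (hU u) (hD u)) (dlB u) (cdB u) L w = ∅},
        aw ν (cat L.1).1 * aw ν (cat L.1).2
      = ∑' L : {L : List (PB u) | CD (hb (hU u) (hD u)) (dlB u) (cdB u) L w = ∅},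
        LW (wB ν u) L.1 := tsum_congr fun L => (h6 L.1).symm
    _ = _ := by
        rw [h5]
        refine tsum_congr fun L => ?_
        simp [Set.indicator_apply]

end Crest.Agent.R154.NB28
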