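import Crest.Agent.R154.HW_334
import Crest.Agent.R154.NBWord_28

/-! Row 154, road 801, joint-cut frame (helper334): `hW` of helper139 for the words of helper28,
from the two window lemmas at a common height; and the contradiction from `hK` in `Kap1` form. -/

set_option autoImplicit false

namespace Crest.Agent.R154.HW334

open MeasureTheory ProbabilityTheory Crest.ProbabilityR.RandomEnvironment Crest.Agent.R154
open Crest.Agent.R154.Flux132 (lev opp lev_add lev_neg lev_zero)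
open Crest.Agent.R154.Flux566 (lw endp sitesL measurable_lw endp_append endp_eq_add)
open Crest.Agent.R154.B5A Crest.Agent.R154.B5W
open Crest.Agent.R154.NB28
open Crest.Agent.R154.JAsm139 (card Good)
open scoped ENNReal

variable {d : ℕ}

open Classical in
/-- window lemma (2) at a common height -/
def W2J (ν : Measure (Row d)) [IsProbabilityMeasure ν] (u : Step d) (K : ℝ≥0∞) (us : ℕ → ℝ≥0∞) :
    Prop :=
  ∀ (s H : ℕ) (E : Finset (Site d)) (μ : Site d → ℝ≥0∞) (M lam : ℝ≥0∞), ∑' x, μ x ≤ 1 →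
    (∀ x, μ x ≤ M) → lam ≠ 0 → lam ≠ ⊤ →
    ∑' x, (if lev u x = 0 then μ x * ∑' π, ∑' γ, (if IsUp u H π ∧ IsDn u H γ ∧
      endp 0 π ∈ E ∧ (∃ k, k ∈ Cm u x π γ) ∧ (∀ k ∈ Cm u x π γ, s < k) then aw ν π * aw ν γ else 0)
      else 0) ≤ K * (lam + M * E.card * us s / lam)

open Classical in
/-- window lemma (3) at a common height -/
def W3J (ν : Measure (Row d)) [IsProbabilityMeasure ν] (u : Step d) (K : ℝ≥0∞) (us : ℕ → ℝ≥0∞) :
    Prop :=
  ∀ (s H : ℕ) (E : Finset (Site d)) (μ : Site d → ℝ≥0∞) (M lam : ℝ≥0∞), ∑' x, μ x ≤ 1 →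
    (∀ x, μ x ≤ M) → lam ≠ 0 → lam ≠ ⊤ →
    ∑' x, (if lev u x = 0 then μ x * ∑' π, ∑' γ, (if IsUp u H π ∧ IsDn u H γ ∧
      endp 0 γ ∈ E ∧ (∃ k, k ∈ Cm u x π γ) ∧ (∀ k ∈ Cm u x π γ, k + s ≤ H)
      then aw ν π * aw ν γ else 0)
      else 0) ≤ K * (lam + M * E.card * us s / lam)

lemma act_val (u : Step d) (L : List (PB u)) (w : Lt u) :
    (act (dlB u) L w).1 = w.1 + endp 0 (cat L).1 + endp 0 (cat L).2 := by
  induction L generalizing w with
  | nil => simp [act, cat, endp]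
  | cons b L ih =>
    simp only [act, cat, pm]
    rw [ih]
    simp only [dlB]
    rw [endp_append, endp_append, endp_eq_add b.1.1 (endp 0 (cat L).1),
      endp_eq_add (cat L).2 (endp 0 b.1.2)]
    abel

open Classical in
lemma hcat_words (ν : Measure (Row d)) [IsProbabilityMeasure ν] (u : Step d) (H : ℕ)
    (F : List (Step d) → List (Step d) → ℝ≥0∞) :
    ∑' L : List (PB u), (if HT (hb (hU u) (hD u)) L = H then LW (wB ν u) L *
      F (cat L).1 (cat L).2 else 0)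
      = ∑' π, ∑' γ, (if IsUp u H π then aw ν π else 0) * (if IsDn u H γ then aw ν γ else 0)
        * F π γ := by
  have h1 : ∑' L : List (PB u), (if HT (hb (hU u) (hD u)) L = H then
      LW (wB ν u) L * (fun x : List (Step d) × List (Step d) => F x.1 x.2) (cat L) else 0)
      = ∑' x : PC (hU u) (hD u) H, aw ν x.1.1 * aw ν x.1.2 *
        (fun x : List (Step d) × List (Step d) => F x.1 x.2) x.1 :=
    tsum_lists (h := hU u) (h' := hD u) (a₁ := aw ν) (a₂ := aw ν) (aw_nil ν) (aw_nil ν)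
      (aw_up ν u) (aw_dn ν u) H (fun x => F x.1 x.2)
  refine h1.trans ?_
  rw [tsum_subtype (PC (hU u) (hD u) H)
    (fun x : List (Step d) × List (Step d) => aw ν x.1 * aw ν x.2 * F x.1 x.2),
    ← ENNReal.tsum_prod (f := fun (π γ : List (Step d)) =>
      (if IsUp u H π then aw ν π else 0) * (if IsDn u H γ then aw ν γ else 0) * F π γ)]
  refine tsum_congr fun x => ?_
  rw [Set.indicator_apply]
  by_cases hx : x ∈ PC (hU u) (hD u) H
  · rw [if_pos hx, if_pos (pc_up hx), if_pos (pc_dn hx)]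
  · rw [if_neg hx]
    by_cases h3 : IsUp u H x.1
    · by_cases h4 : IsDn u H x.2
      · exact absurd ⟨(isUp_iff u H _).1 h3, (isDn_iff u H _).1 h4⟩ hx
      · rw [if_neg h4]; simp
    · rw [if_neg h3]; simp

/-- extension of a weight on lateral sites -/
noncomputable def ext0 (u : Step d) (μ : Lt u → ℝ≥0∞) (x : Site d) : ℝ≥0∞ := by
  classical exact if h : lev u x = 0 then μ ⟨x, h⟩ else 0

open Classical in
lemma ext0_sum (u : Step d) (μ : Lt u → ℝ≥0∞) (Φ : Site d → ℝ≥0∞) :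
    ∑' x, (if lev u x = 0 then ext0 u μ x * Φ x else 0) = ∑' w : Lt u, μ w * Φ w.1 := by
  have := tsum_subtype {x : Site d | lev u x = 0} (fun x => ext0 u μ x * Φ x)
  have e : (∑' w : Lt u, μ w * Φ w.1) = ∑' w : {x : Site d | lev u x = 0},
      ext0 u μ w.1 * Φ w.1 := by
    refine tsum_congr fun w => ?_
    have : ext0 u μ w.1 = μ w := by
      unfold ext0
      rw [dif_pos w.2]
    rw [this]
  rw [e, this]
  refine tsum_congr fun x => ?_
  rw [Set.indicator_apply]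
  rfl

lemma ext0_mass (u : Step d) (μ : Lt u → ℝ≥0∞) : ∑' x, ext0 u μ x = ∑' w, μ w := by
  classical
  have := ext0_sum u μ (fun _ => 1)
  simp only [mul_one] at this
  rw [← this]
  refine tsum_congr fun x => ?_
  unfold ext0
  by_cases h : lev u x = 0
  · rw [if_pos h]
  · rw [if_neg h, dif_neg h]

lemma ext0_le (u : Step d) (μ : Lt u → ℝ≥0∞) (M : ℝ≥0∞) (h : ∀ w, μ w ≤ M) (x : Site d) :
    ext0 u μ x ≤ M := by
  classical
  unfold ext0
  split_ifs with h1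
  · exact h _
  · exact zero_le

open Classical in
/-- **`hW` for the words.** -/
theorem hW_words (ν : Measure (Row d)) [IsProbabilityMeasure ν] (u : Step d) (c : ℝ≥0∞)
    (hc : c ≠ 0)
    (hup : ∀ n, c ≤ ∑' π : List (Step d), if IsUp u n π then aw ν π else 0)
    (hdn : ∀ n, c ≤ ∑' π : List (Step d), if IsDn u n π then aw ν π else 0)
    (us : ℕ → ℝ≥0∞) (hus : ∀ ε : ℝ≥0∞, ε ≠ 0 → ∃ s, us s ≤ ε)
    (K : ℝ≥0∞) (hK : K ≠ 0) (hK' : K ≠ ⊤) (hW2 : W2J ν u K us) (hW3 : W3J ν u K us) :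
    ∀ t η : ℝ≥0∞, t ≠ 0 → t ≤ 1 → η ≠ 0 → ∃ s : ℕ, ∀ H : ℕ, ∃ S1 S2 : Set (Lt u),
      Good (wB ν u) (hb (hU u) (hD u)) (dlB u) (c * c * 2⁻¹ * t) η H S1 ∧
      Good (wB ν u) (hb (hU u) (hD u)) (dlB u) (c * c * 2⁻¹ * t) η H S2 ∧
      ∀ w, w ∉ S1 → w ∉ S2 →
        (∑' L : List (PB u), (if HT (hb (hU u) (hD u)) L = H ∧
          CD (hb (hU u) (hD u)) (dlB u) (cdB u) L w ≠ ∅ ∧
          (∀ k ∈ CD (hb (hU u) (hD u)) (dlB u) (cdB u) L w, s < k ∧ k + s ≤ H)
          then LW (wB ν u) L else 0)) ≤ t * t + η := by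
  refine hW_of (wB ν u) (hb (hU u) (hD u)) (dlB u) (cdB u) cat (fun w : Lt u => w.1)
    (fun π => endp 0 π) (fun γ => endp 0 γ)
    (fun H π => if IsUp u H π then aw ν π else 0) (fun H γ => if IsDn u H γ then aw ν γ else 0)
    (fun w π γ => Cm u w.1 π γ) (hcat_words ν u) (fun L w => act_val u L w)
    (fun L w => CD_eq u L w) c hc hup ?_ hdn ?_ us hus K hK hK' ?_ ?_
  · intro H
    rw [← up_sub]
    exact up_le_one ν u H
  · intro H
    rw [← dn_sub]
    exact dn_le_one ν u H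
  · intro s H E μ M lam hμ hM hl hl'
    refine le_trans ?_ (hW2 s H E (ext0 u μ) M lam (by rw [ext0_mass]; exact hμ)
      (ext0_le u μ M hM) hl hl')
    rw [ext0_sum u μ (fun x => ∑' π, ∑' γ, (if IsUp u H π ∧ IsDn u H γ ∧
      endp 0 π ∈ E ∧ (∃ k, k ∈ Cm u x π γ) ∧ (∀ k ∈ Cm u x π γ, s < k) then aw ν π * aw ν γ
      else 0))]
    refine ENNReal.tsum_le_tsum fun w => mul_le_mul_right (ENNReal.tsum_le_tsum fun π =>
      ENNReal.tsum_le_tsum fun γ => ?_) _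
    by_cases h1 : endp 0 π ∈ E ∧ (∃ k, k ∈ Cm u w.1 π γ) ∧
        (∀ k ∈ Cm u w.1 π γ, s < k ∧ k + s ≤ H)
    · rw [if_pos h1]
      by_cases h3 : IsUp u H π
      · by_cases h4 : IsDn u H γ
        · rw [if_pos h3, if_pos h4, if_pos ⟨h3, h4, h1.1, h1.2.1, fun k hk => (h1.2.2 k hk).1⟩]
        · rw [if_neg h4, mul_zero]; exact zero_le
      · rw [if_neg h3, zero_mul]; exact zero_le
    · rw [if_neg h1]; exact zero_le
  · intro s H E μ M lam hμ hM hl hl'
    refine le_trans ?_ (hW3 s H E (ext0 u μ) M lam (by rw [ext0_mass]; exact hμ)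
      (ext0_le u μ M hM) hl hl')
    rw [ext0_sum u μ (fun x => ∑' π, ∑' γ, (if IsUp u H π ∧ IsDn u H γ ∧
      endp 0 γ ∈ E ∧ (∃ k, k ∈ Cm u x π γ) ∧ (∀ k ∈ Cm u x π γ, k + s ≤ H) then aw ν π * aw ν γ
      else 0))]
    refine ENNReal.tsum_le_tsum fun w => mul_le_mul_right (ENNReal.tsum_le_tsum fun π =>
      ENNReal.tsum_le_tsum fun γ => ?_) _
    by_cases h1 : endp 0 γ ∈ E ∧ (∃ k, k ∈ Cm u w.1 π γ) ∧
        (∀ k ∈ Cm u w.1 π γ, s < k ∧ k + s ≤ H)
    · rw [if_pos h1]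
      by_cases h3 : IsUp u H π
      · by_cases h4 : IsDn u H γ
        · rw [if_pos h3, if_pos h4, if_pos ⟨h3, h4, h1.1, h1.2.1, fun k hk => (h1.2.2 k hk).2⟩]
        · rw [if_neg h4, mul_zero]; exact zero_le
      · rw [if_neg h3, zero_mul]; exact zero_le
    · rw [if_neg h1]; exact zero_le

open Classical in
/-- **the contradiction from `hK` in `Kap1` form** (copy of 28's `false_of`). -/
theorem false_of_kap (hd : 2 ≤ d) (ν : Measure (Row d)) [IsProbabilityMeasure ν]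
    (hν : ∀ᵐ p ∂ν, ∀ e : Step d, 0 < p.1 e) (u : Step d) (c c' : ℝ≥0∞) (hc : c ≠ 0)
    (hc' : c' ≠ 0)
    (hup : ∀ n, c ≤ ∑' π : List (Step d), if IsUp u n π then aw ν π else 0)
    (hdn : ∀ n, c' ≤ ∑' π : List (Step d), if IsDn u n π then aw ν π else 0)
    (hK : ∀ ε : ℝ≥0∞, ε ≠ 0 → ∃ M : ℕ, ∀ m, M ≤ m → ∃ n0 : ℕ, ∀ n, n0 ≤ n → ∀ w : Lt u,
      Kap1 (wB ν u) (hb (hU u) (hD u)) (dlB u) (cdB u) n m w ≤ ε) : False := by
  have := infinite_Lt hd u
  have hUeq : ∀ n, U (wB ν u) (hb (hU u) (hD u)) n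
      = (∑' π : UpW (hU u) n, aw ν π.1) * ∑' ρ : UpW (hD u) n, aw ν ρ.1 :=
    fun n => U_eq (h := hU u) (h' := hD u) (a₁ := aw ν) (a₂ := aw ν) (aw_nil ν)
    (aw_nil ν) (aw_up ν u) (aw_dn ν u) n
  obtain ⟨w, -, hw⟩ := abs_main2 (wB ν u) (hb (hU u) (hD u)) (dlB u) (cdB u)
    one_le_hb (fun w b k hk => cm_pos (pc_up (blk_mem b)) hk) (dlB_inj u) (cd_far u) (c * c')
    (mul_ne_zero hc hc') 0
    (fun n _ => by
      rw [hUeq, up_sub, dn_sub]
      exact mul_le_mul' (hup n) (hdn n))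
    (fun n => by
      rw [hUeq]
      calc _ ≤ (1 : ℝ≥0∞) * 1 := mul_le_mul' (up_le_one ν u n) (dn_le_one ν u n)
        _ = 1 := one_mul 1)
    hK ∅ Set.finite_empty
  have hs := surgery ν hν u w.1 w.2 (ι := {L : List (PB u) //
      CD (hb (hU u) (hD u)) (dlB u) (cdB u) L w = ∅})
    (fun L => HT (hb (hU u) (hD u)) L.1) (fun L => (cat L.1).1) (fun L => (cat L.1).2)
    (fun L => pc_up (cat_mem L.1)) (fun L => pc_dn (cat_mem L.1))
    (fun L y hy hy' => by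
      have h1 := L.2
      rw [CD_eq] at h1
      have h2 := lev_X (pc_up (cat_mem L.1)) hy
      have h3 : (-lev u y).toNat ∈ Cm u w.1 (cat L.1).1 (cat L.1).2 := by
        refine ⟨y, hy, hy', ?_⟩
        omega
      rw [h1] at h3
      exact h3)
    (fun i j h1 h2 => Subtype.ext (cat_inj (Prod.ext h1 h2)))
  refine hs ?_
  rw [← hw]
  have h5 := tsum_subtype {L : List (PB u) | CD (hb (hU u) (hD u)) (dlB u) (cdB u) L w = ∅}
    (fun L => LW (wB ν u) L)
  have h6 : ∀ L : List (PB u), LW (wB ν u) L = aw ν (cat L).1 * aw ν (cat L).2 :=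
    LW_wt (aw_nil ν) (aw_nil ν) (aw_up ν u) (aw_dn ν u)
  calc ∑' L : {L : List (PB u) // CD (hb (hU u) (hD u)) (dlB u) (cdB u) L w = ∅},
        aw ν (cat L.1).1 * aw ν (cat L.1).2
      = ∑' L : {L : List (PB u) | CD (hb (hU u) (hD u)) (dlB u) (cdB u) L w = ∅},
        LW (wB ν u) L.1 := tsum_congr fun L => (h6 L.1).symm
    _ = _ := by
        rw [h5]
        refine tsum_congr fun L => ?_
        simp [Set.indicator_apply]

end Crest.Agent.R154.HW334
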