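import Crest.Agent.R154.JHit_139
import Crest.Agent.R154.Comp_818
import Crest.Agent.R154.Num_337

/-! Row 154, ROAD 801, joint cuts (helper11): 139's `hW` gives 818's `hWin`. -/

set_option autoImplicit false

namespace Crest.Agent.R154.JB11

open scoped ENNReal Topology
open Filter Crest.Agent.R154.B5A Crest.Agent.R154.FP178 Crest.Agent.R154.JAsm139

theorem exKu_real (g : ℕ) (hg : 1 ≤ g) (ε : ℝ) (hε : 0 < ε) : ∃ (K J : ℕ) (u : ℝ), 1 ≤ K ∧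
    K = 16 * J ∧ 0 < u ∧ u ≤ 1 ∧ (K : ℝ) * (u * u) ≤ ε ∧
    (K : ℝ) * (1 - (g : ℝ)⁻¹ * u) ^ J ≤ ε := by
  have t1 : Tendsto (fun r : ℕ => (16 * (g : ℝ) * (r : ℝ) ^ 4) * (1 / 2 : ℝ) ^ r) atTop (𝓝 0) := by
    have a1 := tendsto_pow_const_mul_const_pow_of_abs_lt_one 4 (r := (1 / 2 : ℝ))
      (by rw [abs_of_pos] <;> norm_num)
    have := a1.const_mul (16 * (g : ℝ))
    simp only [mul_zero] at this
    refine this.congr fun r => ?_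
    ring
  have t2 : Tendsto (fun r : ℕ => 16 * (g : ℝ) * ((r : ℝ))⁻¹) atTop (𝓝 0) := by
    have := (tendsto_inv_atTop_nhds_zero_nat (𝕜 := ℝ)).const_mul (16 * (g : ℝ))
    simpa using this
  have e1 := t1.eventually (ge_mem_nhds hε)
  have e2 := t2.eventually (ge_mem_nhds hε)
  obtain ⟨r, ⟨h1, h2⟩, h3⟩ := ((e1.and e2).and (eventually_ge_atTop 2)).exists
  have hr : (2 : ℝ) ≤ r := by exact_mod_cast h3
  have hr0 : (0 : ℝ) < r := by linarith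
  have hgR : (1 : ℝ) ≤ g := by exact_mod_cast hg
  have hr4 : 1 ≤ r ^ 4 := Nat.one_le_pow _ _ (by omega)
  have hr3 : 1 ≤ r ^ 3 := Nat.one_le_pow _ _ (by omega)
  refine ⟨16 * (g * r ^ 3 * r), g * r ^ 3 * r, ((r : ℝ) ^ 3)⁻¹, ?_, rfl, by positivity, ?_, ?_, ?_⟩
  · have : 0 < g * r ^ 3 * r := by positivity
    omega
  · exact inv_le_one_of_one_le₀ (one_le_pow₀ (by linarith))
  · refine le_trans ?_ h2
    push_cast
    have e : 16 * (g : ℝ) * ((r : ℝ))⁻¹ ≥ 16 * (g : ℝ) * ((r : ℝ) ^ 2)⁻¹ := by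
      have : ((r : ℝ) ^ 2)⁻¹ ≤ ((r : ℝ))⁻¹ := by
        apply inv_anti₀ hr0
        nlinarith
      have h16 : (0 : ℝ) ≤ 16 * (g : ℝ) := by positivity
      exact mul_le_mul_of_nonneg_left this h16
    refine le_trans (le_of_eq ?_) e
    field_simp
  · have e0 : (1 - (g : ℝ)⁻¹ * ((r : ℝ) ^ 3)⁻¹) = 1 - (((g * r ^ 3 : ℕ) : ℝ))⁻¹ := by
      push_cast
      rw [mul_inv]
    have hn : 1 ≤ g * r ^ 3 := Nat.one_le_iff_ne_zero.2 (by positivity)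
    have hk := Num337.pow_half (g * r ^ 3) hn
    have h0 : (0 : ℝ) ≤ (1 - (((g * r ^ 3 : ℕ) : ℝ))⁻¹) ^ (g * r ^ 3) := by
      apply pow_nonneg
      have : (((g * r ^ 3 : ℕ) : ℝ))⁻¹ ≤ 1 := inv_le_one_of_one_le₀ (by exact_mod_cast hn)
      linarith
    rw [e0, pow_mul]
    refine le_trans ?_ h1
    have h16 : ((16 * (g * r ^ 3 * r) : ℕ) : ℝ) = 16 * (g : ℝ) * (r : ℝ) ^ 4 := by
      push_cast; ring
    rw [h16]
    have : ((1 - (((g * r ^ 3 : ℕ) : ℝ))⁻¹) ^ (g * r ^ 3)) ^ r ≤ (1 / 2 : ℝ) ^ r := by gcongr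
    gcongr

theorem exKu (c1 : ℝ≥0∞) (hc1 : c1 ≠ 0) (ε : ℝ≥0∞) (hε : ε ≠ 0) : ∃ (K J : ℕ) (u : ℝ≥0∞),
    1 ≤ K ∧ K = 16 * J ∧ u ≠ 0 ∧ u ≤ 1 ∧ (K : ℝ≥0∞) * (u * u) ≤ ε ∧
    (K : ℝ≥0∞) * (1 - c1 * u) ^ J ≤ ε := by
  obtain ⟨δ, hδ0, hδ⟩ : ∃ δ : ℝ, 0 < δ ∧ ENNReal.ofReal δ ≤ ε := by
    rcases eq_or_ne ε ⊤ with rfl | h
    · exact ⟨1, one_pos, le_top⟩
    · exact ⟨ε.toReal, ENNReal.toReal_pos hε h, by rw [ENNReal.ofReal_toReal h]⟩
  obtain ⟨g, hg⟩ := ENNReal.exists_inv_nat_lt hc1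
  have hg0 : g ≠ 0 := by
    rintro rfl
    simp at hg
  obtain ⟨K, J, u, hK, hJ, hu0, hu1, h1, h2⟩ := exKu_real g (Nat.one_le_iff_ne_zero.2 hg0) δ hδ0
  have hgR : (0 : ℝ) < (g : ℝ) := by exact_mod_cast Nat.pos_of_ne_zero hg0
  refine ⟨K, J, ENNReal.ofReal u, hK, hJ, by simpa using hu0, ?_, ?_, ?_⟩
  · exact ENNReal.ofReal_le_one.2 hu1
  · refine le_trans ?_ hδ
    rw [← ENNReal.ofReal_mul hu0.le, ← ENNReal.ofReal_natCast,
      ← ENNReal.ofReal_mul (by positivity)]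
    exact ENNReal.ofReal_le_ofReal h1
  · refine le_trans ?_ hδ
    have e1 : (g : ℝ≥0∞)⁻¹ * ENNReal.ofReal u = ENNReal.ofReal ((g : ℝ)⁻¹ * u) := by
      rw [ENNReal.ofReal_mul (by positivity), ENNReal.ofReal_inv_of_pos hgR,
        ENNReal.ofReal_natCast]
    have hle : (g : ℝ)⁻¹ * u ≤ 1 := by
      have : (g : ℝ)⁻¹ ≤ 1 := inv_le_one_of_one_le₀ (by exact_mod_cast Nat.one_le_iff_ne_zero.2 hg0)
      calc (g : ℝ)⁻¹ * u ≤ 1 * 1 := by gcongr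
        _ = 1 := one_mul _
    have e2 : (1 : ℝ≥0∞) - c1 * ENNReal.ofReal u ≤ ENNReal.ofReal (1 - (g : ℝ)⁻¹ * u) := by
      rw [ENNReal.ofReal_sub _ (by positivity), ENNReal.ofReal_one, ← e1]
      exact tsub_le_tsub_left (mul_le_mul_left hg.le _) _
    calc (K : ℝ≥0∞) * (1 - c1 * ENNReal.ofReal u) ^ J
        ≤ (K : ℝ≥0∞) * (ENNReal.ofReal (1 - (g : ℝ)⁻¹ * u)) ^ J := by gcongr
      _ = ENNReal.ofReal ((K : ℝ) * (1 - (g : ℝ)⁻¹ * u) ^ J) := by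
          rw [← ENNReal.ofReal_pow (by linarith), ← ENNReal.ofReal_natCast,
            ← ENNReal.ofReal_mul (by positivity)]
      _ ≤ _ := ENNReal.ofReal_le_ofReal h2

variable {B W : Type*} (Λ : B → ℝ≥0∞) (ht : B → ℕ) (dl : B → W → W) (cd : W → B → Set ℕ)

lemma fp_of_att (L : List B) : ∀ a, Comp818.att ht a L → fp ht a L := by
  induction L with
  | nil =>
    intro a h
    rw [fp_nil]
    have := h.1
    simpa [HT_nil] using this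
  | cons b L ih =>
    intro a h
    obtain ⟨h1, h2⟩ := h
    rw [HT_cons] at h1
    rw [fp_cons]
    refine ⟨?_, ih _ ⟨by omega, fun i hi => ?_⟩⟩
    · have := h2 0 (by simp)
      omega
    · have := h2 (i + 1) (by simpa using hi)
      rw [List.take_succ_cons, HT_cons] at this
      omega

lemma WLp_le_one (hU1 : ∀ n, U Λ ht n ≤ 1) (H s : ℕ) (w : W) :
    Comp818.WLp Λ ht dl cd H s w ≤ 1 := by
  classical
  refine le_trans (ENNReal.tsum_le_tsum fun L => ?_) (hU1 H)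
  by_cases h : HT ht L = H
  · rw [if_pos h]; split_ifs <;> simp
  · rw [if_neg h, if_neg (fun h' => h h'.1)]

open Classical in
theorem hWin_of_hW (h1 : ∀ b, 1 ≤ ht b) (hΛ : ∑' b, Λ b = 1) (hU1 : ∀ n, U Λ ht n ≤ 1)
    (hinj : ∀ b, Function.Injective (dl b))
    (htl : Tendsto (fun H : ℕ => ∑' k, tail Λ ht (H + k)) atTop (𝓝 0))
    (c1 : ℝ≥0∞) (hc1 : c1 ≠ 0)
    (hW : ∀ u η : ℝ≥0∞, u ≠ 0 → u ≤ 1 → η ≠ 0 → ∃ s H0 : ℕ, ∀ H, H0 ≤ H → ∃ S1 S2 : Set W,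
      Good Λ ht dl (c1 * u) η H S1 ∧ Good Λ ht dl (c1 * u) η H S2 ∧
      ∀ w, w ∉ S1 → w ∉ S2 → Comp818.WLp Λ ht dl cd H s w ≤ u * u + η) :
    ∀ ε : ℝ≥0∞, ε ≠ 0 → ∃ K : ℕ, 1 ≤ K ∧ ∀ i0 : ℕ, ∃ s H0 : ℕ, ∀ H, H0 ≤ H →
      ∀ a, K * H ≤ 8 * a → ∀ w, ∑' L1 : List B, (if Comp818.att ht a L1 ∧ HT ht L1 ≤ a + i0 then
        LW Λ L1 * Comp818.WLp Λ ht dl cd H s (act dl L1 w) else 0) ≤ ε / K := by
  intro ε hε
  have h8 : (8 : ℝ≥0∞) ≠ ⊤ := by norm_num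
  obtain ⟨K, J, u, hK1, hKJ, hu0, hu1, hk1, hk2⟩ := exKu c1 hc1 (ε / 8) (ENNReal.div_pos hε h8).ne'
  refine ⟨K, hK1, fun i0 => ?_⟩
  have hKt : (K : ℝ≥0∞) ≠ ⊤ := ENNReal.natCast_ne_top K
  have hK0 : (K : ℝ≥0∞) ≠ 0 := by exact_mod_cast (Nat.one_le_iff_ne_zero.1 hK1)
  set θ := (ε / 8) / K with hθ
  have hθ0 : θ ≠ 0 := (ENNReal.div_pos (ENNReal.div_pos hε h8).ne' hKt).ne'
  have hθ8 : 8 * θ ≤ ε / K := by
    rw [hθ, ← mul_div_assoc]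
    exact ENNReal.div_le_div_right ENNReal.mul_div_le _
  have hu2 : u * u ≤ θ := by
    rw [hθ, ENNReal.le_div_iff_mul_le (Or.inl hK0) (Or.inl hKt), mul_comm]
    exact hk1
  have hq2 : (1 - c1 * u) ^ J ≤ θ := by
    rw [hθ, ENNReal.le_div_iff_mul_le (Or.inl hK0) (Or.inl hKt), mul_comm]
    exact hk2
  set η := θ / ((4 * J + 1 : ℕ) : ℝ≥0∞) with hη
  have hη0 : η ≠ 0 := (ENNReal.div_pos hθ0 (ENNReal.natCast_ne_top _)).ne'
  have hηJ : ((4 * J + 1 : ℕ) : ℝ≥0∞) * η ≤ θ := ENNReal.mul_div_le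
  obtain ⟨s, H0, hH⟩ := hW u η hu0 hu1 hη0
  obtain ⟨H1, hH1⟩ := eventually_atTop.1 (htl.eventually (ge_mem_nhds (pos_iff_ne_zero.2 hη0)))
  refine ⟨s, max H0 H1, fun H hHH a ha w => ?_⟩
  obtain ⟨S1, S2, hS1, hS2, hS⟩ := hH H (le_trans (le_max_left _ _) hHH)
  have he : ∑' k, tail Λ ht (H + k) ≤ η := hH1 H (le_trans (le_max_right _ _) hHH)
  have hJ : J * (2 * H) ≤ a := by
    rw [hKJ] at ha
    nlinarith
  have g1 := hit_le Λ ht dl h1 hΛ hU1 hinj _ _ H S1 hS1 J a hJ w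
  have g2 := hit_le Λ ht dl h1 hΛ hU1 hinj _ _ H S2 hS2 J a hJ w
  have key : ∀ L1 : List B, (if Comp818.att ht a L1 ∧ HT ht L1 ≤ a + i0 then
        LW Λ L1 * Comp818.WLp Λ ht dl cd H s (act dl L1 w) else 0)
      ≤ (if fp ht a L1 then LW Λ L1 * S1.indicator (fun _ => (1 : ℝ≥0∞)) (act dl L1 w) else 0)
        + (if fp ht a L1 then LW Λ L1 * S2.indicator (fun _ => (1 : ℝ≥0∞)) (act dl L1 w) else 0)
        + (if fp ht a L1 then LW Λ L1 else 0) * (u * u + η) := by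
    intro L1
    by_cases hL : Comp818.att ht a L1 ∧ HT ht L1 ≤ a + i0
    · have hf := fp_of_att ht L1 a hL.1
      rw [if_pos hL, if_pos hf, if_pos hf, if_pos hf, ← mul_add, ← mul_add]
      refine mul_le_mul_right ?_ _
      by_cases m1 : act dl L1 w ∈ S1
      · rw [Set.indicator_of_mem m1]
        exact le_add_right (le_add_right (WLp_le_one Λ ht dl cd hU1 H s _))
      · by_cases m2 : act dl L1 w ∈ S2
        · rw [Set.indicator_of_mem m2]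
          exact le_add_right (le_add_left (WLp_le_one Λ ht dl cd hU1 H s _))
        · exact le_add_left (hS _ m1 m2)
    · rw [if_neg hL]; exact bot_le
  calc _ ≤ ∑' L1 : List B,
        ((if fp ht a L1 then LW Λ L1 * S1.indicator (fun _ => (1 : ℝ≥0∞)) (act dl L1 w) else 0)
        + (if fp ht a L1 then LW Λ L1 * S2.indicator (fun _ => (1 : ℝ≥0∞)) (act dl L1 w) else 0)
        + (if fp ht a L1 then LW Λ L1 else 0) * (u * u + η)) := ENNReal.tsum_le_tsum key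
    _ = hitS Λ ht dl a S1 w + hitS Λ ht dl a S2 w
        + (∑' L1 : List B, (if fp ht a L1 then LW Λ L1 else 0)) * (u * u + η) := by
        rw [ENNReal.tsum_add, ENNReal.tsum_add, ENNReal.tsum_mul_right]; rfl
    _ ≤ (θ + J * (η + η)) + (θ + J * (η + η)) + 1 * (θ + η) := by
        gcongr
        · exact g1.trans (by gcongr)
        · exact g2.trans (by gcongr)
        · exact sum_FP Λ ht h1 hΛ.le a
    _ = 3 * θ + ((4 * J + 1 : ℕ) : ℝ≥0∞) * η := by push_cast; ring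
    _ ≤ 3 * θ + θ := by gcongr
    _ ≤ 8 * θ := by
        have : 3 * θ + θ = 4 * θ := by ring
        rw [this]
        gcongr
        norm_num
    _ ≤ _ := hθ8

end Crest.Agent.R154.JB11
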