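import Crest.Agent.R154.Comp_818
import Crest.Agent.R154.NBTop_28
import Crest.Agent.R154.B5Br_657
import Crest.Agent.R154.Gap_583
import Crest.Agent.R154.WMass_286

/-! Row 154 (S0219), helper391 (captain): frame B (joint cuts) closed up to `HWin` and `HSlb`
(818's `hWin` / `hSlab` at 657's instance): they give 28's `KappaW'`. -/

set_option autoImplicit false

namespace Crest.Agent.R154.KB391

open MeasureTheory ProbabilityTheory Crest.ProbabilityR.RandomEnvironment Crest.Agent.R154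
open Crest.Agent.R154.B5A Crest.Agent.R154.B5W
open Crest.Agent.R154.NB28 (KW KappaW KappaW' IsUp IsDn)
open scoped ENNReal

open Classical in
theorem hGap {B : Type*} (Λ : B → ℝ≥0∞) (ht : B → ℕ) (h1 : ∀ b, 1 ≤ ht b) (c : ℝ≥0∞) (hc : c ≠ 0)
    (hU : ∀ n, c ≤ U Λ ht n) (hU1 : ∀ n, U Λ ht n ≤ 1) :
    ∀ ε : ℝ≥0∞, ε ≠ 0 → ∃ i0 : ℕ, ∀ a n, a + i0 ≤ n → Comp818.Gap Λ ht n a i0 ≤ ε := by
  intro ε hε
  have h := Gap583.gap_tendsto Λ ht h1 c hc 0 (fun n _ => hU n) hU1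
  have h' := (ENNReal.tendsto_nhds_zero.1 h) ε (pos_iff_ne_zero.2 hε)
  obtain ⟨i0, hi⟩ := h'.exists
  refine ⟨i0, fun a n hn => le_trans ?_ hi⟩
  refine le_trans ?_ (Gap583.gap_le Λ ht hU1 a i0 n hn)
  rw [Comp818.Gap]
  refine ENNReal.tsum_le_tsum fun L => ?_
  by_cases hL : HT ht L = n ∧ ∀ i, ¬ (a ≤ HT ht (L.take i) ∧ HT ht (L.take i) ≤ a + i0)
  · rw [if_pos hL, if_pos]
    refine ⟨hL.1, fun L1 L2 h => ?_⟩
    have h3 := hL.2 L1.length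
    have h4 : L.take L1.length = L1 := by rw [h]; simp
    rwa [h4] at h3
  · rw [if_neg hL]; exact zero_le

variable {d : ℕ} (ν : Measure (Row d)) [IsProbabilityMeasure ν] (u : Step d)

/-- 818's `hSlab` at 657's instance -/
def HSlb : Prop :=
  ∀ (s : ℕ) (ε : ℝ≥0∞), ε ≠ 0 → ∃ D0 : ℕ, ∀ δ, D0 ≤ δ → ∀ w : Lat u,
    Comp818.Slb (Lam ν u) (B5W.ht u) (B5W.dl u) (B5W.cd u) δ s w ≤ ε

open Classical in
/-- 818's `hWin` at 657's instance -/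
def HWin : Prop :=
  ∀ ε : ℝ≥0∞, ε ≠ 0 → ∃ K : ℕ, 1 ≤ K ∧ ∀ i0 : ℕ, ∃ s H0 : ℕ, ∀ H, H0 ≤ H →
    ∀ a, K * H ≤ 8 * a → ∀ w : Lat u,
      ∑' L1 : List (PB u), (if Comp818.att (B5W.ht u) a L1 ∧ HT (B5W.ht u) L1 ≤ a + i0 then
        LW (Lam ν u) L1 * Comp818.WLp (Lam ν u) (B5W.ht u) (B5W.dl u) (B5W.cd u) H s
          (act (B5W.dl u) L1 w) else 0) ≤ ε / K

/-- masses of the joint instance -/
theorem masses (hν : ∀ᵐ p ∂ν, ∀ e : Step d, 0 < p.1 e)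
    (hA : annealed (iidEnvironmentLaw ν) 0 (escapeEvent (B2d.dirVec u)) ≠ 0)
    (hB : annealed (iidEnvironmentLaw ν) 0 (escapeEvent (-B2d.dirVec u)) ≠ 0) :
    ∃ c : ℝ≥0∞, c ≠ 0 ∧ (∀ n, c ≤ U (Lam ν u) (B5W.ht u) n) ∧
      (∀ n, U (Lam ν u) (B5W.ht u) n ≤ 1) := by
  obtain ⟨c, hc, -, hup, hdn⟩ := WM286.mass_pos ν hν u hA hB
  refine ⟨c * c, mul_ne_zero hc hc, fun n => ?_, fun n => ?_⟩
  · rw [U_eq28]; exact mul_le_mul' (hup n) (hdn n)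
  · rw [U_eq28]
    exact mul_le_one' (sum_if_le_one ν fun l l' h h' hp => NB28.isUp_prefix h h' hp)
      (sum_if_le_one ν fun l l' h h' hp => NB28.isDn_prefix h h' hp)

theorem kappaW_of (hν : ∀ᵐ p ∂ν, ∀ e : Step d, 0 < p.1 e)
    (hA : annealed (iidEnvironmentLaw ν) 0 (escapeEvent (B2d.dirVec u)) ≠ 0)
    (hB : annealed (iidEnvironmentLaw ν) 0 (escapeEvent (-B2d.dirVec u)) ≠ 0)
    (hS : HSlb ν u) (hW : HWin ν u) : KappaW ν u := by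
  obtain ⟨c, hc, hU, hU1⟩ := masses ν u hν hA hB
  have hK := Comp818.comp (Lam ν u) (B5W.ht u) (B5W.dl u) (B5W.cd u) one_le_hb
    (fun w b k hk => B5W.hcd u w b k hk) c hc hU hU1
    (hGap (Lam ν u) (B5W.ht u) one_le_hb c hc hU hU1) hS hW
  intro ε hε
  obtain ⟨M, hM⟩ := hK ε hε
  refine ⟨M, fun m hm n hn w hw => ?_⟩
  rw [← Kap1_eq ν u n m ⟨w, hw⟩]
  exact hM m hm n hn ⟨w, hw⟩

/-- the last step: everything of `KappaAll` from the two inputs -/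
theorem kappaAll_of
    (hS : ∀ (d : ℕ) (_ : 3 ≤ d) (ν : Measure (Row d)) [IsProbabilityMeasure ν],
      (∀ᵐ p ∂ν, ∀ e : Step d, 0 < p.1 e) → ∀ u : Step d,
      annealed (iidEnvironmentLaw ν) 0 (escapeEvent (B2d.dirVec u)) ≠ 0 →
      annealed (iidEnvironmentLaw ν) 0 (escapeEvent (-B2d.dirVec u)) ≠ 0 → HSlb ν u)
    (hW : ∀ (d : ℕ) (_ : 3 ≤ d) (ν : Measure (Row d)) [IsProbabilityMeasure ν],
      (∀ᵐ p ∂ν, ∀ e : Step d, 0 < p.1 e) → ∀ u : Step d,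
      annealed (iidEnvironmentLaw ν) 0 (escapeEvent (B2d.dirVec u)) ≠ 0 →
      annealed (iidEnvironmentLaw ν) 0 (escapeEvent (-B2d.dirVec u)) ≠ 0 → HWin ν u) :
    NB28.KappaAll :=
  fun d hd ν _ hν u hA hB => kappaW_of ν u hν hA hB (hS d hd ν hν u hA hB) (hW d hd ν hν u hA hB)

theorem nb_of
    (hS : ∀ (d : ℕ) (_ : 3 ≤ d) (ν : Measure (Row d)) [IsProbabilityMeasure ν],
      (∀ᵐ p ∂ν, ∀ e : Step d, 0 < p.1 e) → ∀ u : Step d,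
      annealed (iidEnvironmentLaw ν) 0 (escapeEvent (B2d.dirVec u)) ≠ 0 →
      annealed (iidEnvironmentLaw ν) 0 (escapeEvent (-B2d.dirVec u)) ≠ 0 → HSlb ν u)
    (hW : ∀ (d : ℕ) (_ : 3 ≤ d) (ν : Measure (Row d)) [IsProbabilityMeasure ν],
      (∀ᵐ p ∂ν, ∀ e : Step d, 0 < p.1 e) → ∀ u : Step d,
      annealed (iidEnvironmentLaw ν) 0 (escapeEvent (B2d.dirVec u)) ≠ 0 →
      annealed (iidEnvironmentLaw ν) 0 (escapeEvent (-B2d.dirVec u)) ≠ 0 → HWin ν u) :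
    Spine.NBProp :=
  NB28.nb_of_kappaW (kappaAll_of hS hW)

end Crest.Agent.R154.KB391
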