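import Crest.Agent.R154.E23_657
import Crest.Agent.R154.KB_391
import Crest.Agent.R154.HSl_689
import Crest.Agent.R154.JB_11
import Crest.Agent.R154.Dens_903

/-! Row 154, ROAD 801, joint cuts (helper11): `hW` at 657's instance and `Spine.NBProp`. -/

set_option autoImplicit false

namespace Crest.Agent.R154.HW11

open MeasureTheory ProbabilityTheory Crest.ProbabilityR.RandomEnvironment Crest.Agent.R154
open Crest.Agent.R154.B5A Crest.Agent.R154.B5W Crest.Agent.R154.JAsm139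
open Crest.Agent.R154.Flux566 (endp sitesL)
open Crest.Agent.R154.NB28 (IsUp IsDn Cm)
open scoped ENNReal

open Classical in
/-- quantile of a discrete law of mass in `[c, 1]` -/
theorem quant {α : Type*} (p : α → ℝ≥0∞) (c v : ℝ≥0∞) (hc : c ≠ 0) (h1 : c ≤ ∑' a, p a)
    (h2 : ∑' a, p a ≤ 1) (hv0 : v ≠ 0) (hv1 : v ≤ 1) :
    ∃ (th : ℝ≥0∞) (E : Finset α), (∀ a, a ∈ E ↔ th ≤ p a) ∧ th * E.card ≤ 1 ∧
      ∑' a, (if a ∈ E then 0 else p a) ≤ v ∧ c * v ≤ ∑' a, (if p a ≤ th then p a else 0) := by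
  set m := ∑' a, p a with hm
  have hm0 : m ≠ 0 := fun h => hc (le_antisymm (h ▸ h1) bot_le)
  have hmt : m ≠ ⊤ := ne_top_of_le_ne_top ENNReal.one_ne_top h2
  have hp' : ∑' a, p a / m = 1 := by
    simp only [div_eq_mul_inv]
    rw [ENNReal.tsum_mul_right, ← hm, ENNReal.mul_inv_cancel hm0 hmt]
  obtain ⟨th', hth0, hth1, hq1, hq2⟩ := Dens903.quantile (fun a => p a / m) hp' hv0 hv1
  have e : ∀ a, p a = p a / m * m := fun a => (ENNReal.div_mul_cancel hm0 hmt).symm
  set th := th' * m with hth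
  have ht0 : th ≠ 0 := mul_ne_zero hth0 hm0
  obtain ⟨hf, hcard⟩ := ENNReal.finset_card_const_le_le_of_tsum_le ENNReal.one_ne_top h2 ht0
  refine ⟨th, hf.toFinset, fun a => by simp, ?_, ?_, ?_⟩
  · calc th * (hf.toFinset.card : ℝ≥0∞) ≤ th * (1 / th) := mul_le_mul_right hcard _
      _ ≤ 1 := ENNReal.mul_div_le
  · calc ∑' a, (if a ∈ hf.toFinset then 0 else p a)
        ≤ ∑' a, (if p a / m < th' then p a / m else 0) * m := by
          refine ENNReal.tsum_le_tsum fun a => ?_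
          by_cases h : a ∈ hf.toFinset
          · rw [if_pos h]; exact bot_le
          · rw [if_neg h]
            have h' : p a < th := by simpa using h
            rw [if_pos ((ENNReal.div_lt_iff (Or.inl hm0) (Or.inl hmt)).2 h')]
            exact (e a).le
      _ = (∑' a, (if p a / m < th' then p a / m else 0)) * m := ENNReal.tsum_mul_right
      _ ≤ v * 1 := mul_le_mul' hq1 h2
      _ = v := mul_one _
  · calc c * v ≤ m * ∑' a, (if p a / m ≤ th' then p a / m else 0) := mul_le_mul' h1 hq2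
      _ = ∑' a, m * (if p a / m ≤ th' then p a / m else 0) := ENNReal.tsum_mul_left.symm
      _ ≤ _ := by
          refine ENNReal.tsum_le_tsum fun a => ?_
          by_cases h : p a / m ≤ th'
          · rw [if_pos h, if_pos ((ENNReal.div_le_iff hm0 hmt).1 h), mul_comm]
            exact (e a).ge
          · rw [if_neg h, mul_zero]; exact bot_le

open Classical in
lemma push {ι κ : Type*} (P : ι → Prop) (f : ι → κ) (w : ι → ℝ≥0∞) (g : κ → ℝ≥0∞) :
    ∑' x, g x * (∑' l, if P l ∧ f l = x then w l else 0) = ∑' l, if P l then w l * g (f l) else 0 := by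
  simp only [← ENNReal.tsum_mul_left]
  rw [ENNReal.tsum_comm]
  refine tsum_congr fun l => ?_
  rw [tsum_eq_single (f l)]
  · by_cases h : P l
    · rw [if_pos ⟨h, rfl⟩, if_pos h, mul_comm]
    · rw [if_neg (fun h' => h h'.1), if_neg h, mul_zero]
  · intro x hx
    rw [if_neg (fun h' => hx h'.2.symm), mul_zero]

open Classical in
lemma factor {ι κ : Type*} (P : ι → Prop) (Q : κ → Prop) (A f : ι → ℝ≥0∞) (C g : κ → ℝ≥0∞) :
    ∑' i, ∑' j, (if P i ∧ Q j then A i * C j * (f i * g j) else 0)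
      = (∑' i, if P i then A i * f i else 0) * ∑' j, if Q j then C j * g j else 0 := by
  rw [← ENNReal.tsum_mul_right]
  refine tsum_congr fun i => ?_
  rw [← ENNReal.tsum_mul_left]
  refine tsum_congr fun j => ?_
  by_cases h1 : P i <;> by_cases h2 : Q j <;> simp [h1, h2]
  ring

variable {d : ℕ} (ν : Measure (Row d)) [IsProbabilityMeasure ν] (u : Step d)

open Classical in
/-- counting form of a window lemma -/
theorem count (Φ : Site d → ℝ≥0∞) (N lam us th η : ℝ≥0∞) (hl0 : lam ≠ 0) (hlt : lam ≠ ⊤)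
    (hΦ : ∀ (μ : Site d → ℝ≥0∞) (M : ℝ≥0∞), ∑' x, μ x ≤ 1 → (∀ x, μ x ≤ M) →
      ∑' x, (if Flux132.lev u x = 0 then μ x * Φ x else 0) ≤ 8 * (lam + M * N * us / lam + us))
    (hth : th * N ≤ 1) (h1 : us ≤ lam) (h2 : us ≤ η * (lam * lam)) :
    th * card {w : Lat u | 24 * lam < Φ w.1} ≤ η := by
  set S : Set (Lat u) := {w : Lat u | 24 * lam < Φ w.1} with hS
  rw [card, ENNReal.tsum_eq_iSup_sum, ENNReal.mul_iSup]
  refine iSup_le fun F => ?_
  set F' := F.filter (· ∈ S) with hF'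
  have e1 : ∑ w ∈ F, S.indicator (fun _ => (1 : ℝ≥0∞)) w = (F'.card : ℝ≥0∞) := by
    simp only [Set.indicator_apply]
    rw [← Finset.sum_filter, Finset.sum_const, nsmul_eq_mul, mul_one]
  rw [e1]
  by_cases hF0 : F'.card = 0
  · rw [hF0]; simp
  obtain ⟨G, hG⟩ : ∃ G : Finset (Site d), G = F'.image (fun w : Lat u => w.1) := ⟨_, rfl⟩
  have hGc : G.card = F'.card := by
    rw [hG]
    exact Finset.card_image_of_injective _ (fun a b h => Subtype.ext h)
  set n : ℝ≥0∞ := (F'.card : ℝ≥0∞) with hn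
  have hn0 : n ≠ 0 := by rw [hn]; exact_mod_cast hF0
  have hnt : n ≠ ⊤ := ENNReal.natCast_ne_top _
  have hGS : ∀ x ∈ G, Flux132.lev u x = 0 ∧ 24 * lam < Φ x := by
    intro x hx
    rw [hG] at hx
    obtain ⟨w, hw, rfl⟩ := Finset.mem_image.1 hx
    have hw' := (Finset.mem_filter.1 hw).2
    exact ⟨w.2, hw'⟩
  have hμ1 : ∑' x, (if x ∈ G then n⁻¹ else 0) = 1 := by
    rw [tsum_eq_sum (s := G) (fun x hx => by rw [if_neg hx])]
    rw [Finset.sum_congr rfl (fun x hx => by rw [if_pos hx])]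
    rw [Finset.sum_const, nsmul_eq_mul, hGc]
    exact ENNReal.mul_inv_cancel hn0 hnt
  have key := hΦ (fun x => if x ∈ G then n⁻¹ else 0) n⁻¹ hμ1.le
    (fun x => by split_ifs <;> simp)
  have low : 24 * lam ≤ ∑' x, (if Flux132.lev u x = 0 then (if x ∈ G then n⁻¹ else 0) * Φ x else 0) := by
    calc 24 * lam = (∑' x, (if x ∈ G then n⁻¹ else 0)) * (24 * lam) := by rw [hμ1, one_mul]
      _ = ∑' x, (if x ∈ G then n⁻¹ else 0) * (24 * lam) := ENNReal.tsum_mul_right.symm
      _ ≤ _ := by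
          refine ENNReal.tsum_le_tsum fun x => ?_
          by_cases hx : x ∈ G
          · rw [if_pos hx, if_pos (hGS x hx).1]
            exact mul_le_mul_right (hGS x hx).2.le _
          · rw [if_neg hx, zero_mul]; exact bot_le
  set X := n⁻¹ * N * us / lam with hX
  have h8 : 8 * lam ≤ 8 * X := by
    have h3 : 16 * lam + 8 * lam ≤ 16 * lam + 8 * X := by
      calc 16 * lam + 8 * lam = 24 * lam := by ring
        _ ≤ 8 * (lam + X + us) := low.trans key
        _ ≤ 8 * (lam + X + lam) := by gcongr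
        _ = 16 * lam + 8 * X := by ring
    exact (ENNReal.add_le_add_iff_left (ENNReal.mul_ne_top (by norm_num) hlt)).1 h3
  have h9 : lam ≤ X := (ENNReal.mul_le_mul_iff_right (by norm_num) (by norm_num)).1 h8
  have h10 : lam * lam ≤ n⁻¹ * N * us := by
    calc lam * lam ≤ X * lam := mul_le_mul_left h9 _
      _ ≤ n⁻¹ * N * us := by rw [hX]; exact (ENNReal.div_mul_cancel hl0 hlt).le
  have h11 : n * (lam * lam) ≤ N * us := by
    calc n * (lam * lam) ≤ n * (n⁻¹ * N * us) := mul_le_mul_right h10 _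
      _ = (n * n⁻¹) * (N * us) := by ring
      _ = N * us := by rw [ENNReal.mul_inv_cancel hn0 hnt, one_mul]
  have h12 : (th * n) * (lam * lam) ≤ η * (lam * lam) := by
    calc (th * n) * (lam * lam) = th * (n * (lam * lam)) := by ring
      _ ≤ th * (N * us) := mul_le_mul_right h11 _
      _ = (th * N) * us := by ring
      _ ≤ 1 * us := mul_le_mul_left hth _
      _ ≤ _ := by rw [one_mul]; exact h2
  exact (ENNReal.mul_le_mul_iff_left (mul_ne_zero hl0 hl0) (ENNReal.mul_ne_top hlt hlt)).1 h12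

lemma act_cat (L : List (PB u)) (w : Lat u) :
    (act (B5W.dl u) L w).1 = w.1 + endp 0 (cat L).1 + endp 0 (cat L).2 := by
  rw [HSl689.act_val]
  have : ∀ L : List (PB u), (L.map (HSl689.ds u)).sum = endp 0 (cat L).1 + endp 0 (cat L).2 := by
    intro L
    induction L with
    | nil => simp [cat, endp]
    | cons b L ih =>
      rw [List.map_cons, List.sum_cons, ih]
      simp only [cat, pm, HSl689.ds]
      rw [Flux566.endp_append, Flux566.endp_append, Flux566.endp_eq_add b.1.1 (endp 0 (cat L).1),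
        Flux566.endp_eq_add (cat L).2 (endp 0 b.1.2)]
      abel
  rw [this, add_assoc]

open Classical in
/-- laws of the displacement of the crossings of height `H` -/
noncomputable def aX (H : ℕ) (x : Site d) : ℝ≥0∞ :=
  ∑' π : List (Step d), if IsUp u H π ∧ endp 0 π = x then NB28.aw ν π else 0

open Classical in
noncomputable def aY (H : ℕ) (x : Site d) : ℝ≥0∞ :=
  ∑' γ : List (Step d), if IsDn u H γ ∧ endp 0 γ = x then NB28.aw ν γ else 0

open Classical in
noncomputable def mX (H : ℕ) : ℝ≥0∞ := ∑' π : List (Step d), if IsUp u H π then NB28.aw ν π else 0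

open Classical in
noncomputable def mY (H : ℕ) : ℝ≥0∞ := ∑' π : List (Step d), if IsDn u H π then NB28.aw ν π else 0

open Classical in
lemma sum_aX (H : ℕ) (g : Site d → ℝ≥0∞) : ∑' x, g x * aX ν u H x
    = ∑' π : List (Step d), if IsUp u H π then NB28.aw ν π * g (endp 0 π) else 0 := by
  have h := push (fun π => IsUp u H π) (fun π => endp 0 π) (fun π => NB28.aw ν π) g
  refine Eq.trans ?_ h
  refine tsum_congr fun x => ?_
  unfold aX
  congr 1
  refine tsum_congr fun l => ?_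
  congr

open Classical in
lemma sum_aY (H : ℕ) (g : Site d → ℝ≥0∞) : ∑' x, g x * aY ν u H x
    = ∑' π : List (Step d), if IsDn u H π then NB28.aw ν π * g (endp 0 π) else 0 := by
  have h := push (fun π => IsDn u H π) (fun π => endp 0 π) (fun π => NB28.aw ν π) g
  refine Eq.trans ?_ h
  refine tsum_congr fun x => ?_
  unfold aY
  congr 1
  refine tsum_congr fun l => ?_
  congr

lemma tot_aX (H : ℕ) : ∑' x, aX ν u H x = mX ν u H := by
  have := sum_aX ν u H (fun _ => 1)
  simpa [mX] using this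

lemma tot_aY (H : ℕ) : ∑' x, aY ν u H x = mY ν u H := by
  have := sum_aY ν u H (fun _ => 1)
  simpa [mY] using this

open Classical in
/-- sums over lists of height `H` of a product function of the words -/
lemma sum_prod (H : ℕ) (f g : Site d → ℝ≥0∞) :
    ∑' L : List (PB u), (if HT (B5W.ht u) L = H then
      LW (Lam ν u) L * (f (endp 0 (cat L).1) * g (endp 0 (cat L).2)) else 0)
      = (∑' x, f x * aX ν u H x) * ∑' x, g x * aY ν u H x := by
  rw [tsum_L ν u H (fun x => f (endp 0 x.1) * g (endp 0 x.2)), sum_aX, sum_aY]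
  exact factor _ _ _ (fun π => f (endp 0 π)) _ (fun γ => g (endp 0 γ))

open Classical in
lemma dens {ι κ : Type*} (P : ι → Prop) (Q : κ → Prop) (A : ι → ℝ≥0∞) (C : κ → ℝ≥0∞)
    (R : ι → κ → Prop) (th : ℝ≥0∞) (hR : ∀ j, ∑' i, (if P i ∧ R i j then A i else 0) ≤ th)
    (hC : ∑' j, (if Q j then C j else 0) ≤ 1) :
    ∑' j, ∑' i, (if P i ∧ Q j ∧ R i j then A i * C j else 0) ≤ th := by
  calc _ ≤ ∑' j, (if Q j then C j else 0) * th := by
        refine ENNReal.tsum_le_tsum fun j => ?_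
        by_cases hj : Q j
        · rw [if_pos hj]
          refine le_trans (le_of_eq ?_) (mul_le_mul_right (hR j) _)
          rw [← ENNReal.tsum_mul_left]
          refine tsum_congr fun i => ?_
          by_cases h : P i ∧ R i j
          · rw [if_pos ⟨h.1, hj, h.2⟩, if_pos h, mul_comm]
          · rw [if_neg (fun h' => h ⟨h'.1, h'.2.2⟩), if_neg h, mul_zero]
        · rw [if_neg hj, zero_mul]
          refine le_of_eq (ENNReal.tsum_eq_zero.2 fun i => ?_)
          rw [if_neg (fun h' => hj h'.2.1)]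
    _ = (∑' j, (if Q j then C j else 0)) * th := ENNReal.tsum_mul_right
    _ ≤ 1 * th := mul_le_mul_left hC _
    _ = th := one_mul _

open Classical in
/-- the low pieces of `X` smooth the displacement -/
theorem goodX (H : ℕ) (c v th η : ℝ≥0∞) (S : Set (Lat u)) (hc : c ≤ mY ν u H)
    (hY1 : mY ν u H ≤ 1)
    (hlow : c * v ≤ ∑' x, (if aX ν u H x ≤ th then aX ν u H x else 0))
    (hS : th * card S ≤ η) :
    Good (Lam ν u) (B5W.ht u) (B5W.dl u) (c * c * v) η H S := by
  refine ⟨{L | aX ν u H (endp 0 (cat L).1) ≤ th}, th, ?_, ?_, hS⟩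
  · have e := sum_prod ν u H (fun x => if aX ν u H x ≤ th then 1 else 0) (fun _ => 1)
    calc c * c * v = (c * v) * c := by ring
      _ ≤ (∑' x, (if aX ν u H x ≤ th then aX ν u H x else 0)) * mY ν u H := mul_le_mul' hlow hc
      _ = (∑' x, (if aX ν u H x ≤ th then 1 else 0) * aX ν u H x) * ∑' x, 1 * aY ν u H x := by
          rw [← tot_aY]
          congr 1
          · refine tsum_congr fun x => ?_
            split_ifs <;> simp
          · simp
      _ = _ := e.symm
      _ ≤ _ := by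
          refine ENNReal.tsum_le_tsum fun L => ?_
          by_cases h1 : HT (B5W.ht u) L = H
          · by_cases h2 : aX ν u H (endp 0 (cat L).1) ≤ th
            · rw [if_pos h1, if_pos h2, if_pos ⟨h1, h2⟩]; simp
            · rw [if_pos h1, if_neg h2]; simp
          · rw [if_neg h1]; exact bot_le
  · intro w w'
    have e := tsum_L ν u H (fun x => if aX ν u H (endp 0 x.1) ≤ th ∧
      w.1 + endp 0 x.1 + endp 0 x.2 = w'.1 then 1 else 0)
    have e1 : ∑' L : List (PB u), (if HT (B5W.ht u) L = H ∧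
        L ∈ {L | aX ν u H (endp 0 (cat L).1) ≤ th} ∧ act (B5W.dl u) L w = w'
        then LW (Lam ν u) L else 0) ≤ ∑' π : List (Step d), ∑' γ : List (Step d),
        if IsUp u H π ∧ IsDn u H γ then NB28.aw ν π * NB28.aw ν γ *
          (if aX ν u H (endp 0 π) ≤ th ∧ w.1 + endp 0 π + endp 0 γ = w'.1 then 1 else 0) else 0 := by
      rw [← e]
      refine ENNReal.tsum_le_tsum fun L => ?_
      by_cases h : HT (B5W.ht u) L = H ∧
        L ∈ {L | aX ν u H (endp 0 (cat L).1) ≤ th} ∧ act (B5W.dl u) L w = w'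
      · have h3 : w.1 + endp 0 (cat L).1 + endp 0 (cat L).2 = w'.1 := by
          rw [← act_cat, h.2.2]
        have h4 : aX ν u H (endp 0 (cat L).1) ≤ th := h.2.1
        rw [if_pos h, if_pos h.1, if_pos ⟨h4, h3⟩, mul_one]
      · rw [if_neg h]; exact bot_le
    refine le_trans (le_of_eq (tsum_congr fun L => by congr)) (e1.trans ?_)
    rw [ENNReal.tsum_comm]
    refine le_trans (le_of_eq ?_) (dens (fun π => IsUp u H π) (fun γ => IsDn u H γ)
      (fun π => NB28.aw ν π) (fun γ => NB28.aw ν γ)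
      (fun π γ => aX ν u H (endp 0 π) ≤ th ∧ w.1 + endp 0 π + endp 0 γ = w'.1) th ?_ ?_)
    · refine tsum_congr fun γ => tsum_congr fun π => ?_
      by_cases h1 : IsUp u H π ∧ IsDn u H γ
      · by_cases h2 : aX ν u H (endp 0 π) ≤ th ∧ w.1 + endp 0 π + endp 0 γ = w'.1
        · rw [if_pos h1, if_pos h2, if_pos ⟨h1.1, h1.2, h2⟩, mul_one]
        · rw [if_pos h1, if_neg h2, if_neg (fun h' => h2 h'.2.2), mul_zero]
      · rw [if_neg h1, if_neg (fun h' => h1 ⟨h'.1, h'.2.1⟩)]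
    · intro γ
      set z := w'.1 - w.1 - endp 0 γ with hz
      by_cases hth : aX ν u H z ≤ th
      · refine le_trans ?_ hth
        have hdef : aX ν u H z = ∑' π : List (Step d), if IsUp u H π ∧ endp 0 π = z
          then NB28.aw ν π else 0 := rfl
        rw [hdef]
        refine ENNReal.tsum_le_tsum fun π => ?_
        by_cases h : IsUp u H π ∧ aX ν u H (endp 0 π) ≤ th ∧ w.1 + endp 0 π + endp 0 γ = w'.1
        · have hz' : endp 0 π = z := by rw [hz, ← h.2.2]; abel
          refine le_trans ?_ (le_of_eq (if_pos ⟨h.1, hz'⟩).symm)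
          split_ifs
          exact le_rfl
        · refine le_trans (le_of_eq (if_neg ?_)) bot_le
          exact h
      · refine le_trans (le_of_eq (ENNReal.tsum_eq_zero.2 fun π => ?_)) bot_le
        rw [if_neg]
        rintro ⟨h1, h2, h3⟩
        have hz' : endp 0 π = z := by rw [hz, ← h3]; abel
        rw [hz'] at h2
        exact hth h2
    · exact hY1

open Classical in
/-- the low pieces of `Y` smooth the displacement -/
theorem goodY (H : ℕ) (c v th η : ℝ≥0∞) (S : Set (Lat u)) (hc : c ≤ mX ν u H)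
    (hX1 : mX ν u H ≤ 1)
    (hlow : c * v ≤ ∑' x, (if aY ν u H x ≤ th then aY ν u H x else 0))
    (hS : th * card S ≤ η) :
    Good (Lam ν u) (B5W.ht u) (B5W.dl u) (c * c * v) η H S := by
  refine ⟨{L | aY ν u H (endp 0 (cat L).2) ≤ th}, th, ?_, ?_, hS⟩
  · have e := sum_prod ν u H (fun _ => 1) (fun x => if aY ν u H x ≤ th then 1 else 0)
    calc c * c * v = c * (c * v) := by ring
      _ ≤ mX ν u H * (∑' x, (if aY ν u H x ≤ th then aY ν u H x else 0)) := mul_le_mul' hc hlow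
      _ = (∑' x, 1 * aX ν u H x) * (∑' x, (if aY ν u H x ≤ th then 1 else 0) * aY ν u H x) := by
          rw [← tot_aX]
          congr 1
          · simp
          · refine tsum_congr fun x => ?_
            split_ifs <;> simp
      _ = _ := e.symm
      _ ≤ _ := by
          refine ENNReal.tsum_le_tsum fun L => ?_
          by_cases h1 : HT (B5W.ht u) L = H
          · by_cases h2 : aY ν u H (endp 0 (cat L).2) ≤ th
            · rw [if_pos h1, if_pos h2, if_pos ⟨h1, h2⟩]; simp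
            · rw [if_pos h1, if_neg h2]; simp
          · rw [if_neg h1]; exact bot_le
  · intro w w'
    have e := tsum_L ν u H (fun x => if aY ν u H (endp 0 x.2) ≤ th ∧
      w.1 + endp 0 x.1 + endp 0 x.2 = w'.1 then 1 else 0)
    have e1 : ∑' L : List (PB u), (if HT (B5W.ht u) L = H ∧
        L ∈ {L | aY ν u H (endp 0 (cat L).2) ≤ th} ∧ act (B5W.dl u) L w = w'
        then LW (Lam ν u) L else 0) ≤ ∑' π : List (Step d), ∑' γ : List (Step d),
        if IsUp u H π ∧ IsDn u H γ then NB28.aw ν π * NB28.aw ν γ *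
          (if aY ν u H (endp 0 γ) ≤ th ∧ w.1 + endp 0 π + endp 0 γ = w'.1 then 1 else 0) else 0 := by
      rw [← e]
      refine ENNReal.tsum_le_tsum fun L => ?_
      by_cases h : HT (B5W.ht u) L = H ∧
        L ∈ {L | aY ν u H (endp 0 (cat L).2) ≤ th} ∧ act (B5W.dl u) L w = w'
      · have h3 : w.1 + endp 0 (cat L).1 + endp 0 (cat L).2 = w'.1 := by
          rw [← act_cat, h.2.2]
        have h4 : aY ν u H (endp 0 (cat L).2) ≤ th := h.2.1
        rw [if_pos h, if_pos h.1, if_pos ⟨h4, h3⟩, mul_one]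
      · rw [if_neg h]; exact bot_le
    refine le_trans (le_of_eq (tsum_congr fun L => by congr)) (e1.trans ?_)
    refine le_trans (le_of_eq ?_) (dens (fun γ => IsDn u H γ) (fun π => IsUp u H π)
      (fun γ => NB28.aw ν γ) (fun π => NB28.aw ν π)
      (fun γ π => aY ν u H (endp 0 γ) ≤ th ∧ w.1 + endp 0 π + endp 0 γ = w'.1) th ?_ ?_)
    · refine tsum_congr fun π => tsum_congr fun γ => ?_
      by_cases h1 : IsUp u H π ∧ IsDn u H γ
      · by_cases h2 : aY ν u H (endp 0 γ) ≤ th ∧ w.1 + endp 0 π + endp 0 γ = w'.1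
        · rw [if_pos h1, if_pos h2, if_pos ⟨h1.2, h1.1, h2⟩, mul_one, mul_comm]
        · rw [if_pos h1, if_neg h2, if_neg (fun h' => h2 h'.2.2), mul_zero]
      · rw [if_neg h1, if_neg (fun h' => h1 ⟨h'.2.1, h'.1⟩)]
    · intro π
      set z := w'.1 - w.1 - endp 0 π with hz
      by_cases hth : aY ν u H z ≤ th
      · refine le_trans ?_ hth
        have hdef : aY ν u H z = ∑' γ : List (Step d), if IsDn u H γ ∧ endp 0 γ = z
          then NB28.aw ν γ else 0 := rfl
        rw [hdef]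
        refine ENNReal.tsum_le_tsum fun γ => ?_
        by_cases h : IsDn u H γ ∧ aY ν u H (endp 0 γ) ≤ th ∧ w.1 + endp 0 π + endp 0 γ = w'.1
        · have hz' : endp 0 γ = z := by rw [hz, ← h.2.2]; abel
          refine le_trans ?_ (le_of_eq (if_pos ⟨h.1, hz'⟩).symm)
          split_ifs
          exact le_rfl
        · refine le_trans (le_of_eq (if_neg ?_)) bot_le
          exact h
      · refine le_trans (le_of_eq (ENNReal.tsum_eq_zero.2 fun γ => ?_)) bot_le
        rw [if_neg]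
        rintro ⟨h1, h2, h3⟩
        have hz' : endp 0 γ = z := by rw [hz, ← h3]; abel
        rw [hz'] at h2
        exact hth h2
    · exact hX1

open Classical in
lemma off_part (H s : ℕ) (w : Lat u) (E1 E2 : Finset (Site d)) :
    Comp818.WLp (Lam ν u) (B5W.ht u) (B5W.dl u) (B5W.cd u) H s w
      ≤ (∑' π : List (Step d), ∑' γ : List (Step d), (if IsUp u H π ∧ endp 0 π ∈ E1 ∧ IsDn u H γ ∧
          (∃ k, k ∈ Cm u w.1 π γ) ∧ (∀ k ∈ Cm u w.1 π γ, s < k)
          then NB28.aw ν π * NB28.aw ν γ else 0))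
        + (∑' π : List (Step d), ∑' γ : List (Step d), (if IsUp u H π ∧ endp 0 γ ∈ E2 ∧ IsDn u H γ ∧
          (∃ k, k ∈ Cm u w.1 π γ) ∧ (∀ k ∈ Cm u w.1 π γ, k + s ≤ H)
          then NB28.aw ν π * NB28.aw ν γ else 0))
        + (∑' x, (if x ∈ E1 then 0 else aX ν u H x)) * (∑' x, (if x ∈ E2 then 0 else aY ν u H x)) := by
  have e := tsum_L ν u H (fun x => if Cm u w.1 x.1 x.2 ≠ ∅ ∧ ∀ k ∈ Cm u w.1 x.1 x.2, s < k ∧ k + s ≤ H
    then 1 else 0)
  have e1 : Comp818.WLp (Lam ν u) (B5W.ht u) (B5W.dl u) (B5W.cd u) H s w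
      ≤ ∑' π : List (Step d), ∑' γ : List (Step d),
        if IsUp u H π ∧ IsDn u H γ then NB28.aw ν π * NB28.aw ν γ *
          (if Cm u w.1 π γ ≠ ∅ ∧ ∀ k ∈ Cm u w.1 π γ, s < k ∧ k + s ≤ H then 1 else 0) else 0 := by
    rw [← e]
    refine ENNReal.tsum_le_tsum fun L => ?_
    rw [CD_cat]
    have hc : cds u (cat L) w.1 = Cm u w.1 (cat L).1 (cat L).2 := cds_eq u _ _ _
    rw [hc]
    by_cases h : HT (B5W.ht u) L = H ∧ Cm u w.1 (cat L).1 (cat L).2 ≠ ∅ ∧
        ∀ k ∈ Cm u w.1 (cat L).1 (cat L).2, s < k ∧ k + s ≤ H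
    · rw [if_pos h, if_pos h.1, if_pos h.2, mul_one]
    · rw [if_neg h]; exact bot_le
  refine e1.trans ?_
  have e2 : (∑' x, (if x ∈ E1 then 0 else aX ν u H x)) * (∑' x, (if x ∈ E2 then 0 else aY ν u H x))
      = ∑' π : List (Step d), ∑' γ : List (Step d), (if IsUp u H π ∧ IsDn u H γ then
          NB28.aw ν π * NB28.aw ν γ * ((if endp 0 π ∈ E1 then 0 else 1) *
            (if endp 0 γ ∈ E2 then 0 else 1)) else 0) := by
    rw [factor (fun π => IsUp u H π) (fun γ => IsDn u H γ) (fun π => NB28.aw ν π)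
      (fun π => (if endp 0 π ∈ E1 then 0 else 1)) (fun γ => NB28.aw ν γ)
      (fun γ => (if endp 0 γ ∈ E2 then 0 else 1))]
    rw [← sum_aX ν u H (fun x => if x ∈ E1 then 0 else 1),
      ← sum_aY ν u H (fun x => if x ∈ E2 then 0 else 1)]
    congr 1
    · refine tsum_congr fun x => ?_
      split_ifs <;> simp
    · refine tsum_congr fun x => ?_
      split_ifs <;> simp
  rw [e2, ← ENNReal.tsum_add, ← ENNReal.tsum_add]
  refine ENNReal.tsum_le_tsum fun π => ?_
  rw [← ENNReal.tsum_add, ← ENNReal.tsum_add]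
  refine ENNReal.tsum_le_tsum fun γ => ?_
  by_cases h1 : IsUp u H π ∧ IsDn u H γ
  · rw [if_pos h1]
    by_cases h2 : Cm u w.1 π γ ≠ ∅ ∧ ∀ k ∈ Cm u w.1 π γ, s < k ∧ k + s ≤ H
    · rw [if_pos h2, mul_one]
      have hne : ∃ k, k ∈ Cm u w.1 π γ := Set.nonempty_iff_ne_empty.2 h2.1
      by_cases h3 : endp 0 π ∈ E1
      · rw [if_pos (⟨h1.1, h3, h1.2, hne, fun k hk => (h2.2 k hk).1⟩ : _ ∧ _)]
        exact le_add_right (le_add_right le_rfl)
      · by_cases h4 : endp 0 γ ∈ E2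
        · refine le_trans ?_ (le_add_right (le_add_left le_rfl))
          rw [if_pos (⟨h1.1, h4, h1.2, hne, fun k hk => (h2.2 k hk).2⟩ : _ ∧ _)]
        · refine le_trans ?_ (le_add_left le_rfl)
          rw [if_pos h1, if_neg h3, if_neg h4, mul_one, mul_one]
    · rw [if_neg h2, mul_zero]; exact bot_le
  · rw [if_neg h1]; exact bot_le

open Classical in
/-- **139's `hW` at 657's instance** -/
theorem hW (c : ℝ≥0∞) (hc : c ≠ 0) (hX : ∀ n, c ≤ mX ν u n) (hY : ∀ n, c ≤ mY ν u n)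
    (hX1 : ∀ n, mX ν u n ≤ 1) (hY1 : ∀ n, mY ν u n ≤ 1)
    (hus : ∀ ε : ℝ≥0∞, ε ≠ 0 → ∃ s0 : ℕ, ∀ s, s0 ≤ s → E23W.us ν u s ≤ ε) :
    ∀ v η : ℝ≥0∞, v ≠ 0 → v ≤ 1 → η ≠ 0 → ∃ s H0 : ℕ, ∀ H, H0 ≤ H → ∃ S1 S2 : Set (Lat u),
      Good (Lam ν u) (B5W.ht u) (B5W.dl u) (c * c * v) η H S1 ∧
      Good (Lam ν u) (B5W.ht u) (B5W.dl u) (c * c * v) η H S2 ∧
      ∀ w, w ∉ S1 → w ∉ S2 →
        Comp818.WLp (Lam ν u) (B5W.ht u) (B5W.dl u) (B5W.cd u) H s w ≤ v * v + η := by
  intro v η hv0 hv1 hη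
  set lam : ℝ≥0∞ := min η 1 / 48 with hlam
  have hm0 : min η 1 ≠ 0 := (lt_min (pos_iff_ne_zero.2 hη) one_pos).ne'
  have hmt : min η 1 ≠ ⊤ := ne_top_of_le_ne_top ENNReal.one_ne_top (min_le_right _ _)
  have hl0 : lam ≠ 0 := (ENNReal.div_pos hm0 (by norm_num)).ne'
  have hlt : lam ≠ ⊤ := ENNReal.div_ne_top hmt (by norm_num)
  have h48 : 48 * lam ≤ η := ENNReal.mul_div_le.trans (min_le_left _ _)
  obtain ⟨s1, hs1⟩ := hus lam hl0
  obtain ⟨s2, hs2⟩ := hus (η * (lam * lam)) (mul_ne_zero hη (mul_ne_zero hl0 hl0))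
  refine ⟨max s1 s2, 0, fun H _ => ?_⟩
  set s := max s1 s2 with hs
  have hu1 := hs1 s (le_max_left _ _)
  have hu2 := hs2 s (le_max_right _ _)
  obtain ⟨th1, E1, -, hE1, hoff1, hlow1⟩ := quant (aX ν u H) c v hc (by rw [tot_aX]; exact hX H)
    (by rw [tot_aX]; exact hX1 H) hv0 hv1
  obtain ⟨th2, E2, -, hE2, hoff2, hlow2⟩ := quant (aY ν u H) c v hc (by rw [tot_aY]; exact hY H)
    (by rw [tot_aY]; exact hY1 H) hv0 hv1
  set Φ1 : Site d → ℝ≥0∞ := fun x => ∑' π : List (Step d), ∑' γ : List (Step d),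
    (if IsUp u H π ∧ endp 0 π ∈ E1 ∧ IsDn u H γ ∧ (∃ k, k ∈ Cm u x π γ) ∧
      (∀ k ∈ Cm u x π γ, s < k) then NB28.aw ν π * NB28.aw ν γ else 0) with hΦ1
  set Φ2 : Site d → ℝ≥0∞ := fun x => ∑' π : List (Step d), ∑' γ : List (Step d),
    (if IsUp u H π ∧ endp 0 γ ∈ E2 ∧ IsDn u H γ ∧ (∃ k, k ∈ Cm u x π γ) ∧
      (∀ k ∈ Cm u x π γ, k + s ≤ H) then NB28.aw ν π * NB28.aw ν γ else 0) with hΦ2
  have c1 := count u Φ1 E1.card lam (E23W.us ν u s) th1 η hl0 hlt
    (fun μ M hμ hM => E23W.e2 ν u s H E1 μ M lam hμ hM hl0 hlt) hE1 hu1 hu2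
  have c2 := count u Φ2 E2.card lam (E23W.us ν u s) th2 η hl0 hlt
    (fun μ M hμ hM => E23W.e3 ν u s H E2 μ M lam hμ hM hl0 hlt) hE2 hu1 hu2
  refine ⟨_, _, goodX ν u H c v th1 η _ (hY H) (hY1 H) hlow1 c1,
    goodY ν u H c v th2 η _ (hX H) (hX1 H) hlow2 c2, fun w hw1 hw2 => ?_⟩
  have hw1' : Φ1 w.1 ≤ 24 * lam := not_lt.1 hw1
  have hw2' : Φ2 w.1 ≤ 24 * lam := not_lt.1 hw2
  calc _ ≤ Φ1 w.1 + Φ2 w.1 + (∑' x, (if x ∈ E1 then 0 else aX ν u H x)) *
        (∑' x, (if x ∈ E2 then 0 else aY ν u H x)) := off_part ν u H s w E1 E2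
    _ ≤ 24 * lam + 24 * lam + v * v :=
        add_le_add (add_le_add hw1' hw2') (mul_le_mul'
          (le_trans (le_of_eq (tsum_congr fun x => by congr)) hoff1)
          (le_trans (le_of_eq (tsum_congr fun x => by congr)) hoff2))
    _ = v * v + 48 * lam := by ring
    _ ≤ v * v + η := add_le_add le_rfl h48

theorem hWin (hν : ∀ᵐ p ∂ν, ∀ e : Step d, 0 < p.1 e)
    (hA : annealed (iidEnvironmentLaw ν) 0 (escapeEvent (B2d.dirVec u)) ≠ 0)
    (hB : annealed (iidEnvironmentLaw ν) 0 (escapeEvent (-B2d.dirVec u)) ≠ 0) :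
    KB391.HWin ν u := by
  obtain ⟨c, hc, hc1, hup, hdn⟩ := WM286.mass_pos ν hν u hA hB
  have hU := fun n => HSl689.U_ge ν u c hup hdn n
  have hU1 := fun n => HSl689.U_le ν u n
  have hΛ := HSl689.mass_one ν u (c * c) (mul_ne_zero hc hc) hU hU1
  have hX1 : ∀ n, mX ν u n ≤ 1 := fun n =>
    sum_if_le_one ν fun l l' h h' hp => NB28.isUp_prefix h h' hp
  have hY1 : ∀ n, mY ν u n ≤ 1 := fun n =>
    sum_if_le_one ν fun l l' h h' hp => NB28.isDn_prefix h h' hp
  have hcc := mul_ne_zero hc hc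
  have htl : Filter.Tendsto (fun H : ℕ => ∑' k, tail (Lam ν u) (B5W.ht u) (H + k)) Filter.atTop
      (nhds 0) := by
    have hct : c * c ≠ ⊤ := by
      have := ne_top_of_le_ne_top ENNReal.one_ne_top hc1
      exact ENNReal.mul_ne_top this this
    have hE : ∑' b, Lam ν u b * (B5W.ht u b : ℝ≥0∞) ≠ ⊤ :=
      ne_top_of_le_ne_top (ENNReal.inv_ne_top.2 hcc)
        (mean_le (Lam ν u) (B5W.ht u) one_le_hb hΛ (c * c) hcc hct 0 (fun n _ => hU n))
    have hsum : ∑' k, tail (Lam ν u) (B5W.ht u) k ≠ ⊤ := by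
      rw [← sum_tail (Lam ν u) (B5W.ht u) hΛ]; exact hE
    have ht0 : Filter.Tendsto (fun i0 : ℕ => ∑' k : ℕ, tail (Lam ν u) (B5W.ht u) (k + i0))
        Filter.atTop (nhds 0) := ENNReal.tendsto_sum_nat_add _ hsum
    refine ht0.congr fun n => tsum_congr fun k => ?_
    rw [add_comm]
  have hA' : annealedProb (iidEnvironmentLaw ν) 0 (escapeEvent (Flux566.dir u)) ≠ 0 := by
    have h := hA
    rw [annealed_apply _ 0 (B2d.measurableSet_escapeEvent _)] at h
    exact h
  exact JB11.hWin_of_hW (Lam ν u) (B5W.ht u) (B5W.dl u) (B5W.cd u) one_le_hb hΛ hU1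
    (B5W.hinj u) htl (c * c) hcc (hW ν u c hc hup hdn hX1 hY1 (E23W.us_small ν hν u hA'))

theorem nbProp : Spine.NBProp :=
  KB391.nb_of
    (fun _ hd ν _ hν u hA hB => HSl689.hSl' (by omega) ν hν u hA hB)
    (fun _ _ ν _ hν u hA hB => hWin ν u hν hA hB)

end Crest.Agent.R154.HW11

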