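import Crest.Agent.R154.B5Br_657
import Crest.Agent.R154.WMass_286
import Crest.Agent.R154.AsmA_789
import Crest.Agent.R154.JHit_139

/-! Row 154 (ROAD 801, joint cuts), helper178: 139's `hW` from the two window lemmas in words at a
common height (912's `E2`, `E3`). -/

set_option autoImplicit false

namespace Crest.Agent.R154.HW178

open MeasureTheory ProbabilityTheory Crest.ProbabilityR.RandomEnvironment Crest.Agent.R154
open Crest.Agent.R154.Flux132 (lev opp)
open Crest.Agent.R154.Flux566 (lw endp sitesL)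
open Crest.Agent.R154.B5A
open Crest.Agent.R154.B5W (PB ht Lam dl cd Lat cat)
open Crest.Agent.R154.NB28 (IsUp IsDn Cm aw)
open Crest.Agent.R154.JAsm139 (card Good)
open scoped ENNReal

variable {d : ℕ}

/-! ### pure sums -/

lemma ite_iff {P Q : Prop} {x : ℝ≥0∞} {_ : Decidable P} {_ : Decidable Q} (h : P ↔ Q) :
    (if P then x else 0) = (if Q then x else 0) := by
  by_cases hP : P
  · rw [if_pos hP, if_pos (h.1 hP)]
  · rw [if_neg hP, if_neg (fun hQ => hP (h.2 hQ))]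

open Classical in
/-- dyadic quantile for a mass function of total mass `≥ v` -/
lemma quant' {ι : Type*} (p : ι → ℝ≥0∞) (hp : ∑' i, p i ≤ 1) {v : ℝ≥0∞} (hv : v ≠ 0)
    (hv1 : v ≤ ∑' i, p i) : ∃ θ : ℝ≥0∞, θ ≠ 0 ∧ θ ≤ 1 ∧ (∑' i, if p i < θ then p i else 0) ≤ v ∧
      v ≤ (∑' i, if p i < 2 * θ then p i else 0) := by
  have hex := AsmA789.exists_small p hp hv
  set P : ℕ → Prop := fun q => (∑' i, if p i < (2 : ℝ≥0∞)⁻¹ ^ q then p i else 0) ≤ v with hP
  have hex' : ∃ q, P q := hex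
  have hq := Nat.find_spec hex'
  refine ⟨(2 : ℝ≥0∞)⁻¹ ^ Nat.find hex', ?_, ?_, hq, ?_⟩
  · exact pow_ne_zero _ (by simp)
  · exact pow_le_one' (by simp) _
  · rcases Nat.eq_zero_or_pos (Nat.find hex') with h0 | hpos
    · rw [h0, pow_zero, mul_one]
      have : ∀ i, p i < 2 := by
        intro i
        calc p i ≤ ∑' i, p i := ENNReal.le_tsum i
          _ ≤ 1 := hp
          _ < 2 := by norm_num
      simpa [this] using hv1
    · obtain ⟨q, hq'⟩ : ∃ q, Nat.find hex' = q + 1 := ⟨Nat.find hex' - 1, by omega⟩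
      have hnot : ¬ P q := Nat.find_min hex' (by omega)
      rw [hq', pow_succ]
      have h2 : (2 : ℝ≥0∞) * ((2 : ℝ≥0∞)⁻¹ ^ q * 2⁻¹) = 2⁻¹ ^ q := by
        rw [mul_comm, mul_assoc, ENNReal.inv_mul_cancel (by simp) (by simp), mul_one]
      rw [h2]
      exact (not_le.1 hnot).le

/-- few heavy points -/
lemma few {W : Type*} (F : W → ℝ≥0∞) (β a b : ℝ≥0∞) (hβ : β ≠ 0) (hβt : β ≠ ⊤)
    (ha : a ≤ β / 2)
    (h : ∀ (μ : W → ℝ≥0∞) (M : ℝ≥0∞), ∑' w, μ w ≤ 1 → (∀ w, μ w ≤ M) →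
      ∑' w, μ w * F w ≤ a + M * b) :
    card {w | β < F w} * (β / 2) ≤ b := by
  classical
  unfold card
  rw [← ENNReal.tsum_mul_right, ENNReal.tsum_eq_iSup_sum]
  refine iSup_le fun T => ?_
  set T' : Finset W := T.filter (fun w => β < F w) with hT'
  have e1 : ∑ w ∈ T, ({w | β < F w} : Set W).indicator (fun _ => (1 : ℝ≥0∞)) w * (β / 2)
      = (T'.card : ℝ≥0∞) * (β / 2) := by
    rw [← Finset.sum_mul]
    congr 1
    rw [hT', Finset.card_filter]
    push_cast
    refine Finset.sum_congr rfl fun w _ => ?_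
    by_cases hw : β < F w
    · rw [Set.indicator_of_mem (by exact hw), if_pos hw]
    · rw [Set.indicator_of_notMem (by exact hw), if_neg hw]
  rw [e1]
  rcases Nat.eq_zero_or_pos T'.card with h0 | hpos
  · rw [h0]; simp
  have hn0 : (T'.card : ℝ≥0∞) ≠ 0 := by
    rw [Ne, Nat.cast_eq_zero]; omega
  have hnt : (T'.card : ℝ≥0∞) ≠ ⊤ := ENNReal.natCast_ne_top _
  set μ : W → ℝ≥0∞ := fun w => if w ∈ T' then (T'.card : ℝ≥0∞)⁻¹ else 0 with hμ
  have hs : ∀ f : W → ℝ≥0∞, ∑' w, μ w * f w = ∑ w ∈ T', (T'.card : ℝ≥0∞)⁻¹ * f w := by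
    intro f
    rw [tsum_eq_sum (s := T')]
    · refine Finset.sum_congr rfl fun w hw => ?_
      rw [hμ]; simp only [if_pos hw]
    · intro w hw
      rw [hμ]; simp only [if_neg hw, zero_mul]
  have h1 : ∑' w, μ w ≤ 1 := by
    have := hs (fun _ => 1)
    simp only [mul_one] at this
    rw [this, Finset.sum_const, nsmul_eq_mul, ENNReal.mul_inv_cancel hn0 hnt]
  have h2 : ∀ w, μ w ≤ (T'.card : ℝ≥0∞)⁻¹ := by
    intro w
    rw [hμ]
    by_cases hw : w ∈ T'
    · simp only [if_pos hw]; exact le_rfl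
    · simp only [if_neg hw]; exact zero_le
  have h3 := h μ _ h1 h2
  have h4 : β ≤ ∑' w, μ w * F w := by
    rw [hs F]
    calc β = ∑ w ∈ T', (T'.card : ℝ≥0∞)⁻¹ * β := by
          rw [Finset.sum_const, nsmul_eq_mul, ← mul_assoc, ENNReal.mul_inv_cancel hn0 hnt, one_mul]
      _ ≤ _ := Finset.sum_le_sum fun w hw =>
          mul_le_mul_right (le_of_lt (Finset.mem_filter.1 hw).2) _
  have h5 : β / 2 + β / 2 ≤ β / 2 + (T'.card : ℝ≥0∞)⁻¹ * b := by
    rw [ENNReal.add_halves]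
    exact h4.trans (h3.trans (add_le_add_left ha _))
  have hb2 : β / 2 ≠ ⊤ := ENNReal.div_ne_top hβt (by simp)
  have h6 : β / 2 ≤ (T'.card : ℝ≥0∞)⁻¹ * b := (ENNReal.add_le_add_iff_left hb2).1 h5
  calc (T'.card : ℝ≥0∞) * (β / 2) ≤ (T'.card : ℝ≥0∞) * ((T'.card : ℝ≥0∞)⁻¹ * b) :=
        mul_le_mul_right h6 _
    _ = b := by rw [← mul_assoc, ENNReal.mul_inv_cancel hn0 hnt, one_mul]

/-! ### one walker -/

variable (ν : Measure (Row d)) [IsProbabilityMeasure ν] (u : Step d)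

open Classical in
/-- law of the displacement of the words of a class -/
noncomputable def pP (P : List (Step d) → Prop) (z : Site d) : ℝ≥0∞ :=
  ∑' l : List (Step d), if P l ∧ endp 0 l = z then aw ν l else 0

open Classical in
lemma fib (P : List (Step d) → Prop) (Q : Site d → Prop) :
    (∑' z, if Q z then pP ν P z else 0) = ∑' l, if P l ∧ Q (endp 0 l) then aw ν l else 0 := by
  have h : ∀ z, (if Q z then pP ν P z else 0)
      = ∑' l : List (Step d), if P l ∧ endp 0 l = z ∧ Q z then aw ν l else 0 := by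
    intro z
    by_cases hz : Q z
    · rw [if_pos hz]; simp [pP, hz]
    · simp [hz]
  rw [tsum_congr h, ENNReal.tsum_comm]
  refine tsum_congr fun l => ?_
  rw [tsum_eq_single (endp 0 l)]
  · simp
  · intro z hz
    rw [if_neg]
    rintro ⟨_, h, _⟩
    exact hz h.symm

open Classical in
lemma fib_one (P : List (Step d) → Prop) :
    (∑' z, pP ν P z) = ∑' l, if P l then aw ν l else 0 := by
  have := fib ν P (fun _ => True)
  simpa using this

open Classical in
/-- product density -/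
lemma dens (P Q : List (Step d) → Prop) (t : ℝ≥0∞) (hQ : (∑' γ, if Q γ then aw ν γ else 0) ≤ 1)
    (z0 : Site d) :
    ∑' γ, ∑' π, (if P π ∧ Q γ ∧ pP ν P (endp 0 π) < t ∧ endp 0 π + endp 0 γ = z0
      then aw ν π * aw ν γ else 0) ≤ t := by
  calc _ ≤ ∑' γ, (if Q γ then aw ν γ else 0) * t := by
        refine ENNReal.tsum_le_tsum fun γ => ?_
        by_cases hγ : Q γ
        · rw [if_pos hγ]
          by_cases hz : pP ν P (z0 - endp 0 γ) < t
          · calc _ ≤ ∑' π, aw ν γ * (if P π ∧ endp 0 π = z0 - endp 0 γ then aw ν π else 0) := by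
                  refine ENNReal.tsum_le_tsum fun π => ?_
                  split_ifs with h1 h2
                  · rw [mul_comm]
                  · exact absurd ⟨h1.1, eq_sub_of_add_eq h1.2.2.2⟩ h2
                  · exact zero_le
                  · exact zero_le
              _ = aw ν γ * pP ν P (z0 - endp 0 γ) := by rw [ENNReal.tsum_mul_left]; rfl
              _ ≤ _ := mul_le_mul_right hz.le _
          · have : ∀ π, (if P π ∧ Q γ ∧ pP ν P (endp 0 π) < t ∧ endp 0 π + endp 0 γ = z0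
                then aw ν π * aw ν γ else 0) = 0 := by
              intro π
              rw [if_neg]
              rintro ⟨_, _, h3, h4⟩
              rw [eq_sub_of_add_eq h4] at h3
              exact hz h3
            rw [tsum_congr this]; simp
        · simp [hγ]
    _ = (∑' γ, if Q γ then aw ν γ else 0) * t := ENNReal.tsum_mul_right
    _ ≤ 1 * t := mul_le_mul_left hQ _
    _ = t := one_mul t

lemma act_val (L : List (PB u)) (w : Lat u) :
    (act (dl u) L w).1 = w.1 + (endp 0 (cat L).1 + endp 0 (cat L).2) := by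
  induction L generalizing w with
  | nil => simp [act, cat, endp]
  | cons b L ih =>
    have e1 : (cat (b :: L)).1 = (cat L).1 ++ b.1.1 := rfl
    have e2 : (cat (b :: L)).2 = b.1.2 ++ (cat L).2 := rfl
    rw [act, ih, e1, e2, Flux566.endp_append, Flux566.endp_append,
      Flux566.endp_eq_add b.1.1 (endp 0 (cat L).1), Flux566.endp_eq_add (cat L).2 (endp 0 b.1.2)]
    change (w.1 + endp 0 b.1.1 + endp 0 b.1.2) + _ = _
    abel

open Classical in
/-- product over the pairs -/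
lemma sum_prod (H : ℕ) (G1 G2 : List (Step d) → Prop) :
    (∑' L : List (PB u), if HT (ht u) L = H ∧ G1 (cat L).1 ∧ G2 (cat L).2
      then LW (Lam ν u) L else 0)
      = (∑' π, if IsUp u H π ∧ G1 π then aw ν π else 0)
        * ∑' γ, if IsDn u H γ ∧ G2 γ then aw ν γ else 0 := by
  have h := B5W.tsum_L ν u H (fun x => if G1 x.1 ∧ G2 x.2 then 1 else 0)
  have e : (∑' L : List (PB u), if HT (ht u) L = H ∧ G1 (cat L).1 ∧ G2 (cat L).2
      then LW (Lam ν u) L else 0) = ∑' L : List (PB u), (if HT (ht u) L = H then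
        LW (Lam ν u) L * (if G1 (cat L).1 ∧ G2 (cat L).2 then 1 else 0) else 0) := by
    refine tsum_congr fun L => ?_
    by_cases h1 : HT (ht u) L = H <;> by_cases h2 : G1 (cat L).1 ∧ G2 (cat L).2 <;> simp [h1, h2]
  rw [e, h, ← ENNReal.tsum_mul_right]
  refine tsum_congr fun π => ?_
  rw [← ENNReal.tsum_mul_left]
  refine tsum_congr fun γ => ?_
  by_cases h1 : IsUp u H π <;> by_cases h2 : IsDn u H γ <;> by_cases h3 : G1 π <;>
    by_cases h4 : G2 γ <;> simp [h1, h2, h3, h4]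

open Classical in
/-- sums over lists with an arbitrary condition -/
lemma sum_cond (H : ℕ) (R : List (Step d) → List (Step d) → Prop) :
    (∑' L : List (PB u), if HT (ht u) L = H ∧ R (cat L).1 (cat L).2 then LW (Lam ν u) L else 0)
      = ∑' π, ∑' γ, if IsUp u H π ∧ IsDn u H γ ∧ R π γ then aw ν π * aw ν γ else 0 := by
  have h := B5W.tsum_L ν u H (fun x => if R x.1 x.2 then 1 else 0)
  have e : (∑' L : List (PB u), if HT (ht u) L = H ∧ R (cat L).1 (cat L).2
      then LW (Lam ν u) L else 0) = ∑' L : List (PB u), (if HT (ht u) L = H then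
        LW (Lam ν u) L * (if R (cat L).1 (cat L).2 then 1 else 0) else 0) := by
    refine tsum_congr fun L => ?_
    by_cases h1 : HT (ht u) L = H <;> by_cases h2 : R (cat L).1 (cat L).2 <;> simp [h1, h2]
  rw [e, h]
  refine tsum_congr fun π => tsum_congr fun γ => ?_
  by_cases h1 : IsUp u H π <;> by_cases h2 : IsDn u H γ <;> by_cases h3 : R π γ <;>
    simp [h1, h2, h3]


/-! ### the window lemmas at a common height -/

open Classical in
/-- weight of the pairs of crossings of height `H`, at top displacement `x`, in contact, all the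
contacts `s` away from both ends, the up word in the class `G1`, the down word in the class `G2` -/
noncomputable def FF (H s : ℕ) (G1 G2 : List (Step d) → Prop) (x : Site d) : ℝ≥0∞ :=
  ∑' π, ∑' γ, if IsUp u H π ∧ IsDn u H γ ∧ G1 π ∧ G2 γ ∧ (∃ k, k ∈ Cm u x π γ) ∧
    (∀ k ∈ Cm u x π γ, s < k ∧ k + s ≤ H) then aw ν π * aw ν γ else 0

open Classical in
/-- (W2) at a common height (weakest form) -/
def E2 (C : ℝ≥0∞) (us : ℕ → ℝ≥0∞) : Prop :=
  ∀ (s H : ℕ) (E : Finset (Site d)) (μ : Site d → ℝ≥0∞) (M lam : ℝ≥0∞), ∑' x, μ x ≤ 1 →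
    (∀ x, μ x ≤ M) → lam ≠ 0 → lam ≠ ⊤ →
    ∑' x, (if lev u x = 0 then μ x * ∑' π, ∑' γ, (if IsUp u H π ∧ endp 0 π ∈ E ∧ IsDn u H γ ∧
      (∃ k, k ∈ Cm u x π γ) ∧ (∀ k ∈ Cm u x π γ, s < k ∧ k + s ≤ H)
      then aw ν π * aw ν γ else 0) else 0) ≤ C * (lam + M * E.card * us s / lam + us s)

open Classical in
/-- (W3) at a common height (weakest form) -/
def E3 (C : ℝ≥0∞) (us : ℕ → ℝ≥0∞) : Prop :=
  ∀ (s H : ℕ) (E : Finset (Site d)) (μ : Site d → ℝ≥0∞) (M lam : ℝ≥0∞), ∑' x, μ x ≤ 1 →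
    (∀ x, μ x ≤ M) → lam ≠ 0 → lam ≠ ⊤ →
    ∑' x, (if lev u x = 0 then μ x * ∑' π, ∑' γ, (if IsUp u H π ∧ endp 0 γ ∈ E ∧ IsDn u H γ ∧
      (∃ k, k ∈ Cm u x π γ) ∧ (∀ k ∈ Cm u x π γ, s < k ∧ k + s ≤ H)
      then aw ν π * aw ν γ else 0) else 0) ≤ C * (lam + M * E.card * us s / lam + us s)

/-- lateral displacements as sites -/
noncomputable def ext0 (μ : Lat u → ℝ≥0∞) (x : Site d) : ℝ≥0∞ :=
  open Classical in if h : lev u x = 0 then μ ⟨x, h⟩ else 0

lemma ext0_sum (μ : Lat u → ℝ≥0∞) (F : Site d → ℝ≥0∞) :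
    (∑' x, (open Classical in if lev u x = 0 then ext0 u μ x * F x else 0))
      = ∑' w : Lat u, μ w * F w.1 := by
  classical
  have h := tsum_subtype {x : Site d | lev u x = 0} (fun x => ext0 u μ x * F x)
  calc _ = ∑' x : Site d, Set.indicator {x : Site d | lev u x = 0}
        (fun x => ext0 u μ x * F x) x := by
        refine tsum_congr fun x => ?_
        simp [Set.indicator_apply]
    _ = ∑' x : {x : Site d | lev u x = 0}, ext0 u μ x.1 * F x.1 := h.symm
    _ = _ := by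
        refine tsum_congr fun (x : {x : Site d | lev u x = 0}) => ?_
        have hx : lev u x.1 = 0 := x.2
        unfold ext0
        rw [dif_pos hx]
        rfl

lemma ext0_le (μ : Lat u → ℝ≥0∞) (M : ℝ≥0∞) (h : ∀ w, μ w ≤ M) (x : Site d) :
    ext0 u μ x ≤ M := by
  unfold ext0
  split_ifs with hx
  · exact h _
  · exact zero_le

lemma ext0_one (μ : Lat u → ℝ≥0∞) : ∑' x, ext0 u μ x = ∑' w, μ w := by
  classical
  have h := ext0_sum u μ (fun _ => 1)
  simp only [mul_one] at h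
  rw [← h]
  refine tsum_congr fun x => ?_
  by_cases hx : lev u x = 0
  · rw [if_pos hx]
  · rw [if_neg hx]; unfold ext0; rw [dif_neg hx]

/-- the set where `q ≤ pP` as a finite set -/
lemma fin_set (P : List (Step d) → Prop) (hP : ∑' z, pP ν P z ≤ 1) {θ : ℝ≥0∞} (hθ : θ ≠ 0) :
    ∃ E : Finset (Site d), (∀ z, z ∈ E ↔ θ ≤ pP ν P z) ∧ (E.card : ℝ≥0∞) * θ ≤ 1 := by
  classical
  obtain ⟨h1, h2⟩ := AsmA789.card_le (pP ν P) hP hθ
  refine ⟨h1.toFinset, fun z => by simp, ?_⟩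
  rwa [Set.ncard_eq_toFinset_card _ h1] at h2

open Classical in
/-- one walker's half of `hW`: `E2` / `E3` give a small set of heavy tops -/
lemma half {C lam β η : ℝ≥0∞} {us : ℕ → ℝ≥0∞} {s : ℕ} (P : List (Step d) → Prop)
    (hP : ∑' z, pP ν P z ≤ 1) {θ : ℝ≥0∞} (hθ : θ ≠ 0) (hθ1 : θ ≤ 1)
    (E : Finset (Site d)) (hE : (E.card : ℝ≥0∞) * θ ≤ 1) (F : Site d → ℝ≥0∞)
    (hβ : β ≠ 0) (hβt : β ≠ ⊤) (hlam : lam ≠ 0) (hlt : lam ≠ ⊤)
    (h : ∀ (μ : Site d → ℝ≥0∞) (M : ℝ≥0∞), ∑' x, μ x ≤ 1 → (∀ x, μ x ≤ M) →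
      ∑' x, (if lev u x = 0 then μ x * F x else 0) ≤ C * (lam + M * E.card * us s / lam + us s))
    (ha : C * (lam + us s) ≤ β / 2) (hb : 2 * (C * (us s / lam)) ≤ η * (β / 2)) :
    2 * θ * card {w : Lat u | β < F w.1} ≤ η := by
  have h1 : card {w : Lat u | β < F w.1} * (β / 2) ≤ C * (E.card * us s / lam) := by
    refine few (fun w : Lat u => F w.1) β (C * (lam + us s)) (C * (E.card * us s / lam)) hβ hβt ha
      fun μ M hμ hM => ?_
    have h2 := h (ext0 u μ) M (by rw [ext0_one]; exact hμ) (ext0_le u μ M hM)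
    rw [ext0_sum u μ F] at h2
    refine h2.trans (le_of_eq ?_)
    rw [ENNReal.div_eq_inv_mul, ENNReal.div_eq_inv_mul]
    ring
  have hβ2 : β / 2 ≠ 0 := by simp [ENNReal.div_eq_zero_iff, hβ]
  have hβ2t : β / 2 ≠ ⊤ := ENNReal.div_ne_top hβt (by simp)
  have h3 : 2 * θ * card {w : Lat u | β < F w.1} * (β / 2) ≤ η * (β / 2) := by
    calc 2 * θ * card {w : Lat u | β < F w.1} * (β / 2)
        = 2 * θ * (card {w : Lat u | β < F w.1} * (β / 2)) := by rw [mul_assoc]
      _ ≤ 2 * θ * (C * (E.card * us s / lam)) := mul_le_mul_right h1 _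
      _ = 2 * ((E.card * θ) * (C * (us s / lam))) := by
          rw [ENNReal.div_eq_inv_mul, ENNReal.div_eq_inv_mul]; ring
      _ ≤ 2 * (1 * (C * (us s / lam))) := by gcongr
      _ = 2 * (C * (us s / lam)) := by rw [one_mul]
      _ ≤ _ := hb
  exact (ENNReal.mul_le_mul_iff_left hβ2 hβ2t).1 h3


lemma exists_lam {C β : ℝ≥0∞} (hC : C ≠ ⊤) (hβ : β ≠ 0) (hβt : β ≠ ⊤) :
    ∃ lam : ℝ≥0∞, lam ≠ 0 ∧ lam ≠ ⊤ ∧ C * lam ≤ β := by
  have hC1 : C + 1 ≠ ⊤ := by simp [hC]
  have hC0 : C + 1 ≠ 0 := by simp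
  refine ⟨β / (C + 1), ?_, ENNReal.div_ne_top hβt hC0, ?_⟩
  · simp [ENNReal.div_eq_zero_iff, hβ, hC1]
  · calc C * (β / (C + 1)) ≤ (C + 1) * (β / (C + 1)) := mul_le_mul_left le_self_add _
      _ = β := ENNReal.mul_div_cancel hC0 hC1

lemma small {A : ℝ≥0∞} (hA : A ≠ ⊤) {us : ℕ → ℝ≥0∞} (hus : Filter.Tendsto us Filter.atTop (nhds 0))
    {ε : ℝ≥0∞} (hε : ε ≠ 0) : ∀ᶠ s in Filter.atTop, A * us s ≤ ε := by
  have h := ENNReal.Tendsto.const_mul (a := A) hus (Or.inr hA)
  rw [mul_zero] at h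
  exact (h.eventually (gt_mem_nhds (pos_iff_ne_zero.2 hε))).mono fun s hs => hs.le

open Classical in
/-- **139's `hW`** for the instance of 657, from the window lemmas at a common height -/
theorem hW {c : ℝ≥0∞} (hc0 : c ≠ 0) (hc1 : c ≤ 1)
    (hX : ∀ n, c ≤ ∑' l : List (Step d), if IsUp u n l then aw ν l else 0)
    (hY : ∀ n, c ≤ ∑' l : List (Step d), if IsDn u n l then aw ν l else 0)
    {C : ℝ≥0∞} (hC : C ≠ ⊤) {us : ℕ → ℝ≥0∞} (hus : Filter.Tendsto us Filter.atTop (nhds 0))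
    (h2 : E2 ν u C us) (h3 : E3 ν u C us) :
    ∀ v η : ℝ≥0∞, v ≠ 0 → v ≤ 1 → η ≠ 0 → ∃ s H0 : ℕ, ∀ H, H0 ≤ H → ∃ S1 S2 : Set (Lat u),
      Good (Lam ν u) (ht u) (dl u) (c * c * v) η H S1 ∧
      Good (Lam ν u) (ht u) (dl u) (c * c * v) η H S2 ∧
      ∀ w, w ∉ S1 → w ∉ S2 →
        (∑' L : List (PB u), if HT (ht u) L = H ∧ CD (ht u) (dl u) (cd u) L w ≠ ∅ ∧
          (∀ k ∈ CD (ht u) (dl u) (cd u) L w, s < k ∧ k + s ≤ H) then LW (Lam ν u) L else 0)
          ≤ v * v + η := by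
  intro v η hv hv1 hη
  set η' : ℝ≥0∞ := min η 1 with hη'
  have hη0 : η' ≠ 0 := by
    rw [hη']; intro h0
    rcases min_choice η 1 with h' | h'
    · exact hη (h' ▸ h0)
    · exact one_ne_zero (h' ▸ h0)
  have hηt : η' ≠ ⊤ := ne_top_of_le_ne_top ENNReal.one_ne_top (min_le_right _ _)
  set β : ℝ≥0∞ := η' / 2 with hβ'
  have hβ : β ≠ 0 := by simp [hβ', ENNReal.div_eq_zero_iff, hη0]
  have hβt : β ≠ ⊤ := ENNReal.div_ne_top hηt (by simp)
  have hβ2 : β / 2 ≠ 0 := by simp [ENNReal.div_eq_zero_iff, hβ]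
  have hβ2t : β / 2 ≠ ⊤ := ENNReal.div_ne_top hβt (by simp)
  have hβ4 : β / 2 / 2 ≠ 0 := by simp [ENNReal.div_eq_zero_iff, hβ2]
  have hβ4t : β / 2 / 2 ≠ ⊤ := ENNReal.div_ne_top hβ2t (by simp)
  obtain ⟨lam, hl0, hlt, hl⟩ := exists_lam hC hβ4 hβ4t
  have hA : 2 * (C / lam) ≠ ⊤ := ENNReal.mul_ne_top (by simp) (ENNReal.div_ne_top hC hl0)
  obtain ⟨s, hs1, hs2⟩ := ((small hC hus hβ4).and (small hA hus (mul_ne_zero hη0 hβ2))).exists
  have ha : C * (lam + us s) ≤ β / 2 := by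
    calc C * (lam + us s) = C * lam + C * us s := mul_add _ _ _
      _ ≤ β / 2 / 2 + β / 2 / 2 := add_le_add hl hs1
      _ = β / 2 := ENNReal.add_halves _
  have hb : 2 * (C * (us s / lam)) ≤ η' * (β / 2) := by
    refine le_trans (le_of_eq ?_) hs2
    rw [ENNReal.div_eq_inv_mul, ENNReal.div_eq_inv_mul]; ring
  refine ⟨s, 0, fun H _ => ?_⟩
  have hmX : ∑' z, pP ν (IsUp u H) z ≤ 1 := by
    rw [fib_one]; exact WM286.sum_up_le_one ν u H
  have hmY : ∑' z, pP ν (IsDn u H) z ≤ 1 := by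
    rw [fib_one]; exact WM286.sum_dn_le_one ν u H
  have hcv : c * v ≠ 0 := mul_ne_zero hc0 hv
  have hcvc : c * v ≤ c := by
    calc c * v ≤ c * 1 := mul_le_mul_right hv1 _
      _ = c := mul_one c
  obtain ⟨θX, hX0, hX1, hXl, hXh⟩ := quant' (pP ν (IsUp u H)) hmX hcv
    (by rw [fib_one]; exact hcvc.trans (hX H))
  obtain ⟨θY, hY0, hY1, hYl, hYh⟩ := quant' (pP ν (IsDn u H)) hmY hcv
    (by rw [fib_one]; exact hcvc.trans (hY H))
  obtain ⟨EX, hEX, hcX⟩ := fin_set ν (IsUp u H) hmX hX0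
  obtain ⟨EY, hEY, hcY⟩ := fin_set ν (IsDn u H) hmY hY0
  replace hXl : (∑' l, if IsUp u H l ∧ pP ν (IsUp u H) (endp 0 l) < θX then aw ν l else 0)
      ≤ c * v := by
    have e := fib ν (IsUp u H) (fun z => pP ν (IsUp u H) z < θX)
    refine le_trans (le_of_eq ?_) hXl
    refine Eq.trans ?_ (e.symm.trans ?_)
    · exact tsum_congr fun l => by congr
    · exact tsum_congr fun z => by congr
  replace hXh : c * v ≤ (∑' l, if IsUp u H l ∧ pP ν (IsUp u H) (endp 0 l) < 2 * θX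
      then aw ν l else 0) := by
    have e := fib ν (IsUp u H) (fun z => pP ν (IsUp u H) z < 2 * θX)
    refine le_trans hXh (le_of_eq ?_)
    refine Eq.trans ?_ (e.trans ?_)
    · exact tsum_congr fun l => by congr
    · exact tsum_congr fun z => by congr
  replace hYl : (∑' l, if IsDn u H l ∧ pP ν (IsDn u H) (endp 0 l) < θY then aw ν l else 0)
      ≤ c * v := by
    have e := fib ν (IsDn u H) (fun z => pP ν (IsDn u H) z < θY)
    refine le_trans (le_of_eq ?_) hYl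
    refine Eq.trans ?_ (e.symm.trans ?_)
    · exact tsum_congr fun l => by congr
    · exact tsum_congr fun z => by congr
  replace hYh : c * v ≤ (∑' l, if IsDn u H l ∧ pP ν (IsDn u H) (endp 0 l) < 2 * θY
      then aw ν l else 0) := by
    have e := fib ν (IsDn u H) (fun z => pP ν (IsDn u H) z < 2 * θY)
    refine le_trans hYh (le_of_eq ?_)
    refine Eq.trans ?_ (e.trans ?_)
    · exact tsum_congr fun l => by congr
    · exact tsum_congr fun z => by congr
  set F1 : Site d → ℝ≥0∞ := fun x => ∑' π, ∑' γ, (if IsUp u H π ∧ endp 0 π ∈ EX ∧ IsDn u H γ ∧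
      (∃ k, k ∈ Cm u x π γ) ∧ (∀ k ∈ Cm u x π γ, s < k ∧ k + s ≤ H)
      then aw ν π * aw ν γ else 0) with hF1
  set F2 : Site d → ℝ≥0∞ := fun x => ∑' π, ∑' γ, (if IsUp u H π ∧ endp 0 γ ∈ EY ∧ IsDn u H γ ∧
      (∃ k, k ∈ Cm u x π γ) ∧ (∀ k ∈ Cm u x π γ, s < k ∧ k + s ≤ H)
      then aw ν π * aw ν γ else 0) with hF2
  have g1 : 2 * θX * card {w : Lat u | β < F1 w.1} ≤ η' :=
    half ν u (us := us) (s := s) (C := C) (IsUp u H) hmX hX0 hX1 EX hcX F1 hβ hβt hl0 hlt
      (fun μ M hμ hM => h2 s H EX μ M lam hμ hM hl0 hlt) ha hb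
  have g2 : 2 * θY * card {w : Lat u | β < F2 w.1} ≤ η' :=
    half ν u (us := us) (s := s) (C := C) (IsDn u H) hmY hY0 hY1 EY hcY F2 hβ hβt hl0 hlt
      (fun μ M hμ hM => h3 s H EY μ M lam hμ hM hl0 hlt) ha hb
  refine ⟨{w : Lat u | β < F1 w.1}, {w : Lat u | β < F2 w.1},
    ⟨{L | pP ν (IsUp u H) (endp 0 (cat L).1) < 2 * θX}, 2 * θX, ?_, ?_,
      g1.trans (min_le_left _ _)⟩,
    ⟨{L | pP ν (IsDn u H) (endp 0 (cat L).2) < 2 * θY}, 2 * θY, ?_, ?_,
      g2.trans (min_le_left _ _)⟩, ?_⟩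
  · have h := sum_prod ν u H (fun π => pP ν (IsUp u H) (endp 0 π) < 2 * θX) (fun _ => True)
    refine le_trans ?_ (le_of_eq (h.symm.trans (tsum_congr fun L => ?_)))
    · refine (le_of_eq (show c * c * v = (c * v) * c by ring)).trans
        (mul_le_mul' (hXh.trans (le_of_eq ?_)) ((hY H).trans (le_of_eq ?_)))
      · exact tsum_congr fun l => ite_iff Iff.rfl
      · exact tsum_congr fun l => ite_iff ⟨fun h => ⟨h, trivial⟩, fun h => h.1⟩
    · exact ite_iff ⟨fun h => ⟨h.1, h.2.1⟩, fun h => ⟨h.1, h.2, trivial⟩⟩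
  · intro w w'
    have h := sum_cond ν u H (fun π γ => pP ν (IsUp u H) (endp 0 π) < 2 * θX ∧
      endp 0 π + endp 0 γ = w'.1 - w.1)
    refine le_trans (le_of_eq ((tsum_congr fun L => ?_).trans h)) ?_
    · have h5 : act (dl u) L w = w' ↔ endp 0 (cat L).1 + endp 0 (cat L).2 = w'.1 - w.1 := by
        constructor
        · rintro rfl
          rw [act_val]; abel
        · intro h6
          refine Subtype.ext ?_
          rw [act_val, h6]; abel
      refine ite_iff ?_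
      rw [h5]
      exact Iff.rfl
    · rw [ENNReal.tsum_comm]
      refine le_trans (le_of_eq ?_) (dens ν (IsUp u H) (IsDn u H) (2 * θX)
        (WM286.sum_dn_le_one ν u H) (w'.1 - w.1))
      exact tsum_congr fun γ => tsum_congr fun π => ite_iff Iff.rfl
  · have h := sum_prod ν u H (fun _ => True) (fun γ => pP ν (IsDn u H) (endp 0 γ) < 2 * θY)
    refine le_trans ?_ (le_of_eq (h.symm.trans (tsum_congr fun L => ?_)))
    · refine (le_of_eq (show c * c * v = c * (c * v) by ring)).trans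
        (mul_le_mul' ((hX H).trans (le_of_eq ?_)) (hYh.trans (le_of_eq ?_)))
      · exact tsum_congr fun l => ite_iff ⟨fun h => ⟨h, trivial⟩, fun h => h.1⟩
      · exact tsum_congr fun l => ite_iff Iff.rfl
    · exact ite_iff ⟨fun h => ⟨h.1, h.2.2⟩, fun h => ⟨h.1, trivial, h.2⟩⟩
  · intro w w'
    have h := sum_cond ν u H (fun π γ => pP ν (IsDn u H) (endp 0 γ) < 2 * θY ∧
      endp 0 γ + endp 0 π = w'.1 - w.1)
    refine le_trans (le_of_eq ((tsum_congr fun L => ?_).trans h)) ?_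
    · have h5 : act (dl u) L w = w' ↔ endp 0 (cat L).2 + endp 0 (cat L).1 = w'.1 - w.1 := by
        constructor
        · rintro rfl
          rw [act_val]; abel
        · intro h6
          refine Subtype.ext ?_
          rw [act_val, add_comm (endp 0 (cat L).1), h6]; abel
      refine ite_iff ?_
      rw [h5]
      exact Iff.rfl
    · refine le_trans (le_of_eq ?_) (dens ν (IsDn u H) (IsUp u H) (2 * θY)
        (WM286.sum_up_le_one ν u H) (w'.1 - w.1))
      refine tsum_congr fun π => tsum_congr fun γ => ?_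
      rw [mul_comm (aw ν π)]
      refine ite_iff ⟨fun h => ⟨h.2.1, h.1, h.2.2⟩, fun h => ⟨h.2.1, h.1, h.2.2⟩⟩
  · intro w hw1 hw2
    have hf1 : F1 w.1 ≤ β := not_lt.1 hw1
    have hf2 : F2 w.1 ≤ β := not_lt.1 hw2
    have h := sum_cond ν u H (fun π γ => Cm u w.1 π γ ≠ ∅ ∧
      ∀ k ∈ Cm u w.1 π γ, s < k ∧ k + s ≤ H)
    refine le_trans (le_of_eq ((tsum_congr fun L => ?_).trans h)) ?_
    · have h6 : CD (ht u) (dl u) (cd u) L w = Cm u w.1 (cat L).1 (cat L).2 := by
        rw [B5W.CD_cat, ← B5W.cds_eq]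
      refine ite_iff ?_
      rw [h6]
    calc _ ≤ ∑' π, ∑' γ, ((if IsUp u H π ∧ IsDn u H γ ∧ pP ν (IsUp u H) (endp 0 π) < θX ∧
            pP ν (IsDn u H) (endp 0 γ) < θY then aw ν π * aw ν γ else 0)
          + (if IsUp u H π ∧ endp 0 π ∈ EX ∧ IsDn u H γ ∧
            (∃ k, k ∈ Cm u w.1 π γ) ∧ (∀ k ∈ Cm u w.1 π γ, s < k ∧ k + s ≤ H)
            then aw ν π * aw ν γ else 0)
          + (if IsUp u H π ∧ endp 0 γ ∈ EY ∧ IsDn u H γ ∧
            (∃ k, k ∈ Cm u w.1 π γ) ∧ (∀ k ∈ Cm u w.1 π γ, s < k ∧ k + s ≤ H)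
            then aw ν π * aw ν γ else 0)) := by
          refine ENNReal.tsum_le_tsum fun π => ENNReal.tsum_le_tsum fun γ => ?_
          by_cases hc : IsUp u H π ∧ IsDn u H γ ∧ Cm u w.1 π γ ≠ ∅ ∧
              ∀ k ∈ Cm u w.1 π γ, s < k ∧ k + s ≤ H
          · rw [if_pos hc]
            obtain ⟨q1, q2, q3, q4⟩ := hc
            have q3' : ∃ k, k ∈ Cm u w.1 π γ := Set.nonempty_iff_ne_empty.2 q3
            by_cases hx : pP ν (IsUp u H) (endp 0 π) < θX
            · by_cases hy : pP ν (IsDn u H) (endp 0 γ) < θY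
              · rw [if_pos ⟨q1, q2, hx, hy⟩]
                exact le_add_right le_self_add
              · have hy' : endp 0 γ ∈ EY := (hEY _).2 (not_lt.1 hy)
                rw [if_pos (show IsUp u H π ∧ endp 0 γ ∈ EY ∧ IsDn u H γ ∧
                  (∃ k, k ∈ Cm u w.1 π γ) ∧ (∀ k ∈ Cm u w.1 π γ, s < k ∧ k + s ≤ H) from
                  ⟨q1, hy', q2, q3', q4⟩)]
                exact le_add_self
            · have hx' : endp 0 π ∈ EX := (hEX _).2 (not_lt.1 hx)
              rw [if_pos (show IsUp u H π ∧ endp 0 π ∈ EX ∧ IsDn u H γ ∧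
                (∃ k, k ∈ Cm u w.1 π γ) ∧ (∀ k ∈ Cm u w.1 π γ, s < k ∧ k + s ≤ H) from
                ⟨q1, hx', q2, q3', q4⟩)]
              exact le_add_right le_add_self
          · rw [if_neg hc]; exact zero_le
      _ = (∑' π, ∑' γ, (if IsUp u H π ∧ IsDn u H γ ∧ pP ν (IsUp u H) (endp 0 π) < θX ∧
            pP ν (IsDn u H) (endp 0 γ) < θY then aw ν π * aw ν γ else 0)) + F1 w.1 + F2 w.1 := by
          simp only [ENNReal.tsum_add, hF1, hF2]
      _ ≤ v * v + β + β := by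
          refine add_le_add (add_le_add ?_ hf1) hf2
          have h7 : (∑' π, ∑' γ, (if IsUp u H π ∧ IsDn u H γ ∧ pP ν (IsUp u H) (endp 0 π) < θX ∧
            pP ν (IsDn u H) (endp 0 γ) < θY then aw ν π * aw ν γ else 0))
              = (∑' π, if IsUp u H π ∧ pP ν (IsUp u H) (endp 0 π) < θX then aw ν π else 0)
                * ∑' γ, if IsDn u H γ ∧ pP ν (IsDn u H) (endp 0 γ) < θY then aw ν γ else 0 := by
            rw [← ENNReal.tsum_mul_right]
            refine tsum_congr fun π => ?_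
            rw [← ENNReal.tsum_mul_left]
            refine tsum_congr fun γ => ?_
            by_cases h1 : IsUp u H π <;> by_cases h2 : IsDn u H γ <;>
              by_cases h3 : pP ν (IsUp u H) (endp 0 π) < θX <;>
              by_cases h4 : pP ν (IsDn u H) (endp 0 γ) < θY <;> simp [h1, h2, h3, h4]
          rw [h7]
          have hcv1 : c * v ≤ v := by
            calc c * v ≤ 1 * v := mul_le_mul_left hc1 _
              _ = v := one_mul v
          exact mul_le_mul' (hXl.trans hcv1) (hYl.trans hcv1)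
      _ = v * v + η' := by rw [add_assoc, hβ', ENNReal.add_halves]
      _ ≤ v * v + η := add_le_add_right (min_le_left _ _) _

end Crest.Agent.R154.HW178
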