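import Crest.Agent.R154.B5Br_657
import Crest.Agent.R154.JHit_139
import Crest.Agent.R154.Sel_300

/-! Row 154, road 801, joint-cut frame (helper280): the window input `hW` of helper139's assembly
from the two window lemmas in words at a common height. -/

set_option autoImplicit false
set_option maxHeartbeats 1000000

open MeasureTheory ProbabilityTheory Crest.ProbabilityR.RandomEnvironment
open scoped ENNReal Topology

namespace Crest.Agent.R154.HW280

open Crest.Agent.R154.B5A Crest.Agent.R154.B5W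
open Crest.Agent.R154.Flux566 (endp sitesL endp_append endp_eq_add)
open Crest.Agent.R154.NB28 (IsUp IsDn Cm KW KappaW)
open Crest.Agent.R154.JAsm139 (Good card)
open Filter

variable {d : ℕ} (ν : Measure (Row d)) [IsProbabilityMeasure ν] (u : Step d)

open Classical in
/-- the part of the window with `X` landing in `E` -/
noncomputable def PhiX (s H : ℕ) (E : Finset (Site d)) (x : Site d) : ℝ≥0∞ :=
  ∑' π : List (Step d), ∑' γ : List (Step d),
    (if IsUp u H π ∧ IsDn u H γ ∧ endp 0 π ∈ E ∧ (∃ k, k ∈ Cm u x π γ) ∧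
      (∀ k ∈ Cm u x π γ, s < k) then NB28.aw ν π * NB28.aw ν γ else 0)

open Classical in
/-- the part of the window with `Y` landing in `E` -/
noncomputable def PhiY (s H : ℕ) (E : Finset (Site d)) (x : Site d) : ℝ≥0∞ :=
  ∑' π : List (Step d), ∑' γ : List (Step d),
    (if IsUp u H π ∧ IsDn u H γ ∧ endp 0 γ ∈ E ∧ (∃ k, k ∈ Cm u x π γ) ∧
      (∀ k ∈ Cm u x π γ, k + s ≤ H) then NB28.aw ν π * NB28.aw ν γ else 0)

/-- window lemma (2) at a common height -/
def E2 (C : ℝ≥0∞) (us : ℕ → ℝ≥0∞) : Prop :=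
  ∀ (s H : ℕ) (E : Finset (Site d)) (μ : Site d → ℝ≥0∞) (M lam : ℝ≥0∞),
    ∑' x, μ x ≤ 1 → (∀ x, μ x ≤ M) → lam ≠ 0 → lam ≠ ⊤ →
    ∑' x, (if Flux132.lev u x = 0 then μ x * PhiX ν u s H E x else 0)
      ≤ C * (lam + M * E.card * us s / lam + us s)

/-- window lemma (3) at a common height -/
def E3 (C : ℝ≥0∞) (us : ℕ → ℝ≥0∞) : Prop :=
  ∀ (s H : ℕ) (E : Finset (Site d)) (μ : Site d → ℝ≥0∞) (M lam : ℝ≥0∞),
    ∑' x, μ x ≤ 1 → (∀ x, μ x ≤ M) → lam ≠ 0 → lam ≠ ⊤ →
    ∑' x, (if Flux132.lev u x = 0 then μ x * PhiY ν u s H E x else 0)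
      ≤ C * (lam + M * E.card * us s / lam + us s)

/-- counting form -/
lemma count {W : Type*} (Φ : W → ℝ≥0∞) (C lam us N : ℝ≥0∞) (hC : C ≠ ⊤) (hC0 : C ≠ 0)
    (hl : lam ≠ 0) (hl' : lam ≠ ⊤) (hus : us ≠ ⊤)
    (h : ∀ (μ : W → ℝ≥0∞) (M : ℝ≥0∞), ∑' x, μ x ≤ 1 → (∀ x, μ x ≤ M) →
      ∑' x, μ x * Φ x ≤ C * (lam + M * N * us / lam + us)) :
    card {w | C * (2 * lam + us) < Φ w} ≤ N * us / (lam * lam) := by
  classical
  have hcard : card {w | C * (2 * lam + us) < Φ w}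
      = ⨆ F : Finset W, ∑ w ∈ F, ({w | C * (2 * lam + us) < Φ w}.indicator
        (fun _ => (1 : ℝ≥0∞)) w) := ENNReal.tsum_eq_iSup_sum
  rw [hcard]
  refine iSup_le fun F => ?_
  set G := F.filter (fun w => C * (2 * lam + us) < Φ w) with hG
  have e1 : ∑ w ∈ F, ({w | C * (2 * lam + us) < Φ w}.indicator (fun _ => (1 : ℝ≥0∞)) w)
      = (G.card : ℝ≥0∞) := by
    rw [hG, Finset.card_filter]
    push_cast
    refine Finset.sum_congr rfl fun w _ => ?_
    simp [Set.indicator_apply]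
  rw [e1]
  rcases Finset.eq_empty_or_nonempty G with h0 | hne
  · rw [h0]; simp
  have hn : (G.card : ℝ≥0∞) ≠ 0 := by
    simpa using hne.ne_empty
  have hnt : (G.card : ℝ≥0∞) ≠ ⊤ := ENNReal.natCast_ne_top _
  set μ : W → ℝ≥0∞ := fun w => if w ∈ G then (G.card : ℝ≥0∞)⁻¹ else 0 with hμ
  have hs : ∀ f : W → ℝ≥0∞, ∑' w, μ w * f w = ∑ w ∈ G, (G.card : ℝ≥0∞)⁻¹ * f w := by
    intro f
    rw [tsum_eq_sum (s := G)]
    · refine Finset.sum_congr rfl fun w hw => ?_
      simp [hμ, hw]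
    · intro w hw
      simp [hμ, hw]
  have h1 : ∑' w, μ w ≤ 1 := by
    have := hs (fun _ => 1)
    simp only [mul_one] at this
    rw [this, Finset.sum_const, nsmul_eq_mul, ENNReal.mul_inv_cancel hn hnt]
  have h2 : ∀ w, μ w ≤ (G.card : ℝ≥0∞)⁻¹ := by
    intro w
    simp only [hμ]
    split_ifs
    · exact le_rfl
    · exact zero_le
  have h3 := h μ _ h1 h2
  rw [hs] at h3
  have h4 : C * (2 * lam + us) ≤ ∑ w ∈ G, (G.card : ℝ≥0∞)⁻¹ * Φ w := by
    calc C * (2 * lam + us) = ∑ w ∈ G, (G.card : ℝ≥0∞)⁻¹ * (C * (2 * lam + us)) := by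
          rw [Finset.sum_const, nsmul_eq_mul, ← mul_assoc, ENNReal.mul_inv_cancel hn hnt, one_mul]
      _ ≤ _ := Finset.sum_le_sum fun w hw => mul_le_mul_right (Finset.mem_filter.1 hw).2.le _
  have h5 := h4.trans h3
  have h6 : 2 * lam + us ≤ lam + (G.card : ℝ≥0∞)⁻¹ * N * us / lam + us :=
    (ENNReal.mul_le_mul_iff_right hC0 hC).1 h5
  have h7 : lam + lam ≤ lam + (G.card : ℝ≥0∞)⁻¹ * N * us / lam := by
    rw [← two_mul]
    exact (ENNReal.add_le_add_iff_right hus).1 h6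
  have h8 : lam ≤ (G.card : ℝ≥0∞)⁻¹ * N * us / lam := (ENNReal.add_le_add_iff_left hl').1 h7
  have h9 : lam * lam ≤ (G.card : ℝ≥0∞)⁻¹ * N * us := by
    rwa [ENNReal.le_div_iff_mul_le (Or.inl hl) (Or.inl hl')] at h8
  rw [ENNReal.le_div_iff_mul_le (Or.inl (mul_ne_zero hl hl)) (Or.inl (ENNReal.mul_ne_top hl' hl'))]
  calc (G.card : ℝ≥0∞) * (lam * lam) ≤ G.card * ((G.card : ℝ≥0∞)⁻¹ * N * us) :=
        mul_le_mul_right h9 _
    _ = (G.card * (G.card : ℝ≥0∞)⁻¹) * (N * us) := by ring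
    _ = N * us := by rw [ENNReal.mul_inv_cancel hn hnt, one_mul]

/-- displacement of a list -/
lemma act_cat (L : List (PB u)) (w : Lat u) :
    (act (dl u) L w).1 = w.1 + endp 0 (cat L).1 + endp 0 (cat L).2 := by
  induction L generalizing w with
  | nil => simp [act, cat, endp]
  | cons b L ih =>
    simp only [act]
    rw [ih]
    simp only [dl, dlp, cat, pm]
    rw [endp_append, endp_append, endp_eq_add b.1.1 (endp 0 (cat L).1),
      endp_eq_add (cat L).2 (endp 0 b.1.2)]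
    abel

/-! ### generic product facts -/

section gen

set_option linter.unusedSectionVars false

variable {α β G : Type*} [AddCommGroup G]

open Classical in
/-- law of `f` on `P` -/
noncomputable def pl (P : α → Prop) (a : α → ℝ≥0∞) (f : α → G) (z : G) : ℝ≥0∞ :=
  ∑' x, if P x ∧ f x = z then a x else 0

open Classical in
lemma pl_push (P : α → Prop) (a : α → ℝ≥0∞) (f : α → G) (F : G → ℝ≥0∞) :
    ∑' x, (if P x then a x * F (f x) else 0) = ∑' z, pl P a f z * F z := by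
  have h : ∀ z, pl P a f z * F z = ∑' x, (if P x ∧ f x = z then a x * F z else 0) := by
    intro z
    rw [pl, ← ENNReal.tsum_mul_right]
    refine tsum_congr fun x => ?_
    split_ifs <;> simp
  simp_rw [h]
  rw [ENNReal.tsum_comm]
  refine tsum_congr fun x => ?_
  rw [tsum_eq_single (f x)]
  · by_cases hx : P x <;> simp [hx]
  · intro z hz
    rw [if_neg fun h' => hz h'.2.symm]

open Classical in
lemma pl_sum (P : α → Prop) (a : α → ℝ≥0∞) (f : α → G) :
    ∑' z, pl P a f z = ∑' x, (if P x then a x else 0) := by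
  have := pl_push P a f (fun _ => 1)
  simp only [mul_one] at this
  exact this.symm

open Classical in
lemma dens_gen (P : α → Prop) (Q : β → Prop) (a : α → ℝ≥0∞) (b : β → ℝ≥0∞) (f : α → G)
    (g : β → G) (θ : ℝ≥0∞) (hb : ∑' y, (if Q y then b y else 0) ≤ 1) (z0 : G) :
    ∑' x, ∑' y, (if P x ∧ Q y ∧ pl P a f (f x) ≤ θ ∧ f x + g y = z0 then a x * b y else 0) ≤ θ := by
  rw [ENNReal.tsum_comm]
  calc _ ≤ ∑' y, (if Q y then b y else 0) * θ := by
        refine ENNReal.tsum_le_tsum fun y => ?_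
        by_cases hy : Q y
        · rw [if_pos hy]
          by_cases hz : pl P a f (z0 - g y) ≤ θ
          · calc _ ≤ ∑' x, b y * (if P x ∧ f x = z0 - g y then a x else 0) := by
                  refine ENNReal.tsum_le_tsum fun x => ?_
                  split_ifs with h1 h2 h2
                  · rw [mul_comm]
                  · exact absurd ⟨h1.1, eq_sub_of_add_eq h1.2.2.2⟩ h2
                  · exact zero_le
                  · exact zero_le
              _ = b y * pl P a f (z0 - g y) := ENNReal.tsum_mul_left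
              _ ≤ b y * θ := mul_le_mul_right hz _
          · refine le_trans (le_of_eq ?_) zero_le
            rw [ENNReal.tsum_eq_zero]
            intro x
            rw [if_neg]
            rintro ⟨_, _, h3, h4⟩
            rw [eq_sub_of_add_eq h4] at h3
            exact hz h3
        · simp [hy]
    _ = (∑' y, (if Q y then b y else 0)) * θ := ENNReal.tsum_mul_right
    _ ≤ 1 * θ := mul_le_mul_left hb _
    _ = θ := one_mul _

open Classical in
lemma prod_gen (P : α → Prop) (Q : β → Prop) (a : α → ℝ≥0∞) (b : β → ℝ≥0∞) :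
    ∑' x, ∑' y, (if P x ∧ Q y then a x * b y else 0)
      = (∑' x, (if P x then a x else 0)) * ∑' y, (if Q y then b y else 0) := by
  rw [← ENNReal.tsum_mul_right]
  refine tsum_congr fun x => ?_
  rw [← ENNReal.tsum_mul_left]
  refine tsum_congr fun y => ?_
  by_cases h1 : P x <;> by_cases h2 : Q y <;> simp [h1, h2]

open Classical in
/-- dyadic data of a law -/
lemma side (p : G → ℝ≥0∞) (c v : ℝ≥0∞) (hp : ∑' z, p z ≤ 1) (hc : c ≤ ∑' z, p z) (hv : v ≠ 0)
    (hv1 : v ≤ 1) : ∃ (k : ℕ) (E : Finset G), (∑' z, (if z ∉ E then p z else 0)) ≤ v ∧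
      c * v ≤ (∑' z, (if p z ≤ 2 * (2 ^ k)⁻¹ then p z else 0)) ∧ (E.card : ℝ≥0∞) ≤ 2 ^ k := by
  obtain ⟨k, h1, h2, h3, h4⟩ := Sel300.dyq p hp hv
  refine ⟨k, h3.toFinset, ?_, ?_, ?_⟩
  · refine le_trans (le_of_eq (tsum_congr fun z => ?_)) h1
    have : z ∉ h3.toFinset ↔ p z < (2 ^ k)⁻¹ := by
      simp
    by_cases hz : p z < (2 ^ k)⁻¹
    · rw [if_pos hz, if_pos (this.2 hz)]
    · rw [if_neg hz, if_neg fun h => hz (this.1 h)]
  · have hc1 : c ≤ 1 := hc.trans hp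
    rcases h2 with h0 | h2
    · subst h0
      calc c * v ≤ c * 1 := mul_le_mul_right hv1 _
        _ = c := mul_one _
        _ ≤ ∑' z, p z := hc
        _ ≤ _ := by
          refine ENNReal.tsum_le_tsum fun z => ?_
          rw [if_pos]
          calc p z ≤ ∑' z, p z := ENNReal.le_tsum z
            _ ≤ 1 := hp
            _ ≤ 2 * (2 ^ 0)⁻¹ := by simp
    · calc c * v ≤ 1 * v := mul_le_mul_left hc1 _
        _ = v := one_mul _
        _ ≤ _ := h2
  · rw [← Set.ncard_eq_toFinset_card _ h3]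
    exact_mod_cast h4

end gen

open Classical in
lemma tsum_lat (f : Site d → ℝ≥0∞) :
    ∑' w : Lat u, f w.1 = ∑' x, (if Flux132.lev u x = 0 then f x else 0) := by
  have h1 := tsum_subtype {x : Site d | Flux132.lev u x = 0} f
  rw [show (∑' w : Lat u, f w.1) = ∑' w : {x : Site d | Flux132.lev u x = 0}, f w.1 from rfl, h1]
  refine tsum_congr fun x => ?_
  simp [Set.indicator_apply]

open Classical in
lemma count_lat (Φ : Site d → ℝ≥0∞) (C lam us N : ℝ≥0∞) (hC : C ≠ ⊤) (hC0 : C ≠ 0)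
    (hl : lam ≠ 0) (hl' : lam ≠ ⊤) (hus : us ≠ ⊤)
    (h : ∀ (μ : Site d → ℝ≥0∞) (M : ℝ≥0∞), ∑' x, μ x ≤ 1 → (∀ x, μ x ≤ M) →
      ∑' x, (if Flux132.lev u x = 0 then μ x * Φ x else 0) ≤ C * (lam + M * N * us / lam + us)) :
    card {w : Lat u | C * (2 * lam + us) < Φ w.1} ≤ N * us / (lam * lam) := by
  refine count (fun w : Lat u => Φ w.1) C lam us N hC hC0 hl hl' hus fun μ M h1 h2 => ?_
  set μ' : Site d → ℝ≥0∞ := fun x => if hx : Flux132.lev u x = 0 then μ ⟨x, hx⟩ else 0 with hμ'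
  have e1 : ∀ w : Lat u, μ' w.1 = μ w := fun w => by
    simp only [hμ']
    rw [dif_pos (show Flux132.lev u w.1 = 0 from w.2)]
    rfl
  have e2 : ∑' x, μ' x = ∑' w, μ w := by
    rw [← tsum_congr e1, tsum_lat u μ']
    refine tsum_congr fun x => ?_
    by_cases hx : Flux132.lev u x = 0
    · rw [if_pos hx]
    · rw [if_neg hx]; simp [hμ', hx]
  have e3 : ∑' w : Lat u, μ w * Φ w.1
      = ∑' x, (if Flux132.lev u x = 0 then μ' x * Φ x else 0) := by
    rw [← tsum_lat u (fun x => μ' x * Φ x)]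
    refine tsum_congr fun w => ?_
    rw [e1]
  rw [e3]
  refine h μ' M (e2 ▸ h1) fun x => ?_
  simp only [hμ']
  split_ifs
  · exact h2 _
  · exact zero_le

open Classical in
/-- sums over lists of exact height with a condition on the words -/
lemma tsum_cond (n : ℕ) (P : List (Step d) → List (Step d) → Prop) (R : List (PB u) → Prop)
    (hR : ∀ L, R L ↔ P (cat L).1 (cat L).2) :
    ∑' L : List (PB u), (if HT (ht u) L = n ∧ R L then LW (Lam ν u) L else 0)
      = ∑' π : List (Step d), ∑' γ : List (Step d),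
        if IsUp u n π ∧ IsDn u n γ ∧ P π γ then NB28.aw ν π * NB28.aw ν γ else 0 := by
  have h := tsum_L ν u n (fun x => if P x.1 x.2 then 1 else 0)
  refine Eq.trans ?_ (h.trans ?_)
  · refine tsum_congr fun L => ?_
    by_cases h1 : HT (ht u) L = n
    · by_cases h2 : R L
      · rw [if_pos ⟨h1, h2⟩, if_pos h1, if_pos ((hR L).1 h2), mul_one]
      · rw [if_neg (fun h' => h2 h'.2), if_pos h1, if_neg (fun h' => h2 ((hR L).2 h')), mul_zero]
    · rw [if_neg (fun h' => h1 h'.1), if_neg h1]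
  · refine tsum_congr fun π => tsum_congr fun γ => ?_
    by_cases h1 : IsUp u n π ∧ IsDn u n γ
    · by_cases h2 : P π γ
      · rw [if_pos h1, if_pos h2, if_pos ⟨h1.1, h1.2, h2⟩, mul_one]
      · rw [if_pos h1, if_neg h2, if_neg (fun h' => h2 h'.2.2), mul_zero]
    · rw [if_neg h1, if_neg (fun h' => h1 ⟨h'.1, h'.2.1⟩)]

open Classical in
lemma up_le_one (n : ℕ) : ∑' π : List (Step d), (if IsUp u n π then NB28.aw ν π else 0) ≤ 1 :=
  sum_if_le_one ν fun _ _ h h' hp => NB28.isUp_prefix h h' hp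

open Classical in
lemma dn_le_one (n : ℕ) : ∑' π : List (Step d), (if IsDn u n π then NB28.aw ν π else 0) ≤ 1 :=
  sum_if_le_one ν fun _ _ h h' hp => NB28.isDn_prefix h h' hp

open Classical in
/-- `Good` from the smallness of the set, `X` side -/
lemma good_X (c v : ℝ≥0∞) (H k : ℕ) (hdn : c ≤ ∑' γ : List (Step d), if IsDn u H γ then NB28.aw ν γ else 0)
    (hlow : c * v ≤ ∑' z, (if pl (IsUp u H) (NB28.aw ν) (endp 0) z ≤ 2 * (2 ^ k)⁻¹ then
      pl (IsUp u H) (NB28.aw ν) (endp 0) z else 0)) (S : Set (Lat u)) (η : ℝ≥0∞)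
    (hS : 2 * (2 ^ k : ℝ≥0∞)⁻¹ * card S ≤ η) :
    Good (Lam ν u) (ht u) (dl u) (c * c * v) η H S := by
  set p := pl (IsUp u H) (NB28.aw ν) (endp 0) with hp
  set θ : ℝ≥0∞ := 2 * (2 ^ k)⁻¹ with hθ
  refine ⟨{L | p (endp 0 (cat L).1) ≤ θ}, θ, ?_, ?_, hS⟩
  · have e := tsum_cond ν u H (fun π _ => p (endp 0 π) ≤ θ)
      (fun L => L ∈ {L : List (PB u) | p (endp 0 (cat L).1) ≤ θ}) (fun L => Iff.rfl)
    have e2 := prod_gen (fun π => IsUp u H π ∧ p (endp 0 π) ≤ θ) (IsDn u H) (NB28.aw ν) (NB28.aw ν)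
    have e4 : (∑' π : List (Step d), (if IsUp u H π ∧ p (endp 0 π) ≤ θ then NB28.aw ν π else 0))
        = ∑' z, (if p z ≤ θ then p z else 0) := by
      have := pl_push (IsUp u H) (NB28.aw ν) (endp 0) (fun z => if p z ≤ θ then 1 else 0)
      refine Eq.trans (tsum_congr fun π => ?_) (this.trans (tsum_congr fun z => ?_))
      · by_cases h1 : IsUp u H π <;> by_cases h3 : p (endp 0 π) ≤ θ <;> simp [h1, h3]
      · simp [hp]
    have e5 : c * c * v ≤ (∑' π : List (Step d), (if IsUp u H π ∧ p (endp 0 π) ≤ θ then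
        NB28.aw ν π else 0)) * ∑' γ : List (Step d), (if IsDn u H γ then NB28.aw ν γ else 0) := by
      rw [e4]
      calc c * c * v = (c * v) * c := by ring
        _ ≤ _ := mul_le_mul' hlow hdn
    refine e5.trans (le_of_eq (Eq.trans (Eq.trans ?_ e2.symm) (Eq.trans ?_ (Eq.trans e.symm ?_))))
    · refine congrArg₂ (· * ·) (tsum_congr fun π => ?_) rfl
      congr
    · refine tsum_congr fun π => tsum_congr fun γ => ?_
      by_cases h1 : IsUp u H π <;> by_cases h2 : IsDn u H γ <;> by_cases h3 : p (endp 0 π) ≤ θ <;>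
        simp [h1, h2, h3]
    · refine tsum_congr fun L => ?_
      congr
  · intro w w'
    have e := tsum_cond ν u H (fun π γ => p (endp 0 π) ≤ θ ∧ endp 0 π + endp 0 γ = w'.1 - w.1)
      (fun L => L ∈ {L : List (PB u) | p (endp 0 (cat L).1) ≤ θ} ∧ act (dl u) L w = w')
      (fun L => by
        refine and_congr Iff.rfl ?_
        rw [show (act (dl u) L w = w') ↔ ((act (dl u) L w).1 = w'.1) from
          ⟨fun h => by rw [h], fun h => Subtype.ext h⟩, act_cat]
        constructor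
        · intro h; rw [← h]; abel
        · intro h; rw [add_assoc, h]; abel)
    refine le_trans (le_of_eq ((tsum_congr fun L => ?_).trans e)) (le_trans (le_of_eq
      (tsum_congr fun π => tsum_congr fun γ => ?_)) (dens_gen (IsUp u H) (IsDn u H) (NB28.aw ν)
        (NB28.aw ν) (endp 0) (endp 0) θ (dn_le_one ν u H) (w'.1 - w.1)))
    · congr
    · congr

open Classical in
/-- `Good` from the smallness of the set, `Y` side -/
lemma good_Y (c v : ℝ≥0∞) (H k : ℕ) (hup : c ≤ ∑' γ : List (Step d), if IsUp u H γ then NB28.aw ν γ else 0)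
    (hlow : c * v ≤ ∑' z, (if pl (IsDn u H) (NB28.aw ν) (endp 0) z ≤ 2 * (2 ^ k)⁻¹ then
      pl (IsDn u H) (NB28.aw ν) (endp 0) z else 0)) (S : Set (Lat u)) (η : ℝ≥0∞)
    (hS : 2 * (2 ^ k : ℝ≥0∞)⁻¹ * card S ≤ η) :
    Good (Lam ν u) (ht u) (dl u) (c * c * v) η H S := by
  set p := pl (IsDn u H) (NB28.aw ν) (endp 0) with hp
  set θ : ℝ≥0∞ := 2 * (2 ^ k)⁻¹ with hθ
  refine ⟨{L | p (endp 0 (cat L).2) ≤ θ}, θ, ?_, ?_, hS⟩
  · have e := tsum_cond ν u H (fun _ γ => p (endp 0 γ) ≤ θ)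
      (fun L => L ∈ {L : List (PB u) | p (endp 0 (cat L).2) ≤ θ}) (fun L => Iff.rfl)
    have e2 := prod_gen (IsUp u H) (fun γ => IsDn u H γ ∧ p (endp 0 γ) ≤ θ) (NB28.aw ν) (NB28.aw ν)
    have e4 : (∑' π : List (Step d), (if IsDn u H π ∧ p (endp 0 π) ≤ θ then NB28.aw ν π else 0))
        = ∑' z, (if p z ≤ θ then p z else 0) := by
      have := pl_push (IsDn u H) (NB28.aw ν) (endp 0) (fun z => if p z ≤ θ then 1 else 0)
      refine Eq.trans (tsum_congr fun π => ?_) (this.trans (tsum_congr fun z => ?_))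
      · by_cases h1 : IsDn u H π <;> by_cases h3 : p (endp 0 π) ≤ θ <;> simp [h1, h3]
      · simp [hp]
    have e5 : c * c * v ≤ (∑' γ : List (Step d), (if IsUp u H γ then NB28.aw ν γ else 0)) *
        (∑' π : List (Step d), (if IsDn u H π ∧ p (endp 0 π) ≤ θ then NB28.aw ν π else 0)) := by
      rw [e4]
      calc c * c * v = c * (c * v) := by ring
        _ ≤ _ := mul_le_mul' hup hlow
    refine e5.trans (le_of_eq (Eq.trans (Eq.trans ?_ e2.symm) (Eq.trans ?_ (Eq.trans e.symm ?_))))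
    · refine congrArg₂ (· * ·) rfl (tsum_congr fun π => ?_)
      congr
    · refine tsum_congr fun π => tsum_congr fun γ => ?_
      by_cases h1 : IsUp u H π <;> by_cases h2 : IsDn u H γ <;> by_cases h3 : p (endp 0 γ) ≤ θ <;>
        simp [h1, h2, h3]
    · refine tsum_congr fun L => ?_
      congr
  · intro w w'
    have e := tsum_cond ν u H (fun π γ => p (endp 0 γ) ≤ θ ∧ endp 0 γ + endp 0 π = w'.1 - w.1)
      (fun L => L ∈ {L : List (PB u) | p (endp 0 (cat L).2) ≤ θ} ∧ act (dl u) L w = w')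
      (fun L => by
        refine and_congr Iff.rfl ?_
        rw [show (act (dl u) L w = w') ↔ ((act (dl u) L w).1 = w'.1) from
          ⟨fun h => by rw [h], fun h => Subtype.ext h⟩, act_cat]
        constructor
        · intro h; rw [← h]; abel
        · intro h
          rw [add_assoc, add_comm (endp 0 (cat L).1), h]; abel)
    refine le_trans (le_of_eq ((tsum_congr fun L => ?_).trans e)) ?_
    · congr
    rw [ENNReal.tsum_comm]
    refine le_trans (le_of_eq ?_) (dens_gen (IsDn u H) (IsUp u H) (NB28.aw ν) (NB28.aw ν) (endp 0)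
      (endp 0) θ (up_le_one ν u H) (w'.1 - w.1))
    refine tsum_congr fun γ => tsum_congr fun π => ?_
    by_cases h1 : IsUp u H π
    · by_cases h2 : IsDn u H γ
      · by_cases h3 : p (endp 0 γ) ≤ θ ∧ endp 0 γ + endp 0 π = w'.1 - w.1
        · rw [if_pos ⟨h1, h2, h3⟩, if_pos ⟨h2, h1, h3⟩, mul_comm]
        · rw [if_neg (fun h => h3 h.2.2), if_neg (fun h => h3 h.2.2)]
      · rw [if_neg (fun h => h2 h.2.1), if_neg (fun h => h2 h.1)]
    · rw [if_neg (fun h => h1 h.1), if_neg (fun h => h1 h.2.1)]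

open Classical in
/-- mass outside a finite set of landings -/
lemma out_eq (P : List (Step d) → Prop) (E : Finset (Site d)) :
    (∑' π : List (Step d), (if P π ∧ endp 0 π ∉ E then NB28.aw ν π else 0))
      = ∑' z, (if z ∉ E then pl P (NB28.aw ν) (endp 0) z else 0) := by
  have := pl_push P (NB28.aw ν) (endp 0) (fun z => if z ∉ E then 1 else 0)
  refine Eq.trans (tsum_congr fun π => ?_) (this.trans (tsum_congr fun z => ?_))
  · by_cases h1 : P π <;> by_cases h3 : endp 0 π ∉ E <;> simp [h1, h3]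
  · by_cases h3 : z ∉ E <;> simp [h3]

open Classical in
/-- three parts of the window -/
lemma win_le (s H : ℕ) (EX EY : Finset (Site d)) (w : Lat u) :
    (∑' L : List (PB u), if HT (ht u) L = H ∧ CD (ht u) (dl u) (cd u) L w ≠ ∅ ∧
        (∀ k ∈ CD (ht u) (dl u) (cd u) L w, s < k ∧ k + s ≤ H) then LW (Lam ν u) L else 0)
      ≤ (∑' z, (if z ∉ EX then pl (IsUp u H) (NB28.aw ν) (endp 0) z else 0))
          * (∑' z, (if z ∉ EY then pl (IsDn u H) (NB28.aw ν) (endp 0) z else 0))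
        + (PhiX ν u s H EX w.1 + PhiY ν u s H EY w.1) := by
  have e := tsum_cond ν u H (fun π γ => Cm u w.1 π γ ≠ ∅ ∧ ∀ k ∈ Cm u w.1 π γ, s < k ∧ k + s ≤ H)
    (fun L => CD (ht u) (dl u) (cd u) L w ≠ ∅ ∧
      ∀ k ∈ CD (ht u) (dl u) (cd u) L w, s < k ∧ k + s ≤ H) (fun L => by
      rw [CD_cat, ← cds_eq])
  refine le_trans (le_of_eq (Eq.trans (tsum_congr fun L => ?_) e)) ?_
  · congr
  rw [← out_eq, ← out_eq]
  have e2 := prod_gen (fun π => IsUp u H π ∧ endp 0 π ∉ EX) (fun γ => IsDn u H γ ∧ endp 0 γ ∉ EY)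
    (NB28.aw ν) (NB28.aw ν)
  have e3 : (∑' π : List (Step d), ∑' γ : List (Step d),
      (if (IsUp u H π ∧ endp 0 π ∉ EX) ∧ (IsDn u H γ ∧ endp 0 γ ∉ EY) then
        NB28.aw ν π * NB28.aw ν γ else 0))
      = (∑' π : List (Step d), (if IsUp u H π ∧ endp 0 π ∉ EX then NB28.aw ν π else 0))
        * ∑' γ : List (Step d), (if IsDn u H γ ∧ endp 0 γ ∉ EY then NB28.aw ν γ else 0) := by
    refine Eq.trans (tsum_congr fun π => tsum_congr fun γ => ?_) (e2.trans
      (congrArg₂ (· * ·) (tsum_congr fun π => ?_) (tsum_congr fun γ => ?_))) <;> congr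
  rw [← e3]
  unfold PhiX PhiY
  rw [← ENNReal.tsum_add, ← ENNReal.tsum_add]
  refine ENNReal.tsum_le_tsum fun π => ?_
  rw [← ENNReal.tsum_add, ← ENNReal.tsum_add]
  refine ENNReal.tsum_le_tsum fun γ => ?_
  by_cases h : IsUp u H π ∧ IsDn u H γ ∧ (Cm u w.1 π γ ≠ ∅ ∧ ∀ k ∈ Cm u w.1 π γ, s < k ∧ k + s ≤ H)
  swap
  · rw [if_neg h]; exact zero_le
  rw [if_pos h]
  obtain ⟨h1, h2, h3, h4⟩ := h
  have h3' : ∃ k, k ∈ Cm u w.1 π γ := Set.nonempty_iff_ne_empty.2 h3
  by_cases hX : endp 0 π ∈ EX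
  · refine le_add_left (le_add_right ?_)
    rw [if_pos ⟨h1, h2, hX, h3', fun k hk => (h4 k hk).1⟩]
  · by_cases hY : endp 0 γ ∈ EY
    · refine le_add_left (le_add_left ?_)
      rw [if_pos ⟨h1, h2, hY, h3', fun k hk => (h4 k hk).2⟩]
    · refine le_add_right ?_
      rw [if_pos ⟨⟨h1, hX⟩, h2, hY⟩]

lemma small_of (k : ℕ) (N us lam X δ : ℝ≥0∞) (hN : N ≤ 2 ^ k) (hX : X ≤ N * us / (lam * lam))
    (hl : lam * lam ≠ 0) (hl' : lam * lam ≠ ⊤) (hus : us ≤ δ * (lam * lam) / 2) :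
    2 * (2 ^ k : ℝ≥0∞)⁻¹ * X ≤ δ := by
  have h2 : (2 : ℝ≥0∞) ^ k ≠ 0 := by positivity
  have h2' : (2 : ℝ≥0∞) ^ k ≠ ⊤ := by simp
  calc 2 * (2 ^ k : ℝ≥0∞)⁻¹ * X ≤ 2 * (2 ^ k : ℝ≥0∞)⁻¹ * (2 ^ k * (δ * (lam * lam) / 2) / (lam * lam)) := by
        refine mul_le_mul_right (hX.trans ?_) _
        gcongr
    _ = (2 ^ k * (2 ^ k : ℝ≥0∞)⁻¹) * ((2 * 2⁻¹) * ((lam * lam) * (lam * lam)⁻¹)) * δ := by
        simp only [div_eq_mul_inv]
        ring
    _ = δ := by
        rw [ENNReal.mul_inv_cancel h2 h2', ENNReal.mul_inv_cancel two_ne_zero ENNReal.ofNat_ne_top,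
          ENNReal.mul_inv_cancel hl hl']
        ring

open Classical in
/-- **the input `hW` of helper139's joint-cut assembly** -/
theorem hW (c : ℝ≥0∞)
    (hup : ∀ n, c ≤ ∑' π : List (Step d), if IsUp u n π then NB28.aw ν π else 0)
    (hdn : ∀ n, c ≤ ∑' γ : List (Step d), if IsDn u n γ then NB28.aw ν γ else 0)
    (C : ℝ≥0∞) (hC : C ≠ ⊤) (us : ℕ → ℝ≥0∞) (hus : Tendsto us atTop (𝓝 0))
    (hE2 : E2 ν u C us) (hE3 : E3 ν u C us) (v η : ℝ≥0∞) (hv : v ≠ 0) (hv1 : v ≤ 1) (hη : η ≠ 0) :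
    ∃ s H0 : ℕ, ∀ H, H0 ≤ H → ∃ S1 S2 : Set (Lat u),
      Good (Lam ν u) (ht u) (dl u) (c * c * v) η H S1 ∧
      Good (Lam ν u) (ht u) (dl u) (c * c * v) η H S2 ∧
      ∀ w : Lat u, w ∉ S1 → w ∉ S2 →
        (∑' L : List (PB u), if HT (ht u) L = H ∧ CD (ht u) (dl u) (cd u) L w ≠ ∅ ∧
          (∀ k ∈ CD (ht u) (dl u) (cd u) L w, s < k ∧ k + s ≤ H) then LW (Lam ν u) L else 0)
        ≤ v * v + η := by
  set δ : ℝ≥0∞ := min η 1 with hδ
  have hδ0 : δ ≠ 0 := by
    rw [hδ]; exact (lt_min (pos_iff_ne_zero.2 hη) one_pos).ne'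
  have hδt : δ ≠ ⊤ := ne_top_of_le_ne_top ENNReal.one_ne_top (min_le_right _ _)
  have hδη : δ ≤ η := min_le_left _ _
  set C' : ℝ≥0∞ := C + 1 with hC'
  have hC0 : C' ≠ 0 := by rw [hC']; simp
  have hCt : C' ≠ ⊤ := by rw [hC']; exact ENNReal.add_ne_top.2 ⟨hC, ENNReal.one_ne_top⟩
  set lam : ℝ≥0∞ := δ / (6 * C') with hlam
  have h6 : 6 * C' ≠ ⊤ := ENNReal.mul_ne_top ENNReal.ofNat_ne_top hCt
  have h60 : 6 * C' ≠ 0 := mul_ne_zero (by norm_num) hC0
  have hl : lam ≠ 0 := ENNReal.div_ne_zero.2 ⟨hδ0, h6⟩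
  have hl' : lam ≠ ⊤ := (ENNReal.div_lt_top hδt h60).ne
  have hll : lam * lam ≠ 0 := mul_ne_zero hl hl
  have hll' : lam * lam ≠ ⊤ := ENNReal.mul_ne_top hl' hl'
  have hκ : 0 < min lam (δ * (lam * lam) / 2) := by
    refine lt_min (pos_iff_ne_zero.2 hl) (pos_iff_ne_zero.2 ?_)
    exact ENNReal.div_ne_zero.2 ⟨mul_ne_zero hδ0 hll, ENNReal.ofNat_ne_top⟩
  obtain ⟨s, hs⟩ := (hus.eventually_lt_const hκ).exists
  have hs1 : us s ≤ lam := hs.le.trans (min_le_left _ _)
  have hs2 : us s ≤ δ * (lam * lam) / 2 := hs.le.trans (min_le_right _ _)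
  have hst : us s ≠ ⊤ := ne_top_of_le_ne_top hl' hs1
  have hτ : C' * (2 * lam + us s) + C' * (2 * lam + us s) ≤ η := by
    calc C' * (2 * lam + us s) + C' * (2 * lam + us s)
        ≤ C' * (2 * lam + lam) + C' * (2 * lam + lam) := by gcongr
      _ = (6 * C') * lam := by ring
      _ = δ := by rw [hlam]; exact ENNReal.mul_div_cancel h60 h6
      _ ≤ η := hδη
  refine ⟨s, 0, fun H _ => ?_⟩
  have hX1 : ∑' z, pl (IsUp u H) (NB28.aw ν) (endp 0) z ≤ 1 := by
    rw [pl_sum]; exact up_le_one ν u H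
  have hY1 : ∑' z, pl (IsDn u H) (NB28.aw ν) (endp 0) z ≤ 1 := by
    rw [pl_sum]; exact dn_le_one ν u H
  obtain ⟨kX, EX, hX2, hX3, hX4⟩ := side (pl (IsUp u H) (NB28.aw ν) (endp 0)) c v hX1
    (by rw [pl_sum]; exact hup H) hv hv1
  obtain ⟨kY, EY, hY2, hY3, hY4⟩ := side (pl (IsDn u H) (NB28.aw ν) (endp 0)) c v hY1
    (by rw [pl_sum]; exact hdn H) hv hv1
  have c1 := count_lat u (PhiX ν u s H EX) C' lam (us s) EX.card hCt hC0 hl hl' hst
    (fun μ M h1 h2 => (hE2 s H EX μ M lam h1 h2 hl hl').trans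
      (mul_le_mul_left (by rw [hC']; exact le_self_add) _))
  have c2 := count_lat u (PhiY ν u s H EY) C' lam (us s) EY.card hCt hC0 hl hl' hst
    (fun μ M h1 h2 => (hE3 s H EY μ M lam h1 h2 hl hl').trans
      (mul_le_mul_left (by rw [hC']; exact le_self_add) _))
  refine ⟨{w : Lat u | C' * (2 * lam + us s) < PhiX ν u s H EX w.1},
    {w : Lat u | C' * (2 * lam + us s) < PhiY ν u s H EY w.1}, ?_, ?_, ?_⟩
  · exact good_X ν u c v H kX (hdn H) hX3 _ η
      ((small_of kX EX.card (us s) lam _ δ hX4 c1 hll hll' hs2).trans hδη)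
  · exact good_Y ν u c v H kY (hup H) hY3 _ η
      ((small_of kY EY.card (us s) lam _ δ hY4 c2 hll hll' hs2).trans hδη)
  · intro w hw1 hw2
    have g1 : PhiX ν u s H EX w.1 ≤ C' * (2 * lam + us s) := not_lt.1 hw1
    have g2 : PhiY ν u s H EY w.1 ≤ C' * (2 * lam + us s) := not_lt.1 hw2
    refine (win_le ν u s H EX EY w).trans ?_
    exact add_le_add (mul_le_mul' (le_trans (le_of_eq (tsum_congr fun z => by congr)) hX2)
      (le_trans (le_of_eq (tsum_congr fun z => by congr)) hY2)) ((add_le_add g1 g2).trans hτ)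

end Crest.Agent.R154.HW280
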