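import Crest.Agent.R154.HWinB_19
import Crest.Agent.R154.E2_742
import Crest.Agent.R154.E3_934
import Crest.Agent.R154.HSl_689
import Crest.Agent.R154.AsmA_789

/-! Row 154, ROAD 801, frame B (helper343): helper139's `hW` for helper657's word instance, from
the two window lemmas `E2` (helper742) and `E3` (helper934). -/

set_option autoImplicit false

open MeasureTheory ProbabilityTheory Crest.ProbabilityR.RandomEnvironment
open scoped ENNReal

namespace Crest.Agent.R154.HW343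

open Crest.Agent.R154.B5A Crest.Agent.R154.B5W
open Crest.Agent.R154.JAsm139 (Good card)
open Crest.Agent.R154.Flux566 (endp sitesL endp_append endp_eq_add)
open Crest.Agent.R154.NB28 (IsUp IsDn Cm)

variable {d : ℕ}

/-! ### counting -/

open Classical in
theorem quant {ι : Type*} (p : ι → ℝ≥0∞) (hp : ∑' i, p i ≤ 1) {v : ℝ≥0∞} (hv : v ≠ 0)
    (hv1 : v ≤ ∑' i, p i) : ∃ θ : ℝ≥0∞, θ ≠ 0 ∧ θ ≤ 1 ∧ (∑' i, if p i < θ then p i else 0) ≤ v ∧
      v ≤ (∑' i, if p i < 2 * θ then p i else 0) := by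
  have hex := AsmA789.exists_small p hp hv
  set P : ℕ → Prop := fun q => (∑' i, if p i < (2 : ℝ≥0∞)⁻¹ ^ q then p i else 0) ≤ v with hP
  have hex' : ∃ q, P q := hex
  have hq := Nat.find_spec hex'
  refine ⟨(2 : ℝ≥0∞)⁻¹ ^ Nat.find hex', ?_, ?_, hq, ?_⟩
  · exact pow_ne_zero _ (by simp)
  · exact pow_le_one' (by simp) _
  · rcases Nat.eq_zero_or_pos (Nat.find hex') with h0 | hpos
    · rw [h0, pow_zero, mul_one]
      have : ∀ i, p i < 2 := by
        intro i
        calc p i ≤ ∑' i, p i := ENNReal.le_tsum i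
          _ ≤ 1 := hp
          _ < 2 := by norm_num
      simp only [this, if_true]
      exact hv1
    · obtain ⟨r, hr⟩ := Nat.exists_eq_succ_of_ne_zero hpos.ne'
      have hnot : ¬ P r := Nat.find_min hex' (by omega)
      have e : 2 * (2 : ℝ≥0∞)⁻¹ ^ Nat.find hex' = (2 : ℝ≥0∞)⁻¹ ^ r := by
        rw [hr, Nat.succ_eq_add_one, pow_succ, mul_comm ((2 : ℝ≥0∞)⁻¹ ^ r), ← mul_assoc,
          ENNReal.mul_inv_cancel (by norm_num) (by norm_num), one_mul]
      rw [e]
      exact (not_le.1 hnot).le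

lemma count {W : Type*} (t B : ℝ≥0∞) (S : Set W)
    (h : ∀ F : Finset W, (∀ w ∈ F, w ∈ S) → t * F.card ≤ 1 → t * F.card ≤ B) (hB : B + t ≤ 1) :
    t * card S ≤ B := by
  classical
  have key : ∀ F : Finset W, (∀ w ∈ F, w ∈ S) → t * F.card ≤ B := by
    intro F
    induction F using Finset.induction_on with
    | empty => intro _; simp
    | insert a F ha ih =>
      intro hF
      have h1 := ih fun w hw => hF w (Finset.mem_insert_of_mem hw)
      refine h _ hF ?_
      rw [Finset.card_insert_of_notMem ha]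
      push_cast
      rw [mul_add, mul_one]
      exact (add_le_add_left h1 t).trans hB
  unfold card
  rw [← ENNReal.tsum_mul_left, ENNReal.tsum_eq_iSup_sum]
  refine iSup_le fun F => ?_
  refine le_trans (le_of_eq ?_) (key (F.filter (· ∈ S)) fun w hw => (Finset.mem_filter.1 hw).2)
  rw [Finset.card_filter, Nat.cast_sum, Finset.mul_sum]
  refine Finset.sum_congr rfl fun w _ => ?_
  by_cases hw : w ∈ S <;> simp [hw]

lemma cnt (u : Step d) (PX : Site d → ℝ≥0∞) (t η : ℝ≥0∞) (hη0 : η ≠ 0) (hηt : η ≠ ⊤)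
    (ht : η + t ≤ 1)
    (h : ∀ μ : Site d → ℝ≥0∞, ∑' x, μ x ≤ 1 → (∀ x, μ x ≤ t) →
      ∑' x, (if Flux132.lev u x = 0 then μ x * PX x else 0) ≤ η * η) :
    t * card {w : Lat u | η < PX w.1} ≤ η := by
  classical
  refine count t η _ (fun F hF hc => ?_) ht
  set G : Finset (Site d) := F.image (fun w : Lat u => w.1) with hG
  have hcard : G.card = F.card := Finset.card_image_of_injective _ Subtype.val_injective
  have h0 := h (fun x => if x ∈ G then t else 0) ?_ ?_
  · have h1 : t * F.card * η ≤ η * η := by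
      refine le_trans ?_ h0
      refine le_trans ?_ (ENNReal.sum_le_tsum G)
      rw [← hcard, mul_comm t, mul_assoc, ← nsmul_eq_mul, ← Finset.sum_const]
      refine Finset.sum_le_sum fun x hx => ?_
      obtain ⟨w, hw, rfl⟩ := Finset.mem_image.1 hx
      have hl : Flux132.lev u w.1 = 0 := w.2
      rw [if_pos hl, if_pos hx]
      exact mul_le_mul_right (le_of_lt (hF w hw)) _
    exact (ENNReal.mul_le_mul_iff_left hη0 hηt).1 h1
  · rw [tsum_eq_sum (s := G) (fun x hx => if_neg hx)]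
    rw [Finset.sum_congr rfl (fun x hx => if_pos hx), Finset.sum_const, nsmul_eq_mul, hcard,
      mul_comm]
    exact hc
  · intro x
    split_ifs
    · exact le_rfl
    · exact zero_le

/-! ### laws of the end points -/

variable (ν : Measure (Row d)) [IsProbabilityMeasure ν]

open Classical in
noncomputable def pp (P : List (Step d) → Prop) (v : Site d) : ℝ≥0∞ :=
  ∑' π : List (Step d), if P π ∧ endp 0 π = v then NB28.aw ν π else 0

open Classical in
lemma pp_sum (P : List (Step d) → Prop) (g : Site d → ℝ≥0∞) :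
    ∑' v, pp ν P v * g v
      = ∑' π : List (Step d), if P π then NB28.aw ν π * g (endp 0 π) else 0 := by
  unfold pp
  simp_rw [← ENNReal.tsum_mul_right]
  rw [ENNReal.tsum_comm]
  refine tsum_congr fun π => ?_
  by_cases h : P π
  · rw [if_pos h, tsum_eq_single (endp 0 π)]
    · rw [if_pos ⟨h, rfl⟩]
    · intro v hv
      rw [if_neg (fun h' => hv h'.2.symm), zero_mul]
  · rw [if_neg h]
    refine ENNReal.tsum_eq_zero.2 fun v => ?_
    rw [if_neg (fun h' => h h'.1), zero_mul]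

open Classical in
lemma pp_mass (P : List (Step d) → Prop) :
    ∑' v, pp ν P v = ∑' π : List (Step d), if P π then NB28.aw ν π else 0 := by
  have := pp_sum ν P (fun _ => 1)
  simpa using this

open Classical in
lemma pp_small (P : List (Step d) → Prop) (θ : ℝ≥0∞) :
    ∑' v, (if pp ν P v < θ then pp ν P v else 0)
      = ∑' π : List (Step d), if P π ∧ pp ν P (endp 0 π) < θ then NB28.aw ν π else 0 := by
  have := pp_sum ν P (fun v => if pp ν P v < θ then 1 else 0)
  refine Eq.trans (tsum_congr fun v => ?_) (this.trans (tsum_congr fun π => ?_))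
  · split_ifs <;> simp
  · by_cases h : P π
    · by_cases h2 : pp ν P (endp 0 π) < θ
      · rw [if_pos h, if_pos h2, if_pos ⟨h, h2⟩, mul_one]
      · rw [if_pos h, if_neg h2, if_neg (fun h' => h2 h'.2), mul_zero]
    · rw [if_neg h, if_neg (fun h' => h h'.1)]

open Classical in
lemma dens1 (P Q : List (Step d) → Prop)
    (hQ : ∑' γ : List (Step d), (if Q γ then NB28.aw ν γ else 0) ≤ 1) (θ : ℝ≥0∞)
    (w w' : Site d) :
    ∑' π : List (Step d), ∑' γ : List (Step d), (if P π ∧ Q γ ∧ pp ν P (endp 0 π) < θ ∧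
      w + endp 0 π + endp 0 γ = w' then NB28.aw ν π * NB28.aw ν γ else 0) ≤ θ := by
  rw [ENNReal.tsum_comm]
  calc _ ≤ ∑' γ : List (Step d), (if Q γ then NB28.aw ν γ else 0) * θ := by
        refine ENNReal.tsum_le_tsum fun γ => ?_
        by_cases hq : Q γ
        · rw [if_pos hq]
          by_cases hv : pp ν P (w' - w - endp 0 γ) < θ
          · calc _ ≤ ∑' π : List (Step d), NB28.aw ν γ *
                    (if P π ∧ endp 0 π = w' - w - endp 0 γ then NB28.aw ν π else 0) := by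
                  refine ENNReal.tsum_le_tsum fun π => ?_
                  split_ifs with h1 h2
                  · exact (mul_comm _ _).le
                  · exact absurd ⟨h1.1, by rw [← h1.2.2.2]; abel⟩ h2
                  · exact zero_le
                  · exact zero_le
              _ = NB28.aw ν γ * pp ν P (w' - w - endp 0 γ) := ENNReal.tsum_mul_left
              _ ≤ NB28.aw ν γ * θ := mul_le_mul_right hv.le _
          · refine le_trans (le_of_eq (ENNReal.tsum_eq_zero.2 fun π => ?_)) zero_le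
            rw [if_neg]
            rintro ⟨_, _, h3, h4⟩
            have : endp 0 π = w' - w - endp 0 γ := by rw [← h4]; abel
            exact hv (this ▸ h3)
        · rw [if_neg hq]
          refine le_trans (le_of_eq (ENNReal.tsum_eq_zero.2 fun π => ?_)) zero_le
          rw [if_neg (fun h => hq h.2.1)]
    _ = (∑' γ : List (Step d), if Q γ then NB28.aw ν γ else 0) * θ := ENNReal.tsum_mul_right
    _ ≤ 1 * θ := mul_le_mul_left hQ _
    _ = θ := one_mul _

open Classical in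
lemma prod2 (A D : List (Step d) → Prop) :
    ∑' π : List (Step d), ∑' γ : List (Step d),
      (if A π ∧ D γ then NB28.aw ν π * NB28.aw ν γ else 0)
      = (∑' π : List (Step d), if A π then NB28.aw ν π else 0)
        * (∑' γ : List (Step d), if D γ then NB28.aw ν γ else 0) := by
  rw [← ENNReal.tsum_mul_right]
  refine tsum_congr fun π => ?_
  rw [← ENNReal.tsum_mul_left]
  refine tsum_congr fun γ => ?_
  by_cases h1 : A π <;> by_cases h2 : D γ <;> simp [h1, h2]

/-! ### lists and words -/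

variable (u : Step d)

lemma act_cat (L : List (PB u)) (w : Lat u) :
    (act (dl u) L w).1 = w.1 + endp 0 (cat L).1 + endp 0 (cat L).2 := by
  induction L generalizing w with
  | nil => simp [act, cat, endp]
  | cons b L ih =>
    rw [act, ih]
    simp only [cat, pm, dl, dlp, endp_append]
    rw [endp_eq_add b.1.1 (endp 0 (cat L).1), endp_eq_add (cat L).2 (endp 0 b.1.2)]
    abel

open Classical in
lemma tL (H : ℕ) (R : List (Step d) → List (Step d) → Prop) (R' : List (PB u) → Prop)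
    (hR : ∀ L, R' L ↔ R (cat L).1 (cat L).2) :
    ∑' L : List (PB u), (if HT (ht u) L = H ∧ R' L then LW (Lam ν u) L else 0)
      = ∑' π : List (Step d), ∑' γ : List (Step d),
        if IsUp u H π ∧ IsDn u H γ ∧ R π γ then NB28.aw ν π * NB28.aw ν γ else 0 := by
  have h := tsum_L ν u H (fun x => if R x.1 x.2 then 1 else 0)
  refine Eq.trans ?_ (h.trans ?_)
  · refine tsum_congr fun L => ?_
    by_cases h1 : HT (ht u) L = H
    · by_cases h2 : R' L
      · rw [if_pos ⟨h1, h2⟩, if_pos h1, if_pos ((hR L).1 h2), mul_one]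
      · rw [if_neg (fun h' => h2 h'.2), if_pos h1, if_neg (fun h' => h2 ((hR L).2 h')), mul_zero]
    · rw [if_neg (fun h' => h1 h'.1), if_neg h1]
  · refine tsum_congr fun π => tsum_congr fun γ => ?_
    by_cases h1 : IsUp u H π ∧ IsDn u H γ
    · by_cases h2 : R π γ
      · rw [if_pos h1, if_pos h2, if_pos ⟨h1.1, h1.2, h2⟩, mul_one]
      · rw [if_pos h1, if_neg h2, if_neg (fun h' => h2 h'.2.2), mul_zero]
    · rw [if_neg h1, if_neg (fun h' => h1 ⟨h'.1, h'.2.1⟩)]

lemma num (q lam us A : ℝ≥0∞) (hl0 : lam ≠ 0) (hlt : lam ≠ ⊤) (hl : lam = q * 16⁻¹)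
    (hus : us ≤ lam * (q * 8⁻¹)) (hA : A ≤ 2) : 8 * lam + 2 * (A * us / lam) ≤ q := by
  have h1 : A * us / lam ≤ 2 * (q * 8⁻¹) := by
    rw [ENNReal.div_le_iff hl0 hlt]
    calc A * us ≤ 2 * (lam * (q * 8⁻¹)) := mul_le_mul' hA hus
      _ = 2 * (q * 8⁻¹) * lam := by ring
  have e1 : (8 : ℝ≥0∞) * 16⁻¹ = 2⁻¹ := by
    rw [show (16 : ℝ≥0∞) = 8 * 2 by norm_num, ENNReal.mul_inv (by norm_num) (by norm_num),
      ← mul_assoc, ENNReal.mul_inv_cancel (by norm_num) (by norm_num), one_mul]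
  have e2 : (4 : ℝ≥0∞) * 8⁻¹ = 2⁻¹ := by
    rw [show (8 : ℝ≥0∞) = 4 * 2 by norm_num, ENNReal.mul_inv (by norm_num) (by norm_num),
      ← mul_assoc, ENNReal.mul_inv_cancel (by norm_num) (by norm_num), one_mul]
  calc 8 * lam + 2 * (A * us / lam) ≤ 8 * lam + 2 * (2 * (q * 8⁻¹)) := by gcongr
    _ = q * (8 * 16⁻¹) + q * (4 * 8⁻¹) := by rw [hl]; ring
    _ = q := by rw [e1, e2, ← mul_add, ENNReal.inv_two_add_inv_two, mul_one]

open Classical in
lemma goodX (H : ℕ) (θ v c η : ℝ≥0∞)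
    (hconc : ∀ w w' : Lat u, ∑' L : List (PB u),
      (if HT (ht u) L = H ∧ act (dl u) L w = w' then LW (Lam ν u) L else 0) ≤ 2⁻¹)
    (hm : v ≤ ∑' x, (if pp ν (IsUp u H) x < 2 * θ then pp ν (IsUp u H) x else 0))
    (hc : c ≤ ∑' γ : List (Step d), if IsDn u H γ then NB28.aw ν γ else 0)
    (S : Set (Lat u)) (hS : min (2 * θ) 2⁻¹ * card S ≤ η) :
    Good (Lam ν u) (ht u) (dl u) (v * c) η H S := by
  refine ⟨{L | pp ν (IsUp u H) (endp 0 (cat L).1) < 2 * θ}, min (2 * θ) 2⁻¹, ?_, ?_, hS⟩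
  · have e := tL ν u H (fun π _ => pp ν (IsUp u H) (endp 0 π) < 2 * θ)
      (fun L => L ∈ {L : List (PB u) | pp ν (IsUp u H) (endp 0 (cat L).1) < 2 * θ})
      (fun L => by simp only [Set.mem_ofPred_eq])
    refine le_trans ?_ (le_of_eq (e.symm.trans (tsum_congr fun L => by congr)))
    rw [pp_small] at hm
    refine (mul_le_mul' hm hc).trans (le_of_eq ?_)
    refine Eq.trans (congrArg₂ (· * ·) (tsum_congr fun π => by congr) (tsum_congr fun γ => by congr))
      ((prod2 ν (fun π => IsUp u H π ∧ pp ν (IsUp u H) (endp 0 π) < 2 * θ)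
        (fun γ => IsDn u H γ)).symm.trans ?_)
    refine tsum_congr fun π => tsum_congr fun γ => ?_
    split_ifs with h1 h2 h2 <;> first | rfl | (exfalso; tauto)
  · intro w w'
    refine le_min ?_ (le_trans (ENNReal.tsum_le_tsum fun L => ?_) (hconc w w'))
    · have e := tL ν u H (fun π γ => pp ν (IsUp u H) (endp 0 π) < 2 * θ ∧
        w.1 + endp 0 π + endp 0 γ = w'.1)
        (fun L => L ∈ {L : List (PB u) | pp ν (IsUp u H) (endp 0 (cat L).1) < 2 * θ} ∧
          act (dl u) L w = w') (fun L => by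
          rw [← act_cat u L w, Set.mem_ofPred_eq]
          exact and_congr Iff.rfl Subtype.ext_iff)
      refine le_trans (le_of_eq (Eq.trans (tsum_congr fun L => by congr) e)) ?_
      exact le_trans (le_of_eq (tsum_congr fun π => tsum_congr fun γ => by congr))
        (dens1 ν (IsUp u H) (IsDn u H) (sum_if_le_one ν fun l l' h h' hp =>
          NB28.isDn_prefix h h' hp) (2 * θ) w.1 w'.1)
    · by_cases h : HT (ht u) L = H ∧ L ∈ {L | pp ν (IsUp u H) (endp 0 (cat L).1) < 2 * θ} ∧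
          act (dl u) L w = w'
      · rw [if_pos h, if_pos ⟨h.1, h.2.2⟩]
      · rw [if_neg h]; exact zero_le

open Classical in
lemma goodY (H : ℕ) (θ v c η : ℝ≥0∞)
    (hconc : ∀ w w' : Lat u, ∑' L : List (PB u),
      (if HT (ht u) L = H ∧ act (dl u) L w = w' then LW (Lam ν u) L else 0) ≤ 2⁻¹)
    (hm : v ≤ ∑' x, (if pp ν (IsDn u H) x < 2 * θ then pp ν (IsDn u H) x else 0))
    (hc : c ≤ ∑' π : List (Step d), if IsUp u H π then NB28.aw ν π else 0)
    (S : Set (Lat u)) (hS : min (2 * θ) 2⁻¹ * card S ≤ η) :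
    Good (Lam ν u) (ht u) (dl u) (v * c) η H S := by
  refine ⟨{L | pp ν (IsDn u H) (endp 0 (cat L).2) < 2 * θ}, min (2 * θ) 2⁻¹, ?_, ?_, hS⟩
  · have e := tL ν u H (fun _ γ => pp ν (IsDn u H) (endp 0 γ) < 2 * θ)
      (fun L => L ∈ {L : List (PB u) | pp ν (IsDn u H) (endp 0 (cat L).2) < 2 * θ})
      (fun L => by simp only [Set.mem_ofPred_eq])
    refine le_trans ?_ (le_of_eq (e.symm.trans (tsum_congr fun L => by congr)))
    rw [pp_small] at hm
    refine (mul_le_mul' hm hc).trans (le_of_eq ?_)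
    rw [mul_comm]
    refine Eq.trans (congrArg₂ (· * ·) (tsum_congr fun π => by congr) (tsum_congr fun γ => by congr))
      ((prod2 ν (fun π => IsUp u H π)
        (fun γ => IsDn u H γ ∧ pp ν (IsDn u H) (endp 0 γ) < 2 * θ)).symm.trans ?_)
    refine tsum_congr fun π => tsum_congr fun γ => ?_
    split_ifs with h1 h2 h2 <;> first | rfl | (exfalso; tauto)
  · intro w w'
    refine le_min ?_ (le_trans (ENNReal.tsum_le_tsum fun L => ?_) (hconc w w'))
    · have e := tL ν u H (fun π γ => pp ν (IsDn u H) (endp 0 γ) < 2 * θ ∧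
        w.1 + endp 0 π + endp 0 γ = w'.1)
        (fun L => L ∈ {L : List (PB u) | pp ν (IsDn u H) (endp 0 (cat L).2) < 2 * θ} ∧
          act (dl u) L w = w') (fun L => by
          rw [← act_cat u L w, Set.mem_ofPred_eq]
          exact and_congr Iff.rfl Subtype.ext_iff)
      refine le_trans (le_of_eq (Eq.trans (tsum_congr fun L => by congr) e)) ?_
      refine le_trans (le_of_eq ?_) (dens1 ν (IsDn u H) (IsUp u H)
        (sum_if_le_one ν fun l l' h h' hp => NB28.isUp_prefix h h' hp) (2 * θ) w.1 w'.1)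
      rw [ENNReal.tsum_comm]
      refine tsum_congr fun γ => tsum_congr fun π => ?_
      have e : w.1 + endp 0 π + endp 0 γ = w.1 + endp 0 γ + endp 0 π := by abel
      rw [e, mul_comm (NB28.aw ν π)]
      split_ifs with h1 h2 h2 <;> first | rfl | (exfalso; tauto)
    · by_cases h : HT (ht u) L = H ∧ L ∈ {L | pp ν (IsDn u H) (endp 0 (cat L).2) < 2 * θ} ∧
          act (dl u) L w = w'
      · rw [if_pos h, if_pos ⟨h.1, h.2.2⟩]
      · rw [if_neg h]; exact zero_le

open Classical in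
theorem hW (hd : 2 ≤ d) (hν : ∀ᵐ p ∂ν, ∀ e : Step d, 0 < p.1 e) (c : ℝ≥0∞) (hc : c ≠ 0)
    (hc1 : c ≤ 1)
    (hup : ∀ n, c ≤ ∑' π : List (Step d), if IsUp u n π then NB28.aw ν π else 0)
    (hdn : ∀ n, c ≤ ∑' γ : List (Step d), if IsDn u n γ then NB28.aw ν γ else 0)
    (hesc : annealedProb (iidEnvironmentLaw ν) 0 (escapeEvent (Flux566.dir u)) ≠ 0) :
    ∀ υ η : ℝ≥0∞, υ ≠ 0 → υ ≤ 1 → η ≠ 0 → ∃ s H0 : ℕ, ∀ H, H0 ≤ H → ∃ S1 S2 : Set (Lat u),
      Good (Lam ν u) (ht u) (dl u) (c * c * υ) η H S1 ∧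
      Good (Lam ν u) (ht u) (dl u) (c * c * υ) η H S2 ∧
      ∀ w, w ∉ S1 → w ∉ S2 →
        (∑' L : List (PB u), if HT (ht u) L = H ∧ CD (ht u) (dl u) (cd u) L w ≠ ∅ ∧
          (∀ k ∈ CD (ht u) (dl u) (cd u) L w, s < k ∧ k + s ≤ H) then LW (Lam ν u) L else 0)
          ≤ υ * υ + η := by
  intro υ η hυ hυ1 hη
  have hct : c ≠ ⊤ := ne_top_of_le_ne_top ENNReal.one_ne_top hc1
  set κ : ℝ≥0∞ := min η 1 / 2 with hκ
  have hκ0 : κ ≠ 0 := by
    rw [hκ]
    exact (ENNReal.div_pos (lt_min (pos_iff_ne_zero.2 hη) one_pos).ne' (by norm_num)).ne'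
  have hκh : κ ≤ 2⁻¹ := by
    rw [hκ, ENNReal.div_eq_inv_mul]
    exact (mul_le_mul_right (min_le_right η 1) _).trans (by rw [mul_one])
  have hκt : κ ≠ ⊤ := ne_top_of_le_ne_top (by norm_num) hκh
  have hκη : κ + κ ≤ η := by
    rw [hκ, ENNReal.add_halves]; exact min_le_left _ _
  have hκη1 : κ ≤ η := le_trans le_self_add hκη
  set q : ℝ≥0∞ := κ * κ with hq
  have hq0 : q ≠ 0 := mul_ne_zero hκ0 hκ0
  have hqt : q ≠ ⊤ := ENNReal.mul_ne_top hκt hκt
  set lam : ℝ≥0∞ := q * 16⁻¹ with hlam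
  have hl0 : lam ≠ 0 := mul_ne_zero hq0 (by simp)
  have hlt : lam ≠ ⊤ := ENNReal.mul_ne_top hqt (by simp)
  set δ : ℝ≥0∞ := lam * (q * 8⁻¹) with hδ
  have hδ0 : δ ≠ 0 := mul_ne_zero hl0 (mul_ne_zero hq0 (by simp))
  obtain ⟨s1, hs1⟩ := (Us778.us_tendsto ν hν u hesc).eventually
    (ge_mem_nhds (pos_iff_ne_zero.2 hδ0)) |>.exists_forall_of_atTop
  obtain ⟨s2, hs2⟩ := E934.us_small ν (Flux132.opp u) δ hδ0
  have hΛ : ∑' b, Lam ν u b = 1 :=
    HSl689.mass_one ν u (c * c) (mul_ne_zero hc hc) (HSl689.U_ge ν u c hup hdn) (HSl689.U_le ν u)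
  obtain ⟨D, hD⟩ := HSl689.conc hd ν hν u hΛ 2⁻¹ (by simp)
  refine ⟨max s1 s2, D, fun H hH => ?_⟩
  set s := max s1 s2 with hs
  have hsX : annealedProb (iidEnvironmentLaw ν) 0 (Us778.Dip u s) ≤ δ := hs1 s (le_max_left _ _)
  have hsY : E934.us ν (Flux132.opp u) s ≤ δ := hs2 s (le_max_right _ _)
  have hcυ : c * υ ≤ c := mul_le_of_le_one_right' hυ1
  have hcυ0 : c * υ ≠ 0 := mul_ne_zero hc hυ
  have upL : ∑' π : List (Step d), (if IsUp u H π then NB28.aw ν π else 0) ≤ 1 :=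
    sum_if_le_one ν fun l l' h h' hp => NB28.isUp_prefix h h' hp
  have dnL : ∑' γ : List (Step d), (if IsDn u H γ then NB28.aw ν γ else 0) ≤ 1 :=
    sum_if_le_one ν fun l l' h h' hp => NB28.isDn_prefix h h' hp
  obtain ⟨θ, hθ0, hθ1, hθa, hθb⟩ := quant (pp ν (IsUp u H)) (by rw [pp_mass]; exact upL)
    hcυ0 (by rw [pp_mass]; exact hcυ.trans (hup H))
  obtain ⟨φ, hφ0, hφ1, hφa, hφb⟩ := quant (pp ν (IsDn u H)) (by rw [pp_mass]; exact dnL)
    hcυ0 (by rw [pp_mass]; exact hcυ.trans (hdn H))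
  obtain ⟨finX, cardX⟩ := AsmA789.card_le (pp ν (IsUp u H)) (by rw [pp_mass]; exact upL) hθ0
  obtain ⟨finY, cardY⟩ := AsmA789.card_le (pp ν (IsDn u H)) (by rw [pp_mass]; exact dnL) hφ0
  rw [Set.ncard_eq_toFinset_card _ finX] at cardX
  rw [Set.ncard_eq_toFinset_card _ finY] at cardY
  set EX := finX.toFinset with hEX
  set EY := finY.toFinset with hEY
  set PX : Site d → ℝ≥0∞ := fun x => ∑' π, ∑' γ, (if IsUp u H π ∧ endp 0 π ∈ EX ∧ IsDn u H γ ∧
        (∃ k, k ∈ Cm u x π γ) ∧ (∀ k ∈ Cm u x π γ, s < k) then NB28.aw ν π * NB28.aw ν γ else 0)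
    with hPX
  set PY : Site d → ℝ≥0∞ := fun x => ∑' π : List (Step d), ∑' γ : List (Step d),
      (if IsUp u H π ∧ endp 0 γ ∈ EY ∧ IsDn u H γ ∧ (∃ k, k ∈ Cm u x π γ) ∧
        (∀ k ∈ Cm u x π γ, k + s ≤ H) then NB28.aw ν π * NB28.aw ν γ else 0) with hPY
  have cX := cnt u PX (min (2 * θ) 2⁻¹) κ hκ0 hκt
    ((add_le_add hκh (min_le_right _ _)).trans (ENNReal.inv_two_add_inv_two).le)
    (fun μ hμ1 hμt => by
      refine (W2742.E2 ν u s H EX μ _ lam hμ1 hμt hl0 hlt).trans ?_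
      refine le_trans ?_ (num q lam _ (min (2 * θ) 2⁻¹ * EX.card) hl0 hlt hlam hsX ?_)
      · refine add_le_add ?_ ?_
        · exact le_mul_of_one_le_left' (by norm_num)
        · exact le_mul_of_one_le_left' (by norm_num)
      · calc min (2 * θ) 2⁻¹ * EX.card ≤ 2 * θ * EX.card := mul_le_mul_left (min_le_left _ _) _
          _ = 2 * (EX.card * θ) := by ring
          _ ≤ 2 * 1 := mul_le_mul_right cardX _
          _ = 2 := mul_one _)
  have cY := cnt u PY (min (2 * φ) 2⁻¹) κ hκ0 hκt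
    ((add_le_add hκh (min_le_right _ _)).trans (ENNReal.inv_two_add_inv_two).le)
    (fun μ hμ1 hμt => by
      refine (E934.E3 (u := u) ν s H EY μ _ lam hμ1 hμt hl0 hlt).trans ?_
      refine le_trans ?_ (num q lam _ (min (2 * φ) 2⁻¹ * EY.card) hl0 hlt hlam hsY ?_)
      · rw [mul_assoc]
      · calc min (2 * φ) 2⁻¹ * EY.card ≤ 2 * φ * EY.card := mul_le_mul_left (min_le_left _ _) _
          _ = 2 * (EY.card * φ) := by ring
          _ ≤ 2 * 1 := mul_le_mul_right cardY _
          _ = 2 := mul_one _)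
  have e1 : c * c * υ = c * υ * c := by ring
  refine ⟨{w : Lat u | κ < PX w.1}, {w : Lat u | κ < PY w.1}, ?_, ?_, ?_⟩
  · rw [e1]
    exact goodX ν u H θ (c * υ) c η (fun w w' => hD H hH w w') hθb (hdn H) _ (cX.trans hκη1)
  · rw [e1]
    exact goodY ν u H φ (c * υ) c η (fun w w' => hD H hH w w') hφb (hup H) _ (cY.trans hκη1)
  · intro w hw1 hw2
    have hw1' : PX w.1 ≤ κ := by simpa using hw1
    have hw2' : PY w.1 ≤ κ := by simpa using hw2
    have e := tL ν u H (fun π γ => Cm u w.1 π γ ≠ ∅ ∧ ∀ k ∈ Cm u w.1 π γ, s < k ∧ k + s ≤ H)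
      (fun L => CD (ht u) (dl u) (cd u) L w ≠ ∅ ∧
          (∀ k ∈ CD (ht u) (dl u) (cd u) L w, s < k ∧ k + s ≤ H)) (fun L => by
        rw [CD_cat, ← cds_eq])
    refine le_trans (le_of_eq (Eq.trans (tsum_congr fun L => by congr) e)) ?_
    have hsm : (∑' π : List (Step d), ∑' γ : List (Step d),
      (if (IsUp u H π ∧ pp ν (IsUp u H) (endp 0 π) < θ) ∧
        (IsDn u H γ ∧ pp ν (IsDn u H) (endp 0 γ) < φ) then NB28.aw ν π * NB28.aw ν γ else 0))
        ≤ υ * υ := by
      refine le_trans (le_of_eq (Eq.trans (tsum_congr fun π => tsum_congr fun γ => by congr)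
        (prod2 ν (fun π => IsUp u H π ∧ pp ν (IsUp u H) (endp 0 π) < θ)
        (fun γ => IsDn u H γ ∧ pp ν (IsDn u H) (endp 0 γ) < φ)))) ?_
      refine mul_le_mul' (le_trans (le_of_eq (Eq.trans (tsum_congr fun π => by congr)
        (pp_small ν (IsUp u H) θ).symm)) (hθa.trans ?_)) (le_trans (le_of_eq
        (Eq.trans (tsum_congr fun π => by congr) (pp_small ν (IsDn u H) φ).symm)) (hφa.trans ?_))
      · exact mul_le_of_le_one_left' hc1
      · exact mul_le_of_le_one_left' hc1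
    calc _ ≤ ∑' π : List (Step d), ∑' γ : List (Step d),
        ((if (IsUp u H π ∧ pp ν (IsUp u H) (endp 0 π) < θ) ∧
        (IsDn u H γ ∧ pp ν (IsDn u H) (endp 0 γ) < φ) then NB28.aw ν π * NB28.aw ν γ else 0)
        + ((if IsUp u H π ∧ endp 0 π ∈ EX ∧ IsDn u H γ ∧
        (∃ k, k ∈ Cm u w.1 π γ) ∧ (∀ k ∈ Cm u w.1 π γ, s < k) then NB28.aw ν π * NB28.aw ν γ else 0)
        + (if IsUp u H π ∧ endp 0 γ ∈ EY ∧ IsDn u H γ ∧ (∃ k, k ∈ Cm u w.1 π γ) ∧
        (∀ k ∈ Cm u w.1 π γ, k + s ≤ H) then NB28.aw ν π * NB28.aw ν γ else 0))) := by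
          refine ENNReal.tsum_le_tsum fun π => ENNReal.tsum_le_tsum fun γ => ?_
          by_cases h : IsUp u H π ∧ IsDn u H γ ∧ Cm u w.1 π γ ≠ ∅ ∧
            ∀ k ∈ Cm u w.1 π γ, s < k ∧ k + s ≤ H
          · rw [if_pos h]
            obtain ⟨a1, a2, a3, a4⟩ := h
            have a5 : ∃ k, k ∈ Cm u w.1 π γ := Set.nonempty_iff_ne_empty.2 a3
            by_cases b1 : pp ν (IsUp u H) (endp 0 π) < θ
            · by_cases b2 : pp ν (IsDn u H) (endp 0 γ) < φ
              · rw [if_pos ⟨⟨a1, b1⟩, ⟨a2, b2⟩⟩]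
                exact le_self_add
              · have b3 : endp 0 γ ∈ EY := by
                  rw [hEY, Set.Finite.mem_toFinset]; exact not_lt.1 b2
                rw [if_pos (c := IsUp u H π ∧ endp 0 γ ∈ EY ∧ _)
                  ⟨a1, b3, a2, a5, fun k hk => (a4 k hk).2⟩]
                exact le_add_left (le_add_left le_rfl)
            · have b3 : endp 0 π ∈ EX := by
                rw [hEX, Set.Finite.mem_toFinset]; exact not_lt.1 b1
              rw [if_pos (c := IsUp u H π ∧ endp 0 π ∈ EX ∧ _)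
                ⟨a1, b3, a2, a5, fun k hk => (a4 k hk).1⟩]
              exact le_add_left (le_add_right le_rfl)
          · rw [if_neg h]; exact zero_le
      _ = (∑' π : List (Step d), ∑' γ : List (Step d),
      (if (IsUp u H π ∧ pp ν (IsUp u H) (endp 0 π) < θ) ∧
        (IsDn u H γ ∧ pp ν (IsDn u H) (endp 0 γ) < φ) then NB28.aw ν π * NB28.aw ν γ else 0))
          + (PX w.1 + PY w.1) := by
          simp only [hPX, hPY, ← ENNReal.tsum_add]
      _ ≤ υ * υ + (κ + κ) := add_le_add hsm (add_le_add hw1' hw2')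
      _ ≤ υ * υ + η := add_le_add_right hκη _

end Crest.Agent.R154.HW343
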