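import Crest.Agent.R154.B5Br_657
import Crest.Agent.R154.JHit_139
import Crest.Agent.R154.AsmA_789

/-! Row 154, ROAD 801, FRAME B (helper350): helper139's input `hW` for helper657's instance, from the
two window lemmas `E2`, `E3` in words (helper912's literals). -/

set_option autoImplicit false

namespace Crest.Agent.R154.HW350

open MeasureTheory ProbabilityTheory Crest.ProbabilityR.RandomEnvironment Crest.Agent.R154
open Crest.Agent.R154.Flux132 (lev opp)
open Crest.Agent.R154.Flux566 (lw endp sitesL)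
open Crest.Agent.R154.NB28 (IsUp IsDn aw Cm)
open Crest.Agent.R154.B5A
open Crest.Agent.R154.B5W (PB Lat Lam ht dl cd cat hu hdn PC dlp cds CD_cat cds_eq tsum_L)
open Crest.Agent.R154.JAsm139 (Good card)
open scoped ENNReal

variable {d : ℕ}

/-! ### quantile -/

lemma quant' {ι : Type*} (p : ι → ℝ≥0∞) (hp : ∑' i, p i ≤ 1) {v : ℝ≥0∞} (hv : v ≠ 0)
    (hv1 : v ≤ ∑' i, p i) : ∃ θ : ℝ≥0∞, θ ≠ 0 ∧ (∑' i, if p i < θ then p i else 0) ≤ v ∧
      v ≤ (∑' i, if p i < 2 * θ then p i else 0) := by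
  classical
  have hex := AsmA789.exists_small p hp hv
  set P : ℕ → Prop := fun q => (∑' i, if p i < (2 : ℝ≥0∞)⁻¹ ^ q then p i else 0) ≤ v with hP
  have hex' : ∃ q, P q := hex
  have hq := Nat.find_spec hex'
  rcases hn : Nat.find hex' with _ | q
  · rw [hn] at hq
    refine ⟨1, one_ne_zero, by simpa [hP] using hq, ?_⟩
    refine hv1.trans (ENNReal.tsum_le_tsum fun i => ?_)
    rw [if_pos]
    calc p i ≤ ∑' i, p i := ENNReal.le_tsum i
      _ ≤ 1 := hp
      _ < 2 * 1 := by norm_num
  · have h1 := Nat.find_min hex' (m := q) (by omega)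
    rw [hn] at hq
    refine ⟨(2 : ℝ≥0∞)⁻¹ ^ (q + 1), pow_ne_zero _ (by simp), hq, ?_⟩
    have h2 : 2 * (2 : ℝ≥0∞)⁻¹ ^ (q + 1) = (2 : ℝ≥0∞)⁻¹ ^ q := by
      rw [pow_succ, mul_comm, mul_assoc, ENNReal.inv_mul_cancel (by norm_num) (by norm_num),
        mul_one]
    rw [h2]
    exact (not_le.1 h1).le

/-! ### laws of the displacements -/

section law

variable (ν : Measure (Row d)) [IsProbabilityMeasure ν]

open Classical in
/-- law of the end point -/
noncomputable def law (P : List (Step d) → Prop) (z : Site d) : ℝ≥0∞ :=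
  ∑' π : List (Step d), if P π ∧ endp 0 π = z then aw ν π else 0

open Classical in
lemma law_int (P : List (Step d) → Prop) (g : Site d → ℝ≥0∞) :
    ∑' z, law ν P z * g z = ∑' π : List (Step d), if P π then aw ν π * g (endp 0 π) else 0 := by
  unfold law
  simp_rw [← ENNReal.tsum_mul_right]
  rw [ENNReal.tsum_comm]
  refine tsum_congr fun π => ?_
  rw [tsum_eq_single (endp 0 π)]
  · by_cases h : P π <;> simp [h]
  · intro z hz
    rw [if_neg, zero_mul]
    rintro ⟨_, h⟩
    exact hz h.symm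

open Classical in
lemma law_sum (P : List (Step d) → Prop) :
    ∑' z, law ν P z = ∑' π : List (Step d), if P π then aw ν π else 0 := by
  have := law_int ν P (fun _ => 1)
  simpa using this

open Classical in
lemma law_low (P : List (Step d) → Prop) (θ : ℝ≥0∞) :
    ∑' z, (if law ν P z < θ then law ν P z else 0)
      = ∑' π : List (Step d), if P π ∧ law ν P (endp 0 π) < θ then aw ν π else 0 := by
  have := law_int ν P (fun z => if law ν P z < θ then 1 else 0)
  refine Eq.trans (tsum_congr fun z => ?_) (this.trans (tsum_congr fun π => ?_))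
  · by_cases h : law ν P z < θ <;> simp [h]
  · by_cases h : law ν P (endp 0 π) < θ <;> by_cases h' : P π <;> simp [h, h']

end law

/-! ### the counting lemma -/

lemma count {W : Type*} (Φ : W → ℝ≥0∞) (θ K N a b e : ℝ≥0∞) (he0 : e ≠ 0) (he1 : e ≠ ⊤)
    (hE : ∀ T : Finset W, T.Nonempty →
      ((T.card : ℝ≥0∞))⁻¹ * ∑ w ∈ T, Φ w ≤ a + (T.card : ℝ≥0∞)⁻¹ * (N * K) + b)
    (ha : a ≤ e / 8) (hb : b ≤ e / 8) (hN : N * θ ≤ 1) (hK : K ≤ e * (e / 8)) :
    2 * θ * card {w | e / 2 < Φ w} ≤ e := by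
  classical
  have h4 : e / 4 ≠ 0 := (ENNReal.div_pos he0 (by norm_num)).ne'
  have h4' : e / 4 ≠ ⊤ := ENNReal.div_ne_top he1 (by norm_num)
  -- finite sets
  have hfin : ∀ T : Finset W, (∀ w ∈ T, e / 2 < Φ w) → 2 * θ * T.card ≤ e := by
    intro T hT
    rcases T.eq_empty_or_nonempty with rfl | hne
    · simp
    · have ht0 : (T.card : ℝ≥0∞) ≠ 0 := by
        simpa using hne.ne_empty
      have htt : (T.card : ℝ≥0∞) ≠ ⊤ := ENNReal.natCast_ne_top _
      have h1 : e / 2 ≤ a + (T.card : ℝ≥0∞)⁻¹ * (N * K) + b := by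
        refine le_trans ?_ (hE T hne)
        calc e / 2 = (T.card : ℝ≥0∞)⁻¹ * (T.card * (e / 2)) := by
              rw [← mul_assoc, ENNReal.inv_mul_cancel ht0 htt, one_mul]
          _ = (T.card : ℝ≥0∞)⁻¹ * ∑ _w ∈ T, e / 2 := by rw [Finset.sum_const, nsmul_eq_mul]
          _ ≤ _ := by
              gcongr with w hw
              exact (hT w hw).le
      have h2 : e / 2 ≤ (T.card : ℝ≥0∞)⁻¹ * (N * K) + e / 4 := by
        calc e / 2 ≤ a + (T.card : ℝ≥0∞)⁻¹ * (N * K) + b := h1
          _ ≤ e / 8 + (T.card : ℝ≥0∞)⁻¹ * (N * K) + e / 8 := by gcongr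
          _ = (T.card : ℝ≥0∞)⁻¹ * (N * K) + (e / 8 + e / 8) := by ring
          _ = _ := by
              congr 1
              rw [← two_mul, div_eq_mul_inv, div_eq_mul_inv, mul_comm, mul_assoc]
              congr 1
              rw [show (8 : ℝ≥0∞) = 4 * 2 by norm_num,
                ENNReal.mul_inv (by norm_num) (by norm_num), mul_assoc,
                ENNReal.inv_mul_cancel (by norm_num) (by norm_num), mul_one]
      have h3 : e / 2 = e / 4 + e / 4 := by
        rw [← two_mul, div_eq_mul_inv, div_eq_mul_inv, mul_comm 2, mul_assoc]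
        congr 1
        rw [show (4 : ℝ≥0∞) = 2 * 2 by norm_num,
          ENNReal.mul_inv (by norm_num) (by norm_num), mul_assoc,
          ENNReal.inv_mul_cancel (by norm_num) (by norm_num), mul_one]
      rw [h3] at h2
      have h5 : e / 4 ≤ (T.card : ℝ≥0∞)⁻¹ * (N * K) :=
        (ENNReal.add_le_add_iff_right h4').1 h2
      have h6 : (T.card : ℝ≥0∞) * (e / 4) ≤ N * K := by
        calc (T.card : ℝ≥0∞) * (e / 4) ≤ T.card * ((T.card : ℝ≥0∞)⁻¹ * (N * K)) := by gcongr
          _ = N * K := by rw [← mul_assoc, ENNReal.mul_inv_cancel ht0 htt, one_mul]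
      have h7 : (2 * θ * T.card) * (e / 4) ≤ e * (e / 4) := by
        calc (2 * θ * T.card) * (e / 4) = 2 * θ * (T.card * (e / 4)) := by ring
          _ ≤ 2 * θ * (N * K) := by gcongr
          _ = 2 * (N * θ) * K := by ring
          _ ≤ 2 * 1 * (e * (e / 8)) := by gcongr
          _ = e * (e / 8 + e / 8) := by ring
          _ = e * (e / 4) := by
              congr 1
              rw [← two_mul, div_eq_mul_inv, div_eq_mul_inv, mul_comm 2, mul_assoc]
              congr 1
              rw [show (8 : ℝ≥0∞) = 4 * 2 by norm_num,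
                ENNReal.mul_inv (by norm_num) (by norm_num), mul_assoc,
                ENNReal.inv_mul_cancel (by norm_num) (by norm_num), mul_one]
      exact (ENNReal.mul_le_mul_iff_left h4 h4').1 h7
  unfold card
  rw [ENNReal.tsum_eq_iSup_sum, ENNReal.mul_iSup]
  refine iSup_le fun T => ?_
  have h8 : ∑ w ∈ T, ({w | e / 2 < Φ w} : Set W).indicator (fun _ => (1 : ℝ≥0∞)) w
      = ((T.filter fun w => e / 2 < Φ w).card : ℝ≥0∞) := by
    rw [Finset.card_filter]
    push_cast
    refine Finset.sum_congr rfl fun w _ => ?_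
    by_cases h : e / 2 < Φ w <;> simp [h]
  rw [h8]
  exact hfin _ fun w hw => (Finset.mem_filter.1 hw).2

/-! ### displacement of a list -/

lemma act_cat (u : Step d) (L : List (PB u)) (w : Lat u) :
    (act (dl u) L w).1 = w.1 + endp 0 (cat L).1 + endp 0 (cat L).2 := by
  induction L generalizing w with
  | nil => simp [act, cat, endp]
  | cons b L ih =>
    have h1 : act (dl u) (b :: L) w = act (dl u) L (dl u b w) := rfl
    rw [h1, ih]
    simp only [cat, B5W.pm, dl, dlp, Flux566.endp_append]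
    rw [Flux566.endp_eq_add b.1.1 (endp 0 (cat L).1), Flux566.endp_eq_add (cat L).2 (endp 0 b.1.2)]
    abel

section main

variable (ν : Measure (Row d)) [IsProbabilityMeasure ν] (u : Step d)

open Classical in
lemma dens_aux (P Q : List (Step d) → Prop) (θ : ℝ≥0∞) (z : List (Step d) → Site d)
    (hQ : ∑' γ : List (Step d), (if Q γ then aw ν γ else 0) ≤ 1) :
    ∑' γ : List (Step d), ∑' π : List (Step d),
      (if P π ∧ Q γ ∧ law ν P (endp 0 π) < θ ∧ endp 0 π = z γ then aw ν π * aw ν γ else 0) ≤ θ := by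
  calc ∑' γ : List (Step d), ∑' π : List (Step d),
      (if P π ∧ Q γ ∧ law ν P (endp 0 π) < θ ∧ endp 0 π = z γ then aw ν π * aw ν γ else 0)
      ≤ ∑' γ : List (Step d), (if Q γ then aw ν γ else 0) * θ := by
        refine ENNReal.tsum_le_tsum fun γ => ?_
        by_cases hq : Q γ
        · rw [if_pos hq]
          by_cases hz : law ν P (z γ) < θ
          · calc _ ≤ ∑' π : List (Step d), aw ν γ * (if P π ∧ endp 0 π = z γ then aw ν π else 0) := by
                  refine ENNReal.tsum_le_tsum fun π => ?_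
                  by_cases h : P π ∧ endp 0 π = z γ
                  · rw [if_pos h]
                    split_ifs
                    · exact (mul_comm _ _).le
                    · exact bot_le
                  · rw [if_neg, if_neg h, mul_zero]
                    rintro ⟨h1, _, _, h2⟩
                    exact h ⟨h1, h2⟩
              _ = aw ν γ * law ν P (z γ) := by rw [ENNReal.tsum_mul_left]; rfl
              _ ≤ _ := by gcongr
          · rw [ENNReal.tsum_eq_zero.2]
            · exact bot_le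
            · intro π
              rw [if_neg]
              rintro ⟨_, _, h1, h2⟩
              rw [h2] at h1
              exact hz h1
        · simp [hq]
    _ = (∑' γ : List (Step d), (if Q γ then aw ν γ else 0)) * θ := ENNReal.tsum_mul_right
    _ ≤ 1 * θ := by gcongr
    _ = θ := one_mul _

lemma prod_aux (P Q : List (Step d) → Prop) {iP : ∀ π, Decidable (P π)}
    {iQ : ∀ γ, Decidable (Q γ)} {iPQ : ∀ π γ, Decidable (P π ∧ Q γ)} :
    ∑' π : List (Step d), ∑' γ : List (Step d), (if P π ∧ Q γ then aw ν π * aw ν γ else 0)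
      = (∑' π : List (Step d), (if P π then aw ν π else 0))
        * ∑' γ : List (Step d), (if Q γ then aw ν γ else 0) := by
  rw [← ENNReal.tsum_mul_right]
  refine tsum_congr fun π => ?_
  rw [← ENNReal.tsum_mul_left]
  refine tsum_congr fun γ => ?_
  by_cases h1 : P π <;> by_cases h2 : Q γ <;> simp [h1, h2]

open Classical in
/-- window lemma (2), exact frame (helper912's literal #40669) -/
def E2 (C : ℝ≥0∞) (us : ℕ → ℝ≥0∞) : Prop :=
  ∀ (s H : ℕ) (E : Finset (Site d)) (μ : Site d → ℝ≥0∞) (M lam : ℝ≥0∞),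
    ∑' x, μ x ≤ 1 → (∀ x, μ x ≤ M) → lam ≠ 0 → lam ≠ ⊤ →
    ∑' x : Site d, (if lev u x = 0 then μ x * ∑' π : List (Step d), ∑' γ : List (Step d),
      (if IsUp u H π ∧ endp 0 π ∈ E ∧ IsDn u H γ ∧ (∃ k, k ∈ Cm u x π γ) ∧
        (∀ k ∈ Cm u x π γ, s < k) then aw ν π * aw ν γ else 0) else 0)
      ≤ C * (lam + M * E.card * us s / lam + us s)

open Classical in
/-- window lemma (3), exact frame (helper912's literal #40669) -/
def E3 (C : ℝ≥0∞) (us : ℕ → ℝ≥0∞) : Prop :=
  ∀ (s H : ℕ) (E : Finset (Site d)) (μ : Site d → ℝ≥0∞) (M lam : ℝ≥0∞),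
    ∑' x, μ x ≤ 1 → (∀ x, μ x ≤ M) → lam ≠ 0 → lam ≠ ⊤ →
    ∑' x : Site d, (if lev u x = 0 then μ x * ∑' π : List (Step d), ∑' γ : List (Step d),
      (if IsUp u H π ∧ endp 0 γ ∈ E ∧ IsDn u H γ ∧ (∃ k, k ∈ Cm u x π γ) ∧
        (∀ k ∈ Cm u x π γ, k + s ≤ H) then aw ν π * aw ν γ else 0) else 0)
      ≤ C * (lam + M * E.card * us s / lam + us s)

/-- from the window lemma to the counting hypothesis -/
lemma to_count (Ψ : Site d → ℝ≥0∞) (C lam N us : ℝ≥0∞)
    (h : ∀ (μ : Site d → ℝ≥0∞) (M : ℝ≥0∞), ∑' x, μ x ≤ 1 → (∀ x, μ x ≤ M) →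
      ∑' x : Site d, (if lev u x = 0 then μ x * Ψ x else 0) ≤ C * (lam + M * N * us / lam + us))
    (T : Finset (Lat u)) (hT : T.Nonempty) :
    ((T.card : ℝ≥0∞))⁻¹ * ∑ w ∈ T, Ψ w.1
      ≤ C * lam + (T.card : ℝ≥0∞)⁻¹ * (N * (C * us / lam)) + C * us := by
  classical
  have ht0 : (T.card : ℝ≥0∞) ≠ 0 := by simpa using hT.ne_empty
  have htt : (T.card : ℝ≥0∞) ≠ ⊤ := ENNReal.natCast_ne_top _
  have hinj : Set.InjOn (fun w : Lat u => w.1) (T : Set (Lat u)) :=
    fun a _ b _ hab => Subtype.ext hab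
  set T' : Finset (Site d) := T.image (fun w : Lat u => w.1) with hT'
  have hc : T'.card = T.card := Finset.card_image_of_injOn hinj
  have h1 := h (fun x => if x ∈ T' then (T.card : ℝ≥0∞)⁻¹ else 0) (T.card : ℝ≥0∞)⁻¹ (by
      rw [tsum_eq_sum (s := T') (fun x hx => if_neg hx)]
      rw [Finset.sum_congr rfl (fun x hx => if_pos hx), Finset.sum_const, hc, nsmul_eq_mul,
        ENNReal.mul_inv_cancel ht0 htt]) (fun x => by
      by_cases hx : x ∈ T' <;> simp [hx])
  refine le_trans ?_ (h1.trans (le_of_eq ?_))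
  · calc ((T.card : ℝ≥0∞))⁻¹ * ∑ w ∈ T, Ψ w.1
        = ∑ x ∈ T', (if lev u x = 0 then (if x ∈ T' then (T.card : ℝ≥0∞)⁻¹ else 0) * Ψ x else 0) := by
          rw [hT', Finset.sum_image hinj, Finset.mul_sum]
          refine Finset.sum_congr rfl fun w hw => ?_
          have hw0 : lev u w.1 = 0 := w.2
          rw [if_pos hw0, if_pos]
          exact Finset.mem_image_of_mem _ hw
      _ ≤ _ := ENNReal.sum_le_tsum T'
  · rw [mul_add, mul_add, div_eq_mul_inv, div_eq_mul_inv]
    ring

open Classical in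
/-- **139's `hW` (#40703) for 657's instance.** -/
theorem hW_of (c : ℝ≥0∞) (hc : c ≠ 0)
    (hup : ∀ n, c ≤ ∑' π : List (Step d), if IsUp u n π then aw ν π else 0)
    (hdn : ∀ n, c ≤ ∑' γ : List (Step d), if IsDn u n γ then aw ν γ else 0)
    (hup1 : ∀ n, (∑' π : List (Step d), if IsUp u n π then aw ν π else 0) ≤ 1)
    (hdn1 : ∀ n, (∑' γ : List (Step d), if IsDn u n γ then aw ν γ else 0) ≤ 1)
    (C : ℝ≥0∞) (hC : C ≠ ⊤) (us : ℕ → ℝ≥0∞) (hus : ∀ ε : ℝ≥0∞, ε ≠ 0 → ∃ s, us s ≤ ε)
    (hE2 : E2 ν u C us) (hE3 : E3 ν u C us) :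
    ∀ v η : ℝ≥0∞, v ≠ 0 → v ≤ 1 → η ≠ 0 → ∃ s H0 : ℕ, ∀ H, H0 ≤ H →
      ∃ S1 S2 : Set (Lat u), Good (Lam ν u) (ht u) (dl u) (c * c * v) η H S1 ∧
        Good (Lam ν u) (ht u) (dl u) (c * c * v) η H S2 ∧
        ∀ w, w ∉ S1 → w ∉ S2 → (∑' L : List (PB u),
          (if HT (ht u) L = H ∧ CD (ht u) (dl u) (B5W.cd u) L w ≠ ∅ ∧
            (∀ k ∈ CD (ht u) (dl u) (B5W.cd u) L w, s < k ∧ k + s ≤ H)
            then LW (Lam ν u) L else 0)) ≤ v * v + η := by
  intro v η hv hv1 hη
  have hc1 : c ≤ 1 := (hup 0).trans (hup1 0)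
  have hctop : c ≠ ⊤ := ne_top_of_le_ne_top ENNReal.one_ne_top hc1
  have hvtop : v ≠ ⊤ := ne_top_of_le_ne_top ENNReal.one_ne_top hv1
  -- constants
  set e : ℝ≥0∞ := min η 1 with he
  have he0 : e ≠ 0 := by
    rw [he]; exact (lt_min (pos_iff_ne_zero.2 hη) one_pos).ne'
  have he1 : e ≠ ⊤ := ne_top_of_le_ne_top ENNReal.one_ne_top (min_le_right _ _)
  have heη : e ≤ η := min_le_left _ _
  have h8 : e / 8 ≠ 0 := (ENNReal.div_pos he0 (by norm_num)).ne'
  have h8' : e / 8 ≠ ⊤ := ENNReal.div_ne_top he1 (by norm_num)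
  have hC1 : C + 1 ≠ ⊤ := ENNReal.add_ne_top.2 ⟨hC, ENNReal.one_ne_top⟩
  have hC0 : C + 1 ≠ 0 := by simp
  have hCx : ∀ x : ℝ≥0∞, C * (x / (C + 1)) ≤ x := fun x => by
    calc C * (x / (C + 1)) ≤ (C + 1) * (x / (C + 1)) := by gcongr; exact le_self_add
      _ = x := ENNReal.mul_div_cancel hC0 hC1
  set lam : ℝ≥0∞ := (e / 8) / (C + 1) with hlam
  have hl0 : lam ≠ 0 := (ENNReal.div_pos h8 hC1).ne'
  have hl1 : lam ≠ ⊤ := ENNReal.div_ne_top h8' hC0
  set δ : ℝ≥0∞ := min ((e / 8) / (C + 1)) ((e * (e / 8) * lam) / (C + 1)) with hδ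
  have hδ0 : δ ≠ 0 := by
    refine (lt_min (pos_iff_ne_zero.2 hl0) ?_).ne'
    exact ENNReal.div_pos (mul_ne_zero (mul_ne_zero he0 h8) hl0) hC1
  obtain ⟨s, hs⟩ := hus δ hδ0
  have ha : C * lam ≤ e / 8 := hCx _
  have hb : C * us s ≤ e / 8 :=
    le_trans (by gcongr; exact hs.trans (min_le_left _ _)) (hCx _)
  have hK : C * us s / lam ≤ e * (e / 8) := by
    rw [ENNReal.div_le_iff hl0 hl1]
    exact le_trans (by gcongr; exact hs.trans (min_le_right _ _)) (hCx _)
  refine ⟨s, 0, fun H _ => ?_⟩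
  have hcv : c * v ≠ 0 := mul_ne_zero hc hv
  have hcvle : c * v ≤ c := by
    calc c * v ≤ c * 1 := by gcongr
      _ = c := mul_one c
  -- quantiles
  have hpX : ∑' z, law ν (IsUp u H) z ≤ 1 := by rw [law_sum]; exact hup1 H
  have hpY : ∑' z, law ν (IsDn u H) z ≤ 1 := by rw [law_sum]; exact hdn1 H
  obtain ⟨θX, hθX0, hX1, hX2⟩ := quant' (law ν (IsUp u H)) hpX hcv
    (hcvle.trans (by rw [law_sum]; exact hup H))
  obtain ⟨θY, hθY0, hY1, hY2⟩ := quant' (law ν (IsDn u H)) hpY hcv
    (hcvle.trans (by rw [law_sum]; exact hdn H))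
  obtain ⟨hfX, hcX⟩ := AsmA789.card_le (law ν (IsUp u H)) hpX hθX0
  obtain ⟨hfY, hcY⟩ := AsmA789.card_le (law ν (IsDn u H)) hpY hθY0
  rw [Set.ncard_eq_toFinset_card _ hfX] at hcX
  rw [Set.ncard_eq_toFinset_card _ hfY] at hcY
  rw [law_low] at hX1 hX2 hY1 hY2
  set EX := hfX.toFinset with hEX
  set EY := hfY.toFinset with hEY
  set ΨX : Site d → ℝ≥0∞ := fun x => ∑' π : List (Step d), ∑' γ : List (Step d),
      (if IsUp u H π ∧ endp 0 π ∈ EX ∧ IsDn u H γ ∧ (∃ k, k ∈ Cm u x π γ) ∧
        (∀ k ∈ Cm u x π γ, s < k) then aw ν π * aw ν γ else 0) with hΨX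
  set ΨY : Site d → ℝ≥0∞ := fun x => ∑' π : List (Step d), ∑' γ : List (Step d),
      (if IsUp u H π ∧ endp 0 γ ∈ EY ∧ IsDn u H γ ∧ (∃ k, k ∈ Cm u x π γ) ∧
        (∀ k ∈ Cm u x π γ, k + s ≤ H) then aw ν π * aw ν γ else 0) with hΨY
  have hcountX := count (W := Lat u) (fun w => ΨX w.1) θX (C * us s / lam) EX.card (C * lam)
    (C * us s) e he0 he1
    (to_count u ΨX C lam EX.card (us s) fun μ M h1 h2 => hE2 s H EX μ M lam h1 h2 hl0 hl1)
    ha hb hcX hK
  have hcountY := count (W := Lat u) (fun w => ΨY w.1) θY (C * us s / lam) EY.card (C * lam)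
    (C * us s) e he0 he1
    (to_count u ΨY C lam EY.card (us s) fun μ M h1 h2 => hE3 s H EY μ M lam h1 h2 hl0 hl1)
    ha hb hcY hK
  refine ⟨{w : Lat u | e / 2 < ΨX w.1}, {w : Lat u | e / 2 < ΨY w.1}, ?_, ?_, ?_⟩
  · -- X good
    refine ⟨{L | law ν (IsUp u H) (endp 0 (cat L).1) < 2 * θX}, 2 * θX, ?_, ?_, hcountX.trans heη⟩
    · have h := tsum_L ν u H (fun x => if law ν (IsUp u H) (endp 0 x.1) < 2 * θX then 1 else 0)
      calc c * c * v = (c * v) * c := by ring
        _ ≤ (∑' π : List (Step d), (if IsUp u H π ∧ law ν (IsUp u H) (endp 0 π) < 2 * θX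
              then aw ν π else 0)) * ∑' γ : List (Step d), (if IsDn u H γ then aw ν γ else 0) := by
            gcongr
            exact hdn H
        _ = ∑' π : List (Step d), ∑' γ : List (Step d),
              (if (IsUp u H π ∧ law ν (IsUp u H) (endp 0 π) < 2 * θX) ∧ IsDn u H γ
                then aw ν π * aw ν γ else 0) :=
            (prod_aux ν (fun π => IsUp u H π ∧ law ν (IsUp u H) (endp 0 π) < 2 * θX)
              (IsDn u H)).symm
        _ = ∑' π : List (Step d), ∑' γ : List (Step d),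
              (if IsUp u H π ∧ IsDn u H γ then aw ν π * aw ν γ *
                (if law ν (IsUp u H) (endp 0 (π, γ).1) < 2 * θX then 1 else 0) else 0) := by
            refine tsum_congr fun π => tsum_congr fun γ => ?_
            by_cases h1 : IsUp u H π <;> by_cases h2 : IsDn u H γ <;>
              by_cases h3 : law ν (IsUp u H) (endp 0 π) < 2 * θX <;> simp [h1, h2, h3]
        _ = _ := h.symm
        _ ≤ _ := by
            refine ENNReal.tsum_le_tsum fun L => ?_
            by_cases h1 : HT (ht u) L = H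
            · by_cases h2 : law ν (IsUp u H) (endp 0 (cat L).1) < 2 * θX
              · rw [if_pos h1, if_pos h2, if_pos ⟨h1, h2⟩, mul_one]
              · rw [if_pos h1, if_neg h2, mul_zero]; exact bot_le
            · rw [if_neg h1]; exact bot_le
    · intro w w'
      have h := tsum_L ν u H (fun x => if law ν (IsUp u H) (endp 0 x.1) < 2 * θX ∧
        endp 0 x.1 = w'.1 - w.1 - endp 0 x.2 then 1 else 0)
      calc _ ≤ ∑' L : List (PB u), (if HT (ht u) L = H then LW (Lam ν u) L *
              (if law ν (IsUp u H) (endp 0 (cat L).1) < 2 * θX ∧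
                endp 0 (cat L).1 = w'.1 - w.1 - endp 0 (cat L).2 then 1 else 0) else 0) := by
            refine ENNReal.tsum_le_tsum fun L => ?_
            by_cases h1 : HT (ht u) L = H ∧
              L ∈ {L | law ν (IsUp u H) (endp 0 (cat L).1) < 2 * θX} ∧ act (dl u) L w = w'
            · rw [if_pos h1, if_pos h1.1, if_pos, mul_one]
              refine ⟨h1.2.1, ?_⟩
              have h3 := congrArg Subtype.val h1.2.2
              rw [act_cat] at h3
              rw [← h3]; abel
            · rw [if_neg h1]; exact bot_le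
        _ = _ := h
        _ = ∑' γ : List (Step d), ∑' π : List (Step d),
              (if IsUp u H π ∧ IsDn u H γ ∧ law ν (IsUp u H) (endp 0 π) < 2 * θX ∧
                endp 0 π = (fun γ => w'.1 - w.1 - endp 0 γ) γ then aw ν π * aw ν γ else 0) := by
            rw [ENNReal.tsum_comm]
            refine tsum_congr fun γ => tsum_congr fun π => ?_
            by_cases h1 : IsUp u H π <;> by_cases h2 : IsDn u H γ <;>
              by_cases h3 : law ν (IsUp u H) (endp 0 π) < 2 * θX <;>
              by_cases h4 : endp 0 π = w'.1 - w.1 - endp 0 γ <;> simp [h1, h2, h3, h4]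
        _ ≤ _ := dens_aux ν _ _ _ _ (hdn1 H)
  · -- Y good
    refine ⟨{L | law ν (IsDn u H) (endp 0 (cat L).2) < 2 * θY}, 2 * θY, ?_, ?_, hcountY.trans heη⟩
    · have h := tsum_L ν u H (fun x => if law ν (IsDn u H) (endp 0 x.2) < 2 * θY then 1 else 0)
      calc c * c * v = c * (c * v) := by ring
        _ ≤ (∑' π : List (Step d), (if IsUp u H π then aw ν π else 0)) *
              ∑' γ : List (Step d), (if IsDn u H γ ∧ law ν (IsDn u H) (endp 0 γ) < 2 * θY
              then aw ν γ else 0) := by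
            gcongr
            exact hup H
        _ = ∑' π : List (Step d), ∑' γ : List (Step d),
              (if IsUp u H π ∧ (IsDn u H γ ∧ law ν (IsDn u H) (endp 0 γ) < 2 * θY)
                then aw ν π * aw ν γ else 0) :=
            (prod_aux ν (IsUp u H)
              (fun γ => IsDn u H γ ∧ law ν (IsDn u H) (endp 0 γ) < 2 * θY)).symm
        _ = ∑' π : List (Step d), ∑' γ : List (Step d),
              (if IsUp u H π ∧ IsDn u H γ then aw ν π * aw ν γ *
                (if law ν (IsDn u H) (endp 0 (π, γ).2) < 2 * θY then 1 else 0) else 0) := by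
            refine tsum_congr fun π => tsum_congr fun γ => ?_
            by_cases h1 : IsUp u H π <;> by_cases h2 : IsDn u H γ <;>
              by_cases h3 : law ν (IsDn u H) (endp 0 γ) < 2 * θY <;> simp [h1, h2, h3]
        _ = _ := h.symm
        _ ≤ _ := by
            refine ENNReal.tsum_le_tsum fun L => ?_
            by_cases h1 : HT (ht u) L = H
            · by_cases h2 : law ν (IsDn u H) (endp 0 (cat L).2) < 2 * θY
              · rw [if_pos h1, if_pos h2, if_pos ⟨h1, h2⟩, mul_one]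
              · rw [if_pos h1, if_neg h2, mul_zero]; exact bot_le
            · rw [if_neg h1]; exact bot_le
    · intro w w'
      have h := tsum_L ν u H (fun x => if law ν (IsDn u H) (endp 0 x.2) < 2 * θY ∧
        endp 0 x.2 = w'.1 - w.1 - endp 0 x.1 then 1 else 0)
      calc _ ≤ ∑' L : List (PB u), (if HT (ht u) L = H then LW (Lam ν u) L *
              (if law ν (IsDn u H) (endp 0 (cat L).2) < 2 * θY ∧
                endp 0 (cat L).2 = w'.1 - w.1 - endp 0 (cat L).1 then 1 else 0) else 0) := by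
            refine ENNReal.tsum_le_tsum fun L => ?_
            by_cases h1 : HT (ht u) L = H ∧
              L ∈ {L | law ν (IsDn u H) (endp 0 (cat L).2) < 2 * θY} ∧ act (dl u) L w = w'
            · rw [if_pos h1, if_pos h1.1, if_pos, mul_one]
              refine ⟨h1.2.1, ?_⟩
              have h3 := congrArg Subtype.val h1.2.2
              rw [act_cat] at h3
              rw [← h3]; abel
            · rw [if_neg h1]; exact bot_le
        _ = _ := h
        _ = ∑' π : List (Step d), ∑' γ : List (Step d),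
              (if IsDn u H γ ∧ IsUp u H π ∧ law ν (IsDn u H) (endp 0 γ) < 2 * θY ∧
                endp 0 γ = (fun π => w'.1 - w.1 - endp 0 π) π then aw ν γ * aw ν π else 0) := by
            refine tsum_congr fun π => tsum_congr fun γ => ?_
            by_cases h1 : IsUp u H π <;> by_cases h2 : IsDn u H γ <;>
              by_cases h3 : law ν (IsDn u H) (endp 0 γ) < 2 * θY <;>
              by_cases h4 : endp 0 γ = w'.1 - w.1 - endp 0 π <;> simp [h1, h2, h3, h4, mul_comm]
        _ ≤ _ := dens_aux ν _ _ _ _ (hup1 H)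
  · -- the bound
    intro w hw1 hw2
    have hw1' : ΨX w.1 ≤ e / 2 := not_lt.1 hw1
    have hw2' : ΨY w.1 ≤ e / 2 := not_lt.1 hw2
    have h := tsum_L ν u H (fun x => if cds u x w.1 ≠ ∅ ∧ (∀ k ∈ cds u x w.1, s < k ∧ k + s ≤ H)
      then 1 else 0)
    have hNL : ∑' π : List (Step d), ∑' γ : List (Step d),
        (if (IsUp u H π ∧ law ν (IsUp u H) (endp 0 π) < θX) ∧
          (IsDn u H γ ∧ law ν (IsDn u H) (endp 0 γ) < θY) then aw ν π * aw ν γ else 0)
        ≤ v * v := by
      rw [prod_aux ν (fun π => IsUp u H π ∧ law ν (IsUp u H) (endp 0 π) < θX)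
        (fun γ => IsDn u H γ ∧ law ν (IsDn u H) (endp 0 γ) < θY)]
      have hv' : c * v ≤ v := by
        calc c * v ≤ 1 * v := by gcongr
          _ = v := one_mul v
      exact mul_le_mul' (hX1.trans hv') (hY1.trans hv')
    calc _ ≤ ∑' L : List (PB u), (if HT (ht u) L = H then LW (Lam ν u) L *
            (if cds u (cat L) w.1 ≠ ∅ ∧ (∀ k ∈ cds u (cat L) w.1, s < k ∧ k + s ≤ H)
              then 1 else 0) else 0) := by
          refine ENNReal.tsum_le_tsum fun L => ?_
          rw [CD_cat]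
          by_cases h1 : HT (ht u) L = H ∧ cds u (cat L) w.1 ≠ ∅ ∧
            (∀ k ∈ cds u (cat L) w.1, s < k ∧ k + s ≤ H)
          · rw [if_pos h1, if_pos h1.1, if_pos h1.2, mul_one]
          · rw [if_neg h1]; exact bot_le
      _ = _ := h
      _ ≤ ∑' π : List (Step d), ∑' γ : List (Step d),
            ((if IsUp u H π ∧ endp 0 π ∈ EX ∧ IsDn u H γ ∧ (∃ k, k ∈ Cm u w.1 π γ) ∧
              (∀ k ∈ Cm u w.1 π γ, s < k) then aw ν π * aw ν γ else 0) +
            (if IsUp u H π ∧ endp 0 γ ∈ EY ∧ IsDn u H γ ∧ (∃ k, k ∈ Cm u w.1 π γ) ∧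
              (∀ k ∈ Cm u w.1 π γ, k + s ≤ H) then aw ν π * aw ν γ else 0) +
            (if (IsUp u H π ∧ law ν (IsUp u H) (endp 0 π) < θX) ∧
              (IsDn u H γ ∧ law ν (IsDn u H) (endp 0 γ) < θY) then aw ν π * aw ν γ else 0)) := by
          refine ENNReal.tsum_le_tsum fun π => ENNReal.tsum_le_tsum fun γ => ?_
          rw [cds_eq]
          by_cases h1 : IsUp u H π ∧ IsDn u H γ
          · rw [if_pos h1]
            by_cases h2 : Cm u w.1 π γ ≠ ∅ ∧ (∀ k ∈ Cm u w.1 π γ, s < k ∧ k + s ≤ H)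
            · rw [if_pos h2, mul_one]
              have hne : ∃ k, k ∈ Cm u w.1 π γ := Set.nonempty_iff_ne_empty.2 h2.1
              by_cases h3 : endp 0 π ∈ EX
              · rw [if_pos (⟨h1.1, h3, h1.2, hne, fun k hk => (h2.2 k hk).1⟩ :
                  IsUp u H π ∧ endp 0 π ∈ EX ∧ IsDn u H γ ∧ (∃ k, k ∈ Cm u w.1 π γ) ∧
                  (∀ k ∈ Cm u w.1 π γ, s < k)), add_assoc]
                exact le_self_add
              · by_cases h4 : endp 0 γ ∈ EY
                · rw [if_pos (⟨h1.1, h4, h1.2, hne, fun k hk => (h2.2 k hk).2⟩ :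
                    IsUp u H π ∧ endp 0 γ ∈ EY ∧ IsDn u H γ ∧ (∃ k, k ∈ Cm u w.1 π γ) ∧
                    (∀ k ∈ Cm u w.1 π γ, k + s ≤ H))]
                  exact le_add_right le_add_self
                · have h5 : law ν (IsUp u H) (endp 0 π) < θX := by
                    by_contra h
                    exact h3 (hfX.mem_toFinset.2 (not_lt.1 h))
                  have h6 : law ν (IsDn u H) (endp 0 γ) < θY := by
                    by_contra h
                    exact h4 (hfY.mem_toFinset.2 (not_lt.1 h))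
                  rw [if_pos (⟨⟨h1.1, h5⟩, ⟨h1.2, h6⟩⟩ :
                    (IsUp u H π ∧ law ν (IsUp u H) (endp 0 π) < θX) ∧
                    (IsDn u H γ ∧ law ν (IsDn u H) (endp 0 γ) < θY))]
                  exact le_add_self
            · rw [if_neg h2, mul_zero]; exact bot_le
          · rw [if_neg h1]; exact bot_le
      _ ≤ e / 2 + e / 2 + v * v := by
          simp_rw [ENNReal.tsum_add]
          exact add_le_add (add_le_add hw1' hw2') hNL
      _ = v * v + e := by rw [ENNReal.add_halves, add_comm]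
      _ ≤ v * v + η := by gcongr

end main

end Crest.Agent.R154.HW350
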