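import Crest.Agent.R154.HWinAd_363
import Crest.Agent.R154.HSl_689

/-! Row 154, ROAD 801 (helper379): 139's `hW` (one window between joint cuts at one exact height)
for 657's instance, from the two window lemmas in words (912's E2 / E3).
`quantile` is helper2's. -/

set_option autoImplicit false
set_option linter.unusedVariables false

namespace Crest.Agent.R154.HW379

open MeasureTheory ProbabilityTheory Crest.ProbabilityR.RandomEnvironment
open scoped ENNReal
open Crest.Agent.R154.B5A Crest.Agent.R154.B5W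
open Crest.Agent.R154.Flux566 (lw endp sitesL)
open Crest.Agent.R154.NB28 (IsUp IsDn Cm)
open Crest.Agent.R154.JAsm139 (Good card)
open Classical

section abstr

theorem quantile {α : Type*} (p : α → ℝ≥0∞) (hp : ∑' a, p a ≠ ⊤) (u : ℝ≥0∞) (hu : u ≠ 0)
    (hu1 : u < ∑' a, p a) : ∃ th : ℝ≥0∞, th ≠ 0 ∧ th ≠ ⊤ ∧
      ∑' a, (if p a < th then p a else 0) ≤ u ∧ u ≤ ∑' a, (if p a ≤ th then p a else 0) := by
  set S : Set ℝ≥0∞ := {θ | ∑' a, (if p a < θ then p a else 0) ≤ u} with hS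
  have hi : ∑' a, (if p a < sSup S then p a else 0) ≤ u := by
    rw [ENNReal.tsum_eq_iSup_sum]
    refine iSup_le fun F => ?_
    by_cases hM : (F.filter (fun a => p a < sSup S)).Nonempty
    · obtain ⟨a0, ha0, hmax⟩ := Finset.exists_max_image _ p hM
      obtain ⟨θ, hθ, hlt⟩ := lt_sSup_iff.1 (Finset.mem_filter.1 ha0).2
      calc ∑ a ∈ F, (if p a < sSup S then p a else 0)
          ≤ ∑ a ∈ F, (if p a < θ then p a else 0) := by
            refine Finset.sum_le_sum fun a ha => ?_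
            by_cases h : p a < sSup S
            · have := hmax a (Finset.mem_filter.2 ⟨ha, h⟩)
              rw [if_pos h, if_pos (lt_of_le_of_lt this hlt)]
            · simp [h]
        _ ≤ _ := ENNReal.sum_le_tsum _
        _ ≤ u := hθ
    · rw [Finset.not_nonempty_iff_eq_empty] at hM
      rw [Finset.sum_eq_zero]
      · exact zero_le
      · intro a ha
        by_cases h : p a < sSup S
        · have : a ∈ F.filter (fun a => p a < sSup S) := Finset.mem_filter.2 ⟨ha, h⟩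
          rw [hM] at this; simp at this
        · simp [h]
  have hfin : ∀ a, p a < ⊤ := fun a => lt_of_le_of_lt (ENNReal.le_tsum a) hp.lt_top
  have htop : sSup S ≠ ⊤ := by
    intro h
    rw [h] at hi
    simp only [hfin, if_true] at hi
    exact absurd hu1 (not_lt.2 hi)
  have hii : u ≤ ∑' a, (if p a ≤ sSup S then p a else 0) := by
    by_contra hlt
    rw [not_le] at hlt
    have hut : u ≠ ⊤ := ne_top_of_lt hu1
    have hpos : 0 < u - ∑' a, (if p a ≤ sSup S then p a else 0) := tsub_pos_of_lt hlt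
    have hten := ENNReal.tendsto_tsum_compl_atTop_zero hp
    obtain ⟨F, hF⟩ := (hten.eventually (gt_mem_nhds hpos)).exists
    have hF' : ∑' a, (if a ∈ F then 0 else p a) < u - ∑' a, (if p a ≤ sSup S then p a else 0) := by
      refine lt_of_le_of_lt (le_of_eq ?_) hF
      refine Eq.trans ?_ (tsum_subtype {x | x ∉ F} p).symm
      refine tsum_congr fun a => ?_
      by_cases h : a ∈ F <;> simp [Set.indicator, h]
    have : ∃ θ, sSup S < θ ∧ ∀ a ∈ F, sSup S < p a → θ ≤ p a := by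
      by_cases hM : (F.filter (fun a => sSup S < p a)).Nonempty
      · obtain ⟨a0, ha0, hmin⟩ := Finset.exists_min_image _ p hM
        exact ⟨p a0, (Finset.mem_filter.1 ha0).2, fun a ha h => hmin a (Finset.mem_filter.2 ⟨ha, h⟩)⟩
      · refine ⟨⊤, htop.lt_top, fun a ha h => ?_⟩
        exact absurd ⟨a, Finset.mem_filter.2 ⟨ha, h⟩⟩ hM
    obtain ⟨θ, hθ1, hθ2⟩ := this
    have hθS : θ ∈ S := by
      change ∑' a, (if p a < θ then p a else 0) ≤ u
      calc _ ≤ ∑' a, ((if p a ≤ sSup S then p a else 0) + (if a ∈ F then 0 else p a)) := by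
            refine ENNReal.tsum_le_tsum fun a => ?_
            by_cases h : p a < θ
            · by_cases h' : p a ≤ sSup S
              · simp [h, h']
              · have : a ∉ F := fun ha => absurd (hθ2 a ha (not_le.1 h')) (not_le.2 h)
                simp [h, h', this]
            · simp [h]
        _ ≤ (∑' a, if p a ≤ sSup S then p a else 0) +
              (u - ∑' a, if p a ≤ sSup S then p a else 0) := by
            rw [ENNReal.tsum_add]; gcongr
        _ = u := add_tsub_cancel_of_le hlt.le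
    exact absurd (le_sSup hθS) (not_le.2 hθ1)
  refine ⟨sSup S, ?_, htop, hi, hii⟩
  intro h0
  rw [h0] at hii
  have : ∀ a, (if p a ≤ 0 then p a else 0) = 0 := fun a => by
    by_cases h : p a ≤ 0
    · simp [nonpos_iff_eq_zero.1 h]
    · simp [h]
  simp only [this, tsum_zero] at hii
  exact hu (nonpos_iff_eq_zero.1 hii)

/-- fibrewise sum -/
lemma fib {ι G : Type*} (a : ι → ℝ≥0∞) (e : ι → G) (g : G → ℝ≥0∞) :
    ∑' i, a i * g (e i) = ∑' z, (∑' i, if e i = z then a i else 0) * g z := by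
  have h : ∀ i, a i * g (e i) = ∑' z, (if e i = z then a i else 0) * g z := by
    intro i
    rw [tsum_eq_single (e i)]
    · rw [if_pos rfl]
    · intro z hz
      rw [if_neg (Ne.symm hz), zero_mul]
  rw [tsum_congr h, ENNReal.tsum_comm]
  refine tsum_congr fun z => ?_
  rw [ENNReal.tsum_mul_right]

/-- the level set of a subprobability is finite, `th * card ≤ 1` -/
lemma lvl {G : Type*} (p : G → ℝ≥0∞) (hp : ∑' z, p z ≤ 1) (th : ℝ≥0∞) (h0 : th ≠ 0) :
    ∃ E : Finset G, (∀ z, z ∈ E ↔ th ≤ p z) ∧ th * E.card ≤ 1 := by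
  have hfin : {z | th ≤ p z}.Finite :=
    ENNReal.finite_const_le_of_tsum_ne_top (ne_top_of_le_ne_top ENNReal.one_ne_top hp) h0
  refine ⟨hfin.toFinset, fun z => by simp, ?_⟩
  calc th * (hfin.toFinset.card : ℝ≥0∞) = ∑ z ∈ hfin.toFinset, th := by
        rw [Finset.sum_const, nsmul_eq_mul, mul_comm]
    _ ≤ ∑ z ∈ hfin.toFinset, p z := Finset.sum_le_sum fun z hz => by simpa using hz
    _ ≤ ∑' z, p z := ENNReal.sum_le_tsum _
    _ ≤ 1 := hp

/-- counting form of an averaged bound -/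
lemma count {G : Type*} (Φ : G → ℝ≥0∞) (C lam n us : ℝ≥0∞) (hC0 : C ≠ 0) (hCt : C ≠ ⊤)
    (hl0 : lam ≠ 0) (hlt : lam ≠ ⊤) (hn : n ≠ ⊤) (hus : us ≤ lam)
    (H : ∀ (μ : G → ℝ≥0∞) (M : ℝ≥0∞), ∑' x, μ x ≤ 1 → (∀ x, μ x ≤ M) →
      ∑' x, μ x * Φ x ≤ C * (lam + M * n * us / lam + us)) :
    lam * lam * card {x | C * (3 * lam) < Φ x} ≤ n * us := by
  have hfin : ∀ F : Finset G, (∀ x ∈ F, C * (3 * lam) < Φ x) → lam * lam * F.card ≤ n * us := by
    intro F hF
    rcases F.eq_empty_or_nonempty with rfl | hne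
    · simp
    have hc0 : (F.card : ℝ≥0∞) ≠ 0 := by
      exact_mod_cast hne.card_pos.ne'
    have hct : (F.card : ℝ≥0∞) ≠ ⊤ := ENNReal.natCast_ne_top _
    have h := H (fun x => if x ∈ F then (F.card : ℝ≥0∞)⁻¹ else 0) (F.card : ℝ≥0∞)⁻¹ ?_ ?_
    · have h2 : C * (3 * lam) ≤ ∑' x, (if x ∈ F then (F.card : ℝ≥0∞)⁻¹ else 0) * Φ x := by
        calc C * (3 * lam) = ∑ x ∈ F, (F.card : ℝ≥0∞)⁻¹ * (C * (3 * lam)) := by
              rw [Finset.sum_const, nsmul_eq_mul, ← mul_assoc (F.card : ℝ≥0∞),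
                ENNReal.mul_inv_cancel hc0 hct, one_mul]
          _ ≤ ∑ x ∈ F, (if x ∈ F then (F.card : ℝ≥0∞)⁻¹ else 0) * Φ x := by
              refine Finset.sum_le_sum fun x hx => ?_
              rw [if_pos hx]
              exact mul_le_mul_right (hF x hx).le _
          _ ≤ _ := ENNReal.sum_le_tsum _
      have h3 := h2.trans h
      have h4 : 3 * lam ≤ lam + (F.card : ℝ≥0∞)⁻¹ * n * us / lam + us :=
        (ENNReal.mul_le_mul_iff_right hC0 hCt).1 h3
      have h5 : 3 * lam ≤ 2 * lam + (F.card : ℝ≥0∞)⁻¹ * n * us / lam := by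
        calc 3 * lam ≤ lam + (F.card : ℝ≥0∞)⁻¹ * n * us / lam + us := h4
          _ ≤ lam + (F.card : ℝ≥0∞)⁻¹ * n * us / lam + lam := by gcongr
          _ = _ := by ring
      have h6 : lam ≤ (F.card : ℝ≥0∞)⁻¹ * n * us / lam := by
        have e : 3 * lam = 2 * lam + lam := by ring
        rw [e] at h5
        exact (ENNReal.add_le_add_iff_left (ENNReal.mul_ne_top (by norm_num) hlt)).1 h5
      calc lam * lam * F.card ≤ lam * ((F.card : ℝ≥0∞)⁻¹ * n * us / lam) * F.card := by gcongr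
        _ = (F.card : ℝ≥0∞)⁻¹ * F.card * (n * us) * (lam / lam) := by
            rw [div_eq_mul_inv, div_eq_mul_inv]; ring
        _ = n * us := by
            rw [ENNReal.inv_mul_cancel hc0 hct, ENNReal.div_self hl0 hlt, one_mul, mul_one]
    · rw [tsum_eq_sum (s := F) (fun x hx => by rw [if_neg hx])]
      rw [Finset.sum_congr rfl (fun x hx => if_pos hx), Finset.sum_const, nsmul_eq_mul,
        ENNReal.mul_inv_cancel hc0 hct]
    · intro x
      by_cases hx : x ∈ F
      · rw [if_pos hx]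
      · rw [if_neg hx]; exact zero_le
  rw [card, ENNReal.tsum_eq_iSup_sum, ENNReal.mul_iSup]
  refine iSup_le fun F => ?_
  refine le_trans (le_of_eq ?_) (hfin (F.filter fun x => C * (3 * lam) < Φ x)
    fun x hx => (Finset.mem_filter.1 hx).2)
  congr 1
  rw [Finset.card_filter]
  push_cast
  refine Finset.sum_congr rfl fun x _ => ?_
  simp [Set.indicator_apply]

end abstr

section inst

variable {d : ℕ} (ν : Measure (Row d)) [IsProbabilityMeasure ν] (u : Step d)

/-- mass function of the up crossings of height `H` -/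
noncomputable def A (H : ℕ) (π : List (Step d)) : ℝ≥0∞ := if IsUp u H π then NB28.aw ν π else 0

/-- mass function of the down crossings of height `H` -/
noncomputable def Bm (H : ℕ) (γ : List (Step d)) : ℝ≥0∞ := if IsDn u H γ then NB28.aw ν γ else 0

noncomputable def pX (H : ℕ) (z : Site d) : ℝ≥0∞ := ∑' π, if endp 0 π = z then A ν u H π else 0

noncomputable def pY (H : ℕ) (z : Site d) : ℝ≥0∞ := ∑' γ, if endp 0 γ = z then Bm ν u H γ else 0

lemma sum_A (H : ℕ) (g : Site d → ℝ≥0∞) :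
    ∑' π, A ν u H π * g (endp 0 π) = ∑' z, pX ν u H z * g z := by
  refine (fib (A ν u H) (fun π => endp 0 π) g).trans (tsum_congr fun z => ?_)
  unfold pX
  congr 1
  exact tsum_congr fun i => by split_ifs <;> rfl

lemma sum_B (H : ℕ) (g : Site d → ℝ≥0∞) :
    ∑' γ, Bm ν u H γ * g (endp 0 γ) = ∑' z, pY ν u H z * g z := by
  refine (fib (Bm ν u H) (fun π => endp 0 π) g).trans (tsum_congr fun z => ?_)
  unfold pY
  congr 1
  exact tsum_congr fun i => by split_ifs <;> rfl

lemma A_le (H : ℕ) : ∑' π, A ν u H π ≤ 1 :=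
  sum_if_le_one ν fun l l' h h' hp => NB28.isUp_prefix h h' hp

lemma B_le (H : ℕ) : ∑' γ, Bm ν u H γ ≤ 1 :=
  sum_if_le_one ν fun l l' h h' hp => NB28.isDn_prefix h h' hp

lemma pX_sum (H : ℕ) : ∑' z, pX ν u H z = ∑' π, A ν u H π := by
  have := sum_A ν u H (fun _ => 1)
  simpa using this.symm

lemma pY_sum (H : ℕ) : ∑' z, pY ν u H z = ∑' γ, Bm ν u H γ := by
  have := sum_B ν u H (fun _ => 1)
  simpa using this.symm

/-- list sums = product sums -/
lemma sum_L (H : ℕ) (F : List (Step d) × List (Step d) → ℝ≥0∞) :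
    ∑' L : List (PB u), (if HT (ht u) L = H then LW (Lam ν u) L * F (cat L) else 0)
      = ∑' π, ∑' γ, A ν u H π * Bm ν u H γ * F (π, γ) := by
  rw [tsum_L ν u H F]
  refine tsum_congr fun π => tsum_congr fun γ => ?_
  unfold A Bm
  by_cases h1 : IsUp u H π <;> by_cases h2 : IsDn u H γ <;> simp [h1, h2]

lemma act_cat (L : List (PB u)) (w : Lat u) :
    (act (dl u) L w).1 = w.1 + endp 0 (cat L).1 + endp 0 (cat L).2 := by
  rw [HSl689.act_val]
  have : ∀ L : List (PB u), (L.map (HSl689.ds u)).sum = endp 0 (cat L).1 + endp 0 (cat L).2 := by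
    intro L
    induction L with
    | nil => simp [cat, endp]
    | cons b L ih =>
      rw [List.map_cons, List.sum_cons, ih]
      simp only [cat, pm, HSl689.ds]
      rw [Flux566.endp_append, Flux566.endp_append,
        Flux566.endp_eq_add b.1.1 (endp 0 (cat L).1),
        Flux566.endp_eq_add (cat L).2 (endp 0 b.1.2)]
      abel
  rw [this, add_assoc]

/-- the `X`-local clean part at top displacement `x` -/
noncomputable def PhX (s H : ℕ) (E : Finset (Site d)) (x : Site d) : ℝ≥0∞ :=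
  ∑' π : List (Step d), ∑' γ : List (Step d), (if IsUp u H π ∧ endp 0 π ∈ E ∧
        IsDn u H γ ∧ (∃ k, k ∈ Cm u x π γ) ∧ (∀ k ∈ Cm u x π γ, s < k)
        then NB28.aw ν π * NB28.aw ν γ else 0)

noncomputable def PhY (s H : ℕ) (E : Finset (Site d)) (x : Site d) : ℝ≥0∞ :=
  ∑' π : List (Step d), ∑' γ : List (Step d), (if IsUp u H π ∧
        IsDn u H γ ∧ endp 0 γ ∈ E ∧ (∃ k, k ∈ Cm u x π γ) ∧ (∀ k ∈ Cm u x π γ, k + s ≤ H)
        then NB28.aw ν π * NB28.aw ν γ else 0)

lemma card_lat (S : Set (Site d)) : card {w : Lat u | w.1 ∈ S} ≤ card S := by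
  unfold card
  have : ∀ w : Lat u, ({w : Lat u | w.1 ∈ S}).indicator (fun _ => (1 : ℝ≥0∞)) w
      = S.indicator (fun _ => (1 : ℝ≥0∞)) w.1 := by
    intro w
    simp [Set.indicator_apply]
  rw [tsum_congr this]
  exact ENNReal.tsum_comp_le_tsum_of_injective Subtype.val_injective _

/-- the good family of one walker -/
lemma goodX (H : ℕ) (th v c η : ℝ≥0∞) (S : Set (Site d))
    (hv : v ≤ ∑' z, (if pX ν u H z ≤ th then pX ν u H z else 0))
    (hc : c ≤ ∑' γ, Bm ν u H γ) (hS : th * card S ≤ η) :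
    Good (Lam ν u) (ht u) (dl u) (v * c) η H {w : Lat u | w.1 ∈ S} := by
  refine ⟨{L | pX ν u H (endp 0 (cat L).1) ≤ th}, th, ?_, ?_, ?_⟩
  · have h := sum_L ν u H (fun p => if pX ν u H (endp 0 p.1) ≤ th then 1 else 0)
    refine le_trans (b := ∑' L : List (PB u), (if HT (ht u) L = H then LW (Lam ν u) L *
          (if pX ν u H (endp 0 (cat L).1) ≤ th then 1 else 0) else 0)) ?_
      (le_of_eq (tsum_congr fun L => ?_))
    swap
    · by_cases h1 : HT (ht u) L = H <;> by_cases h2 : pX ν u H (endp 0 (cat L).1) ≤ th <;>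
        simp [h1, h2]
    rw [h]
    have e2 : ∀ π, ∑' γ, A ν u H π * Bm ν u H γ *
        (if pX ν u H (endp 0 π) ≤ th then 1 else 0)
        = A ν u H π * (if pX ν u H (endp 0 π) ≤ th then 1 else 0) * ∑' γ, Bm ν u H γ := by
      intro π
      rw [← ENNReal.tsum_mul_left]
      refine tsum_congr fun γ => ?_
      ring
    rw [tsum_congr e2, ENNReal.tsum_mul_right,
      sum_A ν u H (fun z => if pX ν u H z ≤ th then 1 else 0)]
    refine mul_le_mul' (hv.trans (le_of_eq (tsum_congr fun z => ?_))) hc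
    by_cases h1 : pX ν u H z ≤ th <;> simp [h1]
  · intro w w'
    have h := sum_L ν u H (fun p => if pX ν u H (endp 0 p.1) ≤ th ∧
      w.1 + endp 0 p.1 + endp 0 p.2 = w'.1 then 1 else 0)
    refine le_trans (b := ∑' L : List (PB u), (if HT (ht u) L = H then LW (Lam ν u) L *
          (if pX ν u H (endp 0 (cat L).1) ≤ th ∧
            w.1 + endp 0 (cat L).1 + endp 0 (cat L).2 = w'.1 then 1 else 0) else 0))
      (le_of_eq (tsum_congr fun L => ?_)) ?_
    · have h3 : act (dl u) L w = w' ↔ w.1 + endp 0 (cat L).1 + endp 0 (cat L).2 = w'.1 := by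
        rw [← act_cat]; exact Subtype.ext_iff
      by_cases h1 : HT (ht u) L = H <;> by_cases h2 : pX ν u H (endp 0 (cat L).1) ≤ th <;>
        by_cases h4 : w.1 + endp 0 (cat L).1 + endp 0 (cat L).2 = w'.1 <;>
        simp [h1, h2, h3, h4]
    rw [h, ENNReal.tsum_comm]
    calc ∑' γ, ∑' π, A ν u H π * Bm ν u H γ * (if pX ν u H (endp 0 π) ≤ th ∧
          w.1 + endp 0 π + endp 0 γ = w'.1 then 1 else 0)
        ≤ ∑' γ, Bm ν u H γ * th := by
          refine ENNReal.tsum_le_tsum fun γ => ?_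
          have e3 : ∑' π, A ν u H π * Bm ν u H γ * (if pX ν u H (endp 0 π) ≤ th ∧
              w.1 + endp 0 π + endp 0 γ = w'.1 then 1 else 0)
              = Bm ν u H γ * ∑' π, A ν u H π * (if pX ν u H (endp 0 π) ≤ th ∧
              w.1 + endp 0 π + endp 0 γ = w'.1 then 1 else 0) := by
            rw [← ENNReal.tsum_mul_left]
            refine tsum_congr fun π => ?_
            ring
          rw [e3]
          refine mul_le_mul_right ?_ _
          rw [sum_A ν u H (fun z => if pX ν u H z ≤ th ∧ w.1 + z + endp 0 γ = w'.1 then 1 else 0)]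
          rw [tsum_eq_single (w'.1 - endp 0 γ - w.1)]
          · by_cases h1 : pX ν u H (w'.1 - endp 0 γ - w.1) ≤ th
            · refine le_trans (mul_le_mul_right (b := _) (c := 1) ?_ _) ?_
              · split_ifs <;> simp
              · rw [mul_one]; exact h1
            · rw [if_neg (fun hh => h1 hh.1), mul_zero]; exact zero_le
          · intro z hz
            rw [if_neg, mul_zero]
            rintro ⟨-, hh⟩
            apply hz
            rw [← hh]; abel
      _ = (∑' γ, Bm ν u H γ) * th := ENNReal.tsum_mul_right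
      _ ≤ 1 * th := mul_le_mul_left (B_le ν u H) _
      _ = th := one_mul _
  · exact (mul_le_mul_right (card_lat u S) _).trans hS

lemma goodY (H : ℕ) (th v c η : ℝ≥0∞) (S : Set (Site d))
    (hv : v ≤ ∑' z, (if pY ν u H z ≤ th then pY ν u H z else 0))
    (hc : c ≤ ∑' π, A ν u H π) (hS : th * card S ≤ η) :
    Good (Lam ν u) (ht u) (dl u) (v * c) η H {w : Lat u | w.1 ∈ S} := by
  refine ⟨{L | pY ν u H (endp 0 (cat L).2) ≤ th}, th, ?_, ?_, ?_⟩
  · have h := sum_L ν u H (fun p => if pY ν u H (endp 0 p.2) ≤ th then 1 else 0)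
    refine le_trans (b := ∑' L : List (PB u), (if HT (ht u) L = H then LW (Lam ν u) L *
          (if pY ν u H (endp 0 (cat L).2) ≤ th then 1 else 0) else 0)) ?_
      (le_of_eq (tsum_congr fun L => ?_))
    swap
    · by_cases h1 : HT (ht u) L = H <;> by_cases h2 : pY ν u H (endp 0 (cat L).2) ≤ th <;>
        simp [h1, h2]
    rw [h, ENNReal.tsum_comm]
    have e2 : ∀ γ, ∑' π, A ν u H π * Bm ν u H γ *
        (if pY ν u H (endp 0 γ) ≤ th then 1 else 0)
        = Bm ν u H γ * (if pY ν u H (endp 0 γ) ≤ th then 1 else 0) * ∑' π, A ν u H π := by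
      intro γ
      rw [← ENNReal.tsum_mul_left]
      refine tsum_congr fun π => ?_
      ring
    rw [tsum_congr e2, ENNReal.tsum_mul_right,
      sum_B ν u H (fun z => if pY ν u H z ≤ th then 1 else 0)]
    refine mul_le_mul' (hv.trans (le_of_eq (tsum_congr fun z => ?_))) hc
    by_cases h1 : pY ν u H z ≤ th <;> simp [h1]
  · intro w w'
    have h := sum_L ν u H (fun p => if pY ν u H (endp 0 p.2) ≤ th ∧
      w.1 + endp 0 p.1 + endp 0 p.2 = w'.1 then 1 else 0)
    refine le_trans (b := ∑' L : List (PB u), (if HT (ht u) L = H then LW (Lam ν u) L *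
          (if pY ν u H (endp 0 (cat L).2) ≤ th ∧
            w.1 + endp 0 (cat L).1 + endp 0 (cat L).2 = w'.1 then 1 else 0) else 0))
      (le_of_eq (tsum_congr fun L => ?_)) ?_
    · have h3 : act (dl u) L w = w' ↔ w.1 + endp 0 (cat L).1 + endp 0 (cat L).2 = w'.1 := by
        rw [← act_cat]; exact Subtype.ext_iff
      by_cases h1 : HT (ht u) L = H <;> by_cases h2 : pY ν u H (endp 0 (cat L).2) ≤ th <;>
        by_cases h4 : w.1 + endp 0 (cat L).1 + endp 0 (cat L).2 = w'.1 <;>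
        simp [h1, h2, h3, h4]
    rw [h]
    calc ∑' π, ∑' γ, A ν u H π * Bm ν u H γ * (if pY ν u H (endp 0 γ) ≤ th ∧
          w.1 + endp 0 π + endp 0 γ = w'.1 then 1 else 0)
        ≤ ∑' π, A ν u H π * th := by
          refine ENNReal.tsum_le_tsum fun π => ?_
          have e3 : ∑' γ, A ν u H π * Bm ν u H γ * (if pY ν u H (endp 0 γ) ≤ th ∧
              w.1 + endp 0 π + endp 0 γ = w'.1 then 1 else 0)
              = A ν u H π * ∑' γ, Bm ν u H γ * (if pY ν u H (endp 0 γ) ≤ th ∧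
              w.1 + endp 0 π + endp 0 γ = w'.1 then 1 else 0) := by
            rw [← ENNReal.tsum_mul_left]
            refine tsum_congr fun γ => ?_
            ring
          rw [e3]
          refine mul_le_mul_right ?_ _
          rw [sum_B ν u H (fun z => if pY ν u H z ≤ th ∧ w.1 + endp 0 π + z = w'.1 then 1 else 0)]
          rw [tsum_eq_single (w'.1 - endp 0 π - w.1)]
          · by_cases h1 : pY ν u H (w'.1 - endp 0 π - w.1) ≤ th
            · refine le_trans (mul_le_mul_right (b := _) (c := 1) ?_ _) ?_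
              · split_ifs <;> simp
              · rw [mul_one]; exact h1
            · rw [if_neg (fun hh => h1 hh.1), mul_zero]; exact zero_le
          · intro z hz
            rw [if_neg, mul_zero]
            rintro ⟨-, hh⟩
            apply hz
            rw [← hh]; abel
      _ = (∑' π, A ν u H π) * th := ENNReal.tsum_mul_right
      _ ≤ 1 * th := mul_le_mul_left (A_le ν u H) _
      _ = th := one_mul _
  · exact (mul_le_mul_right (card_lat u S) _).trans hS

/-- the contact sum of lists ≤ local parts + product of the non local masses -/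
lemma split3 (s H : ℕ) (EX EY : Finset (Site d)) (w : Lat u) :
    (∑' L : List (PB u), if HT (ht u) L = H ∧ CD (ht u) (dl u) (cd u) L w ≠ ∅ ∧
        (∀ k ∈ CD (ht u) (dl u) (cd u) L w, s < k ∧ k + s ≤ H) then LW (Lam ν u) L else 0)
      ≤ PhX ν u s H EX w.1 + PhY ν u s H EY w.1 +
        (∑' π, A ν u H π * (if endp 0 π ∈ EX then 0 else 1)) *
        (∑' γ, Bm ν u H γ * (if endp 0 γ ∈ EY then 0 else 1)) := by
  have h := sum_L ν u H (fun p => if (∃ k, k ∈ Cm u w.1 p.1 p.2) ∧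
    (∀ k ∈ Cm u w.1 p.1 p.2, s < k ∧ k + s ≤ H) then 1 else 0)
  refine le_trans (b := ∑' L : List (PB u), (if HT (ht u) L = H then LW (Lam ν u) L *
      (if (∃ k, k ∈ Cm u w.1 (cat L).1 (cat L).2) ∧
        (∀ k ∈ Cm u w.1 (cat L).1 (cat L).2, s < k ∧ k + s ≤ H) then 1 else 0) else 0))
    (le_of_eq (tsum_congr fun L => ?_)) ?_
  · have e : CD (ht u) (dl u) (cd u) L w = Cm u w.1 (cat L).1 (cat L).2 := by
      rw [CD_cat, ← cds_eq]
    have e' : (CD (ht u) (dl u) (cd u) L w ≠ ∅ ∧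
        (∀ k ∈ CD (ht u) (dl u) (cd u) L w, s < k ∧ k + s ≤ H)) ↔
        ((∃ k, k ∈ Cm u w.1 (cat L).1 (cat L).2) ∧
          (∀ k ∈ Cm u w.1 (cat L).1 (cat L).2, s < k ∧ k + s ≤ H)) := by
      rw [e, ← Set.nonempty_iff_ne_empty]; exact Iff.rfl
    by_cases h1 : HT (ht u) L = H
    · by_cases h2 : (∃ k, k ∈ Cm u w.1 (cat L).1 (cat L).2) ∧
          (∀ k ∈ Cm u w.1 (cat L).1 (cat L).2, s < k ∧ k + s ≤ H)
      · rw [if_pos ⟨h1, e'.2 h2⟩, if_pos h1, if_pos h2, mul_one]
      · rw [if_neg (fun hh => h2 (e'.1 hh.2)), if_pos h1, if_neg h2, mul_zero]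
    · rw [if_neg (fun hh => h1 hh.1), if_neg h1]
  rw [h, ← ENNReal.tsum_mul_right]
  unfold PhX PhY
  rw [← ENNReal.tsum_add, ← ENNReal.tsum_add]
  refine ENNReal.tsum_le_tsum fun π => ?_
  rw [← ENNReal.tsum_mul_left, ← ENNReal.tsum_add, ← ENNReal.tsum_add]
  refine ENNReal.tsum_le_tsum fun γ => ?_
  by_cases hc : (∃ k, k ∈ Cm u w.1 π γ) ∧ (∀ k ∈ Cm u w.1 π γ, s < k ∧ k + s ≤ H)
  swap
  · rw [if_neg hc, mul_zero]; exact zero_le
  rw [if_pos hc, mul_one]
  unfold A Bm
  by_cases h1 : IsUp u H π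
  swap
  · rw [if_neg h1, zero_mul]; exact zero_le
  by_cases h2 : IsDn u H γ
  swap
  · rw [if_neg h2, mul_zero]; exact zero_le
  rw [if_pos h1, if_pos h2]
  by_cases hX : endp 0 π ∈ EX
  · rw [if_pos ⟨h1, hX, h2, hc.1, fun k hk => (hc.2 k hk).1⟩]
    exact le_add_right le_self_add
  by_cases hY : endp 0 γ ∈ EY
  · rw [if_pos (⟨h1, h2, hY, hc.1, fun k hk => (hc.2 k hk).2⟩ : IsUp u H π ∧
        IsDn u H γ ∧ endp 0 γ ∈ EY ∧ (∃ k, k ∈ Cm u w.1 π γ) ∧
        (∀ k ∈ Cm u w.1 π γ, k + s ≤ H))]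
    exact le_add_right le_add_self
  · rw [if_neg hX, if_neg hY, mul_one, mul_one]
    exact le_add_self

/-- **139's `hW` for 657's instance.** -/
theorem hW (c : ℝ≥0∞) (hc : c ≠ 0) (hc1 : c ≤ 1)
    (hup : ∀ n, c ≤ ∑' π : List (Step d), if IsUp u n π then NB28.aw ν π else 0)
    (hdn : ∀ n, c ≤ ∑' γ : List (Step d), if IsDn u n γ then NB28.aw ν γ else 0)
    (C : ℝ≥0∞) (hCt : C ≠ ⊤) (us : ℕ → ℝ≥0∞)
    (hus : ∀ ε : ℝ≥0∞, ε ≠ 0 → ∃ s0 : ℕ, ∀ s, s0 ≤ s → us s ≤ ε)
    (E2 : ∀ (s H : ℕ) (E : Finset (Site d)) (μ : Site d → ℝ≥0∞) (M lam : ℝ≥0∞),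
      ∑' x, μ x ≤ 1 → (∀ x, μ x ≤ M) → lam ≠ 0 → lam ≠ ⊤ →
      ∑' x, (if Flux132.lev u x = 0 then μ x * ∑' π, ∑' γ, (if IsUp u H π ∧ endp 0 π ∈ E ∧
        IsDn u H γ ∧ (∃ k, k ∈ Cm u x π γ) ∧ (∀ k ∈ Cm u x π γ, s < k)
        then NB28.aw ν π * NB28.aw ν γ else 0) else 0)
        ≤ C * (lam + M * E.card * us s / lam + us s))
    (E3 : ∀ (s H : ℕ) (E : Finset (Site d)) (μ : Site d → ℝ≥0∞) (M lam : ℝ≥0∞),
      ∑' x, μ x ≤ 1 → (∀ x, μ x ≤ M) → lam ≠ 0 → lam ≠ ⊤ →
      ∑' x, (if Flux132.lev u x = 0 then μ x * ∑' π, ∑' γ, (if IsUp u H π ∧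
        IsDn u H γ ∧ endp 0 γ ∈ E ∧ (∃ k, k ∈ Cm u x π γ) ∧ (∀ k ∈ Cm u x π γ, k + s ≤ H)
        then NB28.aw ν π * NB28.aw ν γ else 0) else 0)
        ≤ C * (lam + M * E.card * us s / lam + us s)) :
    ∀ v η : ℝ≥0∞, v ≠ 0 → v ≤ 1 → η ≠ 0 → ∃ s H0 : ℕ, ∀ H, H0 ≤ H →
      ∃ S1 S2 : Set (Lat u),
      Good (Lam ν u) (ht u) (dl u) (c * c / 2 * v) η H S1 ∧
      Good (Lam ν u) (ht u) (dl u) (c * c / 2 * v) η H S2 ∧
      ∀ w, w ∉ S1 → w ∉ S2 → (∑' L : List (PB u), if HT (ht u) L = H ∧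
        CD (ht u) (dl u) (cd u) L w ≠ ∅ ∧
        (∀ k ∈ CD (ht u) (dl u) (cd u) L w, s < k ∧ k + s ≤ H) then LW (Lam ν u) L else 0)
        ≤ v * v + η := by
  intro v η0 hv hv1 hη0
  have hct : c ≠ ⊤ := ne_top_of_le_ne_top ENNReal.one_ne_top hc1
  -- normalise
  obtain ⟨η, hη, hη1, hηη⟩ : ∃ η : ℝ≥0∞, η ≠ 0 ∧ η ≤ 1 ∧ η ≤ η0 :=
    ⟨min η0 1, (lt_min (pos_iff_ne_zero.2 hη0) one_pos).ne', min_le_right _ _, min_le_left _ _⟩
  have hηt : η ≠ ⊤ := ne_top_of_le_ne_top ENNReal.one_ne_top hη1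
  obtain ⟨C', hC0, hC't, hCC⟩ : ∃ C' : ℝ≥0∞, C' ≠ 0 ∧ C' ≠ ⊤ ∧ C ≤ C' :=
    ⟨C + 1, by simp, by simp [hCt], le_self_add⟩
  set lam : ℝ≥0∞ := η / (C' * 6) with hlam
  have h6 : C' * 6 ≠ ⊤ := ENNReal.mul_ne_top hC't (by norm_num)
  have h60 : C' * 6 ≠ 0 := mul_ne_zero hC0 (by norm_num)
  have hl0 : lam ≠ 0 := (ENNReal.div_pos hη h6).ne'
  have hlt : lam ≠ ⊤ := ENNReal.div_ne_top hηt h60
  have hl6 : C' * (3 * lam) + C' * (3 * lam) = η := by
    calc C' * (3 * lam) + C' * (3 * lam) = C' * 6 * (η / (C' * 6)) := by rw [hlam]; ring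
      _ = η := ENNReal.mul_div_cancel h60 h6
  obtain ⟨s1, hs1⟩ := hus lam hl0
  obtain ⟨s2, hs2⟩ := hus (lam * lam * η) (mul_ne_zero (mul_ne_zero hl0 hl0) hη)
  set s := max s1 s2 with hs
  have hsa : us s ≤ lam := hs1 s (le_max_left _ _)
  have hsb : us s ≤ lam * lam * η := hs2 s (le_max_right _ _)
  refine ⟨s, 0, fun H _ => ?_⟩
  -- the quantiles
  set q : ℝ≥0∞ := c / 2 * v with hq
  have hq0 : q ≠ 0 := mul_ne_zero (ENNReal.div_pos hc (by norm_num)).ne' hv
  have hc2 : c / 2 < c := ENNReal.half_lt_self hc hct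
  have hqc : q < c := by
    refine lt_of_le_of_lt ?_ hc2
    calc q ≤ c / 2 * 1 := mul_le_mul_right hv1 _
      _ = c / 2 := mul_one _
  have hqv : q ≤ v := by
    calc q ≤ 1 * v := mul_le_mul_left (hc2.le.trans hc1) _
      _ = v := one_mul _
  have hpX1 : ∑' z, pX ν u H z ≤ 1 := by rw [pX_sum]; exact A_le ν u H
  have hpY1 : ∑' z, pY ν u H z ≤ 1 := by rw [pY_sum]; exact B_le ν u H
  have hAc : c ≤ ∑' π, A ν u H π := hup H
  have hBc : c ≤ ∑' γ, Bm ν u H γ := hdn H
  obtain ⟨tX, tX0, tXt, hX1, hX2⟩ := quantile (pX ν u H)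
    (ne_top_of_le_ne_top ENNReal.one_ne_top hpX1) q hq0
    (by rw [pX_sum]; exact lt_of_lt_of_le hqc hAc)
  obtain ⟨tY, tY0, tYt, hY1, hY2⟩ := quantile (pY ν u H)
    (ne_top_of_le_ne_top ENNReal.one_ne_top hpY1) q hq0
    (by rw [pY_sum]; exact lt_of_lt_of_le hqc hBc)
  obtain ⟨EX, hEX, hEXc⟩ := lvl (pX ν u H) hpX1 tX tX0
  obtain ⟨EY, hEY, hEYc⟩ := lvl (pY ν u H) hpY1 tY tY0
  -- the bad sets
  set fX : Site d → ℝ≥0∞ := fun x => if Flux132.lev u x = 0 then PhX ν u s H EX x else 0 with hfX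
  set fY : Site d → ℝ≥0∞ := fun x => if Flux132.lev u x = 0 then PhY ν u s H EY x else 0 with hfY
  have cX : lam * lam * card {x | C' * (3 * lam) < fX x} ≤ EX.card * us s := by
    refine count fX C' lam EX.card (us s) hC0 hC't hl0 hlt (ENNReal.natCast_ne_top _) hsa ?_
    intro μ M hμ hM
    refine le_trans (le_trans (le_of_eq (tsum_congr fun x => ?_)) (E2 s H EX μ M lam hμ hM hl0 hlt))
      (mul_le_mul_left hCC _)
    simp only [hfX, PhX]
    split_ifs <;> simp
  have cY : lam * lam * card {x | C' * (3 * lam) < fY x} ≤ EY.card * us s := by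
    refine count fY C' lam EY.card (us s) hC0 hC't hl0 hlt (ENNReal.natCast_ne_top _) hsa ?_
    intro μ M hμ hM
    refine le_trans (le_trans (le_of_eq (tsum_congr fun x => ?_)) (E3 s H EY μ M lam hμ hM hl0 hlt))
      (mul_le_mul_left hCC _)
    simp only [hfY, PhY]
    split_ifs <;> simp
  have small : ∀ (t : ℝ≥0∞) (n : ℕ) (S : Set (Site d)), t * n ≤ 1 →
      lam * lam * card S ≤ n * us s → t * card S ≤ η0 := by
    intro t n S h1 h2
    have hll0 : lam * lam ≠ 0 := mul_ne_zero hl0 hl0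
    have hllt : lam * lam ≠ ⊤ := ENNReal.mul_ne_top hlt hlt
    refine le_trans ((ENNReal.mul_le_mul_iff_right hll0 hllt).1 ?_) hηη
    calc lam * lam * (t * card S) = t * (lam * lam * card S) := by ring
      _ ≤ t * (n * us s) := mul_le_mul_right h2 _
      _ = t * n * us s := by ring
      _ ≤ 1 * us s := mul_le_mul_left h1 _
      _ = us s := one_mul _
      _ ≤ _ := hsb
  have hcq : c * c / 2 * v = q * c := by rw [hq, div_eq_mul_inv, div_eq_mul_inv]; ring
  refine ⟨{w : Lat u | w.1 ∈ {x | C' * (3 * lam) < fX x}},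
    {w : Lat u | w.1 ∈ {x | C' * (3 * lam) < fY x}}, ?_, ?_, ?_⟩
  · rw [hcq]
    exact goodX ν u H tX q c η0 _ hX2 hBc (small _ _ _ hEXc cX)
  · rw [hcq]
    exact goodY ν u H tY q c η0 _ hY2 hAc (small _ _ _ hEYc cY)
  · intro w hw1 hw2
    have hw1' : fX w.1 ≤ C' * (3 * lam) := not_lt.1 hw1
    have hw2' : fY w.1 ≤ C' * (3 * lam) := not_lt.1 hw2
    have hl : Flux132.lev u w.1 = 0 := w.2
    simp only [hfX, hfY, if_pos hl] at hw1' hw2'
    have nX : (∑' π, A ν u H π * (if endp 0 π ∈ EX then 0 else 1)) ≤ v := by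
      rw [sum_A ν u H (fun z => if z ∈ EX then 0 else 1)]
      refine le_trans (ENNReal.tsum_le_tsum fun z => ?_) (hX1.trans hqv)
      by_cases hz : z ∈ EX
      · rw [if_pos hz, mul_zero]; exact zero_le
      · rw [if_neg hz, mul_one, if_pos (not_le.1 fun hh => hz ((hEX z).2 hh))]
    have nY : (∑' γ, Bm ν u H γ * (if endp 0 γ ∈ EY then 0 else 1)) ≤ v := by
      rw [sum_B ν u H (fun z => if z ∈ EY then 0 else 1)]
      refine le_trans (ENNReal.tsum_le_tsum fun z => ?_) (hY1.trans hqv)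
      by_cases hz : z ∈ EY
      · rw [if_pos hz, mul_zero]; exact zero_le
      · rw [if_neg hz, mul_one, if_pos (not_le.1 fun hh => hz ((hEY z).2 hh))]
    refine (split3 ν u s H EX EY w).trans ?_
    calc PhX ν u s H EX w.1 + PhY ν u s H EY w.1 +
        (∑' π, A ν u H π * (if endp 0 π ∈ EX then 0 else 1)) *
        (∑' γ, Bm ν u H γ * (if endp 0 γ ∈ EY then 0 else 1))
        ≤ C' * (3 * lam) + C' * (3 * lam) + v * v := by gcongr
      _ = v * v + η := by rw [hl6, add_comm]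
      _ ≤ _ := by gcongr

end inst

end Crest.Agent.R154.HW379
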