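import Crest.Agent.R154.Comp_818
import Crest.Agent.R154.JHit_139
import Crest.Agent.R154.Num_873

/-! Row 154, road 801, frame B (helper363): 139's `hW` and `hit_le` give 818's `hWin`. -/

set_option autoImplicit false

namespace Crest.Agent.R154.HWinAd363

open Filter Topology
open scoped ENNReal
open Crest.Agent.R154.B5A
open Crest.Agent.R154.FP178
open Crest.Agent.R154.Comp818 (att WLp)
open Crest.Agent.R154.JAsm139

variable {B W : Type*} (Λ : B → ℝ≥0∞) (ht : B → ℕ) (dl : B → W → W) (cd : W → B → Set ℕ)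

/-- `att` is a first passage list -/
lemma fp_of_att (h1 : ∀ b, 1 ≤ ht b) (L : List B) : ∀ a, att ht a L → fp ht a L := by
  induction L with
  | nil =>
    intro a h
    rw [fp_nil]
    have := h.1
    rw [HT_nil] at this
    omega
  | cons b L ih =>
    intro a h
    rw [fp_cons]
    have h0 := h.2 0 (by simp)
    rw [List.take_zero, HT_nil] at h0
    refine ⟨h0, ih _ ⟨?_, fun i hi => ?_⟩⟩
    · have := h.1
      rw [HT_cons] at this
      omega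
    · have := h.2 (i + 1) (by simpa using hi)
      rw [List.take_succ_cons, HT_cons] at this
      omega

lemma good_mono {q q' η : ℝ≥0∞} {H : ℕ} {S : Set W} (h : q' ≤ q) (hG : Good Λ ht dl q η H S) :
    Good Λ ht dl q' η H S := by
  obtain ⟨Sc, th, h1, h2, h3⟩ := hG
  exact ⟨Sc, th, h.trans h1, h2, h3⟩

/-- tail sums are small -/
lemma tail_small (h1 : ∀ b, 1 ≤ ht b) (hΛ : ∑' b, Λ b = 1) (c : ℝ≥0∞) (hc : c ≠ 0)
    (hU : ∀ n, c ≤ U Λ ht n) (hU1 : ∀ n, U Λ ht n ≤ 1) (η : ℝ≥0∞) (hη : η ≠ 0) :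
    ∃ H1 : ℕ, ∀ H, H1 ≤ H → ∑' k, tail Λ ht (H + k) ≤ η := by
  have hc' : c ≠ ⊤ := ne_top_of_le_ne_top ENNReal.one_ne_top ((hU 0).trans (hU1 0))
  have hs : ∑' k, tail Λ ht k ≠ ⊤ := by
    rw [← sum_tail Λ ht hΛ]
    exact ne_top_of_le_ne_top (ENNReal.inv_ne_top.2 hc)
      (mean_le Λ ht h1 hΛ c hc hc' 0 (fun n _ => hU n))
  have ht0 := ENNReal.tendsto_sum_nat_add (fun k => tail Λ ht k) hs
  have := (ENNReal.tendsto_nhds_zero.1 ht0) η (pos_iff_ne_zero.2 hη)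
  obtain ⟨H1, hH1⟩ := eventually_atTop.1 this
  refine ⟨H1, fun H hH => ?_⟩
  have := hH1 H hH
  simpa [add_comm] using this

open Classical in
lemma win_le (h1 : ∀ b, 1 ≤ ht b) (hΛ : ∑' b, Λ b = 1) (hU1 : ∀ n, U Λ ht n ≤ 1)
    (H s a i0 : ℕ) (S1 S2 : Set W) (v : ℝ≥0∞)
    (hoff : ∀ w, w ∉ S1 → w ∉ S2 → WLp Λ ht dl cd H s w ≤ v) (w : W) :
    ∑' L1 : List B, (if att ht a L1 ∧ HT ht L1 ≤ a + i0 then
        LW Λ L1 * WLp Λ ht dl cd H s (act dl L1 w) else 0)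
      ≤ hitS Λ ht dl a S1 w + hitS Λ ht dl a S2 w + v := by
  have hW1 : ∀ w, WLp Λ ht dl cd H s w ≤ 1 := by
    intro w
    refine le_trans (ENNReal.tsum_le_tsum fun L => ?_) (hU1 H)
    by_cases h : HT ht L = H
    · rw [if_pos h]; split_ifs <;> simp
    · rw [if_neg h, if_neg (fun h' => h h'.1)]
  calc _ ≤ ∑' L1 : List B, ((if fp ht a L1 then LW Λ L1 * S1.indicator (fun _ => (1 : ℝ≥0∞))
        (act dl L1 w) else 0) + (if fp ht a L1 then LW Λ L1 * S2.indicator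
        (fun _ => (1 : ℝ≥0∞)) (act dl L1 w) else 0) + (if fp ht a L1 then LW Λ L1 else 0) * v) := by
        refine ENNReal.tsum_le_tsum fun L => ?_
        by_cases h : att ht a L ∧ HT ht L ≤ a + i0
        · have hf := fp_of_att ht h1 L a h.1
          rw [if_pos h, if_pos hf, if_pos hf, if_pos hf, ← mul_add, ← mul_add]
          refine mul_le_mul_right ?_ _
          by_cases hs1 : act dl L w ∈ S1
          · rw [Set.indicator_of_mem hs1]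
            exact (hW1 _).trans (le_add_right le_self_add)
          · by_cases hs2 : act dl L w ∈ S2
            · rw [Set.indicator_of_mem hs2]
              exact (hW1 _).trans (le_add_right le_add_self)
            · exact (hoff _ hs1 hs2).trans le_add_self
        · rw [if_neg h]; exact zero_le
    _ = hitS Λ ht dl a S1 w + hitS Λ ht dl a S2 w
        + (∑' L1 : List B, (if fp ht a L1 then LW Λ L1 else 0)) * v := by
        rw [ENNReal.tsum_add, ENNReal.tsum_add, ENNReal.tsum_mul_right]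
        rfl
    _ ≤ hitS Λ ht dl a S1 w + hitS Λ ht dl a S2 w + 1 * v := by
        gcongr
        exact sum_FP Λ ht h1 hΛ.le a
    _ = _ := by rw [one_mul]

open Classical in
/-- **818's `hWin` from 139's `hW`.** -/
theorem hWin_of_hW (h1 : ∀ b, 1 ≤ ht b) (hΛ : ∑' b, Λ b = 1) (hU1 : ∀ n, U Λ ht n ≤ 1)
    (c : ℝ≥0∞) (hc : c ≠ 0) (hU : ∀ n, c ≤ U Λ ht n)
    (hinj : ∀ b, Function.Injective (dl b)) (c1 : ℝ≥0∞) (hc1 : c1 ≠ 0)
    (hW : ∀ u η : ℝ≥0∞, u ≠ 0 → u ≤ 1 → η ≠ 0 → ∃ s H0 : ℕ, ∀ H, H0 ≤ H → ∃ S1 S2 : Set W,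
      Good Λ ht dl (c1 * u) η H S1 ∧ Good Λ ht dl (c1 * u) η H S2 ∧
      ∀ w, w ∉ S1 → w ∉ S2 → (∑' L : List B, if HT ht L = H ∧ CD ht dl cd L w ≠ ∅ ∧
        (∀ k ∈ CD ht dl cd L w, s < k ∧ k + s ≤ H) then LW Λ L else 0) ≤ u * u + η) :
    ∀ ε : ℝ≥0∞, ε ≠ 0 → ∃ K : ℕ, 1 ≤ K ∧ ∀ i0 : ℕ, ∃ s H0 : ℕ, ∀ H, H0 ≤ H →
      ∀ a, K * H ≤ 8 * a → ∀ w, ∑' L1 : List B, (if att ht a L1 ∧ HT ht L1 ≤ a + i0 then
        LW Λ L1 * WLp Λ ht dl cd H s (act dl L1 w) else 0) ≤ ε / K := by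
  intro ε0 hε0
  -- normalise
  set ε : ℝ≥0∞ := min ε0 1 with hε
  have hεne : ε ≠ 0 := by
    rw [hε]; exact (lt_min (pos_iff_ne_zero.2 hε0) one_pos).ne'
  have hεt : ε ≠ ⊤ := ne_top_of_le_ne_top ENNReal.one_ne_top (min_le_right _ _)
  set c2 : ℝ≥0∞ := min c1 1 with hc2
  have hc2ne : c2 ≠ 0 := (lt_min (pos_iff_ne_zero.2 hc1) one_pos).ne'
  have hc21 : c2 ≤ 1 := min_le_right _ _
  have hc2t : c2 ≠ ⊤ := ne_top_of_le_ne_top ENNReal.one_ne_top hc21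
  set ε2 : ℝ≥0∞ := ε / 8 * (c2 * c2) with hε2
  have h8 : (8 : ℝ≥0∞) ≠ ⊤ := by norm_num
  have hε8 : ε / 8 ≠ 0 := (ENNReal.div_pos hεne h8).ne'
  have hε81 : ε / 8 ≤ 1 := by
    refine (ENNReal.div_le_div_right (min_le_right _ _) 8).trans ?_
    rw [ENNReal.div_le_iff (by norm_num) (by norm_num)]
    norm_num
  have hε2ne : ε2 ≠ 0 := mul_ne_zero hε8 (mul_ne_zero hc2ne hc2ne)
  obtain ⟨K0, hK0⟩ := Num873.num 16 (by norm_num) ε2 hε2ne
  set K := K0 + 16 with hK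
  obtain ⟨u0, hu0, hu01, hn1, hn2⟩ := hK0 K (by omega)
  have hK1 : 1 ≤ K := by omega
  have hKne : (K : ℝ≥0∞) ≠ 0 := by exact_mod_cast (by omega : K ≠ 0)
  have hKt : (K : ℝ≥0∞) ≠ ⊤ := ENNReal.natCast_ne_top K
  have hKle : (K : ℝ≥0∞) ≤ ((16 * (K + 16) : ℕ) : ℝ≥0∞) := by exact_mod_cast (by omega)
  have h1le : (1 : ℝ≥0∞) ≤ ((16 * (K + 16) : ℕ) : ℝ≥0∞) := by exact_mod_cast (by omega)
  have hKu : (K : ℝ≥0∞) * u0 ^ 2 ≤ ε2 := (mul_le_mul_left hKle _).trans hn1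
  have hKp : (K : ℝ≥0∞) * (1 - u0) ^ (K / 16) ≤ ε2 := (mul_le_mul_left hKle _).trans hn2
  -- u
  set u : ℝ≥0∞ := u0 / c2 with hu
  have hune : u ≠ 0 := (ENNReal.div_pos hu0 hc2t).ne'
  have hu0c : u0 ≤ c2 := by
    by_contra hcon
    rw [not_le] at hcon
    have h2 : u0 ^ 2 ≤ c2 * c2 := by
      calc u0 ^ 2 = 1 * u0 ^ 2 := (one_mul _).symm
        _ ≤ _ := (mul_le_mul_left h1le _).trans hn1
        _ = ε / 8 * (c2 * c2) := rfl
        _ ≤ 1 * (c2 * c2) := mul_le_mul_left hε81 _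
        _ = _ := one_mul _
    have h3 : c2 * c2 < u0 ^ 2 := by
      rw [pow_two]; exact ENNReal.mul_lt_mul hcon hcon
    exact absurd h2 (not_le.2 h3)
  have hu1 : u ≤ 1 := by
    rw [hu, ENNReal.div_le_iff hc2ne hc2t, one_mul]; exact hu0c
  have hc2u : c2 * u = u0 := by
    rw [hu]; exact ENNReal.mul_div_cancel hc2ne hc2t
  have hKuu : (K : ℝ≥0∞) * (u * u) ≤ ε / 8 := by
    have e : u * u * (c2 * c2) = u0 ^ 2 := by
      calc u * u * (c2 * c2) = (c2 * u) * (c2 * u) := by ring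
        _ = _ := by rw [hc2u, pow_two]
    have h2 : (K : ℝ≥0∞) * (u * u) * (c2 * c2) ≤ ε / 8 * (c2 * c2) := by
      rw [mul_assoc, e]; exact hKu
    exact (ENNReal.mul_le_mul_iff_left (mul_ne_zero hc2ne hc2ne)
      (ENNReal.mul_ne_top hc2t hc2t)).1 h2
  have hKpp : (K : ℝ≥0∞) * (1 - u0) ^ (K / 16) ≤ ε / 8 := by
    refine hKp.trans ?_
    calc ε / 8 * (c2 * c2) ≤ ε / 8 * (1 * 1) := by gcongr
      _ = _ := by simp
  set J := K / 16 with hJ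
  -- η
  set D : ℝ≥0∞ := ((8 * K * (4 * J + 1) : ℕ) : ℝ≥0∞) with hD
  have hDne : D ≠ 0 := by
    rw [hD]; exact_mod_cast (by positivity : (8 * K * (4 * J + 1)) ≠ 0)
  have hDt : D ≠ ⊤ := ENNReal.natCast_ne_top _
  set η : ℝ≥0∞ := ε / D with hη
  have hηne : η ≠ 0 := (ENNReal.div_pos hεne hDt).ne'
  obtain ⟨H1, hH1⟩ := tail_small Λ ht h1 hΛ c hc hU hU1 η hηne
  obtain ⟨s, H0, hH0⟩ := hW u η hune hu1 hηne
  refine ⟨K, hK1, fun i0 => ⟨s, max H0 H1, fun H hH a ha w => ?_⟩⟩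
  obtain ⟨S1, S2, hG1, hG2, hoff⟩ := hH0 H ((le_max_left _ _).trans hH)
  have hq : c2 * u ≤ c1 * u := mul_le_mul_left (min_le_left _ _) _
  have hJa : J * (2 * H) ≤ a := by
    have h2 : 16 * J ≤ K := by rw [hJ, mul_comm]; exact Nat.div_mul_le_self K 16
    have h3 : 16 * J * H ≤ K * H := Nat.mul_le_mul_right H h2
    nlinarith
  have hT := hH1 H ((le_max_right _ _).trans hH)
  have hs1 := hit_le Λ ht dl h1 hΛ hU1 hinj (c2 * u) η H S1 (good_mono Λ ht dl hq hG1) J a hJa w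
  have hs2 := hit_le Λ ht dl h1 hΛ hU1 hinj (c2 * u) η H S2 (good_mono Λ ht dl hq hG2) J a hJa w
  rw [hc2u] at hs1 hs2
  have hb : (1 - u0) ^ J + J * (η + ∑' k, tail Λ ht (H + k)) ≤ (1 - u0) ^ J + J * (η + η) := by
    gcongr
  have hfin := win_le Λ ht dl cd h1 hΛ hU1 H s a i0 S1 S2 (u * u + η) hoff w
  have hmain : ∑' L1 : List B, (if att ht a L1 ∧ HT ht L1 ≤ a + i0 then
        LW Λ L1 * WLp Λ ht dl cd H s (act dl L1 w) else 0)
      ≤ 2 * (1 - u0) ^ J + (u * u + (4 * J + 1 : ℕ) * η) := by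
    refine hfin.trans ?_
    calc _ ≤ ((1 - u0) ^ J + J * (η + η)) + ((1 - u0) ^ J + J * (η + η)) + (u * u + η) := by
          gcongr
          · exact hs1.trans hb
          · exact hs2.trans hb
      _ = _ := by push_cast; ring
  refine le_trans ?_ (ENNReal.div_le_div_right (min_le_left ε0 1) _)
  rw [ENNReal.le_div_iff_mul_le (Or.inl hKne) (Or.inl hKt), mul_comm]
  refine (mul_le_mul_right hmain _).trans ?_
  have hDη : (K : ℝ≥0∞) * ((4 * J + 1 : ℕ) * η) ≤ ε / 8 := by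
    have e : D = 8 * (K * ((4 * J + 1 : ℕ) : ℝ≥0∞)) := by rw [hD]; push_cast; ring
    rw [ENNReal.le_div_iff_mul_le (Or.inl (by norm_num)) (Or.inl (by norm_num))]
    calc (K : ℝ≥0∞) * ((4 * J + 1 : ℕ) * η) * 8 = D * η := by rw [e]; ring
      _ ≤ ε := ENNReal.mul_div_le
  calc (K : ℝ≥0∞) * (2 * (1 - u0) ^ J + (u * u + (4 * J + 1 : ℕ) * η))
      = 2 * (K * (1 - u0) ^ J) + K * (u * u) + K * ((4 * J + 1 : ℕ) * η) := by ring
    _ ≤ 2 * (ε / 8) + ε / 8 + ε / 8 := by gcongr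
    _ = 4 * (ε / 8) := by ring
    _ ≤ 8 * (ε / 8) := by gcongr; norm_num
    _ = min ε0 1 := by rw [ENNReal.mul_div_cancel (by norm_num) (by norm_num)]

end Crest.Agent.R154.HWinAd363
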