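import Crest.Agent.R154.E23_657
import Crest.Agent.R154.JHit_139
import Crest.Agent.R154.KB_818
import Crest.Agent.R154.HWinAd_363

/-! Row 154, ROAD 801, frame B (helper657): 139's `hW` for the instance of pair blocks, from `E2`,
`E3`; then `KappaAll` and `NBProp`. -/

set_option autoImplicit false

namespace Crest.Agent.R154.HW657

open MeasureTheory ProbabilityTheory Crest.ProbabilityR.RandomEnvironment Crest.Agent.R154
open Crest.Agent.R154.B5A Crest.Agent.R154.B5W Crest.Agent.R154.JAsm139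
open Crest.Agent.R154.Flux132 (lev opp)
open Crest.Agent.R154.Flux566 (lw endp sitesL endp_eq_add)
open Crest.Agent.R154.NB28 (IsUp IsDn Cm)
open scoped ENNReal

variable {d : ℕ}

open Classical in
/-- quantile -/
lemma quant {G : Type*} (p : G → ℝ≥0∞) (hp : ∑' x, p x ≤ 1) (c v : ℝ≥0∞) (hc : c ≤ ∑' x, p x)
    (hc1 : c ≤ 1) (hv : v ≠ 0) (hv1 : v ≤ 1) :
    ∃ (E : Finset G) (n : ℕ), 1 ≤ n ∧ E.card ≤ n ∧ ∑' x, (if x ∈ E then 0 else p x) ≤ v ∧
      c * v ≤ ∑' x, (if p x ≤ (n : ℝ≥0∞)⁻¹ then p x else 0) := by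
  set P : ℕ → Prop := fun n => 1 ≤ n ∧ ∃ E : Finset G, E.card ≤ n ∧
    ∑' x, (if x ∈ E then 0 else p x) ≤ v with hP
  have hsub : ∀ E : Finset G, ∑' x, (if x ∈ E then 0 else p x) = ∑' b : {x // x ∉ E}, p b := by
    intro E
    have := tsum_subtype {x | x ∉ E} p
    rw [show (∑' b : {x // x ∉ E}, p b) = ∑' b : {x | x ∉ E}, p b from rfl, this]
    refine tsum_congr fun x => ?_
    by_cases h : x ∈ E <;> simp [h]
  have hex : ∃ n, P n := by
    have ht := ENNReal.tendsto_tsum_compl_atTop_zero (f := p)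
      (ne_top_of_le_ne_top ENNReal.one_ne_top hp)
    obtain ⟨E, hE⟩ := (ht.eventually (Iic_mem_nhds (pos_iff_ne_zero.2 hv))).exists
    exact ⟨E.card + 1, by omega, E, by omega, by rw [hsub]; exact hE⟩
  set n := Nat.find hex with hn
  obtain ⟨hn1, E, hE, hEv⟩ := Nat.find_spec hex
  refine ⟨E, n, hn1, hE, hEv, ?_⟩
  have hn0 : (n : ℝ≥0∞) ≠ 0 := by
    have : n ≠ 0 := by omega
    exact_mod_cast this
  have hnt : (n : ℝ≥0∞) ≠ ⊤ := ENNReal.natCast_ne_top n
  have hfin : {x | (n : ℝ≥0∞)⁻¹ ≤ p x}.Finite :=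
    ENNReal.finite_const_le_of_tsum_ne_top (ne_top_of_le_ne_top ENNReal.one_ne_top hp)
      (ENNReal.inv_ne_zero.2 hnt)
  set F : Finset G := hfin.toFinset.filter (fun x => (n : ℝ≥0∞)⁻¹ < p x) with hF
  have hmF : ∀ x, x ∈ F ↔ (n : ℝ≥0∞)⁻¹ < p x := by
    intro x
    simp only [hF, Finset.mem_filter, Set.Finite.mem_toFinset, Set.mem_ofPred_eq]
    exact ⟨fun h => h.2, fun h => ⟨h.le, h⟩⟩
  have hlow : ∑' x, (if p x ≤ (n : ℝ≥0∞)⁻¹ then p x else 0) = ∑' x, (if x ∈ F then 0 else p x) := by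
    refine tsum_congr fun x => ?_
    by_cases h : p x ≤ (n : ℝ≥0∞)⁻¹
    · rw [if_pos h, if_neg (by rw [hmF]; exact not_lt.2 h)]
    · rw [if_neg h, if_pos ((hmF x).2 (not_le.1 h))]
  rw [hlow]
  have hcv : c * v ≤ v := mul_le_of_le_one_left' hc1
  rcases F.eq_empty_or_nonempty with h0 | h0
  · rw [h0]
    simp only [Finset.notMem_empty, if_false]
    exact (mul_le_of_le_one_right' hv1).trans hc
  · have h1 : (F.card : ℝ≥0∞) * (n : ℝ≥0∞)⁻¹ < 1 := by
      calc (F.card : ℝ≥0∞) * (n : ℝ≥0∞)⁻¹ = ∑ _x ∈ F, (n : ℝ≥0∞)⁻¹ := by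
            rw [Finset.sum_const, nsmul_eq_mul]
        _ < ∑ x ∈ F, p x := ENNReal.sum_lt_sum_of_nonempty h0 fun x hx => (hmF x).1 hx
        _ ≤ 1 := (ENNReal.sum_le_tsum F).trans hp
    have h2 : F.card < n := by
      by_contra hcon
      have h3 : (n : ℝ≥0∞) ≤ F.card := by exact_mod_cast not_lt.1 hcon
      have h4 : (n : ℝ≥0∞) * (n : ℝ≥0∞)⁻¹ ≤ F.card * (n : ℝ≥0∞)⁻¹ := by gcongr
      rw [ENNReal.mul_inv_cancel hn0 hnt] at h4
      exact absurd h1 (not_lt.2 h4)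
    have h5 : 1 ≤ F.card := Finset.card_pos.2 h0
    have h6 := Nat.find_min hex (m := n - 1) (by omega)
    have h7 : ¬ (∑' x, (if x ∈ F then 0 else p x) ≤ v) := fun h => h6 ⟨by omega, F, by omega, h⟩
    exact hcv.trans (not_le.1 h7).le

open Classical in
/-- push forward -/
noncomputable def pl {α G : Type*} (f : α → ℝ≥0∞) (e : α → G) (x : G) : ℝ≥0∞ :=
  ∑' a, (if e a = x then f a else 0)

open Classical in
lemma push {α G : Type*} (f : α → ℝ≥0∞) (e : α → G) (P : G → Prop) [DecidablePred P] :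
    ∑' x, (if P x then pl f e x else 0)
      = ∑' a, (if P (e a) then f a else 0) := by
  have h1 : ∀ x, (if P x then pl f e x else 0)
      = ∑' a, (if e a = x then (if P (e a) then f a else 0) else 0) := by
    intro x
    unfold pl
    by_cases h : P x
    · rw [if_pos h]
      refine tsum_congr fun a => ?_
      by_cases h2 : e a = x
      · rw [if_pos h2, if_pos h2, if_pos (by rw [h2]; exact h)]
      · rw [if_neg h2, if_neg h2]
    · rw [if_neg h]
      symm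
      rw [ENNReal.tsum_eq_zero]
      intro a
      by_cases h2 : e a = x
      · rw [if_pos h2, if_neg (by rw [h2]; exact h)]
      · rw [if_neg h2]
  rw [tsum_congr h1, ENNReal.tsum_comm]
  refine tsum_congr fun a => ?_
  rw [tsum_eq_single (e a)]
  · rw [if_pos rfl]
  · intro x hx
    rw [if_neg (Ne.symm hx)]

open Classical in
/-- density of the low part -/
lemma dens {α β : Type*} (f : α → ℝ≥0∞) (g : β → ℝ≥0∞) (a : α → Site d) (b : β → Site d)
    (t : ℝ≥0∞) (hg : ∑' y, g y ≤ 1) (x0 : Site d) :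
    ∑' x, ∑' y, (if pl f a (a x) ≤ t ∧ a x + b y = x0
      then f x * g y else 0) ≤ t := by
  rw [ENNReal.tsum_comm]
  calc _ ≤ ∑' y, g y * t := ENNReal.tsum_le_tsum fun y => ?_
    _ = (∑' y, g y) * t := ENNReal.tsum_mul_right
    _ ≤ 1 * t := by gcongr
    _ = t := one_mul t
  by_cases h : pl f a (x0 - b y) ≤ t
  · calc _ ≤ ∑' x, g y * (if a x = x0 - b y then f x else 0) := ENNReal.tsum_le_tsum fun x => ?_
      _ = g y * pl f a (x0 - b y) := by
          rw [ENNReal.tsum_mul_left]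
          unfold pl
          congr 1
          refine tsum_congr fun x => ?_
          congr
      _ ≤ g y * t := by gcongr
    by_cases h2 : a x + b y = x0
    · rw [if_pos (show a x = x0 - b y from eq_sub_of_add_eq h2), mul_comm (g y)]
      split_ifs
      · exact le_rfl
      · exact zero_le
    · rw [if_neg (fun h3 => h2 h3.2)]; exact zero_le
  · refine le_trans (le_of_eq ?_) zero_le
    rw [ENNReal.tsum_eq_zero]
    intro x
    rw [if_neg]
    rintro ⟨h3, h4⟩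
    apply h
    rwa [show x0 - b y = a x from (eq_sub_of_add_eq h4).symm]

open Classical in
/-- counting form -/
lemma count (u : Step d) (Φ : Site d → ℝ≥0∞) (S : Set (Lat u)) (κ η us : ℝ≥0∞) (E n : ℕ)
    (hn : 1 ≤ n) (hE : E ≤ n)
    (hκ : κ ≠ 0) (hκt : κ ≠ ⊤) (hη : η ≠ 0) (hηt : η ≠ ⊤)
    (hus : us ≤ κ / 32) (hus2 : us ≤ η * (κ / 32) * (κ / 32))
    (hS : ∀ w ∈ S, κ ≤ Φ w.1)
    (hE2 : ∀ (μ : Site d → ℝ≥0∞) (M lam : ℝ≥0∞), ∑' x, μ x ≤ 1 → (∀ x, μ x ≤ M) → lam ≠ 0 →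
      lam ≠ ⊤ → ∑' x, (if lev u x = 0 then μ x * Φ x else 0) ≤ 8 * (lam + M * E * us / lam + us)) :
    (n : ℝ≥0∞)⁻¹ * card S ≤ η := by
  have hn0 : (n : ℝ≥0∞) ≠ 0 := by
    have : n ≠ 0 := by omega
    exact_mod_cast this
  have hnt : (n : ℝ≥0∞) ≠ ⊤ := ENNReal.natCast_ne_top n
  set lam := κ / 32 with hlam
  have hl0 : lam ≠ 0 := (ENNReal.div_pos hκ (by norm_num)).ne'
  have hlt : lam ≠ ⊤ := ENNReal.div_ne_top hκt (by norm_num)
  rw [card, ENNReal.tsum_eq_iSup_sum, ENNReal.mul_iSup]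
  refine iSup_le fun F => ?_
  set F' := F.filter (fun w => w ∈ S) with hF'
  have h1 : ∑ w ∈ F, S.indicator (fun _ => (1 : ℝ≥0∞)) w = F'.card := by
    rw [hF', Finset.card_filter, Nat.cast_sum]
    refine Finset.sum_congr rfl fun w _ => ?_
    by_cases h : w ∈ S <;> simp [h]
  rw [h1]
  by_contra hcon
  rw [not_le] at hcon
  have hN : F'.card ≠ 0 := by
    intro h
    rw [h] at hcon
    simp at hcon
  set N : ℝ≥0∞ := (F'.card : ℝ≥0∞) with hNdef
  have hN0 : N ≠ 0 := by rw [hNdef]; exact_mod_cast hN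
  have hNt : N ≠ ⊤ := ENNReal.natCast_ne_top _
  let emb : Lat u ↪ Site d := ⟨fun w => w.1, fun a b h => Subtype.ext h⟩
  set G : Finset (Site d) := F'.map emb with hG
  have hGc : G.card = F'.card := Finset.card_map _
  set μ : Site d → ℝ≥0∞ := fun x => if x ∈ G then N⁻¹ else 0 with hμ
  have hμ1 : ∑' x, μ x ≤ 1 := by
    have e0 : ∑' x, μ x = ∑ x ∈ G, μ x := tsum_eq_sum (fun x hx => if_neg hx)
    have e1 : ∑ x ∈ G, μ x = ∑ _x ∈ G, N⁻¹ := Finset.sum_congr rfl (fun x hx => if_pos hx)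
    rw [e0, e1, Finset.sum_const, nsmul_eq_mul, hGc]
    exact (ENNReal.mul_inv_cancel hN0 hNt).le
  have hμM : ∀ x, μ x ≤ N⁻¹ := by
    intro x
    rw [hμ]
    simp only
    split_ifs
    · exact le_rfl
    · exact zero_le
  have h2 := hE2 μ N⁻¹ lam hμ1 hμM hl0 hlt
  have h3 : κ ≤ ∑' x, (if lev u x = 0 then μ x * Φ x else 0) := by
    calc κ = N * (N⁻¹ * κ) := by rw [← mul_assoc, ENNReal.mul_inv_cancel hN0 hNt, one_mul]
      _ = ∑ _x ∈ G, N⁻¹ * κ := by rw [Finset.sum_const, nsmul_eq_mul, hGc]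
      _ ≤ ∑ x ∈ G, (if lev u x = 0 then μ x * Φ x else 0) := by
          refine Finset.sum_le_sum fun x hx => ?_
          have hx' := hx
          rw [hG, Finset.mem_map] at hx'
          obtain ⟨w, hw, rfl⟩ := hx'
          have hw2 : w ∈ S := (Finset.mem_filter.1 hw).2
          have e1 : lev u (emb w) = 0 := w.2
          rw [if_pos e1]
          have e2 : μ (emb w) = N⁻¹ := if_pos hx
          rw [e2]
          gcongr
          exact hS w hw2
      _ ≤ _ := ENNReal.sum_le_tsum G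
  have h4 : N⁻¹ * (E : ℝ≥0∞) ≤ η⁻¹ := by
    have h5 : η * n ≤ N := by
      calc η * n ≤ (n : ℝ≥0∞)⁻¹ * N * n := by gcongr
        _ = N * ((n : ℝ≥0∞)⁻¹ * n) := by ring
        _ = N := by rw [ENNReal.inv_mul_cancel hn0 hnt, mul_one]
    calc N⁻¹ * (E : ℝ≥0∞) ≤ (η * n)⁻¹ * n := by
          gcongr
      _ = η⁻¹ * ((n : ℝ≥0∞)⁻¹ * n) := by
          rw [ENNReal.mul_inv (Or.inl hη) (Or.inl hηt), mul_assoc]
      _ = η⁻¹ := by rw [ENNReal.inv_mul_cancel hn0 hnt, mul_one]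
  have h6 : N⁻¹ * (E : ℝ≥0∞) * us / lam ≤ lam := by
    calc N⁻¹ * (E : ℝ≥0∞) * us / lam ≤ η⁻¹ * (η * lam * lam) / lam := by gcongr
      _ = (η⁻¹ * η) * lam * (lam / lam) := by
          rw [ENNReal.div_eq_inv_mul, ENNReal.div_eq_inv_mul]; ring
      _ = lam := by
          rw [ENNReal.inv_mul_cancel hη hηt, ENNReal.div_self hl0 hlt, one_mul, mul_one]
  have h7 : κ ≤ 24 * lam := by
    calc κ ≤ 8 * (lam + N⁻¹ * E * us / lam + us) := h3.trans h2
      _ ≤ 8 * (lam + lam + lam) := by gcongr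
      _ = 24 * lam := by ring
  have h8 : κ = 32 * lam := by
    rw [hlam, ENNReal.mul_div_cancel (by norm_num) (by norm_num)]
  have h9 : 24 * lam < 32 * lam := by
    rw [ENNReal.mul_lt_mul_iff_left hl0 hlt]
    norm_num
  rw [h8] at h7
  exact absurd h9 (not_lt.2 h7)

lemma act_cat (u : Step d) (L : List (PB u)) (w : Lat u) :
    (act (dl u) L w).1 = w.1 + endp 0 (cat L).1 + endp 0 (cat L).2 := by
  induction L generalizing w with
  | nil => simp [act, cat, endp]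
  | cons b L ih =>
    rw [act, ih]
    change w.1 + endp 0 b.1.1 + endp 0 b.1.2 + endp 0 (cat L).1 + endp 0 (cat L).2
      = w.1 + endp 0 (pm b.1 (cat L)).1 + endp 0 (pm b.1 (cat L)).2
    simp only [pm, Flux566.endp_append]
    rw [endp_eq_add b.1.1 (endp 0 (cat L).1), endp_eq_add (cat L).2 (endp 0 b.1.2)]
    abel

lemma act_iff (u : Step d) (L : List (PB u)) (w w' : Lat u) :
    act (dl u) L w = w' ↔ endp 0 (cat L).1 + endp 0 (cat L).2 = w'.1 - w.1 := by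
  constructor
  · intro h
    rw [← h, act_cat]; abel
  · intro h
    apply Subtype.ext
    rw [act_cat, add_assoc, h]; abel

variable (ν : Measure (Row d)) [IsProbabilityMeasure ν] (u : Step d)

open Classical in
noncomputable def fX (H : ℕ) (π : List (Step d)) : ℝ≥0∞ := if IsUp u H π then NB28.aw ν π else 0

open Classical in
noncomputable def gY (H : ℕ) (γ : List (Step d)) : ℝ≥0∞ := if IsDn u H γ then NB28.aw ν γ else 0

lemma fX_le (H : ℕ) : ∑' π, fX ν u H π ≤ 1 :=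
  sum_if_le_one ν fun l l' h h' hp => NB28.isUp_prefix h h' hp

lemma gY_le (H : ℕ) : ∑' γ, gY ν u H γ ≤ 1 :=
  sum_if_le_one ν fun l l' h h' hp => NB28.isDn_prefix h h' hp

open Classical in
lemma tsum_P (H : ℕ) (P : List (Step d) × List (Step d) → Prop) [DecidablePred P] (Q : List (PB u) → Prop)
    (inst : ∀ L, Decidable (HT (ht u) L = H ∧ Q L)) (hQ : ∀ L, Q L ↔ P (cat L)) :
    ∑' L : List (PB u), (@ite _ (HT (ht u) L = H ∧ Q L) (inst L) (LW (Lam ν u) L) 0)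
      = ∑' π, ∑' γ, (if P (π, γ) then fX ν u H π * gY ν u H γ else 0) := by
  have h := tsum_L ν u H (fun x => if P x then 1 else 0)
  have h1 : ∀ L : List (PB u), (@ite _ (HT (ht u) L = H ∧ Q L) (inst L) (LW (Lam ν u) L) 0)
      = (if HT (ht u) L = H then LW (Lam ν u) L * (if P (cat L) then 1 else 0) else 0) := by
    intro L
    by_cases a : HT (ht u) L = H <;> by_cases b : Q L
    · rw [if_pos ⟨a, b⟩, if_pos a, if_pos ((hQ L).1 b), mul_one]
    · rw [if_neg (fun h => b h.2), if_pos a, if_neg (fun h => b ((hQ L).2 h)), mul_zero]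
    · rw [if_neg (fun h => a h.1), if_neg a]
    · rw [if_neg (fun h => a h.1), if_neg a]
  rw [tsum_congr h1, h]
  refine tsum_congr fun π => tsum_congr fun γ => ?_
  unfold fX gY
  by_cases a : IsUp u H π <;> by_cases b : IsDn u H γ <;> by_cases c : P (π, γ) <;>
    simp [a, b, c]

open Classical in
noncomputable def PhX (H s : ℕ) (E : Finset (Site d)) (x : Site d) : ℝ≥0∞ :=
  ∑' π, ∑' γ, (if IsUp u H π ∧ endp 0 π ∈ E ∧ IsDn u H γ ∧ (∃ k, k ∈ Cm u x π γ) ∧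
        (∀ k ∈ Cm u x π γ, s < k) then NB28.aw ν π * NB28.aw ν γ else 0)

open Classical in
noncomputable def PhY (H s : ℕ) (E : Finset (Site d)) (x : Site d) : ℝ≥0∞ :=
  ∑' π, ∑' γ, (if IsUp u H π ∧ endp 0 γ ∈ E ∧ IsDn u H γ ∧ (∃ k, k ∈ Cm u x π γ) ∧
        (∀ k ∈ Cm u x π γ, k + s ≤ H) then NB28.aw ν π * NB28.aw ν γ else 0)

open Classical in
/-- outside the two exceptional sets -/
lemma off (H s : ℕ) (EX EY : Finset (Site d)) (w : Lat u) (v : ℝ≥0∞)
    (hX : ∑' π, (if endp 0 π ∈ EX then 0 else fX ν u H π) ≤ v)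
    (hY : ∑' γ, (if endp 0 γ ∈ EY then 0 else gY ν u H γ) ≤ v) :
    (∑' L : List (PB u), if HT (ht u) L = H ∧ CD (ht u) (dl u) (cd u) L w ≠ ∅ ∧
        (∀ k ∈ CD (ht u) (dl u) (cd u) L w, s < k ∧ k + s ≤ H) then LW (Lam ν u) L else 0)
      ≤ v * v + (PhX ν u H s EX w.1 + PhY ν u H s EY w.1) := by
  rw [tsum_P ν u H (fun x => cds u x w.1 ≠ ∅ ∧ (∀ k ∈ cds u x w.1, s < k ∧ k + s ≤ H))
    (fun L => CD (ht u) (dl u) (cd u) L w ≠ ∅ ∧
        (∀ k ∈ CD (ht u) (dl u) (cd u) L w, s < k ∧ k + s ≤ H)) _ (fun L => by rw [CD_cat])]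
  have hvv : ∑' π, ∑' γ, (if endp 0 π ∈ EX then 0 else fX ν u H π) *
      (if endp 0 γ ∈ EY then 0 else gY ν u H γ) ≤ v * v := by
    rw [tsum_congr (fun π => ENNReal.tsum_mul_left), ENNReal.tsum_mul_right]
    exact mul_le_mul' hX hY
  refine le_trans ?_ (add_le_add_left hvv _)
  unfold PhX PhY
  rw [← ENNReal.tsum_add, ← ENNReal.tsum_add]
  refine ENNReal.tsum_le_tsum fun π => ?_
  rw [← ENNReal.tsum_add, ← ENNReal.tsum_add]
  refine ENNReal.tsum_le_tsum fun γ => ?_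
  rw [cds_eq]
  by_cases a : IsUp u H π
  · by_cases b : IsDn u H γ
    · by_cases c : Cm u w.1 π γ ≠ ∅ ∧ (∀ k ∈ Cm u w.1 π γ, s < k ∧ k + s ≤ H)
      · rw [if_pos c]
        have e1 : fX ν u H π = NB28.aw ν π := if_pos a
        have e2 : gY ν u H γ = NB28.aw ν γ := if_pos b
        have hne := Set.nonempty_iff_ne_empty.2 c.1
        by_cases x : endp 0 π ∈ EX
        · refine le_add_left (le_add_right ?_)
          rw [if_pos ⟨a, x, b, hne, fun k hk => (c.2 k hk).1⟩, e1, e2]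
        · by_cases y : endp 0 γ ∈ EY
          · refine le_add_left (le_add_left ?_)
            rw [if_pos ⟨a, y, b, hne, fun k hk => (c.2 k hk).2⟩, e1, e2]
          · refine le_add_right ?_
            rw [if_neg x, if_neg y]
      · rw [if_neg c]; exact zero_le
    · have e2 : gY ν u H γ = 0 := if_neg b
      rw [e2, mul_zero, ite_self]
      exact zero_le
  · have e1 : fX ν u H π = 0 := if_neg a
    rw [e1, zero_mul, ite_self]
    exact zero_le

open Classical in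
/-- **139's `hW`** for the instance of pair blocks -/
theorem hW (hν : ∀ᵐ p ∂ν, ∀ e : Step d, 0 < p.1 e)
    (hA : annealedProb (iidEnvironmentLaw ν) 0 (escapeEvent (Flux566.dir u)) ≠ 0)
    (c : ℝ≥0∞) (hc1 : c ≤ 1) (hup : ∀ n, c ≤ ∑' π, fX ν u n π) (hdn : ∀ n, c ≤ ∑' γ, gY ν u n γ) :
    ∀ v η : ℝ≥0∞, v ≠ 0 → v ≤ 1 → η ≠ 0 → ∃ s H0 : ℕ, ∀ H, H0 ≤ H → ∃ S1 S2 : Set (Lat u),
      Good (Lam ν u) (ht u) (dl u) (c * c * v) η H S1 ∧
      Good (Lam ν u) (ht u) (dl u) (c * c * v) η H S2 ∧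
      ∀ w, w ∉ S1 → w ∉ S2 →
        (∑' L : List (PB u), if HT (ht u) L = H ∧ CD (ht u) (dl u) (cd u) L w ≠ ∅ ∧
          (∀ k ∈ CD (ht u) (dl u) (cd u) L w, s < k ∧ k + s ≤ H)
            then LW (Lam ν u) L else 0) ≤ v * v + η := by
  intro v η hv hv1 hη
  set η' := min η 1 with hη'
  have hη0 : η' ≠ 0 := (lt_min (pos_iff_ne_zero.2 hη) one_pos).ne'
  have hηt : η' ≠ ⊤ := ne_top_of_le_ne_top ENNReal.one_ne_top (min_le_right _ _)
  have hηle : η' ≤ η := min_le_left _ _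
  set κ := η' / 2 with hκ
  have hκ0 : κ ≠ 0 := (ENNReal.div_pos hη0 (by norm_num)).ne'
  have hκt : κ ≠ ⊤ := ENNReal.div_ne_top hηt (by norm_num)
  have hl0 : κ / 32 ≠ 0 := (ENNReal.div_pos hκ0 (by norm_num)).ne'
  obtain ⟨s, hs⟩ := E23W.us_small ν hν u hA (min (κ / 32) (η' * (κ / 32) * (κ / 32)))
    (lt_min (pos_iff_ne_zero.2 hl0)
      (pos_iff_ne_zero.2 (mul_ne_zero (mul_ne_zero hη0 hl0) hl0))).ne'
  have hus := hs s le_rfl
  refine ⟨s, 0, fun H _ => ?_⟩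
  -- the laws of the end points
  set pX : Site d → ℝ≥0∞ := pl (fX ν u H) (endp (0 : Site d)) with hpX
  set pY : Site d → ℝ≥0∞ := pl (gY ν u H) (endp (0 : Site d)) with hpY
  have sX : ∑' x, pX x = ∑' π, fX ν u H π := by
    have := push (fX ν u H) (endp (0 : Site d)) (fun _ => True)
    simp only [if_true] at this
    exact this
  have sY : ∑' x, pY x = ∑' γ, gY ν u H γ := by
    have := push (gY ν u H) (endp (0 : Site d)) (fun _ => True)
    simp only [if_true] at this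
    exact this
  obtain ⟨EX, nX, hnX, hEX, hvX, hqX⟩ := quant pX (by rw [sX]; exact fX_le ν u H) c v
    (by rw [sX]; exact hup H) hc1 hv hv1
  obtain ⟨EY, nY, hnY, hEY, hvY, hqY⟩ := quant pY (by rw [sY]; exact gY_le ν u H) c v
    (by rw [sY]; exact hdn H) hc1 hv hv1
  have hX : ∑' π, (if endp 0 π ∈ EX then 0 else fX ν u H π) ≤ v := by
    refine le_trans (le_of_eq ?_) hvX
    refine Eq.trans (tsum_congr fun π => ?_) ((push (fX ν u H) (endp (0 : Site d)) (fun x => x ∉ EX)).symm.trans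
      (tsum_congr fun x => ?_))
    · by_cases h : endp 0 π ∈ EX <;> simp [h]
    · by_cases h : x ∈ EX <;> simp [h, hpX]
  have hY : ∑' γ, (if endp 0 γ ∈ EY then 0 else gY ν u H γ) ≤ v := by
    refine le_trans (le_of_eq ?_) hvY
    refine Eq.trans (tsum_congr fun π => ?_) ((push (gY ν u H) (endp (0 : Site d)) (fun x => x ∉ EY)).symm.trans
      (tsum_congr fun x => ?_))
    · by_cases h : endp 0 π ∈ EY <;> simp [h]
    · by_cases h : x ∈ EY <;> simp [h, hpY]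
  refine ⟨{w | κ < PhX ν u H s EX w.1}, {w | κ < PhY ν u H s EY w.1}, ?_, ?_, ?_⟩
  · refine ⟨{L | pX (endp 0 (cat L).1) ≤ (nX : ℝ≥0∞)⁻¹}, (nX : ℝ≥0∞)⁻¹, ?_, ?_, ?_⟩
    · refine le_trans ?_ (tsum_P ν u H (fun x => pX (endp 0 x.1) ≤ (nX : ℝ≥0∞)⁻¹)
        (fun L => L ∈ {L : List (PB u) | pX (endp 0 (cat L).1) ≤ (nX : ℝ≥0∞)⁻¹}) _
        (fun L => Iff.rfl)).ge
      have e1 : ∀ π, (∑' γ, (if pX (endp 0 π) ≤ (nX : ℝ≥0∞)⁻¹ then fX ν u H π * gY ν u H γ else 0))
          = (if pX (endp 0 π) ≤ (nX : ℝ≥0∞)⁻¹ then fX ν u H π else 0) * ∑' γ, gY ν u H γ := by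
        intro π
        rw [← ENNReal.tsum_mul_left]
        refine tsum_congr fun γ => ?_
        split_ifs <;> simp
      have e2 : ∑' π, (if pX (endp 0 π) ≤ (nX : ℝ≥0∞)⁻¹ then fX ν u H π else 0)
          = ∑' x, (if pX x ≤ (nX : ℝ≥0∞)⁻¹ then pX x else 0) :=
        (push (fX ν u H) (endp (0 : Site d)) (fun x => pX x ≤ (nX : ℝ≥0∞)⁻¹)).symm
      calc c * c * v = c * v * c := by ring
        _ ≤ _ := mul_le_mul' hqX (hdn H)
        _ = ∑' π, (∑' γ, (if pX (endp 0 π) ≤ (nX : ℝ≥0∞)⁻¹ then fX ν u H π * gY ν u H γ else 0)) := by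
          rw [tsum_congr e1, ENNReal.tsum_mul_right, e2]
        _ = _ := rfl
    · intro w w'
      refine (tsum_P ν u H (fun x => pX (endp 0 x.1) ≤ (nX : ℝ≥0∞)⁻¹ ∧
          endp 0 x.1 + endp 0 x.2 = w'.1 - w.1)
        (fun L => L ∈ {L : List (PB u) | pX (endp 0 (cat L).1) ≤ (nX : ℝ≥0∞)⁻¹} ∧
          act (dl u) L w = w') _ (fun L => ?_)).le.trans ?_
      rotate_left
      · refine le_trans (le_of_eq ?_) (dens (fX ν u H) (gY ν u H) (endp 0) (endp 0)
          (nX : ℝ≥0∞)⁻¹ (gY_le ν u H) (w'.1 - w.1))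
        refine tsum_congr fun π => tsum_congr fun γ => ?_
        congr
      · exact and_congr Iff.rfl (act_iff u L w w')
    · refine le_trans ?_ hηle
      refine count u (PhX ν u H s EX) _ κ η' (E23W.us ν u s) EX.card nX hnX hEX hκ0 hκt hη0 hηt
        (hus.trans (min_le_left _ _)) (hus.trans (min_le_right _ _)) (fun w hw => le_of_lt hw) ?_
      intro μ M lam h1 h2 h3 h4
      exact E23W.e2 ν u s H EX μ M lam h1 h2 h3 h4
  · refine ⟨{L | pY (endp 0 (cat L).2) ≤ (nY : ℝ≥0∞)⁻¹}, (nY : ℝ≥0∞)⁻¹, ?_, ?_, ?_⟩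
    · refine le_trans ?_ (tsum_P ν u H (fun x => pY (endp 0 x.2) ≤ (nY : ℝ≥0∞)⁻¹)
        (fun L => L ∈ {L : List (PB u) | pY (endp 0 (cat L).2) ≤ (nY : ℝ≥0∞)⁻¹}) _
        (fun L => Iff.rfl)).ge
      rw [ENNReal.tsum_comm]
      have e1 : ∀ γ, (∑' π, (if pY (endp 0 γ) ≤ (nY : ℝ≥0∞)⁻¹ then fX ν u H π * gY ν u H γ else 0))
          = (if pY (endp 0 γ) ≤ (nY : ℝ≥0∞)⁻¹ then gY ν u H γ else 0) * ∑' π, fX ν u H π := by
        intro γ
        rw [← ENNReal.tsum_mul_left]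
        refine tsum_congr fun π => ?_
        split_ifs
        · rw [mul_comm]
        · simp
      have e2 : ∑' γ, (if pY (endp 0 γ) ≤ (nY : ℝ≥0∞)⁻¹ then gY ν u H γ else 0)
          = ∑' x, (if pY x ≤ (nY : ℝ≥0∞)⁻¹ then pY x else 0) :=
        (push (gY ν u H) (endp (0 : Site d)) (fun x => pY x ≤ (nY : ℝ≥0∞)⁻¹)).symm
      calc c * c * v = c * v * c := by ring
        _ ≤ _ := mul_le_mul' hqY (hup H)
        _ = ∑' γ, (∑' π, (if pY (endp 0 γ) ≤ (nY : ℝ≥0∞)⁻¹ then fX ν u H π * gY ν u H γ else 0)) := by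
          rw [tsum_congr e1, ENNReal.tsum_mul_right, e2]
        _ = _ := rfl
    · intro w w'
      refine (tsum_P ν u H (fun x => pY (endp 0 x.2) ≤ (nY : ℝ≥0∞)⁻¹ ∧
          endp 0 x.2 + endp 0 x.1 = w'.1 - w.1)
        (fun L => L ∈ {L : List (PB u) | pY (endp 0 (cat L).2) ≤ (nY : ℝ≥0∞)⁻¹} ∧
          act (dl u) L w = w') _ (fun L => ?_)).le.trans ((ENNReal.tsum_comm).le.trans ?_)
      rotate_left
      · refine le_trans (le_of_eq ?_) (dens (gY ν u H) (fX ν u H) (endp 0) (endp 0)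
          (nY : ℝ≥0∞)⁻¹ (fX_le ν u H) (w'.1 - w.1))
        refine tsum_congr fun γ => tsum_congr fun π => ?_
        rw [mul_comm]
      · refine and_congr Iff.rfl ((act_iff u L w w').trans ?_)
        rw [add_comm (endp 0 (cat L).1)]
    · refine le_trans ?_ hηle
      refine count u (PhY ν u H s EY) _ κ η' (E23W.us ν u s) EY.card nY hnY hEY hκ0 hκt hη0 hηt
        (hus.trans (min_le_left _ _)) (hus.trans (min_le_right _ _)) (fun w hw => le_of_lt hw) ?_
      intro μ M lam h1 h2 h3 h4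
      exact E23W.e3 ν u s H EY μ M lam h1 h2 h3 h4
  · intro w hw1 hw2
    refine (off ν u H s EX EY w v hX hY).trans ?_
    refine add_le_add le_rfl (le_trans ?_ hηle)
    calc PhX ν u H s EX w.1 + PhY ν u H s EY w.1 ≤ κ + κ :=
          add_le_add (not_lt.1 hw1) (not_lt.1 hw2)
      _ = η' := ENNReal.add_halves η'

theorem dir_eq : Flux566.dir u = B2d.dirVec u := by
  funext i
  simp only [Flux566.dir, B2d.dirVec]

/-- **the window estimate** -/
theorem hWin (hν : ∀ᵐ p ∂ν, ∀ e : Step d, 0 < p.1 e)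
    (hA : annealed (iidEnvironmentLaw ν) 0 (escapeEvent (B2d.dirVec u)) ≠ 0)
    (hB : annealed (iidEnvironmentLaw ν) 0 (escapeEvent (-B2d.dirVec u)) ≠ 0) :
    KB818.HWin ν u := by
  obtain ⟨c, hc, hc1, h1, h2⟩ := WM286.mass_pos ν hν u hA hB
  have hU : ∀ n, c * c ≤ U (Lam ν u) (ht u) n := fun n => by
    rw [U_eq28]; exact mul_le_mul' (h1 n) (h2 n)
  have hU1 : ∀ n, U (Lam ν u) (ht u) n ≤ 1 := fun n => by
    rw [U_eq28]
    exact mul_le_one' (sum_if_le_one ν fun l l' h h' hp => NB28.isUp_prefix h h' hp)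
      (sum_if_le_one ν fun l l' h h' hp => NB28.isDn_prefix h h' hp)
  have hΛ : ∑' b, Lam ν u b = 1 :=
    le_antisymm (mass_le_one (Lam ν u) (ht u) one_le_hb hU1)
      (mass_ge_one (Lam ν u) (ht u) (c * c) (mul_ne_zero hc hc) 0 (fun n _ => hU n))
  have hA' : annealedProb (iidEnvironmentLaw ν) 0 (escapeEvent (Flux566.dir u)) ≠ 0 := by
    rw [dir_eq]
    rwa [annealed_apply _ 0 (Kal132.measurableSet_escape _)] at hA
  exact HWinAd363.hWin_of_hW (Lam ν u) (ht u) (dl u) (cd u) one_le_hb hΛ hU1 (c * c)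
    (mul_ne_zero hc hc) hU (hinj u) (c * c) (mul_ne_zero hc hc) (hW ν u hν hA' c hc1 h1 h2)

/-- **KAPPA' for all laws** -/
theorem kappaAll : NB28.KappaAll :=
  KB818.kappaAll_of fun d _ ν _ hν u hA hB => hWin ν u hν hA hB

/-- **T0219** -/
theorem nbProp : Spine.NBProp := NB28.nb_of_kappaW kappaAll

end Crest.Agent.R154.HW657
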