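import Crest.Agent.R154.B5Br_657
import Crest.Agent.R154.JHit_139
import Crest.Agent.R154.Comp_818
import Crest.Agent.R154.Dens_903

/-! Row 154, road 801, joint cuts (frame B): the window estimate of `Comp818.comp` in 657's
instance from the two word lemmas at common height (helper659). -/

set_option autoImplicit false

open MeasureTheory ProbabilityTheory Crest.ProbabilityR.RandomEnvironment
open scoped ENNReal

namespace Crest.Agent.R154.HW659

open Crest.Agent.R154.B5A Crest.Agent.R154.B5W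
open Crest.Agent.R154.NB28 (IsUp IsDn Cm)
open Crest.Agent.R154.Flux566 (endp sitesL)
open Crest.Agent.R154.JAsm139 (Good card hitS hit_le)

/-! ### abstract counting -/

lemma card_count {Z : Type*} (Φ : Z → ℝ≥0∞) (A B δ : ℝ≥0∞) (hδ : δ ≠ ⊤) (hA : 2 * A ≤ δ)
    (h : ∀ (μ : Z → ℝ≥0∞) (M : ℝ≥0∞), ∑' x, μ x ≤ 1 → (∀ x, μ x ≤ M) →
      ∑' x, μ x * Φ x ≤ A + M * B) :
    δ * card {x | δ < Φ x} ≤ 2 * B := by
  classical
  unfold card
  rw [← ENNReal.tsum_mul_left, ENNReal.tsum_eq_iSup_sum]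
  refine iSup_le fun F => ?_
  set F' := F.filter (fun x => δ < Φ x) with hF'
  have e : ∑ x ∈ F, δ * ({x | δ < Φ x} : Set Z).indicator (fun _ => (1 : ℝ≥0∞)) x
      = δ * (F'.card : ℝ≥0∞) := by
    rw [← Finset.mul_sum]
    congr 1
    rw [hF', Finset.card_filter]
    push_cast
    refine Finset.sum_congr rfl fun x _ => ?_
    rw [Set.indicator_apply]
    rfl
  rw [e]
  rcases Nat.eq_zero_or_pos F'.card with h0 | h0
  · rw [h0]; simp
  have hn0 : (F'.card : ℝ≥0∞) ≠ 0 := by exact_mod_cast h0.ne'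
  have hnt : (F'.card : ℝ≥0∞) ≠ ⊤ := ENNReal.natCast_ne_top _
  set μ : Z → ℝ≥0∞ := fun x => if x ∈ F' then (F'.card : ℝ≥0∞)⁻¹ else 0 with hμ
  have h1 : ∑' x, μ x ≤ 1 := by
    rw [tsum_eq_sum (s := F') (fun x hx => by simp [hμ, hx])]
    have e1 : ∑ x ∈ F', μ x = ∑ _x ∈ F', (F'.card : ℝ≥0∞)⁻¹ :=
      Finset.sum_congr rfl fun x hx => by simp only [hμ, if_pos hx]
    rw [e1, Finset.sum_const, nsmul_eq_mul, ENNReal.mul_inv_cancel hn0 hnt]
  have h2 : ∀ x, μ x ≤ (F'.card : ℝ≥0∞)⁻¹ := by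
    intro x; simp only [hμ]; split_ifs <;> simp
  have h3 := h μ _ h1 h2
  have h4 : δ ≤ ∑' x, μ x * Φ x := by
    calc δ = ∑ x ∈ F', (F'.card : ℝ≥0∞)⁻¹ * δ := by
          rw [Finset.sum_const, nsmul_eq_mul, ← mul_assoc, ENNReal.mul_inv_cancel hn0 hnt, one_mul]
      _ ≤ ∑ x ∈ F', μ x * Φ x := by
          refine Finset.sum_le_sum fun x hx => ?_
          simp only [hμ, if_pos hx]
          exact mul_le_mul_right (Finset.mem_filter.1 hx).2.le _
      _ ≤ _ := ENNReal.sum_le_tsum _
  have h5 : δ + δ ≤ δ + 2 * ((F'.card : ℝ≥0∞)⁻¹ * B) := by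
    calc δ + δ = 2 * δ := by ring
      _ ≤ 2 * (A + (F'.card : ℝ≥0∞)⁻¹ * B) := mul_le_mul_right (h4.trans h3) _
      _ = 2 * A + 2 * ((F'.card : ℝ≥0∞)⁻¹ * B) := by ring
      _ ≤ _ := add_le_add hA le_rfl
  have h6 : δ ≤ 2 * ((F'.card : ℝ≥0∞)⁻¹ * B) := (ENNReal.add_le_add_iff_left hδ).1 h5
  calc δ * (F'.card : ℝ≥0∞) ≤ 2 * ((F'.card : ℝ≥0∞)⁻¹ * B) * F'.card := mul_le_mul_left h6 _
    _ = ((F'.card : ℝ≥0∞)⁻¹ * F'.card) * (2 * B) := by ring
    _ = 2 * B := by rw [ENNReal.inv_mul_cancel hn0 hnt, one_mul]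

/-! ### one walker of exact height: quantile -/

open Classical in
/-- words in `P`, their endpoint law `p`, mass between `c` and `1` -/
lemma quant {A Z : Type*} [DecidableEq Z] (P : A → Prop) (a : A → ℝ≥0∞) (e : A → Z) (c : ℝ≥0∞) (hc : c ≠ 0)
    (h1 : ∑' π, (if P π then a π else 0) ≤ 1) (h2 : c ≤ ∑' π, (if P π then a π else 0))
    {v : ℝ≥0∞} (hv0 : v ≠ 0) (hv1 : v ≤ 1) :
    ∃ (E : Finset Z) (th : ℝ≥0∞) (low : Z → Prop), th * E.card ≤ 1 ∧
      ∑' π, (if P π ∧ e π ∉ E then a π else 0) ≤ v ∧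
      c * v ≤ ∑' π, (if P π ∧ low (e π) then a π else 0) ∧
      ∀ z, ∑' π, (if P π ∧ low (e π) ∧ e π = z then a π else 0) ≤ th := by
  set R : ℝ≥0∞ := ∑' π, (if P π then a π else 0) with hR
  have hR0 : R ≠ 0 := fun h => hc (le_antisymm (h ▸ h2) zero_le)
  have hRt : R ≠ ⊤ := ne_top_of_le_ne_top ENNReal.one_ne_top h1
  set p : Z → ℝ≥0∞ := fun z => R⁻¹ * ∑' π, (if P π ∧ e π = z then a π else 0) with hp
  have key : ∀ g : Z → ℝ≥0∞, ∑' z, (∑' π, (if P π ∧ e π = z then a π else 0)) * g z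
      = ∑' π, (if P π then a π * g (e π) else 0) := by
    intro g
    simp only [← ENNReal.tsum_mul_right]
    rw [ENNReal.tsum_comm]
    refine tsum_congr fun π => ?_
    by_cases h : P π
    · rw [tsum_eq_single (e π)]
      · simp [h]
      · intro z hz
        rw [if_neg (fun h' => hz h'.2.symm), zero_mul]
    · simp [h]
  have hp1 : ∑' z, p z = 1 := by
    rw [hp, ENNReal.tsum_mul_left]
    have := key (fun _ => 1)
    simp only [mul_one] at this
    rw [this, ENNReal.inv_mul_cancel hR0 hRt]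
  obtain ⟨th, ht0, ht1, hq1, hq2⟩ := Dens903.quantile p hp1 hv0 hv1
  have hfin : {z | th ≤ p z}.Finite :=
    ENNReal.finite_const_le_of_tsum_ne_top (by rw [hp1]; exact ENNReal.one_ne_top) ht0
  have hpR : ∀ z, ∑' π, (if P π ∧ e π = z then a π else 0) = R * p z := by
    intro z
    simp only [hp]
    rw [← mul_assoc, ENNReal.mul_inv_cancel hR0 hRt, one_mul]
  obtain ⟨low, hlow⟩ : ∃ low : Z → Prop, ∀ z, low z ↔ p z ≤ th := ⟨_, fun _ => Iff.rfl⟩
  refine ⟨hfin.toFinset, th, low, ?_, ?_, ?_, ?_⟩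
  · calc th * (hfin.toFinset.card : ℝ≥0∞) = ∑ _z ∈ hfin.toFinset, th := by
          rw [Finset.sum_const, nsmul_eq_mul, mul_comm]
      _ ≤ ∑ z ∈ hfin.toFinset, p z :=
          Finset.sum_le_sum fun z hz => by simpa using (hfin.mem_toFinset.1 hz)
      _ ≤ ∑' z, p z := ENNReal.sum_le_tsum _
      _ = 1 := hp1
  · have h3 := key (fun z => if p z < th then 1 else 0)
    have h4 : ∑' π, (if P π ∧ e π ∉ hfin.toFinset then a π else 0)
        = ∑' π, (if P π then a π * (if p (e π) < th then 1 else 0) else 0) := by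
      refine tsum_congr fun π => ?_
      have : e π ∉ hfin.toFinset ↔ p (e π) < th := by
        rw [hfin.mem_toFinset, Set.mem_ofPred_eq, not_le]
      by_cases h : P π <;> by_cases h' : p (e π) < th
      · rw [if_pos ⟨h, this.2 h'⟩, if_pos h, if_pos h', mul_one]
      · rw [if_neg (fun h5 => h' (this.1 h5.2)), if_pos h, if_neg h', mul_zero]
      · rw [if_neg (fun h5 => h h5.1), if_neg h]
      · rw [if_neg (fun h5 => h h5.1), if_neg h]
    rw [h4, ← h3]
    calc _ = R * ∑' z, (if p z < th then p z else 0) := by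
          rw [← ENNReal.tsum_mul_left]
          refine tsum_congr fun z => ?_
          rw [hpR]
          split_ifs <;> simp
      _ ≤ 1 * v := mul_le_mul' h1 hq1
      _ = v := one_mul _
  · have h3 := key (fun z => if low z then 1 else 0)
    have h4 : ∑' π, (if P π ∧ low (e π) then a π else 0)
        = ∑' π, (if P π then a π * (if low (e π) then 1 else 0) else 0) := by
      refine tsum_congr fun π => ?_
      by_cases h : P π <;> by_cases h' : low (e π) <;> simp [h, h']
    rw [h4, ← h3]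
    calc c * v ≤ R * ∑' z, (if p z ≤ th then p z else 0) := mul_le_mul' h2 hq2
      _ = _ := by
          rw [← ENNReal.tsum_mul_left]
          refine tsum_congr fun z => ?_
          rw [hpR]
          by_cases hz : p z ≤ th
          · rw [if_pos hz, if_pos ((hlow z).2 hz), mul_one]
          · rw [if_neg hz, if_neg (fun h => hz ((hlow z).1 h)), mul_zero, mul_zero]
  · intro z
    by_cases hz : low z
    · calc ∑' π, (if P π ∧ low (e π) ∧ e π = z then a π else 0)
          ≤ ∑' π, (if P π ∧ e π = z then a π else 0) := by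
            refine ENNReal.tsum_le_tsum fun π => ?_
            by_cases h : P π ∧ low (e π) ∧ e π = z
            · rw [if_pos h, if_pos ⟨h.1, h.2.2⟩]
            · rw [if_neg h]; exact zero_le
        _ = R * p z := hpR z
        _ ≤ 1 * th := mul_le_mul' h1 ((hlow z).1 hz)
        _ = th := one_mul _
    · have : ∀ π, (if P π ∧ low (e π) ∧ e π = z then a π else 0) = 0 := by
        intro π
        rw [if_neg]
        rintro ⟨_, h5, rfl⟩
        exact hz h5
      simp [this]

/-! ### the instance -/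

variable {d : ℕ} (ν : Measure (Row d)) [IsProbabilityMeasure ν] (u : Step d)

open Classical in
/-- `X` local -/
noncomputable def XL (E : Finset (Site d)) (s H : ℕ) (x : Site d) : ℝ≥0∞ :=
  ∑' π : List (Step d), ∑' γ : List (Step d),
    if IsUp u H π ∧ endp 0 π ∈ E ∧ IsDn u H γ ∧ (∃ k, k ∈ Cm u x π γ) ∧
      (∀ k ∈ Cm u x π γ, s < k ∧ k + s ≤ H) then NB28.aw ν π * NB28.aw ν γ else 0

open Classical in
/-- `Y` local -/
noncomputable def YL (E : Finset (Site d)) (s H : ℕ) (x : Site d) : ℝ≥0∞ :=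
  ∑' π : List (Step d), ∑' γ : List (Step d),
    if IsUp u H π ∧ IsDn u H γ ∧ endp 0 γ ∈ E ∧ (∃ k, k ∈ Cm u x π γ) ∧
      (∀ k ∈ Cm u x π γ, s < k ∧ k + s ≤ H) then NB28.aw ν π * NB28.aw ν γ else 0

open Classical in
/-- the window lemma for `Φ` -/
def EX (C : ℝ≥0∞) (us : ℕ → ℝ≥0∞) (Φ : Finset (Site d) → ℕ → ℕ → Site d → ℝ≥0∞) : Prop :=
  ∀ (s H : ℕ) (E : Finset (Site d)) (μ : Site d → ℝ≥0∞) (M lam : ℝ≥0∞),
    ∑' x, μ x ≤ 1 → (∀ x, μ x ≤ M) → lam ≠ 0 → lam ≠ ⊤ →
    ∑' x : Site d, (if Flux132.lev u x = 0 then μ x * Φ E s H x else 0)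
      ≤ C * (lam + M * E.card * us s / lam + us s)

variable {u} in
lemma small_set (C : ℝ≥0∞) (hC : C ≠ ⊤) (us : ℕ → ℝ≥0∞)
    (hus : Filter.Tendsto us Filter.atTop (nhds 0))
    (Φ : Finset (Site d) → ℕ → ℕ → Site d → ℝ≥0∞) (hE : EX u C us Φ) {δ η : ℝ≥0∞} (hδ0 : δ ≠ 0)
    (hδt : δ ≠ ⊤) (hη : η ≠ 0) : ∃ s0 : ℕ, ∀ s, s0 ≤ s → ∀ (H : ℕ) (E : Finset (Site d)) (th : ℝ≥0∞),
      th * E.card ≤ 1 → th * card {w : Lat u | δ < Φ E s H w.1} ≤ η := by
  classical
  obtain ⟨lam, hl0, hlt, hl⟩ : ∃ lam : ℝ≥0∞, lam ≠ 0 ∧ lam ≠ ⊤ ∧ 4 * C * lam ≤ δ := by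
    refine ⟨δ / (4 * C + 1), (ENNReal.div_pos hδ0 (by finiteness)).ne', ?_, ?_⟩
    · exact ENNReal.div_ne_top hδt (by simp)
    · calc 4 * C * (δ / (4 * C + 1)) ≤ (4 * C + 1) * (δ / (4 * C + 1)) :=
            mul_le_mul_left le_self_add _
        _ ≤ δ := ENNReal.mul_div_le
  have t1 : Filter.Tendsto (fun s => 4 * C * us s) Filter.atTop (nhds 0) := by
    have := ENNReal.Tendsto.const_mul (a := 4 * C) hus (Or.inr (by finiteness))
    simpa using this
  have t2 : Filter.Tendsto (fun s => 2 * C * lam⁻¹ * us s) Filter.atTop (nhds 0) := by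
    have := ENNReal.Tendsto.const_mul (a := 2 * C * lam⁻¹) hus
      (Or.inr (ENNReal.mul_ne_top (by finiteness) (ENNReal.inv_ne_top.2 hl0)))
    simpa using this
  have hδη : 0 < δ * η := pos_iff_ne_zero.2 (mul_ne_zero hδ0 hη)
  have e1 := (t1.eventually (gt_mem_nhds (pos_iff_ne_zero.2 hδ0))).and
    (t2.eventually (gt_mem_nhds hδη))
  obtain ⟨s0, hs0⟩ := Filter.eventually_atTop.1 e1
  refine ⟨s0, fun s hs H E th hth => ?_⟩
  obtain ⟨h1, h2⟩ := hs0 s hs
  have hcount := card_count (fun x : Site d => if Flux132.lev u x = 0 then Φ E s H x else 0)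
    (C * (lam + us s)) (C * (E.card * us s / lam)) δ hδt ?_ ?_
  · have hle : card {w : Lat u | δ < Φ E s H w.1}
        ≤ card {x : Site d | δ < if Flux132.lev u x = 0 then Φ E s H x else 0} := by
      unfold card
      refine le_trans (le_of_eq (tsum_congr fun w => ?_))
        (ENNReal.tsum_comp_le_tsum_of_injective (f := fun w : Lat u => w.1)
          Subtype.val_injective _)
      have hw : Flux132.lev u w.1 = 0 := w.2
      simp only [Set.indicator_apply, Set.mem_ofPred_eq, if_pos hw]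
    have h3 : δ * (th * card {w : Lat u | δ < Φ E s H w.1}) ≤ δ * η := by
      calc δ * (th * card {w : Lat u | δ < Φ E s H w.1})
          = th * (δ * card {w : Lat u | δ < Φ E s H w.1}) := by ring
        _ ≤ th * (2 * (C * (E.card * us s / lam))) :=
            mul_le_mul_right ((mul_le_mul_right hle _).trans hcount) _
        _ = (th * E.card) * (2 * C * lam⁻¹ * us s) := by rw [ENNReal.div_eq_inv_mul]; ring
        _ ≤ 1 * (2 * C * lam⁻¹ * us s) := mul_le_mul_left hth _
        _ ≤ δ * η := by rw [one_mul]; exact h2.le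
    exact (ENNReal.mul_le_mul_iff_right hδ0 hδt).1 h3
  · calc 2 * (C * (lam + us s)) = (4 * C * lam + 4 * C * us s) / 2 := by
          rw [ENNReal.div_eq_inv_mul]
          have : (2 : ℝ≥0∞) = 2⁻¹ * 4 := by
            rw [show (4 : ℝ≥0∞) = 2 * 2 by norm_num, ← mul_assoc,
              ENNReal.inv_mul_cancel (by norm_num) (by norm_num), one_mul]
          calc 2 * (C * (lam + us s)) = (2⁻¹ * 4) * (C * (lam + us s)) := by rw [← this]
            _ = _ := by ring
      _ ≤ (δ + δ) / 2 := ENNReal.div_le_div_right (add_le_add hl h1.le) _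
      _ = δ := by rw [← two_mul, mul_comm, ENNReal.mul_div_cancel_right (by norm_num) (by norm_num)]
  · intro μ M hμ1 hμM
    have := hE s H E μ M lam hμ1 hμM hl0 hlt
    calc ∑' x, μ x * (if Flux132.lev u x = 0 then Φ E s H x else 0)
        = ∑' x : Site d, (if Flux132.lev u x = 0 then μ x * Φ E s H x else 0) := by
          refine tsum_congr fun x => ?_
          split_ifs <;> simp
      _ ≤ _ := this
      _ = _ := by simp only [ENNReal.div_eq_inv_mul]; ring

lemma act_cat (L : List (PB u)) (w : Lat u) : (act (dl u) L w).1 = dlp (cat L) w.1 := by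
  induction L generalizing w with
  | nil => simp [act, cat, dlp, endp]
  | cons b L ih =>
    rw [act, ih]
    simp only [dl, dlp, cat, pm]
    rw [Flux566.endp_append, Flux566.endp_append, Flux566.endp_eq_add b.1.1 (endp 0 (cat L).1),
      Flux566.endp_eq_add (cat L).2 (endp 0 b.1.2)]
    abel

open Classical in
/-- sums over lists of height `n`, with a decidable event -/
lemma tsum_ev (n : ℕ) (F : List (Step d) × List (Step d) → Prop) [DecidablePred F] :
    ∑' L : List (PB u), (if HT (ht u) L = n ∧ F (cat L) then LW (Lam ν u) L else 0)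
      = ∑' π : List (Step d), ∑' γ : List (Step d),
        if IsUp u n π ∧ IsDn u n γ ∧ F (π, γ) then NB28.aw ν π * NB28.aw ν γ else 0 := by
  have h := tsum_L ν u n (fun x => if F x then 1 else 0)
  refine Eq.trans (tsum_congr fun L => ?_) (h.trans (tsum_congr fun π => tsum_congr fun γ => ?_))
  · by_cases h1 : HT (ht u) L = n <;> by_cases h2 : F (cat L) <;> simp [h1, h2]
  · by_cases h1 : IsUp u n π <;> by_cases h2 : IsDn u n γ <;> by_cases h3 : F (π, γ) <;>
      simp [h1, h2, h3]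

open Classical in
lemma prod_ev (P Q : List (Step d) → Prop) [DecidablePred P] [DecidablePred Q] :
    ∑' π : List (Step d), ∑' γ : List (Step d),
        (if P π ∧ Q γ then NB28.aw ν π * NB28.aw ν γ else 0)
      = (∑' π : List (Step d), if P π then NB28.aw ν π else 0)
        * ∑' γ : List (Step d), (if Q γ then NB28.aw ν γ else 0) := by
  rw [← ENNReal.tsum_mul_right]
  refine tsum_congr fun π => ?_
  rw [← ENNReal.tsum_mul_left]
  refine tsum_congr fun γ => ?_
  by_cases h1 : P π <;> by_cases h2 : Q γ <;> simp [h1, h2]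

open Classical in
/-- **139's `hW`** in 657's instance -/
theorem hW (c : ℝ≥0∞) (hc : c ≠ 0)
    (hup1 : ∀ n, ∑' π : List (Step d), (if IsUp u n π then NB28.aw ν π else 0) ≤ 1)
    (hdn1 : ∀ n, ∑' γ : List (Step d), (if IsDn u n γ then NB28.aw ν γ else 0) ≤ 1)
    (hup : ∀ n, c ≤ ∑' π : List (Step d), (if IsUp u n π then NB28.aw ν π else 0))
    (hdn : ∀ n, c ≤ ∑' γ : List (Step d), (if IsDn u n γ then NB28.aw ν γ else 0))
    (C : ℝ≥0∞) (hC : C ≠ ⊤) (us : ℕ → ℝ≥0∞)
    (hus : Filter.Tendsto us Filter.atTop (nhds 0))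
    (hE2 : EX u C us (XL ν u)) (hE3 : EX u C us (YL ν u)) (v η : ℝ≥0∞) (hv0 : v ≠ 0) (hv1 : v ≤ 1)
    (hη : η ≠ 0) : ∃ s : ℕ, ∀ H : ℕ, ∃ S1 S2 : Set (Lat u),
      Good (Lam ν u) (ht u) (dl u) (c * c * v) η H S1 ∧
      Good (Lam ν u) (ht u) (dl u) (c * c * v) η H S2 ∧
      ∀ w, w ∉ S1 → w ∉ S2 →
        Comp818.WLp (Lam ν u) (ht u) (dl u) (cd u) H s w ≤ v * v + η := by
  set δ : ℝ≥0∞ := min η 1 / 2 with hδ
  have hm0 : min η 1 ≠ 0 := by
    intro h
    rcases min_choice η 1 with h' | h' <;> rw [h'] at h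
    · exact hη h
    · exact one_ne_zero h
  have hmt : min η 1 ≠ ⊤ := ne_top_of_le_ne_top ENNReal.one_ne_top (min_le_right _ _)
  have hδ0 : δ ≠ 0 := (ENNReal.div_pos hm0 (by norm_num)).ne'
  have hδt : δ ≠ ⊤ := ENNReal.div_ne_top hmt (by norm_num)
  have hδη : δ + δ ≤ η := by
    rw [hδ, ENNReal.add_halves]; exact min_le_left _ _
  obtain ⟨s1, hs1⟩ := small_set C hC us hus (XL ν u) hE2 hδ0 hδt hη
  obtain ⟨s2, hs2⟩ := small_set C hC us hus (YL ν u) hE3 hδ0 hδt hη
  set s := max s1 s2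
  refine ⟨s, fun H => ?_⟩
  obtain ⟨E1, th1, low1, a1, b1, c1, d1⟩ := quant (fun π => IsUp u H π) (NB28.aw ν)
    (fun π => endp 0 π) c hc (hup1 H) (hup H) hv0 hv1
  obtain ⟨E2, th2, low2, a2, b2, c2, d2⟩ := quant (fun γ => IsDn u H γ) (NB28.aw ν)
    (fun γ => endp 0 γ) c hc (hdn1 H) (hdn H) hv0 hv1
  refine ⟨{w | δ < XL ν u E1 s H w.1}, {w | δ < YL ν u E2 s H w.1}, ?_, ?_, ?_⟩
  · refine ⟨{L | low1 (endp 0 (cat L).1)}, th1, ?_, ?_, hs1 s (le_max_left _ _) H E1 th1 a1⟩
    · have h := tsum_ev ν u H (fun x => low1 (endp 0 x.1))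
      have h2 := prod_ev ν (fun π => IsUp u H π ∧ low1 (endp 0 π)) (fun γ => IsDn u H γ)
      calc c * c * v = (c * v) * c := by ring
        _ ≤ _ := mul_le_mul' c1 (hdn H)
        _ = _ := h2.symm
        _ = _ := by
            refine Eq.trans ?_ h.symm
            refine tsum_congr fun π => tsum_congr fun γ => ?_
            by_cases h3 : IsUp u H π <;> by_cases h4 : IsDn u H γ <;>
              by_cases h5 : low1 (endp 0 π) <;> simp [h3, h4, h5]
    · intro w w'
      have h := tsum_ev ν u H (fun x => low1 (endp 0 x.1) ∧ dlp x w.1 = w'.1)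
      have h0 : ∑' L : List (PB u), (if HT (ht u) L = H ∧ L ∈ {L | low1 (endp 0 (cat L).1)} ∧
          act (dl u) L w = w' then LW (Lam ν u) L else 0)
          = ∑' L : List (PB u), (if HT (ht u) L = H ∧ (low1 (endp 0 (cat L).1) ∧
            dlp (cat L) w.1 = w'.1) then LW (Lam ν u) L else 0) := by
        refine tsum_congr fun L => ?_
        have e : act (dl u) L w = w' ↔ dlp (cat L) w.1 = w'.1 := by
          rw [← act_cat u L w]; exact Subtype.ext_iff
        by_cases h3 : HT (ht u) L = H <;> by_cases h4 : low1 (endp 0 (cat L).1) <;>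
          by_cases h5 : dlp (cat L) w.1 = w'.1 <;> simp [h3, h4, h5, e]
      rw [h0, h, ENNReal.tsum_comm]
      calc _ ≤ ∑' γ : List (Step d), (if IsDn u H γ then NB28.aw ν γ else 0) * th1 := by
            refine ENNReal.tsum_le_tsum fun γ => ?_
            by_cases hγ : IsDn u H γ
            · rw [if_pos hγ]
              refine le_trans ?_ (mul_le_mul_right (d1 (w'.1 - w.1 - endp 0 γ)) _)
              rw [← ENNReal.tsum_mul_left]
              refine ENNReal.tsum_le_tsum fun π => ?_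
              by_cases h3 : IsUp u H π ∧ low1 (endp 0 π) ∧ endp 0 π = w'.1 - w.1 - endp 0 γ
              · rw [if_pos h3]
                split_ifs
                · rw [mul_comm]
                · exact zero_le
              · rw [if_neg h3, if_neg]
                · exact zero_le
                · rintro ⟨h4, -, h5, h6⟩
                  refine h3 ⟨h4, h5, ?_⟩
                  rw [← h6]; simp only [dlp]; abel
            · have : ∀ π : List (Step d), (if IsUp u H π ∧ IsDn u H γ ∧ low1 (endp 0 (π, γ).1) ∧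
                  dlp (π, γ) w.1 = w'.1 then NB28.aw ν π * NB28.aw ν γ else 0) = 0 := fun π => by
                rw [if_neg (fun h' => hγ h'.2.1)]
              simp [this]
        _ = (∑' γ : List (Step d), (if IsDn u H γ then NB28.aw ν γ else 0)) * th1 :=
            ENNReal.tsum_mul_right
        _ ≤ 1 * th1 := mul_le_mul_left (hdn1 H) _
        _ = th1 := one_mul _
  · refine ⟨{L | low2 (endp 0 (cat L).2)}, th2, ?_, ?_, hs2 s (le_max_right _ _) H E2 th2 a2⟩
    · have h := tsum_ev ν u H (fun x => low2 (endp 0 x.2))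
      have h2 := prod_ev ν (fun π => IsUp u H π) (fun γ => IsDn u H γ ∧ low2 (endp 0 γ))
      calc c * c * v = c * (c * v) := by ring
        _ ≤ _ := mul_le_mul' (hup H) c2
        _ = _ := h2.symm
        _ = _ := by
            refine Eq.trans ?_ h.symm
            refine tsum_congr fun π => tsum_congr fun γ => ?_
            by_cases h3 : IsUp u H π <;> by_cases h4 : IsDn u H γ <;>
              by_cases h5 : low2 (endp 0 γ) <;> simp [h3, h4, h5]
    · intro w w'
      have h := tsum_ev ν u H (fun x => low2 (endp 0 x.2) ∧ dlp x w.1 = w'.1)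
      have h0 : ∑' L : List (PB u), (if HT (ht u) L = H ∧ L ∈ {L | low2 (endp 0 (cat L).2)} ∧
          act (dl u) L w = w' then LW (Lam ν u) L else 0)
          = ∑' L : List (PB u), (if HT (ht u) L = H ∧ (low2 (endp 0 (cat L).2) ∧
            dlp (cat L) w.1 = w'.1) then LW (Lam ν u) L else 0) := by
        refine tsum_congr fun L => ?_
        have e : act (dl u) L w = w' ↔ dlp (cat L) w.1 = w'.1 := by
          rw [← act_cat u L w]; exact Subtype.ext_iff
        by_cases h3 : HT (ht u) L = H <;> by_cases h4 : low2 (endp 0 (cat L).2) <;>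
          by_cases h5 : dlp (cat L) w.1 = w'.1 <;> simp [h3, h4, h5, e]
      rw [h0, h]
      calc _ ≤ ∑' π : List (Step d), (if IsUp u H π then NB28.aw ν π else 0) * th2 := by
            refine ENNReal.tsum_le_tsum fun π => ?_
            by_cases hπ : IsUp u H π
            · rw [if_pos hπ]
              refine le_trans ?_ (mul_le_mul_right (d2 (w'.1 - w.1 - endp 0 π)) _)
              rw [← ENNReal.tsum_mul_left]
              refine ENNReal.tsum_le_tsum fun γ => ?_
              by_cases h3 : IsDn u H γ ∧ low2 (endp 0 γ) ∧ endp 0 γ = w'.1 - w.1 - endp 0 π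
              · rw [if_pos h3]
                split_ifs
                · exact le_rfl
                · exact zero_le
              · rw [if_neg h3, if_neg]
                · exact zero_le
                · rintro ⟨-, h4, h5, h6⟩
                  refine h3 ⟨h4, h5, ?_⟩
                  rw [← h6]; simp only [dlp]; abel
            · have : ∀ γ : List (Step d), (if IsUp u H π ∧ IsDn u H γ ∧ low2 (endp 0 (π, γ).2) ∧
                  dlp (π, γ) w.1 = w'.1 then NB28.aw ν π * NB28.aw ν γ else 0) = 0 := fun γ => by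
                rw [if_neg (fun h' => hπ h'.1)]
              simp [this]
        _ = (∑' π : List (Step d), (if IsUp u H π then NB28.aw ν π else 0)) * th2 :=
            ENNReal.tsum_mul_right
        _ ≤ 1 * th2 := mul_le_mul_left (hup1 H) _
        _ = th2 := one_mul _
  · intro w hw1 hw2
    have hx : XL ν u E1 s H w.1 ≤ δ := not_lt.1 hw1
    have hy : YL ν u E2 s H w.1 ≤ δ := not_lt.1 hw2
    have h := tsum_ev ν u H (fun x => (∃ k, k ∈ cds u x w.1) ∧ ∀ k ∈ cds u x w.1, s < k ∧ k + s ≤ H)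
    have h0 : Comp818.WLp (Lam ν u) (ht u) (dl u) (cd u) H s w
        = ∑' L : List (PB u), (if HT (ht u) L = H ∧ ((∃ k, k ∈ cds u (cat L) w.1) ∧
          ∀ k ∈ cds u (cat L) w.1, s < k ∧ k + s ≤ H) then LW (Lam ν u) L else 0) := by
      unfold Comp818.WLp
      refine tsum_congr fun L => ?_
      rw [CD_cat]
      refine if_congr ?_ rfl rfl
      rw [← Set.nonempty_iff_ne_empty]
      rfl
    rw [h0, h]
    have hnn := prod_ev ν (fun π => IsUp u H π ∧ endp 0 π ∉ E1) (fun γ => IsDn u H γ ∧ endp 0 γ ∉ E2)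
    calc _ ≤ ∑' π : List (Step d), ∑' γ : List (Step d),
          ((if IsUp u H π ∧ endp 0 π ∈ E1 ∧ IsDn u H γ ∧ (∃ k, k ∈ Cm u w.1 π γ) ∧
            (∀ k ∈ Cm u w.1 π γ, s < k ∧ k + s ≤ H) then NB28.aw ν π * NB28.aw ν γ else 0) +
          (if IsUp u H π ∧ IsDn u H γ ∧ endp 0 γ ∈ E2 ∧ (∃ k, k ∈ Cm u w.1 π γ) ∧
            (∀ k ∈ Cm u w.1 π γ, s < k ∧ k + s ≤ H) then NB28.aw ν π * NB28.aw ν γ else 0) +
          (if (IsUp u H π ∧ endp 0 π ∉ E1) ∧ (IsDn u H γ ∧ endp 0 γ ∉ E2) then
            NB28.aw ν π * NB28.aw ν γ else 0)) := by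
          refine ENNReal.tsum_le_tsum fun π => ENNReal.tsum_le_tsum fun γ => ?_
          rw [cds_eq]
          by_cases h1 : IsUp u H π ∧ IsDn u H γ ∧ (∃ k, k ∈ Cm u w.1 π γ) ∧
            ∀ k ∈ Cm u w.1 π γ, s < k ∧ k + s ≤ H
          · obtain ⟨h2, h3, h4, h5⟩ := h1
            rw [if_pos ⟨h2, h3, h4, h5⟩]
            by_cases h6 : endp 0 π ∈ E1
            · refine le_trans ?_ (le_trans (le_self_add) (le_self_add))
              rw [if_pos ⟨h2, h6, h3, h4, h5⟩]
            · by_cases h7 : endp 0 γ ∈ E2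
              · refine le_trans ?_ (le_trans (le_add_self) (le_self_add))
                rw [if_pos ⟨h2, h3, h7, h4, h5⟩]
              · refine le_trans ?_ le_add_self
                rw [if_pos ⟨⟨h2, h6⟩, ⟨h3, h7⟩⟩]
          · rw [if_neg h1]; exact zero_le
      _ = XL ν u E1 s H w.1 + YL ν u E2 s H w.1 +
          (∑' π : List (Step d), if IsUp u H π ∧ endp 0 π ∉ E1 then NB28.aw ν π else 0)
            * ∑' γ : List (Step d), (if IsDn u H γ ∧ endp 0 γ ∉ E2 then NB28.aw ν γ else 0) := by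
          rw [← hnn]
          simp only [ENNReal.tsum_add, XL, YL]
      _ ≤ δ + δ + v * v := add_le_add (add_le_add hx hy) (mul_le_mul' b1 b2)
      _ ≤ η + v * v := add_le_add hδη le_rfl
      _ = v * v + η := add_comm _ _

end Crest.Agent.R154.HW659
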