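import Crest.Agent.R154.NBDefs_28
import Crest.Agent.R154.Flux1_132

/-! Row 154, NBProp, ROAD 801 (helper660): the window inputs H3 / H2 in single-walker words
(28's `IsUp`, `IsDn`, `aw`; `π` hung at `0`, `ρ` started at `δ`) from the level-free window
lemmas. -/

set_option autoImplicit false

namespace Crest.Agent.R154.HW660

open MeasureTheory ProbabilityTheory Crest.ProbabilityR.RandomEnvironment Crest.Agent.R154
open Crest.Agent.R154.Flux132 (lev opp)
open Crest.Agent.R154.Flux566 (lw endp sitesL)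
open Crest.Agent.R154.NB28
open scoped ENNReal

variable {d : ℕ}

/-- words from `x` which stay in `S` and end in `T` -/
def FP (S T : Set (Site d)) (x : Site d) (l : List (Step d)) : Prop :=
  (∀ z ∈ sitesL x l, z ∈ S) ∧ endp x l ∈ T

/-- the first site of `π` (read from `x`) lying in `V` exists and lies in `A` -/
def FH (V : List (Site d)) (A : Set (Site d)) (x : Site d) (π : List (Step d)) : Prop :=
  ∃ (π1 : List (Step d)) (e : Step d) (π2 : List (Step d)), π = π1 ++ e :: π2 ∧
    (∀ z ∈ sitesL x π1, z ∉ V) ∧ endp x π1 ∈ V ∧ endp x π1 ∈ A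

lemma sitesL_append (l l' : List (Step d)) (x : Site d) :
    sitesL x (l ++ l') = sitesL x l ++ sitesL (endp x l) l' := by
  induction l generalizing x with
  | nil => rfl
  | cons e l ih =>
    simp only [List.cons_append, sitesL, endp]
    rw [ih]

lemma mem_sitesL_add (l : List (Step d)) (x z : Site d) (y : Site d) :
    y + z ∈ sitesL (x + z) l ↔ y ∈ sitesL x l := by
  induction l generalizing x with
  | nil => simp [sitesL]
  | cons e l ih =>
    simp only [sitesL, List.mem_cons]
    rw [show x + z + stepVec e = (x + stepVec e) + z by abel, ih, add_left_inj]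

lemma mem_sitesL_shift (l : List (Step d)) (x z : Site d) (y : Site d) :
    y ∈ sitesL (x + z) l ↔ y - z ∈ sitesL x l := by
  have := mem_sitesL_add l x z (y - z)
  rwa [sub_add_cancel] at this

/-- a word with a site in `V` has a first one -/
lemma exists_first (V : List (Site d)) (A : Set (Site d)) (l : List (Step d)) (x : Site d)
    (h : ∃ y ∈ sitesL x l, y ∈ V) (hA : ∀ y ∈ sitesL x l, y ∈ V → y ∈ A) : FH V A x l := by
  classical
  induction l generalizing x with
  | nil => obtain ⟨y, hy, _⟩ := h; simp [sitesL] at hy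
  | cons e l ih =>
    by_cases hx : x ∈ V
    · exact ⟨[], e, l, rfl, by simp [sitesL], hx, hA x (by simp [sitesL]) hx⟩
    · obtain ⟨y, hy, hyV⟩ := h
      simp only [sitesL, List.mem_cons] at hy
      have hy' : y ∈ sitesL (x + stepVec e) l := by
        rcases hy with rfl | hy
        · exact absurd hyV hx
        · exact hy
      obtain ⟨π1, e', π2, h1, h2, h3, h4⟩ := ih (x + stepVec e) ⟨y, hy', hyV⟩
        (fun y hy hV => hA y (by simp only [sitesL, List.mem_cons]; exact Or.inr hy) hV)
      refine ⟨e :: π1, e', π2, by rw [h1]; rfl, ?_, h3, h4⟩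
      intro z hz
      simp only [sitesL, List.mem_cons] at hz
      rcases hz with rfl | hz
      · exact hx
      · exact h2 z hz

open Classical in
/-- **(win3)**, level-free: event walker `ρ` from `x` (summed), runner `π` from `0`, weight on the
runner's landing. -/
def Win3 (ν : Measure (Row d)) [IsProbabilityMeasure ν] : Prop :=
  ∀ (Q A S' T' : Set (Site d)) (S T : Site d → Set (Site d)) (δ : Site d → Site d → ℝ≥0∞)
    (M N r lam : ℝ≥0∞),
    Disjoint S' T' → S' ⊆ Qᶜ → (∀ x, S x ⊆ Qᶜ) → (∀ x, T x ⊆ Q) → (∀ x z, δ x z ≤ M) →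
    (∀ z, ∑' x, δ x z ≤ 1) → (∀ z, ∑' x, (if z ∈ T x then (1 : ℝ≥0∞) else 0) ≤ N) →
    (∑' σ : List (Step d),
      (if FP Qᶜ Q 0 σ ∧ (∃ z ∈ sitesL 0 σ, z ∈ A) then aw ν σ else 0)) ≤ r →
    M ≠ 0 → M ≠ ⊤ → lam ≠ 0 → lam ≠ ⊤ →
    ∑' x : Site d, ∑' ρ : List (Step d), ∑' π : List (Step d),
      (if FP (S x) (T x) x ρ ∧ FP S' T' 0 π ∧ FH (sitesL x ρ) A 0 π
        then aw ν ρ * aw ν π * δ x (endp 0 π) else 0)
      ≤ 4 * lam + M / lam * N * r

/-- mass of the words which visit height `≥ s` and end at the first hit of level `-b` -/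
noncomputable def ret (ν : Measure (Row d)) [IsProbabilityMeasure ν] (u : Step d) (b s : ℕ) :
    ℝ≥0∞ := by
  classical
  exact ∑' σ : List (Step d), (if FP {y | lev u y ≤ -(b : ℤ)}ᶜ {y | lev u y ≤ -(b : ℤ)} 0 σ ∧
    (∃ z ∈ sitesL 0 σ, (s : ℤ) ≤ lev u z) then aw ν σ else 0)

/-- common sites of `π` hung at `0` and of `ρ` started at `δ` -/
def Ct (π ρ : List (Step d)) (δ : Site d) : Set (Site d) :=
  {y | y ∈ sitesL (-endp 0 π) π ∧ y ∈ sitesL δ ρ}

lemma lev_add' (u : Step d) (x y : Site d) : lev u (x + y) = lev u x + lev u y :=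
  Flux132.lev_add u x y

lemma lev_zero' (u : Step d) : lev u (0 : Site d) = 0 := Flux132.lev_zero u

lemma lev_neg' (u : Step d) (x : Site d) : lev u (-x) = -lev u x := by
  have := lev_add' u x (-x)
  rw [add_neg_cancel, lev_zero'] at this
  omega

/-- the common sites in the frame of the start of `π` -/
lemma mem_Ct (π ρ : List (Step d)) (δ y : Site d) :
    y ∈ Ct π ρ δ ↔ y + endp 0 π ∈ sitesL 0 π ∧ y + endp 0 π ∈ sitesL (endp 0 π + δ) ρ := by
  have h1 : y ∈ sitesL (-endp 0 π) π ↔ y + endp 0 π ∈ sitesL 0 π := by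
    have := mem_sitesL_add π (-endp 0 π) (endp 0 π) y
    rw [neg_add_cancel] at this
    exact this.symm
  have h2 : y ∈ sitesL δ ρ ↔ y + endp 0 π ∈ sitesL (endp 0 π + δ) ρ := by
    have := mem_sitesL_add ρ δ (endp 0 π) y
    rw [add_comm δ] at this
    exact this.symm
  exact and_congr h1 h2

lemma tsum_shift (f : Site d → ℝ≥0∞) (z : Site d) :
    ∑' δ, f δ = ∑' x, f (x - z) :=
  ((Equiv.subRight z).tsum_eq f).symm

open Classical in
/-- **H3 in words**: the down word `ρ` is local (displacement in `E`), the up word `π` is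
anything; the start of `π` lies strictly above the end of `ρ`, all common sites are at least `s`
levels above the start of `π`. `δ` = start of `ρ` seen from the top of `π`, at level `-g`. -/
theorem H3W (ν : Measure (Row d)) [IsProbabilityMeasure ν] (u : Step d) (hW : Win3 ν)
    (s h h' : ℕ) (g b : ℕ) (hg : h + b = g + h') (hb : 1 ≤ b)
    (E : Finset (Site d)) (μ : Site d → ℝ≥0∞) (M lam : ℝ≥0∞) (hμ : ∑' x, μ x ≤ 1)
    (hM : ∀ x, μ x ≤ M) (hM0 : M ≠ 0) (hMt : M ≠ ⊤) (hl : lam ≠ 0) (hlt : lam ≠ ⊤) :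
    ∑' δ : Site d, μ δ * ∑' π : List (Step d), ∑' ρ : List (Step d),
      (if lev u δ = -(g : ℤ) ∧ IsUp u h π ∧ IsDn u h' ρ ∧ endp 0 ρ ∈ E ∧
          (∃ y, y ∈ Ct π ρ δ) ∧ (∀ y ∈ Ct π ρ δ, (s : ℤ) ≤ lev u y + h)
        then aw ν π * aw ν ρ else 0)
      ≤ 4 * lam + M / lam * E.card * ret ν u b s := by
  classical
  set Q : Set (Site d) := {y | lev u y ≤ -(b : ℤ)} with hQ
  set A : Set (Site d) := {y | (s : ℤ) ≤ lev u y} with hA
  set S' : Set (Site d) := {y | 0 ≤ lev u y ∧ lev u y < h} with hS'
  set T' : Set (Site d) := {y | lev u y = h} with hT'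
  set S : Site d → Set (Site d) := fun x => {y | -(b : ℤ) < lev u y ∧ lev u x = h - g} with hS
  set T : Site d → Set (Site d) := fun x => {y | lev u y = -(b : ℤ) ∧ y - x ∈ E} with hT
  have key := hW Q A S' T' S T (fun x z => μ (x - z)) M E.card (ret ν u b s) lam
    (by
      rw [Set.disjoint_left]
      intro y hy hy'
      simp only [hS', hT', Set.mem_ofPred_eq] at hy hy'
      omega)
    (by
      intro y hy hyQ
      simp only [hS', hQ, Set.mem_ofPred_eq] at hy hyQ
      omega)
    (by
      intro x y hy hyQ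
      simp only [hS, hQ, Set.mem_ofPred_eq] at hy hyQ
      omega)
    (by
      intro x y hy
      simp only [hT, hQ, Set.mem_ofPred_eq] at hy ⊢
      omega)
    (fun x z => hM _)
    (by
      intro z
      rw [← tsum_shift μ z]
      exact hμ)
    (by
      intro z
      refine le_trans (ENNReal.tsum_le_tsum
        (g := fun x : Site d => if z - x ∈ E then (1 : ℝ≥0∞) else 0) fun x => ?_) ?_
      · by_cases hx : z ∈ T x
        · rw [if_pos hx, if_pos hx.2]
        · rw [if_neg hx]; exact zero_le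
      have h2 : ∑' x : Site d, (if z - x ∈ E then (1 : ℝ≥0∞) else 0)
          = ∑' x : Site d, (if x ∈ E then (1 : ℝ≥0∞) else 0) :=
        (Equiv.subLeft z).tsum_eq (fun x : Site d => if x ∈ E then (1 : ℝ≥0∞) else 0)
      rw [h2, tsum_eq_sum (s := E) (fun x hx => if_neg hx), Finset.sum_congr rfl
        (fun x hx => if_pos hx)]
      simp)
    (by
      unfold ret
      refine ENNReal.tsum_le_tsum fun σ => ?_
      by_cases hc : FP Qᶜ Q 0 σ ∧ ∃ z ∈ sitesL 0 σ, z ∈ A
      · rw [if_pos hc, if_pos (by exact hc)]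
      · rw [if_neg hc]; exact zero_le)
    hM0 hMt hl hlt
  refine le_trans ?_ key
  calc ∑' δ : Site d, μ δ * ∑' π : List (Step d), ∑' ρ : List (Step d),
      (if lev u δ = -(g : ℤ) ∧ IsUp u h π ∧ IsDn u h' ρ ∧ endp 0 ρ ∈ E ∧
          (∃ y, y ∈ Ct π ρ δ) ∧ (∀ y ∈ Ct π ρ δ, (s : ℤ) ≤ lev u y + h)
        then aw ν π * aw ν ρ else 0)
      = ∑' π : List (Step d), ∑' δ : Site d, ∑' ρ : List (Step d), μ δ *
      (if lev u δ = -(g : ℤ) ∧ IsUp u h π ∧ IsDn u h' ρ ∧ endp 0 ρ ∈ E ∧
          (∃ y, y ∈ Ct π ρ δ) ∧ (∀ y ∈ Ct π ρ δ, (s : ℤ) ≤ lev u y + h)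
        then aw ν π * aw ν ρ else 0) := by
        rw [ENNReal.tsum_comm]
        refine tsum_congr fun δ => ?_
        rw [← ENNReal.tsum_mul_left]
        exact tsum_congr fun π => ENNReal.tsum_mul_left.symm
    _ ≤ ∑' π : List (Step d), ∑' x : Site d, ∑' ρ : List (Step d),
        (if FP (S x) (T x) x ρ ∧ FP S' T' 0 π ∧ FH (sitesL x ρ) A 0 π
        then aw ν ρ * aw ν π * μ (x - endp 0 π) else 0) := by
        refine ENNReal.tsum_le_tsum fun π => ?_
        rw [tsum_shift _ (endp 0 π)]
        refine ENNReal.tsum_le_tsum fun x => ENNReal.tsum_le_tsum fun ρ => ?_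
        by_cases hc : lev u (x - endp 0 π) = -(g : ℤ) ∧ IsUp u h π ∧ IsDn u h' ρ ∧
            endp 0 ρ ∈ E ∧ (∃ y, y ∈ Ct π ρ (x - endp 0 π)) ∧
            (∀ y ∈ Ct π ρ (x - endp 0 π), (s : ℤ) ≤ lev u y + h)
        · rw [if_pos hc]
          obtain ⟨hlx, hup, hdn, hE, hne, hall⟩ := hc
          have hlx' : lev u x = h - g := by
            have h1 := lev_add' u (x - endp 0 π) (endp 0 π)
            rw [sub_add_cancel, hlx, hup.2] at h1
            rw [h1]; ring
          have hendρ : endp x ρ = x + endp 0 ρ := Flux566.endp_eq_add ρ x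
          have hxx : endp 0 π + (x - endp 0 π) = x := by abel
          have hFρ : FP (S x) (T x) x ρ := by
            refine ⟨fun z hz => ?_, ?_⟩
            · have hz' : z - x ∈ sitesL 0 ρ := by
                have := mem_sitesL_shift ρ 0 x z
                rw [zero_add] at this
                exact this.1 hz
              have h1 := hdn.1 _ hz'
              have h2 := lev_add' u (z - x) x
              rw [sub_add_cancel] at h2
              simp only [hS, Set.mem_ofPred_eq]
              refine ⟨?_, hlx'⟩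
              omega
            · simp only [hT, Set.mem_ofPred_eq]
              rw [hendρ]
              refine ⟨?_, by simpa using hE⟩
              rw [lev_add', hlx', hdn.2]
              omega
          have hFπ : FP S' T' 0 π := ⟨fun z hz => hup.1 z hz, hup.2⟩
          have hFH : FH (sitesL x ρ) A 0 π := by
            apply exists_first
            · obtain ⟨y, hy⟩ := hne
              rw [mem_Ct, hxx] at hy
              exact ⟨_, hy.1, hy.2⟩
            · intro y hy hyV
              have hm : y - endp 0 π ∈ Ct π ρ (x - endp 0 π) := by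
                rw [mem_Ct, hxx, sub_add_cancel]
                exact ⟨hy, hyV⟩
              have h1 := hall _ hm
              have h2 := lev_add' u (y - endp 0 π) (endp 0 π)
              rw [sub_add_cancel, hup.2] at h2
              simp only [hA, Set.mem_ofPred_eq]
              omega
          rw [if_pos ⟨hFρ, hFπ, hFH⟩]
          apply le_of_eq
          ring
        · rw [if_neg hc, mul_zero]; exact zero_le
    _ = _ := by
        rw [ENNReal.tsum_comm]
        exact tsum_congr fun x => ENNReal.tsum_comm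

end Crest.Agent.R154.HW660
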