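import Crest.Agent.R154.B5Br_657
import Crest.Agent.R154.JHit_139
import Crest.Agent.R154.AsmA_789

/-! Row 154, ROAD 801, joint-cut assembly (139 #40703): the input `hW` from the window lemmas E2 / E3
in words at the exact frame (912 #40669), helper725. -/

set_option autoImplicit false

namespace Crest.Agent.R154.HW725

open MeasureTheory ProbabilityTheory Crest.ProbabilityR.RandomEnvironment Crest.Agent.R154
open Crest.Agent.R154.Flux132 (lev opp)
open Crest.Agent.R154.Flux566 (lw endp sitesL)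
open Crest.Agent.R154.NB28 (IsUp IsDn Cm)
open Crest.Agent.R154.B5A Crest.Agent.R154.B5W
open Crest.Agent.R154.JAsm139 (Good card)
open scoped ENNReal

/-! ### abstract lemmas -/

open Classical in
lemma quantG {ι : Type*} (p : ι → ℝ≥0∞) (hp : ∑' i, p i ≤ 1) {v : ℝ≥0∞} (hv : v ≠ 0)
    (hv1 : v ≤ ∑' i, p i) : ∃ θ : ℝ≥0∞, θ ≠ 0 ∧ θ ≤ 1 ∧ (∑' i, if p i < θ then p i else 0) ≤ v ∧
      v ≤ (∑' i, if p i < 2 * θ then p i else 0) := by
  have hex := AsmA789.exists_small p hp hv
  set P : ℕ → Prop := fun q => (∑' i, if p i < (2 : ℝ≥0∞)⁻¹ ^ q then p i else 0) ≤ v with hP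
  have hex' : ∃ q, P q := hex
  have hq := Nat.find_spec hex'
  refine ⟨(2 : ℝ≥0∞)⁻¹ ^ Nat.find hex', ?_, ?_, hq, ?_⟩
  · exact pow_ne_zero _ (by simp)
  · exact pow_le_one' (by simp) _
  · rcases Nat.eq_zero_or_pos (Nat.find hex') with h0 | hpos
    · rw [h0, pow_zero, mul_one]
      have : ∀ i, p i < 2 := by
        intro i
        calc p i ≤ ∑' i, p i := ENNReal.le_tsum i
          _ ≤ 1 := hp
          _ < 2 := by norm_num
      simp only [this, if_true]
      exact hv1
    · obtain ⟨r, hr⟩ := Nat.exists_eq_succ_of_ne_zero hpos.ne'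
      have hnot : ¬ P r := Nat.find_min hex' (by omega)
      have e : 2 * (2 : ℝ≥0∞)⁻¹ ^ Nat.find hex' = (2 : ℝ≥0∞)⁻¹ ^ r := by
        rw [hr, Nat.succ_eq_add_one, pow_succ, mul_comm ((2 : ℝ≥0∞)⁻¹ ^ r), ← mul_assoc,
          ENNReal.mul_inv_cancel (by norm_num) (by norm_num), one_mul]
      rw [e]
      exact (not_le.1 hnot).le

open Classical in
/-- counting form of a window lemma -/
lemma count {W : Type*} (Φ : W → ℝ≥0∞) (A N θ : ℝ≥0∞) (hA : A ≤ θ / 2) (hθ : θ ≠ ⊤)
    (h : ∀ (μ : W → ℝ≥0∞) (M : ℝ≥0∞), ∑' w, μ w ≤ 1 → (∀ w, μ w ≤ M) →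
      ∑' w, μ w * Φ w ≤ A + M * N) :
    card {w | θ < Φ w} * (θ / 2) ≤ N := by
  unfold card
  rw [ENNReal.tsum_eq_iSup_sum, ENNReal.iSup_mul]
  refine iSup_le fun T => ?_
  set T' := T.filter (fun w => w ∈ {w | θ < Φ w}) with hT'
  have e1 : ∑ w ∈ T, Set.indicator {w | θ < Φ w} (fun _ => (1 : ℝ≥0∞)) w = (T'.card : ℝ≥0∞) := by
    rw [hT', Finset.card_filter]
    push_cast
    refine Finset.sum_congr rfl fun w _ => ?_
    rw [Set.indicator_apply]
  rw [e1]
  rcases Nat.eq_zero_or_pos T'.card with h0 | hpos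
  · rw [h0]; simp
  have hn0 : (T'.card : ℝ≥0∞) ≠ 0 := by exact_mod_cast hpos.ne'
  have hnt : (T'.card : ℝ≥0∞) ≠ ⊤ := ENNReal.natCast_ne_top _
  have hs : ∀ f : W → ℝ≥0∞, ∑' w, (if w ∈ T' then f w else 0) = ∑ w ∈ T', f w := by
    intro f
    rw [tsum_eq_sum (s := T') (fun w hw => if_neg hw)]
    exact Finset.sum_congr rfl fun w hw => if_pos hw
  have h1 := h (fun w => if w ∈ T' then (T'.card : ℝ≥0∞)⁻¹ else 0) (T'.card : ℝ≥0∞)⁻¹ (by
    rw [hs]
    rw [Finset.sum_const, nsmul_eq_mul, ENNReal.mul_inv_cancel hn0 hnt]) (by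
    intro w
    split_ifs
    · exact le_rfl
    · exact zero_le)
  have h2 : θ ≤ ∑' w, (if w ∈ T' then (T'.card : ℝ≥0∞)⁻¹ else 0) * Φ w := by
    have : ∀ w, (if w ∈ T' then (T'.card : ℝ≥0∞)⁻¹ else 0) * Φ w
        = if w ∈ T' then (T'.card : ℝ≥0∞)⁻¹ * Φ w else 0 := by
      intro w; split_ifs <;> simp
    rw [tsum_congr this, hs]
    calc θ = ∑ _w ∈ T', (T'.card : ℝ≥0∞)⁻¹ * θ := by
          rw [Finset.sum_const, nsmul_eq_mul, ← mul_assoc, ENNReal.mul_inv_cancel hn0 hnt, one_mul]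
      _ ≤ _ := by
          refine Finset.sum_le_sum fun w hw => ?_
          refine mul_le_mul_right ?_ _
          have : w ∈ {w | θ < Φ w} := (Finset.mem_filter.1 hw).2
          exact le_of_lt this
  have h3 : θ / 2 + θ / 2 ≤ θ / 2 + (T'.card : ℝ≥0∞)⁻¹ * N := by
    rw [ENNReal.add_halves]
    exact h2.trans (h1.trans (add_le_add_left hA _))
  have hθ2 : θ / 2 ≠ ⊤ := ENNReal.div_ne_top hθ (by norm_num)
  have h4 : θ / 2 ≤ (T'.card : ℝ≥0∞)⁻¹ * N := (ENNReal.add_le_add_iff_left hθ2).1 h3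
  calc (T'.card : ℝ≥0∞) * (θ / 2) ≤ (T'.card : ℝ≥0∞) * ((T'.card : ℝ≥0∞)⁻¹ * N) :=
        mul_le_mul_right h4 _
    _ = N := by rw [← mul_assoc, ENNReal.mul_inv_cancel hn0 hnt, one_mul]

section Law

variable {d : ℕ}

open Classical in
/-- law of the end point -/
noncomputable def law (a : List (Step d) → ℝ≥0∞) (z : Site d) : ℝ≥0∞ :=
  ∑' π : List (Step d), if endp 0 π = z then a π else 0

open Classical in
lemma law_push (a : List (Step d) → ℝ≥0∞) (P : Site d → Prop) :
    ∑' π : List (Step d), (if P (endp 0 π) then a π else 0)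
      = ∑' z, if P z then law a z else 0 := by
  have h : ∀ z, (if P z then law a z else 0)
      = ∑' π : List (Step d), if endp 0 π = z then (if P (endp 0 π) then a π else 0) else 0 := by
    intro z
    by_cases hz : P z
    · rw [if_pos hz, law]
      refine tsum_congr fun π => ?_
      by_cases h : endp 0 π = z
      · rw [if_pos h, if_pos h, h, if_pos hz]
      · rw [if_neg h, if_neg h]
    · rw [if_neg hz]
      symm
      rw [ENNReal.tsum_eq_zero]
      intro π
      by_cases h : endp 0 π = z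
      · rw [if_pos h, h, if_neg hz]
      · rw [if_neg h]
  rw [tsum_congr h, ENNReal.tsum_comm]
  refine tsum_congr fun π => ?_
  rw [tsum_eq_single (endp 0 π) (fun z hz => if_neg (Ne.symm hz)), if_pos rfl]

open Classical in
lemma law_sum (a : List (Step d) → ℝ≥0∞) : ∑' z, law a z = ∑' π, a π := by
  have := law_push a (fun _ => True)
  simpa using this.symm

open Classical in
/-- low pieces of the first factor have mass `≥`, product form -/
lemma mass_low (a b : List (Step d) → ℝ≥0∞) (τ : ℝ≥0∞) :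
    ∑' π : List (Step d), ∑' γ : List (Step d),
        (if law a (endp 0 π) < τ then a π * b γ else 0)
      = (∑' z, if law a z < τ then law a z else 0) * ∑' γ, b γ := by
  have hp : (∑' z, if law a z < τ then law a z else 0)
      = ∑' π : List (Step d), if law a (endp 0 π) < τ then a π else 0 := by
    refine Eq.trans ?_ ((law_push a (fun z => law a z < τ)).symm.trans ?_)
    · exact tsum_congr fun z => by by_cases h : law a z < τ <;> simp [h]
    · exact tsum_congr fun π => by by_cases h : law a (endp 0 π) < τ <;> simp [h]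
  rw [hp, ← ENNReal.tsum_mul_right]
  refine tsum_congr fun π => ?_
  by_cases h : law a (endp 0 π) < τ
  · simp only [if_pos h]
    rw [ENNReal.tsum_mul_left]
  · simp [h]

open Classical in
/-- the density of the low pieces -/
lemma dens_low (a b : List (Step d) → ℝ≥0∞) (hb : ∑' γ, b γ ≤ 1) (τ : ℝ≥0∞) (w : Site d) :
    ∑' π : List (Step d), ∑' γ : List (Step d),
        (if law a (endp 0 π) < τ ∧ endp 0 π + endp 0 γ = w then a π * b γ else 0) ≤ τ := by
  rw [ENNReal.tsum_comm]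
  calc _ ≤ ∑' γ : List (Step d), b γ * τ := by
        refine ENNReal.tsum_le_tsum fun γ => ?_
        have h : ∀ π : List (Step d),
            (if law a (endp 0 π) < τ ∧ endp 0 π + endp 0 γ = w then a π * b γ else 0)
            = b γ * (if endp 0 π = w - endp 0 γ then
                (if law a (w - endp 0 γ) < τ then a π else 0) else 0) := by
          intro π
          by_cases h1 : endp 0 π + endp 0 γ = w
          · have h2 : endp 0 π = w - endp 0 γ := by rw [← h1]; abel
            rw [if_pos h2, h2]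
            by_cases h3 : law a (w - endp 0 γ) < τ
            · rw [if_pos ⟨h3, by abel⟩, if_pos h3, mul_comm]
            · rw [if_neg (fun h => h3 h.1), if_neg h3, mul_zero]
          · have h2 : ¬ endp 0 π = w - endp 0 γ := by
              intro h; apply h1; rw [h]; abel
            rw [if_neg (fun h => h1 h.2), if_neg h2, mul_zero]
        rw [tsum_congr h, ENNReal.tsum_mul_left]
        refine mul_le_mul_right ?_ _
        by_cases h3 : law a (w - endp 0 γ) < τ
        · simp only [h3, if_true]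
          exact h3.le
        · simp only [h3, if_false, ite_self, tsum_zero]
          exact zero_le
    _ = (∑' γ : List (Step d), b γ) * τ := ENNReal.tsum_mul_right
    _ ≤ 1 * τ := mul_le_mul_left hb _
    _ = τ := one_mul _

end Law

/-! ### words -/

variable {d : ℕ} (ν : Measure (Row d)) [IsProbabilityMeasure ν] (u : Step d)

open Classical in
/-- E2 of 912 #40669: the up walker is local -/
def E2 (us : ℕ → ℝ≥0∞) (C : ℝ≥0∞) : Prop :=
  ∀ (s H : ℕ) (E : Finset (Site d)) (μ : Site d → ℝ≥0∞) (M lam : ℝ≥0∞),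
    ∑' x, μ x ≤ 1 → (∀ x, μ x ≤ M) → lam ≠ 0 → lam ≠ ⊤ →
    ∑' x, (if lev u x = 0 then μ x * ∑' π, ∑' γ, (if IsUp u H π ∧ endp 0 π ∈ E ∧ IsDn u H γ ∧
      (∃ k, k ∈ Cm u x π γ) ∧ (∀ k ∈ Cm u x π γ, s < k) then NB28.aw ν π * NB28.aw ν γ else 0)
      else 0) ≤ C * (lam + M * E.card * us s / lam + us s)

open Classical in
/-- E3 of 912 #40669: the down walker is local -/
def E3 (us : ℕ → ℝ≥0∞) (C : ℝ≥0∞) : Prop :=
  ∀ (s H : ℕ) (E : Finset (Site d)) (μ : Site d → ℝ≥0∞) (M lam : ℝ≥0∞),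
    ∑' x, μ x ≤ 1 → (∀ x, μ x ≤ M) → lam ≠ 0 → lam ≠ ⊤ →
    ∑' x, (if lev u x = 0 then μ x * ∑' π, ∑' γ, (if IsUp u H π ∧ endp 0 γ ∈ E ∧ IsDn u H γ ∧
      (∃ k, k ∈ Cm u x π γ) ∧ (∀ k ∈ Cm u x π γ, k + s ≤ H) then NB28.aw ν π * NB28.aw ν γ else 0)
      else 0) ≤ C * (lam + M * E.card * us s / lam + us s)

open Classical in
/-- weight of an up crossing -/
noncomputable def aU (H : ℕ) (π : List (Step d)) : ℝ≥0∞ := if IsUp u H π then NB28.aw ν π else 0

open Classical in
/-- weight of a down crossing -/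
noncomputable def aD (H : ℕ) (γ : List (Step d)) : ℝ≥0∞ := if IsDn u H γ then NB28.aw ν γ else 0

open Classical in
lemma tsum_L' (H : ℕ) (P : List (Step d) × List (Step d) → Prop) :
    ∑' L : List (PB u), (if HT (ht u) L = H ∧ P (cat L) then LW (Lam ν u) L else 0)
      = ∑' π : List (Step d), ∑' γ : List (Step d),
        if P (π, γ) then aU ν u H π * aD ν u H γ else 0 := by
  have h := tsum_L ν u H (fun x => if P x then 1 else 0)
  refine Eq.trans ?_ (h.trans ?_)
  · refine tsum_congr fun L => ?_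
    by_cases h1 : HT (ht u) L = H <;> by_cases h2 : P (cat L) <;> simp [h1, h2]
  · refine tsum_congr fun π => tsum_congr fun γ => ?_
    unfold aU aD
    by_cases h1 : IsUp u H π <;> by_cases h2 : IsDn u H γ <;> by_cases h3 : P (π, γ) <;>
      simp [h1, h2, h3]

lemma act_cat (L : List (PB u)) (w : Lat u) :
    (act (dl u) L w).1 = w.1 + endp 0 (cat L).1 + endp 0 (cat L).2 := by
  induction L generalizing w with
  | nil => simp [act, cat, endp]
  | cons b L ih =>
    rw [act, ih]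
    have e1 : (cat (b :: L)).1 = (cat L).1 ++ b.1.1 := rfl
    have e2 : (cat (b :: L)).2 = b.1.2 ++ (cat L).2 := rfl
    rw [e1, e2, Flux566.endp_append, Flux566.endp_append, Flux566.endp_eq_add b.1.1
      (endp 0 (cat L).1), Flux566.endp_eq_add (cat L).2 (endp 0 b.1.2)]
    show w.1 + endp 0 b.1.1 + endp 0 b.1.2 + endp 0 (cat L).1 + endp 0 (cat L).2 = _
    abel

open Classical in
/-- local part, up walker -/
noncomputable def PhX (s H : ℕ) (E : Finset (Site d)) (x : Site d) : ℝ≥0∞ :=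
  ∑' π, ∑' γ, (if IsUp u H π ∧ endp 0 π ∈ E ∧ IsDn u H γ ∧
      (∃ k, k ∈ Cm u x π γ) ∧ (∀ k ∈ Cm u x π γ, s < k) then NB28.aw ν π * NB28.aw ν γ else 0)

open Classical in
/-- local part, down walker -/
noncomputable def PhY (s H : ℕ) (E : Finset (Site d)) (x : Site d) : ℝ≥0∞ :=
  ∑' π, ∑' γ, (if IsUp u H π ∧ endp 0 γ ∈ E ∧ IsDn u H γ ∧
      (∃ k, k ∈ Cm u x π γ) ∧ (∀ k ∈ Cm u x π γ, k + s ≤ H) then NB28.aw ν π * NB28.aw ν γ else 0)

open Classical in
lemma lat_sum (Φ : Site d → ℝ≥0∞) (μ : Lat u → ℝ≥0∞) :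
    ∑' x : Site d, (if lev u x = 0 then (if h : lev u x = 0 then μ ⟨x, h⟩ else 0) * Φ x else 0)
      = ∑' w : Lat u, μ w * Φ w.1 := by
  have h := tsum_subtype {x : Site d | lev u x = 0}
    (fun x => (if h : lev u x = 0 then μ ⟨x, h⟩ else 0) * Φ x)
  refine Eq.trans ?_ (h.symm.trans ?_)
  · refine tsum_congr fun x => ?_
    rw [Set.indicator_apply]
    rfl
  · refine tsum_congr fun w => ?_
    have : lev u w.1 = 0 := w.2
    rw [dif_pos this]
    rfl

open Classical in
lemma lat_sum1 (μ : Lat u → ℝ≥0∞) :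
    ∑' x : Site d, (if h : lev u x = 0 then μ ⟨x, h⟩ else 0) = ∑' w : Lat u, μ w := by
  have h := lat_sum u (fun _ => 1) μ
  simp only [mul_one] at h
  rw [← h]
  refine tsum_congr fun x => ?_
  by_cases hx : lev u x = 0 <;> simp [hx]

open Classical in
/-- counting form, either window lemma -/
lemma countW (Ph : Site d → ℝ≥0∞) (C lam us c1 θ : ℝ≥0∞)
    (hθ : θ ≠ ⊤) (hA : C * (lam + us) ≤ θ / 2)
    (h : ∀ (μ : Site d → ℝ≥0∞) (M : ℝ≥0∞), ∑' x, μ x ≤ 1 → (∀ x, μ x ≤ M) →
      ∑' x, (if lev u x = 0 then μ x * Ph x else 0) ≤ C * (lam + M * c1 * us / lam + us)) :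
    card {w : Lat u | θ < Ph w.1} * (θ / 2) ≤ C * (c1 * us / lam) := by
  refine count (fun w : Lat u => Ph w.1) (C * (lam + us)) (C * (c1 * us / lam)) θ hA hθ ?_
  intro μ M h1 h2
  have := h (fun x => if h : lev u x = 0 then μ ⟨x, h⟩ else 0) M (by rw [lat_sum1]; exact h1)
    (by intro x; split_ifs; exacts [h2 _, zero_le])
  rw [lat_sum] at this
  refine this.trans (le_of_eq ?_)
  rw [div_eq_mul_inv, div_eq_mul_inv]
  ring

lemma num1 {C η lam us : ℝ≥0∞} (hC : C ≠ ⊤) (hη0 : η ≠ 0) (hηt : η ≠ ⊤)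
    (hlam : lam = η / (8 * (C + 1))) (hus : us ≤ lam) : C * (lam + us) ≤ η / 2 / 2 := by
  have h8 : (8 : ℝ≥0∞) * (C + 1) ≠ 0 := by
    simp
  have h8t : (8 : ℝ≥0∞) * (C + 1) ≠ ⊤ := by
    refine ENNReal.mul_ne_top (by norm_num) ?_
    exact ENNReal.add_ne_top.2 ⟨hC, by norm_num⟩
  have h1 : (C + 1) * lam = η / 8 := by
    rw [hlam, div_eq_mul_inv, div_eq_mul_inv, ENNReal.mul_inv (Or.inl (by norm_num))
      (Or.inl (by norm_num))]
    have : (C + 1) * (C + 1)⁻¹ = 1 := ENNReal.mul_inv_cancel (by simp)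
      (ENNReal.add_ne_top.2 ⟨hC, by norm_num⟩)
    calc (C + 1) * (η * (8⁻¹ * (C + 1)⁻¹)) = ((C + 1) * (C + 1)⁻¹) * (η * 8⁻¹) := by ring
      _ = _ := by rw [this, one_mul]
  calc C * (lam + us) ≤ (C + 1) * (lam + lam) :=
        mul_le_mul' le_self_add (add_le_add le_rfl hus)
    _ = (C + 1) * lam + (C + 1) * lam := by ring
    _ = η / 8 + η / 8 := by rw [h1]
    _ = η / 2 / 2 := by
        rw [div_eq_mul_inv, div_eq_mul_inv, div_eq_mul_inv, ← mul_add, mul_assoc]
        congr 1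
        have e8 : (8 : ℝ≥0∞)⁻¹ = 2⁻¹ * (2⁻¹ * 2⁻¹) := by
          rw [← ENNReal.mul_inv (Or.inl (by norm_num)) (Or.inl (by norm_num)),
            ← ENNReal.mul_inv (Or.inl (by norm_num)) (Or.inl (by norm_num))]
          norm_num
        rw [e8, ← add_mul, ENNReal.inv_two_add_inv_two, one_mul]

lemma num2 {C η lam us th n K : ℝ≥0∞} (hC : C ≠ ⊤) (hη0 : η ≠ 0) (hηt : η ≠ ⊤)
    (hl0 : lam ≠ 0) (hlt : lam ≠ ⊤) (hus : us ≤ lam * (η * (η / 2 / 2)) / (2 * (C + 1)))
    (hn : n * th ≤ 1) (hK : K * (η / 2 / 2) ≤ C * (n * us / lam)) : 2 * th * K ≤ η := by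
  have hq0 : η / 2 / 2 ≠ 0 := by
    simp [ENNReal.div_eq_zero_iff, hη0]
  have hqt : η / 2 / 2 ≠ ⊤ := ENNReal.div_ne_top (ENNReal.div_ne_top hηt (by norm_num))
    (by norm_num)
  have hc0 : (2 : ℝ≥0∞) * (C + 1) ≠ 0 := by simp
  have hct : (2 : ℝ≥0∞) * (C + 1) ≠ ⊤ :=
    ENNReal.mul_ne_top (by norm_num) (ENNReal.add_ne_top.2 ⟨hC, by norm_num⟩)
  refine (ENNReal.mul_le_mul_iff_left hq0 hqt).1 ?_
  calc 2 * th * K * (η / 2 / 2) = 2 * th * (K * (η / 2 / 2)) := by ring
    _ ≤ 2 * th * (C * (n * us / lam)) := mul_le_mul_right hK _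
    _ = (n * th) * (2 * C * (us / lam)) := by
        rw [div_eq_mul_inv, div_eq_mul_inv]; ring
    _ ≤ 1 * (2 * C * (us / lam)) := mul_le_mul_left hn _
    _ ≤ 2 * (C + 1) * (us / lam) := by
        rw [one_mul]
        exact mul_le_mul_left (mul_le_mul_right le_self_add _) _
    _ ≤ 2 * (C + 1) * ((lam * (η * (η / 2 / 2)) / (2 * (C + 1))) / lam) :=
        mul_le_mul_right (ENNReal.div_le_div_right hus _) _
    _ = ((2 * (C + 1)) * (2 * (C + 1))⁻¹) * ((lam * lam⁻¹) * (η * (η / 2 / 2))) := by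
        simp only [div_eq_mul_inv]; ring
    _ = η * (η / 2 / 2) := by
        rw [ENNReal.mul_inv_cancel hc0 hct, ENNReal.mul_inv_cancel hl0 hlt, one_mul, one_mul]

open Classical in
lemma law_out (a : List (Step d) → ℝ≥0∞) (E : Finset (Site d)) (th : ℝ≥0∞)
    (hE : ∀ z, z ∈ E ↔ th ≤ law a z) :
    ∑' π : List (Step d), (if endp 0 π ∈ E then 0 else a π)
      = ∑' z, if law a z < th then law a z else 0 := by
  have h := law_push a (fun z => ¬ z ∈ E)
  refine Eq.trans ?_ (h.trans ?_)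
  · exact tsum_congr fun π => by by_cases h : endp 0 π ∈ E <;> simp [h]
  · refine tsum_congr fun z => ?_
    by_cases hz : z ∈ E
    · have := (hE z).1 hz
      rw [if_neg (not_not.2 hz), if_neg (not_lt.2 this)]
    · have : law a z < th := not_le.1 fun h' => hz ((hE z).2 h')
      rw [if_pos hz, if_pos this]

open Classical in
/-- **the input `hW` of 139's joint-cut assembly** -/
theorem hW_of {us : ℕ → ℝ≥0∞} {C c : ℝ≥0∞} (hC : C ≠ ⊤)
    (hus : ∀ δ : ℝ≥0∞, δ ≠ 0 → ∃ s, us s ≤ δ)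
    (h2 : E2 ν u us C) (h3 : E3 ν u us C) (hc : c ≠ 0)
    (hA : ∀ n, c ≤ ∑' l, if IsUp u n l then NB28.aw ν l else 0)
    (hB : ∀ n, c ≤ ∑' l, if IsDn u n l then NB28.aw ν l else 0)
    (hA1 : ∀ n, (∑' l, if IsUp u n l then NB28.aw ν l else 0) ≤ 1)
    (hB1 : ∀ n, (∑' l, if IsDn u n l then NB28.aw ν l else 0) ≤ 1) :
    ∀ v η : ℝ≥0∞, v ≠ 0 → v ≤ 1 → η ≠ 0 → ∃ s H0 : ℕ, ∀ H, H0 ≤ H → ∃ S1 S2 : Set (Lat u),
      Good (Lam ν u) (ht u) (dl u) (c * c * v) η H S1 ∧
      Good (Lam ν u) (ht u) (dl u) (c * c * v) η H S2 ∧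
      ∀ w, w ∉ S1 → w ∉ S2 → (∑' L : List (PB u), if HT (ht u) L = H ∧
        CD (ht u) (dl u) (cd u) L w ≠ ∅ ∧ (∀ k ∈ CD (ht u) (dl u) (cd u) L w, s < k ∧ k + s ≤ H)
        then LW (Lam ν u) L else 0) ≤ v * v + η := by
  intro v η hv hv1 hη
  have hc1 : c ≤ 1 := (hA 0).trans (hA1 0)
  set η' : ℝ≥0∞ := min η 1 with hη'
  have e0 : η' ≠ 0 := by
    rw [hη']; exact (lt_min (pos_iff_ne_zero.2 hη) (by norm_num)).ne'
  have et : η' ≠ ⊤ := ne_top_of_le_ne_top (by norm_num) (min_le_right η 1)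
  have eη : η' ≤ η := min_le_left _ _
  have hC1 : C + 1 ≠ ⊤ := ENNReal.add_ne_top.2 ⟨hC, by norm_num⟩
  set lam : ℝ≥0∞ := η' / (8 * (C + 1)) with hlam
  have hl0 : lam ≠ 0 := by
    rw [hlam]
    exact (ENNReal.div_pos e0 (ENNReal.mul_ne_top (by norm_num) hC1)).ne'
  have hlt : lam ≠ ⊤ := ENNReal.div_ne_top et (by simp)
  have hq0 : η' / 2 / 2 ≠ 0 := by simp [ENNReal.div_eq_zero_iff, e0]
  obtain ⟨s, hs⟩ := hus (min lam (lam * (η' * (η' / 2 / 2)) / (2 * (C + 1)))) (by
    refine (lt_min (pos_iff_ne_zero.2 hl0) ?_).ne'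
    refine ENNReal.div_pos ?_ (ENNReal.mul_ne_top (by norm_num) hC1)
    exact mul_ne_zero hl0 (mul_ne_zero e0 hq0))
  have hs1 : us s ≤ lam := hs.trans (min_le_left _ _)
  have hs2 := hs.trans (min_le_right _ _)
  have hN1 := num1 hC e0 et hlam hs1
  refine ⟨s, 0, fun H _ => ?_⟩
  have hθt : η' / 2 ≠ ⊤ := ENNReal.div_ne_top et (by norm_num)
  -- laws
  have sX : ∑' z, law (aU ν u H) z = ∑' π, aU ν u H π := law_sum _
  have sY : ∑' z, law (aD ν u H) z = ∑' π, aD ν u H π := law_sum _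
  have sX1 : ∑' π, aU ν u H π ≤ 1 := hA1 H
  have sY1 : ∑' π, aD ν u H π ≤ 1 := hB1 H
  have sXc : c ≤ ∑' π, aU ν u H π := hA H
  have sYc : c ≤ ∑' π, aD ν u H π := hB H
  have hcv : c * v ≠ 0 := mul_ne_zero hc hv
  have hcv1 : c * v ≤ c := by
    calc c * v ≤ c * 1 := mul_le_mul_right hv1 _
      _ = c := mul_one _
  obtain ⟨tX, tX0, tX1, qX1, qX2⟩ := quantG (law (aU ν u H)) (sX.le.trans sX1) hcv
    (hcv1.trans (sXc.trans sX.ge))
  obtain ⟨tY, tY0, tY1, qY1, qY2⟩ := quantG (law (aD ν u H)) (sY.le.trans sY1) hcv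
    (hcv1.trans (sYc.trans sY.ge))
  obtain ⟨fX, nX⟩ := AsmA789.card_le (law (aU ν u H)) (sX.le.trans sX1) tX0
  obtain ⟨fY, nY⟩ := AsmA789.card_le (law (aD ν u H)) (sY.le.trans sY1) tY0
  set EX : Finset (Site d) := fX.toFinset with hEX
  set EY : Finset (Site d) := fY.toFinset with hEY
  have mX : ∀ z, z ∈ EX ↔ tX ≤ law (aU ν u H) z := fun z => by rw [hEX]; simp
  have mY : ∀ z, z ∈ EY ↔ tY ≤ law (aD ν u H) z := fun z => by rw [hEY]; simp
  have nX' : (EX.card : ℝ≥0∞) * tX ≤ 1 := by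
    rw [Set.ncard_eq_toFinset_card _ fX] at nX; exact nX
  have nY' : (EY.card : ℝ≥0∞) * tY ≤ 1 := by
    rw [Set.ncard_eq_toFinset_card _ fY] at nY; exact nY
  have kX := countW u (PhX ν u s H EX) C lam (us s) EX.card (η' / 2) hθt hN1
    (fun μ M hm hM => h2 s H EX μ M lam hm hM hl0 hlt)
  have kY := countW u (PhY ν u s H EY) C lam (us s) EY.card (η' / 2) hθt hN1
    (fun μ M hm hM => h3 s H EY μ M lam hm hM hl0 hlt)
  refine ⟨{w | η' / 2 < PhX ν u s H EX w.1}, {w | η' / 2 < PhY ν u s H EY w.1}, ?_, ?_, ?_⟩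
  · refine ⟨{L | law (aU ν u H) (endp 0 (cat L).1) < 2 * tX}, 2 * tX, ?_, ?_, ?_⟩
    · have e := tsum_L' ν u H (fun x => law (aU ν u H) (endp 0 x.1) < 2 * tX)
      have m := mass_low (aU ν u H) (aD ν u H) (2 * tX)
      calc c * c * v = (c * v) * c := by ring
        _ ≤ _ := mul_le_mul' qX2 sYc
        _ = _ := m.symm
        _ = _ := by
          refine Eq.trans ?_ (e.symm.trans ?_)
          · refine tsum_congr fun π => tsum_congr fun γ => ?_
            by_cases h : law (aU ν u H) (endp 0 π) < 2 * tX <;> simp [h]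
          · refine tsum_congr fun L => ?_
            by_cases h : HT (ht u) L = H <;>
              by_cases h' : law (aU ν u H) (endp 0 (cat L).1) < 2 * tX <;> simp [h, h']
    · intro w w'
      have e := tsum_L' ν u H (fun x => law (aU ν u H) (endp 0 x.1) < 2 * tX ∧
        endp 0 x.1 + endp 0 x.2 = w'.1 - w.1)
      have m := dens_low (aU ν u H) (aD ν u H) sY1 (2 * tX) (w'.1 - w.1)
      refine le_trans (le_of_eq ?_) m
      refine Eq.trans ?_ (e.trans ?_)
      · refine tsum_congr fun L => ?_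
        have ha : act (dl u) L w = w' ↔ endp 0 (cat L).1 + endp 0 (cat L).2 = w'.1 - w.1 := by
          constructor
          · intro h
            have := act_cat u L w
            rw [h] at this
            rw [this]; abel
          · intro h
            exact Subtype.ext ((act_cat u L w).trans (by rw [add_assoc, h]; abel))
        by_cases h1 : HT (ht u) L = H
        · by_cases h2 : law (aU ν u H) (endp 0 (cat L).1) < 2 * tX
          · by_cases h3 : act (dl u) L w = w'
            · rw [if_pos ⟨h1, h2, h3⟩, if_pos ⟨h1, h2, ha.1 h3⟩]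
            · rw [if_neg (fun h => h3 h.2.2), if_neg (fun h => h3 (ha.2 h.2.2))]
          · rw [if_neg (fun h => h2 h.2.1), if_neg (fun h => h2 h.2.1)]
        · rw [if_neg (fun h => h1 h.1), if_neg (fun h => h1 h.1)]
      · refine tsum_congr fun π => tsum_congr fun γ => ?_
        by_cases h : law (aU ν u H) (endp 0 π) < 2 * tX ∧ endp 0 π + endp 0 γ = w'.1 - w.1
        · rw [if_pos h, if_pos h]
        · rw [if_neg h, if_neg h]
    · exact (num2 hC e0 et hl0 hlt hs2 nX' kX).trans eη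
  · refine ⟨{L | law (aD ν u H) (endp 0 (cat L).2) < 2 * tY}, 2 * tY, ?_, ?_, ?_⟩
    · have e := tsum_L' ν u H (fun x => law (aD ν u H) (endp 0 x.2) < 2 * tY)
      have m := mass_low (aD ν u H) (aU ν u H) (2 * tY)
      calc c * c * v = (c * v) * c := by ring
        _ ≤ _ := mul_le_mul' qY2 sXc
        _ = _ := m.symm
        _ = _ := by
          rw [ENNReal.tsum_comm]
          refine Eq.trans ?_ (e.symm.trans ?_)
          · refine tsum_congr fun π => tsum_congr fun γ => ?_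
            by_cases h : law (aD ν u H) (endp 0 γ) < 2 * tY <;> simp [h, mul_comm]
          · refine tsum_congr fun L => ?_
            by_cases h : HT (ht u) L = H <;>
              by_cases h' : law (aD ν u H) (endp 0 (cat L).2) < 2 * tY <;> simp [h, h']
    · intro w w'
      have e := tsum_L' ν u H (fun x => law (aD ν u H) (endp 0 x.2) < 2 * tY ∧
        endp 0 x.2 + endp 0 x.1 = w'.1 - w.1)
      have m := dens_low (aD ν u H) (aU ν u H) sX1 (2 * tY) (w'.1 - w.1)
      refine le_trans (le_of_eq ?_) m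
      rw [ENNReal.tsum_comm]
      refine Eq.trans ?_ (e.trans ?_)
      · refine tsum_congr fun L => ?_
        have ha : act (dl u) L w = w' ↔ endp 0 (cat L).2 + endp 0 (cat L).1 = w'.1 - w.1 := by
          constructor
          · intro h
            have := act_cat u L w
            rw [h] at this
            rw [this]; abel
          · intro h
            exact Subtype.ext ((act_cat u L w).trans
              (by rw [add_assoc, add_comm (endp 0 (cat L).1), h]; abel))
        by_cases h1 : HT (ht u) L = H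
        · by_cases h2 : law (aD ν u H) (endp 0 (cat L).2) < 2 * tY
          · by_cases h3 : act (dl u) L w = w'
            · rw [if_pos ⟨h1, h2, h3⟩, if_pos ⟨h1, h2, ha.1 h3⟩]
            · rw [if_neg (fun h => h3 h.2.2), if_neg (fun h => h3 (ha.2 h.2.2))]
          · rw [if_neg (fun h => h2 h.2.1), if_neg (fun h => h2 h.2.1)]
        · rw [if_neg (fun h => h1 h.1), if_neg (fun h => h1 h.1)]
      · refine tsum_congr fun π => tsum_congr fun γ => ?_
        by_cases h : law (aD ν u H) (endp 0 γ) < 2 * tY ∧ endp 0 γ + endp 0 π = w'.1 - w.1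
        · rw [if_pos h, if_pos h, mul_comm]
        · rw [if_neg h, if_neg h]
    · exact (num2 hC e0 et hl0 hlt hs2 nY' kY).trans eη
  · intro w hw1 hw2
    have hw1' : PhX ν u s H EX w.1 ≤ η' / 2 := not_lt.1 hw1
    have hw2' : PhY ν u s H EY w.1 ≤ η' / 2 := not_lt.1 hw2
    have e := tsum_L' ν u H (fun x => Cm u w.1 x.1 x.2 ≠ ∅ ∧
      ∀ k ∈ Cm u w.1 x.1 x.2, s < k ∧ k + s ≤ H)
    have eCD : ∀ L : List (PB u), CD (ht u) (dl u) (cd u) L w = Cm u w.1 (cat L).1 (cat L).2 := by
      intro L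
      rw [CD_cat, ← cds_eq]
    have oX := law_out (aU ν u H) EX tX mX
    have oY := law_out (aD ν u H) EY tY mY
    calc _ = ∑' π : List (Step d), ∑' γ : List (Step d),
          (if (Cm u w.1 π γ ≠ ∅ ∧ ∀ k ∈ Cm u w.1 π γ, s < k ∧ k + s ≤ H) then
            aU ν u H π * aD ν u H γ else 0) := by
          refine Eq.trans ?_ (e.trans ?_)
          · refine tsum_congr fun L => ?_
            rw [eCD L]
            by_cases h1 : HT (ht u) L = H
            · by_cases h2 : Cm u w.1 (cat L).1 (cat L).2 ≠ ∅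
              · by_cases h3 : ∀ k ∈ Cm u w.1 (cat L).1 (cat L).2, s < k ∧ k + s ≤ H
                · rw [if_pos ⟨h1, h2, h3⟩, if_pos ⟨h1, h2, h3⟩]
                · rw [if_neg (fun h => h3 h.2.2), if_neg (fun h => h3 h.2.2)]
              · rw [if_neg (fun h => h2 h.2.1), if_neg (fun h => h2 h.2.1)]
            · rw [if_neg (fun h => h1 h.1), if_neg (fun h => h1 h.1)]
          · refine tsum_congr fun π => tsum_congr fun γ => ?_
            by_cases h : Cm u w.1 π γ ≠ ∅ ∧ ∀ k ∈ Cm u w.1 π γ, s < k ∧ k + s ≤ H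
            · rw [if_pos h, if_pos h]
            · rw [if_neg h, if_neg h]
      _ ≤ ∑' π : List (Step d), ∑' γ : List (Step d),
          ((if IsUp u H π ∧ endp 0 π ∈ EX ∧ IsDn u H γ ∧
            (∃ k, k ∈ Cm u w.1 π γ) ∧ (∀ k ∈ Cm u w.1 π γ, s < k) then
              NB28.aw ν π * NB28.aw ν γ else 0)
          + (if IsUp u H π ∧ endp 0 γ ∈ EY ∧ IsDn u H γ ∧
            (∃ k, k ∈ Cm u w.1 π γ) ∧ (∀ k ∈ Cm u w.1 π γ, k + s ≤ H) then
              NB28.aw ν π * NB28.aw ν γ else 0)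
          + (if endp 0 π ∈ EX then 0 else aU ν u H π) *
            (if endp 0 γ ∈ EY then 0 else aD ν u H γ)) := by
          refine ENNReal.tsum_le_tsum fun π => ENNReal.tsum_le_tsum fun γ => ?_
          by_cases hh : Cm u w.1 π γ ≠ ∅ ∧ ∀ k ∈ Cm u w.1 π γ, s < k ∧ k + s ≤ H
          · rw [if_pos hh]
            obtain ⟨hne, hk⟩ := hh
            obtain ⟨k0, hk0⟩ := Set.nonempty_iff_ne_empty.2 hne
            by_cases hU : IsUp u H π
            · by_cases hD : IsDn u H γ
              · have eU : aU ν u H π = NB28.aw ν π := if_pos hU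
                have eD : aD ν u H γ = NB28.aw ν γ := if_pos hD
                by_cases hx : endp 0 π ∈ EX
                · rw [if_pos (show IsUp u H π ∧ endp 0 π ∈ EX ∧ IsDn u H γ ∧
                    (∃ k, k ∈ Cm u w.1 π γ) ∧ (∀ k ∈ Cm u w.1 π γ, s < k) from
                    ⟨hU, hx, hD, ⟨k0, hk0⟩, fun k h => (hk k h).1⟩), eU, eD, add_assoc]
                  exact le_self_add
                · by_cases hy : endp 0 γ ∈ EY
                  · rw [if_pos (show IsUp u H π ∧ endp 0 γ ∈ EY ∧ IsDn u H γ ∧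
                      (∃ k, k ∈ Cm u w.1 π γ) ∧ (∀ k ∈ Cm u w.1 π γ, k + s ≤ H) from
                      ⟨hU, hy, hD, ⟨k0, hk0⟩, fun k h => (hk k h).2⟩), eU, eD]
                    exact le_trans le_add_self le_self_add
                  · rw [if_neg hx, if_neg hy]
                    exact le_add_self
              · have : aD ν u H γ = 0 := if_neg hD
                rw [this, mul_zero]; exact zero_le
            · have : aU ν u H π = 0 := if_neg hU
              rw [this, zero_mul]; exact zero_le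
          · rw [if_neg hh]; exact zero_le
      _ = PhX ν u s H EX w.1 + PhY ν u s H EY w.1
          + (∑' π : List (Step d), (if endp 0 π ∈ EX then 0 else aU ν u H π)) *
            (∑' γ : List (Step d), (if endp 0 γ ∈ EY then 0 else aD ν u H γ)) := by
          simp only [ENNReal.tsum_add, PhX, PhY]
          congr 1
          simp only [ENNReal.tsum_mul_left, ENNReal.tsum_mul_right]
      _ ≤ η' / 2 + η' / 2 + (c * v) * (c * v) := by
          refine add_le_add (add_le_add hw1' hw2') ?_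
          rw [oX, oY]
          exact mul_le_mul' qX1 qY1
      _ = η' + (c * v) * (c * v) := by rw [ENNReal.add_halves]
      _ ≤ η + v * v := by
          refine add_le_add eη ?_
          have : c * v ≤ v := by
            calc c * v ≤ 1 * v := mul_le_mul_left hc1 _
              _ = v := one_mul _
          exact mul_le_mul' this this
      _ = v * v + η := add_comm _ _

end Crest.Agent.R154.HW725
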