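import Crest.Agent.R154.JHit_139
import Crest.Agent.R154.B5Br_657
import Crest.Agent.R154.AsmA_789

/-! Row 154, ROAD 801, joint-cut frame (helper730): the one-window input `hW` of 139's assembly from
the two window lemmas in words at common height (912's `E2`, `E3`). -/

set_option autoImplicit false

open MeasureTheory ProbabilityTheory Crest.ProbabilityR.RandomEnvironment
open scoped ENNReal

namespace Crest.Agent.R154.HW730

open Crest.Agent.R154.B5A
open Crest.Agent.R154.B5W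
open Crest.Agent.R154.JAsm139 (Good card)
open Crest.Agent.R154.Flux566 (lw endp sitesL lev endp_append)
open Crest.Agent.R154.NB28 (IsUp IsDn Cm aw)

variable {d : ℕ}

section words

variable (ν : Measure (Row d)) [IsProbabilityMeasure ν]

open Classical in
/-- total mass of a family of words -/
noncomputable def ms (P : List (Step d) → Prop) : ℝ≥0∞ := ∑' l : List (Step d), if P l then aw ν l else 0

open Classical in
/-- mass of a family of words by displacement -/
noncomputable def av (P : List (Step d) → Prop) (z : Site d) : ℝ≥0∞ :=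
  ∑' l : List (Step d), if P l ∧ endp 0 l = z then aw ν l else 0

open Classical in
lemma av_sum (P : List (Step d) → Prop) (q : Site d → Prop) :
    ∑' z, (if q z then av ν P z else 0)
      = ∑' l : List (Step d), if P l ∧ q (endp 0 l) then aw ν l else 0 := by
  unfold av
  have h1 : ∀ z : Site d, (if q z then ∑' l : List (Step d), (if P l ∧ endp 0 l = z then aw ν l
      else 0) else 0) = ∑' l : List (Step d), (if q z ∧ P l ∧ endp 0 l = z then aw ν l else 0) := by
    intro z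
    by_cases h : q z <;> simp [h]
  simp_rw [h1]
  rw [ENNReal.tsum_comm]
  refine tsum_congr fun l => ?_
  rw [tsum_eq_single (endp 0 l)]
  · by_cases h2 : P l <;> by_cases h3 : q (endp 0 l) <;> simp [h2, h3]
  · intro z hz
    rw [if_neg (fun h => hz h.2.2.symm)]

open Classical in
lemma av_tot (P : List (Step d) → Prop) : ∑' z, av ν P z = ms ν P := by
  have := av_sum ν P (fun _ => True)
  simpa [ms] using this

open Classical in
/-- quantile for a sub-probability -/
lemma quantile {ι : Type*} (a : ι → ℝ≥0∞) (c v : ℝ≥0∞) (hc : c ≠ 0) (hc1 : c ≤ ∑' i, a i)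
    (h1 : ∑' i, a i ≤ 1) (hv : v ≠ 0) (hv1 : v < 1) :
    ∃ th : ℝ≥0∞, th ≠ 0 ∧ th ≠ ⊤ ∧ (∑' i, if a i < th then a i else 0) ≤ v ∧
      c * v ≤ (∑' i, if a i < 2 * th then a i else 0) := by
  set m := ∑' i, a i with hm
  have hm0 : m ≠ 0 := fun h => hc (le_antisymm (h ▸ hc1) zero_le)
  have hmt : m ≠ ⊤ := ne_top_of_le_ne_top ENNReal.one_ne_top h1
  have hp : ∑' i, a i / m = 1 := by
    simp_rw [div_eq_mul_inv]
    rw [ENNReal.tsum_mul_right, ← hm, ENNReal.mul_inv_cancel hm0 hmt]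
  obtain ⟨θ, hθ0, hθ1, h2, h3⟩ := AsmA789.quant (fun i => a i / m) hp hv hv1
  have hai : ∀ i, m * (a i / m) = a i := fun i => ENNReal.mul_div_cancel hm0 hmt
  have hlt : ∀ (t : ℝ≥0∞) (i : ι), a i / m < t ↔ a i < m * t := by
    intro t i
    rw [ENNReal.div_lt_iff (Or.inl hm0) (Or.inl hmt), mul_comm]
  refine ⟨m * θ, mul_ne_zero hm0 hθ0, ENNReal.mul_ne_top hmt
    (ne_top_of_le_ne_top ENNReal.one_ne_top hθ1), ?_, ?_⟩
  · calc (∑' i, if a i < m * θ then a i else 0)
        = m * ∑' i, (if a i / m < θ then a i / m else 0) := by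
          rw [← ENNReal.tsum_mul_left]
          refine tsum_congr fun i => ?_
          by_cases h : a i / m < θ
          · rw [if_pos h, if_pos ((hlt θ i).1 h), hai]
          · rw [if_neg h, if_neg (fun h' => h ((hlt θ i).2 h')), mul_zero]
      _ ≤ 1 * v := mul_le_mul' h1 h2
      _ = v := one_mul v
  · calc c * v ≤ m * ∑' i, (if a i / m < 2 * θ then a i / m else 0) := mul_le_mul' hc1 h3
      _ = (∑' i, if a i < 2 * (m * θ) then a i else 0) := by
          rw [← ENNReal.tsum_mul_left]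
          refine tsum_congr fun i => ?_
          have h4 : m * (2 * θ) = 2 * (m * θ) := by ring
          by_cases h : a i / m < 2 * θ
          · rw [if_pos h, if_pos (h4 ▸ (hlt (2 * θ) i).1 h), hai]
          · rw [if_neg h, if_neg (fun h' => h ((hlt (2 * θ) i).2 (h4.symm ▸ h'))), mul_zero]

end words

/-! ### counting -/

open Classical in
/-- from averages over flat laws to the size of the exceptional set -/
lemma count {W : Type*} (Φ : W → ℝ≥0∞) (C lam us th N : ℝ≥0∞) (hC0 : C ≠ 0) (hC : C ≠ ⊤)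
    (hl : lam ≠ 0) (hlt : lam ≠ ⊤) (hus : us ≤ lam) (hN : th * N ≤ 1)
    (h : ∀ (μ : W → ℝ≥0∞) (M : ℝ≥0∞), ∑' w, μ w ≤ 1 → (∀ w, μ w ≤ M) → M ≠ 0 → M ≤ 1 →
      ∑' w, μ w * Φ w ≤ C * (lam + M * N * us / lam + us)) :
    th * card {w | 3 * (C * lam) < Φ w} ≤ us / lam ^ 2 := by
  have hfin : ∀ S' : Finset W, (∀ w ∈ S', 3 * (C * lam) < Φ w) →
      th * (S'.card : ℝ≥0∞) ≤ us / lam ^ 2 := by
    intro S' hS'
    by_cases hn : S'.card = 0
    · rw [hn]; simp
    have hn0 : (S'.card : ℝ≥0∞) ≠ 0 := by exact_mod_cast hn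
    have hnt : (S'.card : ℝ≥0∞) ≠ ⊤ := ENNReal.natCast_ne_top _
    set n : ℝ≥0∞ := (S'.card : ℝ≥0∞) with hnd
    have h1n : 1 ≤ n := by
      rw [hnd]; exact_mod_cast Nat.one_le_iff_ne_zero.2 hn
    have hm1 : n⁻¹ ≤ 1 := ENNReal.inv_le_one.2 h1n
    have key := h (fun w => if w ∈ S' then n⁻¹ else 0) n⁻¹ (by
      rw [tsum_eq_sum (s := S') (fun w hw => if_neg hw), Finset.sum_congr rfl (fun w hw => if_pos hw),
        Finset.sum_const, nsmul_eq_mul, ENNReal.mul_inv_cancel hn0 hnt]) (fun w => by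
      by_cases hw : w ∈ S'
      · simp [hw]
      · simp [hw]) (ENNReal.inv_ne_zero.2 hnt) hm1
    have low : 3 * (C * lam) ≤ ∑' w, (if w ∈ S' then n⁻¹ else 0) * Φ w := by
      calc 3 * (C * lam) = ∑ w ∈ S', n⁻¹ * (3 * (C * lam)) := by
            rw [Finset.sum_const, nsmul_eq_mul, ← hnd, ← mul_assoc n, ENNReal.mul_inv_cancel hn0 hnt,
              one_mul]
        _ ≤ ∑ w ∈ S', (if w ∈ S' then n⁻¹ else 0) * Φ w := by
            refine Finset.sum_le_sum fun w hw => ?_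
            rw [if_pos hw]
            exact mul_le_mul_right (hS' w hw).le _
        _ ≤ _ := ENNReal.sum_le_tsum _
    have h2 := low.trans key
    have hCl : C * lam ≠ ⊤ := ENNReal.mul_ne_top hC hlt
    have h3 : C * (lam + n⁻¹ * N * us / lam + us) ≤ 2 * (C * lam) + C * (n⁻¹ * N * us / lam) := by
      calc C * (lam + n⁻¹ * N * us / lam + us)
          ≤ C * (lam + n⁻¹ * N * us / lam + lam) := by gcongr
        _ = _ := by ring
    have h4 : C * lam ≤ C * (n⁻¹ * N * us / lam) := by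
      have h5 : 2 * (C * lam) + C * lam ≤ 2 * (C * lam) + C * (n⁻¹ * N * us / lam) := by
        calc 2 * (C * lam) + C * lam = 3 * (C * lam) := by ring
          _ ≤ _ := h2.trans h3
      exact (ENNReal.add_le_add_iff_left (ENNReal.mul_ne_top (by norm_num) hCl)).1 h5
    have h6 : lam ≤ n⁻¹ * N * us / lam := (ENNReal.mul_le_mul_iff_right hC0 hC).1 h4
    rw [ENNReal.le_div_iff_mul_le (Or.inl hl) (Or.inl hlt)] at h6
    -- n * lam^2 <= N * us
    have h7 : n * lam ^ 2 ≤ N * us := by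
      calc n * lam ^ 2 = n * (lam * lam) := by rw [sq]
        _ ≤ n * (n⁻¹ * N * us) := mul_le_mul_right h6 _
        _ = (n * n⁻¹) * (N * us) := by ring
        _ = N * us := by rw [ENNReal.mul_inv_cancel hn0 hnt, one_mul]
    have hl2 : lam ^ 2 ≠ 0 := pow_ne_zero _ hl
    have hl2t : lam ^ 2 ≠ ⊤ := ENNReal.pow_ne_top hlt
    rw [ENNReal.le_div_iff_mul_le (Or.inl hl2) (Or.inl hl2t)]
    calc th * n * lam ^ 2 = th * (n * lam ^ 2) := by ring
      _ ≤ th * (N * us) := mul_le_mul_right h7 _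
      _ = (th * N) * us := by ring
      _ ≤ 1 * us := mul_le_mul_left hN _
      _ = us := one_mul _
  unfold card
  rw [ENNReal.tsum_eq_iSup_sum, ENNReal.mul_iSup]
  refine iSup_le fun s => ?_
  have := hfin (s.filter fun w => 3 * (C * lam) < Φ w) (fun w hw => (Finset.mem_filter.1 hw).2)
  refine le_trans (mul_le_mul_right (le_of_eq ?_) _) this
  rw [Finset.card_filter, Nat.cast_sum]
  refine Finset.sum_congr rfl fun w _ => ?_
  by_cases hw : 3 * (C * lam) < Φ w
  · have : w ∈ {w | 3 * (C * lam) < Φ w} := hw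
    simp [hw]
  · have : w ∉ {w | 3 * (C * lam) < Φ w} := hw
    simp [hw]

/-! ### product sums over pairs of words -/

section pairs

variable (ν : Measure (Row d)) [IsProbabilityMeasure ν]

open Classical in
lemma prod_sum (P Q : List (Step d) → Prop) :
    ∑' π : List (Step d), ∑' γ : List (Step d), (if P π ∧ Q γ then aw ν π * aw ν γ else 0)
      = ms ν P * ms ν Q := by
  unfold ms
  rw [← ENNReal.tsum_mul_right]
  refine tsum_congr fun π => ?_
  rw [← ENNReal.tsum_mul_left]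
  refine tsum_congr fun γ => ?_
  by_cases h1 : P π <;> by_cases h2 : Q γ <;> simp [h1, h2]

open Classical in
lemma dens1 (P Q : List (Step d) → Prop) (th : ℝ≥0∞) (hQ : ms ν Q ≤ 1) (t : Site d) :
    ∑' γ : List (Step d), ∑' π : List (Step d),
      (if (P π ∧ av ν P (endp 0 π) < th) ∧ Q γ ∧ endp 0 π + endp 0 γ = t then aw ν π * aw ν γ
        else 0) ≤ th := by
  calc ∑' γ : List (Step d), ∑' π : List (Step d),
        (if (P π ∧ av ν P (endp 0 π) < th) ∧ Q γ ∧ endp 0 π + endp 0 γ = t then aw ν π * aw ν γ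
          else 0)
      ≤ ∑' γ : List (Step d), (if Q γ then aw ν γ else 0) * th := by
        refine ENNReal.tsum_le_tsum fun γ => ?_
        by_cases hγ : Q γ
        · rw [if_pos hγ]
          by_cases hz : av ν P (t - endp 0 γ) < th
          · calc ∑' π : List (Step d), (if (P π ∧ av ν P (endp 0 π) < th) ∧ Q γ ∧
                  endp 0 π + endp 0 γ = t then aw ν π * aw ν γ else 0)
                ≤ ∑' π : List (Step d), aw ν γ * (if P π ∧ endp 0 π = t - endp 0 γ then aw ν π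
                    else 0) := by
                  refine ENNReal.tsum_le_tsum fun π => ?_
                  by_cases h : (P π ∧ av ν P (endp 0 π) < th) ∧ Q γ ∧ endp 0 π + endp 0 γ = t
                  · rw [if_pos h, if_pos ⟨h.1.1, by rw [← h.2.2]; abel⟩, mul_comm]
                  · rw [if_neg h]; exact zero_le
              _ = aw ν γ * av ν P (t - endp 0 γ) := by rw [ENNReal.tsum_mul_left]; rfl
              _ ≤ aw ν γ * th := mul_le_mul_right hz.le _
          · refine le_trans (le_of_eq ?_) zero_le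
            refine ENNReal.tsum_eq_zero.2 fun π => ?_
            rw [if_neg]
            rintro ⟨⟨_, h1⟩, _, h2⟩
            apply hz
            have : t - endp 0 γ = endp 0 π := by rw [← h2]; abel
            rw [this]; exact h1
        · rw [if_neg hγ, zero_mul]
          refine le_of_eq (ENNReal.tsum_eq_zero.2 fun π => ?_)
          rw [if_neg]
          exact fun h => hγ h.2.1
    _ = ms ν Q * th := ENNReal.tsum_mul_right
    _ ≤ 1 * th := mul_le_mul_left hQ _
    _ = th := one_mul _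

end pairs

/-! ### the instance -/

section inst

variable (ν : Measure (Row d)) [IsProbabilityMeasure ν] (u : Step d)

lemma act_cat (L : List (PB u)) (w : Lat u) : (act (dl u) L w).1 = dlp (cat L) w.1 := by
  induction L generalizing w with
  | nil => simp [act, cat, dlp, endp]
  | cons b L ih =>
    rw [act, ih]
    simp only [dl, dlp, cat, pm]
    rw [endp_append, endp_append, Flux566.endp_eq_add b.1.1 (endp 0 (cat L).1),
      Flux566.endp_eq_add (cat L).2 (endp 0 b.1.2)]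
    abel

lemma lat_ext {w w' : Lat u} (h : w.1 = w'.1) : w = w' := Subtype.ext h

open Classical in
/-- the two window lemmas in words, common height, weakest form -/
def WL (isX : Bool) (C : ℝ≥0∞) (us : ℕ → ℝ≥0∞) : Prop :=
  ∀ (s H : ℕ) (E : Finset (Site d)) (μ : Site d → ℝ≥0∞) (M lam : ℝ≥0∞),
    (∀ x, lev u x ≠ 0 → μ x = 0) → ∑' x, μ x ≤ 1 → (∀ x, μ x ≤ M) → M ≠ 0 → M ≤ 1 →
    lam ≠ 0 → lam ≠ ⊤ →
    ∑' x, (if lev u x = 0 then μ x * ∑' π : List (Step d), ∑' γ : List (Step d),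
      (if IsUp u H π ∧ IsDn u H γ ∧ (if isX then endp 0 π ∈ E else endp 0 γ ∈ E) ∧
        (∃ k, k ∈ Cm u x π γ) ∧ (∀ k ∈ Cm u x π γ, s < k ∧ k + s ≤ H)
        then aw ν π * aw ν γ else 0) else 0) ≤ C * (lam + M * E.card * us s / lam + us s)

open Classical in
/-- the local part at top displacement `w` -/
noncomputable def Ph (isX : Bool) (s H : ℕ) (E : Finset (Site d)) (w : Lat u) : ℝ≥0∞ :=
  ∑' π : List (Step d), ∑' γ : List (Step d),
      (if IsUp u H π ∧ IsDn u H γ ∧ (if isX then endp 0 π ∈ E else endp 0 γ ∈ E) ∧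
        (∃ k, k ∈ Cm u w.1 π γ) ∧ (∀ k ∈ Cm u w.1 π γ, s < k ∧ k + s ≤ H)
        then aw ν π * aw ν γ else 0)

open Classical in
lemma Ph_avg {isX : Bool} {C : ℝ≥0∞} {us : ℕ → ℝ≥0∞} (h : WL ν u isX C us) (s H : ℕ)
    (E : Finset (Site d)) (lam : ℝ≥0∞) (hl : lam ≠ 0) (hlt : lam ≠ ⊤) (μ : Lat u → ℝ≥0∞)
    (M : ℝ≥0∞) (h1 : ∑' w, μ w ≤ 1) (h2 : ∀ w, μ w ≤ M) (h3 : M ≠ 0) (h4 : M ≤ 1) :
    ∑' w, μ w * Ph ν u isX s H E w ≤ C * (lam + M * E.card * us s / lam + us s) := by
  set μ' : Site d → ℝ≥0∞ := fun x => if hx : lev u x = 0 then μ ⟨x, hx⟩ else 0 with hμ'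
  have hval : Function.Injective (fun w : Lat u => w.1) := fun w w' h => Subtype.ext h
  have hμw : ∀ w : Lat u, μ' w.1 = μ w := fun w => by
    simp only [hμ']
    rw [dif_pos w.2]
    rfl
  have hs0 : ∀ x, lev u x ≠ 0 → μ' x = 0 := fun x hx => by
    simp only [hμ']; rw [dif_neg hx]
  have e1 : ∑' w : Lat u, μ w = ∑' x, μ' x := by
    have := hval.tsum_eq (f := μ') (by
      intro x hx
      have : lev u x = 0 := by
        by_contra hc
        exact hx (hs0 x hc)
      exact ⟨⟨x, this⟩, rfl⟩)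
    rw [← this]
    exact tsum_congr fun w => (hμw w).symm
  have key := h s H E μ' M lam hs0 (e1 ▸ h1) (fun x => by
    by_cases hx : lev u x = 0
    · rw [show μ' x = μ ⟨x, hx⟩ from hμw ⟨x, hx⟩]
      exact h2 _
    · rw [hs0 x hx]; exact zero_le) h3 h4 hl hlt
  refine le_trans (le_of_eq ?_) key
  have e2 := hval.tsum_eq (f := fun x => (if lev u x = 0 then μ' x * ∑' π : List (Step d), ∑' γ : List (Step d),
      (if IsUp u H π ∧ IsDn u H γ ∧ (if isX then endp 0 π ∈ E else endp 0 γ ∈ E) ∧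
        (∃ k, k ∈ Cm u x π γ) ∧ (∀ k ∈ Cm u x π γ, s < k ∧ k + s ≤ H)
        then aw ν π * aw ν γ else 0) else 0)) (by
      intro x hx
      have : lev u x = 0 := by
        by_contra hc
        apply hx
        change (if lev u x = 0 then _ else _) = _
        rw [if_neg hc]
      exact ⟨⟨x, this⟩, rfl⟩)
  rw [← e2]
  refine tsum_congr fun w => ?_
  change _ = (if lev u w.1 = 0 then μ' w.1 * _ else 0)
  rw [if_pos w.2, hμw]
  rfl

lemma ite_c {p q : Prop} {dp : Decidable p} {dq : Decidable q} (h : p ↔ q) (a : ℝ≥0∞) :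
    (if p then a else 0) = (if q then a else 0) := by
  by_cases hp : p
  · rw [if_pos hp, if_pos (h.1 hp)]
  · rw [if_neg hp, if_neg (fun hq => hp (h.2 hq))]

open Classical in
lemma av_ms (P : List (Step d) → Prop) (th : ℝ≥0∞) :
    (∑' z, (if av ν P z < th then av ν P z else 0))
      = ms ν (fun l => P l ∧ av ν P (endp 0 l) < th) :=
  (tsum_congr fun _ => ite_c Iff.rfl _).trans ((av_sum ν P (fun z => av ν P z < th)).trans
    (tsum_congr fun _ => ite_c Iff.rfl _))

open Classical in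
lemma toW (H : ℕ) (R : List (Step d) × List (Step d) → Prop) :
    (∑' L : List (PB u), if HT (ht u) L = H ∧ R (cat L) then LW (Lam ν u) L else 0)
      = ∑' π : List (Step d), ∑' γ : List (Step d),
        (if IsUp u H π ∧ IsDn u H γ ∧ R (π, γ) then aw ν π * aw ν γ else 0) := by
  refine Eq.trans ?_ ((tsum_L ν u H (fun x => if R x then 1 else 0)).trans ?_)
  · refine tsum_congr fun L => ?_
    by_cases h1 : HT (ht u) L = H
    · by_cases h2 : R (cat L)
      · rw [if_pos ⟨h1, h2⟩, if_pos h1, if_pos h2, mul_one]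
      · rw [if_neg (fun h' => h2 h'.2), if_pos h1, if_neg h2, mul_zero]
    · rw [if_neg (fun h' => h1 h'.1), if_neg h1]
  · refine tsum_congr fun π => tsum_congr fun γ => ?_
    by_cases h1 : IsUp u H π ∧ IsDn u H γ
    · by_cases h2 : R (π, γ)
      · rw [if_pos h1, if_pos h2, if_pos ⟨h1.1, h1.2, h2⟩, mul_one]
      · rw [if_pos h1, if_neg h2, if_neg (fun h' => h2 h'.2.2), mul_zero]
    · rw [if_neg h1, if_neg (fun h' => h1 ⟨h'.1, h'.2.1⟩)]

lemma ms_up_le (H : ℕ) : ms ν (IsUp u H) ≤ 1 :=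
  sum_if_le_one ν fun _ _ h h' hp => NB28.isUp_prefix h h' hp

lemma ms_dn_le (H : ℕ) : ms ν (IsDn u H) ≤ 1 :=
  sum_if_le_one ν fun _ _ h h' hp => NB28.isDn_prefix h h' hp

open Classical in
lemma good_X (c v th us η : ℝ≥0∞) (H : ℕ) (S : Set (Lat u)) (hdn : c ≤ ms ν (IsDn u H))
    (hq : c * v ≤ ∑' z, (if av ν (IsUp u H) z < 2 * th then av ν (IsUp u H) z else 0))
    (hS : th * card S ≤ us) (hη : 2 * us ≤ η) :
    Good (Lam ν u) (ht u) (dl u) (c * (c * v)) η H S := by
  refine ⟨{L | av ν (IsUp u H) (endp 0 (cat L).1) < 2 * th}, 2 * th, ?_, ?_, ?_⟩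
  · have e1 := toW ν u H (fun x => av ν (IsUp u H) (endp 0 x.1) < 2 * th)
    refine le_trans ?_ e1.ge
    calc c * (c * v) ≤ ms ν (IsDn u H) * ms ν (fun π => IsUp u H π ∧
          av ν (IsUp u H) (endp 0 π) < 2 * th) := by
          exact mul_le_mul' hdn (hq.trans (le_of_eq (av_ms ν _ _)))
      _ = _ := by
          rw [mul_comm, ← prod_sum]
          refine tsum_congr fun π => tsum_congr fun γ => ite_c ?_ _
          tauto
  · intro w w'
    have e1 := toW ν u H (fun x => av ν (IsUp u H) (endp 0 x.1) < 2 * th ∧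
      endp 0 x.1 + endp 0 x.2 = w'.1 - w.1)
    refine le_trans (ENNReal.tsum_le_tsum fun L => ?_) (e1.le.trans ?_)
    · by_cases h : HT (ht u) L = H ∧ L ∈ {L | av ν (IsUp u H) (endp 0 (cat L).1) < 2 * th} ∧
          act (dl u) L w = w'
      · have h3 := act_cat u L w
        rw [h.2.2] at h3
        rw [if_pos h, if_pos ⟨h.1, h.2.1, by rw [h3]; unfold dlp; abel⟩]
      · rw [if_neg h]; exact zero_le
    · rw [ENNReal.tsum_comm]
      refine le_trans (le_of_eq ?_) (dens1 ν (IsUp u H) (IsDn u H) (2 * th) (ms_dn_le ν u H)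
        (w'.1 - w.1))
      refine tsum_congr fun γ => tsum_congr fun π => ite_c ?_ _
      tauto
  · calc 2 * th * card S = 2 * (th * card S) := by ring
      _ ≤ 2 * us := mul_le_mul_right hS _
      _ ≤ η := hη

open Classical in
lemma good_Y (c v th us η : ℝ≥0∞) (H : ℕ) (S : Set (Lat u)) (hup : c ≤ ms ν (IsUp u H))
    (hq : c * v ≤ ∑' z, (if av ν (IsDn u H) z < 2 * th then av ν (IsDn u H) z else 0))
    (hS : th * card S ≤ us) (hη : 2 * us ≤ η) :
    Good (Lam ν u) (ht u) (dl u) (c * (c * v)) η H S := by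
  refine ⟨{L | av ν (IsDn u H) (endp 0 (cat L).2) < 2 * th}, 2 * th, ?_, ?_, ?_⟩
  · have e1 := toW ν u H (fun x => av ν (IsDn u H) (endp 0 x.2) < 2 * th)
    refine le_trans ?_ e1.ge
    calc c * (c * v) ≤ ms ν (IsUp u H) * ms ν (fun γ => IsDn u H γ ∧
          av ν (IsDn u H) (endp 0 γ) < 2 * th) := by
          exact mul_le_mul' hup (hq.trans (le_of_eq (av_ms ν _ _)))
      _ = _ := by
          rw [← prod_sum]
          refine tsum_congr fun π => tsum_congr fun γ => ite_c ?_ _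
          tauto
  · intro w w'
    have e1 := toW ν u H (fun x => av ν (IsDn u H) (endp 0 x.2) < 2 * th ∧
      endp 0 x.2 + endp 0 x.1 = w'.1 - w.1)
    refine le_trans (ENNReal.tsum_le_tsum fun L => ?_) (e1.le.trans ?_)
    · by_cases h : HT (ht u) L = H ∧ L ∈ {L | av ν (IsDn u H) (endp 0 (cat L).2) < 2 * th} ∧
          act (dl u) L w = w'
      · have h3 := act_cat u L w
        rw [h.2.2] at h3
        rw [if_pos h, if_pos ⟨h.1, h.2.1, by rw [h3]; unfold dlp; abel⟩]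
      · rw [if_neg h]; exact zero_le
    · refine le_trans (le_of_eq ?_) (dens1 ν (IsDn u H) (IsUp u H) (2 * th) (ms_up_le ν u H)
        (w'.1 - w.1))
      refine tsum_congr fun π => tsum_congr fun γ => ?_
      rw [mul_comm (aw ν π) (aw ν γ)]
      refine ite_c ?_ _
      tauto
  · calc 2 * th * card S = 2 * (th * card S) := by ring
      _ ≤ 2 * us := mul_le_mul_right hS _
      _ ≤ η := hη

open Classical in
/-- the contact sum splits into the two local parts and the product of the non-local parts -/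
lemma split3 (s H : ℕ) (EX EY : Finset (Site d)) (thX thY vx vy : ℝ≥0∞)
    (hEX : ∀ z, z ∉ EX → av ν (IsUp u H) z < thX) (hEY : ∀ z, z ∉ EY → av ν (IsDn u H) z < thY)
    (hx : (∑' z, (if av ν (IsUp u H) z < thX then av ν (IsUp u H) z else 0)) ≤ vx)
    (hy : (∑' z, (if av ν (IsDn u H) z < thY then av ν (IsDn u H) z else 0)) ≤ vy) (w : Lat u) :
    (∑' L : List (PB u), if HT (ht u) L = H ∧ CD (ht u) (dl u) (cd u) L w ≠ ∅ ∧
      (∀ k ∈ CD (ht u) (dl u) (cd u) L w, s < k ∧ k + s ≤ H) then LW (Lam ν u) L else 0)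
    ≤ Ph ν u true s H EX w + Ph ν u false s H EY w + vx * vy := by
  have e1 := toW ν u H (fun x => (∃ k, k ∈ Cm u w.1 x.1 x.2) ∧
    (∀ k ∈ Cm u w.1 x.1 x.2, s < k ∧ k + s ≤ H))
  have e2 : (∑' L : List (PB u), if HT (ht u) L = H ∧ CD (ht u) (dl u) (cd u) L w ≠ ∅ ∧
      (∀ k ∈ CD (ht u) (dl u) (cd u) L w, s < k ∧ k + s ≤ H) then LW (Lam ν u) L else 0)
      = ∑' π : List (Step d), ∑' γ : List (Step d), (if IsUp u H π ∧ IsDn u H γ ∧
        (∃ k, k ∈ Cm u w.1 π γ) ∧ (∀ k ∈ Cm u w.1 π γ, s < k ∧ k + s ≤ H)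
        then aw ν π * aw ν γ else 0) := by
    refine Eq.trans (tsum_congr fun L => ite_c ?_ _) (e1.trans (tsum_congr fun π =>
      tsum_congr fun γ => ite_c Iff.rfl _))
    rw [CD_cat, show cds u (cat L) w.1 = Cm u w.1 (cat L).1 (cat L).2 from
      cds_eq u (cat L).1 (cat L).2 w.1, ← Set.nonempty_iff_ne_empty]
    rfl
  rw [e2]
  have e3 : vx * vy ≥ ∑' π : List (Step d), ∑' γ : List (Step d),
      (if (IsUp u H π ∧ av ν (IsUp u H) (endp 0 π) < thX) ∧
        (IsDn u H γ ∧ av ν (IsDn u H) (endp 0 γ) < thY) then aw ν π * aw ν γ else 0) := by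
    refine (Eq.trans (tsum_congr fun π => tsum_congr fun γ => ite_c Iff.rfl _)
      (prod_sum ν (fun π => IsUp u H π ∧ av ν (IsUp u H) (endp 0 π) < thX)
      (fun γ => IsDn u H γ ∧ av ν (IsDn u H) (endp 0 γ) < thY))).le.trans ?_
    refine mul_le_mul' ?_ ?_
    · exact (av_ms ν _ _).ge.trans hx
    · exact (av_ms ν _ _).ge.trans hy
  refine le_trans ?_ (add_le_add le_rfl e3)
  unfold Ph
  rw [← ENNReal.tsum_add, ← ENNReal.tsum_add]
  refine ENNReal.tsum_le_tsum fun π => ?_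
  rw [← ENNReal.tsum_add, ← ENNReal.tsum_add]
  refine ENNReal.tsum_le_tsum fun γ => ?_
  by_cases h : IsUp u H π ∧ IsDn u H γ ∧ (∃ k, k ∈ Cm u w.1 π γ) ∧
      (∀ k ∈ Cm u w.1 π γ, s < k ∧ k + s ≤ H)
  · rw [if_pos h]
    by_cases hx' : endp 0 π ∈ EX
    · rw [if_pos (show IsUp u H π ∧ IsDn u H γ ∧ (if (true : Bool) = true then endp 0 π ∈ EX
        else endp 0 γ ∈ EX) ∧ (∃ k, k ∈ Cm u w.1 π γ) ∧
        (∀ k ∈ Cm u w.1 π γ, s < k ∧ k + s ≤ H) from
        ⟨h.1, h.2.1, by rw [if_pos rfl]; exact hx', h.2.2.1, h.2.2.2⟩), add_assoc]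
      exact le_self_add
    · by_cases hy' : endp 0 γ ∈ EY
      · rw [if_pos (show IsUp u H π ∧ IsDn u H γ ∧ (if (false : Bool) = true then endp 0 π ∈ EY
          else endp 0 γ ∈ EY) ∧ (∃ k, k ∈ Cm u w.1 π γ) ∧
          (∀ k ∈ Cm u w.1 π γ, s < k ∧ k + s ≤ H) from
          ⟨h.1, h.2.1, by rw [if_neg (by simp)]; exact hy', h.2.2.1, h.2.2.2⟩)]
        exact le_add_right le_add_self
      · rw [if_pos (show (IsUp u H π ∧ av ν (IsUp u H) (endp 0 π) < thX) ∧
          (IsDn u H γ ∧ av ν (IsDn u H) (endp 0 γ) < thY) from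
          ⟨⟨h.1, hEX _ hx'⟩, h.2.1, hEY _ hy'⟩)]
        exact le_add_self
  · rw [if_neg h]
    exact zero_le

open Classical in
/-- **139's `hW`** -/
theorem hW_of (c : ℝ≥0∞) (hc : c ≠ 0)
    (hup : ∀ n, c ≤ ms ν (IsUp u n)) (hdn : ∀ n, c ≤ ms ν (IsDn u n))
    (C : ℝ≥0∞) (hC : C ≠ ⊤) (us : ℕ → ℝ≥0∞) (hus : ∀ ε : ℝ≥0∞, ε ≠ 0 → ∃ s : ℕ, us s ≤ ε)
    (hX : WL ν u true C us) (hY : WL ν u false C us) :
    ∀ v η : ℝ≥0∞, v ≠ 0 → v ≤ 1 → η ≠ 0 → ∃ s H0 : ℕ, ∀ H, H0 ≤ H → ∃ S1 S2 : Set (Lat u),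
      Good (Lam ν u) (ht u) (dl u) (c * c * 2⁻¹ * v) η H S1 ∧
      Good (Lam ν u) (ht u) (dl u) (c * c * 2⁻¹ * v) η H S2 ∧
      ∀ w, w ∉ S1 → w ∉ S2 → (∑' L : List (PB u), if HT (ht u) L = H ∧
        CD (ht u) (dl u) (cd u) L w ≠ ∅ ∧ (∀ k ∈ CD (ht u) (dl u) (cd u) L w, s < k ∧ k + s ≤ H)
        then LW (Lam ν u) L else 0) ≤ v * v + η := by
  intro v η hv hv1 hη
  set C' := C + 1 with hC'
  have hC0 : C' ≠ 0 := by simp [hC']
  have hCt : C' ≠ ⊤ := by simp [hC', hC]
  have hCC : C ≤ C' := le_self_add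
  set e := min η 1 with he
  have he0 : e ≠ 0 := by
    rw [he]; exact (lt_min (pos_iff_ne_zero.2 hη) one_pos).ne'
  have het : e ≠ ⊤ := ne_top_of_le_ne_top ENNReal.one_ne_top (min_le_right _ _)
  have h6 : (6 * C' : ℝ≥0∞) ≠ 0 := mul_ne_zero (by norm_num) hC0
  have h6t : (6 * C' : ℝ≥0∞) ≠ ⊤ := ENNReal.mul_ne_top (by norm_num) hCt
  set lam := e / (6 * C') with hlam
  have hl0 : lam ≠ 0 := (ENNReal.div_pos he0 h6t).ne'
  have hlt : lam ≠ ⊤ := ENNReal.div_ne_top het h6
  have hnum : 3 * (C' * lam) + 3 * (C' * lam) ≤ η := by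
    calc 3 * (C' * lam) + 3 * (C' * lam) = (6 * C') * (e / (6 * C')) := by rw [← hlam]; ring
      _ = e := ENNReal.mul_div_cancel h6 h6t
      _ ≤ η := min_le_left _ _
  have hl2 : lam ^ 2 ≠ 0 := pow_ne_zero _ hl0
  have hl2t : lam ^ 2 ≠ ⊤ := ENNReal.pow_ne_top hlt
  have h20 : (2 : ℝ≥0∞)⁻¹ ≠ 0 := by simp
  obtain ⟨s, hs⟩ := hus (min lam (e * 2⁻¹ * lam ^ 2)) (by
    refine (lt_min (pos_iff_ne_zero.2 hl0) (pos_iff_ne_zero.2 ?_)).ne'
    exact mul_ne_zero (mul_ne_zero he0 h20) hl2)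
  have hs1 : us s ≤ lam := hs.trans (min_le_left _ _)
  have hs2 : 2 * (us s / lam ^ 2) ≤ η := by
    have h7 : us s / lam ^ 2 ≤ e * 2⁻¹ := by
      rw [ENNReal.div_le_iff hl2 hl2t]
      exact hs.trans (min_le_right _ _)
    calc 2 * (us s / lam ^ 2) ≤ 2 * (e * 2⁻¹) := mul_le_mul_right h7 _
      _ = e * (2 * 2⁻¹) := by ring
      _ = e := by rw [ENNReal.mul_inv_cancel (by norm_num) (by norm_num), mul_one]
      _ ≤ η := min_le_left _ _
  set v' := v * 2⁻¹ with hv'
  have hv'0 : v' ≠ 0 := mul_ne_zero hv h20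
  have hv'1 : v' < 1 := by
    calc v' ≤ 1 * 2⁻¹ := mul_le_mul_left hv1 _
      _ = 2⁻¹ := one_mul _
      _ < 1 := ENNReal.inv_lt_one.2 (by norm_num)
  have hvv : v' ≤ v := by
    calc v' ≤ v * 1 := mul_le_mul_right (ENNReal.inv_le_one.2 (by norm_num)) _
      _ = v := mul_one _
  refine ⟨s, 0, fun H _ => ?_⟩
  obtain ⟨thX, hX0, hXt, hXa, hXb⟩ := quantile (av ν (IsUp u H)) c v' hc
    (by rw [av_tot]; exact hup H) (by rw [av_tot]; exact ms_up_le ν u H) hv'0 hv'1
  obtain ⟨thY, hY0, hYt, hYa, hYb⟩ := quantile (av ν (IsDn u H)) c v' hc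
    (by rw [av_tot]; exact hdn H) (by rw [av_tot]; exact ms_dn_le ν u H) hv'0 hv'1
  obtain ⟨fX, cX⟩ := AsmA789.card_le (av ν (IsUp u H))
    (by rw [av_tot]; exact ms_up_le ν u H) hX0
  obtain ⟨fY, cY⟩ := AsmA789.card_le (av ν (IsDn u H))
    (by rw [av_tot]; exact ms_dn_le ν u H) hY0
  rw [Set.ncard_eq_toFinset_card _ fX, mul_comm] at cX
  rw [Set.ncard_eq_toFinset_card _ fY, mul_comm] at cY
  have kX := count (fun w : Lat u => Ph ν u true s H fX.toFinset w) C' lam (us s) thX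
    fX.toFinset.card hC0 hCt hl0 hlt hs1 cX (fun μ M h1 h2 h3 h4 =>
      (Ph_avg ν u hX s H fX.toFinset lam hl0 hlt μ M h1 h2 h3 h4).trans
        (mul_le_mul_left hCC _))
  have kY := count (fun w : Lat u => Ph ν u false s H fY.toFinset w) C' lam (us s) thY
    fY.toFinset.card hC0 hCt hl0 hlt hs1 cY (fun μ M h1 h2 h3 h4 =>
      (Ph_avg ν u hY s H fY.toFinset lam hl0 hlt μ M h1 h2 h3 h4).trans
        (mul_le_mul_left hCC _))
  have hcv : c * c * 2⁻¹ * v = c * (c * v') := by rw [hv']; ring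
  rw [hcv]
  refine ⟨{w | 3 * (C' * lam) < Ph ν u true s H fX.toFinset w},
    {w | 3 * (C' * lam) < Ph ν u false s H fY.toFinset w},
    good_X ν u c v' thX _ η H _ (hdn H) hXb kX hs2, good_Y ν u c v' thY _ η H _ (hup H) hYb kY hs2,
    fun w h1 h2 => ?_⟩
  have h1' : Ph ν u true s H fX.toFinset w ≤ 3 * (C' * lam) := not_lt.1 h1
  have h2' : Ph ν u false s H fY.toFinset w ≤ 3 * (C' * lam) := not_lt.1 h2
  refine (split3 ν u s H fX.toFinset fY.toFinset thX thY v' v'
    (fun z hz => by simpa using hz) (fun z hz => by simpa using hz) hXa hYa w).trans ?_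
  calc Ph ν u true s H fX.toFinset w + Ph ν u false s H fY.toFinset w + v' * v'
      ≤ (3 * (C' * lam) + 3 * (C' * lam)) + v * v :=
        add_le_add (add_le_add h1' h2') (mul_le_mul' hvv hvv)
    _ ≤ η + v * v := add_le_add hnum le_rfl
    _ = v * v + η := add_comm _ _

end inst

end Crest.Agent.R154.HW730
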