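import Crest.Agent.R154.H2_799
import Crest.Agent.R154.RetW_458

/-! Row 154, T0219, ROAD 801 (helper799): the window lemmas (2) and (3) in the letters of
`NBDefs_28` (`Cm`), joint-cut frame (both pieces of height `H`, at depth `0`), and `us → 0`. -/

set_option autoImplicit false

open MeasureTheory ProbabilityTheory Crest.ProbabilityR.RandomEnvironment
open scoped ENNReal

namespace Crest.Agent.R154.Tie799

open Crest.Agent.R154.Flux566 (lw endp sitesL measurable_lw endp_eq_add endp_append)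
open Crest.Agent.R154.Flux132 (lev opp)
open Crest.Agent.R154.NB28 (IsUp IsDn Cm)
open Crest.Agent.R154.Surg799 (aw aw_shift ann_mul endp_mem_sites mem_sitesL_add lvadd lvneg lvself)
open Crest.Agent.R154.WordB956 (PF FH Vis lw_append sitesL_append pf_FH pf_sum_le vis_le mem_sitesL)

variable {d : ℕ}

lemma lv_opp (u : Step d) (x : Site d) : lev (opp u) x = - lev u x := by
  obtain ⟨i, b⟩ := u
  unfold lev opp
  cases b <;> simp

lemma lv_opp' (u : Step d) (x : Site d) : Flux566.lev (opp u) x = - lev u x := lv_opp u x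

lemma opp_vec (u : Step d) : stepVec (opp u) = - stepVec u := Flux566.stepVec_opp u

lemma lvsub (u : Step d) (x y : Site d) : lev u (x - y) = lev u x - lev u y := by
  rw [sub_eq_add_neg, lvadd, lvneg]; ring

lemma up_opp (u : Step d) (n : ℕ) (l : List (Step d)) : IsUp (opp u) n l ↔ IsDn u n l := by
  unfold IsUp IsDn
  simp only [lv_opp]
  constructor
  · rintro ⟨h1, h2⟩
    exact ⟨fun y hy => by have := h1 y hy; omega, by omega⟩
  · rintro ⟨h1, h2⟩
    exact ⟨fun y hy => by have := h1 y hy; omega, by omega⟩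

lemma dn_opp (u : Step d) (n : ℕ) (l : List (Step d)) : IsDn (opp u) n l ↔ IsUp u n l := by
  unfold IsUp IsDn
  simp only [lv_opp]
  constructor
  · rintro ⟨h1, h2⟩
    exact ⟨fun y hy => by have := h1 y hy; omega, by omega⟩
  · rintro ⟨h1, h2⟩
    exact ⟨fun y hy => by have := h1 y hy; omega, by omega⟩

/-- price of a turn of `s` levels, in either direction -/
noncomputable def us (ν : Measure (Row d)) (u : Step d) (s : ℕ) : ℝ≥0∞ :=
  ret ν u s 1 + ret ν (opp u) s 1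

lemma ret_to_zero (ν : Measure (Row d)) [IsProbabilityMeasure ν] (u : Step d) (ε : ℝ≥0∞)
    (hε : ε ≠ 0) : ∃ s0 : ℕ, ∀ s : ℕ, s0 ≤ s → ret ν u s 1 ≤ ε := by
  classical
  obtain ⟨s0, h⟩ := RetW458.ret_small ν (opp u) 1 ε hε
  refine ⟨s0, fun s hs => le_trans ?_ (h s hs)⟩
  unfold ret
  refine ENNReal.tsum_le_tsum fun l => ?_
  by_cases hc : (∀ y ∈ sitesL 0 l, -(1 : ℤ) < lev u y) ∧ lev u (endp 0 l) = -1 ∧
    (∃ y ∈ sitesL 0 l, (s : ℤ) ≤ lev u y)
  · rw [if_pos hc, if_pos]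
    · exact le_rfl
    · obtain ⟨h1, h2, y, hy, hy'⟩ := hc
      refine ⟨fun y hy => ?_, ?_, y, hy, ?_⟩
      · have := h1 y hy
        rw [lv_opp']; omega
      · rw [lv_opp', h2]; rfl
      · rw [lv_opp']; omega
  · rw [if_neg hc]; exact zero_le

theorem us_small (ν : Measure (Row d)) [IsProbabilityMeasure ν] (u : Step d) (ε : ℝ≥0∞)
    (hε : ε ≠ 0) : ∃ s0 : ℕ, ∀ s : ℕ, s0 ≤ s → us ν u s ≤ ε := by
  have h2 : ε / 2 ≠ 0 := ENNReal.div_ne_zero.2 ⟨hε, by simp⟩
  obtain ⟨a, ha⟩ := ret_to_zero ν u (ε / 2) h2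
  obtain ⟨b, hb⟩ := ret_to_zero ν (opp u) (ε / 2) h2
  refine ⟨max a b, fun s hs => ?_⟩
  unfold us
  calc _ ≤ ε / 2 + ε / 2 := add_le_add (ha s (le_trans (le_max_left _ _) hs))
        (hb s (le_trans (le_max_right _ _) hs))
    _ = ε := ENNReal.add_halves ε

theorem us_tendsto (ν : Measure (Row d)) [IsProbabilityMeasure ν] (u : Step d) :
    Filter.Tendsto (us ν u) Filter.atTop (nhds 0) := by
  rw [ENNReal.tendsto_atTop_zero]
  intro ε hε
  exact us_small ν u ε hε.ne'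

open Classical in
/-- **(W3)**: the down walker local, contacts at depth `≤ H - s` -/
theorem W3 (ν : Measure (Row d)) [IsProbabilityMeasure ν] (u : Step d) (H s : ℕ)
    (E : Finset (Site d)) (μ : Site d → ℝ≥0∞) (M lam : ℝ≥0∞) (hM : M ≠ ⊤) (hl0 : lam ≠ 0)
    (hlt : lam ≠ ⊤) (hμM : ∀ w, μ w ≤ M) (hμ1 : ∑' w, μ w ≤ 1) :
    ∑' w : Site d, (if lev u w = 0 then μ w * ∑' π : List (Step d), ∑' γ : List (Step d),
      (if IsUp u H π ∧ IsDn u H γ ∧ endp 0 γ ∈ E ∧ (∃ k, k ∈ Cm u w π γ) ∧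
        (∀ k ∈ Cm u w π γ, k + s ≤ H) then aw ν π * aw ν γ else 0) else 0)
      ≤ 8 * lam + 2 * (M * (E.card * us ν u s) / lam) := by
  have hcore := h3core ν u H H (H - 1) (H - s - 1) E (fun z => μ (stepVec u - z)) M lam hM hl0 hlt
    (fun z => hμM _) (by
      refine le_trans (le_of_eq ?_) hμ1
      exact (Equiv.subLeft (stepVec u)).tsum_eq μ) (by omega)
  have e1 : ((H : ℤ) - 1 - (H - s - 1)) = s := by ring
  have e2 : ((H : ℤ) - (H - 1)) = 1 := by ring
  rw [e1, e2] at hcore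
  have hus : ret ν u s 1 ≤ us ν u s := le_self_add
  refine le_trans ?_ (hcore.trans (by gcongr))
  -- exchange the sums
  have L1 : ∑' w : Site d, (if lev u w = 0 then μ w * ∑' π : List (Step d), ∑' γ : List (Step d),
      (if IsUp u H π ∧ IsDn u H γ ∧ endp 0 γ ∈ E ∧ (∃ k, k ∈ Cm u w π γ) ∧
        (∀ k ∈ Cm u w π γ, k + s ≤ H) then aw ν π * aw ν γ else 0) else 0)
      = ∑' π : List (Step d), ∑' γ : List (Step d), ∑' w : Site d, (if lev u w = 0 ∧
        IsUp u H π ∧ IsDn u H γ ∧ endp 0 γ ∈ E ∧ (∃ k, k ∈ Cm u w π γ) ∧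
        (∀ k ∈ Cm u w π γ, k + s ≤ H) then μ w * (aw ν π * aw ν γ) else 0) := by
    calc _ = ∑' w : Site d, ∑' π : List (Step d), ∑' γ : List (Step d), (if lev u w = 0 ∧
        IsUp u H π ∧ IsDn u H γ ∧ endp 0 γ ∈ E ∧ (∃ k, k ∈ Cm u w π γ) ∧
        (∀ k ∈ Cm u w π γ, k + s ≤ H) then μ w * (aw ν π * aw ν γ) else 0) := by
          refine tsum_congr fun w => ?_
          by_cases hw : lev u w = 0
          · rw [if_pos hw, ← ENNReal.tsum_mul_left]
            refine tsum_congr fun π => ?_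
            rw [← ENNReal.tsum_mul_left]
            refine tsum_congr fun γ => ?_
            simp only [hw, true_and, mul_ite, mul_zero]
          · simp [hw]
      _ = ∑' π : List (Step d), ∑' w : Site d, ∑' γ : List (Step d), (if lev u w = 0 ∧
        IsUp u H π ∧ IsDn u H γ ∧ endp 0 γ ∈ E ∧ (∃ k, k ∈ Cm u w π γ) ∧
        (∀ k ∈ Cm u w π γ, k + s ≤ H) then μ w * (aw ν π * aw ν γ) else 0) := ENNReal.tsum_comm
      _ = _ := tsum_congr fun π => ENNReal.tsum_comm
  have R1 : ∑' x : Site d, (if lev u x = -((H : ℤ) - 1) then ∑' γ : List (Step d), ∑' π : List (Step d),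
      (if IsDn u H γ ∧ endp 0 γ ∈ E ∧ IsUp u H π ∧ (∃ y, y ∈ sitesL x π ∧ y ∈ sitesL 0 γ) ∧
        (∀ y, y ∈ sitesL x π → y ∈ sitesL 0 γ → -((H : ℤ) - s - 1) ≤ lev u y)
        then aw ν γ * aw ν π * μ (stepVec u - endp x π) else 0) else 0)
      = ∑' π : List (Step d), ∑' γ : List (Step d), ∑' x : Site d, (if lev u x = -((H : ℤ) - 1) ∧
        IsDn u H γ ∧ endp 0 γ ∈ E ∧ IsUp u H π ∧ (∃ y, y ∈ sitesL x π ∧ y ∈ sitesL 0 γ) ∧
        (∀ y, y ∈ sitesL x π → y ∈ sitesL 0 γ → -((H : ℤ) - s - 1) ≤ lev u y)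
        then aw ν γ * aw ν π * μ (stepVec u - endp x π) else 0) := by
    calc _ = ∑' x : Site d, ∑' γ : List (Step d), ∑' π : List (Step d),
        (if lev u x = -((H : ℤ) - 1) ∧
        IsDn u H γ ∧ endp 0 γ ∈ E ∧ IsUp u H π ∧ (∃ y, y ∈ sitesL x π ∧ y ∈ sitesL 0 γ) ∧
        (∀ y, y ∈ sitesL x π → y ∈ sitesL 0 γ → -((H : ℤ) - s - 1) ≤ lev u y)
        then aw ν γ * aw ν π * μ (stepVec u - endp x π) else 0) := by
          refine tsum_congr fun x => ?_
          by_cases hx : lev u x = -((H : ℤ) - 1)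
          · simp only [hx, true_and, if_true]
          · simp only [hx, false_and, if_false, tsum_zero]
      _ = ∑' x : Site d, ∑' π : List (Step d), ∑' γ : List (Step d),
        (if lev u x = -((H : ℤ) - 1) ∧
        IsDn u H γ ∧ endp 0 γ ∈ E ∧ IsUp u H π ∧ (∃ y, y ∈ sitesL x π ∧ y ∈ sitesL 0 γ) ∧
        (∀ y, y ∈ sitesL x π → y ∈ sitesL 0 γ → -((H : ℤ) - s - 1) ≤ lev u y)
        then aw ν γ * aw ν π * μ (stepVec u - endp x π) else 0) :=
          tsum_congr fun x => ENNReal.tsum_comm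
      _ = ∑' π : List (Step d), ∑' x : Site d, ∑' γ : List (Step d),
        (if lev u x = -((H : ℤ) - 1) ∧
        IsDn u H γ ∧ endp 0 γ ∈ E ∧ IsUp u H π ∧ (∃ y, y ∈ sitesL x π ∧ y ∈ sitesL 0 γ) ∧
        (∀ y, y ∈ sitesL x π → y ∈ sitesL 0 γ → -((H : ℤ) - s - 1) ≤ lev u y)
        then aw ν γ * aw ν π * μ (stepVec u - endp x π) else 0) := ENNReal.tsum_comm
      _ = _ := tsum_congr fun π => ENNReal.tsum_comm
  rw [L1, R1]
  refine ENNReal.tsum_le_tsum fun π => ENNReal.tsum_le_tsum fun γ => ?_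
  rw [← (Equiv.subLeft (stepVec u - endp 0 π)).tsum_eq (fun w : Site d => (if lev u w = 0 ∧
        IsUp u H π ∧ IsDn u H γ ∧ endp 0 γ ∈ E ∧ (∃ k, k ∈ Cm u w π γ) ∧
        (∀ k ∈ Cm u w π γ, k + s ≤ H) then μ w * (aw ν π * aw ν γ) else 0))]
  refine ENNReal.tsum_le_tsum fun x => ?_
  simp only [Equiv.subLeft_apply]
  set w : Site d := stepVec u - endp 0 π - x with hwdef
  have hxw : x = stepVec u - endp 0 π - w := by rw [hwdef]; abel
  by_cases hc : lev u w = 0 ∧ IsUp u H π ∧ IsDn u H γ ∧ endp 0 γ ∈ E ∧ (∃ k, k ∈ Cm u w π γ) ∧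
        (∀ k ∈ Cm u w π γ, k + s ≤ H)
  · rw [if_pos hc, if_pos]
    · refine le_of_eq ?_
      have : stepVec u - endp x π = w := by
        rw [endp_eq_add, hwdef]; abel
      rw [this]; ring
    · obtain ⟨hw, hU, hD, hE, ⟨k, y0, hy1, hy2, hyk⟩, hall⟩ := hc
      refine ⟨?_, hD, hE, hU, ?_, ?_⟩
      · rw [hxw, lvsub, lvsub, lvself, hU.2, hw]; ring
      · refine ⟨y0 - (w + stepVec (opp u)), ?_, ?_⟩
        · rw [mem_sites_shift] at hy1 ⊢
          have : y0 - (w + stepVec (opp u)) - x = y0 - -endp 0 π := by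
            rw [hxw, opp_vec]; abel
          rw [this]; exact hy1
        · exact (mem_sites_shift _ _ _).1 hy2
      · intro y hyX hyY
        have hk : (-(lev u y - 1)).toNat ∈ Cm u w π γ := by
          have hly := hD.1 y hyY
          refine ⟨y + (w + stepVec (opp u)), ?_, ?_, ?_⟩
          · rw [mem_sites_shift] at hyX ⊢
            have : y + (w + stepVec (opp u)) - -endp 0 π = y - x := by
              rw [hxw, opp_vec]; abel
            rw [this]; exact hyX
          · rw [mem_sites_shift]; simpa using hyY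
          · rw [lvadd, lvadd, hw, opp_vec, lvneg, lvself]; omega
        have := hall _ hk
        have hly := hD.1 y hyY
        omega
  · rw [if_neg hc]; exact zero_le

open Classical in
/-- **(W2)**: the up walker local, contacts at depth `> s` -/
theorem W2 (ν : Measure (Row d)) [IsProbabilityMeasure ν] (u : Step d) (H s : ℕ)
    (E : Finset (Site d)) (μ : Site d → ℝ≥0∞) (M lam : ℝ≥0∞) (hl0 : lam ≠ 0)
    (hlt : lam ≠ ⊤) (hμM : ∀ w, μ w ≤ M) (hμ1 : ∑' w, μ w ≤ 1) :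
    ∑' w : Site d, (if lev u w = 0 then μ w * ∑' π : List (Step d), ∑' γ : List (Step d),
      (if IsUp u H π ∧ IsDn u H γ ∧ endp 0 π ∈ E ∧ (∃ k, k ∈ Cm u w π γ) ∧
        (∀ k ∈ Cm u w π γ, s < k) then aw ν π * aw ν γ else 0) else 0)
      ≤ lam + M * (lam⁻¹ * (E.card * us ν u s)) := by
  have hcore := h2core ν (opp u) H H (H - 1) (H - s - 1) E (fun z => μ (z + stepVec u)) M lam hl0 hlt
    (fun z => hμM _) (by
      refine le_trans (le_of_eq ?_) hμ1
      exact (Equiv.addRight (stepVec u)).tsum_eq μ) (by omega)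
  have e1 : ((H : ℤ) - 1 - (H - s - 1)) = s := by ring
  have e2 : ((H : ℤ) - (H - 1)) = 1 := by ring
  rw [e1, e2] at hcore
  simp only [dn_opp, up_opp] at hcore
  have hus : ret ν (opp u) s 1 ≤ us ν u s := le_add_self
  refine le_trans ?_ (hcore.trans (by gcongr))
  -- exchange the sums
  have L1 : ∑' w : Site d, (if lev u w = 0 then μ w * ∑' π : List (Step d), ∑' γ : List (Step d),
      (if IsUp u H π ∧ IsDn u H γ ∧ endp 0 π ∈ E ∧ (∃ k, k ∈ Cm u w π γ) ∧
        (∀ k ∈ Cm u w π γ, s < k) then aw ν π * aw ν γ else 0) else 0)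
      = ∑' π : List (Step d), ∑' γ : List (Step d), ∑' w : Site d, (if lev u w = 0 ∧
        IsUp u H π ∧ IsDn u H γ ∧ endp 0 π ∈ E ∧ (∃ k, k ∈ Cm u w π γ) ∧
        (∀ k ∈ Cm u w π γ, s < k) then μ w * (aw ν π * aw ν γ) else 0) := by
    calc _ = ∑' w : Site d, ∑' π : List (Step d), ∑' γ : List (Step d), (if lev u w = 0 ∧
        IsUp u H π ∧ IsDn u H γ ∧ endp 0 π ∈ E ∧ (∃ k, k ∈ Cm u w π γ) ∧
        (∀ k ∈ Cm u w π γ, s < k) then μ w * (aw ν π * aw ν γ) else 0) := by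
          refine tsum_congr fun w => ?_
          by_cases hw : lev u w = 0
          · rw [if_pos hw, ← ENNReal.tsum_mul_left]
            refine tsum_congr fun π => ?_
            rw [← ENNReal.tsum_mul_left]
            refine tsum_congr fun γ => ?_
            simp only [hw, true_and, mul_ite, mul_zero]
          · simp [hw]
      _ = ∑' π : List (Step d), ∑' w : Site d, ∑' γ : List (Step d), (if lev u w = 0 ∧
        IsUp u H π ∧ IsDn u H γ ∧ endp 0 π ∈ E ∧ (∃ k, k ∈ Cm u w π γ) ∧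
        (∀ k ∈ Cm u w π γ, s < k) then μ w * (aw ν π * aw ν γ) else 0) := ENNReal.tsum_comm
      _ = _ := tsum_congr fun π => ENNReal.tsum_comm
  have R1 : ∑' x : Site d, (if lev (opp u) x = -((H : ℤ) - 1) then
      ∑' π : List (Step d), ∑' γ : List (Step d),
      (if IsUp u H π ∧ endp 0 π ∈ E ∧ IsDn u H γ ∧ (∃ y, y ∈ sitesL x γ ∧ y ∈ sitesL 0 π) ∧
        (∀ y, y ∈ sitesL x γ → y ∈ sitesL 0 π → -((H : ℤ) - s - 1) ≤ lev (opp u) y)
        then aw ν π * aw ν γ * μ (x - endp 0 π + stepVec u) else 0) else 0)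
      = ∑' π : List (Step d), ∑' γ : List (Step d), ∑' x : Site d,
        (if lev (opp u) x = -((H : ℤ) - 1) ∧
        IsUp u H π ∧ endp 0 π ∈ E ∧ IsDn u H γ ∧ (∃ y, y ∈ sitesL x γ ∧ y ∈ sitesL 0 π) ∧
        (∀ y, y ∈ sitesL x γ → y ∈ sitesL 0 π → -((H : ℤ) - s - 1) ≤ lev (opp u) y)
        then aw ν π * aw ν γ * μ (x - endp 0 π + stepVec u) else 0) := by
    calc _ = ∑' x : Site d, ∑' π : List (Step d), ∑' γ : List (Step d),
        (if lev (opp u) x = -((H : ℤ) - 1) ∧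
        IsUp u H π ∧ endp 0 π ∈ E ∧ IsDn u H γ ∧ (∃ y, y ∈ sitesL x γ ∧ y ∈ sitesL 0 π) ∧
        (∀ y, y ∈ sitesL x γ → y ∈ sitesL 0 π → -((H : ℤ) - s - 1) ≤ lev (opp u) y)
        then aw ν π * aw ν γ * μ (x - endp 0 π + stepVec u) else 0) := by
          refine tsum_congr fun x => ?_
          by_cases hx : lev (opp u) x = -((H : ℤ) - 1)
          · simp only [hx, true_and, if_true]
          · simp only [hx, false_and, if_false, tsum_zero]
      _ = ∑' π : List (Step d), ∑' x : Site d, ∑' γ : List (Step d),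
        (if lev (opp u) x = -((H : ℤ) - 1) ∧
        IsUp u H π ∧ endp 0 π ∈ E ∧ IsDn u H γ ∧ (∃ y, y ∈ sitesL x γ ∧ y ∈ sitesL 0 π) ∧
        (∀ y, y ∈ sitesL x γ → y ∈ sitesL 0 π → -((H : ℤ) - s - 1) ≤ lev (opp u) y)
        then aw ν π * aw ν γ * μ (x - endp 0 π + stepVec u) else 0) := ENNReal.tsum_comm
      _ = _ := tsum_congr fun π => ENNReal.tsum_comm
  rw [L1, R1]
  refine ENNReal.tsum_le_tsum fun π => ENNReal.tsum_le_tsum fun γ => ?_
  rw [← (Equiv.subRight (stepVec (opp u) + endp 0 π)).tsum_eq (fun w : Site d => (if lev u w = 0 ∧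
        IsUp u H π ∧ IsDn u H γ ∧ endp 0 π ∈ E ∧ (∃ k, k ∈ Cm u w π γ) ∧
        (∀ k ∈ Cm u w π γ, s < k) then μ w * (aw ν π * aw ν γ) else 0))]
  refine ENNReal.tsum_le_tsum fun x => ?_
  simp only [Equiv.subRight_apply]
  set w : Site d := x - (stepVec (opp u) + endp 0 π) with hwdef
  have hxw : x = w + (stepVec (opp u) + endp 0 π) := by rw [hwdef]; abel
  by_cases hc : lev u w = 0 ∧ IsUp u H π ∧ IsDn u H γ ∧ endp 0 π ∈ E ∧ (∃ k, k ∈ Cm u w π γ) ∧
        (∀ k ∈ Cm u w π γ, s < k)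
  · rw [if_pos hc, if_pos]
    · refine le_of_eq ?_
      have : x - endp 0 π + stepVec u = w := by
        rw [hwdef, opp_vec]; abel
      rw [this]; ring
    · obtain ⟨hw, hU, hD, hE, ⟨k, y0, hy1, hy2, hyk⟩, hall⟩ := hc
      refine ⟨?_, hU, hE, hD, ?_, ?_⟩
      · rw [lv_opp, hxw, lvadd, lvadd, opp_vec, lvneg, lvself, hU.2, hw]; ring
      · refine ⟨y0 + endp 0 π, ?_, ?_⟩
        · rw [mem_sites_shift] at hy2 ⊢
          have : y0 + endp 0 π - x = y0 - (w + stepVec (opp u)) := by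
            rw [hxw]; abel
          rw [this]; exact hy2
        · have := (mem_sites_shift _ _ _).1 hy1
          rwa [sub_neg_eq_add] at this
      · intro y hyX hyY
        have hly := hU.1 y hyY
        have hk : ((H : ℤ) - lev u y).toNat ∈ Cm u w π γ := by
          refine ⟨y - endp 0 π, ?_, ?_, ?_⟩
          · rw [mem_sites_shift]
            simpa using hyY
          · rw [mem_sites_shift] at hyX ⊢
            have : y - endp 0 π - (w + stepVec (opp u)) = y - x := by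
              rw [hxw]; abel
            rw [this]; exact hyX
          · rw [lvsub, hU.2]; omega
        have := hall _ hk
        rw [lv_opp]
        omega
  · rw [if_neg hc]; exact zero_le

end Crest.Agent.R154.Tie799
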