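import Crest.Agent.R154.HW1_998
import Crest.Agent.R154.W23_799

/-! Row 154, ROAD 801, joint-cut frame: 139's input `hW` for 657's instance, unconditionally
(helper998's proof with helper799's window lemmas W2, W3 in the letters of `NBDefs_28`). -/

set_option autoImplicit false

open MeasureTheory ProbabilityTheory Crest.ProbabilityR.RandomEnvironment
open scoped ENNReal

namespace Crest.Agent.R154.HW799

open Crest.Agent.R154.B5A Crest.Agent.R154.B5W Crest.Agent.R154.HW1998
open Crest.Agent.R154.NB28 (IsUp IsDn Cm)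
open Crest.Agent.R154.Flux566 (endp sitesL endp_eq_add lev lev_add lev_neg lev_self lev_zero)
open Crest.Agent.R154.JAsm139 (Good card)

variable {d : ℕ} (ν : Measure (Row d)) [IsProbabilityMeasure ν] (u : Step d)

open Classical in
/-- **139's input `hW`** for 657's instance, unconditionally (proof: helper998's, with the window
lemmas `Tie799.W2`, `Tie799.W3`). -/
theorem hW0 (c : ℝ≥0∞) (hc : c ≠ 0)
    (hcX : ∀ n : ℕ, c ≤ ∑' π : List (Step d), if IsUp u n π then NB28.aw ν π else 0)
    (hcY : ∀ n : ℕ, c ≤ ∑' γ : List (Step d), if IsDn u n γ then NB28.aw ν γ else 0)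
    (h1X : ∀ n : ℕ, ∑' π : List (Step d), (if IsUp u n π then NB28.aw ν π else 0) ≤ 1)
    (h1Y : ∀ n : ℕ, ∑' γ : List (Step d), (if IsDn u n γ then NB28.aw ν γ else 0) ≤ 1)
    (υ η : ℝ≥0∞) (hυ : υ ≠ 0) (hυ1 : υ ≤ 1) (hη : η ≠ 0) :
    ∃ s H0 : ℕ, ∀ H, H0 ≤ H → ∃ S1 S2 : Set (Lat u),
      Good (Lam ν u) (ht u) (dl u) (c * c * υ) η H S1 ∧
      Good (Lam ν u) (ht u) (dl u) (c * c * υ) η H S2 ∧
      ∀ w, w ∉ S1 → w ∉ S2 →
        (∑' L : List (PB u), if HT (ht u) L = H ∧ CD (ht u) (dl u) (cd u) L w ≠ ∅ ∧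
          (∀ k ∈ CD (ht u) (dl u) (cd u) L w, s < k ∧ k + s ≤ H) then LW (Lam ν u) L else 0)
        ≤ υ * υ + η := by
  obtain ⟨us, hus0⟩ : ∃ us : ℕ → ℝ≥0∞, us = Tie799.us ν u := ⟨_, rfl⟩
  have hus : Filter.Tendsto us Filter.atTop (nhds 0) := by rw [hus0]; exact Tie799.us_tendsto ν u
  obtain ⟨C', hC'⟩ : ∃ C' : ℝ≥0∞, C' = 8 := ⟨_, rfl⟩
  have hC0 : C' ≠ 0 := by rw [hC']; norm_num
  have hCt : C' ≠ ⊤ := by rw [hC']; norm_num
  -- choice of `lam`
  obtain ⟨lam, hl0, hlt, hl⟩ : ∃ lam : ℝ≥0∞, lam ≠ 0 ∧ lam ≠ ⊤ ∧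
      C' * (3 * lam) + C' * (3 * lam) ≤ η := by
    refine ⟨min 1 (η / (6 * C')), ?_, ?_, ?_⟩
    · refine (lt_min one_pos (ENNReal.div_pos hη ?_)).ne'
      exact ENNReal.mul_ne_top (by norm_num) hCt
    · exact ne_top_of_le_ne_top ENNReal.one_ne_top (min_le_left _ _)
    · calc C' * (3 * min 1 (η / (6 * C'))) + C' * (3 * min 1 (η / (6 * C')))
          = (6 * C') * min 1 (η / (6 * C')) := by ring
        _ ≤ (6 * C') * (η / (6 * C')) := mul_le_mul_right (min_le_right _ _) _
        _ ≤ η := ENNReal.mul_div_le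
  -- choice of `s`
  obtain ⟨s, hs⟩ : ∃ s : ℕ, us s ≤ min lam (η * (lam * lam)) := by
    have : (0 : ℝ≥0∞) < min lam (η * (lam * lam)) :=
      lt_min (pos_iff_ne_zero.2 hl0)
        (pos_iff_ne_zero.2 (mul_ne_zero hη (mul_ne_zero hl0 hl0)))
    exact (hus.eventually_le_const this).exists
  have hs1 : us s ≤ lam := hs.trans (min_le_left _ _)
  have hs2 : us s ≤ η * (lam * lam) := hs.trans (min_le_right _ _)
  refine ⟨s, 0, fun H _ => ?_⟩
  set fX : List (Step d) → ℝ≥0∞ := fun π => if IsUp u H π then NB28.aw ν π else 0 with hfX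
  set fY : List (Step d) → ℝ≥0∞ := fun γ => if IsDn u H γ then NB28.aw ν γ else 0 with hfY
  obtain ⟨tX, htX0, hX1, hX2, hX3, hX4⟩ := thr fX (endp (0 : Site d)) c hc (hcX H) (h1X H) υ hυ hυ1
  obtain ⟨tY, htY0, hY1, hY2, hY3, hY4⟩ := thr fY (endp (0 : Site d)) c hc (hcY H) (h1Y H) υ hυ hυ1
  set pX := pf fX (endp (0 : Site d)) with hpX
  set pY := pf fY (endp (0 : Site d)) with hpY
  set AX : Lat u → ℝ≥0∞ := fun w => ∑' π : List (Step d), ∑' γ : List (Step d),
    if (IsUp u H π ∧ IsDn u H γ) ∧ Cl u s H w.1 π γ ∧ tX ≤ pX (endp 0 π)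
      then NB28.aw ν π * NB28.aw ν γ else 0 with hAX
  set AY : Lat u → ℝ≥0∞ := fun w => ∑' π : List (Step d), ∑' γ : List (Step d),
    if (IsUp u H π ∧ IsDn u H γ) ∧ Cl u s H w.1 π γ ∧ tY ≤ pY (endp 0 γ)
      then NB28.aw ν π * NB28.aw ν γ else 0 with hAY
  -- uniform weights
  have unif : ∀ F : Finset (Lat u), F.Nonempty → ∀ (G : Site d → ℝ≥0∞) (A : Lat u → ℝ≥0∞),
      (∀ w, A w ≤ G w.1) → ∀ μ : Site d → ℝ≥0∞,
      (∀ x, μ x = if x ∈ F.image Subtype.val then (F.card : ℝ≥0∞)⁻¹ else 0) →
      ∑' x, μ x ≤ 1 ∧ (∀ x, μ x ≤ (F.card : ℝ≥0∞)⁻¹) ∧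
      (F.card : ℝ≥0∞)⁻¹ * ∑ w ∈ F, A w ≤ ∑' x, μ x * G x := by
    intro F hF G A hA μ hμ
    have hN0 : (F.card : ℝ≥0∞) ≠ 0 := by exact_mod_cast hF.card_ne_zero
    have hNt : (F.card : ℝ≥0∞) ≠ ⊤ := ENNReal.natCast_ne_top _
    have hinj : Set.InjOn (Subtype.val : Lat u → Site d) (F : Set (Lat u)) :=
      fun a _ b _ h => Subtype.ext h
    refine ⟨?_, ?_, ?_⟩
    · rw [tsum_eq_sum (s := F.image Subtype.val)]
      · rw [Finset.sum_congr rfl (fun x hx => by rw [hμ, if_pos hx]), Finset.sum_const,
          Finset.card_image_of_injOn hinj, nsmul_eq_mul]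
        exact le_of_eq (ENNReal.mul_inv_cancel hN0 hNt)
      · intro x hx; rw [hμ, if_neg hx]
    · intro x; rw [hμ]; split_ifs
      · exact le_rfl
      · exact zero_le
    · calc (F.card : ℝ≥0∞)⁻¹ * ∑ w ∈ F, A w
          = ∑ w ∈ F, (F.card : ℝ≥0∞)⁻¹ * A w := Finset.mul_sum _ _ _
        _ ≤ ∑ w ∈ F, μ w.1 * G w.1 := by
            refine Finset.sum_le_sum fun w hw => ?_
            rw [hμ, if_pos (Finset.mem_image_of_mem Subtype.val hw)]
            exact mul_le_mul_right (hA w) _
        _ = ∑ x ∈ F.image Subtype.val, μ x * G x :=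
            (Finset.sum_image (f := fun x => μ x * G x) hinj).symm
        _ ≤ _ := ENNReal.sum_le_tsum _
  -- the two window lemmas
  have wX : tX * card {w | C' * (3 * lam) < AX w} ≤ η := by
    set E : Finset (Site d) := hX3.toFinset with hE
    have hEc : tX * (E.card : ℝ≥0∞) ≤ 1 := by
      refine le_trans (mul_le_mul_right ?_ _) hX4
      rw [← fin_card pX tX hX3]
    refine small_set AX C' lam (us s) (E.card : ℝ≥0∞) tX η hC0 hCt hl0 hlt hs1 hs2 hEc ?_
    intro F hF
    have hq := Tie799.W2 ν u H s E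
      (fun x => if x ∈ F.image Subtype.val then (F.card : ℝ≥0∞)⁻¹ else 0)
      ((F.card : ℝ≥0∞)⁻¹) lam hl0 hlt
    obtain ⟨q1, q2, q3⟩ := unif F hF (fun x => if lev u x = 0 then ∑' π : List (Step d),
      ∑' γ : List (Step d), (if IsUp u H π ∧
      IsDn u H γ ∧ endp 0 π ∈ E ∧ (∃ k, k ∈ Cm u x π γ) ∧
      (∀ k ∈ Cm u x π γ, s < k) then Surg799.aw ν π * Surg799.aw ν γ else 0) else 0)
      AX (by
        intro w
        have hw0 : lev u w.1 = 0 := w.2
        simp only [hw0, if_true]
        refine ENNReal.tsum_le_tsum fun π => ENNReal.tsum_le_tsum fun γ => ?_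
        by_cases hcd : (IsUp u H π ∧ IsDn u H γ) ∧ Cl u s H w.1 π γ ∧ tX ≤ pX (endp 0 π)
        · rw [if_pos hcd]
          obtain ⟨⟨a1, a2⟩, ⟨⟨k, hk⟩, a3⟩, a4⟩ := hcd
          rw [if_pos]
          · exact le_rfl
          · refine ⟨a1, a2, ?_, ⟨k, hk⟩, fun k' hk' => (a3 k' hk').1⟩
            rw [hE]
            simpa using a4
        · rw [if_neg hcd]; exact zero_le)
      (fun x => if x ∈ F.image Subtype.val then (F.card : ℝ≥0∞)⁻¹ else 0) (fun x => rfl)
    refine q3.trans (le_trans (le_of_eq ?_) ((hq q2 q1).trans ?_))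
    · refine tsum_congr fun x => ?_
      by_cases hx0 : lev u x = 0
      · have hx1 : Flux132.lev u x = 0 := hx0
        simp only [hx0, hx1, if_true]
      · have hx1 : ¬ Flux132.lev u x = 0 := hx0
        simp only [hx0, hx1, if_false, mul_zero]
    · rw [← hus0, hC']
      have e : (F.card : ℝ≥0∞)⁻¹ * (lam⁻¹ * ((E.card : ℝ≥0∞) * us s))
          = (F.card : ℝ≥0∞)⁻¹ * E.card * us s / lam := by
        rw [ENNReal.div_eq_inv_mul]; ring
      rw [e]
      calc lam + (F.card : ℝ≥0∞)⁻¹ * E.card * us s / lam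
          ≤ 1 * (lam + (F.card : ℝ≥0∞)⁻¹ * E.card * us s / lam + us s) := by
            rw [one_mul]; exact le_self_add
        _ ≤ _ := mul_le_mul' (by norm_num) le_rfl
  have wY : tY * card {w | C' * (3 * lam) < AY w} ≤ η := by
    set E : Finset (Site d) := hY3.toFinset with hE
    have hEc : tY * (E.card : ℝ≥0∞) ≤ 1 := by
      refine le_trans (mul_le_mul_right ?_ _) hY4
      rw [← fin_card pY tY hY3]
    refine small_set AY C' lam (us s) (E.card : ℝ≥0∞) tY η hC0 hCt hl0 hlt hs1 hs2 hEc ?_
    intro F hF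
    have hFt : (F.card : ℝ≥0∞)⁻¹ ≠ ⊤ := by
      rw [Ne, ENNReal.inv_eq_top]; exact_mod_cast hF.card_ne_zero
    have hq := Tie799.W3 ν u H s E
      (fun x => if x ∈ F.image Subtype.val then (F.card : ℝ≥0∞)⁻¹ else 0)
      ((F.card : ℝ≥0∞)⁻¹) lam hFt hl0 hlt
    obtain ⟨q1, q2, q3⟩ := unif F hF (fun x => if lev u x = 0 then ∑' π : List (Step d),
      ∑' γ : List (Step d), (if IsUp u H π ∧
      IsDn u H γ ∧ endp 0 γ ∈ E ∧ (∃ k, k ∈ Cm u x π γ) ∧
      (∀ k ∈ Cm u x π γ, k + s ≤ H) then Surg799.aw ν π * Surg799.aw ν γ else 0) else 0)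
      AY (by
        intro w
        have hw0 : lev u w.1 = 0 := w.2
        simp only [hw0, if_true]
        refine ENNReal.tsum_le_tsum fun π => ENNReal.tsum_le_tsum fun γ => ?_
        by_cases hcd : (IsUp u H π ∧ IsDn u H γ) ∧ Cl u s H w.1 π γ ∧ tY ≤ pY (endp 0 γ)
        · rw [if_pos hcd]
          obtain ⟨⟨a1, a2⟩, ⟨⟨k, hk⟩, a3⟩, a4⟩ := hcd
          rw [if_pos]
          · exact le_rfl
          · refine ⟨a1, a2, ?_, ⟨k, hk⟩, fun k' hk' => (a3 k' hk').2⟩
            rw [hE]
            simpa using a4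
        · rw [if_neg hcd]; exact zero_le)
      (fun x => if x ∈ F.image Subtype.val then (F.card : ℝ≥0∞)⁻¹ else 0) (fun x => rfl)
    refine q3.trans (le_trans (le_of_eq ?_) ((hq q2 q1).trans ?_))
    · refine tsum_congr fun x => ?_
      by_cases hx0 : lev u x = 0
      · have hx1 : Flux132.lev u x = 0 := hx0
        simp only [hx0, hx1, if_true]
      · have hx1 : ¬ Flux132.lev u x = 0 := hx0
        simp only [hx0, hx1, if_false, mul_zero]
    · rw [← hus0, hC', ← mul_assoc ((F.card : ℝ≥0∞)⁻¹)]
      calc 8 * lam + 2 * ((F.card : ℝ≥0∞)⁻¹ * E.card * us s / lam)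
          ≤ 8 * lam + 8 * ((F.card : ℝ≥0∞)⁻¹ * E.card * us s / lam) + 8 * us s := by
            refine le_add_right (add_le_add le_rfl (mul_le_mul' (by norm_num) le_rfl))
        _ = _ := by ring
  refine ⟨{w | C' * (3 * lam) < AX w}, {w | C' * (3 * lam) < AY w}, ?_, ?_, ?_⟩
  · refine ⟨{L | pX (endp 0 (cat L).1) ≤ tX}, tX, ?_, ?_, wX⟩
    · have h := tsum_L ν u H (fun x => if pX (endp 0 x.1) ≤ tX then 1 else 0)
      calc c * c * υ = (c * υ) * c := by ring
        _ ≤ (∑' π, (if pX (endp 0 π) ≤ tX then fX π else 0)) * ∑' γ, fY γ :=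
            mul_le_mul' hX2 (hcY H)
        _ = ∑' π : List (Step d), ∑' γ : List (Step d), if IsUp u H π ∧ IsDn u H γ then
              NB28.aw ν π * NB28.aw ν γ * (if pX (endp 0 π) ≤ tX then 1 else 0) else 0 := by
            rw [← ENNReal.tsum_mul_right]
            refine tsum_congr fun π => ?_
            rw [← ENNReal.tsum_mul_left]
            refine tsum_congr fun γ => ?_
            by_cases b1 : IsUp u H π <;> by_cases b2 : IsDn u H γ <;>
              by_cases b3 : pX (endp 0 π) ≤ tX <;> simp [hfX, hfY, b1, b2, b3]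
        _ = _ := h.symm
        _ = _ := by
            refine tsum_congr fun L => ?_
            by_cases b1 : HT (ht u) L = H <;> by_cases b2 : pX (endp 0 (cat L).1) ≤ tX <;>
              simp [b1, b2]
    · intro w w'
      have h := tsum_L ν u H (fun x => if pX (endp 0 x.1) ≤ tX ∧
        w.1 + endp 0 x.1 + endp 0 x.2 = w'.1 then 1 else 0)
      calc _ ≤ ∑' L : List (PB u), (if HT (ht u) L = H then LW (Lam ν u) L *
            (if pX (endp 0 (cat L).1) ≤ tX ∧
              w.1 + endp 0 (cat L).1 + endp 0 (cat L).2 = w'.1 then 1 else 0) else 0) := by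
            refine ENNReal.tsum_le_tsum fun L => ?_
            by_cases b : HT (ht u) L = H ∧ L ∈ {L | pX (endp 0 (cat L).1) ≤ tX} ∧
              act (dl u) L w = w'
            · rw [if_pos b, if_pos b.1, if_pos ⟨b.2.1, by rw [← act_cat, b.2.2]⟩, mul_one]
            · rw [if_neg b]; exact zero_le
        _ = _ := h
        _ ≤ ∑' γ : List (Step d), fY γ * tX := by
            rw [ENNReal.tsum_comm]
            refine ENNReal.tsum_le_tsum fun γ => ?_
            by_cases b2 : IsDn u H γ
            · set z0 : Site d := w'.1 - w.1 - endp 0 γ with hz0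
              by_cases b3 : pX z0 ≤ tX
              · calc _ ≤ ∑' π : List (Step d), fY γ * (if endp 0 π = z0 then fX π else 0) := by
                      refine ENNReal.tsum_le_tsum fun π => ?_
                      by_cases b4 : (IsUp u H π ∧ IsDn u H γ)
                      · rw [if_pos b4]
                        by_cases b5 : pX (endp 0 π) ≤ tX ∧
                          w.1 + endp 0 π + endp 0 γ = w'.1
                        · rw [if_pos b5, if_pos (by rw [hz0, ← b5.2]; abel)]
                          simp only [hfX, hfY, if_pos b4.1, if_pos b2]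
                          rw [mul_one, mul_comm]
                        · rw [if_neg b5, mul_zero]; exact zero_le
                      · rw [if_neg b4]; exact zero_le
                  _ = fY γ * pX z0 := by rw [ENNReal.tsum_mul_left, pf_eq]
                  _ ≤ _ := mul_le_mul_right b3 _
              · refine le_trans (le_of_eq ?_) zero_le
                rw [ENNReal.tsum_eq_zero]
                intro π
                by_cases b4 : (IsUp u H π ∧ IsDn u H γ)
                · rw [if_pos b4, if_neg, mul_zero]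
                  rintro ⟨c1, c2⟩
                  apply b3
                  rwa [show z0 = endp 0 π by rw [hz0, ← c2]; abel]
                · rw [if_neg b4]
            · refine le_trans (le_of_eq ?_) zero_le
              rw [ENNReal.tsum_eq_zero]
              intro π
              rw [if_neg (fun b => b2 b.2)]
        _ = (∑' γ, fY γ) * tX := ENNReal.tsum_mul_right
        _ ≤ 1 * tX := mul_le_mul_left (h1Y H) _
        _ = tX := one_mul _
  · refine ⟨{L | pY (endp 0 (cat L).2) ≤ tY}, tY, ?_, ?_, wY⟩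
    · have h := tsum_L ν u H (fun x => if pY (endp 0 x.2) ≤ tY then 1 else 0)
      calc c * c * υ = c * (c * υ) := by ring
        _ ≤ (∑' π, fX π) * ∑' γ, (if pY (endp 0 γ) ≤ tY then fY γ else 0) :=
            mul_le_mul' (hcX H) hY2
        _ = ∑' π : List (Step d), ∑' γ : List (Step d), if IsUp u H π ∧ IsDn u H γ then
              NB28.aw ν π * NB28.aw ν γ * (if pY (endp 0 γ) ≤ tY then 1 else 0) else 0 := by
            rw [← ENNReal.tsum_mul_right]
            refine tsum_congr fun π => ?_
            rw [← ENNReal.tsum_mul_left]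
            refine tsum_congr fun γ => ?_
            by_cases b1 : IsUp u H π <;> by_cases b2 : IsDn u H γ <;>
              by_cases b3 : pY (endp 0 γ) ≤ tY <;> simp [hfX, hfY, b1, b2, b3]
        _ = _ := h.symm
        _ = _ := by
            refine tsum_congr fun L => ?_
            by_cases b1 : HT (ht u) L = H <;> by_cases b2 : pY (endp 0 (cat L).2) ≤ tY <;>
              simp [b1, b2]
    · intro w w'
      have h := tsum_L ν u H (fun x => if pY (endp 0 x.2) ≤ tY ∧
        w.1 + endp 0 x.1 + endp 0 x.2 = w'.1 then 1 else 0)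
      calc _ ≤ ∑' L : List (PB u), (if HT (ht u) L = H then LW (Lam ν u) L *
            (if pY (endp 0 (cat L).2) ≤ tY ∧
              w.1 + endp 0 (cat L).1 + endp 0 (cat L).2 = w'.1 then 1 else 0) else 0) := by
            refine ENNReal.tsum_le_tsum fun L => ?_
            by_cases b : HT (ht u) L = H ∧ L ∈ {L | pY (endp 0 (cat L).2) ≤ tY} ∧
              act (dl u) L w = w'
            · rw [if_pos b, if_pos b.1, if_pos ⟨b.2.1, by rw [← act_cat, b.2.2]⟩, mul_one]
            · rw [if_neg b]; exact zero_le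
        _ = _ := h
        _ ≤ ∑' π : List (Step d), fX π * tY := by
            refine ENNReal.tsum_le_tsum fun π => ?_
            by_cases b2 : IsUp u H π
            · set z0 : Site d := w'.1 - w.1 - endp 0 π with hz0
              by_cases b3 : pY z0 ≤ tY
              · calc _ ≤ ∑' γ : List (Step d), fX π * (if endp 0 γ = z0 then fY γ else 0) := by
                      refine ENNReal.tsum_le_tsum fun γ => ?_
                      by_cases b4 : (IsUp u H π ∧ IsDn u H γ)
                      · rw [if_pos b4]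
                        by_cases b5 : pY (endp 0 γ) ≤ tY ∧
                          w.1 + endp 0 π + endp 0 γ = w'.1
                        · rw [if_pos b5, if_pos (by rw [hz0, ← b5.2]; abel)]
                          simp only [hfX, hfY, if_pos b4.2, if_pos b2]
                          rw [mul_one]
                        · rw [if_neg b5, mul_zero]; exact zero_le
                      · rw [if_neg b4]; exact zero_le
                  _ = fX π * pY z0 := by rw [ENNReal.tsum_mul_left, pf_eq]
                  _ ≤ _ := mul_le_mul_right b3 _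
              · refine le_trans (le_of_eq ?_) zero_le
                rw [ENNReal.tsum_eq_zero]
                intro γ
                by_cases b4 : (IsUp u H π ∧ IsDn u H γ)
                · rw [if_pos b4, if_neg, mul_zero]
                  rintro ⟨c1, c2⟩
                  apply b3
                  rwa [show z0 = endp 0 γ by rw [hz0, ← c2]; abel]
                · rw [if_neg b4]
            · refine le_trans (le_of_eq ?_) zero_le
              rw [ENNReal.tsum_eq_zero]
              intro γ
              rw [if_neg (fun b => b2 b.1)]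
        _ = (∑' π, fX π) * tY := ENNReal.tsum_mul_right
        _ ≤ 1 * tY := mul_le_mul_left (h1X H) _
        _ = tY := one_mul _
  · intro w hw1 hw2
    have hA1 : AX w ≤ C' * (3 * lam) := not_lt.1 hw1
    have hA2 : AY w ≤ C' * (3 * lam) := not_lt.1 hw2
    have h := tsum_L ν u H (fun x => if Cl u s H w.1 x.1 x.2 then 1 else 0)
    calc _ ≤ ∑' L : List (PB u), (if HT (ht u) L = H then LW (Lam ν u) L *
            (if Cl u s H w.1 (cat L).1 (cat L).2 then 1 else 0) else 0) := by
          refine ENNReal.tsum_le_tsum fun L => ?_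
          by_cases b : HT (ht u) L = H ∧ CD (ht u) (dl u) (cd u) L w ≠ ∅ ∧
            (∀ k ∈ CD (ht u) (dl u) (cd u) L w, s < k ∧ k + s ≤ H)
          · rw [if_pos b, if_pos b.1, if_pos, mul_one]
            obtain ⟨_, b2, b3⟩ := b
            rw [CD_cat, show cat L = ((cat L).1, (cat L).2) from rfl, cds_eq] at b2 b3
            exact ⟨Set.nonempty_iff_ne_empty.2 b2, b3⟩
          · rw [if_neg b]; exact zero_le
      _ = _ := h
      _ ≤ ((∑' π, if pX (endp 0 π) < tX then fX π else 0)
            * ∑' γ, if pY (endp 0 γ) < tY then fY γ else 0) + (AX w + AY w) := by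
          rw [← ENNReal.tsum_mul_right, hAX, hAY, ← ENNReal.tsum_add, ← ENNReal.tsum_add]
          refine ENNReal.tsum_le_tsum fun π => ?_
          rw [← ENNReal.tsum_mul_left, ← ENNReal.tsum_add, ← ENNReal.tsum_add]
          refine ENNReal.tsum_le_tsum fun γ => ?_
          by_cases b1 : IsUp u H π ∧ IsDn u H γ
          · rw [if_pos b1]
            by_cases b2 : Cl u s H w.1 π γ
            · rw [if_pos b2, mul_one]
              by_cases b3 : tX ≤ pX (endp 0 π)
              · rw [if_pos (show (IsUp u H π ∧ IsDn u H γ) ∧ Cl u s H w.1 π γ ∧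
                    tX ≤ pX (endp 0 π) from ⟨b1, b2, b3⟩)]
                exact le_add_left le_self_add
              · by_cases b4 : tY ≤ pY (endp 0 γ)
                · rw [if_pos (show (IsUp u H π ∧ IsDn u H γ) ∧ Cl u s H w.1 π γ ∧
                    tY ≤ pY (endp 0 γ) from ⟨b1, b2, b4⟩)]
                  exact le_add_left le_add_self
                · rw [if_pos (not_le.1 b3), if_pos (not_le.1 b4)]
                  simp only [hfX, hfY, if_pos b1.1, if_pos b1.2]
                  exact le_self_add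
            · rw [if_neg b2, mul_zero]; exact zero_le
          · rw [if_neg b1]; exact zero_le
      _ ≤ υ * υ + (C' * (3 * lam) + C' * (3 * lam)) :=
          add_le_add (mul_le_mul' hX1 hY1) (add_le_add hA1 hA2)
      _ ≤ υ * υ + η := add_le_add le_rfl hl


end Crest.Agent.R154.HW799
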