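import Crest.Agent.R154.Win3_21

/-! Row 154, ROAD 801 (helper21): the window lemma (3) at one common height `H`, in the letters of
`NBDefs_28` (321's `piece3`). -/

set_option autoImplicit false
set_option maxHeartbeats 1000000

namespace Crest.Agent.R154.Win21

open MeasureTheory ProbabilityTheory Crest.ProbabilityR.RandomEnvironment Crest.Agent.R154
open Crest.Agent.R154.Flux132 (lev opp)
open Crest.Agent.R154.Flux566 (lw endp sitesL Fol endp_append endp_eq_add measurable_lw)
open Crest.Agent.R154.NB28 (IsUp IsDn aw Cm)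
open Crest.Agent.R154.Face504
open scoped ENNReal
open Classical

variable {d : ℕ}

lemma lev_opp (u : Step d) : lev u (stepVec (opp u) : Site d) = -1 := by
  rw [Flux132.stepVec_opp, Flux132.lev_neg, Flux132.lev_step_self]

/-- contact of the hung pair, in the letters of the start anchored pair -/
lemma contact_iff (u : Step d) (w : Site d) (π γ : Wd d) (z : Site d) :
    (z ∈ sitesL 0 π ∧ z ∈ sitesL (w + (stepVec (opp u) + endp 0 π)) γ) ↔
      (z - endp 0 π ∈ sitesL (-endp 0 π) π ∧ z - endp 0 π ∈ sitesL (w + stepVec (opp u)) γ) := by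
  rw [mem_sitesL0 π (-endp 0 π), mem_sitesL0 γ (w + (stepVec (opp u) + endp 0 π)),
    mem_sitesL0 γ (w + stepVec (opp u))]
  have e1 : z - endp 0 π - -endp 0 π = z := by abel
  have e2 : z - endp 0 π - (w + stepVec (opp u)) = z - (w + (stepVec (opp u) + endp 0 π)) := by
    abel
  rw [e1, e2]

/-- **(3) at a common height** -/
theorem piece3 (ν : Measure (Row d)) [IsProbabilityMeasure ν] (u : Step d) (H s : ℕ)
    (E : Finset (Site d)) (μ : Site d → ℝ≥0∞) {M lam us : ℝ≥0∞} (hμ : ∑' w, μ w ≤ 1)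
    (hM : ∀ w, μ w ≤ M) (hM0 : M ≠ 0) (hMt : M ≠ ∞) (hl0 : lam ≠ 0) (hlt : lam ≠ ∞)
    (hus : ∀ W : Set (Wd d), Us109.PF W → W ⊆ Us109.RetW u (-1) s →
      ∑' l, (if l ∈ W then aw ν l else 0) ≤ us) :
    (∑' w : Site d, if lev u w = 0 then μ w * (∑' π : Wd d, ∑' γ : Wd d,
      if IsUp u H π ∧ IsDn u H γ ∧ endp 0 γ ∈ E ∧ (∃ k, k ∈ Cm u w π γ) ∧
        (∀ k ∈ Cm u w π γ, k + s ≤ H) then aw ν π * aw ν γ else 0) else 0)
      ≤ M / lam * (E.card * us) + 4 * lam := by
  refine le_trans ?_ (win3 ν u H H (-1) le_rfl s E (wt := fun x π => μ (x - (stepVec (opp u)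
    + endp 0 π))) (M := M) hM0 hMt (fun x π => hM _) ?_ hl0 hlt (us := us) (by simpa using hus))
  · calc (∑' w : Site d, if lev u w = 0 then μ w * (∑' π : Wd d, ∑' γ : Wd d,
          if IsUp u H π ∧ IsDn u H γ ∧ endp 0 γ ∈ E ∧ (∃ k, k ∈ Cm u w π γ) ∧
            (∀ k ∈ Cm u w π γ, k + s ≤ H) then aw ν π * aw ν γ else 0) else 0)
        = ∑' w : Site d, ∑' π : Wd d, ∑' γ : Wd d,
          (if lev u w = 0 ∧ IsUp u H π ∧ IsDn u H γ ∧ endp 0 γ ∈ E ∧ (∃ k, k ∈ Cm u w π γ) ∧
            (∀ k ∈ Cm u w π γ, k + s ≤ H) then aw ν π * aw ν γ * μ w else 0) := by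
          refine tsum_congr fun w => ?_
          by_cases hw : lev u w = 0
          · rw [if_pos hw, ← ENNReal.tsum_mul_left]
            refine tsum_congr fun π => ?_
            rw [← ENNReal.tsum_mul_left]
            refine tsum_congr fun γ => ?_
            simp only [hw, true_and]
            split_ifs <;> ring
          · rw [if_neg hw]
            simp [hw]
      _ = ∑' π : Wd d, ∑' w : Site d, ∑' γ : Wd d,
          (if lev u w = 0 ∧ IsUp u H π ∧ IsDn u H γ ∧ endp 0 γ ∈ E ∧ (∃ k, k ∈ Cm u w π γ) ∧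
            (∀ k ∈ Cm u w π γ, k + s ≤ H) then aw ν π * aw ν γ * μ w else 0) := ENNReal.tsum_comm
      _ ≤ ∑' π : Wd d, ∑' x : Site d, ∑' γ : Wd d,
          (if lev u x = -1 + (H : ℤ) then
            (if IsUp u H π ∧ (IsDn u H γ ∧ endp 0 γ ∈ E) ∧ (∃ z ∈ sitesL 0 π, z ∈ sitesL x γ) ∧
              (∀ z ∈ sitesL 0 π, z ∈ sitesL x γ → (s : ℤ) ≤ lev u z)
            then aw ν π * aw ν γ * μ (x - (stepVec (opp u) + endp 0 π)) else 0) else 0) := by
          refine ENNReal.tsum_le_tsum fun π => ?_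
          have h1 := (Equiv.addRight (stepVec (opp u) + endp 0 π)).tsum_eq
            (fun x : Site d => ∑' γ : Wd d, (if lev u x = -1 + (H : ℤ) then
            (if IsUp u H π ∧ (IsDn u H γ ∧ endp 0 γ ∈ E) ∧ (∃ z ∈ sitesL 0 π, z ∈ sitesL x γ) ∧
              (∀ z ∈ sitesL 0 π, z ∈ sitesL x γ → (s : ℤ) ≤ lev u z)
            then aw ν π * aw ν γ * μ (x - (stepVec (opp u) + endp 0 π)) else 0) else 0))
          rw [← h1]
          refine ENNReal.tsum_le_tsum fun w => ENNReal.tsum_le_tsum fun γ => ?_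
          simp only [Equiv.coe_addRight, add_sub_cancel_right]
          by_cases hc : lev u w = 0 ∧ IsUp u H π ∧ IsDn u H γ ∧ endp 0 γ ∈ E ∧
              (∃ k, k ∈ Cm u w π γ) ∧ (∀ k ∈ Cm u w π γ, k + s ≤ H)
          · obtain ⟨c1, c2, c3, c4, ⟨k, y, hy1, hy2, hy3⟩, c6⟩ := hc
            have hx : lev u (w + (stepVec (opp u) + endp 0 π)) = -1 + (H : ℤ) := by
              rw [Flux132.lev_add, Flux132.lev_add, lev_opp, c1, c2.2]; ring
            have h5 : ∃ z ∈ sitesL 0 π, z ∈ sitesL (w + (stepVec (opp u) + endp 0 π)) γ := by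
              refine ⟨y + endp 0 π, ?_⟩
              rw [contact_iff, add_sub_cancel_right]
              exact ⟨hy1, hy2⟩
            have h6 : ∀ z ∈ sitesL 0 π, z ∈ sitesL (w + (stepVec (opp u) + endp 0 π)) γ →
                (s : ℤ) ≤ lev u z := by
              intro z hz1 hz2
              obtain ⟨h7, h8⟩ := (contact_iff u w π γ z).1 ⟨hz1, hz2⟩
              have h9 := (c2.1 z hz1)
              have h10 : lev u (z - endp 0 π) = -(((H : ℤ) - lev u z).toNat : ℤ) := by
                rw [lev_sub, c2.2, Int.toNat_of_nonneg (by omega)]; ring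
              have h11 := c6 _ ⟨_, h7, h8, h10⟩
              omega
            rw [if_pos ⟨c1, c2, c3, c4, ⟨k, y, hy1, hy2, hy3⟩, c6⟩, if_pos hx,
              if_pos ⟨c2, ⟨c3, c4⟩, h5, h6⟩]
          · rw [if_neg hc]
            exact zero_le
      _ = ∑' x : Site d, ∑' π : Wd d, ∑' γ : Wd d,
          (if lev u x = -1 + (H : ℤ) then
            (if IsUp u H π ∧ (IsDn u H γ ∧ endp 0 γ ∈ E) ∧ (∃ z ∈ sitesL 0 π, z ∈ sitesL x γ) ∧
              (∀ z ∈ sitesL 0 π, z ∈ sitesL x γ → (s : ℤ) ≤ lev u z)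
            then aw ν π * aw ν γ * μ (x - (stepVec (opp u) + endp 0 π)) else 0) else 0) :=
          ENNReal.tsum_comm
      _ ≤ _ := by
          refine ENNReal.tsum_le_tsum fun x => ?_
          by_cases hx : lev u x = -1 + (H : ℤ)
          · simp only [if_pos hx]; exact le_rfl
          · simp [hx]
  · intro π
    have h1 := (Equiv.subRight (stepVec (opp u) + endp 0 π)).tsum_eq μ
    simp only [Equiv.subRight_apply] at h1
    rw [h1]
    exact hμ

end Crest.Agent.R154.Win21
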