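import Crest.Agent.R154.KB_818
import Crest.Agent.R154.HWinAd_363
import Crest.Agent.R154.E2_742
import Crest.Agent.R154.Pc3_21
import Crest.Agent.R154.AsmA_789

/-! Row 154, ROAD 801, frame B (helper81): 139's `hW` for 657's instance, from E2 (742) and
`piece3` (21). -/

set_option autoImplicit false

open MeasureTheory ProbabilityTheory Crest.ProbabilityR.RandomEnvironment Crest.Agent.R154
open scoped ENNReal

namespace Crest.Agent.R154.HW81

open Crest.Agent.R154.B5A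
open Crest.Agent.R154.B5W (Lat PB ht Lam dl cd hu hdn cat tsum_L CD_cat cds_eq)
open Crest.Agent.R154.Flux566 (endp sitesL)
open Crest.Agent.R154.NB28 (IsUp IsDn Cm)
open Crest.Agent.R154.JAsm139 (Good card)
open Classical

variable {d : ℕ}

lemma act_val (u : Step d) (L : List (PB u)) (w : Lat u) :
    (act (dl u) L w).1 = w.1 + endp 0 (cat L).1 + endp 0 (cat L).2 := by
  induction L generalizing w with
  | nil => simp [act, cat, endp]
  | cons b L ih =>
    have h1 : act (dl u) (b :: L) w = act (dl u) L (dl u b w) := rfl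
    have h2 : cat (b :: L) = ((cat L).1 ++ b.1.1, b.1.2 ++ (cat L).2) := rfl
    rw [h1, ih, h2]
    have h3 : (dl u b w).1 = w.1 + endp 0 b.1.1 + endp 0 b.1.2 := rfl
    rw [h3]
    have h4 : endp (0 : Site d) ((cat L).1 ++ b.1.1) = endp 0 (cat L).1 + endp 0 b.1.1 := by
      rw [Flux566.endp_append, Flux566.endp_eq_add]
    have h5 : endp (0 : Site d) (b.1.2 ++ (cat L).2) = endp 0 b.1.2 + endp 0 (cat L).2 := by
      rw [Flux566.endp_append, Flux566.endp_eq_add]
    simp only [h4, h5]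
    abel

lemma tsumP (ν : Measure (Row d)) [IsProbabilityMeasure ν] (u : Step d) (n : ℕ)
    (P : List (PB u) → Prop) (Q : List (Step d) → List (Step d) → Prop)
    {i : ∀ L, Decidable (HT (ht u) L = n ∧ P L)}
    {j : ∀ π γ, Decidable (IsUp u n π ∧ IsDn u n γ ∧ Q π γ)}
    (hPQ : ∀ L, P L ↔ Q (cat L).1 (cat L).2) :
    ∑' L : List (PB u), (if HT (ht u) L = n ∧ P L then LW (Lam ν u) L else 0)
      = ∑' π : List (Step d), ∑' γ : List (Step d), if IsUp u n π ∧ IsDn u n γ ∧ Q π γ then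
          NB28.aw ν π * NB28.aw ν γ else 0 := by
  have h := tsum_L ν u n (fun x => if Q x.1 x.2 then 1 else 0)
  refine Eq.trans ?_ (h.trans ?_)
  · refine tsum_congr fun L => ?_
    by_cases h1 : HT (ht u) L = n
    · by_cases h2 : P L
      · rw [if_pos ⟨h1, h2⟩, if_pos h1, if_pos ((hPQ L).1 h2), mul_one]
      · rw [if_neg (fun h' => h2 h'.2), if_pos h1, if_neg (fun h' => h2 ((hPQ L).2 h')), mul_zero]
    · rw [if_neg (fun h' => h1 h'.1), if_neg h1]
  · refine tsum_congr fun π => tsum_congr fun γ => ?_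
    by_cases h1 : IsUp u n π ∧ IsDn u n γ
    · by_cases h2 : Q π γ
      · rw [if_pos h1, if_pos h2, if_pos ⟨h1.1, h1.2, h2⟩, mul_one]
      · rw [if_pos h1, if_neg h2, if_neg (fun h' => h2 h'.2.2), mul_zero]
    · rw [if_neg h1, if_neg (fun h' => h1 ⟨h'.1, h'.2.1⟩)]

/-- quantile of a subprobability -/
lemma quant' {ι : Type*} (p : ι → ℝ≥0∞) (c : ℝ≥0∞) (hc : c ≠ 0) (hcp : c ≤ ∑' i, p i)
    (hp : ∑' i, p i ≤ 1) {v : ℝ≥0∞} (hv : v ≠ 0) (hv1 : v < 1) :
    ∃ θ : ℝ≥0∞, θ ≠ 0 ∧ (∑' i, if p i < θ then p i else 0) ≤ v ∧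
      c * v ≤ (∑' i, if p i < 2 * θ then p i else 0) := by
  obtain ⟨m, hm⟩ : ∃ m : ℝ≥0∞, m = ∑' i, p i := ⟨_, rfl⟩
  rw [← hm] at hcp hp
  have hm0 : m ≠ 0 := fun h => hc (le_antisymm (h ▸ hcp) zero_le)
  have hmt : m ≠ ⊤ := ne_top_of_le_ne_top ENNReal.one_ne_top hp
  have hsum : ∑' i : ι, p i / m = 1 := by
    simp only [div_eq_mul_inv]
    rw [ENNReal.tsum_mul_right, ← hm, ENNReal.mul_inv_cancel hm0 hmt]
  obtain ⟨θ, h0, _, h1, h2⟩ := AsmA789.quant (fun i => p i / m) hsum hv hv1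
  have key : ∀ t : ℝ≥0∞, (∑' i : ι, if p i < t * m then p i else 0)
      = m * ∑' i : ι, (if p i / m < t then p i / m else 0) := by
    intro t
    rw [← ENNReal.tsum_mul_left]
    refine tsum_congr fun i => ?_
    have e : p i / m < t ↔ p i < t * m := ENNReal.div_lt_iff (Or.inl hm0) (Or.inl hmt)
    by_cases h : p i < t * m
    · rw [if_pos h, if_pos (e.2 h), ENNReal.mul_div_cancel hm0 hmt]
    · rw [if_neg h, if_neg (fun h' => h (e.1 h')), mul_zero]
  refine ⟨θ * m, mul_ne_zero h0 hm0, ?_, ?_⟩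
  · rw [key]
    calc _ ≤ 1 * v := mul_le_mul' hp h1
      _ = v := one_mul _
  · rw [← mul_assoc, key]
    exact mul_le_mul' hcp h2

/-- law of a displacement -/
lemma law {A V : Type*} (f : A → ℝ≥0∞) (z : A → V) (P : V → Prop)
    {i1 : ∀ v, Decidable (P v)} {i2 : ∀ a v, Decidable (z a = v)} :
    ∑' v, (if P v then ∑' a, (if z a = v then f a else 0) else 0)
      = ∑' a, (if P (z a) then f a else 0) := by
  calc _ = ∑' v, ∑' a, (if P v ∧ z a = v then f a else 0) := by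
        refine tsum_congr fun v => ?_
        by_cases h : P v <;> simp [h]
    _ = ∑' a, ∑' v, (if P v ∧ z a = v then f a else 0) := ENNReal.tsum_comm
    _ = _ := by
        refine tsum_congr fun a => ?_
        rw [tsum_eq_single (z a) (fun v hv => if_neg fun h => hv h.2.symm)]
        simp

/-- the sets where a function with small averages is large are small -/
lemma card_small {W : Type*} (f : W → ℝ≥0∞) (k lam R : ℝ≥0∞) (hk : k ≠ ⊤) (hlam : lam ≠ ⊤)
    (h : ∀ F : Finset W, F.Nonempty → ∑ w ∈ F, f w ≤ k * lam * F.card + R) :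
    card {w | (k + 1) * lam < f w} * lam ≤ R := by
  have e : card {w | (k + 1) * lam < f w} * lam
      = ∑' w, ({w | (k + 1) * lam < f w}.indicator (fun _ => lam)) w := by
    rw [card, ← ENNReal.tsum_mul_right]
    refine tsum_congr fun w => ?_
    by_cases hw : w ∈ {w | (k + 1) * lam < f w}
    · rw [Set.indicator_of_mem hw, Set.indicator_of_mem hw, one_mul]
    · rw [Set.indicator_of_notMem hw, Set.indicator_of_notMem hw, zero_mul]
  rw [e, ENNReal.tsum_eq_iSup_sum]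
  refine iSup_le fun F0 => ?_
  set F := F0.filter (fun w => (k + 1) * lam < f w) with hF
  have h1 : ∑ w ∈ F0, ({w | (k + 1) * lam < f w}.indicator (fun _ => lam)) w = F.card * lam := by
    rw [hF, Finset.sum_indicator_eq_sum_filter]
    simp only [Finset.sum_const, nsmul_eq_mul, Set.mem_ofPred_eq]
  rw [h1]
  by_cases hne : F.Nonempty
  · have h2 := h F hne
    have h3 : (F.card : ℝ≥0∞) * ((k + 1) * lam) ≤ ∑ w ∈ F, f w := by
      rw [← nsmul_eq_mul, ← Finset.sum_const]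
      exact Finset.sum_le_sum fun w hw => (Finset.mem_filter.1 hw).2.le
    have h4 : k * lam * F.card + F.card * lam ≤ k * lam * F.card + R := by
      calc k * lam * F.card + F.card * lam = F.card * ((k + 1) * lam) := by ring
        _ ≤ _ := h3.trans h2
    exact (ENNReal.add_le_add_iff_left
      (ENNReal.mul_ne_top (ENNReal.mul_ne_top hk hlam) (ENNReal.natCast_ne_top _))).1 h4
  · rw [Finset.not_nonempty_iff_eq_empty.1 hne]
    simp

lemma avg (u : Step d) (g : Site d → ℝ≥0∞) (k lam R : ℝ≥0∞)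
    (h : ∀ (μ : Site d → ℝ≥0∞) (M : ℝ≥0∞), M ≠ 0 → M ≠ ⊤ → ∑' x, μ x ≤ 1 → (∀ x, μ x ≤ M) →
      ∑' x, (if Flux132.lev u x = 0 then μ x * g x else 0) ≤ k * lam + M * R)
    (F : Finset (Lat u)) (hF : F.Nonempty) : ∑ w ∈ F, g w.1 ≤ k * lam * F.card + R := by
  set N : ℝ≥0∞ := (F.card : ℝ≥0∞) with hN
  have hN0 : N ≠ 0 := by
    rw [hN]; exact_mod_cast hF.card_pos.ne'
  have hNt : N ≠ ⊤ := ENNReal.natCast_ne_top _
  set F' : Finset (Site d) := F.image (fun w => w.1) with hF'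
  have hinj : Set.InjOn (fun w : Lat u => w.1) F := fun w _ w' _ h => Subtype.ext h
  have hc : F'.card = F.card := Finset.card_image_of_injOn hinj
  set μ : Site d → ℝ≥0∞ := fun x => if x ∈ F' then N⁻¹ else 0 with hμ
  have h1 : ∑' x, μ x ≤ 1 := by
    rw [tsum_eq_sum (s := F') (fun x hx => if_neg hx)]
    rw [Finset.sum_congr rfl (fun x hx => if_pos hx), Finset.sum_const, hc, nsmul_eq_mul,
      ← hN, ENNReal.mul_inv_cancel hN0 hNt]
  have h2 := h μ N⁻¹ (ENNReal.inv_ne_zero.2 hNt) (ENNReal.inv_ne_top.2 hN0) h1 (fun x => by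
    simp only [hμ]; split_ifs; exacts [le_rfl, zero_le])
  have h3 : N⁻¹ * ∑ w ∈ F, g w.1
      ≤ ∑' x, (if Flux132.lev u x = 0 then μ x * g x else 0) := by
    have e1 : ∑ w ∈ F, g w.1 = ∑ x ∈ F', g x := by
      rw [hF', Finset.sum_image hinj]
    rw [e1, Finset.mul_sum]
    refine le_trans (le_of_eq ?_) (ENNReal.sum_le_tsum F')
    refine Finset.sum_congr rfl fun x hx => ?_
    obtain ⟨w, _, hw⟩ := Finset.mem_image.1 hx
    have hl : Flux132.lev u x = 0 := hw ▸ w.2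
    rw [if_pos hl]
    simp only [hμ]
    rw [if_pos hx]
  calc ∑ w ∈ F, g w.1 = N * (N⁻¹ * ∑ w ∈ F, g w.1) := by
        rw [← mul_assoc, ENNReal.mul_inv_cancel hN0 hNt, one_mul]
    _ ≤ N * (k * lam + N⁻¹ * R) := mul_le_mul_right (h3.trans h2) _
    _ = k * lam * N + (N * N⁻¹) * R := by ring
    _ = _ := by rw [ENNReal.mul_inv_cancel hN0 hNt, one_mul]


/-! ### displacement laws -/

/-- law of the displacement of a class of words -/
noncomputable def pl (ν : Measure (Row d)) [IsProbabilityMeasure ν] (P : List (Step d) → Prop)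
    (v : Site d) : ℝ≥0∞ :=
  ∑' l : List (Step d), if endp 0 l = v then (if P l then NB28.aw ν l else 0) else 0

variable (ν : Measure (Row d)) [IsProbabilityMeasure ν]

lemma pl_def (P : List (Step d) → Prop) (v : Site d) : pl ν P v
    = ∑' l : List (Step d), if endp 0 l = v then (if P l then NB28.aw ν l else 0) else 0 := rfl

lemma pl_if (P : List (Step d) → Prop) (Q : Site d → Prop)
    {i : ∀ v, Decidable (Q v)} {j : ∀ l, Decidable (P l ∧ Q (endp 0 l))} :
    ∑' v, (if Q v then pl ν P v else 0)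
      = ∑' l : List (Step d), (if P l ∧ Q (endp 0 l) then NB28.aw ν l else 0) := by
  unfold pl
  rw [law]
  refine tsum_congr fun l => ?_
  by_cases h1 : P l <;> by_cases h2 : Q (endp 0 l) <;> simp [h1, h2]

lemma pl_sum (P : List (Step d) → Prop) :
    ∑' v, pl ν P v = ∑' l : List (Step d), (if P l then NB28.aw ν l else 0) := by
  have h := pl_if ν P (fun _ => True) (i := fun _ => Classical.propDecidable _)
    (j := fun _ => Classical.propDecidable _)
  simpa using h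

lemma prod_split (A B : List (Step d) → Prop) {i : ∀ π γ, Decidable (A π ∧ B γ)}
    {j : ∀ π, Decidable (A π)} {k : ∀ γ, Decidable (B γ)} :
    ∑' π : List (Step d), ∑' γ : List (Step d), (if A π ∧ B γ then NB28.aw ν π * NB28.aw ν γ else 0)
      = (∑' π : List (Step d), if A π then NB28.aw ν π else 0)
        * ∑' γ : List (Step d), if B γ then NB28.aw ν γ else 0 := by
  rw [← ENNReal.tsum_mul_right]
  refine tsum_congr fun π => ?_
  rw [← ENNReal.tsum_mul_left]
  refine tsum_congr fun γ => ?_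
  by_cases h1 : A π <;> by_cases h2 : B γ <;> simp [h1, h2]

lemma prodX (u : Step d) (H : ℕ) (Q : Site d → Prop)
    {i : ∀ π γ, Decidable (IsUp u H π ∧ IsDn u H γ ∧ Q (endp 0 π))} {j : ∀ v, Decidable (Q v)} :
    ∑' π : List (Step d), ∑' γ : List (Step d), (if IsUp u H π ∧ IsDn u H γ ∧ Q (endp 0 π) then
        NB28.aw ν π * NB28.aw ν γ else 0)
      = (∑' v, if Q v then pl ν (IsUp u H) v else 0)
        * ∑' γ : List (Step d), if IsDn u H γ then NB28.aw ν γ else 0 := by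
  rw [pl_if ν (IsUp u H) Q, ← prod_split ν (fun π => IsUp u H π ∧ Q (endp 0 π))
    (IsDn u H) (i := fun _ _ => Classical.propDecidable _)]
  refine tsum_congr fun π => tsum_congr fun γ => ?_
  by_cases h1 : IsUp u H π <;> by_cases h2 : IsDn u H γ <;> by_cases h3 : Q (endp 0 π) <;>
    simp [h1, h2, h3]

lemma prodY (u : Step d) (H : ℕ) (Q : Site d → Prop)
    {i : ∀ π γ, Decidable (IsUp u H π ∧ IsDn u H γ ∧ Q (endp 0 γ))} {j : ∀ v, Decidable (Q v)} :
    ∑' π : List (Step d), ∑' γ : List (Step d), (if IsUp u H π ∧ IsDn u H γ ∧ Q (endp 0 γ) then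
        NB28.aw ν π * NB28.aw ν γ else 0)
      = (∑' π : List (Step d), if IsUp u H π then NB28.aw ν π else 0)
        * ∑' v, if Q v then pl ν (IsDn u H) v else 0 := by
  rw [pl_if ν (IsDn u H) Q, ← prod_split ν (IsUp u H) (fun γ => IsDn u H γ ∧ Q (endp 0 γ))]

lemma goodX (u : Step d) (H : ℕ) (θ c v η : ℝ≥0∞)
    (hq : c * v ≤ ∑' x, if pl ν (IsUp u H) x < 2 * θ then pl ν (IsUp u H) x else 0)
    (hY : c ≤ ∑' γ : List (Step d), if IsDn u H γ then NB28.aw ν γ else 0)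
    (hY1 : (∑' γ : List (Step d), if IsDn u H γ then NB28.aw ν γ else 0) ≤ 1)
    (S : Set (Lat u)) (hS : 2 * θ * card S ≤ η) :
    Good (Lam ν u) (ht u) (dl u) (c * v * c) η H S := by
  refine ⟨{L | pl ν (IsUp u H) (endp 0 (cat L).1) < 2 * θ}, 2 * θ, ?_, ?_, hS⟩
  · calc c * v * c ≤ _ := mul_le_mul' hq hY
      _ = _ := (prodX ν u H (fun x => pl ν (IsUp u H) x < 2 * θ)).symm
      _ = _ := (tsumP ν u H (fun L => L ∈ {L | pl ν (IsUp u H) (endp 0 (cat L).1) < 2 * θ})
        (fun π _ => pl ν (IsUp u H) (endp 0 π) < 2 * θ) (fun L => Iff.rfl)).symm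
  · intro w w'
    refine le_trans (le_of_eq (tsumP ν u H (fun L => L ∈ {L | pl ν (IsUp u H) (endp 0 (cat L).1) < 2 * θ} ∧
        act (dl u) L w = w')
      (fun π γ => pl ν (IsUp u H) (endp 0 π) < 2 * θ ∧ w.1 + endp 0 π + endp 0 γ = w'.1)
      (j := fun _ _ => Classical.propDecidable _)
      (fun L => and_congr Iff.rfl (by
        rw [← act_val]
        exact ⟨fun h => congrArg Subtype.val h, fun h => Subtype.ext h⟩)))) ?_
    rw [ENNReal.tsum_comm]
    calc _ ≤ ∑' γ : List (Step d), (if IsDn u H γ then NB28.aw ν γ else 0) * (2 * θ) := by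
          refine ENNReal.tsum_le_tsum fun γ => ?_
          by_cases hγ : IsDn u H γ
          · rw [if_pos hγ]
            set x : Site d := w'.1 - w.1 - endp 0 γ with hx
            by_cases hpx : pl ν (IsUp u H) x < 2 * θ
            · refine le_trans ?_ (mul_le_mul_right hpx.le _)
              rw [pl_def ν (IsUp u H) x, ← ENNReal.tsum_mul_left]
              refine ENNReal.tsum_le_tsum fun π => ?_
              by_cases h : IsUp u H π ∧ IsDn u H γ ∧ pl ν (IsUp u H) (endp 0 π) < 2 * θ ∧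
                  w.1 + endp 0 π + endp 0 γ = w'.1
              · have hx' : endp 0 π = x := by rw [hx, ← h.2.2.2]; abel
                rw [if_pos h, if_pos hx', if_pos h.1, mul_comm]
              · rw [if_neg h]; exact zero_le
            · refine le_trans (le_of_eq ?_) zero_le
              refine ENNReal.tsum_eq_zero.2 fun π => if_neg fun h => hpx ?_
              have hx' : endp 0 π = x := by rw [hx, ← h.2.2.2]; abel
              rw [← hx']; exact h.2.2.1
          · rw [if_neg hγ, zero_mul]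
            refine le_of_eq (ENNReal.tsum_eq_zero.2 fun π => if_neg fun h => hγ h.2.1)
      _ ≤ 1 * (2 * θ) := by
          rw [ENNReal.tsum_mul_right]
          exact mul_le_mul_left hY1 _
      _ = 2 * θ := one_mul _

lemma goodY (u : Step d) (H : ℕ) (θ c v η : ℝ≥0∞)
    (hq : c * v ≤ ∑' x, if pl ν (IsDn u H) x < 2 * θ then pl ν (IsDn u H) x else 0)
    (hX : c ≤ ∑' π : List (Step d), if IsUp u H π then NB28.aw ν π else 0)
    (hX1 : (∑' π : List (Step d), if IsUp u H π then NB28.aw ν π else 0) ≤ 1)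
    (S : Set (Lat u)) (hS : 2 * θ * card S ≤ η) :
    Good (Lam ν u) (ht u) (dl u) (c * v * c) η H S := by
  refine ⟨{L | pl ν (IsDn u H) (endp 0 (cat L).2) < 2 * θ}, 2 * θ, ?_, ?_, hS⟩
  · calc c * v * c ≤ _ := mul_le_mul' hq hX
      _ = _ := mul_comm _ _
      _ = _ := (prodY ν u H (fun x => pl ν (IsDn u H) x < 2 * θ)).symm
      _ = _ := (tsumP ν u H (fun L => L ∈ {L | pl ν (IsDn u H) (endp 0 (cat L).2) < 2 * θ})
        (fun _ γ => pl ν (IsDn u H) (endp 0 γ) < 2 * θ) (fun L => Iff.rfl)).symm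
  · intro w w'
    refine le_trans (le_of_eq (tsumP ν u H (fun L => L ∈ {L | pl ν (IsDn u H) (endp 0 (cat L).2) < 2 * θ} ∧
        act (dl u) L w = w')
      (fun π γ => pl ν (IsDn u H) (endp 0 γ) < 2 * θ ∧ w.1 + endp 0 π + endp 0 γ = w'.1)
      (j := fun _ _ => Classical.propDecidable _)
      (fun L => and_congr Iff.rfl (by
        rw [← act_val]
        exact ⟨fun h => congrArg Subtype.val h, fun h => Subtype.ext h⟩)))) ?_
    calc _ ≤ ∑' π : List (Step d), (if IsUp u H π then NB28.aw ν π else 0) * (2 * θ) := by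
          refine ENNReal.tsum_le_tsum fun π => ?_
          by_cases hπ : IsUp u H π
          · rw [if_pos hπ]
            set x : Site d := w'.1 - w.1 - endp 0 π with hx
            by_cases hpx : pl ν (IsDn u H) x < 2 * θ
            · refine le_trans ?_ (mul_le_mul_right hpx.le _)
              rw [pl_def ν (IsDn u H) x, ← ENNReal.tsum_mul_left]
              refine ENNReal.tsum_le_tsum fun γ => ?_
              by_cases h : IsUp u H π ∧ IsDn u H γ ∧ pl ν (IsDn u H) (endp 0 γ) < 2 * θ ∧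
                  w.1 + endp 0 π + endp 0 γ = w'.1
              · have hx' : endp 0 γ = x := by rw [hx, ← h.2.2.2]; abel
                rw [if_pos h, if_pos hx', if_pos h.2.1]
              · rw [if_neg h]; exact zero_le
            · refine le_trans (le_of_eq ?_) zero_le
              refine ENNReal.tsum_eq_zero.2 fun γ => if_neg fun h => hpx ?_
              have hx' : endp 0 γ = x := by rw [hx, ← h.2.2.2]; abel
              rw [← hx']; exact h.2.2.1
          · rw [if_neg hπ, zero_mul]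
            refine le_of_eq (ENNReal.tsum_eq_zero.2 fun γ => if_neg fun h => hπ h.1)
      _ ≤ 1 * (2 * θ) := by
          rw [ENNReal.tsum_mul_right]
          exact mul_le_mul_left hX1 _
      _ = 2 * θ := one_mul _

/-- the local part of `X` -/
noncomputable def XL (u : Step d) (H s : ℕ) (E : Finset (Site d)) (x : Site d) : ℝ≥0∞ :=
  ∑' π : List (Step d), ∑' γ : List (Step d), (if IsUp u H π ∧ endp 0 π ∈ E ∧ IsDn u H γ ∧
        (∃ k, k ∈ Cm u x π γ) ∧ (∀ k ∈ Cm u x π γ, s < k) then NB28.aw ν π * NB28.aw ν γ else 0)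

/-- the local part of `Y` -/
noncomputable def YL (u : Step d) (H s : ℕ) (E : Finset (Site d)) (w : Site d) : ℝ≥0∞ :=
  ∑' π : List (Step d), ∑' γ : List (Step d), (if IsUp u H π ∧ IsDn u H γ ∧ endp 0 γ ∈ E ∧
        (∃ k, k ∈ Cm u w π γ) ∧ (∀ k ∈ Cm u w π γ, k + s ≤ H) then
        NB28.aw ν π * NB28.aw ν γ else 0)

/-- numbers -/
lemma small_num (θ lam η1 us cS N : ℝ≥0∞) (hlam : lam ≠ 0) (hlam' : lam ≠ ⊤)
    (h1 : N * θ ≤ 1) (h2 : cS * lam ≤ N * us / lam) (h3 : 2 * us ≤ η1 * (lam * lam)) :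
    2 * θ * cS ≤ η1 := by
  have h4 : 2 * θ * cS * (lam * lam) ≤ η1 * (lam * lam) := by
    calc 2 * θ * cS * (lam * lam) = 2 * θ * (cS * lam) * lam := by ring
      _ ≤ 2 * θ * (N * us / lam) * lam := by gcongr
      _ = 2 * θ * (N * us / lam * lam) := by ring
      _ = 2 * θ * (N * us) := by rw [ENNReal.div_mul_cancel hlam hlam']
      _ = 2 * us * (N * θ) := by ring
      _ ≤ 2 * us * 1 := by gcongr
      _ ≤ _ := by rw [mul_one]; exact h3
  exact (ENNReal.mul_le_mul_iff_left (mul_ne_zero hlam hlam) (ENNReal.mul_ne_top hlam' hlam')).1 h4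

lemma off (u : Step d) (H s : ℕ) (θX θY v b1 b2 : ℝ≥0∞) (EX EY : Finset (Site d))
    (hEX : ∀ x, x ∉ EX → pl ν (IsUp u H) x < θX) (hEY : ∀ x, x ∉ EY → pl ν (IsDn u H) x < θY)
    (hX : (∑' x, if pl ν (IsUp u H) x < θX then pl ν (IsUp u H) x else 0) ≤ v)
    (hY : (∑' x, if pl ν (IsDn u H) x < θY then pl ν (IsDn u H) x else 0) ≤ v)
    (w : Lat u) (h1 : XL ν u H s EX w.1 ≤ b1) (h2 : YL ν u H s EY w.1 ≤ b2) :
    (∑' L : List (PB u), if HT (ht u) L = H ∧ CD (ht u) (dl u) (cd u) L w ≠ ∅ ∧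
        (∀ k ∈ CD (ht u) (dl u) (cd u) L w, s < k ∧ k + s ≤ H) then LW (Lam ν u) L else 0)
      ≤ v * v + b1 + b2 := by
  refine le_trans (le_of_eq (tsumP ν u H (fun L => CD (ht u) (dl u) (cd u) L w ≠ ∅ ∧
      (∀ k ∈ CD (ht u) (dl u) (cd u) L w, s < k ∧ k + s ≤ H))
    (fun π γ => Cm u w.1 π γ ≠ ∅ ∧ ∀ k ∈ Cm u w.1 π γ, s < k ∧ k + s ≤ H)
    (j := fun _ _ => Classical.propDecidable _) (fun L => by
      have e : CD (ht u) (dl u) (cd u) L w = Cm u w.1 (cat L).1 (cat L).2 := by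
        rw [CD_cat]; exact cds_eq u (cat L).1 (cat L).2 w.1
      rw [e]))) ?_
  have hprod : ∑' π : List (Step d), ∑' γ : List (Step d),
      (if (IsUp u H π ∧ pl ν (IsUp u H) (endp 0 π) < θX) ∧
        (IsDn u H γ ∧ pl ν (IsDn u H) (endp 0 γ) < θY) then NB28.aw ν π * NB28.aw ν γ else 0)
      ≤ v * v := by
    refine le_trans (le_of_eq (prod_split ν (fun π => IsUp u H π ∧
      pl ν (IsUp u H) (endp 0 π) < θX) (fun γ => IsDn u H γ ∧ pl ν (IsDn u H) (endp 0 γ) < θY)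
      (j := fun _ => Classical.propDecidable _) (k := fun _ => Classical.propDecidable _))) ?_
    refine mul_le_mul' (le_trans (le_of_eq (pl_if ν (IsUp u H)
      (fun x => pl ν (IsUp u H) x < θX)).symm) hX) (le_trans (le_of_eq (pl_if ν (IsDn u H)
      (fun x => pl ν (IsDn u H) x < θY)).symm) hY)
  calc _ ≤ ∑' π : List (Step d), ∑' γ : List (Step d),
      ((if (IsUp u H π ∧ pl ν (IsUp u H) (endp 0 π) < θX) ∧
        (IsDn u H γ ∧ pl ν (IsDn u H) (endp 0 γ) < θY) then NB28.aw ν π * NB28.aw ν γ else 0)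
      + (if IsUp u H π ∧ endp 0 π ∈ EX ∧ IsDn u H γ ∧
        (∃ k, k ∈ Cm u w.1 π γ) ∧ (∀ k ∈ Cm u w.1 π γ, s < k) then
          NB28.aw ν π * NB28.aw ν γ else 0)
      + (if IsUp u H π ∧ IsDn u H γ ∧ endp 0 γ ∈ EY ∧
        (∃ k, k ∈ Cm u w.1 π γ) ∧ (∀ k ∈ Cm u w.1 π γ, k + s ≤ H) then
        NB28.aw ν π * NB28.aw ν γ else 0)) := by
        refine ENNReal.tsum_le_tsum fun π => ENNReal.tsum_le_tsum fun γ => ?_
        by_cases h : IsUp u H π ∧ IsDn u H γ ∧ Cm u w.1 π γ ≠ ∅ ∧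
            ∀ k ∈ Cm u w.1 π γ, s < k ∧ k + s ≤ H
        · rw [if_pos h]
          obtain ⟨a1, a2, a3, a4⟩ := h
          have a5 : ∃ k, k ∈ Cm u w.1 π γ := Set.nonempty_iff_ne_empty.2 a3
          by_cases hx : endp 0 π ∈ EX
          · rw [if_pos (c := IsUp u H π ∧ endp 0 π ∈ EX ∧ IsDn u H γ ∧
              (∃ k, k ∈ Cm u w.1 π γ) ∧ (∀ k ∈ Cm u w.1 π γ, s < k))
              ⟨a1, hx, a2, a5, fun k hk => (a4 k hk).1⟩]
            exact le_add_right le_add_self
          · by_cases hy : endp 0 γ ∈ EY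
            · rw [if_pos (c := IsUp u H π ∧ IsDn u H γ ∧ endp 0 γ ∈ EY ∧
                (∃ k, k ∈ Cm u w.1 π γ) ∧ (∀ k ∈ Cm u w.1 π γ, k + s ≤ H))
                ⟨a1, a2, hy, a5, fun k hk => (a4 k hk).2⟩]
              exact le_add_self
            · rw [if_pos (c := (IsUp u H π ∧ pl ν (IsUp u H) (endp 0 π) < θX) ∧
                (IsDn u H γ ∧ pl ν (IsDn u H) (endp 0 γ) < θY)) ⟨⟨a1, hEX _ hx⟩, a2, hEY _ hy⟩]
              exact le_add_right le_self_add
        · rw [if_neg h]; exact zero_le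
    _ = _ := by simp only [ENNReal.tsum_add]; rfl
    _ ≤ v * v + b1 + b2 := add_le_add (add_le_add hprod h1) h2

/-- **139's `hW` for 657's instance** -/
theorem hW (hν : ∀ᵐ p ∂ν, ∀ e : Step d, 0 < p.1 e) (u : Step d)
    (hA : annealed (iidEnvironmentLaw ν) 0 (escapeEvent (B2d.dirVec u)) ≠ 0)
    (hB : annealed (iidEnvironmentLaw ν) 0 (escapeEvent (-B2d.dirVec u)) ≠ 0) :
    ∃ c1 : ℝ≥0∞, c1 ≠ 0 ∧ ∀ v η : ℝ≥0∞, v ≠ 0 → v ≤ 1 → η ≠ 0 → ∃ s H0 : ℕ, ∀ H, H0 ≤ H →
      ∃ S1 S2 : Set (Lat u), Good (Lam ν u) (ht u) (dl u) (c1 * v) η H S1 ∧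
        Good (Lam ν u) (ht u) (dl u) (c1 * v) η H S2 ∧
        ∀ w, w ∉ S1 → w ∉ S2 → (∑' L : List (PB u), if HT (ht u) L = H ∧
          CD (ht u) (dl u) (cd u) L w ≠ ∅ ∧
          (∀ k ∈ CD (ht u) (dl u) (cd u) L w, s < k ∧ k + s ≤ H) then LW (Lam ν u) L else 0)
          ≤ v * v + η := by
  obtain ⟨c, hc, -, hmX, hmY⟩ := WM286.mass_pos ν hν u hA hB
  have hX1 : ∀ H, (∑' π : List (Step d), if IsUp u H π then NB28.aw ν π else 0) ≤ 1 := fun H =>
    B5W.sum_if_le_one ν fun l l' h h' hp => NB28.isUp_prefix h h' hp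
  have hY1 : ∀ H, (∑' γ : List (Step d), if IsDn u H γ then NB28.aw ν γ else 0) ≤ 1 := fun H =>
    B5W.sum_if_le_one ν fun l l' h h' hp => NB28.isDn_prefix h h' hp
  refine ⟨c * c / 2, (ENNReal.div_pos (mul_ne_zero hc hc) (by norm_num)).ne', ?_⟩
  intro v η hv hv1 hη
  -- constants
  set η1 : ℝ≥0∞ := min η 1 with hη1
  have hη1n : η1 ≠ 0 := (lt_min (pos_iff_ne_zero.2 hη) one_pos).ne'
  have hη1t : η1 ≠ ⊤ := ne_top_of_le_ne_top ENNReal.one_ne_top (min_le_right _ _)
  set lam : ℝ≥0∞ := η1 / 7 with hlamd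
  have hlam : lam ≠ 0 := (ENNReal.div_pos hη1n (by norm_num)).ne'
  have hlamt : lam ≠ ⊤ := ENNReal.div_ne_top hη1t (by norm_num)
  have h7 : 7 * lam = η1 := ENNReal.mul_div_cancel (by norm_num) (by norm_num)
  set δ : ℝ≥0∞ := η1 * (lam * lam) / 2 with hδ
  have hδ0 : δ ≠ 0 :=
    (ENNReal.div_pos (mul_ne_zero hη1n (mul_ne_zero hlam hlam)) (by norm_num)).ne'
  have h2δ : 2 * δ = η1 * (lam * lam) := ENNReal.mul_div_cancel (by norm_num) (by norm_num)
  have hA' : annealedProb (iidEnvironmentLaw ν) 0 (escapeEvent (Flux566.dir u)) ≠ 0 := by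
    rw [← annealed_apply _ 0 (B2d.measurableSet_escapeEvent _)]
    exact hA
  obtain ⟨s1, hs1⟩ := ((ENNReal.tendsto_nhds_zero.1 (Us778.us_tendsto ν hν u hA'))
    δ (pos_iff_ne_zero.2 hδ0)).exists_forall_of_atTop
  obtain ⟨s2, hs2⟩ := Us109.us_zero ν hν u hA (-1) δ hδ0
  set s := max s1 s2 with hs
  refine ⟨s, 0, fun H _ => ?_⟩
  have hus1 : annealedProb (iidEnvironmentLaw ν) 0 (Us778.Dip u s) ≤ δ := hs1 s (le_max_left _ _)
  have hus2 := hs2 s (le_max_right _ _)
  -- quantiles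
  have hv2 : v / 2 ≠ 0 := (ENNReal.div_pos hv (by norm_num)).ne'
  have hvt : v ≠ ⊤ := ne_top_of_le_ne_top ENNReal.one_ne_top hv1
  have hv2' : v / 2 < 1 := lt_of_lt_of_le (ENNReal.half_lt_self hv hvt) hv1
  have hv3 : v / 2 ≤ v := ENNReal.half_le_self
  obtain ⟨θX, hθX, hX2, hX3⟩ := quant' (pl ν (IsUp u H)) c hc
    ((hmX H).trans (le_of_eq (pl_sum ν (IsUp u H)).symm))
    ((le_of_eq (pl_sum ν (IsUp u H))).trans (hX1 H)) hv2 hv2'
  obtain ⟨θY, hθY, hY2, hY3⟩ := quant' (pl ν (IsDn u H)) c hc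
    ((hmY H).trans (le_of_eq (pl_sum ν (IsDn u H)).symm))
    ((le_of_eq (pl_sum ν (IsDn u H))).trans (hY1 H)) hv2 hv2'
  obtain ⟨hfX, hcX⟩ := AsmA789.card_le (pl ν (IsUp u H))
    ((le_of_eq (pl_sum ν (IsUp u H))).trans (hX1 H)) hθX
  obtain ⟨hfY, hcY⟩ := AsmA789.card_le (pl ν (IsDn u H))
    ((le_of_eq (pl_sum ν (IsDn u H))).trans (hY1 H)) hθY
  rw [Set.ncard_eq_toFinset_card _ hfX] at hcX
  rw [Set.ncard_eq_toFinset_card _ hfY] at hcY
  set EX := hfX.toFinset with hEX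
  set EY := hfY.toFinset with hEY
  have hEX' : ∀ x, x ∉ EX → pl ν (IsUp u H) x < θX := fun x hx => by
    rw [hEX, Set.Finite.mem_toFinset] at hx
    exact not_le.1 hx
  have hEY' : ∀ x, x ∉ EY → pl ν (IsDn u H) x < θY := fun x hx => by
    rw [hEY, Set.Finite.mem_toFinset] at hx
    exact not_le.1 hx
  -- the bad sets
  have hbX : card {w : Lat u | (1 + 1) * lam < XL ν u H s EX w.1} * lam
      ≤ EX.card * δ / lam := by
    refine card_small (fun w : Lat u => XL ν u H s EX w.1) 1 lam _ (by norm_num) hlamt ?_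
    intro F hF
    refine avg u (XL ν u H s EX) 1 lam _ ?_ F hF
    intro μ M _ _ hμ hM
    refine (W2742.E2 ν u s H EX μ M lam hμ hM hlam hlamt).trans ?_
    rw [one_mul, mul_assoc, mul_div_assoc]
    gcongr
  have hbY : card {w : Lat u | (4 + 1) * lam < YL ν u H s EY w.1} * lam
      ≤ EY.card * δ / lam := by
    refine card_small (fun w : Lat u => YL ν u H s EY w.1) 4 lam _ (by norm_num) hlamt ?_
    intro F hF
    refine avg u (YL ν u H s EY) 4 lam _ ?_ F hF
    intro μ M hM0 hMt hμ hM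
    refine (Win21.piece3 ν u H s EY μ hμ hM hM0 hMt hlam hlamt hus2).trans ?_
    rw [add_comm]
    refine add_le_add le_rfl (le_of_eq ?_)
    simp only [div_eq_mul_inv]
    ring
  have hgX := goodX ν u H θX c (v / 2) η hX3 (hmY H) (hY1 H)
    {w : Lat u | (1 + 1) * lam < XL ν u H s EX w.1}
    ((small_num θX lam η1 δ _ _ hlam hlamt hcX hbX h2δ.le).trans (min_le_left _ _))
  have hgY := goodY ν u H θY c (v / 2) η hY3 (hmX H) (hX1 H)
    {w : Lat u | (4 + 1) * lam < YL ν u H s EY w.1}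
    ((small_num θY lam η1 δ _ _ hlam hlamt hcY hbY h2δ.le).trans (min_le_left _ _))
  have ec : c * (v / 2) * c = c * c / 2 * v := by
    simp only [div_eq_mul_inv]; ring
  rw [ec] at hgX hgY
  refine ⟨_, _, hgX, hgY, fun w hw1 hw2 => ?_⟩
  have h1 : XL ν u H s EX w.1 ≤ (1 + 1) * lam := not_lt.1 hw1
  have h2 : YL ν u H s EY w.1 ≤ (4 + 1) * lam := not_lt.1 hw2
  refine (off ν u H s θX θY v _ _ EX EY hEX' hEY' (hX2.trans hv3) (hY2.trans hv3) w h1 h2).trans ?_
  calc v * v + (1 + 1) * lam + (4 + 1) * lam = v * v + 7 * lam := by ring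
    _ ≤ v * v + η := by rw [h7]; exact add_le_add le_rfl (min_le_left _ _)

/-- **`KappaW`** -/
theorem kappaW (hd : 2 ≤ d) (hν : ∀ᵐ p ∂ν, ∀ e : Step d, 0 < p.1 e) (u : Step d)
    (hA : annealed (iidEnvironmentLaw ν) 0 (escapeEvent (B2d.dirVec u)) ≠ 0)
    (hB : annealed (iidEnvironmentLaw ν) 0 (escapeEvent (-B2d.dirVec u)) ≠ 0) :
    NB28.KappaW ν u := by
  obtain ⟨c, hc, -, h1, h2⟩ := WM286.mass_pos ν hν u hA hB
  have hU : ∀ n, c * c ≤ U (Lam ν u) (ht u) n := fun n => by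
    rw [B5W.U_eq28]; exact mul_le_mul' (h1 n) (h2 n)
  have hU1 : ∀ n, U (Lam ν u) (ht u) n ≤ 1 := fun n => by
    rw [B5W.U_eq28]
    exact mul_le_one' (B5W.sum_if_le_one ν fun l l' h h' hp => NB28.isUp_prefix h h' hp)
      (B5W.sum_if_le_one ν fun l l' h h' hp => NB28.isDn_prefix h h' hp)
  have hΛ : ∑' b, Lam ν u b = 1 :=
    le_antisymm (mass_le_one (Lam ν u) (ht u) B5W.one_le_hb hU1)
      (mass_ge_one (Lam ν u) (ht u) (c * c) (mul_ne_zero hc hc) 0 (fun n _ => hU n))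
  obtain ⟨c1, hc1, hw⟩ := hW ν hν u hA hB
  exact KB818.kappaW_of_win hd ν hν u hA hB
    (HWinAd363.hWin_of_hW (Lam ν u) (ht u) (dl u) (cd u) B5W.one_le_hb hΛ hU1 (c * c)
      (mul_ne_zero hc hc) hU (B5W.hinj u) c1 hc1 hw)

/-- **the last input of row 154** -/
theorem kappaAll : NB28.KappaAll' :=
  fun _ hd ν _ hν u hA hB => (kappaW ν (by omega) hν u hA hB).weak

theorem nb : Spine.NBProp := NB28.nb_of_kappaW' kappaAll


end Crest.Agent.R154.HW81
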