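import Crest.Agent.R154.JAsm_139
import Crest.Agent.R154.HSl_689
import Crest.Agent.R154.E23_657
import Crest.Agent.R154.Dens_903

/-! Row 154, ROAD 801, joint cuts (helper810): helper139's `hW` for helper657's pair blocks, from
`E23W.e2`, `E23W.e3`. -/

set_option autoImplicit false

namespace Crest.Agent.R154.HW810

open MeasureTheory ProbabilityTheory Crest.ProbabilityR.RandomEnvironment
open scoped ENNReal
open Crest.Agent.R154.B5A Crest.Agent.R154.B5W
open Crest.Agent.R154.Flux132 (lev)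
open Crest.Agent.R154.Flux566 (endp endp_append endp_eq_add)
open Crest.Agent.R154.NB28 (IsUp IsDn Cm)
open Crest.Agent.R154.JAsm139 (Good card WL SLB)

variable {d : ℕ}

section abs

open Classical in
lemma quant {α : Type*} (p : α → ℝ≥0∞) (m : ℝ≥0∞) (hm : ∑' a, p a = m) (hm1 : m ≤ 1)
    (v : ℝ≥0∞) (hv : v ≠ 0) (hvm : v ≤ m) :
    ∃ th : ℝ≥0∞, th ≠ 0 ∧ th ≤ 1 ∧ ∑' a, (if p a < th then p a else 0) ≤ v ∧
      v ≤ ∑' a, (if p a ≤ th then p a else 0) := by
  have hmt : m ≠ ⊤ := ne_top_of_le_ne_top ENNReal.one_ne_top hm1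
  have hm0 : m ≠ 0 := fun h => hv (by rw [h] at hvm; exact nonpos_iff_eq_zero.1 hvm)
  obtain ⟨th, h0, h1, h2, h3⟩ := Dens903.quantile (p := fun a => p a / m) (by
    simp only [div_eq_mul_inv]
    rw [ENNReal.tsum_mul_right, hm, ENNReal.mul_inv_cancel hm0 hmt]) (u := v / m)
    (ENNReal.div_pos hv hmt).ne' (ENNReal.div_le_of_le_mul (by simpa using hvm))
  have e : ∀ a, p a = (p a / m) * m := fun a => (ENNReal.div_mul_cancel hm0 hmt).symm
  refine ⟨th * m, mul_ne_zero h0 hm0, mul_le_one' h1 hm1, ?_, ?_⟩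
  · calc ∑' a, (if p a < th * m then p a else 0)
        = (∑' a, (if p a / m < th then p a / m else 0)) * m := by
          rw [← ENNReal.tsum_mul_right]
          refine tsum_congr fun a => ?_
          have : p a < th * m ↔ p a / m < th := by
            rw [ENNReal.div_lt_iff (Or.inl hm0) (Or.inl hmt)]
          by_cases h : p a < th * m
          · rw [if_pos h, if_pos (this.1 h)]; exact e a
          · rw [if_neg h, if_neg (fun h' => h (this.2 h')), zero_mul]
      _ ≤ (v / m) * m := by gcongr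
      _ = v := ENNReal.div_mul_cancel hm0 hmt
  · calc v = (v / m) * m := (ENNReal.div_mul_cancel hm0 hmt).symm
      _ ≤ (∑' a, (if p a / m ≤ th then p a / m else 0)) * m := by gcongr
      _ = _ := by
          rw [← ENNReal.tsum_mul_right]
          refine tsum_congr fun a => ?_
          have : p a ≤ th * m ↔ p a / m ≤ th := by
            rw [ENNReal.div_le_iff hm0 hmt]
          by_cases h : p a ≤ th * m
          · rw [if_pos h, if_pos (this.1 h)]; exact (e a).symm
          · rw [if_neg h, if_neg (fun h' => h (this.2 h')), zero_mul]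

open Classical in
lemma fib {α β : Type*} (f : α → ℝ≥0∞) (P : α → Prop) (e : α → β) (G : β → ℝ≥0∞) :
    ∑' z, (∑' a, if P a ∧ e a = z then f a else 0) * G z
      = ∑' a, if P a then f a * G (e a) else 0 := by
  simp_rw [← ENNReal.tsum_mul_right]
  rw [ENNReal.tsum_comm]
  refine tsum_congr fun a => ?_
  rw [tsum_eq_single (e a)]
  · by_cases h : P a
    · simp [h]
    · simp [h]
  · intro z hz
    rw [if_neg (fun h => hz h.2.symm), zero_mul]

open Classical in
lemma side {α β : Type*} (f : α → ℝ≥0∞) (P : α → Prop) (e : α → β) (v : ℝ≥0∞) (hv : v ≠ 0)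
    (hvm : v ≤ ∑' a, if P a then f a else 0) (hm1 : (∑' a, if P a then f a else 0) ≤ 1) :
    ∃ (th : ℝ≥0∞) (E : Finset β) (Lo : β → Prop), th * E.card ≤ 1 ∧
      (∑' a, if P a ∧ e a ∉ E then f a else 0) ≤ v ∧
      v ≤ (∑' a, if P a ∧ Lo (e a) then f a else 0) ∧
      ∀ z, (∑' a, if P a ∧ Lo (e a) ∧ e a = z then f a else 0) ≤ th := by
  set p : β → ℝ≥0∞ := fun z => ∑' a, if P a ∧ e a = z then f a else 0 with hp
  have htot : ∑' z, p z = ∑' a, if P a then f a else 0 := by
    have := fib f P e (fun _ => 1)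
    simpa using this
  have htt : ∑' z, p z ≠ ⊤ := ne_top_of_le_ne_top ENNReal.one_ne_top (htot.le.trans hm1)
  obtain ⟨th, h0, h1, h2, h3⟩ := quant p _ htot hm1 v hv hvm
  have hfin : {z | th ≤ p z}.Finite := ENNReal.finite_const_le_of_tsum_ne_top htt h0
  refine ⟨th, hfin.toFinset, fun z => p z ≤ th, ?_, ?_, ?_, ?_⟩
  · refine le_trans ?_ (htot.le.trans hm1)
    calc th * (hfin.toFinset.card : ℝ≥0∞) = ∑ z ∈ hfin.toFinset, th := by
          rw [Finset.sum_const, nsmul_eq_mul, mul_comm]
      _ ≤ ∑ z ∈ hfin.toFinset, p z := Finset.sum_le_sum fun z hz => by simpa using hz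
      _ ≤ ∑' z, p z := ENNReal.sum_le_tsum _
  · refine le_trans (le_of_eq ?_) h2
    have := fib f P e (fun z => if p z < th then 1 else 0)
    have e2 : ∑' z, (if p z < th then p z else 0) = ∑' z, p z * (if p z < th then 1 else 0) := by
      refine tsum_congr fun z => ?_
      split_ifs <;> simp
    rw [e2, this]
    refine tsum_congr fun a => ?_
    by_cases h : P a
    · by_cases h' : p (e a) < th
      · rw [if_pos ⟨h, by simpa using h'⟩, if_pos h, if_pos h', mul_one]
      · rw [if_neg, if_pos h, if_neg h', mul_zero]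
        rintro ⟨_, h''⟩
        exact h' (by simpa using h'')
    · rw [if_neg (fun h' => h h'.1), if_neg h]
  · refine le_trans h3 (le_of_eq ?_)
    have := fib f P e (fun z => if p z ≤ th then 1 else 0)
    have e2 : ∑' z, (if p z ≤ th then p z else 0) = ∑' z, p z * (if p z ≤ th then 1 else 0) := by
      refine tsum_congr fun z => ?_
      split_ifs <;> simp
    rw [e2, this]
    refine tsum_congr fun a => ?_
    by_cases h : P a
    · by_cases h' : p (e a) ≤ th
      · rw [if_pos h, if_pos h', mul_one, if_pos ⟨h, h'⟩]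
      · rw [if_pos h, if_neg h', mul_zero, if_neg (fun h'' => h' h''.2)]
    · rw [if_neg h, if_neg (fun h' => h h'.1)]
  · intro z
    by_cases hz : p z ≤ th
    · refine le_trans (ENNReal.tsum_le_tsum fun a => ?_) hz
      by_cases h : P a ∧ p (e a) ≤ th ∧ e a = z
      · rw [if_pos h, if_pos ⟨h.1, h.2.2⟩]
      · rw [if_neg h]; exact zero_le
    · refine le_trans (le_of_eq ?_) zero_le
      rw [ENNReal.tsum_eq_zero]
      intro a
      rw [if_neg]
      rintro ⟨_, h, rfl⟩
      exact hz h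

end abs

open Classical in
/-- counting from an average bound -/
lemma count (u : Step d) (Φ : Site d → ℝ≥0∞) (τ A B : ℝ≥0∞) (hτ : τ ≠ ⊤) (hA : A ≤ τ / 2)
    (h : ∀ (μ : Site d → ℝ≥0∞) (M : ℝ≥0∞), ∑' x, μ x ≤ 1 → (∀ x, μ x ≤ M) →
      ∑' x, (if lev u x = 0 then μ x * Φ x else 0) ≤ A + M * B) :
    card {w : Lat u | τ < Φ w.1} * (τ / 2) ≤ B := by
  set S : Set (Lat u) := {w : Lat u | τ < Φ w.1} with hS
  unfold card
  rw [← ENNReal.tsum_mul_right, ENNReal.tsum_eq_iSup_sum]
  refine iSup_le fun F => ?_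
  set F' : Finset (Lat u) := F.filter fun w => w ∈ S with hF'
  have e1 : ∑ w ∈ F, S.indicator (fun _ => (1 : ℝ≥0∞)) w * (τ / 2)
      = (F'.card : ℝ≥0∞) * (τ / 2) := by
    rw [hF', ← Finset.sum_mul]
    congr 1
    rw [Finset.card_filter]
    push_cast
    refine Finset.sum_congr rfl fun w _ => ?_
    rw [Set.indicator_apply]
  rw [e1]
  rcases Nat.eq_zero_or_pos F'.card with h0 | h0
  · rw [h0]; simp
  set n : ℝ≥0∞ := (F'.card : ℝ≥0∞) with hn
  have hn0 : n ≠ 0 := by rw [hn]; exact_mod_cast h0.ne'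
  have hnt : n ≠ ⊤ := ENNReal.natCast_ne_top _
  set I : Finset (Site d) := F'.image (fun w : Lat u => w.1) with hI
  have hIc : I.card = F'.card := Finset.card_image_of_injective _ Subtype.val_injective
  have h1 := h (fun x => if x ∈ I then n⁻¹ else 0) n⁻¹ (by
    rw [tsum_eq_sum (s := I) (fun x hx => if_neg hx), Finset.sum_ite_mem, Finset.inter_self,
      Finset.sum_const, nsmul_eq_mul, hIc]
    exact (ENNReal.mul_inv_cancel hn0 hnt).le) (fun x => by
    split_ifs
    · exact le_rfl
    · exact zero_le)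
  have h2 : τ ≤ ∑' x, (if lev u x = 0 then (if x ∈ I then n⁻¹ else 0) * Φ x else 0) := by
    calc τ = ∑ x ∈ I, n⁻¹ * τ := by
          rw [Finset.sum_const, nsmul_eq_mul, hIc, ← mul_assoc, ENNReal.mul_inv_cancel hn0 hnt,
            one_mul]
      _ ≤ ∑ x ∈ I, (if lev u x = 0 then (if x ∈ I then n⁻¹ else 0) * Φ x else 0) := by
          refine Finset.sum_le_sum fun x hx => ?_
          obtain ⟨w, hw, rfl⟩ := Finset.mem_image.1 hx
          have hwS : w ∈ S := (Finset.mem_filter.1 hw).2
          rw [if_pos (show lev u w.1 = 0 from w.2), if_pos hx]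
          have : τ ≤ Φ w.1 := le_of_lt hwS
          gcongr
      _ ≤ _ := ENNReal.sum_le_tsum _
  have h3 : τ ≤ τ / 2 + n⁻¹ * B := h2.trans (h1.trans (by gcongr))
  have h4 : τ / 2 ≤ n⁻¹ * B := by
    have h5 : τ / 2 + τ / 2 ≤ τ / 2 + n⁻¹ * B := by rwa [ENNReal.add_halves]
    exact (ENNReal.add_le_add_iff_left (ENNReal.div_ne_top hτ (by norm_num))).1 h5
  calc n * (τ / 2) ≤ n * (n⁻¹ * B) := by gcongr
    _ = B := by rw [← mul_assoc, ENNReal.mul_inv_cancel hn0 hnt, one_mul]

lemma act_cat (u : Step d) (L : List (PB u)) (w : Lat u) :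
    (act (dl u) L w).1 = dlp (cat L) w.1 := by
  induction L generalizing w with
  | nil => simp [act, cat, dlp, endp]
  | cons b L ih =>
    rw [act, ih]
    simp only [dl, dlp, cat, pm, endp_append]
    rw [endp_eq_add (cat L).2 (endp 0 b.1.2), endp_eq_add b.1.1 (endp 0 (cat L).1)]
    abel

variable (ν : Measure (Row d)) [IsProbabilityMeasure ν] (u : Step d)

open Classical in
/-- sum over lists of height `H` with an event of the pair -/
lemma tsum_ev (H : ℕ) (Q : List (Step d) × List (Step d) → Prop) (R : List (PB u) → Prop)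
    (hR : ∀ L, R L ↔ Q (cat L)) :
    ∑' L : List (PB u), (if HT (ht u) L = H ∧ R L then LW (Lam ν u) L else 0)
      = ∑' π : List (Step d), ∑' γ : List (Step d),
        if IsUp u H π ∧ IsDn u H γ ∧ Q (π, γ) then NB28.aw ν π * NB28.aw ν γ else 0 := by
  have h := tsum_L ν u H (fun x => if Q x then 1 else 0)
  refine Eq.trans ?_ (h.trans ?_)
  · refine tsum_congr fun L => ?_
    by_cases h1 : HT (ht u) L = H
    · by_cases h2 : R L
      · rw [if_pos ⟨h1, h2⟩, if_pos h1, if_pos ((hR L).1 h2), mul_one]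
      · rw [if_neg (fun h' => h2 h'.2), if_pos h1, if_neg (fun h' => h2 ((hR L).2 h')), mul_zero]
    · rw [if_neg (fun h' => h1 h'.1), if_neg h1]
  · refine tsum_congr fun π => tsum_congr fun γ => ?_
    by_cases h1 : IsUp u H π ∧ IsDn u H γ
    · by_cases h2 : Q (π, γ)
      · rw [if_pos h1, if_pos h2, if_pos ⟨h1.1, h1.2, h2⟩, mul_one]
      · rw [if_pos h1, if_neg h2, if_neg (fun h' => h2 h'.2.2), mul_zero]
    · rw [if_neg h1, if_neg (fun h' => h1 ⟨h'.1, h'.2.1⟩)]

open Classical in
lemma prodsum (P Q : List (Step d) → Prop) (f g : List (Step d) → ℝ≥0∞) :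
    ∑' π, ∑' γ, (if P π ∧ Q γ then f π * g γ else 0)
      = (∑' π, if P π then f π else 0) * ∑' γ, if Q γ then g γ else 0 := by
  rw [← ENNReal.tsum_mul_right]
  refine tsum_congr fun π => ?_
  rw [← ENNReal.tsum_mul_left]
  refine tsum_congr fun γ => ?_
  by_cases h1 : P π <;> by_cases h2 : Q γ <;> simp [h1, h2]

end Crest.Agent.R154.HW810
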