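import Crest.Agent.R154.JHit_139
import Crest.Agent.R154.Comp_818
import Crest.Agent.R154.Num_873

/-! Row 154, ROAD 801, frame B (helper597): 818's `hWin` from 139's `hit_le` and 139's `hW`. -/

set_option autoImplicit false

namespace Crest.Agent.R154.HWb597

open scoped ENNReal Topology
open Filter Crest.Agent.R154.B5A Crest.Agent.R154.FP178 Crest.Agent.R154.JAsm139
open Crest.Agent.R154.Comp818

variable {B W : Type*} (Λ : B → ℝ≥0∞) (ht : B → ℕ) (dl : B → W → W) (cd : W → B → Set ℕ)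

lemma fp_of_att (L : List B) : ∀ a, att ht a L → fp ht a L := by
  induction L with
  | nil =>
    intro a h
    have := h.1
    rw [HT_nil] at this
    rw [fp_nil]; omega
  | cons b L ih =>
    intro a h
    rw [fp_cons]
    have h0 := h.2 0 (by simp)
    rw [List.take_zero, HT_nil] at h0
    refine ⟨h0, ih _ ⟨?_, fun i hi => ?_⟩⟩
    · have := h.1
      rw [HT_cons] at this
      omega
    · have := h.2 (i + 1) (by simpa using hi)
      rw [List.take_succ_cons, HT_cons] at this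
      omega

lemma WLp_le_one (hU1 : ∀ n, U Λ ht n ≤ 1) (H s : ℕ) (w : W) : WLp Λ ht dl cd H s w ≤ 1 := by
  classical
  refine le_trans (ENNReal.tsum_le_tsum fun L => ?_) (hU1 H)
  by_cases h : HT ht L = H
  · rw [if_pos h]; split_ifs <;> simp
  · rw [if_neg h, if_neg (fun h' => h h'.1)]

open Classical in
lemma win_le (hΛ : ∑' b, Λ b ≤ 1) (h1 : ∀ b, 1 ≤ ht b) (hU1 : ∀ n, U Λ ht n ≤ 1) (H s : ℕ)
    (S1 S2 : Set W) (V : ℝ≥0∞)
    (hV : ∀ w, w ∉ S1 → w ∉ S2 → WLp Λ ht dl cd H s w ≤ V) (a i0 : ℕ) (w : W) :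
    ∑' L1 : List B, (if att ht a L1 ∧ HT ht L1 ≤ a + i0 then
        LW Λ L1 * WLp Λ ht dl cd H s (act dl L1 w) else 0)
      ≤ V + hitS Λ ht dl a S1 w + hitS Λ ht dl a S2 w := by
  calc ∑' L1 : List B, (if att ht a L1 ∧ HT ht L1 ≤ a + i0 then
        LW Λ L1 * WLp Λ ht dl cd H s (act dl L1 w) else 0)
      ≤ ∑' L1 : List B, ((if fp ht a L1 then LW Λ L1 else 0) * V
        + (if fp ht a L1 then LW Λ L1 * S1.indicator (fun _ => (1 : ℝ≥0∞)) (act dl L1 w) else 0)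
        + (if fp ht a L1 then LW Λ L1 * S2.indicator (fun _ => (1 : ℝ≥0∞)) (act dl L1 w)
            else 0)) := by
        refine ENNReal.tsum_le_tsum fun L1 => ?_
        by_cases h : att ht a L1 ∧ HT ht L1 ≤ a + i0
        · have hf := fp_of_att ht L1 a h.1
          rw [if_pos h, if_pos hf, if_pos hf, if_pos hf]
          by_cases hs1 : act dl L1 w ∈ S1
          · refine le_add_right (le_add_left ?_)
            rw [Set.indicator_of_mem hs1]
            exact mul_le_mul_right (WLp_le_one Λ ht dl cd hU1 _ _ _) _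
          · by_cases hs2 : act dl L1 w ∈ S2
            · refine le_add_left ?_
              rw [Set.indicator_of_mem hs2]
              exact mul_le_mul_right (WLp_le_one Λ ht dl cd hU1 _ _ _) _
            · exact le_add_right (le_add_right (mul_le_mul_right (hV _ hs1 hs2) _))
        · rw [if_neg h]; exact zero_le
    _ = (∑' L1 : List B, (if fp ht a L1 then LW Λ L1 else 0)) * V
        + hitS Λ ht dl a S1 w + hitS Λ ht dl a S2 w := by
        rw [ENNReal.tsum_add, ENNReal.tsum_add, ENNReal.tsum_mul_right]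
        rfl
    _ ≤ 1 * V + hitS Λ ht dl a S1 w + hitS Λ ht dl a S2 w := by
        gcongr
        exact sum_FP Λ ht h1 hΛ a
    _ = _ := by rw [one_mul]

open Classical in
/-- **818's `hWin`** from 139's `hW`. -/
theorem hWin_of (h1 : ∀ b, 1 ≤ ht b) (hΛ : ∑' b, Λ b = 1) (hU1 : ∀ n, U Λ ht n ≤ 1)
    (hinj : ∀ b, Function.Injective (dl b))
    (htl : Tendsto (fun H : ℕ => ∑' k, tail Λ ht (H + k)) atTop (𝓝 0))
    (c1 : ℝ≥0∞) (hc1 : c1 ≠ 0) (hc1' : c1 ≤ 1)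
    (hW : ∀ u η : ℝ≥0∞, u ≠ 0 → u ≤ 1 → η ≠ 0 → ∃ s H0 : ℕ, ∀ H, H0 ≤ H →
      ∃ S1 S2 : Set W, Good Λ ht dl (c1 * u) η H S1 ∧ Good Λ ht dl (c1 * u) η H S2 ∧
        ∀ w, w ∉ S1 → w ∉ S2 → WLp Λ ht dl cd H s w ≤ u * u + η) :
    ∀ ε : ℝ≥0∞, ε ≠ 0 → ∃ K : ℕ, 1 ≤ K ∧ ∀ i0 : ℕ, ∃ s H0 : ℕ, ∀ H, H0 ≤ H →
      ∀ a, K * H ≤ 8 * a → ∀ w, ∑' L1 : List B, (if att ht a L1 ∧ HT ht L1 ≤ a + i0 then
        LW Λ L1 * WLp Λ ht dl cd H s (act dl L1 w) else 0) ≤ ε / K := by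
  intro ε hε
  have hc1t : c1 ≠ ⊤ := ne_top_of_le_ne_top ENNReal.one_ne_top hc1'
  set e := min ε 1 / 8 with he
  have he0 : e ≠ 0 := by
    have h0 : 0 < min ε 1 := lt_min (pos_iff_ne_zero.2 hε) one_pos
    exact (ENNReal.div_pos h0.ne' (by norm_num)).ne'
  have het : e ≤ 1 := by
    rw [he]
    exact ENNReal.div_le_of_le_mul (by
      calc min ε 1 ≤ 1 := min_le_right _ _
        _ ≤ 1 * 8 := by norm_num)
  have he8 : 8 * e ≤ ε := by
    rw [he]
    exact ENNReal.mul_div_le.trans (min_le_left _ _)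
  obtain ⟨K0, hK0⟩ := Num873.num 16 (by norm_num) (e * (c1 * c1))
    (mul_ne_zero he0 (mul_ne_zero hc1 hc1))
  obtain ⟨v, hv0, hv1, hv2, hv3⟩ := hK0 (K0 + 1) (Nat.le_succ _)
  set K := K0 + 1 with hK
  set J := K / 16 with hJ
  have hKle : (K : ℝ≥0∞) ≤ ((16 * (K + 16) : ℕ) : ℝ≥0∞) := by
    exact_mod_cast (by omega : K ≤ 16 * (K + 16))
  have hA : (K : ℝ≥0∞) * v ^ 2 ≤ e * (c1 * c1) := (mul_le_mul_left hKle _).trans hv2
  have hB : (K : ℝ≥0∞) * (1 - v) ^ J ≤ e := by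
    refine ((mul_le_mul_left hKle _).trans hv3).trans ?_
    calc e * (c1 * c1) ≤ e * (1 * 1) := by gcongr
      _ = e := by ring
  have hKt : (K : ℝ≥0∞) ≠ ⊤ := ENNReal.natCast_ne_top K
  have hK1 : (1 : ℝ≥0∞) ≤ K := by exact_mod_cast (by omega : 1 ≤ K)
  set u := v / c1 with hu
  have hcu : c1 * u = v := ENNReal.mul_div_cancel hc1 hc1t
  have hvc : v ≤ c1 := by
    by_contra hlt
    push Not at hlt
    have h2 : c1 * c1 < v * v := ENNReal.mul_lt_mul hlt hlt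
    have h3 : v * v ≤ c1 * c1 := by
      calc v * v = 1 * v ^ 2 := by ring
        _ ≤ (K : ℝ≥0∞) * v ^ 2 := by gcongr
        _ ≤ e * (c1 * c1) := hA
        _ ≤ 1 * (c1 * c1) := by gcongr
        _ = _ := one_mul _
    exact absurd (h2.trans_le h3) (lt_irrefl _)
  have hu0 : u ≠ 0 := (ENNReal.div_pos hv0 hc1t).ne'
  have hu1 : u ≤ 1 := ENNReal.div_le_of_le_mul (by rw [one_mul]; exact hvc)
  have hKu : (K : ℝ≥0∞) * (u * u) ≤ e := by
    have h4 : (K : ℝ≥0∞) * (u * u) * (c1 * c1) ≤ e * (c1 * c1) := by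
      calc (K : ℝ≥0∞) * (u * u) * (c1 * c1) = K * ((c1 * u) * (c1 * u)) := by ring
        _ = K * v ^ 2 := by rw [hcu]; ring
        _ ≤ _ := hA
    exact (ENNReal.mul_le_mul_iff_left (mul_ne_zero hc1 hc1) (ENNReal.mul_ne_top hc1t hc1t)).1 h4
  set N : ℝ≥0∞ := K * (4 * J + 1) with hN
  have hNt : N ≠ ⊤ := by
    rw [hN]
    refine ENNReal.mul_ne_top hKt (ENNReal.add_ne_top.2 ⟨ENNReal.mul_ne_top (by norm_num)
      (ENNReal.natCast_ne_top _), by norm_num⟩)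
  set η := e / N with hη
  have hη0 : η ≠ 0 := (ENNReal.div_pos he0 hNt).ne'
  have hNη : N * η ≤ e := ENNReal.mul_div_le
  refine ⟨K, by omega, fun i0 => ?_⟩
  obtain ⟨s, H0, hH0⟩ := hW u η hu0 hu1 hη0
  have hev := (ENNReal.tendsto_nhds_zero.1 htl) η (pos_iff_ne_zero.2 hη0)
  obtain ⟨H1, hH1⟩ := eventually_atTop.1 hev
  refine ⟨s, max H0 H1, fun H hH a ha w => ?_⟩
  obtain ⟨S1, S2, hG1, hG2, hoff⟩ := hH0 H (le_trans (le_max_left _ _) hH)
  have htail := hH1 H (le_trans (le_max_right _ _) hH)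
  have hJa : J * (2 * H) ≤ a := by
    have h5 : J * 16 ≤ K := Nat.div_mul_le_self K 16
    have h6 : J * 16 * H ≤ K * H := Nat.mul_le_mul_right _ h5
    have h7 : J * 16 * H = 8 * (J * (2 * H)) := by ring
    omega
  rw [hcu] at hG1 hG2
  have k1 := hit_le Λ ht dl h1 hΛ hU1 hinj v η H S1 hG1 J a hJa w
  have k2 := hit_le Λ ht dl h1 hΛ hU1 hinj v η H S2 hG2 J a hJa w
  have kw := win_le Λ ht dl cd hΛ.le h1 hU1 H s S1 S2 _ hoff a i0 w
  rw [ENNReal.le_div_iff_mul_le (Or.inl (by positivity)) (Or.inl hKt)]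
  have k3 : ∀ x : ℝ≥0∞, x ≤ (1 - v) ^ J + J * (η + ∑' k, tail Λ ht (H + k)) →
      x ≤ (1 - v) ^ J + J * (η + η) := fun x hx => hx.trans (by gcongr)
  calc _ ≤ (u * u + η + ((1 - v) ^ J + J * (η + η)) + ((1 - v) ^ J + J * (η + η))) * K := by
        refine mul_le_mul_left (kw.trans ?_) _
        exact add_le_add (add_le_add le_rfl (k3 _ k1)) (k3 _ k2)
    _ = K * (u * u) + 2 * (K * (1 - v) ^ J) + N * η := by rw [hN]; ring
    _ ≤ e + 2 * e + e := by gcongr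
    _ = 4 * e := by ring
    _ ≤ 8 * e := by gcongr; norm_num
    _ ≤ ε := he8

end Crest.Agent.R154.HWb597
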