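import Mathlib

/-! Row 154 (T0219, frame B): the numbers of `hWin` (helper823 for helper912). -/

set_option autoImplicit false

namespace Crest.Agent.R154.Num823

open Filter Topology
open scoped ENNReal

lemma real_num (δ c : ℝ) (hδ : 0 < δ) (hc : 0 < c) (hc1 : c ≤ 1) :
    ∃ (M : ℕ) (c' : ℝ), 1 ≤ M ∧ 0 < c' ∧ c' ≤ c ∧
      (16 * (M : ℝ) ^ 2) * ((c' / M) * (c' / M) + 2 * (1 - c' / M * c) ^ (M ^ 2)) ≤ δ := by
  set c' : ℝ := min c (δ / 32) with hc'
  have h0 : 0 < c' := lt_min hc (by positivity)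
  have h1 : c' ≤ c := min_le_left _ _
  have h2 : 32 * c' ≤ δ := by
    have := min_le_right c (δ / 32)
    rw [← hc'] at this
    linarith
  have ht : Tendsto (fun x : ℝ => x ^ 2 * Real.exp (-(c' * c) * x)) atTop (𝓝 0) := by
    have := tendsto_rpow_mul_exp_neg_mul_atTop_nhds_zero 2 (c' * c) (by positivity)
    refine this.congr' ?_
    filter_upwards with x
    norm_num
  have ht2 : Tendsto (fun N : ℕ => (32 : ℝ) * ((N : ℝ) ^ 2 * Real.exp (-(c' * c) * N)))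
      atTop (𝓝 0) := by
    have := (ht.comp tendsto_natCast_atTop_atTop).const_mul (32 : ℝ)
    simpa using this
  obtain ⟨M, hM⟩ := ((ht2.eventually_le_const (half_pos hδ)).and (eventually_ge_atTop 1)).exists
  have hMr : (1 : ℝ) ≤ M := by exact_mod_cast hM.2
  refine ⟨M, c', hM.2, h0, h1, ?_⟩
  have hx : 0 ≤ 1 - c' / M * c := by
    have h3 : c' / M ≤ 1 := by rw [div_le_one (by positivity)]; linarith
    have h4 : c' / M * c ≤ 1 * 1 := by gcongr
    linarith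
  have e1 : (1 - c' / M * c) ^ (M ^ 2) ≤ Real.exp (-(c' * c) * M) := by
    calc (1 - c' / M * c) ^ (M ^ 2) ≤ (Real.exp (-(c' / M * c))) ^ (M ^ 2) := by
          gcongr
          have := Real.add_one_le_exp (-(c' / M * c))
          linarith
      _ = Real.exp (-(c' * c) * M) := by
          rw [← Real.exp_nat_mul]
          congr 1
          push_cast
          field_simp
  have e2 : (16 * (M : ℝ) ^ 2) * ((c' / M) * (c' / M)) ≤ δ / 2 := by
    have : (16 * (M : ℝ) ^ 2) * ((c' / M) * (c' / M)) = 16 * (c' * c') := by field_simp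
    rw [this]
    have : c' * c' ≤ c' * 1 := by gcongr; linarith
    linarith
  calc (16 * (M : ℝ) ^ 2) * ((c' / M) * (c' / M) + 2 * (1 - c' / M * c) ^ (M ^ 2))
      = (16 * (M : ℝ) ^ 2) * ((c' / M) * (c' / M)) +
        32 * ((M : ℝ) ^ 2 * (1 - c' / M * c) ^ (M ^ 2)) := by ring
    _ ≤ δ / 2 + 32 * ((M : ℝ) ^ 2 * Real.exp (-(c' * c) * M)) := by gcongr
    _ ≤ δ / 2 + δ / 2 := by gcongr; exact hM.1
    _ = δ := by ring

theorem num912 (ε c : ℝ≥0∞) (hε : ε ≠ 0) (hc : c ≠ 0) (hc1 : c ≤ 1) :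
    ∃ (N : ℕ) (u : ℝ≥0∞), 1 ≤ N ∧ u ≠ 0 ∧ u ≤ c ∧
      ((16 * N : ℕ) : ℝ≥0∞) * (u * u + 2 * (1 - u * c) ^ N) ≤ ε := by
  obtain ⟨δ, hδ, hδε⟩ : ∃ δ : ℝ, 0 < δ ∧ ENNReal.ofReal δ ≤ ε := by
    rcases eq_or_ne ε ⊤ with h | h
    · exact ⟨1, one_pos, by simp [h]⟩
    · exact ⟨ε.toReal, ENNReal.toReal_pos hε h, by rw [ENNReal.ofReal_toReal h]⟩
  have hctop : c ≠ ⊤ := ne_top_of_le_ne_top ENNReal.one_ne_top hc1
  have hcr : 0 < c.toReal := ENNReal.toReal_pos hc hctop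
  have hcr1 : c.toReal ≤ 1 := by
    have := ENNReal.toReal_mono ENNReal.one_ne_top hc1
    simpa using this
  obtain ⟨M, c', hM, h0, h1, h2⟩ := real_num δ c.toReal hδ hcr hcr1
  have hMr : (1 : ℝ) ≤ M := by exact_mod_cast hM
  have hcM : c' / M ≤ c' := div_le_self h0.le hMr
  have hcM0 : 0 < c' / M := by positivity
  have hx : 0 ≤ 1 - c' / M * c.toReal := by
    have h4 : c' / M * c.toReal ≤ 1 * 1 := by gcongr; linarith
    linarith
  refine ⟨M ^ 2, ENNReal.ofReal (c' / M), Nat.one_le_iff_ne_zero.2 (by positivity), ?_, ?_, ?_⟩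
  · simpa using hcM0
  · rw [← ENNReal.ofReal_toReal hctop]
    exact ENNReal.ofReal_le_ofReal (hcM.trans h1)
  · have e0 : (((16 * M ^ 2 : ℕ)) : ℝ≥0∞) = ENNReal.ofReal (16 * (M : ℝ) ^ 2) := by
      rw [← ENNReal.ofReal_natCast]; congr 1; push_cast; ring
    have e1 : (1 : ℝ≥0∞) - ENNReal.ofReal (c' / M) * c = ENNReal.ofReal (1 - c' / M * c.toReal) := by
      rw [ENNReal.ofReal_sub _ (by positivity), ENNReal.ofReal_one,
        ENNReal.ofReal_mul hcM0.le, ENNReal.ofReal_toReal hctop]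
    have e2 : (2 : ℝ≥0∞) = ENNReal.ofReal 2 := by simp
    rw [e0, e1, ← ENNReal.ofReal_pow hx, ← ENNReal.ofReal_mul hcM0.le, e2,
      ← ENNReal.ofReal_mul (by norm_num), ← ENNReal.ofReal_add (by positivity) (by positivity),
      ← ENNReal.ofReal_mul (by positivity)]
    exact (ENNReal.ofReal_le_ofReal h2).trans hδε

end Crest.Agent.R154.Num823
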