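import Crest.Agent.R154.HWin_912
import Crest.Agent.R154.Num912_823

/-! Row 154, ROAD 801, joint-cut frame (helper912): densities of the increment, `X` flat / `Y` flat. -/

set_option autoImplicit false

namespace Crest.Agent.R154.HWin912

open MeasureTheory ProbabilityTheory Crest.ProbabilityR.RandomEnvironment
open scoped ENNReal
open Finset
open Crest.Agent.R154.B5A Crest.Agent.R154.FP178 Crest.Agent.R154.B5W
open Crest.Agent.R154.Flux566 (endp endp_append endp_eq_add)
open Crest.Agent.R154.NB28 (IsUp IsDn Cm)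

section generic

variable {α V : Type*} (a : α → ℝ≥0∞) (e : α → V)

open Classical in
lemma pl_small (t : ℝ≥0∞) (z0 : V) :
    ∑' π, a π * (if pl a e (e π) ≤ t ∧ e π = z0 then 1 else 0) ≤ t := by
  rw [← pl_fun a e (fun z => if pl a e z ≤ t ∧ z = z0 then 1 else 0), tsum_eq_single z0]
  · by_cases h : pl a e z0 ≤ t
    · simp [h]
    · simp [h]
  · intro z hz
    rw [if_neg (fun h => hz h.2), mul_zero]

end generic

variable {d : ℕ} (ν : Measure (Row d)) [IsProbabilityMeasure ν] (u : Step d)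

open Classical in
lemma T2_le_one (H s : ℕ) (E : Finset (Site d)) (x : Site d) : T2 ν u H s E x ≤ 1 := by
  refine le_trans ?_ (WM286.mass_pairs_le ν u H)
  refine ENNReal.tsum_le_tsum fun π => ENNReal.tsum_le_tsum fun γ => ?_
  by_cases h : IsUp u H π ∧ endp 0 π ∈ E ∧ IsDn u H γ ∧ (∃ k, k ∈ Cm u x π γ) ∧
    (∀ k ∈ Cm u x π γ, s < k)
  · rw [if_pos h, if_pos ⟨h.1, h.2.2.1⟩]
  · rw [if_neg h]; exact zero_le

open Classical in
lemma T3_le_one (H s : ℕ) (E : Finset (Site d)) (x : Site d) : T3 ν u H s E x ≤ 1 := by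
  refine le_trans ?_ (WM286.mass_pairs_le ν u H)
  refine ENNReal.tsum_le_tsum fun π => ENNReal.tsum_le_tsum fun γ => ?_
  by_cases h : IsUp u H π ∧ endp 0 γ ∈ E ∧ IsDn u H γ ∧ (∃ k, k ∈ Cm u x π γ) ∧
    (∀ k ∈ Cm u x π γ, k + s ≤ H)
  · rw [if_pos h, if_pos ⟨h.1, h.2.2.1⟩]
  · rw [if_neg h]; exact zero_le

open Classical in
/-- sums over lists of exact height `H` as double sums of `aX`, `aY` -/
lemma sumL (H : ℕ) (F : List (Step d) × List (Step d) → ℝ≥0∞) :
    ∑' L : List (PB u), (if HT (ht u) L = H then LW (Lam ν u) L * F (cat L) else 0)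
      = ∑' π, ∑' γ, aX ν u H π * aY ν u H γ * F (π, γ) := by
  rw [tsum_L]
  refine tsum_congr fun π => tsum_congr fun γ => ?_
  simp only [aX, aY]
  by_cases h1 : IsUp u H π <;> by_cases h2 : IsDn u H γ <;> simp [h1, h2]

open Classical in
/-- the non-flat mass from the flat mass -/
lemma nonflat_le (hΛ : ∑' b, Lam ν u b ≤ 1) (H : ℕ) (Q : List (Step d) × List (Step d) → Prop)
    (r : ℝ≥0∞) (hr : r ≤ ∑' π, ∑' γ, aX ν u H π * aY ν u H γ * (if Q (π, γ) then 1 else 0)) :
    ∑' A, (if fp (ht u) H A then LW (Lam ν u) A *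
      (if HT (ht u) A = H ∧ Q (cat A) then 0 else 1) else 0) ≤ 1 - r := by
  set F : ℝ≥0∞ := ∑' A, (if fp (ht u) H A then LW (Lam ν u) A *
      (if HT (ht u) A = H ∧ Q (cat A) then 1 else 0) else 0) with hF
  have h1 : r ≤ F := by
    refine hr.trans ?_
    rw [← sumL ν u H (fun x => if Q x then 1 else 0)]
    refine ENNReal.tsum_le_tsum fun A => ?_
    by_cases hA : HT (ht u) A = H
    · rw [if_pos hA, if_pos (fp_of_HT (ht u) one_le_hb A H hA)]
      refine mul_le_mul_right ?_ _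
      by_cases hQ : Q (cat A)
      · rw [if_pos hQ, if_pos ⟨hA, hQ⟩]
      · rw [if_neg hQ]; exact zero_le
    · rw [if_neg hA]; exact zero_le
  have h2 : (∑' A, (if fp (ht u) H A then LW (Lam ν u) A *
      (if HT (ht u) A = H ∧ Q (cat A) then 0 else 1) else 0)) + F ≤ 1 := by
    rw [hF, ← ENNReal.tsum_add]
    refine le_trans (le_of_eq ?_) (sum_FP (Lam ν u) (ht u) one_le_hb hΛ H)
    refine tsum_congr fun A => ?_
    by_cases hA : fp (ht u) H A
    · simp only [hA, if_true]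
      by_cases hQ : HT (ht u) A = H ∧ Q (cat A)
      · rw [if_pos hQ, if_pos hQ, mul_zero, mul_one, zero_add]
      · rw [if_neg hQ, if_neg hQ, mul_zero, mul_one, add_zero]
    · simp [hA]
  have hFt : F ≠ ⊤ := ne_top_of_le_ne_top ENNReal.one_ne_top (le_trans le_add_self h2)
  exact (ENNReal.le_sub_of_add_le_right hFt h2).trans (tsub_le_tsub_left h1 _)

open Classical in
lemma flatX (H : ℕ) (c v th : ℝ≥0∞) (hc : c ≤ ∑' γ, aY ν u H γ)
    (hv : v ≤ ∑' π, (if pl (aX ν u H) (endp 0) (endp 0 π) ≤ 2 * th then aX ν u H π else 0)) :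
    v * c ≤ ∑' π, ∑' γ, aX ν u H π * aY ν u H γ *
      (if pl (aX ν u H) (endp 0) (endp 0 π) ≤ 2 * th then 1 else 0) := by
  refine (mul_le_mul' hv hc).trans (le_of_eq ?_)
  rw [← ENNReal.tsum_mul_right]
  refine tsum_congr fun π => ?_
  rw [← ENNReal.tsum_mul_left]
  refine tsum_congr fun γ => ?_
  split_ifs <;> ring

open Classical in
lemma flatY (H : ℕ) (c v th : ℝ≥0∞) (hc : c ≤ ∑' π, aX ν u H π)
    (hv : v ≤ ∑' γ, (if pl (aY ν u H) (endp 0) (endp 0 γ) ≤ 2 * th then aY ν u H γ else 0)) :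
    v * c ≤ ∑' π, ∑' γ, aX ν u H π * aY ν u H γ *
      (if pl (aY ν u H) (endp 0) (endp 0 γ) ≤ 2 * th then 1 else 0) := by
  rw [mul_comm]
  refine (mul_le_mul' hc hv).trans (le_of_eq ?_)
  rw [← ENNReal.tsum_mul_right]
  refine tsum_congr fun π => ?_
  rw [← ENNReal.tsum_mul_left]
  refine tsum_congr fun γ => ?_
  split_ifs <;> ring

open Classical in
lemma lowX (H : ℕ) (t : ℝ≥0∞) (hY : ∑' γ, aY ν u H γ ≤ 1) (z : Site d) :
    ∑' A, (if fp (ht u) H A then LW (Lam ν u) A * (if (HT (ht u) A = H ∧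
      pl (aX ν u H) (endp 0) (endp 0 (cat A).1) ≤ t) ∧ inc (gB u) A = z then 1 else 0) else 0)
      ≤ t := by
  have h := sumL ν u H (fun x => if pl (aX ν u H) (endp 0) (endp 0 x.1) ≤ t ∧
    endp 0 x.1 + endp 0 x.2 = z then 1 else 0)
  calc _ ≤ ∑' L : List (PB u), (if HT (ht u) L = H then LW (Lam ν u) L *
        (if pl (aX ν u H) (endp 0) (endp 0 (cat L).1) ≤ t ∧
          endp 0 (cat L).1 + endp 0 (cat L).2 = z then 1 else 0) else 0) := by
        refine ENNReal.tsum_le_tsum fun A => ?_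
        by_cases hfp : fp (ht u) H A
        · rw [if_pos hfp]
          by_cases hA : (HT (ht u) A = H ∧ pl (aX ν u H) (endp 0) (endp 0 (cat A).1) ≤ t) ∧
            inc (gB u) A = z
          · rw [if_pos hA, if_pos hA.1.1, if_pos ⟨hA.1.2, by rw [← inc_cat]; exact hA.2⟩]
          · rw [if_neg hA, mul_zero]; exact zero_le
        · rw [if_neg hfp]; exact zero_le
    _ = _ := h
    _ = ∑' γ, ∑' π, aX ν u H π * aY ν u H γ * (if pl (aX ν u H) (endp 0) (endp 0 π) ≤ t ∧
          endp 0 π + endp 0 γ = z then 1 else 0) := ENNReal.tsum_comm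
    _ ≤ ∑' γ, aY ν u H γ * t := by
        refine ENNReal.tsum_le_tsum fun γ => ?_
        have := pl_small (aX ν u H) (endp 0) t (z - endp 0 γ)
        refine le_trans (le_of_eq ?_) (mul_le_mul_right this (aY ν u H γ))
        rw [← ENNReal.tsum_mul_left]
        refine tsum_congr fun π => ?_
        have e3 : (endp 0 π + endp 0 γ = z) ↔ (endp 0 π = z - endp 0 γ) :=
          ⟨fun h => by rw [← h]; abel, fun h => by rw [h]; abel⟩
        by_cases hc : pl (aX ν u H) (endp 0) (endp 0 π) ≤ t ∧ endp 0 π = z - endp 0 γ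
        · rw [if_pos hc, if_pos ⟨hc.1, e3.2 hc.2⟩]; ring
        · rw [if_neg hc, if_neg (fun h => hc ⟨h.1, e3.1 h.2⟩)]; ring
    _ ≤ t := by
        rw [ENNReal.tsum_mul_right]
        calc _ ≤ 1 * t := mul_le_mul_left hY _
          _ = t := one_mul _

open Classical in
lemma lowY (H : ℕ) (t : ℝ≥0∞) (hX : ∑' π, aX ν u H π ≤ 1) (z : Site d) :
    ∑' A, (if fp (ht u) H A then LW (Lam ν u) A * (if (HT (ht u) A = H ∧
      pl (aY ν u H) (endp 0) (endp 0 (cat A).2) ≤ t) ∧ inc (gB u) A = z then 1 else 0) else 0)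
      ≤ t := by
  have h := sumL ν u H (fun x => if pl (aY ν u H) (endp 0) (endp 0 x.2) ≤ t ∧
    endp 0 x.1 + endp 0 x.2 = z then 1 else 0)
  calc _ ≤ ∑' L : List (PB u), (if HT (ht u) L = H then LW (Lam ν u) L *
        (if pl (aY ν u H) (endp 0) (endp 0 (cat L).2) ≤ t ∧
          endp 0 (cat L).1 + endp 0 (cat L).2 = z then 1 else 0) else 0) := by
        refine ENNReal.tsum_le_tsum fun A => ?_
        by_cases hfp : fp (ht u) H A
        · rw [if_pos hfp]
          by_cases hA : (HT (ht u) A = H ∧ pl (aY ν u H) (endp 0) (endp 0 (cat A).2) ≤ t) ∧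
            inc (gB u) A = z
          · rw [if_pos hA, if_pos hA.1.1, if_pos ⟨hA.1.2, by rw [← inc_cat]; exact hA.2⟩]
          · rw [if_neg hA, mul_zero]; exact zero_le
        · rw [if_neg hfp]; exact zero_le
    _ = _ := h
    _ ≤ ∑' π, aX ν u H π * t := by
        refine ENNReal.tsum_le_tsum fun π => ?_
        have := pl_small (aY ν u H) (endp 0) t (z - endp 0 π)
        refine le_trans (le_of_eq ?_) (mul_le_mul_right this (aX ν u H π))
        rw [← ENNReal.tsum_mul_left]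
        refine tsum_congr fun γ => ?_
        have e3 : (endp 0 π + endp 0 γ = z) ↔ (endp 0 γ = z - endp 0 π) :=
          ⟨fun h => by rw [← h]; abel, fun h => by rw [h]; abel⟩
        by_cases hc : pl (aY ν u H) (endp 0) (endp 0 γ) ≤ t ∧ endp 0 γ = z - endp 0 π
        · rw [if_pos hc, if_pos ⟨hc.1, e3.2 hc.2⟩]; ring
        · rw [if_neg hc, if_neg (fun h => hc ⟨h.1, e3.1 h.2⟩)]; ring
    _ ≤ t := by
        rw [ENNReal.tsum_mul_right]
        calc _ ≤ 1 * t := mul_le_mul_left hX _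
          _ = t := one_mul _

/-- from the law of the increment to the window: abstract -/
lemma bound_of {V : Type*} [AddCommGroup V] (F Ag Bb φ : V → ℝ≥0∞) (w : V)
    (hF : ∀ z, F z ≤ Ag z + Bb z) (hφ : ∀ x, φ x ≤ 1) (hF1 : ∑' z, F z ≤ 1) :
    ∃ μ : V → ℝ≥0∞, ∑' x, μ x ≤ 1 ∧ (∀ M, (∀ z, Ag z ≤ M) → ∀ x, μ x ≤ M) ∧
      ∑' z, F z * φ (w + z) ≤ ∑' x, μ x * φ x + ∑' z, Bb z := by
  refine ⟨fun x => min (Ag (x - w)) (F (x - w)), ?_, ?_, ?_⟩
  · calc _ ≤ ∑' x, F (x - w) := ENNReal.tsum_le_tsum fun x => min_le_right _ _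
      _ = ∑' x, F x := tsum_subr F w
      _ ≤ 1 := hF1
  · intro M hM x
    exact (min_le_left _ _).trans (hM _)
  · have e : ∑' x, min (Ag (x - w)) (F (x - w)) * φ x = ∑' z, min (Ag z) (F z) * φ (w + z) := by
      rw [← tsum_subr (fun z => min (Ag z) (F z) * φ (w + z)) w]
      refine tsum_congr fun x => ?_
      rw [add_sub_cancel]
    rw [e, ← ENNReal.tsum_add]
    refine ENNReal.tsum_le_tsum fun z => ?_
    rcases le_total (Ag z) (F z) with h | h
    · rw [min_eq_left h]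
      calc F z * φ (w + z) ≤ (Ag z + Bb z) * φ (w + z) := mul_le_mul_left (hF z) _
        _ = Ag z * φ (w + z) + Bb z * φ (w + z) := add_mul _ _ _
        _ ≤ Ag z * φ (w + z) + Bb z * 1 := by gcongr; exact hφ _
        _ = _ := by rw [mul_one]
    · rw [min_eq_right h]; exact le_self_add

end Crest.Agent.R154.HWin912
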