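import Crest.Agent.R154.HWin2_912

/-! Row 154, ROAD 801, joint-cut frame (helper912): the bound of one window. -/

set_option autoImplicit false

namespace Crest.Agent.R154.HWin912

open MeasureTheory ProbabilityTheory Crest.ProbabilityR.RandomEnvironment
open scoped ENNReal
open Finset
open Crest.Agent.R154.B5A Crest.Agent.R154.FP178 Crest.Agent.R154.B5W
open Crest.Agent.R154.Flux566 (endp endp_append endp_eq_add)
open Crest.Agent.R154.NB28 (IsUp IsDn Cm)

variable {d : ℕ} (ν : Measure (Row d)) [IsProbabilityMeasure ν] (u : Step d)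

lemma rhs_le {C lam us th M r card : ℝ≥0∞} (hM : M ≤ 2 * th * r) (hc : th * card ≤ 1) :
    C * (lam + M * card * us / lam + us) ≤ C * (lam + 2 * r * us / lam + us) := by
  have h : M * card ≤ 2 * r := by
    calc M * card ≤ 2 * th * r * card := mul_le_mul_left hM _
      _ = 2 * r * (th * card) := by ring
      _ ≤ 2 * r * 1 := mul_le_mul_right hc _
      _ = 2 * r := mul_one _
  gcongr

open Classical in
/-- **one window** -/
theorem window {C : ℝ≥0∞} {us : ℕ → ℝ≥0∞} (h2 : E2 ν u C us) (h3 : E3 ν u C us) {c : ℝ≥0∞}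
    (H : ℕ) (hcX : c ≤ ∑' π, aX ν u H π) (hcY : c ≤ ∑' γ, aY ν u H γ)
    (sX : ∑' π, aX ν u H π ≤ 1) (sY : ∑' γ, aY ν u H γ ≤ 1) (hΛ : ∑' b, Lam ν u b ≤ 1)
    {v : ℝ≥0∞} (hv : v ≠ 0) (hvc : v ≤ c) (lam : ℝ≥0∞) (hl : lam ≠ 0) (hl' : lam ≠ ⊤)
    (e : ℝ≥0∞) (he : ∑' A, (if fp (ht u) H A then LW (Lam ν u) A *
      (if 2 * H < HT (ht u) A then 1 else 0) else 0) ≤ e)
    (s J a : ℕ) (hJ : J * (2 * H) ≤ a) (w : Lat u) :
    ∑' L1 : List (PB u), (if fp (ht u) a L1 then
        LW (Lam ν u) L1 * Comp818.WLp (Lam ν u) (ht u) (dl u) (cd u) H s (act (dl u) L1 w) else 0)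
      ≤ 2 * (C * (lam + 2 * (v * c)⁻¹ * us s / lam + us s))
        + 2 * ((1 - v * c) ^ J + e * (v * c)⁻¹) + v * v := by
  have hc1 : c ≤ 1 := hcX.trans sX
  have hvc1 : v * c ≤ 1 := mul_le_one' (hvc.trans hc1) hc1
  obtain ⟨tX, EX, -, nX, fX, kX⟩ := quant (aX ν u H) (endp 0) sX hv (hvc.trans hcX)
  obtain ⟨tY, EY, -, nY, fY, kY⟩ := quant (aY ν u H) (endp 0) sY hv (hvc.trans hcY)
  obtain ⟨AX, BX, hX1, hX2, hX3⟩ := dens (Lam ν u) (ht u) (gB u) one_le_hb hΛ H
    (fun L => pl (aX ν u H) (endp 0) (endp 0 (cat L).1) ≤ 2 * tX) (2 * tX) (1 - v * c) e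
    (by intro z; convert lowX ν u H (2 * tX) sY z)
    (nonflat_le ν u hΛ H (fun x => pl (aX ν u H) (endp 0) (endp 0 x.1) ≤ 2 * tX) (v * c)
      (by convert flatX ν u H c v tX hcY fX)) he J a hJ
  obtain ⟨AY, BY, hY1, hY2, hY3⟩ := dens (Lam ν u) (ht u) (gB u) one_le_hb hΛ H
    (fun L => pl (aY ν u H) (endp 0) (endp 0 (cat L).2) ≤ 2 * tY) (2 * tY) (1 - v * c) e
    (by intro z; convert lowY ν u H (2 * tY) sX z)
    (nonflat_le ν u hΛ H (fun x => pl (aY ν u H) (endp 0) (endp 0 x.2) ≤ 2 * tY) (v * c)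
      (by convert flatY ν u H c v tY hcX fY)) he J a hJ
  set φX : Site d → ℝ≥0∞ := fun x => if Flux132.lev u x = 0 then T2 ν u H s EX x else 0 with hφX
  set φY : Site d → ℝ≥0∞ := fun x => if Flux132.lev u x = 0 then T3 ν u H s EY x else 0 with hφY
  have bX : ∀ x, φX x ≤ 1 := fun x => by
    simp only [hφX]; split_ifs
    · exact T2_le_one ν u H s EX x
    · exact zero_le
  have bY : ∀ x, φY x ≤ 1 := fun x => by
    simp only [hφY]; split_ifs
    · exact T3_le_one ν u H s EY x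
    · exact zero_le
  obtain ⟨μX, x1, x2, x3⟩ := bound_of (Fz (Lam ν u) (ht u) (gB u) a) AX BX φX w.1 hX1 bX
    (sum_Fz (Lam ν u) (ht u) (gB u) one_le_hb hΛ a)
  obtain ⟨μY, y1, y2, y3⟩ := bound_of (Fz (Lam ν u) (ht u) (gB u) a) AY BY φY w.1 hY1 bY
    (sum_Fz (Lam ν u) (ht u) (gB u) one_le_hb hΛ a)
  have gs : ∑ j ∈ range J, (1 - v * c) ^ j ≤ (v * c)⁻¹ := geo hvc1 J
  have rX := (h2 s H EX μX _ lam x1 (x2 _ hX2) hl hl').trans
    (rhs_le (C := C) (lam := lam) (us := us s) (th := tX) (r := (v * c)⁻¹) (card := EX.card)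
      (mul_le_mul_right gs _) kX)
  have rY := (h3 s H EY μY _ lam y1 (y2 _ hY2) hl hl').trans
    (rhs_le (C := C) (lam := lam) (us := us s) (th := tY) (r := (v * c)⁻¹) (card := EY.card)
      (mul_le_mul_right gs _) kY)
  have pX : ∑' x, μX x * φX x = ∑' x : Site d, (if Flux132.lev u x = 0 then
      μX x * T2 ν u H s EX x else 0) := by
    refine tsum_congr fun x => ?_
    simp only [hφX]; split_ifs <;> simp
  have pY : ∑' x, μY x * φY x = ∑' x : Site d, (if Flux132.lev u x = 0 then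
      μY x * T3 ν u H s EY x else 0) := by
    refine tsum_congr fun x => ?_
    simp only [hφY]; split_ifs <;> simp
  have step : ∀ L1 : List (PB u),
      Comp818.WLp (Lam ν u) (ht u) (dl u) (cd u) H s (act (dl u) L1 w)
        ≤ φX (w.1 + inc (gB u) L1) + φY (w.1 + inc (gB u) L1) + v * v := by
    intro L1
    refine (WLp_le ν u H s EX EY (act (dl u) L1 w)).trans ?_
    have hlev : Flux132.lev u (w.1 + inc (gB u) L1) = 0 := by
      rw [← act_val]; exact (act (dl u) L1 w).2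
    rw [act_val]
    simp only [hφX, hφY, hlev, if_true]
    refine add_le_add le_rfl (mul_le_mul' (le_trans (le_of_eq (tsum_congr fun π => ?_)) nX)
      (le_trans (le_of_eq (tsum_congr fun γ => ?_)) nY))
    · by_cases h : endp 0 π ∈ EX <;> simp [h]
    · by_cases h : endp 0 γ ∈ EY <;> simp [h]
  calc _ ≤ ∑' L1 : List (PB u), ((if fp (ht u) a L1 then
          LW (Lam ν u) L1 * φX (w.1 + inc (gB u) L1) else 0)
        + (if fp (ht u) a L1 then LW (Lam ν u) L1 * φY (w.1 + inc (gB u) L1) else 0)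
        + (if fp (ht u) a L1 then LW (Lam ν u) L1 else 0) * (v * v)) := by
        refine ENNReal.tsum_le_tsum fun L1 => ?_
        by_cases h : fp (ht u) a L1
        · simp only [h, if_true]
          rw [← mul_add, ← mul_add]
          exact mul_le_mul_right (step L1) _
        · simp [h]
    _ = ∑' z, Fz (Lam ν u) (ht u) (gB u) a z * φX (w.1 + z)
        + ∑' z, Fz (Lam ν u) (ht u) (gB u) a z * φY (w.1 + z)
        + (∑' L1, (if fp (ht u) a L1 then LW (Lam ν u) L1 else 0)) * (v * v) := by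
        rw [ENNReal.tsum_add, ENNReal.tsum_add, ENNReal.tsum_mul_right,
          fun_eq (Lam ν u) (ht u) (gB u) a (fun z => φX (w.1 + z)),
          fun_eq (Lam ν u) (ht u) (gB u) a (fun z => φY (w.1 + z))]
    _ ≤ (C * (lam + 2 * (v * c)⁻¹ * us s / lam + us s) + ((1 - v * c) ^ J + e * (v * c)⁻¹))
        + (C * (lam + 2 * (v * c)⁻¹ * us s / lam + us s) + ((1 - v * c) ^ J + e * (v * c)⁻¹))
        + 1 * (v * v) := by
        refine add_le_add (add_le_add ?_ ?_) ?_
        · refine x3.trans (add_le_add (pX ▸ rX) (hX3.trans ?_))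
          gcongr
        · refine y3.trans (add_le_add (pY ▸ rY) (hY3.trans ?_))
          gcongr
        · exact mul_le_mul_left (sum_FP (Lam ν u) (ht u) one_le_hb hΛ a) _
    _ = _ := by ring

end Crest.Agent.R154.HWin912
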