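import Crest.Agent.R154.Hit_776
import Crest.Agent.R154.Comp_818
import Crest.Agent.R154.FP_178

/-! Row 154, ROAD 801, frame B (helper902): 818's `hWin`, abstract part, from 776's `density`. -/

set_option autoImplicit false
set_option linter.unusedSectionVars false
set_option linter.unusedVariables false

namespace Crest.Agent.R154.HW902

open scoped ENNReal
open Crest.Agent.R154.B5A Crest.Agent.R154.Comp818

variable {B W V : Type*} [AddCommGroup V] (Λ : B → ℝ≥0∞) (ht : B → ℕ) (dl : B → W → W)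
  (cd : W → B → Set ℕ)

lemma att_iff (T : ℕ) (L : List B) : att ht T L ↔ Hit776.FP ht T L := by
  induction L generalizing T with
  | nil =>
    simp only [att, HT_nil, List.length_nil, Hit776.FP]
    constructor
    · rintro ⟨h, _⟩; omega
    · intro h; exact ⟨by omega, fun i hi => absurd hi (by omega)⟩
  | cons b L ih =>
    simp only [Hit776.FP, ← ih]
    constructor
    · rintro ⟨h1, h2⟩
      have h0 := h2 0 (by simp)
      simp only [List.take_zero, HT_nil] at h0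
      rw [HT_cons] at h1
      refine ⟨h0, by omega, fun i hi => ?_⟩
      have := h2 (i + 1) (by simp only [List.length_cons]; omega)
      rw [List.take_succ_cons, HT_cons] at this
      omega
    · rintro ⟨h0, h1, h2⟩
      refine ⟨by rw [HT_cons]; omega, fun i hi => ?_⟩
      cases i with
      | zero => simpa [HT_nil] using h0
      | succ i =>
        have := h2 i (by simp only [List.length_cons] at hi; omega)
        rw [List.take_succ_cons, HT_cons]
        omega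

lemma fp_iff (T : ℕ) (L : List B) : FP178.fp ht T L ↔ Hit776.FP ht T L := by
  induction L generalizing T with
  | nil => exact Iff.rfl
  | cons b L ih => simp only [Hit776.FP, FP178.fp, ih]

open Classical in
/-- overshoot of a first passage -/
lemma ov_le (h1 : ∀ b, 1 ≤ ht b) (hU1 : ∀ n, U Λ ht n ≤ 1) (h : ℕ) :
    Hit776.S Λ ht h (fun C => if 2 * h < HT ht C then 1 else 0) ≤ ∑' k, tail Λ ht (h + k) := by
  refine le_trans (le_of_eq ?_) (FP178.overshoot Λ ht h1 hU1 h h)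
  rw [Hit776.S]
  refine tsum_congr fun L => ?_
  by_cases hL : Hit776.FP ht h L
  · by_cases h2 : 2 * h < HT ht L
    · rw [if_pos hL, if_pos h2, mul_one, if_pos ⟨(fp_iff ht h L).2 hL, by omega⟩]
    · rw [if_pos hL, if_neg h2, mul_zero, if_neg (fun h' => h2 (by omega))]
  · rw [if_neg hL, if_neg (fun h' => hL ((fp_iff ht h L).1 h'.1))]

open Classical in
lemma SC_high (h1 : ∀ b, 1 ≤ ht b) (hΛ : ∑' b, Λ b = 1) (h : ℕ) (N a : ℕ)
    (ha : 2 * h * N + h ≤ a) :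
    Hit776.SC Λ ht h N (fun P => if a < HT ht P + h then 1 else 0)
      ≤ N * Hit776.S Λ ht h (fun C => if 2 * h < HT ht C then 1 else 0) := by
  induction N generalizing a with
  | zero =>
    simp only [Hit776.SC, HT_nil]
    rw [if_neg (by omega)]
    exact zero_le
  | succ N ih =>
    simp only [Hit776.SC]
    set ov := Hit776.S Λ ht h (fun C => if 2 * h < HT ht C then (1 : ℝ≥0∞) else 0) with hov
    have e : 2 * h * (N + 1) = 2 * h * N + 2 * h := by ring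
    calc Hit776.S Λ ht h (fun C => Hit776.SC Λ ht h N (fun L => if a < HT ht (C ++ L) + h then 1 else 0))
        ≤ Hit776.S Λ ht h (fun C => (N * ov) + (if 2 * h < HT ht C then 1 else 0)) := by
          refine Hit776.S_mono Λ ht h fun C _ => ?_
          by_cases hC : 2 * h < HT ht C
          · rw [if_pos hC]
            refine le_trans ?_ le_add_self
            refine le_trans (Hit776.SC_mono Λ ht h N (F' := fun _ => 1) fun L => ?_)
              (Hit776.SC_one Λ ht h1 hΛ h N).le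
            by_cases hx : a < HT ht (C ++ L) + h
            · rw [if_pos hx]
            · rw [if_neg hx]; exact zero_le
          · rw [if_neg hC, add_zero]
            refine le_trans ?_ (ih (a - HT ht C) (by omega))
            refine Hit776.SC_mono Λ ht h N fun L => ?_
            rw [HT_append]
            by_cases hL : a < HT ht C + HT ht L + h
            · rw [if_pos hL, if_pos (by omega)]
            · rw [if_neg hL]; exact zero_le
      _ = N * ov * 1 + ov := by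
          rw [Hit776.S_add_fun]
          congr 1
          have := Hit776.S_const_mul Λ ht h (N * ov) (fun _ => 1)
          simp only [mul_one] at this
          rw [this, Hit776.S_one Λ ht h1 hΛ]
      _ = ((N + 1 : ℕ) : ℝ≥0∞) * ov := by push_cast; ring

variable (pos : W → V) (dz : B → V)

lemma pos_act (hpos : ∀ b w, pos (dl b w) = pos w + dz b) (L : List B) (w : W) :
    pos (act dl L w) = pos w + Hit776.DZ dz L := by
  induction L generalizing w with
  | nil => simp [act, Hit776.DZ]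
  | cons b L ih =>
    simp only [act]
    rw [ih, hpos]
    simp [Hit776.DZ, add_assoc]

open Classical in
/-- one side (local walker) of a window -/
def Side (q η : ℝ≥0∞) (H : ℕ) (K : V → ℝ≥0∞) : Prop :=
  ∃ (Ht : List B → Prop) (τ : ℝ≥0∞), (∀ C, Ht C → HT ht C = H) ∧
    (∀ z : V, ∑' C : List B, (if Ht C ∧ Hit776.DZ dz C = z then LW Λ C else 0) ≤ τ) ∧
    (q ≤ ∑' C : List B, if Ht C then LW Λ C else 0) ∧
    ∀ μ : V → ℝ≥0∞, ∑' x, μ x ≤ 1 → (∀ x, μ x ≤ τ / q) → ∑' x, μ x * K x ≤ η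

/-- window data at height `H` -/
def Piece (c v η : ℝ≥0∞) (s H : ℕ) : Prop :=
  ∃ K2 K3 : V → ℝ≥0∞, (∀ x, K2 x ≤ 1) ∧ (∀ x, K3 x ≤ 1) ∧
    (∀ w, WLp Λ ht dl cd H s w ≤ K2 (pos w) + K3 (pos w) + v * v) ∧
    Side Λ ht dz (c * v) η H K2 ∧ Side Λ ht dz (c * v) η H K3

lemma FP_of_HT (h1 : ∀ b, 1 ≤ ht b) {H : ℕ} {C : List B} (h : HT ht C = H) : Hit776.FP ht H C :=
  (att_iff ht H C).1 (att_eq ht h1 h)

lemma S_hit (h1 : ∀ b, 1 ≤ ht b) {H : ℕ} {P : List B → Prop} [i1 : DecidablePred P]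
    (i2 : DecidablePred P) (hP : ∀ C, P C → HT ht C = H) :
    Hit776.S Λ ht H (fun C => if P C then 1 else 0) = ∑' C : List B, @ite _ (P C) (i2 C) (LW Λ C) 0 := by
  rw [Hit776.S]
  refine tsum_congr fun C => ?_
  by_cases h : P C
  · rw [if_pos h, if_pos (FP_of_HT ht h1 (hP C h)), if_pos h, mul_one]
  · rw [if_neg h, if_neg h, mul_zero]; split_ifs <;> rfl

/-- a side, averaged over the part above the window -/
lemma side_le (h1 : ∀ b, 1 ≤ ht b) (hΛ : ∑' b, Λ b = 1) (hU1 : ∀ n, U Λ ht n ≤ 1)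
    {q η : ℝ≥0∞} {H : ℕ} (hH : 0 < H) {K : V → ℝ≥0∞} (hK : ∀ x, K x ≤ 1)
    (hS : Side Λ ht dz q η H K) (N a : ℕ) (ha : 2 * H * N + H ≤ a) (w : V) :
    Hit776.S Λ ht a (fun L => K (w + Hit776.DZ dz L))
      ≤ η + (1 - q) ^ N + N * ∑' k, tail Λ ht (H + k) := by
  classical
  obtain ⟨Ht, τ, hHt, hτ, hq, hμ⟩ := hS
  obtain ⟨μ, hμ1, hμ2, hμ3⟩ := Hit776.density Λ ht Ht dz h1 hΛ H hH hHt τ
    (fun z => by
      refine le_trans (le_of_eq ?_) (hτ z)
      exact S_hit Λ ht h1 (P := fun C => Ht C ∧ Hit776.DZ dz C = z) _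
        (fun C hC => hHt C hC.1)) q
    (by
      refine le_trans hq (le_of_eq ?_)
      exact (S_hit Λ ht h1 _ hHt).symm) N a w
  refine (hμ3 K hK).trans (add_le_add (add_le_add (hμ μ hμ1 hμ2) le_rfl) ?_)
  refine (SC_high Λ ht h1 hΛ H N a ha).trans ?_
  exact mul_le_mul_right (ov_le Λ ht h1 hU1 H) _

open Classical in
/-- the window at one depth -/
lemma win_le (h1 : ∀ b, 1 ≤ ht b) (hΛ : ∑' b, Λ b = 1) (hU1 : ∀ n, U Λ ht n ≤ 1)
    (hpos : ∀ b w, pos (dl b w) = pos w + dz b)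
    {c v η : ℝ≥0∞} {s H : ℕ} (hH : 0 < H) (hP : Piece Λ ht dl cd pos dz c v η s H) (N a i0 : ℕ)
    (ha : 2 * H * N + H ≤ a) (w : W) :
    ∑' L1 : List B, (if att ht a L1 ∧ HT ht L1 ≤ a + i0 then
        LW Λ L1 * WLp Λ ht dl cd H s (act dl L1 w) else 0)
      ≤ 2 * (η + (1 - c * v) ^ N + N * ∑' k, tail Λ ht (H + k)) + v * v := by
  obtain ⟨K2, K3, hK2, hK3, hW, hS2, hS3⟩ := hP
  calc ∑' L1 : List B, (if att ht a L1 ∧ HT ht L1 ≤ a + i0 then
        LW Λ L1 * WLp Λ ht dl cd H s (act dl L1 w) else 0)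
      ≤ Hit776.S Λ ht a (fun L => (K2 (pos w + Hit776.DZ dz L) + K3 (pos w + Hit776.DZ dz L))
          + v * v * 1) := by
        rw [Hit776.S]
        refine ENNReal.tsum_le_tsum fun L => ?_
        by_cases hL : att ht a L ∧ HT ht L ≤ a + i0
        · rw [if_pos hL, if_pos ((att_iff ht a L).1 hL.1)]
          refine mul_le_mul_right ?_ _
          have := hW (act dl L w)
          rw [pos_act dl pos dz hpos] at this
          rwa [mul_one]
        · rw [if_neg hL]; exact zero_le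
    _ = Hit776.S Λ ht a (fun L => K2 (pos w + Hit776.DZ dz L))
        + Hit776.S Λ ht a (fun L => K3 (pos w + Hit776.DZ dz L)) + v * v := by
        rw [Hit776.S_add_fun, Hit776.S_add_fun, Hit776.S_const_mul, Hit776.S_one Λ ht h1 hΛ,
          mul_one]
    _ ≤ _ := by
        refine add_le_add ?_ le_rfl
        rw [two_mul]
        exact add_le_add (side_le Λ ht dz h1 hΛ hU1 hH hK2 hS2 N a ha _)
          (side_le Λ ht dz h1 hΛ hU1 hH hK3 hS3 N a ha _)

lemma pow_le_aux {q : ℝ} (hq0 : 0 < q) (hq1 : q ≤ 1) (m : ℕ) (hm : 1 ≤ m) :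
    (1 - q) ^ m ≤ 1 / (m * q) := by
  have h1 : 1 + m * q ≤ (1 + q) ^ m := one_add_mul_le_pow (by linarith) m
  have h2 : (1 + q) ^ m * (1 - q) ^ m ≤ 1 := by
    rw [← mul_pow]
    exact pow_le_one₀ (by nlinarith) (by nlinarith)
  have hmq : 0 < m * q := by
    have : (0 : ℝ) < m := by exact_mod_cast hm
    positivity
  rw [le_div_iff₀ hmq]
  have h3 : 0 ≤ (1 - q) ^ m := pow_nonneg (by linarith) m
  nlinarith [mul_le_mul_of_nonneg_right h1 h3]

/-- the numbers -/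
lemma numbers (ε : ℝ≥0∞) (hε : ε ≠ 0) (c : ℝ≥0∞) (hc : c ≠ 0) (hc1 : c ≤ 1) :
    ∃ (N K : ℕ) (v : ℝ≥0∞), 1 ≤ K ∧ v ≠ 0 ∧ v ≤ c ∧ 8 * (2 * N + 1) ≤ K ∧
      v * v ≤ ε / K / 8 ∧ (1 - c * v) ^ N ≤ ε / K / 8 := by
  have hm : min ε 1 ≠ ⊤ := ne_top_of_le_ne_top ENNReal.one_ne_top (min_le_right _ _)
  have hm0 : min ε 1 ≠ 0 := by
    intro h
    rcases le_total ε 1 with h' | h'
    · rw [min_eq_left h'] at h; exact hε h
    · rw [min_eq_right h'] at h; exact one_ne_zero h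
  obtain ⟨e, he0, hee⟩ : ∃ e : ℝ, 0 < e ∧ ENNReal.ofReal e = min ε 1 :=
    ⟨(min ε 1).toReal, ENNReal.toReal_pos hm0 hm, ENNReal.ofReal_toReal hm⟩
  have hct : c ≠ ⊤ := ne_top_of_le_ne_top ENNReal.one_ne_top hc1
  obtain ⟨c', hc0', hcc⟩ : ∃ c' : ℝ, 0 < c' ∧ ENNReal.ofReal c' = c :=
    ⟨c.toReal, ENNReal.toReal_pos hc hct, ENNReal.ofReal_toReal hct⟩
  have hc1' : c' ≤ 1 := by
    rw [← hcc] at hc1
    exact ENNReal.ofReal_le_one.1 hc1
  obtain ⟨n, hn⟩ := exists_nat_ge (576 / (c' ^ 8 * e) + 1)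
  have hn1 : (1 : ℝ) ≤ n := by
    have : 0 ≤ 576 / (c' ^ 8 * e) := by positivity
    linarith
  have hn0 : (0 : ℝ) < n := by linarith
  have hnN : 1 ≤ n := by exact_mod_cast hn1
  have hbig : 576 ≤ n * (c' ^ 8 * e) := by
    have h1 : 576 / (c' ^ 8 * e) ≤ n := by linarith
    rwa [div_le_iff₀ (by positivity)] at h1
  have hc8 : c' ^ 8 ≤ 1 := pow_le_one₀ hc0'.le hc1'
  have hbig2 : 576 ≤ n * e := by
    have : n * (c' ^ 8 * e) ≤ n * (1 * e) := by gcongr
    linarith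
  have hn2 : (1 : ℝ) ≤ (n : ℝ) ^ 2 := one_le_pow₀ hn1
  have hn3 : 1 ≤ n ^ 3 := Nat.one_le_pow _ _ hnN
  have key : ENNReal.ofReal (e / (576 * (n : ℝ) ^ 3)) ≤ ε / ((72 * n ^ 3 : ℕ) : ℝ≥0∞) / 8 := by
    have e1 : e / (576 * (n : ℝ) ^ 3) = e / ((72 * n ^ 3 : ℕ) : ℝ) / 8 := by
      push_cast; field_simp; norm_num
    rw [e1, ENNReal.ofReal_div_of_pos (by norm_num), ENNReal.ofReal_div_of_pos
      (by exact_mod_cast (by omega : 0 < 72 * n ^ 3)), hee, ENNReal.ofReal_natCast]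
    have e8 : ENNReal.ofReal 8 = 8 := by
      rw [show (8 : ℝ) = ((8 : ℕ) : ℝ) by norm_num, ENNReal.ofReal_natCast]; norm_num
    rw [e8]
    exact ENNReal.div_le_div_right (ENNReal.div_le_div_right (min_le_left _ _) _) _
  refine ⟨4 * n ^ 3, 72 * n ^ 3, ENNReal.ofReal (c' / n ^ 2), by omega, ?_, ?_, by omega, ?_, ?_⟩
  · rw [Ne, ENNReal.ofReal_eq_zero, not_le]; positivity
  · rw [← hcc]
    exact ENNReal.ofReal_le_ofReal (div_le_self hc0'.le hn2)
  · refine le_trans ?_ key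
    rw [← ENNReal.ofReal_mul (by positivity)]
    refine ENNReal.ofReal_le_ofReal ?_
    rw [div_mul_div_comm, div_le_div_iff₀ (by positivity) (by positivity)]
    have h1 : c' * c' ≤ 1 := by nlinarith
    calc c' * c' * (576 * (n : ℝ) ^ 3) ≤ 1 * ((n * e) * (n : ℝ) ^ 3) := by gcongr
      _ = e * ((n : ℝ) ^ 2 * n ^ 2) := by ring
  · refine le_trans ?_ key
    have e1 : 1 - c * ENNReal.ofReal (c' / n ^ 2) = ENNReal.ofReal (1 - c' * (c' / n ^ 2)) := by
      rw [ENNReal.ofReal_sub _ (by positivity), ENNReal.ofReal_one, ENNReal.ofReal_mul hc0'.le, hcc]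
    have hq0 : 0 < c' * (c' / (n : ℝ) ^ 2) := by positivity
    have hq1 : c' * (c' / (n : ℝ) ^ 2) ≤ 1 := by
      have : c' / (n : ℝ) ^ 2 ≤ 1 := (div_le_self hc0'.le hn2).trans hc1'
      have h0 : 0 ≤ c' / (n : ℝ) ^ 2 := by positivity
      nlinarith
    rw [e1, ← ENNReal.ofReal_pow (by linarith)]
    refine ENNReal.ofReal_le_ofReal ?_
    have h1 := pow_le_aux hq0 hq1 (n ^ 3) hn3
    have h2 : (1 - c' * (c' / (n : ℝ) ^ 2)) ^ (4 * n ^ 3)
        = ((1 - c' * (c' / (n : ℝ) ^ 2)) ^ (n ^ 3)) ^ 4 := by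
      rw [← pow_mul, Nat.mul_comm 4]
    have h3 : 1 / (((n ^ 3 : ℕ) : ℝ) * (c' * (c' / (n : ℝ) ^ 2))) = 1 / (c' ^ 2 * n) := by
      push_cast; field_simp
    rw [h3] at h1
    rw [h2]
    calc ((1 - c' * (c' / (n : ℝ) ^ 2)) ^ (n ^ 3)) ^ 4 ≤ (1 / (c' ^ 2 * n)) ^ 4 :=
          pow_le_pow_left₀ (pow_nonneg (by linarith) _) h1 4
      _ = 1 / (c' ^ 8 * n ^ 4) := by rw [div_pow, one_pow, mul_pow, ← pow_mul]
      _ ≤ e / (576 * (n : ℝ) ^ 3) := by
          rw [div_le_div_iff₀ (by positivity) (by positivity)]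
          calc 1 * (576 * (n : ℝ) ^ 3) ≤ 1 * ((n * (c' ^ 8 * e)) * (n : ℝ) ^ 3) := by gcongr
            _ = e * (c' ^ 8 * (n : ℝ) ^ 4) := by ring

open Classical in
/-- **818's `hWin`** from window data. -/
theorem hwin_abs (h1 : ∀ b, 1 ≤ ht b) (hΛ : ∑' b, Λ b = 1) (hU1 : ∀ n, U Λ ht n ≤ 1)
    (htl : ∑' k, tail Λ ht k ≠ ⊤) (hpos : ∀ b w, pos (dl b w) = pos w + dz b)
    (c : ℝ≥0∞) (hc : c ≠ 0) (hc1 : c ≤ 1)
    (HP : ∀ v : ℝ≥0∞, v ≠ 0 → v ≤ c → ∀ η : ℝ≥0∞, η ≠ 0 → ∃ s : ℕ, ∀ H,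
      Piece Λ ht dl cd pos dz c v η s H) :
    ∀ ε : ℝ≥0∞, ε ≠ 0 → ∃ K : ℕ, 1 ≤ K ∧ ∀ i0 : ℕ, ∃ s H0 : ℕ, ∀ H, H0 ≤ H → ∀ a, K * H ≤ 8 * a →
      ∀ w, ∑' L1 : List B, (if att ht a L1 ∧ HT ht L1 ≤ a + i0 then
        LW Λ L1 * WLp Λ ht dl cd H s (act dl L1 w) else 0) ≤ ε / K := by
  intro ε hε
  obtain ⟨N, K, v, hK, hv0, hvc, hNK, hvv, hpow⟩ := numbers ε hε c hc hc1
  refine ⟨K, hK, fun i0 => ?_⟩
  have hK0 : (K : ℝ≥0∞) ≠ 0 := by exact_mod_cast (by omega : K ≠ 0)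
  have hδ : ε / K / 8 ≠ 0 := by
    rw [Ne, ENNReal.div_eq_zero_iff, ENNReal.div_eq_zero_iff]
    rintro ((h | h) | h)
    · exact hε h
    · exact ENNReal.natCast_ne_top K h
    · norm_num at h
  obtain ⟨s, hs⟩ := HP v hv0 hvc (ε / K / 8) hδ
  -- overshoots
  have hlim : Filter.Tendsto (fun i => (N : ℝ≥0∞) * ∑' k, tail Λ ht (i + k)) Filter.atTop
      (nhds 0) := by
    have h2 := ENNReal.tendsto_sum_nat_add (tail Λ ht) htl
    have h3 := ENNReal.Tendsto.const_mul (a := (N : ℝ≥0∞)) h2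
      (Or.inr (ENNReal.natCast_ne_top N))
    rw [mul_zero] at h3
    refine h3.congr fun i => ?_
    congr 1
    exact tsum_congr fun k => by rw [add_comm]
  obtain ⟨H0, hH0⟩ := Filter.eventually_atTop.1
    (hlim.eventually (ge_mem_nhds (pos_iff_ne_zero.2 hδ)))
  refine ⟨s, H0 + 1, fun H hH a ha w => ?_⟩
  have haN : 2 * H * N + H ≤ a := by
    have : 8 * (2 * N + 1) * H ≤ 8 * a := le_trans (Nat.mul_le_mul_right H hNK) ha
    nlinarith
  refine (win_le Λ ht dl cd pos dz h1 hΛ hU1 hpos (by omega) (hs H) N a i0 haN w).trans ?_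
  have hov : (N : ℝ≥0∞) * ∑' k, tail Λ ht (H + k) ≤ ε / K / 8 := hH0 H (by omega)
  calc 2 * (ε / K / 8 + (1 - c * v) ^ N + N * ∑' k, tail Λ ht (H + k)) + v * v
      ≤ 2 * (ε / K / 8 + ε / K / 8 + ε / K / 8) + ε / K / 8 := by gcongr
    _ ≤ 8 * (ε / K / 8) := by
        have : 2 * (ε / K / 8 + ε / K / 8 + ε / K / 8) + ε / K / 8 = 7 * (ε / K / 8) := by ring
        rw [this]
        gcongr
        norm_num
    _ = ε / K := by
        rw [mul_comm, ENNReal.div_mul_cancel (by norm_num) (by norm_num)]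

end Crest.Agent.R154.HW902
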