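import Crest.Agent.R154.FP_178
import Crest.Agent.R154.B5Rec_566

/-! Row 154, ROAD 801, joint-cut frame (helper912): the density of the increment at the first passage
of `a`, with the attempts of EXACT height `H`. -/

set_option autoImplicit false

namespace Crest.Agent.R154.HWin912

open scoped ENNReal
open Finset
open Crest.Agent.R154.B5A Crest.Agent.R154.FP178

variable {B V : Type*} [AddCommGroup V] (Λ : B → ℝ≥0∞) (ht : B → ℕ) (g : B → V)

/-- total increment -/
def inc (L : List B) : V := (L.map g).sum

lemma inc_append (L L' : List B) : inc g (L ++ L') = inc g L + inc g L' := by simp [inc]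

open Classical in
/-- law of the increment at the first passage of `a` -/
noncomputable def Fz (a : ℕ) (z : V) : ℝ≥0∞ :=
  ∑' L, if fp ht a L then LW Λ L * (if inc g L = z then 1 else 0) else 0

open Classical in
lemma fun_eq (a : ℕ) (φ : V → ℝ≥0∞) :
    ∑' L, (if fp ht a L then LW Λ L * φ (inc g L) else 0) = ∑' z, Fz Λ ht g a z * φ z := by
  have h : ∀ z, Fz Λ ht g a z * φ z
      = ∑' L, (if fp ht a L then LW Λ L * ((if inc g L = z then 1 else 0) * φ z) else 0) := by
    intro z
    rw [Fz, ← ENNReal.tsum_mul_right]
    refine tsum_congr fun L => ?_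
    by_cases h : fp ht a L
    · simp only [h, if_true]; ring
    · simp [h]
  simp_rw [h]
  rw [ENNReal.tsum_comm]
  refine tsum_congr fun L => ?_
  by_cases h : fp ht a L
  · simp only [h, if_true]
    rw [ENNReal.tsum_mul_left]
    congr 1
    rw [tsum_eq_single (inc g L)]
    · simp
    · intro z hz
      rw [if_neg (Ne.symm hz), zero_mul]
  · simp [h]

lemma sum_Fz (h1 : ∀ b, 1 ≤ ht b) (hΛ : ∑' b, Λ b ≤ 1) (a : ℕ) : ∑' z, Fz Λ ht g a z ≤ 1 := by
  classical
  have h := fun_eq Λ ht g a (fun _ => 1)
  simp only [mul_one] at h
  rw [← h]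
  exact sum_FP Λ ht h1 hΛ a

lemma tsum_subr (f : V → ℝ≥0∞) (z : V) : ∑' z', f (z' - z) = ∑' z', f z' :=
  (Equiv.subRight z).tsum_eq f

lemma tsum_subl (f : V → ℝ≥0∞) (z : V) : ∑' z', f (z - z') = ∑' z', f z' :=
  (Equiv.subLeft z).tsum_eq f

open Classical in
/-- **density of the increment at first passage** -/
theorem dens (h1 : ∀ b, 1 ≤ ht b) (hΛ : ∑' b, Λ b ≤ 1) (H : ℕ) (Fl : List B → Prop)
    (th q e : ℝ≥0∞)
    (hfl : ∀ z, ∑' A, (if fp ht H A then LW Λ A * (if (HT ht A = H ∧ Fl A) ∧ inc g A = z then 1 else 0)
      else 0) ≤ th)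
    (hq : ∑' A, (if fp ht H A then LW Λ A * (if HT ht A = H ∧ Fl A then 0 else 1) else 0) ≤ q)
    (he : ∑' A, (if fp ht H A then LW Λ A * (if 2 * H < HT ht A then 1 else 0) else 0) ≤ e)
    (J : ℕ) : ∀ a, J * (2 * H) ≤ a → ∃ Ag Bb : V → ℝ≥0∞,
      (∀ z, Fz Λ ht g a z ≤ Ag z + Bb z) ∧
      (∀ z, Ag z ≤ th * ∑ j ∈ range J, q ^ j) ∧
      ∑' z, Bb z ≤ q ^ J + e * ∑ j ∈ range J, q ^ j := by
  induction J with
  | zero =>
    intro a _
    refine ⟨fun _ => 0, Fz Λ ht g a, fun z => by simp, fun z => by simp, ?_⟩
    simpa using sum_Fz Λ ht g h1 hΛ a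
  | succ J ih =>
    intro a ha
    have hHa : H ≤ a := by nlinarith [Nat.zero_le (J * (2 * H))]
    have hch : ∀ A : List B, ∃ Ag Bb : V → ℝ≥0∞, HT ht A ≤ 2 * H →
        (∀ z, Fz Λ ht g (a - HT ht A) z ≤ Ag z + Bb z) ∧
        (∀ z, Ag z ≤ th * ∑ j ∈ range J, q ^ j) ∧
        ∑' z, Bb z ≤ q ^ J + e * ∑ j ∈ range J, q ^ j := by
      intro A
      by_cases hA : HT ht A ≤ 2 * H
      · obtain ⟨x, y, h⟩ := ih (a - HT ht A) (by
          have : (J + 1) * (2 * H) = J * (2 * H) + 2 * H := by ring
          omega)
        exact ⟨x, y, fun _ => h⟩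
      · exact ⟨0, 0, fun h => absurd h hA⟩
    choose Af Bf hAB using hch
    set P : List B → Prop := fun A => HT ht A = H ∧ Fl A with hP
    refine ⟨fun z => ∑' A, (if fp ht H A then LW Λ A *
        (if P A then Fz Λ ht g (a - H) (z - inc g A) else
          if 2 * H < HT ht A then 0 else Af A (z - inc g A)) else 0),
      fun z => ∑' A, (if fp ht H A then LW Λ A *
        (if P A then 0 else
          if 2 * H < HT ht A then Fz Λ ht g (a - HT ht A) (z - inc g A) else Bf A (z - inc g A))
          else 0), ?_, ?_, ?_⟩
    · intro z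
      have e1 : Fz Λ ht g a z = ∑' A, (if fp ht H A then LW Λ A *
          Fz Λ ht g (a - HT ht A) (z - inc g A) else 0) := by
        rw [Fz, fp_split Λ ht h1 H a hHa]
        refine tsum_congr fun A => ?_
        by_cases hA : fp ht H A
        · rw [if_pos hA, if_pos hA, Fz]
          congr 1
          refine tsum_congr fun L => ?_
          have e3 : (inc g (A ++ L) = z) ↔ (inc g L = z - inc g A) := by
            rw [inc_append]
            exact ⟨fun h => by rw [← h]; abel, fun h => by rw [h]; abel⟩
          simp only [e3]
        · rw [if_neg hA, if_neg hA]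
      rw [e1, ← ENNReal.tsum_add]
      refine ENNReal.tsum_le_tsum fun A => ?_
      by_cases hA : fp ht H A
      · rw [if_pos hA, if_pos hA, if_pos hA, ← mul_add]
        refine mul_le_mul_right ?_ _
        by_cases hPA : P A
        · rw [if_pos hPA, if_pos hPA, add_zero, hPA.1]
        · rw [if_neg hPA, if_neg hPA]
          by_cases h2 : 2 * H < HT ht A
          · rw [if_pos h2, if_pos h2, zero_add]
          · rw [if_neg h2, if_neg h2]
            exact (hAB A (not_lt.1 h2)).1 _
      · simp [hA]
    · intro z
      have hs : ∑ j ∈ range (J + 1), q ^ j = 1 + q * ∑ j ∈ range J, q ^ j := by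
        rw [Finset.sum_range_succ', Finset.mul_sum, add_comm]
        simp [pow_succ, mul_comm]
      rw [hs, mul_add, mul_one]
      calc _ ≤ ∑' A, ((if fp ht H A then LW Λ A * (if P A then Fz Λ ht g (a - H) (z - inc g A)
              else 0) else 0)
            + (if fp ht H A then LW Λ A * (if P A then 0 else 1) else 0)
              * (th * ∑ j ∈ range J, q ^ j)) := by
            refine ENNReal.tsum_le_tsum fun A => ?_
            by_cases hA : fp ht H A
            · simp only [hA, if_true]
              by_cases hPA : P A
              · simp [hPA]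
              · simp only [hPA, if_false, mul_zero, zero_add, mul_one]
                by_cases h2 : 2 * H < HT ht A
                · simp [h2]
                · rw [if_neg h2]
                  exact mul_le_mul_right ((hAB A (not_lt.1 h2)).2.1 _) _
            · simp [hA]
        _ ≤ th + q * (th * ∑ j ∈ range J, q ^ j) := by
            rw [ENNReal.tsum_add, ENNReal.tsum_mul_right]
            refine add_le_add ?_ (mul_le_mul_left hq _)
            have e2 : ∀ A, (if fp ht H A then LW Λ A * (if P A then Fz Λ ht g (a - H) (z - inc g A)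
                else 0) else 0) = ∑' z', (if fp ht H A then LW Λ A *
                  (if P A ∧ inc g A = z' then 1 else 0) else 0) * Fz Λ ht g (a - H) (z - z') := by
              intro A
              rw [tsum_eq_single (inc g A)]
              · by_cases hA : fp ht H A
                · by_cases hPA : P A <;> simp [hA, hPA]
                · simp [hA]
              · intro z' hz'
                have : ¬ (P A ∧ inc g A = z') := fun h => hz' h.2.symm
                simp [this]
            simp_rw [e2]
            rw [ENNReal.tsum_comm]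
            calc _ ≤ ∑' z', th * Fz Λ ht g (a - H) (z - z') := by
                  refine ENNReal.tsum_le_tsum fun z' => ?_
                  rw [ENNReal.tsum_mul_right]
                  exact mul_le_mul_left (hfl z') _
              _ = th * ∑' z', Fz Λ ht g (a - H) z' := by rw [ENNReal.tsum_mul_left, tsum_subl]
              _ ≤ th * 1 := mul_le_mul_right (sum_Fz Λ ht g h1 hΛ _) _
              _ = th := mul_one _
        _ = _ := by ring
    · have hs : ∑ j ∈ range (J + 1), q ^ j = 1 + q * ∑ j ∈ range J, q ^ j := by
        rw [Finset.sum_range_succ', Finset.mul_sum, add_comm]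
        simp [pow_succ, mul_comm]
      rw [ENNReal.tsum_comm]
      calc _ ≤ ∑' A, ((if fp ht H A then LW Λ A * (if 2 * H < HT ht A then 1 else 0) else 0)
            + (if fp ht H A then LW Λ A * (if P A then 0 else 1) else 0)
              * (q ^ J + e * ∑ j ∈ range J, q ^ j)) := by
            refine ENNReal.tsum_le_tsum fun A => ?_
            by_cases hA : fp ht H A
            · simp only [hA, if_true]
              by_cases hPA : P A
              · simp [hPA]
              · simp only [hPA, if_false, mul_one]
                rw [ENNReal.tsum_mul_left]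
                by_cases h2 : 2 * H < HT ht A
                · simp only [h2, if_true, mul_one]
                  refine le_trans ?_ le_self_add
                  rw [tsum_subr (fun z => Fz Λ ht g (a - HT ht A) z)]
                  calc _ ≤ LW Λ A * 1 := mul_le_mul_right (sum_Fz Λ ht g h1 hΛ _) _
                    _ = _ := mul_one _
                · simp only [h2, if_false, mul_zero, zero_add]
                  rw [tsum_subr (fun z => Bf A z)]
                  exact mul_le_mul_right (hAB A (not_lt.1 h2)).2.2 _
            · simp [hA]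
        _ ≤ e + q * (q ^ J + e * ∑ j ∈ range J, q ^ j) := by
            rw [ENNReal.tsum_add, ENNReal.tsum_mul_right]
            exact add_le_add he (mul_le_mul_left hq _)
        _ = _ := by rw [hs]; ring

lemma fp_of_HT (h1 : ∀ b, 1 ≤ ht b) (L : List B) : ∀ a, HT ht L = a → fp ht a L := by
  induction L with
  | nil => intro a h; rw [fp_nil, ← h, HT_nil]
  | cons b L ih =>
    intro a h
    rw [HT_cons] at h
    rw [fp_cons]
    exact ⟨by have := h1 b; omega, ih _ (by omega)⟩

end Crest.Agent.R154.HWin912
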