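import Crest.Agent.R154.HWinA_912
import Crest.Agent.R154.B5Br_657
import Crest.Agent.R154.Comp_818
import Crest.Agent.R154.Sel_300
import Crest.Agent.R154.WMass_286

/-! Row 154, ROAD 801, joint-cut frame (helper912): laws of one walker at exact height `H`. -/

set_option autoImplicit false

namespace Crest.Agent.R154.HWin912

open MeasureTheory ProbabilityTheory Crest.ProbabilityR.RandomEnvironment
open scoped ENNReal
open Finset
open Crest.Agent.R154.B5A Crest.Agent.R154.FP178

section generic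

variable {α V : Type*} (a : α → ℝ≥0∞) (e : α → V)

open Classical in
/-- image law -/
noncomputable def pl (z : V) : ℝ≥0∞ := ∑' π, if e π = z then a π else 0

open Classical in
lemma pl_fun (φ : V → ℝ≥0∞) : ∑' z, pl a e z * φ z = ∑' π, a π * φ (e π) := by
  have h : ∀ z, pl a e z * φ z = ∑' π, (if e π = z then a π else 0) * φ z := by
    intro z; rw [pl, ENNReal.tsum_mul_right]
  simp_rw [h]
  rw [ENNReal.tsum_comm]
  refine tsum_congr fun π => ?_
  rw [tsum_eq_single (e π)]
  · simp
  · intro z hz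
    rw [if_neg (Ne.symm hz), zero_mul]

lemma pl_if (P : V → Prop) [DecidablePred P] : ∑' z, (if P z then pl a e z else 0) = ∑' π, (if P (e π) then a π else 0) := by
  have h := pl_fun a e (fun z => if P z then 1 else 0)
  have h1 : ∀ z, pl a e z * (if P z then (1 : ℝ≥0∞) else 0) = if P z then pl a e z else 0 := by
    intro z; split_ifs <;> simp
  have h2 : ∀ π, a π * (if P (e π) then (1 : ℝ≥0∞) else 0) = if P (e π) then a π else 0 := by
    intro z; split_ifs <;> simp
  simp_rw [h1, h2] at h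
  exact h

open Classical in
/-- quantile of the image law -/
theorem quant (h1 : ∑' π, a π ≤ 1) {v : ℝ≥0∞} (hv : v ≠ 0) (hv1 : v ≤ ∑' π, a π) :
    ∃ (th : ℝ≥0∞) (E : Finset V), (∀ z, z ∈ E ↔ th ≤ pl a e z) ∧
      (∑' π, (if e π ∈ E then 0 else a π)) ≤ v ∧
      v ≤ ∑' π, (if pl a e (e π) ≤ 2 * th then a π else 0) ∧
      th * E.card ≤ 1 := by
  have hs : ∑' z, pl a e z ≤ 1 := by
    have h := pl_fun a e (fun _ => 1)
    simp only [mul_one] at h
    rw [h]; exact h1
  obtain ⟨k, hk1, hk2, hk3, hk4⟩ := Sel300.dyq (pl a e) hs hv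
  refine ⟨(2 ^ k)⁻¹, hk3.toFinset, fun z => by simp, ?_, ?_, ?_⟩
  · have e1 := pl_if a e (fun z => pl a e z < (2 ^ k)⁻¹)
    rw [e1] at hk1
    refine le_trans (le_of_eq ?_) hk1
    refine tsum_congr fun π => ?_
    by_cases h : pl a e (e π) < (2 ^ k)⁻¹
    · rw [if_pos h, if_neg (by simpa using h)]
    · rw [if_neg h, if_pos (by simpa using h)]
  · rcases hk2 with rfl | hk2
    · refine hv1.trans (ENNReal.tsum_le_tsum fun π => ?_)
      rw [if_pos]
      calc pl a e (e π) ≤ ∑' z, pl a e z := ENNReal.le_tsum _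
        _ ≤ 1 := hs
        _ ≤ 2 * (2 ^ 0)⁻¹ := by norm_num
    · have e1 := pl_if a e (fun z => pl a e z ≤ 2 * (2 ^ k)⁻¹)
      rw [e1] at hk2
      refine hk2.trans (le_of_eq (tsum_congr fun π => ?_))
      congr
  · rw [← Set.ncard_eq_toFinset_card _ hk3]
    calc (2 ^ k : ℝ≥0∞)⁻¹ * ({i | (2 ^ k)⁻¹ ≤ pl a e i}.ncard : ℕ)
        ≤ (2 ^ k : ℝ≥0∞)⁻¹ * ((2 ^ k : ℕ) : ℝ≥0∞) := by
          refine mul_le_mul_right ?_ _
          exact_mod_cast hk4
      _ = 1 := by
          push_cast
          exact ENNReal.inv_mul_cancel (by simp) (by simp)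

end generic

/-- geometric sum -/
lemma geo {v : ℝ≥0∞} (hv : v ≤ 1) (J : ℕ) : ∑ j ∈ range J, (1 - v) ^ j ≤ v⁻¹ := by
  calc _ ≤ ∑' j : ℕ, (1 - v) ^ j := ENNReal.sum_le_tsum _
    _ = (1 - (1 - v))⁻¹ := ENNReal.tsum_geometric _
    _ = v⁻¹ := by rw [ENNReal.sub_sub_cancel ENNReal.one_ne_top hv]

/-- first passage: helper818's `att` is helper178's `fp` -/
lemma fp_of_att {B : Type*} (ht : B → ℕ) (L : List B) :
    ∀ a, Comp818.att ht a L → fp ht a L := by
  induction L with
  | nil =>
    intro a h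
    rw [fp_nil]
    have := h.1
    rw [HT_nil] at this
    omega
  | cons b L ih =>
    intro a h
    rw [fp_cons]
    have h0 := h.2 0 (by simp)
    simp only [List.take_zero, HT_nil] at h0
    refine ⟨h0, ih _ ⟨?_, ?_⟩⟩
    · have := h.1
      rw [HT_cons] at this
      omega
    · intro i hi
      have := h.2 (i + 1) (by simp; omega)
      rw [List.take_succ_cons, HT_cons] at this
      omega

end Crest.Agent.R154.HWin912
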