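import Crest.Agent.R154.JHit_139
import Crest.Agent.R154.Comp_818
import Crest.Agent.R154.Gap_583

/-! Row 154, road 801 (helper149): 139's window input `hW` and his density lemma `hit_le` give
818's `hWin` (frame of joint cuts). -/

set_option autoImplicit false
set_option linter.unusedSectionVars false

namespace Crest.Agent.R154.HWin149

open scoped ENNReal Topology
open Filter
open Crest.Agent.R154.B5A Crest.Agent.R154.FP178 Crest.Agent.R154.JAsm139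
open Crest.Agent.R154.Comp818

lemma num_real (x δ : ℝ) (hx : 0 < x) (hδ : 0 < δ) :
    ∃ n : ℕ, 1 ≤ n ∧ x ≤ n ∧ 16 * (n : ℝ) ^ 2 * (1 - x / n) ^ (n ^ 2) ≤ δ := by
  have h1 : Tendsto (fun y : ℝ => y ^ 2 * Real.exp (-y)) atTop (𝓝 0) :=
    Real.tendsto_pow_mul_exp_neg_atTop_nhds_zero 2
  have h2 : Tendsto (fun n : ℕ => x * (n : ℝ)) atTop atTop :=
    tendsto_natCast_atTop_atTop.const_mul_atTop hx
  have h3 := h1.comp h2
  have h4 : ∀ᶠ n : ℕ in atTop, (x * n) ^ 2 * Real.exp (-(x * n)) < δ * x ^ 2 / 16 := by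
    have : 0 < δ * x ^ 2 / 16 := by positivity
    exact (h3.eventually_lt_const this)
  obtain ⟨n, hn, hn1, hn2⟩ :=
    (h4.and ((eventually_ge_atTop 1).and (eventually_ge_atTop ⌈x⌉₊))).exists
  have hxn' : x ≤ n := (Nat.le_ceil x).trans (by exact_mod_cast hn2)
  refine ⟨n, hn1, hxn', ?_⟩
  have hn0 : (0 : ℝ) < n := by exact_mod_cast hn1
  have hxn : x / n ≤ 1 := (div_le_one hn0).2 hxn'
  have e1 : (1 - x / n) ^ (n ^ 2) ≤ Real.exp (-(x * n)) := by
    calc (1 - x / n) ^ (n ^ 2) ≤ (Real.exp (-(x / n))) ^ (n ^ 2) :=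
          pow_le_pow_left₀ (by linarith) (Real.one_sub_le_exp_neg _) _
      _ = Real.exp (-(x * n)) := by
          rw [← Real.exp_nat_mul]
          congr 1
          push_cast
          field_simp
  have e2 : (n : ℝ) ^ 2 * Real.exp (-(x * n)) ≤ δ / 16 := by
    have h5 : x ^ 2 * ((n : ℝ) ^ 2 * Real.exp (-(x * n))) ≤ x ^ 2 * (δ / 16) := by
      nlinarith [hn.le]
    exact le_of_mul_le_mul_left h5 (by positivity)
  calc 16 * (n : ℝ) ^ 2 * (1 - x / n) ^ (n ^ 2)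
      ≤ 16 * (n : ℝ) ^ 2 * Real.exp (-(x * n)) := by gcongr
    _ = 16 * ((n : ℝ) ^ 2 * Real.exp (-(x * n))) := by ring
    _ ≤ 16 * (δ / 16) := by gcongr
    _ = δ := by ring

lemma num (ε c1 : ℝ≥0∞) (hε : ε ≠ 0) (hc : c1 ≠ 0) (hc1 : c1 ≤ 1) :
    ∃ (J : ℕ) (u η : ℝ≥0∞), 1 ≤ J ∧ u ≠ 0 ∧ u ≤ 1 ∧ η ≠ 0 ∧
      u * u + η + 2 * ((1 - c1 * u) ^ J + J * (η + η)) ≤ ε / ((16 * J : ℕ) : ℝ≥0∞) := by
  set e : ℝ≥0∞ := min ε 1 with he
  have he0 : e ≠ 0 := by
    rw [he]; intro h; rcases min_eq_iff.1 h with h | h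
    · exact hε h.1
    · exact one_ne_zero h.1
  have he1 : e ≤ 1 := min_le_right _ _
  have het : e ≠ ⊤ := ne_top_of_le_ne_top ENNReal.one_ne_top he1
  have hct : c1 ≠ ⊤ := ne_top_of_le_ne_top ENNReal.one_ne_top hc1
  set θ : ℝ≥0∞ := e / 8 with hθ
  have hθ0 : θ ≠ 0 := by rw [hθ]; exact (ENNReal.div_pos he0 (by norm_num)).ne'
  have hθt : θ ≠ ⊤ := by rw [hθ]; exact ENNReal.div_ne_top het (by norm_num)
  have hθ1 : θ ≤ 1 := by
    rw [hθ]
    exact (ENNReal.div_le_of_le_mul (he1.trans (by norm_num)))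
  set x : ℝ := (c1 * θ).toReal with hx
  have hct' : c1 * θ ≠ ⊤ := ENNReal.mul_ne_top hct hθt
  have hx0 : 0 < x := ENNReal.toReal_pos (mul_ne_zero hc hθ0) hct'
  have hδ0 : 0 < θ.toReal := ENNReal.toReal_pos hθ0 hθt
  obtain ⟨n, hn1, hxn, hn⟩ := num_real x θ.toReal hx0 hδ0
  have hn0 : (0 : ℝ) < n := by exact_mod_cast hn1
  have hnE : (n : ℝ≥0∞) ≠ 0 := by exact_mod_cast (by omega : n ≠ 0)
  have hnT : (n : ℝ≥0∞) ≠ ⊤ := ENNReal.natCast_ne_top n
  set J : ℕ := n ^ 2 with hJ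
  have hJ1 : 1 ≤ J := Nat.one_le_pow _ _ hn1
  set K : ℝ≥0∞ := ((16 * J : ℕ) : ℝ≥0∞) with hK
  have hK0 : K ≠ 0 := by rw [hK]; exact_mod_cast (by omega : 16 * J ≠ 0)
  have hKt : K ≠ ⊤ := ENNReal.natCast_ne_top _
  set u : ℝ≥0∞ := θ / n with hu
  set η : ℝ≥0∞ := e / (8 * K * (J + 1)) with hη
  have hden : (8 * K * ((J : ℝ≥0∞) + 1)) ≠ ⊤ := by finiteness
  have hden0 : (8 * K * ((J : ℝ≥0∞) + 1)) ≠ 0 := by positivity
  have hη0 : η ≠ 0 := by rw [hη]; exact (ENNReal.div_pos he0 hden).ne'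
  refine ⟨J, u, η, hJ1, ?_, ?_, hη0, ?_⟩
  · rw [hu]; exact (ENNReal.div_pos hθ0 hnT).ne'
  · rw [hu]
    refine (ENNReal.div_le_of_le_mul ?_)
    rw [one_mul]
    exact hθ1.trans (by exact_mod_cast hn1)
  rw [ENNReal.le_div_iff_mul_le (Or.inl hK0) (Or.inl hKt)]
  refine le_trans ?_ (min_le_left ε 1)
  rw [← he]
  -- three parts
  have p1 : K * (u * u) ≤ e / 4 := by
    have : K * (u * u) = 16 * (θ * θ) := by
      rw [hK, hJ, hu]
      push_cast
      rw [ENNReal.div_eq_inv_mul]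
      have : 16 * (n : ℝ≥0∞) ^ 2 * ((n : ℝ≥0∞)⁻¹ * θ * ((n : ℝ≥0∞)⁻¹ * θ))
        = 16 * (θ * θ) * (((n : ℝ≥0∞) * (n : ℝ≥0∞)⁻¹) ^ 2) := by ring
      rw [this, ENNReal.mul_inv_cancel hnE hnT, one_pow, mul_one]
    rw [this]
    have h16 : (16 : ℝ≥0∞) * (θ * θ) = e / 4 * e := by
      rw [hθ, div_eq_mul_inv, div_eq_mul_inv]
      have : (8 : ℝ≥0∞)⁻¹ * 8⁻¹ * 16 = 4⁻¹ := by
        rw [← ENNReal.mul_inv (by norm_num) (by norm_num)]
        rw [show (8 * 8 : ℝ≥0∞) = 4 * 16 by norm_num,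
          ENNReal.mul_inv (by norm_num) (by norm_num), mul_assoc,
          ENNReal.inv_mul_cancel (by norm_num) (by norm_num), mul_one]
      calc (16 : ℝ≥0∞) * (e * 8⁻¹ * (e * 8⁻¹)) = ((8 : ℝ≥0∞)⁻¹ * 8⁻¹ * 16) * (e * e) := by ring
        _ = e * 4⁻¹ * e := by rw [this]; ring
    rw [h16]
    calc e / 4 * e ≤ e / 4 * 1 := by gcongr
      _ = e / 4 := mul_one _
  have p2 : K * (1 - c1 * u) ^ J ≤ e / 8 := by
    have h1 : c1 * u = ENNReal.ofReal (x / n) := by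
      rw [ENNReal.ofReal_div_of_pos hn0, hx, ENNReal.ofReal_toReal hct', ENNReal.ofReal_natCast, hu,
        ← mul_div_assoc]
    have hle : x / n ≤ 1 := (div_le_one hn0).2 hxn
    have h2 : (1 - c1 * u) = ENNReal.ofReal (1 - x / n) := by
      rw [h1, ENNReal.ofReal_sub _ (by positivity), ENNReal.ofReal_one]
    have h3 : K = ENNReal.ofReal (16 * (n : ℝ) ^ 2) := by
      rw [hK, hJ, ← ENNReal.ofReal_natCast]
      push_cast
      rfl
    rw [h2, h3, ← ENNReal.ofReal_pow (by linarith), ← ENNReal.ofReal_mul (by positivity)]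
    refine (ENNReal.ofReal_le_ofReal hn).trans ?_
    rw [ENNReal.ofReal_toReal hθt]
  have p3 : K * (8 * ((J : ℝ≥0∞) + 1) * η) = e := by
    rw [hη]
    calc K * (8 * ((J : ℝ≥0∞) + 1) * (e / (8 * K * (J + 1))))
        = (8 * K * ((J : ℝ≥0∞) + 1)) * (e / (8 * K * (J + 1))) := by ring
      _ = e := ENNReal.mul_div_cancel hden0 hden
  have p4 : K * (η + 4 * J * η) ≤ e / 2 := by
    have : 2 * (K * (η + 4 * J * η)) ≤ e := by
      rw [← p3]
      calc 2 * (K * (η + 4 * J * η)) = K * ((2 + 8 * J) * η) := by ring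
        _ ≤ K * (8 * ((J : ℝ≥0∞) + 1) * η) := by
            gcongr
            rw [mul_add, mul_one, add_comm]
            gcongr
            norm_num
    rw [ENNReal.le_div_iff_mul_le (Or.inl (by norm_num)) (Or.inl (by norm_num)), mul_comm]
    exact this
  calc (u * u + η + 2 * ((1 - c1 * u) ^ J + J * (η + η))) * K
      = K * (u * u) + 2 * (K * (1 - c1 * u) ^ J) + K * (η + 4 * J * η) := by ring
    _ ≤ e / 4 + 2 * (e / 8) + e / 2 := by gcongr
    _ = e := by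
        have h8 : 2 * (e / 8) = e / 4 := by
          rw [div_eq_mul_inv, div_eq_mul_inv, show (8 : ℝ≥0∞) = 2 * 4 by norm_num,
            ENNReal.mul_inv (by norm_num) (by norm_num)]
          calc 2 * (e * (2⁻¹ * 4⁻¹)) = (2 * 2⁻¹) * (e * 4⁻¹) := by ring
            _ = e * 4⁻¹ := by rw [ENNReal.mul_inv_cancel (by norm_num) (by norm_num), one_mul]
        have h4 : e / 4 + e / 4 = e / 2 := by
          rw [← two_mul, div_eq_mul_inv, div_eq_mul_inv, show (4 : ℝ≥0∞) = 2 * 2 by norm_num,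
            ENNReal.mul_inv (by norm_num) (by norm_num)]
          calc 2 * (e * (2⁻¹ * 2⁻¹)) = (2 * 2⁻¹) * (e * 2⁻¹) := by ring
            _ = e * 2⁻¹ := by rw [ENNReal.mul_inv_cancel (by norm_num) (by norm_num), one_mul]
        rw [h8, h4, ENNReal.add_halves]

variable {B W : Type*} (Λ : B → ℝ≥0∞) (ht : B → ℕ) (dl : B → W → W) (cd : W → B → Set ℕ)

lemma fp_of_att (L : List B) : ∀ a, att ht a L → fp ht a L := by
  induction L with
  | nil => intro a h; have := h.1; rw [HT_nil] at this; rw [fp_nil]; omega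
  | cons b L ih =>
    intro a h
    rw [fp_cons]
    have h0 := h.2 0 (by simp)
    rw [List.take_zero, HT_nil] at h0
    refine ⟨h0, ih _ ⟨?_, fun i hi => ?_⟩⟩
    · have := h.1; rw [HT_cons] at this; omega
    · have := h.2 (i + 1) (by simpa using hi)
      rw [List.take_succ_cons, HT_cons] at this
      omega

lemma WLp_le_one (hU1 : ∀ n, U Λ ht n ≤ 1) (H s : ℕ) (w : W) : WLp Λ ht dl cd H s w ≤ 1 := by
  classical
  refine le_trans ?_ (hU1 H)
  unfold WLp U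
  refine ENNReal.tsum_le_tsum fun L => ?_
  by_cases h : HT ht L = H
  · rw [if_pos h]; split_ifs <;> simp
  · rw [if_neg h, if_neg (fun h' => h h'.1)]

open Classical in
/-- **the bridge** from 139's `hW` to 818's `hWin` -/
theorem hWin_of (h1 : ∀ b, 1 ≤ ht b) (hΛ : ∑' b, Λ b = 1) (hU1 : ∀ n, U Λ ht n ≤ 1)
    (hinj : ∀ b, Function.Injective (dl b))
    (htail : Tendsto (fun H : ℕ => ∑' k, tail Λ ht (H + k)) atTop (𝓝 0))
    (c1 : ℝ≥0∞) (hc1 : c1 ≠ 0) (hc1' : c1 ≤ 1)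
    (hW : ∀ u η : ℝ≥0∞, u ≠ 0 → u ≤ 1 → η ≠ 0 → ∃ s H0 : ℕ, ∀ H, H0 ≤ H → ∃ S1 S2 : Set W,
      Good Λ ht dl (c1 * u) η H S1 ∧ Good Λ ht dl (c1 * u) η H S2 ∧
      ∀ w, w ∉ S1 → w ∉ S2 → (∑' L : List B, if HT ht L = H ∧ CD ht dl cd L w ≠ ∅ ∧
        (∀ k ∈ CD ht dl cd L w, s < k ∧ k + s ≤ H) then LW Λ L else 0) ≤ u * u + η) :
    ∀ ε : ℝ≥0∞, ε ≠ 0 → ∃ K : ℕ, 1 ≤ K ∧ ∀ i0 : ℕ, ∃ s H0 : ℕ, ∀ H, H0 ≤ H →
      ∀ a, K * H ≤ 8 * a → ∀ w, ∑' L1 : List B, (if att ht a L1 ∧ HT ht L1 ≤ a + i0 then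
        LW Λ L1 * WLp Λ ht dl cd H s (act dl L1 w) else 0) ≤ ε / K := by
  intro ε hε
  obtain ⟨J, u, η, hJ, hu0, hu1, hη, hnum⟩ := num ε c1 hε hc1 hc1'
  refine ⟨16 * J, by omega, fun i0 => ?_⟩
  obtain ⟨s, H0, hH0⟩ := hW u η hu0 hu1 hη
  obtain ⟨H1, hH1⟩ := eventually_atTop.1 (htail.eventually_le_const (pos_iff_ne_zero.2 hη))
  refine ⟨s, max H0 H1, fun H hH a ha w => ?_⟩
  obtain ⟨S1, S2, g1, g2, hoff⟩ := hH0 H ((le_max_left _ _).trans hH)
  have ht1 : ∑' k, tail Λ ht (H + k) ≤ η := hH1 H ((le_max_right _ _).trans hH)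
  have hJa : J * (2 * H) ≤ a := by
    have : 16 * J * H = 8 * (J * (2 * H)) := by ring
    omega
  have b1 := hit_le Λ ht dl h1 hΛ hU1 hinj _ η H S1 g1 J a hJa w
  have b2 := hit_le Λ ht dl h1 hΛ hU1 hinj _ η H S2 g2 J a hJa w
  have hone : ∑' L : List B, (if fp ht a L then LW Λ L else 0) ≤ 1 := sum_FP Λ ht h1 hΛ.le a
  refine le_trans ?_ hnum
  have hpt : ∀ L : List B, (if att ht a L ∧ HT ht L ≤ a + i0 then
        LW Λ L * WLp Λ ht dl cd H s (act dl L w) else 0)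
      ≤ (if fp ht a L then LW Λ L else 0) * (u * u + η)
        + (if fp ht a L then LW Λ L * S1.indicator (fun _ => (1 : ℝ≥0∞)) (act dl L w) else 0)
        + (if fp ht a L then LW Λ L * S2.indicator (fun _ => (1 : ℝ≥0∞)) (act dl L w) else 0) := by
    intro L
    by_cases h : att ht a L ∧ HT ht L ≤ a + i0
    · have hf := fp_of_att ht L a h.1
      rw [if_pos h, if_pos hf, if_pos hf, if_pos hf]
      by_cases m1 : act dl L w ∈ S1
      · rw [Set.indicator_of_mem m1]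
        refine le_add_right (le_add_left ?_)
        gcongr
        exact WLp_le_one Λ ht dl cd hU1 _ _ _
      · by_cases m2 : act dl L w ∈ S2
        · rw [Set.indicator_of_mem m2]
          refine le_add_left ?_
          gcongr
          exact WLp_le_one Λ ht dl cd hU1 _ _ _
        · refine le_add_right (le_add_right ?_)
          gcongr
          exact hoff _ m1 m2
    · rw [if_neg h]; exact zero_le
  calc _ ≤ ∑' L : List B, ((if fp ht a L then LW Λ L else 0) * (u * u + η)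
        + (if fp ht a L then LW Λ L * S1.indicator (fun _ => (1 : ℝ≥0∞)) (act dl L w) else 0)
        + (if fp ht a L then LW Λ L * S2.indicator (fun _ => (1 : ℝ≥0∞)) (act dl L w) else 0)) :=
        ENNReal.tsum_le_tsum hpt
    _ = (∑' L : List B, (if fp ht a L then LW Λ L else 0)) * (u * u + η)
        + hitS Λ ht dl a S1 w + hitS Λ ht dl a S2 w := by
        rw [ENNReal.tsum_add, ENNReal.tsum_add, ENNReal.tsum_mul_right]
        rfl
    _ ≤ 1 * (u * u + η) + ((1 - c1 * u) ^ J + J * (η + ∑' k, tail Λ ht (H + k)))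
        + ((1 - c1 * u) ^ J + J * (η + ∑' k, tail Λ ht (H + k))) := by gcongr
    _ ≤ 1 * (u * u + η) + ((1 - c1 * u) ^ J + J * (η + η))
        + ((1 - c1 * u) ^ J + J * (η + η)) := by gcongr
    _ = u * u + η + 2 * ((1 - c1 * u) ^ J + J * (η + η)) := by ring

end Crest.Agent.R154.HWin149
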