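import Crest.Agent.R154.JHit_139
import Crest.Agent.R154.B5Br_657
import Crest.Agent.R154.AsmA_789
import Crest.Agent.R154.Comp_818

/-! Row 154, ROAD 801, joint-cut frame (helper308): 818's `hWin` for 657's instance from the word
inputs `E2`, `E3` (912's literals), with 139's `hit_le`. -/

set_option autoImplicit false

namespace Crest.Agent.R154.HW308

open MeasureTheory ProbabilityTheory Crest.ProbabilityR.RandomEnvironment Crest.Agent.R154
open Crest.Agent.R154.Flux132 (lev opp)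
open Crest.Agent.R154.Flux566 (lw endp sitesL endp_append endp_eq_add)
open Crest.Agent.R154.B5A Crest.Agent.R154.B5W Crest.Agent.R154.FP178 Crest.Agent.R154.JAsm139
open Crest.Agent.R154.NB28 (IsUp IsDn Cm)
open scoped ENNReal

/-! ### quantile -/

open Classical in
theorem quant {ι : Type*} (p : ι → ℝ≥0∞) (hp : ∑' i, p i ≤ 1) {v : ℝ≥0∞} (hv : v ≠ 0)
    (hv1 : v ≤ ∑' i, p i) : ∃ θ : ℝ≥0∞, θ ≠ 0 ∧ θ ≤ 1 ∧ (∑' i, if p i < θ then p i else 0) ≤ v ∧
      v ≤ (∑' i, if p i < 2 * θ then p i else 0) := by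
  have hex := AsmA789.exists_small p hp hv
  set P : ℕ → Prop := fun q => (∑' i, if p i < (2 : ℝ≥0∞)⁻¹ ^ q then p i else 0) ≤ v with hP
  have hex' : ∃ q, P q := hex
  have hq := Nat.find_spec hex'
  refine ⟨(2 : ℝ≥0∞)⁻¹ ^ Nat.find hex', ?_, ?_, hq, ?_⟩
  · exact pow_ne_zero _ (by simp)
  · exact pow_le_one' (by simp) _
  · rcases Nat.eq_zero_or_pos (Nat.find hex') with h0 | hpos
    · rw [h0, pow_zero, mul_one]
      have : ∀ i, p i < 2 := by
        intro i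
        calc p i ≤ ∑' i, p i := ENNReal.le_tsum i
          _ ≤ 1 := hp
          _ < 2 := by norm_num
      simp only [this, if_true]
      exact hv1
    · obtain ⟨r, hr⟩ := Nat.exists_eq_succ_of_ne_zero hpos.ne'
      have hnot : ¬ P r := Nat.find_min hex' (by omega)
      have e : 2 * (2 : ℝ≥0∞)⁻¹ ^ Nat.find hex' = (2 : ℝ≥0∞)⁻¹ ^ r := by
        rw [hr, Nat.succ_eq_add_one, pow_succ, mul_comm ((2 : ℝ≥0∞)⁻¹ ^ r), ← mul_assoc,
          ENNReal.mul_inv_cancel (by norm_num) (by norm_num), one_mul]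
      rw [e]
      exact (not_le.1 hnot).le

variable {d : ℕ}

/-! ### counting form of the window lemma -/

open Classical in
lemma count {u : Step d} (Φ : Site d → ℝ≥0∞) (C lam us n : ℝ≥0∞) (hC : C ≠ 0) (hC' : C ≠ ⊤)
    (hl : lam ≠ 0) (hl' : lam ≠ ⊤) (hus : us ≤ lam)
    (hE : ∀ (μ : Site d → ℝ≥0∞) (M : ℝ≥0∞), ∑' x, μ x ≤ 1 → (∀ x, μ x ≤ M) →
      ∑' x, (if lev u x = 0 then μ x * Φ x else 0) ≤ C * (lam + M * n * us / lam + us)) :
    card {w : Lat u | 3 * (C * lam) < Φ w.1} ≤ n * us / lam / lam := by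
  set S : Set (Lat u) := {w : Lat u | 3 * (C * lam) < Φ w.1} with hS
  unfold card
  rw [ENNReal.tsum_eq_iSup_sum]
  refine iSup_le fun t => ?_
  set F := t.filter (· ∈ S) with hF
  have e1 : ∑ w ∈ t, S.indicator (fun _ => (1 : ℝ≥0∞)) w = F.card := by
    simp only [Set.indicator_apply]
    rw [← Finset.sum_filter]
    simp [hF]
  rw [e1]
  rcases Nat.eq_zero_or_pos F.card with h0 | hpos
  · rw [h0]; simp
  set N : ℝ≥0∞ := (F.card : ℝ≥0∞) with hN
  have hN0 : N ≠ 0 := by rw [hN]; exact_mod_cast hpos.ne'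
  have hNt : N ≠ ⊤ := ENNReal.natCast_ne_top _
  set G : Finset (Site d) := F.image (fun w : Lat u => w.1) with hG
  have hGc : G.card = F.card :=
    Finset.card_image_of_injective _ (fun a b h => Subtype.ext h)
  set μ : Site d → ℝ≥0∞ := fun x => if x ∈ G then N⁻¹ else 0 with hμ
  have hμ1 : ∑' x, μ x ≤ 1 := by
    rw [tsum_eq_sum (s := G) (fun x hx => by simp [hμ, hx])]
    rw [Finset.sum_congr rfl (fun x hx => if_pos hx), Finset.sum_const, nsmul_eq_mul, hGc]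
    exact (ENNReal.mul_inv_cancel hN0 hNt).le
  have hμM : ∀ x, μ x ≤ N⁻¹ := fun x => by simp only [hμ]; split_ifs <;> simp
  have h1 := hE μ N⁻¹ hμ1 hμM
  have h2 : 3 * (C * lam) ≤ ∑' x, (if lev u x = 0 then μ x * Φ x else 0) := by
    calc 3 * (C * lam) = ∑ x ∈ G, N⁻¹ * (3 * (C * lam)) := by
          rw [Finset.sum_const, nsmul_eq_mul, hGc]
          change _ = N * (N⁻¹ * (3 * (C * lam)))
          rw [← mul_assoc N, ENNReal.mul_inv_cancel hN0 hNt, one_mul]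
      _ ≤ ∑ x ∈ G, (if lev u x = 0 then μ x * Φ x else 0) := by
          refine Finset.sum_le_sum fun x hx => ?_
          obtain ⟨w, hw, rfl⟩ := Finset.mem_image.1 hx
          have hw0 : lev u w.1 = 0 := w.2
          rw [if_pos hw0]
          simp only [hμ]
          rw [if_pos hx]
          exact mul_le_mul_right (show 3 * (C * lam) < Φ w.1 from (Finset.mem_filter.1 hw).2).le _
      _ ≤ _ := ENNReal.sum_le_tsum G
  have h3 : C * (3 * lam) ≤ C * (2 * lam + N⁻¹ * n * us / lam) := by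
    calc C * (3 * lam) = 3 * (C * lam) := by ring
      _ ≤ C * (lam + N⁻¹ * n * us / lam + us) := h2.trans h1
      _ ≤ C * (lam + N⁻¹ * n * us / lam + lam) := by gcongr
      _ = _ := by ring
  have h4 : 3 * lam ≤ 2 * lam + N⁻¹ * n * us / lam := (ENNReal.mul_le_mul_iff_right hC hC').1 h3
  have h5 : lam ≤ N⁻¹ * n * us / lam := by
    have : 2 * lam + lam ≤ 2 * lam + N⁻¹ * n * us / lam := by
      calc 2 * lam + lam = 3 * lam := by ring
        _ ≤ _ := h4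
    exact (ENNReal.add_le_add_iff_left (ENNReal.mul_ne_top (by norm_num) hl')).1 this
  rw [ENNReal.le_div_iff_mul_le (Or.inl hl) (Or.inl hl')]
  calc N * lam ≤ N * (N⁻¹ * n * us / lam) := mul_le_mul_right h5 _
    _ = (N * N⁻¹) * (n * us / lam) := by simp only [div_eq_mul_inv]; ring
    _ = n * us / lam := by rw [ENNReal.mul_inv_cancel hN0 hNt, one_mul]

/-! ### laws of the displacement -/

open Classical in
/-- law of the endpoint -/
noncomputable def law (a : List (Step d) → ℝ≥0∞) (z : Site d) : ℝ≥0∞ :=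
  ∑' π : List (Step d), if endp 0 π = z then a π else 0

open Classical in
lemma law_sum (a : List (Step d) → ℝ≥0∞) (g : Site d → ℝ≥0∞) :
    ∑' z, law a z * g z = ∑' π, a π * g (endp 0 π) := by
  simp only [law, ← ENNReal.tsum_mul_right]
  rw [ENNReal.tsum_comm]
  refine tsum_congr fun π => ?_
  rw [tsum_eq_single (endp 0 π)]
  · rw [if_pos rfl]
  · intro z hz
    rw [if_neg (Ne.symm hz), zero_mul]

lemma law_mass (a : List (Step d) → ℝ≥0∞) : ∑' z, law a z = ∑' π, a π := by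
  have := law_sum a (fun _ => 1)
  simpa using this

open Classical in
lemma g1 (a b : List (Step d) → ℝ≥0∞) (θ v c : ℝ≥0∞)
    (hv : v ≤ ∑' z, if law a z < 2 * θ then law a z else 0) (hc : c ≤ ∑' γ, b γ) :
    v * c ≤ ∑' π, ∑' γ, a π * b γ * (if law a (endp 0 π) < 2 * θ then 1 else 0) := by
  have h : ∀ π, ∑' γ, a π * b γ * (if law a (endp 0 π) < 2 * θ then (1 : ℝ≥0∞) else 0)
      = a π * (if law a (endp 0 π) < 2 * θ then 1 else 0) * ∑' γ, b γ := by
    intro π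
    rw [← ENNReal.tsum_mul_left]
    exact tsum_congr fun γ => by ring
  simp_rw [h]
  rw [ENNReal.tsum_mul_right, ← law_sum a (fun z => if law a z < 2 * θ then 1 else 0)]
  refine mul_le_mul' (hv.trans (le_of_eq ?_)) hc
  refine tsum_congr fun z => ?_
  split_ifs <;> simp

open Classical in
lemma g2 (a b : List (Step d) → ℝ≥0∞) (θ : ℝ≥0∞) (hb : ∑' γ, b γ ≤ 1)
    (τ : List (Step d) → Site d) :
    ∑' π, ∑' γ, a π * b γ * (if law a (endp 0 π) < 2 * θ ∧ endp 0 π = τ γ then 1 else 0)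
      ≤ 2 * θ := by
  rw [ENNReal.tsum_comm]
  have h : ∀ γ, ∑' π, a π * b γ * (if law a (endp 0 π) < 2 * θ ∧ endp 0 π = τ γ then
      (1 : ℝ≥0∞) else 0) ≤ b γ * (2 * θ) := by
    intro γ
    have e : ∑' π, a π * b γ * (if law a (endp 0 π) < 2 * θ ∧ endp 0 π = τ γ then
        (1 : ℝ≥0∞) else 0) = b γ * ∑' z, law a z * (if law a z < 2 * θ ∧ z = τ γ then 1 else 0) := by
      rw [law_sum a (fun z => if law a z < 2 * θ ∧ z = τ γ then 1 else 0), ← ENNReal.tsum_mul_left]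
      exact tsum_congr fun π => by ring
    rw [e]
    refine mul_le_mul_right ?_ _
    rw [tsum_eq_single (τ γ)]
    · by_cases hh : law a (τ γ) < 2 * θ
      · rw [if_pos ⟨hh, rfl⟩, mul_one]; exact hh.le
      · rw [if_neg (fun h => hh h.1), mul_zero]; exact zero_le
    · intro z hz
      rw [if_neg (fun h => hz h.2), mul_zero]
  calc _ ≤ ∑' γ, b γ * (2 * θ) := ENNReal.tsum_le_tsum h
    _ = (∑' γ, b γ) * (2 * θ) := ENNReal.tsum_mul_right
    _ ≤ 1 * (2 * θ) := mul_le_mul_left hb _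
    _ = _ := one_mul _

/-! ### the instance -/

section inst

variable (ν : Measure (Row d)) [IsProbabilityMeasure ν] (u : Step d)

open Classical in
/-- weight of the up crossings of height `H` -/
noncomputable def fX (H : ℕ) (π : List (Step d)) : ℝ≥0∞ := if IsUp u H π then NB28.aw ν π else 0

open Classical in
/-- weight of the down crossings of height `H` -/
noncomputable def fY (H : ℕ) (γ : List (Step d)) : ℝ≥0∞ := if IsDn u H γ then NB28.aw ν γ else 0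

open Classical in
lemma tL (H : ℕ) (F : List (Step d) × List (Step d) → ℝ≥0∞) :
    ∑' L : List (PB u), (if HT (ht u) L = H then LW (Lam ν u) L * F (cat L) else 0)
      = ∑' π : List (Step d), ∑' γ : List (Step d), fX ν u H π * fY ν u H γ * F (π, γ) := by
  rw [tsum_L ν u H F]
  refine tsum_congr fun π => tsum_congr fun γ => ?_
  by_cases h1 : IsUp u H π <;> by_cases h2 : IsDn u H γ <;> simp [fX, fY, h1, h2]

lemma act_val (L : List (PB u)) (w : Lat u) :
    (act (dl u) L w).1 = w.1 + endp 0 (cat L).1 + endp 0 (cat L).2 := by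
  induction L generalizing w with
  | nil => simp [act, cat, endp]
  | cons b L ih =>
    rw [act, ih]
    simp only [cat, pm, dl, dlp]
    rw [endp_append, endp_append, endp_eq_add b.1.1 (endp 0 (cat L).1),
      endp_eq_add (cat L).2 (endp 0 b.1.2)]
    abel

open Classical in
theorem piece (c : ℝ≥0∞) (hcX : ∀ n, c ≤ ∑' π, fX ν u n π) (hcY : ∀ n, c ≤ ∑' γ, fY ν u n γ)
    (hX1 : ∀ n, ∑' π, fX ν u n π ≤ 1) (hY1 : ∀ n, ∑' γ, fY ν u n γ ≤ 1)
    (C : ℝ≥0∞) (hC : C ≠ 0) (hC' : C ≠ ⊤) (us : ℕ → ℝ≥0∞)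
    (E2 : ∀ (s H : ℕ) (E : Finset (Site d)) (μ : Site d → ℝ≥0∞) (M lam : ℝ≥0∞),
      ∑' x, μ x ≤ 1 → (∀ x, μ x ≤ M) → lam ≠ 0 → lam ≠ ⊤ →
      ∑' x, (if lev u x = 0 then μ x * ∑' π, ∑' γ, (if IsUp u H π ∧ endp 0 π ∈ E ∧ IsDn u H γ ∧
        (∃ k, k ∈ Cm u x π γ) ∧ (∀ k ∈ Cm u x π γ, s < k) then NB28.aw ν π * NB28.aw ν γ else 0)
        else 0) ≤ C * (lam + M * E.card * us s / lam + us s))
    (E3 : ∀ (s H : ℕ) (E : Finset (Site d)) (μ : Site d → ℝ≥0∞) (M lam : ℝ≥0∞),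
      ∑' x, μ x ≤ 1 → (∀ x, μ x ≤ M) → lam ≠ 0 → lam ≠ ⊤ →
      ∑' x, (if lev u x = 0 then μ x * ∑' π, ∑' γ, (if IsUp u H π ∧ IsDn u H γ ∧ endp 0 γ ∈ E ∧
        (∃ k, k ∈ Cm u x π γ) ∧ (∀ k ∈ Cm u x π γ, k + s ≤ H) then NB28.aw ν π * NB28.aw ν γ else 0)
        else 0) ≤ C * (lam + M * E.card * us s / lam + us s))
    (s H : ℕ) (v lam : ℝ≥0∞) (hv : v ≠ 0) (hvc : v ≤ c) (hl : lam ≠ 0) (hl' : lam ≠ ⊤)
    (hus : us s ≤ lam) :
    ∃ S1 S2 : Set (Lat u),
      Good (Lam ν u) (ht u) (dl u) (v * c) (2 * (us s / lam / lam)) H S1 ∧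
      Good (Lam ν u) (ht u) (dl u) (v * c) (2 * (us s / lam / lam)) H S2 ∧
      ∀ w, w ∉ S1 → w ∉ S2 → Comp818.WLp (Lam ν u) (ht u) (dl u) (cd u) H s w
        ≤ v * v + 6 * (C * lam) := by
  -- quantiles
  obtain ⟨θX, hθX0, hθX1, hX2, hX3⟩ := quant (law (fX ν u H)) (by rw [law_mass]; exact hX1 H) hv
    (by rw [law_mass]; exact hvc.trans (hcX H))
  obtain ⟨θY, hθY0, hθY1, hY2, hY3⟩ := quant (law (fY ν u H)) (by rw [law_mass]; exact hY1 H) hv
    (by rw [law_mass]; exact hvc.trans (hcY H))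
  obtain ⟨hfX, hcardX⟩ := AsmA789.card_le (law (fX ν u H)) (by rw [law_mass]; exact hX1 H) hθX0
  obtain ⟨hfY, hcardY⟩ := AsmA789.card_le (law (fY ν u H)) (by rw [law_mass]; exact hY1 H) hθY0
  rw [Set.ncard_eq_toFinset_card _ hfX] at hcardX
  rw [Set.ncard_eq_toFinset_card _ hfY] at hcardY
  set EX := hfX.toFinset with hEX
  set EY := hfY.toFinset with hEY
  set ΦX : Site d → ℝ≥0∞ := fun x => ∑' π, ∑' γ, (if IsUp u H π ∧ endp 0 π ∈ EX ∧ IsDn u H γ ∧
        (∃ k, k ∈ Cm u x π γ) ∧ (∀ k ∈ Cm u x π γ, s < k) then NB28.aw ν π * NB28.aw ν γ else 0)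
    with hΦX
  set ΦY : Site d → ℝ≥0∞ := fun x => ∑' π, ∑' γ, (if IsUp u H π ∧ IsDn u H γ ∧ endp 0 γ ∈ EY ∧
        (∃ k, k ∈ Cm u x π γ) ∧ (∀ k ∈ Cm u x π γ, k + s ≤ H) then NB28.aw ν π * NB28.aw ν γ
        else 0) with hΦY
  have cX := count (u := u) ΦX C lam (us s) EX.card hC hC' hl hl' hus
    (fun μ M h1 h2 => E2 s H EX μ M lam h1 h2 hl hl')
  have cY := count (u := u) ΦY C lam (us s) EY.card hC hC' hl hl' hus
    (fun μ M h1 h2 => E3 s H EY μ M lam h1 h2 hl hl')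
  have hcardfin : ∀ (θ : ℝ≥0∞) (N : ℕ) (S : Set (Lat u)), (N : ℝ≥0∞) * θ ≤ 1 →
      card S ≤ N * us s / lam / lam → 2 * θ * card S ≤ 2 * (us s / lam / lam) := by
    intro θ N S hN hS
    calc 2 * θ * card S ≤ 2 * θ * (N * us s / lam / lam) := mul_le_mul_right hS _
      _ = 2 * ((N * θ) * (us s / lam / lam)) := by simp only [div_eq_mul_inv]; ring
      _ ≤ 2 * (1 * (us s / lam / lam)) := by gcongr
      _ = _ := by rw [one_mul]
  refine ⟨{w : Lat u | 3 * (C * lam) < ΦX w.1}, {w : Lat u | 3 * (C * lam) < ΦY w.1}, ?_, ?_, ?_⟩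
  · refine ⟨{L | law (fX ν u H) (endp 0 (cat L).1) < 2 * θX}, 2 * θX, ?_, ?_,
      hcardfin θX _ _ hcardX cX⟩
    · refine (g1 (fX ν u H) (fY ν u H) θX v c hX3 (hcY H)).trans (le_of_eq ?_)
      rw [← tL ν u H (fun x => if law (fX ν u H) (endp 0 x.1) < 2 * θX then 1 else 0)]
      refine tsum_congr fun L => ?_
      by_cases h1 : HT (ht u) L = H <;>
        by_cases h2 : law (fX ν u H) (endp 0 (cat L).1) < 2 * θX <;> simp [h1, h2]
    · intro w w'
      refine le_trans (le_of_eq ?_) (g2 (fX ν u H) (fY ν u H) θX (hY1 H)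
        (fun γ => w'.1 - w.1 - endp 0 γ))
      rw [← tL ν u H (fun x => if law (fX ν u H) (endp 0 x.1) < 2 * θX ∧
        endp 0 x.1 = w'.1 - w.1 - endp 0 x.2 then 1 else 0)]
      refine tsum_congr fun L => ?_
      have e : act (dl u) L w = w' ↔ endp 0 (cat L).1 = w'.1 - w.1 - endp 0 (cat L).2 := by
        constructor
        · intro h
          rw [← h, act_val]; abel
        · intro h
          refine Subtype.ext ?_
          rw [act_val, h]; abel
      by_cases h1 : HT (ht u) L = H <;>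
        by_cases h2 : law (fX ν u H) (endp 0 (cat L).1) < 2 * θX <;>
        by_cases h3 : endp 0 (cat L).1 = w'.1 - w.1 - endp 0 (cat L).2 <;>
        simp [h1, h2, h3, e]
  · refine ⟨{L | law (fY ν u H) (endp 0 (cat L).2) < 2 * θY}, 2 * θY, ?_, ?_,
      hcardfin θY _ _ hcardY cY⟩
    · refine (g1 (fY ν u H) (fX ν u H) θY v c hY3 (hcX H)).trans (le_of_eq ?_)
      rw [ENNReal.tsum_comm]
      have e0 : ∀ π γ, fY ν u H γ * fX ν u H π *
          (if law (fY ν u H) (endp 0 γ) < 2 * θY then (1 : ℝ≥0∞) else 0)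
          = fX ν u H π * fY ν u H γ *
          (if law (fY ν u H) (endp 0 γ) < 2 * θY then (1 : ℝ≥0∞) else 0) := fun π γ => by ring
      simp_rw [e0]
      rw [← tL ν u H (fun x => if law (fY ν u H) (endp 0 x.2) < 2 * θY then 1 else 0)]
      refine tsum_congr fun L => ?_
      by_cases h1 : HT (ht u) L = H <;>
        by_cases h2 : law (fY ν u H) (endp 0 (cat L).2) < 2 * θY <;> simp [h1, h2]
    · intro w w'
      refine le_trans (le_of_eq ?_) (g2 (fY ν u H) (fX ν u H) θY (hX1 H)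
        (fun π => w'.1 - w.1 - endp 0 π))
      rw [ENNReal.tsum_comm]
      have e0 : ∀ π γ, fY ν u H γ * fX ν u H π *
          (if law (fY ν u H) (endp 0 γ) < 2 * θY ∧ endp 0 γ = w'.1 - w.1 - endp 0 π then
            (1 : ℝ≥0∞) else 0)
          = fX ν u H π * fY ν u H γ *
          (if law (fY ν u H) (endp 0 γ) < 2 * θY ∧ endp 0 γ = w'.1 - w.1 - endp 0 π then
            (1 : ℝ≥0∞) else 0) := fun π γ => by ring
      simp_rw [e0]
      rw [← tL ν u H (fun x => if law (fY ν u H) (endp 0 x.2) < 2 * θY ∧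
        endp 0 x.2 = w'.1 - w.1 - endp 0 x.1 then 1 else 0)]
      refine tsum_congr fun L => ?_
      have e : act (dl u) L w = w' ↔ endp 0 (cat L).2 = w'.1 - w.1 - endp 0 (cat L).1 := by
        constructor
        · intro h
          rw [← h, act_val]; abel
        · intro h
          refine Subtype.ext ?_
          rw [act_val, h]; abel
      by_cases h1 : HT (ht u) L = H <;>
        by_cases h2 : law (fY ν u H) (endp 0 (cat L).2) < 2 * θY <;>
        by_cases h3 : endp 0 (cat L).2 = w'.1 - w.1 - endp 0 (cat L).1 <;>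
        simp [h1, h2, h3, e]
  · intro w hw1 hw2
    have hw1' : ΦX w.1 ≤ 3 * (C * lam) := not_lt.1 hw1
    have hw2' : ΦY w.1 ≤ 3 * (C * lam) := not_lt.1 hw2
    have e1 : Comp818.WLp (Lam ν u) (ht u) (dl u) (cd u) H s w
        = ∑' π, ∑' γ, fX ν u H π * fY ν u H γ * (if Cm u w.1 π γ ≠ ∅ ∧
          (∀ k ∈ Cm u w.1 π γ, s < k ∧ k + s ≤ H) then 1 else 0) := by
      rw [← tL ν u H (fun x => if Cm u w.1 x.1 x.2 ≠ ∅ ∧
          (∀ k ∈ Cm u w.1 x.1 x.2, s < k ∧ k + s ≤ H) then 1 else 0)]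
      unfold Comp818.WLp
      refine tsum_congr fun L => ?_
      rw [CD_cat, ← cds_eq]
      change (if HT (ht u) L = H ∧ cds u (cat L) w.1 ≠ ∅ ∧
        (∀ k ∈ cds u (cat L) w.1, s < k ∧ k + s ≤ H) then LW (Lam ν u) L else 0) =
        (if HT (ht u) L = H then LW (Lam ν u) L * (if cds u (cat L) w.1 ≠ ∅ ∧
        (∀ k ∈ cds u (cat L) w.1, s < k ∧ k + s ≤ H) then 1 else 0) else 0)
      by_cases h1 : HT (ht u) L = H
      · by_cases h2 : cds u (cat L) w.1 ≠ ∅ ∧ (∀ k ∈ cds u (cat L) w.1, s < k ∧ k + s ≤ H)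
        · rw [if_pos ⟨h1, h2⟩, if_pos h1, if_pos h2, mul_one]
        · rw [if_neg (fun h => h2 h.2), if_pos h1, if_neg h2, mul_zero]
      · rw [if_neg (fun h => h1 h.1), if_neg h1]
    rw [e1]
    set nX : List (Step d) → ℝ≥0∞ := fun π => if law (fX ν u H) (endp 0 π) < θX then 1 else 0
      with hnX
    set nY : List (Step d) → ℝ≥0∞ := fun γ => if law (fY ν u H) (endp 0 γ) < θY then 1 else 0
      with hnY
    have e2 : ∀ π γ, fX ν u H π * fY ν u H γ * (if Cm u w.1 π γ ≠ ∅ ∧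
          (∀ k ∈ Cm u w.1 π γ, s < k ∧ k + s ≤ H) then 1 else 0)
        ≤ (if IsUp u H π ∧ endp 0 π ∈ EX ∧ IsDn u H γ ∧
        (∃ k, k ∈ Cm u w.1 π γ) ∧ (∀ k ∈ Cm u w.1 π γ, s < k) then NB28.aw ν π * NB28.aw ν γ else 0)
        + (if IsUp u H π ∧ IsDn u H γ ∧ endp 0 γ ∈ EY ∧
        (∃ k, k ∈ Cm u w.1 π γ) ∧ (∀ k ∈ Cm u w.1 π γ, k + s ≤ H) then NB28.aw ν π * NB28.aw ν γ
        else 0) + (fX ν u H π * nX π) * (fY ν u H γ * nY γ) := by
      intro π γ
      by_cases hu : IsUp u H π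
      swap
      · simp [fX, hu]
      by_cases hdn : IsDn u H γ
      swap
      · simp [fY, hdn]
      have efX : fX ν u H π = NB28.aw ν π := if_pos hu
      have efY : fY ν u H γ = NB28.aw ν γ := if_pos hdn
      by_cases hc : Cm u w.1 π γ ≠ ∅ ∧ (∀ k ∈ Cm u w.1 π γ, s < k ∧ k + s ≤ H)
      swap
      · rw [if_neg hc, mul_zero]; exact zero_le
      rw [if_pos hc, mul_one]
      have hne : ∃ k, k ∈ Cm u w.1 π γ := Set.nonempty_iff_ne_empty.2 hc.1
      by_cases hx : endp 0 π ∈ EX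
      · rw [if_pos ⟨hu, hx, hdn, hne, fun k hk => (hc.2 k hk).1⟩, efX, efY]
        exact le_add_right (le_add_right le_rfl)
      by_cases hy : endp 0 γ ∈ EY
      · rw [if_pos (⟨hu, hdn, hy, hne, fun k hk => (hc.2 k hk).2⟩ : IsUp u H π ∧ IsDn u H γ ∧
          endp 0 γ ∈ EY ∧ (∃ k, k ∈ Cm u w.1 π γ) ∧ (∀ k ∈ Cm u w.1 π γ, k + s ≤ H)), efX, efY]
        exact le_add_right (le_add_left le_rfl)
      have hx' : law (fX ν u H) (endp 0 π) < θX := by
        by_contra h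
        exact hx (hfX.mem_toFinset.2 (not_lt.1 h))
      have hy' : law (fY ν u H) (endp 0 γ) < θY := by
        by_contra h
        exact hy (hfY.mem_toFinset.2 (not_lt.1 h))
      refine le_add_left ?_
      simp only [hnX, hnY, if_pos hx', if_pos hy', mul_one]
      exact le_rfl
    calc _ ≤ ∑' π, ∑' γ, _ := ENNReal.tsum_le_tsum fun π => ENNReal.tsum_le_tsum fun γ => e2 π γ
      _ = ΦX w.1 + ΦY w.1 + (∑' π, fX ν u H π * nX π) * ∑' γ, fY ν u H γ * nY γ := by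
        rw [hΦX, hΦY, ← ENNReal.tsum_mul_right, ← ENNReal.tsum_add, ← ENNReal.tsum_add]
        refine tsum_congr fun π => ?_
        rw [← ENNReal.tsum_mul_left, ← ENNReal.tsum_add, ← ENNReal.tsum_add]
      _ ≤ 3 * (C * lam) + 3 * (C * lam) + v * v := by
        refine add_le_add (add_le_add hw1' hw2') (mul_le_mul' ?_ ?_)
        · rw [hnX, ← law_sum (fX ν u H) (fun z => if law (fX ν u H) z < θX then 1 else 0)]
          refine le_trans (le_of_eq ?_) hX2
          refine tsum_congr fun z => ?_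
          split_ifs <;> simp
        · rw [hnY, ← law_sum (fY ν u H) (fun z => if law (fY ν u H) z < θY then 1 else 0)]
          refine le_trans (le_of_eq ?_) hY2
          refine tsum_congr fun z => ?_
          split_ifs <;> simp
      _ = _ := by ring

end inst

/-! ### numbers -/

lemma nums (c ε : ℝ≥0∞) (hc0 : c ≠ 0) (hc1 : c ≤ 1) (hε : ε ≠ 0) :
    ∃ (J : ℕ) (v : ℝ≥0∞), 1 ≤ J ∧ v ≠ 0 ∧ v ≤ c ∧ ((16 * J : ℕ) : ℝ≥0∞) * (v * v) ≤ ε ∧
      ((16 * J : ℕ) : ℝ≥0∞) * (1 - v * c) ^ J ≤ ε := by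
  have hct : c ≠ ⊤ := ne_top_of_le_ne_top ENNReal.one_ne_top hc1
  set x := c.toReal with hx
  have hx0 : 0 < x := ENNReal.toReal_pos hc0 hct
  have hcx : c = ENNReal.ofReal x := (ENNReal.ofReal_toReal hct).symm
  have hx1 : x ≤ 1 := by
    have := ENNReal.toReal_mono ENNReal.one_ne_top hc1
    simpa using this
  have hmt : min ε 1 ≠ ⊤ := ne_top_of_le_ne_top ENNReal.one_ne_top (min_le_right _ _)
  have hm0 : min ε 1 ≠ 0 := by
    intro h
    rcases min_choice ε 1 with h' | h'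
    · exact hε (h' ▸ h)
    · rw [h'] at h; exact one_ne_zero h
  set y := (min ε 1).toReal with hy
  have hy0 : 0 < y := ENNReal.toReal_pos hm0 hmt
  have hyε : ENNReal.ofReal y ≤ ε := by
    rw [hy, ENNReal.ofReal_toReal hmt]; exact min_le_left _ _
  obtain ⟨r, hr⟩ := exists_nat_gt (max (16 / y) (1920 / (x ^ 10 * y)))
  have hr1 : 16 / y < r := lt_of_le_of_lt (le_max_left _ _) hr
  have hr2 : 1920 / (x ^ 10 * y) < r := lt_of_le_of_lt (le_max_right _ _) hr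
  have hr0 : (0 : ℝ) < r := lt_trans (by positivity) hr1
  have hr0' : 0 < r := by exact_mod_cast hr0
  have hr1' : (1 : ℝ) ≤ r := by exact_mod_cast hr0'
  rw [div_lt_iff₀ hy0] at hr1
  rw [div_lt_iff₀ (by positivity)] at hr2
  have hv0 : 0 < x / (r : ℝ) ^ 3 := by positivity
  have hvx : x / (r : ℝ) ^ 3 ≤ x := div_le_self hx0.le (one_le_pow₀ hr1')
  have hq1 : x / (r : ℝ) ^ 3 * x ≤ 1 := by
    calc x / (r : ℝ) ^ 3 * x ≤ 1 * 1 := mul_le_mul (hvx.trans hx1) hx1 hx0.le zero_le_one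
      _ = 1 := one_mul 1
  refine ⟨r ^ 4, ENNReal.ofReal (x / r ^ 3), Nat.one_le_pow _ _ hr0', ?_, ?_, ?_, ?_⟩
  · exact (ENNReal.ofReal_pos.2 hv0).ne'
  · rw [hcx]; exact ENNReal.ofReal_le_ofReal hvx
  · refine le_trans ?_ hyε
    have e : ((16 * r ^ 4 : ℕ) : ℝ≥0∞) = ENNReal.ofReal ((16 * r ^ 4 : ℕ) : ℝ) := by
      rw [ENNReal.ofReal_natCast]
    rw [e, ← ENNReal.ofReal_mul hv0.le, ← ENNReal.ofReal_mul (by positivity)]
    refine ENNReal.ofReal_le_ofReal ?_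
    push_cast
    have h1 : 16 * (r : ℝ) ^ 4 * (x / r ^ 3 * (x / r ^ 3)) = 16 * x ^ 2 / r ^ 2 := by
      field_simp
    rw [h1, div_le_iff₀ (by positivity)]
    have h2 : x ^ 2 ≤ 1 := pow_le_one₀ hx0.le hx1
    have h3 : (r : ℝ) ≤ r ^ 2 := by nlinarith
    nlinarith [mul_le_mul_of_nonneg_left h3 hy0.le]
  · refine le_trans ?_ hyε
    have e : ((16 * r ^ 4 : ℕ) : ℝ≥0∞) = ENNReal.ofReal ((16 * r ^ 4 : ℕ) : ℝ) := by
      rw [ENNReal.ofReal_natCast]
    have e2 : (1 : ℝ≥0∞) - ENNReal.ofReal (x / r ^ 3) * c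
        = ENNReal.ofReal (1 - x / r ^ 3 * x) := by
      rw [ENNReal.ofReal_sub _ (by positivity), ENNReal.ofReal_one, ENNReal.ofReal_mul hv0.le, ← hcx]
    have hq0 : 0 ≤ 1 - x / (r : ℝ) ^ 3 * x := by linarith
    rw [e, e2, ← ENNReal.ofReal_pow hq0, ← ENNReal.ofReal_mul (by positivity)]
    refine ENNReal.ofReal_le_ofReal ?_
    push_cast
    set X : ℝ := x ^ 2 * r with hX
    have hX0 : 0 < X := by positivity
    have h1 : (1 - x / (r : ℝ) ^ 3 * x) ^ (r ^ 4) ≤ Real.exp (-X) := by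
      calc (1 - x / (r : ℝ) ^ 3 * x) ^ (r ^ 4) ≤ (Real.exp (-(x / (r : ℝ) ^ 3 * x))) ^ (r ^ 4) :=
            pow_le_pow_left₀ hq0 (Real.one_sub_le_exp_neg _) _
        _ = Real.exp (-X) := by
            rw [← Real.exp_nat_mul]
            congr 1
            push_cast
            rw [hX]
            field_simp
    have h2 := Real.pow_div_factorial_le_exp X hX0.le 5
    have h3 : (Nat.factorial 5 : ℝ) = 120 := by norm_num [Nat.factorial]
    rw [h3] at h2
    have h4 : 16 * (r : ℝ) ^ 4 ≤ y * Real.exp X := by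
      calc 16 * (r : ℝ) ^ 4 ≤ y * (X ^ 5 / 120) := by
            rw [hX]
            have : y * ((x ^ 2 * r) ^ 5 / 120) = (r : ℝ) ^ 4 * ((r * (x ^ 10 * y)) / 120) := by ring
            rw [this]
            have h5 : 16 ≤ (r * (x ^ 10 * y)) / 120 := by
              rw [le_div_iff₀ (by norm_num)]; linarith
            nlinarith [pow_pos hr0 4]
        _ ≤ _ := mul_le_mul_of_nonneg_left h2 hy0.le
    calc 16 * (r : ℝ) ^ 4 * (1 - x / r ^ 3 * x) ^ (r ^ 4)
        ≤ (y * Real.exp X) * Real.exp (-X) :=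
          mul_le_mul h4 h1 (pow_nonneg hq0 _) (by positivity)
      _ = y := by rw [mul_assoc, ← Real.exp_add, add_neg_cancel, Real.exp_zero, mul_one]

lemma fp_of_att {B : Type*} (ht : B → ℕ) (L : List B) : ∀ T, Comp818.att ht T L → fp ht T L := by
  induction L with
  | nil =>
    intro T h
    rw [fp_nil]
    have := h.1
    simpa [HT_nil] using this
  | cons b L ih =>
    intro T h
    rw [fp_cons]
    have h0 := h.2 0 (by simp)
    rw [List.take_zero, HT_nil] at h0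
    refine ⟨h0, ih _ ⟨?_, fun i hi => ?_⟩⟩
    · have := h.1
      rw [HT_cons] at this
      omega
    · have := h.2 (i + 1) (by simpa using hi)
      rw [List.take_succ_cons, HT_cons] at this
      omega

/-! ### the window estimate -/

open Classical in
/-- **818's `hWin`** for 657's instance. -/
theorem hWin (ν : Measure (Row d)) [IsProbabilityMeasure ν] (u : Step d)
    (c : ℝ≥0∞) (hc : c ≠ 0) (hcX : ∀ n, c ≤ ∑' π, fX ν u n π) (hcY : ∀ n, c ≤ ∑' γ, fY ν u n γ)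
    (hX1 : ∀ n, ∑' π, fX ν u n π ≤ 1) (hY1 : ∀ n, ∑' γ, fY ν u n γ ≤ 1)
    (C : ℝ≥0∞) (hC' : C ≠ ⊤) (us : ℕ → ℝ≥0∞) (hus : Filter.Tendsto us Filter.atTop (nhds 0))
    (E2 : ∀ (s H : ℕ) (E : Finset (Site d)) (μ : Site d → ℝ≥0∞) (M lam : ℝ≥0∞),
      ∑' x, μ x ≤ 1 → (∀ x, μ x ≤ M) → lam ≠ 0 → lam ≠ ⊤ →
      ∑' x, (if lev u x = 0 then μ x * ∑' π, ∑' γ, (if IsUp u H π ∧ endp 0 π ∈ E ∧ IsDn u H γ ∧
        (∃ k, k ∈ Cm u x π γ) ∧ (∀ k ∈ Cm u x π γ, s < k) then NB28.aw ν π * NB28.aw ν γ else 0)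
        else 0) ≤ C * (lam + M * E.card * us s / lam + us s))
    (E3 : ∀ (s H : ℕ) (E : Finset (Site d)) (μ : Site d → ℝ≥0∞) (M lam : ℝ≥0∞),
      ∑' x, μ x ≤ 1 → (∀ x, μ x ≤ M) → lam ≠ 0 → lam ≠ ⊤ →
      ∑' x, (if lev u x = 0 then μ x * ∑' π, ∑' γ, (if IsUp u H π ∧ IsDn u H γ ∧ endp 0 γ ∈ E ∧
        (∃ k, k ∈ Cm u x π γ) ∧ (∀ k ∈ Cm u x π γ, k + s ≤ H) then NB28.aw ν π * NB28.aw ν γ else 0)
        else 0) ≤ C * (lam + M * E.card * us s / lam + us s)) :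
    ∀ ε : ℝ≥0∞, ε ≠ 0 → ∃ K : ℕ, 1 ≤ K ∧ ∀ i0 : ℕ, ∃ s H0 : ℕ, ∀ H, H0 ≤ H →
      ∀ a, K * H ≤ 8 * a → ∀ w : Lat u, ∑' L1 : List (PB u),
        (if Comp818.att (ht u) a L1 ∧ HT (ht u) L1 ≤ a + i0 then
        LW (Lam ν u) L1 * Comp818.WLp (Lam ν u) (ht u) (dl u) (cd u) H s (act (dl u) L1 w) else 0)
        ≤ ε / K := by
  intro ε hε
  set Λ := Lam ν u with hΛd
  have hc1 : c ≤ 1 := (hcX 0).trans (hX1 0)
  have hct : c ≠ ⊤ := ne_top_of_le_ne_top ENNReal.one_ne_top hc1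
  have h1 : ∀ b : PB u, 1 ≤ ht u b := one_le_hb
  have hUeq : ∀ n, U Λ (ht u) n = (∑' π, fX ν u n π) * ∑' γ, fY ν u n γ := fun n => U_eq28 ν u n
  have hU : ∀ n, 0 ≤ n → c * c ≤ U Λ (ht u) n := fun n _ => by
    rw [hUeq]; exact mul_le_mul' (hcX n) (hcY n)
  have hU1 : ∀ n, U Λ (ht u) n ≤ 1 := fun n => by
    rw [hUeq]
    calc _ ≤ (1 : ℝ≥0∞) * 1 := mul_le_mul' (hX1 n) (hY1 n)
      _ = 1 := one_mul 1
  have hcc : c * c ≠ 0 := mul_ne_zero hc hc
  have hcct : c * c ≠ ⊤ := ENNReal.mul_ne_top hct hct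
  have hΛ : ∑' b, Λ b = 1 :=
    le_antisymm (mass_le_one Λ (ht u) h1 hU1) (mass_ge_one Λ (ht u) (c * c) hcc 0 hU)
  have htail : ∑' k, tail Λ (ht u) k ≠ ⊤ := by
    rw [← sum_tail Λ (ht u) hΛ]
    exact ne_top_of_le_ne_top (ENNReal.inv_ne_top.2 hcc)
      (mean_le Λ (ht u) h1 hΛ (c * c) hcc hcct 0 hU)
  -- constants
  set C1 := C + 1 with hC1
  have hC10 : C1 ≠ 0 := by simp [hC1]
  have hC1t : C1 ≠ ⊤ := ENNReal.add_ne_top.2 ⟨hC', ENNReal.one_ne_top⟩
  set ε' := min ε 1 with hε'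
  have hε'0 : ε' ≠ 0 := by
    intro h
    rcases min_choice ε 1 with h' | h'
    · exact hε (h'.symm.trans h)
    · exact one_ne_zero (h'.symm.trans h)
  have hε't : ε' ≠ ⊤ := ne_top_of_le_ne_top ENNReal.one_ne_top (min_le_right _ _)
  set e := ε' / 16 with he
  have he0 : e ≠ 0 := (ENNReal.div_pos hε'0 (by norm_num)).ne'
  have he16 : 16 * e = ε' := ENNReal.mul_div_cancel (by norm_num) (by norm_num)
  obtain ⟨J, v, hJ1, hv0, hvc, hn1, hn2⟩ := nums c e hc hc1 he0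
  have hKpos : 1 ≤ 16 * J := by omega
  have hK0 : ((16 * J : ℕ) : ℝ≥0∞) ≠ 0 := by exact_mod_cast (by omega : 16 * J ≠ 0)
  have hKt : ((16 * J : ℕ) : ℝ≥0∞) ≠ ⊤ := ENNReal.natCast_ne_top _
  set Kc : ℝ≥0∞ := ((16 * J : ℕ) : ℝ≥0∞) with hKc
  have hD0 : Kc * (6 * C1) ≠ ⊤ := ENNReal.mul_ne_top hKt (ENNReal.mul_ne_top (by norm_num) hC1t)
  have hD1 : Kc * (6 * C1) ≠ 0 := mul_ne_zero hK0 (mul_ne_zero (by norm_num) hC10)
  set lam := e / (Kc * (6 * C1)) with hlam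
  have hl0 : lam ≠ 0 := (ENNReal.div_pos he0 hD0).ne'
  have hlt : lam ≠ ⊤ := (ENNReal.div_lt_top
    (ne_top_of_le_ne_top hε't (by rw [← he16]; exact le_mul_of_one_le_left' (by norm_num))) hD1).ne
  have hn3 : Kc * (6 * (C1 * lam)) ≤ e := by
    calc Kc * (6 * (C1 * lam)) = (Kc * (6 * C1)) * lam := by ring
      _ ≤ e := ENNReal.mul_div_le
  set A := Kc * (J * (2 * (lam⁻¹ * lam⁻¹))) with hA
  have hAt : A ≠ ⊤ := ENNReal.mul_ne_top hKt (ENNReal.mul_ne_top (ENNReal.natCast_ne_top _)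
    (ENNReal.mul_ne_top (by norm_num) (ENNReal.mul_ne_top (ENNReal.inv_ne_top.2 hl0)
      (ENNReal.inv_ne_top.2 hl0))))
  refine ⟨16 * J, hKpos, fun i0 => ?_⟩
  have hpos1 : 0 < min lam (e / A) := lt_min (pos_iff_ne_zero.2 hl0) (ENNReal.div_pos he0 hAt)
  obtain ⟨s, hs⟩ := (hus.eventually (gt_mem_nhds hpos1)).exists
  have hs1 : us s ≤ lam := (hs.trans_le (min_le_left _ _)).le
  have hs2 : us s ≤ e / A := (hs.trans_le (min_le_right _ _)).le
  have hn4 : Kc * (J * (2 * (us s / lam / lam))) ≤ e := by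
    calc Kc * (J * (2 * (us s / lam / lam))) = A * us s := by
          rw [hA]; simp only [div_eq_mul_inv]; ring
      _ ≤ A * (e / A) := mul_le_mul_right hs2 _
      _ ≤ e := ENNReal.mul_div_le
  have hBt : Kc * (J : ℝ≥0∞) ≠ ⊤ := ENNReal.mul_ne_top hKt (ENNReal.natCast_ne_top _)
  obtain ⟨H0, hH0⟩ := Filter.eventually_atTop.1
    ((ENNReal.tendsto_sum_nat_add (fun k => tail Λ (ht u) k) htail).eventually
      (gt_mem_nhds (ENNReal.div_pos he0 hBt)))
  refine ⟨s, H0, fun H hH a ha w => ?_⟩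
  have hn5 : Kc * (J * ∑' k, tail Λ (ht u) (H + k)) ≤ e := by
    have h5 := (hH0 H hH).le
    calc Kc * (J * ∑' k, tail Λ (ht u) (H + k)) = (Kc * J) * ∑' k, tail Λ (ht u) (k + H) := by
          rw [mul_assoc]; simp only [add_comm H]
      _ ≤ (Kc * J) * (e / (Kc * J)) := mul_le_mul_right h5 _
      _ ≤ e := ENNReal.mul_div_le
  have hmonoC : ∀ x : ℝ≥0∞, C * x ≤ C1 * x := fun x => mul_le_mul_left le_self_add _
  obtain ⟨S1, S2, hG1, hG2, hP⟩ := piece ν u c hcX hcY hX1 hY1 C1 hC10 hC1t us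
    (fun s H E μ M lam h1 h2 h3 h4 => (E2 s H E μ M lam h1 h2 h3 h4).trans (hmonoC _))
    (fun s H E μ M lam h1 h2 h3 h4 => (E3 s H E μ M lam h1 h2 h3 h4).trans (hmonoC _))
    s H v lam hv0 hvc hl0 hlt hs1
  have hJa : J * (2 * H) ≤ a := by
    have e1 : J * (2 * H) = 2 * (J * H) := by ring
    have e2 : 16 * J * H = 16 * (J * H) := by ring
    rw [e2] at ha
    rw [e1]
    omega
  have hh1 := hit_le Λ (ht u) (dl u) h1 hΛ hU1 (hinj u) _ _ H S1 hG1 J a hJa w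
  have hh2 := hit_le Λ (ht u) (dl u) h1 hΛ hU1 (hinj u) _ _ H S2 hG2 J a hJa w
  set b := v * v + 6 * (C1 * lam) with hb
  set η := 2 * (us s / lam / lam) with hη
  set T := ∑' k, tail Λ (ht u) (H + k) with hT
  have hW1 : ∀ w', Comp818.WLp Λ (ht u) (dl u) (cd u) H s w' ≤ 1 := by
    intro w'
    refine le_trans ?_ (hU1 H)
    unfold Comp818.WLp U
    refine ENNReal.tsum_le_tsum fun L => ?_
    by_cases hL : HT (ht u) L = H
    · rw [if_pos hL]; split_ifs <;> simp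
    · rw [if_neg (fun h => hL h.1), if_neg hL]
  have hWb : ∀ w', Comp818.WLp Λ (ht u) (dl u) (cd u) H s w'
      ≤ S1.indicator (fun _ => (1 : ℝ≥0∞)) w' + S2.indicator (fun _ => (1 : ℝ≥0∞)) w' + b := by
    intro w'
    by_cases hx : w' ∈ S1
    · rw [Set.indicator_of_mem hx]
      exact (hW1 w').trans (le_add_right le_self_add)
    by_cases hy : w' ∈ S2
    · rw [Set.indicator_of_mem hy]
      exact (hW1 w').trans (le_add_right le_add_self)
    · exact (hP w' hx hy).trans le_add_self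
  have hsum : ∑' L1 : List (PB u),
        (if Comp818.att (ht u) a L1 ∧ HT (ht u) L1 ≤ a + i0 then
        LW Λ L1 * Comp818.WLp Λ (ht u) (dl u) (cd u) H s (act (dl u) L1 w) else 0)
      ≤ hitS Λ (ht u) (dl u) a S1 w + hitS Λ (ht u) (dl u) a S2 w + b := by
    calc _ ≤ ∑' L1 : List (PB u), ((if fp (ht u) a L1 then LW Λ L1 *
            S1.indicator (fun _ => (1 : ℝ≥0∞)) (act (dl u) L1 w) else 0)
          + (if fp (ht u) a L1 then LW Λ L1 *
            S2.indicator (fun _ => (1 : ℝ≥0∞)) (act (dl u) L1 w) else 0)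
          + (if fp (ht u) a L1 then LW Λ L1 else 0) * b) := by
          refine ENNReal.tsum_le_tsum fun L1 => ?_
          by_cases hL : Comp818.att (ht u) a L1 ∧ HT (ht u) L1 ≤ a + i0
          · have hf := fp_of_att (ht u) L1 a hL.1
            rw [if_pos hL, if_pos hf, if_pos hf, if_pos hf, ← mul_add, ← mul_add]
            exact mul_le_mul_right (hWb _) _
          · rw [if_neg hL]; exact zero_le
      _ = hitS Λ (ht u) (dl u) a S1 w + hitS Λ (ht u) (dl u) a S2 w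
          + (∑' L1 : List (PB u), (if fp (ht u) a L1 then LW Λ L1 else 0)) * b := by
          rw [ENNReal.tsum_add, ENNReal.tsum_add, ENNReal.tsum_mul_right]
          rfl
      _ ≤ hitS Λ (ht u) (dl u) a S1 w + hitS Λ (ht u) (dl u) a S2 w + 1 * b := by
          gcongr
          exact sum_FP Λ (ht u) h1 hΛ.le a
      _ = _ := by rw [one_mul]
  have hfin : ∑' L1 : List (PB u),
        (if Comp818.att (ht u) a L1 ∧ HT (ht u) L1 ≤ a + i0 then
        LW Λ L1 * Comp818.WLp Λ (ht u) (dl u) (cd u) H s (act (dl u) L1 w) else 0)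
      ≤ ε' / Kc := by
    refine hsum.trans ?_
    rw [ENNReal.le_div_iff_mul_le (Or.inl hK0) (Or.inl hKt)]
    calc (hitS Λ (ht u) (dl u) a S1 w + hitS Λ (ht u) (dl u) a S2 w + b) * Kc
        ≤ (((1 - v * c) ^ J + J * (η + T)) + ((1 - v * c) ^ J + J * (η + T)) + b) * Kc := by
          gcongr
      _ = 2 * (Kc * (1 - v * c) ^ J) + 2 * (Kc * (J * η)) + 2 * (Kc * (J * T))
          + Kc * (v * v) + Kc * (6 * (C1 * lam)) := by rw [hb]; ring
      _ ≤ 2 * e + 2 * e + 2 * e + e + e := by gcongr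
      _ = 8 * e := by ring
      _ ≤ 16 * e := by gcongr; norm_num
      _ = ε' := he16
  refine hfin.trans ?_
  exact ENNReal.div_le_div_right (min_le_left _ _) _

end Crest.Agent.R154.HW308
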