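import Crest.Agent.R154.WindowK_299

/-!
# (P): steep intervals are exponentially unlikely, from one tile system

`windowK` in slope form: unit `N`, shadow `k0` units, interval `n` units, slope `X` per unit.
-/

set_option autoImplicit false
set_option linter.deprecated false
set_option linter.unusedVariables false

open MeasureTheory ENNReal Crest.Agent.R154.RatioR872 Crest.Agent.R154.Window299
  Crest.Agent.R154.WindowK299

namespace Crest.Agent.R154.Steep299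

variable {S : Type*} {Ω : Type*} {m0 : MeasurableSpace Ω} {P : Measure Ω}
variable [Countable S] {A : KerSys S P}

/-- **(P), general shadow**: `k0` units of shadow above the level `H0`, `n` units of interval. -/
theorem steep_gen {N : ℕ} {m1 m ρ : ℝ} (hm : 0 ≤ m) (hρ : Real.log 4 ≤ ρ)
    (hTS : TileSys A N (ENNReal.ofReal (Real.exp (-m1))) (ENNReal.ofReal (Real.exp (-m)))
      (ENNReal.ofReal (Real.exp (-ρ)))) {μ : S → ℝ≥0∞} (hμ : A.Start μ)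
    (H0 k0 n : ℕ) (hn : 1 ≤ n) {X Λ : ℝ}
    (hX : m1 + m * ((k0 : ℝ) + n) + Real.log (2 * ((k0 : ℝ) + 1)) ≤ X * n)
    (hΛ : Λ * (X * n) + Real.log 4 ≤ (ρ - Real.log 2) * ((k0 : ℝ) + 1))
    {B : Set Ω} (hB : MeasurableSet[A.F H0] B) :
    P (B ∩ {ω | A.Sh μ (H0 + k0 * N) ω ≠ 0 ∧ A.Sh μ (H0 + (k0 + n) * N) ω ≤
      ENNReal.ofReal (Real.exp (-(X * n))) * A.Sh μ (H0 + k0 * N) ω}) ≤
      ENNReal.ofReal (Real.exp (-(Λ * (X * n)))) * P B := by
  have hmain := windowK (A := A) hTS (by simp [Real.exp_pos]) ENNReal.ofReal_ne_top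
    (by simp [Real.exp_pos]) (by
      rw [ENNReal.ofReal_le_one]; exact Real.exp_le_one_iff.2 (by linarith))
    (by
      calc 4 * ENNReal.ofReal (Real.exp (-ρ))
          ≤ 4 * ENNReal.ofReal (1 / 4) := by
            gcongr
            calc Real.exp (-ρ) ≤ Real.exp (-Real.log 4) := Real.exp_le_exp.2 (by linarith)
              _ = 1 / 4 := by rw [Real.exp_neg, Real.exp_log (by norm_num)]; norm_num
        _ = 1 := by
            rw [show (4 : ℝ≥0∞) = ENNReal.ofReal 4 by simp, ← ENNReal.ofReal_mul (by norm_num)]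
            norm_num) hμ H0 k0 (k0 + n) (by omega) hB
  refine le_trans (measure_mono (Set.inter_subset_inter_right B ?_)) (hmain.trans ?_)
  · rintro ω ⟨h1, h2⟩
    refine ⟨h1, h2.trans (mul_le_mul' ?_ le_rfl)⟩
    have hcK : ENNReal.ofReal (Real.exp (-m)) ^ (k0 + n) =
        ENNReal.ofReal (Real.exp (-(m * ((k0 : ℝ) + n)))) := by
      rw [← ENNReal.ofReal_pow (Real.exp_pos _).le, ← Real.exp_nat_mul]
      congr 2; push_cast; ring
    have h5 : (2 * ((k0 : ℝ≥0∞) + 1))⁻¹ =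
        ENNReal.ofReal (Real.exp (-Real.log (2 * ((k0 : ℝ) + 1)))) := by
      rw [Real.exp_neg, Real.exp_log (by positivity), ENNReal.ofReal_inv_of_pos (by positivity)]
      congr 1
      rw [ENNReal.ofReal_mul (by norm_num), ENNReal.ofReal_add (by positivity) (by norm_num)]
      simp
    rw [hcK, h5, ← ENNReal.ofReal_mul (Real.exp_pos _).le,
      ← ENNReal.ofReal_mul (by positivity), ← Real.exp_add, ← Real.exp_add]
    exact ENNReal.ofReal_le_ofReal (Real.exp_le_exp.2 (by linarith))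
  · gcongr
    have h2 : (2 : ℝ≥0∞) * ENNReal.ofReal (Real.exp (-ρ)) =
        ENNReal.ofReal (Real.exp (-(ρ - Real.log 2))) := by
      rw [show (2 : ℝ≥0∞) = ENNReal.ofReal 2 by simp, ← ENNReal.ofReal_mul (by norm_num)]
      congr 1
      rw [show -(ρ - Real.log 2) = Real.log 2 + -ρ by ring, Real.exp_add,
        Real.exp_log (by norm_num)]
    have h4 : (4 : ℝ≥0∞) = ENNReal.ofReal (Real.exp (Real.log 4)) := by
      rw [Real.exp_log (by norm_num)]; simp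
    rw [h2, h4, ← ENNReal.ofReal_pow (Real.exp_pos _).le, ← Real.exp_nat_mul,
      ← ENNReal.ofReal_mul (Real.exp_pos _).le, ← Real.exp_add]
    refine ENNReal.ofReal_le_ofReal (Real.exp_le_exp.2 ?_)
    push_cast
    have : ((k0 : ℝ) + 1) * -(ρ - Real.log 2) = -((ρ - Real.log 2) * ((k0 : ℝ) + 1)) := by ring
    rw [this]
    linarith

theorem log_two_lt_one : Real.log 2 < 1 := by
  have := Real.log_two_lt_d9; linarith

theorem log_four_lt_two : Real.log 4 < 2 := by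
  have h : Real.log 4 = 2 * Real.log 2 := by
    rw [show (4 : ℝ) = 2 ^ 2 by norm_num, Real.log_pow]; norm_num
  rw [h]; have := log_two_lt_one; linarith

/-- `log (2 (n + 1)) ≤ n + 1`. -/
theorem log_le_nat (n : ℕ) : Real.log (2 * ((n : ℝ) + 1)) ≤ (n : ℝ) + 1 := by
  rw [Real.log_mul (by norm_num) (by positivity)]
  have h1 := Real.log_le_sub_one_of_pos (show (0 : ℝ) < (n : ℝ) + 1 by positivity)
  have := log_two_lt_one
  linarith

/-- **(P), symmetric form**: interval `[e - n, e]`, shadow `[e - 2n, e - n]`, unit `N`, slope `X`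
per unit with `4 m + 3 ≤ X` say: `P(B, steep) ≤ e^{-Λ n X} P B` once `m1 ≤ n`, `ρ ≥ Λ X + 3`. -/
theorem steep_sym {N : ℕ} {m1 m ρ X Λ : ℝ} (hm : 0 ≤ m) (hΛ0 : 0 ≤ Λ) (hX : 2 * m + 3 ≤ X)
    (hρ : Λ * X + 3 ≤ ρ)
    (hTS : TileSys A N (ENNReal.ofReal (Real.exp (-m1))) (ENNReal.ofReal (Real.exp (-m)))
      (ENNReal.ofReal (Real.exp (-ρ)))) {μ : S → ℝ≥0∞} (hμ : A.Start μ)
    (H0 : ℕ) {e n : ℕ} (hn : 1 ≤ n) (hm1 : m1 ≤ n) (hne : 2 * n ≤ e)
    {B : Set Ω} (hB : MeasurableSet[A.F (H0 + (e - 2 * n) * N)] B) :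
    P (B ∩ {ω | A.Sh μ (H0 + (e - n) * N) ω ≠ 0 ∧ A.Sh μ (H0 + e * N) ω ≤
      ENNReal.ofReal (Real.exp (-(n * X))) * A.Sh μ (H0 + (e - n) * N) ω}) ≤
      ENNReal.ofReal (Real.exp (-(Λ * (n * X)))) * P B := by
  have hn1 : (1 : ℝ) ≤ n := by exact_mod_cast hn
  have h4 := log_four_lt_two
  have h2 := log_two_lt_one
  have hΛX : 0 ≤ Λ * X := mul_nonneg hΛ0 (by linarith)
  have key := steep_gen (A := A) hm (by linarith) hTS hμ (H0 + (e - 2 * n) * N) n n hn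
    (X := X) (Λ := Λ) (by
      have h1 := log_le_nat n
      nlinarith) (by
      have e1 : (ρ - Real.log 2) * ((n : ℝ) + 1) = (ρ - Real.log 2) * n + (ρ - Real.log 2) := by
        ring
      have e2 : (Λ * X + 2) * n ≤ (ρ - Real.log 2) * n :=
        mul_le_mul_of_nonneg_right (by linarith) (by linarith)
      rw [e1]
      nlinarith) hB
  have e1 : H0 + (e - 2 * n) * N + n * N = H0 + (e - n) * N := by
    rw [add_assoc, ← add_mul]; congr 2; omega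
  have e2 : H0 + (e - 2 * n) * N + (n + n) * N = H0 + e * N := by
    rw [add_assoc, ← add_mul]; congr 2; omega
  rw [e1, e2, mul_comm X (n : ℝ)] at key
  exact key

/-- **(P), shadow `k` units with `n ≤ D (k + 1)`, `k ≤ n`**: `ρ ≥ D (Λ X) + 3` is enough. -/
theorem steep_frac {N : ℕ} {m1 m ρ X Λ D : ℝ} (hm : 0 ≤ m) (hΛ0 : 0 ≤ Λ) (hX : 2 * m + 3 ≤ X)
    (hD : 1 ≤ D) (hρ : D * (Λ * X) + 3 ≤ ρ)
    (hTS : TileSys A N (ENNReal.ofReal (Real.exp (-m1))) (ENNReal.ofReal (Real.exp (-m)))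
      (ENNReal.ofReal (Real.exp (-ρ)))) {μ : S → ℝ≥0∞} (hμ : A.Start μ)
    (H0 k n : ℕ) (hn : 1 ≤ n) (hm1 : m1 ≤ n) (hkn : k ≤ n) (hnk : (n : ℝ) ≤ D * ((k : ℝ) + 1))
    {B : Set Ω} (hB : MeasurableSet[A.F H0] B) :
    P (B ∩ {ω | A.Sh μ (H0 + k * N) ω ≠ 0 ∧ A.Sh μ (H0 + (k + n) * N) ω ≤
      ENNReal.ofReal (Real.exp (-(n * X))) * A.Sh μ (H0 + k * N) ω}) ≤
      ENNReal.ofReal (Real.exp (-(Λ * (n * X)))) * P B := by
  have hn1 : (1 : ℝ) ≤ n := by exact_mod_cast hn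
  have hkn' : (k : ℝ) ≤ n := by exact_mod_cast hkn
  have h4 := log_four_lt_two
  have h2 := log_two_lt_one
  have hk0 : (0 : ℝ) ≤ k := Nat.cast_nonneg k
  have hΛX : 0 ≤ Λ * X := mul_nonneg hΛ0 (by linarith)
  have hDΛX : 0 ≤ D * (Λ * X) := mul_nonneg (by linarith) hΛX
  have key := steep_gen (A := A) hm (by linarith) hTS hμ H0 k n hn
    (X := X) (Λ := Λ) (by
      have h1 := log_le_nat k
      have h3 : m * ((k : ℝ) + n) ≤ m * (n + n) := by gcongr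
      nlinarith) (by
      have e2 : (D * (Λ * X) + 2) * ((k : ℝ) + 1) ≤ (ρ - Real.log 2) * ((k : ℝ) + 1) :=
        mul_le_mul_of_nonneg_right (by linarith) (by linarith)
      have e3 : Λ * (X * n) ≤ (D * (Λ * X)) * ((k : ℝ) + 1) := by
        calc Λ * (X * n) = (Λ * X) * n := by ring
          _ ≤ (Λ * X) * (D * ((k : ℝ) + 1)) := mul_le_mul_of_nonneg_left hnk hΛX
          _ = _ := by ring
      nlinarith) hB
  rw [mul_comm X (n : ℝ)] at key
  exact key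

/-! ### real costs -/

/-- cost of level `k` -/
noncomputable def cst (A : KerSys S P) (μ : S → ℝ≥0∞) (k : ℕ) (ω : Ω) : ℝ :=
  -Real.log (A.Sh μ k ω).toReal

theorem cst_mono {μ : S → ℝ≥0∞} (hμ : A.Start μ) {ω : Ω} (hpos : ∀ k, A.Sh μ k ω ≠ 0)
    {a b : ℕ} (hab : a ≤ b) : cst A μ a ω ≤ cst A μ b ω := by
  unfold cst
  have ht : ∀ k, A.Sh μ k ω ≠ ∞ := fun k =>
    ne_top_of_le_ne_top ENNReal.one_ne_top (KerSys.Sh_le_one hμ _ ω)
  exact neg_le_neg (Real.log_le_log (ENNReal.toReal_pos (hpos b) (ht b))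
    (ENNReal.toReal_mono (ht a) (KerSys.Sh_anti hab ω)))

theorem cst_event {μ : S → ℝ≥0∞} (hμ : A.Start μ) {ω : Ω} {a b : ℕ}
    (ha : A.Sh μ a ω ≠ 0) (hb : A.Sh μ b ω ≠ 0) {v : ℝ} (h : v ≤ cst A μ b ω - cst A μ a ω) :
    A.Sh μ b ω ≤ ENNReal.ofReal (Real.exp (-v)) * A.Sh μ a ω := by
  have ht : ∀ k, A.Sh μ k ω ≠ ∞ := fun k =>
    ne_top_of_le_ne_top ENNReal.one_ne_top (KerSys.Sh_le_one hμ _ ω)
  have pa := ENNReal.toReal_pos ha (ht a)
  have pb := ENNReal.toReal_pos hb (ht b)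
  unfold cst at h
  have h1 : (A.Sh μ b ω).toReal ≤ Real.exp (-v) * (A.Sh μ a ω).toReal := by
    rw [← Real.exp_log pb, ← Real.exp_log pa, ← Real.exp_add]
    exact Real.exp_le_exp.2 (by linarith)
  rw [← ENNReal.ofReal_toReal (ht b), ← ENNReal.ofReal_toReal (ht a),
    ← ENNReal.ofReal_mul (Real.exp_pos _).le]
  exact ENNReal.ofReal_le_ofReal h1

theorem cst_meas {μ : S → ℝ≥0∞} (hμ : A.Start μ) (k : ℕ) : Measurable[A.F k] (cst A μ k) := by
  unfold cst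
  exact (Real.measurable_log.comp (ENNReal.measurable_toReal.comp
    (KerSys.meas_Sh hμ k))).neg

/-- **(P) for real costs**, symmetric form. -/
theorem steep_cst {N : ℕ} {m1 m ρ X Λ : ℝ} (hm : 0 ≤ m) (hΛ0 : 0 ≤ Λ) (hX : 2 * m + 3 ≤ X)
    (hρ : Λ * X + 3 ≤ ρ)
    (hTS : TileSys A N (ENNReal.ofReal (Real.exp (-m1))) (ENNReal.ofReal (Real.exp (-m)))
      (ENNReal.ofReal (Real.exp (-ρ)))) {μ : S → ℝ≥0∞} (hμ : A.Start μ)
    (hpos : ∀ k, ∀ᵐ ω ∂P, A.Sh μ k ω ≠ 0)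
    (H0 : ℕ) {e n : ℕ} (hn : 1 ≤ n) (hm1 : m1 ≤ n) (hne : 2 * n ≤ e)
    {B : Set Ω} (hB : MeasurableSet[A.F (H0 + (e - 2 * n) * N)] B) :
    P (B ∩ {ω | n * X ≤ cst A μ (H0 + e * N) ω - cst A μ (H0 + (e - n) * N) ω}) ≤
      ENNReal.ofReal (Real.exp (-(Λ * (n * X)))) * P B := by
  refine le_trans (measure_mono_ae ?_)
    (steep_sym (A := A) hm hΛ0 hX hρ hTS hμ H0 hn hm1 hne hB)
  filter_upwards [hpos (H0 + (e - n) * N), hpos (H0 + e * N)] with ω h1 h2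
  rintro ⟨h3, h4⟩
  exact ⟨h3, h1, cst_event hμ h1 h2 h4⟩

/-- **(P) for real costs**, shadow `k ≤ n ≤ D (k + 1)`. -/
theorem steep_cst_frac {N : ℕ} {m1 m ρ X Λ D : ℝ} (hm : 0 ≤ m) (hΛ0 : 0 ≤ Λ)
    (hX : 2 * m + 3 ≤ X) (hD : 1 ≤ D) (hρ : D * (Λ * X) + 3 ≤ ρ)
    (hTS : TileSys A N (ENNReal.ofReal (Real.exp (-m1))) (ENNReal.ofReal (Real.exp (-m)))
      (ENNReal.ofReal (Real.exp (-ρ)))) {μ : S → ℝ≥0∞} (hμ : A.Start μ)
    (hpos : ∀ k, ∀ᵐ ω ∂P, A.Sh μ k ω ≠ 0)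
    (H0 k n : ℕ) (hn : 1 ≤ n) (hm1 : m1 ≤ n) (hkn : k ≤ n) (hnk : (n : ℝ) ≤ D * ((k : ℝ) + 1))
    {B : Set Ω} (hB : MeasurableSet[A.F H0] B) :
    P (B ∩ {ω | n * X ≤ cst A μ (H0 + (k + n) * N) ω - cst A μ (H0 + k * N) ω}) ≤
      ENNReal.ofReal (Real.exp (-(Λ * (n * X)))) * P B := by
  refine le_trans (measure_mono_ae ?_)
    (steep_frac (A := A) hm hΛ0 hX hD hρ hTS hμ H0 k n hn hm1 hkn hnk hB)
  filter_upwards [hpos (H0 + k * N), hpos (H0 + (k + n) * N)] with ω h1 h2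
  rintro ⟨h3, h4⟩
  exact ⟨h3, h1, cst_event hμ h1 h2 h4⟩

end Crest.Agent.R154.Steep299
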