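import Crest.Agent.R154.Sun_95
import Crest.Agent.R154.Steep_299
import Crest.Agent.R154.ChainFL_263

/-!
# Row 154 (helper388): last joint of the irregular octaves, `WIN → HW`

`WIN A`: for every rate `θ` there are `m, m1, x0` such that for every `C` and every large `n` there is
a good octave `N ≤ 2 ^ n` (tile system) all of whose windows `y = J N ≤ C 2 ^ n` lose `x ≥ x0` with
probability `≤ exp (-θ x)`.
Conclusion: 263's `ChainFL.HW` (`w = 0`), by helper95's SUN lemma with unit `y` and helper299's `steep_sym`.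
-/

set_option autoImplicit false
set_option linter.deprecated false
set_option linter.unusedVariables false

open MeasureTheory ENNReal Crest.Agent.R154.RatioR872 Crest.Agent.R154.RatioR872.KerSys
  Crest.Agent.R154.WindowK299

namespace Crest.Agent.R154.HWin388

section abs

variable {S : Type*} {Ω : Type*} {m0 : MeasurableSpace Ω} {P : Measure Ω} [Countable S]

/-- **one-unit windows below the next good octave** -/
def WIN (A : KerSys S P) : Prop :=
  ∀ θ : ℝ, 0 < θ → ∃ m m1 x0 : ℝ, 1 ≤ m ∧ 0 < x0 ∧ ∀ C : ℝ, ∃ n0 : ℕ, ∀ n : ℕ, n0 ≤ n →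
    ∃ N : ℕ, 0 < N ∧ N ≤ 2 ^ n ∧
      TileSys A N (ENNReal.ofReal (Real.exp (-m1))) (ENNReal.ofReal (Real.exp (-m)))
        (ENNReal.ofReal (Real.exp (-(θ * (2 * m + 3) + 3)))) ∧
      ∀ J : ℕ, 1 ≤ J → (J * N : ℝ) ≤ C * 2 ^ n → ∀ μ : S → ℝ≥0∞, A.Start μ →
        (∀ h, ∀ᵐ ω ∂P, A.Sh μ h ω ≠ 0) → ∀ h0 : ℕ, ∀ B, MeasurableSet[A.F h0] B →
        ∀ x : ℝ, x0 ≤ x → x ≤ J * (2 * m + 3) →
          P (B ∩ {ω | A.Sh μ (h0 + J * N) ω ≠ 0 ∧ A.Sh μ (h0 + 2 * (J * N)) ω ≤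
            ENNReal.ofReal (Real.exp (-x)) * A.Sh μ (h0 + J * N) ω}) ≤
            ENNReal.ofReal (Real.exp (-(θ * x))) * P B

/-- the filtration of the levels `h + m y` -/
def shF (A : KerSys S P) (h y : ℕ) : Filtration ℕ m0 where
  seq m := A.F (h + m * y)
  mono' a b hab := A.F.mono (Nat.add_le_add_left (Nat.mul_le_mul_right _ hab) _)
  le' m := A.F.le _

/-- one piece `[h + k y, h + 2 k y]` -/
theorem piece (A : KerSys S P) {θ m m1 x0 : ℝ} (hθ : 1 ≤ θ) (hm : 1 ≤ m) (hx0 : 0 < x0)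
    {N J : ℕ} (hJ1 : 1 ≤ J) (hJm : m1 ≤ J)
    (hTS : TileSys A N (ENNReal.ofReal (Real.exp (-m1))) (ENNReal.ofReal (Real.exp (-m)))
        (ENNReal.ofReal (Real.exp (-(θ * (2 * m + 3) + 3)))))
    {μ : S → ℝ≥0∞} (hμ : A.Start μ)
    (hwin : ∀ h0 : ℕ, ∀ B, MeasurableSet[A.F h0] B →
        ∀ x : ℝ, x0 ≤ x → x ≤ J * (2 * m + 3) →
          P (B ∩ {ω | A.Sh μ (h0 + J * N) ω ≠ 0 ∧ A.Sh μ (h0 + 2 * (J * N)) ω ≤
            ENNReal.ofReal (Real.exp (-x)) * A.Sh μ (h0 + J * N) ω}) ≤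
            ENNReal.ofReal (Real.exp (-(θ * x))) * P B)
    (h : ℕ) {k : ℕ} (hk : 3 ≤ k) {v : ℝ} (hv1 : 8 * (x0 + 9) * k ≤ v)
    (hv2 : v ≤ k * (J * (2 * m + 3))) {B : Set Ω} (hB : MeasurableSet[A.F h] B) :
    P (B ∩ {ω | A.Sh μ (h + k * (J * N)) ω ≠ 0 ∧ A.Sh μ (h + 2 * k * (J * N)) ω ≤
      ENNReal.ofReal (Real.exp (-v)) * A.Sh μ (h + k * (J * N)) ω}) ≤
      ENNReal.ofReal (Real.exp (-(θ / 16 * v))) * P B := by
  have h0F : MeasurableSet[(shF A h (J * N)) 0] B := by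
    show MeasurableSet[A.F (h + 0 * (J * N))] B
    rw [zero_mul, add_zero]; exact hB
  refine Sun95.sun (F := shF A h (J * N)) (s := fun i => A.Sh μ (h + i * (J * N)))
    (fun i => KerSys.meas_Sh hμ _) (fun i ω => KerSys.Sh_anti (by
      exact Nat.add_le_add_left (Nat.mul_le_mul_right _ (Nat.le_succ i)) _) ω)
    (fun i ω => ne_top_of_le_ne_top ENNReal.one_ne_top (KerSys.Sh_le_one hμ _ ω))
    (X := J * (2 * m + 3)) hθ hx0 hk ?_ ?_ hv1 hv2 h0F
  · intro i hi1 hi2 x hx1 hx2 B' hB'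
    have hB'' : MeasurableSet[A.F (h + (i - 1) * (J * N))] B' := hB'
    have key := hwin (h + (i - 1) * (J * N)) B' hB'' x hx1 hx2
    have e1 : h + (i - 1) * (J * N) + J * N = h + i * (J * N) := by
      obtain ⟨i', rfl⟩ : ∃ i', i = i' + 1 := ⟨i - 1, by omega⟩
      rw [Nat.add_sub_cancel]; ring
    have e2 : h + (i - 1) * (J * N) + 2 * (J * N) = h + (i + 1) * (J * N) := by
      obtain ⟨i', rfl⟩ : ∃ i', i = i' + 1 := ⟨i - 1, by omega⟩
      rw [Nat.add_sub_cancel]; ring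
    rw [e1, e2] at key
    exact key
  · intro e n hn1 hn2 hn3 B' hB'
    have hB'' : MeasurableSet[A.F (h + (e * J - 2 * (n * J)) * N)] B' := by
      have e0 : h + (e * J - 2 * (n * J)) * N = h + (e - 2 * n) * (J * N) := by
        rw [show e * J - 2 * (n * J) = (e - 2 * n) * J by
          rw [Nat.sub_mul]; congr 1; ring]
        ring
      rw [e0]; exact hB'
    have hnJ : (m1 : ℝ) ≤ ((n * J : ℕ) : ℝ) := by
      have h1 : (1 : ℝ) ≤ n := by exact_mod_cast hn1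
      have h2 : (0 : ℝ) ≤ J := Nat.cast_nonneg J
      push_cast
      nlinarith
    have key := Steep299.steep_sym (A := A) (X := 2 * m + 3) (Λ := θ) (by linarith) (by linarith)
      le_rfl le_rfl hTS hμ h (e := e * J) (n := n * J)
      (Nat.mul_pos (by omega) (by omega)) hnJ
      (by calc 2 * (n * J) = 2 * n * J := by ring
            _ ≤ e * J := Nat.mul_le_mul_right _ hn2) hB''
    have e1 : h + (e * J - n * J) * N = h + (e - n) * (J * N) := by
      rw [← Nat.sub_mul]; ring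
    have e2 : h + e * J * N = h + e * (J * N) := by ring
    have e3 : (((n * J : ℕ) : ℝ) * (2 * m + 3)) = (n : ℝ) * (J * (2 * m + 3)) := by
      push_cast; ring
    rw [e1, e2, e3] at key
    exact key

set_option maxHeartbeats 1600000 in
/-- **window estimate from `WIN`**, in the form of `WindowK299.window_const` -/
theorem window_of_win {A : KerSys S P} (hW : WIN A) :
    ∀ lam : ℝ, 0 < lam → ∃ u0 c : ℝ, 0 < c ∧ 1 ≤ u0 ∧ ∀ μ : S → ℝ≥0∞, A.Start μ →
      (∀ h, ∀ᵐ ω ∂P, A.Sh μ h ω ≠ 0) → ∀ a : ℕ → Ω → ℝ,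
      (∀ i, ∀ᵐ ω ∂P, a i ω = - Real.log (A.Sh μ (10 ^ i) ω).toReal) →
      ∀ (i : ℕ) (u : ℝ), u0 ≤ u → u ≤ c * 10 ^ i →
      ∀ B, MeasurableSet[A.F (10 ^ i)] B →
      P (B ∩ {ω | u ≤ a (i + 2) ω - a (i + 1) ω}) ≤
        ENNReal.ofReal (Real.exp (-(lam * u))) * P B := by
  intro lam hlam
  obtain ⟨m, m1, x0, hm, hx0, hC⟩ := hW (192 * (lam + 1)) (by positivity)
  set C0 : ℝ := 1728 * (x0 + 9) + |m1| + 1 with hC0
  have hm1C : m1 ≤ C0 := by
    have := le_abs_self m1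
    nlinarith
  have hC01 : 1 ≤ C0 := by
    have := abs_nonneg m1
    nlinarith
  obtain ⟨n0, hn0⟩ := hC (C0 + 1)
  refine ⟨4 * (C0 + 1), 1 / 2 ^ (n0 + 1), by positivity, by linarith, ?_⟩
  intro μ hμ hpos a ha i u hu huc B hB
  refine (WindowK299.log_event hμ hpos a ha i _ B).trans ?_
  have hu8 : 8 ≤ u := by linarith
  have hu0 : 0 < u := by linarith
  set H : ℕ := 10 ^ i with hH
  have hHR : (H : ℝ) = 10 ^ i := by rw [hH]; push_cast; rfl
  have hHpos : (0 : ℝ) < H := by rw [hHR]; positivity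
  have hq : (2 : ℝ) ^ (n0 + 1) ≤ H / u := by
    rw [le_div_iff₀ hu0, hHR]
    have h1 : 2 ^ (n0 + 1) * u ≤ 2 ^ (n0 + 1) * (1 / 2 ^ (n0 + 1) * 10 ^ i) :=
      mul_le_mul_of_nonneg_left huc (by positivity)
    refine h1.trans (le_of_eq ?_)
    field_simp
  have hqf : 2 ^ (n0 + 1) ≤ ⌊(H : ℝ) / u⌋₊ := Nat.le_floor (by push_cast; exact hq)
  set n : ℕ := Nat.log 2 ⌊(H : ℝ) / u⌋₊ with hn
  have hfne : ⌊(H : ℝ) / u⌋₊ ≠ 0 := by
    have : 0 < 2 ^ (n0 + 1) := by positivity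
    omega
  have hn1 : n0 ≤ n := by
    have : n0 + 1 ≤ n := (Nat.le_log_iff_pow_le (by norm_num) hfne).2 hqf
    omega
  have h2n : (2 : ℝ) ^ n ≤ H / u := by
    have h1 : 2 ^ n ≤ ⌊(H : ℝ) / u⌋₊ := Nat.pow_log_le_self 2 hfne
    have h2 : ((2 ^ n : ℕ) : ℝ) ≤ (⌊(H : ℝ) / u⌋₊ : ℝ) := by exact_mod_cast h1
    push_cast at h2
    exact h2.trans (Nat.floor_le (by positivity))
  have h2n' : H / u ≤ 2 * 2 ^ n := by
    have h1 : ⌊(H : ℝ) / u⌋₊ < 2 ^ (n + 1) := Nat.lt_pow_succ_log_self (by norm_num) _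
    have h2 : ((⌊(H : ℝ) / u⌋₊ : ℕ) : ℝ) + 1 ≤ 2 ^ (n + 1) := by exact_mod_cast h1
    have h3 := (Nat.lt_floor_add_one ((H : ℝ) / u)).le
    rw [pow_succ] at h2
    linarith
  obtain ⟨N, hNpos, hNn, hTS, hwin⟩ := hn0 n hn1
  have hNR : (0 : ℝ) < N := by exact_mod_cast hNpos
  have hNnR : (N : ℝ) ≤ 2 ^ n := by exact_mod_cast hNn
  set J : ℕ := ⌈C0 * 2 ^ n / N⌉₊ with hJ
  have hJ0 : C0 * 2 ^ n / N ≤ J := Nat.le_ceil _
  have hJN : C0 * 2 ^ n ≤ J * N := (div_le_iff₀ hNR).1 hJ0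
  have hJN' : (J * N : ℝ) ≤ (C0 + 1) * 2 ^ n := by
    have h1 : (J : ℝ) < C0 * 2 ^ n / N + 1 := Nat.ceil_lt_add_one (by positivity)
    have h2 : (J * N : ℝ) ≤ (C0 * 2 ^ n / N + 1) * N := by gcongr
    have h3 : (C0 * 2 ^ n / N + 1) * N = C0 * 2 ^ n + N := by field_simp
    linarith
  have hJC : C0 ≤ J := by
    refine le_trans ?_ hJ0
    rw [le_div_iff₀ hNR]
    gcongr
  have hJ1 : 1 ≤ J := by exact_mod_cast hC01.trans hJC
  have hpiece := fun (h k : ℕ) (hk : 3 ≤ k) (v : ℝ) (hv1 : 8 * (x0 + 9) * k ≤ v)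
      (hv2 : v ≤ k * (J * (2 * m + 3))) (B : Set Ω) (hB : MeasurableSet[A.F h] B) =>
    piece A (θ := 192 * (lam + 1)) (by linarith) hm hx0 hJ1 (hm1C.trans hJC) hTS hμ
      (hwin J hJ1 hJN' μ hμ hpos) h hk hv1 hv2 hB
  -- the unit
  set y : ℕ := J * N with hy
  have hyR : (y : ℝ) = J * N := by rw [hy]; push_cast; rfl
  have hypos : 0 < y := Nat.mul_pos hJ1 hNpos
  have hyposR : (0 : ℝ) < y := by exact_mod_cast hypos
  have hy4 : 4 * (y : ℝ) ≤ H := by
    have h1 : (y : ℝ) ≤ (C0 + 1) * (H / u) := by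
      rw [hyR]; exact hJN'.trans (by gcongr)
    have h2 : 4 * ((C0 + 1) * (H / u)) ≤ H := by
      rw [show 4 * ((C0 + 1) * ((H : ℝ) / u)) = (4 * (C0 + 1)) * H / u by ring,
        div_le_iff₀ hu0]
      rw [mul_comm (H : ℝ) u]
      gcongr
    linarith
  have hylow : C0 * H / (2 * u) ≤ y := by
    rw [hyR]
    refine le_trans ?_ hJN
    rw [div_le_iff₀ (by positivity)]
    have : (H : ℝ) = H / u * u := by field_simp
    calc C0 * (H : ℝ) = C0 * (H / u * u) := by rw [← this]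
      _ ≤ C0 * (2 * 2 ^ n * u) := by gcongr
      _ = _ := by ring
  set k : ℕ := 9 * H / y with hk
  have hky : k * y ≤ 9 * H := Nat.div_mul_le_self _ _
  have hky' : 9 * H < (k + 1) * y := by
    rw [hk, mul_comm (9 * H / y + 1) y]; exact Nat.lt_mul_div_succ _ hypos
  have hkyR : (k : ℝ) * y ≤ 9 * H := by exact_mod_cast hky
  have hkyR' : 9 * (H : ℝ) < (k + 1) * y := by exact_mod_cast hky'
  have hkylow : 35 * (H : ℝ) ≤ 4 * (k * y) := by nlinarith
  have hk3 : 3 ≤ k := by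
    by_contra hcon
    have h1 : k + 1 ≤ 3 := by omega
    have h2 : ((k : ℝ) + 1) ≤ 3 := by exact_mod_cast h1
    nlinarith
  have hkR : (0 : ℝ) < k := by
    have : 0 < k := by omega
    exact_mod_cast this
  set v : ℝ := u / 12 with hv
  have hv1 : 8 * (x0 + 9) * k ≤ v := by
    have h1 : (k : ℝ) * (C0 * H / (2 * u)) ≤ 9 * H :=
      (mul_le_mul_of_nonneg_left hylow hkR.le).trans hkyR
    have h2 : (k : ℝ) * C0 ≤ 18 * u := by
      have h3 : (k : ℝ) * C0 * H ≤ 18 * u * H := by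
        have : (k : ℝ) * (C0 * H / (2 * u)) * (2 * u) ≤ 9 * H * (2 * u) := by gcongr
        calc (k : ℝ) * C0 * H = (k : ℝ) * (C0 * H / (2 * u)) * (2 * u) := by field_simp
          _ ≤ 9 * H * (2 * u) := this
          _ = _ := by ring
      exact le_of_mul_le_mul_right h3 hHpos
    have h4 : (k : ℝ) * (1728 * (x0 + 9)) ≤ 18 * u := by
      refine le_trans (mul_le_mul_of_nonneg_left ?_ hkR.le) h2
      have := abs_nonneg m1
      linarith
    rw [hv]
    nlinarith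
  have hv2 : v ≤ k * (J * (2 * m + 3)) := by
    have h1 : 35 * (H : ℝ) ≤ 4 * (k * J) * N := by
      calc 35 * (H : ℝ) ≤ 4 * (k * y) := hkylow
        _ = _ := by rw [hyR]; ring
    have h2 : 4 * ((k : ℝ) * J) * N ≤ 4 * (k * J) * (H / u) := by
      gcongr
      exact hNnR.trans h2n
    have h3 : 35 * u ≤ 4 * ((k : ℝ) * J) := by
      have h4 : 35 * (H : ℝ) * u ≤ 4 * (k * J) * (H / u) * u :=
        mul_le_mul_of_nonneg_right (h1.trans h2) hu0.le
      have h5 : 4 * ((k : ℝ) * J) * (H / u) * u = 4 * (k * J) * H := by field_simp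
      rw [h5] at h4
      have h6 : 35 * u * H ≤ 4 * ((k : ℝ) * J) * H := by linarith
      exact le_of_mul_le_mul_right h6 hHpos
    have h7 : (0 : ℝ) ≤ k * J := by positivity
    have h8 : (k : ℝ) * J ≤ k * (J * (2 * m + 3)) :=
      mul_le_mul_of_nonneg_left (le_mul_of_one_le_right (Nat.cast_nonneg J) (by linarith)) hkR.le
    rw [hv]
    linarith
  -- the eleven pieces
  have hky10 : k * y ≤ 10 * H := by omega
  set b : ℕ → ℕ := fun j => 10 * H + j * (k * y) with hb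
  set E : ℕ → Set Ω := fun j => {ω | A.Sh μ (b j) ω ≠ 0 ∧ A.Sh μ (b (j + 1)) ω ≤
    ENNReal.ofReal (Real.exp (-v)) * A.Sh μ (b j) ω} with hE
  have hEP : ∀ j, P (B ∩ E j) ≤ ENNReal.ofReal (Real.exp (-((lam + 1) * u))) * P B := by
    intro j
    set h : ℕ := (10 * H - k * y) + j * (k * y) with hh
    have hHh : H ≤ h := by
      rw [hh]
      have : H ≤ 10 * H - k * y := by omega
      omega
    have hB' : MeasurableSet[A.F h] B := A.F.mono hHh _ hB
    have e1 : h + k * y = b j := by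
      simp only [hh, hb]; omega
    have e2 : h + 2 * k * y = b (j + 1) := by
      simp only [hh, hb]
      have : (j + 1) * (k * y) = j * (k * y) + k * y := by ring
      rw [this, show 2 * k * y = k * y + k * y by ring]
      omega
    have key := hpiece h k hk3 v hv1 hv2 B hB'
    rw [e1, e2] at key
    refine key.trans (le_of_eq ?_)
    congr 3
    rw [hv]; ring
  have hsub : (B ∩ {ω | A.Sh μ (10 ^ (i + 1)) ω ≠ 0 ∧ A.Sh μ (10 ^ (i + 2)) ω ≤
      ENNReal.ofReal (Real.exp (-u)) * A.Sh μ (10 ^ (i + 1)) ω}) ⊆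
      ⋃ j ∈ Finset.range 11, (B ∩ E j) := by
    rintro ω ⟨hωB, hω1, hω2⟩
    have t1 : 10 ^ (i + 1) = 10 * H := by rw [hH, pow_succ]; ring
    have t2 : 10 ^ (i + 2) = 100 * H := by rw [hH, pow_add]; ring
    rw [t1] at hω1 hω2
    rw [t2] at hω2
    by_contra hcon
    simp only [Set.mem_iUnion, Finset.mem_range, not_exists] at hcon
    have hE' : ∀ j, j < 11 → A.Sh μ (b j) ω ≠ 0 →
        ENNReal.ofReal (Real.exp (-v)) * A.Sh μ (b j) ω < A.Sh μ (b (j + 1)) ω := by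
      intro j hj hne
      by_contra h'
      exact hcon j hj ⟨hωB, hne, not_lt.1 h'⟩
    have hind : ∀ j, j ≤ 11 → A.Sh μ (b j) ω ≠ 0 ∧
        ENNReal.ofReal (Real.exp (-(j * v))) * A.Sh μ (10 * H) ω ≤ A.Sh μ (b j) ω := by
      intro j
      induction j with
      | zero =>
        intro _
        have e0 : b 0 = 10 * H := by simp [hb]
        rw [e0]
        refine ⟨hω1, ?_⟩
        simp
      | succ j ih =>
        intro hj
        obtain ⟨h1, h2⟩ := ih (by omega)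
        have h3 := hE' j (by omega) h1
        refine ⟨(lt_of_le_of_lt (zero_le) h3).ne', ?_⟩
        calc ENNReal.ofReal (Real.exp (-(((j + 1 : ℕ) : ℝ) * v))) * A.Sh μ (10 * H) ω
            = ENNReal.ofReal (Real.exp (-v)) * (ENNReal.ofReal (Real.exp (-(j * v))) *
              A.Sh μ (10 * H) ω) := by
              rw [← mul_assoc, ← ENNReal.ofReal_mul (Real.exp_pos _).le, ← Real.exp_add]
              congr 3
              push_cast; ring
          _ ≤ ENNReal.ofReal (Real.exp (-v)) * A.Sh μ (b j) ω := by gcongr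
          _ ≤ _ := h3.le
    obtain ⟨_, h11⟩ := hind 11 le_rfl
    have hb11 : 100 * H ≤ b 11 := by
      have h1 : (100 * H : ℝ) ≤ 10 * H + 11 * (k * y) := by linarith
      have h2 : ((100 * H : ℕ) : ℝ) ≤ ((10 * H + 11 * (k * y) : ℕ) : ℝ) := by
        push_cast; exact h1
      exact_mod_cast h2
    have h12 := (h11.trans (KerSys.Sh_anti hb11 ω)).trans hω2
    have hfin : A.Sh μ (10 * H) ω ≠ ∞ :=
      ne_top_of_le_ne_top ENNReal.one_ne_top (KerSys.Sh_le_one hμ _ ω)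
    have h13 : ENNReal.ofReal (Real.exp (-(((11 : ℕ) : ℝ) * v))) ≤
        ENNReal.ofReal (Real.exp (-u)) := (ENNReal.mul_le_mul_iff_left hω1 hfin).1 h12
    rw [ENNReal.ofReal_le_ofReal_iff (Real.exp_pos _).le, Real.exp_le_exp, hv] at h13
    push_cast at h13
    linarith
  calc P (B ∩ {ω | A.Sh μ (10 ^ (i + 1)) ω ≠ 0 ∧ A.Sh μ (10 ^ (i + 2)) ω ≤
      ENNReal.ofReal (Real.exp (-u)) * A.Sh μ (10 ^ (i + 1)) ω})
      ≤ P (⋃ j ∈ Finset.range 11, (B ∩ E j)) := measure_mono hsub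
    _ ≤ ∑ j ∈ Finset.range 11, P (B ∩ E j) := measure_biUnion_finset_le _ _
    _ ≤ ∑ _j ∈ Finset.range 11, ENNReal.ofReal (Real.exp (-((lam + 1) * u))) * P B :=
        Finset.sum_le_sum fun j _ => hEP j
    _ = ENNReal.ofReal (11 * Real.exp (-((lam + 1) * u))) * P B := by
        rw [Finset.sum_const, Finset.card_range, nsmul_eq_mul, ← mul_assoc,
          ENNReal.ofReal_mul (by norm_num)]
        congr 2
        simp
    _ ≤ ENNReal.ofReal (Real.exp (-(lam * u))) * P B := by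
        refine mul_le_mul_left (ENNReal.ofReal_le_ofReal ?_) _
        have h1 : (11 : ℝ) ≤ Real.exp u := by
          have h2 : (2 : ℝ) ≤ Real.exp 1 := by have := Real.add_one_le_exp (1 : ℝ); linarith
          calc (11 : ℝ) ≤ 2 ^ 4 := by norm_num
            _ ≤ Real.exp 1 ^ 4 := pow_le_pow_left₀ (by norm_num) h2 4
            _ = Real.exp 4 := by rw [← Real.exp_nat_mul]; norm_num
            _ ≤ Real.exp u := Real.exp_le_exp.2 (by linarith)
        calc 11 * Real.exp (-((lam + 1) * u)) ≤ Real.exp u * Real.exp (-((lam + 1) * u)) := by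
              gcongr
          _ = Real.exp (-(lam * u)) := by rw [← Real.exp_add]; congr 1; ring

end abs

section sys

variable {d : ℕ} {Q : Measure (Crest.ProbabilityR.RandomEnvironment.Environment d)}
  [IsProbabilityMeasure Q] {κ : ℝ} {R : ℕ}

/-- **`WIN → HW`** for 244's kernel system, `w = 0` -/
theorem hw_of_win (F : Bind263.Frame Q κ R) (u : Crest.ProbabilityR.RandomEnvironment.Step d)
    (hW : WIN (D2Asm244.kT u R κ Q F.stat F.fin)) :
    ChainFL.HW (D2Asm244.kT u R κ Q F.stat F.fin) := by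
  intro lam ε' hlam hε'
  obtain ⟨u0, c, hc, hu0, h⟩ := window_of_win hW lam hlam
  refine ⟨u0, c, hc, fun _ => 0, fun _ => le_rfl, fun J => ?_, fun μ hμ hpos => ?_⟩
  · simp only [Finset.sum_const_zero]
    have : (0 : ℝ) ≤ J := Nat.cast_nonneg J
    nlinarith
  · intro i v hv hvc B hB
    simp only [add_zero] at hvc ⊢
    exact h μ hμ hpos (D2Asm244.aa (D2Asm244.kT u R κ Q F.stat F.fin) μ)
      (D2Asm244.aa_eq hμ hpos) i v hv hvc B hB

end sys

end Crest.Agent.R154.HWin388
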