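import Crest.Agent.R154.HWC_481
import Crest.Agent.R154.NumK_658

/-! Row 154, ROAD 801, frame B (helper481): **`hWin` of `Comp_818` from E2 / E3.** -/

set_option autoImplicit false

namespace Crest.Agent.R154.HW481

open MeasureTheory ProbabilityTheory Crest.ProbabilityR.RandomEnvironment Crest.Agent.R154
open Crest.Agent.R154.Flux132 (lev opp)
open Crest.Agent.R154.Flux566 (lw endp sitesL)
open Crest.Agent.R154.NB28 (IsUp IsDn Cm KW KappaW aw)
open Crest.Agent.R154.B5W (UpW hu hdn PC PB Lat cat)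
open Crest.Agent.R154.B5A (LW HT act U tail)
open Filter Topology
open scoped ENNReal

variable {d : ℕ} (ν : Measure (Row d)) [IsProbabilityMeasure ν] (u : Step d)

lemma prod_low (H : ℕ) (PX PY : List (Step d) → Prop) :
    (∑' π, (open Classical in if PX π then fX ν u H π else 0)) *
      ∑' γ, (open Classical in if PY γ then fY ν u H γ else 0)
      = ∑' π, ∑' γ, (open Classical in if PX π ∧ PY γ then fX ν u H π * fY ν u H γ else 0) := by
  classical
  rw [← ENNReal.tsum_mul_right]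
  refine tsum_congr fun π => ?_
  rw [← ENNReal.tsum_mul_left]
  refine tsum_congr fun γ => ?_
  by_cases h1 : PX π <;> by_cases h2 : PY γ <;> simp [h1, h2]

/-- the window estimate -/
theorem est {us : ℕ → ℝ≥0∞} {C : ℝ≥0∞} (hE2 : E2 ν u us C) (hE3 : E3 ν u us C)
    (h1 : ∀ b, 1 ≤ B5W.ht u b) (hΛ : ∑' b, B5W.Lam ν u b = 1) (c : ℝ≥0∞) (hc : c ≠ 0)
    (hup : ∀ n, c ≤ ∑' π, fX ν u n π) (hdn : ∀ n, c ≤ ∑' π, fY ν u n π) (v : ℝ≥0∞) (hv : v ≠ 0)
    (hv1 : v < 1) (N H s a : ℕ) (hH : 0 < H) (ha : (2 * N + 1) * H ≤ a) (lam : ℝ≥0∞)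
    (hl : lam ≠ 0) (hl' : lam ≠ ⊤) (w : Lat u) :
    ∑' L1 : List (PB u), (open Classical in if Comp818.att (B5W.ht u) a L1 then
      LW (B5W.Lam ν u) L1 * Comp818.WLp (B5W.Lam ν u) (B5W.ht u) (B5W.dl u) (B5W.cd u) H s
        (act (B5W.dl u) L1 w) else 0)
      ≤ v * v + 2 * ((1 - v * c * c) ^ N + N * ov (B5W.Lam ν u) (B5W.ht u) H H
        + C * (lam + us s / (v * c * c) / lam + us s)) := by
  classical
  have hc1 : c ≤ 1 := (hup 0).trans (sumX_le ν u 0)
  have hct : c ≠ ⊤ := ne_top_of_le_ne_top ENNReal.one_ne_top hc1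
  have hvt : v ≠ ⊤ := hv1.ne_top
  set q := v * c * c with hq
  have hq0 : q ≠ 0 := mul_ne_zero (mul_ne_zero hv hc) hc
  have hqt : q ≠ ⊤ := ENNReal.mul_ne_top (ENNReal.mul_ne_top hvt hct) hct
  obtain ⟨tX, hX0, hXt, hX1, hX2, hXf, hXc⟩ := quant (fX ν u H) (endp (0 : Site d)) c hc (hup H)
    (sumX_le ν u H) v hv hv1
  obtain ⟨tY, hY0, hYt, hY1, hY2, hYf, hYc⟩ := quant (fY ν u H) (endp (0 : Site d)) c hc (hdn H)
    (sumY_le ν u H) v hv hv1
  set EX := hXf.toFinset with hEX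
  set EY := hYf.toFinset with hEY
  have memX : ∀ z, z ∈ EX ↔ tX ≤ pp (fX ν u H) (endp (0 : Site d)) z := fun z => by
    rw [hEX, Set.Finite.mem_toFinset]; rfl
  have memY : ∀ z, z ∈ EY ↔ tY ≤ pp (fY ν u H) (endp (0 : Site d)) z := fun z => by
    rw [hEY, Set.Finite.mem_toFinset]; rfl
  have cX := hXc EX fun z hz => (memX z).1 hz
  have cY := hYc EY fun z hz => (memY z).1 hz
  obtain ⟨μ, m1, m2, m3⟩ := half ν u h1 hΛ H N a hH ha
    (fun π _ => pp (fX ν u H) (endp 0) (endp 0 π) ≤ tX) tX q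
    (fun z => le_trans (le_of_eq (tsum_congr fun π => tsum_congr fun γ => ite_any Iff.rfl _ _))
      (joint_low (fX ν u H) (endp 0) (fY ν u H) (endp 0) (sumY_le ν u H) tX z))
    (by
      have h := prod_low ν u H (fun π => pp (fX ν u H) (endp 0) (endp 0 π) ≤ tX) (fun _ => True)
      refine le_trans (mul_le_mul' (b := ∑' π, if pp (fX ν u H) (endp 0) (endp 0 π) ≤ tX
        then fX ν u H π else 0) (d := ∑' γ, if True then fY ν u H γ else 0) ?_ ?_)
        (le_trans (le_of_eq (Eq.trans ?_ h)) (le_of_eq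
          (tsum_congr fun π => tsum_congr fun γ => ite_any (by simp) _ _)))
      · exact hX2.trans (le_of_eq (tsum_congr fun π => ite_any Iff.rfl _ _))
      · simpa using hdn H
      · exact congrArg₂ (· * ·) (tsum_congr fun _ => ite_any Iff.rfl _ _)
          (tsum_congr fun _ => ite_any Iff.rfl _ _)) w.1
  obtain ⟨μ', m1', m2', m3'⟩ := half ν u h1 hΛ H N a hH ha
    (fun _ γ => pp (fY ν u H) (endp 0) (endp 0 γ) ≤ tY) tY q
    (fun z => le_trans (le_of_eq (tsum_congr fun π => tsum_congr fun γ => ite_any Iff.rfl _ _))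
      (joint_low' (fX ν u H) (endp 0) (fY ν u H) (endp 0) (sumX_le ν u H) tY z))
    (by
      have h := prod_low ν u H (fun _ => True) (fun π => pp (fY ν u H) (endp 0) (endp 0 π) ≤ tY)
      rw [hq, mul_assoc, mul_comm v, mul_assoc, mul_comm c v]
      refine le_trans (mul_le_mul' (b := ∑' π, if True then fX ν u H π else 0)
        (d := ∑' γ, if pp (fY ν u H) (endp 0) (endp 0 γ) ≤ tY then fY ν u H γ else 0) ?_ ?_)
        (le_trans (le_of_eq (Eq.trans ?_ h)) (le_of_eq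
          (tsum_congr fun π => tsum_congr fun γ => ite_any (by simp) _ _)))
      · simpa using hup H
      · exact hY2.trans (le_of_eq (tsum_congr fun π => ite_any Iff.rfl _ _))
      · exact congrArg₂ (· * ·) (tsum_congr fun _ => ite_any Iff.rfl _ _)
          (tsum_congr fun _ => ite_any Iff.rfl _ _)) w.1
  have key1 := m3 (KA ν u H s EX) (KA_le ν u H s EX)
  have key2 := m3' (KB ν u H s EY) (KB_le ν u H s EY)
  have use1 := hE2.use ν u s H EX μ (tX / q) lam m1 m2 hl hl'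
  have use2 := hE3.use ν u s H EY μ' (tY / q) lam m1' m2' hl hl'
  have b1 : tX / q * EX.card * us s ≤ us s / q := by
    calc tX / q * EX.card * us s = (EX.card * tX) * (us s / q) := by
          simp only [div_eq_mul_inv]; ring
      _ ≤ 1 * (us s / q) := mul_le_mul_left cX _
      _ = _ := one_mul _
  have b2 : tY / q * EY.card * us s ≤ us s / q := by
    calc tY / q * EY.card * us s = (EY.card * tY) * (us s / q) := by
          simp only [div_eq_mul_inv]; ring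
      _ ≤ 1 * (us s / q) := mul_le_mul_left cY _
      _ = _ := one_mul _
  have use1' := use1.trans (mul_le_mul_right (add_le_add (add_le_add le_rfl
    (ENNReal.div_le_div_right b1 lam)) le_rfl) C : _ ≤ C * (lam + us s / q / lam + us s))
  have use2' := use2.trans (mul_le_mul_right (add_le_add (add_le_add le_rfl
    (ENNReal.div_le_div_right b2 lam)) le_rfl) C : _ ≤ C * (lam + us s / q / lam + us s))
  have hD : (∑' π, (if endp 0 π ∉ EX then fX ν u H π else 0))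
          * ∑' γ, (if endp 0 γ ∉ EY then fY ν u H γ else 0) ≤ v * v := by
    refine mul_le_mul' (le_trans (le_of_eq (tsum_congr fun π => ?_)) hX1)
      (le_trans (le_of_eq (tsum_congr fun π => ?_)) hY1)
    · exact ite_any (by rw [memX, not_le]) _ _
    · exact ite_any (by rw [memY, not_le]) _ _
  set R := N * ov (B5W.Lam ν u) (B5W.ht u) H H with hR
  calc ∑' L1 : List (PB u), (if Comp818.att (B5W.ht u) a L1 then
      LW (B5W.Lam ν u) L1 * Comp818.WLp (B5W.Lam ν u) (B5W.ht u) (B5W.dl u) (B5W.cd u) H s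
        (act (B5W.dl u) L1 w) else 0)
      ≤ Hit776.S (B5W.Lam ν u) (B5W.ht u) a (fun L => (KA ν u H s EX (w.1 + Hit776.DZ (dz u) L)
          + KB ν u H s EY (w.1 + Hit776.DZ (dz u) L)) + v * v) := by
        refine ENNReal.tsum_le_tsum fun L => ?_
        by_cases hL : Comp818.att (B5W.ht u) a L
        · rw [if_pos hL, if_pos (FP_of_att (B5W.ht u) L a hL)]
          refine mul_le_mul_right ((WLp_le ν u H s EX EY _).trans ?_) _
          rw [act_eq]
          refine add_le_add le_rfl (le_trans (le_of_eq ?_) hD)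
          rfl
        · rw [if_neg hL]; exact zero_le
    _ = Hit776.S (B5W.Lam ν u) (B5W.ht u) a (fun L => KA ν u H s EX (w.1 + Hit776.DZ (dz u) L))
        + Hit776.S (B5W.Lam ν u) (B5W.ht u) a (fun L => KB ν u H s EY (w.1 + Hit776.DZ (dz u) L))
        + v * v := by
        rw [Hit776.S_add_fun, Hit776.S_add_fun]
        congr 1
        have := Hit776.S_const_mul (B5W.Lam ν u) (B5W.ht u) a (v * v) (fun _ => 1)
        rw [Hit776.S_one (B5W.Lam ν u) (B5W.ht u) h1 hΛ a] at this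
        simpa using this
    _ ≤ (C * (lam + us s / q / lam + us s) + (1 - q) ^ N + R)
        + (C * (lam + us s / q / lam + us s) + (1 - q) ^ N + R) + v * v := by
        refine add_le_add (add_le_add (key1.trans ?_) (key2.trans ?_)) le_rfl
        · exact add_le_add (add_le_add use1' le_rfl) le_rfl
        · exact add_le_add (add_le_add use2' le_rfl) le_rfl
    _ = _ := by ring

/-- **`hWin` of `Comp_818`** -/
theorem hWin {us : ℕ → ℝ≥0∞} {C : ℝ≥0∞} (hC : C ≠ ⊤) (hus : Tendsto us atTop (𝓝 0))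
    (hE2 : E2 ν u us C) (hE3 : E3 ν u us C) (c : ℝ≥0∞) (hc : c ≠ 0)
    (h1 : ∀ b, 1 ≤ B5W.ht u b) (hU : ∀ n, c ≤ U (B5W.Lam ν u) (B5W.ht u) n)
    (hU1 : ∀ n, U (B5W.Lam ν u) (B5W.ht u) n ≤ 1)
    (hup : ∀ n, c ≤ ∑' π, fX ν u n π) (hdn : ∀ n, c ≤ ∑' π, fY ν u n π) :
    ∀ ε : ℝ≥0∞, ε ≠ 0 → ∃ K : ℕ, 1 ≤ K ∧ ∀ i0 : ℕ, ∃ s H0 : ℕ, ∀ H, H0 ≤ H →
      ∀ a, K * H ≤ 8 * a → ∀ w : Lat u, ∑' L1 : List (PB u),
        (open Classical in if Comp818.att (B5W.ht u) a L1 ∧ HT (B5W.ht u) L1 ≤ a + i0 then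
          LW (B5W.Lam ν u) L1 * Comp818.WLp (B5W.Lam ν u) (B5W.ht u) (B5W.dl u) (B5W.cd u) H s
            (act (B5W.dl u) L1 w) else 0) ≤ ε / K := by
  classical
  intro ε hε
  have hc1 : c ≤ 1 := (hup 0).trans (sumX_le ν u 0)
  have hct : c ≠ ⊤ := ne_top_of_le_ne_top ENNReal.one_ne_top hc1
  have hΛ : ∑' b, B5W.Lam ν u b = 1 :=
    le_antisymm (B5A.mass_le_one _ _ h1 hU1) (B5A.mass_ge_one _ _ c hc 0 fun n _ => hU n)
  set ε1 := min ε 1 with hε1
  have e10 : ε1 ≠ 0 := by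
    rw [hε1]; intro h
    rcases min_choice ε 1 with h' | h' <;> rw [h'] at h
    · exact hε h
    · exact one_ne_zero h
  have e11 : ε1 ≤ 1 := min_le_right _ _
  have e1t : ε1 ≠ ⊤ := ne_top_of_le_ne_top ENNReal.one_ne_top e11
  have hcc0 : c * c ≠ 0 := mul_ne_zero hc hc
  have hcct : c * c ≠ ⊤ := ENNReal.mul_ne_top hct hct
  have hcc1 : c * c ≤ 1 := by calc c * c ≤ 1 * 1 := mul_le_mul' hc1 hc1
    _ = 1 := one_mul 1
  set ε2 := ε1 / 16 * (c * c * (c * c)) with hε2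
  have h160 : ε1 / 16 ≠ 0 := by
    rw [Ne, ENNReal.div_eq_zero_iff, not_or]
    exact ⟨e10, by norm_num⟩
  have e20 : ε2 ≠ 0 := mul_ne_zero h160 (mul_ne_zero hcc0 hcc0)
  have e21 : ε2 ≤ ε1 / 16 := by
    calc ε2 ≤ ε1 / 16 * (1 * 1) := mul_le_mul_right (mul_le_mul' hcc1 hcc1) _
      _ = _ := by rw [one_mul, mul_one]
  obtain ⟨K0, hK0⟩ := Num873.num 32 (by norm_num) ε2 e20
  set K := K0 + 32 with hK
  obtain ⟨u0, hu0, hu1, n1, n2⟩ := hK0 K (by omega)
  have hu0t : u0 ≠ ⊤ := hu1.ne_top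
  set N := K / 32 with hN
  have hK8 : 8 * (2 * N + 1) ≤ K := by omega
  have hKpos : 1 ≤ K := by omega
  have hK00 : (K : ℝ≥0∞) ≠ 0 := by exact_mod_cast (by omega : K ≠ 0)
  have hKt : (K : ℝ≥0∞) ≠ ⊤ := ENNReal.natCast_ne_top K
  have hKle : (K : ℝ≥0∞) ≤ ((32 * (K + 32) : ℕ) : ℝ≥0∞) := by
    exact_mod_cast (by omega : K ≤ 32 * (K + 32))
  set v := u0 / (c * c) with hv
  have hv0 : v ≠ 0 := by
    rw [hv, Ne, ENNReal.div_eq_zero_iff, not_or]
    exact ⟨hu0, hcct⟩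
  have hvq : v * c * c = u0 := by
    rw [mul_assoc, hv, ENNReal.div_mul_cancel hcc0 hcct]
  have hKv : (K : ℝ≥0∞) * (v * v) ≤ ε1 / 16 := by
    have h3 : (K : ℝ≥0∞) * (v * v) * (c * c * (c * c)) ≤ ε1 / 16 * (c * c * (c * c)) := by
      calc (K : ℝ≥0∞) * (v * v) * (c * c * (c * c)) = K * ((v * c * c) * (v * c * c)) := by ring
        _ = K * u0 ^ 2 := by rw [hvq, sq]
        _ ≤ ((32 * (K + 32) : ℕ) : ℝ≥0∞) * u0 ^ 2 := mul_le_mul_left hKle _
        _ ≤ _ := n1
    exact (ENNReal.mul_le_mul_iff_left (mul_ne_zero hcc0 hcc0) (ENNReal.mul_ne_top hcct hcct)).1 h3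
  have hv1 : v < 1 := by
    by_contra hcon
    push Not at hcon
    have h3 : (1 : ℝ≥0∞) ≤ 1 / 16 := by
      calc (1 : ℝ≥0∞) = 1 * (1 * 1) := by ring
        _ ≤ K * (v * v) := mul_le_mul' (by exact_mod_cast hKpos) (mul_le_mul' hcon hcon)
        _ ≤ ε1 / 16 := hKv
        _ ≤ 1 / 16 := ENNReal.div_le_div_right e11 _
    rw [one_div] at h3
    have h4 : ((16 : ℝ≥0∞))⁻¹ < 1 := ENNReal.inv_lt_one.2 (by norm_num)
    exact absurd h3 (not_le.2 h4)
  set η := ε1 / 16 / K with hη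
  have hη0 : η ≠ 0 := by
    rw [hη, Ne, ENNReal.div_eq_zero_iff, not_or]
    exact ⟨h160, hKt⟩
  have hvv : v * v ≤ η := by
    rw [hη, ENNReal.le_div_iff_mul_le (Or.inl hK00) (Or.inl hKt), mul_comm]
    exact hKv
  have hpow : (1 - v * c * c) ^ N ≤ η := by
    rw [hvq, hη, ENNReal.le_div_iff_mul_le (Or.inl hK00) (Or.inl hKt), mul_comm]
    exact (mul_le_mul_left hKle _).trans (n2.trans e21)
  obtain ⟨lam, hl0, hlt, -, hlam⟩ := NumK658.chooseLam C hC η hη0
  have hCq : C / u0 / lam ≠ ⊤ := ENNReal.div_ne_top (ENNReal.div_ne_top hC hu0) hl0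
  obtain ⟨s1, hs1⟩ := NumK658.chooseNat us hus (C / u0 / lam) hCq η hη0
  obtain ⟨s2, hs2⟩ := NumK658.chooseNat us hus C hC η hη0
  obtain ⟨H1, hH1⟩ := NumK658.chooseNat (fun i => ∑' k, tail (B5W.Lam ν u) (B5W.ht u) (i + k))
    (tails_tendsto _ _ h1 c hc hU hU1) N (ENNReal.natCast_ne_top N) η hη0
  refine ⟨K, hKpos, fun i0 => ⟨max s1 s2, max H1 1, fun H hH a ha w => ?_⟩⟩
  set s := max s1 s2 with hs
  have hHpos : 0 < H := lt_of_lt_of_le Nat.one_pos ((le_max_right H1 1).trans hH)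
  have haN : (2 * N + 1) * H ≤ a := by
    have h5 : 8 * ((2 * N + 1) * H) ≤ 8 * a := by
      calc 8 * ((2 * N + 1) * H) = (8 * (2 * N + 1)) * H := by ring
        _ ≤ K * H := Nat.mul_le_mul_right H hK8
        _ ≤ 8 * a := ha
    omega
  have hest := est ν u hE2 hE3 h1 hΛ c hc hup hdn v hv0 hv1 N H s a hHpos haN lam hl0 hlt w
  have t1 : C * (us s / (v * c * c) / lam) ≤ η := by
    refine le_trans (le_of_eq ?_) (hs1 s (le_max_left _ _))
    rw [hvq]; simp only [div_eq_mul_inv]; ring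
  have t2 : C * us s ≤ η := hs2 s (le_max_right _ _)
  have t3 : N * ov (B5W.Lam ν u) (B5W.ht u) H H ≤ η :=
    (mul_le_mul_right (ov_le _ _ h1 hU1 H H) _).trans (hH1 H ((le_max_left _ _).trans hH))
  calc ∑' L1 : List (PB u), (if Comp818.att (B5W.ht u) a L1 ∧ HT (B5W.ht u) L1 ≤ a + i0 then
          LW (B5W.Lam ν u) L1 * Comp818.WLp (B5W.Lam ν u) (B5W.ht u) (B5W.dl u) (B5W.cd u) H s
            (act (B5W.dl u) L1 w) else 0)
      ≤ ∑' L1 : List (PB u), (if Comp818.att (B5W.ht u) a L1 then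
          LW (B5W.Lam ν u) L1 * Comp818.WLp (B5W.Lam ν u) (B5W.ht u) (B5W.dl u) (B5W.cd u) H s
            (act (B5W.dl u) L1 w) else 0) := by
        refine ENNReal.tsum_le_tsum fun L => ?_
        by_cases hL : Comp818.att (B5W.ht u) a L ∧ HT (B5W.ht u) L ≤ a + i0
        · rw [if_pos hL, if_pos hL.1]
        · rw [if_neg hL]; exact zero_le
    _ ≤ v * v + 2 * ((1 - v * c * c) ^ N + N * ov (B5W.Lam ν u) (B5W.ht u) H H
        + C * (lam + us s / (v * c * c) / lam + us s)) := by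
        refine le_trans (le_of_eq (tsum_congr fun L => ite_any Iff.rfl _ _)) hest
    _ ≤ η + 2 * (η + η + (η + η + η)) := by
        refine add_le_add hvv (mul_le_mul_right (add_le_add (add_le_add hpow t3) ?_) _)
        rw [mul_add, mul_add]
        exact add_le_add (add_le_add hlam t1) t2
    _ = 11 * η := by ring
    _ ≤ 16 * η := mul_le_mul_left (by norm_num) _
    _ = ε1 / K := by
        rw [hη]
        simp only [div_eq_mul_inv]
        rw [show (16 : ℝ≥0∞) * (ε1 * 16⁻¹ * (K : ℝ≥0∞)⁻¹) = (16 * 16⁻¹) * (ε1 * (K : ℝ≥0∞)⁻¹) by ring,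
          ENNReal.mul_inv_cancel (by norm_num) (by norm_num), one_mul]
    _ ≤ ε / K := ENNReal.div_le_div_right (min_le_left _ _) _

end Crest.Agent.R154.HW481

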