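import Crest.Agent.R154.Win_692
import Crest.Agent.R154.Comp_818
import Crest.Agent.R154.NumK_658

/-! Row 154 (helper692): `hWin` of 818's composition from the density (`DensSt`) and the one-piece
input (`HPiece`). -/

set_option autoImplicit false

namespace Crest.Agent.R154.B5A

open scoped ENNReal
open Filter Topology

variable {B W : Type*} (Λ : B → ℝ≥0∞) (ht : B → ℕ) (dl : B → W → W) (cd : W → B → Set ℕ)

lemma FPL_of_att {a : ℕ} {L : List B} (h : Comp818.att ht a L) : FPL ht a L := by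
  refine ⟨h.1, fun L' hL' hne => ?_⟩
  have e := List.prefix_iff_eq_take.1 hL'
  have hl : L'.length < L.length := by
    rcases Nat.lt_or_ge L'.length L.length with h' | h'
    · exact h'
    · exact absurd (hL'.eq_of_length (le_antisymm hL'.length_le h')) hne
  rw [e]
  exact h.2 _ hl

/-- numeric choice -/
lemma num692 (c : ℝ≥0∞) (hc : c ≠ 0) (hc1 : c ≤ 1) (ε : ℝ≥0∞) (hε : ε ≠ 0) :
    ∃ (N : ℕ) (v : ℝ≥0∞), v ≠ 0 ∧ v ≤ c ∧ 200 * ((N : ℝ≥0∞) + 1) * (v * v) ≤ ε ∧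
      200 * ((N : ℝ≥0∞) + 1) * (1 - c * v) ^ N ≤ ε := by
  have hct : c ≠ ⊤ := ne_top_of_le_ne_top ENNReal.one_ne_top hc1
  set D : ℝ≥0∞ := (c ^ 4)⁻¹ with hD
  have hc4 : c ^ 4 ≠ 0 := pow_ne_zero _ hc
  have hc4' : c ^ 4 ≠ ⊤ := ENNReal.pow_ne_top hct
  have hDt : D ≠ ⊤ := ENNReal.inv_ne_top.2 hc4
  have hD1 : 1 ≤ D := by
    rw [hD, ENNReal.one_le_inv]
    exact pow_le_one₀ zero_le hc1
  obtain ⟨K, u, _, _, hu0, hu1, h1, h2⟩ := NumK658.chooseK1 (200 * D)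
    (ENNReal.mul_ne_top (by norm_num) hDt) (min ε 1) (by simp [hε]) 0
  have hK1 : (1 : ℝ≥0∞) ≤ (K : ℝ≥0∞) + 1 := le_add_self
  have hucc : u ^ 2 ≤ (c ^ 2) ^ 2 := by
    have h3 : D * u ^ 2 ≤ 1 := by
      calc D * u ^ 2 = (1 * D) * (1 * u ^ 2) := by rw [one_mul, one_mul]
        _ ≤ (200 * D) * (((K : ℝ≥0∞) + 1) * u ^ 2) := by
            gcongr
            norm_num
        _ ≤ 1 := h1.trans (min_le_right _ _)
    have h4 : u ^ 2 ≤ c ^ 4 := by
      calc u ^ 2 = c ^ 4 * (D * u ^ 2) := by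
            rw [← mul_assoc, hD, ENNReal.mul_inv_cancel hc4 hc4', one_mul]
        _ ≤ c ^ 4 * 1 := by gcongr
        _ = c ^ 4 := mul_one _
    calc u ^ 2 ≤ c ^ 4 := h4
      _ = (c ^ 2) ^ 2 := by ring
  have huc : u ≤ c ^ 2 := by
    by_contra hcon
    rw [not_le] at hcon
    exact absurd hucc (not_le.2 (ENNReal.pow_lt_pow_left (n := 2) (by norm_num) hcon))
  have hcv : c * (c⁻¹ * u) = u := by rw [← mul_assoc, ENNReal.mul_inv_cancel hc hct, one_mul]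
  refine ⟨K, c⁻¹ * u, mul_ne_zero (ENNReal.inv_ne_zero.2 hct) hu0, ?_, ?_, ?_⟩
  · calc c⁻¹ * u ≤ c⁻¹ * c ^ 2 := by gcongr
      _ = c := by rw [pow_two, ← mul_assoc, ENNReal.inv_mul_cancel hc hct, one_mul]
  · calc 200 * ((K : ℝ≥0∞) + 1) * (c⁻¹ * u * (c⁻¹ * u))
        = 200 * (c⁻¹ * c⁻¹) * (((K : ℝ≥0∞) + 1) * u ^ 2) := by ring
      _ ≤ 200 * D * (((K : ℝ≥0∞) + 1) * u ^ 2) := by
          gcongr
          rw [hD, ← ENNReal.mul_inv (Or.inl hc) (Or.inl hct)]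
          rw [ENNReal.inv_le_inv]
          calc c ^ 4 = c * c * (c * c) := by ring
            _ ≤ c * c * (1 * 1) := by gcongr
            _ = c * c := by ring
      _ ≤ ε := h1.trans (min_le_left _ _)
  · rw [hcv]
    calc 200 * ((K : ℝ≥0∞) + 1) * (1 - u) ^ K = 200 * 1 * (((K : ℝ≥0∞) + 1) * (1 - u) ^ K) := by ring
      _ ≤ 200 * D * (((K : ℝ≥0∞) + 1) * (1 - u) ^ K) := by gcongr
      _ ≤ ε := h2.trans (min_le_left _ _)

lemma tl_tendsto (h : ∑' k, tail Λ ht k ≠ ⊤) : Tendsto (fun i => tl Λ ht i) atTop (𝓝 0) := by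
  have := ENNReal.tendsto_sum_nat_add (fun k => tail Λ ht k) h
  refine this.congr fun i => ?_
  rw [tl]
  exact tsum_congr fun k => by rw [add_comm]

open Classical in
/-- the sum over the top lists, against one-piece crossings of height `h` -/
lemma hmain (h1 : ∀ b, 1 ≤ ht b) (hinj : ∀ b, Function.Injective (dl b))
    (hΛ : ∑' b, Λ b = 1) (c : ℝ≥0∞) (hU1 : ∀ n, U Λ ht n ≤ 1)
    (D : DensSt Λ ht dl) (A : ℝ≥0∞) (δ : ℕ → ℝ≥0∞) (HP : HPiece Λ ht dl cd c A δ)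
    (v : ℝ≥0∞) (hv : v ≠ 0) (hvc : v ≤ c) (lam : ℝ≥0∞) (hl : lam ≠ 0) (hl' : lam ≠ ⊤)
    (J s t a h : ℕ) (haJ : 5 * t * J ≤ a) (hht : h ≤ 4 * t) (w : W) :
    (∑' L1 : List B, (if FPL ht a L1 then LW Λ L1 * Comp818.WLp Λ ht dl cd h s (act dl L1 w) else 0))
      ≤ (A * (lam + J * δ s / lam + δ s) + ((1 - c * v) ^ J + J * tl Λ ht t))
          + (A * (lam + J * δ s / lam + δ s) + ((1 - c * v) ^ J + J * tl Λ ht t)) + v * v := by
  obtain ⟨lx, ly, hxy, hX, hY⟩ := HP v hv hvc h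
  have hbX := type_bound Λ ht dl cd h1 hΛ hU1 hinj D _ A δ h lx hX t J a s (by omega) haJ lam hl hl' w
  have hbY := type_bound Λ ht dl cd h1 hΛ hU1 hinj D _ A δ h ly hY t J a s (by omega) haJ lam hl hl' w
  have hinner : ∀ L1 : List B, Comp818.WLp Λ ht dl cd h s (act dl L1 w)
      ≤ FI Λ ht dl cd lx h s (act dl L1 w) + FI Λ ht dl cd ly h s (act dl L1 w) + v * v := by
    intro L1
    refine le_trans ?_ (add_le_add le_rfl hxy)
    rw [Comp818.WLp, FI, FI, ← ENNReal.tsum_add, ← ENNReal.tsum_add]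
    refine ENNReal.tsum_le_tsum fun Lp => ?_
    by_cases hL : HT ht Lp = h ∧ CD ht dl cd Lp (act dl L1 w) ≠ ∅ ∧
        (∀ k ∈ CD ht dl cd Lp (act dl L1 w), s < k ∧ k + s ≤ h)
    · rw [if_pos hL]
      by_cases hlx : lx Lp
      · rw [if_pos (c := HT ht Lp = h ∧ lx Lp ∧ _ ∧ _) ⟨hL.1, hlx, hL.2.1, hL.2.2⟩, add_assoc]
        exact le_self_add
      · by_cases hly : ly Lp
        · rw [if_pos (c := HT ht Lp = h ∧ ly Lp ∧ _ ∧ _) ⟨hL.1, hly, hL.2.1, hL.2.2⟩]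
          exact le_add_right le_add_self
        · rw [if_pos (c := HT ht Lp = h ∧ ¬ lx Lp ∧ ¬ ly Lp) ⟨hL.1, hlx, hly⟩]
          exact le_add_self
    · rw [if_neg hL]; exact zero_le
  calc (∑' L1 : List B, (if FPL ht a L1 then LW Λ L1 *
          Comp818.WLp Λ ht dl cd h s (act dl L1 w) else 0))
      ≤ ∑' L1 : List B, (if FPL ht a L1 then LW Λ L1 *
        (FI Λ ht dl cd lx h s (act dl L1 w) + FI Λ ht dl cd ly h s (act dl L1 w) + v * v)
          else 0) := by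
        refine ENNReal.tsum_le_tsum fun L1 => ?_
        by_cases hL1 : FPL ht a L1
        · rw [if_pos hL1, if_pos hL1]
          exact mul_le_mul_right (hinner L1) _
        · rw [if_neg hL1]; exact zero_le
    _ = ∑' w', nuF Λ ht dl a w w' *
        (FI Λ ht dl cd lx h s w' + FI Λ ht dl cd ly h s w' + v * v) :=
        (nuF_sum Λ ht dl a w (fun w' =>
          FI Λ ht dl cd lx h s w' + FI Λ ht dl cd ly h s w' + v * v)).symm
    _ = (∑' w', nuF Λ ht dl a w w' * FI Λ ht dl cd lx h s w')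
        + (∑' w', nuF Λ ht dl a w w' * FI Λ ht dl cd ly h s w')
        + (∑' w', nuF Λ ht dl a w w' * (v * v)) := by
        simp only [mul_add]
        rw [ENNReal.tsum_add, ENNReal.tsum_add]
    _ ≤ _ := by
        refine add_le_add (add_le_add hbX hbY) ?_
        have := nuF_sum Λ ht dl a w (fun _ => 1)
        simp only [mul_one] at this
        rw [ENNReal.tsum_mul_right, this, FPL_mass Λ ht h1 hΛ, one_mul]

open Classical in
/-- **hWin of 818's composition** -/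
theorem hwin (h1 : ∀ b, 1 ≤ ht b) (hinj : ∀ b, Function.Injective (dl b))
    (c : ℝ≥0∞) (hc : c ≠ 0) (hU : ∀ n, c ≤ U Λ ht n) (hU1 : ∀ n, U Λ ht n ≤ 1)
    (D : DensSt Λ ht dl) (A : ℝ≥0∞) (hA : A ≠ ⊤) (δ : ℕ → ℝ≥0∞) (hδ : Tendsto δ atTop (𝓝 0))
    (HP : HPiece Λ ht dl cd c A δ) :
    ∀ ε : ℝ≥0∞, ε ≠ 0 → ∃ K : ℕ, 1 ≤ K ∧ ∀ i0 : ℕ, ∃ s H0 : ℕ, ∀ H, H0 ≤ H → ∀ a, K * H ≤ 8 * a →
      ∀ w, (∑' L1 : List B, if Comp818.att ht a L1 ∧ HT ht L1 ≤ a + i0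
        then LW Λ L1 * Comp818.WLp Λ ht dl cd H s (act dl L1 w) else 0) ≤ ε / K := by
  intro ε hε
  have hcle : c ≤ 1 := (hU 0).trans (hU1 0)
  have hc' : c ≠ ⊤ := ne_top_of_le_ne_top ENNReal.one_ne_top hcle
  have hΛ : ∑' b, Λ b = 1 :=
    le_antisymm (mass_le_one Λ ht h1 hU1) (mass_ge_one Λ ht c hc 0 fun n _ => hU n)
  have hE : ∑' k, tail Λ ht k ≠ ⊤ := by
    rw [← sum_tail Λ ht hΛ]
    exact ne_top_of_le_ne_top (ENNReal.inv_ne_top.2 hc)
      (mean_le Λ ht h1 hΛ c hc hc' 0 fun n _ => hU n)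
  obtain ⟨N, v, hv, hvc, hn1, hn2⟩ := num692 c hc hcle ε hε
  refine ⟨20 * (N + 1), by omega, fun i0 => ?_⟩
  -- `η = ε / K / 5`
  set C : ℝ≥0∞ := 200 * ((N : ℝ≥0∞) + 1) with hC
  have hC0 : C ≠ 0 := by rw [hC]; simp
  have hCt : C ≠ ⊤ := by rw [hC]; finiteness
  set η : ℝ≥0∞ := ε / C with hη
  have hη0 : η ≠ 0 := by
    rw [hη, Ne, ENNReal.div_eq_zero_iff, not_or]; exact ⟨hε, hCt⟩
  have e1 : v * v ≤ η := by
    rw [hη, ENNReal.le_div_iff_mul_le (Or.inl hC0) (Or.inl hCt), mul_comm]; exact hn1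
  have e2 : (1 - c * v) ^ N ≤ η := by
    rw [hη, ENNReal.le_div_iff_mul_le (Or.inl hC0) (Or.inl hCt), mul_comm]; exact hn2
  obtain ⟨lam, hl, hl', _, hlA⟩ := NumK658.chooseLam A hA η hη0
  obtain ⟨s, hs⟩ := NumK658.chooseNat δ hδ (A * (N / lam + 1))
    (ENNReal.mul_ne_top hA (ENNReal.add_ne_top.2
      ⟨ENNReal.div_ne_top (ENNReal.natCast_ne_top N) hl, ENNReal.one_ne_top⟩)) η hη0
  obtain ⟨t0, ht0⟩ := NumK658.chooseNat (tl Λ ht) (tl_tendsto Λ ht hE) N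
    (ENNReal.natCast_ne_top N) η hη0
  refine ⟨s, 4 * t0 + 4, fun H hH a haK w => ?_⟩
  set t : ℕ := H / 4 + 1 with htdef
  have hm := hmain Λ ht dl cd h1 hinj hΛ c hU1 D A δ HP v hv hvc lam hl hl' N s t a H
    (by
      have h2 : t ≤ H / 2 := by omega
      have h3 : 5 * t * N ≤ 5 * (H / 2) * N := by gcongr
      have h4 : 2 * (H / 2) * N ≤ H * N := by gcongr; omega
      nlinarith) (by omega) w
  have e3 : A * (lam + N * δ s / lam + δ s) ≤ η + η := by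
    calc A * (lam + N * δ s / lam + δ s) = A * lam + A * (N / lam + 1) * δ s := by
          rw [ENNReal.div_eq_inv_mul, ENNReal.div_eq_inv_mul]; ring
      _ ≤ η + η := add_le_add hlA (hs s le_rfl)
  have e4 : (N : ℝ≥0∞) * tl Λ ht t ≤ η := ht0 t (by omega)
  calc (∑' L1 : List B, if Comp818.att ht a L1 ∧ HT ht L1 ≤ a + i0
        then LW Λ L1 * Comp818.WLp Λ ht dl cd H s (act dl L1 w) else 0)
      ≤ ∑' L1 : List B, (if FPL ht a L1 then LW Λ L1 *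
          Comp818.WLp Λ ht dl cd H s (act dl L1 w) else 0) := by
        refine ENNReal.tsum_le_tsum fun L1 => ?_
        by_cases hL : Comp818.att ht a L1 ∧ HT ht L1 ≤ a + i0
        · rw [if_pos hL, if_pos (FPL_of_att ht hL.1)]
        · rw [if_neg hL]; exact zero_le
    _ ≤ _ := hm
    _ ≤ (η + η + (η + η)) + (η + η + (η + η)) + η := by gcongr
    _ ≤ 10 * η := by
        have : (η + η + (η + η)) + (η + η + (η + η)) + η = 9 * η := by ring
        rw [this]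
        gcongr
        norm_num
    _ = ε / ((20 * (N + 1) : ℕ) : ℝ≥0∞) := by
        rw [hη, hC]
        push_cast
        have h200 : (200 : ℝ≥0∞) * ((N : ℝ≥0∞) + 1) = 10 * (20 * ((N : ℝ≥0∞) + 1)) := by ring
        rw [h200, ENNReal.div_eq_inv_mul, ENNReal.div_eq_inv_mul,
          ENNReal.mul_inv (Or.inl (by norm_num)) (Or.inl (by norm_num)), ← mul_assoc, ← mul_assoc,
          ENNReal.mul_inv_cancel (by norm_num) (by norm_num), one_mul]

end Crest.Agent.R154.B5A
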