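import Crest.Agent.R154.HWinB_912

/-! Row 154, ROAD 801, joint-cut frame (helper912): `hWin` of helper818's composition from the two
window lemmas at a common exact height. -/

set_option autoImplicit false

namespace Crest.Agent.R154.HWin912

open MeasureTheory ProbabilityTheory Crest.ProbabilityR.RandomEnvironment
open scoped ENNReal
open Finset
open Crest.Agent.R154.B5A Crest.Agent.R154.FP178 Crest.Agent.R154.B5W
open Crest.Agent.R154.Flux566 (endp endp_append endp_eq_add)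
open Crest.Agent.R154.NB28 (IsUp IsDn Cm)

variable {d : ℕ} (ν : Measure (Row d)) [IsProbabilityMeasure ν] (u : Step d)

open Classical in
/-- weight of the pairs of exact height `H`, `X` local -/
noncomputable def T2 (H s : ℕ) (E : Finset (Site d)) (x : Site d) : ℝ≥0∞ :=
  ∑' π : List (Step d), ∑' γ : List (Step d),
    (if IsUp u H π ∧ endp 0 π ∈ E ∧ IsDn u H γ ∧ (∃ k, k ∈ Cm u x π γ) ∧ (∀ k ∈ Cm u x π γ, s < k)
      then NB28.aw ν π * NB28.aw ν γ else 0)

open Classical in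
/-- weight of the pairs of exact height `H`, `Y` local -/
noncomputable def T3 (H s : ℕ) (E : Finset (Site d)) (x : Site d) : ℝ≥0∞ :=
  ∑' π : List (Step d), ∑' γ : List (Step d),
    (if IsUp u H π ∧ endp 0 γ ∈ E ∧ IsDn u H γ ∧ (∃ k, k ∈ Cm u x π γ) ∧
      (∀ k ∈ Cm u x π γ, k + s ≤ H) then NB28.aw ν π * NB28.aw ν γ else 0)

open Classical in
/-- window lemma (2) at a common exact height -/
def E2 (C : ℝ≥0∞) (us : ℕ → ℝ≥0∞) : Prop :=
  ∀ (s H : ℕ) (E : Finset (Site d)) (μ : Site d → ℝ≥0∞) (M lam : ℝ≥0∞),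
    ∑' x, μ x ≤ 1 → (∀ x, μ x ≤ M) → lam ≠ 0 → lam ≠ ⊤ →
    ∑' x : Site d, (if Flux132.lev u x = 0 then μ x * T2 ν u H s E x else 0)
      ≤ C * (lam + M * E.card * us s / lam + us s)

open Classical in
/-- window lemma (3) at a common exact height -/
def E3 (C : ℝ≥0∞) (us : ℕ → ℝ≥0∞) : Prop :=
  ∀ (s H : ℕ) (E : Finset (Site d)) (μ : Site d → ℝ≥0∞) (M lam : ℝ≥0∞),
    ∑' x, μ x ≤ 1 → (∀ x, μ x ≤ M) → lam ≠ 0 → lam ≠ ⊤ →
    ∑' x : Site d, (if Flux132.lev u x = 0 then μ x * T3 ν u H s E x else 0)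
      ≤ C * (lam + M * E.card * us s / lam + us s)

open Classical in
/-- weight of up crossings -/
noncomputable def aX (H : ℕ) (π : List (Step d)) : ℝ≥0∞ := if IsUp u H π then NB28.aw ν π else 0

open Classical in
/-- weight of down crossings -/
noncomputable def aY (H : ℕ) (γ : List (Step d)) : ℝ≥0∞ := if IsDn u H γ then NB28.aw ν γ else 0

/-- increment of a pair block -/
def gB (b : PB u) : Site d := endp 0 b.1.1 + endp 0 b.1.2

lemma act_val (L : List (PB u)) : ∀ w : Lat u, (act (dl u) L w).1 = w.1 + inc (gB u) L := by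
  induction L with
  | nil => intro w; simp [act, inc]
  | cons b L ih =>
    intro w
    rw [act, ih]
    simp only [inc, List.map_cons, List.sum_cons, gB]
    change w.1 + endp 0 b.1.1 + endp 0 b.1.2 + _ = _
    abel

lemma inc_cat (L : List (PB u)) : inc (gB u) L = endp 0 (cat L).1 + endp 0 (cat L).2 := by
  induction L with
  | nil => simp [inc, cat, endp]
  | cons b L ih =>
    simp only [inc, List.map_cons, List.sum_cons] at ih ⊢
    rw [ih]
    simp only [cat, pm, gB]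
    rw [endp_append, endp_append, endp_eq_add b.1.1 (endp 0 (cat L).1),
      endp_eq_add (cat L).2 (endp 0 b.1.2)]
    abel

open Classical in
/-- **three cases** -/
lemma WLp_le (H s : ℕ) (EX EY : Finset (Site d)) (w : Lat u) :
    Comp818.WLp (Lam ν u) (ht u) (dl u) (cd u) H s w
      ≤ T2 ν u H s EX w.1 + T3 ν u H s EY w.1
        + (∑' π, if endp 0 π ∈ EX then 0 else aX ν u H π)
          * (∑' γ, if endp 0 γ ∈ EY then 0 else aY ν u H γ) := by
  have h := tsum_L ν u H (fun x => if cds u x w.1 ≠ ∅ ∧ (∀ k ∈ cds u x w.1, s < k ∧ k + s ≤ H)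
    then 1 else 0)
  have h2 : Comp818.WLp (Lam ν u) (ht u) (dl u) (cd u) H s w
      = ∑' π : List (Step d), ∑' γ : List (Step d),
        if IsUp u H π ∧ IsDn u H γ then NB28.aw ν π * NB28.aw ν γ *
          (if cds u (π, γ) w.1 ≠ ∅ ∧ (∀ k ∈ cds u (π, γ) w.1, s < k ∧ k + s ≤ H) then 1 else 0)
          else 0 := by
    rw [← h, Comp818.WLp]
    refine tsum_congr fun L => ?_
    rw [CD_cat]
    by_cases h1 : HT (ht u) L = H
    · by_cases h3 : cds u (cat L) w.1 ≠ ∅ ∧ (∀ k ∈ cds u (cat L) w.1, s < k ∧ k + s ≤ H)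
      · rw [if_pos ⟨h1, h3⟩, if_pos h1, if_pos h3, mul_one]
      · rw [if_neg (fun h => h3 h.2), if_pos h1, if_neg h3, mul_zero]
    · rw [if_neg (fun h => h1 h.1), if_neg h1]
  rw [h2, T2, T3, ← ENNReal.tsum_mul_right, ← ENNReal.tsum_add, ← ENNReal.tsum_add]
  refine ENNReal.tsum_le_tsum fun π => ?_
  rw [← ENNReal.tsum_mul_left, ← ENNReal.tsum_add, ← ENNReal.tsum_add]
  refine ENNReal.tsum_le_tsum fun γ => ?_
  rw [cds_eq]
  by_cases hU : IsUp u H π ∧ IsDn u H γ
  · rw [if_pos hU]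
    by_cases hC : Cm u w.1 π γ ≠ ∅ ∧ (∀ k ∈ Cm u w.1 π γ, s < k ∧ k + s ≤ H)
    · rw [if_pos hC, mul_one]
      have hne : ∃ k, k ∈ Cm u w.1 π γ := Set.nonempty_iff_ne_empty.2 hC.1
      by_cases h1 : endp 0 π ∈ EX
      · rw [if_pos ⟨hU.1, h1, hU.2, hne, fun k hk => (hC.2 k hk).1⟩, add_assoc]
        exact le_self_add
      · by_cases h3 : endp 0 γ ∈ EY
        · rw [if_pos (c := IsUp u H π ∧ endp 0 γ ∈ EY ∧ IsDn u H γ ∧ _)
            ⟨hU.1, h3, hU.2, hne, fun k hk => (hC.2 k hk).2⟩]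
          exact le_add_right le_add_self
        · rw [if_neg h1, if_neg h3, aX, aY, if_pos hU.1, if_pos hU.2]
          exact le_add_self
    · rw [if_neg hC, mul_zero]; exact zero_le
  · rw [if_neg hU]; exact zero_le

end Crest.Agent.R154.HWin912
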