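import Crest.Agent.R154.HalfFin_419
import Crest.Agent.R154.Spine_796

/-! Row 154 (helper419): open input 1 of the spine (`HalfProp`) is proved. -/

set_option autoImplicit false

namespace Crest.Agent.R154.HalfFin

open MeasureTheory ProbabilityTheory Crest.ProbabilityR.RandomEnvironment

/-- **input 1 of the spine** -/
theorem halfProp : Spine.HalfProp := fun _ _ _ _ _ F ℓ h hℓ => halfSpace' F ℓ hℓ h

end Crest.Agent.R154.HalfFin
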