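import Crest.Agent.R154.FreeD_950

/-! Row 154, TILE_RUN, leaf T6b (hc), abstract middle: from
* (POP) population lemma for DETERMINISTIC laws (`hPop`; on the walk = `KS480.ksm_explicit`),
* (hb)  steepness of one block,
* (CE)  expected number of contacts, sup over the pair of starts OUTSIDE the sum over the units,
to the hypothesis `hc` of 993's `stage`, with 950's direct free range `Alive`. -/

set_option autoImplicit false
set_option linter.unusedSectionVars false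
set_option linter.deprecated false
set_option linter.unusedVariables false

namespace Crest.Agent.R154.HcE337

open MeasureTheory ProbabilityTheory Set Filter Finset
open Crest.Agent.R154.RatioR872 Crest.Agent.R154.RatioR872.KerSys Crest.Agent.R154.RatioS775
open Crest.Agent.R154.FreeD950
open scoped ENNReal

variable {S : Type*} [Countable S] {Ω : Type*} {m0 : MeasurableSpace Ω} {P : Measure Ω}

/-- energy of a weight against a kernel `χ` -/
noncomputable def EE (χ : S → S → ℝ≥0∞) (v : S → ℝ≥0∞) : ℝ≥0∞ :=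
  ∑' y, ∑' y', v y * v y' * χ y y'

/-- Fubini between the past and the fresh rows -/
lemma fub [IsProbabilityMeasure P] (A : KerSys S P) {c : ℕ} {α β : Type*} [MeasurableSpace α]
    [MeasurableSpace β] {V : Ω → α} {W : Ω → β} (hV : Measurable[A.F c] V)
    (hW : Measurable[A.H c] W) {Φ : α × β → ℝ≥0∞} (hΦ : Measurable Φ) :
    ∫⁻ ω, Φ (V ω, W ω) ∂P = ∫⁻ ω, ∫⁻ ω', Φ (V ω, W ω') ∂P ∂P := by
  have hV0 : Measurable V := hV.mono (A.F.le c) le_rfl
  have hW0 : Measurable W := hW.mono (A.H_le c) le_rfl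
  have hi : IndepFun V W P := by
    rw [IndepFun_iff_Indep]
    exact indep_of_indep_of_le_left (indep_of_indep_of_le_right (A.indep c)
      hW.comap_le) hV.comap_le
  have h1 := (indepFun_iff_map_prod_eq_prod_map_map hV0.aemeasurable hW0.aemeasurable).1 hi
  calc ∫⁻ ω, Φ (V ω, W ω) ∂P = ∫⁻ z, Φ z ∂(P.map fun ω => (V ω, W ω)) := by
        rw [lintegral_map hΦ (hV0.prodMk hW0)]
    _ = ∫⁻ z, Φ z ∂((P.map V).prod (P.map W)) := by rw [h1]
    _ = ∫⁻ x, ∫⁻ y, Φ (x, y) ∂(P.map W) ∂(P.map V) := by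
        have : IsProbabilityMeasure (P.map W) := Measure.isProbabilityMeasure_map hW0.aemeasurable
        rw [lintegral_prod _ hΦ.aemeasurable]
    _ = ∫⁻ ω, ∫⁻ y, Φ (V ω, y) ∂(P.map W) ∂P := by
        have : IsProbabilityMeasure (P.map W) := Measure.isProbabilityMeasure_map hW0.aemeasurable
        rw [lintegral_map hΦ.lintegral_prod_right' hV0]
    _ = _ := by
        refine lintegral_congr fun ω => ?_
        exact lintegral_map (f := fun y => Φ (V ω, y)) (hΦ.comp measurable_prodMk_left) hW0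

/-- `(1 - a)^M ≤ 8 / (a (M+1))^2` -/
lemma geo_poly {a : ℝ} (h0 : 0 < a) (h1 : a ≤ 1) (M : ℕ) :
    (1 - a) ^ M * (a * (M + 1)) ^ 2 ≤ 8 := by
  rcases Nat.eq_zero_or_pos M with rfl | hM
  · simp
    nlinarith
  have hM1 : (1 : ℝ) ≤ M := by exact_mod_cast hM
  have h2 : (1 - a) ^ M ≤ Real.exp (-(a * M)) := by
    calc (1 - a) ^ M ≤ (Real.exp (-a)) ^ M := by
          refine pow_le_pow_left₀ (by linarith) ?_ M
          have := Real.add_one_le_exp (-a)
          linarith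
      _ = Real.exp (-(a * M)) := by rw [← Real.exp_nat_mul]; congr 1; ring
  have h3 : (a * M) ^ 2 / 2 ≤ Real.exp (a * M) := by
    have := Real.pow_div_factorial_le_exp (a * M) (by positivity) 2
    simpa [Nat.factorial] using this
  have h4 : Real.exp (-(a * M)) * (a * M) ^ 2 ≤ 2 := by
    have h5 : Real.exp (-(a * M)) * ((a * M) ^ 2 / 2) ≤ 1 := by
      calc Real.exp (-(a * M)) * ((a * M) ^ 2 / 2)
          ≤ Real.exp (-(a * M)) * Real.exp (a * M) := by gcongr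
        _ = 1 := by rw [← Real.exp_add]; simp
    linarith
  have h6 : (a * (M + 1)) ^ 2 ≤ 4 * (a * M) ^ 2 := by
    have : a * (M + 1) ≤ 2 * (a * M) := by nlinarith
    calc (a * (M + 1)) ^ 2 ≤ (2 * (a * M)) ^ 2 := by gcongr
      _ = _ := by ring
  calc (1 - a) ^ M * (a * (M + 1)) ^ 2 ≤ Real.exp (-(a * M)) * (4 * (a * M) ^ 2) := by
        gcongr
    _ = 4 * (Real.exp (-(a * M)) * (a * M) ^ 2) := by ring
    _ ≤ 4 * 2 := by gcongr
    _ = 8 := by norm_num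

/-- the constant -/
noncomputable def CE (p cp : ℝ≥0∞) : ℝ≥0∞ := (8 / (p / 8) ^ 2) * (16 / p ^ 2 / cp) ^ 2

/-- (POP) for every number of rounds gives a quadratic bound -/
lemma pop_quad {A : KerSys S P} {c c2 : ℕ} {p cp : ℝ≥0∞} (hp0 : p ≠ 0) (hp1 : p ≤ 1)
    (hcp0 : cp ≠ 0) (hcpt : cp ≠ ∞) {χ : S → S → ℝ≥0∞}
    (hPop : ∀ v : S → ℝ≥0∞, (∀ y, y ∉ A.L c → v y = 0) → ∑' y, v y = 1 → ∀ M : ℕ,
      M * EE χ v ≤ cp → P {ω | ∑' y, v y * A.N c c2 ω y < p / 8} ≤ (1 - p / 8) ^ M)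
    [IsProbabilityMeasure P]
    {v : S → ℝ≥0∞} (hv : ∀ y, y ∉ A.L c → v y = 0) (hv0 : p / 4 ≤ ∑' y, v y)
    (hv1 : ∑' y, v y ≤ 1) :
    P {ω | ∑' y, v y * A.N c c2 ω y < p / 8 * ∑' y, v y} ≤ CE p cp * EE χ v ^ 2 := by
  set t : ℝ≥0∞ := ∑' y, v y with ht
  have hpt : p ≠ ∞ := ne_top_of_le_ne_top ENNReal.one_ne_top hp1
  have hp4 : p / 4 ≠ 0 := (ENNReal.div_pos hp0 (by norm_num)).ne'
  have ht0 : t ≠ 0 := fun h => hp4 (le_antisymm (h ▸ hv0) bot_le)
  have htt : t ≠ ∞ := ne_top_of_le_ne_top ENNReal.one_ne_top hv1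
  set a : ℝ≥0∞ := p / 8 with ha
  have ha0 : a ≠ 0 := (ENNReal.div_pos hp0 (by norm_num)).ne'
  have hat : a ≠ ∞ := ENNReal.div_ne_top hpt (by norm_num)
  have ha1 : a ≤ 1 := by
    rw [ha]
    exact ENNReal.div_le_of_le_mul (hp1.trans (by norm_num))
  -- the normalised law
  set u : S → ℝ≥0∞ := fun y => t⁻¹ * v y with hu
  have hu1 : ∑' y, u y = 1 := by
    simp only [hu]
    rw [ENNReal.tsum_mul_left, ← ht, ENNReal.inv_mul_cancel ht0 htt]
  have husupp : ∀ y, y ∉ A.L c → u y = 0 := fun y hy => by simp [hu, hv y hy]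
  have hEu : EE χ u ≤ 16 / p ^ 2 * EE χ v := by
    have e1 : EE χ u = (t⁻¹ * t⁻¹) * EE χ v := by
      unfold EE
      rw [← ENNReal.tsum_mul_left]
      refine tsum_congr fun y => ?_
      rw [← ENNReal.tsum_mul_left]
      refine tsum_congr fun y' => ?_
      simp only [hu]
      ring
    rw [e1]
    gcongr
    have h1 : t⁻¹ ≤ 4 / p := by
      calc t⁻¹ ≤ (p / 4)⁻¹ := ENNReal.inv_le_inv.2 hv0
        _ = 4 / p := ENNReal.inv_div (Or.inl (by norm_num)) (Or.inl (by norm_num))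
    calc t⁻¹ * t⁻¹ ≤ (4 / p) * (4 / p) := by gcongr
      _ = 16 / p ^ 2 := by
        rw [div_eq_mul_inv, div_eq_mul_inv, sq, ENNReal.mul_inv (Or.inl hp0) (Or.inl hpt)]
        ring_nf
  have hset : {ω | ∑' y, v y * A.N c c2 ω y < a * t}
      = {ω | ∑' y, u y * A.N c c2 ω y < p / 8} := by
    ext ω
    simp only [mem_setOf_eq, hu]
    have e2 : ∑' y, t⁻¹ * v y * A.N c c2 ω y = t⁻¹ * ∑' y, v y * A.N c c2 ω y := by
      rw [← ENNReal.tsum_mul_left]
      exact tsum_congr fun y => by ring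
    rw [e2, ← ENNReal.div_eq_inv_mul, ENNReal.div_lt_iff (Or.inl ht0) (Or.inl htt), ← ha]
  rw [hset]
  set e : ℝ≥0∞ := EE χ u with he
  have hCE0 : 8 / a ^ 2 ≠ 0 :=
    (ENNReal.div_pos (by norm_num) (ENNReal.pow_ne_top hat)).ne'
  -- reduce to a bound in `e`
  have hred : (8 / a ^ 2) * (e / cp) ^ 2 ≤ CE p cp * EE χ v ^ 2 := by
    unfold CE
    calc (8 / a ^ 2) * (e / cp) ^ 2 ≤ (8 / a ^ 2) * ((16 / p ^ 2 * EE χ v) / cp) ^ 2 := by gcongr
      _ = (8 / a ^ 2) * (16 / p ^ 2 / cp) ^ 2 * EE χ v ^ 2 := by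
          rw [div_eq_mul_inv (16 / p ^ 2 * EE χ v), div_eq_mul_inv (16 / p ^ 2) cp]
          ring
  refine le_trans ?_ hred
  -- rounds
  have hgeo : ∀ M : ℕ, M * e ≤ cp →
      P {ω | ∑' y, u y * A.N c c2 ω y < p / 8} * ((M : ℝ≥0∞) + 1) ^ 2 ≤ 8 / a ^ 2 := by
    intro M hM
    have h1 := hPop u husupp hu1 M hM
    rw [ENNReal.le_div_iff_mul_le (Or.inl (pow_ne_zero 2 ha0))
      (Or.inl (ENNReal.pow_ne_top hat))]
    have h3 := geo_poly (a := a.toReal) (ENNReal.toReal_pos ha0 hat)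
      (by have := ENNReal.toReal_mono ENNReal.one_ne_top ha1; simpa using this) M
    calc P {ω | ∑' y, u y * A.N c c2 ω y < p / 8} * ((M : ℝ≥0∞) + 1) ^ 2 * a ^ 2
        ≤ (1 - a) ^ M * ((M : ℝ≥0∞) + 1) ^ 2 * a ^ 2 := by gcongr
      _ = ENNReal.ofReal ((1 - a.toReal) ^ M * (a.toReal * (M + 1)) ^ 2) := by
          have e3 : (1 - a : ℝ≥0∞) = ENNReal.ofReal (1 - a.toReal) := by
            rw [ENNReal.ofReal_sub _ ENNReal.toReal_nonneg, ENNReal.ofReal_one,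
              ENNReal.ofReal_toReal hat]
          have e4 : ((M : ℝ≥0∞) + 1) = ENNReal.ofReal ((M : ℝ) + 1) := by
            rw [ENNReal.ofReal_add (by positivity) zero_le_one, ENNReal.ofReal_natCast,
              ENNReal.ofReal_one]
          have h5 : (0 : ℝ) ≤ 1 - a.toReal := by
            have := ENNReal.toReal_mono ENNReal.one_ne_top ha1
            simp at this
            linarith
          rw [ENNReal.ofReal_mul (by positivity), ENNReal.ofReal_pow h5,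
            ENNReal.ofReal_pow (by positivity), ENNReal.ofReal_mul ENNReal.toReal_nonneg, ← e3, ← e4,
            ENNReal.ofReal_toReal hat]
          ring
      _ ≤ ENNReal.ofReal 8 := ENNReal.ofReal_le_ofReal h3
      _ = 8 := by norm_num
  rcases eq_or_ne e 0 with he0 | he0
  · -- energy zero : all `M`
    have h1 : ∀ M : ℕ, P {ω | ∑' y, u y * A.N c c2 ω y < p / 8} * (M : ℝ≥0∞) ≤ 8 / a ^ 2 := by
      intro M
      refine le_trans ?_ (hgeo M (by simp [he0]))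
      gcongr
      calc (M : ℝ≥0∞) ≤ (M + 1) * 1 := by rw [mul_one]; exact le_self_add
        _ ≤ (M + 1) * (M + 1) := by gcongr; exact le_add_self
        _ = _ := (sq _).symm
    have h2 : P {ω | ∑' y, u y * A.N c c2 ω y < p / 8} = 0 := by
      by_contra hne
      have h3 : (8 / a ^ 2) ≠ ∞ := ENNReal.div_ne_top (by norm_num) (pow_ne_zero 2 ha0)
      obtain ⟨M, hM⟩ := ENNReal.exists_nat_mul_gt hne h3
      rw [mul_comm] at hM
      exact absurd (h1 M) (not_le.2 hM)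
    rw [h2]
    exact bot_le
  rcases eq_or_ne e ∞ with het | het
  · rw [het, ENNReal.top_div_of_ne_top hcpt, ENNReal.top_pow (by norm_num), ENNReal.mul_top hCE0]
    exact le_top
  -- `M = ⌊cp / e⌋`
  set r : ℝ≥0∞ := cp / e with hr
  have hrt : r ≠ ∞ := ENNReal.div_ne_top hcpt he0
  set M : ℕ := ⌊r.toNNReal⌋₊ with hM
  have hM1 : (M : ℝ≥0∞) ≤ r := by
    have : (M : NNReal) ≤ r.toNNReal := Nat.floor_le (zero_le)
    calc (M : ℝ≥0∞) = ((M : NNReal) : ℝ≥0∞) := by simp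
      _ ≤ (r.toNNReal : ℝ≥0∞) := by exact_mod_cast this
      _ = r := ENNReal.coe_toNNReal hrt
  have hM2 : r ≤ M + 1 := by
    have : r.toNNReal ≤ (M : NNReal) + 1 := (Nat.lt_floor_add_one _).le
    calc r = (r.toNNReal : ℝ≥0∞) := (ENNReal.coe_toNNReal hrt).symm
      _ ≤ (((M : NNReal) + 1 : NNReal) : ℝ≥0∞) := by exact_mod_cast this
      _ = M + 1 := by push_cast; rfl
  have hMe : M * e ≤ cp := by
    calc M * e ≤ r * e := by gcongr
      _ = cp := by rw [hr]; exact ENNReal.div_mul_cancel he0 het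
  have h1 := hgeo M hMe
  have hr0 : r ≠ 0 := (ENNReal.div_pos hcp0 het).ne'
  have h2 : P {ω | ∑' y, u y * A.N c c2 ω y < p / 8} * r ^ 2 ≤ 8 / a ^ 2 :=
    le_trans (by gcongr) h1
  have h3 : e / cp = r⁻¹ := by
    rw [hr, ENNReal.inv_div (Or.inl het) (Or.inl he0)]
  rw [h3]
  calc P {ω | ∑' y, u y * A.N c c2 ω y < p / 8}
      = P {ω | ∑' y, u y * A.N c c2 ω y < p / 8} * (r ^ 2 * (r ^ 2)⁻¹) := by
        rw [ENNReal.mul_inv_cancel (pow_ne_zero 2 hr0) (ENNReal.pow_ne_top hrt), mul_one]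
    _ = (P {ω | ∑' y, u y * A.N c c2 ω y < p / 8} * r ^ 2) * (r ^ 2)⁻¹ := by ring
    _ ≤ 8 / a ^ 2 * (r ^ 2)⁻¹ := by gcongr
    _ = 8 / a ^ 2 * r⁻¹ ^ 2 := by rw [ENNReal.inv_pow]

/-- population bound for a random weight and every `F c`-event -/
lemma core_level [IsProbabilityMeasure P] {A : KerSys S P} {c c2 : ℕ} (hcc : c ≤ c2)
    {p cp : ℝ≥0∞} (hp0 : p ≠ 0) (hp1 : p ≤ 1)
    (hcp0 : cp ≠ 0) (hcpt : cp ≠ ∞) {χ : S → S → ℝ≥0∞}
    (hPop : ∀ v : S → ℝ≥0∞, (∀ y, y ∉ A.L c → v y = 0) → ∑' y, v y = 1 → ∀ M : ℕ,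
      M * EE χ v ≤ cp → P {ω | ∑' y, v y * A.N c c2 ω y < p / 8} ≤ (1 - p / 8) ^ M)
    {w : Ω → S → ℝ≥0∞} (hw : A.Wt c w) (hw1 : ∀ ω, tot w ω ≤ 1)
    {B : Set Ω} (hB : MeasurableSet[A.F c] B) (hBp : ∀ ω ∈ B, p / 4 ≤ tot w ω) :
    P (B ∩ {ω | ∑' y, w ω y * A.N c c2 ω y < p / 8 * tot w ω})
      ≤ ∫⁻ ω in B, CE p cp * EE χ (w ω) ^ 2 ∂P := by
  classical
  have hB0 : MeasurableSet B := A.F.le c _ hB
  have hw0 : ∀ y, Measurable fun ω => w ω y := fun y => (hw.meas y).mono (A.F.le c) le_rfl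
  have hN0 : ∀ y, Measurable fun ω => A.N c c2 ω y :=
    fun y => (A.meas_N_H hcc y).mono (A.H_le c) le_rfl
  -- the functional
  set E : Set ((ℝ≥0∞ × (S → ℝ≥0∞)) × (S → ℝ≥0∞)) :=
    {z | ∑' y, z.1.2 y * z.2 y < p / 8 * ∑' y, z.1.2 y} with hE
  have hEm : MeasurableSet E := by
    refine measurableSet_lt ?_ ?_
    · refine Measurable.ennreal_tsum fun y => ?_
      exact ((measurable_pi_apply y).comp (measurable_snd.comp measurable_fst)).mul
        ((measurable_pi_apply y).comp measurable_snd)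
    · refine Measurable.const_mul (Measurable.ennreal_tsum fun y => ?_) _
      exact (measurable_pi_apply y).comp (measurable_snd.comp measurable_fst)
  set Φ : (ℝ≥0∞ × (S → ℝ≥0∞)) × (S → ℝ≥0∞) → ℝ≥0∞ := fun z => z.1.1 * E.indicator 1 z with hΦ
  have hΦm : Measurable Φ :=
    (measurable_fst.comp measurable_fst).mul (measurable_one.indicator hEm)
  set V : Ω → ℝ≥0∞ × (S → ℝ≥0∞) := fun ω => (B.indicator 1 ω, fun y => w ω y) with hV
  have hVm : Measurable[A.F c] V := by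
    have h1 : Measurable[A.F c] (B.indicator (1 : Ω → ℝ≥0∞)) :=
      (@measurable_one _ _ _ (A.F c) _).indicator hB
    have h2 : Measurable[A.F c] (fun ω => (fun y => w ω y : S → ℝ≥0∞)) :=
      (@measurable_pi_iff Ω S (fun _ => ℝ≥0∞) (A.F c) _ _).2 fun y => hw.meas y
    exact @Measurable.prodMk Ω (A.F c) _ _ _ _ _ _ h1 h2
  set W : Ω → (S → ℝ≥0∞) := fun ω y => A.N c c2 ω y with hW
  have hWm : Measurable[A.H c] W :=
    (@measurable_pi_iff Ω S (fun _ => ℝ≥0∞) (A.H c) _ _).2 fun y => A.meas_N_H hcc y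
  have key := fub A hVm hWm hΦm
  have hEB : MeasurableSet (B ∩ {ω | ∑' y, w ω y * A.N c c2 ω y < p / 8 * tot w ω}) := by
    refine hB0.inter (measurableSet_lt ?_ ?_)
    · exact Measurable.ennreal_tsum fun y => (hw0 y).mul (hN0 y)
    · exact (hw.meas_tot.mono (A.F.le c) le_rfl).const_mul _
  have e1 : P (B ∩ {ω | ∑' y, w ω y * A.N c c2 ω y < p / 8 * tot w ω})
      = ∫⁻ ω, Φ (V ω, W ω) ∂P := by
    rw [← lintegral_indicator_one hEB]
    refine lintegral_congr fun ω => ?_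
    by_cases h1 : ω ∈ B
    · by_cases h2 : ∑' y, w ω y * A.N c c2 ω y < p / 8 * tot w ω
      · rw [indicator_of_mem (show ω ∈ B ∩ _ from ⟨h1, h2⟩)]
        have h3 : (V ω, W ω) ∈ E := h2
        have h4 : Φ (V ω, W ω) = B.indicator 1 ω * E.indicator 1 (V ω, W ω) := rfl
        rw [h4, indicator_of_mem h1, indicator_of_mem h3]
        simp
      · rw [indicator_of_notMem (fun h => h2 h.2)]
        have h3 : (V ω, W ω) ∉ E := h2
        simp only [hΦ, indicator_of_notMem h3, mul_zero]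
    · rw [indicator_of_notMem (fun h => h1 h.1)]
      simp only [hΦ, hV, indicator_of_notMem h1, zero_mul]
  rw [e1, key, ← lintegral_indicator hB0]
  refine lintegral_mono fun ω => ?_
  by_cases h1 : ω ∈ B
  · rw [indicator_of_mem h1]
    have h2 : ∫⁻ ω', Φ (V ω, W ω') ∂P
        = P {ω' | ∑' y, w ω y * A.N c c2 ω' y < p / 8 * ∑' y, w ω y} := by
      have hm : MeasurableSet {ω' | ∑' y, w ω y * A.N c c2 ω' y < p / 8 * ∑' y, w ω y} :=
        measurableSet_lt (Measurable.ennreal_tsum fun y => (hN0 y).const_mul _) measurable_const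
      rw [← lintegral_indicator_one hm]
      refine lintegral_congr fun ω' => ?_
      by_cases h2 : ∑' y, w ω y * A.N c c2 ω' y < p / 8 * ∑' y, w ω y
      · rw [indicator_of_mem (show ω' ∈ {ω' | ∑' y, w ω y * A.N c c2 ω' y
          < p / 8 * ∑' y, w ω y} from h2)]
        have h3 : (V ω, W ω') ∈ E := h2
        have h4 : Φ (V ω, W ω') = B.indicator 1 ω * E.indicator 1 (V ω, W ω') := rfl
        rw [h4, indicator_of_mem h1, indicator_of_mem h3]
        simp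
      · rw [indicator_of_notMem (show ω' ∉ {ω' | ∑' y, w ω y * A.N c c2 ω' y
          < p / 8 * ∑' y, w ω y} from h2)]
        have h3 : (V ω, W ω') ∉ E := h2
        simp only [hΦ, indicator_of_notMem h3, mul_zero]
    change ∫⁻ ω', Φ (V ω, W ω') ∂P ≤ _
    rw [h2]
    exact pop_quad hp0 hp1 hcp0 hcpt hPop (fun y hy => hw.supp ω y hy) (hBp ω h1) (hw1 ω)
  · rw [indicator_of_notMem h1]
    change ∫⁻ ω', Φ (V ω, W ω') ∂P ≤ 0
    simp [hΦ, hV, indicator_of_notMem h1]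

lemma meas_EE {m : MeasurableSpace Ω} (χ : S → S → ℝ≥0∞) {w : Ω → S → ℝ≥0∞}
    (hw : ∀ y, Measurable[m] fun ω => w ω y) : Measurable[m] fun ω => EE χ (w ω) := by
  unfold EE
  exact Measurable.ennreal_tsum fun y => Measurable.ennreal_tsum fun y' =>
    ((hw y).mul (hw y')).mul_const _

/-- mean energy of a pushed weight -/
lemma mean_EE {A : KerSys S P} {a b : ℕ} (hab : a ≤ b) {w : Ω → S → ℝ≥0∞} (hw : A.Wt a w)
    {φ : Ω → ℝ≥0∞} (hφ : Measurable[A.F a] φ) (χ : S → S → ℝ≥0∞) :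
    ∫⁻ ω, φ ω * EE χ (A.push a b w ω) ∂P
      = ∑' x, ∑' x', (∫⁻ ω, φ ω * w ω x * w ω x' ∂P) *
        ∫⁻ ω, ∑' z, ∑' z', A.G a b ω x z * A.G a b ω x' z' * χ z z' ∂P := by
  have hφ0 : Measurable φ := hφ.mono (A.F.le a) le_rfl
  have hw0 : ∀ x, Measurable fun ω => w ω x := fun x => (hw.meas x).mono (A.F.le a) le_rfl
  have hG0 : ∀ x z, Measurable fun ω => A.G a b ω x z :=
    fun x z => (A.measH a b x z hab).mono (A.H_le a) le_rfl
  have h1 : ∀ ω, φ ω * EE χ (A.push a b w ω)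
      = ∑' x, ∑' x', (φ ω * w ω x * w ω x') *
        ∑' z, ∑' z', A.G a b ω x z * A.G a b ω x' z' * χ z z' := by
    intro ω
    have e1 : ∀ z z', A.push a b w ω z * A.push a b w ω z' * χ z z'
        = ∑' x, ∑' x', (w ω x * w ω x') * (A.G a b ω x z * A.G a b ω x' z' * χ z z') := by
      intro z z'
      unfold push
      rw [← ENNReal.tsum_mul_right, ← ENNReal.tsum_mul_right]
      refine tsum_congr fun x => ?_
      rw [← ENNReal.tsum_mul_left, ← ENNReal.tsum_mul_right]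
      exact tsum_congr fun x' => by ring
    unfold EE
    simp_rw [e1]
    have e2 : ∑' z, ∑' z', ∑' x, ∑' x', (w ω x * w ω x') *
          (A.G a b ω x z * A.G a b ω x' z' * χ z z')
        = ∑' x, ∑' x', ∑' z, ∑' z', (w ω x * w ω x') *
          (A.G a b ω x z * A.G a b ω x' z' * χ z z') := by
      calc _ = ∑' z, ∑' x, ∑' z', ∑' x', (w ω x * w ω x') *
          (A.G a b ω x z * A.G a b ω x' z' * χ z z') := tsum_congr fun z => ENNReal.tsum_comm
        _ = ∑' x, ∑' z, ∑' z', ∑' x', (w ω x * w ω x') *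
          (A.G a b ω x z * A.G a b ω x' z' * χ z z') := ENNReal.tsum_comm
        _ = ∑' x, ∑' z, ∑' x', ∑' z', (w ω x * w ω x') *
          (A.G a b ω x z * A.G a b ω x' z' * χ z z') :=
            tsum_congr fun x => tsum_congr fun z => ENNReal.tsum_comm
        _ = _ := tsum_congr fun x => ENNReal.tsum_comm
    rw [e2, ← ENNReal.tsum_mul_left]
    refine tsum_congr fun x => ?_
    rw [← ENNReal.tsum_mul_left]
    refine tsum_congr fun x' => ?_
    rw [← ENNReal.tsum_mul_left, ← ENNReal.tsum_mul_left]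
    refine tsum_congr fun z => ?_
    rw [← ENNReal.tsum_mul_left, ← ENNReal.tsum_mul_left]
    exact tsum_congr fun z' => by ring
  have hF2 : ∀ x x', Measurable[A.F a] fun ω => φ ω * w ω x * w ω x' :=
    fun x x' => (hφ.mul (hw.meas x)).mul (hw.meas x')
  have hH2 : ∀ x x', Measurable[A.H a] fun ω =>
      ∑' z, ∑' z', A.G a b ω x z * A.G a b ω x' z' * χ z z' :=
    fun x x' => Measurable.ennreal_tsum fun z => Measurable.ennreal_tsum fun z' =>
      ((A.measH a b x z hab).mul (A.measH a b x' z' hab)).mul_const _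
  have hm2 : ∀ x x', Measurable fun ω => φ ω * w ω x * w ω x' :=
    fun x x' => (hφ0.mul (hw0 x)).mul (hw0 x')
  have hm3 : ∀ x x', Measurable fun ω =>
      ∑' z, ∑' z', A.G a b ω x z * A.G a b ω x' z' * χ z z' :=
    fun x x' => (hH2 x x').mono (A.H_le a) le_rfl
  have hm5 : ∀ x x', Measurable fun ω => (φ ω * w ω x * w ω x') *
      ∑' z, ∑' z', A.G a b ω x z * A.G a b ω x' z' * χ z z' :=
    fun x x' => (hm2 x x').mul (hm3 x x')
  simp_rw [h1]
  rw [lintegral_tsum (fun x => (Measurable.ennreal_tsum fun x' => hm5 x x').aemeasurable)]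
  refine tsum_congr fun x => ?_
  rw [lintegral_tsum (fun x' => (hm5 x x').aemeasurable)]
  exact tsum_congr fun x' => A.indep_mul (hF2 x x') (hH2 x x')

/-- **sum over the levels**: sup over the pair of starts OUTSIDE the sum -/
lemma sum_EE {A : KerSys S P} {a : ℕ} {ι : Type*} (I : Finset ι) (lv : ι → ℕ)
    (hlv : ∀ i ∈ I, a ≤ lv i) {w : Ω → S → ℝ≥0∞} (hw : A.Wt a w) (hw1 : ∀ ω, tot w ω ≤ 1)
    {φ : Ω → ℝ≥0∞} (hφ : Measurable[A.F a] φ) (χ : ι → S → S → ℝ≥0∞) {C : ℝ≥0∞}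
    (hC : ∀ x ∈ A.L a, ∀ x' ∈ A.L a, ∑ i ∈ I,
      ∫⁻ ω, ∑' z, ∑' z', A.G a (lv i) ω x z * A.G a (lv i) ω x' z' * χ i z z' ∂P ≤ C) :
    ∑ i ∈ I, ∫⁻ ω, φ ω * EE (χ i) (A.push a (lv i) w ω) ∂P ≤ C * ∫⁻ ω, φ ω ∂P := by
  have hφ0 : Measurable φ := hφ.mono (A.F.le a) le_rfl
  have hw0 : ∀ x, Measurable fun ω => w ω x := fun x => (hw.meas x).mono (A.F.le a) le_rfl
  have hm2 : ∀ x x', Measurable fun ω => φ ω * w ω x * w ω x' :=
    fun x x' => (hφ0.mul (hw0 x)).mul (hw0 x')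
  have h1 : ∑ i ∈ I, ∫⁻ ω, φ ω * EE (χ i) (A.push a (lv i) w ω) ∂P
      = ∑' x, ∑' x', (∫⁻ ω, φ ω * w ω x * w ω x' ∂P) * ∑ i ∈ I,
        ∫⁻ ω, ∑' z, ∑' z', A.G a (lv i) ω x z * A.G a (lv i) ω x' z' * χ i z z' ∂P := by
    rw [Finset.sum_congr rfl fun i hi => mean_EE (hlv i hi) hw hφ (χ i)]
    rw [← Summable.tsum_finsetSum fun i _ => ENNReal.summable]
    refine tsum_congr fun x => ?_
    rw [← Summable.tsum_finsetSum fun i _ => ENNReal.summable]
    refine tsum_congr fun x' => ?_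
    rw [Finset.mul_sum]
  have h2 : ∑' x, ∑' x', (∫⁻ ω, φ ω * w ω x * w ω x' ∂P) ≤ ∫⁻ ω, φ ω ∂P := by
    have h3 : ∑' x, ∑' x', (∫⁻ ω, φ ω * w ω x * w ω x' ∂P)
        = ∫⁻ ω, ∑' x, ∑' x', φ ω * w ω x * w ω x' ∂P := by
      rw [lintegral_tsum (fun x => (Measurable.ennreal_tsum fun x' => hm2 x x').aemeasurable)]
      refine tsum_congr fun x => ?_
      rw [lintegral_tsum (fun x' => (hm2 x x').aemeasurable)]
    rw [h3]
    refine lintegral_mono fun ω => ?_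
    calc ∑' x, ∑' x', φ ω * w ω x * w ω x' = φ ω * (tot w ω * tot w ω) := by
          unfold tot
          rw [← ENNReal.tsum_mul_right, ← ENNReal.tsum_mul_left]
          refine tsum_congr fun x => ?_
          rw [← ENNReal.tsum_mul_left, ← ENNReal.tsum_mul_left]
          exact tsum_congr fun x' => by ring
      _ ≤ φ ω * (1 * 1) := by gcongr <;> exact hw1 ω
      _ = φ ω := by simp
  rw [h1]
  calc _ ≤ ∑' x, ∑' x', (∫⁻ ω, φ ω * w ω x * w ω x' ∂P) * C := by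
        refine ENNReal.tsum_le_tsum fun x => ENNReal.tsum_le_tsum fun x' => ?_
        by_cases hx : x ∈ A.L a
        · by_cases hx' : x' ∈ A.L a
          · gcongr
            exact hC x hx x' hx'
          · simp [hw.supp _ x' hx']
        · simp [hw.supp _ x hx]
    _ = (∑' x, ∑' x', (∫⁻ ω, φ ω * w ω x * w ω x' ∂P)) * C := by
        simp_rw [ENNReal.tsum_mul_right]
    _ ≤ (∫⁻ ω, φ ω ∂P) * C := by gcongr
    _ = _ := mul_comm _ _

/-- steepness of the block `cm → c2` (strengths `> x`, `q = e^{-x}`) -/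
def Stp (A : KerSys S P) (μ : S → ℝ≥0∞) (cm c2 : ℕ) (q : ℝ≥0∞) : Set Ω :=
  {ω | A.Sh μ cm ω ≠ 0 ∧ A.Sh μ c2 ω ≤ q * A.Sh μ cm ω}

/-- one sub-level `L`, one bottom `c` -/
lemma one_pair [IsProbabilityMeasure P] {A : KerSys S P} {L c cm c2 : ℕ} (hLc : L ≤ c)
    (hcm : c ≤ cm) (hm2 : cm ≤ c2) {p cp : ℝ≥0∞} (hp0 : p ≠ 0) (hp1 : p ≤ 1)
    (hcp0 : cp ≠ 0) (hcpt : cp ≠ ∞) {χ : S → S → ℝ≥0∞}
    (hPop : ∀ v : S → ℝ≥0∞, (∀ y, y ∉ A.L c → v y = 0) → ∑' y, v y = 1 → ∀ M : ℕ,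
      M * EE χ v ≤ cp → P {ω | ∑' y, v y * A.N c c2 ω y < p / 8} ≤ (1 - p / 8) ^ M)
    {μ : S → ℝ≥0∞} (hμ : A.Start μ) {q : ℝ≥0∞} (hq : q < p ^ 2 / 32)
    {ζ τ : ℝ≥0∞} (hτ0 : τ ≠ 0) (hτt : τ ≠ ∞)
    (hb : ∀ B, MeasurableSet[A.F c] B → P (B ∩ Stp A μ cm c2 q) ≤ ζ * P B)
    {B : Set Ω} (hB : MeasurableSet[A.F L] B) :
    P (B ∩ ({ω | p / 4 ≤ tot (A.push L c (A.exitW μ L)) ω} ∩ Stp A μ cm c2 q))
      ≤ (CE p cp * τ + ζ / τ) *
        ∫⁻ ω, B.indicator 1 ω * EE χ (A.push L c (A.exitW μ L) ω) ∂P := by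
  classical
  have hc2 : c ≤ c2 := hcm.trans hm2
  set w : Ω → S → ℝ≥0∞ := A.push L c (A.exitW μ L) with hw
  have hwW : A.Wt c w := (wt_exitW hμ L).push hLc
  have hw1 : ∀ ω, tot w ω ≤ 1 := fun ω =>
    (A.tot_push_le hLc _ ω).trans (tot_exitW_le μ L ω)
  have hBc : MeasurableSet[A.F c] B := A.F.mono hLc _ hB
  have hB0 : MeasurableSet B := A.F.le c _ hBc
  have hEEm : Measurable[A.F c] fun ω => EE χ (w ω) := meas_EE χ hwW.meas
  set D : Set Ω := {ω | p / 4 ≤ tot w ω} with hD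
  have hDm : MeasurableSet[A.F c] D :=
    @measurableSet_le _ _ _ _ _ (A.F c) _ _ _ _ _ (@measurable_const _ _ _ (A.F c) _) hwW.meas_tot
  set Lo : Set Ω := {ω | EE χ (w ω) ≤ τ} with hLo
  have hLom : MeasurableSet[A.F c] Lo :=
    @measurableSet_le _ _ _ _ _ (A.F c) _ _ _ _ _ hEEm (@measurable_const _ _ _ (A.F c) _)
  set B1 : Set Ω := (B ∩ D) ∩ Lo with hB1
  set B2 : Set Ω := (B ∩ D) ∩ Loᶜ with hB2
  have hB1m : MeasurableSet[A.F c] B1 := (hBc.inter hDm).inter hLom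
  have hB2m : MeasurableSet[A.F c] B2 := (hBc.inter hDm).inter hLom.compl
  set J : ℝ≥0∞ := ∫⁻ ω, B.indicator 1 ω * EE χ (w ω) ∂P with hJ
  -- steep forces a low mass
  have hlow : ∀ᵐ ω ∂P, ω ∈ B1 ∩ Stp A μ cm c2 q →
      ω ∈ B1 ∩ {ω | ∑' y, w ω y * A.N c c2 ω y < p / 8 * tot w ω} := by
    filter_upwards [Sh_ge hμ hLc hc2] with ω hω
    rintro ⟨h1, h2, h3⟩
    refine ⟨h1, ?_⟩
    by_contra hcon
    have hcon' : p / 8 * tot w ω ≤ ∑' y, w ω y * A.N c c2 ω y := not_lt.1 hcon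
    have h4 : p / 4 ≤ tot w ω := h1.1.2
    rw [tot_push] at hω
    have h5 : p ^ 2 / 32 ≤ ∑' y, w ω y * A.N c c2 ω y := by
      refine le_trans ?_ hcon'
      calc p ^ 2 / 32 = p / 8 * (p / 4) := by
            rw [div_eq_mul_inv, div_eq_mul_inv, div_eq_mul_inv]
            have : (32 : ℝ≥0∞)⁻¹ = 8⁻¹ * 4⁻¹ := by
              rw [← ENNReal.mul_inv (Or.inl (by norm_num)) (Or.inl (by norm_num))]
              norm_num
            rw [this]
            ring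
        _ ≤ _ := by gcongr
    have h6 : A.Sh μ cm ω ≤ A.Sh μ L ω := Sh_anti (hLc.trans hcm) ω
    have hfin : A.Sh μ cm ω ≠ ∞ := ne_top_of_le_ne_top ENNReal.one_ne_top (Sh_le_one hμ cm ω)
    have h7 : A.Sh μ cm ω * (p ^ 2 / 32) ≤ q * A.Sh μ cm ω := by
      calc A.Sh μ cm ω * (p ^ 2 / 32) ≤ A.Sh μ L ω * ∑' y, w ω y * A.N c c2 ω y := by gcongr
        _ ≤ A.Sh μ c2 ω := hω
        _ ≤ _ := h3
    rw [mul_comm q] at h7
    have h8 : p ^ 2 / 32 ≤ q := (ENNReal.mul_le_mul_iff_right h2 hfin).1 h7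
    exact absurd h8 (not_le.2 hq)
  have l1 : P (B1 ∩ Stp A μ cm c2 q) ≤ CE p cp * τ * J := by
    calc P (B1 ∩ Stp A μ cm c2 q)
        ≤ P (B1 ∩ {ω | ∑' y, w ω y * A.N c c2 ω y < p / 8 * tot w ω}) :=
          measure_mono_ae hlow
      _ ≤ ∫⁻ ω in B1, CE p cp * EE χ (w ω) ^ 2 ∂P :=
          core_level hc2 hp0 hp1 hcp0 hcpt hPop hwW hw1 hB1m (fun ω hω => hω.1.2)
      _ = ∫⁻ ω, B1.indicator (fun ω => CE p cp * EE χ (w ω) ^ 2) ω ∂P := by
          rw [lintegral_indicator (A.F.le c _ hB1m)]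
      _ ≤ ∫⁻ ω, CE p cp * τ * (B.indicator 1 ω * EE χ (w ω)) ∂P := by
          refine lintegral_mono fun ω => ?_
          by_cases h1 : ω ∈ B1
          · rw [indicator_of_mem h1, indicator_of_mem h1.1.1]
            have h2 : EE χ (w ω) ≤ τ := h1.2
            calc CE p cp * EE χ (w ω) ^ 2 = CE p cp * EE χ (w ω) * EE χ (w ω) := by ring
              _ ≤ CE p cp * τ * EE χ (w ω) := by gcongr
              _ = _ := by simp
          · rw [indicator_of_notMem h1]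
            exact bot_le
      _ = _ := by
          rw [lintegral_const_mul]
          exact (measurable_one.indicator hB0).mul (hEEm.mono (A.F.le c) le_rfl)
  have l2 : P (B2 ∩ Stp A μ cm c2 q) ≤ ζ / τ * J := by
    have h1 := hb B2 hB2m
    have h2 : P B2 ≤ τ⁻¹ * J := by
      rw [hJ, ← lintegral_const_mul, ← lintegral_indicator_one (A.F.le c _ hB2m)]
      · refine lintegral_mono fun ω => ?_
        by_cases h1 : ω ∈ B2
        · rw [indicator_of_mem h1, indicator_of_mem h1.1.1]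
          have h2 : τ ≤ EE χ (w ω) := (not_le.1 (show ¬ EE χ (w ω) ≤ τ from h1.2)).le
          simp only [Pi.one_apply, one_mul]
          calc (1 : ℝ≥0∞) = τ⁻¹ * τ := (ENNReal.inv_mul_cancel hτ0 hτt).symm
            _ ≤ _ := by gcongr
        · rw [indicator_of_notMem h1]
          exact bot_le
      · exact (measurable_one.indicator hB0).mul (hEEm.mono (A.F.le c) le_rfl)
    calc P (B2 ∩ Stp A μ cm c2 q) ≤ ζ * P B2 := h1
      _ ≤ ζ * (τ⁻¹ * J) := by gcongr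
      _ = _ := by rw [div_eq_mul_inv, mul_assoc]
  have hsub : B ∩ (D ∩ Stp A μ cm c2 q) ⊆ (B1 ∩ Stp A μ cm c2 q) ∪ (B2 ∩ Stp A μ cm c2 q) := by
    rintro ω ⟨h1, h2, h3⟩
    by_cases h4 : ω ∈ Lo
    · exact Or.inl ⟨⟨⟨h1, h2⟩, h4⟩, h3⟩
    · exact Or.inr ⟨⟨⟨h1, h2⟩, h4⟩, h3⟩
  calc P (B ∩ (D ∩ Stp A μ cm c2 q))
      ≤ P (B1 ∩ Stp A μ cm c2 q) + P (B2 ∩ Stp A μ cm c2 q) :=
        (measure_mono hsub).trans (measure_union_le _ _)
    _ ≤ CE p cp * τ * J + ζ / τ * J := add_le_add l1 l2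
    _ = _ := by ring

/-- **(hc) of 993's `stage`** from (POP), (hb), (CE) -/
theorem hc_of [IsProbabilityMeasure P] (A : KerSys S P) {p cp : ℝ≥0∞} (hp0 : p ≠ 0)
    (hp1 : p ≤ 1) (hcp0 : cp ≠ 0) (hcpt : cp ≠ ∞)
    {lb : ℕ → ℕ} (hlb : Monotone lb) {T s J n0 : ℕ} (hs : ∀ a, J < a → lb (a - 1) + T * s ≤ lb a)
    (χ : ℕ → ℕ → S → S → ℝ≥0∞)
    (hPop : ∀ b n, n0 ≤ n → ∀ v : S → ℝ≥0∞, (∀ y, y ∉ A.L (lb b) → v y = 0) → ∑' y, v y = 1 →
      ∀ M : ℕ, M * EE (χ b n) v ≤ cp →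
        P {ω | ∑' y, v y * A.N (lb b) (lb (b + 2 * n)) ω y < p / 8} ≤ (1 - p / 8) ^ M)
    {μ : S → ℝ≥0∞} (hμ : A.Start μ) {X : ℝ}
    (hX : ∀ n : ℕ, n0 ≤ n → ENNReal.ofReal (Real.exp (-(n * X))) < p ^ 2 / 32)
    {ζ τ Cc : ℕ → ℝ≥0∞} (hτ0 : ∀ n, τ n ≠ 0) (hτt : ∀ n, τ n ≠ ∞)
    (hb : ∀ b n, J < b → n0 ≤ n → b + 2 * n ≤ 2 * J → ∀ B, MeasurableSet[A.F (lb b)] B →
      P (B ∩ {ω | A.Sh μ (lb (b + n)) ω ≠ 0 ∧ A.Sh μ (lb (b + 2 * n)) ω
        ≤ ENNReal.ofReal (Real.exp (-(n * X))) * A.Sh μ (lb (b + n)) ω}) ≤ ζ n * P B)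
    (hC : ∀ a n, J < a → n0 ≤ n → ∀ l, l < T →
      ∀ x ∈ A.L (lb (a - 1) + l * s), ∀ x' ∈ A.L (lb (a - 1) + l * s),
      ∑ b ∈ (Finset.Icc a (2 * J)).filter (fun b => b + 2 * n ≤ 2 * J),
        ∫⁻ ω, ∑' z, ∑' z', A.G (lb (a - 1) + l * s) (lb b) ω x z *
          A.G (lb (a - 1) + l * s) (lb b) ω x' z' * χ b n z z' ∂P ≤ Cc n)
    (a n : ℕ) (ha : J < a) (hn : n0 ≤ n) (B : Set Ω) (hB : MeasurableSet[A.F (lb (a - 1))] B) :
    ∑ b ∈ (Finset.Icc a (2 * J)).filter (fun b => b + 2 * n ≤ 2 * J),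
      P (B ∩ (Alive A μ p T s (lb (a - 1)) (lb b) ∩
        {ω | A.Sh μ (lb (b + n)) ω ≠ 0 ∧ A.Sh μ (lb (b + 2 * n)) ω
          ≤ ENNReal.ofReal (Real.exp (-(n * X))) * A.Sh μ (lb (b + n)) ω}))
      ≤ (T * ((CE p cp * τ n + ζ n / τ n) * Cc n)) * P B := by
  classical
  set q : ℝ≥0∞ := ENNReal.ofReal (Real.exp (-(n * X))) with hq
  set I : Finset ℕ := (Finset.Icc a (2 * J)).filter (fun b => b + 2 * n ≤ 2 * J) with hI
  have hB0 : MeasurableSet B := A.F.le _ _ hB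
  have hIa : ∀ b ∈ I, a ≤ b := fun b hb => (Finset.mem_Icc.1 (Finset.mem_filter.1 hb).1).1
  have hI2 : ∀ b ∈ I, b + 2 * n ≤ 2 * J := fun b hb => (Finset.mem_filter.1 hb).2
  have hL : ∀ l, l < T → lb (a - 1) + l * s ≤ lb a := fun l hl =>
    (Nat.add_le_add_left (Nat.mul_le_mul_right _ hl.le) _).trans (hs a ha)
  have hsplit : ∀ b ∈ I, P (B ∩ (Alive A μ p T s (lb (a - 1)) (lb b) ∩
        Stp A μ (lb (b + n)) (lb (b + 2 * n)) q))
      ≤ ∑ l ∈ Finset.range T, (CE p cp * τ n + ζ n / τ n) *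
        ∫⁻ ω, B.indicator 1 ω * EE (χ b n)
          (A.push (lb (a - 1) + l * s) (lb b) (A.exitW μ (lb (a - 1) + l * s)) ω) ∂P := by
    intro b hbI
    have hab := hIa b hbI
    have hsub : (B ∩ (Alive A μ p T s (lb (a - 1)) (lb b) ∩
        Stp A μ (lb (b + n)) (lb (b + 2 * n)) q) : Set Ω)
        ⊆ ⋃ l ∈ Finset.range T, (B ∩ ({ω | p / 4 ≤ tot (A.push (lb (a - 1) + l * s) (lb b)
          (A.exitW μ (lb (a - 1) + l * s))) ω} ∩ Stp A μ (lb (b + n)) (lb (b + 2 * n)) q)) := by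
      rintro ω ⟨h1, ⟨l, hl, h2⟩, h3⟩
      exact mem_biUnion (show l ∈ (Finset.range T : Set ℕ) from by
        exact_mod_cast Finset.mem_range.2 hl) ⟨h1, h2, h3⟩
    refine (measure_mono hsub).trans ((measure_biUnion_finset_le _ _).trans ?_)
    refine Finset.sum_le_sum fun l hl => ?_
    have hl' := Finset.mem_range.1 hl
    exact one_pair ((hL l hl').trans (hlb hab)) (hlb (by omega)) (hlb (by omega)) hp0 hp1 hcp0 hcpt
      (hPop b n hn) hμ (hX n hn) (hτ0 n) (hτt n)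
      (hb b n (by omega) hn (hI2 b hbI)) (A.F.mono (by omega) _ hB)
  have hφ : Measurable (B.indicator (1 : Ω → ℝ≥0∞)) := measurable_one.indicator hB0
  calc ∑ b ∈ I, P (B ∩ (Alive A μ p T s (lb (a - 1)) (lb b) ∩
        Stp A μ (lb (b + n)) (lb (b + 2 * n)) q))
      ≤ ∑ b ∈ I, ∑ l ∈ Finset.range T, (CE p cp * τ n + ζ n / τ n) *
        ∫⁻ ω, B.indicator 1 ω * EE (χ b n)
          (A.push (lb (a - 1) + l * s) (lb b) (A.exitW μ (lb (a - 1) + l * s)) ω) ∂P :=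
        Finset.sum_le_sum hsplit
    _ = ∑ l ∈ Finset.range T, (CE p cp * τ n + ζ n / τ n) * ∑ b ∈ I,
        ∫⁻ ω, B.indicator 1 ω * EE (χ b n)
          (A.push (lb (a - 1) + l * s) (lb b) (A.exitW μ (lb (a - 1) + l * s)) ω) ∂P := by
        rw [Finset.sum_comm]
        exact Finset.sum_congr rfl fun l _ => (Finset.mul_sum _ _ _).symm
    _ ≤ ∑ l ∈ Finset.range T, (CE p cp * τ n + ζ n / τ n) * (Cc n * P B) := by
        refine Finset.sum_le_sum fun l hl => ?_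
        have hl' := Finset.mem_range.1 hl
        gcongr
        have hBl : MeasurableSet[A.F (lb (a - 1) + l * s)] B := A.F.mono (by omega) _ hB
        have h1 := sum_EE (A := A) (a := lb (a - 1) + l * s) I lb
          (fun b hbI => (hL l hl').trans (hlb (hIa b hbI))) (wt_exitW hμ _)
          (fun ω => tot_exitW_le μ _ ω)
          (φ := B.indicator (1 : Ω → ℝ≥0∞))
          ((@measurable_one _ _ _ (A.F (lb (a - 1) + l * s)) _).indicator hBl)
          (fun b => χ b n) (hC a n ha hn l hl')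
        rwa [lintegral_indicator_one hB0] at h1
    _ = _ := by
        rw [Finset.sum_const, Finset.card_range, nsmul_eq_mul]
        ring

end Crest.Agent.R154.HcE337
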