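import Crest.Agent.R154.Pop_663
import Crest.Agent.R154.FreeD_950
import Crest.Agent.R154.TileInd_748
import Crest.Agent.R154.D2Asm_244

/-! Row 154, B8, TILE_RUN (helper663): **(HC)** = hypothesis `hc` of helper993's `stage` from the
population lemma (POP) for random laws and the summability (CE) of the contact energies. -/

set_option autoImplicit false
set_option linter.unusedSectionVars false
set_option linter.unusedVariables false
set_option linter.deprecated false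

namespace Crest.Agent.R154.HcE663

open MeasureTheory ProbabilityTheory Set Filter
open Crest.Agent.R154.RatioR872 Crest.Agent.R154.RatioR872.KerSys Crest.Agent.R154.FreeD950
open scoped ENNReal Topology

section abs

variable {S : Type*} [Countable S] {Ω : Type*} {m0 : MeasurableSpace Ω} {P : Measure Ω}

/-- **(POP) for random laws**: a random weight of mass `≥ p/4` and energy `≤ e1 / M` climbs from
`b` to `c` with mass `≥ p²/32` off conditional probability `q ^ M`. -/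
def PopR (A : KerSys S P) (p q e1 : ℝ≥0∞) : Prop :=
  ∀ b c : ℕ, b ≤ c → ∀ w : Ω → S → ℝ≥0∞, A.Wt b w → (∀ ω, tot w ω ≤ 1) → ∀ M : ℕ, 1 ≤ M →
    ∀ B, MeasurableSet[A.F b] B →
      P (B ∩ {ω | p / 4 ≤ tot w ω ∧ A.energy b c w ω ≤ e1 / M ∧
        tot (A.push b c w) ω < p ^ 2 / 32}) ≤ q ^ M * P B

variable {A : KerSys S P}

lemma meas_energy {a b : ℕ} {w : Ω → S → ℝ≥0∞} (hw : A.Wt a w) :
    Measurable[A.F a] (fun ω => A.energy a b w ω) := by
  unfold energy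
  refine Measurable.ennreal_tsum fun x => ?_
  refine Measurable.ennreal_tsum fun x' => ?_
  exact ((hw.meas x).mul (hw.meas x')).mul_const _

/-- mixed moment, exact -/
lemma energy_push_eq {a b c : ℕ} (hab : a ≤ b) {w : Ω → S → ℝ≥0∞} (hw : A.Wt a w)
    {φ : Ω → ℝ≥0∞} (hφ : Measurable[A.F a] φ) :
    ∫⁻ ω, φ ω * A.energy b c (A.push a b w) ω ∂P = ∑' x, ∑' x',
      (∫⁻ ω, φ ω * w ω x * w ω x' ∂P) *
        ∑' z, ∑' z', (∫⁻ ω, A.G a b ω x z * A.G a b ω x' z' ∂P) * A.K b c z z' := by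
  have hφ0 : Measurable φ := hφ.mono (A.F.le a) le_rfl
  have hw0 : ∀ x, Measurable fun ω => w ω x := fun x => (hw.meas x).mono (A.F.le a) le_rfl
  have hG0 : ∀ x z, Measurable fun ω => A.G a b ω x z :=
    fun x z => (A.measH a b x z hab).mono (A.H_le a) le_rfl
  have h1 : ∀ ω, φ ω * A.energy b c (A.push a b w) ω
      = ∑' x, ∑' x', ∑' z, ∑' z', ((φ ω * w ω x * w ω x') * (A.G a b ω x z * A.G a b ω x' z'))
        * A.K b c z z' := by
    intro ω
    have e1 : ∀ z z', A.push a b w ω z * A.push a b w ω z' * A.K b c z z'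
        = ∑' x, ∑' x', (w ω x * w ω x') * (A.G a b ω x z * A.G a b ω x' z') * A.K b c z z' := by
      intro z z'
      unfold push
      rw [← ENNReal.tsum_mul_right, ← ENNReal.tsum_mul_right]
      refine tsum_congr fun x => ?_
      rw [← ENNReal.tsum_mul_left, ← ENNReal.tsum_mul_right]
      exact tsum_congr fun x' => by ring
    rw [energy]
    simp_rw [e1]
    have e2 : ∑' z, ∑' z', ∑' x, ∑' x', (w ω x * w ω x') * (A.G a b ω x z * A.G a b ω x' z')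
          * A.K b c z z'
        = ∑' x, ∑' x', ∑' z, ∑' z', (w ω x * w ω x') * (A.G a b ω x z * A.G a b ω x' z')
          * A.K b c z z' := by
      calc _ = ∑' z, ∑' x, ∑' z', ∑' x', (w ω x * w ω x') * (A.G a b ω x z * A.G a b ω x' z')
            * A.K b c z z' := tsum_congr fun z => ENNReal.tsum_comm
        _ = ∑' x, ∑' z, ∑' z', ∑' x', (w ω x * w ω x') * (A.G a b ω x z * A.G a b ω x' z')
            * A.K b c z z' := ENNReal.tsum_comm
        _ = ∑' x, ∑' z, ∑' x', ∑' z', (w ω x * w ω x') * (A.G a b ω x z * A.G a b ω x' z')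
            * A.K b c z z' := tsum_congr fun x => tsum_congr fun z => ENNReal.tsum_comm
        _ = _ := tsum_congr fun x => ENNReal.tsum_comm
    rw [e2, ← ENNReal.tsum_mul_left]
    refine tsum_congr fun x => ?_
    rw [← ENNReal.tsum_mul_left]
    refine tsum_congr fun x' => ?_
    rw [← ENNReal.tsum_mul_left]
    refine tsum_congr fun z => ?_
    rw [← ENNReal.tsum_mul_left]
    exact tsum_congr fun z' => by ring
  have hm2 : ∀ x x', Measurable fun ω => φ ω * w ω x * w ω x' :=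
    fun x x' => (hφ0.mul (hw0 x)).mul (hw0 x')
  have hm4 : ∀ x x' z z', Measurable fun ω => ((φ ω * w ω x * w ω x') *
      (A.G a b ω x z * A.G a b ω x' z')) * A.K b c z z' :=
    fun x x' z z' => ((hm2 x x').mul ((hG0 x z).mul (hG0 x' z'))).mul_const _
  simp_rw [h1]
  rw [lintegral_tsum (fun x => (Measurable.tsum fun x' => Measurable.tsum fun z =>
      Measurable.tsum fun z' => hm4 x x' z z').aemeasurable)]
  refine tsum_congr fun x => ?_
  rw [lintegral_tsum (fun x' => (Measurable.tsum fun z =>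
      Measurable.tsum fun z' => hm4 x x' z z').aemeasurable)]
  refine tsum_congr fun x' => ?_
  rw [lintegral_tsum (fun z => (Measurable.tsum fun z' => hm4 x x' z z').aemeasurable),
    ← ENNReal.tsum_mul_left]
  refine tsum_congr fun z => ?_
  rw [lintegral_tsum (fun z' => (hm4 x x' z z').aemeasurable), ← ENNReal.tsum_mul_left]
  refine tsum_congr fun z' => ?_
  have hk1 : Measurable fun ω => (φ ω * w ω x * w ω x') *
      (A.G a b ω x z * A.G a b ω x' z') := (hm2 x x').mul ((hG0 x z).mul (hG0 x' z'))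
  have hk2 : Measurable[A.F a] fun ω => φ ω * w ω x * w ω x' :=
    (hφ.mul (hw.meas x)).mul (hw.meas x')
  have hk3 : Measurable[A.H a] fun ω => A.G a b ω x z * A.G a b ω x' z' :=
    (A.measH a b x z hab).mul (A.measH a b x' z' hab)
  rw [lintegral_mul_const _ hk1, A.indep_mul hk2 hk3, mul_assoc]

/-- **sum of the energies over the levels** -/
lemma sum_energy [IsProbabilityMeasure P] {l0 h : ℕ} {w : Ω → S → ℝ≥0∞} (hw : A.Wt l0 w)
    (hw1 : ∀ ω, tot w ω ≤ 1)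
    (I : Finset ℕ) (lv : ℕ → ℕ) (hlv : ∀ b ∈ I, l0 ≤ lv b) {Ce : ℝ≥0∞}
    (hCE : ∀ x ∈ A.L l0, ∀ x' ∈ A.L l0, ∑ b ∈ I, ∑' z, ∑' z',
      (∫⁻ ω, A.G l0 (lv b) ω x z * A.G l0 (lv b) ω x' z' ∂P) * A.K (lv b) (lv b + h) z z' ≤ Ce)
    {B : Set Ω} (hB : MeasurableSet[A.F l0] B) :
    ∑ b ∈ I, ∫⁻ ω, B.indicator 1 ω * A.energy (lv b) (lv b + h) (A.push l0 (lv b) w) ω ∂P
      ≤ Ce * P B := by
  classical
  have hB0 : MeasurableSet B := A.F.le l0 _ hB
  have hφ : Measurable[A.F l0] (B.indicator (1 : Ω → ℝ≥0∞)) :=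
    (@measurable_one _ _ _ (A.F l0) _).indicator hB
  have hφ0 : Measurable (B.indicator (1 : Ω → ℝ≥0∞)) := measurable_one.indicator hB0
  have hw0 : ∀ x, Measurable fun ω => w ω x := fun x => (hw.meas x).mono (A.F.le l0) le_rfl
  rw [Finset.sum_congr rfl fun b hb => energy_push_eq (hlv b hb) hw hφ (c := lv b + h)]
  rw [← Summable.tsum_finsetSum fun _ _ => ENNReal.summable]
  have h1 : ∀ x, ∑ b ∈ I, ∑' x', (∫⁻ ω, B.indicator 1 ω * w ω x * w ω x' ∂P) *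
        ∑' z, ∑' z', (∫⁻ ω, A.G l0 (lv b) ω x z * A.G l0 (lv b) ω x' z' ∂P) *
          A.K (lv b) (lv b + h) z z'
      ≤ ∑' x', Ce * (∫⁻ ω, B.indicator 1 ω * w ω x * w ω x' ∂P) := by
    intro x
    rw [← Summable.tsum_finsetSum fun _ _ => ENNReal.summable]
    refine ENNReal.tsum_le_tsum fun x' => ?_
    rw [← Finset.mul_sum, mul_comm]
    by_cases hx : x ∈ A.L l0
    · by_cases hx' : x' ∈ A.L l0
      · gcongr
        exact hCE x hx x' hx'
      · simp [hw.supp _ x' hx']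
    · simp [hw.supp _ x hx]
  refine (ENNReal.tsum_le_tsum h1).trans ?_
  simp_rw [ENNReal.tsum_mul_left]
  gcongr
  have e1 : ∑' x, ∑' x', ∫⁻ ω, B.indicator 1 ω * w ω x * w ω x' ∂P
      = ∫⁻ ω, B.indicator 1 ω * (tot w ω * tot w ω) ∂P := by
    have e2 : ∀ ω, B.indicator 1 ω * (tot w ω * tot w ω)
        = ∑' x, ∑' x', B.indicator (1 : Ω → ℝ≥0∞) ω * w ω x * w ω x' := by
      intro ω
      have e3 : ∀ x, ∑' x', B.indicator (1 : Ω → ℝ≥0∞) ω * w ω x * w ω x'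
          = B.indicator (1 : Ω → ℝ≥0∞) ω * w ω x * tot w ω := fun x => ENNReal.tsum_mul_left
      simp_rw [e3, mul_assoc]
      rw [ENNReal.tsum_mul_left, ENNReal.tsum_mul_right]
      rfl
    simp_rw [e2]
    have hmm : ∀ x x', Measurable fun ω => B.indicator (1 : Ω → ℝ≥0∞) ω * w ω x * w ω x' :=
      fun x x' => (hφ0.mul (hw0 x)).mul (hw0 x')
    rw [lintegral_tsum fun x => (Measurable.tsum fun x' => hmm x x').aemeasurable]
    refine tsum_congr fun x => ?_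
    rw [lintegral_tsum fun x' => (hmm x x').aemeasurable]
  rw [e1, ← lintegral_indicator_one hB0]
  refine lintegral_mono fun ω => ?_
  calc B.indicator 1 ω * (tot w ω * tot w ω) ≤ B.indicator 1 ω * (1 * 1) := by
        gcongr <;> exact hw1 ω
    _ = _ := by rw [one_mul, mul_one]

/-- one level, energies between `e1 / (m+1)` and `e1 / m`, all `m ≥ m0` -/
lemma pop_sum [IsProbabilityMeasure P] {p q e1 : ℝ≥0∞} (hPop : PopR A p q e1)
    (he0 : e1 ≠ 0) (het : e1 ≠ ∞) (hq : q < 1) {b c : ℕ} (hbc : b ≤ c)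
    {w : Ω → S → ℝ≥0∞} (hw : A.Wt b w) (hw1 : ∀ ω, tot w ω ≤ 1) {m0' : ℕ} (hm : 1 ≤ m0')
    {Qm : ℝ≥0∞} (hQm : ∀ m, m0' ≤ m → q ^ m * (m + 1) ≤ Qm)
    {B : Set Ω} (hB : MeasurableSet[A.F b] B) :
    P (B ∩ {ω | p / 4 ≤ tot w ω ∧ A.energy b c w ω ≤ e1 / m0' ∧
        tot (A.push b c w) ω < p ^ 2 / 32}) ≤
      Qm / e1 * ∫⁻ ω, B.indicator 1 ω * A.energy b c w ω ∂P := by
  classical
  have hB0 : MeasurableSet B := A.F.le b _ hB
  have hEm := meas_energy (b := c) hw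
  set en : Ω → ℝ≥0∞ := fun ω => A.energy b c w ω with hen
  have hEm0 : Measurable en := hEm.mono (A.F.le b) le_rfl
  set Z : Set Ω := {ω | en ω = 0} with hZ
  set Am : ℕ → Set Ω := fun m => {ω | en ω ≤ e1 / m ∧ e1 / (m + 1 : ℕ) < en ω} with hAm
  set Fl : Set Ω := {ω | p / 4 ≤ tot w ω ∧ tot (A.push b c w) ω < p ^ 2 / 32} with hFl
  have hZm : MeasurableSet[A.F b] Z := hEm (measurableSet_singleton 0)
  have hAmm : ∀ m, MeasurableSet[A.F b] (Am m) := fun m =>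
    MeasurableSet.inter (hEm measurableSet_Iic) (hEm measurableSet_Ioi)
  -- the null part
  have h0 : P ((B ∩ Z) ∩ Fl) = 0 := by
    have h1 : ∀ M : ℕ, 1 ≤ M → P ((B ∩ Z) ∩ Fl) ≤ q ^ M * P (B ∩ Z) := by
      intro M hM
      refine (measure_mono ?_).trans (hPop b c hbc w hw hw1 M hM (B ∩ Z)
        (MeasurableSet.inter hB hZm))
      rintro ω ⟨⟨h1, h2⟩, h3, h4⟩
      have h2' : A.energy b c w ω = 0 := h2
      exact ⟨⟨h1, h2⟩, h3, by rw [h2']; exact zero_le, h4⟩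
    have h2 : Tendsto (fun M : ℕ => q ^ M * P (B ∩ Z)) atTop (𝓝 (0 * P (B ∩ Z))) :=
      ENNReal.Tendsto.mul_const (ENNReal.tendsto_pow_atTop_nhds_zero_of_lt_one hq)
        (Or.inr (measure_ne_top _ _))
    rw [zero_mul] at h2
    refine le_antisymm ?_ zero_le
    exact ge_of_tendsto h2 (eventually_atTop.2 ⟨1, h1⟩)
  -- the layers
  have hlay : ∀ m, m0' ≤ m → P ((B ∩ Am m) ∩ Fl)
      ≤ Qm / e1 * ∫⁻ ω in Am m, B.indicator 1 ω * en ω ∂P := by
    intro m hmm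
    have h1 : P ((B ∩ Am m) ∩ Fl) ≤ q ^ m * P (B ∩ Am m) := by
      refine (measure_mono ?_).trans (hPop b c hbc w hw hw1 m (hm.trans hmm) (B ∩ Am m)
        (MeasurableSet.inter hB (hAmm m)))
      rintro ω ⟨⟨h1, h2⟩, h3, h4⟩
      exact ⟨⟨h1, h2⟩, h3, h2.1, h4⟩
    have h2 : e1 / (m + 1 : ℕ) * P (B ∩ Am m) ≤ ∫⁻ ω in Am m, B.indicator 1 ω * en ω ∂P := by
      rw [← lintegral_indicator_one (hB0.inter (A.F.le b _ (hAmm m))),
        ← lintegral_const_mul _ (measurable_one.indicator (hB0.inter (A.F.le b _ (hAmm m)))),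
        ← lintegral_indicator (A.F.le b _ (hAmm m))]
      refine lintegral_mono fun ω => ?_
      by_cases h3 : ω ∈ B ∩ Am m
      · rw [indicator_of_mem h3, indicator_of_mem h3.2, indicator_of_mem h3.1]
        simp only [Pi.one_apply, mul_one, one_mul]
        exact h3.2.2.le
      · rw [indicator_of_notMem h3]
        simp
    have hm1 : ((m + 1 : ℕ) : ℝ≥0∞) ≠ 0 := by simp
    have hm1t : ((m + 1 : ℕ) : ℝ≥0∞) ≠ ∞ := ENNReal.natCast_ne_top _
    have h3 : P (B ∩ Am m) ≤ (m + 1 : ℕ) / e1 * ∫⁻ ω in Am m, B.indicator 1 ω * en ω ∂P := by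
      calc P (B ∩ Am m) = ((m + 1 : ℕ) / e1) * (e1 / (m + 1 : ℕ) * P (B ∩ Am m)) := by
            rw [← mul_assoc]
            have : ((m + 1 : ℕ) : ℝ≥0∞) / e1 * (e1 / (m + 1 : ℕ)) = 1 := by
              rw [← ENNReal.inv_div (Or.inl hm1t) (Or.inl hm1)]
              exact ENNReal.inv_mul_cancel (ENNReal.div_pos he0 hm1t).ne'
                (ENNReal.div_ne_top het hm1)
            rw [this, one_mul]
        _ ≤ _ := by gcongr
    calc P ((B ∩ Am m) ∩ Fl) ≤ q ^ m * P (B ∩ Am m) := h1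
      _ ≤ q ^ m * ((m + 1 : ℕ) / e1 * ∫⁻ ω in Am m, B.indicator 1 ω * en ω ∂P) := by gcongr
      _ = (q ^ m * (m + 1)) / e1 * ∫⁻ ω in Am m, B.indicator 1 ω * en ω ∂P := by
          push_cast
          simp only [div_eq_mul_inv]
          ring
      _ ≤ _ := by
          gcongr
          exact hQm m hmm
  have hdisj : Pairwise (Function.onFun Disjoint Am) := by
    intro i j hij
    rw [Function.onFun, Set.disjoint_left]
    rintro ω ⟨h1, h2⟩ ⟨h3, h4⟩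
    rcases lt_or_gt_of_ne hij with h | h
    · have h5 : e1 / (j : ℝ≥0∞) ≤ e1 / ((i + 1 : ℕ) : ℝ≥0∞) := by
        gcongr
        exact_mod_cast h
      exact absurd (h2.trans_le (h3.trans h5)) (lt_irrefl _)
    · have h5 : e1 / (i : ℝ≥0∞) ≤ e1 / ((j + 1 : ℕ) : ℝ≥0∞) := by
        gcongr
        exact_mod_cast h
      exact absurd (h4.trans_le (h1.trans h5)) (lt_irrefl _)
  have hcov : B ∩ {ω | p / 4 ≤ tot w ω ∧ A.energy b c w ω ≤ e1 / m0' ∧
        tot (A.push b c w) ω < p ^ 2 / 32}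
      ⊆ ((B ∩ Z) ∩ Fl) ∪ ⋃ m : {m : ℕ // m0' ≤ m}, ((B ∩ Am m) ∩ Fl) := by
    rintro ω ⟨hωB, h1, h2, h3⟩
    by_cases hz : en ω = 0
    · exact Or.inl ⟨⟨hωB, hz⟩, h1, h3⟩
    · right
      have hen' : en ω ≤ e1 / m0' := h2
      have hent : en ω ≠ ∞ := by
        refine ne_top_of_le_ne_top (ENNReal.div_ne_top het ?_) hen'
        have : m0' ≠ 0 := by omega
        exact_mod_cast this
      -- largest `m` with `en ≤ e1 / m`
      have hex : ∃ k : ℕ, e1 / ((m0' + k + 1 : ℕ) : ℝ≥0∞) < en ω := by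
        obtain ⟨k, hk⟩ := ENNReal.exists_nat_gt (ENNReal.div_ne_top het hz)
        refine ⟨k, ?_⟩
        rw [ENNReal.div_lt_iff (Or.inl (by simp)) (Or.inl (ENNReal.natCast_ne_top _))]
        rw [ENNReal.div_lt_iff (Or.inl hz) (Or.inl hent)] at hk
        refine hk.trans_le ?_
        rw [mul_comm]
        gcongr
        exact_mod_cast (by omega : k ≤ m0' + k + 1)
      obtain ⟨k, hk⟩ : ∃ k, k = Nat.find hex := ⟨_, rfl⟩
      have hk1 := Nat.find_spec hex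
      rw [← hk] at hk1
      have hk2 : en ω ≤ e1 / ((m0' + k : ℕ) : ℝ≥0∞) := by
        rcases Nat.eq_zero_or_pos k with h | h
        · rw [h, Nat.add_zero]; exact hen'
        · have h5 := Nat.find_min hex (m := k - 1) (by omega)
          rw [not_lt] at h5
          have h6 : m0' + (k - 1) + 1 = m0' + k := by omega
          rwa [h6] at h5
      refine mem_iUnion.2 ⟨⟨m0' + k, by omega⟩, ⟨hωB, hk2, hk1⟩, h1, h3⟩
  calc P (B ∩ {ω | p / 4 ≤ tot w ω ∧ A.energy b c w ω ≤ e1 / m0' ∧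
        tot (A.push b c w) ω < p ^ 2 / 32})
      ≤ P ((B ∩ Z) ∩ Fl) + P (⋃ m : {m : ℕ // m0' ≤ m}, ((B ∩ Am m) ∩ Fl)) :=
        (measure_mono hcov).trans (measure_union_le _ _)
    _ ≤ 0 + ∑' m : {m : ℕ // m0' ≤ m}, P ((B ∩ Am m) ∩ Fl) := by
        rw [h0]
        gcongr
        exact measure_iUnion_le _
    _ ≤ ∑' m : {m : ℕ // m0' ≤ m}, Qm / e1 * ∫⁻ ω in Am m, B.indicator 1 ω * en ω ∂P := by
        rw [zero_add]
        exact ENNReal.tsum_le_tsum fun m => hlay m m.2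
    _ = Qm / e1 * ∑' m : {m : ℕ // m0' ≤ m}, ∫⁻ ω in Am m, B.indicator 1 ω * en ω ∂P :=
        ENNReal.tsum_mul_left
    _ = Qm / e1 * ∫⁻ ω in ⋃ m : {m : ℕ // m0' ≤ m}, Am m, B.indicator 1 ω * en ω ∂P := by
        rw [lintegral_iUnion (fun m : {m : ℕ // m0' ≤ m} => A.F.le b _ (hAmm m))
          (fun i j hij => hdisj fun h => hij (Subtype.ext h))]
    _ ≤ _ := mul_le_mul' le_rfl (setLIntegral_le_lintegral _ _)

/-- **(HC), one sub-level**: stage started at level `l0` from the exit law `w`, bottoms `lv b`. -/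
theorem hc_one [IsProbabilityMeasure P] {p q e1 : ℝ≥0∞} (hPop : PopR A p q e1)
    (he0 : e1 ≠ 0) (het : e1 ≠ ∞) (hq : q < 1) {l0 h : ℕ} {w : Ω → S → ℝ≥0∞} (hw : A.Wt l0 w)
    (hw1 : ∀ ω, tot w ω ≤ 1) (I : Finset ℕ) (lv : ℕ → ℕ) (hlv : ∀ b ∈ I, l0 ≤ lv b)
    {Ce : ℝ≥0∞} (hCE : ∀ x ∈ A.L l0, ∀ x' ∈ A.L l0, ∑ b ∈ I, ∑' z, ∑' z',
      (∫⁻ ω, A.G l0 (lv b) ω x z * A.G l0 (lv b) ω x' z' ∂P) * A.K (lv b) (lv b + h) z z' ≤ Ce)
    {m0' : ℕ} (hm : 1 ≤ m0') {Qm : ℝ≥0∞} (hQm : ∀ m, m0' ≤ m → q ^ m * (m + 1) ≤ Qm)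
    (St : ℕ → Set Ω) {ζ : ℝ≥0∞}
    (hb : ∀ b ∈ I, ∀ B, MeasurableSet[A.F (lv b)] B → P (B ∩ St b) ≤ ζ * P B)
    (hSt : ∀ b ∈ I, ∀ᵐ ω ∂P, ω ∈ St b →
      tot (A.push (lv b) (lv b + h) (A.push l0 (lv b) w)) ω < p ^ 2 / 32)
    {B : Set Ω} (hB : MeasurableSet[A.F l0] B) :
    ∑ b ∈ I, P (B ∩ ({ω | p / 4 ≤ tot (A.push l0 (lv b) w) ω} ∩ St b))
      ≤ (ζ * (m0' / e1) + Qm / e1) * (Ce * P B) := by
  classical
  have hB0 : MeasurableSet B := A.F.le l0 _ hB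
  have hm0 : (m0' : ℝ≥0∞) ≠ 0 := by
    have : m0' ≠ 0 := by omega
    exact_mod_cast this
  have hmt : (m0' : ℝ≥0∞) ≠ ∞ := ENNReal.natCast_ne_top _
  have hone : ∀ b ∈ I, P (B ∩ ({ω | p / 4 ≤ tot (A.push l0 (lv b) w) ω} ∩ St b))
      ≤ (ζ * (m0' / e1) + Qm / e1) *
        ∫⁻ ω, B.indicator 1 ω * A.energy (lv b) (lv b + h) (A.push l0 (lv b) w) ω ∂P := by
    intro b hbI
    have hwb : A.Wt (lv b) (A.push l0 (lv b) w) := hw.push (hlv b hbI)
    have hwb1 : ∀ ω, tot (A.push l0 (lv b) w) ω ≤ 1 := fun ω =>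
      (A.tot_push_le (hlv b hbI) w ω).trans (hw1 ω)
    have hBb : MeasurableSet[A.F (lv b)] B := A.F.mono (hlv b hbI) _ hB
    have hEm := meas_energy (b := lv b + h) hwb
    set en : Ω → ℝ≥0∞ := fun ω => A.energy (lv b) (lv b + h) (A.push l0 (lv b) w) ω with hen
    have hBig : MeasurableSet[A.F (lv b)] {ω | e1 / m0' < en ω} := hEm measurableSet_Ioi
    have hsub : ∀ᵐ ω ∂P, ω ∈ (B ∩ ({ω | p / 4 ≤ tot (A.push l0 (lv b) w) ω} ∩ St b) : Set Ω) →
        ω ∈ (((B ∩ {ω | e1 / m0' < en ω}) ∩ St b) ∪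
          (B ∩ {ω | p / 4 ≤ tot (A.push l0 (lv b) w) ω ∧ en ω ≤ e1 / m0' ∧
            tot (A.push (lv b) (lv b + h) (A.push l0 (lv b) w)) ω < p ^ 2 / 32}) : Set Ω) := by
      filter_upwards [hSt b hbI] with ω hω
      rintro ⟨h1, h2, h3⟩
      by_cases h4 : e1 / m0' < en ω
      · exact Or.inl ⟨⟨h1, h4⟩, h3⟩
      · exact Or.inr ⟨h1, h2, not_lt.1 h4, hω h3⟩
    have h1 : P ((B ∩ {ω | e1 / m0' < en ω}) ∩ St b)
        ≤ ζ * (m0' / e1) * ∫⁻ ω, B.indicator 1 ω * en ω ∂P := by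
      refine (hb b hbI _ (MeasurableSet.inter hBb hBig)).trans ?_
      rw [mul_assoc]
      refine mul_le_mul' le_rfl ?_
      have h2 : e1 / m0' * P (B ∩ {ω | e1 / m0' < en ω}) ≤ ∫⁻ ω, B.indicator 1 ω * en ω ∂P := by
        rw [← lintegral_indicator_one (hB0.inter (A.F.le _ _ hBig)),
          ← lintegral_const_mul _ (measurable_one.indicator (hB0.inter (A.F.le _ _ hBig)))]
        refine lintegral_mono fun ω => ?_
        by_cases h3 : ω ∈ B ∩ {ω | e1 / m0' < en ω}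
        · rw [indicator_of_mem h3, indicator_of_mem h3.1]
          simp only [Pi.one_apply, mul_one, one_mul]
          exact h3.2.le
        · rw [indicator_of_notMem h3]
          simp
      calc P (B ∩ {ω | e1 / m0' < en ω})
          = (m0' / e1) * (e1 / m0' * P (B ∩ {ω | e1 / m0' < en ω})) := by
            rw [← mul_assoc]
            have : (m0' : ℝ≥0∞) / e1 * (e1 / m0') = 1 := by
              rw [← ENNReal.inv_div (Or.inl hmt) (Or.inl hm0)]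
              exact ENNReal.inv_mul_cancel (ENNReal.div_pos he0 hmt).ne'
                (ENNReal.div_ne_top het hm0)
            rw [this, one_mul]
        _ ≤ _ := mul_le_mul' le_rfl h2
    calc P (B ∩ ({ω | p / 4 ≤ tot (A.push l0 (lv b) w) ω} ∩ St b))
        ≤ P (((B ∩ {ω | e1 / m0' < en ω}) ∩ St b) ∪
          (B ∩ {ω | p / 4 ≤ tot (A.push l0 (lv b) w) ω ∧ en ω ≤ e1 / m0' ∧
            tot (A.push (lv b) (lv b + h) (A.push l0 (lv b) w)) ω < p ^ 2 / 32})) :=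
          measure_mono_ae hsub
      _ ≤ ζ * (m0' / e1) * ∫⁻ ω, B.indicator 1 ω * en ω ∂P
          + Qm / e1 * ∫⁻ ω, B.indicator 1 ω * en ω ∂P :=
          (measure_union_le _ _).trans (add_le_add h1
            (pop_sum hPop he0 het hq (Nat.le_add_right _ _) hwb hwb1 hm hQm hBb))
      _ = _ := by rw [← add_mul]
  refine (Finset.sum_le_sum hone).trans ?_
  rw [← Finset.mul_sum]
  exact mul_le_mul' le_rfl (sum_energy hw hw1 I lv hlv hCE hB)

/-- **(HC)**: 993's `hc` for 950's `Alive`, all `T` sub-levels. -/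
theorem hc_alive [IsProbabilityMeasure P] {p q e1 : ℝ≥0∞} (hPop : PopR A p q e1)
    (he0 : e1 ≠ 0) (het : e1 ≠ ∞) (hq : q < 1) {μ : S → ℝ≥0∞} (hμ : A.Start μ)
    (hpos : ∀ h, ∀ᵐ ω ∂P, A.Sh μ h ω ≠ 0)
    {T s a0 h g : ℕ} (hgh : g ≤ h) (I : Finset ℕ) (lv : ℕ → ℕ) (hlv : ∀ b ∈ I, a0 + T * s ≤ lv b)
    {Ce : ℝ≥0∞} (hCE : ∀ l < T, ∀ x ∈ A.L (a0 + l * s), ∀ x' ∈ A.L (a0 + l * s),
      ∑ b ∈ I, ∑' z, ∑' z', (∫⁻ ω, A.G (a0 + l * s) (lv b) ω x z *
        A.G (a0 + l * s) (lv b) ω x' z' ∂P) * A.K (lv b) (lv b + h) z z' ≤ Ce)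
    {m0' : ℕ} (hm : 1 ≤ m0') {Qm : ℝ≥0∞} (hQm : ∀ m, m0' ≤ m → q ^ m * (m + 1) ≤ Qm)
    {ζ η : ℝ≥0∞} (hη : η < p ^ 2 / 32)
    (hb : ∀ b ∈ I, ∀ B, MeasurableSet[A.F (lv b)] B → P (B ∩ {ω | A.Sh μ (lv b + g) ω ≠ 0 ∧
      A.Sh μ (lv b + h) ω ≤ η * A.Sh μ (lv b + g) ω}) ≤ ζ * P B)
    {B : Set Ω} (hB : MeasurableSet[A.F a0] B) :
    ∑ b ∈ I, P (B ∩ (Alive A μ p T s a0 (lv b) ∩ {ω | A.Sh μ (lv b + g) ω ≠ 0 ∧
      A.Sh μ (lv b + h) ω ≤ η * A.Sh μ (lv b + g) ω}))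
      ≤ T * ((ζ * (m0' / e1) + Qm / e1) * (Ce * P B)) := by
  classical
  set St : ℕ → Set Ω := fun b => {ω | A.Sh μ (lv b + g) ω ≠ 0 ∧
      A.Sh μ (lv b + h) ω ≤ η * A.Sh μ (lv b + g) ω} with hSt
  have hl : ∀ l < T, ∀ b ∈ I, a0 + l * s ≤ lv b := fun l hl b hb => (lv_le hl).trans (hlv b hb)
  have h1 : ∀ l < T, ∑ b ∈ I, P (B ∩ ({ω | p / 4 ≤
      tot (A.push (a0 + l * s) (lv b) (A.exitW μ (a0 + l * s))) ω} ∩ St b))
      ≤ (ζ * (m0' / e1) + Qm / e1) * (Ce * P B) := by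
    intro l hlT
    refine hc_one hPop he0 het hq (h := h) (wt_exitW hμ _) (fun ω => tot_exitW_le μ _ ω) I lv
      (hl l hlT) (hCE l hlT) hm hQm St hb ?_ (A.F.mono (Nat.le_add_right _ _) _ hB)
    intro b hbI
    filter_upwards [Sh_ge hμ (hl l hlT b hbI) (Nat.le_add_right (lv b) h),
      hpos (lv b + h)] with ω h2 h3
    rintro ⟨h4, h5⟩
    by_contra hcon
    rw [not_lt] at hcon
    have hSa : A.Sh μ (lv b + g) ω ≤ A.Sh μ (a0 + l * s) ω :=
      Sh_anti ((hl l hlT b hbI).trans (Nat.le_add_right _ _)) ω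
    have h6 : A.Sh μ (lv b + g) ω * (p ^ 2 / 32) ≤ η * A.Sh μ (lv b + g) ω :=
      (mul_le_mul' hSa hcon).trans (h2.trans h5)
    have h7 : A.Sh μ (lv b + g) ω ≠ ∞ :=
      ne_top_of_le_ne_top ENNReal.one_ne_top (Sh_le_one hμ _ ω)
    rw [mul_comm η] at h6
    exact absurd ((ENNReal.mul_le_mul_iff_right h4 h7).1 h6) (not_le.2 hη)
  calc ∑ b ∈ I, P (B ∩ (Alive A μ p T s a0 (lv b) ∩ St b))
      ≤ ∑ b ∈ I, ∑ l ∈ Finset.range T, P (B ∩ ({ω | p / 4 ≤
        tot (A.push (a0 + l * s) (lv b) (A.exitW μ (a0 + l * s))) ω} ∩ St b)) := by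
        refine Finset.sum_le_sum fun b _ => ?_
        refine (measure_mono ?_).trans (measure_biUnion_finset_le _ _)
        rintro ω ⟨h2, ⟨l, hlT, h3⟩, h4⟩
        exact mem_biUnion (Finset.mem_coe.2 (Finset.mem_range.2 hlT)) ⟨h2, h3, h4⟩
    _ = ∑ l ∈ Finset.range T, ∑ b ∈ I, P (B ∩ ({ω | p / 4 ≤
        tot (A.push (a0 + l * s) (lv b) (A.exitW μ (a0 + l * s))) ω} ∩ St b)) :=
        Finset.sum_comm
    _ ≤ ∑ l ∈ Finset.range T, (ζ * (m0' / e1) + Qm / e1) * (Ce * P B) :=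
        Finset.sum_le_sum fun l hl => h1 l (Finset.mem_range.1 hl)
    _ = _ := by rw [Finset.sum_const, Finset.card_range, nsmul_eq_mul]

end abs

end Crest.Agent.R154.HcE663
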