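import Crest.Agent.R154.FreeD_950

/-! Row 154, TILE_RUN, leaf T6b (plan 878 #34420, form 950 #34936 / 284 #34832): **(hc)** for an
abstract kernel system: on a stage which is alive (950's `Alive`) the expected number of steep
positions is bounded by the collision sum.

* `pop` : population lemma, deterministic law: `P(dead weight ≥ 1/2) ≤ (512/p² * Σ_c q_c²)²`
* `freeze` : the same for a law measurable with respect to the past
* `hc` : literally the hypothesis `hc` of 993's `Stage993.stage`.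
-/

set_option autoImplicit false
set_option linter.unusedSectionVars false
set_option linter.deprecated false
set_option linter.unusedVariables false

namespace Crest.Agent.R154.HcK195

open MeasureTheory ProbabilityTheory Set Filter Finset
open Crest.Agent.R154.RatioR872 Crest.Agent.R154.RatioR872.KerSys Crest.Agent.R154.RatioS775
open Crest.Agent.R154.FreeD950
open scoped ENNReal Topology

variable {S : Type*} [Countable S] {ι : Type*} {Ω : Type*} {m0 : MeasurableSpace Ω}

/-! ### elementary symmetric functions of the dead weights -/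

open Classical in
/-- ordered `k`-tuples of sites in distinct cells outside `C` -/
noncomputable def ek (cell : S → ι) (f : S → ℝ≥0∞) : ℕ → Finset ι → ℝ≥0∞
  | 0, _ => 1
  | k + 1, C => ∑' y, (if cell y ∈ C then 0 else f y * ek cell f k (insert (cell y) C))

open Classical in
/-- weight of a cell -/
noncomputable def qc (cell : S → ι) (f : S → ℝ≥0∞) (c : ι) : ℝ≥0∞ :=
  ∑' y, (if cell y = c then f y else 0)

open Classical in
lemma tsum_le_out (cell : S → ι) (f : S → ℝ≥0∞) (C : Finset ι) {M : ℝ≥0∞}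
    (hM : ∀ c, qc cell f c ≤ M) :
    ∑' y, f y ≤ (∑' y, if cell y ∈ C then 0 else f y) + C.card * M := by
  have h1 : ∀ y, f y = (if cell y ∈ C then 0 else f y) + ∑ c ∈ C, if cell y = c then f y else 0 := by
    intro y
    by_cases hy : cell y ∈ C
    · rw [if_pos hy, zero_add, Finset.sum_ite_eq, if_pos hy]
    · rw [if_neg hy, Finset.sum_ite_eq, if_neg hy, add_zero]
  calc ∑' y, f y = ∑' y, ((if cell y ∈ C then 0 else f y)
        + ∑ c ∈ C, if cell y = c then f y else 0) := tsum_congr h1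
    _ = (∑' y, if cell y ∈ C then 0 else f y) + ∑' y, ∑ c ∈ C, (if cell y = c then f y else 0) :=
        ENNReal.tsum_add
    _ = (∑' y, if cell y ∈ C then 0 else f y) + ∑ c ∈ C, qc cell f c := by
        rw [Summable.tsum_finsetSum (fun _ _ => ENNReal.summable)]
        rfl
    _ ≤ (∑' y, if cell y ∈ C then 0 else f y) + ∑ c ∈ C, M := by
        gcongr with c hc
        exact hM c
    _ = _ := by rw [Finset.sum_const, nsmul_eq_mul]

open Classical in
/-- lower bound -/
lemma ek_ge (cell : S → ι) (f : S → ℝ≥0∞) {M : ℝ≥0∞} (hM : ∀ c, qc cell f c ≤ M) (hMt : M ≠ ∞)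
    {r : ℝ≥0∞} : ∀ (k : ℕ) (C : Finset ι), r + (C.card + k : ℕ) * M ≤ ∑' y, f y →
      r ^ k ≤ ek cell f k C := by
  intro k
  induction k with
  | zero => intro C _; simp [ek]
  | succ k ih =>
    intro C h
    have h1 : ∀ y, (if cell y ∈ C then 0 else f y) * r ^ k
        ≤ (if cell y ∈ C then 0 else f y * ek cell f k (insert (cell y) C)) := by
      intro y
      by_cases hy : cell y ∈ C
      · rw [if_pos hy, if_pos hy, zero_mul]
      · rw [if_neg hy, if_neg hy]
        gcongr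
        refine ih _ (le_trans ?_ h)
        rw [Finset.card_insert_of_notMem hy]
        have e : C.card + 1 + k = C.card + (k + 1) := by ring
        rw [e]
    have h2 : r ≤ ∑' y, if cell y ∈ C then 0 else f y := by
      have h3 := h.trans (tsum_le_out cell f C hM)
      have h4 : r + C.card * M ≤ (∑' y, if cell y ∈ C then 0 else f y) + C.card * M := by
        refine le_trans ?_ h3
        have h5 : (C.card : ℝ≥0∞) ≤ ((C.card + (k + 1) : ℕ) : ℝ≥0∞) := by
          exact_mod_cast Nat.le_add_right _ _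
        gcongr
      exact (ENNReal.add_le_add_iff_right (ENNReal.mul_ne_top (ENNReal.natCast_ne_top _) hMt)).1 h4
    calc r ^ (k + 1) = r * r ^ k := by rw [pow_succ, mul_comm]
      _ ≤ (∑' y, if cell y ∈ C then 0 else f y) * r ^ k := by gcongr
      _ = ∑' y, (if cell y ∈ C then 0 else f y) * r ^ k := by rw [ENNReal.tsum_mul_right]
      _ ≤ ∑' y, (if cell y ∈ C then 0 else f y * ek cell f k (insert (cell y) C)) :=
          ENNReal.tsum_le_tsum h1
      _ = ek cell f (k + 1) C := rfl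

/-- dead weights -/
noncomputable def dw (w : S → ℝ≥0∞) (dead : S → Set Ω) (ω : Ω) (y : S) : ℝ≥0∞ :=
  (dead y).indicator (fun _ => w y) ω

lemma dw_meas {w : S → ℝ≥0∞} {dead : S → Set Ω} (hd : ∀ y, MeasurableSet (dead y)) (y : S) :
    Measurable fun ω => dw w dead ω y := by
  unfold dw
  exact measurable_const.indicator (hd y)

lemma ek_meas (cell : S → ι) {w : S → ℝ≥0∞} {dead : S → Set Ω} (hd : ∀ y, MeasurableSet (dead y)) :
    ∀ (k : ℕ) (C : Finset ι), Measurable fun ω => ek cell (dw w dead ω) k C := by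
  classical
  intro k
  induction k with
  | zero => intro C; simp only [ek]; exact measurable_const
  | succ k ih =>
    intro C
    simp only [ek]
    refine Measurable.ennreal_tsum fun y => ?_
    by_cases hy : cell y ∈ C
    · simp only [if_pos hy]; exact measurable_const
    · simp only [if_neg hy]
      exact (dw_meas hd y).mul (ih _)

/-- upper bound in mean -/
lemma ek_le {P : Measure Ω} (Ls : Set S) (cell : S → ι) {w : S → ℝ≥0∞}
    (hw : ∀ y, y ∉ Ls → w y = 0) {dead : S → Set Ω} (hd : ∀ y, MeasurableSet (dead y)) {ϑ : ℝ≥0∞}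
    (hK : ∀ K : Finset S, (∀ z ∈ K, z ∈ Ls) → Set.InjOn cell K →
      P {ω | ∀ z ∈ K, ω ∈ dead z} ≤ ϑ ^ K.card) :
    ∀ (k : ℕ) (Z : Finset S) (C : Finset ι), (∀ z ∈ Z, z ∈ Ls) → Set.InjOn cell Z →
      (∀ c, c ∈ C ↔ ∃ z ∈ Z, cell z = c) →
      ∫⁻ ω, ({ω | ∀ z ∈ Z, ω ∈ dead z} : Set Ω).indicator 1 ω * ek cell (dw w dead ω) k C ∂P
        ≤ ϑ ^ (Z.card + k) * (∑' y, w y) ^ k := by
  classical
  have hZm : ∀ Z : Finset S, MeasurableSet {ω | ∀ z ∈ Z, ω ∈ dead z} := by
    intro Z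
    have : {ω | ∀ z ∈ Z, ω ∈ dead z} = ⋂ z ∈ Z, dead z := by ext; simp
    rw [this]
    exact Finset.measurableSet_biInter _ fun z _ => hd z
  intro k
  induction k with
  | zero =>
    intro Z C hZ hinj _
    simp only [ek, mul_one, pow_zero, add_zero]
    rw [lintegral_indicator_one (hZm Z)]
    exact hK Z hZ hinj
  | succ k ih =>
    intro Z C hZ hinj hC
    have hone : Measurable (({ω | ∀ z ∈ Z, ω ∈ dead z} : Set Ω).indicator (1 : Ω → ℝ≥0∞)) :=
      measurable_one.indicator (hZm Z)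
    have h1 : ∀ ω, ({ω | ∀ z ∈ Z, ω ∈ dead z} : Set Ω).indicator 1 ω * ek cell (dw w dead ω) (k + 1) C
        = ∑' y, (({ω | ∀ z ∈ Z, ω ∈ dead z} : Set Ω).indicator 1 ω *
          (if cell y ∈ C then 0 else dw w dead ω y * ek cell (dw w dead ω) k (insert (cell y) C))) := by
      intro ω
      rw [ENNReal.tsum_mul_left]
      rfl
    simp_rw [h1]
    rw [lintegral_tsum]
    swap
    · intro y
      refine (hone.mul ?_).aemeasurable
      by_cases hy : cell y ∈ C
      · simp only [if_pos hy]; exact measurable_const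
      · simp only [if_neg hy]
        exact (dw_meas hd y).mul (ek_meas cell hd _ _)
    calc ∑' y, ∫⁻ ω, (({ω | ∀ z ∈ Z, ω ∈ dead z} : Set Ω).indicator 1 ω *
          (if cell y ∈ C then 0 else dw w dead ω y * ek cell (dw w dead ω) k (insert (cell y) C))) ∂P
        ≤ ∑' y, w y * (ϑ ^ (Z.card + (k + 1)) * (∑' y, w y) ^ k) := by
          refine ENNReal.tsum_le_tsum fun y => ?_
          by_cases hy : cell y ∈ C
          · simp only [if_pos hy, mul_zero, lintegral_zero]
            exact bot_le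
          · simp only [if_neg hy]
            by_cases hyL : y ∈ Ls
            · have hyZ : y ∉ Z := fun h => hy ((hC _).2 ⟨y, h, rfl⟩)
              have h2 : ∀ ω, ({ω | ∀ z ∈ Z, ω ∈ dead z} : Set Ω).indicator 1 ω *
                  (dw w dead ω y * ek cell (dw w dead ω) k (insert (cell y) C))
                  = w y * (({ω | ∀ z ∈ insert y Z, ω ∈ dead z} : Set Ω).indicator 1 ω *
                    ek cell (dw w dead ω) k (insert (cell y) C)) := by
                intro ω
                by_cases h3 : ω ∈ {ω | ∀ z ∈ Z, ω ∈ dead z}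
                · by_cases h4 : ω ∈ dead y
                  · have h5 : ω ∈ {ω | ∀ z ∈ insert y Z, ω ∈ dead z} := by
                      intro z hz
                      rcases Finset.mem_insert.1 hz with rfl | hz
                      · exact h4
                      · exact h3 z hz
                    rw [indicator_of_mem h3, indicator_of_mem h5]
                    unfold dw
                    rw [indicator_of_mem h4]
                    simp only [Pi.one_apply, one_mul]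
                  · have h5 : ω ∉ {ω | ∀ z ∈ insert y Z, ω ∈ dead z} := fun h =>
                      h4 (h y (Finset.mem_insert_self _ _))
                    rw [indicator_of_notMem h5]
                    unfold dw
                    rw [indicator_of_notMem h4]
                    simp
                · have h5 : ω ∉ {ω | ∀ z ∈ insert y Z, ω ∈ dead z} := fun h =>
                    h3 fun z hz => h z (Finset.mem_insert_of_mem hz)
                  rw [indicator_of_notMem h3, indicator_of_notMem h5]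
                  simp
              simp_rw [h2]
              have hmm : Measurable fun ω => ({ω | ∀ z ∈ insert y Z, ω ∈ dead z} : Set Ω).indicator
                  (1 : Ω → ℝ≥0∞) ω * ek cell (dw w dead ω) k (insert (cell y) C) :=
                (measurable_one.indicator (hZm _)).mul (ek_meas cell hd _ _)
              rw [lintegral_const_mul _ hmm]
              gcongr
              have h6 := ih (insert y Z) (insert (cell y) C)
                (fun z hz => by
                  rcases Finset.mem_insert.1 hz with rfl | hz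
                  · exact hyL
                  · exact hZ z hz)
                (by
                  rw [Finset.coe_insert, Set.injOn_insert (by exact_mod_cast hyZ)]
                  refine ⟨hinj, ?_⟩
                  rintro ⟨z, hz, hzy⟩
                  exact hy ((hC _).2 ⟨z, by exact_mod_cast hz, hzy⟩))
                (fun c => by
                  rw [Finset.mem_insert, hC]
                  constructor
                  · rintro (h | ⟨z, hz, h⟩)
                    · exact ⟨y, Finset.mem_insert_self _ _, h.symm⟩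
                    · exact ⟨z, Finset.mem_insert_of_mem hz, h⟩
                  · rintro ⟨z, hz, h⟩
                    rcases Finset.mem_insert.1 hz with rfl | hz
                    · exact Or.inl h.symm
                    · exact Or.inr ⟨z, hz, h⟩)
              rw [Finset.card_insert_of_notMem hyZ] at h6
              have e : Z.card + 1 + k = Z.card + (k + 1) := by ring
              rw [e] at h6
              exact h6
            · have h7 : ∀ ω, dw w dead ω y = 0 := by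
                intro ω
                unfold dw
                rw [hw y hyL]
                simp
              simp only [h7, zero_mul, mul_zero, lintegral_zero]
              exact bot_le
      _ = ϑ ^ (Z.card + (k + 1)) * (∑' y, w y) ^ (k + 1) := by
          rw [ENNReal.tsum_mul_right, pow_succ]
          ring

/-- Chebyshev form -/
lemma pop_core {P : Measure Ω} (Ls : Set S) (cell : S → ι) {w : S → ℝ≥0∞}
    (hw : ∀ y, y ∉ Ls → w y = 0) (hw1 : ∑' y, w y ≤ 1)
    {dead : S → Set Ω} (hd : ∀ y, MeasurableSet (dead y)) {ϑ : ℝ≥0∞}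
    (hK : ∀ K : Finset S, (∀ z ∈ K, z ∈ Ls) → Set.InjOn cell K →
      P {ω | ∀ z ∈ K, ω ∈ dead z} ≤ ϑ ^ K.card)
    {M : ℝ≥0∞} (hM : ∀ c, qc cell w c ≤ M) (hMt : M ≠ ∞) {r x : ℝ≥0∞} {k : ℕ}
    (hr : r + k * M ≤ x) :
    r ^ k * P {ω | x ≤ ∑' y, dw w dead ω y} ≤ ϑ ^ k := by
  classical
  have h1 := ek_le Ls cell hw hd hK k ∅ ∅ (by simp) (by simp) (by simp)
  have h2 : ∀ ω : Ω, ({ω | ∀ z ∈ (∅ : Finset S), ω ∈ dead z} : Set Ω).indicator (1 : Ω → ℝ≥0∞) ω
      = 1 := by
    intro ω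
    rw [indicator_of_mem (by simp)]
    rfl
  simp only [h2, one_mul, Finset.card_empty, zero_add] at h1
  have hm := ek_meas cell (w := w) hd k ∅
  have h3 : r ^ k * P {ω | r ^ k ≤ ek cell (dw w dead ω) k ∅}
      ≤ ∫⁻ ω, ek cell (dw w dead ω) k ∅ ∂P := mul_meas_ge_le_lintegral hm _
  calc r ^ k * P {ω | x ≤ ∑' y, dw w dead ω y}
      ≤ r ^ k * P {ω | r ^ k ≤ ek cell (dw w dead ω) k ∅} := by
        refine mul_le_mul' le_rfl (measure_mono fun ω hω => ?_)
        refine ek_ge cell (dw w dead ω) (M := M) (fun c => le_trans ?_ (hM c)) hMt k ∅ ?_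
        · unfold qc
          refine ENNReal.tsum_le_tsum fun y => ?_
          by_cases hy : cell y = c
          · rw [if_pos hy, if_pos hy]
            unfold dw
            exact indicator_le_self' (fun _ _ => bot_le) ω
          · rw [if_neg hy, if_neg hy]
        · simp only [Finset.card_empty, zero_add]
          exact hr.trans hω
    _ ≤ ∫⁻ ω, ek cell (dw w dead ω) k ∅ ∂P := h3
    _ ≤ ϑ ^ k * (∑' y, w y) ^ k := h1
    _ ≤ ϑ ^ k * 1 := by gcongr; exact pow_le_one' hw1 k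
    _ = ϑ ^ k := mul_one _

/-- collision sum of a law -/
noncomputable def E2 (cell : S → ι) (w : S → ℝ≥0∞) : ℝ≥0∞ := ∑' y, w y * qc cell w (cell y)

lemma qc_le (cell : S → ι) (w : S → ℝ≥0∞) (c : ι) : qc cell w c ≤ ∑' y, w y := by
  classical
  unfold qc
  refine ENNReal.tsum_le_tsum fun y => ?_
  by_cases hy : cell y = c
  · rw [if_pos hy]
  · rw [if_neg hy]; exact bot_le

lemma le_qc (cell : S → ι) (w : S → ℝ≥0∞) (y : S) : w y ≤ qc cell w (cell y) := by
  classical
  have h := ENNReal.le_tsum (f := fun y' => if cell y' = cell y then w y' else 0) y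
  simp only [if_true] at h
  exact h

lemma E2_le (cell : S → ι) (w : S → ℝ≥0∞) : E2 cell w ≤ (∑' y, w y) * ∑' y, w y := by
  unfold E2
  rw [← ENNReal.tsum_mul_right]
  refine ENNReal.tsum_le_tsum fun y => ?_
  gcongr
  exact qc_le cell w _

lemma E2_ne_zero (cell : S → ι) (w : S → ℝ≥0∞) (h : ∑' y, w y ≠ 0) : E2 cell w ≠ 0 := by
  intro h0
  refine h (ENNReal.tsum_eq_zero.2 fun y => ?_)
  have h1 := (ENNReal.tsum_eq_zero.1 h0) y
  rcases mul_eq_zero.1 h1 with h2 | h2
  · exact h2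
  · exact le_antisymm ((le_qc cell w y).trans h2.le) bot_le

lemma num16 (k : ℕ) : ((16 : ℝ≥0∞)⁻¹) ^ k ≤ (((k : ℝ≥0∞) + 1)⁻¹) ^ 2 := by
  have h1 : k + 1 ≤ 4 ^ k := by
    induction k with
    | zero => simp
    | succ k ih => rw [pow_succ]; omega
  have h2 : (k + 1) ^ 2 ≤ 16 ^ k := by
    calc (k + 1) ^ 2 ≤ (4 ^ k) ^ 2 := Nat.pow_le_pow_left h1 2
      _ = 16 ^ k := by rw [← pow_mul, mul_comm, pow_mul]; norm_num
  rw [← ENNReal.inv_pow, ← ENNReal.inv_pow, ENNReal.inv_le_inv]
  exact_mod_cast h2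

lemma split24 {m : ℝ≥0∞} (hmt : m ≠ ∞) : m / 2 = m / 4 + m / 4 := by
  lift m to NNReal using hmt
  have h4 : (4 : ℝ≥0∞) = ((4 : NNReal) : ℝ≥0∞) := by norm_cast
  have h2 : (2 : ℝ≥0∞) = ((2 : NNReal) : ℝ≥0∞) := by norm_cast
  rw [h4, h2, ← ENNReal.coe_div (by norm_num), ← ENNReal.coe_div (by norm_num),
    ← ENNReal.coe_add]
  congr 1
  rw [← NNReal.coe_inj]
  push_cast
  ring

lemma split48 {m : ℝ≥0∞} (hmt : m ≠ ∞) : m / 4 = m / 8 + m / 8 := by
  lift m to NNReal using hmt
  have h4 : (4 : ℝ≥0∞) = ((4 : NNReal) : ℝ≥0∞) := by norm_cast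
  have h2 : (8 : ℝ≥0∞) = ((8 : NNReal) : ℝ≥0∞) := by norm_cast
  rw [h4, h2, ← ENNReal.coe_div (by norm_num), ← ENNReal.coe_div (by norm_num),
    ← ENNReal.coe_add]
  congr 1
  rw [← NNReal.coe_inj]
  push_cast
  ring

/-- **population lemma**, deterministic law -/
theorem pop {P : Measure Ω} (Ls : Set S) (cell : S → ι) {w : S → ℝ≥0∞}
    (hw : ∀ y, y ∉ Ls → w y = 0) (hw1 : ∑' y, w y ≤ 1)
    {dead : S → Set Ω} (hd : ∀ y, MeasurableSet (dead y)) {ϑ : ℝ≥0∞}
    (hK : ∀ K : Finset S, (∀ z ∈ K, z ∈ Ls) → Set.InjOn cell K →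
      P {ω | ∀ z ∈ K, ω ∈ dead z} ≤ ϑ ^ K.card)
    {p : ℝ≥0∞} (hp0 : p ≠ 0) (hpt : p ≠ ∞) (hϑ : 512 * ϑ ≤ p) (hm : p / 4 ≤ ∑' y, w y) :
    P {ω | (∑' y, w y) / 2 ≤ ∑' y, dw w dead ω y} ≤ (512 / (p * p) * E2 cell w) ^ 2 := by
  classical
  set m : ℝ≥0∞ := ∑' y, w y with hmdef
  have hmt : m ≠ ∞ := ne_top_of_le_ne_top ENNReal.one_ne_top hw1
  have hm0 : m ≠ 0 := fun h => by
    rw [h] at hm
    have := le_antisymm hm bot_le
    simp [ENNReal.div_eq_zero_iff] at this
    exact hp0 this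
  set e : ℝ≥0∞ := E2 cell w with hedef
  have he0 : e ≠ 0 := E2_ne_zero cell w hm0
  have het : e ≠ ∞ := ne_top_of_le_ne_top (ENNReal.mul_ne_top hmt hmt) (E2_le cell w)
  set M : ℝ≥0∞ := 4 * e / m with hMdef
  have hMm : M * m = 4 * e := ENNReal.div_mul_cancel hm0 hmt
  have hM0 : M ≠ 0 := fun h => by
    rw [h, zero_mul] at hMm
    have := hMm.symm
    simp at this
    exact he0 this
  have hMt : M ≠ ∞ := ENNReal.div_ne_top (ENNReal.mul_ne_top (by norm_num) het) hm0
  -- light part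
  set w' : S → ℝ≥0∞ := fun y => if qc cell w (cell y) ≤ M then w y else 0 with hw'
  have hw'le : ∀ y, w' y ≤ w y := by
    intro y
    simp only [hw']
    split_ifs
    · exact le_rfl
    · exact bot_le
  have hw'0 : ∀ y, y ∉ Ls → w' y = 0 := fun y hy => le_antisymm ((hw'le y).trans (hw y hy).le) bot_le
  have hw'1 : ∑' y, w' y ≤ 1 := (ENNReal.tsum_le_tsum hw'le).trans hw1
  have hqc : ∀ c, qc cell w' c ≤ M := by
    intro c
    by_cases hc : qc cell w c ≤ M
    · refine le_trans ?_ hc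
      unfold qc
      refine ENNReal.tsum_le_tsum fun y => ?_
      by_cases hy : cell y = c
      · rw [if_pos hy, if_pos hy]; exact hw'le y
      · rw [if_neg hy, if_neg hy]
    · have : qc cell w' c = 0 := by
        unfold qc
        refine ENNReal.tsum_eq_zero.2 fun y => ?_
        by_cases hy : cell y = c
        · rw [if_pos hy]
          simp only [hw']
          rw [if_neg]
          rw [hy]; exact hc
        · rw [if_neg hy]
      rw [this]; exact bot_le
  -- heavy part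
  set hv : ℝ≥0∞ := ∑' y, (if qc cell w (cell y) ≤ M then 0 else w y) with hhv
  have hhvM : hv * M ≤ e := by
    rw [hhv, ← ENNReal.tsum_mul_right]
    refine ENNReal.tsum_le_tsum fun y => ?_
    by_cases hy : qc cell w (cell y) ≤ M
    · rw [if_pos hy, zero_mul]; exact bot_le
    · rw [if_neg hy]
      gcongr
      exact (not_le.1 hy).le
  have hhv4 : hv ≤ m / 4 := by
    rw [ENNReal.le_div_iff_mul_le (Or.inl (by norm_num)) (Or.inl (by norm_num))]
    have h1 : e * (hv * 4) ≤ e * m := by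
      calc e * (hv * 4) = hv * (4 * e) := by ring
        _ = hv * (M * m) := by rw [hMm]
        _ = (hv * M) * m := by ring
        _ ≤ e * m := by gcongr
    exact (ENNReal.mul_le_mul_iff_right he0 het).1 h1
  have hm24 : m / 2 = m / 4 + m / 4 := split24 hmt
  have hm48 : m / 4 = m / 8 + m / 8 := split48 hmt
  have hm4t : m / 4 ≠ ∞ := ENNReal.div_ne_top hmt (by norm_num)
  have hsub : {ω | m / 2 ≤ ∑' y, dw w dead ω y} ⊆ {ω | m / 4 ≤ ∑' y, dw w' dead ω y} := by
    intro ω hω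
    have h1 : ∑' y, dw w dead ω y ≤ hv + ∑' y, dw w' dead ω y := by
      rw [hhv, ← ENNReal.tsum_add]
      refine ENNReal.tsum_le_tsum fun y => ?_
      unfold dw
      by_cases hy : qc cell w (cell y) ≤ M
      · simp only [hw', if_pos hy, zero_add]
        exact le_rfl
      · simp only [hw', if_neg hy]
        refine le_trans (indicator_le_self' (fun _ _ => bot_le) ω) le_self_add
    have h2 : m / 4 + m / 4 ≤ m / 4 + ∑' y, dw w' dead ω y := by
      rw [← hm24]
      exact (le_trans (show m / 2 ≤ _ from hω) h1).trans (by gcongr)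
    exact (ENNReal.add_le_add_iff_left hm4t).1 h2
  -- choice of `k`
  set ρ : ℝ≥0∞ := m / (8 * M) with hρ
  have h8M0 : 8 * M ≠ 0 := mul_ne_zero (by norm_num) hM0
  have h8Mt : 8 * M ≠ ∞ := ENNReal.mul_ne_top (by norm_num) hMt
  have hρt : ρ ≠ ∞ := ENNReal.div_ne_top hmt h8M0
  have hρM : ρ * (8 * M) = m := ENNReal.div_mul_cancel h8M0 h8Mt
  set k : ℕ := ⌊ρ.toReal⌋₊ with hk
  have hkρ : (k : ℝ≥0∞) ≤ ρ := by
    have h1 : (k : ℝ) ≤ ρ.toReal := Nat.floor_le ENNReal.toReal_nonneg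
    rw [← ENNReal.ofReal_toReal hρt, ← ENNReal.ofReal_natCast]
    exact ENNReal.ofReal_le_ofReal h1
  have hρk : ρ ≤ (k : ℝ≥0∞) + 1 := by
    have h1 : ρ.toReal ≤ (k : ℝ) + 1 := (Nat.lt_floor_add_one _).le
    rw [← ENNReal.ofReal_toReal hρt]
    calc ENNReal.ofReal ρ.toReal ≤ ENNReal.ofReal ((k : ℝ) + 1) := ENNReal.ofReal_le_ofReal h1
      _ = (k : ℝ≥0∞) + 1 := by
        rw [ENNReal.ofReal_add (Nat.cast_nonneg _) zero_le_one, ENNReal.ofReal_natCast,
          ENNReal.ofReal_one]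
  have hkM : (k : ℝ≥0∞) * M ≤ m / 8 := by
    rw [ENNReal.le_div_iff_mul_le (Or.inl (by norm_num)) (Or.inl (by norm_num))]
    calc (k : ℝ≥0∞) * M * 8 = k * (8 * M) := by ring
      _ ≤ ρ * (8 * M) := by gcongr
      _ = m := hρM
  have hcore := pop_core (P := P) Ls cell hw'0 hw'1 hd hK hqc hMt (r := m / 8) (x := m / 4)
    (k := k) (by rw [hm48]; gcongr)
  have h80 : m / 8 ≠ 0 := by
    simp [ENNReal.div_eq_zero_iff, hm0]
  have h8t : m / 8 ≠ ∞ := ENNReal.div_ne_top hmt (by norm_num)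
  have hϑm : ϑ ≤ m / 8 * 16⁻¹ := by
    have h1 : 512 * ϑ ≤ 4 * m := by
      refine hϑ.trans ?_
      have := hm
      rw [ENNReal.div_le_iff_le_mul (Or.inl (by norm_num)) (Or.inl (by norm_num))] at this
      rw [mul_comm]; exact this
    rw [← div_eq_mul_inv, ENNReal.le_div_iff_mul_le (Or.inl (by norm_num))
      (Or.inl (by norm_num)), ENNReal.le_div_iff_mul_le (Or.inl (by norm_num))
      (Or.inl (by norm_num))]
    have h2 : (4 : ℝ≥0∞) * (ϑ * 16 * 8) ≤ 4 * m := by
      calc (4 : ℝ≥0∞) * (ϑ * 16 * 8) = 512 * ϑ := by ring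
        _ ≤ 4 * m := h1
    exact (ENNReal.mul_le_mul_iff_right (by norm_num) (by norm_num)).1 h2
  have hP16 : P {ω | m / 4 ≤ ∑' y, dw w' dead ω y} ≤ ((16 : ℝ≥0∞)⁻¹) ^ k := by
    have h1 : (m / 8) ^ k * P {ω | m / 4 ≤ ∑' y, dw w' dead ω y}
        ≤ (m / 8) ^ k * ((16 : ℝ≥0∞)⁻¹) ^ k := by
      rw [← mul_pow]
      exact hcore.trans (pow_le_pow_left' hϑm k)
    exact (ENNReal.mul_le_mul_iff_right (pow_ne_zero _ h80) (ENNReal.pow_ne_top h8t)).1 h1
  -- the collision bound
  have hpp0 : p * p ≠ 0 := mul_ne_zero hp0 hp0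
  have hppt : p * p ≠ ∞ := ENNReal.mul_ne_top hpt hpt
  have hG : 1 ≤ 512 / (p * p) * e * ((k : ℝ≥0∞) + 1) := by
    have hp4m : p ≤ 4 * m := by
      have := hm
      rw [ENNReal.div_le_iff_le_mul (Or.inl (by norm_num)) (Or.inl (by norm_num))] at this
      rw [mul_comm]; exact this
    have h1 : p * p ≤ 512 * (e * ρ) := by
      calc p * p ≤ (4 * m) * (4 * m) := mul_le_mul' hp4m hp4m
        _ = 16 * (m * (ρ * (8 * M))) := by rw [hρM]; ring
        _ = 128 * ρ * (M * m) := by ring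
        _ = 128 * ρ * (4 * e) := by rw [hMm]
        _ = 512 * (e * ρ) := by ring
    calc (1 : ℝ≥0∞) = (p * p) / (p * p) := (ENNReal.div_self hpp0 hppt).symm
      _ ≤ 512 * (e * ρ) / (p * p) := by gcongr
      _ = 512 / (p * p) * e * ρ := by
          rw [ENNReal.div_eq_inv_mul, ENNReal.div_eq_inv_mul]; ring
      _ ≤ 512 / (p * p) * e * ((k : ℝ≥0∞) + 1) := by gcongr
  have hk1 : (k : ℝ≥0∞) + 1 ≠ 0 := by positivity
  have hk1t : (k : ℝ≥0∞) + 1 ≠ ∞ := by
    exact ENNReal.add_ne_top.2 ⟨ENNReal.natCast_ne_top _, ENNReal.one_ne_top⟩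
  have hinv : ((k : ℝ≥0∞) + 1)⁻¹ ≤ 512 / (p * p) * e := by
    calc ((k : ℝ≥0∞) + 1)⁻¹ = 1 * ((k : ℝ≥0∞) + 1)⁻¹ := (one_mul _).symm
      _ ≤ (512 / (p * p) * e * ((k : ℝ≥0∞) + 1)) * ((k : ℝ≥0∞) + 1)⁻¹ := by gcongr
      _ = 512 / (p * p) * e * (((k : ℝ≥0∞) + 1) * ((k : ℝ≥0∞) + 1)⁻¹) := by ring
      _ = 512 / (p * p) * e := by rw [ENNReal.mul_inv_cancel hk1 hk1t, mul_one]
  calc P {ω | m / 2 ≤ ∑' y, dw w dead ω y}
      ≤ P {ω | m / 4 ≤ ∑' y, dw w' dead ω y} := measure_mono hsub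
    _ ≤ ((16 : ℝ≥0∞)⁻¹) ^ k := hP16
    _ ≤ (((k : ℝ≥0∞) + 1)⁻¹) ^ 2 := num16 k
    _ ≤ (512 / (p * p) * e) ^ 2 := pow_le_pow_left' hinv 2

/-! ### random law, independent dead sets -/

lemma E2_zero (cell : S → ι) : E2 cell (fun _ => 0) = 0 := by
  unfold E2
  simp

/-- **population lemma**, law measurable with respect to the past -/
theorem freeze {Ω : Type*} {F H : MeasurableSpace Ω} {m0 : MeasurableSpace Ω} {P : Measure Ω}
    [IsProbabilityMeasure P] (hF : F ≤ m0) (hH : H ≤ m0) (hind : Indep F H P) (Ls : Set S) (cell : S → ι) {w : Ω → S → ℝ≥0∞}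
    (hwm : ∀ y, Measurable[F] fun ω => w ω y)
    (hw : ∀ ω y, y ∉ Ls → w ω y = 0) (hw1 : ∀ ω, ∑' y, w ω y ≤ 1)
    {dead : S → Set Ω} (hd : ∀ y, MeasurableSet[H] (dead y)) {ϑ : ℝ≥0∞}
    (hK : ∀ K : Finset S, (∀ z ∈ K, z ∈ Ls) → Set.InjOn cell K →
      P {ω | ∀ z ∈ K, ω ∈ dead z} ≤ ϑ ^ K.card)
    {p : ℝ≥0∞} (hp0 : p ≠ 0) (hpt : p ≠ ∞) (hϑ : 512 * ϑ ≤ p) {B : Set Ω}
    (hB : MeasurableSet[F] B) :
    P (B ∩ {ω | p / 4 ≤ ∑' y, w ω y ∧ (∑' y, w ω y) / 2 ≤ ∑' y, dw (w ω) dead ω y})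
      ≤ ∫⁻ ω in B, (512 / (p * p) * E2 cell (w ω)) ^ 2 ∂P := by
  classical
  have hB0 : MeasurableSet B := hF _ hB
  set f : Ω → S → ℝ≥0∞ := fun ω y => B.indicator (fun ω => w ω y) ω with hf
  set g : Ω → S → ℝ≥0∞ := fun ω y => (dead y).indicator 1 ω with hg
  have hfF : Measurable[F] f := by
    refine @measurable_pi_lambda _ _ _ F _ f fun y => ?_
    exact (hwm y).indicator hB
  have hgH : Measurable[H] g := by
    refine @measurable_pi_lambda _ _ _ H _ g fun y => ?_
    exact (@measurable_one _ _ _ H _).indicator (hd y)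
  have hfm : Measurable f := hfF.mono hF le_rfl
  have hgm : Measurable g := hgH.mono hH le_rfl
  have hfg : IndepFun f g P := by
    rw [IndepFun_iff_Indep]
    exact indep_of_indep_of_le_left (indep_of_indep_of_le_right hind hgH.comap_le) hfF.comap_le
  have hmap := (indepFun_iff_map_prod_eq_prod_map_map hfm.aemeasurable hgm.aemeasurable).1 hfg
  set T : Set ((S → ℝ≥0∞) × (S → ℝ≥0∞)) :=
    {z | p / 4 ≤ ∑' y, z.1 y ∧ (∑' y, z.1 y) / 2 ≤ ∑' y, z.1 y * z.2 y} with hT
  have hTm : MeasurableSet T := by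
    have m1 : Measurable fun z : (S → ℝ≥0∞) × (S → ℝ≥0∞) => ∑' y, z.1 y :=
      Measurable.ennreal_tsum fun y => (measurable_pi_apply y).comp measurable_fst
    have m2 : Measurable fun z : (S → ℝ≥0∞) × (S → ℝ≥0∞) => ∑' y, z.1 y * z.2 y :=
      Measurable.ennreal_tsum fun y => ((measurable_pi_apply y).comp measurable_fst).mul
        ((measurable_pi_apply y).comp measurable_snd)
    exact (measurableSet_le measurable_const m1).inter
      (measurableSet_le (m1.div_const 2) m2)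
  have hsub : B ∩ {ω | p / 4 ≤ ∑' y, w ω y ∧ (∑' y, w ω y) / 2 ≤ ∑' y, dw (w ω) dead ω y}
      ⊆ (fun ω => (f ω, g ω)) ⁻¹' T := by
    rintro ω ⟨hωB, h1, h2⟩
    have e1 : ∀ y, f ω y = w ω y := fun y => by
      simp only [hf]
      rw [indicator_of_mem hωB]
    have e2 : ∀ y, f ω y * g ω y = dw (w ω) dead ω y := by
      intro y
      rw [e1]
      simp only [hg]
      unfold dw
      by_cases hy : ω ∈ dead y
      · rw [indicator_of_mem hy, indicator_of_mem hy]; simp
      · rw [indicator_of_notMem hy, indicator_of_notMem hy, mul_zero]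
    show p / 4 ≤ ∑' y, f ω y ∧ (∑' y, f ω y) / 2 ≤ ∑' y, f ω y * g ω y
    rw [tsum_congr e1, tsum_congr e2]
    exact ⟨h1, h2⟩
  have hprod : P ((fun ω => (f ω, g ω)) ⁻¹' T) = ∫⁻ ω, P (g ⁻¹' (Prod.mk (f ω) ⁻¹' T)) ∂P := by
    rw [← Measure.map_apply (hfm.prodMk hgm) hTm, hmap, Measure.prod_apply hTm,
      lintegral_map (measurable_measure_prodMk_left hTm) hfm]
    refine lintegral_congr fun ω => ?_
    rw [Measure.map_apply hgm (measurable_prodMk_left hTm)]
  calc P (B ∩ {ω | p / 4 ≤ ∑' y, w ω y ∧ (∑' y, w ω y) / 2 ≤ ∑' y, dw (w ω) dead ω y})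
      ≤ P ((fun ω => (f ω, g ω)) ⁻¹' T) := measure_mono hsub
    _ = ∫⁻ ω, P (g ⁻¹' (Prod.mk (f ω) ⁻¹' T)) ∂P := hprod
    _ ≤ ∫⁻ ω, B.indicator (fun ω => (512 / (p * p) * E2 cell (w ω)) ^ 2) ω ∂P := by
        refine lintegral_mono fun ω => ?_
        by_cases hωB : ω ∈ B
        · rw [indicator_of_mem hωB]
          have e1 : f ω = w ω := by
            funext y
            simp only [hf]
            rw [indicator_of_mem hωB]
          by_cases hm : p / 4 ≤ ∑' y, w ω y
          · have h3 : g ⁻¹' (Prod.mk (f ω) ⁻¹' T)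
                ⊆ {ω' | (∑' y, w ω y) / 2 ≤ ∑' y, dw (w ω) dead ω' y} := by
              intro ω' hω'
              have h4 : (∑' y, f ω y) / 2 ≤ ∑' y, f ω y * g ω' y := hω'.2
              rw [e1] at h4
              show (∑' y, w ω y) / 2 ≤ ∑' y, dw (w ω) dead ω' y
              refine h4.trans (le_of_eq (tsum_congr fun y => ?_))
              simp only [hg]
              unfold dw
              by_cases hy : ω' ∈ dead y
              · rw [indicator_of_mem hy, indicator_of_mem hy]; simp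
              · rw [indicator_of_notMem hy, indicator_of_notMem hy, mul_zero]
            exact (measure_mono h3).trans (pop Ls cell (hw ω) (hw1 ω)
              (fun y => hH _ (hd y)) hK hp0 hpt hϑ hm)
          · have h3 : g ⁻¹' (Prod.mk (f ω) ⁻¹' T) = ∅ := by
              ext ω'
              simp only [Set.mem_preimage, mem_empty_iff_false, iff_false]
              intro h4
              have h5 : p / 4 ≤ ∑' y, f ω y := h4.1
              rw [e1] at h5
              exact hm h5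
            rw [h3, measure_empty]
            exact bot_le
        · rw [indicator_of_notMem hωB]
          have e1 : ∀ y, f ω y = 0 := fun y => by
            simp only [hf]
            rw [indicator_of_notMem hωB]
          have h3 : g ⁻¹' (Prod.mk (f ω) ⁻¹' T) = ∅ := by
            ext ω'
            simp only [Set.mem_preimage, mem_empty_iff_false, iff_false]
            intro h4
            have h5 : p / 4 ≤ ∑' y, f ω y := h4.1
            rw [tsum_congr e1, tsum_zero] at h5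
            have h6 := le_antisymm h5 bot_le
            simp [ENNReal.div_eq_zero_iff] at h6
            exact hp0 h6
          rw [h3, measure_empty]
    _ = ∫⁻ ω in B, (512 / (p * p) * E2 cell (w ω)) ^ 2 ∂P := lintegral_indicator hB0 _

lemma qc_meas {F : MeasurableSpace Ω} (cell : S → ι) {w : Ω → S → ℝ≥0∞}
    (hwm : ∀ y, Measurable[F] fun ω => w ω y) (c : ι) : Measurable[F] fun ω => qc cell (w ω) c := by
  classical
  unfold qc
  refine Measurable.ennreal_tsum fun y => ?_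
  by_cases hy : cell y = c
  · simp only [if_pos hy]; exact hwm y
  · simp only [if_neg hy]; exact @measurable_const _ _ _ F _

lemma E2_meas {F : MeasurableSpace Ω} (cell : S → ι) {w : Ω → S → ℝ≥0∞}
    (hwm : ∀ y, Measurable[F] fun ω => w ω y) : Measurable[F] fun ω => E2 cell (w ω) := by
  unfold E2
  refine Measurable.ennreal_tsum fun y => ?_
  exact (hwm y).mul (qc_meas cell hwm _)

/-- two bounds for the conditional probability of a steep place: `min (ζ, G²) ≤ √ζ * G` -/
theorem steep_le {Ω : Type*} {F H : MeasurableSpace Ω} {m0 : MeasurableSpace Ω} {P : Measure Ω}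
    [IsProbabilityMeasure P] (hF : F ≤ m0) (hH : H ≤ m0)
    (hind : Indep F H P) (Ls : Set S) (cell : S → ι) {w : Ω → S → ℝ≥0∞}
    (hwm : ∀ y, Measurable[F] fun ω => w ω y)
    (hw : ∀ ω y, y ∉ Ls → w ω y = 0) (hw1 : ∀ ω, ∑' y, w ω y ≤ 1)
    {dead : S → Set Ω} (hd : ∀ y, MeasurableSet[H] (dead y)) {ϑ : ℝ≥0∞}
    (hK : ∀ K : Finset S, (∀ z ∈ K, z ∈ Ls) → Set.InjOn cell K →
      P {ω | ∀ z ∈ K, ω ∈ dead z} ≤ ϑ ^ K.card)
    {p : ℝ≥0∞} (hp0 : p ≠ 0) (hpt : p ≠ ∞) (hϑ : 512 * ϑ ≤ p)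
    {St : Set Ω} {ζ z : ℝ≥0∞} (hζ : ζ ≤ z ^ 2)
    (h1 : ∀ B, MeasurableSet[F] B → P (B ∩ St) ≤ ζ * P B)
    (h2 : ∀ᵐ ω ∂P, ω ∈ St → p / 4 ≤ ∑' y, w ω y →
      (∑' y, w ω y) / 2 ≤ ∑' y, dw (w ω) dead ω y)
    {B : Set Ω} (hB : MeasurableSet[F] B) :
    P (B ∩ ({ω | p / 4 ≤ ∑' y, w ω y} ∩ St)) ≤
      z * ∫⁻ ω in B, 512 / (p * p) * E2 cell (w ω) ∂P := by
  classical
  set G : Ω → ℝ≥0∞ := fun ω => 512 / (p * p) * E2 cell (w ω) with hG
  have hGF : Measurable[F] G := (E2_meas cell hwm).const_mul _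
  have hGm : Measurable G := hGF.mono hF le_rfl
  set A : Set Ω := {ω | z ≤ G ω} with hA
  have hAF : MeasurableSet[F] A :=
    @measurableSet_le _ _ _ _ _ F _ _ _ _ _ (@measurable_const _ _ _ F _) hGF
  have hAm : MeasurableSet A := hF _ hAF
  have hB0 : MeasurableSet B := hF _ hB
  have hB1 : MeasurableSet[F] (B ∩ A) := MeasurableSet.inter hB hAF
  have hB2 : MeasurableSet[F] (B \ A) := MeasurableSet.diff hB hAF
  have e1 : P ((B ∩ A) ∩ St) ≤ z * ∫⁻ ω in B ∩ A, G ω ∂P := by
    calc P ((B ∩ A) ∩ St) ≤ ζ * P (B ∩ A) := h1 _ hB1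
      _ ≤ z ^ 2 * P (B ∩ A) := by gcongr
      _ = z * (z * P (B ∩ A)) := by ring
      _ = z * ∫⁻ ω in B ∩ A, z ∂P := by rw [setLIntegral_const]
      _ ≤ z * ∫⁻ ω in B ∩ A, G ω ∂P := by
          refine mul_le_mul' le_rfl (setLIntegral_mono hGm fun ω hω => hω.2)
  have e2 : P ((B \ A) ∩ ({ω | p / 4 ≤ ∑' y, w ω y} ∩ St)) ≤ z * ∫⁻ ω in B \ A, G ω ∂P := by
    have h3 := freeze hF hH hind Ls cell hwm hw hw1 hd hK hp0 hpt hϑ hB2
    calc P ((B \ A) ∩ ({ω | p / 4 ≤ ∑' y, w ω y} ∩ St))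
        ≤ P ((B \ A) ∩ {ω | p / 4 ≤ ∑' y, w ω y ∧ (∑' y, w ω y) / 2 ≤ ∑' y, dw (w ω) dead ω y}) := by
          refine measure_mono_ae ?_
          filter_upwards [h2] with ω hω
          rintro ⟨g1, g2, g3⟩
          exact ⟨g1, g2, hω g3 g2⟩
      _ ≤ ∫⁻ ω in B \ A, G ω ^ 2 ∂P := h3
      _ ≤ ∫⁻ ω in B \ A, z * G ω ∂P := by
          refine setLIntegral_mono (hGm.const_mul z) fun ω hω => ?_
          have : G ω ≤ z := (not_le.1 hω.2).le
          calc G ω ^ 2 = G ω * G ω := by ring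
            _ ≤ z * G ω := by gcongr
      _ = z * ∫⁻ ω in B \ A, G ω ∂P := lintegral_const_mul _ hGm
  calc P (B ∩ ({ω | p / 4 ≤ ∑' y, w ω y} ∩ St))
      ≤ P (((B ∩ A) ∩ St) ∪ ((B \ A) ∩ ({ω | p / 4 ≤ ∑' y, w ω y} ∩ St))) := by
        refine measure_mono ?_
        rintro ω ⟨g1, g2, g3⟩
        by_cases hA' : ω ∈ A
        · exact Or.inl ⟨⟨g1, hA'⟩, g3⟩
        · exact Or.inr ⟨⟨g1, hA'⟩, g2, g3⟩
    _ ≤ P ((B ∩ A) ∩ St) + P ((B \ A) ∩ ({ω | p / 4 ≤ ∑' y, w ω y} ∩ St)) := measure_union_le _ _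
    _ ≤ z * ∫⁻ ω in B ∩ A, G ω ∂P + z * ∫⁻ ω in B \ A, G ω ∂P := add_le_add e1 e2
    _ = z * (∫⁻ ω in B ∩ A, G ω ∂P + ∫⁻ ω in B \ A, G ω ∂P) := by ring
    _ = z * ∫⁻ ω in B, G ω ∂P := by rw [lintegral_inter_add_sdiff _ _ hAm]

/-! ### kernel systems -/

variable {P : Measure Ω}

/-- collision kernel of a pair -/
noncomputable def kap (A : KerSys S P) (a b : ℕ) (cell : S → ι) (ω : Ω) (x x' : S) : ℝ≥0∞ :=
  ∑' y, A.G a b ω x y * qc cell (A.G a b ω x') (cell y)

lemma kap_meas (A : KerSys S P) {a b : ℕ} (hab : a ≤ b) (cell : S → ι) (x x' : S) :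
    Measurable[A.H a] fun ω => kap A a b cell ω x x' := by
  unfold kap
  refine Measurable.ennreal_tsum fun y => ?_
  exact (A.measH a b x y hab).mul (qc_meas cell (fun y => A.measH a b x' y hab) _)

lemma qc_push (A : KerSys S P) (a b : ℕ) (cell : S → ι) (e : Ω → S → ℝ≥0∞) (ω : Ω) (c : ι) :
    qc cell (A.push a b e ω) c = ∑' x', e ω x' * qc cell (A.G a b ω x') c := by
  classical
  unfold qc push
  have : ∀ y, (if cell y = c then ∑' x, e ω x * A.G a b ω x y else 0)
      = ∑' x, e ω x * (if cell y = c then A.G a b ω x y else 0) := by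
    intro y
    by_cases hy : cell y = c
    · simp only [if_pos hy]
    · simp only [if_neg hy, mul_zero, tsum_zero]
  simp_rw [this]
  rw [ENNReal.tsum_comm]
  exact tsum_congr fun x => ENNReal.tsum_mul_left

lemma E2_push (A : KerSys S P) (a b : ℕ) (cell : S → ι) (e : Ω → S → ℝ≥0∞) (ω : Ω) :
    E2 cell (A.push a b e ω) = ∑' x, ∑' x', (e ω x * e ω x') * kap A a b cell ω x x' := by
  unfold E2
  have h1 : ∀ y, A.push a b e ω y * qc cell (A.push a b e ω) (cell y)
      = ∑' x, ∑' x', (e ω x * e ω x') * (A.G a b ω x y * qc cell (A.G a b ω x') (cell y)) := by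
    intro y
    rw [qc_push]
    unfold push
    rw [← ENNReal.tsum_mul_right]
    refine tsum_congr fun x => ?_
    rw [← ENNReal.tsum_mul_left]
    exact tsum_congr fun x' => by ring
  simp_rw [h1]
  rw [ENNReal.tsum_comm]
  refine tsum_congr fun x => ?_
  rw [ENNReal.tsum_comm]
  refine tsum_congr fun x' => ?_
  rw [ENNReal.tsum_mul_left]
  rfl

theorem sum_E2 [IsProbabilityMeasure P] (A : KerSys S P) {a : ℕ} {e : Ω → S → ℝ≥0∞}
    (he : A.Wt a e) (he1 : ∀ ω, tot e ω ≤ 1) (s : Finset ℕ) (lb : ℕ → ℕ) (hlb : ∀ b ∈ s, a ≤ lb b)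
    (cell : ℕ → S → ι) {C : ℝ≥0∞}
    (hcoll : ∀ x ∈ A.L a, ∀ x' ∈ A.L a,
      ∑ b ∈ s, ∫⁻ ω, kap A a (lb b) (cell b) ω x x' ∂P ≤ C)
    {B : Set Ω} (hB : MeasurableSet[A.F a] B) :
    ∑ b ∈ s, ∫⁻ ω in B, E2 (cell b) (A.push a (lb b) e ω) ∂P ≤ C * P B := by
  classical
  have hB0 : MeasurableSet B := A.F.le a _ hB
  have hem : ∀ x, Measurable fun ω => e ω x := fun x => (he.meas x).mono (A.F.le a) le_rfl
  have hone : Measurable[A.F a] (B.indicator (1 : Ω → ℝ≥0∞)) :=
    (@measurable_one _ _ _ (A.F a) _).indicator hB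
  have hone0 : Measurable (B.indicator (1 : Ω → ℝ≥0∞)) := hone.mono (A.F.le a) le_rfl
  set I : S → S → ℝ≥0∞ := fun x x' => ∫⁻ ω, B.indicator 1 ω * (e ω x * e ω x') ∂P with hI
  have h1 : ∀ b ∈ s, ∫⁻ ω in B, E2 (cell b) (A.push a (lb b) e ω) ∂P
      = ∑' x, ∑' x', I x x' * ∫⁻ ω, kap A a (lb b) (cell b) ω x x' ∂P := by
    intro b hb
    have hk : ∀ x x', Measurable fun ω => kap A a (lb b) (cell b) ω x x' := fun x x' =>
      (kap_meas A (hlb b hb) (cell b) x x').mono (A.H_le a) le_rfl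
    rw [← lintegral_indicator hB0]
    have h2 : ∀ ω, B.indicator (fun ω => E2 (cell b) (A.push a (lb b) e ω)) ω
        = ∑' x, ∑' x', (B.indicator 1 ω * (e ω x * e ω x')) * kap A a (lb b) (cell b) ω x x' := by
      intro ω
      by_cases hω : ω ∈ B
      · rw [indicator_of_mem hω, indicator_of_mem hω, E2_push]
        simp only [Pi.one_apply, one_mul]
      · rw [indicator_of_notMem hω, indicator_of_notMem hω]
        simp
    simp_rw [h2]
    rw [lintegral_tsum]
    swap
    · intro x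
      exact (Measurable.ennreal_tsum fun x' =>
        (hone0.mul ((hem x).mul (hem x'))).mul (hk x x')).aemeasurable
    refine tsum_congr fun x => ?_
    rw [lintegral_tsum]
    swap
    · intro x'
      exact ((hone0.mul ((hem x).mul (hem x'))).mul (hk x x')).aemeasurable
    refine tsum_congr fun x' => ?_
    exact A.indep_mul (hone.mul ((he.meas x).mul (he.meas x'))) (kap_meas A (hlb b hb) (cell b) x x')
  rw [Finset.sum_congr rfl h1]
  calc ∑ b ∈ s, ∑' x, ∑' x', I x x' * ∫⁻ ω, kap A a (lb b) (cell b) ω x x' ∂P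
      = ∑' x, ∑' x', I x x' * ∑ b ∈ s, ∫⁻ ω, kap A a (lb b) (cell b) ω x x' ∂P := by
        rw [← Summable.tsum_finsetSum (fun _ _ => ENNReal.summable)]
        refine tsum_congr fun x => ?_
        rw [← Summable.tsum_finsetSum (fun _ _ => ENNReal.summable)]
        refine tsum_congr fun x' => ?_
        rw [Finset.mul_sum]
    _ ≤ ∑' x, ∑' x', I x x' * C := by
        refine ENNReal.tsum_le_tsum fun x => ENNReal.tsum_le_tsum fun x' => ?_
        by_cases hx : x ∈ A.L a
        · by_cases hx' : x' ∈ A.L a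
          · exact mul_le_mul' le_rfl (hcoll x hx x' hx')
          · have : I x x' = 0 := by
              simp only [hI]
              simp [he.supp _ x' hx']
            rw [this, zero_mul, zero_mul]
        · have : I x x' = 0 := by
            simp only [hI]
            simp [he.supp _ x hx]
          rw [this, zero_mul, zero_mul]
    _ = (∑' x, ∑' x', I x x') * C := by
        rw [← ENNReal.tsum_mul_right]
        exact tsum_congr fun x => ENNReal.tsum_mul_right
    _ ≤ P B * C := by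
        gcongr
        simp only [hI]
        have h3 : ∀ x, ∑' x', ∫⁻ ω, B.indicator 1 ω * (e ω x * e ω x') ∂P
            = ∫⁻ ω, ∑' x', B.indicator 1 ω * (e ω x * e ω x') ∂P := by
          intro x
          rw [lintegral_tsum]
          intro x'
          exact (hone0.mul ((hem x).mul (hem x'))).aemeasurable
        simp_rw [h3]
        rw [← lintegral_tsum, ← lintegral_indicator_one hB0]
        · refine lintegral_mono fun ω => ?_
          have h4 : ∑' x, ∑' x', B.indicator 1 ω * (e ω x * e ω x')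
              = B.indicator 1 ω * (tot e ω * tot e ω) := by
            unfold tot
            rw [← ENNReal.tsum_mul_right, ← ENNReal.tsum_mul_left]
            refine tsum_congr fun x => ?_
            rw [← ENNReal.tsum_mul_left, ← ENNReal.tsum_mul_left]
          rw [h4]
          calc B.indicator 1 ω * (tot e ω * tot e ω) ≤ B.indicator 1 ω * (1 * 1) := by
                gcongr <;> exact he1 ω
            _ = B.indicator 1 ω := by rw [mul_one, mul_one]
        · intro x
          exact (Measurable.ennreal_tsum fun x' =>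
            hone0.mul ((hem x).mul (hem x'))).aemeasurable
    _ = C * P B := mul_comm _ _

/-- a steep place has dead weight at least one half -/
lemma dead_of_steep [IsProbabilityMeasure P] (A : KerSys S P) {μ : S → ℝ≥0∞} (hμ : A.Start μ)
    {a b m c : ℕ} (hab : a ≤ b) (hbm : b ≤ m) (hmc : m ≤ c) {p γ q : ℝ≥0∞}
    (hγ : q < γ * (p / 8)) :
    ∀ᵐ ω ∂P, (A.Sh μ m ω ≠ 0 ∧ A.Sh μ c ω ≤ q * A.Sh μ m ω) →
      p / 4 ≤ ∑' y, A.push a b (A.exitW μ a) ω y →
      (∑' y, A.push a b (A.exitW μ a) ω y) / 2 ≤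
        ∑' y, dw (A.push a b (A.exitW μ a) ω) (fun y => {ω | A.N b c ω y < γ}) ω y := by
  filter_upwards [Sh_ge hμ hab (hbm.trans hmc)] with ω h1
  rintro ⟨h0, hst⟩ hm
  by_contra hcon
  have hcon' := not_le.1 hcon
  set w : S → ℝ≥0∞ := A.push a b (A.exitW μ a) ω with hw
  set M : ℝ≥0∞ := ∑' y, w y with hM
  have hM1 : M ≤ 1 := (A.tot_push_le hab (A.exitW μ a) ω).trans (tot_exitW_le μ a ω)
  have hMt : M ≠ ∞ := ne_top_of_le_ne_top ENNReal.one_ne_top hM1
  set D : ℝ≥0∞ := ∑' y, dw w (fun y => {ω | A.N b c ω y < γ}) ω y with hD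
  set L : ℝ≥0∞ := ∑' y, dw w (fun y => {ω | A.N b c ω y < γ}ᶜ) ω y with hL
  have hDL : M = D + L := by
    rw [hM, hD, hL, ← ENNReal.tsum_add]
    refine tsum_congr fun y => ?_
    unfold dw
    by_cases hy : ω ∈ {ω | A.N b c ω y < γ}
    · rw [indicator_of_mem hy, indicator_of_notMem (Set.notMem_compl_iff.2 hy), add_zero]
    · rw [indicator_of_notMem hy, indicator_of_mem (show ω ∈ {ω | A.N b c ω y < γ}ᶜ from hy),
        zero_add]
  have hLge : M / 2 ≤ L := by
    by_contra hc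
    have hc' := not_le.1 hc
    have h2 : D + L < M / 2 + M / 2 := ENNReal.add_lt_add hcon' hc'
    rw [ENNReal.add_halves, ← hDL] at h2
    exact lt_irrefl _ h2
  have htot : L * γ ≤ tot (A.push b c (A.push a b (A.exitW μ a))) ω := by
    rw [tot_push, hL, ← ENNReal.tsum_mul_right]
    refine ENNReal.tsum_le_tsum fun y => ?_
    unfold dw
    by_cases hy : ω ∈ {ω | A.N b c ω y < γ}ᶜ
    · rw [indicator_of_mem hy]
      have h3 : γ ≤ A.N b c ω y := not_lt.1 hy
      gcongr
    · rw [indicator_of_notMem hy, zero_mul]; exact bot_le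
  have hMp : p / 8 ≤ M / 2 := by
    have h4 : p / 8 = (p / 4) / 2 := by
      rw [div_eq_mul_inv, div_eq_mul_inv, div_eq_mul_inv, mul_assoc, ← ENNReal.mul_inv
        (Or.inl (by norm_num)) (Or.inl (by norm_num))]
      norm_num
    rw [h4]
    gcongr
  have h5 : γ * (p / 8) ≤ tot (A.push b c (A.push a b (A.exitW μ a))) ω := by
    calc γ * (p / 8) ≤ γ * L := by
          gcongr
          exact hMp.trans hLge
      _ = L * γ := mul_comm _ _
      _ ≤ _ := htot
  have h6 : A.Sh μ m ω * (γ * (p / 8)) ≤ A.Sh μ c ω := by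
    calc A.Sh μ m ω * (γ * (p / 8))
        ≤ A.Sh μ a ω * tot (A.push b c (A.push a b (A.exitW μ a))) ω := by
          gcongr
          exact Sh_anti (hab.trans hbm) ω
      _ ≤ A.Sh μ c ω := h1
  have ht : A.Sh μ m ω ≠ ∞ := ne_top_of_le_ne_top ENNReal.one_ne_top (Sh_le_one hμ _ ω)
  have h7 : A.Sh μ m ω * (γ * (p / 8)) ≤ A.Sh μ m ω * q := by
    rw [mul_comm (A.Sh μ m ω) q]
    exact h6.trans hst
  have h8 := (ENNReal.mul_le_mul_iff_right h0 ht).1 h7
  exact absurd hγ (not_lt.2 h8)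

/-- **(hc)**, literally 993's hypothesis `hc` of `Stage993.stage` with `s k = Sh μ (H0 + k N)`,
`F k = A.F (H0 + k N)`, `D a b = Alive A μ p T s (H0 + (a-1) N) (H0 + b N)` and
`ρ n = T * (512/p²) * √ζ_n * C`. -/
theorem hc [IsProbabilityMeasure P] (A : KerSys S P) {μ : S → ℝ≥0∞} (hμ : A.Start μ)
    {p : ℝ≥0∞} (hp0 : p ≠ 0) (hpt : p ≠ ∞) {T s H0 N : ℕ} (hTs : T * s ≤ N) {J a n : ℕ}
    (ha : 1 ≤ a) {X : ℝ} {ϑ γ ζ z C : ℝ≥0∞} (cell : ℕ → S → ι) (hϑ : 512 * ϑ ≤ p)
    (hγ : ENNReal.ofReal (Real.exp (-(n * X))) < γ * (p / 8))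
    (hK : ∀ b, a ≤ b → b + 2 * n ≤ 2 * J → ∀ K : Finset S, (∀ y ∈ K, y ∈ A.L (H0 + b * N)) →
      Set.InjOn (cell b) K →
        P {ω | ∀ y ∈ K, A.N (H0 + b * N) (H0 + (b + 2 * n) * N) ω y < γ} ≤ ϑ ^ K.card)
    (hb : ∀ b, a ≤ b → b + 2 * n ≤ 2 * J → ∀ B, MeasurableSet[A.F (H0 + b * N)] B →
      P (B ∩ {ω | A.Sh μ (H0 + (b + n) * N) ω ≠ 0 ∧ A.Sh μ (H0 + (b + 2 * n) * N) ω ≤
        ENNReal.ofReal (Real.exp (-(n * X))) * A.Sh μ (H0 + (b + n) * N) ω}) ≤ ζ * P B)
    (hζ : ζ ≤ z ^ 2)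
    (hcoll : ∀ l, l < T → ∀ x ∈ A.L (H0 + (a - 1) * N + l * s),
      ∀ x' ∈ A.L (H0 + (a - 1) * N + l * s),
      ∑ b ∈ (Finset.Icc a (2 * J)).filter (fun b => b + 2 * n ≤ 2 * J),
        ∫⁻ ω, kap A (H0 + (a - 1) * N + l * s) (H0 + b * N) (cell b) ω x x' ∂P ≤ C)
    {B : Set Ω} (hB : MeasurableSet[A.F (H0 + (a - 1) * N)] B) :
    ∑ b ∈ (Finset.Icc a (2 * J)).filter (fun b => b + 2 * n ≤ 2 * J),
      P (B ∩ (Alive A μ p T s (H0 + (a - 1) * N) (H0 + b * N) ∩
        {ω | A.Sh μ (H0 + (b + n) * N) ω ≠ 0 ∧ A.Sh μ (H0 + (b + 2 * n) * N) ω ≤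
          ENNReal.ofReal (Real.exp (-(n * X))) * A.Sh μ (H0 + (b + n) * N) ω})) ≤
      (T * (512 / (p * p)) * z * C) * P B := by
  classical
  set St : ℕ → Set Ω := fun b => {ω | A.Sh μ (H0 + (b + n) * N) ω ≠ 0 ∧
    A.Sh μ (H0 + (b + 2 * n) * N) ω ≤
      ENNReal.ofReal (Real.exp (-(n * X))) * A.Sh μ (H0 + (b + n) * N) ω} with hSt
  set lv : ℕ → ℕ := fun l => H0 + (a - 1) * N + l * s with hlv
  have hlvb : ∀ l, l < T → ∀ b, a ≤ b → lv l ≤ H0 + b * N := by
    intro l hl b hab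
    have h1 : l * s ≤ T * s := Nat.mul_le_mul_right _ hl.le
    have h2 : (a - 1) * N + N ≤ b * N := by
      calc (a - 1) * N + N = (a - 1 + 1) * N := by ring
        _ ≤ b * N := Nat.mul_le_mul_right _ (by omega)
    simp only [hlv]
    omega
  set w : ℕ → ℕ → Ω → S → ℝ≥0∞ := fun l b => A.push (lv l) (H0 + b * N) (A.exitW μ (lv l)) with hw
  -- one place, one sub-level
  have hone : ∀ b ∈ (Finset.Icc a (2 * J)).filter (fun b => b + 2 * n ≤ 2 * J), ∀ l ∈ Finset.range T,
      P (B ∩ ({ω | p / 4 ≤ ∑' y, w l b ω y} ∩ St b)) ≤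
        z * ∫⁻ ω in B, 512 / (p * p) * E2 (cell b) (w l b ω) ∂P := by
    intro b hbm l hl
    obtain ⟨hb1, hb2⟩ := Finset.mem_filter.1 hbm
    have hab : a ≤ b := (Finset.mem_Icc.1 hb1).1
    have hl' := Finset.mem_range.1 hl
    have hle := hlvb l hl' b hab
    have hbn : H0 + b * N ≤ H0 + (b + n) * N :=
      Nat.add_le_add_left (Nat.mul_le_mul_right _ (by omega)) _
    have hbn2 : H0 + (b + n) * N ≤ H0 + (b + 2 * n) * N :=
      Nat.add_le_add_left (Nat.mul_le_mul_right _ (by omega)) _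
    have hWt : A.Wt (H0 + b * N) (w l b) := (wt_exitW hμ (lv l)).push hle
    refine steep_le (A.F.le (H0 + b * N)) (A.H_le (H0 + b * N)) (A.indep (H0 + b * N))
      (A.L (H0 + b * N)) (cell b) (w := w l b) hWt.meas hWt.supp
      (fun ω => (A.tot_push_le hle (A.exitW μ (lv l)) ω).trans (tot_exitW_le μ (lv l) ω))
      (dead := fun y => {ω | A.N (H0 + b * N) (H0 + (b + 2 * n) * N) ω y < γ})
      (fun y => ?_) (ϑ := ϑ) (fun K hK1 hK2 => hK b hab hb2 K hK1 hK2) hp0 hpt hϑ hζ
      (hb b hab hb2) ?_ ?_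
    · exact @measurableSet_lt _ _ _ _ _ (A.H (H0 + b * N)) _ _ _ _ _
        (A.meas_N_H (hbn.trans hbn2) y) (@measurable_const _ _ _ (A.H (H0 + b * N)) _)
    · exact dead_of_steep A hμ hle hbn hbn2 hγ
    · refine A.F.mono ?_ _ hB
      exact Nat.add_le_add_left (Nat.mul_le_mul_right _ (by omega)) _
  -- union over the sub-levels
  have hun : ∀ b ∈ (Finset.Icc a (2 * J)).filter (fun b => b + 2 * n ≤ 2 * J),
      P (B ∩ (Alive A μ p T s (H0 + (a - 1) * N) (H0 + b * N) ∩ St b)) ≤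
        ∑ l ∈ Finset.range T, z * ∫⁻ ω in B, 512 / (p * p) * E2 (cell b) (w l b ω) ∂P := by
    intro b hbm
    calc P (B ∩ (Alive A μ p T s (H0 + (a - 1) * N) (H0 + b * N) ∩ St b))
        ≤ P (⋃ l ∈ Finset.range T, (B ∩ ({ω | p / 4 ≤ ∑' y, w l b ω y} ∩ St b))) := by
          refine measure_mono ?_
          rintro ω ⟨g1, ⟨l, hl, g2⟩, g3⟩
          exact mem_biUnion (Finset.mem_coe.2 (Finset.mem_range.2 hl)) ⟨g1, g2, g3⟩
      _ ≤ ∑ l ∈ Finset.range T, P (B ∩ ({ω | p / 4 ≤ ∑' y, w l b ω y} ∩ St b)) :=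
          measure_biUnion_finset_le _ _
      _ ≤ _ := Finset.sum_le_sum fun l hl => hone b hbm l hl
  have hE2m : ∀ b ∈ (Finset.Icc a (2 * J)).filter (fun b => b + 2 * n ≤ 2 * J), ∀ l ∈ Finset.range T,
      Measurable fun ω => E2 (cell b) (w l b ω) := by
    intro b hbm l hl
    obtain ⟨hb1, hb2⟩ := Finset.mem_filter.1 hbm
    have hWt : A.Wt (H0 + b * N) (w l b) :=
      (wt_exitW hμ (lv l)).push (hlvb l (Finset.mem_range.1 hl) b (Finset.mem_Icc.1 hb1).1)
    exact (E2_meas (cell b) hWt.meas).mono (A.F.le _) le_rfl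
  calc ∑ b ∈ (Finset.Icc a (2 * J)).filter (fun b => b + 2 * n ≤ 2 * J),
        P (B ∩ (Alive A μ p T s (H0 + (a - 1) * N) (H0 + b * N) ∩ St b))
      ≤ ∑ b ∈ (Finset.Icc a (2 * J)).filter (fun b => b + 2 * n ≤ 2 * J),
        ∑ l ∈ Finset.range T, z * ∫⁻ ω in B, 512 / (p * p) * E2 (cell b) (w l b ω) ∂P :=
        Finset.sum_le_sum hun
    _ = ∑ b ∈ (Finset.Icc a (2 * J)).filter (fun b => b + 2 * n ≤ 2 * J),
        ∑ l ∈ Finset.range T, (512 / (p * p) * z) * ∫⁻ ω in B, E2 (cell b) (w l b ω) ∂P := by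
        refine Finset.sum_congr rfl fun b hbm => Finset.sum_congr rfl fun l hl => ?_
        rw [lintegral_const_mul _ (hE2m b hbm l hl)]
        ring
    _ = ∑ l ∈ Finset.range T, (512 / (p * p) * z) *
        ∑ b ∈ (Finset.Icc a (2 * J)).filter (fun b => b + 2 * n ≤ 2 * J),
          ∫⁻ ω in B, E2 (cell b) (w l b ω) ∂P := by
        rw [Finset.sum_comm]
        refine Finset.sum_congr rfl fun l _ => ?_
        rw [Finset.mul_sum]
    _ ≤ ∑ l ∈ Finset.range T, (512 / (p * p) * z) * (C * P B) := by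
        refine Finset.sum_le_sum fun l hl => mul_le_mul' le_rfl ?_
        have hl' := Finset.mem_range.1 hl
        refine sum_E2 A (wt_exitW hμ (lv l)) (fun ω => tot_exitW_le μ (lv l) ω) _
          (fun b => H0 + b * N) (fun b hbm => hlvb l hl' b
            (Finset.mem_Icc.1 (Finset.mem_filter.1 hbm).1).1) cell (hcoll l hl') ?_
        refine A.F.mono ?_ _ hB
        simp only [hlv]
        omega
    _ = (T * (512 / (p * p)) * z * C) * P B := by
        rw [Finset.sum_const, Finset.card_range, nsmul_eq_mul]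
        ring

end Crest.Agent.R154.HcK195
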