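import Crest.Agent.R154.RatioA_872

/-! Row 154, TILE_RUN, leaf T6b, part 1: the population lemma on an abstract kernel system.

`w` = a random weight at level `c` (`F c`-measurable); `d y` = `H c`-measurable functions with
values in `[0,1]` (`d y = 1` : the source `y` is dead), whose multilinear moments over sites in
DISTINCT cells are `≤ ϑ^card`.  If at least `3/8` of the weight is dead, then this has conditional
probability `≤ C_p Q²`, `Q = Σ_cells (cell mass)²` (true rate: exponential in `Q^(-1/2)`). -/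

set_option autoImplicit false
set_option linter.unusedSectionVars false
set_option linter.deprecated false
set_option linter.unusedVariables false

namespace Crest.Agent.R154.HcK337

open MeasureTheory ProbabilityTheory Set Filter Finset
open Crest.Agent.R154.RatioR872 Crest.Agent.R154.RatioR872.KerSys
open scoped ENNReal

variable {S κ : Type*} [Countable S] [Countable κ] [DecidableEq κ]
variable {Ω : Type*} {m0 : MeasurableSpace Ω} {P : Measure Ω}

/-- weight of a cell -/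
noncomputable def cm (cell : S → κ) (w : Ω → S → ℝ≥0∞) (k : κ) (ω : Ω) : ℝ≥0∞ :=
  ∑' y, if cell y = k then w ω y else 0

/-- collision functional `Σ_cells (cell mass)²` -/
noncomputable def QQ (cell : S → κ) (w : Ω → S → ℝ≥0∞) (ω : Ω) : ℝ≥0∞ :=
  ∑' k, cm cell w k ω ^ 2

lemma tsum_cm (cell : S → κ) (w : Ω → S → ℝ≥0∞) (ω : Ω) : ∑' k, cm cell w k ω = tot w ω := by
  unfold cm tot
  rw [ENNReal.tsum_comm]
  refine tsum_congr fun y => ?_
  rw [tsum_eq_single (cell y)]
  · simp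
  · intro k hk
    rw [if_neg (Ne.symm hk)]

lemma cm_mono {cell : S → κ} {w w' : Ω → S → ℝ≥0∞} {ω : Ω} (h : ∀ y, w ω y ≤ w' ω y) (k : κ) :
    cm cell w k ω ≤ cm cell w' k ω := by
  unfold cm
  refine ENNReal.tsum_le_tsum fun y => ?_
  split_ifs
  · exact h y
  · exact le_rfl

lemma meas_cm {m : MeasurableSpace Ω} (cell : S → κ) {w : Ω → S → ℝ≥0∞}
    (hw : ∀ y, Measurable[m] fun ω => w ω y) (k : κ) : Measurable[m] fun ω => cm cell w k ω := by
  unfold cm
  refine Measurable.ennreal_tsum fun y => ?_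
  split_ifs
  · exact hw y
  · exact measurable_const

lemma meas_QQ {m : MeasurableSpace Ω} (cell : S → κ) {w : Ω → S → ℝ≥0∞}
    (hw : ∀ y, Measurable[m] fun ω => w ω y) : Measurable[m] fun ω => QQ cell w ω := by
  unfold QQ
  exact Measurable.ennreal_tsum fun k => (meas_cm cell hw k).pow_const 2

lemma QQ_le (cell : S → κ) {w : Ω → S → ℝ≥0∞} {ω : Ω} (h1 : tot w ω ≤ 1) : QQ cell w ω ≤ 1 := by
  have h2 : ∀ k, cm cell w k ω ≤ 1 := fun k =>
    (ENNReal.le_tsum (f := fun k => cm cell w k ω) k).trans ((tsum_cm cell w ω).le.trans h1)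
  calc QQ cell w ω ≤ ∑' k, cm cell w k ω := by
        refine ENNReal.tsum_le_tsum fun k => ?_
        calc cm cell w k ω ^ 2 = cm cell w k ω * cm cell w k ω := sq _
          _ ≤ cm cell w k ω * 1 := by gcongr; exact h2 k
          _ = _ := mul_one _
    _ ≤ 1 := (tsum_cm cell w ω).le.trans h1

lemma QQ_ne_zero (cell : S → κ) {w : Ω → S → ℝ≥0∞} {ω : Ω} (h1 : tot w ω ≠ 0) :
    QQ cell w ω ≠ 0 := by
  intro h
  apply h1
  rw [← tsum_cm cell w ω, ENNReal.tsum_eq_zero]
  intro k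
  have := ENNReal.tsum_eq_zero.1 h k
  simpa using this

/-- dead part of a weight -/
noncomputable def dead (w : Ω → S → ℝ≥0∞) (d : S → Ω → ℝ≥0∞) (ω : Ω) (y : S) : ℝ≥0∞ := w ω y * d y ω

/-- **multilinear moments**, general form for the induction -/
lemma multi_aux (A : KerSys S P) {c : ℕ} {w : Ω → S → ℝ≥0∞} (hw : A.Wt c w) (cell : S → κ)
    {d : S → Ω → ℝ≥0∞} (hd : ∀ y, Measurable[A.H c] (d y)) {ϑ : ℝ≥0∞}
    (hK : ∀ K : Finset S, (∀ y ∈ K, y ∈ A.L c) → Set.InjOn cell (K : Set S) →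
      ∫⁻ ω, ∏ y ∈ K, d y ω ∂P ≤ ϑ ^ K.card) (C : Finset κ) :
    ∀ (K : Finset S), (∀ y ∈ K, y ∈ A.L c) → Set.InjOn cell (K : Set S) →
      (∀ y ∈ K, cell y ∉ C) → ∀ ψ : Ω → ℝ≥0∞, Measurable[A.F c] ψ →
      ∫⁻ ω, ψ ω * ((∏ y ∈ K, d y ω) * ∏ k ∈ C, cm cell (dead w d) k ω) ∂P
        ≤ ϑ ^ (K.card + C.card) * ∫⁻ ω, ψ ω * ∏ k ∈ C, cm cell w k ω ∂P := by
  classical
  have hd0 : ∀ y, Measurable (d y) := fun y => (hd y).mono (A.H_le c) le_rfl
  have hw0 : ∀ y, Measurable fun ω => w ω y := fun y => (hw.meas y).mono (A.F.le c) le_rfl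
  have hdm : ∀ y, Measurable fun ω => dead w d ω y := fun y => (hw0 y).mul (hd0 y)
  induction C using Finset.induction_on with
  | empty =>
    intro K hK1 hK2 _ ψ hψ
    simp only [Finset.prod_empty, mul_one, Finset.card_empty, add_zero]
    rw [A.indep_mul hψ (Finset.measurable_prod K fun y _ => hd y), mul_comm]
    gcongr
    exact hK K hK1 hK2
  | insert k0 C hk0 ih =>
    intro K hK1 hK2 hK3 ψ hψ
    have hψ0 : Measurable ψ := hψ.mono (A.F.le c) le_rfl
    have e1 : ∀ ω, ψ ω * ((∏ y ∈ K, d y ω) * ∏ k ∈ insert k0 C, cm cell (dead w d) k ω)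
        = ∑' y, (if cell y = k0 then
          (ψ ω * w ω y) * ((d y ω * ∏ y ∈ K, d y ω) * ∏ k ∈ C, cm cell (dead w d) k ω) else 0) := by
      intro ω
      rw [Finset.prod_insert hk0]
      conv_lhs => rw [cm]
      rw [show ψ ω * ((∏ y ∈ K, d y ω) * ((∑' y, if cell y = k0 then dead w d ω y else 0)
          * ∏ k ∈ C, cm cell (dead w d) k ω))
        = (ψ ω * ((∏ y ∈ K, d y ω) * ∏ k ∈ C, cm cell (dead w d) k ω))
          * (∑' y, if cell y = k0 then dead w d ω y else 0) by ring, ← ENNReal.tsum_mul_left]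
      refine tsum_congr fun y => ?_
      split_ifs
      · unfold dead; ring
      · simp
    have e2 : ∀ ω, ψ ω * ∏ k ∈ insert k0 C, cm cell w k ω
        = ∑' y, (if cell y = k0 then (ψ ω * w ω y) * ∏ k ∈ C, cm cell w k ω else 0) := by
      intro ω
      rw [Finset.prod_insert hk0]
      conv_lhs => rw [cm]
      rw [show ψ ω * ((∑' y, if cell y = k0 then w ω y else 0) * ∏ k ∈ C, cm cell w k ω)
        = (ψ ω * ∏ k ∈ C, cm cell w k ω)
          * (∑' y, if cell y = k0 then w ω y else 0) by ring, ← ENNReal.tsum_mul_left]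
      refine tsum_congr fun y => ?_
      split_ifs
      · ring
      · simp
    simp_rw [e1, e2]
    have hmP : Measurable fun ω => ∏ k ∈ C, cm cell (dead w d) k ω :=
      Finset.measurable_prod C fun k _ => meas_cm cell hdm k
    have hmQ : Measurable fun ω => ∏ k ∈ C, cm cell w k ω :=
      Finset.measurable_prod C fun k _ => meas_cm cell hw0 k
    have hmK : Measurable fun ω => ∏ y ∈ K, d y ω :=
      Finset.measurable_prod K fun y _ => hd0 y
    rw [lintegral_tsum, lintegral_tsum, ← ENNReal.tsum_mul_left]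
    · refine ENNReal.tsum_le_tsum fun y => ?_
      by_cases hy : cell y = k0
      · simp only [hy, if_true]
        by_cases hyL : y ∈ A.L c
        · have hyK : y ∉ K := fun h => hK3 y h (by rw [hy]; exact Finset.mem_insert_self _ _)
          have h1 := ih (insert y K)
            (fun z hz => by
              rcases Finset.mem_insert.1 hz with rfl | hz
              · exact hyL
              · exact hK1 z hz)
            (by
              rw [Finset.coe_insert, Set.injOn_insert (by exact_mod_cast hyK)]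
              refine ⟨hK2, ?_⟩
              rintro ⟨z, hz, hzy⟩
              refine hK3 z (by exact_mod_cast hz) ?_
              rw [hzy, hy]
              exact Finset.mem_insert_self _ _)
            (fun z hz => by
              rcases Finset.mem_insert.1 hz with rfl | hz
              · rw [hy]; exact hk0
              · exact fun h => hK3 z hz (Finset.mem_insert_of_mem h))
            (fun ω => ψ ω * w ω y) (hψ.mul (hw.meas y))
          simp only [Finset.prod_insert hyK] at h1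
          refine h1.trans (le_of_eq ?_)
          congr 2
          rw [Finset.card_insert_of_notMem hyK, Finset.card_insert_of_notMem hk0]
          ring
        · simp [hw.supp _ y hyL]
      · simp [hy]
    · intro y
      split_ifs
      · exact ((hψ0.mul (hw0 y)).mul hmQ).aemeasurable
      · exact aemeasurable_const
    · intro y
      split_ifs
      · exact ((hψ0.mul (hw0 y)).mul (((hd0 y).mul hmK).mul hmP)).aemeasurable
      · exact aemeasurable_const

/-- **exponential moment** -/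
lemma exp_moment (A : KerSys S P) {c : ℕ} {w : Ω → S → ℝ≥0∞} (hw : A.Wt c w) (cell : S → κ)
    {d : S → Ω → ℝ≥0∞} (hd : ∀ y, Measurable[A.H c] (d y)) {ϑ : ℝ≥0∞}
    (hK : ∀ K : Finset S, (∀ y ∈ K, y ∈ A.L c) → Set.InjOn cell (K : Set S) →
      ∫⁻ ω, ∏ y ∈ K, d y ω ∂P ≤ ϑ ^ K.card) (C : Finset κ)
    {ψ lam : Ω → ℝ≥0∞} (hψ : Measurable[A.F c] ψ) (hlam : Measurable[A.F c] lam) :
    ∫⁻ ω, ψ ω * ∏ k ∈ C, (1 + lam ω * cm cell (dead w d) k ω) ∂P
      ≤ ∫⁻ ω, ψ ω * ∏ k ∈ C, (1 + lam ω * (ϑ * cm cell w k ω)) ∂P := by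
  classical
  have hd0 : ∀ y, Measurable (d y) := fun y => (hd y).mono (A.H_le c) le_rfl
  have hw0 : ∀ y, Measurable fun ω => w ω y := fun y => (hw.meas y).mono (A.F.le c) le_rfl
  have hdm : ∀ y, Measurable fun ω => dead w d ω y := fun y => (hw0 y).mul (hd0 y)
  have hψ0 : Measurable ψ := hψ.mono (A.F.le c) le_rfl
  have hlam0 : Measurable lam := hlam.mono (A.F.le c) le_rfl
  have e1 : ∀ ω, ψ ω * ∏ k ∈ C, (1 + lam ω * cm cell (dead w d) k ω)
      = ∑ K ∈ C.powerset, (ψ ω * lam ω ^ K.card) * ∏ k ∈ K, cm cell (dead w d) k ω := by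
    intro ω
    rw [Finset.prod_one_add, Finset.mul_sum]
    refine Finset.sum_congr rfl fun K _ => ?_
    rw [Finset.prod_mul_distrib, Finset.prod_const]
    ring
  have e2 : ∀ ω, ψ ω * ∏ k ∈ C, (1 + lam ω * (ϑ * cm cell w k ω))
      = ∑ K ∈ C.powerset, ϑ ^ K.card * ((ψ ω * lam ω ^ K.card) * ∏ k ∈ K, cm cell w k ω) := by
    intro ω
    rw [Finset.prod_one_add, Finset.mul_sum]
    refine Finset.sum_congr rfl fun K _ => ?_
    rw [Finset.prod_mul_distrib, Finset.prod_mul_distrib, Finset.prod_const, Finset.prod_const]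
    ring
  simp_rw [e1, e2]
  rw [lintegral_finsetSum _ fun K _ => ?_, lintegral_finsetSum _ fun K _ => ?_]
  · refine Finset.sum_le_sum fun K _ => ?_
    have h1 := multi_aux A hw cell hd hK K ∅ (by simp) (by simp) (by simp)
      (fun ω => ψ ω * lam ω ^ K.card) (hψ.mul (hlam.pow_const _))
    simp only [Finset.prod_empty, one_mul, Finset.card_empty, zero_add] at h1
    refine h1.trans (le_of_eq ?_)
    rw [lintegral_const_mul]
    exact (hψ0.mul (hlam0.pow_const _)).mul
      (Finset.measurable_prod K fun k _ => meas_cm cell hw0 k)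
  · exact ((hψ0.mul (hlam0.pow_const _)).mul
      (Finset.measurable_prod K fun k _ => meas_cm cell hw0 k)).const_mul _
  · exact (hψ0.mul (hlam0.pow_const _)).mul
      (Finset.measurable_prod K fun k _ => meas_cm cell hdm k)

lemma exp_half_le {x : ℝ} (h0 : 0 ≤ x) (h1 : x ≤ 1) : Real.exp (x / 2) ≤ 1 + x := by
  have h := Real.add_one_le_exp (-(x / 2))
  have h2 : (0 : ℝ) < 1 - x / 2 := by linarith
  have h3 : Real.exp (x / 2) * (1 - x / 2) ≤ 1 := by
    calc Real.exp (x / 2) * (1 - x / 2) ≤ Real.exp (x / 2) * Real.exp (-(x / 2)) := by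
          gcongr
          linarith
      _ = 1 := by rw [← Real.exp_add]; simp
  have h4 : Real.exp (x / 2) ≤ 1 / (1 - x / 2) := by
    rw [le_div_iff₀ h2]; exact h3
  refine h4.trans ?_
  rw [div_le_iff₀ h2]
  nlinarith

/-- lower bound of the product -/
lemma prod_lower {C : Finset κ} {z : κ → ℝ≥0∞} (hz : ∀ k, z k ≤ 1) :
    ENNReal.ofReal (Real.exp ((∑ k ∈ C, z k).toReal / 2)) ≤ ∏ k ∈ C, (1 + z k) := by
  have hzt : ∀ k, z k ≠ ∞ := fun k => ne_top_of_le_ne_top ENNReal.one_ne_top (hz k)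
  rw [ENNReal.toReal_sum fun k _ => hzt k, Finset.sum_div, Real.exp_sum,
    ENNReal.ofReal_prod_of_nonneg fun k _ => (Real.exp_pos _).le]
  refine Finset.prod_le_prod' fun k _ => ?_
  have h1 : (z k).toReal ≤ 1 := by
    have := ENNReal.toReal_mono ENNReal.one_ne_top (hz k)
    simpa using this
  have h2 := exp_half_le (x := (z k).toReal) ENNReal.toReal_nonneg h1
  calc ENNReal.ofReal (Real.exp ((z k).toReal / 2)) ≤ ENNReal.ofReal (1 + (z k).toReal) :=
        ENNReal.ofReal_le_ofReal h2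
    _ = 1 + z k := by
        rw [ENNReal.ofReal_add zero_le_one ENNReal.toReal_nonneg, ENNReal.ofReal_one,
          ENNReal.ofReal_toReal (hzt k)]

/-- upper bound of the product -/
lemma prod_upper {C : Finset κ} {z : κ → ℝ≥0∞} (hz : ∀ k, z k ≠ ∞) :
    ∏ k ∈ C, (1 + z k) ≤ ENNReal.ofReal (Real.exp ((∑ k ∈ C, z k).toReal)) := by
  rw [ENNReal.toReal_sum fun k _ => hz k, Real.exp_sum,
    ENNReal.ofReal_prod_of_nonneg fun k _ => (Real.exp_pos _).le]
  refine Finset.prod_le_prod' fun k _ => ?_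
  calc 1 + z k = ENNReal.ofReal (1 + (z k).toReal) := by
        rw [ENNReal.ofReal_add zero_le_one ENNReal.toReal_nonneg, ENNReal.ofReal_one,
          ENNReal.ofReal_toReal (hz k)]
    _ ≤ _ := ENNReal.ofReal_le_ofReal (by
        have := Real.add_one_le_exp (z k).toReal
        linarith)

/-- `exp (-x/8) ≤ 24 * 8^4 / x^4` -/
lemma exp_poly {x : ℝ} (hx : 0 < x) : Real.exp (-(x / 8)) ≤ 24 * 8 ^ 4 / x ^ 4 := by
  have h1 : (x / 8) ^ 4 / (Nat.factorial 4 : ℝ) ≤ Real.exp (x / 8) :=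
    Real.pow_div_factorial_le_exp (x / 8) (by positivity) 4
  have h2 : (Nat.factorial 4 : ℝ) = 24 := by norm_num [Nat.factorial]
  rw [h2] at h1
  rw [Real.exp_neg, inv_eq_one_div, div_le_div_iff₀ (Real.exp_pos _) (by positivity), one_mul]
  have h3 : (x / 8) ^ 4 / 24 = x ^ 4 / (24 * 8 ^ 4) := by ring
  rw [h3, div_le_iff₀ (by positivity)] at h1
  linarith

/-- the constant of the population lemma -/
noncomputable def Cp (p : ℝ≥0∞) : ℝ≥0∞ := 24 * 32 ^ 4 / p ^ 4

/-- `λ = Q^(-1/2)` -/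
noncomputable def lam (cell : S → κ) (w : Ω → S → ℝ≥0∞) (ω : Ω) : ℝ≥0∞ :=
  ((QQ cell w ω) ^ (1 / 2 : ℝ))⁻¹

lemma lam_cm_le {cell : S → κ} {w : Ω → S → ℝ≥0∞} {ω : Ω} (h0 : tot w ω ≠ 0) (h1 : tot w ω ≤ 1)
    (k : κ) : lam cell w ω * cm cell w k ω ≤ 1 := by
  have hq0 := QQ_ne_zero cell h0
  have hq1 := QQ_le cell h1
  have h2 : cm cell w k ω ≤ (QQ cell w ω) ^ (1 / 2 : ℝ) := by
    have h3 : cm cell w k ω ^ 2 ≤ QQ cell w ω :=
      ENNReal.le_tsum (f := fun k => cm cell w k ω ^ 2) k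
    calc cm cell w k ω = (cm cell w k ω ^ (2 : ℝ)) ^ (1 / 2 : ℝ) := by
          rw [← ENNReal.rpow_mul]; norm_num
      _ ≤ (QQ cell w ω) ^ (1 / 2 : ℝ) := by
          gcongr
          rw [show (2 : ℝ) = ((2 : ℕ) : ℝ) by norm_num, ENNReal.rpow_natCast]
          exact h3
  unfold lam
  calc _ ≤ ((QQ cell w ω) ^ (1 / 2 : ℝ))⁻¹ * (QQ cell w ω) ^ (1 / 2 : ℝ) := by gcongr
    _ ≤ 1 := ENNReal.inv_mul_le_one _

lemma lam_ne_top {cell : S → κ} {w : Ω → S → ℝ≥0∞} {ω : Ω} (h0 : tot w ω ≠ 0) :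
    lam cell w ω ≠ ∞ := by
  unfold lam
  rw [Ne, ENNReal.inv_eq_top, ENNReal.rpow_eq_zero_iff]
  have hq0 := QQ_ne_zero cell h0
  rintro (h | h)
  · exact hq0 h.1
  · norm_num at h

/-- pointwise end bound -/
lemma end_bound {cell : S → κ} {w : Ω → S → ℝ≥0∞} {ω : Ω} {p : ℝ≥0∞} (hp0 : p ≠ 0)
    (h0 : p / 4 ≤ tot w ω) (h1 : tot w ω ≤ 1) :
    ENNReal.ofReal (Real.exp (-((lam cell w ω * tot w ω).toReal / 8)))
      ≤ Cp p * QQ cell w ω ^ 2 := by
  have ht0 : tot w ω ≠ 0 := by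
    intro h
    rw [h] at h0
    have : p / 4 = 0 := le_antisymm h0 bot_le
    simp [ENNReal.div_eq_zero_iff] at this
    exact hp0 this
  have hq0 := QQ_ne_zero cell ht0
  have hq1 := QQ_le cell h1
  have hqt : QQ cell w ω ≠ ∞ := ne_top_of_le_ne_top ENNReal.one_ne_top hq1
  have htt : tot w ω ≠ ∞ := ne_top_of_le_ne_top ENNReal.one_ne_top h1
  have hpt : p ≠ ∞ := by
    intro h
    rw [h] at h0
    have : (∞ : ℝ≥0∞) / 4 = ∞ := ENNReal.top_div_of_ne_top (by norm_num)
    rw [this] at h0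
    exact htt (top_le_iff.1 h0)
  set q : ℝ := (QQ cell w ω).toReal with hq
  set t : ℝ := (tot w ω).toReal with ht
  set π : ℝ := p.toReal with hπ
  have hqpos : 0 < q := ENNReal.toReal_pos hq0 hqt
  have htpos : 0 < t := ENNReal.toReal_pos ht0 htt
  have hπpos : 0 < π := ENNReal.toReal_pos hp0 hpt
  have hπt : π / 4 ≤ t := by
    have := ENNReal.toReal_mono htt h0
    rwa [ENNReal.toReal_div] at this
  have hx : (lam cell w ω * tot w ω).toReal = t / Real.sqrt q := by
    unfold lam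
    rw [ENNReal.toReal_mul, ENNReal.toReal_inv, ← ENNReal.toReal_rpow, Real.sqrt_eq_rpow,
      inv_mul_eq_div]
  have hs : 0 < Real.sqrt q := Real.sqrt_pos.2 hqpos
  have h4 : Real.sqrt q ^ 4 = q ^ 2 := by
    have := Real.sq_sqrt hqpos.le
    calc Real.sqrt q ^ 4 = (Real.sqrt q ^ 2) ^ 2 := by ring
      _ = q ^ 2 := by rw [this]
  have key : Real.exp (-(t / Real.sqrt q / 8)) ≤ 24 * 32 ^ 4 / π ^ 4 * q ^ 2 := by
    refine (exp_poly (x := t / Real.sqrt q) (by positivity)).trans ?_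
    have e1 : 24 * 8 ^ 4 / (t / Real.sqrt q) ^ 4 = 24 * 8 ^ 4 * q ^ 2 / t ^ 4 := by
      rw [div_pow, h4]
      field_simp
    have e2 : 24 * 32 ^ 4 / π ^ 4 * q ^ 2 = 24 * 8 ^ 4 * q ^ 2 / (π / 4) ^ 4 := by
      field_simp
      ring
    rw [e1, e2]
    gcongr
  rw [hx]
  calc ENNReal.ofReal (Real.exp (-(t / Real.sqrt q / 8)))
      ≤ ENNReal.ofReal (24 * 32 ^ 4 / π ^ 4 * q ^ 2) := ENNReal.ofReal_le_ofReal key
    _ = Cp p * QQ cell w ω ^ 2 := by
        rw [ENNReal.ofReal_mul (by positivity), ENNReal.ofReal_div_of_pos (by positivity),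
          ENNReal.ofReal_pow hπpos.le, ENNReal.ofReal_pow hqpos.le, hq, hπ,
          ENNReal.ofReal_toReal hpt, ENNReal.ofReal_toReal hqt]
        congr 2
        rw [ENNReal.ofReal_mul (by norm_num), ENNReal.ofReal_pow (by norm_num)]
        norm_num

/-- dead mass restricted to finitely many cells -/
noncomputable def ZC (cell : S → κ) (w : Ω → S → ℝ≥0∞) (d : S → Ω → ℝ≥0∞) (C : Finset κ)
    (ω : Ω) : ℝ≥0∞ := ∑ k ∈ C, cm cell (dead w d) k ω

/-- **population lemma, finitely many cells** -/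
lemma pop_fin [IsProbabilityMeasure P] (A : KerSys S P) {c : ℕ} {w : Ω → S → ℝ≥0∞}
    (hw : A.Wt c w) (hw1 : ∀ ω, tot w ω ≤ 1) (cell : S → κ)
    {d : S → Ω → ℝ≥0∞} (hd : ∀ y, Measurable[A.H c] (d y)) (hd1 : ∀ y ω, d y ω ≤ 1)
    {ϑ : ℝ≥0∞} (hϑ : ϑ ≤ 1 / 16)
    (hK : ∀ K : Finset S, (∀ y ∈ K, y ∈ A.L c) → Set.InjOn cell (K : Set S) →
      ∫⁻ ω, ∏ y ∈ K, d y ω ∂P ≤ ϑ ^ K.card) {p : ℝ≥0∞} (hp0 : p ≠ 0)
    {B : Set Ω} (hB : MeasurableSet[A.F c] B) (hBp : ∀ ω ∈ B, p / 4 ≤ tot w ω) (C : Finset κ) :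
    P (B ∩ {ω | 3 / 8 * tot w ω < ZC cell w d C ω})
      ≤ ∫⁻ ω in B, Cp p * QQ cell w ω ^ 2 ∂P := by
  classical
  have hB0 : MeasurableSet B := A.F.le c _ hB
  have hd0 : ∀ y, Measurable (d y) := fun y => (hd y).mono (A.H_le c) le_rfl
  have hw0 : ∀ y, Measurable fun ω => w ω y := fun y => (hw.meas y).mono (A.F.le c) le_rfl
  have hdm : ∀ y, Measurable fun ω => dead w d ω y := fun y => (hw0 y).mul (hd0 y)
  have hϑt : ϑ ≠ ∞ := ne_top_of_le_ne_top (by norm_num) hϑ
  have hlamF : Measurable[A.F c] (lam cell w) := by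
    unfold lam
    exact ((meas_QQ cell hw.meas).pow_const _).inv
  have htotF : Measurable[A.F c] (tot w) := hw.meas_tot
  -- the weight ψ
  set x : Ω → ℝ≥0∞ := fun ω => lam cell w ω * tot w ω with hx
  have hxF : Measurable[A.F c] x := hlamF.mul htotF
  set ψ : Ω → ℝ≥0∞ := B.indicator fun ω => ENNReal.ofReal (Real.exp (-(3 / 16 * (x ω).toReal)))
    with hψ
  have hψF : Measurable[A.F c] ψ := by
    have h1 : Measurable[A.F c] fun ω => (x ω).toReal :=
      ENNReal.measurable_toReal.comp hxF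
    have h2 : Measurable[A.F c] fun ω =>
        ENNReal.ofReal (Real.exp (-(3 / 16 * (x ω).toReal))) :=
      ENNReal.measurable_ofReal.comp (Real.measurable_exp.comp ((h1.const_mul _).neg))
    exact h2.indicator hB
  have hmom := exp_moment A hw cell hd hK C hψF hlamF
  -- facts on `B`
  have ht0 : ∀ ω ∈ B, tot w ω ≠ 0 := by
    intro ω hω h
    have h0 := hBp ω hω
    rw [h] at h0
    have : p / 4 = 0 := le_antisymm h0 bot_le
    simp [ENNReal.div_eq_zero_iff] at this
    exact hp0 this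
  have hcmd : ∀ ω k, cm cell (dead w d) k ω ≤ cm cell w k ω := fun ω k =>
    cm_mono (fun y => by
      unfold dead
      calc w ω y * d y ω ≤ w ω y * 1 := by gcongr; exact hd1 y ω
        _ = _ := mul_one _) k
  have hxt : ∀ ω ∈ B, x ω ≠ ∞ := fun ω hω =>
    ENNReal.mul_ne_top (lam_ne_top (ht0 ω hω)) (ne_top_of_le_ne_top ENNReal.one_ne_top (hw1 ω))
  -- lower bound
  have hlow : P (B ∩ {ω | 3 / 8 * tot w ω < ZC cell w d C ω})
      ≤ ∫⁻ ω, ψ ω * ∏ k ∈ C, (1 + lam cell w ω * cm cell (dead w d) k ω) ∂P := by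
    have hmZ : Measurable (ZC cell w d C) := by
      unfold ZC
      exact Finset.measurable_sum _ fun k _ => meas_cm cell hdm k
    have hE : MeasurableSet (B ∩ {ω | 3 / 8 * tot w ω < ZC cell w d C ω}) :=
      hB0.inter (measurableSet_lt ((htotF.mono (A.F.le c) le_rfl).const_mul _) hmZ)
    rw [← lintegral_indicator_one hE]
    refine lintegral_mono fun ω => ?_
    by_cases hω : ω ∈ B ∩ {ω | 3 / 8 * tot w ω < ZC cell w d C ω}
    · rw [indicator_of_mem hω, Pi.one_apply, hψ, indicator_of_mem hω.1]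
      have h1 := prod_lower (C := C) (z := fun k => lam cell w ω * cm cell (dead w d) k ω)
        (fun k => (mul_le_mul_right (hcmd ω k) _).trans (lam_cm_le (ht0 ω hω.1) (hw1 ω) k))
      rw [← Finset.mul_sum] at h1
      change ENNReal.ofReal (Real.exp ((lam cell w ω * ZC cell w d C ω).toReal / 2)) ≤ _ at h1
      have hZtot : ZC cell w d C ω ≤ tot w ω := by
        rw [← tsum_cm cell w ω]
        calc ZC cell w d C ω ≤ ∑ k ∈ C, cm cell w k ω :=
              Finset.sum_le_sum fun k _ => hcmd ω k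
          _ ≤ _ := ENNReal.sum_le_tsum C
      have h2 : 3 / 8 * (x ω).toReal ≤ (lam cell w ω * ZC cell w d C ω).toReal := by
        have h3 : (3 / 8 : ℝ≥0∞) * x ω ≤ lam cell w ω * ZC cell w d C ω := by
          calc (3 / 8 : ℝ≥0∞) * x ω = lam cell w ω * (3 / 8 * tot w ω) := by
                simp only [hx]; ring
            _ ≤ _ := by gcongr; exact hω.2.le
        have h4 : lam cell w ω * ZC cell w d C ω ≠ ∞ :=
          ne_top_of_le_ne_top (hxt ω hω.1) (by simp only [hx]; gcongr)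
        have h5 := ENNReal.toReal_mono h4 h3
        rw [ENNReal.toReal_mul, ENNReal.toReal_div] at h5
        simpa using h5
      calc (1 : ℝ≥0∞) = ENNReal.ofReal (Real.exp (-(3 / 16 * (x ω).toReal)))
            * ENNReal.ofReal (Real.exp (3 / 16 * (x ω).toReal)) := by
            rw [← ENNReal.ofReal_mul (Real.exp_pos _).le, ← Real.exp_add]
            simp
        _ ≤ ENNReal.ofReal (Real.exp (-(3 / 16 * (x ω).toReal)))
            * ∏ k ∈ C, (1 + lam cell w ω * cm cell (dead w d) k ω) := by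
            gcongr
            refine le_trans ?_ h1
            refine ENNReal.ofReal_le_ofReal (Real.exp_le_exp.2 ?_)
            linarith
    · rw [indicator_of_notMem hω]
      exact bot_le
  refine hlow.trans (hmom.trans ?_)
  rw [← lintegral_indicator hB0]
  refine lintegral_mono fun ω => ?_
  by_cases hω : ω ∈ B
  · rw [indicator_of_mem hω, hψ, indicator_of_mem hω]
    have hcmt : ∀ k, lam cell w ω * (ϑ * cm cell w k ω) ≠ ∞ := by
      intro k
      have h1 : cm cell w k ω ≠ ∞ := by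
        refine ne_top_of_le_ne_top ENNReal.one_ne_top (le_trans ?_ (hw1 ω))
        rw [← tsum_cm cell w ω]
        exact ENNReal.le_tsum (f := fun k => cm cell w k ω) k
      exact ENNReal.mul_ne_top (lam_ne_top (ht0 ω hω)) (ENNReal.mul_ne_top hϑt h1)
    have h1 := prod_upper (C := C) (z := fun k => lam cell w ω * (ϑ * cm cell w k ω)) hcmt
    have h2 : (∑ k ∈ C, lam cell w ω * (ϑ * cm cell w k ω)).toReal ≤ 1 / 16 * (x ω).toReal := by
      have h3 : ∑ k ∈ C, lam cell w ω * (ϑ * cm cell w k ω) ≤ 1 / 16 * x ω := by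
        rw [← Finset.mul_sum, ← Finset.mul_sum]
        calc lam cell w ω * (ϑ * ∑ k ∈ C, cm cell w k ω)
            ≤ lam cell w ω * (1 / 16 * tot w ω) := by
              gcongr
              rw [← tsum_cm cell w ω]
              exact ENNReal.sum_le_tsum C
          _ = _ := by simp only [hx]; ring
      have h4 : (1 / 16 : ℝ≥0∞) * x ω ≠ ∞ := ENNReal.mul_ne_top (by norm_num) (hxt ω hω)
      have h5 := ENNReal.toReal_mono h4 h3
      rw [ENNReal.toReal_mul (a := 1 / 16), ENNReal.toReal_div] at h5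
      simpa using h5
    calc ENNReal.ofReal (Real.exp (-(3 / 16 * (x ω).toReal)))
          * ∏ k ∈ C, (1 + lam cell w ω * (ϑ * cm cell w k ω))
        ≤ ENNReal.ofReal (Real.exp (-(3 / 16 * (x ω).toReal)))
          * ENNReal.ofReal (Real.exp (1 / 16 * (x ω).toReal)) := by
          gcongr
          refine h1.trans (ENNReal.ofReal_le_ofReal (Real.exp_le_exp.2 h2))
      _ = ENNReal.ofReal (Real.exp (-((x ω).toReal / 8))) := by
          rw [← ENNReal.ofReal_mul (Real.exp_pos _).le, ← Real.exp_add]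
          congr 2
          ring
      _ ≤ _ := end_bound hp0 (hBp ω hω) (hw1 ω)
  · rw [indicator_of_notMem hω, hψ, indicator_of_notMem hω]
    simp

/-- **population lemma** -/
theorem pop [IsProbabilityMeasure P] (A : KerSys S P) {c : ℕ} {w : Ω → S → ℝ≥0∞}
    (hw : A.Wt c w) (hw1 : ∀ ω, tot w ω ≤ 1) (cell : S → κ)
    {d : S → Ω → ℝ≥0∞} (hd : ∀ y, Measurable[A.H c] (d y)) (hd1 : ∀ y ω, d y ω ≤ 1)
    {ϑ : ℝ≥0∞} (hϑ : ϑ ≤ 1 / 16)
    (hK : ∀ K : Finset S, (∀ y ∈ K, y ∈ A.L c) → Set.InjOn cell (K : Set S) →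
      ∫⁻ ω, ∏ y ∈ K, d y ω ∂P ≤ ϑ ^ K.card) {p : ℝ≥0∞} (hp0 : p ≠ 0)
    {B : Set Ω} (hB : MeasurableSet[A.F c] B) (hBp : ∀ ω ∈ B, p / 4 ≤ tot w ω) :
    P (B ∩ {ω | 3 / 8 * tot w ω < ∑' y, w ω y * d y ω})
      ≤ ∫⁻ ω in B, Cp p * QQ cell w ω ^ 2 ∂P := by
  classical
  have e : (B ∩ {ω | 3 / 8 * tot w ω < ∑' y, w ω y * d y ω} : Set Ω)
      = ⋃ C : Finset κ, (B ∩ {ω | 3 / 8 * tot w ω < ZC cell w d C ω}) := by
    rw [← inter_iUnion]
    congr 1
    ext ω
    simp only [mem_setOf_eq, mem_iUnion]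
    have h1 : ∑' y, w ω y * d y ω = ∑' k, cm cell (dead w d) k ω :=
      (tsum_cm cell (dead w d) ω).symm
    rw [h1, ENNReal.tsum_eq_iSup_sum, lt_iSup_iff]
    rfl
  rw [e, Directed.measure_iUnion]
  · exact iSup_le fun C => pop_fin A hw hw1 cell hd hd1 hϑ hK hp0 hB hBp C
  · refine directed_of_isDirected_le fun C C' hCC' => ?_
    rintro ω ⟨h1, h2⟩
    have h3 : ZC cell w d C ω ≤ ZC cell w d C' ω := Finset.sum_le_sum_of_subset hCC'
    have h4 : 3 / 8 * tot w ω < ZC cell w d C ω := h2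
    exact ⟨h1, h4.trans_le h3⟩

end Crest.Agent.R154.HcK337
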