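import Crest.Agent.R154.FreeD_950

/-! Row 154, TILE_RUN (878 / 284 / 950), leaf T6b: **(hc)** for an abstract `KerSys` (helper941).

`hcK` : from (K) = K-set bound for one source per cell (T3), (hb), (COLL) (T4) to 993's `hc` with
`D a b = FreeD950.Alive`.  The population lemma is proved here by `k`-tuples of sources in distinct
cells, `k = k(ω)` read off from the collision energy of the natural exit law (no product over
cells, no exponential moment). -/

set_option autoImplicit false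
set_option linter.unusedSectionVars false
set_option linter.deprecated false
set_option linter.unusedVariables false

namespace Crest.Agent.R154.HcK941

open MeasureTheory ProbabilityTheory Set Filter Finset
open Crest.Agent.R154.RatioR872 Crest.Agent.R154.RatioR872.KerSys Crest.Agent.R154.RatioS775
open scoped ENNReal Topology

/-! ### 1. tuples with distinct cells -/

section det

variable {S C : Type*} [Countable S]

/-- mass of the cell of `y` -/
noncomputable def qc (cell : S → C) (w : S → ℝ≥0∞) (y : S) : ℝ≥0∞ := by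
  classical
  exact ∑' y', if cell y' = cell y then w y' else 0

/-- collision energy of `w` -/
noncomputable def En (cell : S → C) (w : S → ℝ≥0∞) : ℝ≥0∞ := by
  classical
  exact ∑' y, ∑' y', if cell y' = cell y then w y * w y' else 0

lemma En_eq (cell : S → C) (w : S → ℝ≥0∞) : En cell w = ∑' y, w y * qc cell w y := by
  classical
  unfold En qc
  refine tsum_congr fun y => ?_
  rw [← ENNReal.tsum_mul_left]
  refine tsum_congr fun y' => ?_
  split_ifs <;> simp

/-- injective tuples -/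
noncomputable def aT (cell : S → C) (g : S → ℝ≥0∞) (k : ℕ) : ℝ≥0∞ := by
  classical
  exact ∑' v : Fin k → S, if Function.Injective (fun i => cell (v i)) then ∏ i, g (v i) else 0

noncomputable def bT (cell : S → C) (g w : S → ℝ≥0∞) (k : ℕ) : ℝ≥0∞ :=
  ∑' v : Fin k → S, (∏ i, g (v i)) * ∑ i, qc cell w (v i)

lemma tsum_cons {k : ℕ} (f : (Fin (k + 1) → S) → ℝ≥0∞) :
    ∑' v, f v = ∑' v : Fin k → S, ∑' y, f (Fin.cons y v) := by
  rw [ENNReal.tsum_comm, ← ENNReal.tsum_prod (f := fun (y : S) (v : Fin k → S) => f (Fin.cons y v))]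
  exact ((Fin.consEquiv (fun _ : Fin (k + 1) => S)).tsum_eq f).symm

lemma tsum_prod_pow (g : S → ℝ≥0∞) (k : ℕ) : ∑' v : Fin k → S, ∏ i, g (v i) = (∑' y, g y) ^ k := by
  induction k with
  | zero =>
    rw [tsum_eq_single (default : Fin 0 → S) (fun v hv => absurd (Subsingleton.elim v _) hv)]
    simp
  | succ k ih =>
    rw [tsum_cons]
    simp only [Fin.prod_univ_succ, Fin.cons_zero, Fin.cons_succ]
    simp_rw [ENNReal.tsum_mul_right]
    rw [ENNReal.tsum_mul_left, ih, pow_succ, mul_comm]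

lemma bT_le (cell : S → C) {g w : S → ℝ≥0∞} (hgw : ∀ y, g y ≤ w y) (hw : ∑' y, w y ≤ 1) (k : ℕ) :
    bT cell g w k ≤ k * En cell w := by
  have hg : ∑' y, g y ≤ 1 := (ENNReal.tsum_le_tsum hgw).trans hw
  induction k with
  | zero =>
    unfold bT
    simp
  | succ k ih =>
    unfold bT at ih ⊢
    rw [tsum_cons]
    simp only [Fin.prod_univ_succ, Fin.cons_zero, Fin.cons_succ, Fin.sum_univ_succ]
    have e1 : ∀ v : Fin k → S, ∑' y, (g y * ∏ i, g (v i)) * (qc cell w y + ∑ i, qc cell w (v i)) =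
        (∏ i, g (v i)) * ∑' y, g y * qc cell w y +
          (∑' y, g y) * ((∏ i, g (v i)) * ∑ i, qc cell w (v i)) := by
      intro v
      rw [← ENNReal.tsum_mul_left, ← ENNReal.tsum_mul_right, ← ENNReal.tsum_add]
      exact tsum_congr fun y => by ring
    simp_rw [e1]
    rw [ENNReal.tsum_add, ENNReal.tsum_mul_right, ENNReal.tsum_mul_left, tsum_prod_pow]
    have h1 : ∑' y, g y * qc cell w y ≤ En cell w := by
      rw [En_eq]
      exact ENNReal.tsum_le_tsum fun y => by gcongr; exact hgw y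
    calc (∑' y, g y) ^ k * ∑' y, g y * qc cell w y +
          (∑' y, g y) * ∑' v : Fin k → S, (∏ i, g (v i)) * ∑ i, qc cell w (v i)
        ≤ 1 * En cell w + 1 * (k * En cell w) := by
          gcongr
          exact pow_le_one' hg k
      _ = _ := by push_cast; ring

lemma aT_step (cell : S → C) {g w : S → ℝ≥0∞} (hgw : ∀ y, g y ≤ w y) (k : ℕ) :
    (∑' y, g y) * aT cell g k ≤ aT cell g (k + 1) + bT cell g w k := by
  classical
  unfold aT bT
  rw [tsum_cons, ← ENNReal.tsum_add, ← ENNReal.tsum_mul_left]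
  refine ENNReal.tsum_le_tsum fun v => ?_
  by_cases hv : Function.Injective (fun i => cell (v i))
  · rw [if_pos hv]
    have h1 : ∑' y, g y ≤ ∑' y, (if (∀ i, cell y ≠ cell (v i)) then g y else 0) +
        ∑ i, qc cell w (v i) := by
      have h2 : ∀ y, g y ≤ (if (∀ i, cell y ≠ cell (v i)) then g y else 0) +
          ∑ i, (if cell y = cell (v i) then w y else 0) := by
        intro y
        by_cases h : ∀ i, cell y ≠ cell (v i)
        · rw [if_pos h]; exact le_self_add
        · rw [if_neg h, zero_add]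
          push Not at h
          obtain ⟨i, hi⟩ := h
          refine le_trans ?_ (Finset.single_le_sum (f := fun i => if cell y = cell (v i) then w y
            else 0) (fun _ _ => zero_le) (Finset.mem_univ i))
          rw [if_pos hi]
          exact hgw y
      calc ∑' y, g y ≤ ∑' y, ((if (∀ i, cell y ≠ cell (v i)) then g y else 0) +
            ∑ i, (if cell y = cell (v i) then w y else 0)) := ENNReal.tsum_le_tsum h2
        _ = _ := by
          rw [ENNReal.tsum_add]
          congr 1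
          rw [Summable.tsum_finsetSum (fun i _ => ENNReal.summable)]
          rfl
    calc (∑' y, g y) * ∏ i, g (v i)
        ≤ (∑' y, (if (∀ i, cell y ≠ cell (v i)) then g y else 0) + ∑ i, qc cell w (v i)) *
            ∏ i, g (v i) := by gcongr
      _ = ∑' y, (if (∀ i, cell y ≠ cell (v i)) then g y * ∏ i, g (v i) else 0) +
            (∏ i, g (v i)) * ∑ i, qc cell w (v i) := by
          rw [add_mul, ← ENNReal.tsum_mul_right, mul_comm (∑ i, qc cell w (v i))]
          congr 1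
          refine tsum_congr fun y => ?_
          split_ifs <;> simp
      _ ≤ _ := by
          gcongr with y
          by_cases h : ∀ i, cell y ≠ cell (v i)
          · have hinj : Function.Injective
                (fun i : Fin (k + 1) => cell ((Fin.cons y v : Fin (k + 1) → S) i)) := by
              intro i j hij
              induction i using Fin.cases with
              | zero =>
                induction j using Fin.cases with
                | zero => rfl
                | succ j => exact absurd hij (by simpa using h j)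
              | succ i =>
                induction j using Fin.cases with
                | zero => exact absurd hij (by simpa using (h i).symm)
                | succ j =>
                  congr 1
                  exact hv (by simpa using hij)
            rw [if_pos h, if_pos hinj]
            simp [Fin.prod_univ_succ]
          · rw [if_neg h]
            exact zero_le
  · rw [if_neg hv, mul_zero]
    exact zero_le

/-- many samples: either a collision, or all in distinct cells -/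
lemma pow_le_aT (cell : S → C) {g w : S → ℝ≥0∞} (hgw : ∀ y, g y ≤ w y) (hw : ∑' y, w y ≤ 1)
    (k : ℕ) : (∑' y, g y) ^ k ≤ aT cell g k + (k : ℝ≥0∞) ^ 2 * En cell w := by
  have hg : ∑' y, g y ≤ 1 := (ENNReal.tsum_le_tsum hgw).trans hw
  induction k with
  | zero =>
    have : aT cell g 0 = 1 := by
      classical
      unfold aT
      rw [tsum_eq_single (default : Fin 0 → S) (fun v hv => absurd (Subsingleton.elim v _) hv),
        if_pos (Function.injective_of_subsingleton _)]
      simp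
    rw [this]
    simp
  | succ k ih =>
    calc (∑' y, g y) ^ (k + 1) = (∑' y, g y) * (∑' y, g y) ^ k := by rw [pow_succ, mul_comm]
      _ ≤ (∑' y, g y) * (aT cell g k + (k : ℝ≥0∞) ^ 2 * En cell w) := by gcongr
      _ ≤ (∑' y, g y) * aT cell g k + 1 * ((k : ℝ≥0∞) ^ 2 * En cell w) := by
          rw [mul_add]; gcongr
      _ ≤ (aT cell g (k + 1) + k * En cell w) + 1 * ((k : ℝ≥0∞) ^ 2 * En cell w) := by
          gcongr
          exact (aT_step cell hgw k).trans (by gcongr; exact bT_le cell hgw hw k)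
      _ = aT cell g (k + 1) + ((k : ℝ≥0∞) + (k : ℝ≥0∞) ^ 2) * En cell w := by ring
      _ ≤ _ := by
          gcongr
          push_cast
          have : ((k : ℝ≥0∞) + 1) ^ 2 = ((k : ℝ≥0∞) + (k : ℝ≥0∞) ^ 2) + (k + 1) := by ring
          rw [this]
          exact le_self_add

end det

/-! ### 2. the population lemma -/

section pop

variable {S : Type*} [Countable S] {Ω : Type*} {m0 : MeasurableSpace Ω} {P : Measure Ω}
variable {C : Type*}

/-- dead part of the weight -/
noncomputable def dd (A : KerSys S P) (b c : ℕ) (γ : ℝ≥0∞) (w : Ω → S → ℝ≥0∞) (ω : Ω) (y : S) :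
    ℝ≥0∞ := by
  classical
  exact if A.N b c ω y < γ then w ω y else 0

lemma dd_le (A : KerSys S P) (b c : ℕ) (γ : ℝ≥0∞) (w : Ω → S → ℝ≥0∞) (ω : Ω) (y : S) :
    dd A b c γ w ω y ≤ w ω y := by
  unfold dd
  split_ifs
  · exact le_rfl
  · exact zero_le

lemma meas_En (A : KerSys S P) {b : ℕ} {w : Ω → S → ℝ≥0∞} (hw : A.Wt b w) (cell : S → C) :
    Measurable[A.F b] fun ω => En cell (w ω) := by
  classical
  unfold En
  refine Measurable.ennreal_tsum fun y => Measurable.ennreal_tsum fun y' => ?_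
  by_cases h : cell y' = cell y
  · simp only [if_pos h]
    exact (hw.meas y).mul (hw.meas y')
  · simp only [if_neg h]
    exact @measurable_const _ _ _ (A.F b) _

/-- **population lemma, one value of `k`** -/
lemma pop_k (A : KerSys S P) {b c : ℕ} (hbc : b ≤ c) (cell : S → C) {γ ϑ f : ℝ≥0∞}
    (hf0 : f ≠ 0) (hft : f ≠ ∞)
    (hK : ∀ K : Finset S, (∀ z ∈ K, z ∈ A.L b) → Set.InjOn cell (K : Set S) →
      P {ω | ∀ z ∈ K, A.N b c ω z < γ} ≤ ϑ ^ K.card)
    {w : Ω → S → ℝ≥0∞} (hw : A.Wt b w) (hw1 : ∀ ω, tot w ω ≤ 1) (k : ℕ)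
    {B : Set Ω} (hB : MeasurableSet[A.F b] B)
    (hE : ∀ ω ∈ B, 2 * ((k : ℝ≥0∞) ^ 2 * En cell (w ω)) ≤ f ^ k) :
    P (B ∩ {ω | f ≤ ∑' y, dd A b c γ w ω y}) ≤ 2 * (ϑ / f) ^ k * P B := by
  classical
  have hB0 : MeasurableSet B := A.F.le b _ hB
  have hfk0 : f ^ k ≠ 0 := pow_ne_zero _ hf0
  have hfkt : f ^ k ≠ ∞ := ENNReal.pow_ne_top hft
  -- pointwise
  have h1 : ∀ ω ∈ B ∩ {ω | f ≤ ∑' y, dd A b c γ w ω y},
      f ^ k ≤ 2 * aT cell (dd A b c γ w ω) k := by
    rintro ω ⟨hωB, hω⟩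
    have h2 := pow_le_aT cell (dd_le A b c γ w ω) (hw1 ω) k
    have h3 : f ^ k ≤ (∑' y, dd A b c γ w ω y) ^ k := by gcongr; exact hω
    have h4 := hE ω hωB
    have h5 : 2 * f ^ k ≤ 2 * aT cell (dd A b c γ w ω) k + f ^ k := by
      calc 2 * f ^ k ≤ 2 * (aT cell (dd A b c γ w ω) k + (k : ℝ≥0∞) ^ 2 * En cell (w ω)) := by
            gcongr; exact h3.trans h2
        _ = 2 * aT cell (dd A b c γ w ω) k + 2 * ((k : ℝ≥0∞) ^ 2 * En cell (w ω)) := by ring
        _ ≤ _ := by gcongr
    rw [two_mul (f ^ k)] at h5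
    exact (ENNReal.add_le_add_iff_right hfkt).1 h5
  -- the mean of the injective tuples
  have hdm : ∀ v : Fin k → S, MeasurableSet[A.H b] {ω | ∀ i, A.N b c ω (v i) < γ} := by
    intro v
    have e : {ω | ∀ i, A.N b c ω (v i) < γ} = ⋂ i, {ω | A.N b c ω (v i) < γ} := by
      ext ω; simp
    rw [e]
    refine @MeasurableSet.iInter _ _ (A.H b) _ _ fun i => ?_
    exact @measurableSet_lt _ _ _ _ _ (A.H b) _ _ _ _ _ (A.meas_N_H hbc (v i))
      (@measurable_const _ _ _ (A.H b) _)
  have hpm : ∀ v : Fin k → S, Measurable[A.F b] fun ω => B.indicator 1 ω * ∏ i, w ω (v i) := by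
    intro v
    exact ((@measurable_one _ _ _ (A.F b) _).indicator hB).mul
      (Finset.measurable_prod _ fun i _ => hw.meas (v i))
  have h2 : ∫⁻ ω, B.indicator 1 ω * aT cell (dd A b c γ w ω) k ∂P ≤ ϑ ^ k * P B := by
    have e1 : ∀ ω, B.indicator 1 ω * aT cell (dd A b c γ w ω) k =
        ∑' v : Fin k → S, if Function.Injective (fun i => cell (v i)) then
          (B.indicator 1 ω * ∏ i, w ω (v i)) *
            ({ω | ∀ i, A.N b c ω (v i) < γ}.indicator 1 ω : ℝ≥0∞) else 0 := by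
      intro ω
      unfold aT
      rw [← ENNReal.tsum_mul_left]
      refine tsum_congr fun v => ?_
      by_cases hv : Function.Injective (fun i => cell (v i))
      · rw [if_pos hv, if_pos hv, mul_assoc]
        congr 1
        by_cases h : ∀ i, A.N b c ω (v i) < γ
        · have hm : ω ∈ {ω | ∀ i, A.N b c ω (v i) < γ} := h
          rw [Set.indicator_of_mem hm, Pi.one_apply, mul_one]
          refine Finset.prod_congr rfl fun i _ => ?_
          unfold dd
          rw [if_pos (h i)]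
        · have hm : ω ∉ {ω | ∀ i, A.N b c ω (v i) < γ} := h
          rw [Set.indicator_of_notMem hm, mul_zero]
          push Not at h
          obtain ⟨i, hi⟩ := h
          refine Finset.prod_eq_zero (Finset.mem_univ i) ?_
          unfold dd
          rw [if_neg (not_lt.2 hi)]
      · rw [if_neg hv, if_neg hv, mul_zero]
    have hmv : ∀ v : Fin k → S, Measurable fun ω =>
        (B.indicator 1 ω * ∏ i, w ω (v i)) *
            ({ω | ∀ i, A.N b c ω (v i) < γ}.indicator 1 ω : ℝ≥0∞) := fun v =>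
      ((hpm v).mono (A.F.le b) le_rfl).mul
        (measurable_one.indicator (A.H_le b _ (hdm v)))
    simp_rw [e1]
    rw [lintegral_tsum (fun v => by
      by_cases hv : Function.Injective (fun i => cell (v i))
      · simp only [if_pos hv]; exact (hmv v).aemeasurable
      · simp only [if_neg hv]; exact aemeasurable_const)]
    have e2 : ∀ v : Fin k → S, ∫⁻ ω, (if Function.Injective (fun i => cell (v i)) then
          (B.indicator 1 ω * ∏ i, w ω (v i)) *
            ({ω | ∀ i, A.N b c ω (v i) < γ}.indicator 1 ω : ℝ≥0∞) else 0) ∂P ≤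
        ϑ ^ k * ∫⁻ ω, B.indicator 1 ω * ∏ i, w ω (v i) ∂P := by
      intro v
      by_cases hv : Function.Injective (fun i => cell (v i))
      · simp only [if_pos hv]
        rw [A.indep_mul (hpm v) ((@measurable_one _ _ _ (A.H b) _).indicator (hdm v)),
          lintegral_indicator_one (A.H_le b _ (hdm v)), mul_comm]
        by_cases hL : ∀ i, v i ∈ A.L b
        · gcongr
          have hvi : Function.Injective v := fun i j hij => hv (by
            change cell (v i) = cell (v j)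
            rw [hij])
          have h5 := hK (Finset.univ.image v) (by
              intro z hz
              obtain ⟨i, _, rfl⟩ := Finset.mem_image.1 hz
              exact hL i) (by
              intro z hz z' hz' hzz
              obtain ⟨i, _, rfl⟩ := Finset.mem_image.1 (Finset.mem_coe.1 hz)
              obtain ⟨j, _, rfl⟩ := Finset.mem_image.1 (Finset.mem_coe.1 hz')
              rw [hv hzz])
          rw [Finset.card_image_of_injective _ hvi, Finset.card_univ, Fintype.card_fin] at h5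
          refine le_trans (measure_mono fun ω hω => ?_) h5
          intro z hz
          obtain ⟨i, _, rfl⟩ := Finset.mem_image.1 hz
          exact hω i
        · push Not at hL
          obtain ⟨i, hi⟩ := hL
          have e3 : ∀ ω, B.indicator 1 ω * ∏ i, w ω (v i) = 0 := by
            intro ω
            rw [Finset.prod_eq_zero (Finset.mem_univ i) (hw.supp ω _ hi), mul_zero]
          simp [e3]
      · simp only [if_neg hv]
        simp
    refine (ENNReal.tsum_le_tsum e2).trans ?_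
    rw [ENNReal.tsum_mul_left, ← lintegral_tsum (fun v =>
      ((hpm v).mono (A.F.le b) le_rfl).aemeasurable)]
    gcongr
    rw [← lintegral_indicator_one hB0]
    refine lintegral_mono fun ω => ?_
    rw [ENNReal.tsum_mul_left, tsum_prod_pow]
    calc B.indicator 1 ω * (∑' y, w ω y) ^ k ≤ B.indicator 1 ω * 1 := by
          gcongr
          exact pow_le_one' (hw1 ω) k
      _ = _ := mul_one _
  -- Markov
  have h3 : f ^ k * P (B ∩ {ω | f ≤ ∑' y, dd A b c γ w ω y}) ≤
      2 * (ϑ ^ k * P B) := by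
    have hdd : ∀ y, Measurable fun ω => dd A b c γ w ω y := by
      intro y
      unfold dd
      exact Measurable.ite (measurableSet_lt ((A.meas_N_H hbc y).mono (A.H_le b) le_rfl)
        measurable_const) ((hw.meas y).mono (A.F.le b) le_rfl) measurable_const
    have hEm : MeasurableSet (B ∩ {ω | f ≤ ∑' y, dd A b c γ w ω y}) :=
      hB0.inter (measurableSet_le measurable_const (Measurable.ennreal_tsum hdd))
    rw [← lintegral_indicator_one hEm, ← lintegral_const_mul _ (measurable_one.indicator hEm)]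
    calc ∫⁻ ω, f ^ k * (B ∩ {ω | f ≤ ∑' y, dd A b c γ w ω y}).indicator 1 ω ∂P
        ≤ ∫⁻ ω, 2 * (B.indicator 1 ω * aT cell (dd A b c γ w ω) k) ∂P := by
          refine lintegral_mono fun ω => ?_
          by_cases hω : ω ∈ B ∩ {ω | f ≤ ∑' y, dd A b c γ w ω y}
          · rw [Set.indicator_of_mem hω, Set.indicator_of_mem hω.1, Pi.one_apply,
              mul_one, one_mul]
            exact h1 ω hω
          · rw [Set.indicator_of_notMem hω, mul_zero]
            exact zero_le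
      _ = 2 * ∫⁻ ω, B.indicator 1 ω * aT cell (dd A b c γ w ω) k ∂P :=
          lintegral_const_mul' _ _ (by norm_num)
      _ ≤ _ := by gcongr
  calc P (B ∩ {ω | f ≤ ∑' y, dd A b c γ w ω y})
      = (f ^ k)⁻¹ * (f ^ k * P (B ∩ {ω | f ≤ ∑' y, dd A b c γ w ω y})) := by
        rw [← mul_assoc, ENNReal.inv_mul_cancel hfk0 hfkt, one_mul]
    _ ≤ (f ^ k)⁻¹ * (2 * (ϑ ^ k * P B)) := by gcongr
    _ = 2 * (ϑ / f) ^ k * P B := by
        rw [ENNReal.div_eq_inv_mul, mul_pow, ENNReal.inv_pow]; ring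

/-- thresholds of the collision energy -/
noncomputable def tk (f : ℝ≥0∞) (k : ℕ) : ℝ≥0∞ := f ^ k / (2 * (k : ℝ≥0∞) ^ 2)

lemma tk_lt {f : ℝ≥0∞} (hf1 : f ≤ 1) {e : ℝ≥0∞} (he : e ≠ 0) : ∃ k : ℕ, tk f (k + 1) < e := by
  obtain ⟨n, hn⟩ := ENNReal.exists_inv_nat_lt he
  refine ⟨n, lt_of_le_of_lt ?_ hn⟩
  unfold tk
  have h1 : (1 : ℝ≥0∞) ≤ (n : ℝ≥0∞) + 1 := le_add_self
  calc f ^ (n + 1) / (2 * ((n + 1 : ℕ) : ℝ≥0∞) ^ 2) ≤ 1 / (2 * ((n + 1 : ℕ) : ℝ≥0∞) ^ 2) := by
        gcongr; exact pow_le_one' hf1 _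
    _ = (2 * ((n : ℝ≥0∞) + 1) ^ 2)⁻¹ := by rw [one_div]; push_cast; rfl
    _ ≤ (n : ℝ≥0∞)⁻¹ := by
        refine ENNReal.inv_le_inv.2 ?_
        calc (n : ℝ≥0∞) ≤ 1 * (((n : ℝ≥0∞) + 1) * 1) := by rw [one_mul, mul_one]; exact le_self_add
          _ ≤ 2 * (((n : ℝ≥0∞) + 1) * ((n : ℝ≥0∞) + 1)) := by
              gcongr
              norm_num
          _ = _ := by ring

lemma of_le_tk {f : ℝ≥0∞} {k : ℕ} (hk : k ≠ 0) {e : ℝ≥0∞} (he : e ≤ tk f k) :
    2 * ((k : ℝ≥0∞) ^ 2 * e) ≤ f ^ k := by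
  unfold tk at he
  have h0 : (2 * (k : ℝ≥0∞) ^ 2) ≠ 0 := by
    have : (k : ℝ≥0∞) ≠ 0 := by exact_mod_cast hk
    exact mul_ne_zero (by norm_num) (pow_ne_zero _ this)
  have ht : (2 * (k : ℝ≥0∞) ^ 2) ≠ ∞ :=
    ENNReal.mul_ne_top (by norm_num) (ENNReal.pow_ne_top (ENNReal.natCast_ne_top k))
  calc 2 * ((k : ℝ≥0∞) ^ 2 * e) = (2 * (k : ℝ≥0∞) ^ 2) * e := by ring
    _ ≤ (2 * (k : ℝ≥0∞) ^ 2) * (f ^ k / (2 * (k : ℝ≥0∞) ^ 2)) := by gcongr
    _ = f ^ k := ENNReal.mul_div_cancel h0 ht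

lemma rate_le {f ϑ : ℝ≥0∞} (hf0 : f ≠ 0) (hf1 : f ≤ 1) (hϑ : 16 * ϑ ≤ f ^ 3) (k : ℕ) :
    2 * (ϑ / f) ^ k ≤ (3 / f * tk f (k + 1)) ^ 2 := by
  have hft : f ≠ ∞ := ne_top_of_le_ne_top ENNReal.one_ne_top hf1
  have hϑt : ϑ ≠ ∞ := by
    intro h
    rw [h] at hϑ
    have h1 : (16 : ℝ≥0∞) * ∞ = ∞ := ENNReal.mul_top (by norm_num)
    rw [h1, top_le_iff] at hϑ
    exact ENNReal.pow_ne_top hft hϑ
  unfold tk
  lift f to NNReal using hft
  lift ϑ to NNReal using hϑt
  have hf0' : f ≠ 0 := by exact_mod_cast hf0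
  have e1 : (2 : ℝ≥0∞) * ((ϑ : ℝ≥0∞) / f) ^ k = ((2 * (ϑ / f) ^ k : NNReal) : ℝ≥0∞) := by
    push_cast [ENNReal.coe_div hf0']; ring
  have hk0 : (2 * ((k + 1 : ℕ) : NNReal) ^ 2) ≠ 0 := by positivity
  have e2 : ((3 : ℝ≥0∞) / f * ((f : ℝ≥0∞) ^ (k + 1) / (2 * ((k + 1 : ℕ) : ℝ≥0∞) ^ 2))) ^ 2 =
      (((3 / f * (f ^ (k + 1) / (2 * ((k + 1 : ℕ) : NNReal) ^ 2))) ^ 2 : NNReal) : ℝ≥0∞) := by
    rw [ENNReal.coe_pow, ENNReal.coe_mul, ENNReal.coe_div hf0', ENNReal.coe_div hk0]
    push_cast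
    rfl
  rw [e1, e2, ENNReal.coe_le_coe, ← NNReal.coe_le_coe]
  have hϑ' : (16 * ϑ : NNReal) ≤ f ^ 3 := by exact_mod_cast hϑ
  have hϑr : 16 * (ϑ : ℝ) ≤ (f : ℝ) ^ 3 := by exact_mod_cast hϑ'
  push_cast
  have hfr : (0 : ℝ) < f := by
    have := pos_iff_ne_zero.2 hf0'
    exact_mod_cast this
  have hϑ0 : (0 : ℝ) ≤ ϑ := ϑ.2
  have hk : ((k : ℝ) + 1) ^ 4 ≤ 16 ^ k := by
    have h1 : (k : ℝ) + 1 ≤ 2 ^ k := by
      have := Nat.lt_two_pow_self (n := k)
      exact_mod_cast this
    calc ((k : ℝ) + 1) ^ 4 ≤ (2 ^ k) ^ 4 := by gcongr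
      _ = 16 ^ k := by rw [← pow_mul, mul_comm, pow_mul]; norm_num
  have h2 : (ϑ : ℝ) ^ k * ((k : ℝ) + 1) ^ 4 ≤ ((f : ℝ) ^ 3) ^ k := by
    calc (ϑ : ℝ) ^ k * ((k : ℝ) + 1) ^ 4 ≤ (ϑ : ℝ) ^ k * 16 ^ k := by gcongr
      _ = (16 * (ϑ : ℝ)) ^ k := by rw [mul_pow]; ring
      _ ≤ _ := by gcongr
  have h3 : (3 / (f : ℝ) * ((f : ℝ) ^ (k + 1) / (2 * ((k : ℝ) + 1) ^ 2))) ^ 2 =
      9 / 4 * (((f : ℝ) ^ k) ^ 2 / ((k : ℝ) + 1) ^ 4) := by
    have : (0 : ℝ) < (k : ℝ) + 1 := by positivity
    field_simp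
    ring
  rw [h3, div_pow]
  have h4 : (0 : ℝ) < ((k : ℝ) + 1) ^ 4 := by positivity
  have h5 : (0 : ℝ) < (f : ℝ) ^ k := by positivity
  rw [mul_div_assoc', mul_div_assoc', div_le_div_iff₀ h5 h4]
  have h6 : ((f : ℝ) ^ 3) ^ k = ((f : ℝ) ^ k) ^ 2 * (f : ℝ) ^ k := by
    rw [← pow_mul, ← pow_mul, ← pow_add]; congr 1; ring
  rw [h6] at h2
  have h7 : (0 : ℝ) ≤ ((f : ℝ) ^ k) ^ 2 * (f : ℝ) ^ k := by positivity
  nlinarith

lemma min_sq_le {x y z : ℝ≥0∞} (h1 : z ≤ x ^ 2) (h2 : z ≤ y ^ 2) : z ≤ x * y := by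
  rcases le_total x y with h | h
  · exact h1.trans (by rw [sq]; gcongr)
  · exact h2.trans (by rw [sq]; gcongr)

lemma En_zero {cell : S → C} {w : S → ℝ≥0∞} (h : En cell w = 0) : ∑' y, w y = 0 := by
  classical
  unfold En at h
  rw [ENNReal.tsum_eq_zero] at h ⊢
  intro y
  have h1 := h y
  rw [ENNReal.tsum_eq_zero] at h1
  have h2 := h1 y
  rw [if_pos rfl] at h2
  exact mul_self_eq_zero.1 h2

/-- **the population lemma**, all values of the energy, combined with a fixed rate `ξ ^ 2` -/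
lemma pop_all (A : KerSys S P) {b c : ℕ} (hbc : b ≤ c) (cell : S → C) {γ ϑ f ξ q : ℝ≥0∞}
    (hf0 : f ≠ 0) (hf1 : f ≤ 1) (hϑ : 16 * ϑ ≤ f ^ 3)
    (hK : ∀ K : Finset S, (∀ z ∈ K, z ∈ A.L b) → Set.InjOn cell (K : Set S) →
      P {ω | ∀ z ∈ K, A.N b c ω z < γ} ≤ ϑ ^ K.card)
    {w : Ω → S → ℝ≥0∞} (hw : A.Wt b w) (hw1 : ∀ ω, tot w ω ≤ 1) (hq : q ≠ 0)
    {St : Set Ω}
    (hξ : ∀ B, MeasurableSet[A.F b] B → P (B ∩ St) ≤ ξ ^ 2 * P B)
    (hdead : ∀ᵐ ω ∂P, ω ∈ St → q ≤ tot w ω → f ≤ ∑' y, dd A b c γ w ω y)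
    {B : Set Ω} (hB : MeasurableSet[A.F b] B) :
    P (B ∩ ({ω | q ≤ tot w ω} ∩ St)) ≤ ξ * (3 / f) * ∫⁻ ω in B, En cell (w ω) ∂P := by
  classical
  have hft : f ≠ ∞ := ne_top_of_le_ne_top ENNReal.one_ne_top hf1
  have hB0 : MeasurableSet B := A.F.le b _ hB
  have hEm := meas_En A hw cell
  set Bk : ℕ → Set Ω := fun k =>
    B ∩ ({ω | tk f (k + 1) < En cell (w ω)} ∩ {ω | ∀ j < k, En cell (w ω) ≤ tk f (j + 1)}) with hBk
  have hBkm : ∀ k, MeasurableSet[A.F b] (Bk k) := by
    intro k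
    refine @MeasurableSet.inter _ (A.F b) _ _ hB (@MeasurableSet.inter _ (A.F b) _ _ ?_ ?_)
    · exact @measurableSet_lt _ _ _ _ _ (A.F b) _ _ _ _ _
        (@measurable_const _ _ _ (A.F b) _) hEm
    · have e : {ω | ∀ j < k, En cell (w ω) ≤ tk f (j + 1)} =
          ⋂ j ∈ Finset.range k, {ω | En cell (w ω) ≤ tk f (j + 1)} := by
        ext ω; simp
      rw [e]
      refine @Finset.measurableSet_biInter _ _ (A.F b) _ (Finset.range k) fun j hj => ?_
      exact @measurableSet_le _ _ _ _ _ (A.F b) _ _ _ _ _ hEm (@measurable_const _ _ _ (A.F b) _)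
  have hBkm0 : ∀ k, MeasurableSet (Bk k) := fun k => A.F.le b _ (hBkm k)
  have hdisj : Pairwise (Function.onFun Disjoint Bk) := by
    intro i j hij
    rw [Function.onFun, Set.disjoint_left]
    rintro ω ⟨_, h1, h2⟩ ⟨_, h3, h4⟩
    rcases lt_or_gt_of_ne hij with h | h
    · exact absurd (h4 i h) (not_le.2 h1)
    · exact absurd (h2 j h) (not_le.2 h3)
  have hcov : B ∩ ({ω | q ≤ tot w ω} ∩ St) ⊆ ⋃ k, (Bk k ∩ ({ω | q ≤ tot w ω} ∩ St)) := by
    rintro ω ⟨h1, h2, h3⟩
    have hE : En cell (w ω) ≠ 0 := by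
      intro h0
      have h4 : tot w ω = 0 := En_zero h0
      have h5 : q ≤ tot w ω := h2
      rw [h4] at h5
      exact hq (le_antisymm h5 zero_le)
    have hex := tk_lt (f := f) hf1 hE
    refine mem_iUnion.2 ⟨Nat.find hex, ⟨h1, Nat.find_spec hex, fun j hj => ?_⟩, h2, h3⟩
    exact not_lt.1 (Nat.find_min hex hj)
  have hone : ∀ k, P (Bk k ∩ ({ω | q ≤ tot w ω} ∩ St)) ≤
      ξ * (3 / f) * ∫⁻ ω in Bk k, En cell (w ω) ∂P := by
    intro k
    have g1 : P (Bk k ∩ ({ω | q ≤ tot w ω} ∩ St)) ≤ ξ ^ 2 * P (Bk k) :=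
      (measure_mono (Set.inter_subset_inter_right _ Set.inter_subset_right)).trans
        (hξ _ (hBkm k))
    have g2 : P (Bk k ∩ ({ω | q ≤ tot w ω} ∩ St)) ≤ 2 * (ϑ / f) ^ k * P (Bk k) := by
      refine le_trans (measure_mono_ae ?_)
        (pop_k A hbc cell hf0 hft hK hw hw1 k (hBkm k) fun ω hω => ?_)
      · filter_upwards [hdead] with ω hω
        rintro ⟨h1, h2, h3⟩
        exact ⟨h1, hω h3 h2⟩
      · rcases Nat.eq_zero_or_pos k with h0 | h0
        · subst h0; simp
        · refine of_le_tk (by omega) ?_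
          have := hω.2.2 (k - 1) (by omega)
          rwa [show k - 1 + 1 = k by omega] at this
    have g3 : P (Bk k ∩ ({ω | q ≤ tot w ω} ∩ St)) ≤
        (ξ * (3 / f * tk f (k + 1))) * P (Bk k) := by
      by_cases hP : P (Bk k) = 0
      · rw [hP, mul_zero] at g1
        exact g1.trans zero_le
      · by_cases hPt : P (Bk k) = ∞
        · have hx : ξ * (3 / f * tk f (k + 1)) ≠ 0 ∨ ξ * (3 / f * tk f (k + 1)) = 0 := by tauto
          rcases hx with hx | hx
          · rw [hPt, ENNReal.mul_top hx]; exact le_top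
          · rcases mul_eq_zero.1 hx with h | h
            · rw [h] at g1
              exact g1.trans (by simp)
            · have h2 := rate_le hf0 hf1 hϑ k
              rw [h] at h2
              have h4 : 2 * (ϑ / f) ^ k = 0 := le_antisymm (by simpa using h2) zero_le
              rw [h4, zero_mul] at g2
              exact g2.trans zero_le
        · have g4 : P (Bk k ∩ ({ω | q ≤ tot w ω} ∩ St)) / P (Bk k) ≤ ξ * (3 / f * tk f (k + 1)) := by
            refine min_sq_le ?_ ?_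
            · exact ENNReal.div_le_of_le_mul g1
            · exact (ENNReal.div_le_of_le_mul g2).trans (rate_le hf0 hf1 hϑ k)
          exact (ENNReal.div_le_iff hP hPt).1 g4
    refine g3.trans ?_
    calc (ξ * (3 / f * tk f (k + 1))) * P (Bk k)
        = ξ * (3 / f) * (tk f (k + 1) * P (Bk k)) := by ring
      _ ≤ _ := by
        gcongr
        rw [← lintegral_indicator_one (hBkm0 k), ← lintegral_const_mul _
          (measurable_one.indicator (hBkm0 k)), ← lintegral_indicator (hBkm0 k)]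
        refine lintegral_mono fun ω => ?_
        by_cases hω : ω ∈ Bk k
        · rw [Set.indicator_of_mem hω, Set.indicator_of_mem hω, Pi.one_apply, mul_one]
          exact hω.2.1.le
        · rw [Set.indicator_of_notMem hω, mul_zero]
          exact zero_le
  calc P (B ∩ ({ω | q ≤ tot w ω} ∩ St))
      ≤ P (⋃ k, (Bk k ∩ ({ω | q ≤ tot w ω} ∩ St))) := measure_mono hcov
    _ ≤ ∑' k, P (Bk k ∩ ({ω | q ≤ tot w ω} ∩ St)) := measure_iUnion_le _
    _ ≤ ∑' k, ξ * (3 / f) * ∫⁻ ω in Bk k, En cell (w ω) ∂P := ENNReal.tsum_le_tsum hone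
    _ = ξ * (3 / f) * ∫⁻ ω in ⋃ k, Bk k, En cell (w ω) ∂P := by
        rw [ENNReal.tsum_mul_left, lintegral_iUnion hBkm0 hdisj]
    _ ≤ _ := by
        gcongr
        exact iUnion_subset fun k => Set.inter_subset_left

end pop

/-! ### 3. collisions of the natural exit law -/

section coll

variable {S : Type*} [Countable S] {Ω : Type*} {m0 : MeasurableSpace Ω} {P : Measure Ω}
variable {C : Type*}

/-- both natural from `L` to `b` (same environment), exit sites in one cell -/
noncomputable def EG (A : KerSys S P) (cell : S → C) (L b : ℕ) (x x' : S) (ω : Ω) : ℝ≥0∞ := by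
  classical
  exact ∑' y, ∑' y', if cell y' = cell y then A.G L b ω x y * A.G L b ω x' y' else 0

lemma measH_EG (A : KerSys S P) (cell : S → C) {L b : ℕ} (hLb : L ≤ b) (x x' : S) :
    Measurable[A.H L] (EG A cell L b x x') := by
  classical
  unfold EG
  refine Measurable.ennreal_tsum fun y => Measurable.ennreal_tsum fun y' => ?_
  by_cases h : cell y' = cell y
  · simp only [if_pos h]
    exact (A.measH L b x y hLb).mul (A.measH L b x' y' hLb)
  · simp only [if_neg h]
    exact @measurable_const _ _ _ (A.H L) _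

lemma En_push (A : KerSys S P) (cell : S → C) (L b : ℕ) (π : Ω → S → ℝ≥0∞) (ω : Ω) :
    En cell (A.push L b π ω) = ∑' x, ∑' x', π ω x * π ω x' * EG A cell L b x x' ω := by
  classical
  unfold En EG
  have e1 : ∀ y y', (if cell y' = cell y then A.push L b π ω y * A.push L b π ω y' else 0) =
      ∑' x, ∑' x', (π ω x * π ω x') *
        (if cell y' = cell y then A.G L b ω x y * A.G L b ω x' y' else 0) := by
    intro y y'
    by_cases h : cell y' = cell y
    · simp only [if_pos h]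
      unfold KerSys.push
      rw [← ENNReal.tsum_mul_right]
      refine tsum_congr fun x => ?_
      rw [← ENNReal.tsum_mul_left]
      exact tsum_congr fun x' => by ring
    · simp [if_neg h]
  simp_rw [e1]
  calc ∑' y, ∑' y', ∑' x, ∑' x', (π ω x * π ω x') *
        (if cell y' = cell y then A.G L b ω x y * A.G L b ω x' y' else 0)
      = ∑' y, ∑' x, ∑' y', ∑' x', (π ω x * π ω x') *
        (if cell y' = cell y then A.G L b ω x y * A.G L b ω x' y' else 0) :=
        tsum_congr fun y => ENNReal.tsum_comm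
    _ = ∑' x, ∑' y, ∑' y', ∑' x', (π ω x * π ω x') *
        (if cell y' = cell y then A.G L b ω x y * A.G L b ω x' y' else 0) := ENNReal.tsum_comm
    _ = ∑' x, ∑' y, ∑' x', ∑' y', (π ω x * π ω x') *
        (if cell y' = cell y then A.G L b ω x y * A.G L b ω x' y' else 0) :=
        tsum_congr fun x => tsum_congr fun y => ENNReal.tsum_comm
    _ = ∑' x, ∑' x', ∑' y, ∑' y', (π ω x * π ω x') *
        (if cell y' = cell y then A.G L b ω x y * A.G L b ω x' y' else 0) :=
        tsum_congr fun x => ENNReal.tsum_comm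
    _ = _ := by
        refine tsum_congr fun x => tsum_congr fun x' => ?_
        rw [← ENNReal.tsum_mul_left]
        refine tsum_congr fun y => ?_
        rw [← ENNReal.tsum_mul_left]

/-- **(COLL) in expectation**: random start law `π` at level `L`, event `B` of the rows below
`L`, sum over the levels `lv b`, `b ∈ I`. -/
lemma coll_sum (A : KerSys S P) {ι : Type*} (I : Finset ι) (lv : ι → ℕ) (cell : ι → S → C)
    {L : ℕ} (hL : ∀ b ∈ I, L ≤ lv b) {π : Ω → S → ℝ≥0∞} (hπ : A.Wt L π)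
    (hπ1 : ∀ ω, tot π ω ≤ 1) {Cc : ℝ≥0∞}
    (hcoll : ∀ x ∈ A.L L, ∀ x' ∈ A.L L,
      ∑ b ∈ I, ∫⁻ ω, EG A (cell b) L (lv b) x x' ω ∂P ≤ Cc)
    {B : Set Ω} (hB : MeasurableSet[A.F L] B) :
    ∑ b ∈ I, ∫⁻ ω in B, En (cell b) (A.push L (lv b) π ω) ∂P ≤ Cc * P B := by
  classical
  have hB0 : MeasurableSet B := A.F.le L _ hB
  have hm1 : ∀ x x', Measurable[A.F L] fun ω => B.indicator 1 ω * (π ω x * π ω x') :=
    fun x x' => ((@measurable_one _ _ _ (A.F L) _).indicator hB).mul
      ((hπ.meas x).mul (hπ.meas x'))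
  have hm1' : ∀ x x', Measurable fun ω => B.indicator 1 ω * (π ω x * π ω x') :=
    fun x x' => (hm1 x x').mono (A.F.le L) le_rfl
  have e1 : ∀ b ∈ I, ∫⁻ ω in B, En (cell b) (A.push L (lv b) π ω) ∂P =
      ∑' x, ∑' x', (∫⁻ ω, B.indicator 1 ω * (π ω x * π ω x') ∂P) *
        ∫⁻ ω, EG A (cell b) L (lv b) x x' ω ∂P := by
    intro b hb
    have hm2 : ∀ x x', Measurable fun ω => EG A (cell b) L (lv b) x x' ω :=
      fun x x' => (measH_EG A (cell b) (hL b hb) x x').mono (A.H_le L) le_rfl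
    rw [← lintegral_indicator hB0]
    have e2 : ∀ ω, B.indicator (fun ω => En (cell b) (A.push L (lv b) π ω)) ω =
        ∑' x, ∑' x', (B.indicator 1 ω * (π ω x * π ω x')) * EG A (cell b) L (lv b) x x' ω := by
      intro ω
      by_cases hω : ω ∈ B
      · rw [Set.indicator_of_mem hω, Set.indicator_of_mem hω, En_push]
        refine tsum_congr fun x => tsum_congr fun x' => ?_
        rw [Pi.one_apply, one_mul]
      · rw [Set.indicator_of_notMem hω, Set.indicator_of_notMem hω]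
        simp
    have hm3 : ∀ x x', Measurable fun ω =>
        (B.indicator 1 ω * (π ω x * π ω x')) * EG A (cell b) L (lv b) x x' ω :=
      fun x x' => (hm1' x x').mul (hm2 x x')
    simp_rw [e2]
    rw [lintegral_tsum (fun x => (Measurable.ennreal_tsum fun x' => hm3 x x').aemeasurable)]
    refine tsum_congr fun x => ?_
    rw [lintegral_tsum (fun x' => (hm3 x x').aemeasurable)]
    refine tsum_congr fun x' => ?_
    exact A.indep_mul (hm1 x x') (measH_EG A (cell b) (hL b hb) x x')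
  rw [Finset.sum_congr rfl e1]
  have e3 : ∑ b ∈ I, ∑' x, ∑' x', (∫⁻ ω, B.indicator 1 ω * (π ω x * π ω x') ∂P) *
        ∫⁻ ω, EG A (cell b) L (lv b) x x' ω ∂P =
      ∑' x, ∑' x', (∫⁻ ω, B.indicator 1 ω * (π ω x * π ω x') ∂P) *
        ∑ b ∈ I, ∫⁻ ω, EG A (cell b) L (lv b) x x' ω ∂P := by
    rw [← Summable.tsum_finsetSum (fun b _ => ENNReal.summable)]
    refine tsum_congr fun x => ?_
    rw [← Summable.tsum_finsetSum (fun b _ => ENNReal.summable)]
    refine tsum_congr fun x' => ?_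
    rw [Finset.mul_sum]
  rw [e3]
  calc ∑' x, ∑' x', (∫⁻ ω, B.indicator 1 ω * (π ω x * π ω x') ∂P) *
        ∑ b ∈ I, ∫⁻ ω, EG A (cell b) L (lv b) x x' ω ∂P
      ≤ ∑' x, ∑' x', (∫⁻ ω, B.indicator 1 ω * (π ω x * π ω x') ∂P) * Cc := by
        refine ENNReal.tsum_le_tsum fun x => ENNReal.tsum_le_tsum fun x' => ?_
        by_cases hx : x ∈ A.L L
        · by_cases hx' : x' ∈ A.L L
          · gcongr
            exact hcoll x hx x' hx'
          · simp [hπ.supp _ x' hx']
        · simp [hπ.supp _ x hx]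
    _ = (∫⁻ ω, B.indicator 1 ω * (tot π ω * tot π ω) ∂P) * Cc := by
        simp_rw [ENNReal.tsum_mul_right]
        congr 1
        have e4 : ∀ x, ∑' x', ∫⁻ ω, B.indicator 1 ω * (π ω x * π ω x') ∂P =
            ∫⁻ ω, ∑' x', B.indicator 1 ω * (π ω x * π ω x') ∂P := fun x =>
          (lintegral_tsum (fun x' => (hm1' x x').aemeasurable)).symm
        simp_rw [e4]
        rw [← lintegral_tsum (fun x => (Measurable.ennreal_tsum fun x' => hm1' x x').aemeasurable)]
        refine lintegral_congr fun ω => ?_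
        simp_rw [ENNReal.tsum_mul_left, tot]
        rw [ENNReal.tsum_mul_right]
    _ ≤ P B * Cc := by
        gcongr
        rw [← lintegral_indicator_one hB0]
        refine lintegral_mono fun ω => ?_
        calc B.indicator 1 ω * (tot π ω * tot π ω) ≤ B.indicator 1 ω * (1 * 1) := by
              gcongr
              · exact hπ1 ω
              · exact hπ1 ω
          _ = _ := by rw [mul_one, mul_one]
    _ = _ := mul_comm _ _

end coll

/-! ### 4. the leaf -/

section main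

variable {S : Type*} [Countable S] {Ω : Type*} {m0 : MeasurableSpace Ω} {P : Measure Ω}
variable {C : Type*}

/-- steep and alive from `L`: at least `p/8` of the natural exit mass is dead -/
lemma dead_of_steep (A : KerSys S P) {μ : S → ℝ≥0∞} (hμ : A.Start μ) {p γ η : ℝ≥0∞}
    {L b m c : ℕ} (hLb : L ≤ b) (hbc : b ≤ c) (hLm : L ≤ m) (hη : η < p / 8 * γ) :
    ∀ᵐ ω ∂P, (A.Sh μ m ω ≠ 0 ∧ A.Sh μ c ω ≤ η * A.Sh μ m ω) →
      p / 4 ≤ tot (A.push L b (A.exitW μ L)) ω →
      p / 8 ≤ ∑' y, dd A b c γ (A.push L b (A.exitW μ L)) ω y := by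
  classical
  filter_upwards [Sh_ge hμ hLb hbc] with ω h1
  rintro ⟨h2, h3⟩ h4
  by_contra hcon
  push Not at hcon
  set w := A.push L b (A.exitW μ L) with hw
  -- the alive part
  have h5 : p / 8 ≤ ∑' y, (if A.N b c ω y < γ then 0 else w ω y) := by
    by_contra hcon2
    push Not at hcon2
    have h6 : tot w ω = ∑' y, dd A b c γ w ω y + ∑' y, (if A.N b c ω y < γ then 0 else w ω y) := by
      rw [← ENNReal.tsum_add]
      refine tsum_congr fun y => ?_
      unfold dd
      split_ifs <;> simp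
    have h7 : p / 8 + p / 8 = p / 4 := by
      have h8 : p / 8 = p / 4 / 2 := by
        rw [ENNReal.div_eq_inv_mul, ENNReal.div_eq_inv_mul, ENNReal.div_eq_inv_mul, ← mul_assoc,
          ← ENNReal.mul_inv (by norm_num) (by norm_num)]
        norm_num
      rw [h8, ENNReal.add_halves]
    have h9 : tot w ω < p / 4 := by
      rw [h6, ← h7]
      exact ENNReal.add_lt_add hcon hcon2
    exact absurd h4 (not_le.2 h9)
  have h6 : p / 8 * γ ≤ tot (A.push b c w) ω := by
    rw [tot_push]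
    calc p / 8 * γ ≤ (∑' y, (if A.N b c ω y < γ then 0 else w ω y)) * γ := by gcongr
      _ = ∑' y, (if A.N b c ω y < γ then 0 else w ω y) * γ := ENNReal.tsum_mul_right.symm
      _ ≤ _ := by
        refine ENNReal.tsum_le_tsum fun y => ?_
        split_ifs with h
        · simp
        · gcongr
          exact not_lt.1 h
  have h7 : A.Sh μ m ω * (p / 8 * γ) ≤ η * A.Sh μ m ω := by
    calc A.Sh μ m ω * (p / 8 * γ) ≤ A.Sh μ L ω * tot (A.push b c w) ω := by
          gcongr
          exact Sh_anti hLm ω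
      _ ≤ A.Sh μ c ω := h1
      _ ≤ _ := h3
  have h8 : A.Sh μ m ω ≠ ∞ := ne_top_of_le_ne_top ENNReal.one_ne_top (Sh_le_one hμ m ω)
  rw [mul_comm η] at h7
  exact absurd ((ENNReal.mul_le_mul_iff_right h2 h8).1 h7) (not_le.2 hη)

open Classical in
/-- **(hc) of 993's `stage`** for `D a b = Alive`, from (K) (T3), (hb) and (COLL) (T4). -/
theorem hcK (A : KerSys S P) {μ : S → ℝ≥0∞} (hμ : A.Start μ) {lv : ℕ → ℕ} (hlv : Monotone lv)
    {p : ℝ≥0∞} (hp0 : p ≠ 0) (hp1 : p ≤ 1) {T st J n0 : ℕ} {X : ℝ}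
    (hT : ∀ a, J < a → lv (a - 1) + T * st ≤ lv a) (cell : ℕ → S → C) {ϑ Cc : ℝ≥0∞}
    {ξ γ : ℕ → ℝ≥0∞} (hϑ : 16 * ϑ ≤ (p / 8) ^ 3)
    (hγ : ∀ n, n0 ≤ n → ENNReal.ofReal (Real.exp (-(n * X))) < p / 8 * γ n)
    (hK : ∀ b n, J < b → n0 ≤ n → b + 2 * n ≤ 2 * J → ∀ K : Finset S,
      (∀ z ∈ K, z ∈ A.L (lv b)) → Set.InjOn (cell b) (K : Set S) →
      P {ω | ∀ z ∈ K, A.N (lv b) (lv (b + 2 * n)) ω z < γ n} ≤ ϑ ^ K.card)
    (hb : ∀ b n, n0 ≤ n → b + 2 * n ≤ 2 * J → ∀ B, MeasurableSet[A.F (lv b)] B →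
      P (B ∩ {ω | A.Sh μ (lv (b + n)) ω ≠ 0 ∧ A.Sh μ (lv (b + 2 * n)) ω ≤
        ENNReal.ofReal (Real.exp (-(n * X))) * A.Sh μ (lv (b + n)) ω}) ≤ ξ n ^ 2 * P B)
    (hcoll : ∀ a, J < a → ∀ l < T, ∀ x ∈ A.L (lv (a - 1) + l * st),
      ∀ x' ∈ A.L (lv (a - 1) + l * st),
      ∑ b ∈ Finset.Icc a (2 * J), ∫⁻ ω, ∑' y, ∑' y', (if cell b y' = cell b y then
        A.G (lv (a - 1) + l * st) (lv b) ω x y * A.G (lv (a - 1) + l * st) (lv b) ω x' y'
        else 0) ∂P ≤ Cc) :
    ∀ a n, J < a → n0 ≤ n → ∀ B, MeasurableSet[A.F (lv (a - 1))] B →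
      ∑ b ∈ (Finset.Icc a (2 * J)).filter (fun b => b + 2 * n ≤ 2 * J),
        P (B ∩ (FreeD950.Alive A μ p T st (lv (a - 1)) (lv b) ∩
          {ω | A.Sh μ (lv (b + n)) ω ≠ 0 ∧ A.Sh μ (lv (b + 2 * n)) ω ≤
            ENNReal.ofReal (Real.exp (-(n * X))) * A.Sh μ (lv (b + n)) ω})) ≤
        (T * (ξ n * (3 / (p / 8)) * Cc)) * P B := by
  intro a n ha hn B hB
  have hpt : p ≠ ∞ := ne_top_of_le_ne_top ENNReal.one_ne_top hp1
  have hf0 : p / 8 ≠ 0 := by
    rw [Ne, ENNReal.div_eq_zero_iff, not_or]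
    exact ⟨hp0, by norm_num⟩
  have hf1 : p / 8 ≤ 1 := by
    refine ENNReal.div_le_of_le_mul ?_
    exact hp1.trans (by norm_num)
  have hq0 : p / 4 ≠ 0 := by
    rw [Ne, ENNReal.div_eq_zero_iff, not_or]
    exact ⟨hp0, by norm_num⟩
  set I := (Finset.Icc a (2 * J)).filter (fun b => b + 2 * n ≤ 2 * J) with hI
  have hIa : ∀ b ∈ I, a ≤ b ∧ b + 2 * n ≤ 2 * J := by
    intro b hb'
    rw [hI, Finset.mem_filter, Finset.mem_Icc] at hb'
    exact ⟨hb'.1.1, hb'.2⟩
  set St : ℕ → Set Ω := fun b => {ω | A.Sh μ (lv (b + n)) ω ≠ 0 ∧ A.Sh μ (lv (b + 2 * n)) ω ≤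
            ENNReal.ofReal (Real.exp (-(n * X))) * A.Sh μ (lv (b + n)) ω} with hSt
  have hL : ∀ l < T, ∀ b ∈ I, lv (a - 1) + l * st ≤ lv b := by
    intro l hl b hb'
    have h1 := hT a ha
    have h2 : lv a ≤ lv b := hlv (hIa b hb').1
    have h3 : l * st ≤ T * st := Nat.mul_le_mul_right _ hl.le
    omega
  have hone : ∀ b ∈ I, P (B ∩ (FreeD950.Alive A μ p T st (lv (a - 1)) (lv b) ∩ St b)) ≤
      ∑ l ∈ Finset.range T, ξ n * (3 / (p / 8)) *
        ∫⁻ ω in B, En (cell b) (A.push (lv (a - 1) + l * st) (lv b)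
          (A.exitW μ (lv (a - 1) + l * st)) ω) ∂P := by
    intro b hb'
    have hsub : B ∩ (FreeD950.Alive A μ p T st (lv (a - 1)) (lv b) ∩ St b) ⊆
        ⋃ l ∈ Finset.range T, (B ∩ ({ω | p / 4 ≤ tot (A.push (lv (a - 1) + l * st) (lv b)
          (A.exitW μ (lv (a - 1) + l * st))) ω} ∩ St b)) := by
      rintro ω ⟨h1, ⟨l, hl, h2⟩, h3⟩
      exact mem_biUnion (Finset.mem_coe.2 (Finset.mem_range.2 hl)) ⟨h1, h2, h3⟩
    refine (measure_mono hsub).trans ((measure_biUnion_finset_le _ _).trans ?_)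
    refine Finset.sum_le_sum fun l hl => ?_
    have hl' := Finset.mem_range.1 hl
    have hLb := hL l hl' b hb'
    have hb1 := (hIa b hb').1
    have hb2 := (hIa b hb').2
    refine pop_all A (hlv (Nat.le_add_right b (2 * n))) (cell b) (γ := γ n) (ϑ := ϑ) (f := p / 8)
      hf0 hf1 hϑ (hK b n (by omega) hn hb2) ((wt_exitW hμ _).push hLb)
      (fun ω => (A.tot_push_le hLb _ ω).trans (tot_exitW_le μ _ ω)) hq0
      (hb b n hn hb2) ?_ (A.F.mono (hlv (by omega)) _ hB)
    have hm : lv (a - 1) + l * st ≤ lv (b + n) := hLb.trans (hlv (Nat.le_add_right b n))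
    filter_upwards [dead_of_steep A hμ hLb (hlv (Nat.le_add_right b (2 * n))) hm (hγ n hn)]
      with ω hω h1 h2
    exact hω h1 h2
  calc ∑ b ∈ I, P (B ∩ (FreeD950.Alive A μ p T st (lv (a - 1)) (lv b) ∩ St b))
      ≤ ∑ b ∈ I, ∑ l ∈ Finset.range T, ξ n * (3 / (p / 8)) *
        ∫⁻ ω in B, En (cell b) (A.push (lv (a - 1) + l * st) (lv b)
          (A.exitW μ (lv (a - 1) + l * st)) ω) ∂P := Finset.sum_le_sum hone
    _ = ∑ l ∈ Finset.range T, ξ n * (3 / (p / 8)) * ∑ b ∈ I,
        ∫⁻ ω in B, En (cell b) (A.push (lv (a - 1) + l * st) (lv b)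
          (A.exitW μ (lv (a - 1) + l * st)) ω) ∂P := by
        rw [Finset.sum_comm]
        refine Finset.sum_congr rfl fun l _ => ?_
        rw [Finset.mul_sum]
    _ ≤ ∑ l ∈ Finset.range T, ξ n * (3 / (p / 8)) * (Cc * P B) := by
        refine Finset.sum_le_sum fun l hl => ?_
        have hl' := Finset.mem_range.1 hl
        gcongr
        refine coll_sum A I lv cell (hL l hl') (wt_exitW hμ _) (fun ω => tot_exitW_le μ _ ω)
          (fun x hx x' hx' => ?_) (A.F.mono (Nat.le_add_right _ _) _ hB)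
        refine le_trans ?_ (hcoll a ha l hl' x hx x' hx')
        refine Finset.sum_le_sum_of_subset_of_nonneg (Finset.filter_subset _ _)
          (fun _ _ _ => zero_le) |>.trans (le_of_eq ?_)
        refine Finset.sum_congr rfl fun b _ => ?_
        refine lintegral_congr fun ω => ?_
        unfold EG
        refine tsum_congr fun y => tsum_congr fun y' => ?_
        congr
    _ = _ := by
        rw [Finset.sum_const, Finset.card_range, nsmul_eq_mul]
        ring

/-- the collision kernel as a sum over cells (T4's form) -/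
theorem EG_cells [Countable C] (A : KerSys S P) (cell : S → C) (L b : ℕ) (x x' : S) (ω : Ω) :
    EG A cell L b x x' ω = ∑' c, (∑' y : {y // cell y = c}, A.G L b ω x y) *
      (∑' y : {y // cell y = c}, A.G L b ω x' y) := by
  classical
  have e1 : ∀ c, ∑' y : {y // cell y = c}, A.G L b ω x' y =
      ∑' y', if cell y' = c then A.G L b ω x' y' else 0 := by
    intro c
    refine (tsum_subtype {y | cell y = c} (fun y => A.G L b ω x' y)).trans ?_
    refine tsum_congr fun y => ?_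
    rw [Set.indicator_apply]
    rfl
  unfold EG
  rw [← (Equiv.sigmaFiberEquiv cell).tsum_eq (fun y => ∑' y', if cell y' = cell y then
    A.G L b ω x y * A.G L b ω x' y' else 0), ENNReal.tsum_sigma']
  refine tsum_congr fun c => ?_
  rw [e1 c, ← ENNReal.tsum_mul_right]
  refine tsum_congr fun y => ?_
  rw [← ENNReal.tsum_mul_left]
  refine tsum_congr fun y' => ?_
  have hy : cell (y : S) = c := y.2
  change (if cell y' = cell (y : S) then A.G L b ω x y * A.G L b ω x' y' else 0) =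
    A.G L b ω x y * (if cell y' = c then A.G L b ω x' y' else 0)
  rw [hy]
  split_ifs <;> simp

end main

end Crest.Agent.R154.HcK941
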