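import Crest.Agent.R154.FreeD_950

/-! Row 154, TILE_RUN (plan 878 #34420, repairs 284 #34832, 950 #34936), leaf `hc` of 993's `stage`:
position-summability of steep windows, from
* `hpop`: population bound of ONE law (480's `ksm_explicit` with a single index),
* `hb`: steep windows are rare (windowK),
* `hcoll`: the expected number of contact windows of a pair in the same environment (COLL').
No cells, no geometry (helper872). -/

set_option autoImplicit false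
set_option linter.unusedSectionVars false
set_option linter.deprecated false
set_option linter.unusedVariables false

namespace Crest.Agent.R154.HcPop872

open MeasureTheory ProbabilityTheory Set Filter Finset
open Crest.Agent.R154.RatioR872 Crest.Agent.R154.RatioR872.KerSys Crest.Agent.R154.RatioS775
open Crest.Agent.R154.FreeD950
open scoped ENNReal Topology

/-- Random state decided by `m1` on `B`, event read in `m2` independent of `m1`; the bound depends on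
the state. -/
theorem rand_state_fun {Ω Λ : Type*} {m1 m2 : MeasurableSpace Ω} [m0 : MeasurableSpace Ω]
    [mΛ : MeasurableSpace Λ]
    (P : Measure Ω) [IsProbabilityMeasure P] (h1 : m1 ≤ m0) (h2 : m2 ≤ m0)
    (hind : Indep m1 m2 P) (Bad : Set (Λ × Ω))
    (hBad : MeasurableSet[mΛ.prod m2] Bad) (f : Ω → Λ) (hf : Measurable[m1] f)
    (c : Λ → ℝ≥0∞) (hcm : Measurable c) (B : Set Ω) (hB : MeasurableSet[m1] B)
    (hc : ∀ ω ∈ B, P {ω' | (f ω, ω') ∈ Bad} ≤ c (f ω)) :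
    P (B ∩ {ω | (f ω, ω) ∈ Bad}) ≤ ∫⁻ ω in B, c (f ω) ∂P := by
  classical
  have hfm : Measurable f := hf.mono h1 le_rfl
  set ν : Measure Ω := P.restrict B with hν
  have hB0 : MeasurableSet B := h1 _ hB
  set P2 : @Measure Ω m2 := P.trim h2 with hP2
  have hid : @Measurable Ω Ω m0 m2 id := fun s hs => h2 _ hs
  have hrect : ∀ (s : Set Λ) (t : Set Ω), MeasurableSet s → MeasurableSet[m2] t →
      ν (f ⁻¹' s ∩ t) = ν (f ⁻¹' s) * P t := by
    intro s t hs ht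
    have hfs : MeasurableSet[m1] (f ⁻¹' s) := hf hs
    have e1 : ν (f ⁻¹' s ∩ t) = P ((f ⁻¹' s ∩ B) ∩ t) := by
      rw [hν, Measure.restrict_apply ((h1 _ hfs).inter (h2 _ ht))]
      congr 1
      ext ω; simp only [Set.mem_inter_iff]; tauto
    have e2 : ν (f ⁻¹' s) = P (f ⁻¹' s ∩ B) := by
      rw [hν, Measure.restrict_apply (h1 _ hfs)]
    rw [e1, e2]
    exact (Indep_iff _ _ _).1 hind _ _ (MeasurableSet.inter hfs hB) ht
  have hjm : @Measurable Ω (Λ × Ω) m0 (mΛ.prod m2) (fun ω => (f ω, ω)) :=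
    @Measurable.prodMk Ω m0 Λ Ω mΛ m2 f id hfm hid
  have : @IsProbabilityMeasure Ω m2 (@Measure.map Ω Ω m0 m2 id P) :=
    @Measure.isProbabilityMeasure_map Ω Ω m0 m2 P _ id (@Measurable.aemeasurable _ _ _ m2 _ _ hid)
  have hprod : @Measure.map Ω (Λ × Ω) m0 (mΛ.prod m2) (fun ω => (f ω, ω)) ν =
      @Measure.prod Λ Ω mΛ m2 (Measure.map f ν) (@Measure.map Ω Ω m0 m2 id P) := by
    symm
    refine @Measure.prod_eq Λ Ω mΛ m2 _ _ _ _ _ ?_
    intro s t hs ht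
    rw [@Measure.map_apply _ _ m0 (mΛ.prod m2) _ _ hjm _ (@MeasurableSet.prod _ _ mΛ m2 _ _ hs ht),
      Measure.map_apply hfm hs, @Measure.map_apply _ _ m0 m2 _ _ hid _ ht]
    exact hrect s t hs ht
  have key : P (B ∩ {ω | (f ω, ω) ∈ Bad}) =
      @Measure.map Ω (Λ × Ω) m0 (mΛ.prod m2) (fun ω => (f ω, ω)) ν Bad := by
    rw [@Measure.map_apply _ _ m0 (mΛ.prod m2) _ _ hjm _ hBad,
      Measure.restrict_apply (hjm hBad), Set.inter_comm]
    rfl
  rw [key, hprod, @Measure.prod_apply Λ Ω mΛ m2 _ _ _ _ hBad]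
  have hle : ∀ᵐ lam ∂(Measure.map f ν),
      (@Measure.map Ω Ω m0 m2 id P) (Prod.mk lam ⁻¹' Bad) ≤ c lam := by
    have hset : MeasurableSet {lam | (@Measure.map Ω Ω m0 m2 id P) (Prod.mk lam ⁻¹' Bad) ≤ c lam} :=
      measurableSet_le (@measurable_measure_prodMk_left Λ Ω mΛ m2 _ _ _ hBad) hcm
    rw [ae_map_iff hfm.aemeasurable hset]
    refine (ae_restrict_iff' hB0).2 (Filter.Eventually.of_forall fun ω hω => ?_)
    rw [@Measure.map_apply _ _ m0 m2 _ _ hid _ (@measurable_prodMk_left Λ Ω mΛ m2 (f ω) _ hBad)]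
    exact hc ω hω
  calc ∫⁻ lam, (@Measure.map Ω Ω m0 m2 id P) (Prod.mk lam ⁻¹' Bad) ∂(Measure.map f ν)
      ≤ ∫⁻ lam, c lam ∂(Measure.map f ν) := lintegral_mono_ae hle
    _ = ∫⁻ ω in B, c (f ω) ∂P := lintegral_map hcm hfm

variable {S : Type*} [Countable S] {Ω : Type*} {m0 : MeasurableSpace Ω} {P : Measure Ω}

/-- pair energy of a deterministic weight -/
noncomputable def enK (A : KerSys S P) (b c : ℕ) (w : S → ℝ≥0∞) : ℝ≥0∞ :=
  ∑' x, ∑' x', w x * w x' * A.K b c x x'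

/-- natural mass of a deterministic weight -/
noncomputable def mN (A : KerSys S P) (b c : ℕ) (w : S → ℝ≥0∞) (ω : Ω) : ℝ≥0∞ :=
  ∑' x, w x * A.N b c ω x

/-- annealed pair sum: the left side of `ExitE` -/
noncomputable def TT (A : KerSys S P) (a b c : ℕ) (x x' : S) : ℝ≥0∞ :=
  ∑' z, ∑' z', (∫⁻ ω, A.G a b ω x z * A.G a b ω x' z' ∂P) * A.K b c z z'

lemma measurable_enK (A : KerSys S P) (b c : ℕ) : Measurable (enK A b c) := by
  unfold enK
  exact Measurable.ennreal_tsum fun x => Measurable.ennreal_tsum fun x' =>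
    ((measurable_pi_apply x).mul (measurable_pi_apply x')).mul_const _

/-- mixed moment, equality -/
lemma energy_push_eq (A : KerSys S P) {a b c : ℕ} (hab : a ≤ b) {w : Ω → S → ℝ≥0∞}
    (hw : A.Wt a w) {φ : Ω → ℝ≥0∞} (hφ : Measurable[A.F a] φ) :
    ∫⁻ ω, φ ω * A.energy b c (A.push a b w) ω ∂P
      = ∑' x, ∑' x', (∫⁻ ω, φ ω * w ω x * w ω x' ∂P) * TT A a b c x x' := by
  have hφ0 : Measurable φ := hφ.mono (A.F.le a) le_rfl
  have hw0 : ∀ x, Measurable fun ω => w ω x := fun x => (hw.meas x).mono (A.F.le a) le_rfl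
  have hG0 : ∀ x z, Measurable fun ω => A.G a b ω x z :=
    fun x z => (A.measH a b x z hab).mono (A.H_le a) le_rfl
  have h1 : ∀ ω, φ ω * A.energy b c (A.push a b w) ω
      = ∑' x, ∑' x', ∑' z, ∑' z', ((φ ω * w ω x * w ω x') * (A.G a b ω x z * A.G a b ω x' z'))
        * A.K b c z z' := by
    intro ω
    have e1 : ∀ z z', A.push a b w ω z * A.push a b w ω z' * A.K b c z z'
        = ∑' x, ∑' x', (w ω x * w ω x') * (A.G a b ω x z * A.G a b ω x' z') * A.K b c z z' := by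
      intro z z'
      unfold KerSys.push
      rw [← ENNReal.tsum_mul_right, ← ENNReal.tsum_mul_right]
      refine tsum_congr fun x => ?_
      rw [← ENNReal.tsum_mul_left, ← ENNReal.tsum_mul_right]
      exact tsum_congr fun x' => by ring
    rw [KerSys.energy]
    simp_rw [e1]
    have e2 : ∑' z, ∑' z', ∑' x, ∑' x', (w ω x * w ω x') * (A.G a b ω x z * A.G a b ω x' z')
          * A.K b c z z'
        = ∑' x, ∑' x', ∑' z, ∑' z', (w ω x * w ω x') * (A.G a b ω x z * A.G a b ω x' z')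
          * A.K b c z z' := by
      calc _ = ∑' z, ∑' x, ∑' z', ∑' x', (w ω x * w ω x') * (A.G a b ω x z * A.G a b ω x' z')
          * A.K b c z z' := tsum_congr fun z => ENNReal.tsum_comm
        _ = ∑' x, ∑' z, ∑' z', ∑' x', (w ω x * w ω x') * (A.G a b ω x z * A.G a b ω x' z')
          * A.K b c z z' := ENNReal.tsum_comm
        _ = ∑' x, ∑' z, ∑' x', ∑' z', (w ω x * w ω x') * (A.G a b ω x z * A.G a b ω x' z')
          * A.K b c z z' := tsum_congr fun x => tsum_congr fun z => ENNReal.tsum_comm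
        _ = _ := tsum_congr fun x => ENNReal.tsum_comm
    rw [e2, ← ENNReal.tsum_mul_left]
    refine tsum_congr fun x => ?_
    rw [← ENNReal.tsum_mul_left]
    refine tsum_congr fun x' => ?_
    rw [← ENNReal.tsum_mul_left]
    refine tsum_congr fun z => ?_
    rw [← ENNReal.tsum_mul_left]
    exact tsum_congr fun z' => by ring
  have hm2 : ∀ x x', Measurable fun ω => φ ω * w ω x * w ω x' :=
    fun x x' => (hφ0.mul (hw0 x)).mul (hw0 x')
  have hm4 : ∀ x x' z z', Measurable fun ω => ((φ ω * w ω x * w ω x') *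
      (A.G a b ω x z * A.G a b ω x' z')) * A.K b c z z' :=
    fun x x' z z' => ((hm2 x x').mul ((hG0 x z).mul (hG0 x' z'))).mul_const _
  simp_rw [h1]
  rw [lintegral_tsum (fun x => (Measurable.tsum fun x' => Measurable.tsum fun z =>
      Measurable.tsum fun z' => hm4 x x' z z').aemeasurable)]
  refine tsum_congr fun x => ?_
  rw [lintegral_tsum (fun x' => (Measurable.tsum fun z =>
      Measurable.tsum fun z' => hm4 x x' z z').aemeasurable)]
  refine tsum_congr fun x' => ?_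
  rw [lintegral_tsum (fun z => (Measurable.tsum fun z' => hm4 x x' z z').aemeasurable)]
  have h5 : ∀ z, ∫⁻ ω, ∑' z', ((φ ω * w ω x * w ω x') *
      (A.G a b ω x z * A.G a b ω x' z')) * A.K b c z z' ∂P
      = ∑' z', (∫⁻ ω, φ ω * w ω x * w ω x' ∂P) *
        ((∫⁻ ω, A.G a b ω x z * A.G a b ω x' z' ∂P) * A.K b c z z') := by
    intro z
    rw [lintegral_tsum (fun z' => (hm4 x x' z z').aemeasurable)]
    refine tsum_congr fun z' => ?_
    have hk1 : Measurable fun ω => (φ ω * w ω x * w ω x') *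
        (A.G a b ω x z * A.G a b ω x' z') := (hm2 x x').mul ((hG0 x z).mul (hG0 x' z'))
    have hk2 : Measurable[A.F a] fun ω => φ ω * w ω x * w ω x' :=
      (hφ.mul (hw.meas x)).mul (hw.meas x')
    have hk3 : Measurable[A.H a] fun ω => A.G a b ω x z * A.G a b ω x' z' :=
      (A.measH a b x z hab).mul (A.measH a b x' z' hab)
    rw [lintegral_mul_const _ hk1, A.indep_mul hk2 hk3, mul_assoc]
  simp_rw [h5, ENNReal.tsum_mul_left]
  rfl

/-- sum over windows of the mean energy of the pushed law -/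
lemma energy_sum (A : KerSys S P) {a : ℕ} {I : Finset ℕ} {lb lc : ℕ → ℕ}
    (hab : ∀ b ∈ I, a ≤ lb b) {w : Ω → S → ℝ≥0∞} (hw : A.Wt a w) (hw1 : ∀ ω, tot w ω ≤ 1)
    {G0 : ℝ≥0∞} (hcoll : ∀ x ∈ A.L a, ∀ x' ∈ A.L a, ∑ b ∈ I, TT A a (lb b) (lc b) x x' ≤ G0)
    {B : Set Ω} (hB : MeasurableSet[A.F a] B) :
    ∑ b ∈ I, ∫⁻ ω in B, A.energy (lb b) (lc b) (A.push a (lb b) w) ω ∂P ≤ G0 * P B := by
  have hB0 : MeasurableSet B := A.F.le a _ hB
  have hφ : Measurable[A.F a] (B.indicator (1 : Ω → ℝ≥0∞)) :=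
    (@measurable_one _ _ _ (A.F a) _).indicator hB
  have hw0 : ∀ x, Measurable fun ω => w ω x := fun x => (hw.meas x).mono (A.F.le a) le_rfl
  have hφ0 : Measurable (B.indicator (1 : Ω → ℝ≥0∞)) := measurable_one.indicator hB0
  have e0 : ∀ f : Ω → ℝ≥0∞, ∫⁻ ω in B, f ω ∂P = ∫⁻ ω, B.indicator (1 : Ω → ℝ≥0∞) ω * f ω ∂P := by
    intro f
    rw [← lintegral_indicator hB0]
    refine lintegral_congr fun ω => ?_
    by_cases h : ω ∈ B <;> simp [h]
  have e1 : ∀ b ∈ I, ∫⁻ ω in B, A.energy (lb b) (lc b) (A.push a (lb b) w) ω ∂P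
      = ∑' x, ∑' x', (∫⁻ ω, B.indicator (1 : Ω → ℝ≥0∞) ω * w ω x * w ω x' ∂P)
        * TT A a (lb b) (lc b) x x' := by
    intro b hb
    rw [e0, energy_push_eq A (hab b hb) hw hφ]
  rw [Finset.sum_congr rfl e1]
  rw [← Summable.tsum_finsetSum fun _ _ => ENNReal.summable]
  have e2 : ∀ x, ∑ b ∈ I, ∑' x', (∫⁻ ω, B.indicator (1 : Ω → ℝ≥0∞) ω * w ω x * w ω x' ∂P)
        * TT A a (lb b) (lc b) x x'
      = ∑' x', (∫⁻ ω, B.indicator (1 : Ω → ℝ≥0∞) ω * w ω x * w ω x' ∂P)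
        * ∑ b ∈ I, TT A a (lb b) (lc b) x x' := by
    intro x
    rw [← Summable.tsum_finsetSum fun _ _ => ENNReal.summable]
    exact tsum_congr fun x' => (Finset.mul_sum _ _ _).symm
  simp_rw [e2]
  have e3 : ∀ x x', (∫⁻ ω, B.indicator (1 : Ω → ℝ≥0∞) ω * w ω x * w ω x' ∂P)
        * ∑ b ∈ I, TT A a (lb b) (lc b) x x'
      ≤ (∫⁻ ω, B.indicator (1 : Ω → ℝ≥0∞) ω * w ω x * w ω x' ∂P) * G0 := by
    intro x x'
    by_cases hx : x ∈ A.L a
    · by_cases hx' : x' ∈ A.L a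
      · gcongr
        exact hcoll x hx x' hx'
      · simp [hw.supp _ x' hx']
    · simp [hw.supp _ x hx]
  have hm2 : ∀ x x', Measurable fun ω => B.indicator (1 : Ω → ℝ≥0∞) ω * w ω x * w ω x' :=
    fun x x' => (hφ0.mul (hw0 x)).mul (hw0 x')
  calc _ ≤ ∑' x, ∑' x', (∫⁻ ω, B.indicator (1 : Ω → ℝ≥0∞) ω * w ω x * w ω x' ∂P) * G0 :=
        ENNReal.tsum_le_tsum fun x => ENNReal.tsum_le_tsum fun x' => e3 x x'
    _ = (∫⁻ ω, B.indicator (1 : Ω → ℝ≥0∞) ω * tot w ω ^ 2 ∂P) * G0 := by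
        simp_rw [ENNReal.tsum_mul_right]
        congr 1
        have h2 : ∀ ω, B.indicator (1 : Ω → ℝ≥0∞) ω * tot w ω ^ 2
            = ∑' x, ∑' x', (B.indicator (1 : Ω → ℝ≥0∞) ω * w ω x * w ω x') := by
          intro ω
          rw [tot, sq, ← ENNReal.tsum_mul_right, ← ENNReal.tsum_mul_left]
          refine tsum_congr fun x => ?_
          rw [← ENNReal.tsum_mul_left, ← ENNReal.tsum_mul_left]
          exact tsum_congr fun x' => by ring
        simp_rw [h2]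
        rw [lintegral_tsum (fun x => (Measurable.tsum fun x' => hm2 x x').aemeasurable)]
        refine tsum_congr fun x => ?_
        rw [lintegral_tsum (fun x' => (hm2 x x').aemeasurable)]
    _ ≤ P B * G0 := by
        gcongr
        rw [← lintegral_indicator_one hB0]
        refine lintegral_mono fun ω => ?_
        calc B.indicator (1 : Ω → ℝ≥0∞) ω * tot w ω ^ 2
            ≤ B.indicator (1 : Ω → ℝ≥0∞) ω * 1 ^ 2 := by gcongr; exact hw1 ω
          _ = _ := by simp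
    _ = G0 * P B := mul_comm _ _

/-- a weight pushed in two climbs -/
lemma tot_push_push (A : KerSys S P) {a b c : ℕ} (hab : a ≤ b) (hbc : b ≤ c) :
    ∀ᵐ ω ∂P, ∀ w : Ω → S → ℝ≥0∞,
      tot (A.push b c (A.push a b w)) ω ≤ tot (A.push a c w) ω := by
  filter_upwards [A.comp a b c hab hbc] with ω hω w
  unfold tot
  refine ENNReal.tsum_le_tsum fun z => ?_
  unfold KerSys.push
  calc ∑' y, (∑' x, w ω x * A.G a b ω x y) * A.G b c ω y z
      = ∑' y, ∑' x, w ω x * (A.G a b ω x y * A.G b c ω y z) := by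
        refine tsum_congr fun y => ?_
        rw [← ENNReal.tsum_mul_right]
        exact tsum_congr fun x => by ring
    _ = ∑' x, w ω x * ∑' y, A.G a b ω x y * A.G b c ω y z := by
        rw [ENNReal.tsum_comm]
        exact tsum_congr fun x => ENNReal.tsum_mul_left
    _ ≤ ∑' x, w ω x * A.G a c ω x z := by
        refine ENNReal.tsum_le_tsum fun x => ?_
        gcongr
        exact hω x z

lemma meas_sum2 {α : Type*} [MeasurableSpace α] {f h : α → S → ℝ≥0∞}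
    (hf : ∀ y, Measurable fun a => f a y) (hh : ∀ y, Measurable fun a => h a y) :
    Measurable fun a => ∑' y, f a y * h a y :=
  Measurable.ennreal_tsum fun y => (hf y).mul (hh y)

lemma meas_sum1 {α : Type*} [MeasurableSpace α] {f : α → S → ℝ≥0∞} (g : ℝ≥0∞)
    (hf : ∀ y, Measurable fun a => f a y) : Measurable fun a => g * ∑' y, f a y :=
  (Measurable.ennreal_tsum fun y => hf y).const_mul g

/-- **a steep window forces the natural mass of the pushed law to be small** -/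
lemma steep_sub (A : KerSys S P) {μ : S → ℝ≥0∞} (hμ : A.Start μ) {p g r : ℝ≥0∞}
    (hr : r < p / 4 * g) {L b b1 c : ℕ} (h1 : L ≤ b) (h2 : b ≤ b1) (h3 : b1 ≤ c) :
    ∀ᵐ ω ∂P, p / 4 ≤ tot (A.push L b (A.exitW μ L)) ω →
      (A.Sh μ b1 ω ≠ 0 ∧ A.Sh μ c ω ≤ r * A.Sh μ b1 ω) →
      tot (A.push b c (A.push L b (A.exitW μ L))) ω < g * tot (A.push L b (A.exitW μ L)) ω := by
  filter_upwards [tot_push_push A h1 (h2.trans h3), Sh_ge1 A hμ (h1.trans (h2.trans h3))]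
    with ω g1 g2 hD hS
  obtain ⟨hS0, hS1⟩ := hS
  by_contra hcon
  rw [not_lt] at hcon
  have hb1t : A.Sh μ b1 ω ≠ ∞ := ne_top_of_le_ne_top ENNReal.one_ne_top (Sh_le_one hμ b1 ω)
  have h4 : p / 4 * g * A.Sh μ b1 ω ≤ A.Sh μ c ω := by
    calc p / 4 * g * A.Sh μ b1 ω
        ≤ tot (A.push L b (A.exitW μ L)) ω * g * A.Sh μ L ω := by
          gcongr
          exact Sh_anti (h1.trans h2) ω
      _ = A.Sh μ L ω * (g * tot (A.push L b (A.exitW μ L)) ω) := by ring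
      _ ≤ A.Sh μ L ω * tot (A.push b c (A.push L b (A.exitW μ L))) ω := by gcongr
      _ ≤ A.Sh μ L ω * tot (A.push L c (A.exitW μ L)) ω := by
          gcongr
          exact g1 _
      _ ≤ A.Sh μ c ω := g2
  have h5 : r * A.Sh μ b1 ω < p / 4 * g * A.Sh μ b1 ω := by
    rw [mul_comm r, mul_comm (p / 4 * g)]
    exact (ENNReal.mul_lt_mul_iff_right hS0 hb1t).2 hr
  exact absurd (hS1.trans_lt h5) (not_lt.2 h4)

/-- **one window** -/
theorem one_window [IsProbabilityMeasure P] (A : KerSys S P) {μ : S → ℝ≥0∞} (hμ : A.Start μ)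
    {p g r κs a1 ζ : ℝ≥0∞} (hp0 : p ≠ 0) (hpt : p ≠ ∞) (hr : r < p / 4 * g) (hκ0 : κs ≠ 0)
    (hκt : κs ≠ ∞) {L b b1 c : ℕ} (h1 : L ≤ b) (h2 : b ≤ b1) (h3 : b1 ≤ c)
    (hpop : ∀ w : S → ℝ≥0∞, ∑' x, w x = 1 → (∀ x, x ∉ A.L b → w x = 0) → enK A b c w ≤ κs →
      P {ω | mN A b c w ω < g} ≤ a1 * enK A b c w)
    {B : Set Ω} (hB : MeasurableSet[A.F b] B)
    (hb : ∀ B', MeasurableSet[A.F b] B' →
      P (B' ∩ {ω | A.Sh μ b1 ω ≠ 0 ∧ A.Sh μ c ω ≤ r * A.Sh μ b1 ω}) ≤ ζ * P B') :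
    P (B ∩ ({ω | p / 4 ≤ tot (A.push L b (A.exitW μ L)) ω} ∩
        {ω | A.Sh μ b1 ω ≠ 0 ∧ A.Sh μ c ω ≤ r * A.Sh μ b1 ω}))
      ≤ (ζ / κs + a1) * (16 / p ^ 2) *
        ∫⁻ ω in B, A.energy b c (A.push L b (A.exitW μ L)) ω ∂P := by
  set v : Ω → S → ℝ≥0∞ := A.push L b (A.exitW μ L) with hv
  have hvW : A.Wt b v := (wt_exitW hμ L).push h1
  have hvm : Measurable[A.F b] (fun ω => tot v ω) := hvW.meas_tot
  have hv1 : ∀ ω, tot v ω ≤ 1 := fun ω => (A.tot_push_le h1 _ ω).trans (tot_exitW_le μ L ω)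
  set e : Ω → ℝ≥0∞ := fun ω => A.energy b c v ω with he
  have heF : Measurable[A.F b] e := by
    simp only [he, KerSys.energy]
    exact Measurable.ennreal_tsum fun x => Measurable.ennreal_tsum fun x' =>
      ((hvW.meas x).mul (hvW.meas x')).mul_const _
  have hem : Measurable e := heF.mono (A.F.le b) le_rfl
  have hB0 : MeasurableSet B := A.F.le b _ hB
  set t : ℝ≥0∞ := κs * (p / 4) ^ 2 with ht
  have hp4 : p / 4 ≠ 0 := (ENNReal.div_pos hp0 (by norm_num)).ne'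
  have hp4t : p / 4 ≠ ∞ := ENNReal.div_ne_top hpt (by norm_num)
  have ht0 : t ≠ 0 := mul_ne_zero hκ0 (pow_ne_zero 2 hp4)
  have htt : t ≠ ∞ := ENNReal.mul_ne_top hκt (ENNReal.pow_ne_top hp4t)
  have h16 : ((p / 4) ^ 2)⁻¹ = 16 / p ^ 2 := by
    have e : (p / 4) ^ 2 = p ^ 2 / 16 := by
      rw [div_eq_mul_inv, mul_pow, div_eq_mul_inv]
      congr 1
      rw [← ENNReal.inv_pow]; norm_num
    rw [e, ENNReal.inv_div (Or.inl (by norm_num)) (Or.inl (by norm_num))]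
  set D : Set Ω := {ω | p / 4 ≤ tot v ω} with hD
  have hDm : MeasurableSet[A.F b] D :=
    @measurableSet_le _ _ _ _ _ (A.F b) _ _ _ _ _ (@measurable_const _ _ _ (A.F b) _) hvm
  set E : Set Ω := {ω | e ω ≤ t} with hE
  have hEm : MeasurableSet[A.F b] E :=
    @measurableSet_le _ _ _ _ _ (A.F b) _ _ _ _ _ heF (@measurable_const _ _ _ (A.F b) _)
  set St : Set Ω := {ω | A.Sh μ b1 ω ≠ 0 ∧ A.Sh μ c ω ≤ r * A.Sh μ b1 ω} with hSt
  -- the concentrated part
  have hconc : P (B ∩ (D ∩ St) ∩ Eᶜ) ≤ ζ / κs * (16 / p ^ 2) * ∫⁻ ω in B, e ω ∂P := by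
    have g1 : P (B ∩ (D ∩ St) ∩ Eᶜ) ≤ ζ * P (B ∩ Eᶜ) := by
      refine le_trans (measure_mono ?_) (hb (B ∩ Eᶜ) (hB.inter hEm.compl))
      rintro ω ⟨⟨q1, q2, q3⟩, q4⟩
      exact ⟨⟨q1, q4⟩, q3⟩
    have g2 : t * P (B ∩ Eᶜ) ≤ ∫⁻ ω in B, e ω ∂P := by
      have g3 : P (B ∩ Eᶜ) ≤ P.restrict B {ω | t ≤ e ω} := by
        rw [Measure.restrict_apply (measurableSet_le measurable_const hem)]
        refine measure_mono ?_
        rintro ω ⟨q1, q2⟩
        exact ⟨(not_le.1 (show ¬ e ω ≤ t from q2)).le, q1⟩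
      calc t * P (B ∩ Eᶜ) ≤ t * P.restrict B {ω | t ≤ e ω} := by gcongr
        _ ≤ _ := mul_meas_ge_le_lintegral hem t
    have g4 : P (B ∩ Eᶜ) ≤ (∫⁻ ω in B, e ω ∂P) / t := by
      rw [ENNReal.le_div_iff_mul_le (Or.inl ht0) (Or.inl htt), mul_comm]
      exact g2
    calc _ ≤ ζ * ((∫⁻ ω in B, e ω ∂P) / t) := g1.trans (by gcongr)
      _ = ζ / κs * (16 / p ^ 2) * ∫⁻ ω in B, e ω ∂P := by
          rw [ht, ← h16]
          simp only [div_eq_mul_inv]
          rw [ENNReal.mul_inv (Or.inl hκ0) (Or.inl hκt)]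
          ring
  -- the spread part
  set Bad : Set ((S → ℝ≥0∞) × Ω) := {q | mN A b c q.1 q.2 < g * ∑' x, q.1 x} with hBad
  have hBadm : MeasurableSet[MeasurableSpace.pi.prod (A.H b)] Bad := by
    have hl : ∀ y, @Measurable ((S → ℝ≥0∞) × Ω) ℝ≥0∞ (MeasurableSpace.pi.prod (A.H b)) _
        fun q => q.1 y := fun y =>
      (measurable_pi_apply y).comp (@measurable_fst (S → ℝ≥0∞) Ω MeasurableSpace.pi (A.H b))
    have hN : ∀ y, @Measurable ((S → ℝ≥0∞) × Ω) ℝ≥0∞ (MeasurableSpace.pi.prod (A.H b)) _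
        fun q => A.N b c q.2 y := fun y =>
      (A.meas_N_H (h2.trans h3) y).comp (@measurable_snd (S → ℝ≥0∞) Ω MeasurableSpace.pi (A.H b))
    have m1 : @Measurable ((S → ℝ≥0∞) × Ω) ℝ≥0∞ (MeasurableSpace.pi.prod (A.H b)) _
        fun q => mN A b c q.1 q.2 :=
      @meas_sum2 S _ ((S → ℝ≥0∞) × Ω) (MeasurableSpace.pi.prod (A.H b)) _ _ hl hN
    have m2 : @Measurable ((S → ℝ≥0∞) × Ω) ℝ≥0∞ (MeasurableSpace.pi.prod (A.H b)) _
        fun q => g * ∑' x, q.1 x :=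
      @meas_sum1 S _ ((S → ℝ≥0∞) × Ω) (MeasurableSpace.pi.prod (A.H b)) _ g hl
    exact @measurableSet_lt _ _ _ _ _ (MeasurableSpace.pi.prod (A.H b)) _ _ _ _ _ m1 m2
  have hspread : P (B ∩ (D ∩ St) ∩ E) ≤ a1 * (16 / p ^ 2) * ∫⁻ ω in B, e ω ∂P := by
    have hsub : (B ∩ (D ∩ St) ∩ E : Set Ω) ≤ᵐ[P]
        ((B ∩ D ∩ E) ∩ {ω | ((fun y => v ω y), ω) ∈ Bad} : Set Ω) := by
      filter_upwards [steep_sub A hμ hr h1 h2 h3] with ω hω
      rintro ⟨⟨q1, q2, q3⟩, q4⟩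
      refine ⟨⟨⟨q1, q2⟩, q4⟩, ?_⟩
      have h5 := hω q2 q3
      rw [← hv, tot_push] at h5
      exact h5
    have hfm : Measurable[A.F b] (fun ω => (fun y => v ω y)) := by
      exact @measurable_pi_lambda _ _ _ (A.F b) _ _ fun y => hvW.meas y
    refine (measure_mono_ae hsub).trans ?_
    refine (rand_state_fun P (A.F.le b) (A.H_le b) (A.indep b) Bad hBadm
      (fun ω => (fun y => v ω y)) hfm (fun w => a1 * (16 / p ^ 2) * enK A b c w)
      ((measurable_enK A b c).const_mul _) (B ∩ D ∩ E) ((hB.inter hDm).inter hEm) ?_).trans ?_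
    · rintro ω ⟨⟨q1, q2⟩, q3⟩
      have q2' : p / 4 ≤ tot v ω := q2
      have hT0 : tot v ω ≠ 0 := fun h => hp4 (le_antisymm (by rw [h] at q2'; exact q2') zero_le)
      have hTt : tot v ω ≠ ∞ := ne_top_of_le_ne_top ENNReal.one_ne_top (hv1 ω)
      set w : S → ℝ≥0∞ := fun y => v ω y / tot v ω with hw
      have hw1 : ∑' x, w x = 1 := by
        simp only [hw, div_eq_mul_inv]
        rw [ENNReal.tsum_mul_right]
        exact ENNReal.mul_inv_cancel hT0 hTt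
      have hwe : enK A b c w = e ω / tot v ω ^ 2 := by
        simp only [hw, he, enK, KerSys.energy]
        rw [div_eq_mul_inv, ← ENNReal.tsum_mul_right]
        refine tsum_congr fun x => ?_
        rw [← ENNReal.tsum_mul_right]
        refine tsum_congr fun x' => ?_
        rw [div_eq_mul_inv, div_eq_mul_inv, ENNReal.inv_pow]
        ring
      have hwe2 : enK A b c w ≤ (16 / p ^ 2) * e ω := by
        rw [hwe, ← h16, div_eq_mul_inv, mul_comm]
        gcongr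
      have hwκ : enK A b c w ≤ κs := by
        refine hwe2.trans ?_
        calc (16 / p ^ 2) * e ω ≤ (16 / p ^ 2) * t := by gcongr; exact q3
          _ = κs := by
              rw [ht, ← h16, mul_left_comm, ENNReal.inv_mul_cancel (pow_ne_zero 2 hp4)
                (ENNReal.pow_ne_top hp4t), mul_one]
      have h6 := hpop w hw1 (fun x hx => by simp [hw, hvW.supp ω x hx]) hwκ
      have hset : {ω' | ((fun y => v ω y), ω') ∈ Bad} ⊆ {ω' | mN A b c w ω' < g} := by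
        intro ω' hω'
        have h7 : mN A b c (fun y => v ω y) ω' < g * tot v ω := hω'
        have h8 : mN A b c (fun y => v ω y) ω' = tot v ω * mN A b c w ω' := by
          unfold mN
          rw [← ENNReal.tsum_mul_left]
          refine tsum_congr fun x => ?_
          rw [← mul_assoc]
          congr 1
          exact (ENNReal.mul_div_cancel hT0 hTt).symm
        rw [h8, mul_comm g] at h7
        exact (ENNReal.mul_lt_mul_iff_right hT0 hTt).1 h7
      calc P {ω' | ((fun y => v ω y), ω') ∈ Bad} ≤ a1 * enK A b c w := (measure_mono hset).trans h6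
        _ ≤ a1 * ((16 / p ^ 2) * e ω) := by gcongr
        _ = a1 * (16 / p ^ 2) * enK A b c (fun y => v ω y) := by rw [mul_assoc]; rfl
    · have h9 : ∫⁻ ω in B ∩ D ∩ E, a1 * (16 / p ^ 2) * enK A b c (fun y => v ω y) ∂P
          ≤ ∫⁻ ω in B, a1 * (16 / p ^ 2) * e ω ∂P :=
        lintegral_mono_set fun ω hω => hω.1.1
      refine h9.trans (le_of_eq ?_)
      rw [lintegral_const_mul _ hem]
  calc P (B ∩ (D ∩ St)) ≤ P (B ∩ (D ∩ St) ∩ E) + P (B ∩ (D ∩ St) ∩ Eᶜ) := by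
        refine le_trans (measure_mono ?_) (measure_union_le _ _)
        intro ω hω
        by_cases h : ω ∈ E
        · exact Or.inl ⟨hω, h⟩
        · exact Or.inr ⟨hω, h⟩
    _ ≤ a1 * (16 / p ^ 2) * ∫⁻ ω in B, e ω ∂P + ζ / κs * (16 / p ^ 2) * ∫⁻ ω in B, e ω ∂P :=
        add_le_add hspread hconc
    _ = _ := by ring

/-- **(hc)**: the expected number of steep windows of length `n` whose bottom is alive -/
theorem hc_abs [IsProbabilityMeasure P] (A : KerSys S P) {μ : S → ℝ≥0∞} (hμ : A.Start μ)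
    {p g r κs a1 ζ G0 : ℝ≥0∞} (hp0 : p ≠ 0) (hpt : p ≠ ∞) (hr : r < p / 4 * g) (hκ0 : κs ≠ 0)
    (hκt : κs ≠ ∞) {T s a0 : ℕ} {I : Finset ℕ} {lb l1 lc : ℕ → ℕ}
    (hI1 : ∀ b ∈ I, a0 + T * s ≤ lb b) (hI2 : ∀ b ∈ I, lb b ≤ l1 b) (hI3 : ∀ b ∈ I, l1 b ≤ lc b)
    (hpop : ∀ b ∈ I, ∀ w : S → ℝ≥0∞, ∑' x, w x = 1 → (∀ x, x ∉ A.L (lb b) → w x = 0) →
      enK A (lb b) (lc b) w ≤ κs →
      P {ω | mN A (lb b) (lc b) w ω < g} ≤ a1 * enK A (lb b) (lc b) w)
    (hb : ∀ b ∈ I, ∀ B', MeasurableSet[A.F (lb b)] B' →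
      P (B' ∩ {ω | A.Sh μ (l1 b) ω ≠ 0 ∧ A.Sh μ (lc b) ω ≤ r * A.Sh μ (l1 b) ω}) ≤ ζ * P B')
    (hcoll : ∀ l, l < T → ∀ x ∈ A.L (a0 + l * s), ∀ x' ∈ A.L (a0 + l * s),
      ∑ b ∈ I, TT A (a0 + l * s) (lb b) (lc b) x x' ≤ G0)
    {B : Set Ω} (hB : MeasurableSet[A.F a0] B) :
    ∑ b ∈ I, P (B ∩ (Alive A μ p T s a0 (lb b) ∩
        {ω | A.Sh μ (l1 b) ω ≠ 0 ∧ A.Sh μ (lc b) ω ≤ r * A.Sh μ (l1 b) ω}))
      ≤ T * ((ζ / κs + a1) * (16 / p ^ 2) * G0) * P B := by
  have hlv : ∀ l, l < T → ∀ b ∈ I, a0 + l * s ≤ lb b := fun l hl b hb' =>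
    (lv_le hl).trans (hI1 b hb')
  have h1 : ∀ b ∈ I, P (B ∩ (Alive A μ p T s a0 (lb b) ∩
        {ω | A.Sh μ (l1 b) ω ≠ 0 ∧ A.Sh μ (lc b) ω ≤ r * A.Sh μ (l1 b) ω}))
      ≤ ∑ l ∈ Finset.range T, (ζ / κs + a1) * (16 / p ^ 2) *
        ∫⁻ ω in B, A.energy (lb b) (lc b)
          (A.push (a0 + l * s) (lb b) (A.exitW μ (a0 + l * s))) ω ∂P := by
    intro b hb'
    refine le_trans (measure_mono (t := ⋃ l ∈ Finset.range T,
      (B ∩ ({ω | p / 4 ≤ tot (A.push (a0 + l * s) (lb b) (A.exitW μ (a0 + l * s))) ω} ∩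
        {ω | A.Sh μ (l1 b) ω ≠ 0 ∧ A.Sh μ (lc b) ω ≤ r * A.Sh μ (l1 b) ω}))) ?_) ?_
    · rintro ω ⟨q1, ⟨l, hl, q2⟩, q3⟩
      exact mem_biUnion (show l ∈ (Finset.range T : Set ℕ) from by
        exact_mod_cast Finset.mem_range.2 hl) ⟨q1, q2, q3⟩
    · refine (measure_biUnion_finset_le _ _).trans (Finset.sum_le_sum fun l hl => ?_)
      have hl' := Finset.mem_range.1 hl
      refine one_window A hμ hp0 hpt hr hκ0 hκt (hlv l hl' b hb') (hI2 b hb') (hI3 b hb')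
        (hpop b hb') (A.F.mono ?_ _ hB) (hb b hb')
      exact (Nat.le_add_right _ _).trans (hI1 b hb')
  refine (Finset.sum_le_sum h1).trans ?_
  rw [Finset.sum_comm]
  calc ∑ l ∈ Finset.range T, ∑ b ∈ I, (ζ / κs + a1) * (16 / p ^ 2) *
        ∫⁻ ω in B, A.energy (lb b) (lc b)
          (A.push (a0 + l * s) (lb b) (A.exitW μ (a0 + l * s))) ω ∂P
      ≤ ∑ l ∈ Finset.range T, (ζ / κs + a1) * (16 / p ^ 2) * (G0 * P B) := by
        refine Finset.sum_le_sum fun l hl => ?_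
        have hl' := Finset.mem_range.1 hl
        rw [← Finset.mul_sum]
        gcongr
        refine energy_sum A (hlv l hl') (wt_exitW hμ _) (fun ω => tot_exitW_le μ _ ω)
          (hcoll l hl') (A.F.mono (Nat.le_add_right _ _) _ hB)
    _ = _ := by
        rw [Finset.sum_const, Finset.card_range, nsmul_eq_mul]
        ring

end Crest.Agent.R154.HcPop872
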