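import Crest.Agent.R154.RatioB_872

/-! Row 154, TILE_RUN (878 #34691, 950, 284): T2 + first half of T6b, abstract.

`pop_lemma`: a random probability weight `m` (known at level `b`) on sites with cells, attempts
`Z x` (future events) which satisfy the K-set bound `P(⋂_{x∈K} Z x) ≤ (3/16)^|K|` for sets `K` with
one site per cell.  Then for any event `E` on which the dead weight is `≥ 3/4` and whose conditional
probability is `≤ z²`: `P (B ∩ E) ≤ 40 z ∫_B q`, `q = Σ_{cell x = cell y} m x m y`. -/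

set_option autoImplicit false
set_option linter.unusedSectionVars false
set_option linter.deprecated false
set_option linter.unusedVariables false

namespace Crest.Agent.R154.Hc867

open MeasureTheory ProbabilityTheory Set Filter Finset
open Crest.Agent.R154.RatioR872 Crest.Agent.R154.RatioR872.KerSys
open scoped ENNReal Topology

section det
variable {S C : Type*}

open Classical in
/-- sums over sequences of sites with distinct cells -/
noncomputable def U (cell : S → C) (f : S → ℝ≥0∞) : ℕ → Finset S → ℝ≥0∞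
  | 0, _ => 1
  | k + 1, K => ∑' x, if (∃ y ∈ K, cell y = cell x) then 0 else f x * U cell f k (insert x K)

open Classical in
/-- mass in the cell of `x` -/
noncomputable def rx (cell : S → C) (f : S → ℝ≥0∞) (x : S) : ℝ≥0∞ :=
  ∑' y, if cell x = cell y then f y else 0

/-- collision sum -/
noncomputable def col (cell : S → C) (f : S → ℝ≥0∞) : ℝ≥0∞ := ∑' x, f x * rx cell f x

theorem rx_mono (cell : S → C) {f g : S → ℝ≥0∞} (h : ∀ x, f x ≤ g x) (x : S) :
    rx cell f x ≤ rx cell g x := by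
  unfold rx
  refine ENNReal.tsum_le_tsum fun y => ?_
  split_ifs
  · exact h y
  · exact le_rfl

theorem col_mono (cell : S → C) {f g : S → ℝ≥0∞} (h : ∀ x, f x ≤ g x) :
    col cell f ≤ col cell g := by
  unfold col
  refine ENNReal.tsum_le_tsum fun x => ?_
  exact mul_le_mul' (h x) (rx_mono cell h x)

theorem sq_le_col (cell : S → C) (f : S → ℝ≥0∞) (x : S) : f x * f x ≤ col cell f := by
  classical
  unfold col
  have h1 : f x ≤ rx cell f x := by
    unfold rx
    have := ENNReal.le_tsum (f := fun y => if cell x = cell y then f y else 0) x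
    simpa using this
  calc f x * f x ≤ f x * rx cell f x := by gcongr
    _ ≤ _ := ENNReal.le_tsum (f := fun x => f x * rx cell f x) x

theorem pow_le_U (cell : S → C) (f : S → ℝ≥0∞) (hf : ∑' x, f x ≤ 1) (k : ℕ) : ∀ K : Finset S,
    (∑' x, f x) ^ k ≤ U cell f k K + k * (∑ y ∈ K, rx cell f y) + (k : ℝ≥0∞) ^ 2 * col cell f := by
  classical
  induction k with
  | zero => intro K; simp [U]
  | succ k ih =>
    intro K
    set D : ℝ≥0∞ := ∑' x, f x with hD
    set R : ℝ≥0∞ := ∑ y ∈ K, rx cell f y with hR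
    have key : ∀ x, f x * D ^ k ≤
        (if (∃ y ∈ K, cell y = cell x) then 0 else f x * U cell f k (insert x K))
        + (∑ y ∈ K, if cell y = cell x then f x else 0)
        + (k * R * f x + k * (f x * rx cell f x) + (k : ℝ≥0∞) ^ 2 * col cell f * f x) := by
      intro x
      by_cases hx : ∃ y ∈ K, cell y = cell x
      · rw [if_pos hx]
        obtain ⟨y, hy, hyx⟩ := hx
        have h1 : f x ≤ ∑ y ∈ K, if cell y = cell x then f x else 0 := by
          calc f x = (if cell y = cell x then f x else 0) := by rw [if_pos hyx]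
            _ ≤ _ := Finset.single_le_sum (f := fun y => if cell y = cell x then f x else 0)
                (fun _ _ => zero_le) hy
        calc f x * D ^ k ≤ f x * 1 := by gcongr; exact pow_le_one₀ zero_le hf
          _ = f x := mul_one _
          _ ≤ _ := h1
          _ = 0 + _ := (zero_add _).symm
          _ ≤ _ := le_self_add
      · rw [if_neg hx]
        have h1 := ih (insert x K)
        have h2 : ∑ y ∈ insert x K, rx cell f y ≤ rx cell f x + R := by
          by_cases hxK : x ∈ K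
          · rw [Finset.insert_eq_of_mem hxK]; exact le_add_self
          · rw [Finset.sum_insert hxK]
        calc f x * D ^ k ≤ f x * (U cell f k (insert x K) + k * (rx cell f x + R)
              + (k : ℝ≥0∞) ^ 2 * col cell f) := by
              gcongr
              exact h1.trans (by gcongr)
          _ = f x * U cell f k (insert x K) + (k * R * f x + k * (f x * rx cell f x)
              + (k : ℝ≥0∞) ^ 2 * col cell f * f x) := by ring
          _ ≤ _ := by
              gcongr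
              exact le_self_add
    have hsum : ∑' x, (∑ y ∈ K, if cell y = cell x then f x else 0) = R := by
      rw [Summable.tsum_finsetSum (fun _ _ => ENNReal.summable)]
      rfl
    calc D ^ (k + 1) = ∑' x, f x * D ^ k := by
          rw [ENNReal.tsum_mul_right, pow_succ']
      _ ≤ ∑' x, ((if (∃ y ∈ K, cell y = cell x) then 0 else f x * U cell f k (insert x K))
        + (∑ y ∈ K, if cell y = cell x then f x else 0)
        + (k * R * f x + k * (f x * rx cell f x) + (k : ℝ≥0∞) ^ 2 * col cell f * f x)) :=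
          ENNReal.tsum_le_tsum key
      _ = U cell f (k + 1) K + R + (k * R * D + k * col cell f
          + (k : ℝ≥0∞) ^ 2 * col cell f * D) := by
          rw [ENNReal.tsum_add, ENNReal.tsum_add, ENNReal.tsum_add, ENNReal.tsum_add, hsum,
            ENNReal.tsum_mul_left, ENNReal.tsum_mul_left, ENNReal.tsum_mul_left]
          rfl
      _ ≤ U cell f (k + 1) K + R + (k * R * 1 + k * col cell f
          + (k : ℝ≥0∞) ^ 2 * col cell f * 1) := by gcongr
      _ ≤ U cell f (k + 1) K + R + (k * R * 1 + k * col cell f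
          + (k : ℝ≥0∞) ^ 2 * col cell f * 1) + (k + 1) * col cell f := le_self_add
      _ = U cell f (k + 1) K + (k + 1 : ℕ) * R + ((k + 1 : ℕ) : ℝ≥0∞) ^ 2 * col cell f := by
          push_cast
          ring

end det

section rand
variable {S : Type*} [Countable S] {Ω : Type*} {m0 : MeasurableSpace Ω} {P : Measure Ω} {C : Type*}

theorem meas_U (cell : S → C) {f : Ω → S → ℝ≥0∞} (hf : ∀ x, Measurable fun ω => f ω x) (k : ℕ) :
    ∀ K : Finset S, Measurable fun ω => U cell (f ω) k K := by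
  classical
  induction k with
  | zero => intro K; exact measurable_const
  | succ k ih =>
    intro K
    refine Measurable.ennreal_tsum fun x => ?_
    by_cases hx : ∃ y ∈ K, cell y = cell x
    · simp only [if_pos hx]; exact measurable_const
    · simp only [if_neg hx]; exact (hf x).mul (ih _)

theorem meas_col {mΩ : MeasurableSpace Ω} (cell : S → C) {f : Ω → S → ℝ≥0∞}
    (hf : ∀ x, Measurable[mΩ] fun ω => f ω x) : Measurable[mΩ] fun ω => col cell (f ω) := by
  classical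
  unfold col rx
  refine Measurable.ennreal_tsum fun x => (hf x).mul (Measurable.ennreal_tsum fun y => ?_)
  by_cases hx : cell x = cell y
  · simp only [if_pos hx]; exact hf y
  · simp only [if_neg hx]; exact measurable_const

theorem int_U (A : KerSys S P) {b : ℕ} (cell : S → C) {m : Ω → S → ℝ≥0∞} (hm : A.Wt b m)
    (hm1 : ∀ ω, tot m ω ≤ 1) {Z : S → Set Ω} (hZ : ∀ x, MeasurableSet[A.H b] (Z x)) {θ : ℝ≥0∞}
    (hK : ∀ K : Finset S, (∀ x ∈ K, x ∈ A.L b) → Set.InjOn cell (K : Set S) →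
      P (⋂ x ∈ K, Z x) ≤ θ ^ K.card)
    (k : ℕ) : ∀ (K : Finset S), (∀ x ∈ K, x ∈ A.L b) → Set.InjOn cell (K : Set S) →
      ∀ φ : Ω → ℝ≥0∞, Measurable[A.F b] φ →
      ∫⁻ ω, φ ω * ((⋂ x ∈ K, Z x).indicator 1 ω *
        U cell (fun x => m ω x * (Z x).indicator 1 ω) k K) ∂P
      ≤ θ ^ (K.card + k) * ∫⁻ ω, φ ω ∂P := by
  classical
  have hZ0 : ∀ x, MeasurableSet (Z x) := fun x => A.H_le b _ (hZ x)
  have hKm : ∀ K : Finset S, MeasurableSet[A.H b] (⋂ x ∈ K, Z x) := fun K =>
    @Finset.measurableSet_biInter _ _ (A.H b) _ K fun x _ => hZ x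
  have hfm : ∀ x, Measurable fun ω => m ω x * (Z x).indicator (1 : Ω → ℝ≥0∞) ω := fun x =>
    ((hm.meas x).mono (A.F.le b) le_rfl).mul (measurable_one.indicator (hZ0 x))
  induction k with
  | zero =>
    intro K hKL hKi φ hφ
    simp only [U, mul_one, add_zero]
    have hi : Measurable[A.H b] ((⋂ x ∈ K, Z x).indicator (1 : Ω → ℝ≥0∞)) :=
      (@measurable_one _ _ _ (A.H b) _).indicator (hKm K)
    rw [A.indep_mul hφ hi, lintegral_indicator_one (A.H_le b _ (hKm K)), mul_comm]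
    gcongr
    exact hK K hKL hKi
  | succ k ih =>
    intro K hKL hKi φ hφ
    have hφ0 : Measurable φ := hφ.mono (A.F.le b) le_rfl
    have hone : Measurable ((⋂ x ∈ K, Z x).indicator (1 : Ω → ℝ≥0∞)) :=
      measurable_one.indicator (A.H_le b _ (hKm K))
    have e1 : ∀ ω, φ ω * ((⋂ x ∈ K, Z x).indicator 1 ω *
        U cell (fun x => m ω x * (Z x).indicator 1 ω) (k + 1) K)
        = ∑' x, φ ω * ((⋂ x ∈ K, Z x).indicator 1 ω *
          (if (∃ y ∈ K, cell y = cell x) then 0 else (m ω x * (Z x).indicator 1 ω) *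
            U cell (fun x => m ω x * (Z x).indicator 1 ω) k (insert x K))) := by
      intro ω
      rw [ENNReal.tsum_mul_left, ENNReal.tsum_mul_left]
      rfl
    simp_rw [e1]
    rw [lintegral_tsum]
    swap
    · intro x
      refine (hφ0.mul (hone.mul ?_)).aemeasurable
      by_cases hx : ∃ y ∈ K, cell y = cell x
      · simp only [if_pos hx]; exact measurable_const
      · simp only [if_neg hx]; exact (hfm x).mul (meas_U cell hfm k _)
    have hterm : ∀ x, ∫⁻ ω, φ ω * ((⋂ x ∈ K, Z x).indicator 1 ω *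
          (if (∃ y ∈ K, cell y = cell x) then 0 else (m ω x * (Z x).indicator 1 ω) *
            U cell (fun x => m ω x * (Z x).indicator 1 ω) k (insert x K))) ∂P
        ≤ θ ^ (K.card + (k + 1)) * ∫⁻ ω, φ ω * m ω x ∂P := by
      intro x
      by_cases hx : ∃ y ∈ K, cell y = cell x
      · simp only [if_pos hx, mul_zero, lintegral_zero]; exact zero_le
      · simp only [if_neg hx]
        by_cases hxL : x ∈ A.L b
        · have hxK : x ∉ K := fun h => hx ⟨x, h, rfl⟩
          have hL' : ∀ y ∈ insert x K, y ∈ A.L b := by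
            intro y hy
            rcases Finset.mem_insert.1 hy with rfl | hy
            · exact hxL
            · exact hKL y hy
          have hI' : Set.InjOn cell ((insert x K : Finset S) : Set S) := by
            rw [Finset.coe_insert, Set.injOn_insert (by simpa using hxK)]
            refine ⟨hKi, ?_⟩
            rintro ⟨y, hy, hyx⟩
            exact hx ⟨y, by simpa using hy, hyx⟩
          have h1 := ih (insert x K) hL' hI' (fun ω => φ ω * m ω x) (hφ.mul (hm.meas x))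
          rw [Finset.card_insert_of_notMem hxK] at h1
          have e2 : K.card + (k + 1) = K.card + 1 + k := by ring
          rw [e2]
          refine le_trans (le_of_eq ?_) h1
          refine lintegral_congr fun ω => ?_
          have e3 : (⋂ y ∈ insert x K, Z y).indicator (1 : Ω → ℝ≥0∞) ω
              = (⋂ y ∈ K, Z y).indicator 1 ω * (Z x).indicator 1 ω := by
            rw [Finset.set_biInter_insert]
            by_cases h1 : ω ∈ Z x
            · by_cases h2 : ω ∈ ⋂ y ∈ K, Z y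
              · rw [indicator_of_mem h1, indicator_of_mem h2, indicator_of_mem (Set.mem_inter h1 h2)]; simp
              · rw [indicator_of_notMem h2, indicator_of_notMem (fun h => h2 h.2)]; simp
            · rw [indicator_of_notMem h1, indicator_of_notMem (fun h => h1 h.1)]; simp
          rw [e3]
          ring
        · have h0 : ∀ ω, m ω x = 0 := fun ω => hm.supp ω x hxL
          simp only [h0, zero_mul, mul_zero, lintegral_zero, le_refl]
    calc _ ≤ ∑' x, θ ^ (K.card + (k + 1)) * ∫⁻ ω, φ ω * m ω x ∂P :=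
          ENNReal.tsum_le_tsum hterm
      _ = θ ^ (K.card + (k + 1)) * ∫⁻ ω, φ ω * tot m ω ∂P := by
          rw [ENNReal.tsum_mul_left, ← lintegral_tsum]
          · congr 1
            refine lintegral_congr fun ω => ?_
            rw [ENNReal.tsum_mul_left]
            rfl
          · exact fun x => (hφ0.mul ((hm.meas x).mono (A.F.le b) le_rfl)).aemeasurable
      _ ≤ θ ^ (K.card + (k + 1)) * ∫⁻ ω, φ ω ∂P := by
          gcongr with ω
          calc φ ω * tot m ω ≤ φ ω * 1 := by gcongr; exact hm1 ω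
            _ = φ ω := mul_one _

/-- `k² (2/3)^k ≤ 4` in the form used below -/
theorem ksq (k : ℕ) : (k : ℝ≥0∞) ^ 2 * (1 / 2) ^ k * (1 / 8) ≤ 1 / 2 * (3 / 4) ^ k := by
  have h1 : ∀ k : ℕ, (k : ℝ) ^ 2 * (1 / 2) ^ k * (1 / 8) ≤ 1 / 2 * (3 / 4) ^ k := by
    intro k
    have h2 : ∀ j : ℕ, ((j + 5 : ℕ) : ℝ) ^ 2 ≤ 4 * (3 / 2) ^ (j + 5) := by
      intro j
      induction j with
      | zero => norm_num
      | succ j ih =>
        have h3 : ((j + 1 + 5 : ℕ) : ℝ) ^ 2 ≤ 3 / 2 * ((j + 5 : ℕ) : ℝ) ^ 2 := by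
          push_cast
          have : (0 : ℝ) ≤ j := Nat.cast_nonneg j
          nlinarith
        calc ((j + 1 + 5 : ℕ) : ℝ) ^ 2 ≤ 3 / 2 * ((j + 5 : ℕ) : ℝ) ^ 2 := h3
          _ ≤ 3 / 2 * (4 * (3 / 2) ^ (j + 5)) := by gcongr
          _ = _ := by ring
    have h4 : (k : ℝ) ^ 2 ≤ 4 * (3 / 2) ^ k := by
      rcases lt_or_ge k 5 with h | h
      · interval_cases k <;> norm_num
      · obtain ⟨j, rfl⟩ := Nat.exists_eq_add_of_le' h
        exact h2 j
    calc (k : ℝ) ^ 2 * (1 / 2) ^ k * (1 / 8) ≤ (4 * (3 / 2) ^ k) * (1 / 2) ^ k * (1 / 8) := by gcongr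
      _ = 1 / 2 * ((3 / 2) * (1 / 2)) ^ k := by rw [mul_pow]; ring
      _ = _ := by norm_num
  have h2 := ENNReal.ofReal_le_ofReal (h1 k)
  have e8 : ENNReal.ofReal (1 / 8 : ℝ) = 1 / 8 := by
    rw [ENNReal.ofReal_div_of_pos (by norm_num)]; norm_num
  have e2 : ENNReal.ofReal (1 / 2 : ℝ) = 1 / 2 := by
    rw [ENNReal.ofReal_div_of_pos (by norm_num)]; norm_num
  have e3 : ENNReal.ofReal (3 / 4 : ℝ) = 3 / 4 := by
    rw [ENNReal.ofReal_div_of_pos (by norm_num)]; norm_num
  rw [ENNReal.ofReal_mul (by positivity), ENNReal.ofReal_mul (by positivity),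
    ENNReal.ofReal_mul (by positivity), ENNReal.ofReal_pow (by positivity),
    ENNReal.ofReal_pow (by positivity), ENNReal.ofReal_pow (by positivity), e8, e2, e3,
    ENNReal.ofReal_natCast] at h2
  exact h2

/-- one layer -/
theorem layer [IsProbabilityMeasure P] (A : KerSys S P) {b : ℕ} (cell : S → C)
    {m : Ω → S → ℝ≥0∞} (hm : A.Wt b m)
    (hm1 : ∀ ω, tot m ω ≤ 1) {Z : S → Set Ω} (hZ : ∀ x, MeasurableSet[A.H b] (Z x))
    (hK : ∀ K : Finset S, (∀ x ∈ K, x ∈ A.L b) → Set.InjOn cell (K : Set S) →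
      P (⋂ x ∈ K, Z x) ≤ (3 / 16) ^ K.card)
    (k : ℕ) {B : Set Ω} (hB : MeasurableSet[A.F b] B)
    (hq : ∀ ω ∈ B, col cell (m ω) ≤ (1 / 2) ^ k * (1 / 8)) :
    P (B ∩ {ω | 3 / 4 ≤ ∑' x, m ω x * (Z x).indicator 1 ω}) ≤ 2 * (1 / 4) ^ k * P B := by
  have hB0 : MeasurableSet B := A.F.le b _ hB
  have hZ0 : ∀ x, MeasurableSet (Z x) := fun x => A.H_le b _ (hZ x)
  have hfm : ∀ x, Measurable fun ω => m ω x * (Z x).indicator (1 : Ω → ℝ≥0∞) ω := fun x =>
    ((hm.meas x).mono (A.F.le b) le_rfl).mul (measurable_one.indicator (hZ0 x))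
  set f : Ω → S → ℝ≥0∞ := fun ω x => m ω x * (Z x).indicator (1 : Ω → ℝ≥0∞) ω with hf
  set E : Set Ω := {ω | 3 / 4 ≤ ∑' x, m ω x * (Z x).indicator 1 ω} with hE
  have hEm : MeasurableSet E :=
    measurableSet_le measurable_const (Measurable.ennreal_tsum hfm)
  have hfle : ∀ ω x, f ω x ≤ m ω x := by
    intro ω x
    calc f ω x ≤ m ω x * 1 := by
          simp only [hf]
          gcongr
          exact indicator_le_self' (fun _ _ => zero_le) ω |>.trans le_rfl
      _ = _ := mul_one _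
  have h1 := int_U A cell hm hm1 hZ hK k ∅ (by simp) (by simp) (B.indicator 1)
    ((@measurable_one _ _ _ (A.F b) _).indicator hB)
  rw [lintegral_indicator_one hB0, Finset.card_empty, zero_add] at h1
  have h2 : 1 / 2 * (3 / 4) ^ k * P (B ∩ E) ≤ (3 / 16) ^ k * P B := by
    refine le_trans ?_ h1
    rw [← lintegral_indicator_one (hB0.inter hEm), ← lintegral_const_mul _
      (measurable_one.indicator (hB0.inter hEm))]
    refine lintegral_mono fun ω => ?_
    by_cases hω : ω ∈ B ∩ E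
    · rw [indicator_of_mem hω, indicator_of_mem hω.1]
      simp only [Pi.one_apply, mul_one, one_mul, Finset.notMem_empty, iInter_of_empty,
        iInter_univ, indicator_univ]
      have h3 := pow_le_U cell (f ω)
        ((ENNReal.tsum_le_tsum (hfle ω)).trans (hm1 ω)) k ∅
      rw [Finset.sum_empty, mul_zero, add_zero] at h3
      have h4 : (k : ℝ≥0∞) ^ 2 * col cell (f ω) ≤ 1 / 2 * (3 / 4) ^ k := by
        calc (k : ℝ≥0∞) ^ 2 * col cell (f ω) ≤ (k : ℝ≥0∞) ^ 2 * ((1 / 2) ^ k * (1 / 8)) := by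
              gcongr
              exact (col_mono cell (hfle ω)).trans (hq ω hω.1)
          _ = (k : ℝ≥0∞) ^ 2 * (1 / 2) ^ k * (1 / 8) := by ring
          _ ≤ _ := ksq k
      have h5 : (3 / 4 : ℝ≥0∞) ^ k ≤ U cell (f ω) k ∅ + 1 / 2 * (3 / 4) ^ k := by
        calc (3 / 4 : ℝ≥0∞) ^ k ≤ (∑' x, f ω x) ^ k := by gcongr; exact hω.2
          _ ≤ _ := h3
          _ ≤ _ := by gcongr
      have h6 : (3 / 4 : ℝ≥0∞) ^ k = 1 / 2 * (3 / 4) ^ k + 1 / 2 * (3 / 4) ^ k := by
        rw [← add_mul, one_div, ENNReal.inv_two_add_inv_two, one_mul]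
      have h7 : (1 / 2 * (3 / 4) ^ k : ℝ≥0∞) ≠ ∞ :=
        ENNReal.mul_ne_top (by norm_num) (ENNReal.pow_ne_top
          (ENNReal.div_ne_top (by norm_num) (by norm_num)))
      exact (ENNReal.add_le_add_iff_right h7).1 (h6.symm.le.trans h5)
    · rw [indicator_of_notMem hω]; simp
  have h3 : (3 / 16 : ℝ≥0∞) ^ k = (3 / 4) ^ k * (1 / 4) ^ k := by
    rw [← mul_pow]
    congr 1
    rw [← ENNReal.toReal_eq_toReal_iff' (by finiteness) (by finiteness)]
    simp
    norm_num
  have hc0 : (3 / 4 : ℝ≥0∞) ^ k ≠ 0 := pow_ne_zero _ (by simp)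
  have hct : (3 / 4 : ℝ≥0∞) ^ k ≠ ∞ := ENNReal.pow_ne_top
          (ENNReal.div_ne_top (by norm_num) (by norm_num))
  have h4 : (3 / 4 : ℝ≥0∞) ^ k * (1 / 2 * P (B ∩ E)) ≤ (3 / 4) ^ k * ((1 / 4) ^ k * P B) := by
    calc (3 / 4 : ℝ≥0∞) ^ k * (1 / 2 * P (B ∩ E)) = 1 / 2 * (3 / 4) ^ k * P (B ∩ E) := by ring
      _ ≤ (3 / 16) ^ k * P B := h2
      _ = _ := by rw [h3]; ring
  have h5 := (ENNReal.mul_le_mul_iff_right hc0 hct).1 h4
  calc P (B ∩ E) = 2 * (1 / 2 * P (B ∩ E)) := by
        rw [← mul_assoc, one_div, ENNReal.mul_inv_cancel (by norm_num) (by norm_num), one_mul]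
    _ ≤ 2 * ((1 / 4) ^ k * P B) := by gcongr
    _ = _ := by ring

/-- the layer index -/
theorem exists_layer {q : ℝ≥0∞} (h0 : q ≠ 0) (h1 : q ≤ 1 / 8) :
    ∃ k : ℕ, (1 / 2) ^ (k + 1) * (1 / 8) < q ∧ q ≤ (1 / 2) ^ k * (1 / 8) := by
  have ht : Tendsto (fun k : ℕ => (1 / 2 : ℝ≥0∞) ^ k * (1 / 8)) atTop (𝓝 (0 * (1 / 8))) :=
    ENNReal.Tendsto.mul_const (ENNReal.tendsto_pow_atTop_nhds_zero_of_lt_one (by
      rw [one_div]; exact ENNReal.one_half_lt_one)) (Or.inr (by simp))
  rw [zero_mul] at ht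
  have hex : ∃ k : ℕ, (1 / 2 : ℝ≥0∞) ^ (k + 1) * (1 / 8) < q := by
    obtain ⟨k, hk⟩ := eventually_atTop.1 ((tendsto_order.1 ht).2 q (pos_iff_ne_zero.2 h0))
    exact ⟨k, hk (k + 1) (Nat.le_succ k)⟩
  classical
  refine ⟨Nat.find hex, Nat.find_spec hex, ?_⟩
  rcases Nat.eq_zero_or_pos (Nat.find hex) with h | h
  · rw [h, pow_zero, one_mul]; exact h1
  · have h2 := Nat.find_min hex (m := Nat.find hex - 1) (by omega)
    rw [Nat.sub_add_cancel h] at h2
    exact not_lt.1 h2

theorem min_le_mul {z t : ℝ≥0∞} {x : ℝ≥0∞} (h1 : x ≤ z ^ 2) (h2 : x ≤ 2 * t ^ 2) :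
    x ≤ 2 * (z * t) := by
  rcases le_total z t with h | h
  · calc x ≤ z ^ 2 := h1
      _ = z * z := sq z
      _ ≤ z * t := by gcongr
      _ ≤ 2 * (z * t) := by
        rw [two_mul]; exact le_self_add
  · calc x ≤ 2 * t ^ 2 := h2
      _ = 2 * (t * t) := by rw [sq]
      _ ≤ 2 * (z * t) := by gcongr

/-- **population lemma**, integrated with the conditional bound `z²`. -/
theorem pop [IsProbabilityMeasure P] (A : KerSys S P) {b : ℕ} (cell : S → C)
    {m : Ω → S → ℝ≥0∞} (hm : A.Wt b m)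
    (hm1 : ∀ ω, tot m ω ≤ 1) {Z : S → Set Ω} (hZ : ∀ x, MeasurableSet[A.H b] (Z x))
    (hK : ∀ K : Finset S, (∀ x ∈ K, x ∈ A.L b) → Set.InjOn cell (K : Set S) →
      P (⋂ x ∈ K, Z x) ≤ (3 / 16) ^ K.card)
    {E : Set Ω} (hE : ∀ᵐ ω ∂P, ω ∈ E → 3 / 4 ≤ ∑' x, m ω x * (Z x).indicator 1 ω) {z : ℝ≥0∞}
    (hz : ∀ B, MeasurableSet[A.F b] B → P (B ∩ E) ≤ z ^ 2 * P B)
    {B : Set Ω} (hB : MeasurableSet[A.F b] B) :
    P (B ∩ E) ≤ 40 * z * ∫⁻ ω in B, col cell (m ω) ∂P := by
  have hB0 : MeasurableSet B := A.F.le b _ hB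
  set q : Ω → ℝ≥0∞ := fun ω => col cell (m ω) with hq
  have hqm : Measurable[A.F b] q := meas_col cell hm.meas
  have hqm0 : Measurable q := hqm.mono (A.F.le b) le_rfl
  set g : ℕ → ℝ≥0∞ := fun k => (1 / 2) ^ k * (1 / 8) with hg
  have hgm : Antitone g := by
    intro i j hij
    have hhalf : (1 / 2 : ℝ≥0∞) ≤ 1 := by rw [one_div]; exact ENNReal.one_half_lt_one.le
    exact mul_le_mul' (pow_le_pow_of_le_one zero_le hhalf hij) le_rfl
  set ℓ : ℕ → Set Ω := fun k => q ⁻¹' (Set.Ioc (g (k + 1)) (g k)) with hℓ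
  have hℓm : ∀ k, MeasurableSet[A.F b] (ℓ k) := fun k => hqm measurableSet_Ioc
  have hℓd : Pairwise (Function.onFun Disjoint fun k => B ∩ ℓ k) := by
    have h1 := hgm.pairwise_disjoint_on_Ioc_succ
    intro i j hij
    have h2 := h1 hij
    exact (h2.preimage q).mono inter_subset_right inter_subset_right
  have hbig : MeasurableSet[A.F b] {ω | 1 / 8 < q ω} := hqm measurableSet_Ioi
  have hE' : (B ∩ E : Set Ω) ≤ᵐ[P] ((B ∩ {ω | 1 / 8 < q ω}) ∩ E ∪
      ⋃ k, ((B ∩ ℓ k) ∩ E) : Set Ω) := by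
    filter_upwards [hE] with ω hω
    rintro ⟨hωB, hωE⟩
    have h34 := hω hωE
    by_cases h8 : 1 / 8 < q ω
    · exact Or.inl ⟨⟨hωB, h8⟩, hωE⟩
    · right
      have hq0 : q ω ≠ 0 := by
        intro h0
        have h1 : ∀ x, m ω x = 0 := by
          intro x
          have h2 := sq_le_col cell (m ω) x
          have h3 : m ω x * m ω x = 0 := le_antisymm (h2.trans h0.le) zero_le
          exact mul_self_eq_zero.1 h3
        simp [h1] at h34
      obtain ⟨k, hk1, hk2⟩ := exists_layer hq0 (not_lt.1 h8)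
      exact mem_iUnion.2 ⟨k, ⟨hωB, ⟨hk1, hk2⟩⟩, hωE⟩
  have hE2 : ∀ B' : Set Ω, P (B' ∩ E) ≤
      P (B' ∩ {ω | 3 / 4 ≤ ∑' x, m ω x * (Z x).indicator 1 ω}) := by
    intro B'
    refine measure_mono_ae ?_
    filter_upwards [hE] with ω hω
    rintro ⟨h1, h2⟩
    exact ⟨h1, hω h2⟩
  have hone : (8 : ℝ≥0∞) * (1 / 8) = 1 := ENNReal.mul_div_cancel (by norm_num) (by norm_num)
  -- big layer
  have hA : P ((B ∩ {ω | 1 / 8 < q ω}) ∩ E) ≤ 8 * z * ∫⁻ ω in B, q ω ∂P := by
    have h1 := hz _ (hB.inter hbig)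
    have h2 : P ((B ∩ {ω | 1 / 8 < q ω}) ∩ E) ≤ z * P (B ∩ {ω | 1 / 8 < q ω}) := by
      rcases le_total z 1 with h | h
      · refine h1.trans ?_
        gcongr
        calc z ^ 2 = z * z := sq z
          _ ≤ z * 1 := by gcongr
          _ = z := mul_one z
      · calc P ((B ∩ {ω | 1 / 8 < q ω}) ∩ E) ≤ P (B ∩ {ω | 1 / 8 < q ω}) :=
              measure_mono inter_subset_left
          _ = 1 * P (B ∩ {ω | 1 / 8 < q ω}) := (one_mul _).symm
          _ ≤ _ := by gcongr
    refine h2.trans ?_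
    have h3 : (1 / 8 : ℝ≥0∞) * P (B ∩ {ω | 1 / 8 < q ω}) ≤ ∫⁻ ω in B, q ω ∂P := by
      calc (1 / 8 : ℝ≥0∞) * P (B ∩ {ω | 1 / 8 < q ω})
          = ∫⁻ ω in B ∩ {ω | 1 / 8 < q ω}, (1 / 8 : ℝ≥0∞) ∂P := by
            rw [lintegral_const, Measure.restrict_apply_univ]
        _ ≤ ∫⁻ ω in B ∩ {ω | 1 / 8 < q ω}, q ω ∂P := by
            refine setLIntegral_mono' (hB0.inter (A.F.le b _ hbig)) fun ω hω => hω.2.le
        _ ≤ _ := lintegral_mono_set inter_subset_left
    calc z * P (B ∩ {ω | 1 / 8 < q ω}) = 8 * z * ((1 / 8) * P (B ∩ {ω | 1 / 8 < q ω})) := by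
          calc z * P (B ∩ {ω | 1 / 8 < q ω}) = (8 * (1 / 8)) * (z * P (B ∩ {ω | 1 / 8 < q ω})) := by
                rw [hone, one_mul]
            _ = _ := by ring
      _ ≤ _ := by gcongr
  have hL : ∀ k, P ((B ∩ ℓ k) ∩ E) ≤ 32 * z * ∫⁻ ω in B ∩ ℓ k, q ω ∂P := by
    intro k
    have hBk : MeasurableSet[A.F b] (B ∩ ℓ k) := hB.inter (hℓm k)
    have h1 := hz _ hBk
    have h2 := (hE2 (B ∩ ℓ k)).trans (layer A cell hm hm1 hZ hK k hBk (fun ω hω => hω.2.2))
    have h3 : P ((B ∩ ℓ k) ∩ E) ≤ 2 * (z * (1 / 2) ^ k) * P (B ∩ ℓ k) := by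
      rcases le_total z ((1 / 2) ^ k) with h | h
      · refine h1.trans ?_
        gcongr
        calc z ^ 2 = z * z := sq z
          _ ≤ z * (1 / 2) ^ k := by gcongr
          _ ≤ 2 * (z * (1 / 2) ^ k) := by rw [two_mul]; exact le_self_add
      · refine h2.trans ?_
        gcongr
        calc (1 / 4 : ℝ≥0∞) ^ k = (1 / 2) ^ k * (1 / 2) ^ k := by
              rw [← mul_pow]
              congr 1
              rw [← ENNReal.toReal_eq_toReal_iff' (by finiteness) (by finiteness)]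
              simp
              norm_num
          _ ≤ z * (1 / 2) ^ k := by gcongr
    refine h3.trans ?_
    have h4 : g (k + 1) * P (B ∩ ℓ k) ≤ ∫⁻ ω in B ∩ ℓ k, q ω ∂P := by
      calc g (k + 1) * P (B ∩ ℓ k) = ∫⁻ ω in B ∩ ℓ k, g (k + 1) ∂P := by
            rw [lintegral_const, Measure.restrict_apply_univ]
        _ ≤ _ := setLIntegral_mono' (hB0.inter (A.F.le b _ (hℓm k))) fun ω hω => hω.2.1.le
    have h5 : (2 * (z * (1 / 2) ^ k) : ℝ≥0∞) = 32 * z * g (k + 1) := by
      simp only [hg]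
      have h6 : (2 : ℝ≥0∞) = 32 * ((1 / 2) * (1 / 8)) := by
        rw [← ENNReal.toReal_eq_toReal_iff' (by finiteness) (by finiteness)]
        simp
        norm_num
      calc (2 * (z * (1 / 2) ^ k) : ℝ≥0∞) = (32 * ((1 / 2) * (1 / 8))) * (z * (1 / 2) ^ k) := by
            rw [← h6]
        _ = _ := by rw [pow_succ]; ring
    rw [h5, mul_assoc]
    gcongr
  calc P (B ∩ E) ≤ P ((B ∩ {ω | 1 / 8 < q ω}) ∩ E ∪ ⋃ k, ((B ∩ ℓ k) ∩ E)) :=
        measure_mono_ae hE'
    _ ≤ P ((B ∩ {ω | 1 / 8 < q ω}) ∩ E) + ∑' k, P ((B ∩ ℓ k) ∩ E) :=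
        (measure_union_le _ _).trans (by gcongr; exact measure_iUnion_le _)
    _ ≤ 8 * z * ∫⁻ ω in B, q ω ∂P + ∑' k, 32 * z * ∫⁻ ω in B ∩ ℓ k, q ω ∂P := by
        gcongr with k
        exact hL k
    _ = 8 * z * ∫⁻ ω in B, q ω ∂P + 32 * z * ∫⁻ ω in ⋃ k, B ∩ ℓ k, q ω ∂P := by
        rw [ENNReal.tsum_mul_left, lintegral_iUnion (fun k => hB0.inter (A.F.le b _ (hℓm k))) hℓd]
    _ ≤ 8 * z * ∫⁻ ω in B, q ω ∂P + 32 * z * ∫⁻ ω in B, q ω ∂P := by
        gcongr
        exact iUnion_subset fun k => inter_subset_left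
    _ = 40 * z * ∫⁻ ω in B, q ω ∂P := by
        rw [← add_mul, ← add_mul]; norm_num

/-- general energy of a pushed weight -/
theorem int_ker (A : KerSys S P) {a b : ℕ} (hab : a ≤ b) {w : Ω → S → ℝ≥0∞} (hw : A.Wt a w)
    (Kf : S → S → ℝ≥0∞)
    {φ : Ω → ℝ≥0∞} (hφ : Measurable[A.F a] φ) {ε : ℝ≥0∞}
    (hε : ∀ x ∈ A.L a, ∀ x' ∈ A.L a,
      ∑' z, ∑' z', (∫⁻ ω, A.G a b ω x z * A.G a b ω x' z' ∂P) * Kf z z' ≤ ε) :
    ∫⁻ ω, φ ω * ∑' z, ∑' z', A.push a b w ω z * A.push a b w ω z' * Kf z z' ∂P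
      ≤ ε * ∫⁻ ω, φ ω * tot w ω ^ 2 ∂P := by
  have hφ0 : Measurable φ := hφ.mono (A.F.le a) le_rfl
  have hw0 : ∀ x, Measurable fun ω => w ω x := fun x => (hw.meas x).mono (A.F.le a) le_rfl
  have hG0 : ∀ x z, Measurable fun ω => A.G a b ω x z :=
    fun x z => (A.measH a b x z hab).mono (A.H_le a) le_rfl
  have h1 : ∀ ω, φ ω * ∑' z, ∑' z', A.push a b w ω z * A.push a b w ω z' * Kf z z'
      = ∑' x, ∑' x', ∑' z, ∑' z', ((φ ω * w ω x * w ω x') * (A.G a b ω x z * A.G a b ω x' z'))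
        * Kf z z' := by
    intro ω
    have e1 : ∀ z z', A.push a b w ω z * A.push a b w ω z' * Kf z z'
        = ∑' x, ∑' x', (w ω x * w ω x') * (A.G a b ω x z * A.G a b ω x' z') * Kf z z' := by
      intro z z'
      unfold push
      rw [← ENNReal.tsum_mul_right, ← ENNReal.tsum_mul_right]
      refine tsum_congr fun x => ?_
      rw [← ENNReal.tsum_mul_left, ← ENNReal.tsum_mul_right]
      exact tsum_congr fun x' => by ring
    simp_rw [e1]
    have e2 : ∑' z, ∑' z', ∑' x, ∑' x', (w ω x * w ω x') * (A.G a b ω x z * A.G a b ω x' z')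
          * Kf z z'
        = ∑' x, ∑' x', ∑' z, ∑' z', (w ω x * w ω x') * (A.G a b ω x z * A.G a b ω x' z')
          * Kf z z' := by
      calc _ = ∑' z, ∑' x, ∑' z', ∑' x', (w ω x * w ω x') * (A.G a b ω x z * A.G a b ω x' z')
          * Kf z z' := tsum_congr fun z => ENNReal.tsum_comm
        _ = ∑' x, ∑' z, ∑' z', ∑' x', (w ω x * w ω x') * (A.G a b ω x z * A.G a b ω x' z')
          * Kf z z' := ENNReal.tsum_comm
        _ = ∑' x, ∑' z, ∑' x', ∑' z', (w ω x * w ω x') * (A.G a b ω x z * A.G a b ω x' z')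
          * Kf z z' := tsum_congr fun x => tsum_congr fun z => ENNReal.tsum_comm
        _ = _ := tsum_congr fun x => ENNReal.tsum_comm
    rw [e2, ← ENNReal.tsum_mul_left]
    refine tsum_congr fun x => ?_
    rw [← ENNReal.tsum_mul_left]
    refine tsum_congr fun x' => ?_
    rw [← ENNReal.tsum_mul_left]
    refine tsum_congr fun z => ?_
    rw [← ENNReal.tsum_mul_left]
    exact tsum_congr fun z' => by ring
  have h2 : ∀ ω, φ ω * tot w ω ^ 2 = ∑' x, ∑' x', (φ ω * w ω x * w ω x') := by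
    intro ω
    rw [tot, sq, ← ENNReal.tsum_mul_right, ← ENNReal.tsum_mul_left]
    refine tsum_congr fun x => ?_
    rw [← ENNReal.tsum_mul_left, ← ENNReal.tsum_mul_left]
    exact tsum_congr fun x' => by ring
  have hm2 : ∀ x x', Measurable fun ω => φ ω * w ω x * w ω x' :=
    fun x x' => (hφ0.mul (hw0 x)).mul (hw0 x')
  have hm4 : ∀ x x' z z', Measurable fun ω => ((φ ω * w ω x * w ω x') *
      (A.G a b ω x z * A.G a b ω x' z')) * Kf z z' :=
    fun x x' z z' => ((hm2 x x').mul ((hG0 x z).mul (hG0 x' z'))).mul_const _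
  simp_rw [h1, h2]
  rw [lintegral_tsum (fun x => (Measurable.tsum fun x' => Measurable.tsum fun z =>
      Measurable.tsum fun z' => hm4 x x' z z').aemeasurable),
    lintegral_tsum (fun x => (Measurable.tsum fun x' => hm2 x x').aemeasurable),
    ← ENNReal.tsum_mul_left]
  refine ENNReal.tsum_le_tsum fun x => ?_
  rw [lintegral_tsum (fun x' => (Measurable.tsum fun z =>
      Measurable.tsum fun z' => hm4 x x' z z').aemeasurable),
    lintegral_tsum (fun x' => (hm2 x x').aemeasurable), ← ENNReal.tsum_mul_left]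
  refine ENNReal.tsum_le_tsum fun x' => ?_
  by_cases hx : x ∈ A.L a
  · by_cases hx' : x' ∈ A.L a
    · rw [lintegral_tsum (fun z => (Measurable.tsum fun z' => hm4 x x' z z').aemeasurable)]
      have h5 : ∀ z, ∫⁻ ω, ∑' z', ((φ ω * w ω x * w ω x') *
          (A.G a b ω x z * A.G a b ω x' z')) * Kf z z' ∂P
          = ∑' z', (∫⁻ ω, φ ω * w ω x * w ω x' ∂P) *
            ((∫⁻ ω, A.G a b ω x z * A.G a b ω x' z' ∂P) * Kf z z') := by
        intro z
        rw [lintegral_tsum (fun z' => (hm4 x x' z z').aemeasurable)]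
        refine tsum_congr fun z' => ?_
        have hk1 : Measurable fun ω => (φ ω * w ω x * w ω x') *
            (A.G a b ω x z * A.G a b ω x' z') := (hm2 x x').mul ((hG0 x z).mul (hG0 x' z'))
        have hk2 : Measurable[A.F a] fun ω => φ ω * w ω x * w ω x' :=
          (hφ.mul (hw.meas x)).mul (hw.meas x')
        have hk3 : Measurable[A.H a] fun ω => A.G a b ω x z * A.G a b ω x' z' :=
          (A.measH a b x z hab).mul (A.measH a b x' z' hab)
        rw [lintegral_mul_const _ hk1, A.indep_mul hk2 hk3, mul_assoc]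
      simp_rw [h5, ENNReal.tsum_mul_left]
      rw [mul_comm]
      gcongr
      exact hε x hx x' hx'
    · simp [hw.supp _ x' hx']
  · simp [hw.supp _ x hx]

end rand
end Crest.Agent.R154.Hc867
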