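import Crest.Agent.R154.HcU_867
import Crest.Agent.R154.FreeD_950

/-! Row 154, TILE_RUN, leaf T6b (hc) (878 #34691, 950, 284, 993), abstract: on any `KerSys`, the
expected number of ALIVE block positions `b` followed by a steep block of `n` units.
Inputs: (T3) the K-set bound for attempts from one site per cell, (hb) the conditional bound `z²`,
(T4) the collision bound from every pair of starts (sup OUTSIDE the sum over levels). -/

set_option autoImplicit false
set_option linter.unusedSectionVars false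
set_option linter.deprecated false
set_option linter.unusedVariables false

namespace Crest.Agent.R154.Hc867

open MeasureTheory ProbabilityTheory Set Filter Finset
open Crest.Agent.R154.RatioR872 Crest.Agent.R154.RatioR872.KerSys Crest.Agent.R154.RatioS775
open Crest.Agent.R154.FreeD950
open scoped ENNReal Topology

variable {S : Type*} [Countable S] {Ω : Type*} {m0 : MeasurableSpace Ω} {P : Measure Ω} {C : Type*}

open Classical in
/-- collision mass of two natural climbs (same environment) from the sites `x`, `x'` of level `L`,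
exits in the same cell of level `b` -/
noncomputable def cm (A : KerSys S P) (cell : S → C) (L b : ℕ) (x x' : S) : ℝ≥0∞ :=
  ∑' z, ∑' z', (∫⁻ ω, A.G L b ω x z * A.G L b ω x' z' ∂P) *
    (if cell z = cell z' then 1 else 0)

theorem int_ker' (A : KerSys S P) {a b : ℕ} (hab : a ≤ b) {w : Ω → S → ℝ≥0∞} (hw : A.Wt a w)
    (Kf : S → S → ℝ≥0∞)
    {φ : Ω → ℝ≥0∞} (hφ : Measurable[A.F a] φ) :
    ∫⁻ ω, φ ω * ∑' z, ∑' z', A.push a b w ω z * A.push a b w ω z' * Kf z z' ∂P
      = ∑' x, ∑' x', (∫⁻ ω, φ ω * w ω x * w ω x' ∂P) *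
        ∑' z, ∑' z', (∫⁻ ω, A.G a b ω x z * A.G a b ω x' z' ∂P) * Kf z z' := by
  have hφ0 : Measurable φ := hφ.mono (A.F.le a) le_rfl
  have hw0 : ∀ x, Measurable fun ω => w ω x := fun x => (hw.meas x).mono (A.F.le a) le_rfl
  have hG0 : ∀ x z, Measurable fun ω => A.G a b ω x z :=
    fun x z => (A.measH a b x z hab).mono (A.H_le a) le_rfl
  have h1 : ∀ ω, φ ω * ∑' z, ∑' z', A.push a b w ω z * A.push a b w ω z' * Kf z z'
      = ∑' x, ∑' x', ∑' z, ∑' z', ((φ ω * w ω x * w ω x') * (A.G a b ω x z * A.G a b ω x' z'))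
        * Kf z z' := by
    intro ω
    have e1 : ∀ z z', A.push a b w ω z * A.push a b w ω z' * Kf z z'
        = ∑' x, ∑' x', (w ω x * w ω x') * (A.G a b ω x z * A.G a b ω x' z') * Kf z z' := by
      intro z z'
      unfold push
      rw [← ENNReal.tsum_mul_right, ← ENNReal.tsum_mul_right]
      refine tsum_congr fun x => ?_
      rw [← ENNReal.tsum_mul_left, ← ENNReal.tsum_mul_right]
      exact tsum_congr fun x' => by ring
    simp_rw [e1]
    have e2 : ∑' z, ∑' z', ∑' x, ∑' x', (w ω x * w ω x') * (A.G a b ω x z * A.G a b ω x' z')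
          * Kf z z'
        = ∑' x, ∑' x', ∑' z, ∑' z', (w ω x * w ω x') * (A.G a b ω x z * A.G a b ω x' z')
          * Kf z z' := by
      calc _ = ∑' z, ∑' x, ∑' z', ∑' x', (w ω x * w ω x') * (A.G a b ω x z * A.G a b ω x' z')
          * Kf z z' := tsum_congr fun z => ENNReal.tsum_comm
        _ = ∑' x, ∑' z, ∑' z', ∑' x', (w ω x * w ω x') * (A.G a b ω x z * A.G a b ω x' z')
          * Kf z z' := ENNReal.tsum_comm
        _ = ∑' x, ∑' z, ∑' x', ∑' z', (w ω x * w ω x') * (A.G a b ω x z * A.G a b ω x' z')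
          * Kf z z' := tsum_congr fun x => tsum_congr fun z => ENNReal.tsum_comm
        _ = _ := tsum_congr fun x => ENNReal.tsum_comm
    rw [e2, ← ENNReal.tsum_mul_left]
    refine tsum_congr fun x => ?_
    rw [← ENNReal.tsum_mul_left]
    refine tsum_congr fun x' => ?_
    rw [← ENNReal.tsum_mul_left]
    refine tsum_congr fun z => ?_
    rw [← ENNReal.tsum_mul_left]
    exact tsum_congr fun z' => by ring
  have hm2 : ∀ x x', Measurable fun ω => φ ω * w ω x * w ω x' :=
    fun x x' => (hφ0.mul (hw0 x)).mul (hw0 x')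
  have hm4 : ∀ x x' z z', Measurable fun ω => ((φ ω * w ω x * w ω x') *
      (A.G a b ω x z * A.G a b ω x' z')) * Kf z z' :=
    fun x x' z z' => ((hm2 x x').mul ((hG0 x z).mul (hG0 x' z'))).mul_const _
  simp_rw [h1]
  rw [lintegral_tsum (fun x => (Measurable.tsum fun x' => Measurable.tsum fun z =>
      Measurable.tsum fun z' => hm4 x x' z z').aemeasurable)]
  refine tsum_congr fun x => ?_
  rw [lintegral_tsum (fun x' => (Measurable.tsum fun z =>
      Measurable.tsum fun z' => hm4 x x' z z').aemeasurable)]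
  refine tsum_congr fun x' => ?_
  rw [lintegral_tsum (fun z => (Measurable.tsum fun z' => hm4 x x' z z').aemeasurable),
    ← ENNReal.tsum_mul_left]
  refine tsum_congr fun z => ?_
  rw [lintegral_tsum (fun z' => (hm4 x x' z z').aemeasurable), ← ENNReal.tsum_mul_left]
  refine tsum_congr fun z' => ?_
  have hk1 : Measurable fun ω => (φ ω * w ω x * w ω x') *
      (A.G a b ω x z * A.G a b ω x' z') := (hm2 x x').mul ((hG0 x z).mul (hG0 x' z'))
  have hk2 : Measurable[A.F a] fun ω => φ ω * w ω x * w ω x' :=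
    (hφ.mul (hw.meas x)).mul (hw.meas x')
  have hk3 : Measurable[A.H a] fun ω => A.G a b ω x z * A.G a b ω x' z' :=
    (A.measH a b x z hab).mul (A.measH a b x' z' hab)
  rw [lintegral_mul_const _ hk1, A.indep_mul hk2 hk3, mul_assoc]

/-- collision means of a pushed law, summed over the target levels -/
theorem int_col (A : KerSys S P) {a : ℕ} {w : Ω → S → ℝ≥0∞} (hw : A.Wt a w)
    (hw1 : ∀ ω, tot w ω ≤ 1) (cell : ℕ → S → C) (lv : ℕ → ℕ) (I : Finset ℕ)
    (hI : ∀ b ∈ I, a ≤ lv b) {Cc : ℝ≥0∞}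
    (hcoll : ∀ x ∈ A.L a, ∀ x' ∈ A.L a, ∑ b ∈ I, cm A (cell b) a (lv b) x x' ≤ Cc)
    {φ : Ω → ℝ≥0∞} (hφ : Measurable[A.F a] φ) :
    ∑ b ∈ I, ∫⁻ ω, φ ω * col (cell b) (A.push a (lv b) w ω) ∂P ≤ Cc * ∫⁻ ω, φ ω ∂P := by
  classical
  have hφ0 : Measurable φ := hφ.mono (A.F.le a) le_rfl
  have hw0 : ∀ x, Measurable fun ω => w ω x := fun x => (hw.meas x).mono (A.F.le a) le_rfl
  have hm2 : ∀ x x', Measurable fun ω => φ ω * w ω x * w ω x' :=
    fun x x' => (hφ0.mul (hw0 x)).mul (hw0 x')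
  have h1 : ∀ b ∈ I, ∫⁻ ω, φ ω * col (cell b) (A.push a (lv b) w ω) ∂P
      = ∑' x, ∑' x', (∫⁻ ω, φ ω * w ω x * w ω x' ∂P) * cm A (cell b) a (lv b) x x' := by
    intro b hb
    have h2 := int_ker' A (hI b hb) hw (fun z z' => if cell b z = cell b z' then 1 else 0) hφ
    have e : ∀ ω, col (cell b) (A.push a (lv b) w ω)
        = ∑' z, ∑' z', A.push a (lv b) w ω z * A.push a (lv b) w ω z' *
          (if cell b z = cell b z' then 1 else 0) := by
      intro ω
      unfold col rx
      refine tsum_congr fun z => ?_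
      rw [← ENNReal.tsum_mul_left]
      refine tsum_congr fun z' => ?_
      split_ifs <;> simp
    simp_rw [e]
    rw [h2]
    rfl
  rw [Finset.sum_congr rfl h1, ← Summable.tsum_finsetSum (fun _ _ => ENNReal.summable)]
  calc ∑' x, ∑ b ∈ I, ∑' x', (∫⁻ ω, φ ω * w ω x * w ω x' ∂P) * cm A (cell b) a (lv b) x x'
      = ∑' x, ∑' x', (∫⁻ ω, φ ω * w ω x * w ω x' ∂P) *
          ∑ b ∈ I, cm A (cell b) a (lv b) x x' := by
        refine tsum_congr fun x => ?_
        rw [← Summable.tsum_finsetSum (fun _ _ => ENNReal.summable)]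
        exact tsum_congr fun x' => (Finset.mul_sum _ _ _).symm
    _ ≤ ∑' x, ∑' x', (∫⁻ ω, φ ω * w ω x * w ω x' ∂P) * Cc := by
        refine ENNReal.tsum_le_tsum fun x => ENNReal.tsum_le_tsum fun x' => ?_
        by_cases hx : x ∈ A.L a
        · by_cases hx' : x' ∈ A.L a
          · gcongr
            exact hcoll x hx x' hx'
          · simp [hw.supp _ x' hx']
        · simp [hw.supp _ x hx]
    _ = Cc * ∫⁻ ω, ∑' x, ∑' x', φ ω * w ω x * w ω x' ∂P := by
        rw [lintegral_tsum (fun x => (Measurable.tsum fun x' => hm2 x x').aemeasurable),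
          ← ENNReal.tsum_mul_left]
        refine tsum_congr fun x => ?_
        rw [lintegral_tsum (fun x' => (hm2 x x').aemeasurable), ← ENNReal.tsum_mul_left]
        exact tsum_congr fun x' => mul_comm _ _
    _ ≤ Cc * ∫⁻ ω, φ ω ∂P := by
        gcongr with ω
        have e3 : ∑' x, ∑' x', φ ω * w ω x * w ω x' = φ ω * (tot w ω * tot w ω) := by
          unfold tot
          rw [← ENNReal.tsum_mul_right, ← ENNReal.tsum_mul_left]
          refine tsum_congr fun x => ?_
          rw [ENNReal.tsum_mul_left, mul_assoc]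
        rw [e3]
        calc φ ω * (tot w ω * tot w ω) ≤ φ ω * (1 * 1) := by
              gcongr
              · exact hw1 ω
              · exact hw1 ω
          _ = φ ω := by ring

/-- steep after an alive law: dead weight `≥ 3/4` -/
theorem dead_of_steep {ι : Type*} {lam N : ι → ℝ≥0∞} {p γ e t : ℝ≥0∞} (hp0 : p ≠ 0) (hγ0 : γ ≠ 0)
    (hγt : γ ≠ ∞) (he : e ≤ γ * (p / 16)) (ht : t = ∑' x, lam x) (htp : p / 4 ≤ t) (htt : t ≠ ∞)
    (hle : ∑' x, lam x * N x ≤ e) :
    3 / 4 ≤ ∑' x, lam x / t * ({x | N x < γ} : Set ι).indicator 1 x := by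
  classical
  set D : ℝ≥0∞ := ∑' x, lam x * ({x | N x < γ} : Set ι).indicator 1 x with hD
  set R : ℝ≥0∞ := ∑' x, lam x * ({x | N x < γ}ᶜ : Set ι).indicator 1 x with hR
  have h1 : t = D + R := by
    rw [ht, hD, hR, ← ENNReal.tsum_add]
    refine tsum_congr fun x => ?_
    by_cases hx : x ∈ ({x | N x < γ} : Set ι)
    · rw [indicator_of_mem hx, indicator_of_notMem
        (show x ∉ ({x | N x < γ}ᶜ : Set ι) from fun h => h hx)]; simp
    · rw [indicator_of_notMem hx, indicator_of_mem (show x ∈ ({x | N x < γ}ᶜ : Set ι) from hx)]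
      simp
  have h2 : γ * R ≤ γ * (p / 16) := by
    refine le_trans ?_ (hle.trans he)
    rw [hR, ← ENNReal.tsum_mul_left]
    refine ENNReal.tsum_le_tsum fun x => ?_
    by_cases hx : x ∈ ({x | N x < γ} : Set ι)
    · rw [indicator_of_notMem (show x ∉ ({x | N x < γ}ᶜ : Set ι) from fun h => h hx)]; simp
    · rw [indicator_of_mem (show x ∈ ({x | N x < γ}ᶜ : Set ι) from hx), Pi.one_apply, mul_one,
        mul_comm]
      gcongr
      exact not_lt.1 hx
  have h3 : R ≤ p / 16 := (ENNReal.mul_le_mul_iff_right hγ0 hγt).1 h2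
  have h16 : p / 16 = p / 4 / 4 := by
    rw [div_eq_mul_inv, div_eq_mul_inv, div_eq_mul_inv, mul_assoc,
      ← ENNReal.mul_inv (Or.inl (by norm_num)) (Or.inl (by norm_num))]
    norm_num
  have h4 : R ≤ t / 4 := h3.trans (by rw [h16]; gcongr)
  have h5 : t = 3 / 4 * t + t / 4 := by
    have : (3 / 4 : ℝ≥0∞) + 1 / 4 = 1 := by
      rw [← ENNReal.toReal_eq_toReal_iff' (by finiteness) (by finiteness),
        ENNReal.toReal_add (by finiteness) (by finiteness)]
      simp
      norm_num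
    calc t = (3 / 4 + 1 / 4) * t := by rw [this, one_mul]
      _ = 3 / 4 * t + 1 / 4 * t := add_mul _ _ _
      _ = _ := by rw [ENNReal.div_eq_inv_mul (a := t) (b := 4), one_div]
  have h6 : 3 / 4 * t + t / 4 ≤ D + t / 4 := by
    rw [← h5]
    calc t = D + R := h1
      _ ≤ _ := by gcongr
  have h7 : 3 / 4 * t ≤ D :=
    (ENNReal.add_le_add_iff_right (ENNReal.div_ne_top htt (by norm_num))).1 h6
  have ht0 : t ≠ 0 := by
    intro h0
    rw [h0] at htp
    have : p / 4 = 0 := le_antisymm htp zero_le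
    rw [ENNReal.div_eq_zero_iff] at this
    rcases this with h | h
    · exact hp0 h
    · exact absurd h (by norm_num)
  have h8 : ∑' x, lam x / t * ({x | N x < γ} : Set ι).indicator 1 x = D / t := by
    rw [hD, ENNReal.div_eq_inv_mul, ← ENNReal.tsum_mul_left]
    refine tsum_congr fun x => ?_
    rw [ENNReal.div_eq_inv_mul]
    ring
  rw [h8, ENNReal.le_div_iff_mul_le (Or.inl ht0) (Or.inl htt)]
  exact h7

/-- **(hc)**, one start `a` of a stage, one block length `n`. -/
theorem hc [IsProbabilityMeasure P] (A : KerSys S P) {p : ℝ≥0∞} (hp0 : p ≠ 0) (hpt : p ≠ ∞)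
    {H0 N1 T s n J a : ℕ} (hTs : T * s ≤ N1) (ha : 1 ≤ a) {μ : S → ℝ≥0∞} (hμ : A.Start μ)
    (cell : ℕ → S → C) {γ e z Cc : ℝ≥0∞} (hγ0 : γ ≠ 0) (hγt : γ ≠ ∞) (he : e ≤ γ * (p / 16))
    (hK : ∀ b, a ≤ b → b + 2 * n ≤ 2 * J → ∀ K : Finset S, (∀ x ∈ K, x ∈ A.L (H0 + b * N1)) →
      Set.InjOn (cell b) (K : Set S) →
      P {ω | ∀ x ∈ K, A.N (H0 + b * N1) (H0 + (b + 2 * n) * N1) ω x < γ} ≤ (3 / 16) ^ K.card)
    (hb : ∀ b, a ≤ b → b + 2 * n ≤ 2 * J → ∀ B, MeasurableSet[A.F (H0 + b * N1)] B →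
      P (B ∩ {ω | A.Sh μ (H0 + (b + n) * N1) ω ≠ 0 ∧
        A.Sh μ (H0 + (b + 2 * n) * N1) ω ≤ e * A.Sh μ (H0 + (b + n) * N1) ω}) ≤ z ^ 2 * P B)
    (hcoll : ∀ l, l < T → ∀ x ∈ A.L (H0 + (a - 1) * N1 + l * s),
      ∀ x' ∈ A.L (H0 + (a - 1) * N1 + l * s),
      ∑ b ∈ (Finset.Icc a (2 * J)).filter (fun b => b + 2 * n ≤ 2 * J),
        cm A (cell b) (H0 + (a - 1) * N1 + l * s) (H0 + b * N1) x x' ≤ Cc)
    {B : Set Ω} (hB : MeasurableSet[A.F (H0 + (a - 1) * N1)] B) :
    ∑ b ∈ (Finset.Icc a (2 * J)).filter (fun b => b + 2 * n ≤ 2 * J),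
      P (B ∩ (Alive A μ p T s (H0 + (a - 1) * N1) (H0 + b * N1) ∩
        {ω | A.Sh μ (H0 + (b + n) * N1) ω ≠ 0 ∧
          A.Sh μ (H0 + (b + 2 * n) * N1) ω ≤ e * A.Sh μ (H0 + (b + n) * N1) ω}))
      ≤ 640 / p ^ 2 * T * Cc * z * P B := by
  classical
  set I : Finset ℕ := (Finset.Icc a (2 * J)).filter (fun b => b + 2 * n ≤ 2 * J) with hI
  set lv : ℕ → ℕ := fun b => H0 + b * N1 with hlv
  have hlvm : Monotone lv := fun i j hij => by
    simp only [hlv]
    exact Nat.add_le_add_left (Nat.mul_le_mul_right _ hij) _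
  set a0 : ℕ := H0 + (a - 1) * N1 with ha0
  set L : ℕ → ℕ := fun l => a0 + l * s with hL
  have hLa : ∀ l, l < T → L l ≤ lv a := by
    intro l hl
    simp only [hL, hlv, ha0]
    have h1 : l * s ≤ T * s := Nat.mul_le_mul_right _ hl.le
    obtain ⟨a', rfl⟩ := Nat.exists_eq_add_of_le' ha
    simp only [Nat.add_sub_cancel]
    have : (a' + 1) * N1 = a' * N1 + N1 := by ring
    omega
  have hBL : ∀ l, MeasurableSet[A.F (L l)] B := fun l => A.F.mono (by simp [hL]) _ hB
  have hB0 : MeasurableSet B := A.F.le _ _ hB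
  set St : ℕ → Set Ω := fun b => {ω | A.Sh μ (lv (b + n)) ω ≠ 0 ∧
          A.Sh μ (lv (b + 2 * n)) ω ≤ e * A.Sh μ (lv (b + n)) ω} with hSt
  set lam : ℕ → ℕ → Ω → S → ℝ≥0∞ := fun l b => A.push (L l) (lv b) (A.exitW μ (L l)) with hlam
  have hlamW : ∀ l, l < T → ∀ b, a ≤ b → A.Wt (lv b) (lam l b) := fun l hl b hb =>
    (wt_exitW hμ (L l)).push ((hLa l hl).trans (hlvm hb))
  -- one position, one sub-level
  have hone : ∀ b ∈ I, ∀ l, l < T → P (B ∩ ({ω | p / 4 ≤ tot (lam l b) ω} ∩ St b))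
      ≤ 40 * z * (16 / p ^ 2) * ∫⁻ ω, B.indicator 1 ω * col (cell b) (lam l b ω) ∂P := by
    intro b hbI l hl
    rw [hI, Finset.mem_filter, Finset.mem_Icc] at hbI
    have hab : a ≤ b := hbI.1.1
    have hW := hlamW l hl b hab
    have hbn : lv b ≤ lv (b + 2 * n) := hlvm (by omega)
    have hLb : L l ≤ lv b := (hLa l hl).trans (hlvm hab)
    set m : Ω → S → ℝ≥0∞ := fun ω x => lam l b ω x / tot (lam l b) ω with hm
    have hmW : A.Wt (lv b) m := by
      refine ⟨fun x => (hW.meas x).div hW.meas_tot, fun ω x hx => ?_⟩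
      simp only [hm]
      rw [hW.supp ω x hx, ENNReal.zero_div]
    have hm1 : ∀ ω, tot m ω ≤ 1 := by
      intro ω
      have : tot m ω = tot (lam l b) ω / tot (lam l b) ω := by
        simp only [hm, tot]
        simp_rw [ENNReal.div_eq_inv_mul]
        rw [ENNReal.tsum_mul_left]
      rw [this]
      exact ENNReal.div_self_le_one
    set Z : S → Set Ω := fun x => {ω | A.N (lv b) (lv (b + 2 * n)) ω x < γ} with hZ
    have hZm : ∀ x, MeasurableSet[A.H (lv b)] (Z x) := fun x =>
      @measurableSet_lt _ _ _ _ _ (A.H (lv b)) _ _ _ _ _ (A.meas_N_H hbn x)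
        (@measurable_const _ _ _ (A.H (lv b)) _)
    set E : Set Ω := {ω | p / 4 ≤ tot (lam l b) ω} ∩ St b with hE
    have hKs : ∀ K : Finset S, (∀ x ∈ K, x ∈ A.L (lv b)) → Set.InjOn (cell b) (K : Set S) →
        P (⋂ x ∈ K, Z x) ≤ (3 / 16) ^ K.card := by
      intro K h1 h2
      refine le_trans (le_of_eq ?_) (hK b hab hbI.2 K h1 h2)
      congr 1
      ext ω
      simp only [hZ, mem_iInter, mem_setOf_eq]
      exact Iff.rfl
    have hdead : ∀ᵐ ω ∂P, ω ∈ E → 3 / 4 ≤ ∑' x, m ω x * (Z x).indicator 1 ω := by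
      filter_upwards [Sh_ge hμ hLb hbn] with ω hω
      rintro ⟨h1, h2, h3⟩
      have hσ0 : A.Sh μ (L l) ω ≠ 0 := by
        intro h0
        have : A.Sh μ (lv (b + n)) ω ≤ A.Sh μ (L l) ω :=
          Sh_anti (hLb.trans (hlvm (by omega))) ω
        rw [h0] at this
        exact h2 (le_antisymm this zero_le)
      have hσt : A.Sh μ (L l) ω ≠ ∞ := ne_top_of_le_ne_top ENNReal.one_ne_top (Sh_le_one hμ _ ω)
      have h4 : A.Sh μ (L l) ω * tot (A.push (lv b) (lv (b + 2 * n)) (lam l b)) ω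
          ≤ A.Sh μ (L l) ω * e := by
        calc _ ≤ A.Sh μ (lv (b + 2 * n)) ω := hω
          _ ≤ e * A.Sh μ (lv (b + n)) ω := h3
          _ ≤ e * A.Sh μ (L l) ω := by
              gcongr
              exact Sh_anti (hLb.trans (hlvm (by omega))) ω
          _ = _ := mul_comm _ _
      have h5 := (ENNReal.mul_le_mul_iff_right hσ0 hσt).1 h4
      rw [tot_push] at h5
      have htt : tot (lam l b) ω ≠ ∞ := by
        refine ne_top_of_le_ne_top ENNReal.one_ne_top ?_
        exact (A.tot_push_le hLb _ ω).trans (tot_exitW_le μ _ ω)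
      have h6 := dead_of_steep (lam := lam l b ω) (N := A.N (lv b) (lv (b + 2 * n)) ω)
        (t := tot (lam l b) ω) hp0 hγ0 hγt he rfl h1 htt h5
      refine h6.trans (le_of_eq ?_)
      refine tsum_congr fun x => ?_
      rfl
    have hzE : ∀ B', MeasurableSet[A.F (lv b)] B' → P (B' ∩ E) ≤ z ^ 2 * P B' := by
      intro B' hB'
      exact (measure_mono (Set.inter_subset_inter_right _ Set.inter_subset_right)).trans
        (hb b hab hbI.2 B' hB')
    have hGm : MeasurableSet[A.F (lv b)] {ω | p / 4 ≤ tot (lam l b) ω} :=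
      @measurableSet_le _ _ _ _ _ (A.F (lv b)) _ _ _ _ _
        (@measurable_const _ _ _ (A.F (lv b)) _) hW.meas_tot
    have hBb : MeasurableSet[A.F (lv b)] (B ∩ {ω | p / 4 ≤ tot (lam l b) ω}) :=
      (A.F.mono (by
        have h1 : a0 ≤ L l := by simp [hL]
        exact h1.trans hLb) _ hB).inter hGm
    have h1 := pop A (cell b) hmW hm1 hZm hKs hdead hzE hBb
    have h2 : (B ∩ {ω | p / 4 ≤ tot (lam l b) ω}) ∩ E = B ∩ E := by
      ext ω
      simp only [hE, mem_inter_iff]
      tauto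
    rw [h2] at h1
    refine h1.trans ?_
    have h3 : ∫⁻ ω in B ∩ {ω | p / 4 ≤ tot (lam l b) ω}, col (cell b) (m ω) ∂P
        ≤ 16 / p ^ 2 * ∫⁻ ω, B.indicator 1 ω * col (cell b) (lam l b ω) ∂P := by
      have hcm : Measurable fun ω => B.indicator (1 : Ω → ℝ≥0∞) ω * col (cell b) (lam l b ω) :=
        (measurable_one.indicator hB0).mul
          ((meas_col (cell b) hW.meas).mono (A.F.le _) le_rfl)
      rw [← lintegral_const_mul _ hcm, ← lintegral_indicator (A.F.le _ _ hBb)]
      refine lintegral_mono fun ω => ?_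
      by_cases hω : ω ∈ B ∩ {ω | p / 4 ≤ tot (lam l b) ω}
      · rw [indicator_of_mem hω, indicator_of_mem hω.1]
        simp only [Pi.one_apply, one_mul]
        have h4 : ∀ x, m ω x ≤ 4 / p * lam l b ω x := by
          intro x
          simp only [hm]
          rw [ENNReal.div_eq_inv_mul]
          gcongr
          have h5 : p / 4 ≤ tot (lam l b) ω := hω.2
          calc (tot (lam l b) ω)⁻¹ ≤ (p / 4)⁻¹ := ENNReal.inv_le_inv.2 h5
            _ = 4 / p := ENNReal.inv_div (Or.inl (by norm_num)) (Or.inl (by norm_num))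
        have h6 : col (cell b) (fun x => 4 / p * lam l b ω x)
            = (4 / p) * (4 / p) * col (cell b) (lam l b ω) := by
          unfold col rx
          rw [← ENNReal.tsum_mul_left]
          refine tsum_congr fun x => ?_
          have : ∑' y, (if cell b x = cell b y then 4 / p * lam l b ω y else 0)
              = 4 / p * ∑' y, (if cell b x = cell b y then lam l b ω y else 0) := by
            rw [← ENNReal.tsum_mul_left]
            refine tsum_congr fun y => ?_
            split_ifs <;> simp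
          rw [this]
          ring
        refine (col_mono (cell b) h4).trans ?_
        rw [h6]
        gcongr
        rw [ENNReal.div_eq_inv_mul, ENNReal.div_eq_inv_mul, sq,
          ENNReal.mul_inv (Or.inl hp0) (Or.inl hpt)]
        refine le_of_eq ?_
        ring
      · rw [indicator_of_notMem hω]; exact zero_le
    calc 40 * z * ∫⁻ ω in B ∩ {ω | p / 4 ≤ tot (lam l b) ω}, col (cell b) (m ω) ∂P
        ≤ 40 * z * (16 / p ^ 2 * ∫⁻ ω, B.indicator 1 ω * col (cell b) (lam l b ω) ∂P) := by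
          gcongr
      _ = _ := by ring
  -- union over the sub-levels
  have hun : ∀ b ∈ I, P (B ∩ (Alive A μ p T s a0 (lv b) ∩ St b)) ≤
      ∑ l ∈ Finset.range T, 40 * z * (16 / p ^ 2) *
        ∫⁻ ω, B.indicator 1 ω * col (cell b) (lam l b ω) ∂P := by
    intro b hbI
    have hsub : B ∩ (Alive A μ p T s a0 (lv b) ∩ St b) ⊆
        ⋃ l ∈ Finset.range T, B ∩ ({ω | p / 4 ≤ tot (lam l b) ω} ∩ St b) := by
      rintro ω ⟨h1, ⟨l, hl, h2⟩, h3⟩
      simp only [mem_iUnion, Finset.mem_range]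
      exact ⟨l, hl, h1, h2, h3⟩
    refine (measure_mono hsub).trans ((measure_biUnion_finset_le _ _).trans ?_)
    exact Finset.sum_le_sum fun l hl => hone b hbI l (Finset.mem_range.1 hl)
  have hint : ∫⁻ ω, B.indicator (1 : Ω → ℝ≥0∞) ω ∂P = P B := lintegral_indicator_one hB0
  calc ∑ b ∈ I, P (B ∩ (Alive A μ p T s a0 (lv b) ∩ St b))
      ≤ ∑ b ∈ I, ∑ l ∈ Finset.range T, 40 * z * (16 / p ^ 2) *
        ∫⁻ ω, B.indicator 1 ω * col (cell b) (lam l b ω) ∂P := Finset.sum_le_sum hun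
    _ = ∑ l ∈ Finset.range T, 40 * z * (16 / p ^ 2) *
        ∑ b ∈ I, ∫⁻ ω, B.indicator 1 ω * col (cell b) (lam l b ω) ∂P := by
        rw [Finset.sum_comm]
        exact Finset.sum_congr rfl fun l _ => (Finset.mul_sum _ _ _).symm
    _ ≤ ∑ l ∈ Finset.range T, 40 * z * (16 / p ^ 2) * (Cc * P B) := by
        refine Finset.sum_le_sum fun l hl => ?_
        have hl' := Finset.mem_range.1 hl
        gcongr
        rw [← hint]
        refine int_col A (wt_exitW hμ (L l)) (fun ω => tot_exitW_le μ _ ω) cell lv I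
          (fun b hb => ?_) (hcoll l hl') ((@measurable_one _ _ _ (A.F (L l)) _).indicator (hBL l))
        rw [hI, Finset.mem_filter, Finset.mem_Icc] at hb
        exact (hLa l hl').trans (hlvm hb.1.1)
    _ = 640 / p ^ 2 * T * Cc * z * P B := by
        rw [Finset.sum_const, Finset.card_range, nsmul_eq_mul]
        have : (640 / p ^ 2 : ℝ≥0∞) = 40 * (16 / p ^ 2) := by
          rw [← mul_div_assoc]; norm_num
        rw [this]
        ring

end Crest.Agent.R154.Hc867
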