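import Crest.Agent.R154.FP_178
import Crest.Agent.R154.Dens_903

/-! Row 154, ROAD 801 (helper12): hitting lemma for first passage lists (the smoothness failure is
paid once). -/

set_option autoImplicit false

namespace Crest.Agent.R154.Hit12

open scoped ENNReal
open Crest.Agent.R154.B5A (LW HT LW_append HT_append)
open Crest.Agent.R154.FP178

lemma tsum_fiber {α κ : Type*} (f : α → ℝ≥0∞) (k : α → κ) (Φ : κ → ℝ≥0∞) :
    ∑' a, f a * Φ (k a) = ∑' c, (∑' a, (open Classical in if k a = c then f a else 0)) * Φ c := by
  classical
  have e : ∀ c, (∑' a, (if k a = c then f a else 0)) * Φ c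
      = ∑' a, (if k a = c then f a * Φ c else 0) := by
    intro c
    rw [← ENNReal.tsum_mul_right]
    refine tsum_congr fun a => ?_
    split_ifs <;> simp
  simp only [e]
  rw [ENNReal.tsum_comm]
  refine tsum_congr fun a => ?_
  rw [tsum_eq_single (k a)]
  · simp
  · intro c hc; rw [if_neg (Ne.symm hc)]

variable {B G : Type*} [AddCommGroup G]

/-- total displacement -/
def Dp (z : B → G) (L : List B) : G := (L.map z).sum

lemma Dp_append (z : B → G) (L L' : List B) : Dp z (L ++ L') = Dp z L + Dp z L' := by
  simp [Dp]

open Classical in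
lemma le_ind (P : Prop) : (if P then (1 : ℝ≥0∞) else 0) ≤ 1 := by split_ifs <;> simp

open Classical in
lemma card_shift (S : Set G) (y : G) :
    ∑' x, (if y + x ∈ S then (1 : ℝ≥0∞) else 0) = ∑' x, (if x ∈ S then (1 : ℝ≥0∞) else 0) :=
  (Equiv.addLeft y).tsum_eq (fun x => if x ∈ S then (1 : ℝ≥0∞) else 0)

open Classical in
lemma card_shift' (S : Set G) (y : G) :
    ∑' x, (if x + y ∈ S then (1 : ℝ≥0∞) else 0) = ∑' x, (if x ∈ S then (1 : ℝ≥0∞) else 0) :=
  (Equiv.addRight y).tsum_eq (fun x => if x ∈ S then (1 : ℝ≥0∞) else 0)

open Classical in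
lemma sum_levels (T i0 : ℕ) (c : ℝ≥0∞) :
    ∑' h : ℕ, (if T ≤ h ∧ h ≤ T + i0 then c else 0) ≤ (i0 + 1 : ℕ) * c := by
  rw [tsum_eq_sum (s := Finset.Icc T (T + i0))]
  · rw [Finset.sum_congr rfl (g := fun _ => c)]
    · rw [Finset.sum_const, Nat.card_Icc, nsmul_eq_mul]
      have : T + i0 + 1 - T = i0 + 1 := by omega
      rw [this]
    · intro h hh
      rw [Finset.mem_Icc] at hh
      rw [if_pos hh]
  · intro h hh
    rw [if_neg]
    rwa [Finset.mem_Icc] at hh

open Classical in
theorem hit (Λ : B → ℝ≥0∞) (ht : B → ℕ) (z : B → G) (h1 : ∀ b, 1 ≤ ht b) (hΛ : ∑' b, Λ b ≤ 1)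
    (T i0 : ℕ) (th q e N0 : ℝ≥0∞) (hq1 : q ≤ 1) (pl : ℕ × G → ℝ≥0∞)
    (hpl : ∀ k, pl k = ∑' A, if fp ht T A ∧ (HT ht A, Dp z A) = k then LW Λ A else 0)
    (hq : ∑' A, (if fp ht T A ∧ th < pl (HT ht A, Dp z A) then LW Λ A else 0) ≤ q)
    (he : ∑' A, (if fp ht T A ∧ T + i0 < HT ht A then LW Λ A else 0) ≤ e)
    (J a : ℕ) (ha : J * (T + i0) ≤ a) (S : ℕ → Set G)
    (hS : ∀ k, ∑' y, (if y ∈ S k then (1 : ℝ≥0∞) else 0) ≤ N0) :
    ∑' P, (if fp ht a P then LW Λ P * (if Dp z P ∈ S (HT ht P) then 1 else 0) else 0)
      ≤ q ^ J + J * (e + (i0 + 1 : ℕ) * (th * N0)) := by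
  induction J generalizing a S with
  | zero =>
    refine le_trans ?_ (le_trans (sum_FP Λ ht h1 hΛ a) (by simp))
    refine ENNReal.tsum_le_tsum fun P => ?_
    by_cases h : fp ht a P
    · rw [if_pos h, if_pos h]
      calc _ ≤ LW Λ P * 1 := mul_le_mul_right (le_ind _) _
        _ = _ := mul_one _
    · rw [if_neg h, if_neg h]
  | succ J ih =>
    set X := q ^ J + J * (e + (i0 + 1 : ℕ) * (th * N0)) with hX
    have hTa : T ≤ a := by nlinarith
    rw [fp_split Λ ht h1 T a hTa]
    set Φ : ℕ × G → ℝ≥0∞ := fun k => if T ≤ k.1 ∧ k.1 ≤ T + i0 ∧ pl k ≤ th then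
      ∑' L, (if fp ht (a - k.1) L then LW Λ L *
        (if k.2 + Dp z L ∈ S (k.1 + HT ht L) then 1 else 0) else 0) else 0 with hΦ
    have hpt : ∀ A, (if fp ht T A then LW Λ A *
        ∑' L, (if fp ht (a - HT ht A) L then LW Λ L *
          (if Dp z (A ++ L) ∈ S (HT ht (A ++ L)) then 1 else 0) else 0) else 0)
        ≤ (if fp ht T A ∧ T + i0 < HT ht A then LW Λ A else 0)
          + (if fp ht T A ∧ th < pl (HT ht A, Dp z A) then LW Λ A else 0) * X
          + (if fp ht T A then LW Λ A else 0) * Φ (HT ht A, Dp z A) := by
      intro A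
      by_cases hA : fp ht T A
      · simp only [hA, if_true, true_and]
        have hle : T ≤ HT ht A := le_HT_of_fp ht hA
        have hI1 : ∑' L, (if fp ht (a - HT ht A) L then LW Λ L *
          (if Dp z (A ++ L) ∈ S (HT ht (A ++ L)) then 1 else 0) else 0) ≤ 1 := by
          refine le_trans ?_ (sum_FP Λ ht h1 hΛ (a - HT ht A))
          refine ENNReal.tsum_le_tsum fun P => ?_
          by_cases h : fp ht (a - HT ht A) P
          · rw [if_pos h, if_pos h]
            calc _ ≤ LW Λ P * 1 := mul_le_mul_right (le_ind _) _
              _ = _ := mul_one _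
          · rw [if_neg h, if_neg h]
        by_cases ho : T + i0 < HT ht A
        · rw [if_pos ho]
          refine le_trans ?_ (le_trans le_self_add le_self_add)
          calc _ ≤ LW Λ A * 1 := mul_le_mul_right hI1 _
            _ = _ := mul_one _
        · rw [if_neg ho, zero_add]
          by_cases hb : th < pl (HT ht A, Dp z A)
          · rw [if_pos hb]
            refine le_trans ?_ le_self_add
            refine mul_le_mul_right ?_ _
            have := ih (a - HT ht A) (by
              have : (J + 1) * (T + i0) = J * (T + i0) + (T + i0) := by ring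
              omega) (fun k => {x | Dp z A + x ∈ S (HT ht A + k)}) (fun k => by
              have := card_shift (S (HT ht A + k)) (Dp z A)
              simp only [Set.mem_ofPred_eq]
              rw [this]; exact hS _)
            simpa only [Dp_append, HT_append, Set.mem_ofPred_eq] using this
          · rw [if_neg hb, zero_mul, zero_add]
            refine mul_le_mul_right ?_ _
            simp only [hΦ]
            rw [if_pos ⟨hle, not_lt.1 ho, not_lt.1 hb⟩]
            simp only [Dp_append, HT_append]
            exact le_rfl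
      · simp [hA]
    refine (ENNReal.tsum_le_tsum hpt).trans ?_
    rw [ENNReal.tsum_add, ENNReal.tsum_add, ENNReal.tsum_mul_right, tsum_fiber]
    have hlast : ∑' c : ℕ × G, (∑' A, (if (HT ht A, Dp z A) = c then
        (if fp ht T A then LW Λ A else 0) else 0)) * Φ c ≤ (i0 + 1 : ℕ) * (th * N0) := by
      have e1 : ∀ c : ℕ × G, (∑' A, (if (HT ht A, Dp z A) = c then
        (if fp ht T A then LW Λ A else 0) else 0)) = pl c := by
        intro c
        rw [hpl c]
        refine tsum_congr fun A => ?_
        by_cases h : fp ht T A <;> by_cases h' : (HT ht A, Dp z A) = c <;> simp [h, h']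
      simp only [e1]
      rw [ENNReal.tsum_prod']
      calc ∑' h, ∑' y, pl (h, y) * Φ (h, y)
          ≤ ∑' h, (if T ≤ h ∧ h ≤ T + i0 then th * N0 else 0) := by
            refine ENNReal.tsum_le_tsum fun h => ?_
            by_cases hh : T ≤ h ∧ h ≤ T + i0
            · rw [if_pos hh]
              calc ∑' y, pl (h, y) * Φ (h, y)
                  ≤ ∑' y, th * ∑' L, (if fp ht (a - h) L then LW Λ L *
                      (if y + Dp z L ∈ S (h + HT ht L) then 1 else 0) else 0) := by
                    refine ENNReal.tsum_le_tsum fun y => ?_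
                    by_cases hp : pl (h, y) ≤ th
                    · simp only [hΦ]
                      rw [if_pos ⟨hh.1, hh.2, hp⟩]
                      exact mul_le_mul_left hp _
                    · simp only [hΦ]
                      rw [if_neg (fun hc => hp hc.2.2), mul_zero]
                      exact zero_le
                _ = th * ∑' L, (if fp ht (a - h) L then LW Λ L *
                      ∑' y, (if y + Dp z L ∈ S (h + HT ht L) then (1 : ℝ≥0∞) else 0) else 0) := by
                    rw [ENNReal.tsum_mul_left, ENNReal.tsum_comm]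
                    congr 1
                    refine tsum_congr fun L => ?_
                    by_cases hL : fp ht (a - h) L
                    · simp only [hL, if_true]
                      rw [ENNReal.tsum_mul_left]
                    · simp [hL]
                _ ≤ th * ∑' L, (if fp ht (a - h) L then LW Λ L * N0 else 0) := by
                    refine mul_le_mul_right (ENNReal.tsum_le_tsum fun L => ?_) _
                    by_cases hL : fp ht (a - h) L
                    · simp only [hL, if_true]
                      refine mul_le_mul_right ?_ _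
                      rw [card_shift']
                      exact hS _
                    · simp [hL]
                _ = th * ((∑' L, (if fp ht (a - h) L then LW Λ L else 0)) * N0) := by
                    rw [← ENNReal.tsum_mul_right]
                    congr 1
                    refine tsum_congr fun L => ?_
                    split_ifs <;> simp
                _ ≤ th * (1 * N0) :=
                    mul_le_mul_right (mul_le_mul_left (sum_FP Λ ht h1 hΛ _) _) _
                _ = th * N0 := by rw [one_mul]
            · rw [if_neg hh]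
              have : ∀ y, pl (h, y) * Φ (h, y) = 0 := by
                intro y
                simp only [hΦ]
                rw [if_neg (fun hc => hh ⟨hc.1, hc.2.1⟩), mul_zero]
              simp [this]
        _ ≤ _ := sum_levels T i0 _
    calc _ ≤ e + q * X + (i0 + 1 : ℕ) * (th * N0) := by
          refine add_le_add (add_le_add he (mul_le_mul_left hq _)) (le_trans (le_of_eq ?_) hlast)
          refine tsum_congr fun c => ?_
          congr 1
          refine tsum_congr fun A => ?_
          congr
      _ = q ^ (J + 1) + (q * (J * (e + (i0 + 1 : ℕ) * (th * N0))) + (e + (i0 + 1 : ℕ) * (th * N0))) := by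
          rw [hX, pow_succ]; ring
      _ ≤ q ^ (J + 1) + (1 * (J * (e + (i0 + 1 : ℕ) * (th * N0))) + (e + (i0 + 1 : ℕ) * (th * N0))) :=
          add_le_add le_rfl (add_le_add (mul_le_mul_left hq1 _) le_rfl)
      _ = q ^ (J + 1) + (J + 1 : ℕ) * (e + (i0 + 1 : ℕ) * (th * N0)) := by
          push_cast; ring

end Crest.Agent.R154.Hit12
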