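import Crest.Agent.R154.RatioA_872

/-! Row 154, HOME doc (263): the common letters `rp`, `Hm`, `Jp`, `TailH`, `JumpTail`. -/

set_option autoImplicit false
set_option linter.unusedSectionVars false
set_option linter.deprecated false

namespace Crest.Agent.R154.Home736

open MeasureTheory ProbabilityTheory Set Filter
open Crest.Agent.R154.RatioR872 Crest.Agent.R154.RatioR872.KerSys
open scoped ENNReal

variable {S : Type*} [Countable S] {Ω : Type*} {m0 : MeasurableSpace Ω} {P : Measure Ω}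

open Classical in
/-- restricted push (`= Home903.rpush` for a level independent relation) -/
noncomputable def rp (A : KerSys S P) (D : S → S → Prop) (a b : ℕ) (w : Ω → S → ℝ≥0∞) (ω : Ω)
    (y : S) : ℝ≥0∞ := ∑' x, w ω x * (if D x y then A.G a b ω x y else 0)

/-- home relation -/
def Hm (φ : S → ℝ) (D : ℝ) : S → S → Prop := fun x y => |φ y - φ x| ≤ D

/-- jump relation -/
def Jp (φ : S → ℝ) (Δ : ℝ) : S → S → Prop := fun x y => Δ ≤ φ y - φ x

open Classical in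
/-- **home tail** (doc HOME) -/
def TailH (A : KerSys S P) (φ : S → ℝ) (N : ℕ) (D : ℝ) (ν : ℝ≥0∞) : Prop :=
  ∀ a c : ℕ, a ≤ c → c ≤ a + N → ∃ Bd : S → Ω → ℝ≥0∞, (∀ x, Measurable[A.H a] (Bd x)) ∧
    (∀ x ∈ A.L a, ∫⁻ ω, Bd x ω ∂P ≤ ν) ∧ ∀ b, a ≤ b → b ≤ c → ∀ᵐ ω ∂P, ∀ x ∈ A.L a,
      ∑' y, (if |φ y - φ x| ≤ D then 0 else A.G a b ω x y) * A.N b c ω y ≤ Bd x ω

open Classical in
/-- **jump tail** (doc HOME) -/
def JumpTail (A : KerSys S P) (φ : S → ℝ) (n : ℕ) (Δ : ℝ) (π : ℝ≥0∞) : Prop :=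
  ∀ a : ℕ, ∀ x ∈ A.L a, π ≤ ∫⁻ ω, ∑' y, (if Δ ≤ φ y - φ x then A.G a (a + n) ω x y else 0) ∂P

end Crest.Agent.R154.Home736
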