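import Crest.Agent.R154.HomeTail_775

/-!
Row 154, HOME MASS (263 #36390), home tail with ONE LINEAR centre (431 #37341):
`P(∃ cut level l ≤ N, |U_l - α l| > 180 wl (n N)) ≤ ν` for one real `α` (helper775).
-/

set_option autoImplicit false
set_option linter.unusedSectionVars false
set_option linter.unusedVariables false

namespace Crest.Agent.R154.HomeLin775

open MeasureTheory Filter Set Crest.Agent.R154.B4 Crest.Agent.R154.MobW437
open scoped ENNReal Topology

/-- quasi-additive functions on `[0,N]` are close to linear (431) -/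
lemma shear {N : ℕ} (hN : 1 ≤ N) {g : ℕ → ℝ} {δ : ℝ}
    (hg : ∀ l m, l + m ≤ N → |g (l + m) - g l - g m| ≤ δ) :
    ∀ l ≤ N, |g l - (g N / N) * l| ≤ 3 * δ := by
  have hNr : (0 : ℝ) < N := by exact_mod_cast hN
  set α : ℝ := g N / N with hα
  set h : ℕ → ℝ := fun l => g l - α * l with hh
  have hδ : 0 ≤ δ := (abs_nonneg _).trans (hg 0 0 (by omega))
  have hadd : ∀ l m, l + m ≤ N → |h (l + m) - h l - h m| ≤ δ := by
    intro l m hlm
    have e : h (l + m) - h l - h m = g (l + m) - g l - g m := by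
      simp only [hh]; push_cast; ring
    rw [e]; exact hg l m hlm
  have hN0 : h N = 0 := by
    simp only [hh, hα]; field_simp; ring
  obtain ⟨k, hk, hmax⟩ := Finset.exists_max_image (Finset.range (N + 1)) (fun l => |h l|)
    ⟨0, by simp⟩
  have hkN : k ≤ N := by have := Finset.mem_range.1 hk; omega
  have hM : ∀ l ≤ N, |h l| ≤ |h k| := fun l hl => hmax l (Finset.mem_range.2 (by omega))
  have hdouble : ∀ m, 2 * m ≤ N → 2 * |h m| ≤ |h k| + δ := by
    intro m hm
    have h1 := hadd m m (by omega)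
    have h2 := hM (m + m) (by omega)
    have h3 : 2 * h m = h (m + m) - (h (m + m) - h m - h m) := by ring
    have h4 : |2 * h m| ≤ |h (m + m)| + |h (m + m) - h m - h m| := by
      rw [h3]; exact abs_sub _ _
    rw [abs_mul, abs_two] at h4
    linarith
  have hk3 : |h k| ≤ 3 * δ := by
    rcases Nat.lt_or_ge N (2 * k) with h2 | h2
    · have h3 := hadd k (N - k) (by omega)
      rw [Nat.add_sub_cancel' hkN, hN0] at h3
      have h4 : h k = -h (N - k) - (0 - h k - h (N - k)) := by ring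
      have h5 : |h k| ≤ |h (N - k)| + |0 - h k - h (N - k)| := by
        calc |h k| = |-h (N - k) - (0 - h k - h (N - k))| := by rw [← h4]
          _ ≤ |-h (N - k)| + |0 - h k - h (N - k)| := abs_sub _ _
          _ = _ := by rw [abs_neg]
      have h6 := hdouble (N - k) (by omega)
      linarith
    · have h3 := hdouble k h2
      linarith
  intro l hl
  exact (hM l hl).trans hk3

variable {Ω : Type*} [mΩ : MeasurableSpace Ω] {P : Measure Ω}

/-- the centres of `ottaviani` are quasi-additive -/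
lemma quasi_add [IsProbabilityMeasure P] (L : LP P) (i : Fin 2) {N : ℕ} {D e : ℝ} {c : ℕ → ℝ}
    (hc : P.real {ω | ∃ l ≤ N, ω ∈ L.C l ∧ D < |L.U l ω i - c l|} ≤ e)
    (hep : 3 * e < L.p ^ 2) (l m : ℕ) (hlm : l + m ≤ N) :
    |c (l + m) - c l - c m| ≤ 3 * D := by
  have hp := L.p_pos
  have hC : ∀ j, L.p ≤ P.real (L.C j) := by
    intro j
    have h1 : ENNReal.ofReal L.p ≤ P (L.C j) := by
      have := L.cut j univ MeasurableSet.univ
      simpa using this
    exact (ENNReal.ofReal_le_iff_le_toReal (measure_ne_top _ _)).1 h1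
  set Bd : ℕ → Set Ω := fun j => {ω | D < |L.U j ω i - c j|} with hBd
  have hBm : ∀ j, MeasurableSet (Bd j) := fun j =>
    measurableSet_lt measurable_const
      ((((measurable_pi_apply i).comp (meas_U L j)).sub_const (c j)).abs)
  have hBe : ∀ j, j ≤ N → P.real (L.C j ∩ Bd j) ≤ e := by
    intro j hj
    have hsub : L.C j ∩ Bd j ⊆ {ω | ∃ l ≤ N, ω ∈ L.C l ∧ D < |L.U l ω i - c l|} := by
      intro ω hω
      exact ⟨j, hj, hω.1, hω.2⟩
    exact (measureReal_mono hsub (measure_ne_top _ _)).trans hc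
  have hren : ∀ B, MeasurableSet B →
      P.real (L.C l ∩ L.θ l ⁻¹' B) = P.real (L.C l) * P.real B := by
    intro B hB
    have := L.ren l univ B MeasurableSet.univ hB
    rw [univ_inter] at this
    rw [measureReal_def, this, ENNReal.toReal_mul]
    rfl
  -- the three bad events
  have h1 : P.real (L.C l ∩ Bd l) ≤ e := hBe l (by omega)
  have h2 : P.real (L.C l ∩ L.θ l ⁻¹' (L.C m ∩ Bd m)) ≤ e := by
    rw [hren _ ((L.C_meas m).inter (hBm m))]
    have h3 := hBe m (by omega)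
    have h4 : P.real (L.C l) ≤ 1 := measureReal_le_one
    have h5 : 0 ≤ P.real (L.C m ∩ Bd m) := measureReal_nonneg
    nlinarith [measureReal_nonneg (μ := P) (s := L.C l)]
  have h3 : P.real (L.C (l + m) ∩ Bd (l + m)) ≤ e := hBe (l + m) hlm
  have h4 : L.p ^ 2 ≤ P.real (L.C l ∩ L.θ l ⁻¹' L.C m) := by
    rw [hren _ (L.C_meas m), sq]
    exact mul_le_mul (hC l) (hC m) hp.le measureReal_nonneg
  -- a good point
  have h5 : ∃ ω, ω ∈ L.C l ∩ L.θ l ⁻¹' L.C m ∧
      ω ∉ (L.C l ∩ Bd l) ∪ (L.C l ∩ L.θ l ⁻¹' (L.C m ∩ Bd m)) ∪ (L.C (l + m) ∩ Bd (l + m)) := by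
    by_contra hcon
    push Not at hcon
    have h6 : P.real (L.C l ∩ L.θ l ⁻¹' L.C m) ≤ e + e + e := by
      refine (measureReal_mono hcon (measure_ne_top _ _)).trans ?_
      refine (measureReal_union_le _ _).trans (add_le_add ?_ h3)
      exact (measureReal_union_le _ _).trans (add_le_add h1 h2)
    linarith
  obtain ⟨ω, ⟨hω1, hω2⟩, hω3⟩ := h5
  simp only [mem_union, not_or] at hω3
  obtain ⟨⟨n1, n2⟩, n3⟩ := hω3
  have hω2' : L.θ l ω ∈ L.C m := hω2
  have b1 : |L.U l ω i - c l| ≤ D := by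
    by_contra h; exact n1 ⟨hω1, not_le.1 h⟩
  have b2 : |L.U m (L.θ l ω) i - c m| ≤ D := by
    by_contra h; exact n2 ⟨hω1, hω2', not_le.1 h⟩
  have b3 : |L.U (l + m) ω i - c (l + m)| ≤ D := by
    by_contra h; exact n3 ⟨(L.C_add l m ω).2 hω2', not_le.1 h⟩
  have e1 : L.U (l + m) ω i = L.U l ω i + L.U m (L.θ l ω) i := by
    rw [L.U_add l m ω, Pi.add_apply]
  have e2 : c (l + m) - c l - c m =
      (L.U l ω i - c l) + (L.U m (L.θ l ω) i - c m) - (L.U (l + m) ω i - c (l + m)) := by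
    rw [e1]; ring
  rw [e2]
  calc |(L.U l ω i - c l) + (L.U m (L.θ l ω) i - c m) - (L.U (l + m) ω i - c (l + m))|
      ≤ |(L.U l ω i - c l) + (L.U m (L.θ l ω) i - c m)| + |L.U (l + m) ω i - c (l + m)| :=
        abs_sub _ _
    _ ≤ |L.U l ω i - c l| + |L.U m (L.θ l ω) i - c m| + |L.U (l + m) ω i - c (l + m)| := by
        gcongr; exact abs_add_le _ _
    _ ≤ 3 * D := by linarith

/-- **Home tail with one linear centre.** -/
theorem home_lin [IsProbabilityMeasure P] (L : LP P) (i : Fin 2) {ν : ℝ} (hν : 0 < ν) :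
    ∃ n : ℕ, 3 ≤ n ∧ ∃ l0 : ℕ, ∀ N, l0 ≤ N → ∃ α : ℝ,
      P.real {ω | ∃ l ≤ N, ω ∈ L.C l ∧ 180 * wl L i (n * N) < |L.U l ω i - α * l|} ≤ ν := by
  have hp := L.p_pos
  set ν' : ℝ := min ν (L.p ^ 2 / 4) with hν'
  have hν'0 : 0 < ν' := lt_min hν (by positivity)
  obtain ⟨n, hn3, l0, hl0⟩ := HomeTail775.home_tail L i hν'0
  refine ⟨n, hn3, max l0 1, fun N hN => ?_⟩
  obtain ⟨c, hc⟩ := hl0 N ((le_max_left _ _).trans hN)
  have hN1 : 1 ≤ N := (le_max_right _ _).trans hN
  have hep : 3 * ν' < L.p ^ 2 := by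
    have h1 : ν' ≤ L.p ^ 2 / 4 := min_le_right _ _
    have h2 : 0 < L.p ^ 2 := by positivity
    linarith
  have hq := quasi_add L i hc hep
  have hs := shear hN1 hq
  refine ⟨c N / N, le_trans (measureReal_mono ?_ (measure_ne_top _ _)) (hc.trans (min_le_left _ _))⟩
  rintro ω ⟨l, hl, hCl, hlt⟩
  refine ⟨l, hl, hCl, ?_⟩
  have h1 := hs l hl
  have h2 : L.U l ω i - c N / N * l = (L.U l ω i - c l) + (c l - c N / N * l) := by ring
  rw [h2] at hlt
  have h3 := abs_add_le (L.U l ω i - c l) (c l - c N / N * l)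
  linarith

end Crest.Agent.R154.HomeLin775
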