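import Crest.Agent.R154.MobL_437

/-!
Row 154, HOME MASS (263 #36390), home tail (half of HM6): for the level process `LP` of 573,
`P(∃ cut level l ≤ N, |U_l - c_l| > 18 wl (n N)) ≤ ν` for deterministic centres `c_l`
(Ottaviani at the first bad cut level; helper775).
-/

set_option autoImplicit false
set_option linter.unusedSectionVars false
set_option linter.unusedVariables false

namespace Crest.Agent.R154.HomeTail775

open MeasureTheory Filter Set Crest.Agent.R154.B4 Crest.Agent.R154.MobW437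
open scoped ENNReal Topology

variable {Ω : Type*} [mΩ : MeasurableSpace Ω] {P : Measure Ω}

/-- law of (displacement at a cut level, path after it) is a product -/
lemma joint_law [IsProbabilityMeasure P] (L : LP P) (i : Fin 2) (l : ℕ) :
    (P.restrict (L.C l)).map (fun ω => (L.U l ω i, L.θ l ω)) =
      ((P.restrict (L.C l)).map (fun ω => L.U l ω i)).prod P := by
  have hU : Measurable (fun ω => L.U l ω i) := (measurable_pi_apply i).comp (meas_U L l)
  have hθ := L.θ_meas l
  symm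
  refine Measure.prod_eq fun s t hs ht => ?_
  rw [Measure.map_apply (hU.prodMk hθ) (hs.prod ht), Measure.map_apply hU hs,
    Measure.restrict_apply ((hU.prodMk hθ) (hs.prod ht)), Measure.restrict_apply (hU hs)]
  have hA : MeasurableSet[L.F l] ((fun ω => L.U l ω i) ⁻¹' s) :=
    (measurable_pi_apply i).comp (L.U_meas l) hs
  rw [← L.ren l _ t hA ht]
  congr 1
  ext ω
  simp only [mem_inter_iff, mem_preimage, mem_prod]
  tauto

/-- at every level `l ≤ N` there is a centre for the displacement after `l` -/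
lemma exists_centre [IsProbabilityMeasure P] (L : LP P) (i : Fin 2) {l m : ℕ} {cN r e : ℝ}
    (he : P.real {ω | r < |L.U (l + m) ω i - cN|} ≤ e) :
    ∃ x : ℝ, P.real {ω | r < |x + L.U m ω i - cN|} ≤ e / L.p := by
  have hUm : Measurable (fun ω => L.U m ω i) := (measurable_pi_apply i).comp (meas_U L m)
  have hU : Measurable (fun ω => L.U l ω i) := (measurable_pi_apply i).comp (meas_U L l)
  have hθ := L.θ_meas l
  have hp := L.p_pos
  have he0 : 0 ≤ e := measureReal_nonneg.trans he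
  -- mass of the cut level
  have hC : ENNReal.ofReal L.p ≤ P (L.C l) := by
    have := L.cut l univ MeasurableSet.univ
    simpa using this
  set μ1 : Measure ℝ := (P.restrict (L.C l)).map (fun ω => L.U l ω i) with hμ1
  have hμ1u : μ1 univ = P (L.C l) := by
    rw [hμ1, Measure.map_apply hU MeasurableSet.univ, preimage_univ, Measure.restrict_apply_univ]
  have hμ1fin : IsFiniteMeasure μ1 := ⟨by rw [hμ1u]; exact measure_lt_top _ _⟩
  have hμ10 : μ1 ≠ 0 := by
    intro h
    have : μ1 univ = 0 := by rw [h]; rfl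
    rw [hμ1u] at this
    rw [this] at hC
    exact absurd hC (by simpa using hp)
  set S : Set (ℝ × Ω) := {q | r < |q.1 + L.U m q.2 i - cN|} with hS
  have hSm : MeasurableSet S :=
    measurableSet_lt measurable_const
      ((measurable_fst.add (hUm.comp measurable_snd)).sub_const cN).abs
  -- first moment
  have hint : ∫⁻ x, P {ω | r < |x + L.U m ω i - cN|} ∂μ1 ≤ ENNReal.ofReal e := by
    have h1 : ∫⁻ x, P {ω | r < |x + L.U m ω i - cN|} ∂μ1 = (μ1.prod P) S := by
      rw [Measure.prod_apply hSm]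
      rfl
    rw [h1, hμ1, ← joint_law L i l, Measure.map_apply (hU.prodMk hθ) hSm]
    refine (Measure.restrict_apply_le _ _).trans ?_
    have h2 : (fun ω => (L.U l ω i, L.θ l ω)) ⁻¹' S = {ω | r < |L.U (l + m) ω i - cN|} := by
      ext ω
      simp only [hS, mem_preimage, mem_ofPred_eq, L.U_add l m ω, Pi.add_apply]
    rw [h2]
    exact (ENNReal.le_ofReal_iff_toReal_le (measure_ne_top _ _) he0).2 he
  obtain ⟨x, hx⟩ := exists_le_laverage (μ := μ1) hμ10
    (f := fun x => P {ω | r < |x + L.U m ω i - cN|})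
    (measurable_measure_prodMk_left hSm).aemeasurable
  refine ⟨x, ?_⟩
  have h3 : P {ω | r < |x + L.U m ω i - cN|} ≤ ENNReal.ofReal (e / L.p) := by
    refine hx.trans ?_
    rw [laverage_eq, hμ1u, ENNReal.ofReal_div_of_pos hp]
    exact ENNReal.div_le_div hint hC
  exact ENNReal.toReal_le_of_le_ofReal (by positivity) h3

/-- **Ottaviani at cut levels.** -/
theorem ottaviani [IsProbabilityMeasure P] (L : LP P) (i : Fin 2) {N : ℕ} {cN r e : ℝ}
    (he : P.real {ω | r < |L.U N ω i - cN|} ≤ e) (hep : 2 * e ≤ L.p) :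
    ∃ c : ℕ → ℝ, P.real {ω | ∃ l ≤ N, ω ∈ L.C l ∧ 2 * r < |L.U l ω i - c l|} ≤ 2 * e := by
  have hp := L.p_pos
  have he0 : 0 ≤ e := measureReal_nonneg.trans he
  have hx : ∀ l : ℕ, ∃ x : ℝ, l ≤ N → P.real {ω | r < |x + L.U (N - l) ω i - cN|} ≤ e / L.p := by
    intro l
    by_cases hl : l ≤ N
    · obtain ⟨x, hx⟩ := exists_centre L i (l := l) (m := N - l) (cN := cN) (r := r) (e := e)
        (by rw [Nat.add_sub_cancel' hl]; exact he)
      exact ⟨x, fun _ => hx⟩
    · exact ⟨0, fun h => absurd h hl⟩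
  choose c hc using hx
  refine ⟨c, ?_⟩
  set A : ℕ → Set Ω := fun l => {ω | 2 * r < |L.U l ω i - c l|} with hA
  set B : ℕ → Set Ω := fun l => {ω | |c l + L.U (N - l) ω i - cN| ≤ r} with hB
  set A' : ℕ → Set Ω := fun l => A l ∩ ⋂ j ∈ Finset.range l, (A j ∩ L.D j (l - j))ᶜ with hA'
  have hAF : ∀ l, MeasurableSet[L.F l] (A l) := by
    intro l
    have hset : MeasurableSet {y : ℝ | 2 * r < |y - c l|} :=
      measurableSet_lt measurable_const ((measurable_id.sub_const (c l)).abs)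
    exact (measurable_pi_apply i).comp (L.U_meas l) hset
  have hA'F : ∀ l, MeasurableSet[L.F l] (A' l) := by
    intro l
    refine MeasurableSet.inter (hAF l) ?_
    refine Finset.measurableSet_biInter _ fun j hj => ?_
    have hjl : j ≤ l := (Finset.mem_range.1 hj).le
    refine MeasurableSet.compl (MeasurableSet.inter (L.F_mono hjl _ (hAF j)) ?_)
    have := L.D_meas j (l - j)
    rwa [Nat.add_sub_cancel' hjl] at this
  have hBm : ∀ l, MeasurableSet (B l) := fun l =>
    measurableSet_le ((((measurable_pi_apply i).comp (meas_U L (N - l))).const_add (c l)).sub_const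
      cN).abs measurable_const
  -- the bad set is covered by the first bad cut levels
  have hcov : {ω | ∃ l ≤ N, ω ∈ L.C l ∧ 2 * r < |L.U l ω i - c l|} ⊆
      ⋃ l ∈ Finset.range (N + 1), (A' l ∩ L.C l) := by
    rintro ω ⟨l, hl, hCl, hAl⟩
    have hex : ∃ l, l ≤ N ∧ ω ∈ L.C l ∧ ω ∈ A l := ⟨l, hl, hCl, hAl⟩
    classical
    obtain ⟨h1, h2, h3⟩ := Nat.find_spec hex
    set l0 := Nat.find hex with hl0
    refine mem_biUnion (x := l0) (Finset.mem_coe.2 (Finset.mem_range.2 (by omega))) ?_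
    refine ⟨⟨h3, ?_⟩, h2⟩
    refine mem_iInter₂.2 fun j hj => ?_
    have hj' : j < l0 := Finset.mem_range.1 hj
    intro ⟨hj1, hj2⟩
    have hjC : ω ∈ L.C j := by
      refine L.D_inter j (l0 - j) ⟨hj2, ?_⟩
      rw [Nat.add_sub_cancel' hj'.le]
      exact h2
    exact Nat.find_min hex hj' ⟨by omega, hjC, hj1⟩
  -- disjointness
  have hdisj : Set.PairwiseDisjoint (↑(Finset.range (N + 1)) : Set ℕ)
      (fun l => A' l ∩ L.C l ∩ L.θ l ⁻¹' B l) := by
    have key : ∀ j l : ℕ, j < l → Disjoint (A' j ∩ L.C j) (A' l ∩ L.C l) := by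
      intro j l hjl
      rw [Set.disjoint_left]
      rintro ω ⟨⟨h1, _⟩, h2⟩ ⟨⟨_, h3⟩, _⟩
      have := mem_iInter₂.1 h3 j (Finset.mem_range.2 hjl)
      exact this ⟨h1, L.C_sub_D j (l - j) h2⟩
    intro j _ l _ hjl
    rcases lt_or_gt_of_ne hjl with h | h
    · exact (key j l h).mono inter_subset_left inter_subset_left
    · exact ((key l j h).mono inter_subset_left inter_subset_left).symm
  have hsub : ∀ l ∈ Finset.range (N + 1), A' l ∩ L.C l ∩ L.θ l ⁻¹' B l ⊆
      {ω | r < |L.U N ω i - cN|} := by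
    intro l hl ω hω
    have hlN : l ≤ N := by have := Finset.mem_range.1 hl; omega
    obtain ⟨⟨⟨h1, _⟩, _⟩, h2⟩ := hω
    have h3 : L.U N ω i = L.U l ω i + L.U (N - l) (L.θ l ω) i := by
      have := L.U_add l (N - l) ω
      rw [Nat.add_sub_cancel' hlN] at this
      rw [this, Pi.add_apply]
    have h1' : 2 * r < |L.U l ω i - c l| := h1
    have h2' : |c l + L.U (N - l) (L.θ l ω) i - cN| ≤ r := h2
    show r < |L.U N ω i - cN|
    have h4 : L.U l ω i - c l = (L.U N ω i - cN) - (c l + L.U (N - l) (L.θ l ω) i - cN) := by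
      rw [h3]; ring
    rw [h4] at h1'
    have h5 := abs_sub (L.U N ω i - cN) (c l + L.U (N - l) (L.θ l ω) i - cN)
    linarith
  have hBp : ∀ l ∈ Finset.range (N + 1), (1 / 2 : ℝ) ≤ P.real (B l) := by
    intro l hl
    have hlN : l ≤ N := by have := Finset.mem_range.1 hl; omega
    have h1 := hc l hlN
    have h2 : (B l)ᶜ = {ω | r < |c l + L.U (N - l) ω i - cN|} := by
      ext ω; simp [hB]
    have h3 : P.real (B l) = 1 - P.real (B l)ᶜ := by
      rw [probReal_compl_eq_one_sub (hBm l)]; ring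
    rw [h3, h2]
    have h4 : e / L.p ≤ 1 / 2 := by
      rw [div_le_iff₀ hp]; linarith
    linarith
  -- sum up
  have hren : ∀ l, P.real (A' l ∩ L.C l ∩ L.θ l ⁻¹' B l) = P.real (A' l ∩ L.C l) * P.real (B l) := by
    intro l
    rw [measureReal_def, L.ren l _ _ (hA'F l) (hBm l), ENNReal.toReal_mul]
    rfl
  have hsum : ∑ l ∈ Finset.range (N + 1), P.real (A' l ∩ L.C l ∩ L.θ l ⁻¹' B l) ≤ e := by
    rw [← measureReal_biUnion_finset hdisj (fun l _ => ?_)]
    · refine le_trans (measureReal_mono ?_ (measure_ne_top _ _)) he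
      exact iUnion₂_subset fun l hl => hsub l hl
    · exact ((L.F_le l _ (hA'F l)).inter (L.C_meas l)).inter (L.θ_meas l (hBm l))
  calc P.real {ω | ∃ l ≤ N, ω ∈ L.C l ∧ 2 * r < |L.U l ω i - c l|}
      ≤ P.real (⋃ l ∈ Finset.range (N + 1), (A' l ∩ L.C l)) :=
        measureReal_mono hcov (measure_ne_top _ _)
    _ ≤ ∑ l ∈ Finset.range (N + 1), P.real (A' l ∩ L.C l) := measureReal_biUnion_finset_le _ _
    _ ≤ ∑ l ∈ Finset.range (N + 1), 2 * P.real (A' l ∩ L.C l ∩ L.θ l ⁻¹' B l) := by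
        refine Finset.sum_le_sum fun l hl => ?_
        rw [hren l]
        have h1 := hBp l hl
        have h2 : 0 ≤ P.real (A' l ∩ L.C l) := measureReal_nonneg
        nlinarith
    _ = 2 * ∑ l ∈ Finset.range (N + 1), P.real (A' l ∩ L.C l ∩ L.θ l ⁻¹' B l) := by
        rw [Finset.mul_sum]
    _ ≤ 2 * e := by linarith

/-- **Home tail**: `D_N(ν) ≤ 18 wl (n N)` with `n = n(ν)`. -/
theorem home_tail [IsProbabilityMeasure P] (L : LP P) (i : Fin 2) {ν : ℝ} (hν : 0 < ν) :
    ∃ n : ℕ, 3 ≤ n ∧ ∃ l0 : ℕ, ∀ N, l0 ≤ N → ∃ c : ℕ → ℝ,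
      P.real {ω | ∃ l ≤ N, ω ∈ L.C l ∧ 18 * wl L i (n * N) < |L.U l ω i - c l|} ≤ ν := by
  have hp := L.p_pos
  obtain ⟨n0, hn0⟩ := exists_nat_gt (12 / (100 * min L.p ν))
  set n : ℕ := max n0 3 with hn
  have hmin : 0 < min L.p ν := lt_min hp hν
  have hn3 : 3 ≤ n := le_max_right _ _
  have hnr : (0 : ℝ) < n := by exact_mod_cast (by omega : 0 < n)
  have hn1 : 12 / (100 * min L.p ν) ≤ n := hn0.le.trans (by exact_mod_cast le_max_left _ _)
  have h12 : 2 * (6 / (100 * (n : ℝ))) ≤ min L.p ν := by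
    rw [div_le_iff₀ (by positivity)] at hn1
    rw [show 2 * (6 / (100 * (n : ℝ))) = 12 / (100 * n) by ring, div_le_iff₀ (by positivity)]
    linarith
  refine ⟨n, hn3, ?_⟩
  obtain ⟨l0, hl0⟩ := mob L i n
  refine ⟨l0, fun N hN => ?_⟩
  obtain ⟨-, -, c1, c2, a, -, -, -, -, -, -, htail⟩ := hl0 N hN
  have h1 := htail n hn3 le_rfl
  obtain ⟨c, hc⟩ := ottaviani L i (N := N) (cN := c1) (r := 9 * wl L i (n * N))
    (e := 6 / (100 * n)) h1 (h12.trans (min_le_left _ _))
  refine ⟨c, ?_⟩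
  have e1 : (2 : ℝ) * (9 * wl L i (n * N)) = 18 * wl L i (n * N) := by ring
  rw [e1] at hc
  exact hc.trans (h12.trans (min_le_right _ _))

end Crest.Agent.R154.HomeTail775
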