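import Mathlib

/-!
Row 154 (helper452): blocks of octaves with small tall mass, infinitely often.
`Σ η n < ∞` and `Σ 1/i = ∞` give infinitely many `i` with
`Σ_{2^(a(i-1)) < n ≤ 2^(a i)} η n ≤ c / i`.
-/

set_option autoImplicit false

namespace Crest.Agent.R154.IO452

open Finset

/-- the `i`-th block of octaves, `(2^(a(i-1)), 2^(a i)]`. -/
def blk (a i : ℕ) : Finset ℕ := Finset.Ico (2 ^ (a * (i - 1)) + 1) (2 ^ (a * i) + 1)

theorem mem_blk {a i n : ℕ} : n ∈ blk a i ↔ 2 ^ (a * (i - 1)) < n ∧ n ≤ 2 ^ (a * i) := by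
  unfold blk
  rw [Finset.mem_Ico]
  omega

theorem sum_blk_le {η : ℕ → ℝ} (h0 : ∀ n, 0 ≤ η n) (hs : Summable η) (a n : ℕ) :
    ∑ i ∈ range n, ∑ m ∈ blk a i, η m ≤ ∑' m, η m := by
  have key : ∀ n, ∑ i ∈ range n, ∑ m ∈ blk a i, η m
      ≤ ∑ m ∈ range (2 ^ (a * (n - 1)) + 1), η m := by
    intro n
    induction n with
    | zero => simpa using Finset.sum_nonneg (fun i _ => h0 i)
    | succ n ih =>
      rw [Finset.sum_range_succ]
      have h1 : 2 ^ (a * (n - 1)) + 1 ≤ 2 ^ (a * n) + 1 := by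
        have : a * (n - 1) ≤ a * n := Nat.mul_le_mul_left _ (Nat.sub_le _ _)
        exact Nat.succ_le_succ (Nat.pow_le_pow_right (by norm_num) this)
      have h2 := Finset.sum_range_add_sum_Ico (f := η) h1
      have h3 : n + 1 - 1 = n := by omega
      rw [h3, ← h2]
      exact add_le_add ih le_rfl
  exact (key n).trans (hs.sum_le_tsum _ (fun i _ => h0 i))

/-- **infinitely many light blocks.** -/
theorem io_block {η : ℕ → ℝ} (h0 : ∀ n, 0 ≤ η n) (hs : Summable η) (a : ℕ) {c : ℝ} (hc : 0 < c) :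
    ∀ i0 : ℕ, ∃ i, i0 ≤ i ∧ 1 ≤ i ∧ ∑ m ∈ blk a i, η m ≤ c / i := by
  intro i0
  by_contra hcon
  push Not at hcon
  have hB : Summable fun i => ∑ m ∈ blk a i, η m :=
    summable_of_sum_range_le (fun i => Finset.sum_nonneg fun m _ => h0 m)
      (fun n => sum_blk_le h0 hs a n)
  have h1 : Summable fun i : ℕ => c / ((i + (i0 + 1) : ℕ) : ℝ) := by
    refine Summable.of_nonneg_of_le (fun i => by positivity) (fun i => ?_)
      ((summable_nat_add_iff (i0 + 1)).2 hB)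
    exact (hcon (i + (i0 + 1)) (by omega) (by omega)).le
  have h2 : Summable fun i : ℕ => c / (i : ℝ) := (summable_nat_add_iff (i0 + 1)).1 h1
  have h3 : Summable fun i : ℕ => (1 : ℝ) / i := by
    have := h2.mul_left (1 / c)
    refine this.congr fun i => ?_
    field_simp
  exact Real.not_summable_one_div_natCast h3

/-- **weak sums over short sub-blocks of a light block** (Hoelder, exponent `1/2` or `1 - d`):
`Σ_{m ∈ s} η m ^ (1/2) ≤ (|s| τ)^(1/2)`. -/
theorem sqrt_sum_le {η : ℕ → ℝ} (h0 : ∀ n, 0 ≤ η n) (s : Finset ℕ) :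
    ∑ m ∈ s, Real.sqrt (η m) ≤ Real.sqrt (s.card * ∑ m ∈ s, η m) := by
  apply Real.le_sqrt_of_sq_le
  have h := sq_sum_le_card_mul_sum_sq (s := s) (f := fun m => Real.sqrt (η m))
  calc (∑ m ∈ s, Real.sqrt (η m)) ^ 2 ≤ s.card * ∑ m ∈ s, Real.sqrt (η m) ^ 2 := h
    _ = s.card * ∑ m ∈ s, η m := by
        congr 1
        exact Finset.sum_congr rfl fun m _ => Real.sq_sqrt (h0 m)

/-- Hoelder with the exponent `1 - d`. -/
theorem rpow_sum_le {η : ℕ → ℝ} (h0 : ∀ n, 0 ≤ η n) (s : Finset ℕ) {d : ℝ} (hd0 : 0 < d)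
    (hd1 : d < 1) :
    ∑ m ∈ s, η m ^ (1 - d) ≤ (s.card : ℝ) ^ d * (∑ m ∈ s, η m) ^ (1 - d) := by
  have hpq : (1 / d).HolderConjugate (1 / (1 - d)) := by
    rw [Real.holderConjugate_iff]
    constructor
    · rw [lt_div_iff₀ hd0]; linarith
    · field_simp
      ring
  have h := Real.inner_le_Lp_mul_Lq_of_nonneg s hpq (f := fun _ => (1 : ℝ))
    (g := fun m => η m ^ (1 - d)) (fun _ _ => zero_le_one) (fun m _ => Real.rpow_nonneg (h0 m) _)
  have h1 : ∑ m ∈ s, ((fun _ => (1 : ℝ)) m) ^ (1 / d) = (s.card : ℝ) := by simp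
  have h2 : ∑ m ∈ s, (η m ^ (1 - d)) ^ (1 / (1 - d)) = ∑ m ∈ s, η m := by
    refine Finset.sum_congr rfl fun m _ => ?_
    rw [← Real.rpow_mul (h0 m)]
    have : (1 - d) * (1 / (1 - d)) = 1 := by
      field_simp
      rw [div_self (by linarith)]
    rw [this, Real.rpow_one]
  rw [h1] at h
  simp only [one_mul] at h
  rw [h2] at h
  have h3 : (1 : ℝ) / (1 / d) = d := by field_simp
  have h4 : (1 : ℝ) / (1 / (1 - d)) = 1 - d := by field_simp
  rw [h3, h4] at h
  exact h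

end Crest.Agent.R154.IO452
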