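import Crest.Agent.R154.KapBind_138
import Crest.Agent.R154.Sing_600
import Crest.Agent.R154.WMass_286

/-! Row 154, ROAD 801 (helper138): the word data of the single walkers (600's irreducible
crossings) as an instance of `WData`, with the renewal facts. -/

set_option autoImplicit false
set_option linter.unusedSectionVars false

namespace Crest.Agent.R154.KapBind138

open MeasureTheory ProbabilityTheory Crest.ProbabilityR.RandomEnvironment Crest.Agent.R154
open Crest.Agent.R154.Flux132 (lev opp lev_add lev_neg)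
open Crest.Agent.R154.Flux566 (lw endp sitesL endp_append endp_eq_add)
open Crest.Agent.R154.NB28 (IsUp IsDn aw Cm KW KappaW)
open Crest.Agent.R154.B5A (LW HT HT_cons HT_nil)
open Crest.Agent.R154.Sing600 (Blk htB wd LamB catF catR htB_pos)
open scoped ENNReal
open scoped Classical

variable {d : ℕ} {u : Step d} (ν : Measure (Row d)) [IsProbabilityMeasure ν]

lemma cu_eq {v : Step d} (L : List (Blk v)) : cu wd L = catR L := by
  induction L with
  | nil => rfl
  | cons b L ih => rw [cu, ih, Sing600.catR_cons]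

lemma cd_eq {v : Step d} (L : List (Blk v)) : cd wd L = catF L := by
  induction L with
  | nil => rfl
  | cons b L ih => rw [cd, ih, catF]

/-- the single-walker words -/
theorem wdata (u : Step d) : WData ν u (wd : Blk u → List (Step d))
    (wd : Blk (opp u) → List (Step d)) htB htB (LamB ν) (LamB ν) where
  upX := Sing600.isUp_wd
  dnY b := (Sing600.isDn_iff u _ _).2 (Sing600.isUp_wd b)
  sumX n F := by
    rw [Sing600.tsum_catR n F]
    simp only [cu_eq]
  sumY n F := by
    refine (tsum_congr fun l => if_congr (Sing600.isDn_iff u n l) rfl rfl).trans ?_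
    rw [Sing600.tsum_catF n F]
    simp only [cd_eq]
  lwX L := by rw [cu_eq, Sing600.aw_catR]
  lwY L := by rw [cd_eq, Sing600.aw_catF]

instance countBlk (v : Step d) : Countable (Blk v) := by
  unfold Blk; infer_instance

theorem U_le_one (v : Step d) (n : ℕ) : B5A.U (LamB (v := v) ν) htB n ≤ 1 := by
  rw [Sing600.U_eq]; exact WM286.sum_up_le_one ν v n

/-- renewal facts of both walkers -/
theorem renewal (hν : ∀ᵐ p ∂ν, ∀ e : Step d, 0 < p.1 e) (u : Step d)
    (hA : annealed (iidEnvironmentLaw ν) 0 (escapeEvent (B2d.dirVec u)) ≠ 0)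
    (hB : annealed (iidEnvironmentLaw ν) 0 (escapeEvent (-B2d.dirVec u)) ≠ 0) :
    ∃ c : ℝ≥0∞, c ≠ 0 ∧ c ≤ 1 ∧ (∀ n, c ≤ B5A.U (LamB (v := u) ν) htB n) ∧
      (∀ n, c ≤ B5A.U (LamB (v := opp u) ν) htB n) := by
  obtain ⟨c, h0, h1, h2, h3⟩ := WM286.mass_pos ν hν u hA hB
  refine ⟨c, h0, h1, fun n => ?_, fun n => ?_⟩
  · rw [Sing600.U_eq]; exact h2 n
  · rw [Sing600.U_eq]
    exact (h3 n).trans (le_of_eq (tsum_congr fun l => if_congr (Sing600.isDn_iff u n l) rfl rfl))

theorem sum_one {v : Step d} {c : ℝ≥0∞} (h0 : c ≠ 0)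
    (hU : ∀ n, c ≤ B5A.U (LamB (v := v) ν) htB n) : ∑' b : Blk v, LamB ν b = 1 :=
  le_antisymm (B5A.mass_le_one _ _ htB_pos (U_le_one ν v))
    (B5A.mass_ge_one _ _ c h0 0 fun n _ => hU n)

theorem mean_ne_top {v : Step d} {c : ℝ≥0∞} (h0 : c ≠ 0)
    (hU : ∀ n, c ≤ B5A.U (LamB (v := v) ν) htB n) :
    ∑' b : Blk v, LamB ν b * (htB b : ℝ≥0∞) ≠ ⊤ := by
  have hc : c ≠ ⊤ := ne_top_of_le_ne_top ENNReal.one_ne_top ((hU 0).trans (U_le_one ν v 0))
  exact ne_top_of_le_ne_top (ENNReal.inv_ne_top.2 h0)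
    (B5A.mean_le _ _ htB_pos (sum_one ν h0 hU) c h0 hc 0 fun n _ => hU n)

end Crest.Agent.R154.KapBind138
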