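import Crest.Agent.R154.Conc_322

/-! Row 154, T0219, ROAD 801 (helper322): the thin slab estimate (input `H5` of helper540's
assembly). -/

set_option autoImplicit false

namespace Crest.Agent.R154.Slab322

open scoped ENNReal
open B5A

variable {BX BY G : Type*}

/-- the sites (position, depth) read by a list of blocks placed at position `x`, depth `a` -/
def TT [Add G] {B : Type*} (s : B → Set (G × ℕ)) (h : B → ℕ) (z : B → G) :
    List B → G → ℕ → Set (G × ℕ)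
  | [], _, _ => ∅
  | b :: L, x, a => (fun p : G × ℕ => (x + p.1, a + p.2)) '' s b ∪ TT s h z L (x + z b) (a + h b)

lemma mem_TT [AddCommGroup G] {B : Type*} (s : B → Set (G × ℕ)) (h : B → ℕ) (z : B → G)
    (L : List B) (x : G) (a : ℕ) (y : G) (k : ℕ) (hy : (y, k) ∈ TT s h z L x a) :
    ∃ A b R, L = A ++ b :: R ∧ ∃ p ∈ s b, y = x + (A.map z).sum + p.1 ∧ k = a + HT h A + p.2 := by
  induction L generalizing x a with
  | nil => exact absurd hy (Set.notMem_empty _)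
  | cons b L ih =>
    rcases hy with ⟨p, hp, he⟩ | hy
    · refine ⟨[], b, L, rfl, p, hp, ?_, ?_⟩
      · have := congrArg Prod.fst he
        simp only at this
        rw [← this]; simp
      · have := congrArg Prod.snd he
        simp only at this
        rw [← this]; simp [HT_nil]
    · obtain ⟨A, b', R, hL, p, hp, h1, h2⟩ := ih _ _ hy
      refine ⟨b :: A, b', R, by rw [hL]; rfl, p, hp, ?_, ?_⟩
      · rw [h1, List.map_cons, List.sum_cons]; abel
      · rw [h2, HT_cons]; omega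

open Classical in
lemma tsum_le_of_exists {ι κ : Type*} (f : ι → ℝ≥0∞) (φ : κ → ι) (P : κ → Prop)
    (h : ∀ i, f i ≠ 0 → ∃ t, P t ∧ φ t = i) :
    ∑' i, f i ≤ ∑' t, if P t then f (φ t) else 0 := by
  have h1 : ∀ i, f i ≤ ∑' t, if (φ t = i ∧ P t) then f i else 0 := by
    intro i
    by_cases hi : f i = 0
    · rw [hi]; exact zero_le
    · obtain ⟨t, ht, hti⟩ := h i hi
      refine le_trans ?_ (ENNReal.le_tsum t)
      rw [if_pos ⟨hti, ht⟩]
  refine (ENNReal.tsum_le_tsum h1).trans ?_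
  rw [ENNReal.tsum_comm]
  refine ENNReal.tsum_le_tsum fun t => ?_
  by_cases ht : P t
  · rw [if_pos ht, tsum_eq_single (φ t)]
    · rw [if_pos ⟨rfl, ht⟩]
    · intro i hi
      rw [if_neg]
      rintro ⟨h, -⟩
      exact hi h.symm
  · rw [if_neg ht]
    simp [ht]

section slab

variable [AddCommGroup G] (ΛX : BX → ℝ≥0∞) (ΛY : BY → ℝ≥0∞) (hX : BX → ℕ) (hY : BY → ℕ)
  (zX : BX → G) (zY : BY → G) (sX : BX → Set (G × ℕ)) (sY : BY → Set (G × ℕ))

/-- blocks `b, b'` after the lists `A, A'` have a common site at depth `k` -/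
def Cd (k : ℕ) (w : G) (bb : BX × BY) (AA : List BX × List BY) : Prop :=
  ∃ p ∈ sX bb.1, ∃ p' ∈ sY bb.2, HT hX AA.1 + p.2 = k ∧ HT hY AA.2 + p'.2 = k ∧
    (AA.1.map zX).sum + p.1 = w + (AA.2.map zY).sum + p'.1

open Classical in
noncomputable def Cw (k : ℕ) (w : G) (bb : BX × BY) : ℝ≥0∞ :=
  ∑' AA : List BX × List BY,
    if Cd hX hY zX zY sX sY k w bb AA then LW ΛX AA.1 * LW ΛY AA.2 else 0

open Classical in
/-- weight of the pairs of lists of height `n` with a common site at depth `k` -/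
noncomputable def Wk (n k : ℕ) (w : G) : ℝ≥0∞ :=
  ∑' q : List BX × List BY, if HT hX q.1 = n ∧ HT hY q.2 = n ∧
    ∃ y, (y, k) ∈ TT sX hX zX q.1 0 0 ∧ (y, k) ∈ TT sY hY zY q.2 w 0 then
      LW ΛX q.1 * LW ΛY q.2 else 0

lemma Wk_le (h1X : ∀ b, 1 ≤ hX b) (h1Y : ∀ b, 1 ≤ hY b) (hΛX : ∑' b, ΛX b = 1)
    (hΛY : ∑' b, ΛY b = 1) (n k : ℕ) (w : G) :
    Wk ΛX ΛY hX hY zX zY sX sY n k w
      ≤ ∑' bb : BX × BY, (ΛX bb.1 * ΛY bb.2) * Cw ΛX ΛY hX hY zX zY sX sY k w bb := by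
  classical
  set F : List BX × List BY → ℝ≥0∞ := fun q => if HT hX q.1 = n ∧ HT hY q.2 = n ∧
    ∃ y, (y, k) ∈ TT sX hX zX q.1 0 0 ∧ (y, k) ∈ TT sY hY zY q.2 w 0 then
      LW ΛX q.1 * LW ΛY q.2 else 0 with hF
  set φ : (BX × BY) × (List BX × List BY) × (List BX × List BY) → List BX × List BY :=
    fun t => (t.2.1.1 ++ t.1.1 :: t.2.2.1, t.2.1.2 ++ t.1.2 :: t.2.2.2) with hφ
  have hstep := tsum_le_of_exists F φ
    (fun t => Cd hX hY zX zY sX sY k w t.1 t.2.1) (by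
      rintro ⟨LX, LY⟩ hq
      have hc : HT hX LX = n ∧ HT hY LY = n ∧
          ∃ y, (y, k) ∈ TT sX hX zX LX 0 0 ∧ (y, k) ∈ TT sY hY zY LY w 0 := by
        by_contra hcon
        exact hq (by simp only [hF]; rw [if_neg hcon])
      obtain ⟨-, -, y, hyX, hyY⟩ := hc
      obtain ⟨A, b, R, hL, p, hp, e1, e2⟩ := mem_TT sX hX zX LX 0 0 y k hyX
      obtain ⟨A', b', R', hL', p', hp', e1', e2'⟩ := mem_TT sY hY zY LY w 0 y k hyY
      refine ⟨((b, b'), (A, A'), (R, R')), ⟨p, hp, p', hp', by simp only; omega,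
        by simp only; omega, ?_⟩, ?_⟩
      · simp only
        rw [← e1', e1, zero_add]
      · simp only [hφ]
        rw [← hL, ← hL'])
  refine (le_of_eq rfl).trans (hstep.trans ?_)
  rw [ENNReal.tsum_prod']
  refine ENNReal.tsum_le_tsum fun bb => ?_
  rw [ENNReal.tsum_prod', Cw, ← ENNReal.tsum_mul_left]
  refine ENNReal.tsum_le_tsum fun AA => ?_
  by_cases hC : Cd hX hY zX zY sX sY k w bb AA
  · rw [if_pos hC]
    simp only [if_pos hC]
    calc ∑' RR : List BX × List BY, F (φ (bb, AA, RR))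
        ≤ ∑' RR : List BX × List BY, (ΛX bb.1 * ΛY bb.2 * (LW ΛX AA.1 * LW ΛY AA.2)) *
          ((if HT hX RR.1 = n - HT hX AA.1 - hX bb.1 then LW ΛX RR.1 else 0) *
           (if HT hY RR.2 = n - HT hY AA.2 - hY bb.2 then LW ΛY RR.2 else 0)) := by
          refine ENNReal.tsum_le_tsum fun RR => ?_
          simp only [hF, hφ]
          split_ifs with hcond h2 h3 h3
          · rw [LW_append, LW_append, LW_cons, LW_cons]
            refine le_of_eq ?_
            ring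
          · exfalso
            apply h3
            have := hcond.2.1
            rw [HT_append, HT_cons] at this
            omega
          · exfalso
            apply h2
            have := hcond.1
            rw [HT_append, HT_cons] at this
            omega
          · exfalso
            apply h2
            have := hcond.1
            rw [HT_append, HT_cons] at this
            omega
          all_goals exact zero_le
      _ ≤ (ΛX bb.1 * ΛY bb.2 * (LW ΛX AA.1 * LW ΛY AA.2)) * 1 := by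
          rw [ENNReal.tsum_mul_left]
          refine mul_le_mul_right ?_ _
          rw [ENNReal.tsum_prod']
          simp_rw [ENNReal.tsum_mul_left]
          rw [ENNReal.tsum_mul_right]
          exact (mul_le_mul' (U_le_one ΛX hX h1X hΛX _) (U_le_one ΛY hY h1Y hΛY _)).trans
            (by rw [one_mul])
      _ = _ := by rw [mul_one]
  · simp [hC]

lemma sum_window {B : Type*} (Λ : B → ℝ≥0∞) (h : B → ℕ) (h1 : ∀ b, 1 ≤ h b)
    (hΛ : ∑' b, Λ b = 1) (k r : ℕ) :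
    (∑' A : List B, if HT h A < k ∧ k ≤ HT h A + r then LW Λ A else 0) ≤ r := by
  classical
  calc (∑' A : List B, if HT h A < k ∧ k ≤ HT h A + r then LW Λ A else 0)
      ≤ ∑' A : List B, ∑ α ∈ Finset.Ico (k - r) k, (if HT h A = α then LW Λ A else 0) := by
        refine ENNReal.tsum_le_tsum fun A => ?_
        by_cases hA : HT h A < k ∧ k ≤ HT h A + r
        · rw [if_pos hA]
          refine le_trans ?_ (Finset.single_le_sum
            (f := fun α => if HT h A = α then LW Λ A else 0) (fun _ _ => zero_le)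
            (Finset.mem_Ico.2 (⟨by omega, hA.1⟩ : k - r ≤ HT h A ∧ HT h A < k)))
          simp
        · rw [if_neg hA]; exact zero_le
    _ = ∑ α ∈ Finset.Ico (k - r) k, U Λ h α := by
        rw [Summable.tsum_finsetSum (fun _ _ => ENNReal.summable)]
        rfl
    _ ≤ ∑ α ∈ Finset.Ico (k - r) k, 1 := Finset.sum_le_sum fun α _ => U_le_one Λ h h1 hΛ α
    _ ≤ r := by
        rw [Finset.sum_const, Nat.card_Ico, nsmul_eq_mul, mul_one]
        exact_mod_cast (by omega : k - (k - r) ≤ r)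

lemma Cw_le1 (h1X : ∀ b, 1 ≤ hX b) (h1Y : ∀ b, 1 ≤ hY b) (hΛX : ∑' b, ΛX b = 1)
    (hΛY : ∑' b, ΛY b = 1) (hsX : ∀ b, ∀ p ∈ sX b, 1 ≤ p.2 ∧ p.2 ≤ hX b)
    (hsY : ∀ b, ∀ p ∈ sY b, 1 ≤ p.2 ∧ p.2 ≤ hY b) (k : ℕ) (w : G) (bb : BX × BY) :
    Cw ΛX ΛY hX hY zX zY sX sY k w bb ≤ (hX bb.1 : ℝ≥0∞) * (hY bb.2 : ℝ≥0∞) := by
  classical
  calc Cw ΛX ΛY hX hY zX zY sX sY k w bb
      ≤ ∑' AA : List BX × List BY,
          (if HT hX AA.1 < k ∧ k ≤ HT hX AA.1 + hX bb.1 then LW ΛX AA.1 else 0) *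
          (if HT hY AA.2 < k ∧ k ≤ HT hY AA.2 + hY bb.2 then LW ΛY AA.2 else 0) := by
        refine ENNReal.tsum_le_tsum fun AA => ?_
        by_cases hC : Cd hX hY zX zY sX sY k w bb AA
        · rw [if_pos hC]
          obtain ⟨p, hp, p', hp', e1, e2, -⟩ := hC
          have := hsX _ p hp
          have := hsY _ p' hp'
          rw [if_pos ⟨by omega, by omega⟩, if_pos ⟨by omega, by omega⟩]
        · rw [if_neg hC]; exact zero_le
    _ ≤ _ := by
        rw [ENNReal.tsum_prod']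
        simp_rw [ENNReal.tsum_mul_left]
        rw [ENNReal.tsum_mul_right]
        exact mul_le_mul' (sum_window ΛX hX h1X hΛX k _) (sum_window ΛY hY h1Y hΛY k _)

lemma Cw_le2 (h1Y : ∀ b, 1 ≤ hY b) (hΛY : ∑' b, ΛY b = 1)
    (hsX : ∀ b, ∀ p ∈ sX b, 1 ≤ p.2 ∧ p.2 ≤ hX b)
    (hfX : ∀ b, (sX b).Finite) (hfY : ∀ b, (sY b).Finite) (k : ℕ) (w : G) (bb : BX × BY)
    (q : ℝ≥0∞) (T : ℕ) (hq : ∀ α, T ≤ α → ∀ x, Uz ΛX hX zX α x ≤ q) (hk : T + hX bb.1 ≤ k) :
    Cw ΛX ΛY hX hY zX zY sX sY k w bb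
      ≤ ((hfX bb.1).toFinset.card * (hfY bb.2).toFinset.card : ℕ) * q := by
  classical
  calc Cw ΛX ΛY hX hY zX zY sX sY k w bb
      ≤ ∑' AA : List BX × List BY, ∑ p ∈ (hfX bb.1).toFinset, ∑ p' ∈ (hfY bb.2).toFinset,
          (if HT hX AA.1 + p.2 = k ∧ HT hY AA.2 + p'.2 = k ∧
            (AA.1.map zX).sum + p.1 = w + (AA.2.map zY).sum + p'.1 then
            LW ΛX AA.1 * LW ΛY AA.2 else 0) := by
        refine ENNReal.tsum_le_tsum fun AA => ?_
        by_cases hC : Cd hX hY zX zY sX sY k w bb AA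
        · rw [if_pos hC]
          obtain ⟨p, hp, p', hp', e⟩ := hC
          refine le_trans ?_ (Finset.single_le_sum (fun _ _ => zero_le)
            ((hfX bb.1).mem_toFinset.2 hp))
          refine le_trans ?_ (Finset.single_le_sum (fun _ _ => zero_le)
            ((hfY bb.2).mem_toFinset.2 hp'))
          rw [if_pos e]
        · rw [if_neg hC]; exact zero_le
    _ = ∑ p ∈ (hfX bb.1).toFinset, ∑ p' ∈ (hfY bb.2).toFinset,
          ∑' AA : List BX × List BY, (if HT hX AA.1 + p.2 = k ∧ HT hY AA.2 + p'.2 = k ∧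
            (AA.1.map zX).sum + p.1 = w + (AA.2.map zY).sum + p'.1 then
            LW ΛX AA.1 * LW ΛY AA.2 else 0) := by
        rw [Summable.tsum_finsetSum (fun _ _ => ENNReal.summable)]
        refine Finset.sum_congr rfl fun p _ => ?_
        rw [Summable.tsum_finsetSum (fun _ _ => ENNReal.summable)]
    _ ≤ ∑ p ∈ (hfX bb.1).toFinset, ∑ p' ∈ (hfY bb.2).toFinset, q := by
        refine Finset.sum_le_sum fun p hp => Finset.sum_le_sum fun p' hp' => ?_
        have hp1 := hsX _ p ((hfX bb.1).mem_toFinset.1 hp)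
        rw [ENNReal.tsum_prod', ENNReal.tsum_comm]
        calc ∑' A' : List BY, ∑' A : List BX, (if HT hX A + p.2 = k ∧ HT hY A' + p'.2 = k ∧
              (A.map zX).sum + p.1 = w + (A'.map zY).sum + p'.1 then LW ΛX A * LW ΛY A' else 0)
            ≤ ∑' A' : List BY, (if HT hY A' = k - p'.2 then LW ΛY A' else 0) * q := by
              refine ENNReal.tsum_le_tsum fun A' => ?_
              by_cases hA' : HT hY A' = k - p'.2
              · rw [if_pos hA']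
                calc _ ≤ ∑' A : List BX, LW ΛY A' * (if HT hX A = k - p.2 ∧
                        (A.map zX).sum = w + (A'.map zY).sum + p'.1 - p.1 then
                        LW ΛX A else 0) := by
                      refine ENNReal.tsum_le_tsum fun A => ?_
                      by_cases hA : HT hX A + p.2 = k ∧ HT hY A' + p'.2 = k ∧
                        (A.map zX).sum + p.1 = w + (A'.map zY).sum + p'.1
                      · rw [if_pos hA, if_pos ⟨by omega, by rw [← hA.2.2]; abel⟩, mul_comm]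
                      · rw [if_neg hA]; exact zero_le
                  _ = LW ΛY A' * Uz ΛX hX zX (k - p.2) (w + (A'.map zY).sum + p'.1 - p.1) := by
                      rw [ENNReal.tsum_mul_left]; rfl
                  _ ≤ _ := mul_le_mul_right (hq _ (by omega) _) _
              · rw [if_neg hA', zero_mul]
                refine le_of_eq (ENNReal.tsum_eq_zero.2 fun A => ?_)
                rw [if_neg]
                rintro ⟨-, h, -⟩
                omega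
          _ = U ΛY hY (k - p'.2) * q := by rw [ENNReal.tsum_mul_right]; rfl
          _ ≤ 1 * q := mul_le_mul_left (U_le_one ΛY hY h1Y hΛY _) _
          _ = q := one_mul q
    _ = _ := by
        simp only [Finset.sum_const, nsmul_eq_mul]
        push_cast
        ring

/-- the weight of a contact at one fixed depth tends to zero -/
theorem Wk_small (h1X : ∀ b, 1 ≤ hX b) (h1Y : ∀ b, 1 ≤ hY b) (hΛX : ∑' b, ΛX b = 1)
    (hΛY : ∑' b, ΛY b = 1) (hEX : ∑' b, ΛX b * (hX b : ℝ≥0∞) ≠ ⊤)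
    (hEY : ∑' b, ΛY b * (hY b : ℝ≥0∞) ≠ ⊤)
    (hsX : ∀ b, ∀ p ∈ sX b, 1 ≤ p.2 ∧ p.2 ≤ hX b)
    (hsY : ∀ b, ∀ p ∈ sY b, 1 ≤ p.2 ∧ p.2 ≤ hY b)
    (hfX : ∀ b, (sX b).Finite) (hfY : ∀ b, (sY b).Finite)
    (b1 b2 : BX) (hb1 : hX b1 = 1) (hb2 : hX b2 = 1)
    (hp1 : ΛX b1 ≠ 0) (hp2 : ΛX b2 ≠ 0) (hz : ∀ n : ℕ, n ≠ 0 → n • (zX b1 - zX b2) ≠ 0)
    (η : ℝ≥0∞) (hη : η ≠ 0) :
    ∃ T, ∀ k, T ≤ k → ∀ n w, Wk ΛX ΛY hX hY zX zY sX sY n k w ≤ η := by
  classical
  by_cases hηt : η = ⊤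
  · exact ⟨0, fun k _ n w => hηt ▸ le_top⟩
  set D : BX × BY → ℝ≥0∞ := fun bb => (ΛX bb.1 * ΛY bb.2) * ((hX bb.1 : ℝ≥0∞) * (hY bb.2 : ℝ≥0∞))
    with hD
  have hDfin : ∑' bb, D bb ≠ ⊤ := by
    have : ∑' bb, D bb = (∑' b, ΛX b * (hX b : ℝ≥0∞)) * (∑' b, ΛY b * (hY b : ℝ≥0∞)) := by
      simp only [hD]
      rw [ENNReal.tsum_prod', ← ENNReal.tsum_mul_right]
      refine tsum_congr fun b => ?_
      rw [← ENNReal.tsum_mul_left]
      refine tsum_congr fun b' => ?_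
      simp only
      ring
    rw [this]
    exact ENNReal.mul_ne_top hEX hEY
  have hη2 : η / 2 ≠ 0 := by
    simp [hη]
  have htend := ENNReal.tendsto_tsum_compl_atTop_zero hDfin
  have hev := htend.eventually (gt_mem_nhds (show (0 : ℝ≥0∞) < η / 2 from
    pos_iff_ne_zero.2 hη2))
  obtain ⟨s, hs⟩ := hev.exists
  -- finitely many pairs of blocks
  set Nn : ℝ≥0∞ := ∑ bb ∈ s, (((hfX bb.1).toFinset.card * (hfY bb.2).toFinset.card : ℕ) : ℝ≥0∞)
    with hNn
  have hNnt : Nn ≠ ⊤ := ENNReal.sum_ne_top.2 fun bb _ => ENNReal.natCast_ne_top _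
  obtain ⟨T, hT⟩ := conc ΛX hX zX h1X hΛX hEX b1 b2 hb1 hb2 hp1 hp2 hz (η / 2 / (Nn + 1))
    (by
      rw [Ne, ENNReal.div_eq_zero_iff, not_or]
      exact ⟨hη2, ENNReal.add_ne_top.2 ⟨hNnt, ENNReal.one_ne_top⟩⟩)
  refine ⟨T + ∑ bb ∈ s, hX bb.1, fun k hk n w => ?_⟩
  refine (Wk_le ΛX ΛY hX hY zX zY sX sY h1X h1Y hΛX hΛY n k w).trans ?_
  set g : BX × BY → ℝ≥0∞ := fun bb => (ΛX bb.1 * ΛY bb.2) * Cw ΛX ΛY hX hY zX zY sX sY k w bb
    with hg
  have hgD : ∀ bb, g bb ≤ D bb := fun bb =>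
    mul_le_mul_right (Cw_le1 ΛX ΛY hX hY zX zY sX sY h1X h1Y hΛX hΛY hsX hsY k w bb) _
  have hle1 : ∀ b, ΛX b ≤ 1 := fun b => hΛX ▸ ENNReal.le_tsum b
  have hle2 : ∀ b, ΛY b ≤ 1 := fun b => hΛY ▸ ENNReal.le_tsum b
  have hgs : ∀ bb ∈ s, g bb ≤ (((hfX bb.1).toFinset.card * (hfY bb.2).toFinset.card : ℕ) : ℝ≥0∞)
      * (η / 2 / (Nn + 1)) := by
    intro bb hbb
    have hle : hX bb.1 ≤ ∑ bb ∈ s, hX bb.1 :=
      Finset.single_le_sum (f := fun bb : BX × BY => hX bb.1) (fun _ _ => Nat.zero_le _) hbb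
    calc g bb ≤ 1 * Cw ΛX ΛY hX hY zX zY sX sY k w bb :=
          mul_le_mul_left ((mul_le_mul' (hle1 _) (hle2 _)).trans (by rw [one_mul])) _
      _ = Cw ΛX ΛY hX hY zX zY sX sY k w bb := one_mul _
      _ ≤ _ := Cw_le2 ΛX ΛY hX hY zX zY sX sY h1Y hΛY hsX hfX hfY k w bb _ T hT (by omega)
  calc ∑' bb, g bb = (∑ bb ∈ s, g bb) + ∑' bb : {x // x ∉ s}, g bb :=
        (ENNReal.sum_add_tsum_compl s g).symm
    _ ≤ (∑ bb ∈ s, (((hfX bb.1).toFinset.card * (hfY bb.2).toFinset.card : ℕ) : ℝ≥0∞)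
          * (η / 2 / (Nn + 1))) + ∑' bb : {x // x ∉ s}, D bb :=
        add_le_add (Finset.sum_le_sum hgs) (ENNReal.tsum_le_tsum fun bb => hgD _)
    _ ≤ η / 2 + η / 2 := by
        refine add_le_add ?_ hs.le
        rw [← Finset.sum_mul]
        change Nn * (η / 2 / (Nn + 1)) ≤ η / 2
        calc Nn * (η / 2 / (Nn + 1)) ≤ (Nn + 1) * (η / 2 / (Nn + 1)) :=
              mul_le_mul_left le_self_add _
          _ = η / 2 := ENNReal.mul_div_cancel (by simp)
              (ENNReal.add_ne_top.2 ⟨hNnt, ENNReal.one_ne_top⟩)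
    _ = η := ENNReal.add_halves η

open Classical in
/-- **H5** (thin slab). -/
theorem H5 (h1X : ∀ b, 1 ≤ hX b) (h1Y : ∀ b, 1 ≤ hY b) (hΛX : ∑' b, ΛX b = 1)
    (hΛY : ∑' b, ΛY b = 1) (hEX : ∑' b, ΛX b * (hX b : ℝ≥0∞) ≠ ⊤)
    (hEY : ∑' b, ΛY b * (hY b : ℝ≥0∞) ≠ ⊤)
    (hsX : ∀ b, ∀ p ∈ sX b, 1 ≤ p.2 ∧ p.2 ≤ hX b)
    (hsY : ∀ b, ∀ p ∈ sY b, 1 ≤ p.2 ∧ p.2 ≤ hY b)
    (hfX : ∀ b, (sX b).Finite) (hfY : ∀ b, (sY b).Finite)
    (b1 b2 : BX) (hb1 : hX b1 = 1) (hb2 : hX b2 = 1)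
    (hp1 : ΛX b1 ≠ 0) (hp2 : ΛX b2 ≠ 0) (hz : ∀ n : ℕ, n ≠ 0 → n • (zX b1 - zX b2) ≠ 0)
    (s : ℕ) (η : ℝ≥0∞) (hη : η ≠ 0) :
    ∃ T, ∀ a, T ≤ a → ∀ n, ∀ w : G, ∑' LX : List BX, ∑' LY : List BY,
      (if HT hX LX = n ∧ HT hY LY = n ∧ ∃ y k, a ≤ k ∧ k < a + s ∧
          (y, k) ∈ TT sX hX zX LX 0 0 ∧ (y, k) ∈ TT sY hY zY LY w 0
        then LW ΛX LX * LW ΛY LY else 0) ≤ η := by
  obtain ⟨T, hT⟩ := Wk_small ΛX ΛY hX hY zX zY sX sY h1X h1Y hΛX hΛY hEX hEY hsX hsY hfX hfY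
    b1 b2 hb1 hb2 hp1 hp2 hz (η / (s + 1 : ℕ)) (by
      rw [Ne, ENNReal.div_eq_zero_iff, not_or]
      exact ⟨hη, ENNReal.natCast_ne_top _⟩)
  refine ⟨T, fun a ha n w => ?_⟩
  rw [← ENNReal.tsum_prod]
  calc ∑' q : List BX × List BY, (if HT hX q.1 = n ∧ HT hY q.2 = n ∧ ∃ y k, a ≤ k ∧ k < a + s ∧
          (y, k) ∈ TT sX hX zX q.1 0 0 ∧ (y, k) ∈ TT sY hY zY q.2 w 0
        then LW ΛX q.1 * LW ΛY q.2 else 0)
      ≤ ∑' q : List BX × List BY, ∑ k ∈ Finset.Ico a (a + s),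
        (if HT hX q.1 = n ∧ HT hY q.2 = n ∧
          ∃ y, (y, k) ∈ TT sX hX zX q.1 0 0 ∧ (y, k) ∈ TT sY hY zY q.2 w 0 then
          LW ΛX q.1 * LW ΛY q.2 else 0) := by
        refine ENNReal.tsum_le_tsum fun q => ?_
        split_ifs with hc
        · obtain ⟨h1, h2, y, k, hk1, hk2, hy1, hy2⟩ := hc
          refine le_trans ?_ (Finset.single_le_sum (fun _ _ => zero_le)
            (Finset.mem_Ico.2 ⟨hk1, hk2⟩))
          rw [if_pos ⟨h1, h2, y, hy1, hy2⟩]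
        · exact zero_le
    _ = ∑ k ∈ Finset.Ico a (a + s), Wk ΛX ΛY hX hY zX zY sX sY n k w := by
        rw [Summable.tsum_finsetSum (fun _ _ => ENNReal.summable)]
        rfl
    _ ≤ ∑ k ∈ Finset.Ico a (a + s), η / (s + 1 : ℕ) := by
        refine Finset.sum_le_sum fun k hk => hT k ?_ n w
        have := (Finset.mem_Ico.1 hk).1
        omega
    _ ≤ η := by
        rw [Finset.sum_const, Nat.card_Ico, nsmul_eq_mul, show a + s - a = s by omega]
        calc (s : ℝ≥0∞) * (η / (s + 1 : ℕ)) ≤ ((s + 1 : ℕ) : ℝ≥0∞) * (η / (s + 1 : ℕ)) :=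
              mul_le_mul_left (by exact_mod_cast Nat.le_succ s) _
          _ = η := ENNReal.mul_div_cancel (by simp) (ENNReal.natCast_ne_top _)

end slab

end Crest.Agent.R154.Slab322
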