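import Crest.Agent.R154.KWGen_843
import Crest.Agent.R154.KapBind2_138
import Crest.Agent.R154.Slab_322
import Crest.Agent.R154.NBTop_28

/-! Row 154 (S0219, ROAD 801), helper843: the concrete single walker block systems (600's blocks) in
419's letters: all facts an abstract assembly asks for, the thin slab H5, the two height one blocks. -/

set_option autoImplicit false

namespace Crest.Agent.R154.Inst843

open MeasureTheory ProbabilityTheory Crest.ProbabilityR.RandomEnvironment Crest.Agent.R154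
open Crest.Agent.R154.Flux132 (lev opp)
open Crest.Agent.R154.Flux566 (lw endp sitesL endp_append endp_eq_add)
open Crest.Agent.R154.NB28
open Crest.Agent.R154.B5A (LW HT)
open Crest.Agent.R154.KWB419
open Crest.Agent.R154.Sing600 (Blk wd htB LamB Irr isUp_wd htB_pos)
open scoped ENNReal

variable {d : ℕ}

/-- letters of the up walker -/
abbrev sX (u : Step d) : Blk u → Set (Site d × ℕ) := sU wd u
abbrev zX (u : Step d) : Blk u → Site d := zU wd htB u
/-- letters of the down walker -/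
abbrev sY (u : Step d) : Blk (opp u) → Set (Site d × ℕ) := sD wd u
abbrev zY (u : Step d) : Blk (opp u) → Site d := zD wd htB u

lemma hUp (u : Step d) (b : Blk u) : IsUp u (htB b) (wd b) := isUp_wd b

lemma hDn (u : Step d) (b : Blk (opp u)) : IsDn u (htB b) (wd b) :=
  (Sing600.isDn_iff u _ _).2 (isUp_wd b)

lemma catU_eq {v : Step d} (L : List (Blk v)) : catU wd L = Sing600.catR L := by
  induction L with
  | nil => rfl
  | cons b L ih => rw [catU, ih, Sing600.catR_cons]

lemma catD_eq {v : Step d} (L : List (Blk v)) : catD wd L = Sing600.catF L := by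
  induction L with
  | nil => rfl
  | cons b L ih => rw [catD, ih, Sing600.catF]

open Classical in
lemma tU (u : Step d) (n : ℕ) (F : List (Step d) → ℝ≥0∞) :
    (∑' l, if IsUp u n l then F l else 0)
      = ∑' L : List (Blk u), if HT htB L = n then F (catU wd L) else 0 := by
  simp only [catU_eq]
  exact Sing600.tsum_catR n F

open Classical in
lemma tD (u : Step d) (n : ℕ) (F : List (Step d) → ℝ≥0∞) :
    (∑' l, if IsDn u n l then F l else 0)
      = ∑' L : List (Blk (opp u)), if HT htB L = n then F (catD wd L) else 0 := by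
  simp only [catD_eq]
  rw [← Sing600.tsum_catF n F]
  exact tsum_congr fun l => if_congr (Sing600.isDn_iff u n l) rfl rfl

lemma wU (ν : Measure (Row d)) [IsProbabilityMeasure ν] (u : Step d) (L : List (Blk u)) :
    aw ν (catU wd L) = LW (LamB ν) L := by rw [catU_eq, Sing600.aw_catR]

lemma wD (ν : Measure (Row d)) [IsProbabilityMeasure ν] (u : Step d) (L : List (Blk (opp u))) :
    aw ν (catD wd L) = LW (LamB ν) L := by rw [catD_eq, Sing600.aw_catF]

lemma sX_bd (u : Step d) (b : Blk u) : ∀ p ∈ sX u b, 1 ≤ p.2 ∧ p.2 ≤ htB b := by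
  rintro p ⟨y, hy, h1, -⟩
  have := IsUp_start_sites u (hUp u b) hy
  omega

lemma sY_bd (u : Step d) (b : Blk (opp u)) : ∀ p ∈ sY u b, 1 ≤ p.2 ∧ p.2 ≤ htB b := by
  rintro p ⟨y, hy, h1, -⟩
  have := IsDn_start_sites u (hDn u b) hy
  omega

lemma fin_aux (u : Step d) (l : List (Site d)) :
    {p : Site d × ℕ | ∃ y ∈ l, lev u y = -(p.2 : ℤ) ∧ p.1 = y + p.2 • stepVec u}.Finite := by
  refine ((l.toFinset.finite_toSet).image (fun y : Site d =>
    (y + (-lev u y).toNat • stepVec u, (-lev u y).toNat))).subset ?_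
  rintro ⟨p1, p2⟩ ⟨y, hy, h1, h2⟩
  simp only at h1 h2
  have e : (-lev u y).toNat = p2 := by rw [h1]; simp
  refine ⟨y, by simpa using hy, ?_⟩
  simp only [e, h2]

lemma sX_fin (u : Step d) (b : Blk u) : (sX u b).Finite := fin_aux u _

lemma sY_fin (u : Step d) (b : Blk (opp u)) : (sY u b).Finite := fin_aux u _

lemma irr_one {u : Step d} {l : List (Step d)} (h : IsUp u 1 l) : Irr u 1 l := by
  refine ⟨h, le_rfl, fun l1 l2 e a b h1 h2 ha hb => ?_⟩
  have h3 := Sing600.isUp_append h1 h2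
  rw [← e] at h3
  have := Sing600.isUp_unique h h3
  omega

lemma aw_ne (ν : Measure (Row d)) [IsProbabilityMeasure ν]
    (hν : ∀ᵐ p ∂ν, ∀ e : Step d, 0 < p.1 e) (l : List (Step d)) (hl : (sitesL 0 l).Nodup) :
    aw ν l ≠ 0 := by
  obtain ⟨c, hc0, hc1, hc⟩ := FinE804.exists_c ν hν
  have := Flux566.ann_lw_ge ν (ENNReal.ofReal c) hc l 0 hl
  intro h0
  unfold aw at h0
  rw [h0, nonpos_iff_eq_zero] at this
  exact (pow_ne_zero _ (by simpa using hc0)) this

/-- the two blocks of height one -/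
theorem two (hd : 2 ≤ d) (ν : Measure (Row d)) [IsProbabilityMeasure ν]
    (hν : ∀ᵐ p ∂ν, ∀ e : Step d, 0 < p.1 e) (u : Step d) :
    ∃ b1 b2 : Blk u, htB b1 = 1 ∧ htB b2 = 1 ∧ LamB ν b1 ≠ 0 ∧ LamB ν b2 ≠ 0 ∧
      ∀ n : ℕ, n ≠ 0 → n • (zX u b1 - zX u b2) ≠ 0 := by
  obtain ⟨j, hj⟩ : ∃ j : Fin d, j ≠ u.1 := by
    have : Nontrivial (Fin d) := Fin.nontrivial_iff_two_le.2 hd
    exact exists_ne u.1
  set e : Step d := (j, true) with he
  have hle : lev u (stepVec e) = 0 := by
    unfold lev stepVec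
    have : (Pi.single e.1 (if e.2 then 1 else -1) : Site d) u.1 = 0 := by
      rw [Pi.single_apply, if_neg (Ne.symm hj)]
    rw [this]; simp
  have hne : stepVec e ≠ 0 := by
    intro h
    have := congrFun h j
    simp [stepVec, he] at this
  have h1 : IsUp u 1 [u] := by
    refine ⟨fun y hy => ?_, ?_⟩
    · simp only [sitesL, List.mem_cons, List.not_mem_nil, or_false] at hy
      subst hy
      rw [levZ]; simp
    · simp only [endp]
      rw [levA, levZ, levU]; simp
  have h2 : IsUp u 1 [e, u] := by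
    refine ⟨fun y hy => ?_, ?_⟩
    · simp only [sitesL, List.mem_cons, List.not_mem_nil, or_false] at hy
      rcases hy with rfl | rfl
      · rw [levZ]; simp
      · rw [levA, levZ, hle]; simp
    · simp only [endp]
      rw [levA, levA, levZ, hle, levU]; simp
  refine ⟨⟨(1, [u]), irr_one h1⟩, ⟨(1, [e, u]), irr_one h2⟩, rfl, rfl, ?_, ?_, ?_⟩
  · exact aw_ne ν hν [u] (by simp [sitesL])
  · refine aw_ne ν hν [e, u] ?_
    simp only [sitesL, List.nodup_cons, List.mem_cons, List.not_mem_nil, or_false, not_false_iff,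
      List.nodup_nil, and_true]
    rw [zero_add]
    exact fun h => hne h.symm
  · intro n hn h
    have hz : zX u ⟨(1, [u]), irr_one h1⟩ - zX u ⟨(1, [e, u]), irr_one h2⟩ = stepVec e := by
      show (-endp 0 [u] + (1 : ℕ) • stepVec u) - (-endp 0 [e, u] + (1 : ℕ) • stepVec u) = _
      simp only [endp]
      abel
    rw [hz] at h
    have := congrFun h j
    simp [stepVec, he] at this
    exact hn this

lemma TT_eq {B G : Type*} [AddCommGroup G] (s : B → Set (G × ℕ)) (h : B → ℕ) (z : B → G) :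
    ∀ (L : List B) (x : G) (a : ℕ), Slab322.TT s h z L x a = TT s h z L x a := by
  intro L
  induction L with
  | nil => intro x a; rfl
  | cons b L ih =>
    intro x a
    rw [Slab322.TT, TT, ih]
    congr 1
    ext p
    constructor
    · rintro ⟨q, hq, rfl⟩; exact ⟨q, hq, rfl⟩
    · rintro ⟨q, hq, rfl⟩; exact ⟨q, hq, rfl⟩

open Classical in
/-- the thin slab H5 for the two walkers -/
theorem h5 (hd : 2 ≤ d) (ν : Measure (Row d)) [IsProbabilityMeasure ν]
    (hν : ∀ᵐ p ∂ν, ∀ e : Step d, 0 < p.1 e) (u : Step d)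
    (hA : annealed (iidEnvironmentLaw ν) 0 (escapeEvent (B2d.dirVec u)) ≠ 0)
    (hB : annealed (iidEnvironmentLaw ν) 0 (escapeEvent (-B2d.dirVec u)) ≠ 0)
    (s : ℕ) (η : ℝ≥0∞) (hη : η ≠ 0) :
    ∃ T, ∀ a, T ≤ a → ∀ n, ∀ w : Site d, ∑' LX : List (Blk u), ∑' LY : List (Blk (opp u)),
      (if HT htB LX = n ∧ HT htB LY = n ∧ ∃ y k, a ≤ k ∧ k < a + s ∧
          (y, k) ∈ TT (sX u) htB (zX u) LX 0 0 ∧ (y, k) ∈ TT (sY u) htB (zY u) LY w 0
        then LW (LamB ν) LX * LW (LamB ν) LY else 0) ≤ η := by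
  obtain ⟨c, hc0, hc1, hU, hU'⟩ := KapBind138.renewal ν hν u hA hB
  obtain ⟨b1, b2, k1, k2, k3, k4, k5⟩ := two hd ν hν u
  have := Slab322.H5 (LamB ν) (LamB ν) htB htB (zX u) (zY u) (sX u) (sY u) (fun b => htB_pos b)
    (fun b => htB_pos b) (KapBind138.sum_one ν hc0 hU) (KapBind138.sum_one ν hc0 hU')
    (KapBind138.mean_ne_top ν hc0 hU) (KapBind138.mean_ne_top ν hc0 hU')
    (sX_bd u) (sY_bd u) (sX_fin u) (sY_fin u) b1 b2 k1 k2 k3 k4 k5 s η hη
  obtain ⟨T, hT⟩ := this
  refine ⟨T, fun a ha n w => le_trans (le_of_eq ?_) (hT a ha n w)⟩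
  refine tsum_congr fun L => tsum_congr fun L' => if_congr ?_ rfl rfl
  refine and_congr_right fun _ => and_congr_right fun _ => exists_congr fun y =>
    exists_congr fun k => and_congr_right fun _ => and_congr_right fun _ => ?_
  refine and_congr (Set.ext_iff.1 (TT_eq _ _ _ _ _ _).symm _)
    (Set.ext_iff.1 (TT_eq _ _ _ _ _ _).symm _)

end Crest.Agent.R154.Inst843
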