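import Crest.Agent.R154.JWord_132
import Crest.Agent.R154.JBind4_132
import Crest.Agent.R154.BlkTail_24

/-! Row 154, block `d = 2`, (J6): a joint block of height `h ≤ R < 2h` with extent `≥ r` of the
same-level difference forces a deviation `≥ r/4` of one of the two walkers from any given tube,
before leaving the levels `[0, 4h)`; hence `h P(h ≤ R < 2h, B ≥ r) ≤ 2 p⁻³ P_ann(deviation)`. -/

set_option autoImplicit false
set_option linter.unusedSectionVars false
set_option linter.deprecated false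

namespace Crest.Agent.R154.J6_24

open MeasureTheory ProbabilityTheory Filter Set Crest.ProbabilityR.RandomEnvironment
open Crest.Agent.R154.Mk561 Crest.Agent.R154.Bind263 Crest.Agent.R154.B4Inst797
open Crest.Agent.R154.J132
open Crest.Agent.R154.Ren263 (Word pre hgt Stay Record len_pre hgt_zero hgt_shift measurableSet_Stay)
open Crest.Agent.R154.RenG263 (RecSys Reg tau tau_spec tau_min blk0 blks RegInf rest_mem reg_shift
  wordLaw RenewalG measurable_blks)
open scoped ENNReal Topology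

variable {d : ℕ} {u : Step d} {κ : ℝ} {R : ℕ}

/-- concatenation of a list of words -/
def flat {S : Type*} (w : List (Word S)) : List S := List.flatten (w : List (List S))

/-- lateral displacement of a word of marks -/
def wl (i : Fin d) (w : List (Mark d)) : ℤ := (List.map stp w).sum i

/-- height of a word of marks -/
def wh (u : Step d) (w : List (Mark d)) : ℤ := (List.map (zht u) w).sum

/-- same-level difference of absolute value `≥ r` inside a joint word (next joint cut included) -/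
def Bad (u : Step d) (i : Fin d) (r : ℕ) :
    Set (List (Word (Mark d)) × List (Word (Mark d))) :=
  {w | ∃ a b : List (Mark d), a <+: flat w.1 ∧ b <+: flat w.2 ∧ wh u a = wh u b ∧
    (r : ℤ) ≤ |wl i a - wl i b|}

lemma bad_zero (i : Fin d) (w) : w ∈ Bad u i 0 :=
  ⟨[], [], List.nil_prefix, List.nil_prefix, rfl, by simp [wl]⟩

/-- time of the `m`-th cut -/
noncomputable def Tm (ρ : RecSys (mht (B2d.dirVec u))) : ℕ → MPath d → ℕ
  | 0, _ => 0
  | m + 1, s => tau ρ s + Tm ρ m (RenG263.rest ρ s)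

lemma pre_add {S : Type*} (n m : ℕ) (s : ℕ → S) :
    pre (n + m) s = List.append (pre n s) (pre m (Ren263.shift n s)) := by
  unfold pre Ren263.shift
  rw [List.range_add, List.map_append, List.map_map]
  rfl

lemma flat_prf (m : ℕ) (s : MPath d) :
    flat (prf m (blks (rhoU u κ R) s)) = pre (Tm (rhoU u κ R) m s) s := by
  induction m generalizing s with
  | zero => rfl
  | succ m ih =>
    rw [Nat.add_comm m 1, prf_add, sh_blks]
    have h1 : Tm (rhoU u κ R) (1 + m) s
        = tau (rhoU u κ R) s + Tm (rhoU u κ R) m (RenG263.rest (rhoU u κ R) s) := by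
      rw [Nat.add_comm 1 m]; rfl
    rw [h1, pre_add]
    have h2 : ∀ a b : List (Word (Mark d)), flat (a ++ b) = List.append (flat a) (flat b) :=
      fun a b => by
        unfold flat
        exact List.flatten_append
    rw [h2, ih]
    have h3 : flat (prf 1 (blks (rhoU u κ R) s)) = blk0 (rhoU u κ R) s := by
      change flat [blk0 (rhoU u κ R) s] = _
      unfold flat
      exact List.append_nil _
    rw [h3]
    rfl

lemma blks_iter (q : ℕ) (s : MPath d) :
    blks (rhoU u κ R) ((RenG263.rest (rhoU u κ R))^[q] s) = sh q (blks (rhoU u κ R) s) := by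
  induction q generalizing s with
  | zero => rw [sh_zero]; rfl
  | succ q ih =>
    rw [Function.iterate_succ_apply, ih, ← sh_blks, sh_sh, Nat.add_comm]

lemma iter_mem {s : MPath d} (hs : s ∈ RegInf (rhoU u κ R)) (q : ℕ) :
    (RenG263.rest (rhoU u κ R))^[q] s ∈ RegInf (rhoU u κ R) := by
  induction q generalizing s with
  | zero => exact hs
  | succ q ih =>
    rw [Function.iterate_succ_apply]
    exact ih (rest_mem hs)

/-- the `m`-th cut is the first hitting time of its level -/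
lemma hit_Tm {s : MPath d} (hs : s ∈ RegInf (rhoU u κ R)) (m : ℕ) :
    Hit u (H (Yw u) m (blks (rhoU u κ R) s)) (Tm (rhoU u κ R) m s) s ∧
      (RenG263.rest (rhoU u κ R))^[m] s = Ren263.shift (Tm (rhoU u κ R) m s) s := by
  induction m generalizing s with
  | zero =>
    refine ⟨?_, ?_⟩
    · rw [H_zero]; exact hit_zero u s
    · change s = Ren263.shift 0 s
      rw [Ren263.shift_zero]
  | succ m ih =>
    obtain ⟨h1, h2⟩ := ih (rest_mem hs)
    have hHit := hit_tau hs
    refine ⟨?_, ?_⟩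
    · have e : H (Yw u) (m + 1) (blks (rhoU u κ R) s)
          = Yw u (blk0 (rhoU u κ R) s)
            + H (Yw u) m (blks (rhoU u κ R) (RenG263.rest (rhoU u κ R) s)) := by
        rw [Nat.add_comm m 1, H_add, sh_blks]
        have e0 : H (Yw u) 1 (blks (rhoU u κ R) s) = Yw u (blk0 (rhoU u κ R) s) := by
          simp [H]; rfl
        rw [e0]
      rw [e]
      exact hit_comp hHit h1
    · rw [Function.iterate_succ_apply, h2]
      change Ren263.shift _ (Ren263.shift _ s) = _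
      rw [Ren263.shift_shift]
      rfl

lemma prefix_pre {n : ℕ} {s : MPath d} {a : List (Mark d)} (h : a <+: (pre n s : List (Mark d))) :
    ∃ j ≤ n, a = pre j s := by
  have h1 := List.prefix_iff_eq_take.1 h
  have h2 : a.length ≤ n := by
    have := h.length_le
    simpa [pre] using this
  refine ⟨a.length, h2, ?_⟩
  conv_lhs => rw [h1]
  unfold pre
  rw [← List.map_take, List.take_range, Nat.min_eq_left h2]

lemma wh_pre (n : ℕ) (s : MPath d) : wh u (pre n s) = zh u s n := wzht_pre u n s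

lemma wl_pre (i : Fin d) (n : ℕ) (s : MPath d) : wl i (pre n s) = pos 0 s n i := by
  unfold wl
  rw [stp_pre]

lemma pos_add_shift (s : MPath d) (n k : ℕ) :
    pos 0 s (n + k) = pos 0 s n + pos 0 (Ren263.shift n s) k := by
  unfold pos Ren263.shift
  rw [Finset.sum_range_add, zero_add, zero_add, zero_add]

/-- deviation `≥ r/4` from the tube `v` before leaving the levels `[0, n)` (marked paths) -/
def Dev (u : Step d) (i : Fin d) (v : ℤ → ℤ) (n r : ℕ) : Set (MPath d) :=
  {s | ∃ t, (∀ j ≤ t, 0 ≤ zh u s j ∧ zh u s j < n) ∧ (r : ℤ) ≤ 4 * |pos 0 s t i - v (zh u s t)|}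

section joint
variable {A : Type*}

lemma sh_zero' (a : ℕ → A) : sh 0 a = a := by funext k; simp [sh]

lemma sh_sh' (n m : ℕ) (a : ℕ → A) : sh n (sh m a) = sh (m + n) a := by
  funext k; simp [sh, add_assoc]

lemma iter_rest (Y : A → ℕ) (k : ℕ) (p : (ℕ → A) × (ℕ → A)) :
    (rest Y)^[k] p = sh2 (Qk Y k p).1 (Qk Y k p).2 p := by
  induction k generalizing p with
  | zero =>
    change p = sh2 0 0 p
    unfold sh2
    rw [sh_zero', sh_zero']
  | succ k ih =>
    rw [Function.iterate_succ_apply, ih, Qk_succ, Prod.fst_add, Prod.snd_add]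
    unfold sh2
    unfold rest sh2
    simp only [sh_sh']

lemma H_Qk {Y : A → ℕ} (hY : ∀ a, 1 ≤ Y a) (k : ℕ) {p : (ℕ → A) × (ℕ → A)} (hp : p ∈ AllGood Y) :
    H Y (Qk Y k p).1 p.1 = H Y (Qk Y k p).2 p.2 := by
  induction k generalizing p with
  | zero => simp [Qk, H_zero]
  | succ k ih =>
    have h1 := ih (allGood_rest hp)
    have h2 := (mem_fst_idx hY (hp 0)).2.1
    simp only [Function.iterate_zero, id_eq] at h2
    rw [Qk_succ, Prod.fst_add, Prod.snd_add, H_add, H_add, h2]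
    have h1' : H Y (Qk Y k (rest Y p)).1 (sh (idx Y p).1 p.1)
        = H Y (Qk Y k (rest Y p)).2 (sh (idx Y p).2 p.2) := h1
    rw [h1']

end joint

/-- **the deterministic step**: a bad joint word in the levels `[0, 4h)` forces a deviation -/
theorem dev_of_bad {s s' : MPath d} (hs : s ∈ RegInf (rhoU u κ R))
    (hs' : s' ∈ RegInf (rhoU u κ R)) (i : Fin d) (v : ℤ → ℤ) {h r k : ℕ}
    (hall : (blks (rhoU u κ R) s, blks (rhoU u κ R) s') ∈ AllGood (Yw u))
    (hc : H (Yw u) (Qk (Yw u) k (blks (rhoU u κ R) s, blks (rhoU u κ R) s')).1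
      (blks (rhoU u κ R) s) < 2 * h)
    (hR : R0 (Yw u) ((rest (Yw u))^[k] (blks (rhoU u κ R) s, blks (rhoU u κ R) s')) < 2 * h)
    (hbad : wdk (Yw u) k (blks (rhoU u κ R) s, blks (rhoU u κ R) s') ∈ Bad u i r) :
    s ∈ Dev u i v (4 * h) r ∨ s' ∈ Dev u i v (4 * h) r := by
  set ρ := rhoU u κ R with hρ
  set p : (ℕ → Word (Mark d)) × (ℕ → Word (Mark d)) := (blks ρ s, blks ρ s') with hp
  set q := Qk (Yw u) k p with hq
  set σ := (RenG263.rest ρ)^[q.1] s with hσ
  set σ' := (RenG263.rest ρ)^[q.2] s' with hσ'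
  have hσm : σ ∈ RegInf ρ := iter_mem hs _
  have hσm' : σ' ∈ RegInf ρ := iter_mem hs' _
  have hit1 := hit_Tm hs q.1
  have hit2 := hit_Tm hs' q.2
  have hHq : H (Yw u) q.1 (blks ρ s) = H (Yw u) q.2 (blks ρ s') := H_Qk (one_le_Yw u) k hall
  have hrk : (rest (Yw u))^[k] p = (blks ρ σ, blks ρ σ') := by
    rw [iter_rest, hσ, hσ', blks_iter, blks_iter]
    rfl
  set q' := idx (Yw u) (blks ρ σ, blks ρ σ') with hq'
  have hgood : (blks ρ σ, blks ρ σ') ∈ Good (Yw u) := by rw [← hrk]; exact hall k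
  have hF := mem_fst_idx (one_le_Yw u) hgood
  rw [← hq'] at hF
  have hw : wdk (Yw u) k p = (prf q'.1 (blks ρ σ), prf q'.2 (blks ρ σ')) := by
    unfold wdk wd
    rw [hrk]
  have hR0 : H (Yw u) q'.1 (blks ρ σ) < 2 * h := by
    rw [hrk] at hR; exact hR
  have hHq' : H (Yw u) q'.1 (blks ρ σ) = H (Yw u) q'.2 (blks ρ σ') := hF.2.1
  have it1 := (hit_Tm hσm q'.1).1
  have it2 := (hit_Tm hσm' q'.2).1
  obtain ⟨a, b, ha, hb, hab, hr⟩ := hbad
  rw [hw] at ha hb
  simp only at ha hb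
  rw [flat_prf] at ha hb
  obtain ⟨j, hj, rfl⟩ := prefix_pre ha
  obtain ⟨j', hj', rfl⟩ := prefix_pre hb
  rw [wh_pre, wh_pre] at hab
  rw [wl_pre, wl_pre] at hr
  set n := Tm ρ q.1 s with hn
  set n' := Tm ρ q.2 s' with hn'
  have eσ : σ = Ren263.shift n s := hit1.2
  have eσ' : σ' = Ren263.shift n' s' := hit2.2
  set c : ℕ := H (Yw u) q.1 (blks ρ s) with hcdef
  rw [← hHq] at hit2
  rw [← hHq'] at it2
  set c' : ℕ := H (Yw u) q'.1 (blks ρ σ) with hc'def
  -- range of the levels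
  have rng : ∀ {τ ς : MPath d} {m T J : ℕ}, τ ∈ RegInf ρ → ς = Ren263.shift m τ →
      Hit u c m τ → Hit u c' T ς → J ≤ T →
      ∀ t ≤ m + J, 0 ≤ zh u τ t ∧ zh u τ t < ((4 * h : ℕ) : ℤ) := by
    intro τ ς m T J hτ e h1 h2 hJ t ht
    refine ⟨stay_zh.1 hτ.1 t, ?_⟩
    rcases Nat.lt_or_ge t m with hlt | hge
    · have := h1.2 t hlt
      push_cast
      omega
    · obtain ⟨t', rfl⟩ := Nat.exists_eq_add_of_le hge
      rw [zh_add, h1.1, ← e]
      have h3 : zh u ς t' ≤ c' := by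
        rcases Nat.lt_or_ge t' T with h4 | h4
        · exact (h2.2 t' h4).le
        · have : t' = T := by omega
          rw [this, h2.1]
      push_cast
      omega
  have e1 : zh u s (n + j) = c + zh u σ j := by rw [zh_add, hit1.1.1, eσ]
  have e2 : zh u s' (n' + j') = c + zh u σ' j' := by rw [zh_add, hit2.1.1, eσ']
  have f1 : pos 0 s (n + j) i = pos 0 s n i + pos 0 σ j i := by
    rw [pos_add_shift, eσ]; rfl
  have f2 : pos 0 s' (n' + j') i = pos 0 s' n' i + pos 0 σ' j' i := by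
    rw [pos_add_shift, eσ']; rfl
  by_contra hcon
  push Not at hcon
  obtain ⟨hd1, hd2⟩ := hcon
  have A1 : 4 * |pos 0 s (n + j) i - v (c + zh u σ j)| < r := by
    by_contra hx
    push Not at hx
    exact hd1 ⟨n + j, rng hs eσ hit1.1 it1 hj, by rw [e1]; exact hx⟩
  have A2 : 4 * |pos 0 s' (n' + j') i - v (c + zh u σ j)| < r := by
    by_contra hx
    push Not at hx
    exact hd2 ⟨n' + j', rng hs' eσ' hit2.1 it2 hj', by rw [e2, ← hab]; exact hx⟩
  have A3 : 4 * |pos 0 s n i - v c| < r := by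
    by_contra hx
    push Not at hx
    exact hd1 ⟨n, fun t ht => rng hs eσ hit1.1 it1 (Nat.zero_le _) t (by omega),
      by rw [hit1.1.1]; exact hx⟩
  have A4 : 4 * |pos 0 s' n' i - v c| < r := by
    by_contra hx
    push Not at hx
    exact hd2 ⟨n', fun t ht => rng hs' eσ' hit2.1 it2 (Nat.zero_le _) t (by omega),
      by rw [hit2.1.1]; exact hx⟩
  rw [f1] at A1
  rw [f2] at A2
  have key : pos 0 σ j i - pos 0 σ' j' i
      = (pos 0 s n i + pos 0 σ j i - v (c + zh u σ j))
        - (pos 0 s' n' i + pos 0 σ' j' i - v (c + zh u σ j))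
        - ((pos 0 s n i - v c) - (pos 0 s' n' i - v c)) := by ring
  have t1 := abs_sub (pos 0 s n i + pos 0 σ j i - v (c + zh u σ j)
        - (pos 0 s' n' i + pos 0 σ' j' i - v (c + zh u σ j)))
        ((pos 0 s n i - v c) - (pos 0 s' n' i - v c))
  have t2 := abs_sub (pos 0 s n i + pos 0 σ j i - v (c + zh u σ j))
        (pos 0 s' n' i + pos 0 σ' j' i - v (c + zh u σ j))
  have t3 := abs_sub (pos 0 s n i - v c) (pos 0 s' n' i - v c)
  rw [key] at hr
  omega

/-! ### the same event for sites, and its measurability -/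

lemma lev_pos (u : Step d) (s : MPath d) (n : ℕ) : Flux132.lev u (pos 0 s n) = zh u s n := by
  induction n with
  | zero =>
    rw [pos_zero, zh_zero]
    unfold Flux132.lev
    split_ifs <;> simp
  | succ n ih =>
    rw [pos_succ, zh_succ, ← ih, ← lev_eq_zht]
    unfold Flux132.lev
    split_ifs
    · rfl
    · change -(pos 0 s n u.1 + stp (s n) u.1) = _
      ring

/-- deviation `≥ r/4` from the tube `v` before leaving the levels `[0, n)` (site paths) -/
def DevX (u : Step d) (i : Fin d) (v : ℤ → ℤ) (n r : ℕ) : Set (Path d) :=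
  {X | ∃ t, (∀ j ≤ t, 0 ≤ Flux132.lev u (X j) ∧ Flux132.lev u (X j) < n) ∧
    (r : ℤ) ≤ 4 * |X t i - v (Flux132.lev u (X t))|}

lemma dev_eq (u : Step d) (i : Fin d) (v : ℤ → ℤ) (n r : ℕ) :
    Dev u i v n r = mpath 0 ⁻¹' DevX u i v n r := by
  ext s
  simp only [Dev, DevX, mem_setOf_eq, mem_preimage, mpath, lev_pos]

lemma measurableSet_DevX (u : Step d) (i : Fin d) (v : ℤ → ℤ) (n r : ℕ) :
    MeasurableSet (DevX u i v n r) := by
  have e : DevX u i v n r = ⋃ t : ℕ, ((⋂ j : ℕ, ⋂ _ : j ≤ t,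
      (fun X : Path d => X j) ⁻¹' {z | 0 ≤ Flux132.lev u z ∧ Flux132.lev u z < n}) ∩
      (fun X : Path d => X t) ⁻¹' {z | (r : ℤ) ≤ 4 * |z i - v (Flux132.lev u z)|}) := by
    ext X
    simp [DevX]
  rw [e]
  refine MeasurableSet.iUnion fun t => (MeasurableSet.iInter fun j => MeasurableSet.iInter fun _ =>
    measurable_pi_apply j (Set.to_countable _).measurableSet).inter
    (measurable_pi_apply t (Set.to_countable _).measurableSet)

section law
variable {Q : Measure (Environment d)} [IsProbabilityMeasure Q]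

/-- deviation of the natural walk, in terms of the annealed law -/
theorem stL_dev_le (F : Frame Q κ R) (i : Fin d) (v : ℤ → ℤ) (n r : ℕ) :
    stL Q κ u (Dev u i v n r)
      ≤ (mkAnn κ Q 0 (Stay (mht (B2d.dirVec u))))⁻¹ * annealedProb Q 0 (DevX u i v n r) := by
  rw [stL, cond_apply (measurableSet_Stay _)]
  gcongr
  rw [← F.prob_eq (measurableSet_DevX u i v n r), ← dev_eq]
  exact measure_mono inter_subset_right

/-- **(J6)**: `h P(h ≤ R < 2 h, r ≤ B) ≤ 2 p⁻³ P_ann(deviation ≥ r / 4 from v in [0, 4h))` -/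
theorem J6 (F : Frame Q κ 0) (hA : annealedProb Q 0 (escapeEvent (B2d.dirVec u)) ≠ 0) (i : Fin d)
    (B : List (Word (Mark d)) × List (Word (Mark d)) → ℕ)
    (hB : ∀ w r, r ≤ B w → w ∈ Bad u i r) (v : ℤ → ℤ) (h r : ℕ) :
    (h : ℝ≥0∞) * (mkAnn κ Q 0 (Stay (mht (B2d.dirVec u)))) ^ 2 *
        pairL (muW Q κ 0 u) {p | h ≤ R0 (Yw u) p ∧ R0 (Yw u) p < 2 * h ∧ r ≤ B (wd (Yw u) p)}
      ≤ 2 * ((mkAnn κ Q 0 (Stay (mht (B2d.dirVec u))))⁻¹ *
        annealedProb Q 0 (DevX u i v (4 * h) r)) := by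
  have hpr := probW F hA
  have hp : mkAnn κ Q 0 (Stay (mht (B2d.dirVec u))) ≠ 0 := F.hp _ hA
  have hst : IsProbabilityMeasure (stL Q κ u) := cond_isProbabilityMeasure hp
  have hY := one_le_Yw u
  have hs := sum_noCut_ne_top F hA
  have hg : pairL (muW Q κ 0 u) (Good (Yw u))ᶜ = 0 :=
    good_ae _ hY (noCut_tendsto' _ hs)
  have hag : ∀ᵐ p ∂(pairL (muW Q κ 0 u)), p ∈ AllGood (Yw u) := allGood_ae _ hY hg
  set μ := muW Q κ 0 u with hμ
  set Φ : List (Word (Mark d)) × List (Word (Mark d)) → ℕ × ℕ := fun w => (hw (Yw u) w.1, B w)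
    with hΦ
  set ζ : ℕ → (ℕ → Word (Mark d)) × (ℕ → Word (Mark d)) → ℕ × ℕ :=
    fun k p => Φ (wdk (Yw u) k p) with hζ
  set Rr : ℕ × ℕ → ℕ := fun e => max 1 e.1 with hRr
  set G : Set (ℕ × ℕ) := {e | h ≤ Rr e ∧ Rr e < 2 * h ∧ r ≤ e.2} with hG
  have hζ1 : ∀ k p, (ζ k p).1 = R0 (Yw u) ((rest (Yw u))^[k] p) := fun k p => hw_wd (Yw u) _
  have hR0 : ∀ p ∈ AllGood (Yw u), ∀ k, 1 ≤ R0 (Yw u) ((rest (Yw u))^[k] p) := fun p hp k => by
    have h1 := mem_fst_idx hY (hp k)
    exact h1.1.trans (le_H hY _ _)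
  have hHh : ∀ p ∈ AllGood (Yw u), ∀ k, BlkTail24.Hh Rr ζ k p
      = H (Yw u) (Qk (Yw u) k p).1 p.1 := fun p hp k => by
    rw [← sum_R]
    refine Finset.sum_congr rfl fun j _ => ?_
    change max 1 (ζ j p).1 = _
    rw [hζ1]
    exact max_eq_right (hR0 p hp j)
  have hζm : ∀ k, Measurable (ζ k) := fun k => measurable_wdk Φ hY k
  have hid : ∀ k, (pairL μ).map (ζ k) = (pairL μ).map (ζ 0) := fun k =>
    (law_wdk Φ μ hY hg k).trans (law_wdk Φ μ hY hg 0).symm
  have hu : ∀ m < 2 * h, (mkAnn κ Q 0 (Stay (mht (B2d.dirVec u)))) ^ 2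
      ≤ pairL μ {p | ∃ k, BlkTail24.Hh Rr ζ k p = m} := by
    intro m _
    have h1 := Ur_ge F hA (l := m) (Nat.zero_le m)
    rw [pow_zero, one_mul] at h1
    refine h1.trans ?_
    unfold Ur
    refine measure_mono_ae ?_
    filter_upwards [hag] with p hp hc
    obtain ⟨a, b, ha, hb⟩ := hc
    obtain ⟨k, hk⟩ := exists_Qk hY a b hp (ha.trans hb.symm)
    exact ⟨k, by rw [hHh p hp, hk]; exact ha⟩
  have main := BlkTail24.rare_iid (P := pairL μ) (Rr := Rr) (ζ := ζ) (G := G) (h := h)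
    (measurable_of_countable _) (fun e => le_max_left _ _) hζm (indep_wdk Φ μ hY hg) hid
    (Set.to_countable _).measurableSet hu (fun e he => he.1)
  have e1 : pairL μ {p | h ≤ R0 (Yw u) p ∧ R0 (Yw u) p < 2 * h ∧ r ≤ B (wd (Yw u) p)}
      ≤ pairL μ (ζ 0 ⁻¹' G) := by
    refine measure_mono_ae ?_
    filter_upwards [hag] with p hp h1
    have h2 : Rr (ζ 0 p) = R0 (Yw u) p := by
      change max 1 (ζ 0 p).1 = _
      rw [hζ1]
      exact max_eq_right (hR0 p hp 0)
    exact ⟨by rw [h2]; exact h1.1, by rw [h2]; exact h1.2.1, h1.2.2⟩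
  have hm : Measurable (blks (rhoU (d := d) u κ 0)) := measurable_blks _
  have e2 : pairL μ (BlkTail24.Be Rr ζ G (2 * h)) ≤ 2 * stL Q κ u (Dev u i v (4 * h) r) := by
    have e3 : pairL μ (BlkTail24.Be Rr ζ G (2 * h))
        = ((stL Q κ u).prod (stL Q κ u)) (Prod.map (blks (rhoU u κ 0)) (blks (rhoU u κ 0)) ⁻¹'
          (BlkTail24.Be Rr ζ G (2 * h))) := by
      have hBm : MeasurableSet (BlkTail24.Be Rr ζ G (2 * h)) := by
        have e4 : BlkTail24.Be Rr ζ G (2 * h)
            = ⋃ m : Fin (2 * h), BlkTail24.St Rr ζ G m := by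
          ext p
          simp only [BlkTail24.Be, BlkTail24.St, mem_setOf_eq, mem_iUnion]
          constructor
          · rintro ⟨k, h1, h2⟩; exact ⟨⟨_, h1⟩, k, rfl, h2⟩
          · rintro ⟨m, k, h1, h2⟩; exact ⟨k, by rw [h1]; exact m.2, h2⟩
        rw [e4]
        exact MeasurableSet.iUnion fun m => BlkTail24.measurableSet_St (measurable_of_countable _)
          hζm (Set.to_countable _).measurableSet m
      rw [hμ, pairL, ← map_blksU F hA, Measure.map_prod_map _ _ hm hm,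
        Measure.map_apply (hm.prodMap hm) hBm]
    rw [e3]
    have h1 := Measure.quasiMeasurePreserving_fst (μ := stL Q κ u) (ν := stL Q κ u)
      |>.ae (ae_regInfU F hA)
    have h2 := Measure.quasiMeasurePreserving_snd (μ := stL Q κ u) (ν := stL Q κ u)
      |>.ae (ae_regInfU F hA)
    have h3 : ∀ᵐ p ∂((stL Q κ u).prod (stL Q κ u)),
        (blks (rhoU u κ 0) p.1, blks (rhoU u κ 0) p.2) ∈ AllGood (Yw u) := by
      have h4 : ∀ᵐ p ∂(((stL Q κ u).map (blks (rhoU u κ 0))).prod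
          ((stL Q κ u).map (blks (rhoU u κ 0)))), p ∈ AllGood (Yw u) := by
        rw [map_blksU F hA]; exact hag
      rw [Measure.map_prod_map _ _ hm hm] at h4
      exact ae_of_ae_map (hm.prodMap hm).aemeasurable h4
    calc ((stL Q κ u).prod (stL Q κ u)) (Prod.map (blks (rhoU u κ 0)) (blks (rhoU u κ 0)) ⁻¹'
          (BlkTail24.Be Rr ζ G (2 * h)))
        ≤ ((stL Q κ u).prod (stL Q κ u))
          (Dev u i v (4 * h) r ×ˢ univ ∪ univ ×ˢ Dev u i v (4 * h) r) := by
          refine measure_mono_ae ?_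
          filter_upwards [h1, h2, h3] with p hp1 hp2 hp3 hbe
          obtain ⟨k, hk1, hk2⟩ := hbe
          have hk1' : BlkTail24.Hh Rr ζ k (blks (rhoU u κ 0) p.1, blks (rhoU u κ 0) p.2)
            < 2 * h := hk1
          rw [hHh _ hp3] at hk1'
          change p ∈ Dev u i v (4 * h) r ×ˢ univ ∪ univ ×ˢ Dev u i v (4 * h) r
          have hRk : Rr (ζ k (Prod.map (blks (rhoU u κ 0)) (blks (rhoU u κ 0)) p))
              = R0 (Yw u) ((rest (Yw u))^[k] (blks (rhoU u κ 0) p.1, blks (rhoU u κ 0) p.2)) := by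
            change max 1 (ζ k _).1 = _
            rw [hζ1]
            exact max_eq_right (hR0 _ hp3 k)
          have hk3 := hk2.2.1
          rw [hRk] at hk3
          rcases dev_of_bad hp1 hp2 i v hp3 hk1' hk3 (hB _ r hk2.2.2) with h5 | h5
          · exact Or.inl ⟨h5, trivial⟩
          · exact Or.inr ⟨trivial, h5⟩
      _ ≤ ((stL Q κ u).prod (stL Q κ u)) (Dev u i v (4 * h) r ×ˢ univ)
          + ((stL Q κ u).prod (stL Q κ u)) (univ ×ˢ Dev u i v (4 * h) r) := measure_union_le _ _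
      _ = 2 * stL Q κ u (Dev u i v (4 * h) r) := by
          rw [Measure.prod_prod, Measure.prod_prod, measure_univ, mul_one, one_mul, two_mul]
  calc (h : ℝ≥0∞) * (mkAnn κ Q 0 (Stay (mht (B2d.dirVec u)))) ^ 2 *
        pairL μ {p | h ≤ R0 (Yw u) p ∧ R0 (Yw u) p < 2 * h ∧ r ≤ B (wd (Yw u) p)}
      ≤ (h : ℝ≥0∞) * (mkAnn κ Q 0 (Stay (mht (B2d.dirVec u)))) ^ 2 * pairL μ (ζ 0 ⁻¹' G) := by
        gcongr
    _ ≤ pairL μ (BlkTail24.Be Rr ζ G (2 * h)) := main
    _ ≤ 2 * stL Q κ u (Dev u i v (4 * h) r) := e2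
    _ ≤ _ := by
        gcongr
        exact stL_dev_le F i v (4 * h) r

end law

end Crest.Agent.R154.J6_24
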