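import Crest.Agent.R154.JA_719

/-! Row 154 (helper719): joint-cut assembly, part 2: density of the displacement, one window. -/

set_option autoImplicit false

namespace Crest.Agent.R154.JA719

open scoped ENNReal
open Crest.Agent.R154.B5A
open Filter Topology

variable {B W : Type*} (Λ : B → ℝ≥0∞) (ht : B → ℕ) (dl : B → W → W) (cd : W → B → Set ℕ)

open Classical in
lemma PD_split (h1 : ∀ b, 1 ≤ ht b) (h D : ℕ) (hD : h ≤ D) (w w' : W) :
    PD Λ ht dl D w w' = fps Λ ht h (fun C => PD Λ ht dl (D - HT ht C) (act dl C w) w') := by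
  rw [PD, fps_comp Λ ht h1 D h hD]
  simp only [PD, act_append]

open Classical in
lemma miss_le (h1 : ∀ b, 1 ≤ ht b) (hΛ : ∑' b, Λ b = 1) (h : ℕ) (hit : List B → Prop) (q : ℝ≥0∞)
    (hq : q ≤ AH Λ ht h (fun L => if hit L then 1 else 0)) :
    fps Λ ht h (fun C => if HT ht C = h ∧ hit C then 0 else 1) ≤ 1 - q := by
  have e1 : fps Λ ht h (fun C => if HT ht C = h ∧ hit C then 1 else 0)
      = AH Λ ht h (fun L => if hit L then 1 else 0) := by
    rw [fps, AH]
    refine tsum_congr fun L => ?_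
    by_cases hL : HT ht L = h
    · have := FP_of_HT ht h1 L h hL
      simp [hL, this]
    · simp [hL]
  have e2 : fps Λ ht h (fun C => if HT ht C = h ∧ hit C then 1 else 0)
      + fps Λ ht h (fun C => if HT ht C = h ∧ hit C then 0 else 1) ≤ 1 := by
    rw [← fps_add]
    refine fps_le_const Λ ht h1 hΛ h 1 fun L _ => ?_
    split_ifs <;> simp
  have hne : fps Λ ht h (fun C => if HT ht C = h ∧ hit C then 1 else 0) ≠ ⊤ :=
    ne_top_of_le_ne_top ENNReal.one_ne_top (le_trans le_self_add e2)
  exact (ENNReal.le_sub_of_add_le_left hne e2).trans (tsub_le_tsub_left (hq.trans e1.ge) 1)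

open Classical in
lemma hit_sum (h : ℕ) (hit : List B → Prop) (th : ℝ≥0∞)
    (hth : ∀ w w', AH Λ ht h (fun L => if hit L ∧ act dl L w = w' then 1 else 0) ≤ th)
    (w : W) (Ψ : W → ℝ≥0∞) :
    fps Λ ht h (fun C => if HT ht C = h ∧ hit C then Ψ (act dl C w) else 0)
      ≤ th * ∑' w1, Ψ w1 := by
  have e : ∀ C : List B, (if HT ht C = h ∧ hit C then Ψ (act dl C w) else 0)
      = ∑' w1, Ψ w1 * (if HT ht C = h ∧ hit C ∧ act dl C w = w1 then 1 else 0) := by
    intro C
    by_cases hc : HT ht C = h ∧ hit C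
    · rw [if_pos hc, tsum_eq_single (act dl C w)]
      · rw [if_pos ⟨hc.1, hc.2, rfl⟩, mul_one]
      · intro b hb; rw [if_neg (fun h => hb h.2.2.symm), mul_zero]
    · rw [if_neg hc]; symm; rw [ENNReal.tsum_eq_zero]; intro i
      rw [if_neg (fun h => hc ⟨h.1, h.2.1⟩), mul_zero]
  simp_rw [e]
  rw [fps_tsum, ← ENNReal.tsum_mul_left]
  refine ENNReal.tsum_le_tsum fun w1 => ?_
  rw [fps_mul, mul_comm]
  refine mul_le_mul_left (le_trans ?_ (hth w w1)) _
  refine ENNReal.tsum_le_tsum fun L => ?_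
  by_cases hL : HT ht L = h
  · by_cases hF : FP ht h L
    · simp [hL, hF]
    · simp [hF]
  · simp [hL]

open Classical in
theorem dens (h1 : ∀ b, 1 ≤ ht b) (hΛ : ∑' b, Λ b = 1) (hinj : ∀ b, Function.Injective (dl b))
    (hU1 : ∀ n, U Λ ht n ≤ 1) (h r : ℕ) (hr : 1 ≤ r)
    (hit : List B → Prop) (th q : ℝ≥0∞)
    (hq : q ≤ AH Λ ht h (fun L => if hit L then 1 else 0))
    (hth : ∀ w w', AH Λ ht h (fun L => if hit L ∧ act dl L w = w' then 1 else 0) ≤ th) (J : ℕ) :
    ∃ g b : ℕ → W → W → ℝ≥0∞, ∀ D, J * (h + r) ≤ D → ∀ w,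
      (∀ w', PD Λ ht dl D w w' ≤ g D w w' + b D w w') ∧
      (∀ w', g D w w' ≤ th * ∑ i ∈ Finset.range J, (1 - q) ^ i) ∧
      ∑' w', b D w w' ≤ (1 - q) ^ J + J * ov Λ ht r := by
  induction J with
  | zero =>
    refine ⟨fun _ _ _ => 0, fun D w w' => PD Λ ht dl D w w', fun D _ w => ⟨fun w' => by simp,
      fun w' => zero_le, ?_⟩⟩
    simpa using PD_row Λ ht dl h1 hΛ D w
  | succ J ih =>
    obtain ⟨g0, b0, H0⟩ := ih
    have hmiss := miss_le Λ ht h1 hΛ h hit q hq
    refine ⟨fun D w w' => fps Λ ht h (fun C => if HT ht C = h ∧ hit C then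
        PD Λ ht dl (D - h) (act dl C w) w' else
        if HT ht C ≤ h + r then g0 (D - HT ht C) (act dl C w) w' else 0),
      fun D w w' => fps Λ ht h (fun C => if HT ht C = h ∧ hit C then 0 else
        if HT ht C ≤ h + r then b0 (D - HT ht C) (act dl C w) w' else
        PD Λ ht dl (D - HT ht C) (act dl C w) w'), fun D hD w => ⟨fun w' => ?_, fun w' => ?_, ?_⟩⟩
    · have hD' : J * (h + r) + (h + r) ≤ D := by linarith [Nat.succ_mul J (h + r)]
      rw [PD_split Λ ht dl h1 h D (by omega), ← fps_add]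
      refine fps_mono Λ ht h fun C hC => ?_
      by_cases hc : HT ht C = h ∧ hit C
      · rw [if_pos hc, if_pos hc, hc.1, add_zero]
      · rw [if_neg hc, if_neg hc]
        by_cases hc2 : HT ht C ≤ h + r
        · rw [if_pos hc2, if_pos hc2]
          exact (H0 (D - HT ht C) (by omega) (act dl C w)).1 w'
        · rw [if_neg hc2, if_neg hc2, zero_add]
    · have hD' : J * (h + r) + (h + r) ≤ D := by linarith [Nat.succ_mul J (h + r)]
      calc _ ≤ fps Λ ht h (fun C => (if HT ht C = h ∧ hit C then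
              (fun w1 => PD Λ ht dl (D - h) w1 w') (act dl C w) else 0)
            + (th * ∑ i ∈ Finset.range J, (1 - q) ^ i) *
              (if HT ht C = h ∧ hit C then 0 else 1)) := by
            refine fps_mono Λ ht h fun C hC => ?_
            by_cases hc : HT ht C = h ∧ hit C
            · rw [if_pos hc, if_pos hc]; exact le_self_add
            · rw [if_neg hc, if_neg hc, if_neg hc, zero_add, mul_one]
              by_cases hc2 : HT ht C ≤ h + r
              · rw [if_pos hc2]
                exact (H0 (D - HT ht C) (by omega) (act dl C w)).2.1 w'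
              · rw [if_neg hc2]; exact zero_le
        _ ≤ th * 1 + (th * ∑ i ∈ Finset.range J, (1 - q) ^ i) * (1 - q) := by
            rw [fps_add, fps_mul]
            refine add_le_add ?_ (mul_le_mul_right hmiss _)
            exact (hit_sum Λ ht dl h hit th hth w _).trans
              (mul_le_mul_right (PD_col Λ ht dl h1 hΛ hinj (D - h) w') _)
        _ = _ := by
            rw [Finset.sum_range_succ', mul_assoc, Finset.sum_mul, ← mul_add, pow_zero, add_comm]
            simp only [pow_succ]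
    · have hD' : J * (h + r) + (h + r) ≤ D := by linarith [Nat.succ_mul J (h + r)]
      rw [← fps_tsum]
      calc _ ≤ fps Λ ht h (fun C => ((1 - q) ^ J + J * ov Λ ht r) *
              (if HT ht C = h ∧ hit C then 0 else 1) + (if h + r ≤ HT ht C then 1 else 0)) := by
            refine fps_mono Λ ht h fun C hC => ?_
            by_cases hc : HT ht C = h ∧ hit C
            · simp only [if_pos hc]; simp
            · simp only [if_neg hc]
              by_cases hc2 : HT ht C ≤ h + r
              · simp only [if_pos hc2, mul_one]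
                exact ((H0 (D - HT ht C) (by omega) (act dl C w)).2.2).trans le_self_add
              · simp only [if_neg hc2]
                rw [if_pos (by omega)]
                exact (PD_row Λ ht dl h1 hΛ _ _).trans le_add_self
        _ ≤ ((1 - q) ^ J + J * ov Λ ht r) * (1 - q) + ov Λ ht r := by
            rw [fps_add, fps_mul]
            exact add_le_add (mul_le_mul_right hmiss _) (fps_ov Λ ht h1 hU1 h r hr)
        _ ≤ _ := by
            rw [add_mul, ← pow_succ, add_assoc]
            refine add_le_add le_rfl ?_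
            push_cast
            rw [add_mul, one_mul]
            refine add_le_add ?_ le_rfl
            calc _ ≤ (J : ℝ≥0∞) * ov Λ ht r * 1 := mul_le_mul_right tsub_le_self _
              _ = _ := mul_one _

open Classical in
/-- one-height data, one side -/
def Side (us : ℕ → ℝ≥0∞) (Cst q : ℝ≥0∞) (h : ℕ) (loc : List B → Prop) : Prop :=
  ∃ (hit : List B → Prop) (th : ℝ≥0∞), th ≠ 0 ∧ th ≠ ⊤ ∧
    q ≤ AH Λ ht h (fun L => if hit L then 1 else 0) ∧
    (∀ w w', AH Λ ht h (fun L => if hit L ∧ act dl L w = w' then 1 else 0) ≤ th) ∧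
    ∀ (s : ℕ) (lam M : ℝ≥0∞) (μ : W → ℝ≥0∞), lam ≠ 0 → lam ≠ ⊤ → ∑' w, μ w ≤ 1 →
      (∀ w, μ w ≤ M) →
      ∑' w, μ w * AH Λ ht h (fun L => if loc L ∧ CD ht dl cd L w ≠ ∅ ∧
        (∀ k ∈ CD ht dl cd L w, s < k ∧ k + s ≤ h) then 1 else 0)
        ≤ Cst * (lam + M * us s / (th * lam))

lemma side_le (h1 : ∀ b, 1 ≤ ht b) (hΛ : ∑' b, Λ b = 1) (hinj : ∀ b, Function.Injective (dl b))
    (hU1 : ∀ n, U Λ ht n ≤ 1) (us : ℕ → ℝ≥0∞) (Cst q : ℝ≥0∞) (hq0 : q ≠ 0)
    (h r J : ℕ) (hr : 1 ≤ r) (loc : List B → Prop) (hS : Side Λ ht dl cd us Cst q h loc)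
    (D : ℕ) (hD : J * (h + r) ≤ D) (w : W) (s : ℕ) (lam : ℝ≥0∞) (hl0 : lam ≠ 0) (hlt : lam ≠ ⊤)
    (Q : W → ℝ≥0∞) (hQ1 : ∀ w, Q w ≤ 1) (hQ : by classical exact ∀ w, Q w ≤ AH Λ ht h (fun L =>
      if loc L ∧ CD ht dl cd L w ≠ ∅ ∧
        (∀ k ∈ CD ht dl cd L w, s < k ∧ k + s ≤ h) then 1 else 0)) :
    ∑' w', PD Λ ht dl D w w' * Q w'
      ≤ Cst * (lam + us s / (q * lam)) + ((1 - q) ^ J + J * ov Λ ht r) := by
  classical
  obtain ⟨hit, th, ht0, htt, hq, hth, hwin⟩ := hS
  have hq1 : q ≤ 1 := hq.trans ((AH_le_U Λ ht h fun L _ => by split_ifs <;> simp).trans (hU1 h))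
  obtain ⟨g, b, H⟩ := dens Λ ht dl h1 hΛ hinj hU1 h r hr hit th q hq hth J
  obtain ⟨H1, H2, H3⟩ := H D hD w
  set μ : W → ℝ≥0∞ := fun w' => min (g D w w') (PD Λ ht dl D w w') with hμ
  have hPD : ∀ w', PD Λ ht dl D w w' ≤ μ w' + b D w w' := by
    intro w'
    rcases le_total (g D w w') (PD Λ ht dl D w w') with hle | hle
    · rw [hμ]; simp only [min_eq_left hle]; exact H1 w'
    · rw [hμ]; simp only [min_eq_right hle]; exact le_self_add
  have hμ1 : ∑' w', μ w' ≤ 1 :=
    (ENNReal.tsum_le_tsum fun w' => min_le_right _ _).trans (PD_row Λ ht dl h1 hΛ D w)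
  have hgeo : ∑ i ∈ Finset.range J, (1 - q) ^ i ≤ q⁻¹ := by
    calc _ ≤ ∑' i : ℕ, (1 - q) ^ i := ENNReal.sum_le_tsum _
      _ = (1 - (1 - q))⁻¹ := ENNReal.tsum_geometric _
      _ = q⁻¹ := by rw [ENNReal.sub_sub_cancel ENNReal.one_ne_top hq1]
  have hμM : ∀ w', μ w' ≤ th * q⁻¹ := fun w' =>
    (min_le_left _ _).trans ((H2 w').trans (mul_le_mul_right hgeo _))
  calc ∑' w', PD Λ ht dl D w w' * Q w' ≤ ∑' w', (μ w' * Q w' + b D w w') := by
        refine ENNReal.tsum_le_tsum fun w' => ?_
        calc _ ≤ (μ w' + b D w w') * Q w' := mul_le_mul_left (hPD w') _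
          _ = μ w' * Q w' + b D w w' * Q w' := add_mul _ _ _
          _ ≤ μ w' * Q w' + b D w w' * 1 := add_le_add le_rfl (mul_le_mul_right (hQ1 w') _)
          _ = _ := by rw [mul_one]
    _ = (∑' w', μ w' * Q w') + ∑' w', b D w w' := ENNReal.tsum_add
    _ ≤ Cst * (lam + (th * q⁻¹) * us s / (th * lam)) + ((1 - q) ^ J + J * ov Λ ht r) := by
        refine add_le_add ?_ H3
        refine le_trans (ENNReal.tsum_le_tsum fun w' => mul_le_mul_right (hQ w') _)
          (hwin s lam (th * q⁻¹) μ hl0 hlt hμ1 hμM)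
    _ = _ := by
        have : (th * q⁻¹) * us s / (th * lam) = us s / (q * lam) := by
          rw [div_eq_mul_inv, div_eq_mul_inv, ENNReal.mul_inv (Or.inl ht0) (Or.inl htt),
            ENNReal.mul_inv (Or.inl hq0) (Or.inr hl0)]
          calc th * q⁻¹ * us s * (th⁻¹ * lam⁻¹) = (th * th⁻¹) * (us s * (q⁻¹ * lam⁻¹)) := by ring
            _ = _ := by rw [ENNReal.mul_inv_cancel ht0 htt, one_mul]
        rw [this]

open Classical in
/-- pieces of height `h` with a contact, all contacts at depth `> s` -/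
noncomputable def Q1 (s h : ℕ) (w : W) : ℝ≥0∞ :=
  AH Λ ht h (fun L => if CD ht dl cd L w ≠ ∅ ∧ ∀ k ∈ CD ht dl cd L w, s < k then 1 else 0)

open Classical in
theorem window (h1 : ∀ b, 1 ≤ ht b) (hΛ : ∑' b, Λ b = 1)
    (hcd : ∀ w b k, k ∈ cd w b → 1 ≤ k ∧ k ≤ ht b)
    (hU1 : ∀ n, U Λ ht n ≤ 1) (A N r s lo hi n H0 : ℕ) (hr : 1 ≤ r) (w : W)
    (hlo : A + r + s ≤ lo) (hhi : hi ≤ A + H0) (hH0 : H0 ≤ N) (hn : A + r + N + 1 ≤ n) :
    (∑' L : List B, if HT ht L = n ∧ (∀ k ∈ CD ht dl cd L w, lo < k) ∧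
        (∃ k ∈ CD ht dl cd L w, k ≤ hi) then LW Λ L else 0)
      ≤ ov Λ ht r + (ov Λ ht (N + 1 - H0) + ∑ h ∈ Finset.Ico H0 (N + 1), tail Λ ht (N - h) *
        fps Λ ht A (fun P => Q1 Λ ht dl cd s h (act dl P w))) := by
  set G : List B → ℝ≥0∞ := fun L => if HT ht L = n ∧ (∀ k ∈ CD ht dl cd L w, lo < k) ∧
        (∃ k ∈ CD ht dl cd L w, k ≤ hi) then 1 else 0 with hG
  have e0 : (∑' L : List B, if HT ht L = n ∧ (∀ k ∈ CD ht dl cd L w, lo < k) ∧
        (∃ k ∈ CD ht dl cd L w, k ≤ hi) then LW Λ L else 0) = ∑' L, LW Λ L * G L := by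
    refine tsum_congr fun L => ?_
    simp only [hG]
    split_ifs <;> simp
  have hG0 : ∀ L, HT ht L ≠ n → G L = 0 := fun L hL => if_neg fun h => hL h.1
  have hG1 : ∀ L, G L ≤ 1 := fun L => by simp only [hG]; split_ifs <;> simp
  -- completing a list costs at most one
  have hR : ∀ R : List B, ∑' L', LW Λ L' * G (R ++ L') ≤ 1 := by
    intro R
    refine le_trans ?_ (hU1 (n - HT ht R))
    refine ENNReal.tsum_le_tsum fun L' => ?_
    by_cases hL : HT ht (R ++ L') = n
    · rw [HT_append] at hL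
      rw [if_pos (by omega)]
      calc _ ≤ LW Λ L' * 1 := mul_le_mul_right (hG1 _) _
        _ = _ := mul_one _
    · rw [hG0 _ hL, mul_zero]; exact zero_le
  rw [e0, full_split Λ ht h1 A G (fun L hL => hG0 L (by omega))]
  have hshort : ∑ g ∈ Finset.Ico 0 H0, tail Λ ht (N - g) ≤ ov Λ ht (N + 1 - H0) := by
    rcases Nat.eq_zero_or_pos H0 with h0 | h0
    · subst h0; simp
    · refine le_trans (le_of_eq ?_) (sum_range_le_ov Λ ht (H0 - 1) (N + 1 - H0))
      rw [← Finset.range_eq_Ico, show H0 - 1 + 1 = H0 by omega]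
      refine Finset.sum_congr rfl fun g hg => ?_
      have := Finset.mem_range.1 hg
      rw [show H0 - 1 - g + (N + 1 - H0) = N - g by omega]
  have hbound : ∀ P : List B, FP ht A P → ∑' L', LW Λ L' * G (P ++ L')
      ≤ (if A + r ≤ HT ht P then 1 else 0) + (ov Λ ht (N + 1 - H0) +
        ∑ h ∈ Finset.Ico H0 (N + 1), tail Λ ht (N - h) * Q1 Λ ht dl cd s h (act dl P w)) := by
    intro P hP
    have hAP := FP_le ht P A hP
    by_cases hP2 : A + r ≤ HT ht P
    · rw [if_pos hP2]; exact (hR P).trans le_self_add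
    · rw [if_neg hP2, zero_add]
      rw [full_split Λ ht h1 (N + 1) (fun L' => G (P ++ L')) (fun L hL => hG0 _ (by
        rw [HT_append]; omega))]
      set F' : List B → ℝ≥0∞ := fun Lp => if HT ht Lp < H0 then 1 else
        if (CD ht dl cd Lp (act dl P w) ≠ ∅ ∧ ∀ k ∈ CD ht dl cd Lp (act dl P w), s < k) then 1
        else 0 with hF'
      refine (fps_last_le Λ ht h1 N _ F' ?_).trans ?_
      · intro L b hLN hLb
        by_cases hs : HT ht L < H0
        · simp only [hF', if_pos hs]
          have := hR (P ++ (L ++ [b]))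
          simpa only [List.append_assoc] using this
        · simp only [hF', if_neg hs]
          by_cases hc : CD ht dl cd L (act dl P w) ≠ ∅ ∧
              ∀ k ∈ CD ht dl cd L (act dl P w), s < k
          · rw [if_pos hc]
            have := hR (P ++ (L ++ [b]))
            simpa only [List.append_assoc] using this
          · rw [if_neg hc]
            refine le_of_eq ?_
            rw [ENNReal.tsum_eq_zero]
            intro L''
            have hz : G (P ++ (L ++ [b] ++ L'')) = 0 := by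
              simp only [hG]
              refine if_neg ?_
              rintro ⟨hn', hall, k, hk, hkhi⟩
              apply hc
              have hcdP : ∀ k1 ∈ CD ht dl cd L (act dl P w), HT ht P + k1 ∈
                  CD ht dl cd (P ++ (L ++ [b] ++ L'')) w := by
                intro k1 hk1
                rw [CD_append]
                refine Or.inr ⟨k1, ?_, rfl⟩
                rw [List.append_assoc, CD_append]
                exact Or.inl hk1
              refine ⟨?_, fun k1 hk1 => ?_⟩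
              · have hlok := hall k hk
                rw [CD_append] at hk
                rcases hk with hk | ⟨k', hk', rfl⟩
                · have := (CD_pos ht dl cd hcd P w k hk).2
                  omega
                · rw [List.append_assoc, CD_append] at hk'
                  rcases hk' with hk' | ⟨k'', hk'', rfl⟩
                  · exact Set.nonempty_iff_ne_empty.1 ⟨k', hk'⟩
                  · have := (CD_pos ht dl cd hcd _ _ _ hk'').1
                    simp only at hkhi
                    omega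
              · have := hall _ (hcdP k1 hk1)
                omega
            change LW Λ L'' * G (P ++ (L ++ [b] ++ L'')) = 0
            rw [hz, mul_zero]
      · rw [Finset.range_eq_Ico, ← Finset.sum_Ico_consecutive _ (Nat.zero_le H0)
          (by omega : H0 ≤ N + 1)]
        refine add_le_add (le_trans (Finset.sum_le_sum fun h _ => ?_) hshort)
          (Finset.sum_le_sum fun h hh => ?_)
        · calc _ ≤ tail Λ ht (N - h) * 1 := mul_le_mul_right ((AH_le_U Λ ht h fun L _ => by
                simp only [hF']; split_ifs <;> simp).trans (hU1 h)) _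
            _ = _ := mul_one _
        · refine mul_le_mul_right (AH_mono Λ ht h fun L hL => ?_) _
          have := (Finset.mem_Ico.1 hh).1
          simp only [hF']
          rw [if_neg (by omega)]
  refine (fps_mono Λ ht A hbound).trans ?_
  rw [fps_add]
  refine add_le_add (fps_ov Λ ht h1 hU1 A r hr) ?_
  rw [fps_add]
  refine add_le_add (fps_le_const Λ ht h1 hΛ A _ fun _ _ => le_rfl) ?_
  rw [fps_sum]
  exact Finset.sum_le_sum fun h _ => (fps_mul Λ ht A _ _).le

end Crest.Agent.R154.JA719
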