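import Crest.Agent.R154.B5First_181

/-! Row 154, T0219 (helper358): sums over lists, first passage lists, density (joint cuts, abstract). -/

set_option autoImplicit false

namespace Crest.Agent.R154.J358

open scoped ENNReal
open Crest.Agent.R154.B5A

variable {B V : Type*}

open Classical in
lemma split_le (F : List B → ℝ≥0∞) (P : List B → List B → Prop)
    (h : ∀ L, F L ≠ 0 → ∃ L1 L2, L1 ++ L2 = L ∧ P L1 L2) :
    ∑' L, F L ≤ ∑' L1, ∑' L2, if P L1 L2 then F (L1 ++ L2) else 0 := by
  calc ∑' L, F L ≤ ∑' L, ∑' L1, ∑' L2, if L1 ++ L2 = L ∧ P L1 L2 then F (L1 ++ L2) else 0 := by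
        refine ENNReal.tsum_le_tsum fun L => ?_
        by_cases hF : F L = 0
        · simp [hF]
        · obtain ⟨L1, L2, h12, hP⟩ := h L hF
          calc F L = if L1 ++ L2 = L ∧ P L1 L2 then F (L1 ++ L2) else 0 := by
                rw [if_pos ⟨h12, hP⟩, h12]
            _ ≤ ∑' L2, if L1 ++ L2 = L ∧ P L1 L2 then F (L1 ++ L2) else 0 :=
                ENNReal.le_tsum (f := fun L2 => if L1 ++ L2 = L ∧ P L1 L2 then F (L1 ++ L2) else 0) L2
            _ ≤ _ := ENNReal.le_tsum (f := fun L1 => ∑' L2, if L1 ++ L2 = L ∧ P L1 L2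
                then F (L1 ++ L2) else 0) L1
    _ = ∑' L1, ∑' L2, ∑' L, if L1 ++ L2 = L ∧ P L1 L2 then F (L1 ++ L2) else 0 := by
        rw [ENNReal.tsum_comm]
        refine tsum_congr fun L1 => ?_
        rw [ENNReal.tsum_comm]
    _ = _ := by
        refine tsum_congr fun L1 => tsum_congr fun L2 => ?_
        rw [tsum_eq_single (L1 ++ L2)]
        · simp
        · intro L hL
          rw [if_neg]
          rintro ⟨h, _⟩
          exact hL h.symm

open Classical in
/-- pairs determined by their concatenation -/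
lemma join_le (F : List B → ℝ≥0∞) (P : List B → List B → Prop)
    (h : ∀ L1 L2 L1' L2', L1 ++ L2 = L1' ++ L2' → P L1 L2 → P L1' L2' → L1 = L1' ∧ L2 = L2') :
    ∑' L1, ∑' L2, (if P L1 L2 then F (L1 ++ L2) else 0) ≤ ∑' L, F L := by
  rw [← ENNReal.tsum_prod]
  have hinj : Function.Injective (fun p : {p : List B × List B // P p.1 p.2} => p.1.1 ++ p.1.2) := by
    rintro ⟨⟨a, b⟩, hab⟩ ⟨⟨a', b'⟩, hab'⟩ he
    obtain ⟨h1, h2⟩ := h a b a' b' he hab hab'
    subst h1; subst h2; rfl
  have e : ∑' p : List B × List B, (if P p.1 p.2 then F (p.1 ++ p.2) else 0)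
      = ∑' p : {p : List B × List B // P p.1 p.2}, F (p.1.1 ++ p.1.2) := by
    rw [← tsum_subtype_eq_of_support_subset (s := {p : List B × List B | P p.1 p.2})]
    · refine tsum_congr fun p => ?_
      exact if_pos p.2
    · intro p hp
      by_contra hn
      exact hp (if_neg hn)
  rw [e]
  exact ENNReal.tsum_comp_le_tsum_of_injective hinj F

open Classical in
lemma last_le (F : List B → ℝ≥0∞) : ∑' L, F L ≤ F [] + ∑' L, ∑' b, F (L ++ [b]) := by
  calc ∑' L, F L ≤ ∑' L, ((if [] = L then F [] else 0) +
        ∑' L', ∑' b, if L' ++ [b] = L then F (L' ++ [b]) else 0) := by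
        refine ENNReal.tsum_le_tsum fun L => ?_
        rcases List.eq_nil_or_concat' L with rfl | ⟨L', b, rfl⟩
        · simp
        · refine le_trans ?_ le_add_self
          calc F (L' ++ [b]) = if L' ++ [b] = L' ++ [b] then F (L' ++ [b]) else 0 := by simp
            _ ≤ ∑' b', if L' ++ [b'] = L' ++ [b] then F (L' ++ [b']) else 0 :=
                ENNReal.le_tsum (f := fun b' => if L' ++ [b'] = L' ++ [b] then F (L' ++ [b'])
                  else 0) b
            _ ≤ _ := ENNReal.le_tsum (f := fun L'' => ∑' b', if L'' ++ [b'] = L' ++ [b]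
                then F (L'' ++ [b']) else 0) L'
    _ = _ := by
        rw [ENNReal.tsum_add]
        congr 1
        · rw [tsum_eq_single []]
          · simp
          · intro L hL; rw [if_neg (fun h => hL h.symm)]
        · rw [ENNReal.tsum_comm]
          refine tsum_congr fun L1 => ?_
          rw [ENNReal.tsum_comm]
          refine tsum_congr fun b => ?_
          rw [tsum_eq_single (L1 ++ [b])]
          · simp
          · intro L hL
            rw [if_neg (fun h => hL h.symm)]

variable (Λ : B → ℝ≥0∞) (ht : B → ℕ)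

lemma sum_HT (f : ℕ → ℝ≥0∞) :
    ∑' L, LW Λ L * f (HT ht L) = ∑' h, U Λ ht h * f h := by
  simp only [U]
  simp_rw [← ENNReal.tsum_mul_right]
  rw [ENNReal.tsum_comm]
  refine tsum_congr fun L => ?_
  rw [tsum_eq_single (HT ht L)]
  · simp
  · intro j hj; rw [if_neg (fun h => hj h.symm), zero_mul]

/-- first passage lists -/
def FP (a : ℕ) (L : List B) : Prop := a ≤ HT ht L ∧ ∀ L' b, L = L' ++ [b] → HT ht L' < a

lemma exists_FP (a : ℕ) (L : List B) (h : a ≤ HT ht L) :
    ∃ L1 L2, L1 ++ L2 = L ∧ FP ht a L1 := by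
  induction L using List.reverseRecOn with
  | nil => exact ⟨[], [], rfl, h, fun L' b h => by simp at h⟩
  | append_singleton L b ih =>
    by_cases hL : a ≤ HT ht L
    · obtain ⟨L1, L2, e, hF⟩ := ih hL
      exact ⟨L1, L2 ++ [b], by rw [← List.append_assoc, e], hF⟩
    · refine ⟨L ++ [b], [], by simp, h, fun L' b' e => ?_⟩
      have := List.append_inj_left' e rfl
      subst this
      omega

lemma FP_snoc (a : ℕ) (L : List B) (b : B) :
    FP ht a (L ++ [b]) ↔ HT ht L < a ∧ a ≤ HT ht L + ht b := by
  have e : HT ht (L ++ [b]) = HT ht L + ht b := by simp [HT]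
  constructor
  · rintro ⟨h1, h2⟩
    exact ⟨h2 L b rfl, by rw [← e]; exact h1⟩
  · rintro ⟨h1, h2⟩
    refine ⟨by rw [e]; exact h2, fun L' b' h => ?_⟩
    have := List.append_inj_left' h rfl
    subst this
    exact h1

lemma FP_nil (a : ℕ) : FP ht a ([] : List B) ↔ a = 0 := by
  constructor
  · rintro ⟨h, _⟩; simpa [HT] using h
  · rintro rfl; exact ⟨by simp, fun L' b h => by simp at h⟩

lemma FP_zero (L : List B) : FP ht 0 L ↔ L = [] := by
  constructor
  · rintro ⟨_, h⟩
    rcases List.eq_nil_or_concat' L with rfl | ⟨L', b, rfl⟩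
    · rfl
    · exact absurd (h L' b (by simp)) (by omega)
  · rintro rfl; exact (FP_nil ht 0).2 rfl

lemma FP_of_HT (h1 : ∀ b, 1 ≤ ht b) (h : ℕ) (L : List B) (hL : HT ht L = h) : FP ht h L := by
  refine ⟨hL.ge, fun L' b e => ?_⟩
  subst e
  have : HT ht (L' ++ [b]) = HT ht L' + ht b := by simp [HT]
  have := h1 b
  omega

open Classical in
/-- sums over first passage lists by the last block -/
lemma FP_sum_le (a : ℕ) (ha : a ≠ 0) (G : List B → ℝ≥0∞) :
    ∑' L, (if FP ht a L then G L else 0)
      ≤ ∑' L, ∑' b, if HT ht L < a ∧ a ≤ HT ht L + ht b then G (L ++ [b]) else 0 := by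
  refine (last_le _).trans ?_
  rw [if_neg (by rw [FP_nil]; exact ha), zero_add]
  refine ENNReal.tsum_le_tsum fun L => ENNReal.tsum_le_tsum fun b => ?_
  simp only [FP_snoc]
  exact le_rfl

open Classical in
/-- first passage with overshoot `≥ r` -/
lemma FP_over (hU1 : ∀ n, U Λ ht n ≤ 1) (a r : ℕ) (ha : a ≠ 0) :
    ∑' L, (if FP ht a L ∧ a + r ≤ HT ht L then LW Λ L else 0) ≤ ∑' k, tail Λ ht (k + r) := by
  calc ∑' L, (if FP ht a L ∧ a + r ≤ HT ht L then LW Λ L else 0)
      = ∑' L, (if FP ht a L then (if a + r ≤ HT ht L then LW Λ L else 0) else 0) := by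
        refine tsum_congr fun L => ?_
        by_cases h : FP ht a L <;> simp [h]
    _ ≤ _ := FP_sum_le ht a ha _
    _ ≤ ∑' L, LW Λ L * (if HT ht L < a then tail Λ ht (a + r - 1 - HT ht L) else 0) := by
        refine ENNReal.tsum_le_tsum fun L => ?_
        by_cases h : HT ht L < a
        · rw [if_pos h, tail, ← ENNReal.tsum_mul_left]
          refine ENNReal.tsum_le_tsum fun b => ?_
          have e : HT ht (L ++ [b]) = HT ht L + ht b := by simp [HT]
          by_cases h2 : a + r ≤ HT ht L + ht b
          · rw [if_pos ⟨h, by omega⟩, if_pos (by omega), if_pos (by omega), LW_append]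
            simp [LW]
          · by_cases h3 : a ≤ HT ht L + ht b
            · rw [if_pos ⟨h, h3⟩, if_neg (by omega)]; exact zero_le
            · rw [if_neg (fun h' => h3 h'.2)]; exact zero_le
        · simp [h]
    _ = ∑' h, U Λ ht h * (if h < a then tail Λ ht (a + r - 1 - h) else 0) :=
        sum_HT Λ ht (fun h => if h < a then tail Λ ht (a + r - 1 - h) else 0)
    _ ≤ ∑' h, (if h < a then tail Λ ht (a + r - 1 - h) else 0) :=
        ENNReal.tsum_le_tsum fun h => by
          calc _ ≤ 1 * (if h < a then tail Λ ht (a + r - 1 - h) else 0) :=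
                mul_le_mul_left (hU1 h) _
            _ = _ := one_mul _
    _ = ∑ h ∈ Finset.range a, tail Λ ht (a + r - 1 - h) := by
        rw [tsum_eq_sum (s := Finset.range a)]
        · exact Finset.sum_congr rfl fun h hh => if_pos (Finset.mem_range.1 hh)
        · intro h hh; exact if_neg (by simpa using hh)
    _ = ∑ h ∈ Finset.range a, tail Λ ht (h + r) := by
        rw [← Finset.sum_range_reflect]
        refine Finset.sum_congr rfl fun h hh => ?_
        have := Finset.mem_range.1 hh
        congr 1; omega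
    _ ≤ _ := ENNReal.sum_le_tsum _

open Classical in
lemma FP_mass (h1 : ∀ b, 1 ≤ ht b) (hΛ : ∑' b, Λ b = 1) (a : ℕ) :
    ∑' L, (if FP ht a L then LW Λ L else 0) ≤ 1 := by
  rcases Nat.eq_zero_or_pos a with rfl | ha
  · rw [tsum_eq_single []]
    · simp [LW]
      split_ifs <;> simp
    · intro L hL; rw [if_neg (fun h => hL ((FP_zero ht L).1 h))]
  calc _ ≤ _ := FP_sum_le ht a (by omega) _
    _ ≤ ∑' L, LW Λ L * (if HT ht L < a then tail Λ ht (a - 1 - HT ht L) else 0) := by
        refine ENNReal.tsum_le_tsum fun L => ?_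
        by_cases h : HT ht L < a
        · rw [if_pos h, tail, ← ENNReal.tsum_mul_left]
          refine ENNReal.tsum_le_tsum fun b => ?_
          by_cases h2 : a ≤ HT ht L + ht b
          · rw [if_pos ⟨h, by omega⟩, if_pos (by omega), LW_append]
            simp [LW]
          · rw [if_neg (fun h' => h2 h'.2)]; exact zero_le
        · simp [h]
    _ = ∑' h, U Λ ht h * (if h < a then tail Λ ht (a - 1 - h) else 0) :=
        sum_HT Λ ht (fun h => if h < a then tail Λ ht (a - 1 - h) else 0)
    _ = ∑ h ∈ Finset.range a, U Λ ht h * tail Λ ht (a - 1 - h) := by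
        rw [tsum_eq_sum (s := Finset.range a)]
        · exact Finset.sum_congr rfl fun h hh => by rw [if_pos (Finset.mem_range.1 hh)]
        · intro h hh; rw [if_neg (by simpa using hh), mul_zero]
    _ = 1 := by
        rw [← renewal_one Λ ht h1 hΛ (a - 1), show a - 1 + 1 = a by omega,
          ← Finset.sum_range_reflect]
        refine Finset.sum_congr rfl fun h hh => ?_
        have := Finset.mem_range.1 hh
        congr 2; omega

lemma FP_tail (a : ℕ) (L0 L : List B) (h : FP ht a (L0 ++ L)) : FP ht (a - HT ht L0) L := by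
  refine ⟨?_, fun L' b e => ?_⟩
  · have := h.1; rw [HT_append] at this; omega
  · subst e
    have := h.2 (L0 ++ L') b (by simp)
    rw [HT_append] at this; omega

/-! ### displacement -/

variable [AddCommGroup V] (dz : B → V)

/-- displacement -/
def Z (L : List B) : V := (L.map dz).sum

lemma Z_append (L L' : List B) : Z dz (L ++ L') = Z dz L + Z dz L' := by simp [Z]

open Classical in
lemma fib (P : List B → Prop) (F : List B → ℝ≥0∞) (Q : V → ℝ≥0∞) :
    ∑' z, Q z * ∑' L, (if P L ∧ Z dz L = z then F L else 0)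
      = ∑' L, if P L then F L * Q (Z dz L) else 0 := by
  simp_rw [← ENNReal.tsum_mul_left]
  rw [ENNReal.tsum_comm]
  refine tsum_congr fun L => ?_
  rw [tsum_eq_single (Z dz L)]
  · by_cases h : P L <;> simp [h, mul_comm]
  · intro z hz; rw [if_neg (fun h => hz h.2.symm), mul_zero]

open Classical in
/-- law of the position at the first passage -/
noncomputable def fp (a : ℕ) (z : V) : ℝ≥0∞ :=
  ∑' L, if FP ht a L ∧ Z dz L = z then LW Λ L else 0

lemma fp_mass (h1 : ∀ b, 1 ≤ ht b) (hΛ : ∑' b, Λ b = 1) (a : ℕ) :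
    ∑' z, fp Λ ht dz a z ≤ 1 := by
  classical
  have := fib dz (FP ht a) (LW Λ) (fun _ => 1)
  simp only [one_mul, mul_one] at this
  rw [show (∑' z, fp Λ ht dz a z) = _ from this]
  exact FP_mass Λ ht h1 hΛ a

open Classical in
lemma fp_rec (a h : ℕ) (hah : h ≤ a) (z : V) :
    fp Λ ht dz a z ≤ ∑' L, if FP ht h L then
      LW Λ L * fp Λ ht dz (a - HT ht L) (z - Z dz L) else 0 := by
  refine (split_le _ (fun L0 L => FP ht h L0 ∧ FP ht (a - HT ht L0) L) ?_).trans ?_
  · intro L hL
    have hF : FP ht a L ∧ Z dz L = z := by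
      by_contra hn; exact hL (if_neg hn)
    obtain ⟨L0, L', e, h0⟩ := exists_FP ht h L (hah.trans hF.1.1)
    subst e
    exact ⟨L0, L', rfl, h0, FP_tail ht a L0 L' hF.1⟩
  · refine ENNReal.tsum_le_tsum fun L0 => ?_
    by_cases h0 : FP ht h L0
    · rw [if_pos h0, fp, ← ENNReal.tsum_mul_left]
      refine ENNReal.tsum_le_tsum fun L => ?_
      by_cases hL : FP ht (a - HT ht L0) L
      · rw [if_pos ⟨h0, hL⟩]
        by_cases hZ : Z dz L = z - Z dz L0
        · rw [if_pos (show FP ht (a - HT ht L0) L ∧ Z dz L = z - Z dz L0 from ⟨hL, hZ⟩), LW_append]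
          split_ifs
          · exact le_rfl
          · exact zero_le
        · have hn : ¬ (FP ht a (L0 ++ L) ∧ Z dz (L0 ++ L) = z) := by
            rintro ⟨_, h⟩
            rw [Z_append] at h
            exact hZ (by rw [← h]; abel)
          rw [if_neg hn]; exact zero_le
      · rw [if_neg (fun h' => hL h'.2)]; exact zero_le
    · simp [h0]

open Classical in
theorem dens (h1 : ∀ b, 1 ≤ ht b) (hΛ : ∑' b, Λ b = 1) (h r : ℕ) (Hit : List B → Prop)
    (hHit : ∀ L, Hit L → HT ht L = h) (th q τ : ℝ≥0∞) (hq : q ≤ 1)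
    (i1 : ∀ z, ∑' L, (if Hit L ∧ Z dz L = z then LW Λ L else 0) ≤ th)
    (i2 : ∑' L, (if FP ht h L ∧ ¬ Hit L then LW Λ L else 0) ≤ q)
    (i3 : ∑' L, (if FP ht h L ∧ h + r < HT ht L then LW Λ L else 0) ≤ τ) (j : ℕ) :
    ∀ a, j * (h + r) ≤ a → ∃ g b : V → ℝ≥0∞, (∀ z, fp Λ ht dz a z ≤ g z + b z) ∧
      (∀ z, g z ≤ j * th) ∧ ∑' z, b z ≤ q ^ j + j * τ := by
  induction j with
  | zero =>
    intro a _
    exact ⟨fun _ => 0, fp Λ ht dz a, fun z => by simp, fun z => by simp,
      by simpa using fp_mass Λ ht dz h1 hΛ a⟩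
  | succ j ih =>
    intro a ha
    have IH : ∀ a', ∃ g b : V → ℝ≥0∞, j * (h + r) ≤ a' → (∀ z, fp Λ ht dz a' z ≤ g z + b z) ∧
      (∀ z, g z ≤ j * th) ∧ ∑' z, b z ≤ q ^ j + j * τ := by
      intro a'
      by_cases h' : j * (h + r) ≤ a'
      · obtain ⟨g, b, hgb⟩ := ih a' h'
        exact ⟨g, b, fun _ => hgb⟩
      · exact ⟨0, 0, fun h'' => absurd h'' h'⟩
    choose g b hgb using IH
    have hah : h ≤ a := by nlinarith
    set P : List B → Prop := fun L => FP ht h L ∧ ¬ Hit L ∧ HT ht L ≤ h + r with hP
    have hPa : ∀ L, P L → j * (h + r) ≤ a - HT ht L := by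
      rintro L ⟨_, _, h3⟩
      have : (j + 1) * (h + r) = j * (h + r) + (h + r) := by ring
      omega
    have hPq : ∑' L, (if P L then LW Λ L else 0) ≤ q := by
      refine le_trans (ENNReal.tsum_le_tsum fun L => ?_) i2
      by_cases hL : P L
      · rw [if_pos hL, if_pos ⟨hL.1, hL.2.1⟩]
      · rw [if_neg hL]; exact zero_le
    refine ⟨fun z => th + ∑' L, if P L then LW Λ L * g (a - HT ht L) (z - Z dz L) else 0,
      fun z => (∑' L, if P L then LW Λ L * b (a - HT ht L) (z - Z dz L) else 0) +
        ∑' L, if FP ht h L ∧ h + r < HT ht L then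
          LW Λ L * fp Λ ht dz (a - HT ht L) (z - Z dz L) else 0, ?_, ?_, ?_⟩
    · intro z
      have hA : ∑' L, (if Hit L then LW Λ L * fp Λ ht dz (a - h) (z - Z dz L) else 0) ≤ th := by
        rw [← fib dz Hit (LW Λ) (fun y => fp Λ ht dz (a - h) (z - y))]
        calc _ ≤ ∑' y, fp Λ ht dz (a - h) (z - y) * th :=
              ENNReal.tsum_le_tsum fun y => mul_le_mul_right (i1 y) _
          _ = (∑' y, fp Λ ht dz (a - h) (z - y)) * th := ENNReal.tsum_mul_right
          _ = (∑' y, fp Λ ht dz (a - h) y) * th := by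
              rw [← (Equiv.subLeft z).tsum_eq (fun y => fp Λ ht dz (a - h) y)]
              rfl
          _ ≤ 1 * th := mul_le_mul_left (fp_mass Λ ht dz h1 hΛ _) _
          _ = th := one_mul _
      calc fp Λ ht dz a z ≤ _ := fp_rec Λ ht dz a h hah z
        _ ≤ ∑' L, ((if Hit L then LW Λ L * fp Λ ht dz (a - h) (z - Z dz L) else 0) +
            ((if P L then LW Λ L * g (a - HT ht L) (z - Z dz L) else 0) +
            ((if P L then LW Λ L * b (a - HT ht L) (z - Z dz L) else 0) +
            (if FP ht h L ∧ h + r < HT ht L then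
          LW Λ L * fp Λ ht dz (a - HT ht L) (z - Z dz L) else 0)))) := by
            refine ENNReal.tsum_le_tsum fun L => ?_
            by_cases hF : FP ht h L
            · rw [if_pos hF]
              by_cases hH : Hit L
              · have e := hHit L hH
                rw [if_pos hH]
                refine le_trans (le_of_eq ?_) le_self_add
                rw [e]
              · by_cases hr : HT ht L ≤ h + r
                · have hPL : P L := ⟨hF, hH, hr⟩
                  rw [if_pos hPL, if_pos hPL]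
                  refine le_trans ?_ le_add_self
                  rw [← add_assoc]
                  refine le_trans ?_ le_self_add
                  rw [← mul_add]
                  exact mul_le_mul_right ((hgb _ (hPa L hPL)).1 _) _
                · rw [if_pos (show FP ht h L ∧ h + r < HT ht L from ⟨hF, by omega⟩)]
                  exact (le_add_self.trans le_add_self).trans le_add_self
            · rw [if_neg hF]; exact zero_le
        _ ≤ _ := by
            rw [ENNReal.tsum_add, ENNReal.tsum_add, ENNReal.tsum_add, add_assoc]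
            exact add_le_add_left hA _
    · intro z
      calc _ ≤ th + ∑' L, (if P L then LW Λ L else 0) * (j * th) := by
            refine add_le_add_right (ENNReal.tsum_le_tsum fun L => ?_) _
            by_cases hL : P L
            · rw [if_pos hL, if_pos hL]
              exact mul_le_mul_right ((hgb _ (hPa L hL)).2.1 _) _
            · simp [hL]
        _ = th + (∑' L, (if P L then LW Λ L else 0)) * (j * th) := by rw [ENNReal.tsum_mul_right]
        _ ≤ th + 1 * (j * th) := add_le_add_right (mul_le_mul_left (hPq.trans hq) _) _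
        _ = _ := by push_cast; ring
    · rw [ENNReal.tsum_add]
      have hB1 : ∑' z, ∑' L, (if P L then LW Λ L * b (a - HT ht L) (z - Z dz L) else 0)
          ≤ q * (q ^ j + j * τ) := by
        rw [ENNReal.tsum_comm]
        calc _ ≤ ∑' L, (if P L then LW Λ L else 0) * (q ^ j + j * τ) := by
              refine ENNReal.tsum_le_tsum fun L => ?_
              by_cases hL : P L
              · simp only [if_pos hL]
                rw [ENNReal.tsum_mul_left]
                refine mul_le_mul_right ?_ _
                have e := (Equiv.subRight (Z dz L)).tsum_eq (fun z => b (a - HT ht L) z)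
                simp only [Equiv.subRight_apply] at e
                rw [e]
                exact (hgb _ (hPa L hL)).2.2
              · simp [hL]
          _ = (∑' L, (if P L then LW Λ L else 0)) * (q ^ j + j * τ) := ENNReal.tsum_mul_right
          _ ≤ _ := mul_le_mul_left hPq _
      have hB2 : ∑' z, ∑' L, (if FP ht h L ∧ h + r < HT ht L then
          LW Λ L * fp Λ ht dz (a - HT ht L) (z - Z dz L) else 0) ≤ τ := by
        rw [ENNReal.tsum_comm]
        refine le_trans (ENNReal.tsum_le_tsum fun L => ?_) i3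
        by_cases hL : FP ht h L ∧ h + r < HT ht L
        · simp only [if_pos hL]
          have e := (Equiv.subRight (Z dz L)).tsum_eq (fun z => fp Λ ht dz (a - HT ht L) z)
          simp only [Equiv.subRight_apply] at e
          rw [ENNReal.tsum_mul_left, e]
          calc _ ≤ LW Λ L * 1 := mul_le_mul_right (fp_mass Λ ht dz h1 hΛ _) _
            _ = _ := mul_one _
        · simp [hL]
      calc _ ≤ q * (q ^ j + j * τ) + τ := add_le_add hB1 hB2
        _ = q ^ (j + 1) + q * (j * τ) + τ := by ring
        _ ≤ q ^ (j + 1) + 1 * (j * τ) + τ := by gcongr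
        _ = _ := by push_cast; ring

end Crest.Agent.R154.J358
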