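import Crest.Agent.R154.B5Weak_865

/-! Row 154 (helper719): abstract assembly at JOINT cuts (692's frame).  Fixed-height window bounds and
the one-depth contact estimate imply that the weight of the crossings whose first contact has depth in
`(m, 2m]` tends to `0`. -/

set_option autoImplicit false

namespace Crest.Agent.R154.JA719

open scoped ENNReal
open Crest.Agent.R154.B5A
open Filter Topology

variable {B W : Type*} (Λ : B → ℝ≥0∞) (ht : B → ℕ) (dl : B → W → W) (cd : W → B → Set ℕ)

/-- first passage lists of level `D` -/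
def FP (ht : B → ℕ) : ℕ → List B → Prop
  | D, [] => D = 0
  | D, b :: L => D ≠ 0 ∧ FP ht (D - ht b) L

lemma FP_le : ∀ (L : List B) (D : ℕ), FP ht D L → D ≤ HT ht L := by
  intro L
  induction L with
  | nil => intro D h; simp only [FP] at h; omega
  | cons b L ih =>
    intro D h
    have := ih _ h.2
    rw [HT_cons]; omega

lemma FP_of_HT (h1 : ∀ b, 1 ≤ ht b) : ∀ (L : List B) (D : ℕ), HT ht L = D → FP ht D L := by
  intro L
  induction L with
  | nil => intro D h; simp only [FP]; rw [← h]; simp [HT]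
  | cons b L ih =>
    intro D h
    rw [HT_cons] at h
    have := h1 b
    exact ⟨by omega, ih _ (by omega)⟩

open Classical in
/-- sum over the first passage lists -/
noncomputable def fps (N : ℕ) (F : List B → ℝ≥0∞) : ℝ≥0∞ :=
  ∑' L : List B, if FP ht N L then LW Λ L * F L else 0

lemma fps_zero (F : List B → ℝ≥0∞) : fps Λ ht 0 F = F [] := by
  rw [fps, tsum_list]
  simp [FP, LW_nil]

lemma fps_pos (N : ℕ) (hN : N ≠ 0) (F : List B → ℝ≥0∞) :
    fps Λ ht N F = ∑' b, Λ b * fps Λ ht (N - ht b) (fun L => F (b :: L)) := by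
  classical
  rw [fps, tsum_list]
  simp only [FP, hN, if_false, zero_add, ne_eq, not_false_eq_true, true_and]
  refine tsum_congr fun b => ?_
  rw [fps, ← ENNReal.tsum_mul_left]
  refine tsum_congr fun L => ?_
  by_cases h : FP ht (N - ht b) L
  · simp [h, LW_cons, mul_assoc]
  · simp [h]

lemma fps_mono (N : ℕ) {F F' : List B → ℝ≥0∞} (h : ∀ L, FP ht N L → F L ≤ F' L) :
    fps Λ ht N F ≤ fps Λ ht N F' := by
  refine ENNReal.tsum_le_tsum fun L => ?_
  by_cases hL : FP ht N L
  · simp only [hL, if_true]; exact mul_le_mul_right (h L hL) _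
  · simp [hL]

lemma fps_add (N : ℕ) (F F' : List B → ℝ≥0∞) :
    fps Λ ht N (fun L => F L + F' L) = fps Λ ht N F + fps Λ ht N F' := by
  rw [fps, fps, fps, ← ENNReal.tsum_add]
  refine tsum_congr fun L => ?_
  by_cases hL : FP ht N L
  · simp [hL, mul_add]
  · simp [hL]

lemma fps_mul (N : ℕ) (a : ℝ≥0∞) (F : List B → ℝ≥0∞) :
    fps Λ ht N (fun L => a * F L) = a * fps Λ ht N F := by
  rw [fps, fps, ← ENNReal.tsum_mul_left]
  refine tsum_congr fun L => ?_
  by_cases hL : FP ht N L
  · simp [hL, mul_left_comm]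
  · simp [hL]

lemma fps_tsum {ι : Type*} (N : ℕ) (F : ι → List B → ℝ≥0∞) :
    fps Λ ht N (fun L => ∑' i, F i L) = ∑' i, fps Λ ht N (F i) := by
  simp only [fps]
  rw [ENNReal.tsum_comm]
  refine tsum_congr fun L => ?_
  by_cases hL : FP ht N L
  · simp [hL, ENNReal.tsum_mul_left]
  · simp [hL]

lemma fps_sum (N : ℕ) (s : Finset ℕ) (F : ℕ → List B → ℝ≥0∞) :
    fps Λ ht N (fun L => ∑ i ∈ s, F i L) = ∑ i ∈ s, fps Λ ht N (F i) := by
  classical
  induction s using Finset.induction_on with
  | empty =>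
    simp only [Finset.sum_empty]
    simpa using fps_mul Λ ht N 0 (fun _ => 0)
  | insert a s ha ih =>
    simp only [Finset.sum_insert ha]
    rw [fps_add, ih]

lemma fps_one_le (h1 : ∀ b, 1 ≤ ht b) (hΛ : ∑' b, Λ b = 1) (N : ℕ) : fps Λ ht N (fun _ => 1) ≤ 1 := by
  induction N using Nat.strong_induction_on with
  | _ N ih =>
    by_cases hN : N = 0
    · subst hN; rw [fps_zero]
    · rw [fps_pos Λ ht N hN]
      refine le_trans (ENNReal.tsum_le_tsum fun b => ?_) hΛ.le
      have := h1 b
      calc Λ b * fps Λ ht (N - ht b) (fun _ => 1) ≤ Λ b * 1 :=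
            mul_le_mul_right (ih _ (by omega)) _
        _ = Λ b := mul_one _

lemma fps_le_const (h1 : ∀ b, 1 ≤ ht b) (hΛ : ∑' b, Λ b = 1) (N : ℕ) (a : ℝ≥0∞)
    {F : List B → ℝ≥0∞} (hF : ∀ L, FP ht N L → F L ≤ a) : fps Λ ht N F ≤ a := by
  calc fps Λ ht N F ≤ fps Λ ht N (fun _ => a * 1) := fps_mono Λ ht N fun L hL => by
        rw [mul_one]; exact hF L hL
    _ = a * fps Λ ht N (fun _ => 1) := fps_mul Λ ht N a _
    _ ≤ a * 1 := mul_le_mul_right (fps_one_le Λ ht h1 hΛ N) _
    _ = a := mul_one _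

lemma full_split (h1 : ∀ b, 1 ≤ ht b) (N : ℕ) : ∀ (G : List B → ℝ≥0∞)
    (_ : ∀ L, HT ht L < N → G L = 0),
    ∑' L, LW Λ L * G L = fps Λ ht N (fun P => ∑' L', LW Λ L' * G (P ++ L')) := by
  induction N using Nat.strong_induction_on with
  | _ N ih =>
    intro G hG
    by_cases hN : N = 0
    · subst hN; rw [fps_zero]; simp
    · rw [fps_pos Λ ht N hN, tsum_list, hG [] (by simp [HT]; omega), mul_zero, zero_add]
      refine tsum_congr fun b => ?_
      have hb := h1 b
      have key := ih (N - ht b) (by omega) (fun L => G (b :: L))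
        (fun L hL => hG _ (by rw [HT_cons]; omega))
      have e2 : (fun L : List B => (fun P => ∑' L', LW Λ L' * G (P ++ L')) (b :: L))
          = fun P => ∑' L', LW Λ L' * (fun L => G (b :: L)) (P ++ L') := rfl
      rw [e2, ← key, ← ENNReal.tsum_mul_left]
      exact tsum_congr fun L => by rw [LW_cons, mul_assoc]

lemma fps_comp (h1 : ∀ b, 1 ≤ ht b) (N : ℕ) : ∀ (a : ℕ) (_ : a ≤ N) (F : List B → ℝ≥0∞),
    fps Λ ht N F = fps Λ ht a (fun P => fps Λ ht (N - HT ht P) (fun L => F (P ++ L))) := by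
  induction N using Nat.strong_induction_on with
  | _ N ih =>
    intro a ha F
    by_cases ha0 : a = 0
    · subst ha0; rw [fps_zero]; simp [HT]
    · rw [fps_pos Λ ht N (by omega), fps_pos Λ ht a ha0]
      refine tsum_congr fun b => ?_
      have hb := h1 b
      rw [ih (N - ht b) (by omega) (a - ht b) (by omega)]
      congr 1
      congr 1
      funext P
      rw [HT_cons, Nat.sub_add_eq]
      rfl

open Classical in
lemma fps_last (h1 : ∀ b, 1 ≤ ht b) (N : ℕ) : ∀ (F : List B → ℝ≥0∞),
    fps Λ ht (N + 1) F = ∑' L : List B, ∑' b : B,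
      if HT ht L ≤ N ∧ N < HT ht L + ht b then LW Λ L * Λ b * F (L ++ [b]) else 0 := by
  induction N using Nat.strong_induction_on with
  | _ N ih =>
    intro F
    rw [fps_pos Λ ht (N + 1) (by omega), tsum_list, ← ENNReal.tsum_add]
    refine tsum_congr fun b => ?_
    by_cases hb : N < ht b
    · rw [show N + 1 - ht b = 0 by omega, fps_zero]
      have e1 : (∑' L : List B, ∑' b' : B, if HT ht (b :: L) ≤ N ∧ N < HT ht (b :: L) + ht b' then
          LW Λ (b :: L) * Λ b' * F (b :: L ++ [b']) else 0) = 0 := by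
        rw [ENNReal.tsum_eq_zero]; intro L
        rw [ENNReal.tsum_eq_zero]; intro b'
        rw [if_neg]; rw [HT_cons]; omega
      rw [e1, add_zero, if_pos ⟨by simp [HT], by simpa [HT] using hb⟩, LW_nil, one_mul]
      rfl
    · have hb1 := h1 b
      rw [show N + 1 - ht b = (N - ht b) + 1 by omega, ih (N - ht b) (by omega),
        if_neg (by simp only [HT_nil]; omega), zero_add, ← ENNReal.tsum_mul_left]
      refine tsum_congr fun L => ?_
      rw [← ENNReal.tsum_mul_left]
      refine tsum_congr fun b' => ?_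
      rw [HT_cons, LW_cons]
      by_cases hc : HT ht L ≤ N - ht b ∧ N - ht b < HT ht L + ht b'
      · rw [if_pos hc, if_pos (by omega)]
        rw [mul_assoc (Λ b), mul_assoc (Λ b)]
        rfl
      · rw [if_neg hc, if_neg (by omega), mul_zero]

open Classical in
/-- sum over the lists of height `h` -/
noncomputable def AH (h : ℕ) (F : List B → ℝ≥0∞) : ℝ≥0∞ :=
  ∑' L : List B, if HT ht L = h then LW Λ L * F L else 0

lemma AH_mono (h : ℕ) {F F' : List B → ℝ≥0∞} (hF : ∀ L, HT ht L = h → F L ≤ F' L) :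
    AH Λ ht h F ≤ AH Λ ht h F' := by
  refine ENNReal.tsum_le_tsum fun L => ?_
  by_cases hL : HT ht L = h
  · simp only [hL, if_true]; exact mul_le_mul_right (hF L hL) _
  · simp [hL]

lemma AH_add (h : ℕ) (F F' : List B → ℝ≥0∞) :
    AH Λ ht h (fun L => F L + F' L) = AH Λ ht h F + AH Λ ht h F' := by
  rw [AH, AH, AH, ← ENNReal.tsum_add]
  refine tsum_congr fun L => ?_
  by_cases hL : HT ht L = h
  · simp [hL, mul_add]
  · simp [hL]

lemma AH_one (h : ℕ) : AH Λ ht h (fun _ => 1) = U Λ ht h := by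
  rw [AH, U]; simp

lemma AH_le_U (h : ℕ) {F : List B → ℝ≥0∞} (hF : ∀ L, HT ht L = h → F L ≤ 1) :
    AH Λ ht h F ≤ U Λ ht h := by
  rw [← AH_one]; exact AH_mono Λ ht h hF

lemma fps_last_le (h1 : ∀ b, 1 ≤ ht b) (N : ℕ) (F F' : List B → ℝ≥0∞)
    (hF : ∀ L b, HT ht L ≤ N → N < HT ht L + ht b → F (L ++ [b]) ≤ F' L) :
    fps Λ ht (N + 1) F ≤ ∑ h ∈ Finset.range (N + 1), tail Λ ht (N - h) * AH Λ ht h F' := by
  classical
  rw [fps_last Λ ht h1]
  have e : ∑ h ∈ Finset.range (N + 1), tail Λ ht (N - h) * AH Λ ht h F'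
      = ∑' L : List B, ∑ h ∈ Finset.range (N + 1),
        tail Λ ht (N - h) * (if HT ht L = h then LW Λ L * F' L else 0) := by
    rw [Summable.tsum_finsetSum (fun _ _ => ENNReal.summable)]
    exact Finset.sum_congr rfl fun h _ => by rw [AH, ENNReal.tsum_mul_left]
  rw [e]
  refine ENNReal.tsum_le_tsum fun L => ?_
  by_cases hL : HT ht L ≤ N
  · refine le_trans ?_ (Finset.single_le_sum (f := fun h => tail Λ ht (N - h) *
      (if HT ht L = h then LW Λ L * F' L else 0)) (fun _ _ => zero_le)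
      (Finset.mem_range.2 (by omega : HT ht L < N + 1)))
    simp only [if_true]
    rw [tail, ← ENNReal.tsum_mul_right]
    refine ENNReal.tsum_le_tsum fun b => ?_
    by_cases hb : N < HT ht L + ht b
    · rw [if_pos ⟨hL, hb⟩, if_pos (by omega)]
      calc LW Λ L * Λ b * F (L ++ [b]) ≤ LW Λ L * Λ b * F' L := mul_le_mul_right (hF L b hL hb) _
        _ = _ := by ring
    · rw [if_neg (fun h => hb h.2)]; exact zero_le
  · refine le_trans (le_of_eq ?_) zero_le
    rw [ENNReal.tsum_eq_zero]; intro b; rw [if_neg (fun h => hL h.1)]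

/-- overshoot bound -/
noncomputable def ov (r : ℕ) : ℝ≥0∞ := ∑' k, tail Λ ht (k + r)

lemma sum_range_le_ov (N r : ℕ) : ∑ g ∈ Finset.range (N + 1), tail Λ ht (N - g + r) ≤ ov Λ ht r := by
  rw [← Finset.sum_range_reflect]
  refine le_trans (Finset.sum_le_sum fun k hk => ?_) (ENNReal.sum_le_tsum (Finset.range (N + 1)))
  have := Finset.mem_range.1 hk
  rw [show N - (N + 1 - 1 - k) + r = k + r by omega]

open Classical in
lemma fps_ov (h1 : ∀ b, 1 ≤ ht b) (hU1 : ∀ n, U Λ ht n ≤ 1) (N r : ℕ) (hr : 1 ≤ r) :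
    fps Λ ht N (fun P => if N + r ≤ HT ht P then 1 else 0) ≤ ov Λ ht r := by
  rcases Nat.eq_zero_or_pos N with hN | hN
  · subst hN
    rw [fps_zero, if_neg (by simp [HT]; omega)]; exact zero_le
  · obtain ⟨M, rfl⟩ : ∃ M, N = M + 1 := ⟨N - 1, by omega⟩
    refine le_trans ?_ (sum_range_le_ov Λ ht M r)
    rw [fps_last Λ ht h1]
    calc _ ≤ ∑' L : List B, ∑ g ∈ Finset.range (M + 1),
          tail Λ ht (M - g + r) * (if HT ht L = g then LW Λ L else 0) := by
          refine ENNReal.tsum_le_tsum fun L => ?_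
          by_cases hL : HT ht L ≤ M
          · refine le_trans ?_ (Finset.single_le_sum (f := fun g => tail Λ ht (M - g + r) *
              (if HT ht L = g then LW Λ L else 0)) (fun _ _ => zero_le)
              (Finset.mem_range.2 (by omega : HT ht L < M + 1)))
            simp only [if_true]
            rw [tail, ← ENNReal.tsum_mul_right]
            refine ENNReal.tsum_le_tsum fun b => ?_
            rw [HT_append]
            by_cases hb : M + 1 + r ≤ HT ht L + ht b
            · have : HT ht [b] = ht b := by simp [HT]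
              rw [if_pos ⟨hL, by omega⟩, this, if_pos hb, if_pos (by omega), mul_one, mul_comm]
            · have : HT ht [b] = ht b := by simp [HT]
              rw [this, if_neg hb]; simp
          · refine le_trans (le_of_eq ?_) zero_le
            rw [ENNReal.tsum_eq_zero]; intro b; rw [if_neg (fun h => hL h.1)]
      _ = ∑ g ∈ Finset.range (M + 1), tail Λ ht (M - g + r) * U Λ ht g := by
          rw [Summable.tsum_finsetSum (fun _ _ => ENNReal.summable)]
          exact Finset.sum_congr rfl fun h _ => by rw [U, ENNReal.tsum_mul_left]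
      _ ≤ _ := Finset.sum_le_sum fun g _ => by
          calc _ ≤ tail Λ ht (M - g + r) * 1 := mul_le_mul_right (hU1 g) _
            _ = _ := mul_one _

lemma act_inj (hinj : ∀ b, Function.Injective (dl b)) (L : List B) : Function.Injective (act dl L) := by
  induction L with
  | nil => exact fun a b h => h
  | cons b L ih => exact fun x y h => hinj b (ih h)

open Classical in
/-- law of the displacement at first passage -/
noncomputable def PD (D : ℕ) (w w' : W) : ℝ≥0∞ :=
  fps Λ ht D (fun P => if act dl P w = w' then 1 else 0)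

lemma PD_row (h1 : ∀ b, 1 ≤ ht b) (hΛ : ∑' b, Λ b = 1) (D : ℕ) (w : W) :
    ∑' w', PD Λ ht dl D w w' ≤ 1 := by
  classical
  simp only [PD]
  rw [← fps_tsum]
  refine fps_le_const Λ ht h1 hΛ D 1 fun L _ => ?_
  rw [tsum_eq_single (act dl L w) (fun w' hw' => if_neg (Ne.symm hw'))]
  simp

lemma PD_col (h1 : ∀ b, 1 ≤ ht b) (hΛ : ∑' b, Λ b = 1) (hinj : ∀ b, Function.Injective (dl b))
    (D : ℕ) (w' : W) : ∑' w, PD Λ ht dl D w w' ≤ 1 := by
  classical
  simp only [PD]
  rw [← fps_tsum]
  refine fps_le_const Λ ht h1 hΛ D 1 fun L _ => ?_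
  by_cases h : ∃ w, act dl L w = w'
  · obtain ⟨w, hw⟩ := h
    rw [tsum_eq_single w]
    · simp [hw]
    · intro x hx
      rw [if_neg]; intro hx'
      exact hx (act_inj dl hinj L (hx'.trans hw.symm))
  · push Not at h
    simp [h]

lemma fps_act (D : ℕ) (w : W) (Φ : W → ℝ≥0∞) :
    fps Λ ht D (fun P => Φ (act dl P w)) = ∑' w', PD Λ ht dl D w w' * Φ w' := by
  classical
  simp only [PD]
  have : ∀ P : List B, Φ (act dl P w) = ∑' w', (if act dl P w = w' then 1 else 0) * Φ w' := by
    intro P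
    rw [tsum_eq_single (act dl P w)]
    · simp
    · intro b hb; rw [if_neg hb.symm, zero_mul]
  simp_rw [this]
  rw [fps_tsum]
  refine tsum_congr fun w' => ?_
  simp_rw [mul_comm _ (Φ w')]
  rw [fps_mul]

end Crest.Agent.R154.JA719
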