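import Crest.Agent.R154.B5Abs_566

/-! Row 154, T0219 (kappa = 0), ROAD 801 (helper562): first passage lists of a block system,
overshoot tail, attempt law, smooth density. -/

set_option autoImplicit false
set_option linter.unusedSectionVars false
set_option linter.unusedVariables false

namespace Crest.Agent.R154.Mid562

open scoped ENNReal Classical
open Crest.Agent.R154.B5A

variable {B G : Type*}

/-- first passage lists -/
def FR (ht : B → ℕ) : ℕ → List B → Prop
  | T, [] => T = 0
  | T, b :: L => 0 < T ∧ FR ht (T - ht b) L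

/-- displacement of a list -/
def DG [AddCommGroup G] (g : B → G) (L : List B) : G := (L.map g).sum

variable (Λ : B → ℝ≥0∞) (ht : B → ℕ)

/-- sum over the first passage lists to level `T` -/
noncomputable def FS (T : ℕ) (F : List B → ℝ≥0∞) : ℝ≥0∞ :=
  ∑' A : List B, if FR ht T A then LW Λ A * F A else 0

/-- sum over the lists of height `n` -/
noncomputable def NS (n : ℕ) (F : List B → ℝ≥0∞) : ℝ≥0∞ :=
  ∑' L : List B, if HT ht L = n then LW Λ L * F L else 0

lemma FS_zero (F : List B → ℝ≥0∞) : FS Λ ht 0 F = F [] := by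
  rw [FS, tsum_list]
  simp [FR, LW_nil]

lemma FS_pos {T : ℕ} (hT : 0 < T) (F : List B → ℝ≥0∞) :
    FS Λ ht T F = ∑' b, Λ b * FS Λ ht (T - ht b) (fun L => F (b :: L)) := by
  rw [FS, tsum_list]
  have h0 : ¬ FR ht T [] := by simp [FR]; omega
  rw [if_neg h0, zero_add]
  refine tsum_congr fun b => ?_
  rw [FS, ← ENNReal.tsum_mul_left]
  refine tsum_congr fun L => ?_
  by_cases h : FR ht (T - ht b) L
  · rw [if_pos (show FR ht T (b :: L) from ⟨hT, h⟩), if_pos h, LW_cons, mul_assoc]
  · rw [if_neg (show ¬ FR ht T (b :: L) from fun hh => h hh.2), if_neg h, mul_zero]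

lemma FS_mono {T : ℕ} {F F' : List B → ℝ≥0∞} (h : ∀ A, FR ht T A → F A ≤ F' A) :
    FS Λ ht T F ≤ FS Λ ht T F' := by
  refine ENNReal.tsum_le_tsum fun A => ?_
  by_cases hA : FR ht T A
  · rw [if_pos hA, if_pos hA]; exact mul_le_mul_right (h A hA) _
  · rw [if_neg hA, if_neg hA]

lemma FS_add {T : ℕ} (F F' : List B → ℝ≥0∞) :
    FS Λ ht T (fun A => F A + F' A) = FS Λ ht T F + FS Λ ht T F' := by
  rw [FS, FS, FS, ← ENNReal.tsum_add]
  refine tsum_congr fun A => ?_
  by_cases hA : FR ht T A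
  · simp only [if_pos hA, mul_add]
  · simp only [if_neg hA, add_zero]

lemma FS_mul_left {T : ℕ} (c : ℝ≥0∞) (F : List B → ℝ≥0∞) :
    FS Λ ht T (fun A => c * F A) = c * FS Λ ht T F := by
  rw [FS, FS, ← ENNReal.tsum_mul_left]
  refine tsum_congr fun A => ?_
  by_cases hA : FR ht T A
  · simp only [if_pos hA]; ring
  · simp only [if_neg hA, mul_zero]

lemma FS_one (h1 : ∀ b, 1 ≤ ht b) (hΛ : ∑' b, Λ b = 1) (T : ℕ) : FS Λ ht T (fun _ => 1) = 1 := by
  induction T using Nat.strong_induction_on with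
  | _ T ih =>
    rcases Nat.eq_zero_or_pos T with rfl | hT
    · rw [FS_zero]
    · rw [FS_pos Λ ht hT]
      calc _ = ∑' b, Λ b * 1 := tsum_congr fun b => by
            rw [ih (T - ht b) (by have := h1 b; omega)]
        _ = 1 := by simpa using hΛ

lemma FS_le_one (h1 : ∀ b, 1 ≤ ht b) (hΛ : ∑' b, Λ b = 1) (T : ℕ) {F : List B → ℝ≥0∞}
    (hF : ∀ A, F A ≤ 1) : FS Λ ht T F ≤ 1 :=
  (FS_mono Λ ht fun A _ => hF A).trans (FS_one Λ ht h1 hΛ T).le

lemma FS_const (h1 : ∀ b, 1 ≤ ht b) (hΛ : ∑' b, Λ b = 1) (T : ℕ) (c : ℝ≥0∞) :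
    FS Λ ht T (fun _ => c) = c := by
  have := FS_mul_left Λ ht (T := T) c (fun _ => 1)
  rw [FS_one Λ ht h1 hΛ] at this
  simpa using this

lemma FR_le (h1 : ∀ b, 1 ≤ ht b) {T : ℕ} {A : List B} (h : FR ht T A) : T ≤ HT ht A := by
  induction A generalizing T with
  | nil => simp only [FR] at h; subst h; simp
  | cons b L ih =>
    rw [HT_cons]
    have := ih h.2
    omega

/-- overshoot mass -/
noncomputable def Ov (T i : ℕ) : ℝ≥0∞ :=
  FS Λ ht T (fun A => if T + i < HT ht A then 1 else 0)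

/-- `∑_{j ≥ 1} tail (j + i)` -/
noncomputable def ep (i : ℕ) : ℝ≥0∞ := ∑' j, tail Λ ht (j + i)

lemma Ov_le (h1 : ∀ b, 1 ≤ ht b) (hΛ : ∑' b, Λ b = 1) (i T : ℕ) :
    Ov Λ ht T i ≤ ∑ j ∈ Finset.range T, tail Λ ht (j + 1 + i) := by
  induction T using Nat.strong_induction_on with
  | _ T ih =>
    rcases Nat.eq_zero_or_pos T with rfl | hT
    · rw [Ov, FS_zero]; simp [HT_nil]
    · rw [Ov, FS_pos Λ ht hT]
      have hb : ∀ b, Λ b * FS Λ ht (T - ht b) (fun L => if T + i < HT ht (b :: L) then 1 else 0)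
          ≤ (if T + i < ht b then Λ b else 0)
            + Λ b * ∑ j ∈ Finset.range (T - 1), tail Λ ht (j + 1 + i) := by
        intro b
        by_cases hc : T ≤ ht b
        · rw [show T - ht b = 0 by omega, FS_zero, HT_cons, HT_nil, add_zero]
          refine le_trans ?_ le_self_add
          split_ifs <;> simp
        · refine le_trans ?_ le_add_self
          refine mul_le_mul_right ?_ _
          have e := ih (T - ht b) (by have := h1 b; omega)
          have e2 : FS Λ ht (T - ht b) (fun L => if T + i < HT ht (b :: L) then 1 else 0)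
              = Ov Λ ht (T - ht b) i := by
            unfold Ov
            congr 1
            funext L
            rw [HT_cons]
            have : (T + i < ht b + HT ht L) ↔ (T - ht b + i < HT ht L) := by omega
            simp only [this]
          rw [e2]
          refine e.trans (Finset.sum_le_sum_of_subset (Finset.range_mono ?_))
          have := h1 b; omega
      calc _ ≤ ∑' b, ((if T + i < ht b then Λ b else 0)
            + Λ b * ∑ j ∈ Finset.range (T - 1), tail Λ ht (j + 1 + i)) :=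
            ENNReal.tsum_le_tsum hb
        _ = tail Λ ht (T + i) + ∑ j ∈ Finset.range (T - 1), tail Λ ht (j + 1 + i) := by
            rw [ENNReal.tsum_add, ENNReal.tsum_mul_right, hΛ, one_mul]; rfl
        _ = _ := by
            obtain ⟨S, rfl⟩ : ∃ S, T = S + 1 := ⟨T - 1, by omega⟩
            rw [Finset.sum_range_succ, add_comm]
            simp

lemma Ov_le_ep (h1 : ∀ b, 1 ≤ ht b) (hΛ : ∑' b, Λ b = 1) (i T : ℕ) :
    Ov Λ ht T i ≤ ep Λ ht i := by
  refine (Ov_le Λ ht h1 hΛ i T).trans ?_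
  calc _ ≤ ∑' j, tail Λ ht (j + 1 + i) := ENNReal.sum_le_tsum _
    _ ≤ _ := by
      unfold ep
      exact ENNReal.tsum_comp_le_tsum_of_injective (add_left_injective 1)
        (fun j => tail Λ ht (j + i))

lemma ep_tendsto (hΛ : ∑' b, Λ b = 1) (hE : ∑' b, Λ b * (ht b : ℝ≥0∞) ≠ ⊤) :
    Filter.Tendsto (ep Λ ht) Filter.atTop (nhds 0) := by
  rw [sum_tail Λ ht hΛ] at hE
  exact ENNReal.tendsto_sum_nat_add _ hE

lemma U_le_one (h1 : ∀ b, 1 ≤ ht b) (hΛ : ∑' b, Λ b = 1) (n : ℕ) : U Λ ht n ≤ 1 := by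
  have ht0 : tail Λ ht 0 = 1 := by
    rw [← hΛ, tail]
    refine tsum_congr fun b => ?_
    rw [if_pos (by have := h1 b; omega)]
  rw [← renewal_one Λ ht h1 hΛ n]
  calc U Λ ht n = U Λ ht (n - 0) * tail Λ ht 0 := by rw [ht0]; simp
    _ ≤ _ := Finset.single_le_sum (f := fun k => U Λ ht (n - k) * tail Λ ht k)
        (fun _ _ => zero_le) (Finset.mem_range.2 (Nat.succ_pos n))

lemma NS_le_one (h1 : ∀ b, 1 ≤ ht b) (hΛ : ∑' b, Λ b = 1) (n : ℕ) {F : List B → ℝ≥0∞}
    (hF : ∀ L, F L ≤ 1) : NS Λ ht n F ≤ 1 := by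
  refine le_trans ?_ (U_le_one Λ ht h1 hΛ n)
  refine ENNReal.tsum_le_tsum fun L => ?_
  split_ifs
  · exact mul_le_of_le_one_right' (hF L)
  · exact le_rfl

/-- split at the first passage -/
lemma tsum_split (h1 : ∀ b, 1 ≤ ht b) (T : ℕ) (f : List B → ℝ≥0∞)
    (hf : ∀ L, f L ≠ 0 → T ≤ HT ht L) :
    ∑' L, f L = ∑' A, if FR ht T A then ∑' R, f (A ++ R) else 0 := by
  induction T using Nat.strong_induction_on generalizing f with
  | _ T ih =>
    rcases Nat.eq_zero_or_pos T with rfl | hT
    · rw [tsum_list (F := fun A => if FR ht 0 A then ∑' R, f (A ++ R) else 0)]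
      simp [FR]
    · rw [tsum_list f, tsum_list (F := fun A => if FR ht T A then ∑' R, f (A ++ R) else 0)]
      have h0 : ¬ FR ht T [] := by simp [FR]; omega
      have hf0 : f [] = 0 := by
        by_contra hne
        have := hf [] hne
        rw [HT_nil] at this
        omega
      rw [if_neg h0, hf0]
      congr 1
      refine tsum_congr fun b => ?_
      rw [ih (T - ht b) (by have := h1 b; omega) (fun L => f (b :: L)) (fun L hL => by
        have := hf _ hL
        rw [HT_cons] at this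
        omega)]
      refine tsum_congr fun A => ?_
      by_cases h : FR ht (T - ht b) A
      · rw [if_pos (show FR ht T (b :: A) from ⟨hT, h⟩), if_pos h]
        rfl
      · rw [if_neg (show ¬ FR ht T (b :: A) from fun hh => h hh.2), if_neg h]

/-- one split of `NS` -/
lemma NS_split (h1 : ∀ b, 1 ≤ ht b) {T n : ℕ} (hTn : T ≤ n) (F : List B → ℝ≥0∞) :
    NS Λ ht n F = FS Λ ht T (fun A =>
      if HT ht A ≤ n then NS Λ ht (n - HT ht A) (fun R => F (A ++ R)) else 0) := by
  rw [NS, tsum_split ht h1 T _ (fun L hL => by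
    by_cases h : HT ht L = n
    · omega
    · simp [h] at hL)]
  refine tsum_congr fun A => ?_
  by_cases hA : FR ht T A
  · rw [if_pos hA, if_pos hA]
    show (∑' R : List B, if HT ht (A ++ R) = n then LW Λ (A ++ R) * F (A ++ R) else 0)
      = LW Λ A * (if HT ht A ≤ n then NS Λ ht (n - HT ht A) (fun R => F (A ++ R)) else 0)
    by_cases hn : HT ht A ≤ n
    · rw [if_pos hn, NS, ← ENNReal.tsum_mul_left]
      refine tsum_congr fun R => ?_
      rw [HT_append]
      by_cases hR : HT ht R = n - HT ht A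
      · rw [if_pos (by omega), if_pos hR, LW_append, mul_assoc]
      · rw [if_neg (by omega), if_neg hR, mul_zero]
    · rw [if_neg hn, mul_zero]
      refine ENNReal.tsum_eq_zero.2 fun R => ?_
      rw [if_neg (by rw [HT_append]; omega)]
  · rw [if_neg hA, if_neg hA]

/-- the three part bound -/
lemma NS_three (h1 : ∀ b, 1 ≤ ht b) (hΛ : ∑' b, Λ b = 1) {T T' i n : ℕ} (hn : T + i + T' ≤ n)
    (F : List B → ℝ≥0∞) (hF : ∀ L, F L ≤ 1) (H : List B → List B → ℝ≥0∞)
    (hH : ∀ A P R, FR ht T A → HT ht A ≤ T + i → FR ht T' P → F (A ++ (P ++ R)) ≤ H A P) :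
    NS Λ ht n F ≤ FS Λ ht T (fun A => if HT ht A ≤ T + i then FS Λ ht T' (fun P => H A P) else 1) := by
  rw [NS_split Λ ht h1 (T := T) (by omega)]
  refine FS_mono Λ ht fun A hA => ?_
  by_cases hi : HT ht A ≤ T + i
  · rw [if_pos hi, if_pos (by omega), NS_split Λ ht h1 (T := T') (by omega)]
    refine FS_mono Λ ht fun P hP => ?_
    split_ifs
    · calc NS Λ ht (n - HT ht A - HT ht P) (fun R => F (A ++ (P ++ R)))
          ≤ NS Λ ht (n - HT ht A - HT ht P) (fun _ => H A P) := by
            refine ENNReal.tsum_le_tsum fun R => ?_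
            split_ifs
            · exact mul_le_mul_right (hH A P R hA hi hP) _
            · exact le_rfl
        _ = H A P * U Λ ht (n - HT ht A - HT ht P) := by
            rw [NS, U, ← ENNReal.tsum_mul_left]
            refine tsum_congr fun R => ?_
            split_ifs
            · rw [mul_comm]
            · simp
        _ ≤ H A P := mul_le_of_le_one_right' (U_le_one Λ ht h1 hΛ _)
    · exact zero_le
  · rw [if_neg hi]
    split_ifs
    · exact NS_le_one Λ ht h1 hΛ _ fun L => hF _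
    · exact zero_le

end Crest.Agent.R154.Mid562
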