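import Crest.Agent.R154.Hit_776
import Crest.Agent.R154.MidA_562
import Crest.Agent.R154.B5First_181

/-! Row 154, ROAD 801 in the frame of joint cuts (helper762): one window. -/

set_option autoImplicit false

namespace Crest.Agent.R154.JA762

open Crest.Agent.R154.B5A Crest.Agent.R154.Hit776
open scoped ENNReal

variable {B W G : Type*} (Λ : B → ℝ≥0∞) (ht : B → ℕ)

lemma FR_iff (a : ℕ) (L : List B) : Mid562.FR ht a L ↔ FP ht a L := by
  induction L generalizing a with
  | nil => exact Iff.rfl
  | cons b L ih => exact and_congr Iff.rfl (ih _)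

/-- overshoot -/
lemma ovr (h1 : ∀ b, 1 ≤ ht b) (hΛ : ∑' b, Λ b = 1) (a i : ℕ) :
    S Λ ht a (fun L => if a + i < HT ht L then 1 else 0) ≤ Mid562.ep Λ ht i := by
  refine le_trans (le_of_eq ?_) (Mid562.Ov_le_ep Λ ht h1 hΛ i a)
  unfold Mid562.Ov Mid562.FS S
  refine tsum_congr fun L => ?_
  by_cases h : FP ht a L
  · rw [if_pos h, if_pos ((FR_iff ht a L).2 h)]
  · rw [if_neg h, if_neg (fun h' => h ((FR_iff ht a L).1 h'))]

lemma SC_high (h1 : ∀ b, 1 ≤ ht b) (hΛ : ∑' b, Λ b = 1) (h i N : ℕ) :
    SC Λ ht h N (fun P => if N * (h + i) < HT ht P then 1 else 0) ≤ N * Mid562.ep Λ ht i := by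
  induction N with
  | zero => simp [SC, HT_nil]
  | succ N ih =>
    simp only [SC]
    calc S Λ ht h (fun C => SC Λ ht h N (fun L =>
          if (N + 1) * (h + i) < HT ht (C ++ L) then 1 else 0))
        ≤ S Λ ht h (fun C => (if h + i < HT ht C then 1 else 0)
            + (N * Mid562.ep Λ ht i) * 1) := by
          refine S_mono Λ ht h fun C _ => ?_
          by_cases hC : h + i < HT ht C
          · rw [if_pos hC]
            refine le_trans ?_ le_self_add
            calc _ ≤ SC Λ ht h N (fun _ => 1) :=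
                  SC_mono Λ ht h N fun L => by split_ifs <;> simp
              _ = 1 := SC_one Λ ht h1 hΛ h N
          · rw [if_neg hC, zero_add, mul_one]
            refine le_trans (SC_mono Λ ht h N fun L => ?_) ih
            rw [HT_append]
            by_cases h2 : (N + 1) * (h + i) < HT ht C + HT ht L
            · rw [if_pos h2, if_pos (by rw [add_mul, one_mul] at h2; omega)]
            · rw [if_neg h2]; exact zero_le
      _ = S Λ ht h (fun C => if h + i < HT ht C then 1 else 0)
            + (N * Mid562.ep Λ ht i) * S Λ ht h (fun _ => 1) := by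
          rw [S_add_fun, S_const_mul]
      _ ≤ Mid562.ep Λ ht i + N * Mid562.ep Λ ht i := by
          rw [S_one Λ ht h1 hΛ, mul_one]; exact add_le_add (ovr Λ ht h1 hΛ h i) le_rfl
      _ = ((N + 1 : ℕ) : ℝ≥0∞) * Mid562.ep Λ ht i := by push_cast; ring

lemma FP_of_HT (h1 : ∀ b, 1 ≤ ht b) (L : List B) (a : ℕ) (h : HT ht L = a) : FP ht a L := by
  induction L generalizing a with
  | nil => rw [HT_nil] at h; exact h.symm
  | cons b L ih =>
    rw [HT_cons] at h
    have := h1 b
    exact ⟨by omega, ih _ (by omega)⟩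

open Classical in
lemma S_HT (h1 : ∀ b, 1 ≤ ht b) (a : ℕ) (P : List B → Prop) :
    S Λ ht a (fun C => if HT ht C = a ∧ P C then 1 else 0)
      = ∑' C : List B, if HT ht C = a ∧ P C then LW Λ C else 0 := by
  rw [S]
  refine tsum_congr fun C => ?_
  by_cases hC : HT ht C = a ∧ P C
  · rw [if_pos hC, if_pos hC, if_pos (FP_of_HT ht h1 C a hC.1), mul_one]
  · rw [if_neg hC, if_neg hC, mul_zero, ite_self]

variable (dl : B → W → W) (cd : W → B → Set ℕ)

open Classical in
/-- weight of the lists of height `H` with contact, all contacts deeper than `s` -/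
noncomputable def Ph0 (H s : ℕ) (w : W) : ℝ≥0∞ :=
  ∑' L : List B, if HT ht L = H ∧ (∀ k ∈ CD ht dl cd L w, s < k) ∧ (∃ k, k ∈ CD ht dl cd L w)
    then LW Λ L else 0

open Classical in
/-- exact height `n`, all contacts deeper than `s`, some contact at depth `≤ g` -/
noncomputable def Ps (n s g : ℕ) (w : W) : ℝ≥0∞ :=
  ∑' L : List B, if HT ht L = n ∧ (∀ k ∈ CD ht dl cd L w, s < k) ∧
    (∃ k ∈ CD ht dl cd L w, k ≤ g) then LW Λ L else 0

open Classical in
lemma Ps_le (h1 : ∀ b, 1 ≤ ht b) (hΛ : ∑' b, Λ b = 1)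
    (hcd : ∀ w b k, k ∈ cd w b → 1 ≤ k ∧ k ≤ ht b) (c : ℝ≥0∞) (hc : c ≠ 0) (hc' : c ≠ ⊤)
    (hU : ∀ n, c ≤ U Λ ht n) (hU1 : ∀ n, U Λ ht n ≤ 1)
    (n s g i H : ℕ) (hn : g ≤ n) (hs : s ≤ g) (hH : g + i ≤ H) (w : W) :
    Ps Λ ht dl cd n s g w ≤ Mid562.ep Λ ht i + c⁻¹ * Ph0 Λ ht dl cd H s w := by
  set EP : List B → Prop := fun P => (∀ k ∈ CD ht dl cd P w, s < k) ∧
    (∃ k ∈ CD ht dl cd P w, k ≤ g) with hEP
  set G1 : List B → ℝ≥0∞ := fun L => if HT ht L = n ∧ (∀ k ∈ CD ht dl cd L w, s < k) ∧
    (∃ k ∈ CD ht dl cd L w, k ≤ g) then LW Λ L else 0 with hG1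
  set G2 : List B → ℝ≥0∞ := fun L => if HT ht L = H ∧ (∀ k ∈ CD ht dl cd L w, s < k) ∧
    (∃ k, k ∈ CD ht dl cd L w) then LW Λ L else 0 with hG2
  have e1 : Ps Λ ht dl cd n s g w = ∑' L, if g ≤ HT ht L then G1 L else 0 := by
    refine tsum_congr fun L => ?_
    by_cases hg : g ≤ HT ht L
    · rw [if_pos hg]
    · rw [if_neg hg, if_neg (fun h => hg (by rw [h.1]; exact hn))]
  rw [e1, split ht h1]
  have e2 : ∀ P : List B, (if FP ht g P then ∑' R, G1 (P ++ R) else 0)
      ≤ if FP ht g P then LW Λ P * (if EP P then 1 else 0) else 0 := by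
    intro P
    by_cases hP : FP ht g P
    · rw [if_pos hP, if_pos hP]
      have hPg := FP_le ht hP
      by_cases hE : EP P
      · rw [if_pos hE, mul_one]
        calc ∑' R, G1 (P ++ R) ≤ ∑' R, LW Λ P * (if HT ht R = n - HT ht P then LW Λ R else 0) := by
              refine ENNReal.tsum_le_tsum fun R => ?_
              simp only [hG1]
              by_cases h : HT ht (P ++ R) = n ∧ (∀ k ∈ CD ht dl cd (P ++ R) w, s < k) ∧
                  (∃ k ∈ CD ht dl cd (P ++ R) w, k ≤ g)
              · rw [if_pos h, if_pos (by have := h.1; rw [HT_append] at this; omega), LW_append]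
              · rw [if_neg h]; exact zero_le
          _ = LW Λ P * U Λ ht (n - HT ht P) := by rw [ENNReal.tsum_mul_left]; rfl
          _ ≤ LW Λ P * 1 := mul_le_mul_right (hU1 _) _
          _ = LW Λ P := mul_one _
      · rw [if_neg hE, mul_zero]
        refine le_of_eq ?_
        rw [ENNReal.tsum_eq_zero]
        intro R
        simp only [hG1]
        rw [if_neg]
        rintro ⟨h2, h3, k, hk, hkg⟩
        rw [CD_append] at h3 hk
        refine hE ⟨fun k' hk' => h3 k' (Or.inl hk'), ?_⟩
        rcases hk with hk | ⟨k', hk', rfl⟩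
        · exact ⟨k, hk, hkg⟩
        · have := CD_pos ht dl cd hcd R _ k' hk'
          simp only at hkg
          omega
    · rw [if_neg hP, if_neg hP]
  refine (ENNReal.tsum_le_tsum e2).trans ?_
  change S Λ ht g (fun P => if EP P then 1 else 0) ≤ _
  have e3 : S Λ ht g (fun P => if EP P then 1 else 0)
      ≤ S Λ ht g (fun P => if g + i < HT ht P then 1 else 0)
        + S Λ ht g (fun P => if HT ht P ≤ g + i ∧ EP P then 1 else 0) := by
    rw [← S_add_fun]
    refine S_mono Λ ht g fun P _ => ?_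
    by_cases hE : EP P
    · by_cases hg : g + i < HT ht P
      · rw [if_pos hE, if_pos hg]; exact le_self_add
      · rw [if_pos hE, if_pos (⟨not_lt.1 hg, hE⟩ : HT ht P ≤ g + i ∧ EP P)]; exact le_add_self
    · rw [if_neg hE]; exact zero_le
  refine e3.trans (add_le_add (ovr Λ ht h1 hΛ g i) ?_)
  have e4 : S Λ ht g (fun P => if HT ht P ≤ g + i ∧ EP P then 1 else 0)
      ≤ c⁻¹ * ∑' P : List B, if FP ht g P then ∑' R, G2 (P ++ R) else 0 := by
    rw [S, ← ENNReal.tsum_mul_left]
    refine ENNReal.tsum_le_tsum fun P => ?_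
    by_cases hP : FP ht g P
    · rw [if_pos hP, if_pos hP]
      have hPg := FP_le ht hP
      by_cases hE : HT ht P ≤ g + i ∧ EP P
      · rw [if_pos hE, mul_one]
        have h5 : LW Λ P * U Λ ht (H - HT ht P) ≤ ∑' R, G2 (P ++ R) := by
          rw [U, ← ENNReal.tsum_mul_left]
          refine ENNReal.tsum_le_tsum fun R => ?_
          by_cases hR : HT ht R = H - HT ht P
          · rw [if_pos hR]
            simp only [hG2]
            rw [if_pos, LW_append]
            refine ⟨by rw [HT_append]; have := hE.1; omega, ?_, ?_⟩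
            · intro k hk
              rw [CD_append] at hk
              rcases hk with hk | ⟨k', hk', rfl⟩
              · exact hE.2.1 k hk
              · have := CD_pos ht dl cd hcd R _ k' hk'
                simp only
                omega
            · obtain ⟨k, hk, -⟩ := hE.2.2
              exact ⟨k, by rw [CD_append]; exact Or.inl hk⟩
          · rw [if_neg hR, mul_zero]; exact zero_le
        calc LW Λ P = c⁻¹ * (LW Λ P * c) := by
              rw [mul_comm (LW Λ P) c, ← mul_assoc, ENNReal.inv_mul_cancel hc hc', one_mul]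
          _ ≤ c⁻¹ * (LW Λ P * U Λ ht (H - HT ht P)) := by gcongr; exact hU _
          _ ≤ _ := mul_le_mul_right h5 _
      · rw [if_neg hE, mul_zero]; exact zero_le
    · rw [if_neg hP, if_neg hP]; exact zero_le
  refine e4.trans (mul_le_mul_right ?_ _)
  rw [← split ht h1]
  refine ENNReal.tsum_le_tsum fun L => ?_
  by_cases hg : g ≤ HT ht L
  · rw [if_pos hg]
  · rw [if_neg hg]; exact zero_le

open Classical in
/-- one window `(b, e]` -/
noncomputable def Win (n b e : ℕ) (w : W) : ℝ≥0∞ :=
  ∑' L : List B, if HT ht L = n ∧ (∀ k ∈ CD ht dl cd L w, b < k) ∧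
    (∃ k ∈ CD ht dl cd L w, k ≤ e) then LW Λ L else 0

open Classical in
lemma Win_le (h1 : ∀ b, 1 ≤ ht b) (hΛ : ∑' b, Λ b = 1)
    (hcd : ∀ w b k, k ∈ cd w b → 1 ≤ k ∧ k ≤ ht b) (c : ℝ≥0∞) (hc : c ≠ 0) (hc' : c ≠ ⊤)
    (hU : ∀ n, c ≤ U Λ ht n) (hU1 : ∀ n, U Λ ht n ≤ 1)
    (n s b e a g i H : ℕ) (hn : a + i + g ≤ n) (hs : s ≤ g) (hH : g + i ≤ H)
    (hb : a + i + s ≤ b) (hg : e ≤ a + g) (w : W) :
    Win Λ ht dl cd n b e w ≤ 2 * Mid562.ep Λ ht i
      + c⁻¹ * S Λ ht a (fun L1 => Ph0 Λ ht dl cd H s (act dl L1 w)) := by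
  set G1 : List B → ℝ≥0∞ := fun L => if HT ht L = n ∧ (∀ k ∈ CD ht dl cd L w, b < k) ∧
    (∃ k ∈ CD ht dl cd L w, k ≤ e) then LW Λ L else 0 with hG1
  have e1 : Win Λ ht dl cd n b e w = ∑' L, if a ≤ HT ht L then G1 L else 0 := by
    refine tsum_congr fun L => ?_
    by_cases hg : a ≤ HT ht L
    · rw [if_pos hg]
    · rw [if_neg hg, if_neg (fun h => hg (by rw [h.1]; omega))]
  rw [e1, split ht h1]
  have e2 : ∀ P : List B, (if FP ht a P then ∑' R, G1 (P ++ R) else 0)
      ≤ if FP ht a P then LW Λ P * ((if a + i < HT ht P then 1 else 0) +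
        (Mid562.ep Λ ht i * 1 + c⁻¹ * Ph0 Λ ht dl cd H s (act dl P w))) else 0 := by
    intro P
    by_cases hP : FP ht a P
    · rw [if_pos hP, if_pos hP]
      have hPg := FP_le ht hP
      by_cases hE : a + i < HT ht P
      · rw [if_pos hE]
        calc ∑' R, G1 (P ++ R) ≤ ∑' R, LW Λ P * (if HT ht R = n - HT ht P then LW Λ R else 0) := by
              refine ENNReal.tsum_le_tsum fun R => ?_
              simp only [hG1]
              by_cases h : HT ht (P ++ R) = n ∧ (∀ k ∈ CD ht dl cd (P ++ R) w, b < k) ∧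
                  (∃ k ∈ CD ht dl cd (P ++ R) w, k ≤ e)
              · rw [if_pos h, if_pos (by have := h.1; rw [HT_append] at this; omega), LW_append]
              · rw [if_neg h]; exact zero_le
          _ = LW Λ P * U Λ ht (n - HT ht P) := by rw [ENNReal.tsum_mul_left]; rfl
          _ ≤ LW Λ P * 1 := mul_le_mul_right (hU1 _) _
          _ ≤ _ := mul_le_mul_right le_self_add _
      · rw [if_neg hE, zero_add, mul_one]
        calc ∑' R, G1 (P ++ R) ≤ ∑' R, LW Λ P * (if HT ht R = n - HT ht P ∧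
                (∀ k ∈ CD ht dl cd R (act dl P w), s < k) ∧
                (∃ k ∈ CD ht dl cd R (act dl P w), k ≤ g) then LW Λ R else 0) := by
              refine ENNReal.tsum_le_tsum fun R => ?_
              simp only [hG1]
              by_cases h : HT ht (P ++ R) = n ∧ (∀ k ∈ CD ht dl cd (P ++ R) w, b < k) ∧
                  (∃ k ∈ CD ht dl cd (P ++ R) w, k ≤ e)
              · rw [if_pos h, if_pos, LW_append]
                obtain ⟨h2, h3, k, hk, hke⟩ := h
                rw [HT_append] at h2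
                rw [CD_append] at h3 hk
                refine ⟨by omega, ?_, ?_⟩
                · intro k' hk'
                  have := h3 (HT ht P + k') (Or.inr ⟨k', hk', rfl⟩)
                  omega
                · rcases hk with hk | ⟨k', hk', rfl⟩
                  · exfalso
                    have h4 := CD_pos ht dl cd hcd P w k hk
                    have h5 := h3 k (Or.inl hk)
                    omega
                  · exact ⟨k', hk', by simp only at hke; omega⟩
              · rw [if_neg h]; exact zero_le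
          _ = LW Λ P * Ps Λ ht dl cd (n - HT ht P) s g (act dl P w) := by
              rw [ENNReal.tsum_mul_left]; rfl
          _ ≤ _ := mul_le_mul_right (Ps_le Λ ht dl cd h1 hΛ hcd c hc hc' hU hU1 _ s g i H
              (by omega) hs hH _) _
    · rw [if_neg hP, if_neg hP]
  refine (ENNReal.tsum_le_tsum e2).trans ?_
  change S Λ ht a (fun P => (if a + i < HT ht P then 1 else 0) +
        (Mid562.ep Λ ht i * 1 + c⁻¹ * Ph0 Λ ht dl cd H s (act dl P w))) ≤ _
  rw [S_add_fun, S_add_fun, S_const_mul, S_const_mul, S_one Λ ht h1 hΛ, mul_one, two_mul,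
    ← add_assoc]
  exact add_le_add (add_le_add (ovr Λ ht h1 hΛ a i) le_rfl) le_rfl

end Crest.Agent.R154.JA762
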