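import Crest.Agent.R154.Ren_396
import Crest.Agent.R154.B5First_181
import Crest.Agent.R154.NumK_658

/-! Row 154, ROAD 801 (helper513): the ASSEMBLY in the joint-cut frame (139's frame #40446), abstract
letters of `B5Abs_566`.  Windows of length `q`, exact height `H = 4q` below the top cut, density
recursion, order of constants. -/

set_option autoImplicit false

namespace Crest.Agent.R154.JAbs513

open Crest.Agent.R154.B5A Crest.Agent.R154.Ren396 Crest.Agent.R154
open scoped ENNReal

variable {B W : Type*} (Λ : B → ℝ≥0∞) (ht : B → ℕ) (dl : B → W → W) (cd : W → B → Set ℕ)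

open Classical in
theorem dens_rec (hΛ : ∑' b, Λ b ≤ 1) (h1 : ∀ b, 1 ≤ ht b) (hU1 : ∀ n, U Λ ht n ≤ 1)
    (H : ℕ) (hH : 1 ≤ H) (S : Set W) (suc : List B → Prop) (δ v : ℝ≥0∞)
    (hd : ∀ w R, ∑' A, (if HT ht A = H ∧ suc A ∧ act dl R (act dl A w) ∈ S then LW Λ A else 0) ≤ δ)
    (hv : v ≤ ∑' A, (if HT ht A = H ∧ suc A then LW Λ A else 0)) :
    ∀ (J a : ℕ) (w : W), 2 * H * J ≤ a →
      ∑' L, (if FR ht L a then (if act dl L w ∈ S then LW Λ L else 0) else 0)
        ≤ (1 - v) ^ J + J * (δ + TS Λ ht (H + 1)) := by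
  intro J
  induction J with
  | zero =>
    intro a w _
    simp only [pow_zero, Nat.cast_zero, zero_mul, add_zero]
    refine le_trans (ENNReal.tsum_le_tsum fun L => ?_) (mass_FR Λ ht hΛ h1 a)
    split_ifs <;> first | exact le_rfl | exact zero_le
  | succ J ih =>
    intro a w ha
    have hHa : H ≤ a := by nlinarith
    rw [split_FR2 ht hHa (fun L => if act dl L w ∈ S then LW Λ L else 0)]
    set e := TS Λ ht (H + 1) with he
    set D := (1 - v) ^ J + J * (δ + e) with hD
    have key : ∀ A : List B, (if FR ht A H then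
          ∑' R : List B, (if FR ht R (a - HT ht A) then
            (if act dl (A ++ R) w ∈ S then LW Λ (A ++ R) else 0) else 0) else 0)
        ≤ (if FR ht A H ∧ H + H < HT ht A then LW Λ A else 0)
          + (∑' R : List B, (if FR ht R (a - H) then
              (if HT ht A = H ∧ suc A ∧ act dl R (act dl A w) ∈ S then LW Λ A else 0) * LW Λ R
              else 0))
          + (if FR ht A H ∧ ¬ (HT ht A = H ∧ suc A) then LW Λ A else 0) * D := by
      intro A
      by_cases hF : FR ht A H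
      · rw [if_pos hF]
        by_cases hbig : H + H < HT ht A
        · rw [if_pos ⟨hF, hbig⟩]
          refine le_trans ?_ (le_trans le_self_add le_self_add)
          calc _ ≤ ∑' R : List B, LW Λ A * (if FR ht R (a - HT ht A) then LW Λ R else 0) := by
                refine ENNReal.tsum_le_tsum fun R => ?_
                split_ifs
                · rw [LW_append]
                · exact zero_le
                · exact zero_le
            _ = LW Λ A * ∑' R : List B, (if FR ht R (a - HT ht A) then LW Λ R else 0) :=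
                ENNReal.tsum_mul_left
            _ ≤ LW Λ A * 1 := mul_le_mul_right (mass_FR Λ ht hΛ h1 _) _
            _ = _ := mul_one _
        · by_cases hs : HT ht A = H ∧ suc A
          · refine le_trans ?_ (le_trans le_add_self le_self_add)
            rw [hs.1]
            refine ENNReal.tsum_le_tsum fun R => ?_
            by_cases hR : FR ht R (a - H)
            · rw [if_pos hR, if_pos hR, act_append]
              by_cases hS : act dl R (act dl A w) ∈ S
              · rw [if_pos hS, if_pos ⟨rfl, hs.2, hS⟩, LW_append]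
              · rw [if_neg hS]; exact zero_le
            · rw [if_neg hR, if_neg hR]
          · refine le_trans ?_ le_add_self
            rw [if_pos ⟨hF, hs⟩]
            calc _ = ∑' R : List B, LW Λ A * (if FR ht R (a - HT ht A) then
                  (if act dl R (act dl A w) ∈ S then LW Λ R else 0) else 0) := by
                  refine tsum_congr fun R => ?_
                  split_ifs with h2 h3 h4 h5
                  · rw [LW_append]
                  · rw [act_append] at h3; exact absurd h3 h4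
                  · rw [act_append] at h3; exact absurd h5 h3
                  · simp
                  · simp
              _ = LW Λ A * ∑' R : List B, (if FR ht R (a - HT ht A) then
                  (if act dl R (act dl A w) ∈ S then LW Λ R else 0) else 0) :=
                  ENNReal.tsum_mul_left
              _ ≤ LW Λ A * D := mul_le_mul_right (ih _ _ (by
                  have : 2 * H * (J + 1) = 2 * H * J + 2 * H := by ring
                  omega)) _
      · rw [if_neg hF]; exact zero_le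
    refine le_trans (ENNReal.tsum_le_tsum key) ?_
    rw [ENNReal.tsum_add, ENNReal.tsum_add, ENNReal.tsum_mul_right]
    have hA1 := over_le Λ ht hU1 H H
    have hA2 : ∑' A : List B, ∑' R : List B, (if FR ht R (a - H) then
              (if HT ht A = H ∧ suc A ∧ act dl R (act dl A w) ∈ S then LW Λ A else 0) * LW Λ R
              else 0) ≤ δ := by
      rw [ENNReal.tsum_comm]
      calc _ ≤ ∑' R : List B, δ * (if FR ht R (a - H) then LW Λ R else 0) := by
            refine ENNReal.tsum_le_tsum fun R => ?_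
            by_cases hR : FR ht R (a - H)
            · simp only [if_pos hR]
              rw [ENNReal.tsum_mul_right]
              exact mul_le_mul_left (hd w R) _
            · simp [hR]
        _ = δ * ∑' R : List B, (if FR ht R (a - H) then LW Λ R else 0) := ENNReal.tsum_mul_left
        _ ≤ δ * 1 := mul_le_mul_right (mass_FR Λ ht hΛ h1 _) _
        _ = δ := mul_one _
    have hFR : ∀ A : List B, HT ht A = H → FR ht A H := by
      intro A hA
      obtain ⟨P, R, h2, h3⟩ := FR_exists ht A (T := H) (by omega)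
      have h4 := FR_le ht h3
      have h5 : HT ht R = 0 := by
        have := hA; rw [← h2, HT_append] at this; omega
      have h6 : R = [] := by
        have := length_le_HT ht h1 R
        exact List.eq_nil_of_length_eq_zero (by omega)
      rw [h6, List.append_nil] at h2
      rw [← h2]; exact h3
    have hA3 : ∑' A : List B, (if FR ht A H ∧ ¬ (HT ht A = H ∧ suc A) then LW Λ A else 0)
        ≤ 1 - v := by
      have h2 : (∑' A, (if HT ht A = H ∧ suc A then LW Λ A else 0))
          + ∑' A : List B, (if FR ht A H ∧ ¬ (HT ht A = H ∧ suc A) then LW Λ A else 0) ≤ 1 := by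
        rw [← ENNReal.tsum_add]
        refine le_trans (ENNReal.tsum_le_tsum fun A => ?_) (mass_FR Λ ht hΛ h1 H)
        by_cases hs : HT ht A = H ∧ suc A
        · rw [if_pos hs, if_neg (fun h => h.2 hs), if_pos (hFR A hs.1), add_zero]
        · rw [if_neg hs, zero_add]
          by_cases hF : FR ht A H
          · rw [if_pos ⟨hF, hs⟩, if_pos hF]
          · rw [if_neg (fun h => hF h.1)]; exact zero_le
      refine ENNReal.le_sub_of_add_le_left ?_ (le_trans (add_le_add_left hv _) h2)
      exact ne_top_of_le_ne_top ENNReal.one_ne_top (le_trans hv (le_trans le_self_add h2))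
    calc _ ≤ e + δ + (1 - v) * D := by gcongr
      _ = (1 - v) ^ (J + 1) + (J * ((1 - v) * (δ + e)) + (δ + e)) := by
          rw [hD, mul_add, pow_succ]; ring
      _ ≤ (1 - v) ^ (J + 1) + (J * (1 * (δ + e)) + (δ + e)) := by
          gcongr; exact tsub_le_self
      _ = _ := by push_cast; ring

open Classical in
/-- pairs of height `H` in contact, all contacts deeper than `s` -/
noncomputable def Psi (H s : ℕ) (w : W) : ℝ≥0∞ :=
  ∑' L : List B, if HT ht L = H ∧ (CD ht dl cd L w).Nonempty ∧ (∀ k ∈ CD ht dl cd L w, s < k)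
    then LW Λ L else 0

open Classical in
lemma Psi_le_one (hU1 : ∀ n, U Λ ht n ≤ 1) (H s : ℕ) (w : W) : Psi Λ ht dl cd H s w ≤ 1 := by
  refine le_trans (ENNReal.tsum_le_tsum fun L => ?_) (hU1 H)
  by_cases h : HT ht L = H ∧ (CD ht dl cd L w).Nonempty ∧ (∀ k ∈ CD ht dl cd L w, s < k)
  · rw [if_pos h, if_pos h.1]
  · rw [if_neg h]; exact zero_le

open Classical in
/-- sum over the completions of a prefix -/
lemma compl_le (hU1 : ∀ n, U Λ ht n ≤ 1) (P : List B) (N : ℕ) :
    ∑' R : List B, (if HT ht (P ++ R) = N then LW Λ (P ++ R) else 0) ≤ LW Λ P := by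
  calc _ ≤ ∑' R : List B, LW Λ P * (if HT ht R = N - HT ht P then LW Λ R else 0) := by
        refine ENNReal.tsum_le_tsum fun R => ?_
        split_ifs with h2 h3
        · rw [LW_append]
        · exfalso; apply h3; have := h2; rw [HT_append] at this; omega
        · exact zero_le
        · exact zero_le
    _ = LW Λ P * U Λ ht (N - HT ht P) := by rw [ENNReal.tsum_mul_left, U]
    _ ≤ LW Λ P * 1 := mul_le_mul_right (hU1 _) _
    _ = _ := mul_one _

open Classical in
theorem inner_le (hcd : ∀ w b k, k ∈ cd w b → 1 ≤ k ∧ k ≤ ht b)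
    (hU1 : ∀ n, U Λ ht n ≤ 1) (c : ℝ≥0∞) (hc : c ≠ 0) (hct : c ≠ ⊤) (hU : ∀ n, c ≤ U Λ ht n)
    (q s N : ℕ) (hs : s ≤ q) (hN : 3 * q ≤ N) (w : W) :
    ∑' R : List B, (if HT ht R = N ∧ (∀ k ∈ CD ht dl cd R w, s < k) ∧
        (∃ k ∈ CD ht dl cd R w, k ≤ 3 * q) then LW Λ R else 0)
      ≤ TS Λ ht (q + 1) + c⁻¹ * Psi Λ ht dl cd (4 * q) s w := by
  set F : List B → ℝ≥0∞ := fun R => if HT ht R = N ∧ (∀ k ∈ CD ht dl cd R w, s < k) ∧
        (∃ k ∈ CD ht dl cd R w, k ≤ 3 * q) then LW Λ R else 0 with hF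
  set g : List B → ℝ≥0∞ := fun L => if HT ht L = 4 * q ∧ (CD ht dl cd L w).Nonempty ∧
      (∀ k ∈ CD ht dl cd L w, s < k) then LW Λ L else 0 with hg
  have e1 : ∑' R, F R = ∑' R, (if 3 * q ≤ HT ht R then F R else 0) := by
    refine tsum_congr fun R => ?_
    by_cases h : 3 * q ≤ HT ht R
    · rw [if_pos h]
    · rw [if_neg h]
      simp only [hF]
      rw [if_neg]
      rintro ⟨h2, _⟩
      omega
  change ∑' R, F R ≤ _
  rw [e1, split_FR ht (3 * q) F]
  have key : ∀ P : List B, (if FR ht P (3 * q) then ∑' R : List B, F (P ++ R) else 0)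
      ≤ (if FR ht P (3 * q) ∧ 3 * q + q < HT ht P then LW Λ P else 0)
        + c⁻¹ * (if FR ht P (3 * q) then ∑' R : List B, g (P ++ R) else 0) := by
    intro P
    by_cases hP : FR ht P (3 * q)
    · rw [if_pos hP, if_pos hP]
      have hF1 : ∑' R : List B, F (P ++ R) ≤ LW Λ P := by
        refine le_trans (ENNReal.tsum_le_tsum fun R => ?_) (compl_le Λ ht hU1 P N)
        simp only [hF]
        by_cases h2 : HT ht (P ++ R) = N
        · rw [if_pos h2]
          split_ifs
          · exact le_rfl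
          · exact zero_le
        · rw [if_neg h2, if_neg (fun h => h2 h.1)]
      by_cases hb : 3 * q + q < HT ht P
      · rw [if_pos ⟨hP, hb⟩]
        exact le_trans hF1 le_self_add
      · rw [if_neg (fun h => hb h.2), zero_add]
        have hle := FR_le ht hP
        by_cases hev : (CD ht dl cd P w).Nonempty ∧ (∀ k ∈ CD ht dl cd P w, s < k)
        · refine le_trans hF1 ?_
          have h2 : LW Λ P * U Λ ht (4 * q - HT ht P) ≤ ∑' R : List B, g (P ++ R) := by
            rw [U, ← ENNReal.tsum_mul_left]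
            refine ENNReal.tsum_le_tsum fun R => ?_
            by_cases hh : HT ht R = 4 * q - HT ht P
            · rw [if_pos hh]
              simp only [hg]
              rw [if_pos, LW_append]
              refine ⟨by rw [HT_append]; omega, ?_, ?_⟩
              · obtain ⟨k, hk⟩ := hev.1
                exact ⟨k, by rw [CD_append]; exact Or.inl hk⟩
              · intro k hk
                rw [CD_append] at hk
                rcases hk with hk | ⟨k2, hk2, hk2'⟩
                · exact hev.2 k hk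
                · have := CD_pos ht dl cd hcd R _ _ hk2
                  simp only at hk2'
                  omega
            · rw [if_neg hh, mul_zero]; exact zero_le
          calc LW Λ P = c⁻¹ * (LW Λ P * c) := by
                rw [mul_comm (LW Λ P), ← mul_assoc, ENNReal.inv_mul_cancel hc hct, one_mul]
            _ ≤ c⁻¹ * (LW Λ P * U Λ ht (4 * q - HT ht P)) :=
                mul_le_mul_right (mul_le_mul_right (hU _) _) _
            _ ≤ _ := mul_le_mul_right h2 _
        · refine le_trans (le_of_eq ?_) zero_le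
          rw [ENNReal.tsum_eq_zero]
          intro R
          simp only [hF]
          rw [if_neg]
          rintro ⟨h2, h3, k, hk, hk3⟩
          apply hev
          have hk' : k ∈ CD ht dl cd P w := by
            rw [CD_append] at hk
            rcases hk with hk | ⟨k2, hk2, hk2'⟩
            · exact hk
            · exfalso
              have := CD_pos ht dl cd hcd R _ _ hk2
              simp only at hk2'
              omega
          exact ⟨⟨k, hk'⟩, fun k3 hk3 => h3 k3 (by rw [CD_append]; exact Or.inl hk3)⟩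
    · rw [if_neg hP]; exact zero_le
  refine le_trans (ENNReal.tsum_le_tsum key) ?_
  rw [ENNReal.tsum_add, ENNReal.tsum_mul_left, ← split_FR ht (3 * q) g]
  refine add_le_add (over_le Λ ht hU1 (3 * q) q) (mul_le_mul_right ?_ _)
  refine ENNReal.tsum_le_tsum fun L => ?_
  change (if 3 * q ≤ HT ht L then g L else 0) ≤ g L
  by_cases h : 3 * q ≤ HT ht L
  · rw [if_pos h]
  · rw [if_neg h]; exact zero_le

open Classical in
/-- window functional: first contact in `(a, a+q]` -/
noncomputable def Win (n a q : ℕ) (w : W) : ℝ≥0∞ :=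
  ∑' L : List B, if HT ht L = n ∧ (∀ k ∈ CD ht dl cd L w, a < k) ∧
    (∃ k ∈ CD ht dl cd L w, k ≤ a + q) then LW Λ L else 0

open Classical in
theorem window1 (hΛ : ∑' b, Λ b ≤ 1) (h1 : ∀ b, 1 ≤ ht b)
    (hcd : ∀ w b k, k ∈ cd w b → 1 ≤ k ∧ k ≤ ht b)
    (hU1 : ∀ n, U Λ ht n ≤ 1) (c : ℝ≥0∞) (hc : c ≠ 0) (hct : c ≠ ⊤) (hU : ∀ n, c ≤ U Λ ht n)
    (q s n a : ℕ) (hs : s ≤ q) (ha : q + s ≤ a) (hn : a + 3 * q ≤ n) (w : W) :
    Win Λ ht dl cd n a q w ≤ 2 * TS Λ ht (q + 1)
      + c⁻¹ * ∑' P : List B, (if FR ht P (a - q - s) then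
          LW Λ P * Psi Λ ht dl cd (4 * q) s (act dl P w) else 0) := by
  set T := a - q - s with hT
  set F : List B → ℝ≥0∞ := fun L => if HT ht L = n ∧ (∀ k ∈ CD ht dl cd L w, a < k) ∧
    (∃ k ∈ CD ht dl cd L w, k ≤ a + q) then LW Λ L else 0 with hF
  set e := TS Λ ht (q + 1) with he
  have e1 : ∑' L, F L = ∑' L, (if T ≤ HT ht L then F L else 0) := by
    refine tsum_congr fun L => ?_
    by_cases h : T ≤ HT ht L
    · rw [if_pos h]
    · rw [if_neg h]
      simp only [hF]
      rw [if_neg]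
      rintro ⟨h2, _⟩
      omega
  change ∑' L, F L ≤ _
  rw [e1, split_FR ht T F]
  have key : ∀ P : List B, (if FR ht P T then ∑' R : List B, F (P ++ R) else 0)
      ≤ (if FR ht P T ∧ T + q < HT ht P then LW Λ P else 0)
        + ((if FR ht P T then LW Λ P else 0) * e
          + c⁻¹ * (if FR ht P T then LW Λ P * Psi Λ ht dl cd (4 * q) s (act dl P w) else 0)) := by
    intro P
    by_cases hP : FR ht P T
    · rw [if_pos hP, if_pos hP, if_pos hP]
      by_cases hb : T + q < HT ht P
      · rw [if_pos ⟨hP, hb⟩]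
        refine le_trans ?_ le_self_add
        refine le_trans (ENNReal.tsum_le_tsum fun R => ?_) (compl_le Λ ht hU1 P n)
        simp only [hF]
        by_cases h2 : HT ht (P ++ R) = n
        · rw [if_pos h2]
          split_ifs
          · exact le_rfl
          · exact zero_le
        · rw [if_neg h2, if_neg (fun h => h2 h.1)]
      · rw [if_neg (fun h => hb h.2), zero_add]
        have hle := FR_le ht hP
        have hin := inner_le Λ ht dl cd hcd hU1 c hc hct hU q s (n - HT ht P) hs (by omega)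
          (act dl P w)
        calc ∑' R : List B, F (P ++ R)
            ≤ ∑' R : List B, LW Λ P * (if HT ht R = n - HT ht P ∧
                (∀ k ∈ CD ht dl cd R (act dl P w), s < k) ∧
                (∃ k ∈ CD ht dl cd R (act dl P w), k ≤ 3 * q) then LW Λ R else 0) := by
              refine ENNReal.tsum_le_tsum fun R => ?_
              by_cases hc1 : HT ht (P ++ R) = n ∧ (∀ k ∈ CD ht dl cd (P ++ R) w, a < k) ∧
                (∃ k ∈ CD ht dl cd (P ++ R) w, k ≤ a + q)
              · simp only [hF]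
                rw [if_pos hc1]
                obtain ⟨h2, h3, k, hk, hk2⟩ := hc1
                rw [HT_append] at h2
                rw [if_pos, LW_append]
                refine ⟨by omega, ?_, ?_⟩
                · intro k' hk'
                  have := h3 (HT ht P + k') (by rw [CD_append]; exact Or.inr ⟨k', hk', rfl⟩)
                  omega
                · have hk0 := hk
                  rw [CD_append] at hk
                  rcases hk with hk | ⟨k2, hk2', hk3⟩
                  · exfalso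
                    have h4 := h3 k hk0
                    have h5 := CD_pos ht dl cd hcd P _ _ hk
                    omega
                  · refine ⟨k2, hk2', ?_⟩
                    simp only at hk3
                    omega
              · simp only [hF]
                rw [if_neg hc1]; exact zero_le
          _ = LW Λ P * _ := ENNReal.tsum_mul_left
          _ ≤ LW Λ P * (e + c⁻¹ * Psi Λ ht dl cd (4 * q) s (act dl P w)) :=
              mul_le_mul_right hin _
          _ = _ := by ring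
    · rw [if_neg hP]; exact zero_le
  refine le_trans (ENNReal.tsum_le_tsum key) ?_
  rw [ENNReal.tsum_add, ENNReal.tsum_add, ENNReal.tsum_mul_left, ENNReal.tsum_mul_right]
  have h2 := over_le Λ ht hU1 T q
  have h3 := mass_FR Λ ht hΛ h1 T
  calc _ ≤ e + (1 * e + c⁻¹ * ∑' P : List B, (if FR ht P T then
          LW Λ P * Psi Λ ht dl cd (4 * q) s (act dl P w) else 0)) := by gcongr
    _ = _ := by ring

open Classical in
theorem window2 (hΛ : ∑' b, Λ b ≤ 1) (h1 : ∀ b, 1 ≤ ht b) (hU1 : ∀ n, U Λ ht n ≤ 1)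
    (H s : ℕ) (hH : 1 ≤ H) (SX SY : Set W) (sucX sucY : List B → Prop) (δ v ρ : ℝ≥0∞)
    (hdX : ∀ w R, ∑' A, (if HT ht A = H ∧ sucX A ∧ act dl R (act dl A w) ∈ SX then LW Λ A else 0)
      ≤ δ)
    (hvX : v ≤ ∑' A, (if HT ht A = H ∧ sucX A then LW Λ A else 0))
    (hdY : ∀ w R, ∑' A, (if HT ht A = H ∧ sucY A ∧ act dl R (act dl A w) ∈ SY then LW Λ A else 0)
      ≤ δ)
    (hvY : v ≤ ∑' A, (if HT ht A = H ∧ sucY A then LW Λ A else 0))
    (hΨ : ∀ w, w ∉ SX → w ∉ SY → Psi Λ ht dl cd H s w ≤ ρ)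
    (J a : ℕ) (ha : 2 * H * J ≤ a) (w : W) :
    ∑' P : List B, (if FR ht P a then LW Λ P * Psi Λ ht dl cd H s (act dl P w) else 0)
      ≤ ρ + 2 * ((1 - v) ^ J + J * (δ + TS Λ ht (H + 1))) := by
  have dX := dens_rec Λ ht dl hΛ h1 hU1 H hH SX sucX δ v hdX hvX J a w ha
  have dY := dens_rec Λ ht dl hΛ h1 hU1 H hH SY sucY δ v hdY hvY J a w ha
  have key : ∀ P : List B, (if FR ht P a then LW Λ P * Psi Λ ht dl cd H s (act dl P w) else 0)
      ≤ ρ * (if FR ht P a then LW Λ P else 0)
        + (if FR ht P a then (if act dl P w ∈ SX then LW Λ P else 0) else 0)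
        + (if FR ht P a then (if act dl P w ∈ SY then LW Λ P else 0) else 0) := by
    intro P
    by_cases hP : FR ht P a
    · simp only [if_pos hP]
      have h2 : LW Λ P * Psi Λ ht dl cd H s (act dl P w) ≤ LW Λ P := by
        calc _ ≤ LW Λ P * 1 := mul_le_mul_right (Psi_le_one Λ ht dl cd hU1 _ _ _) _
          _ = _ := mul_one _
      by_cases hX : act dl P w ∈ SX
      · rw [if_pos hX]
        exact le_trans h2 (le_trans le_add_self le_self_add)
      · by_cases hY : act dl P w ∈ SY
        · rw [if_pos hY]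
          exact le_trans h2 le_add_self
        · rw [if_neg hX, if_neg hY, add_zero, add_zero, mul_comm]
          exact mul_le_mul_left (hΨ _ hX hY) _
    · simp [if_neg hP]
  refine le_trans (ENNReal.tsum_le_tsum key) ?_
  rw [ENNReal.tsum_add, ENNReal.tsum_add, ENNReal.tsum_mul_left]
  calc _ ≤ ρ * 1 + ((1 - v) ^ J + J * (δ + TS Λ ht (H + 1)))
        + ((1 - v) ^ J + J * (δ + TS Λ ht (H + 1))) := by
        gcongr
        exact mass_FR Λ ht hΛ h1 a
    _ = _ := by ring

open Classical in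
/-- the input of the assembly, one exact height `H` (all large `H`) -/
def HYP (v0 C0 : ℝ≥0∞) : Prop :=
  ∀ v : ℝ≥0∞, v ≠ 0 → v ≤ v0 → ∀ δ : ℝ≥0∞, δ ≠ 0 → ∃ s H0 : ℕ, ∀ H, H0 ≤ H →
    ∃ (SX SY : Set W) (sucX sucY : List B → Prop),
      (∀ w R, ∑' A, (if HT ht A = H ∧ sucX A ∧ act dl R (act dl A w) ∈ SX then LW Λ A else 0)
        ≤ δ) ∧
      (v ≤ ∑' A, (if HT ht A = H ∧ sucX A then LW Λ A else 0)) ∧
      (∀ w R, ∑' A, (if HT ht A = H ∧ sucY A ∧ act dl R (act dl A w) ∈ SY then LW Λ A else 0)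
        ≤ δ) ∧
      (v ≤ ∑' A, (if HT ht A = H ∧ sucY A then LW Λ A else 0)) ∧
      ∀ w, w ∉ SX → w ∉ SY → Psi Λ ht dl cd H s w ≤ C0 * v ^ 2 + δ

open Classical in
lemma kap1_le_sum (n m q K : ℕ) (hq : m ≤ K * q) (hq1 : 1 ≤ q) (w : W) :
    Kap1 Λ ht dl cd n m w ≤ ∑ j ∈ Finset.range K, Win Λ ht dl cd n (m + j * q) q w := by
  unfold Kap1 Win
  rw [← Summable.tsum_finsetSum (fun _ _ => ENNReal.summable)]
  refine ENNReal.tsum_le_tsum fun L => ?_
  by_cases h : HT ht L = n ∧ (∀ k ∈ CD ht dl cd L w, m < k) ∧ ∃ k ∈ CD ht dl cd L w, k ≤ 2 * m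
  · rw [if_pos h]
    obtain ⟨h2, h3, h4⟩ := h
    have h5 : ∃ k, k ∈ CD ht dl cd L w := ⟨h4.choose, h4.choose_spec.1⟩
    have hk0 := Nat.find_spec h5
    have hmin : ∀ k ∈ CD ht dl cd L w, Nat.find h5 ≤ k := fun k hk => Nat.find_min' h5 hk
    set k0 := Nat.find h5 with hk0d
    have h6 : k0 ≤ 2 * m := le_trans (hmin _ h4.choose_spec.1) h4.choose_spec.2
    have h7 : m < k0 := h3 _ hk0
    have h8 : (k0 - m - 1) / q < K := by
      rw [Nat.div_lt_iff_lt_mul (by omega)]
      omega
    have h9 : q * ((k0 - m - 1) / q) ≤ k0 - m - 1 := Nat.mul_div_le _ _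
    have h10 : k0 - m - 1 < q * ((k0 - m - 1) / q) + q := by
      have := Nat.lt_mul_div_succ (k0 - m - 1) (show 0 < q by omega)
      rwa [Nat.mul_add, Nat.mul_one] at this
    rw [mul_comm] at h9 h10
    refine le_trans ?_ (Finset.single_le_sum (f := fun j => if HT ht L = n ∧
      (∀ k ∈ CD ht dl cd L w, m + j * q < k) ∧
      (∃ k ∈ CD ht dl cd L w, k ≤ m + j * q + q) then LW Λ L else 0)
      (fun _ _ => zero_le) (Finset.mem_range.2 h8))
    rw [if_pos]
    refine ⟨h2, fun k hk => ?_, k0, hk0, ?_⟩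
    · have := hmin k hk
      omega
    · omega
  · rw [if_neg h]; exact zero_le

theorem kap1_small (hΛ : ∑' b, Λ b = 1) (h1 : ∀ b, 1 ≤ ht b)
    (hcd : ∀ w b k, k ∈ cd w b → 1 ≤ k ∧ k ≤ ht b)
    (hU1 : ∀ n, U Λ ht n ≤ 1) (c : ℝ≥0∞) (hc : c ≠ 0) (hct : c ≠ ⊤) (hU : ∀ n, c ≤ U Λ ht n)
    (v0 C0 : ℝ≥0∞) (hv0 : v0 ≠ 0) (hC0 : C0 ≠ ⊤) (hyp : HYP Λ ht dl cd v0 C0) :
    ∀ ε : ℝ≥0∞, ε ≠ 0 → ∃ M, ∀ m, M ≤ m → ∀ n, 8 * m ≤ n → ∀ w,
      Kap1 Λ ht dl cd n m w ≤ ε := by
  intro ε hε
  set ε4 : ℝ≥0∞ := min ε 1 / 4 with hε4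
  have hmin0 : min ε 1 ≠ 0 := by simp [hε]
  have hmint : min ε 1 ≠ ⊤ := ne_top_of_le_ne_top ENNReal.one_ne_top (min_le_right _ _)
  have hε40 : ε4 ≠ 0 := by
    rw [hε4, Ne, ENNReal.div_eq_zero_iff, not_or]
    exact ⟨hmin0, by norm_num⟩
  have hε4t : ε4 ≠ ⊤ := ENNReal.div_ne_top hmint (by norm_num)
  set v1 : ℝ≥0∞ := min v0 1 with hv1
  have hv10 : v1 ≠ 0 := by simp [hv1, hv0]
  have hv1t : v1 ≠ ⊤ := ne_top_of_le_ne_top ENNReal.one_ne_top (min_le_right _ _)
  have hcinv : c⁻¹ ≠ ⊤ := ENNReal.inv_ne_top.2 hc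
  set c2 : ℝ≥0∞ := 16 * c⁻¹ * (C0 + 2) + ε4 * (v1⁻¹) ^ 2 with hc2
  have hc2t : c2 ≠ ⊤ := by
    refine ENNReal.add_ne_top.2 ⟨?_, ?_⟩
    · exact ENNReal.mul_ne_top (ENNReal.mul_ne_top (by norm_num) hcinv)
        (ENNReal.add_ne_top.2 ⟨hC0, by norm_num⟩)
    · exact ENNReal.mul_ne_top hε4t (ENNReal.pow_ne_top (ENNReal.inv_ne_top.2 hv10))
  obtain ⟨J, v, _, hJ1, hvz, hv1', hA, hB⟩ := NumK658.chooseK1 c2 hc2t ε4 hε40 1
  have hvv : v ≤ v1 := by
    have h2 : ε4 * (v1⁻¹ * v) ^ 2 ≤ ε4 := by
      refine le_trans ?_ hA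
      calc ε4 * (v1⁻¹ * v) ^ 2 = (ε4 * (v1⁻¹) ^ 2) * (1 * v ^ 2) := by ring
        _ ≤ c2 * ((J + 1) * v ^ 2) := by
          gcongr
          · exact le_add_self
          · exact le_add_self
    have h3 : (v1⁻¹ * v) ^ 2 ≤ 1 := by
      calc (v1⁻¹ * v) ^ 2 = ε4⁻¹ * (ε4 * (v1⁻¹ * v) ^ 2) := by
            rw [← mul_assoc, ENNReal.inv_mul_cancel hε40 hε4t, one_mul]
        _ ≤ ε4⁻¹ * ε4 := mul_le_mul_right h2 _
        _ = 1 := ENNReal.inv_mul_cancel hε40 hε4t
    have h4 : v1⁻¹ * v ≤ 1 := by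
      by_contra hcon
      push Not at hcon
      have : (1 : ℝ≥0∞) < (v1⁻¹ * v) ^ 2 := by
        calc (1 : ℝ≥0∞) < v1⁻¹ * v := hcon
          _ = 1 * (v1⁻¹ * v) := (one_mul _).symm
          _ ≤ (v1⁻¹ * v) * (v1⁻¹ * v) := mul_le_mul_left hcon.le _
          _ = _ := (sq _).symm
      exact absurd h3 (not_le.2 this)
    calc v = v1 * (v1⁻¹ * v) := by
          rw [← mul_assoc, ENNReal.mul_inv_cancel hv10 hv1t, one_mul]
      _ ≤ v1 * 1 := mul_le_mul_right h4 _
      _ = v1 := mul_one _
  obtain ⟨δ, hδ, hδε⟩ := NumK658.chooseEta (16 * (J + 1) * c⁻¹ * (1 + 2 * J))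
    (ENNReal.mul_ne_top (ENNReal.mul_ne_top (ENNReal.mul_ne_top (by norm_num) (by finiteness))
      hcinv) (by finiteness)) ε4 hε40
  obtain ⟨s, H0, hH⟩ := hyp v hvz (le_trans hvv (min_le_left _ _)) δ hδ
  obtain ⟨i, hi⟩ := NumK658.chooseNat (TS Λ ht)
    (tendsto_TS Λ ht c hc hct h1 hΛ 0 (fun n _ => hU n)) (16 * (J + 1) * (2 + c⁻¹ * (2 * J)))
    (ENNReal.mul_ne_top (by finiteness) (ENNReal.add_ne_top.2 ⟨by norm_num,
      ENNReal.mul_ne_top hcinv (by finiteness)⟩)) ε4 hε40
  set K : ℕ := 8 * J + 2 with hK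
  set Q0 : ℕ := s + H0 + i + 1 with hQ0
  refine ⟨K * Q0, fun m hm n hn w => ?_⟩
  set q : ℕ := m / K with hq
  have hqQ : Q0 ≤ q := by
    rw [hq, Nat.le_div_iff_mul_le (by omega)]
    rw [mul_comm]; exact hm
  have hKq : K * q ≤ m := Nat.mul_div_le _ _
  have hKq2 : m < K * q + K := by
    have := Nat.lt_mul_div_succ m (show 0 < K by omega)
    rwa [Nat.mul_add, Nat.mul_one] at this
  have hKq3 : K ≤ K * q := Nat.le_mul_of_pos_right _ (by omega)
  have h2q : 2 * q ≤ K * q := Nat.mul_le_mul_right _ (by omega)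
  have h8 : K * q = 8 * q * J + 2 * q := by rw [hK]; ring
  refine le_trans (kap1_le_sum Λ ht dl cd n m q (2 * K) (by
    rw [show 2 * K * q = K * q + K * q by ring]; omega) (by omega) w) ?_
  obtain ⟨SX, SY, sucX, sucY, hdX, hvX, hdY, hvY, hΨ⟩ := hH (4 * q) (by omega)
  set T := TS Λ ht (q + 1) with hT
  have hwin : ∀ j ∈ Finset.range (2 * K), Win Λ ht dl cd n (m + j * q) q w
      ≤ 2 * T + c⁻¹ * (C0 * v ^ 2 + δ + 2 * ((1 - v) ^ J + J * (δ + T))) := by
    intro j hj
    have hj' := Finset.mem_range.1 hj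
    have hjq : j * q ≤ 2 * K * q := Nat.mul_le_mul_right _ hj'.le
    have hjq' : 2 * K * q = K * q + K * q := by ring
    have w1 := window1 Λ ht dl cd hΛ.le h1 hcd hU1 c hc hct hU q s n (m + j * q) (by omega)
      (by omega) (by omega) w
    have w2 := window2 Λ ht dl cd hΛ.le h1 hU1 (4 * q) s (by omega) SX SY sucX sucY δ v
      (C0 * v ^ 2 + δ) hdX hvX hdY hvY hΨ J (m + j * q - q - s) (by
        have : 2 * (4 * q) * J = 8 * q * J := by ring
        omega) w
    have hTT : TS Λ ht (4 * q + 1) ≤ T := TS_anti Λ ht (by omega)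
    calc _ ≤ 2 * T + c⁻¹ * (C0 * v ^ 2 + δ
          + 2 * ((1 - v) ^ J + J * (δ + TS Λ ht (4 * q + 1)))) := by
          refine le_trans w1 ?_
          gcongr
      _ ≤ _ := by gcongr
  refine le_trans (Finset.sum_le_sum hwin) ?_
  rw [Finset.sum_const, Finset.card_range, nsmul_eq_mul]
  have hcast : ((2 * K : ℕ) : ℝ≥0∞) ≤ 16 * (J + 1) := by
    have : 2 * K ≤ 16 * (J + 1) := by omega
    calc ((2 * K : ℕ) : ℝ≥0∞) ≤ ((16 * (J + 1) : ℕ) : ℝ≥0∞) := by exact_mod_cast this
      _ = _ := by push_cast; ring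
  have hTi := hi (q + 1) (by omega)
  calc _ ≤ 16 * ((J : ℝ≥0∞) + 1)
        * (2 * T + c⁻¹ * (C0 * v ^ 2 + δ + 2 * ((1 - v) ^ J + J * (δ + T)))) := by gcongr
    _ = (16 * c⁻¹ * C0) * ((J + 1) * v ^ 2) + (16 * c⁻¹ * 2) * ((J + 1) * (1 - v) ^ J)
        + 16 * (J + 1) * c⁻¹ * (1 + 2 * J) * δ
        + 16 * (J + 1) * (2 + c⁻¹ * (2 * J)) * T := by ring
    _ ≤ ε4 + ε4 + ε4 + ε4 := by
        refine add_le_add (add_le_add (add_le_add ?_ ?_) hδε) hTi
        · refine le_trans (mul_le_mul_left ?_ _) hA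
          refine le_trans (mul_le_mul_right ?_ _) le_self_add
          exact le_self_add
        · refine le_trans (mul_le_mul_left ?_ _) hB
          refine le_trans (mul_le_mul_right ?_ _) le_self_add
          exact le_add_self
    _ = 4 * ε4 := by ring
    _ ≤ min ε 1 := by
        rw [hε4]
        exact ENNReal.mul_div_le
    _ ≤ ε := min_le_left _ _

end Crest.Agent.R154.JAbs513
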