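import Crest.Agent.R154.JHit_139
import Crest.Agent.R154.B5Weak_865
import Crest.Agent.R154.NumK_658
import Crest.Agent.R154.Ren_396

/-! Row 154, ROAD 801, joint-cut frame (helper94): the abstract assembly.  From the "one piece" bound
(`hW`) and the bottom slab (`hSl`) to the hypothesis `hK` of `abs_main2` (139's literals). -/

set_option autoImplicit false

namespace Crest.Agent.R154.JA94

open scoped ENNReal
open Filter Topology
open Crest.Agent.R154.B5A
open Crest.Agent.R154.FP178
open Crest.Agent.R154.JAsm139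
open Crest.Agent.R154.Ren396

variable {B W : Type*} (Λ : B → ℝ≥0∞) (ht : B → ℕ) (dl : B → W → W) (cd : W → B → Set ℕ)

/-- decomposition at the last cut of depth `≤ N` -/
lemma exists_last (L : List B) : ∀ N, N < HT ht L → ∃ P b R, P ++ b :: R = L ∧ HT ht P ≤ N ∧
    N < HT ht P + ht b := by
  induction L with
  | nil => intro N h; rw [HT_nil] at h; omega
  | cons b L ih =>
    intro N h
    by_cases hb : N < ht b
    · exact ⟨[], b, L, rfl, by rw [HT_nil]; omega, by rw [HT_nil]; omega⟩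
    · rw [HT_cons] at h
      obtain ⟨P, b', R, h1, h2, h3⟩ := ih (N - ht b) (by omega)
      exact ⟨b :: P, b', R, by rw [List.cons_append, h1], by rw [HT_cons]; omega,
        by rw [HT_cons]; omega⟩

open Classical in
lemma last_le (hU1 : ∀ n, U Λ ht n ≤ 1) (n N : ℕ) (hN : N < n) (Q : List B → Prop)
    (g : List B → ℝ≥0∞)
    (hg : ∀ P b R, HT ht P ≤ N → N < HT ht P + ht b → Q (P ++ b :: R) → 1 ≤ g P) :
    ∑' L, (if HT ht L = n ∧ Q L then LW Λ L else 0)
      ≤ ∑ h ∈ Finset.range (N + 1), tail Λ ht (N - h) *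
          ∑' P, (if HT ht P = h then LW Λ P * g P else 0) := by
  calc ∑' L, (if HT ht L = n ∧ Q L then LW Λ L else 0)
      ≤ ∑' L, (if ∃ t : List B × B × List B, t.1 ++ t.2.1 :: t.2.2 = L ∧
          (HT ht (t.1 ++ t.2.1 :: t.2.2) = n ∧ HT ht t.1 ≤ N ∧ N < HT ht t.1 + ht t.2.1 ∧
            1 ≤ g t.1) then LW Λ L else 0) := by
        refine ENNReal.tsum_le_tsum fun L => ?_
        by_cases h : HT ht L = n ∧ Q L
        · obtain ⟨P, b, R, h1, h2, h3⟩ := exists_last ht L N (by omega)
          rw [if_pos h, if_pos ⟨(P, b, R), h1, by simp only [h1]; exact h.1, h2, h3,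
            hg P b R h2 h3 (by rw [h1]; exact h.2)⟩]
        · rw [if_neg h]; exact zero_le
    _ ≤ ∑' t : List B × B × List B, (if (HT ht (t.1 ++ t.2.1 :: t.2.2) = n ∧ HT ht t.1 ≤ N ∧
          N < HT ht t.1 + ht t.2.1 ∧ 1 ≤ g t.1)
          then LW Λ (t.1 ++ t.2.1 :: t.2.2) else 0) :=
        tsum_ex_le (fun t : List B × B × List B => t.1 ++ t.2.1 :: t.2.2)
          (fun t => HT ht (t.1 ++ t.2.1 :: t.2.2) = n ∧ HT ht t.1 ≤ N ∧
          N < HT ht t.1 + ht t.2.1 ∧ 1 ≤ g t.1) (LW Λ)
    _ = ∑' P : List B, ∑' b : B, ∑' R : List B, (if (HT ht (P ++ b :: R) = n ∧ HT ht P ≤ N ∧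
          N < HT ht P + ht b ∧ 1 ≤ g P) then LW Λ (P ++ b :: R) else 0) := by
        rw [ENNReal.tsum_prod']
        simp_rw [ENNReal.tsum_prod']
    _ ≤ ∑' P, (if HT ht P ≤ N then LW Λ P * (tail Λ ht (N - HT ht P) * g P) else 0) := by
        refine ENNReal.tsum_le_tsum fun P => ?_
        by_cases h : HT ht P ≤ N ∧ 1 ≤ g P
        · rw [if_pos h.1]
          calc _ ≤ ∑' b, (if N - HT ht P < ht b then Λ b else 0) * LW Λ P := by
                refine ENNReal.tsum_le_tsum fun b => ?_
                by_cases hb : N < HT ht P + ht b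
                · rw [if_pos (by omega : N - HT ht P < ht b)]
                  calc _ ≤ ∑' R : List B, LW Λ P * Λ b *
                        (if HT ht R = n - (HT ht P + ht b) then LW Λ R else 0) := by
                        refine ENNReal.tsum_le_tsum fun R => ?_
                        split_ifs with h1 h2
                        · rw [LW_append, LW_cons, mul_assoc]
                        · exfalso
                          apply h2
                          have := h1.1
                          rw [HT_append, HT_cons] at this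
                          omega
                        · exact zero_le
                        · exact zero_le
                    _ = LW Λ P * Λ b * U Λ ht (n - (HT ht P + ht b)) := by
                        rw [ENNReal.tsum_mul_left, U]
                    _ ≤ LW Λ P * Λ b * 1 := mul_le_mul_right (hU1 _) _
                    _ = Λ b * LW Λ P := by ring
                · refine le_of_eq_of_le ?_ zero_le
                  rw [ENNReal.tsum_eq_zero]
                  intro R
                  rw [if_neg (fun hh => hb hh.2.2.1)]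
            _ = LW Λ P * (tail Λ ht (N - HT ht P) * 1) := by
                rw [ENNReal.tsum_mul_right, ← tail]; ring
            _ ≤ _ := mul_le_mul_right (mul_le_mul_right h.2 _) _
        · refine le_of_eq_of_le ?_ zero_le
          rw [ENNReal.tsum_eq_zero]
          intro b
          rw [ENNReal.tsum_eq_zero]
          intro R
          rw [if_neg (fun hh => h ⟨hh.2.1, hh.2.2.2⟩)]
    _ = ∑' P, ∑ h ∈ Finset.range (N + 1), tail Λ ht (N - h) *
          (if HT ht P = h then LW Λ P * g P else 0) := by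
        refine tsum_congr fun P => ?_
        by_cases h : HT ht P ≤ N
        · rw [if_pos h, Finset.sum_eq_single (HT ht P)]
          · rw [if_pos rfl]; ring
          · intro k _ hk; rw [if_neg hk.symm, mul_zero]
          · intro h'; exact absurd (Finset.mem_range.2 (by omega)) h'
        · rw [if_neg h, Finset.sum_eq_zero]
          intro k hk
          rw [if_neg (by have := Finset.mem_range.1 hk; omega), mul_zero]
    _ = _ := by
        rw [Summable.tsum_finsetSum (fun _ _ => ENNReal.summable)]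
        exact Finset.sum_congr rfl fun k _ => ENNReal.tsum_mul_left

lemma tails (N M : ℕ) :
    ∑ h ∈ Finset.range (N + 1), (if h + M ≤ N then tail Λ ht (N - h) else 0) ≤ TS Λ ht M := by
  calc _ = ∑ j ∈ Finset.range (N + 1), (if M ≤ j then tail Λ ht j else 0) := by
        rw [← Finset.sum_range_reflect (fun j => if M ≤ j then tail Λ ht j else 0) (N + 1)]
        refine Finset.sum_congr rfl fun k hk => ?_
        have := Finset.mem_range.1 hk
        rw [show N + 1 - 1 - k = N - k by omega]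
        by_cases h : M ≤ N - k
        · rw [if_pos (by omega), if_pos h]
        · rw [if_neg (by omega), if_neg h]
    _ ≤ ∑' j, (if M ≤ j then tail Λ ht j else 0) := ENNReal.sum_le_tsum _
    _ = TS Λ ht M := by
        have hs : Function.support (fun j => if M ≤ j then tail Λ ht j else 0)
            ⊆ Set.range (fun k => M + k) := by
          intro j hj
          by_cases h : M ≤ j
          · exact ⟨j - M, by simp only; omega⟩
          · simp [h] at hj
        rw [← (add_right_injective M).tsum_eq hs, TS]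
        refine tsum_congr fun k => ?_
        simp

open Classical in
/-- **one window** -/
theorem window (h1 : ∀ b, 1 ≤ ht b) (hcd : ∀ w b k, k ∈ cd w b → 1 ≤ k ∧ k ≤ ht b)
    (hΛ : ∑' b, Λ b ≤ 1) (hU1 : ∀ n, U Λ ht n ≤ 1) (a t s n : ℕ) (hs : s ≤ t / 2)
    (hn : a + 6 * t < n) (β : ℝ≥0∞) (S1 S2 : ℕ → Set W)
    (hP : ∀ h, 2 * t ≤ h → h ≤ 4 * t → ∀ w', w' ∉ S1 h → w' ∉ S2 h →
      ∑' P : List B, (if HT ht P = h ∧ (CD ht dl cd P w').Nonempty ∧
        (∀ k ∈ CD ht dl cd P w', s < k) then LW Λ P else 0) ≤ β) (w : W) :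
    ∑' L : List B, (if HT ht L = n ∧ (∀ k ∈ CD ht dl cd L w, a + t < k) ∧
        (∃ k ∈ CD ht dl cd L w, k ≤ a + 2 * t) then LW Λ L else 0)
      ≤ TS Λ ht (t / 2) + (TS Λ ht (2 * t) + TS Λ ht 0 * β +
        ∑ h ∈ Finset.range (4 * t + 1), tail Λ ht (4 * t - h) *
          (if 2 * t ≤ h then hitS Λ ht dl a (S1 h) w + hitS Λ ht dl a (S2 h) w else 0)) := by
  set ind : Set W → W → ℝ≥0∞ := fun S x => S.indicator (fun _ => (1 : ℝ≥0∞)) x with hind
  obtain ⟨Q, hQ⟩ : ∃ Q : List B → Prop, ∀ L, Q L ↔ ((∀ k ∈ CD ht dl cd L w, a + t < k) ∧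
        (∃ k ∈ CD ht dl cd L w, k ≤ a + 2 * t)) := ⟨_, fun _ => Iff.rfl⟩
  set f : List B → ℝ≥0∞ := fun L => if HT ht L = n ∧ Q L then 1 else 0 with hf
  -- bound for the inner sum
  set T0 : ℝ≥0∞ := TS Λ ht (2 * t) + TS Λ ht 0 * β with hT0
  set Sh : W → ℝ≥0∞ := fun x => ∑ h ∈ Finset.range (4 * t + 1), tail Λ ht (4 * t - h) *
      (if 2 * t ≤ h then ind (S1 h) x + ind (S2 h) x else 0) with hSh
  have hin1 : ∀ A : List B, ∑' R, LW Λ R * f (A ++ R) ≤ 1 := by
    intro A
    refine le_trans (ENNReal.tsum_le_tsum fun R => ?_) (hU1 (n - HT ht A))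
    by_cases h : HT ht (A ++ R) = n ∧ Q (A ++ R)
    · have h2 : HT ht R = n - HT ht A := by
        have := h.1; rw [HT_append] at this; omega
      rw [if_pos h2]
      simp only [hf, if_pos h, mul_one, le_refl]
    · simp only [hf, if_neg h, mul_zero]; exact zero_le
  have hin2 : ∀ A : List B, a ≤ HT ht A → HT ht A ≤ a + t / 2 →
      ∑' R, LW Λ R * f (A ++ R) ≤ T0 + Sh (act dl A w) := by
    intro A ha1 ha2
    set w' := act dl A w with hw'
    set g : List B → ℝ≥0∞ := fun P => if HT ht P < 2 * t then 1 else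
      (if (CD ht dl cd P w').Nonempty ∧ (∀ k ∈ CD ht dl cd P w', s < k) then 1 else 0) with hg
    have e1 : ∑' R, LW Λ R * f (A ++ R)
        ≤ ∑' R, (if HT ht R = n - HT ht A ∧ Q (A ++ R) then LW Λ R else 0) := by
      refine ENNReal.tsum_le_tsum fun R => ?_
      by_cases h : HT ht (A ++ R) = n ∧ Q (A ++ R)
      · have h2 : HT ht R = n - HT ht A := by
          have := h.1; rw [HT_append] at this; omega
        rw [if_pos ⟨h2, h.2⟩]
        simp only [hf, if_pos h, mul_one, le_refl]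
      · simp only [hf, if_neg h, mul_zero]; exact zero_le
    refine e1.trans ?_
    refine (last_le Λ ht hU1 (n - HT ht A) (4 * t) (by omega) (fun R => Q (A ++ R)) g ?_).trans ?_
    · intro P b R hP1 hP2 hQ0
      have hQ' := (hQ _).1 hQ0
      by_cases hlt : HT ht P < 2 * t
      · simp only [hg, if_pos hlt, le_refl]
      · have hcdl : ∀ k ∈ CD ht dl cd P w', HT ht A + k ∈ CD ht dl cd (A ++ (P ++ b :: R)) w := by
          intro k hk
          rw [CD_append]
          refine Or.inr ⟨k, ?_, rfl⟩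
          rw [CD_append]
          exact Or.inl hk
        have hall : ∀ k ∈ CD ht dl cd P w', s < k := by
          intro k hk
          have := hQ'.1 _ (hcdl k hk)
          omega
        have hne : (CD ht dl cd P w').Nonempty := by
          obtain ⟨k, hk, hk2⟩ := hQ'.2
          have hk1 := hQ'.1 k hk
          rw [CD_append] at hk
          rcases hk with hk | ⟨k', hk', rfl⟩
          · have := CD_pos ht dl cd hcd A w k hk
            omega
          · rw [CD_append] at hk'
            rcases hk' with hk' | ⟨k'', hk'', rfl⟩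
            · exact ⟨k', hk'⟩
            · have := CD_pos ht dl cd hcd (b :: R) _ k'' hk''
              simp only at hk2
              omega
        simp only [hg, if_neg hlt]
        rw [if_pos ⟨hne, hall⟩]
    · -- sum over the heights
      have e2 : ∀ h ∈ Finset.range (4 * t + 1), tail Λ ht (4 * t - h) *
          ∑' P, (if HT ht P = h then LW Λ P * g P else 0)
          ≤ (if h + 2 * t ≤ 4 * t then tail Λ ht (4 * t - h) else 0)
            + (if h + 0 ≤ 4 * t then tail Λ ht (4 * t - h) else 0) * β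
            + tail Λ ht (4 * t - h) * (if 2 * t ≤ h then ind (S1 h) w' + ind (S2 h) w' else 0) := by
        intro h hh
        have hh' := Finset.mem_range.1 hh
        by_cases hlt : h < 2 * t
        · rw [if_pos (by omega : h + 2 * t ≤ 4 * t)]
          refine le_add_right (le_add_right ?_)
          calc _ ≤ tail Λ ht (4 * t - h) * 1 := by
                refine mul_le_mul_right (le_trans (ENNReal.tsum_le_tsum fun P => ?_) (hU1 h)) _
                by_cases hp : HT ht P = h
                · rw [if_pos hp, if_pos hp]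
                  simp only [hg]
                  rw [if_pos (by omega), mul_one]
                · rw [if_neg hp]; exact zero_le
            _ = _ := mul_one _
        · have e3 : ∑' P, (if HT ht P = h then LW Λ P * g P else 0)
              = ∑' P : List B, (if HT ht P = h ∧ (CD ht dl cd P w').Nonempty ∧
                (∀ k ∈ CD ht dl cd P w', s < k) then LW Λ P else 0) := by
            refine tsum_congr fun P => ?_
            by_cases hp : HT ht P = h
            · rw [if_pos hp]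
              simp only [hg]
              rw [if_neg (by omega : ¬ HT ht P < 2 * t)]
              by_cases hq : (CD ht dl cd P w').Nonempty ∧ (∀ k ∈ CD ht dl cd P w', s < k)
              · rw [if_pos hq, if_pos ⟨hp, hq⟩, mul_one]
              · rw [if_neg hq, if_neg (fun hh => hq hh.2), mul_zero]
            · rw [if_neg hp, if_neg (fun hh => hp hh.1)]
          rw [e3, if_pos (by omega : h + 0 ≤ 4 * t), if_pos (by omega : 2 * t ≤ h)]
          by_cases hS1 : w' ∈ S1 h
          · refine le_add_left (mul_le_mul_right ?_ _)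
            refine le_add_right ?_
            simp only [hind, Set.indicator_of_mem hS1]
            refine le_trans (ENNReal.tsum_le_tsum fun P => ?_) (hU1 h)
            split_ifs with c1 c2
            · exact le_rfl
            · exact absurd c1.1 c2
            · exact zero_le
            · exact zero_le
          · by_cases hS2 : w' ∈ S2 h
            · refine le_add_left (mul_le_mul_right ?_ _)
              refine le_add_left ?_
              simp only [hind, Set.indicator_of_mem hS2]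
              refine le_trans (ENNReal.tsum_le_tsum fun P => ?_) (hU1 h)
              split_ifs with c1 c2
              · exact le_rfl
              · exact absurd c1.1 c2
              · exact zero_le
              · exact zero_le
            · refine le_add_right (le_add_left (mul_le_mul_right ?_ _))
              exact hP h (by omega) (by omega) w' hS1 hS2
      refine (Finset.sum_le_sum e2).trans ?_
      rw [Finset.sum_add_distrib, Finset.sum_add_distrib, ← Finset.sum_mul]
      refine add_le_add (add_le_add ?_ ?_) le_rfl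
      · exact tails Λ ht (4 * t) (2 * t)
      · exact mul_le_mul_left (tails Λ ht (4 * t) 0) _
  calc ∑' L : List B, (if HT ht L = n ∧ (∀ k ∈ CD ht dl cd L w, a + t < k) ∧
        (∃ k ∈ CD ht dl cd L w, k ≤ a + 2 * t) then LW Λ L else 0)
      ≤ ∑' L, (if a ≤ HT ht L then LW Λ L * f L else 0) := by
        refine ENNReal.tsum_le_tsum fun L => ?_
        by_cases h : HT ht L = n ∧ Q L
        · rw [if_pos (by omega : a ≤ HT ht L)]
          simp only [hf, if_pos h, mul_one]
          rw [if_pos ⟨h.1, (hQ L).1 h.2⟩]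
        · rw [if_neg (fun hh => h ⟨hh.1, (hQ L).2 hh.2⟩)]; exact zero_le
    _ = ∑' A, (if fp ht a A then LW Λ A * ∑' R, LW Λ R * f (A ++ R) else 0) :=
        split Λ ht h1 a f
    _ ≤ ∑' A, ((if fp ht a A ∧ a + t / 2 < HT ht A then LW Λ A else 0)
          + ((if fp ht a A then LW Λ A else 0) * T0
            + (if fp ht a A then LW Λ A * Sh (act dl A w) else 0))) := by
        refine ENNReal.tsum_le_tsum fun A => ?_
        by_cases hA : fp ht a A
        · rw [if_pos hA, if_pos hA, if_pos hA]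
          by_cases ho : a + t / 2 < HT ht A
          · rw [if_pos ⟨hA, ho⟩]
            refine le_add_right ?_
            calc _ ≤ LW Λ A * 1 := mul_le_mul_right (hin1 A) _
              _ = _ := mul_one _
          · refine le_add_left ?_
            rw [← mul_add]
            exact mul_le_mul_right (hin2 A (le_HT_of_fp ht hA) (by omega)) _
        · rw [if_neg hA]; exact zero_le
    _ = (∑' A, (if fp ht a A ∧ a + t / 2 < HT ht A then LW Λ A else 0))
          + ((∑' A, (if fp ht a A then LW Λ A else 0)) * T0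
            + ∑' A, (if fp ht a A then LW Λ A * Sh (act dl A w) else 0)) := by
        rw [ENNReal.tsum_add, ENNReal.tsum_add, ENNReal.tsum_mul_right]
    _ ≤ _ := by
        refine add_le_add (overshoot Λ ht h1 hU1 (t / 2) a) ?_
        refine add_le_add ?_ ?_
        · calc _ ≤ 1 * T0 := mul_le_mul_left (sum_FP Λ ht h1 hΛ a) _
            _ = _ := one_mul _
        · have e5 : ∀ A : List B, (if fp ht a A then LW Λ A * Sh (act dl A w) else 0)
              = ∑ h ∈ Finset.range (4 * t + 1), tail Λ ht (4 * t - h) *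
                (if 2 * t ≤ h then
                  ((if fp ht a A then LW Λ A * ind (S1 h) (act dl A w) else 0) +
                   (if fp ht a A then LW Λ A * ind (S2 h) (act dl A w) else 0)) else 0) := by
            intro A
            by_cases hA : fp ht a A
            · simp only [if_pos hA, hSh]
              rw [Finset.mul_sum]
              refine Finset.sum_congr rfl fun h _ => ?_
              by_cases hh : 2 * t ≤ h
              · rw [if_pos hh, if_pos hh]; ring
              · rw [if_neg hh, if_neg hh]; simp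
            · simp only [if_neg hA]
              rw [Finset.sum_eq_zero]
              intro h _
              simp
          rw [tsum_congr e5, Summable.tsum_finsetSum (fun _ _ => ENNReal.summable)]
          refine Finset.sum_le_sum fun h _ => ?_
          rw [ENNReal.tsum_mul_left]
          refine mul_le_mul_right ?_ _
          by_cases hh : 2 * t ≤ h
          · simp only [if_pos hh]
            rw [ENNReal.tsum_add]
            exact le_rfl
          · simp only [if_neg hh, tsum_zero, le_refl]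

open Classical in
/-- the first contact lies in one of `K + 2` windows -/
lemma kap_le (K t m n : ℕ) (hK : 1 ≤ K) (ht1 : 1 ≤ t) (hm : K * t ≤ m)
    (hm2 : 2 * m ≤ (2 * K + 2) * t) (w : W) :
    Kap1 Λ ht dl cd n m w ≤ ∑ j ∈ Finset.range (K + 2), ∑' L : List B,
      (if HT ht L = n ∧ (∀ k ∈ CD ht dl cd L w, (K - 1 + j) * t + t < k) ∧
        (∃ k ∈ CD ht dl cd L w, k ≤ (K - 1 + j) * t + 2 * t) then LW Λ L else 0) := by
  rw [Kap1, ← Summable.tsum_finsetSum (fun _ _ => ENNReal.summable)]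
  refine ENNReal.tsum_le_tsum fun L => ?_
  by_cases h : HT ht L = n ∧ (∀ k ∈ CD ht dl cd L w, m < k) ∧ ∃ k ∈ CD ht dl cd L w, k ≤ 2 * m
  · rw [if_pos h]
    obtain ⟨h0, hall, k1, hk1, hk12⟩ := h
    have hne : (CD ht dl cd L w).Nonempty := ⟨_, hk1⟩
    set k0 := sInf (CD ht dl cd L w) with hk0
    have hk0m : k0 ∈ CD ht dl cd L w := Nat.sInf_mem hne
    have hmin : ∀ k ∈ CD ht dl cd L w, k0 ≤ k := fun k hk => Nat.sInf_le hk
    have hlo : m < k0 := hall _ hk0m
    have hhi : k0 ≤ 2 * m := (hmin _ hk1).trans hk12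
    set q := (k0 - 1) / t with hq
    have hq1 : q * t ≤ k0 - 1 := Nat.div_mul_le_self _ _
    have hq2 : k0 - 1 < (q + 1) * t := by
      have := Nat.lt_mul_div_succ (k0 - 1) (by omega : 0 < t)
      rw [hq, mul_comm]; exact this
    have hqK : K ≤ q := by
      by_contra hc
      have : (q + 1) * t ≤ K * t := Nat.mul_le_mul_right t (by omega)
      omega
    have hqK2 : q < 2 * K + 2 := by
      by_contra hc
      have : (2 * K + 2) * t ≤ q * t := Nat.mul_le_mul_right t (by omega)
      omega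
    refine le_trans ?_ (Finset.single_le_sum (f := fun j => (if HT ht L = n ∧
      (∀ k ∈ CD ht dl cd L w, (K - 1 + j) * t + t < k) ∧
        (∃ k ∈ CD ht dl cd L w, k ≤ (K - 1 + j) * t + 2 * t) then LW Λ L else 0))
      (fun _ _ => zero_le) (Finset.mem_range.2 (by omega : q - K < K + 2)))
    have e1 : (K - 1 + (q - K)) * t + t = q * t := by
      rw [show K - 1 + (q - K) = q - 1 by omega]
      have : (q - 1) * t + t = (q - 1 + 1) * t := by ring
      rw [this]; congr 1; omega
    have e2 : (K - 1 + (q - K)) * t + 2 * t = (q + 1) * t := by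
      have : (K - 1 + (q - K)) * t + 2 * t = ((K - 1 + (q - K)) * t + t) + t := by ring
      rw [this, e1]; ring
    simp only [e1, e2]
    rw [if_pos ⟨h0, fun k hk => by have := hmin k hk; omega, k0, hk0m, by omega⟩]
  · rw [if_neg h]; exact zero_le

open Classical in
/-- input 1 (139's literal): one piece of exact height `H` -/
def HW (c1 : ℝ≥0∞) : Prop :=
  ∀ u η : ℝ≥0∞, u ≠ 0 → u ≤ 1 → η ≠ 0 → ∃ s H0 : ℕ, ∀ H, H0 ≤ H → ∃ S1 S2 : Set W,
    Good Λ ht dl (c1 * u) η H S1 ∧ Good Λ ht dl (c1 * u) η H S2 ∧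
    ∀ w, w ∉ S1 → w ∉ S2 → ∑' L : List B, (if HT ht L = H ∧ CD ht dl cd L w ≠ ∅ ∧
      (∀ k ∈ CD ht dl cd L w, s < k ∧ k + s ≤ H) then LW Λ L else 0) ≤ u * u + η

open Classical in
/-- input 2: the bottom slab -/
def HSl : Prop :=
  ∀ (s : ℕ) (ε : ℝ≥0∞), ε ≠ 0 → ∃ H0 : ℕ, ∀ H, H0 ≤ H → ∀ w,
    ∑' L : List B, (if HT ht L = H ∧ ∃ k ∈ CD ht dl cd L w, H < k + s then LW Λ L else 0) ≤ ε

lemma good_mono {q q' η : ℝ≥0∞} (h : q' ≤ q) {H : ℕ} {S : Set W} (hG : Good Λ ht dl q η H S) :
    Good Λ ht dl q' η H S := by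
  obtain ⟨Sc, th, h1, h2, h3⟩ := hG
  exact ⟨Sc, th, h.trans h1, h2, h3⟩

open Classical in
/-- one window, with the hitting bound -/
theorem window2 (h1 : ∀ b, 1 ≤ ht b) (hcd : ∀ w b k, k ∈ cd w b → 1 ≤ k ∧ k ≤ ht b)
    (hinj : ∀ b, Function.Injective (dl b))
    (hΛ : ∑' b, Λ b = 1) (hU1 : ∀ n, U Λ ht n ≤ 1) (a t s n J : ℕ) (hs : s ≤ t / 2)
    (hn : a + 6 * t < n) (hJ : J * (2 * (4 * t)) ≤ a) (u η ε' q : ℝ≥0∞) (S1 S2 : ℕ → Set W)
    (hG1 : ∀ h, 2 * t ≤ h → Good Λ ht dl q η h (S1 h))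
    (hG2 : ∀ h, 2 * t ≤ h → Good Λ ht dl q η h (S2 h))
    (hWn : ∀ h, 2 * t ≤ h → ∀ w, w ∉ S1 h → w ∉ S2 h →
      ∑' L : List B, (if HT ht L = h ∧ CD ht dl cd L w ≠ ∅ ∧
      (∀ k ∈ CD ht dl cd L w, s < k ∧ k + s ≤ h) then (LW Λ L) else 0) ≤ u * u + η)
    (hSl : ∀ h, 2 * t ≤ h → ∀ w,
      ∑' L : List B, (if HT ht L = h ∧ ∃ k ∈ CD ht dl cd L w, h < k + s then LW Λ L else 0) ≤ ε')
    (w : W) :
    ∑' L : List B, (if HT ht L = n ∧ (∀ k ∈ CD ht dl cd L w, a + t < k) ∧
        (∃ k ∈ CD ht dl cd L w, k ≤ a + 2 * t) then LW Λ L else 0)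
      ≤ TS Λ ht (t / 2) + (TS Λ ht (t / 2) + TS Λ ht 0 * (ε' + (u * u + η)) +
        TS Λ ht 0 * (2 * ((1 - q) ^ J + J * (η + TS Λ ht (t / 2))))) := by
  have hTS : TS Λ ht (2 * t) ≤ TS Λ ht (t / 2) := TS_anti Λ ht (by omega)
  refine (window Λ ht dl cd h1 hcd hΛ.le hU1 a t s n hs hn (ε' + (u * u + η)) S1 S2 ?_ w).trans ?_
  · intro h hh1 hh2 w' hw1 hw2
    refine le_trans (b := (∑' L : List B, (if HT ht L = h ∧ ∃ k ∈ CD ht dl cd L w', h < k + s
      then LW Λ L else 0)) + ∑' L : List B, (if HT ht L = h ∧ CD ht dl cd L w' ≠ ∅ ∧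
      (∀ k ∈ CD ht dl cd L w', s < k ∧ k + s ≤ h) then (LW Λ L) else 0)) ?_
      (add_le_add (hSl h hh1 w') (hWn h hh1 w' hw1 hw2))
    rw [← ENNReal.tsum_add]
    refine ENNReal.tsum_le_tsum fun P => ?_
    by_cases hp : HT ht P = h ∧ (CD ht dl cd P w').Nonempty ∧ ∀ k ∈ CD ht dl cd P w', s < k
    · rw [if_pos hp]
      by_cases hb : ∃ k ∈ CD ht dl cd P w', h < k + s
      · rw [if_pos (⟨hp.1, hb⟩ : HT ht P = h ∧ ∃ k ∈ CD ht dl cd P w', h < k + s)]
        exact le_self_add
      · have hb' : ∀ k ∈ CD ht dl cd P w', s < k ∧ k + s ≤ h := by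
          intro k hk
          refine ⟨hp.2.2 k hk, ?_⟩
          by_contra hc
          exact hb ⟨k, hk, by omega⟩
        rw [if_pos (⟨hp.1, Set.nonempty_iff_ne_empty.1 hp.2.1, hb'⟩ :
          HT ht P = h ∧ CD ht dl cd P w' ≠ ∅ ∧ (∀ k ∈ CD ht dl cd P w', s < k ∧ k + s ≤ h))]
        exact le_add_self
    · rw [if_neg hp]; exact zero_le
  · refine add_le_add le_rfl (add_le_add (add_le_add hTS le_rfl) ?_)
    have e : ∀ h ∈ Finset.range (4 * t + 1), tail Λ ht (4 * t - h) *
          (if 2 * t ≤ h then hitS Λ ht dl a (S1 h) w + hitS Λ ht dl a (S2 h) w else 0)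
        ≤ (if h + 0 ≤ 4 * t then tail Λ ht (4 * t - h) else 0) *
          (2 * ((1 - q) ^ J + J * (η + TS Λ ht (t / 2)))) := by
      intro h hh
      have hh' := Finset.mem_range.1 hh
      rw [if_pos (by omega : h + 0 ≤ 4 * t)]
      refine mul_le_mul_right ?_ _
      by_cases h2 : 2 * t ≤ h
      · rw [if_pos h2]
        have hJ' : J * (2 * h) ≤ a := le_trans (Nat.mul_le_mul_left J (by omega)) hJ
        have hTh : TS Λ ht h ≤ TS Λ ht (t / 2) := TS_anti Λ ht (by omega)
        have b1 := hit_le Λ ht dl h1 hΛ hU1 hinj q η h (S1 h) (hG1 h h2) J a hJ' w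
        have b2 := hit_le Λ ht dl h1 hΛ hU1 hinj q η h (S2 h) (hG2 h h2) J a hJ' w
        have b3 : (1 - q) ^ J + (J : ℝ≥0∞) * (η + ∑' k, tail Λ ht (h + k))
            ≤ (1 - q) ^ J + J * (η + TS Λ ht (t / 2)) :=
          add_le_add le_rfl (mul_le_mul_right (add_le_add le_rfl hTh) _)
        calc _ ≤ ((1 - q) ^ J + J * (η + TS Λ ht (t / 2)))
              + ((1 - q) ^ J + J * (η + TS Λ ht (t / 2))) :=
              add_le_add (b1.trans b3) (b2.trans b3)
          _ = _ := (two_mul _).symm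
      · rw [if_neg h2]; exact zero_le
    refine (Finset.sum_le_sum e).trans ?_
    rw [← Finset.sum_mul]
    exact mul_le_mul_left (tails Λ ht (4 * t) 0) _

open Classical in
/-- **THE ABSTRACT ASSEMBLY** (joint cuts): hypothesis `hK` of `abs_main2`. -/
theorem kap1_of (h1 : ∀ b, 1 ≤ ht b) (hcd : ∀ w b k, k ∈ cd w b → 1 ≤ k ∧ k ≤ ht b)
    (hinj : ∀ b, Function.Injective (dl b))
    (hΛ : ∑' b, Λ b = 1) (hU1 : ∀ n, U Λ ht n ≤ 1)
    (c : ℝ≥0∞) (hc : c ≠ 0) (hc' : c ≠ ⊤) (R : ℕ) (hU : ∀ n, R ≤ n → c ≤ U Λ ht n)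
    (c1 : ℝ≥0∞) (hc1 : c1 ≠ 0) (hW : HW Λ ht dl cd c1) (hSl : HSl Λ ht dl cd) :
    ∀ ε : ℝ≥0∞, ε ≠ 0 → ∃ M, ∀ m, M ≤ m → ∃ n0, ∀ n, n0 ≤ n → ∀ w,
      Kap1 Λ ht dl cd n m w ≤ ε := by
  intro ε hε
  have hTS := tendsto_TS Λ ht c hc hc' h1 hΛ R hU
  set E0 := TS Λ ht 0 with hE0
  have hE0t : E0 ≠ ⊤ := by
    have hE := mean_le Λ ht h1 hΛ c hc hc' R hU
    rw [sum_tail Λ ht hΛ] at hE
    have : E0 = ∑' k, tail Λ ht k := by
      rw [hE0, TS]; exact tsum_congr fun k => by rw [zero_add]
    rw [this]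
    exact ne_top_of_le_ne_top (ENNReal.inv_ne_top.2 hc) hE
  set κ := min c1 1 with hκ
  have hκ0 : κ ≠ 0 := by simp [hκ, hc1]
  have hκ1 : κ ≤ 1 := min_le_right _ _
  have hκt : κ ≠ ⊤ := ne_top_of_le_ne_top ENNReal.one_ne_top hκ1
  have hki : (1 : ℝ≥0∞) ≤ κ⁻¹ := ENNReal.one_le_inv.2 hκ1
  have hkit : κ⁻¹ ≠ ⊤ := ENNReal.inv_ne_top.2 hκ0
  set C0 : ℝ≥0∞ := 16 * (E0 + 1) * (κ⁻¹ * κ⁻¹) with hC0
  have hC0t : C0 ≠ ⊤ := by
    refine ENNReal.mul_ne_top (ENNReal.mul_ne_top (by norm_num) ?_) (ENNReal.mul_ne_top hkit hkit)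
    exact ENNReal.add_ne_top.2 ⟨hE0t, ENNReal.one_ne_top⟩
  have h5 : ε / 5 ≠ 0 := by
    rw [Ne, ENNReal.div_eq_zero_iff, not_or]; exact ⟨hε, by norm_num⟩
  set ε₁ := min (ε / 5) 1 with hε₁
  have hε₁0 : ε₁ ≠ 0 := by simp [hε₁, hε]
  obtain ⟨J, v, -, hJ1, hv0, hv1, hb1, hb2⟩ := NumK658.chooseK1 C0 hC0t ε₁ hε₁0 1
  set u := v * κ⁻¹ with hu
  have hu0 : u ≠ 0 := mul_ne_zero hv0 (ENNReal.inv_ne_zero.2 hκt)
  have hqv : κ * u = v := by
    rw [hu, mul_left_comm, ENNReal.mul_inv_cancel hκ0 hκt, mul_one]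
  have huu : u * u = v ^ 2 * (κ⁻¹ * κ⁻¹) := by rw [hu]; ring
  have huu1 : 16 * (E0 + 1) * ((J + 1) * (u * u)) ≤ ε₁ := by
    rw [huu]
    refine le_trans (le_of_eq ?_) hb1
    rw [hC0]; ring
  have hu1 : u ≤ 1 := by
    by_contra hcon
    have hcon' : 1 < u := not_le.1 hcon
    have h2 : (1 : ℝ≥0∞) < u * u := by
      calc (1 : ℝ≥0∞) < u := hcon'
        _ = u * 1 := (mul_one _).symm
        _ ≤ u * u := mul_le_mul_right hcon'.le _
    have h3 : u * u ≤ 1 := by
      calc u * u = 1 * (1 * (u * u)) := by ring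
        _ ≤ 16 * (E0 + 1) * ((J + 1) * (u * u)) := by
          refine mul_le_mul' ?_ (mul_le_mul_left le_add_self _)
          calc (1 : ℝ≥0∞) = 1 * 1 := by norm_num
            _ ≤ 16 * (E0 + 1) := mul_le_mul' (by norm_num) le_add_self
        _ ≤ ε₁ := huu1
        _ ≤ 1 := min_le_right _ _
    exact absurd h3 (not_le.2 h2)
  have hJt : (J : ℝ≥0∞) ≠ ⊤ := ENNReal.natCast_ne_top J
  set D : ℝ≥0∞ := 8 * (J + 1) with hD
  have hDt : D ≠ ⊤ := ENNReal.mul_ne_top (by norm_num) (ENNReal.add_ne_top.2 ⟨hJt, by norm_num⟩)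
  -- `η`
  obtain ⟨η, hη0, hη⟩ := NumK658.chooseEta (D * (E0 + 2 * E0 * J))
    (ENNReal.mul_ne_top hDt (ENNReal.add_ne_top.2 ⟨hE0t, ENNReal.mul_ne_top
      (ENNReal.mul_ne_top (by norm_num) hE0t) hJt⟩)) (ε / 5) h5
  obtain ⟨s, H0, hH0⟩ := hW u η hu0 hu1 hη0
  obtain ⟨ε', hε'0, hε'⟩ := NumK658.chooseEta (D * E0) (ENNReal.mul_ne_top hDt hE0t) (ε / 5) h5
  obtain ⟨H1, hH1⟩ := hSl s ε' hε'0
  obtain ⟨i, hi⟩ := NumK658.chooseNat (TS Λ ht) hTS (D * (2 + 2 * E0 * J))
    (ENNReal.mul_ne_top hDt (ENNReal.add_ne_top.2 ⟨by norm_num, ENNReal.mul_ne_top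
      (ENNReal.mul_ne_top (by norm_num) hE0t) hJt⟩)) (ε / 5) h5
  have hex : ∀ H, ∃ S : Set W × Set W, H0 ≤ H →
      (Good Λ ht dl (c1 * u) η H S.1 ∧ Good Λ ht dl (c1 * u) η H S.2 ∧
      ∀ w, w ∉ S.1 → w ∉ S.2 → ∑' L : List B, (if HT ht L = H ∧ CD ht dl cd L w ≠ ∅ ∧
      (∀ k ∈ CD ht dl cd L w, s < k ∧ k + s ≤ H) then (LW Λ L) else 0) ≤ u * u + η) := by
    intro H
    by_cases h : H0 ≤ H
    · obtain ⟨S1, S2, hh⟩ := hH0 H h
      exact ⟨(S1, S2), fun _ => hh⟩
    · exact ⟨(∅, ∅), fun h' => absurd h' h⟩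
  choose S hS using hex
  set K := 8 * J + 1 with hK
  set T := 2 * i + 2 * s + H0 + H1 + K + 2 with hT
  refine ⟨K * T, fun m hm => ⟨10 * m + 10, fun n hn w => ?_⟩⟩
  set t := m / K with htdef
  have hKpos : 0 < K := by omega
  have htT : T ≤ t := by
    rw [htdef, Nat.le_div_iff_mul_le hKpos, mul_comm]; exact hm
  have hKt : K * t ≤ m := Nat.mul_div_le m K
  have hmt : m < K * (t + 1) := Nat.lt_mul_div_succ m hKpos
  have hm2 : 2 * m ≤ (2 * K + 2) * t := by
    have e1 : K * (t + 1) = K * t + K := by ring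
    have e2 : (2 * K + 2) * t = 2 * (K * t) + 2 * t := by ring
    rw [e1] at hmt
    rw [e2]
    omega
  refine (kap_le Λ ht dl cd K t m n (by omega) (by omega) hKt hm2 w).trans ?_
  have hwin : ∀ j ∈ Finset.range (K + 2), ∑' L : List B,
      (if HT ht L = n ∧ (∀ k ∈ CD ht dl cd L w, (K - 1 + j) * t + t < k) ∧
        (∃ k ∈ CD ht dl cd L w, k ≤ (K - 1 + j) * t + 2 * t) then LW Λ L else 0)
      ≤ TS Λ ht (t / 2) + (TS Λ ht (t / 2) + TS Λ ht 0 * (ε' + (u * u + η)) +
        TS Λ ht 0 * (2 * ((1 - v) ^ J + J * (η + TS Λ ht (t / 2))))) := by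
    intro j hj
    have hj' := Finset.mem_range.1 hj
    have ha : (K - 1 + j) * t ≤ 2 * m + 2 * t := by
      calc (K - 1 + j) * t ≤ (2 * K + 2) * t := Nat.mul_le_mul_right t (by omega)
        _ = 2 * (K * t) + 2 * t := by ring
        _ ≤ _ := by omega
    have htm : t ≤ m := Nat.div_le_self m K
    refine window2 Λ ht dl cd h1 hcd hinj hΛ hU1 ((K - 1 + j) * t) t s n J (by omega) (by omega) ?_
      u η ε' v (fun h => (S h).1) (fun h => (S h).2) ?_ ?_ ?_ ?_ w
    · calc J * (2 * (4 * t)) = (8 * J) * t := by ring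
        _ ≤ (K - 1 + j) * t := Nat.mul_le_mul_right t (by omega)
    · intro h hh
      refine good_mono Λ ht dl ?_ (hS h (by omega)).1
      rw [← hqv]; exact mul_le_mul_left (min_le_left _ _) _
    · intro h hh
      refine good_mono Λ ht dl ?_ (hS h (by omega)).2.1
      rw [← hqv]; exact mul_le_mul_left (min_le_left _ _) _
    · intro h hh w' h1' h2'
      exact (hS h (by omega)).2.2 w' h1' h2'
    · intro h hh w'
      exact hH1 h (by omega) w'
  refine (Finset.sum_le_sum hwin).trans ?_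
  rw [Finset.sum_const, Finset.card_range, nsmul_eq_mul]
  set d := TS Λ ht (t / 2) with hd
  have hdi : D * (2 + 2 * E0 * J) * d ≤ ε / 5 := hi (t / 2) (by omega)
  have hKD : (((K + 2 : ℕ) : ℕ) : ℝ≥0∞) ≤ D := by
    rw [hD, hK]; push_cast
    calc (8 * (J : ℝ≥0∞) + 1 + 2) = 8 * J + 3 := by ring
      _ ≤ 8 * J + 8 := by gcongr; norm_num
      _ = _ := by ring
  have t1 : D * (E0 * (u * u)) ≤ ε / 5 := by
    calc D * (E0 * (u * u)) = 8 * E0 * ((J + 1) * (u * u)) := by rw [hD]; ring
      _ ≤ 16 * (E0 + 1) * ((J + 1) * (u * u)) := by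
        refine mul_le_mul_left (mul_le_mul' (by norm_num) le_self_add) _
      _ ≤ ε₁ := huu1
      _ ≤ _ := min_le_left _ _
  have t2 : D * (E0 * (2 * (1 - v) ^ J)) ≤ ε / 5 := by
    calc D * (E0 * (2 * (1 - v) ^ J)) = 16 * E0 * 1 * ((J + 1) * (1 - v) ^ J) := by rw [hD]; ring
      _ ≤ 16 * (E0 + 1) * (κ⁻¹ * κ⁻¹) * ((J + 1) * (1 - v) ^ J) := by
        refine mul_le_mul_left (mul_le_mul' (mul_le_mul_right le_self_add _) ?_) _
        calc (1 : ℝ≥0∞) = 1 * 1 := by norm_num
          _ ≤ _ := mul_le_mul' hki hki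
      _ ≤ ε₁ := hb2
      _ ≤ _ := min_le_left _ _
  calc (((K + 2 : ℕ) : ℕ) : ℝ≥0∞) * (d + (d + E0 * (ε' + (u * u + η)) +
        E0 * (2 * ((1 - v) ^ J + J * (η + d)))))
      ≤ D * (d + (d + E0 * (ε' + (u * u + η)) + E0 * (2 * ((1 - v) ^ J + J * (η + d))))) :=
        mul_le_mul_left hKD _
    _ = D * (E0 * (u * u)) + D * (E0 * (2 * (1 - v) ^ J)) + D * E0 * ε'
        + D * (E0 + 2 * E0 * J) * η + D * (2 + 2 * E0 * J) * d := by ring
    _ ≤ ε / 5 + ε / 5 + ε / 5 + ε / 5 + ε / 5 := by gcongr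
    _ = 5 * (ε / 5) := by ring
    _ = ε := ENNReal.mul_div_cancel (by norm_num) (by norm_num)

end Crest.Agent.R154.JA94
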