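import Crest.Agent.R154.JAsm_450
import Crest.Agent.R154.JHit_139

/-! Row 154, T0219 (helper450): ROAD 801 on JOINT cuts, the final composition (139's literal `Good`,
inputs `hW`, `hSl`; output = hypothesis `hK` of 865's `abs_main2`). -/

set_option autoImplicit false

namespace Crest.Agent.R154.JAsm450

open scoped ENNReal
open Filter Topology
open Crest.Agent.R154.B5A Crest.Agent.R154.FP178
open Crest.Agent.R154.JAsm139 (Good card hitS hit_le)

variable {B W : Type*} (Λ : B → ℝ≥0∞) (ht : B → ℕ) (dl : B → W → W) (cd : W → B → Set ℕ)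

lemma ov_tendsto (h : ∑' k, tail Λ ht k ≠ ⊤) : Tendsto (ov Λ ht) atTop (𝓝 0) := by
  have h2 := ENNReal.tendsto_sum_nat_add (fun k => tail Λ ht k) h
  refine h2.congr fun r => ?_
  unfold ov
  exact tsum_congr fun k => by rw [add_comm]

lemma tail_anti {k l : ℕ} (h : k ≤ l) : tail Λ ht l ≤ tail Λ ht k := by
  unfold tail
  refine ENNReal.tsum_le_tsum fun b => ?_
  by_cases h2 : l < ht b
  · rw [if_pos h2, if_pos (by omega)]
  · rw [if_neg h2]; exact zero_le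

lemma ov_anti {r s : ℕ} (h : r ≤ s) : ov Λ ht s ≤ ov Λ ht r :=
  ENNReal.tsum_le_tsum fun k => tail_anti Λ ht (by omega)

lemma Q_le_one (hU1 : ∀ n, U Λ ht n ≤ 1) (H s : ℕ) (w : W) : Q Λ ht dl cd H s w ≤ 1 := by
  classical
  refine le_trans ?_ (hU1 H)
  unfold Q U
  refine ENNReal.tsum_le_tsum fun L => ?_
  split_ifs with h1 h2
  · exact le_rfl
  · exact absurd h1.1 h2
  · exact zero_le
  · exact le_rfl

lemma V_mono {S S' : W → ℝ≥0∞} (h : ∀ y, S y ≤ S' y) (N : ℕ) (x : W) :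
    V Λ ht dl S N x ≤ V Λ ht dl S' N x := by
  unfold V
  refine ENNReal.tsum_le_tsum fun L => ?_
  split_ifs
  · exact mul_le_mul_right (h _) _
  · exact le_rfl

lemma V_const (h1 : ∀ b, 1 ≤ ht b) (hΛ : ∑' b, Λ b ≤ 1) (a : ℝ≥0∞) (N : ℕ) (x : W) :
    V Λ ht dl (fun _ => a) N x ≤ a := by
  classical
  unfold V
  calc ∑' L : List B, (if fp ht N L then LW Λ L * a else 0)
      = ∑' L : List B, (if fp ht N L then LW Λ L else 0) * a := by
        refine tsum_congr fun L => ?_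
        split_ifs <;> simp
    _ = (∑' L : List B, (if fp ht N L then LW Λ L else 0)) * a := ENNReal.tsum_mul_right
    _ ≤ 1 * a := mul_le_mul_left (sum_FP Λ ht h1 hΛ N) _
    _ = a := one_mul a

/-- decomposition of the window estimate -/
lemma V_split (h1 : ∀ b, 1 ≤ ht b) (hΛ : ∑' b, Λ b ≤ 1) (a b c : ℝ≥0∞) (S1 S2 : Set W) (N : ℕ)
    (x : W) :
    V Λ ht dl (fun y => a + c * (b + (S1.indicator (fun _ => (1 : ℝ≥0∞)) y
      + S2.indicator (fun _ => (1 : ℝ≥0∞)) y))) N x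
      ≤ a + c * (b + (hitS Λ ht dl N S1 x + hitS Λ ht dl N S2 x)) := by
  classical
  have e : V Λ ht dl (fun y => a + c * (b + (S1.indicator (fun _ => (1 : ℝ≥0∞)) y
      + S2.indicator (fun _ => (1 : ℝ≥0∞)) y))) N x
      = V Λ ht dl (fun _ => a) N x + c * (V Λ ht dl (fun _ => b) N x
        + (hitS Λ ht dl N S1 x + hitS Λ ht dl N S2 x)) := by
    unfold V hitS
    rw [← ENNReal.tsum_add, ← ENNReal.tsum_add, ← ENNReal.tsum_mul_left, ← ENNReal.tsum_add]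
    refine tsum_congr fun L => ?_
    by_cases h : fp ht N L
    · simp only [if_pos h]; ring
    · simp only [if_neg h]; simp
  rw [e]
  have t1 := V_const Λ ht dl h1 hΛ a N x
  have t2 := V_const Λ ht dl h1 hΛ b N x
  gcongr

lemma Kap1_le (n m K t : ℕ) (ht1 : 1 ≤ t) (h2 : 2 * t ≤ m) (hm : m ≤ (K + 1) * t) (w : W) :
    Kap1 Λ ht dl cd n m w
      ≤ ∑ j ∈ Finset.range (K + 1), Win Λ ht dl cd n (m + j * t - 2 * t) t w := by
  classical
  unfold Kap1 Win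
  rw [← Summable.tsum_finsetSum (fun _ _ => ENNReal.summable)]
  refine ENNReal.tsum_le_tsum fun L => ?_
  by_cases hL : HT ht L = n ∧ (∀ k ∈ CD ht dl cd L w, m < k) ∧ ∃ k ∈ CD ht dl cd L w, k ≤ 2 * m
  · rw [if_pos hL]
    obtain ⟨hn, hall, k1, hk1, hk12⟩ := hL
    have hex : ∃ k, k ∈ CD ht dl cd L w := ⟨k1, hk1⟩
    set k0 := Nat.find hex with hk0
    have hk0m : k0 ∈ CD ht dl cd L w := Nat.find_spec hex
    have hmin : ∀ k ∈ CD ht dl cd L w, k0 ≤ k := fun k hk => Nat.find_min' hex hk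
    have hk0' := hall k0 hk0m
    have hk02 := hmin k1 hk1
    set j := (k0 - m - 1) / t with hj
    have hj1 : j * t ≤ k0 - m - 1 := Nat.div_mul_le_self _ _
    have hj2 : k0 - m - 1 < j * t + t := by
      have := Nat.lt_mul_div_succ (k0 - m - 1) (show 0 < t by omega)
      rw [← hj] at this
      linarith [this, mul_comm t (j + 1), add_mul j 1 t]
    have hjK : j < K + 1 := by
      by_contra hcon
      push Not at hcon
      have := Nat.mul_le_mul_right t hcon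
      omega
    refine le_trans ?_ (Finset.single_le_sum (f := fun j => if HT ht L = n ∧
      (∀ k ∈ CD ht dl cd L w, m + j * t - 2 * t + 2 * t < k) ∧
      (∃ k ∈ CD ht dl cd L w, k ≤ m + j * t - 2 * t + 3 * t) then LW Λ L else 0)
      (fun _ _ => zero_le) (Finset.mem_range.2 hjK))
    rw [if_pos]
    refine ⟨hn, fun k hk => ?_, k0, hk0m, ?_⟩
    · have := hmin k hk
      omega
    · omega
  · rw [if_neg hL]; exact zero_le

open Classical in
/-- **ROAD 801 ON JOINT CUTS, COMPOSITION.** -/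
theorem hK_of (h1 : ∀ b, 1 ≤ ht b) (hcd : ∀ w b k, k ∈ cd w b → 1 ≤ k ∧ k ≤ ht b)
    (hinj : ∀ b, Function.Injective (dl b)) (hU1 : ∀ n, U Λ ht n ≤ 1) (c : ℝ≥0∞) (hc : c ≠ 0)
    (R : ℕ) (hU : ∀ n, R ≤ n → c ≤ U Λ ht n) (c1 : ℝ≥0∞) (hc1 : c1 ≠ 0) (hc1' : c1 ≤ 1)
    (hW : ∀ u η : ℝ≥0∞, u ≠ 0 → u ≤ 1 → η ≠ 0 → ∃ s H0 : ℕ, ∀ H, H0 ≤ H → ∃ S1 S2 : Set W,
      Good Λ ht dl (c1 * u) η H S1 ∧ Good Λ ht dl (c1 * u) η H S2 ∧
      ∀ w, w ∉ S1 → w ∉ S2 → Q Λ ht dl cd H s w ≤ u * u + η)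
    (hSl : ∀ (s : ℕ) (ε : ℝ≥0∞), ε ≠ 0 → ∃ H0 : ℕ, ∀ H, H0 ≤ H → ∀ w, Slb Λ ht dl cd H s w ≤ ε) :
    ∀ ε : ℝ≥0∞, ε ≠ 0 → ∃ M : ℕ, ∀ m, M ≤ m → ∃ n0 : ℕ, ∀ n, n0 ≤ n → ∀ w,
      Kap1 Λ ht dl cd n m w ≤ ε := by
  intro ε hε
  have hcle : c ≤ 1 := (hU R le_rfl).trans (hU1 R)
  have hc' : c ≠ ⊤ := ne_top_of_le_ne_top ENNReal.one_ne_top hcle
  have hc1t : c1 ≠ ⊤ := ne_top_of_le_ne_top ENNReal.one_ne_top hc1'
  have hΛ : ∑' b, Λ b = 1 :=
    le_antisymm (mass_le_one Λ ht h1 hU1) (mass_ge_one Λ ht c hc R hU)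
  have hE : ∑' k, tail Λ ht k ≠ ⊤ := by
    rw [← sum_tail Λ ht hΛ]
    exact ne_top_of_le_ne_top (ENNReal.inv_ne_top.2 hc) (mean_le Λ ht h1 hΛ c hc hc' R hU)
  have hcinv : c⁻¹ ≠ ⊤ := ENNReal.inv_ne_top.2 hc
  have hε8 : ε / 8 ≠ 0 := by simp [hε]
  -- the number of windows and the quantile
  have hcc : c1 * c1 ≠ 0 := mul_ne_zero hc1 hc1
  have hε1 : min (c * (c1 * c1) * (ε / 8)) (c1 * c1) ≠ 0 :=
    (lt_min (pos_iff_ne_zero.2 (mul_ne_zero (mul_ne_zero hc hcc) hε8))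
      (pos_iff_ne_zero.2 hcc)).ne'
  obtain ⟨K, u', hK8, hK1, hu'0, hu'1, hA, hB⟩ := NumK658.chooseK 8 (by norm_num)
    (min (c * (c1 * c1) * (ε / 8)) (c1 * c1)) hε1 8
  set J : ℕ := K / 8 - 1 with hJ
  set u : ℝ≥0∞ := u' / 2 / c1 with hu
  have hcu : c1 * u = u' / 2 := ENNReal.mul_div_cancel hc1 hc1t
  have hu't : u' ≠ ⊤ := ne_top_of_le_ne_top ENNReal.one_ne_top hu'1
  have hu0 : u ≠ 0 := by
    rw [hu, Ne, ENNReal.div_eq_zero_iff, not_or]
    refine ⟨?_, hc1t⟩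
    rw [ENNReal.div_eq_zero_iff, not_or]
    exact ⟨hu'0, by norm_num⟩
  have hu'sq : u' ^ 2 ≤ min (c * (c1 * c1) * (ε / 8)) (c1 * c1) :=
    (le_mul_of_one_le_left zero_le le_add_self).trans hA
  have hu'c : u' ≤ c1 := by
    by_contra hcon
    push Not at hcon
    have h2 : c1 ^ 2 < u' ^ 2 := ENNReal.pow_right_strictMono two_ne_zero hcon
    have h3 := hu'sq.trans (min_le_right _ _)
    rw [← pow_two] at h3
    exact absurd h3 (not_le.2 h2)
  have hu1 : u ≤ 1 := by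
    rw [hu]
    refine ENNReal.div_le_of_le_mul ?_
    rw [one_mul]
    exact (ENNReal.half_le_self).trans hu'c
  -- the two first terms
  have T1 : ((K : ℝ≥0∞) + 1) * (c⁻¹ * (u * u)) ≤ ε / 8 := by
    have e1 : ((K : ℝ≥0∞) + 1) * (u * u) * (c1 * c1) ≤ c * (ε / 8) * (c1 * c1) := by
      calc ((K : ℝ≥0∞) + 1) * (u * u) * (c1 * c1) = (K + 1) * ((c1 * u) * (c1 * u)) := by ring
        _ ≤ (K + 1) * u' ^ 2 := by
            rw [hcu, pow_two]
            gcongr <;> exact ENNReal.half_le_self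
        _ ≤ c * (c1 * c1) * (ε / 8) := hA.trans (min_le_left _ _)
        _ = c * (ε / 8) * (c1 * c1) := by ring
    have e2 : ((K : ℝ≥0∞) + 1) * (u * u) ≤ c * (ε / 8) :=
      (ENNReal.mul_le_mul_iff_left hcc (ENNReal.mul_ne_top hc1t hc1t)).1 e1
    calc ((K : ℝ≥0∞) + 1) * (c⁻¹ * (u * u)) = c⁻¹ * ((K + 1) * (u * u)) := by ring
      _ ≤ c⁻¹ * (c * (ε / 8)) := mul_le_mul_right e2 _
      _ = ε / 8 := by rw [← mul_assoc, ENNReal.inv_mul_cancel hc hc', one_mul]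
  have T2 : ((K : ℝ≥0∞) + 1) * (c⁻¹ * (1 - c1 * u) ^ J) ≤ ε / 8 := by
    have e2 : ((K : ℝ≥0∞) + 1) * (1 - c1 * u) ^ J ≤ c * (ε / 8) := by
      rw [hcu]
      refine hB.trans ((min_le_left _ _).trans ?_)
      refine mul_le_mul_left (mul_le_of_le_one_right zero_le ?_) _
      exact mul_le_one' hc1' hc1'
    calc ((K : ℝ≥0∞) + 1) * (c⁻¹ * (1 - c1 * u) ^ J) = c⁻¹ * ((K + 1) * (1 - c1 * u) ^ J) := by
          ring
      _ ≤ c⁻¹ * (c * (ε / 8)) := mul_le_mul_right e2 _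
      _ = ε / 8 := by rw [← mul_assoc, ENNReal.inv_mul_cancel hc hc', one_mul]
  -- the small parameter `η`
  obtain ⟨η, hη0, hη⟩ := NumK658.chooseEta (((K : ℝ≥0∞) + 1) * (c⁻¹ * (2 + 2 * J)))
    (by finiteness) (ε / 8) hε8
  obtain ⟨s, H0, hW'⟩ := hW u η hu0 hu1 hη0
  obtain ⟨H1, hSl'⟩ := hSl s η hη0
  obtain ⟨i, hi⟩ := NumK658.chooseNat (ov Λ ht) (ov_tendsto Λ ht hE)
    (((K : ℝ≥0∞) + 1) * (2 + c⁻¹ * (2 * J))) (by finiteness) (ε / 8) hε8
  set t0 : ℕ := i + R + s + H0 + H1 + K + 1 with ht0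
  refine ⟨K * t0, fun m hm => ⟨6 * m, fun n hn w => ?_⟩⟩
  set t : ℕ := m / K with htdef
  have htt0 : t0 ≤ t := (Nat.le_div_iff_mul_le (by omega)).2 (by rw [mul_comm]; exact hm)
  have hKt : K * t ≤ m := Nat.mul_div_le m K
  have hKt2 : m < K * t + K := by
    have := Nat.lt_mul_div_succ m (show 0 < K by omega)
    rw [← htdef] at this
    linarith [mul_add K t 1]
  have hK8t : 8 * t ≤ K * t := Nat.mul_le_mul_right t hK8
  have hKK : (K + 1) * t = K * t + t := by ring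
  refine (Kap1_le Λ ht dl cd n m K t (by omega) (by omega) (by omega) w).trans ?_
  -- one window
  obtain ⟨S1, S2, hG1, hG2, hQ⟩ := hW' (4 * t) (by omega)
  set X : ℝ≥0∞ := ov Λ ht t + (ov Λ ht (t - R) + c⁻¹ * ((u * u + η + η) +
    (((1 - c1 * u) ^ J + J * (η + ov Λ ht (4 * t)))
      + ((1 - c1 * u) ^ J + J * (η + ov Λ ht (4 * t)))))) with hX
  have hwin : ∀ j ∈ Finset.range (K + 1), Win Λ ht dl cd n (m + j * t - 2 * t) t w ≤ X := by
    intro j hj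
    rw [Finset.mem_range] at hj
    have hjt : j * t ≤ K * t := Nat.mul_le_mul_right t (by omega)
    refine (Win_le Λ ht dl cd h1 hcd hU1 n _ t (by omega) w).trans ?_
    rw [hX]
    refine add_le_add le_rfl ?_
    have hG : ∀ y, G Λ ht dl cd t y ≤ ov Λ ht (t - R) + c⁻¹ * ((u * u + η + η) +
        (S1.indicator (fun _ => (1 : ℝ≥0∞)) y + S2.indicator (fun _ => (1 : ℝ≥0∞)) y)) := by
      intro y
      refine (G_le Λ ht dl cd h1 hcd hU1 c hc hc' R hU t s (by omega) (by omega) y).trans ?_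
      refine add_le_add le_rfl (mul_le_mul_right ?_ _)
      have q1 : Q Λ ht dl cd (4 * t) s y ≤ u * u + η +
          (S1.indicator (fun _ => (1 : ℝ≥0∞)) y + S2.indicator (fun _ => (1 : ℝ≥0∞)) y) := by
        by_cases hy1 : y ∈ S1
        · rw [Set.indicator_of_mem hy1]
          exact (Q_le_one Λ ht dl cd hU1 _ _ _).trans (le_self_add.trans le_add_self)
        · by_cases hy2 : y ∈ S2
          · rw [Set.indicator_of_mem hy2]
            exact (Q_le_one Λ ht dl cd hU1 _ _ _).trans (le_add_self.trans le_add_self)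
          · exact (hQ y hy1 hy2).trans le_self_add
      calc _ ≤ (u * u + η + (S1.indicator (fun _ => (1 : ℝ≥0∞)) y
            + S2.indicator (fun _ => (1 : ℝ≥0∞)) y)) + η :=
            add_le_add q1 (hSl' (4 * t) (by omega) y)
        _ = _ := by ring
    refine (V_mono Λ ht dl hG _ _).trans ((V_split Λ ht dl h1 hΛ.le _ _ _ S1 S2 _ _).trans ?_)
    have hJa : J * (2 * (4 * t)) ≤ m + j * t - 2 * t := by
      have h8 : J * 8 ≤ K - 8 := by omega
      have h9 : J * 8 * t ≤ (K - 8) * t := Nat.mul_le_mul_right t h8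
      have h10 : (K - 8) * t = K * t - 8 * t := Nat.sub_mul K 8 t
      have h11 : J * (2 * (4 * t)) = J * 8 * t := by ring
      omega
    have g1 := hit_le Λ ht dl h1 hΛ hU1 hinj _ _ _ S1 hG1 J _ hJa w
    have g2 := hit_le Λ ht dl h1 hΛ hU1 hinj _ _ _ S2 hG2 J _ hJa w
    exact add_le_add le_rfl (mul_le_mul_right (add_le_add le_rfl (add_le_add g1 g2)) _)
  refine (Finset.sum_le_card_nsmul _ _ _ hwin).trans ?_
  rw [Finset.card_range, nsmul_eq_mul]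
  push_cast
  have o1 : ov Λ ht t ≤ ov Λ ht (t - R) := ov_anti Λ ht (by omega)
  have o2 : ov Λ ht (4 * t) ≤ ov Λ ht (t - R) := ov_anti Λ ht (by omega)
  have T4 := hi (t - R) (by omega)
  calc ((K : ℝ≥0∞) + 1) * X
      ≤ (K + 1) * (ov Λ ht (t - R) + (ov Λ ht (t - R) + c⁻¹ * ((u * u + η + η) +
        (((1 - c1 * u) ^ J + J * (η + ov Λ ht (t - R)))
          + ((1 - c1 * u) ^ J + J * (η + ov Λ ht (t - R))))))) := by
        rw [hX]; gcongr
    _ = (K + 1) * (c⁻¹ * (u * u)) + 2 * ((K + 1) * (c⁻¹ * (1 - c1 * u) ^ J))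
        + (K + 1) * (c⁻¹ * (2 + 2 * J)) * η
        + (K + 1) * (2 + c⁻¹ * (2 * J)) * ov Λ ht (t - R) := by ring
    _ ≤ ε / 8 + 2 * (ε / 8) + ε / 8 + ε / 8 := by gcongr
    _ ≤ ε := by
        calc ε / 8 + 2 * (ε / 8) + ε / 8 + ε / 8 = 5 * (ε / 8) := by ring
          _ ≤ 8 * (ε / 8) := by gcongr; norm_num
          _ ≤ ε := ENNReal.mul_div_le

end Crest.Agent.R154.JAsm450
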