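import Crest.Agent.R154.JAsm_619
import Crest.Agent.R154.KU_823

/-! Row 154 (helper619): assembly of ROAD 801 in the joint-cut frame: density recursion,
counting form of the window lemmas, choice of the constants. -/

set_option autoImplicit false
set_option linter.unusedSectionVars false

namespace Crest.Agent.R154.J619

open scoped ENNReal Topology
open Filter
open Crest.Agent.R154.B5A Crest.Agent.R154.FP178

variable {B W : Type*} [AddCommGroup W] (Λ : B → ℝ≥0∞) (ht : B → ℕ) (D : B → W)
  (cd : W → B → Set ℕ)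

lemma fp_exact (h1 : ∀ b, 1 ≤ ht b) (L : List B) : fp ht (HT ht L) L := by
  induction L with
  | nil => rw [fp_nil, HT_nil]
  | cons b L ih =>
    rw [fp_cons, HT_cons]
    have := h1 b
    refine ⟨by omega, ?_⟩
    rwa [show ht b + HT ht L - ht b = HT ht L by omega]

open Classical in
/-- mass of the first passage lists of depth `a` which land in `S` -/
noncomputable def hit (S : Set W) (a : ℕ) (w : W) : ℝ≥0∞ :=
  ∑' A : List B, if fp ht a A then LW Λ A * (if w + (A.map D).sum ∈ S then 1 else 0) else 0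

open Classical in
lemma hit_le_one (h1 : ∀ b, 1 ≤ ht b) (hΛ : ∑' b, Λ b ≤ 1) (S : Set W) (a : ℕ) (w : W) :
    hit Λ ht D S a w ≤ 1 := by
  refine le_trans (ENNReal.tsum_le_tsum fun A => ?_) (sum_FP Λ ht h1 hΛ a)
  by_cases h : fp ht a A
  · rw [if_pos h, if_pos h]
    split_ifs
    · rw [mul_one]
    · rw [mul_zero]; exact zero_le
  · rw [if_neg h]; exact zero_le

open Classical in
lemma sup_sum (SX : List B → Prop) (θ : ℝ≥0∞) (S : Set W)
    (hθ : ∀ w, ∑' L : List B, (if SX L ∧ (L.map D).sum = w then LW Λ L else 0) ≤ θ) (x : W) :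
    ∑' A : List B, (if SX A then LW Λ A * (if x + (A.map D).sum ∈ S then 1 else 0) else 0)
      ≤ θ * ∑' y : W, (if y ∈ S then 1 else 0) := by
  calc ∑' A : List B, (if SX A then LW Λ A * (if x + (A.map D).sum ∈ S then 1 else 0) else 0)
      = ∑' A : List B, ∑' y : W, (if y ∈ S then 1 else 0) *
        (if SX A ∧ (A.map D).sum = y - x then LW Λ A else 0) := by
        refine tsum_congr fun A => ?_
        rw [tsum_eq_single (x + (A.map D).sum)]
        · by_cases h : SX A
          · rw [if_pos h, if_pos (show SX A ∧ (A.map D).sum = x + (A.map D).sum - x from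
              ⟨h, by abel⟩), mul_comm]
          · rw [if_neg h, if_neg (fun h' : SX A ∧ (A.map D).sum = x + (A.map D).sum - x => h h'.1),
              mul_zero]
        · intro y hy
          rw [if_neg (c := SX A ∧ (A.map D).sum = y - x), mul_zero]
          rintro ⟨_, h'⟩
          apply hy
          rw [h']; abel
    _ = ∑' y : W, ∑' A : List B, (if y ∈ S then 1 else 0) *
        (if SX A ∧ (A.map D).sum = y - x then LW Λ A else 0) := ENNReal.tsum_comm
    _ = ∑' y : W, (if y ∈ S then 1 else 0) * ∑' A : List B,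
        (if SX A ∧ (A.map D).sum = y - x then LW Λ A else 0) :=
        tsum_congr fun y => ENNReal.tsum_mul_left
    _ ≤ ∑' y : W, (if y ∈ S then 1 else 0) * θ :=
        ENNReal.tsum_le_tsum fun y => mul_le_mul_right (hθ _) _
    _ = _ := by rw [ENNReal.tsum_mul_right, mul_comm]

open Classical in
/-- **density recursion** -/
theorem hit_le (h1 : ∀ b, 1 ≤ ht b) (hΛ : ∑' b, Λ b ≤ 1) (hU1 : ∀ n, U Λ ht n ≤ 1)
    (H : ℕ) (S : Set W) (SX : List B → Prop) (hSX : ∀ L, SX L → HT ht L = H)
    (v θ κ : ℝ≥0∞) (hv1 : v ≤ 1) (hv : v ≤ ∑' L : List B, if SX L then LW Λ L else 0)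
    (hθ : ∀ w, ∑' L : List B, (if SX L ∧ (L.map D).sum = w then LW Λ L else 0) ≤ θ)
    (hκ : θ * ∑' y : W, (if y ∈ S then 1 else 0) ≤ κ) (J : ℕ) :
    ∀ (a : ℕ) (w : W), 2 * H * J ≤ a →
      hit Λ ht D S a w ≤ (1 - v) ^ J + J * (κ + e1 Λ ht H) := by
  induction J with
  | zero =>
    intro a w _
    simpa using hit_le_one Λ ht D h1 hΛ S a w
  | succ J ih =>
    intro a w ha
    have hHa : H ≤ a := by nlinarith
    have haJ : ∀ x, x ≤ 2 * H → 2 * H * J ≤ a - x := by
      intro x hx
      have : 2 * H * (J + 1) = 2 * H * J + 2 * H := by ring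
      omega
    set β := (1 - v) ^ J + J * (κ + e1 Λ ht H) with hβ
    unfold hit
    rw [fp_split Λ ht h1 H a hHa (fun A => if w + (A.map D).sum ∈ S then 1 else 0)]
    have hin : ∀ A1 : List B, ∑' L : List B, (if fp ht (a - HT ht A1) L then
        LW Λ L * (if w + ((A1 ++ L).map D).sum ∈ S then 1 else 0) else 0)
        = hit Λ ht D S (a - HT ht A1) (w + (A1.map D).sum) := by
      intro A1
      unfold hit
      refine tsum_congr fun L => ?_
      rw [List.map_append, List.sum_append, ← add_assoc]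
    have hterm : ∀ A1 : List B, (if fp ht H A1 then LW Λ A1 *
        ∑' L : List B, (if fp ht (a - HT ht A1) L then
        LW Λ L * (if w + ((A1 ++ L).map D).sum ∈ S then 1 else 0) else 0) else 0)
        ≤ (if fp ht H A1 ∧ H + H < HT ht A1 then LW Λ A1 else 0)
          + ((if SX A1 then LW Λ A1 * hit Λ ht D S (a - H) (w + (A1.map D).sum) else 0)
          + (if fp ht H A1 ∧ ¬ SX A1 then LW Λ A1 else 0) * β) := by
      intro A1
      rw [hin A1]
      by_cases hf : fp ht H A1
      swap
      · rw [if_neg hf]; exact zero_le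
      rw [if_pos hf]
      by_cases ho : H + H < HT ht A1
      · rw [if_pos (show fp ht H A1 ∧ H + H < HT ht A1 from ⟨hf, ho⟩)]
        refine le_trans (mul_le_mul_right (hit_le_one Λ ht D h1 hΛ S _ _) _) ?_
        rw [mul_one]; exact le_self_add
      refine le_trans ?_ le_add_self
      by_cases hs : SX A1
      · rw [if_pos hs, hSX A1 hs]
        exact le_self_add
      · rw [if_pos (show fp ht H A1 ∧ ¬ SX A1 from ⟨hf, hs⟩)]
        refine le_trans ?_ le_add_self
        refine mul_le_mul_right (ih _ _ (haJ _ (by omega))) _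
    refine le_trans (ENNReal.tsum_le_tsum hterm) ?_
    rw [ENNReal.tsum_add, ENNReal.tsum_add, ENNReal.tsum_mul_right]
    have hS1 : ∑' A1 : List B, (if fp ht H A1 ∧ H + H < HT ht A1 then LW Λ A1 else 0)
        ≤ e1 Λ ht H := overshoot Λ ht h1 hU1 H H
    have hS2 : ∑' A1 : List B, (if SX A1 then
        LW Λ A1 * hit Λ ht D S (a - H) (w + (A1.map D).sum) else 0) ≤ κ := by
      calc ∑' A1 : List B, (if SX A1 then
            LW Λ A1 * hit Λ ht D S (a - H) (w + (A1.map D).sum) else 0)
          = ∑' A1 : List B, ∑' L : List B, (if fp ht (a - H) L then LW Λ L * (if SX A1 then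
              LW Λ A1 * (if (w + (L.map D).sum) + (A1.map D).sum ∈ S then 1 else 0) else 0)
              else 0) := by
            refine tsum_congr fun A1 => ?_
            by_cases hs : SX A1
            · simp only [if_pos hs]
              unfold hit
              rw [← ENNReal.tsum_mul_left]
              refine tsum_congr fun L => ?_
              rw [show w + (A1.map D).sum + (L.map D).sum = w + (L.map D).sum + (A1.map D).sum
                by abel]
              by_cases hL : fp ht (a - H) L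
              · rw [if_pos hL, if_pos hL]; ring
              · rw [if_neg hL, if_neg hL, mul_zero]
            · simp [if_neg hs]
        _ = ∑' L : List B, ∑' A1 : List B, (if fp ht (a - H) L then LW Λ L * (if SX A1 then
              LW Λ A1 * (if (w + (L.map D).sum) + (A1.map D).sum ∈ S then 1 else 0) else 0)
              else 0) := ENNReal.tsum_comm
        _ ≤ ∑' L : List B, (if fp ht (a - H) L then LW Λ L else 0) * κ := by
            refine ENNReal.tsum_le_tsum fun L => ?_
            by_cases hL : fp ht (a - H) L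
            · simp only [if_pos hL]
              rw [ENNReal.tsum_mul_left]
              exact mul_le_mul_right ((sup_sum Λ D SX θ S hθ _).trans hκ) _
            · simp [if_neg hL]
        _ = (∑' L : List B, (if fp ht (a - H) L then LW Λ L else 0)) * κ :=
            ENNReal.tsum_mul_right
        _ ≤ 1 * κ := mul_le_mul_left (sum_FP Λ ht h1 hΛ _) _
        _ = κ := one_mul _
    have hS3 : ∑' A1 : List B, (if fp ht H A1 ∧ ¬ SX A1 then LW Λ A1 else 0) ≤ 1 - v := by
      refine ENNReal.le_sub_of_add_le_right (ne_top_of_le_ne_top ENNReal.one_ne_top hv1) ?_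
      refine le_trans (add_le_add le_rfl hv) ?_
      rw [← ENNReal.tsum_add]
      refine le_trans (ENNReal.tsum_le_tsum fun A1 => ?_) (sum_FP Λ ht h1 hΛ H)
      by_cases hs : SX A1
      · have : fp ht H A1 := by rw [← hSX A1 hs]; exact fp_exact ht h1 A1
        rw [if_neg (show ¬ (fp ht H A1 ∧ ¬ SX A1) from fun h => h.2 hs), if_pos hs, if_pos this,
          zero_add]
      · rw [if_neg hs, add_zero]
        by_cases hf : fp ht H A1
        · rw [if_pos (show fp ht H A1 ∧ ¬ SX A1 from ⟨hf, hs⟩), if_pos hf]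
        · rw [if_neg (fun h => hf h.1)]; exact zero_le
    refine le_trans (add_le_add hS1 (add_le_add hS2 (mul_le_mul_left hS3 β))) ?_
    calc e1 Λ ht H + (κ + (1 - v) * β)
        = (1 - v) ^ (J + 1) + (κ + e1 Λ ht H + (1 - v) * (J * (κ + e1 Λ ht H))) := by
          rw [hβ]; ring
      _ ≤ (1 - v) ^ (J + 1) + (κ + e1 Λ ht H + 1 * (J * (κ + e1 Λ ht H))) := by
          gcongr
          exact tsub_le_self
      _ = (1 - v) ^ (J + 1) + ((J + 1 : ℕ) : ℝ≥0∞) * (κ + e1 Λ ht H) := by
          push_cast; ring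

open Classical in
/-- **counting form** -/
lemma count_le (Φ : W → ℝ≥0∞) (C lam th us : ℝ≥0∞) (hC : C ≠ 0) (hC' : C ≠ ⊤)
    (hl : lam ≠ 0) (hl' : lam ≠ ⊤) (ht0 : th ≠ 0) (ht' : th ≠ ⊤)
    (h : ∀ S : Finset W, ∑ w ∈ S, Φ w ≤ C * (S.card * lam + us / (lam * th))) :
    2 * th * ∑' w : W, (if w ∈ {w | 2 * C * lam < Φ w} then 1 else 0) ≤ 2 * (us / lam ^ 2) := by
  rw [mul_assoc]
  refine mul_le_mul_right ?_ _
  rw [ENNReal.tsum_eq_iSup_sum, ENNReal.mul_iSup]
  refine iSup_le fun T => ?_
  set S := T.filter (fun w => w ∈ {w | 2 * C * lam < Φ w}) with hS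
  have hc : ∑ w ∈ T, (if w ∈ {w | 2 * C * lam < Φ w} then (1 : ℝ≥0∞) else 0) = S.card := by
    rw [← Finset.sum_filter, Finset.sum_const, nsmul_eq_mul, mul_one]
  rw [hc]
  have h2 : C * (S.card * lam) + C * (S.card * lam) ≤ C * (S.card * lam) + C * (us / (lam * th)) := by
    calc C * (S.card * lam) + C * (S.card * lam) = ∑ w ∈ S, 2 * C * lam := by
          rw [Finset.sum_const, nsmul_eq_mul]; ring
      _ ≤ ∑ w ∈ S, Φ w := Finset.sum_le_sum fun w hw => by
          have := (Finset.mem_filter.1 hw).2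
          exact le_of_lt this
      _ ≤ C * (S.card * lam + us / (lam * th)) := h S
      _ = _ := mul_add _ _ _
  have hfin : C * (S.card * lam) ≠ ⊤ :=
    ENNReal.mul_ne_top hC' (ENNReal.mul_ne_top (ENNReal.natCast_ne_top _) hl')
  have h3 : (S.card : ℝ≥0∞) * lam ≤ us / (lam * th) := by
    have := (ENNReal.add_le_add_iff_left hfin).1 h2
    exact (ENNReal.mul_le_mul_iff_right hC hC').1 this
  calc th * (S.card : ℝ≥0∞) = th * (S.card * lam) / lam := by
        rw [mul_div_assoc, mul_div_assoc, ENNReal.div_self hl hl', mul_one]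
    _ ≤ th * (us / (lam * th)) / lam := ENNReal.div_le_div_right (mul_le_mul_right h3 _) _
    _ = us / lam ^ 2 := by
        rw [div_eq_mul_inv, div_eq_mul_inv, div_eq_mul_inv,
          ENNReal.mul_inv (Or.inl hl) (Or.inl hl'), pow_two,
          ENNReal.mul_inv (Or.inl hl) (Or.inl hl')]
        calc th * (us * (lam⁻¹ * th⁻¹)) * lam⁻¹ = (th * th⁻¹) * (us * (lam⁻¹ * lam⁻¹)) := by ring
          _ = _ := by rw [ENNReal.mul_inv_cancel ht0 ht', one_mul]

lemma exists_mul_le (A ε : ℝ≥0∞) (hA : A ≠ ⊤) (hε : ε ≠ 0) :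
    ∃ δ : ℝ≥0∞, δ ≠ 0 ∧ δ ≤ 1 ∧ A * δ ≤ ε := by
  refine ⟨min 1 (ε / (A + 1)), ?_, min_le_left _ _, ?_⟩
  · have h : ε / (A + 1) ≠ 0 := by
      rw [Ne, ENNReal.div_eq_zero_iff, not_or]
      exact ⟨hε, by finiteness⟩
    exact ne_of_gt (lt_min zero_lt_one (pos_iff_ne_zero.2 h))
  · calc A * min 1 (ε / (A + 1)) ≤ (A + 1) * (ε / (A + 1)) :=
          mul_le_mul' le_self_add (min_le_right _ _)
      _ ≤ ε := ENNReal.mul_div_le

end Crest.Agent.R154.J619
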