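import Crest.Agent.R154.JAsm2_619

/-! Row 154 (helper619): assembly of ROAD 801 in the joint-cut frame: the main theorem. -/

set_option autoImplicit false
set_option linter.unusedSectionVars false

namespace Crest.Agent.R154.J619

open scoped ENNReal Topology
open Filter
open Crest.Agent.R154.B5A Crest.Agent.R154.FP178

variable {B W : Type*} [AddCommGroup W] (Λ : B → ℝ≥0∞) (ht : B → ℕ) (D : B → W)
  (cd : W → B → Set ℕ)

open Classical in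
/-- data for one side (`X` or `Y`) at the height `H`: local predicate, success predicate,
threshold -/
structure Side (H : ℕ) (v C : ℝ≥0∞) (us : ℕ → ℝ≥0∞) (LX SX : List B → Prop) (th : ℝ≥0∞) :
    Prop where
  th0 : th ≠ 0
  th1 : th ≠ ⊤
  hS : ∀ L, SX L → HT ht L = H
  mass : v ≤ ∑' L : List B, if SX L then LW Λ L else 0
  sup : ∀ w, ∑' L : List B, (if SX L ∧ (L.map D).sum = w then LW Λ L else 0) ≤ 2 * th
  win : ∀ (s : ℕ) (lam : ℝ≥0∞), lam ≠ 0 → lam ≠ ⊤ → ∀ S : Finset W,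
    ∑ w ∈ S, Ph Λ ht D cd H s LX w ≤ C * (S.card * lam + us s / (lam * th))

open Classical in
lemma Ph_le_one (hU1 : ∀ n, U Λ ht n ≤ 1) (H s : ℕ) (Q : List B → Prop) (w : W) :
    Ph Λ ht D cd H s Q w ≤ 1 := by
  refine le_trans (ENNReal.tsum_le_tsum fun L => ?_) (hU1 H)
  by_cases h : HT ht L = H ∧ Q L ∧ good s H (CD ht (dlD D) cd L w)
  · rw [if_pos h, if_pos h.1]
  · rw [if_neg h]; exact zero_le

open Classical in
/-- one side of a window -/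
lemma side_le (h1 : ∀ b, 1 ≤ ht b) (hΛ : ∑' b, Λ b ≤ 1) (hU1 : ∀ n, U Λ ht n ≤ 1)
    (H : ℕ) (v C : ℝ≥0∞) (hv1 : v ≤ 1) (hC : C ≠ 0) (hC' : C ≠ ⊤) (us : ℕ → ℝ≥0∞)
    (LX SX : List B → Prop) (th : ℝ≥0∞)
    (hs : Side Λ ht D cd H v C us LX SX th) (s J a : ℕ) (w : W) (lam : ℝ≥0∞) (hl : lam ≠ 0)
    (hl' : lam ≠ ⊤) (ha : 2 * H * J ≤ a) :
    ∑' A : List B, (if fp ht a A then LW Λ A * Ph Λ ht D cd H s LX (w + (A.map D).sum) else 0)
      ≤ 2 * C * lam + ((1 - v) ^ J + J * (2 * (us s / lam ^ 2) + e1 Λ ht H)) := by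
  obtain ⟨S, hS⟩ : ∃ S : Set W, S = {w | 2 * C * lam < Ph Λ ht D cd H s LX w} := ⟨_, rfl⟩
  have hk : 2 * th * ∑' y : W, (if y ∈ S then 1 else 0) ≤ 2 * (us s / lam ^ 2) := by
    rw [hS]
    convert count_le (fun w => Ph Λ ht D cd H s LX w) C lam th (us s) hC hC' hl hl' hs.th0 hs.th1
      (hs.win s lam hl hl')
  have hh := hit_le Λ ht D h1 hΛ hU1 H S SX hs.hS v (2 * th) (2 * (us s / lam ^ 2)) hv1 hs.mass
    hs.sup hk J a w ha
  calc ∑' A : List B, (if fp ht a A then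
        LW Λ A * Ph Λ ht D cd H s LX (w + (A.map D).sum) else 0)
      ≤ ∑' A : List B, ((if fp ht a A then LW Λ A else 0) * (2 * C * lam) +
          (if fp ht a A then LW Λ A * (if w + (A.map D).sum ∈ S then 1 else 0) else 0)) := by
        refine ENNReal.tsum_le_tsum fun A => ?_
        by_cases hf : fp ht a A
        · simp only [if_pos hf]
          rw [← mul_add]
          refine mul_le_mul_right ?_ _
          by_cases hm : w + (A.map D).sum ∈ S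
          · rw [if_pos hm]
            exact (Ph_le_one Λ ht D cd hU1 H s LX _).trans le_add_self
          · rw [if_neg hm, add_zero]
            rw [hS] at hm
            exact not_lt.1 hm
        · simp [if_neg hf]
    _ = (∑' A : List B, (if fp ht a A then LW Λ A else 0)) * (2 * C * lam)
          + hit Λ ht D S a w := by rw [ENNReal.tsum_add, ENNReal.tsum_mul_right, hit]
    _ ≤ 1 * (2 * C * lam) + _ := add_le_add (mul_le_mul_left (sum_FP Λ ht h1 hΛ a) _) hh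
    _ = _ := by rw [one_mul]

open Classical in
/-- a window, all terms -/
lemma win_tot (h1 : ∀ b, 1 ≤ ht b) (hΛ : ∑' b, Λ b ≤ 1)
    (hcd : ∀ w b k, k ∈ cd w b → 1 ≤ k ∧ k ≤ ht b)
    (c : ℝ≥0∞) (hc : c ≠ 0) (hc' : c ≠ ⊤) (hU : ∀ n, c ≤ U Λ ht n) (hU1 : ∀ n, U Λ ht n ≤ 1)
    (n a q H s a0 J : ℕ) (w : W) (ha : a = a0 + q + s) (hn : a + q ≤ n) (hH : H = 4 * q)
    (hsq : s ≤ q) (v C lam : ℝ≥0∞) (hv1 : v ≤ 1) (hC : C ≠ 0) (hC' : C ≠ ⊤)
    (us : ℕ → ℝ≥0∞) (hl : lam ≠ 0) (hl' : lam ≠ ⊤)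
    (LX LY SX SY : List B → Prop) (thX thY : ℝ≥0∞) (pt p2 : ℝ≥0∞)
    (hX : Side Λ ht D cd H v C us LX SX thX) (hY : Side Λ ht D cd H v C us LY SY thY)
    (haJ : 2 * H * J ≤ a0)
    (hpt : ∀ w k, H < k + s → k ≤ H → ∑' L : List B, (if HT ht L = H ∧
      k ∈ CD ht (dlD D) cd L w then LW Λ L else 0) ≤ pt)
    (hp2 : ∑' L : List B, (if HT ht L = H ∧ ¬ LX L ∧ ¬ LY L then LW Λ L else 0) ≤ p2) :
    Win Λ ht D cd n a q w ≤ 2 * e1 Λ ht q + c⁻¹ * (s * pt + (2 * (2 * C * lam + ((1 - v) ^ J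
      + J * (2 * (us s / lam ^ 2) + e1 Λ ht H))) + p2)) := by
  have hb := win_bd Λ ht D cd h1 hcd c hc hc' hU hU1 n a q H s a0 w ha hn hH hsq LX LY pt p2
    hpt hp2
  refine hb.trans ?_
  have hx := side_le Λ ht D cd h1 hΛ hU1 H v C hv1 hC hC' us LX SX thX hX s J a0 w lam hl hl' haJ
  have hy := side_le Λ ht D cd h1 hΛ hU1 H v C hv1 hC hC' us LY SY thY hY s J a0 w lam hl hl' haJ
  set T := 2 * C * lam + ((1 - v) ^ J + J * (2 * (us s / lam ^ 2) + e1 Λ ht H)) with hT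
  have hsum : ∑' A : List B, (if fp ht a0 A then LW Λ A *
      (e1 Λ ht q + c⁻¹ * (s * pt + (Ph Λ ht D cd H s LX (w + (A.map D).sum)
        + Ph Λ ht D cd H s LY (w + (A.map D).sum) + p2))) else 0)
      = (∑' A : List B, (if fp ht a0 A then LW Λ A else 0)) * (e1 Λ ht q + c⁻¹ * (s * pt + p2))
        + c⁻¹ * (∑' A : List B, (if fp ht a0 A then
            LW Λ A * Ph Λ ht D cd H s LX (w + (A.map D).sum) else 0)
          + ∑' A : List B, (if fp ht a0 A then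
            LW Λ A * Ph Λ ht D cd H s LY (w + (A.map D).sum) else 0)) := by
    rw [← ENNReal.tsum_mul_right, ← ENNReal.tsum_add, ← ENNReal.tsum_mul_left,
      ← ENNReal.tsum_add]
    refine tsum_congr fun A => ?_
    by_cases hf : fp ht a0 A
    · simp only [if_pos hf]; ring
    · simp [if_neg hf]
  rw [hsum]
  calc e1 Λ ht q + ((∑' A : List B, (if fp ht a0 A then LW Λ A else 0)) *
        (e1 Λ ht q + c⁻¹ * (s * pt + p2)) + c⁻¹ * (∑' A : List B, (if fp ht a0 A then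
            LW Λ A * Ph Λ ht D cd H s LX (w + (A.map D).sum) else 0)
          + ∑' A : List B, (if fp ht a0 A then
            LW Λ A * Ph Λ ht D cd H s LY (w + (A.map D).sum) else 0)))
      ≤ e1 Λ ht q + (1 * (e1 Λ ht q + c⁻¹ * (s * pt + p2)) + c⁻¹ * (T + T)) := by
        refine add_le_add le_rfl (add_le_add (mul_le_mul_left (sum_FP Λ ht h1 hΛ a0) _)
          (mul_le_mul_right (add_le_add hx hy) _))
    _ = _ := by ring

open Classical in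
/-- **ROAD 801 in the joint-cut frame**: first contact at depth in `(m, 2m]` is unlikely. -/
theorem kap_small (h1 : ∀ b, 1 ≤ ht b) (hcd : ∀ w b k, k ∈ cd w b → 1 ≤ k ∧ k ≤ ht b)
    (c : ℝ≥0∞) (hc : c ≠ 0) (hU : ∀ n, c ≤ U Λ ht n) (hU1 : ∀ n, U Λ ht n ≤ 1)
    (C : ℝ≥0∞) (hC : C ≠ 0) (hC' : C ≠ ⊤) (us : ℕ → ℝ≥0∞) (hus : Tendsto us atTop (𝓝 0))
    (hPt : ∀ ε : ℝ≥0∞, ε ≠ 0 → ∃ k0 : ℕ, ∀ k, k0 ≤ k → ∀ H, k ≤ H → ∀ w,
      ∑' L : List B, (if HT ht L = H ∧ k ∈ CD ht (dlD D) cd L w then LW Λ L else 0) ≤ ε)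
    (hpiece : ∀ v : ℝ≥0∞, v ≠ 0 → v < c → ∀ H : ℕ, 1 ≤ H →
      ∃ (LX LY SX SY : List B → Prop) (thX thY : ℝ≥0∞),
        Side Λ ht D cd H (c * v) C us LX SX thX ∧ Side Λ ht D cd H (c * v) C us LY SY thY ∧
        ∑' L : List B, (if HT ht L = H ∧ ¬ LX L ∧ ¬ LY L then LW Λ L else 0) ≤ v ^ 2) :
    ∀ ε : ℝ≥0∞, ε ≠ 0 → ∃ M : ℕ, ∀ m, M ≤ m → ∃ n0 : ℕ, ∀ n, n0 ≤ n → ∀ w,
      Kap1 Λ ht (dlD D) cd n m w ≤ ε := by
  intro ε hε
  have hc1 : c ≤ 1 := (hU 0).trans (hU1 0)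
  have hc' : c ≠ ⊤ := ne_top_of_le_ne_top ENNReal.one_ne_top hc1
  have hΛ1 : ∑' b, Λ b = 1 :=
    le_antisymm (mass_le_one Λ ht h1 hU1) (mass_ge_one Λ ht c hc 0 (fun n _ => hU n))
  have hΛ : ∑' b, Λ b ≤ 1 := hΛ1.le
  have hci : c⁻¹ ≠ ⊤ := ENNReal.inv_ne_top.2 hc
  have hE : ∑' k, tail Λ ht k ≠ ⊤ := by
    rw [← sum_tail Λ ht hΛ1]
    exact ne_top_of_le_ne_top hci (mean_le Λ ht h1 hΛ1 c hc hc' 0 (fun n _ => hU n))
  have he1 : Tendsto (fun q => e1 Λ ht q) atTop (𝓝 0) := by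
    have := ENNReal.tendsto_sum_nat_add (fun k => tail Λ ht k) hE
    refine this.congr fun q => ?_
    unfold e1
    exact tsum_congr fun k => by rw [add_comm]
  have hε8 : ε / 8 ≠ 0 := by
    rw [Ne, ENNReal.div_eq_zero_iff, not_or]
    exact ⟨hε, by norm_num⟩
  -- choice of `K`, `v`
  obtain ⟨δ, hδ0, hδ1, hδ⟩ := exists_mul_le (2 * c⁻¹ + c⁻¹ * (c⁻¹ ^ 2)) (ε / 8)
    (by finiteness) hε8
  have hδc : min δ (c ^ 4) ≠ 0 := ne_of_gt (lt_min (pos_iff_ne_zero.2 hδ0)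
    (pos_iff_ne_zero.2 (pow_ne_zero _ hc)))
  obtain ⟨K', u, _, hK1, hK8, hu0, hu1, hKu, hKp⟩ := KU823.exists_Ku 2 8 (by norm_num)
    (min δ (c ^ 4)) hδc 1
  obtain ⟨J, rfl⟩ := hK8
  rw [Nat.mul_div_cancel_left J (by norm_num)] at hKp
  have hut : u ≠ ⊤ := ne_top_of_le_ne_top ENNReal.one_ne_top hu1
  set v : ℝ≥0∞ := c⁻¹ * (u / 2) with hv
  have hcv : c * v = u / 2 := by rw [hv, ← mul_assoc, ENNReal.mul_inv_cancel hc hc', one_mul]
  have hv0 : v ≠ 0 := by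
    refine mul_ne_zero (ENNReal.inv_ne_zero.2 hc') ?_
    rw [Ne, ENNReal.div_eq_zero_iff, not_or]
    exact ⟨hu0, by norm_num⟩
  set Kw : ℕ := 8 * J + 2 with hKw
  have hKwc : ((8 * J : ℕ) : ℝ≥0∞) + ((2 : ℕ) : ℝ≥0∞) = (Kw : ℝ≥0∞) := by
    rw [hKw]; push_cast; ring
  rw [hKwc] at hKp
  have hKu' : (Kw : ℝ≥0∞) * u ^ 2 ≤ min δ (c ^ 4) := by
    rw [← hKwc]; exact hKu
  have huc : u ≤ c ^ 2 := by
    by_contra hcon
    push Not at hcon
    have h2 : c ^ 4 < u ^ 2 := by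
      calc c ^ 4 = (c ^ 2) ^ 2 := by ring
        _ < u ^ 2 := ENNReal.pow_lt_pow_left (by norm_num) hcon
    have h3 : u ^ 2 ≤ (Kw : ℝ≥0∞) * u ^ 2 := by
      refine le_mul_of_one_le_left zero_le ?_
      have : 1 ≤ Kw := by omega
      exact_mod_cast this
    exact absurd ((h3.trans hKu').trans (min_le_right _ _)) (not_le.2 h2)
  have hvc : v < c := by
    have hhalf : u / 2 < u := ENNReal.half_lt_self hu0 hut
    calc v < c⁻¹ * u := by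
          rw [hv]; exact (ENNReal.mul_lt_mul_iff_right (ENNReal.inv_ne_zero.2 hc') hci).2 hhalf
      _ ≤ c⁻¹ * c ^ 2 := mul_le_mul_right huc _
      _ = c := by rw [pow_two, ← mul_assoc, ENNReal.inv_mul_cancel hc hc', one_mul]
  have hcv1 : c * v ≤ 1 := by
    rw [hcv]; exact (ENNReal.half_le_self).trans hu1
  set A : ℝ≥0∞ := (Kw : ℝ≥0∞) * c⁻¹ with hA
  have hAt : A ≠ ⊤ := ENNReal.mul_ne_top (ENNReal.natCast_ne_top _) hci
  have hT1 : A * (v ^ 2) ≤ ε / 8 := by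
    calc A * (v ^ 2) = c⁻¹ * c⁻¹ ^ 2 * ((Kw : ℝ≥0∞) * (u / 2) ^ 2) := by rw [hA, hv]; ring
      _ ≤ c⁻¹ * c⁻¹ ^ 2 * ((Kw : ℝ≥0∞) * u ^ 2) := by
          gcongr
          exact ENNReal.half_le_self
      _ ≤ c⁻¹ * c⁻¹ ^ 2 * δ := mul_le_mul_right (hKu'.trans (min_le_left _ _)) _
      _ ≤ (2 * c⁻¹ + c⁻¹ * (c⁻¹ ^ 2)) * δ := mul_le_mul_left le_add_self _
      _ ≤ ε / 8 := hδ
  have hT2 : A * (2 * (1 - c * v) ^ J) ≤ ε / 8 := by
    calc A * (2 * (1 - c * v) ^ J) = 2 * c⁻¹ * ((Kw : ℝ≥0∞) * (1 - u / 2) ^ J) := by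
          rw [hA, hcv]; ring
      _ ≤ 2 * c⁻¹ * δ := mul_le_mul_right (hKp.trans (min_le_left _ _)) _
      _ ≤ (2 * c⁻¹ + c⁻¹ * (c⁻¹ ^ 2)) * δ := mul_le_mul_left le_self_add _
      _ ≤ ε / 8 := hδ
  obtain ⟨lam, hl0, hl1, hT3⟩ := exists_mul_le (A * (4 * C)) (ε / 8) (by finiteness) hε8
  have hlt : lam ≠ ⊤ := ne_top_of_le_ne_top ENNReal.one_ne_top hl1
  have hli : (lam ^ 2)⁻¹ ≠ ⊤ := ENNReal.inv_ne_top.2 (pow_ne_zero _ hl0)
  obtain ⟨s, _, hs⟩ := KU823.exists_small us hus (A * (4 * J * (lam ^ 2)⁻¹)) (by finiteness)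
    (ε / 8) hε8 1
  have hT4 := hs s le_rfl
  obtain ⟨p, hp0, hp1, hT5⟩ := exists_mul_le (A * s) (ε / 8) (by finiteness) hε8
  obtain ⟨k0, hk0⟩ := hPt p hp0
  obtain ⟨q1, _, hq1⟩ := KU823.exists_small (fun q => e1 Λ ht q) he1 (A * (2 * J) + A * 2)
    (by finiteness) (ε / 8) hε8 1
  set q0 : ℕ := k0 + s + q1 + Kw + 1 with hq0
  refine ⟨Kw * q0, fun m hm => ?_⟩
  set q : ℕ := m / Kw + 1 with hq
  have hKwpos : 0 < Kw := by omega
  have hqq0 : q0 < q := by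
    have : q0 ≤ m / Kw := (Nat.le_div_iff_mul_le hKwpos).2 (by rw [mul_comm]; exact hm)
    omega
  have hmq : m ≤ Kw * q := by
    have := Nat.lt_mul_div_succ m hKwpos
    exact this.le
  have hmq2 : Kw * q ≤ m + Kw := by
    have := Nat.mul_div_le m Kw
    rw [hq, mul_add, mul_one]; omega
  refine ⟨m + Kw * q, fun n hn w => ?_⟩
  obtain ⟨LX, LY, SX, SY, thX, thY, hX, hY, h2⟩ := hpiece v hv0 hvc (4 * q) (by omega)
  have hwin : ∀ j ∈ Finset.range Kw, Win Λ ht D cd n (m + j * q) q w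
      ≤ 2 * e1 Λ ht q + c⁻¹ * (s * p + (2 * (2 * C * lam + ((1 - c * v) ^ J
        + J * (2 * (us s / lam ^ 2) + e1 Λ ht (4 * q)))) + v ^ 2)) := by
    intro j hj
    have hj' := Finset.mem_range.1 hj
    have hjq : (j + 1) * q ≤ Kw * q := Nat.mul_le_mul_right _ hj'
    have hjq' : (j + 1) * q = j * q + q := by ring
    have hKq : Kw * q = 8 * J * q + 2 * q := by rw [hKw]; ring
    refine win_tot Λ ht D cd h1 hΛ hcd c hc hc' hU hU1 n (m + j * q) q (4 * q) s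
      (m + j * q - q - s) J w (by omega) (by omega) rfl (by omega) (c * v) C lam hcv1 hC hC' us
      hl0 hlt LX LY SX SY thX thY p (v ^ 2) hX hY ?_ ?_ h2
    · have : 2 * (4 * q) * J = 8 * J * q := by ring
      omega
    · intro w' k hk1 hk2
      exact hk0 k (by omega) (4 * q) hk2 w'
  refine (kap_le Λ ht D cd n m q Kw (by omega) hmq w).trans
    ((Finset.sum_le_sum hwin).trans ?_)
  rw [Finset.sum_const, Finset.card_range, nsmul_eq_mul]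
  have hci1 : 1 ≤ c⁻¹ := ENNReal.one_le_inv.2 hc1
  have hE1 := hq1 q (by omega)
  have hE2 := hq1 (4 * q) (by omega)
  have hK2 : (Kw : ℝ≥0∞) * (2 * e1 Λ ht q) ≤ (A * (2 * J) + A * 2) * e1 Λ ht q := by
    calc (Kw : ℝ≥0∞) * (2 * e1 Λ ht q) = (Kw : ℝ≥0∞) * 1 * 2 * e1 Λ ht q := by ring
      _ ≤ (Kw : ℝ≥0∞) * c⁻¹ * 2 * e1 Λ ht q := by gcongr
      _ ≤ (A * (2 * J) + A * 2) * e1 Λ ht q := by
          rw [← hA]; exact mul_le_mul_left le_add_self _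
  have hK3 : A * (2 * (J * e1 Λ ht (4 * q))) ≤ (A * (2 * J) + A * 2) * e1 Λ ht (4 * q) := by
    calc A * (2 * (J * e1 Λ ht (4 * q))) = A * (2 * J) * e1 Λ ht (4 * q) := by ring
      _ ≤ _ := mul_le_mul_left le_self_add _
  calc (Kw : ℝ≥0∞) * (2 * e1 Λ ht q + c⁻¹ * (s * p + (2 * (2 * C * lam + ((1 - c * v) ^ J
        + J * (2 * (us s / lam ^ 2) + e1 Λ ht (4 * q)))) + v ^ 2)))
      = (Kw : ℝ≥0∞) * (2 * e1 Λ ht q) + A * s * p + A * (4 * C) * lam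
        + A * (2 * (1 - c * v) ^ J) + A * (4 * J * (lam ^ 2)⁻¹) * us s
        + A * (2 * (J * e1 Λ ht (4 * q))) + A * (v ^ 2) := by
        rw [hA, div_eq_mul_inv]; ring
    _ ≤ ε / 8 + ε / 8 + ε / 8 + ε / 8 + ε / 8 + ε / 8 + ε / 8 :=
        add_le_add (add_le_add (add_le_add (add_le_add (add_le_add (add_le_add
          (hK2.trans hE1) hT5) hT3) hT2) hT4) (hK3.trans hE2)) hT1
    _ ≤ ε / 8 + ε / 8 + ε / 8 + ε / 8 + ε / 8 + ε / 8 + ε / 8 + ε / 8 := le_self_add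
    _ = 8 * (ε / 8) := by ring
    _ = ε := ENNReal.mul_div_cancel (by norm_num) (by norm_num)

end Crest.Agent.R154.J619
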