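import Crest.Agent.R154.B5First_181
import Crest.Agent.R154.FP_178

/-! Row 154 (helper407), ROAD 801 in joint cuts, part A: the density of the position at a joint cut. -/

set_option autoImplicit false

namespace Crest.Agent.R154.JAsm407

open scoped ENNReal
open Crest.Agent.R154.B5A Crest.Agent.R154.FP178

variable {B W : Type*} (Λ : B → ℝ≥0∞) (ht : B → ℕ) (dl : B → W → W) (cd : W → B → Set ℕ)

lemma fp_of_HT (h1 : ∀ b, 1 ≤ ht b) {h : ℕ} {L : List B} (hL : HT ht L = h) : fp ht h L := by
  induction L generalizing h with
  | nil => rw [HT_nil] at hL; rw [fp_nil]; exact hL.symm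
  | cons b L ih =>
    rw [HT_cons] at hL
    rw [fp_cons]
    have := h1 b
    exact ⟨by omega, ih (by omega)⟩

lemma act_inj (hinj : ∀ b, Function.Injective (dl b)) (L : List B) :
    Function.Injective (act dl L) := by
  induction L with
  | nil => intro a b h; simpa [act] using h
  | cons b L ih => intro x y h; exact hinj b (ih (by simpa [act] using h))

open Classical in
/-- law of the position at a joint cut of depth `N` -/
noncomputable def Lw (N : ℕ) (w w1 : W) : ℝ≥0∞ :=
  ∑' L : List B, if HT ht L = N ∧ act dl L w = w1 then LW Λ L else 0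

open Classical in
lemma Lw_mass (N : ℕ) (w : W) : ∑' w1, Lw Λ ht dl N w w1 = U Λ ht N := by
  unfold Lw U
  rw [ENNReal.tsum_comm]
  refine tsum_congr fun L => ?_
  rw [tsum_eq_single (act dl L w)]
  · by_cases h : HT ht L = N <;> simp [h]
  · intro w1 hw; rw [if_neg]; rintro ⟨_, h⟩; exact hw h.symm

open Classical in
lemma Lw_split (h1 : ∀ b, 1 ≤ ht b) (h N : ℕ) (hN : h ≤ N) (w w1 : W) :
    Lw Λ ht dl N w w1 = ∑' F : List B, (if fp ht h F then LW Λ F *
      (if HT ht F ≤ N then Lw Λ ht dl (N - HT ht F) (act dl F w) w1 else 0) else 0) := by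
  have hs := split Λ ht h1 h (fun L => if HT ht L = N ∧ act dl L w = w1 then 1 else 0)
  have e : Lw Λ ht dl N w w1 = ∑' L, (if h ≤ HT ht L then
      LW Λ L * (if HT ht L = N ∧ act dl L w = w1 then 1 else 0) else 0) := by
    unfold Lw
    refine tsum_congr fun L => ?_
    by_cases hL : HT ht L = N ∧ act dl L w = w1
    · rw [if_pos hL, if_pos hL, if_pos (by omega), mul_one]
    · rw [if_neg hL, if_neg hL, mul_zero]; split_ifs <;> rfl
  rw [e, hs]
  refine tsum_congr fun F => ?_
  by_cases hF : fp ht h F
  · rw [if_pos hF, if_pos hF]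
    congr 1
    by_cases hle : HT ht F ≤ N
    · rw [if_pos hle]; unfold Lw
      refine tsum_congr fun R => ?_
      rw [HT_append, act_append]
      by_cases hc : HT ht R = N - HT ht F ∧ act dl R (act dl F w) = w1
      · rw [if_pos hc, if_pos ⟨by omega, hc.2⟩, mul_one]
      · rw [if_neg hc, if_neg (by rintro ⟨a, b⟩; exact hc ⟨by omega, b⟩), mul_zero]
    · rw [if_neg hle, ENNReal.tsum_eq_zero]
      intro R
      rw [HT_append, if_neg (by rintro ⟨a, _⟩; omega), mul_zero]
  · rw [if_neg hF, if_neg hF]

open Classical in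
theorem dens_list (h1 : ∀ b, 1 ≤ ht b) (hΛ : ∑' b, Λ b ≤ 1) (hU1 : ∀ n, U Λ ht n ≤ 1)
    (hinj : ∀ b, Function.Injective (dl b)) (h i1 : ℕ) (lo : List B → Prop) (τ q ε : ℝ≥0∞)
    (hlo : ∀ w0 w1, ∑' L : List B,
      (if HT ht L = h ∧ lo L ∧ act dl L w0 = w1 then LW Λ L else 0) ≤ τ)
    (hq : q ≤ ∑' L : List B, (if HT ht L = h ∧ lo L then LW Λ L else 0))
    (hε : ∑' L : List B, (if fp ht h L ∧ h + i1 < HT ht L then LW Λ L else 0) ≤ ε) (J : ℕ) :
    ∀ N, J * (h + i1) ≤ N → ∀ w, ∃ g b : W → ℝ≥0∞,
      (∀ w1, Lw Λ ht dl N w w1 = g w1 + b w1) ∧ (∀ w1, g w1 ≤ J * τ) ∧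
      ∑' w1, b w1 ≤ (1 - q) ^ J + J * ε := by
  induction J with
  | zero =>
    intro N _ w
    refine ⟨fun _ => 0, Lw Λ ht dl N w, fun w1 => by simp, fun w1 => by simp, ?_⟩
    rw [Lw_mass]; simpa using hU1 N
  | succ J ih =>
    intro N hN w
    have hexp : (J + 1) * (h + i1) = J * (h + i1) + (h + i1) := by ring
    have hhN : h + i1 ≤ N := by
      have := Nat.zero_le (J * (h + i1)); omega
    have ih' : ∀ F : List B, HT ht F ≤ h + i1 → ∃ g b : W → ℝ≥0∞,
        (∀ w1, Lw Λ ht dl (N - HT ht F) (act dl F w) w1 = g w1 + b w1) ∧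
        (∀ w1, g w1 ≤ J * τ) ∧ ∑' w1, b w1 ≤ (1 - q) ^ J + J * ε :=
      fun F hF => ih (N - HT ht F) (by omega) (act dl F w)
    choose! gF bF hgb hg hb using ih'
    set g : W → ℝ≥0∞ := fun w1 => ∑' F, (if fp ht h F then LW Λ F *
      (if HT ht F = h ∧ lo F then Lw Λ ht dl (N - HT ht F) (act dl F w) w1
        else if h + i1 < HT ht F then 0 else gF F w1) else 0) with hgdef
    set b : W → ℝ≥0∞ := fun w1 => ∑' F, (if fp ht h F then LW Λ F *
      (if HT ht F = h ∧ lo F then 0
        else if h + i1 < HT ht F then (if HT ht F ≤ N then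
          Lw Λ ht dl (N - HT ht F) (act dl F w) w1 else 0) else bF F w1) else 0) with hbdef
    have hmiss : ∑' F : List B, (if fp ht h F ∧ ¬ (HT ht F = h ∧ lo F) then LW Λ F else 0)
        ≤ 1 - q := by
      have hsum : ∑' F : List B, (if HT ht F = h ∧ lo F then LW Λ F else 0) +
          ∑' F : List B, (if fp ht h F ∧ ¬ (HT ht F = h ∧ lo F) then LW Λ F else 0) ≤ 1 := by
        rw [← ENNReal.tsum_add]
        refine (ENNReal.tsum_le_tsum fun F => ?_).trans (sum_FP Λ ht h1 hΛ h)
        by_cases hF : HT ht F = h ∧ lo F
        · rw [if_pos hF, if_neg (fun hh => hh.2 hF), if_pos (fp_of_HT ht h1 hF.1), add_zero]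
        · rw [if_neg hF, zero_add]
          by_cases hf : fp ht h F
          · rw [if_pos ⟨hf, hF⟩, if_pos hf]
          · rw [if_neg (fun hh => hf hh.1)]; exact zero_le
      have h2 : q + ∑' F : List B, (if fp ht h F ∧ ¬ (HT ht F = h ∧ lo F) then LW Λ F else 0)
          ≤ 1 := (add_le_add_left hq _).trans hsum
      have hq1 : q ≠ ⊤ := ne_top_of_le_ne_top ENNReal.one_ne_top (le_self_add.trans h2)
      exact ENNReal.le_sub_of_add_le_left hq1 h2
    refine ⟨g, b, ?_, ?_, ?_⟩
    · intro w1
      rw [Lw_split Λ ht dl h1 h N (by omega) w w1, hgdef, hbdef]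
      simp only
      rw [← ENNReal.tsum_add]
      refine tsum_congr fun F => ?_
      by_cases hf : fp ht h F
      · rw [if_pos hf, if_pos hf, if_pos hf, ← mul_add]
        congr 1
        by_cases hh : HT ht F = h ∧ lo F
        · rw [if_pos hh, if_pos hh, add_zero, if_pos (by omega)]
        · rw [if_neg hh, if_neg hh]
          by_cases hfar : h + i1 < HT ht F
          · rw [if_pos hfar, if_pos hfar, zero_add]
          · rw [if_neg hfar, if_neg hfar, if_pos (by omega)]
            exact hgb F (by omega) w1
      · rw [if_neg hf, if_neg hf, if_neg hf, add_zero]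
    · intro w1
      have hA : ∑' F : List B, (if HT ht F = h ∧ lo F then
          LW Λ F * Lw Λ ht dl (N - h) (act dl F w) w1 else 0) ≤ τ := by
        have e : ∀ F : List B, (if HT ht F = h ∧ lo F then
            LW Λ F * Lw Λ ht dl (N - h) (act dl F w) w1 else 0)
            = ∑' R : List B, (if HT ht R = N - h then LW Λ R *
              (if HT ht F = h ∧ lo F ∧ act dl R (act dl F w) = w1 then LW Λ F else 0) else 0) := by
          intro F
          by_cases hF : HT ht F = h ∧ lo F
          · rw [if_pos hF, Lw, ← ENNReal.tsum_mul_left]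
            refine tsum_congr fun R => ?_
            by_cases hR : HT ht R = N - h
            · by_cases ha : act dl R (act dl F w) = w1
              · rw [if_pos ⟨hR, ha⟩, if_pos hR, if_pos ⟨hF.1, hF.2, ha⟩, mul_comm]
              · rw [if_neg (fun hh => ha hh.2), if_pos hR, if_neg (fun hh => ha hh.2.2),
                  mul_zero, mul_zero]
            · rw [if_neg (fun hh => hR hh.1), if_neg hR, mul_zero]
          · rw [if_neg hF]
            symm
            rw [ENNReal.tsum_eq_zero]
            intro R
            by_cases hR : HT ht R = N - h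
            · rw [if_pos hR, if_neg (fun hh => hF ⟨hh.1, hh.2.1⟩), mul_zero]
            · rw [if_neg hR]
        rw [tsum_congr e, ENNReal.tsum_comm]
        calc ∑' R : List B, ∑' F : List B, (if HT ht R = N - h then LW Λ R *
              (if HT ht F = h ∧ lo F ∧ act dl R (act dl F w) = w1 then LW Λ F else 0) else 0)
            ≤ ∑' R : List B, (if HT ht R = N - h then LW Λ R else 0) * τ := by
              refine ENNReal.tsum_le_tsum fun R => ?_
              by_cases hR : HT ht R = N - h
              · simp only [if_pos hR]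
                rw [ENNReal.tsum_mul_left]
                refine mul_le_mul_right ?_ _
                by_cases hex : ∃ w', act dl R w' = w1
                · obtain ⟨w', hw'⟩ := hex
                  refine (ENNReal.tsum_le_tsum fun F => ?_).trans (hlo w w')
                  by_cases hc : HT ht F = h ∧ lo F ∧ act dl R (act dl F w) = w1
                  · rw [if_pos hc, if_pos ⟨hc.1, hc.2.1,
                      act_inj dl hinj R (hc.2.2.trans hw'.symm)⟩]
                  · rw [if_neg hc]; exact zero_le
                · rw [ENNReal.tsum_eq_zero.2]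
                  · exact zero_le
                  · intro F
                    rw [if_neg (fun hh => hex ⟨_, hh.2.2⟩)]
              · simp [if_neg hR]
          _ = U Λ ht (N - h) * τ := by rw [ENNReal.tsum_mul_right, U]
          _ ≤ 1 * τ := mul_le_mul_left (hU1 _) _
          _ = τ := one_mul _
      have hB : ∑' F : List B, (if fp ht h F ∧ ¬ (HT ht F = h ∧ lo F) then LW Λ F * (J * τ) else 0)
          ≤ J * τ := by
        have : ∀ F : List B, (if fp ht h F ∧ ¬ (HT ht F = h ∧ lo F) then LW Λ F * (J * τ) else 0)
            = (if fp ht h F ∧ ¬ (HT ht F = h ∧ lo F) then LW Λ F else 0) * (J * τ) := by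
          intro F; split_ifs <;> simp
        rw [tsum_congr this, ENNReal.tsum_mul_right]
        calc _ ≤ (1 - q) * (J * τ) := mul_le_mul_left hmiss _
          _ ≤ 1 * (J * τ) := mul_le_mul_left tsub_le_self _
          _ = _ := one_mul _
      calc g w1 ≤ ∑' F : List B, ((if HT ht F = h ∧ lo F then
            LW Λ F * Lw Λ ht dl (N - h) (act dl F w) w1 else 0) +
            (if fp ht h F ∧ ¬ (HT ht F = h ∧ lo F) then LW Λ F * (J * τ) else 0)) := by
            rw [hgdef]
            refine ENNReal.tsum_le_tsum fun F => ?_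
            by_cases hf : fp ht h F
            · rw [if_pos hf]
              by_cases hh : HT ht F = h ∧ lo F
              · rw [if_pos hh, if_pos hh, if_neg (fun x => x.2 hh), add_zero, hh.1]
              · have hfh : fp ht h F ∧ ¬ (HT ht F = h ∧ lo F) := ⟨hf, hh⟩
                rw [if_neg hh, if_neg hh, zero_add, if_pos hfh]
                by_cases hfar : h + i1 < HT ht F
                · rw [if_pos hfar, mul_zero]; exact zero_le
                · rw [if_neg hfar]
                  exact mul_le_mul_right (hg F (by omega) w1) _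
            · rw [if_neg hf]; exact zero_le
        _ ≤ τ + J * τ := by rw [ENNReal.tsum_add]; exact add_le_add hA hB
        _ = ((J + 1 : ℕ) : ℝ≥0∞) * τ := by push_cast; ring
    · have e : ∑' w1, b w1 = ∑' F : List B, (if fp ht h F then LW Λ F * (∑' w1,
          (if HT ht F = h ∧ lo F then 0
            else if h + i1 < HT ht F then (if HT ht F ≤ N then
            Lw Λ ht dl (N - HT ht F) (act dl F w) w1 else 0) else bF F w1)) else 0) := by
        rw [hbdef, ENNReal.tsum_comm]
        refine tsum_congr fun F => ?_
        by_cases hf : fp ht h F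
        · simp only [if_pos hf]
          rw [ENNReal.tsum_mul_left]
        · simp [if_neg hf]
      have hX : ∑' F : List B, (if fp ht h F ∧ ¬ (HT ht F = h ∧ lo F) then
          LW Λ F * ((1 - q) ^ J + J * ε) else 0) ≤ (1 - q) ^ (J + 1) + J * ε := by
        have : ∀ F : List B, (if fp ht h F ∧ ¬ (HT ht F = h ∧ lo F) then
            LW Λ F * ((1 - q) ^ J + J * ε) else 0)
            = (if fp ht h F ∧ ¬ (HT ht F = h ∧ lo F) then LW Λ F else 0)
              * ((1 - q) ^ J + J * ε) := by
          intro F; split_ifs <;> simp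
        rw [tsum_congr this, ENNReal.tsum_mul_right]
        calc _ ≤ (1 - q) * ((1 - q) ^ J + J * ε) := mul_le_mul_left hmiss _
          _ = (1 - q) ^ (J + 1) + (1 - q) * (J * ε) := by ring
          _ ≤ (1 - q) ^ (J + 1) + 1 * (J * ε) :=
              add_le_add_right (mul_le_mul_left tsub_le_self _) _
          _ = _ := by rw [one_mul]
      calc ∑' w1, b w1 ≤ ∑' F : List B, ((if fp ht h F ∧ h + i1 < HT ht F then LW Λ F else 0) +
            (if fp ht h F ∧ ¬ (HT ht F = h ∧ lo F) then
              LW Λ F * ((1 - q) ^ J + J * ε) else 0)) := by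
            rw [e]
            refine ENNReal.tsum_le_tsum fun F => ?_
            by_cases hf : fp ht h F
            · rw [if_pos hf]
              by_cases hh : HT ht F = h ∧ lo F
              · simp [if_pos hh]
              · simp only [if_neg hh]
                by_cases hfar : h + i1 < HT ht F
                · simp only [if_pos hfar, if_pos (⟨hf, hfar⟩ : fp ht h F ∧ h + i1 < HT ht F)]
                  refine le_trans ?_ le_self_add
                  by_cases hle : HT ht F ≤ N
                  · simp only [if_pos hle]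
                    rw [Lw_mass]
                    calc _ ≤ LW Λ F * 1 := mul_le_mul_right (hU1 _) _
                      _ = _ := mul_one _
                  · simp [if_neg hle]
                · simp only [if_neg hfar]
                  rw [if_pos (⟨hf, hh⟩ : fp ht h F ∧ ¬ (HT ht F = h ∧ lo F))]
                  refine le_trans ?_ le_add_self
                  exact mul_le_mul_right (hb F (by omega)) _
            · rw [if_neg hf]; exact zero_le
        _ ≤ ε + ((1 - q) ^ (J + 1) + J * ε) := by
            rw [ENNReal.tsum_add]; exact add_le_add hε hX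
        _ = (1 - q) ^ (J + 1) + ((J + 1 : ℕ) : ℝ≥0∞) * ε := by push_cast; ring

end Crest.Agent.R154.JAsm407
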