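import Crest.Agent.R154.B5Rec_566

/-! Row 154 (helper425): joint-cut assembly, part A: first passage lists. -/

set_option autoImplicit false

namespace Crest.Agent.R154.JA425

open scoped ENNReal
open Crest.Agent.R154.B5A

variable {B : Type*} (Λ : B → ℝ≥0∞) (ht : B → ℕ)

/-- first passage list of height `N` -/
def inFP : ℕ → List B → Prop
  | N, [] => N = 0
  | N, b :: L => N ≠ 0 ∧ inFP (N - ht b) L

open Classical in
/-- weighted sum over the first passage lists of `N` -/
noncomputable def fps (N : ℕ) (F : List B → ℝ≥0∞) : ℝ≥0∞ :=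
  ∑' L : List B, if inFP ht N L then LW Λ L * F L else 0

lemma fps_zero (F : List B → ℝ≥0∞) : fps Λ ht 0 F = F [] := by
  rw [fps, tsum_list]
  simp [inFP, LW_nil]

lemma fps_succ {N : ℕ} (hN : N ≠ 0) (F : List B → ℝ≥0∞) :
    fps Λ ht N F = ∑' b, Λ b * fps Λ ht (N - ht b) (fun L => F (b :: L)) := by
  rw [fps, tsum_list, if_neg (show ¬ inFP ht N [] from hN), zero_add]
  refine tsum_congr fun b => ?_
  rw [fps, ← ENNReal.tsum_mul_left]
  refine tsum_congr fun L => ?_
  by_cases h : inFP ht (N - ht b) L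
  · rw [if_pos ⟨hN, h⟩, if_pos h, LW_cons, mul_assoc]
  · rw [if_neg (fun h' => h h'.2), if_neg h, mul_zero]

lemma fps_mono (N : ℕ) {F F' : List B → ℝ≥0∞} (h : ∀ L, inFP ht N L → F L ≤ F' L) :
    fps Λ ht N F ≤ fps Λ ht N F' := by
  refine ENNReal.tsum_le_tsum fun L => ?_
  by_cases hL : inFP ht N L
  · rw [if_pos hL, if_pos hL]; exact mul_le_mul_right (h L hL) _
  · rw [if_neg hL, if_neg hL]

lemma fps_add (N : ℕ) (F F' : List B → ℝ≥0∞) :
    fps Λ ht N (fun L => F L + F' L) = fps Λ ht N F + fps Λ ht N F' := by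
  rw [fps, fps, fps, ← ENNReal.tsum_add]
  refine tsum_congr fun L => ?_
  by_cases hL : inFP ht N L
  · simp [hL, mul_add]
  · simp [hL]

lemma fps_mul (N : ℕ) (a : ℝ≥0∞) (F : List B → ℝ≥0∞) :
    fps Λ ht N (fun L => a * F L) = a * fps Λ ht N F := by
  rw [fps, fps, ← ENNReal.tsum_mul_left]
  refine tsum_congr fun L => ?_
  by_cases hL : inFP ht N L
  · simp [hL, mul_left_comm]
  · simp [hL]

lemma fps_mass (h1 : ∀ b, 1 ≤ ht b) (hΛ : ∑' b, Λ b ≤ 1) (N : ℕ) :
    fps Λ ht N (fun _ => 1) ≤ 1 := by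
  induction N using Nat.strong_induction_on with
  | _ N ih =>
    by_cases hN : N = 0
    · subst hN; rw [fps_zero]
    · rw [fps_succ Λ ht hN]
      refine le_trans (ENNReal.tsum_le_tsum fun b => ?_) hΛ
      calc Λ b * fps Λ ht (N - ht b) (fun _ => 1) ≤ Λ b * 1 :=
            mul_le_mul_right (ih _ (by have := h1 b; omega)) _
        _ = Λ b := mul_one _

lemma fps_const (h1 : ∀ b, 1 ≤ ht b) (hΛ : ∑' b, Λ b ≤ 1) (N : ℕ) (a : ℝ≥0∞) :
    fps Λ ht N (fun _ => a) ≤ a := by
  have := fps_mul Λ ht N a (fun _ => 1)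
  simp only [mul_one] at this
  rw [this]
  calc a * fps Λ ht N (fun _ => 1) ≤ a * 1 := mul_le_mul_right (fps_mass Λ ht h1 hΛ N) _
    _ = a := mul_one _

lemma fps_split (h1 : ∀ b, 1 ≤ ht b) (a N : ℕ) (ha : a ≤ N) (F : List B → ℝ≥0∞) :
    fps Λ ht N F = fps Λ ht a (fun P => fps Λ ht (N - HT ht P) (fun L => F (P ++ L))) := by
  induction a using Nat.strong_induction_on generalizing N F with
  | _ a ih =>
    by_cases h0 : a = 0
    · subst h0
      rw [fps_zero]
      simp [HT_nil]
    · have hN : N ≠ 0 := by omega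
      rw [fps_succ Λ ht hN, fps_succ Λ ht h0]
      refine tsum_congr fun b => ?_
      congr 1
      by_cases hb : ht b ≤ a
      · rw [ih (a - ht b) (by have := h1 b; omega) (N - ht b) (by omega)]
        congr 1
        funext P
        rw [HT_cons, Nat.sub_sub]
        rfl
      · have e : a - ht b = 0 := by omega
        rw [e, fps_zero]
        simp only [HT_cons, HT_nil, add_zero]
        rfl

lemma exists_FP (N : ℕ) (L : List B) (h : N ≤ HT ht L) :
    ∃ L1 L2, L = L1 ++ L2 ∧ inFP ht N L1 := by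
  induction L generalizing N with
  | nil =>
    rw [HT_nil] at h
    exact ⟨[], [], rfl, by simp only [inFP]; omega⟩
  | cons b L ih =>
    by_cases h0 : N = 0
    · exact ⟨[], b :: L, rfl, h0⟩
    · rw [HT_cons] at h
      obtain ⟨L1, L2, e, hF⟩ := ih (N - ht b) (by omega)
      exact ⟨b :: L1, L2, by rw [e]; rfl, h0, hF⟩

lemma HT_ge_of_inFP (N : ℕ) (L : List B) (h : inFP ht N L) : N ≤ HT ht L := by
  induction L generalizing N with
  | nil => simp only [inFP] at h; omega
  | cons b L ih =>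
    have := ih _ h.2
    rw [HT_cons]; omega

lemma inFP_of_HT (h1 : ∀ b, 1 ≤ ht b) (N : ℕ) (L : List B) (h : HT ht L = N) : inFP ht N L := by
  induction L generalizing N with
  | nil => rw [HT_nil] at h; exact h.symm
  | cons b L ih =>
    rw [HT_cons] at h
    have := h1 b
    exact ⟨by omega, ih _ (by omega)⟩

/-! ### piece: last cut below `T`, then the straddling block -/

lemma exists_piece (T : ℕ) (L : List B) (h : T < HT ht L) :
    ∃ P b R, L = P ++ b :: R ∧ HT ht P ≤ T ∧ T < HT ht P + ht b := by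
  induction L generalizing T with
  | nil => rw [HT_nil] at h; omega
  | cons a L ih =>
    rw [HT_cons] at h
    by_cases ha : ht a ≤ T
    · obtain ⟨P, b, R, e, h1, h2⟩ := ih (T - ht a) (by omega)
      refine ⟨a :: P, b, R, by rw [e]; rfl, ?_, ?_⟩
      · rw [HT_cons]; omega
      · rw [HT_cons]; omega
    · exact ⟨[], a, L, rfl, by rw [HT_nil]; omega, by rw [HT_nil]; omega⟩

/-- covering: a sum over lists is at most the sum over the decompositions. -/
lemma tsum_cover {ι : Type*} (f : List B → ℝ≥0∞) (c : ι → List B)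
    (hc : ∀ L, f L ≠ 0 → ∃ i, c i = L) : ∑' L, f L ≤ ∑' i, f (c i) := by
  classical
  choose g hg using hc
  calc ∑' L, f L = ∑' L : {L // f L ≠ 0}, f L.1 := by
        rw [← tsum_subtype_eq_of_support_subset (s := {L | f L ≠ 0})]
        · rfl
        · intro L hL; exact hL
    _ = ∑' L : {L // f L ≠ 0}, f (c (g L.1 L.2)) := by
        refine tsum_congr fun L => ?_
        rw [hg]
    _ ≤ ∑' i, f (c i) := by
        refine ENNReal.tsum_comp_le_tsum_of_injective (f := fun L : {L // f L ≠ 0} => g L.1 L.2)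
          ?_ (fun i => f (c i))
        intro L L' h
        have h2 : c (g L.1 L.2) = c (g L'.1 L'.2) := congrArg c h
        rw [hg, hg] at h2
        exact Subtype.ext h2

end Crest.Agent.R154.JA425
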