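import Crest.Agent.R154.JAsmA_407

/-! Row 154 (helper407), ROAD 801 in joint cuts, part B: one window. -/

set_option autoImplicit false

namespace Crest.Agent.R154.JAsm407

open scoped ENNReal
open Crest.Agent.R154.B5A Crest.Agent.R154.FP178

variable {B W : Type*} (Λ : B → ℝ≥0∞) (ht : B → ℕ) (dl : B → W → W) (cd : W → B → Set ℕ)

/-- a contact, and every contact is `s`-deep from both ends -/
def Deep (s : ℕ) (L : List B) (w : W) : Prop :=
  (∃ k, k ∈ CD ht dl cd L w) ∧ ∀ k ∈ CD ht dl cd L w, s ≤ k ∧ k + s ≤ HT ht L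

lemma exists_strad (L : List B) (A : ℕ) (hA : 1 ≤ A) (hL : A ≤ HT ht L) :
    ∃ L1 b L2, L = L1 ++ b :: L2 ∧ HT ht L1 < A ∧ A ≤ HT ht L1 + ht b := by
  induction L generalizing A with
  | nil => rw [HT_nil] at hL; omega
  | cons b L ih =>
    rw [HT_cons] at hL
    by_cases h : A ≤ ht b
    · exact ⟨[], b, L, rfl, by rw [HT_nil]; omega, by rw [HT_nil]; omega⟩
    · obtain ⟨L1, b', L2, e, h1, h2⟩ := ih (A - ht b) (by omega) (by omega)
      refine ⟨b :: L1, b', L2, by rw [e]; rfl, ?_, ?_⟩ <;> rw [HT_cons] <;> omega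

open Classical in
lemma sum_ex {T : Type*} (f : T → List B) (cond : T → Prop) (G : List B → ℝ≥0∞) :
    ∑' L, (if ∃ t, f t = L ∧ cond t then G L else 0) ≤ ∑' t, (if cond t then G (f t) else 0) := by
  calc ∑' L, (if ∃ t, f t = L ∧ cond t then G L else 0)
      ≤ ∑' L, ∑' t, (if f t = L ∧ cond t then G L else 0) := by
        refine ENNReal.tsum_le_tsum fun L => ?_
        by_cases h : ∃ t, f t = L ∧ cond t
        · rw [if_pos h]
          obtain ⟨t, ht'⟩ := h
          refine le_trans ?_ (ENNReal.le_tsum t)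
          rw [if_pos ht']
        · rw [if_neg h]; exact zero_le
    _ = _ := by
        rw [ENNReal.tsum_comm]
        refine tsum_congr fun t => ?_
        by_cases hc : cond t
        · rw [tsum_eq_single (f t)]
          · rw [if_pos ⟨rfl, hc⟩, if_pos hc]
          · intro L hL; rw [if_neg (fun hh => hL hh.1.symm)]
        · rw [if_neg hc, ENNReal.tsum_eq_zero]
          intro L; rw [if_neg (fun hh => hc hh.2)]

open Classical in
lemma card_strad (A k : ℕ) : ∑' N : ℕ, (if N < A ∧ A ≤ N + k then (1 : ℝ≥0∞) else 0) ≤ k := by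
  have : ∀ N : ℕ, (if N < A ∧ A ≤ N + k then (1 : ℝ≥0∞) else 0)
      = if N ∈ Finset.Ico (A - k) A then 1 else 0 := by
    intro N
    have : (N < A ∧ A ≤ N + k) ↔ N ∈ Finset.Ico (A - k) A := by rw [Finset.mem_Ico]; omega
    simp only [this]
  rw [tsum_congr this, tsum_eq_sum (s := Finset.Ico (A - k) A) (fun N hN => by rw [if_neg hN]),
    Finset.sum_congr rfl (fun N hN => if_pos hN)]
  simp only [Finset.sum_const, Nat.card_Ico, nsmul_eq_mul, mul_one]
  exact_mod_cast (by omega : A - (A - k) ≤ k)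

open Classical in
lemma tsum_by_height (F : List B → ℝ≥0∞) :
    ∑' L, F L = ∑' N : ℕ, ∑' L, (if HT ht L = N then F L else 0) := by
  rw [ENNReal.tsum_comm]
  refine tsum_congr fun L => ?_
  rw [tsum_eq_single (HT ht L)]
  · rw [if_pos rfl]
  · intro N hN; rw [if_neg (fun h => hN h.symm)]

open Classical in
lemma strad_sum (hU1 : ∀ n, U Λ ht n ≤ 1) (A k : ℕ) :
    ∑' L1 : List B, (if HT ht L1 < A ∧ A ≤ HT ht L1 + k then LW Λ L1 else 0) ≤ k := by
  rw [tsum_by_height ht]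
  refine le_trans (ENNReal.tsum_le_tsum fun N => ?_) (card_strad A k)
  by_cases h : N < A ∧ A ≤ N + k
  · rw [if_pos h]
    refine le_trans (ENNReal.tsum_le_tsum fun L => ?_) (hU1 N)
    by_cases hL : HT ht L = N
    · rw [if_pos hL, if_pos hL]; split_ifs
      · exact le_rfl
      · exact zero_le
    · rw [if_neg hL]; exact zero_le
  · rw [if_neg h, le_zero_iff, ENNReal.tsum_eq_zero]
    intro L
    by_cases hL : HT ht L = N
    · rw [if_pos hL, if_neg (by rw [hL]; exact h)]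
    · rw [if_neg hL]

open Classical in
/-- tall straddling block -/
lemma S1_le (hU1 : ∀ n, U Λ ht n ≤ 1) (A n i0 : ℕ) :
    ∑' t : List B × B × List B, (if HT ht t.1 < A ∧ A ≤ HT ht t.1 + ht t.2.1 ∧ i0 < ht t.2.1 ∧
        HT ht t.1 + ht t.2.1 + HT ht t.2.2 = n
        then LW Λ (t.1 ++ t.2.1 :: t.2.2) else 0)
      ≤ ∑' b, (if i0 < ht b then Λ b * (ht b : ℝ≥0∞) else 0) := by
  rw [ENNReal.tsum_prod']
  simp only [ENNReal.tsum_prod']
  rw [ENNReal.tsum_comm]
  refine ENNReal.tsum_le_tsum fun b => ?_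
  by_cases hb : i0 < ht b
  · rw [if_pos hb]
    calc ∑' L1 : List B, ∑' L2 : List B, (if HT ht L1 < A ∧ A ≤ HT ht L1 + ht b ∧ i0 < ht b ∧
          HT ht L1 + ht b + HT ht L2 = n then LW Λ (L1 ++ b :: L2) else 0)
        ≤ ∑' L1 : List B, (if HT ht L1 < A ∧ A ≤ HT ht L1 + ht b then LW Λ L1 else 0) * Λ b := by
          refine ENNReal.tsum_le_tsum fun L1 => ?_
          by_cases hc : HT ht L1 < A ∧ A ≤ HT ht L1 + ht b
          · rw [if_pos hc]
            calc _ ≤ ∑' L2 : List B, (LW Λ L1 * Λ b) *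
                  (if HT ht L2 = n - (HT ht L1 + ht b) then LW Λ L2 else 0) := by
                  refine ENNReal.tsum_le_tsum fun L2 => ?_
                  by_cases hh : HT ht L1 < A ∧ A ≤ HT ht L1 + ht b ∧ i0 < ht b ∧
                      HT ht L1 + ht b + HT ht L2 = n
                  · rw [if_pos hh, if_pos (by omega), LW_append, LW_cons, mul_assoc]
                  · rw [if_neg hh]; exact zero_le
              _ = (LW Λ L1 * Λ b) * U Λ ht (n - (HT ht L1 + ht b)) := by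
                  rw [ENNReal.tsum_mul_left, U]
              _ ≤ (LW Λ L1 * Λ b) * 1 := mul_le_mul_right (hU1 _) _
              _ = _ := mul_one _
          · rw [if_neg hc, zero_mul, le_zero_iff, ENNReal.tsum_eq_zero]
            intro L2
            rw [if_neg (fun hh => hc ⟨hh.1, hh.2.1⟩)]
      _ ≤ (ht b : ℝ≥0∞) * Λ b := by
          rw [ENNReal.tsum_mul_right]; exact mul_le_mul_left (strad_sum Λ ht hU1 A (ht b)) _
      _ = _ := mul_comm _ _
  · rw [if_neg hb, le_zero_iff, ENNReal.tsum_eq_zero]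
    intro L1
    rw [ENNReal.tsum_eq_zero]
    intro L2
    rw [if_neg (fun hh => hb hh.2.2.1)]

/-- the pair position sum -/
noncomputable def Zs (s N h : ℕ) (b : B) (w : W) : ℝ≥0∞ := by
  classical
  exact ∑' L1 : List B, ∑' L2 : List B, (if HT ht L1 = N ∧ HT ht L2 = h ∧
    Deep ht dl cd s L2 (dl b (act dl L1 w)) then LW Λ L1 * LW Λ L2 else 0)

open Classical in
/-- **one piece**: non-local term, X-local, Y-local. -/
lemma Z_le (hU1 : ∀ n, U Λ ht n ≤ 1) (hinj : ∀ b, Function.Injective (dl b))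
    (s N h : ℕ) (b0 : B) (w : W) (LX LY : List B → Prop) (η ζ β MX MY : ℝ≥0∞)
    (hNL : ∑' L : List B, (if HT ht L = h ∧ ¬ LX L ∧ ¬ LY L then LW Λ L else 0) ≤ η)
    (hX : ∀ ν : W → ℝ≥0∞, ∑' w, ν w ≤ 1 → (∀ w, ν w ≤ MX) → ∑' w, ν w * ∑' L : List B,
      (if HT ht L = h ∧ LX L ∧ Deep ht dl cd s L w then LW Λ L else 0) ≤ ζ)
    (hY : ∀ ν : W → ℝ≥0∞, ∑' w, ν w ≤ 1 → (∀ w, ν w ≤ MY) → ∑' w, ν w * ∑' L : List B,
      (if HT ht L = h ∧ LY L ∧ Deep ht dl cd s L w then LW Λ L else 0) ≤ ζ)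
    (hgX : ∃ g b : W → ℝ≥0∞, (∀ w1, Lw Λ ht dl N w w1 = g w1 + b w1) ∧ (∀ w1, g w1 ≤ MX) ∧
      ∑' w1, b w1 ≤ β)
    (hgY : ∃ g b : W → ℝ≥0∞, (∀ w1, Lw Λ ht dl N w w1 = g w1 + b w1) ∧ (∀ w1, g w1 ≤ MY) ∧
      ∑' w1, b w1 ≤ β) :
    Zs Λ ht dl cd s N h b0 w ≤ η + 2 * (ζ + β) := by
  -- local piece
  have key : ∀ (LZ : List B → Prop) (M : ℝ≥0∞),
      (∀ ν : W → ℝ≥0∞, ∑' w, ν w ≤ 1 → (∀ w, ν w ≤ M) → ∑' w, ν w * ∑' L : List B,
        (if HT ht L = h ∧ LZ L ∧ Deep ht dl cd s L w then LW Λ L else 0) ≤ ζ) →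
      (∃ g b : W → ℝ≥0∞, (∀ w1, Lw Λ ht dl N w w1 = g w1 + b w1) ∧ (∀ w1, g w1 ≤ M) ∧
        ∑' w1, b w1 ≤ β) →
      ∑' L1 : List B, ∑' L2 : List B, (if HT ht L1 = N ∧ HT ht L2 = h ∧ LZ L2 ∧
        Deep ht dl cd s L2 (dl b0 (act dl L1 w)) then LW Λ L1 * LW Λ L2 else 0) ≤ ζ + β := by
    intro LZ M hZ ⟨g, b, hgb, hg, hb⟩
    set Ψ : W → ℝ≥0∞ := fun w2 => ∑' L : List B,
      (if HT ht L = h ∧ LZ L ∧ Deep ht dl cd s L w2 then LW Λ L else 0) with hΨ
    have hΨ1 : ∀ w2, Ψ w2 ≤ 1 := by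
      intro w2
      refine le_trans (ENNReal.tsum_le_tsum fun L => ?_) (hU1 h)
      by_cases hL : HT ht L = h ∧ LZ L ∧ Deep ht dl cd s L w2
      · rw [if_pos hL, if_pos hL.1]
      · rw [if_neg hL]; exact zero_le
    have e1 : ∑' L1 : List B, ∑' L2 : List B, (if HT ht L1 = N ∧ HT ht L2 = h ∧ LZ L2 ∧
        Deep ht dl cd s L2 (dl b0 (act dl L1 w)) then LW Λ L1 * LW Λ L2 else 0)
        = ∑' w1, Lw Λ ht dl N w w1 * Ψ (dl b0 w1) := by
      have e2 : ∀ L1 : List B, ∑' L2 : List B, (if HT ht L1 = N ∧ HT ht L2 = h ∧ LZ L2 ∧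
          Deep ht dl cd s L2 (dl b0 (act dl L1 w)) then LW Λ L1 * LW Λ L2 else 0)
          = ∑' w1, (if HT ht L1 = N ∧ act dl L1 w = w1 then LW Λ L1 else 0) * Ψ (dl b0 w1) := by
        intro L1
        rw [tsum_eq_single (act dl L1 w)]
        · by_cases hN : HT ht L1 = N
          · rw [if_pos ⟨hN, rfl⟩, hΨ]
            simp only
            rw [← ENNReal.tsum_mul_left]
            refine tsum_congr fun L2 => ?_
            by_cases hc : HT ht L2 = h ∧ LZ L2 ∧ Deep ht dl cd s L2 (dl b0 (act dl L1 w))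
            · rw [if_pos ⟨hN, hc⟩, if_pos hc]
            · rw [if_neg (fun hh => hc hh.2), if_neg hc, mul_zero]
          · rw [if_neg (fun hh => hN hh.1), zero_mul, ENNReal.tsum_eq_zero]
            intro L2; rw [if_neg (fun hh => hN hh.1)]
        · intro w1 hw1; rw [if_neg (fun hh => hw1 hh.2.symm), zero_mul]
      rw [tsum_congr e2, ENNReal.tsum_comm]
      refine tsum_congr fun w1 => ?_
      rw [ENNReal.tsum_mul_right, Lw]
    rw [e1]
    have e3 : ∑' w1, Lw Λ ht dl N w w1 * Ψ (dl b0 w1)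
        = ∑' w1, g w1 * Ψ (dl b0 w1) + ∑' w1, b w1 * Ψ (dl b0 w1) := by
      rw [← ENNReal.tsum_add]
      refine tsum_congr fun w1 => ?_
      rw [hgb, add_mul]
    rw [e3]
    refine add_le_add ?_ ?_
    · set ν : W → ℝ≥0∞ := fun w2 => ∑' w1, (if dl b0 w1 = w2 then g w1 else 0) with hν
      have hsum : ∑' w2, ν w2 ≤ 1 := by
        rw [hν, ENNReal.tsum_comm]
        calc ∑' w1, ∑' w2, (if dl b0 w1 = w2 then g w1 else 0) = ∑' w1, g w1 := by
              refine tsum_congr fun w1 => ?_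
              rw [tsum_eq_single (dl b0 w1)]
              · rw [if_pos rfl]
              · intro w2 h2; rw [if_neg (fun hh => h2 hh.symm)]
          _ ≤ ∑' w1, Lw Λ ht dl N w w1 :=
              ENNReal.tsum_le_tsum fun w1 => by rw [hgb]; exact le_self_add
          _ = U Λ ht N := Lw_mass Λ ht dl N w
          _ ≤ 1 := hU1 N
      have hle : ∀ w2, ν w2 ≤ M := by
        intro w2
        by_cases hex : ∃ w1, dl b0 w1 = w2
        · obtain ⟨w1, hw1⟩ := hex
          rw [hν]; simp only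
          rw [tsum_eq_single w1]
          · rw [if_pos hw1]; exact hg w1
          · intro w' hw'; rw [if_neg (fun hh => hw' (hinj b0 (hh.trans hw1.symm)))]
        · rw [hν]; simp only
          rw [ENNReal.tsum_eq_zero.2]
          · exact zero_le
          · intro w1; rw [if_neg (fun hh => hex ⟨w1, hh⟩)]
      refine le_trans (le_of_eq ?_) (hZ ν hsum hle)
      calc ∑' w1, g w1 * Ψ (dl b0 w1)
          = ∑' w1, ∑' w2, (if dl b0 w1 = w2 then g w1 else 0) * Ψ w2 := by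
            refine tsum_congr fun w1 => ?_
            rw [tsum_eq_single (dl b0 w1)]
            · rw [if_pos rfl]
            · intro w2 h2; rw [if_neg (fun hh => h2 hh.symm), zero_mul]
        _ = _ := by
            rw [ENNReal.tsum_comm]
            refine tsum_congr fun w2 => ?_
            rw [ENNReal.tsum_mul_right]
    · calc ∑' w1, b w1 * Ψ (dl b0 w1) ≤ ∑' w1, b w1 * 1 :=
            ENNReal.tsum_le_tsum fun w1 => mul_le_mul_right (hΨ1 _) _
        _ ≤ β := by simpa using hb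
  have hXs := key LX MX hX hgX
  have hYs := key LY MY hY hgY
  have hN : ∑' L1 : List B, ∑' L2 : List B, (if HT ht L1 = N ∧ HT ht L2 = h ∧ ¬ LX L2 ∧ ¬ LY L2
      then LW Λ L1 * LW Λ L2 else 0) ≤ η := by
    have e : ∀ L1 : List B, ∑' L2 : List B, (if HT ht L1 = N ∧ HT ht L2 = h ∧ ¬ LX L2 ∧ ¬ LY L2
        then LW Λ L1 * LW Λ L2 else 0) = (if HT ht L1 = N then LW Λ L1 else 0) *
          ∑' L2 : List B, (if HT ht L2 = h ∧ ¬ LX L2 ∧ ¬ LY L2 then LW Λ L2 else 0) := by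
      intro L1
      rw [← ENNReal.tsum_mul_left]
      refine tsum_congr fun L2 => ?_
      by_cases h1 : HT ht L1 = N <;> by_cases h2 : HT ht L2 = h ∧ ¬ LX L2 ∧ ¬ LY L2
      · rw [if_pos ⟨h1, h2⟩, if_pos h1, if_pos h2]
      · rw [if_neg (fun hh => h2 hh.2), if_neg h2, mul_zero]
      · rw [if_neg (fun hh => h1 hh.1), if_neg h1, zero_mul]
      · rw [if_neg (fun hh => h1 hh.1), if_neg h1, zero_mul]
    rw [tsum_congr e, ENNReal.tsum_mul_right]
    calc _ ≤ 1 * η := mul_le_mul' (hU1 N) hNL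
      _ = η := one_mul _
  calc Zs Λ ht dl cd s N h b0 w
      ≤ ∑' L1 : List B, ∑' L2 : List B,
        ((if HT ht L1 = N ∧ HT ht L2 = h ∧ ¬ LX L2 ∧ ¬ LY L2 then LW Λ L1 * LW Λ L2 else 0) +
         ((if HT ht L1 = N ∧ HT ht L2 = h ∧ LX L2 ∧
          Deep ht dl cd s L2 (dl b0 (act dl L1 w)) then LW Λ L1 * LW Λ L2 else 0) +
         (if HT ht L1 = N ∧ HT ht L2 = h ∧ LY L2 ∧
          Deep ht dl cd s L2 (dl b0 (act dl L1 w)) then LW Λ L1 * LW Λ L2 else 0))) := by
        unfold Zs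
        refine ENNReal.tsum_le_tsum fun L1 => ENNReal.tsum_le_tsum fun L2 => ?_
        by_cases hc : HT ht L1 = N ∧ HT ht L2 = h ∧ Deep ht dl cd s L2 (dl b0 (act dl L1 w))
        · rw [if_pos hc]
          obtain ⟨c1, c2, c3⟩ := hc
          by_cases hx : LX L2
          · rw [if_pos (⟨c1, c2, hx, c3⟩ : HT ht L1 = N ∧ HT ht L2 = h ∧ LX L2 ∧
              Deep ht dl cd s L2 (dl b0 (act dl L1 w)))]
            exact le_trans le_self_add le_add_self
          · by_cases hy : LY L2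
            · rw [if_pos (⟨c1, c2, hy, c3⟩ : HT ht L1 = N ∧ HT ht L2 = h ∧ LY L2 ∧
                Deep ht dl cd s L2 (dl b0 (act dl L1 w)))]
              exact le_trans le_add_self le_add_self
            · rw [if_pos (⟨c1, c2, hx, hy⟩ : HT ht L1 = N ∧ HT ht L2 = h ∧ ¬ LX L2 ∧ ¬ LY L2)]
              exact le_self_add
        · rw [if_neg hc]; exact zero_le
    _ ≤ η + ((ζ + β) + (ζ + β)) := by
        simp only [ENNReal.tsum_add]
        exact add_le_add hN (add_le_add hXs hYs)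
    _ = _ := by rw [two_mul]

end Crest.Agent.R154.JAsm407
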