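import Crest.Agent.R154.JAsmA_425

/-! Row 154 (helper425): joint-cut assembly, part B: overshoot and the smoothing recursion. -/

set_option autoImplicit false

namespace Crest.Agent.R154.JA425

open scoped ENNReal
open Crest.Agent.R154.B5A

variable {B : Type*} (Λ : B → ℝ≥0∞) (ht : B → ℕ)

lemma HT_lt_of_inFP (N : ℕ) (Q : List B) (b : B) (h : inFP ht N (Q ++ [b])) : HT ht Q < N := by
  induction Q generalizing N with
  | nil =>
    have := h.1
    rw [HT_nil]; omega
  | cons a Q ih =>
    have := ih _ h.2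
    rw [HT_cons]; omega

/-- tail of the tail -/
noncomputable def eta (g : ℕ) : ℝ≥0∞ := ∑' k, tail Λ ht (k + g)

lemma eta_tendsto (h : ∑' k, tail Λ ht k ≠ ⊤) : Filter.Tendsto (eta Λ ht) Filter.atTop (nhds 0) :=
  ENNReal.tendsto_sum_nat_add (tail Λ ht) h

open Classical in
lemma fps_over (hU1 : ∀ n, U Λ ht n ≤ 1) (N g : ℕ) :
    fps Λ ht N (fun L => if N + g < HT ht L then 1 else 0) ≤ eta Λ ht g := by
  rw [fps]
  refine le_trans (tsum_cover _ (fun i : List B × B => i.1 ++ [i.2]) ?_) ?_
  · intro L hL
    have hne : L ≠ [] := by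
      rintro rfl
      apply hL
      simp [HT_nil]
    exact ⟨(L.dropLast, L.getLast hne), List.dropLast_append_getLast hne⟩
  · have h1 : ∀ i : List B × B, (if inFP ht N (i.1 ++ [i.2]) then LW Λ (i.1 ++ [i.2]) *
        (if N + g < HT ht (i.1 ++ [i.2]) then 1 else 0) else 0)
        ≤ (if HT ht i.1 < N then LW Λ i.1 else 0) *
          (if N + g - HT ht i.1 < ht i.2 then Λ i.2 else 0) := by
      rintro ⟨Q, b⟩
      simp only
      by_cases hF : inFP ht N (Q ++ [b])
      · rw [if_pos hF, if_pos (HT_lt_of_inFP ht N Q b hF), HT_append, LW_append]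
        by_cases hh : N + g < HT ht Q + HT ht [b]
        · have hb : HT ht [b] = ht b := by simp [HT]
          have hlt := HT_lt_of_inFP ht N Q b hF
          rw [if_pos hh, mul_one, if_pos (by rw [hb] at hh; omega)]
          simp [LW]
        · rw [if_neg hh, mul_zero]; exact zero_le
      · rw [if_neg hF]; exact zero_le
    refine le_trans (ENNReal.tsum_le_tsum h1) ?_
    rw [ENNReal.tsum_prod']
    simp only [ENNReal.tsum_mul_left]
    change ∑' Q : List B, (if HT ht Q < N then LW Λ Q else 0) * tail Λ ht (N + g - HT ht Q) ≤ _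
    have h2 : ∀ Q : List B, (if HT ht Q < N then LW Λ Q else 0) * tail Λ ht (N + g - HT ht Q)
        = ∑ q ∈ Finset.range N, (if HT ht Q = q then LW Λ Q else 0) * tail Λ ht (N + g - q) := by
      intro Q
      by_cases hQ : HT ht Q < N
      · rw [if_pos hQ, Finset.sum_eq_single (HT ht Q)]
        · rw [if_pos rfl]
        · intro q _ hq; rw [if_neg hq.symm, zero_mul]
        · intro h; exact absurd (Finset.mem_range.2 hQ) h
      · rw [if_neg hQ, zero_mul, Finset.sum_eq_zero]
        intro q hq
        rw [if_neg (by have := Finset.mem_range.1 hq; omega), zero_mul]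
    simp_rw [h2]
    rw [Summable.tsum_finsetSum (fun _ _ => ENNReal.summable)]
    calc ∑ q ∈ Finset.range N, ∑' Q : List B,
          (if HT ht Q = q then LW Λ Q else 0) * tail Λ ht (N + g - q)
        ≤ ∑ q ∈ Finset.range N, tail Λ ht (N + g - q) := by
          refine Finset.sum_le_sum fun q _ => ?_
          rw [ENNReal.tsum_mul_right]
          calc _ ≤ 1 * tail Λ ht (N + g - q) := mul_le_mul_left (hU1 q) _
            _ = _ := one_mul _
      _ = ∑ j ∈ Finset.range N, tail Λ ht (j + 1 + g) := by
          rw [← Finset.sum_range_reflect]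
          refine Finset.sum_congr rfl fun j hj => ?_
          have := Finset.mem_range.1 hj
          congr 1
          omega
      _ ≤ ∑' j, tail Λ ht (j + 1 + g) := ENNReal.sum_le_tsum _
      _ ≤ eta Λ ht g := ENNReal.tsum_comp_le_tsum_of_injective (add_left_injective 1)
          (fun k => tail Λ ht (k + g))

variable {W : Type*} [AddCommGroup W]

/-- displacement -/
def DS (z : B → W) (L : List B) : W := (L.map z).sum

lemma DS_nil (z : B → W) : DS z ([] : List B) = 0 := by simp [DS]
lemma DS_append (z : B → W) (L L' : List B) : DS z (L ++ L') = DS z L + DS z L' := by simp [DS]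

open Classical in
lemma prod_sum (h : ℕ) (dP dQ : B → W) (aP aQ : W → ℝ≥0∞)
    (hprod : ∀ x y, (∑' L : List B, if HT ht L = h ∧ DS dP L = x ∧ DS dQ L = y
      then LW Λ L else 0) = aP x * aQ y) (G : W → W → ℝ≥0∞) :
    ∑' L : List B, (if HT ht L = h then LW Λ L * G (DS dP L) (DS dQ L) else 0)
      = ∑' x, ∑' y, aP x * aQ y * G x y := by
  simp_rw [← hprod, ← ENNReal.tsum_mul_right]
  have : ∀ x, (∑' y, ∑' L : List B, (if HT ht L = h ∧ DS dP L = x ∧ DS dQ L = y
      then LW Λ L else 0) * G x y) = ∑' L : List B, ∑' y,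
      (if HT ht L = h ∧ DS dP L = x ∧ DS dQ L = y then LW Λ L else 0) * G x y :=
    fun x => ENNReal.tsum_comm
  simp_rw [this]
  rw [ENNReal.tsum_comm]
  refine tsum_congr fun L => ?_
  rw [tsum_eq_single (DS dP L), tsum_eq_single (DS dQ L)]
  · by_cases hL : HT ht L = h
    · rw [if_pos hL, if_pos ⟨hL, rfl, rfl⟩]
    · rw [if_neg hL, if_neg (fun h' => hL h'.1), zero_mul]
  · intro y hy
    rw [if_neg (fun h' => hy h'.2.2.symm), zero_mul]
  · intro x hx
    rw [ENNReal.tsum_eq_zero]
    intro y
    rw [if_neg (fun h' => hx h'.2.1.symm), zero_mul]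

open Classical in
/-- smoothing recursion -/
lemma V_le (h1 : ∀ b, 1 ≤ ht b) (hΛ : ∑' b, Λ b ≤ 1) (h T : ℕ) (dP dQ : B → W)
    (aP aQ : W → ℝ≥0∞)
    (hprod : ∀ x y, (∑' L : List B, if HT ht L = h ∧ DS dP L = x ∧ DS dQ L = y
      then LW Λ L else 0) = aP x * aQ y)
    (haQ : ∑' y, aQ y ≤ 1) (θ q ε Φ : ℝ≥0∞) (φ : W → ℝ≥0∞) (hφ1 : ∀ w, φ w ≤ 1)
    (hΦ : ∑' w, φ w ≤ Φ) (hq1 : q ≤ 1)
    (hover : fps Λ ht h (fun P => if h + T < HT ht P then 1 else 0) ≤ ε)
    (hnon : fps Λ ht h (fun P => if HT ht P = h ∧ aP (DS dP P) ≤ θ then 0 else 1) ≤ q) :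
    ∀ (J N : ℕ) (x : W), J * (h + T) ≤ N →
      fps Λ ht N (fun L => φ (x + DS dP L + DS dQ L)) ≤ q ^ J + J * (θ * Φ + ε) := by
  -- L1 bound of V
  have hL1 : ∀ (N : ℕ) (y : W), ∑' x, fps Λ ht N (fun L => φ (x + y + DS dP L + DS dQ L)) ≤ Φ := by
    intro N y
    simp only [fps]
    rw [ENNReal.tsum_comm]
    calc ∑' L : List B, ∑' x, (if inFP ht N L then LW Λ L * φ (x + y + DS dP L + DS dQ L) else 0)
        ≤ ∑' L : List B, (if inFP ht N L then LW Λ L * Φ else 0) := by
          refine ENNReal.tsum_le_tsum fun L => ?_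
          by_cases hL : inFP ht N L
          · simp only [if_pos hL]
            rw [ENNReal.tsum_mul_left]
            refine mul_le_mul_right ?_ _
            refine le_trans (le_of_eq ?_) hΦ
            have : ∀ x, x + y + DS dP L + DS dQ L = (Equiv.addRight (y + DS dP L + DS dQ L)) x := by
              intro x; simp [add_assoc]
            simp_rw [this]
            exact Equiv.tsum_eq _ φ
          · simp [hL]
      _ ≤ Φ := fps_const Λ ht h1 hΛ N Φ
  intro J
  induction J with
  | zero =>
    intro N x _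
    simp only [pow_zero, Nat.cast_zero, zero_mul, add_zero]
    exact (fps_mono Λ ht N fun L _ => hφ1 _).trans (fps_mass Λ ht h1 hΛ N)
  | succ J ih =>
    intro N x hN
    have hN' : (J + 1) * (h + T) = J * (h + T) + (h + T) := by ring
    rw [fps_split Λ ht h1 h N (by omega)]
    set b := q ^ J + J * (θ * Φ + ε) with hb
    have hstep : ∀ P, inFP ht h P →
        fps Λ ht (N - HT ht P) (fun L => φ (x + DS dP (P ++ L) + DS dQ (P ++ L)))
        ≤ (if h + T < HT ht P then 1 else 0)
          + ((if HT ht P = h then (if aP (DS dP P) ≤ θ then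
              fps Λ ht (N - h) (fun L => φ (x + DS dP P + DS dQ P + DS dP L + DS dQ L)) else 0)
              else 0)
            + b * (if HT ht P = h ∧ aP (DS dP P) ≤ θ then 0 else 1)) := by
      intro P hP
      have e : ∀ L, x + DS dP (P ++ L) + DS dQ (P ++ L)
          = x + DS dP P + DS dQ P + DS dP L + DS dQ L := by
        intro L; rw [DS_append, DS_append]; abel
      simp_rw [e]
      by_cases ho : h + T < HT ht P
      · rw [if_pos ho]
        refine le_trans ?_ le_self_add
        exact (fps_mono Λ ht _ fun L _ => hφ1 _).trans (fps_mass Λ ht h1 hΛ _)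
      · by_cases hh : HT ht P = h ∧ aP (DS dP P) ≤ θ
        · rw [if_neg ho, if_pos hh.1, if_pos hh.2, if_pos hh, zero_add, mul_zero, add_zero, hh.1]
        · rw [if_neg hh, mul_one]
          refine le_trans ?_ (le_add_left (le_add_left le_rfl))
          have := ih (N - HT ht P) (x + DS dP P + DS dQ P) (by omega)
          exact this
    refine le_trans (fps_mono Λ ht h hstep) ?_
    rw [fps_add, fps_add, fps_mul]
    have hhit : fps Λ ht h (fun P => if HT ht P = h then (if aP (DS dP P) ≤ θ then
              fps Λ ht (N - h) (fun L => φ (x + DS dP P + DS dQ P + DS dP L + DS dQ L)) else 0)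
              else 0) ≤ θ * Φ := by
      set G : W → W → ℝ≥0∞ := fun x1 y1 => if aP x1 ≤ θ then
        fps Λ ht (N - h) (fun L => φ (x + x1 + y1 + DS dP L + DS dQ L)) else 0 with hG
      calc _ = ∑' L : List B, (if HT ht L = h then LW Λ L * G (DS dP L) (DS dQ L) else 0) := by
            rw [fps]
            refine tsum_congr fun L => ?_
            by_cases hL : HT ht L = h
            · rw [if_pos (inFP_of_HT ht h1 h L hL), if_pos hL, if_pos hL]
            · rw [if_neg hL, mul_zero, if_neg hL, ite_self]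
        _ = ∑' x1, ∑' y1, aP x1 * aQ y1 * G x1 y1 := prod_sum Λ ht h dP dQ aP aQ hprod G
        _ ≤ ∑' x1, ∑' y1, θ * (aQ y1 *
              fps Λ ht (N - h) (fun L => φ (x1 + (x + y1) + DS dP L + DS dQ L))) := by
            refine ENNReal.tsum_le_tsum fun x1 => ENNReal.tsum_le_tsum fun y1 => ?_
            simp only [hG]
            by_cases ha : aP x1 ≤ θ
            · rw [if_pos ha, mul_assoc]
              refine mul_le_mul' ha (le_of_eq ?_)
              congr 2
              funext L
              congr 1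
              abel
            · rw [if_neg ha, mul_zero]; exact zero_le
        _ = θ * ∑' y1, aQ y1 * ∑' x1,
              fps Λ ht (N - h) (fun L => φ (x1 + (x + y1) + DS dP L + DS dQ L)) := by
            rw [ENNReal.tsum_comm]
            simp_rw [ENNReal.tsum_mul_left]
        _ ≤ θ * ∑' y1, aQ y1 * Φ := by
            refine mul_le_mul_right (ENNReal.tsum_le_tsum fun y1 => ?_) _
            exact mul_le_mul_right (hL1 _ _) _
        _ ≤ θ * Φ := by
            rw [ENNReal.tsum_mul_right]
            refine mul_le_mul_right ?_ _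
            calc _ ≤ 1 * Φ := mul_le_mul_left haQ _
              _ = Φ := one_mul _
    calc _ ≤ ε + (θ * Φ + b * q) := add_le_add hover (add_le_add hhit (mul_le_mul_right hnon _))
      _ ≤ q ^ (J + 1) + ((J + 1 : ℕ) : ℝ≥0∞) * (θ * Φ + ε) := by
          have hbq : b * q ≤ q ^ (J + 1) + J * (θ * Φ + ε) := by
            rw [hb, add_mul, ← pow_succ]
            refine add_le_add le_rfl ?_
            calc _ ≤ J * (θ * Φ + ε) * 1 := mul_le_mul_right hq1 _
              _ = _ := mul_one _
          calc ε + (θ * Φ + b * q) ≤ ε + (θ * Φ + (q ^ (J + 1) + J * (θ * Φ + ε))) := by gcongr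
            _ = q ^ (J + 1) + ((J + 1 : ℕ) : ℝ≥0∞) * (θ * Φ + ε) := by push_cast; ring

end Crest.Agent.R154.JA425
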