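import Crest.Agent.R154.JAsmB_407

/-! Row 154 (helper407), ROAD 801 in joint cuts, part C: the sum over one window. -/

set_option autoImplicit false

namespace Crest.Agent.R154.JAsm407

open scoped ENNReal
open Crest.Agent.R154.B5A Crest.Agent.R154.FP178

variable {B W : Type*} (Λ : B → ℝ≥0∞) (ht : B → ℕ) (dl : B → W → W) (cd : W → B → Set ℕ)

/-- the main tuple condition -/
def Tc (s A A' i0 n : ℕ) (w : W) (t : List B × B × List B × B × List B) : Prop :=
  HT ht t.1 < A ∧ A ≤ HT ht t.1 + ht t.2.1 ∧ ht t.2.1 ≤ i0 ∧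
  HT ht t.1 + ht t.2.1 + HT ht t.2.2.1 < A' ∧
  A' ≤ HT ht t.1 + ht t.2.1 + HT ht t.2.2.1 + ht t.2.2.2.1 ∧
  HT ht t.1 + ht t.2.1 + HT ht t.2.2.1 + ht t.2.2.2.1 + HT ht t.2.2.2.2 = n ∧
  Deep ht dl cd s t.2.2.1 (dl t.2.1 (act dl t.1 w))

open Classical in
lemma sum_tailrange (X : ℕ) (E : ℝ≥0∞) (hE : ∑' k, tail Λ ht k ≤ E) :
    ∑' h : ℕ, (if h < X then tail Λ ht (X - h - 1) else 0) ≤ E := by
  rw [tsum_eq_sum (s := Finset.range X) (fun h hh => by
    rw [if_neg (fun x => hh (Finset.mem_range.2 x))])]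
  rw [Finset.sum_congr rfl (fun h hh => if_pos (Finset.mem_range.1 hh))]
  have : ∑ h ∈ Finset.range X, tail Λ ht (X - h - 1) = ∑ h ∈ Finset.range X, tail Λ ht h := by
    rw [← Finset.sum_range_reflect (fun h => tail Λ ht h) X]
    refine Finset.sum_congr rfl fun h _ => ?_
    congr 1; omega
  rw [this]
  exact (ENNReal.sum_le_tsum _).trans hE

open Classical in
lemma S3_le (hU1 : ∀ n, U Λ ht n ≤ 1) (E Z : ℝ≥0∞) (hE : ∑' k, tail Λ ht k ≤ E)
    (hE' : ∑' b, Λ b * (ht b : ℝ≥0∞) ≤ E) (s A A' i0 n : ℕ) (w : W)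
    (hZ : ∀ b N h, N < A → A ≤ N + ht b → ht b ≤ i0 → N + ht b + h < A' →
      Zs Λ ht dl cd s N h b w ≤ Z) :
    ∑' t : List B × B × List B × B × List B, (if Tc ht dl cd s A A' i0 n w t
        then LW Λ (t.1 ++ t.2.1 :: (t.2.2.1 ++ t.2.2.2.1 :: t.2.2.2.2)) else 0)
      ≤ E * E * Z := by
  -- sum over the last two
  have hA : ∀ (L1 : List B) (b1 : B) (L2 : List B), ∑' (p : B × List B),
      (if Tc ht dl cd s A A' i0 n w (L1, b1, L2, p)
        then LW Λ (L1 ++ b1 :: (L2 ++ p.1 :: p.2)) else 0)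
      ≤ (if (HT ht L1 < A ∧ A ≤ HT ht L1 + ht b1 ∧ ht b1 ≤ i0) ∧
          HT ht L1 + ht b1 + HT ht L2 < A' ∧ Deep ht dl cd s L2 (dl b1 (act dl L1 w))
        then LW Λ L1 * Λ b1 * LW Λ L2 * tail Λ ht (A' - (HT ht L1 + ht b1) - HT ht L2 - 1)
        else 0) := by
    intro L1 b1 L2
    by_cases hc : (HT ht L1 < A ∧ A ≤ HT ht L1 + ht b1 ∧ ht b1 ≤ i0) ∧
          HT ht L1 + ht b1 + HT ht L2 < A' ∧ Deep ht dl cd s L2 (dl b1 (act dl L1 w))
    · rw [if_pos hc, ENNReal.tsum_prod', tail, ← ENNReal.tsum_mul_left]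
      refine ENNReal.tsum_le_tsum fun b2 => ?_
      by_cases h2 : A' ≤ HT ht L1 + ht b1 + HT ht L2 + ht b2
      · rw [if_pos (by omega)]
        calc ∑' L3 : List B, (if Tc ht dl cd s A A' i0 n w (L1, b1, L2, b2, L3)
              then LW Λ (L1 ++ b1 :: (L2 ++ b2 :: L3)) else 0)
            ≤ ∑' L3 : List B, (LW Λ L1 * Λ b1 * LW Λ L2 * Λ b2) *
              (if HT ht L3 = n - (HT ht L1 + ht b1 + HT ht L2 + ht b2) then LW Λ L3 else 0) := by
              refine ENNReal.tsum_le_tsum fun L3 => ?_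
              by_cases ht3 : Tc ht dl cd s A A' i0 n w (L1, b1, L2, b2, L3)
              · rw [if_pos ht3, if_pos (by
                  have := ht3.2.2.2.2.2.1
                  simp only at this; omega)]
                rw [LW_append, LW_cons, LW_append, LW_cons]
                apply le_of_eq; ring
              · rw [if_neg ht3]; exact zero_le
          _ = (LW Λ L1 * Λ b1 * LW Λ L2 * Λ b2) *
              U Λ ht (n - (HT ht L1 + ht b1 + HT ht L2 + ht b2)) := by
              rw [ENNReal.tsum_mul_left, U]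
          _ ≤ (LW Λ L1 * Λ b1 * LW Λ L2 * Λ b2) * 1 := mul_le_mul_right (hU1 _) _
          _ = _ := mul_one _
      · rw [ENNReal.tsum_eq_zero.2]
        · exact zero_le
        · intro L3
          rw [if_neg]
          intro ht3
          exact h2 ht3.2.2.2.2.1
    · rw [if_neg hc, le_zero_iff, ENNReal.tsum_eq_zero]
      intro p
      rw [if_neg]
      intro ht3
      exact hc ⟨⟨ht3.1, ht3.2.1, ht3.2.2.1⟩, ht3.2.2.2.1, ht3.2.2.2.2.2.2⟩
  -- fixed first block
  have hB : ∀ b1 : B, ∑' L1 : List B, ∑' L2 : List B,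
      (if (HT ht L1 < A ∧ A ≤ HT ht L1 + ht b1 ∧ ht b1 ≤ i0) ∧
          HT ht L1 + ht b1 + HT ht L2 < A' ∧ Deep ht dl cd s L2 (dl b1 (act dl L1 w))
        then LW Λ L1 * Λ b1 * LW Λ L2 * tail Λ ht (A' - (HT ht L1 + ht b1) - HT ht L2 - 1)
        else 0) ≤ Λ b1 * (ht b1 : ℝ≥0∞) * (E * Z) := by
    intro b1
    have e1 : ∑' L1 : List B, ∑' L2 : List B,
        (if (HT ht L1 < A ∧ A ≤ HT ht L1 + ht b1 ∧ ht b1 ≤ i0) ∧
          HT ht L1 + ht b1 + HT ht L2 < A' ∧ Deep ht dl cd s L2 (dl b1 (act dl L1 w))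
        then LW Λ L1 * Λ b1 * LW Λ L2 * tail Λ ht (A' - (HT ht L1 + ht b1) - HT ht L2 - 1)
        else 0)
        = ∑' N : ℕ, ∑' h : ℕ, ∑' L1 : List B, ∑' L2 : List B,
        (if HT ht L1 = N ∧ HT ht L2 = h then
          (if (HT ht L1 < A ∧ A ≤ HT ht L1 + ht b1 ∧ ht b1 ≤ i0) ∧
          HT ht L1 + ht b1 + HT ht L2 < A' ∧ Deep ht dl cd s L2 (dl b1 (act dl L1 w))
        then LW Λ L1 * Λ b1 * LW Λ L2 * tail Λ ht (A' - (HT ht L1 + ht b1) - HT ht L2 - 1)
        else 0) else 0) := by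
      rw [tsum_by_height ht (fun L1 : List B => ∑' L2 : List B,
        (if (HT ht L1 < A ∧ A ≤ HT ht L1 + ht b1 ∧ ht b1 ≤ i0) ∧
          HT ht L1 + ht b1 + HT ht L2 < A' ∧ Deep ht dl cd s L2 (dl b1 (act dl L1 w))
        then LW Λ L1 * Λ b1 * LW Λ L2 * tail Λ ht (A' - (HT ht L1 + ht b1) - HT ht L2 - 1)
        else 0))]
      refine tsum_congr fun N => ?_
      rw [ENNReal.tsum_comm (f := fun (h : ℕ) (L1 : List B) => _)]
      refine tsum_congr fun L1 => ?_
      by_cases hN : HT ht L1 = N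
      · rw [if_pos hN, tsum_by_height ht]
        refine tsum_congr fun h => tsum_congr fun L2 => ?_
        by_cases hh : HT ht L2 = h
        · rw [if_pos hh, if_pos (⟨hN, hh⟩ : HT ht L1 = N ∧ HT ht L2 = h)]
        · rw [if_neg hh, if_neg (fun x : HT ht L1 = N ∧ HT ht L2 = h => hh x.2)]
      · rw [if_neg hN]
        symm
        rw [ENNReal.tsum_eq_zero]; intro h
        rw [ENNReal.tsum_eq_zero]; intro L2
        rw [if_neg (fun x => hN x.1)]
    rw [e1]
    calc _ ≤ ∑' N : ℕ, ∑' h : ℕ, (if N < A ∧ A ≤ N + ht b1 then (1 : ℝ≥0∞) else 0) *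
          ((if h < A' - (N + ht b1) then tail Λ ht (A' - (N + ht b1) - h - 1) else 0) *
            (Λ b1 * Z)) := by
          refine ENNReal.tsum_le_tsum fun N => ENNReal.tsum_le_tsum fun h => ?_
          by_cases hc : (N < A ∧ A ≤ N + ht b1 ∧ ht b1 ≤ i0) ∧ N + ht b1 + h < A'
          · rw [if_pos ⟨hc.1.1, hc.1.2.1⟩, if_pos (by omega), one_mul]
            calc ∑' L1 : List B, ∑' L2 : List B, _
                ≤ ∑' L1 : List B, ∑' L2 : List B, (tail Λ ht (A' - (N + ht b1) - h - 1) * Λ b1) *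
                  (if HT ht L1 = N ∧ HT ht L2 = h ∧
                    Deep ht dl cd s L2 (dl b1 (act dl L1 w)) then LW Λ L1 * LW Λ L2 else 0) := by
                  refine ENNReal.tsum_le_tsum fun L1 => ENNReal.tsum_le_tsum fun L2 => ?_
                  by_cases h1 : HT ht L1 = N ∧ HT ht L2 = h
                  · rw [if_pos h1]
                    by_cases h2 : (HT ht L1 < A ∧ A ≤ HT ht L1 + ht b1 ∧ ht b1 ≤ i0) ∧
                        HT ht L1 + ht b1 + HT ht L2 < A' ∧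
                        Deep ht dl cd s L2 (dl b1 (act dl L1 w))
                    · rw [if_pos h2, if_pos ⟨h1.1, h1.2, h2.2.2⟩, h1.1, h1.2]
                      apply le_of_eq; ring
                    · rw [if_neg h2]; exact zero_le
                  · rw [if_neg h1]; exact zero_le
              _ = (tail Λ ht (A' - (N + ht b1) - h - 1) * Λ b1) *
                  Zs Λ ht dl cd s N h b1 w := by
                  simp only [ENNReal.tsum_mul_left]
                  rfl
              _ ≤ (tail Λ ht (A' - (N + ht b1) - h - 1) * Λ b1) * Z :=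
                  mul_le_mul_right (hZ b1 N h hc.1.1 hc.1.2.1 hc.1.2.2 hc.2) _
              _ = _ := by ring
          · rw [ENNReal.tsum_eq_zero.2]
            · exact zero_le
            · intro L1
              rw [ENNReal.tsum_eq_zero]
              intro L2
              by_cases h1 : HT ht L1 = N ∧ HT ht L2 = h
              · rw [if_pos h1, if_neg]
                rintro ⟨h2, h3, _⟩
                rw [h1.1] at h2 h3
                rw [h1.2] at h3
                exact hc ⟨h2, h3⟩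
              · rw [if_neg h1]
      _ ≤ ∑' N : ℕ, (if N < A ∧ A ≤ N + ht b1 then (1 : ℝ≥0∞) else 0) * (E * (Λ b1 * Z)) := by
          refine ENNReal.tsum_le_tsum fun N => ?_
          rw [ENNReal.tsum_mul_left]
          refine mul_le_mul_right ?_ _
          rw [ENNReal.tsum_mul_right]
          exact mul_le_mul_left (sum_tailrange Λ ht _ E hE) _
      _ ≤ (ht b1 : ℝ≥0∞) * (E * (Λ b1 * Z)) := by
          rw [ENNReal.tsum_mul_right]
          exact mul_le_mul_left (card_strad A (ht b1)) _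
      _ = _ := by ring
  calc _ = ∑' L1 : List B, ∑' b1 : B, ∑' L2 : List B, ∑' (p : B × List B),
      (if Tc ht dl cd s A A' i0 n w (L1, b1, L2, p)
        then LW Λ (L1 ++ b1 :: (L2 ++ p.1 :: p.2)) else 0) := by
        rw [ENNReal.tsum_prod']
        refine tsum_congr fun L1 => ?_
        rw [ENNReal.tsum_prod']
        refine tsum_congr fun b1 => ?_
        rw [ENNReal.tsum_prod']
    _ ≤ ∑' L1 : List B, ∑' b1 : B, ∑' L2 : List B, _ :=
        ENNReal.tsum_le_tsum fun L1 => ENNReal.tsum_le_tsum fun b1 =>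
          ENNReal.tsum_le_tsum fun L2 => hA L1 b1 L2
    _ = ∑' b1 : B, ∑' L1 : List B, ∑' L2 : List B, _ := ENNReal.tsum_comm
    _ ≤ ∑' b1 : B, Λ b1 * (ht b1 : ℝ≥0∞) * (E * Z) := ENNReal.tsum_le_tsum fun b1 => hB b1
    _ = (∑' b1 : B, Λ b1 * (ht b1 : ℝ≥0∞)) * (E * Z) := ENNReal.tsum_mul_right
    _ ≤ E * (E * Z) := mul_le_mul_left hE' _
    _ = _ := by ring

end Crest.Agent.R154.JAsm407
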