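import Crest.Agent.R154.JAsmB_425
import Crest.Agent.R154.Dens_616

/-! Row 154 (helper425): joint-cut assembly, part C: one height. -/

set_option autoImplicit false

namespace Crest.Agent.R154.JA425

open scoped ENNReal
open Crest.Agent.R154.B5A

variable {B : Type*} (Λ : B → ℝ≥0∞) (ht : B → ℕ) {W : Type*} [AddCommGroup W]

lemma quant' (a : W → ℝ≥0∞) (hA0 : ∑' x, a x ≠ 0) (hA1 : ∑' x, a x ≤ 1) {u : ℝ≥0∞}
    (hu0 : u ≠ 0) (hu1 : u < 1) : ∃ θ : ℝ≥0∞, θ ≠ 0 ∧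
      (∑' x, if a x < θ then a x else 0) ≤ u ∧
      u * (∑' x, a x) ≤ ∑' x, if a x ≤ θ then a x else 0 := by
  classical
  set A := ∑' x, a x with hA
  have hAt : A ≠ ⊤ := ne_top_of_le_ne_top ENNReal.one_ne_top hA1
  have hp1 : ∑' x, a x / A = 1 := by
    simp_rw [ENNReal.div_eq_inv_mul]
    rw [ENNReal.tsum_mul_left, ← hA, ENNReal.inv_mul_cancel hA0 hAt]
  obtain ⟨th, hth0, -, h1, h2⟩ := Dens616.quantile (fun x => a x / A) hp1 hu0 hu1
  refine ⟨th * A, mul_ne_zero hth0 hA0, ?_, ?_⟩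
  · have e : ∀ x, (if a x < th * A then a x else 0) = A * (if a x / A < th then a x / A else 0) := by
      intro x
      by_cases hx : a x < th * A
      · rw [if_pos hx, if_pos ((ENNReal.div_lt_iff (Or.inl hA0) (Or.inl hAt)).2 hx),
          ENNReal.mul_div_cancel hA0 hAt]
      · rw [if_neg hx, if_neg (fun h => hx ((ENNReal.div_lt_iff (Or.inl hA0) (Or.inl hAt)).1 h)),
          mul_zero]
    simp_rw [e]
    rw [ENNReal.tsum_mul_left]
    calc A * _ ≤ 1 * u := mul_le_mul' hA1 h1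
      _ = u := one_mul u
  · have e : ∀ x, (if a x ≤ th * A then a x else 0) = A * (if a x / A ≤ th then a x / A else 0) := by
      intro x
      by_cases hx : a x ≤ th * A
      · rw [if_pos hx, if_pos ((ENNReal.div_le_iff hA0 hAt).2 hx),
          ENNReal.mul_div_cancel hA0 hAt]
      · rw [if_neg hx, if_neg (fun h => hx ((ENNReal.div_le_iff hA0 hAt).1 h)), mul_zero]
    simp_rw [e]
    rw [ENNReal.tsum_mul_left, mul_comm u A]
    exact mul_le_mul_right h2 A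

lemma card_th (a : W → ℝ≥0∞) (θ : ℝ≥0∞) (E : Finset W) (hE : ∀ x ∈ E, θ ≤ a x)
    (hA1 : ∑' x, a x ≤ 1) : (E.card : ℝ≥0∞) * θ ≤ 1 := by
  calc (E.card : ℝ≥0∞) * θ = ∑ x ∈ E, θ := by rw [Finset.sum_const, nsmul_eq_mul]
    _ ≤ ∑ x ∈ E, a x := Finset.sum_le_sum hE
    _ ≤ ∑' x, a x := ENNReal.sum_le_tsum _
    _ ≤ 1 := hA1

open Classical in
lemma nonhit_le (h1 : ∀ b, 1 ≤ ht b) (hΛ : ∑' b, Λ b ≤ 1) (h : ℕ) (dP dQ : B → W)
    (aP aQ : W → ℝ≥0∞)
    (hprod : ∀ x y, (∑' L : List B, if HT ht L = h ∧ DS dP L = x ∧ DS dQ L = y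
      then LW Λ L else 0) = aP x * aQ y) (θ r : ℝ≥0∞)
    (hr : r ≤ (∑' x, if aP x ≤ θ then aP x else 0) * ∑' y, aQ y) :
    fps Λ ht h (fun P => if HT ht P = h ∧ aP (DS dP P) ≤ θ then 0 else 1) ≤ 1 - r := by
  have hhit : r ≤ fps Λ ht h (fun P => if HT ht P = h ∧ aP (DS dP P) ≤ θ then 1 else 0) := by
    refine hr.trans (le_of_eq ?_)
    have e : fps Λ ht h (fun P => if HT ht P = h ∧ aP (DS dP P) ≤ θ then 1 else 0)
        = ∑' L : List B, (if HT ht L = h then LW Λ L *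
          (fun x1 (_ : W) => if aP x1 ≤ θ then (1 : ℝ≥0∞) else 0) (DS dP L) (DS dQ L) else 0) := by
      rw [fps]
      refine tsum_congr fun L => ?_
      by_cases hL : HT ht L = h
      · rw [if_pos (inFP_of_HT ht h1 h L hL), if_pos hL]
        by_cases hx : aP (DS dP L) ≤ θ
        · simp [hL, hx]
        · simp [hL, hx]
      · simp [hL]
    rw [e, prod_sum Λ ht h dP dQ aP aQ hprod
      (fun x1 (_ : W) => if aP x1 ≤ θ then (1 : ℝ≥0∞) else 0)]
    rw [← ENNReal.tsum_mul_right]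
    refine tsum_congr fun x => ?_
    rw [← ENNReal.tsum_mul_left]
    refine tsum_congr fun y => ?_
    by_cases hx : aP x ≤ θ <;> simp [hx]
  have hsum : fps Λ ht h (fun P => if HT ht P = h ∧ aP (DS dP P) ≤ θ then 1 else 0)
      + fps Λ ht h (fun P => if HT ht P = h ∧ aP (DS dP P) ≤ θ then 0 else 1) ≤ 1 := by
    rw [← fps_add]
    refine le_trans (fps_mono Λ ht h (F' := fun _ => 1) fun L _ => ?_) (fps_mass Λ ht h1 hΛ h)
    split_ifs <;> simp
  have hne : r ≠ ⊤ := ne_top_of_le_ne_top ENNReal.one_ne_top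
    (hhit.trans (le_self_add.trans hsum))
  exact ENNReal.le_sub_of_add_le_left hne ((add_le_add hhit le_rfl).trans hsum)

/-- weak form of the window lemma: the level set is small -/
lemma level_small (Q : W → ℝ≥0∞) (C lam X : ℝ≥0∞) (hC0 : C ≠ 0) (hCt : C ≠ ⊤)
    (hl0 : lam ≠ 0) (hlt : lam ≠ ⊤)
    (hH : ∀ (ν : W → ℝ≥0∞) (M : ℝ≥0∞), ∑' w, ν w ≤ 1 → (∀ w, ν w ≤ M) →
      ∑' w, ν w * Q w ≤ C * (lam + M * X / lam)) :
    ∑' w, (Set.indicator {w | 2 * C * lam < Q w} (fun _ => (1 : ℝ≥0∞)) w) ≤ X / (lam * lam) := by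
  classical
  rw [ENNReal.tsum_eq_iSup_sum]
  refine iSup_le fun s => ?_
  set S' := s.filter (fun w => 2 * C * lam < Q w) with hS'
  have e1 : ∑ w ∈ s, Set.indicator {w | 2 * C * lam < Q w} (fun _ => (1 : ℝ≥0∞)) w
      = (S'.card : ℝ≥0∞) := by
    simp only [Set.indicator_apply, Set.mem_ofPred_eq]
    rw [← Finset.sum_filter, Finset.sum_const, nsmul_eq_mul, mul_one]
  rw [e1]
  by_cases hn : S'.card = 0
  · rw [hn]; simp
  set n : ℝ≥0∞ := (S'.card : ℝ≥0∞) with hnn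
  have hn0 : n ≠ 0 := by rw [hnn]; exact_mod_cast hn
  have hnt : n ≠ ⊤ := ENNReal.natCast_ne_top _
  have key := hH (fun w => if w ∈ S' then n⁻¹ else 0) n⁻¹ (by
    rw [tsum_eq_sum (s := S') (fun w hw => by simp [hw]),
      Finset.sum_congr rfl (fun w hw => if_pos hw), Finset.sum_const, nsmul_eq_mul,
      ENNReal.mul_inv_cancel hn0 hnt]) (fun w => by split_ifs <;> simp)
  have low : 2 * C * lam ≤ ∑' w, (if w ∈ S' then n⁻¹ else 0) * Q w := by
    rw [tsum_eq_sum (s := S') (fun w hw => by simp [hw])]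
    calc 2 * C * lam = ∑ w ∈ S', n⁻¹ * (2 * C * lam) := by
          rw [Finset.sum_const, nsmul_eq_mul, ← mul_assoc, ENNReal.mul_inv_cancel hn0 hnt, one_mul]
      _ ≤ _ := by
          refine Finset.sum_le_sum fun w hw => ?_
          rw [if_pos hw]
          exact mul_le_mul_right (Finset.mem_filter.1 hw).2.le _
  have h2 := low.trans key
  have h3 : C * lam + C * lam ≤ C * lam + C * (n⁻¹ * X / lam) := by
    calc C * lam + C * lam = 2 * C * lam := by ring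
      _ ≤ _ := h2
      _ = _ := by ring
  have h4 : C * lam ≤ C * (n⁻¹ * X / lam) :=
    (ENNReal.add_le_add_iff_left (ENNReal.mul_ne_top hCt hlt)).1 h3
  have h5 : lam ≤ n⁻¹ * X / lam := (ENNReal.mul_le_mul_iff_right hC0 hCt).1 h4
  rw [ENNReal.le_div_iff_mul_le (Or.inl hl0) (Or.inl hlt)] at h5
  rw [ENNReal.le_div_iff_mul_le (Or.inl (mul_ne_zero hl0 hl0))
    (Or.inl (ENNReal.mul_ne_top hlt hlt))]
  calc n * (lam * lam) ≤ n * (n⁻¹ * X) := mul_le_mul_right h5 _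
    _ = X := by rw [← mul_assoc, ENNReal.mul_inv_cancel hn0 hnt, one_mul]

open Classical in
/-- one side (the `P`-walker local) at one height -/
lemma side_le (h1 : ∀ b, 1 ≤ ht b) (hΛ : ∑' b, Λ b ≤ 1) (h T : ℕ) (dP dQ : B → W)
    (aP aQ : W → ℝ≥0∞)
    (hprod : ∀ x y, (∑' L : List B, if HT ht L = h ∧ DS dP L = x ∧ DS dQ L = y
      then LW Λ L else 0) = aP x * aQ y)
    (haP : ∑' y, aP y ≤ 1) (haQ : ∑' y, aQ y ≤ 1) (θ c u ε δ C lam : ℝ≥0∞)
    (hC0 : C ≠ 0) (hCt : C ≠ ⊤) (hl0 : lam ≠ 0) (hlt : lam ≠ ⊤)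
    (hlow : u * (∑' x, aP x) ≤ ∑' x, if aP x ≤ θ then aP x else 0)
    (hc : c ≤ (∑' x, aP x) * ∑' y, aQ y)
    (E : Finset W) (hE : ∀ x ∈ E, θ ≤ aP x) (Q : W → ℝ≥0∞) (hQ1 : ∀ w, Q w ≤ 1)
    (hH : ∀ (ν : W → ℝ≥0∞) (M : ℝ≥0∞), ∑' w, ν w ≤ 1 → (∀ w, ν w ≤ M) →
      ∑' w, ν w * Q w ≤ C * (lam + M * (E.card * δ) / lam))
    (hover : fps Λ ht h (fun P => if h + T < HT ht P then 1 else 0) ≤ ε) (J N : ℕ) (x : W)
    (hJ : J * (h + T) ≤ N) :
    fps Λ ht N (fun L => Q (x + DS dP L + DS dQ L))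
      ≤ 2 * C * lam + (1 - u * c) ^ J + J * (δ / (lam * lam) + ε) := by
  set φ : W → ℝ≥0∞ := fun w => Set.indicator {w | 2 * C * lam < Q w} (fun _ => (1 : ℝ≥0∞)) w
    with hφ
  have hΦ : ∑' w, φ w ≤ (E.card * δ) / (lam * lam) :=
    level_small Q C lam (E.card * δ) hC0 hCt hl0 hlt hH
  have hφ1 : ∀ w, φ w ≤ 1 := by
    intro w; simp only [hφ]; exact Set.indicator_le (fun _ _ => le_rfl) w
  have hQφ : ∀ w, Q w ≤ 2 * C * lam + φ w := by
    intro w
    by_cases hw : 2 * C * lam < Q w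
    · have : φ w = 1 := Set.indicator_of_mem (show w ∈ {w | 2 * C * lam < Q w} from hw) _
      rw [this]
      exact (hQ1 w).trans (le_add_left le_rfl)
    · exact (not_lt.1 hw).trans le_self_add
  have hr : u * c ≤ (∑' x, if aP x ≤ θ then aP x else 0) * ∑' y, aQ y := by
    calc u * c ≤ u * ((∑' x, aP x) * ∑' y, aQ y) := mul_le_mul_right hc _
      _ = (u * (∑' x, aP x)) * ∑' y, aQ y := by ring
      _ ≤ _ := mul_le_mul_left hlow _
  have hnon := nonhit_le Λ ht h1 hΛ h dP dQ aP aQ hprod θ (u * c) hr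
  have hV := V_le Λ ht h1 hΛ h T dP dQ aP aQ hprod haQ θ (1 - u * c) ε
    ((E.card * δ) / (lam * lam)) φ hφ1 hΦ tsub_le_self hover hnon J N x hJ
  calc fps Λ ht N (fun L => Q (x + DS dP L + DS dQ L))
      ≤ fps Λ ht N (fun L => 2 * C * lam + φ (x + DS dP L + DS dQ L)) :=
        fps_mono Λ ht N fun L _ => hQφ _
    _ = fps Λ ht N (fun _ => 2 * C * lam) + fps Λ ht N (fun L => φ (x + DS dP L + DS dQ L)) :=
        fps_add Λ ht N _ _
    _ ≤ 2 * C * lam + ((1 - u * c) ^ J + J * (θ * ((E.card * δ) / (lam * lam)) + ε)) :=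
        add_le_add (fps_const Λ ht h1 hΛ N _) hV
    _ ≤ 2 * C * lam + ((1 - u * c) ^ J + J * (δ / (lam * lam) + ε)) := by
        gcongr
        calc θ * ((E.card * δ) / (lam * lam)) = (E.card * θ) * δ / (lam * lam) := by
              rw [ENNReal.div_eq_inv_mul, ENNReal.div_eq_inv_mul]; ring
          _ ≤ 1 * δ / (lam * lam) := by
              gcongr
              exact card_th aP θ E hE haP
          _ = δ / (lam * lam) := by rw [one_mul]
    _ = _ := by ring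

open Classical in
/-- **one height**: both walkers -/
theorem height_le (h1 : ∀ b, 1 ≤ ht b) (hΛ : ∑' b, Λ b ≤ 1) (h T : ℕ) (dX dY : B → W)
    (aX aY : W → ℝ≥0∞)
    (hprod : ∀ x y, (∑' L : List B, if HT ht L = h ∧ DS dX L = x ∧ DS dY L = y
      then LW Λ L else 0) = aX x * aY y)
    (haX : ∑' y, aX y ≤ 1) (haY : ∑' y, aY y ≤ 1) (c u ε δ C lam : ℝ≥0∞)
    (hc0 : c ≠ 0) (hu0 : u ≠ 0) (hu1 : u < 1)
    (hC0 : C ≠ 0) (hCt : C ≠ ⊤) (hl0 : lam ≠ 0) (hlt : lam ≠ ⊤)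
    (hc : c ≤ (∑' x, aX x) * ∑' y, aY y) (gc : List B → W → Prop)
    (HX : ∀ (E : Finset W) (ν : W → ℝ≥0∞) (M : ℝ≥0∞), ∑' w, ν w ≤ 1 → (∀ w, ν w ≤ M) →
      ∑' w, ν w * (∑' L : List B, if HT ht L = h ∧ DS dX L ∈ E ∧ gc L w then LW Λ L else 0)
        ≤ C * (lam + M * (E.card * δ) / lam))
    (HY : ∀ (E : Finset W) (ν : W → ℝ≥0∞) (M : ℝ≥0∞), ∑' w, ν w ≤ 1 → (∀ w, ν w ≤ M) →
      ∑' w, ν w * (∑' L : List B, if HT ht L = h ∧ DS dY L ∈ E ∧ gc L w then LW Λ L else 0)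
        ≤ C * (lam + M * (E.card * δ) / lam))
    (hover : fps Λ ht h (fun P => if h + T < HT ht P then 1 else 0) ≤ ε) (J N : ℕ) (x : W)
    (hJ : J * (h + T) ≤ N) :
    fps Λ ht N (fun L1 => ∑' L : List B,
        if HT ht L = h ∧ gc L (x + DS dX L1 + DS dY L1) then LW Λ L else 0)
      ≤ u * u + 2 * (2 * C * lam + (1 - u * c) ^ J + J * (δ / (lam * lam) + ε)) := by
  have hAX0 : ∑' x, aX x ≠ 0 := by
    intro h0; rw [h0, zero_mul] at hc; exact hc0 (le_antisymm hc zero_le)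
  have hAY0 : ∑' x, aY x ≠ 0 := by
    intro h0; rw [h0, mul_zero] at hc; exact hc0 (le_antisymm hc zero_le)
  have hU : (∑' L : List B, if HT ht L = h then LW Λ L else 0) ≤ 1 := by
    have := prod_sum Λ ht h dX dY aX aY hprod (fun _ _ => 1)
    simp only [mul_one] at this
    rw [this]
    simp_rw [ENNReal.tsum_mul_left]
    rw [ENNReal.tsum_mul_right]
    calc _ ≤ (1 : ℝ≥0∞) * 1 := mul_le_mul' haX haY
      _ = 1 := one_mul 1
  obtain ⟨θX, hθX0, hX1, hX2⟩ := quant' aX hAX0 haX hu0 hu1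
  obtain ⟨θY, hθY0, hY1, hY2⟩ := quant' aY hAY0 haY hu0 hu1
  have hfX : {x | θX ≤ aX x}.Finite := ENNReal.finite_const_le_of_tsum_ne_top
    (ne_top_of_le_ne_top ENNReal.one_ne_top haX) hθX0
  have hfY : {x | θY ≤ aY x}.Finite := ENNReal.finite_const_le_of_tsum_ne_top
    (ne_top_of_le_ne_top ENNReal.one_ne_top haY) hθY0
  set EX := hfX.toFinset with hEX
  set EY := hfY.toFinset with hEY
  set QX : W → ℝ≥0∞ := fun w => ∑' L : List B,
    if HT ht L = h ∧ DS dX L ∈ EX ∧ gc L w then LW Λ L else 0 with hQX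
  set QY : W → ℝ≥0∞ := fun w => ∑' L : List B,
    if HT ht L = h ∧ DS dY L ∈ EY ∧ gc L w then LW Λ L else 0 with hQY
  have hprod' : ∀ x y, (∑' L : List B, if HT ht L = h ∧ DS dY L = x ∧ DS dX L = y
      then LW Λ L else 0) = aY x * aX y := by
    intro x y
    rw [mul_comm, ← hprod y x]
    refine tsum_congr fun L => ?_
    congr 1
    exact propext ⟨fun h => ⟨h.1, h.2.2, h.2.1⟩, fun h => ⟨h.1, h.2.2, h.2.1⟩⟩
  have hQX1 : ∀ w, QX w ≤ 1 := fun w => by
    refine le_trans (ENNReal.tsum_le_tsum fun L => ?_) hU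
    by_cases hL : HT ht L = h
    · rw [if_pos hL]; split_ifs <;> simp
    · rw [if_neg hL, if_neg (fun h' => hL h'.1)]
  have hQY1 : ∀ w, QY w ≤ 1 := fun w => by
    refine le_trans (ENNReal.tsum_le_tsum fun L => ?_) hU
    by_cases hL : HT ht L = h
    · rw [if_pos hL]; split_ifs <;> simp
    · rw [if_neg hL, if_neg (fun h' => hL h'.1)]
  have hNN : (∑' L : List B, if HT ht L = h ∧ DS dX L ∉ EX ∧ DS dY L ∉ EY then LW Λ L else 0)
      ≤ u * u := by
    have e := prod_sum Λ ht h dX dY aX aY hprod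
      (fun x y => if x ∉ EX ∧ y ∉ EY then 1 else 0)
    have e2 : (∑' L : List B, if HT ht L = h ∧ DS dX L ∉ EX ∧ DS dY L ∉ EY then LW Λ L else 0)
        = ∑' L : List B, (if HT ht L = h then LW Λ L *
          (if DS dX L ∉ EX ∧ DS dY L ∉ EY then 1 else 0) else 0) := by
      refine tsum_congr fun L => ?_
      by_cases hL : HT ht L = h
      · by_cases h2 : DS dX L ∉ EX ∧ DS dY L ∉ EY
        · rw [if_pos ⟨hL, h2⟩, if_pos hL, if_pos h2, mul_one]
        · rw [if_neg (fun h' => h2 h'.2), if_pos hL, if_neg h2, mul_zero]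
      · rw [if_neg (fun h' => hL h'.1), if_neg hL]
    rw [e2, e]
    calc ∑' x, ∑' y, aX x * aY y * (if x ∉ EX ∧ y ∉ EY then (1 : ℝ≥0∞) else 0)
        ≤ ∑' x, ∑' y, (if aX x < θX then aX x else 0) * (if aY y < θY then aY y else 0) := by
          refine ENNReal.tsum_le_tsum fun x => ENNReal.tsum_le_tsum fun y => ?_
          by_cases h2 : x ∉ EX ∧ y ∉ EY
          · have hx : aX x < θX := by
              by_contra hcon
              exact h2.1 (by rw [hEX, Set.Finite.mem_toFinset]; exact not_lt.1 hcon)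
            have hy : aY y < θY := by
              by_contra hcon
              exact h2.2 (by rw [hEY, Set.Finite.mem_toFinset]; exact not_lt.1 hcon)
            rw [if_pos h2, mul_one, if_pos hx, if_pos hy]
          · rw [if_neg h2, mul_zero]; exact zero_le
      _ = (∑' x, if aX x < θX then aX x else 0) * ∑' y, if aY y < θY then aY y else 0 := by
          simp_rw [ENNReal.tsum_mul_left]
          rw [ENNReal.tsum_mul_right]
      _ ≤ u * u := mul_le_mul' hX1 hY1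
  have hsplit : ∀ w, (∑' L : List B, if HT ht L = h ∧ gc L w then LW Λ L else 0)
      ≤ u * u + (QX w + QY w) := by
    intro w
    refine le_trans ?_ (add_le_add hNN le_rfl)
    rw [hQX, hQY]
    simp only
    rw [← ENNReal.tsum_add, ← ENNReal.tsum_add]
    refine ENNReal.tsum_le_tsum fun L => ?_
    by_cases hL : HT ht L = h ∧ gc L w
    · rw [if_pos hL]
      by_cases hx : DS dX L ∈ EX
      · rw [if_pos (show HT ht L = h ∧ DS dX L ∈ EX ∧ gc L w from ⟨hL.1, hx, hL.2⟩)]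
        exact le_add_left le_self_add
      · by_cases hy : DS dY L ∈ EY
        · rw [if_pos (show HT ht L = h ∧ DS dY L ∈ EY ∧ gc L w from ⟨hL.1, hy, hL.2⟩)]
          exact le_add_left (le_add_left le_rfl)
        · rw [if_pos (show HT ht L = h ∧ DS dX L ∉ EX ∧ DS dY L ∉ EY from ⟨hL.1, hx, hy⟩)]
          exact le_self_add
    · rw [if_neg hL]; exact zero_le
  have sX := side_le Λ ht h1 hΛ h T dX dY aX aY hprod haX haY θX c u ε δ C lam hC0 hCt hl0 hlt
    hX2 hc EX (fun x hx => (Set.Finite.mem_toFinset hfX).1 hx) QX hQX1 (HX EX) hover J N x hJ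
  have sY := side_le Λ ht h1 hΛ h T dY dX aY aX hprod' haY haX θY c u ε δ C lam hC0 hCt hl0 hlt
    hY2 (by rw [mul_comm]; exact hc) EY (fun x hx => (Set.Finite.mem_toFinset hfY).1 hx) QY hQY1
    (HY EY) hover J N x hJ
  have sY' : fps Λ ht N (fun L => QY (x + DS dX L + DS dY L))
      ≤ 2 * C * lam + (1 - u * c) ^ J + J * (δ / (lam * lam) + ε) := by
    refine le_trans (le_of_eq ?_) sY
    congr 1
    funext L
    congr 1
    abel
  calc _ ≤ fps Λ ht N (fun L1 => u * u + (QX (x + DS dX L1 + DS dY L1)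
          + QY (x + DS dX L1 + DS dY L1))) := fps_mono Λ ht N fun L _ => hsplit _
    _ = fps Λ ht N (fun _ => u * u) + (fps Λ ht N (fun L1 => QX (x + DS dX L1 + DS dY L1))
          + fps Λ ht N (fun L1 => QY (x + DS dX L1 + DS dY L1))) := by
        rw [fps_add Λ ht N (fun _ => u * u), fps_add]
    _ ≤ u * u + ((2 * C * lam + (1 - u * c) ^ J + J * (δ / (lam * lam) + ε))
          + (2 * C * lam + (1 - u * c) ^ J + J * (δ / (lam * lam) + ε))) :=
        add_le_add (fps_const Λ ht h1 hΛ N _) (add_le_add sX sY')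
    _ = _ := by ring

end Crest.Agent.R154.JA425
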