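import Crest.Agent.R154.JAsmC_407

/-! Row 154 (helper407), ROAD 801 in joint cuts, part D: first contact in one window. -/

set_option autoImplicit false

namespace Crest.Agent.R154.JAsm407

open scoped ENNReal
open Crest.Agent.R154.B5A Crest.Agent.R154.FP178

variable {B W : Type*} (Λ : B → ℝ≥0∞) (ht : B → ℕ) (dl : B → W → W) (cd : W → B → Set ℕ)

/-- the structural alternative -/
lemma alt (hcd : ∀ w b k, k ∈ cd w b → 1 ≤ k ∧ k ≤ ht b) (s A A' i0 r n : ℕ) (w : W)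
    (hA : 1 ≤ A) (hr : s + i0 ≤ r) (hAA : A + i0 < A') (hn : A' ≤ n) (L : List B)
    (hL : HT ht L = n) (hex : ∃ k ∈ CD ht dl cd L w, k ≤ A')
    (hall : ∀ k ∈ CD ht dl cd L w, A < k)
    (hT1 : ¬ ∃ k ∈ CD ht dl cd L w, A ≤ k ∧ k ≤ A + r)
    (hT2 : ¬ ∃ k ∈ CD ht dl cd L w, A' - r ≤ k ∧ k ≤ A' - r + (r + i0)) :
    (∃ t : List B × B × List B, t.1 ++ t.2.1 :: t.2.2 = L ∧
      (HT ht t.1 < A ∧ A ≤ HT ht t.1 + ht t.2.1 ∧ i0 < ht t.2.1 ∧
        HT ht t.1 + ht t.2.1 + HT ht t.2.2 = n)) ∨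
    (∃ t : List B × B × List B, t.1 ++ t.2.1 :: t.2.2 = L ∧
      (HT ht t.1 < A' ∧ A' ≤ HT ht t.1 + ht t.2.1 ∧ i0 < ht t.2.1 ∧
        HT ht t.1 + ht t.2.1 + HT ht t.2.2 = n)) ∨
    (∃ t : List B × B × List B × B × List B,
      t.1 ++ t.2.1 :: (t.2.2.1 ++ t.2.2.2.1 :: t.2.2.2.2) = L ∧
      Tc ht dl cd s A A' i0 n w t) := by
  obtain ⟨L1, b1, Q, e1, h1, h2⟩ := exists_strad ht L A hA (by omega)
  have hLQ : HT ht L1 + ht b1 + HT ht Q = n := by
    rw [← hL, e1, HT_append, HT_cons]; omega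
  by_cases hb1 : i0 < ht b1
  · exact Or.inl ⟨(L1, b1, Q), e1.symm, h1, h2, hb1, hLQ⟩
  right
  obtain ⟨L2, b2, L3, e2, h3, h4⟩ := exists_strad ht Q (A' - (HT ht L1 + ht b1)) (by omega)
    (by omega)
  have hQ : HT ht Q = HT ht L2 + ht b2 + HT ht L3 := by
    rw [e2, HT_append, HT_cons]; omega
  by_cases hb2 : i0 < ht b2
  · refine Or.inl ⟨(L1 ++ b1 :: L2, b2, L3), ?_, ?_⟩
    · simp only [e1, e2, List.append_assoc, List.cons_append]
    · simp only [HT_append, HT_cons]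
      refine ⟨by omega, by omega, hb2, by omega⟩
  right
  refine ⟨(L1, b1, L2, b2, L3), by simp only [e1, e2], ?_⟩
  have eL : L = (L1 ++ [b1]) ++ (L2 ++ b2 :: L3) := by
    rw [e1, e2]; simp
  have hP : HT ht (L1 ++ [b1]) = HT ht L1 + ht b1 := by
    rw [HT_append, HT_cons, HT_nil]; omega
  have hactP : act dl (L1 ++ [b1]) w = dl b1 (act dl L1 w) := by
    rw [act_append]; rfl
  have memL2 : ∀ k ∈ CD ht dl cd L2 (dl b1 (act dl L1 w)),
      HT ht L1 + ht b1 + k ∈ CD ht dl cd L w := by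
    intro k hk
    rw [eL, CD_append]
    right
    refine ⟨k, ?_, by rw [hP]⟩
    rw [CD_append, hactP]
    exact Or.inl hk
  refine ⟨h1, h2, by simp only; omega, by simp only; omega, by simp only; omega,
    by simp only; omega, ?_, ?_⟩
  · obtain ⟨k0, hk0, hk0'⟩ := hex
    have hA0 := hall k0 hk0
    have hk1 : A + r < k0 := by
      by_contra hh; exact hT1 ⟨k0, hk0, by omega, by omega⟩
    have hk2 : k0 < A' - r := by
      by_contra hh; exact hT2 ⟨k0, hk0, by omega, by omega⟩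
    rw [eL, CD_append] at hk0
    rcases hk0 with hk0 | ⟨k1, hk1', hk1e⟩
    · have := CD_pos ht dl cd hcd _ _ _ hk0
      rw [hP] at this
      omega
    · simp only at hk1e
      rw [hP] at hk1e
      rw [hactP, CD_append] at hk1'
      rcases hk1' with hk1' | ⟨k2, hk2', hk2e⟩
      · exact ⟨k1, hk1'⟩
      · have := CD_pos ht dl cd hcd _ _ _ hk2'
        simp only at hk2e
        omega
  · intro k hk
    have hm := memL2 k hk
    have hA0 := hall _ hm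
    have hk1 : A + r < HT ht L1 + ht b1 + k := by
      by_contra hh; exact hT1 ⟨_, hm, by omega, by omega⟩
    have hpos : 1 ≤ k ∧ k ≤ HT ht L2 := CD_pos ht dl cd hcd _ _ _ hk
    have hk2 : HT ht L1 + ht b1 + k < A' - r := by
      by_contra hh; exact hT2 ⟨_, hm, by omega, by omega⟩
    simp only
    omega

open Classical in
/-- first contact of depth in `(A, A']` -/
noncomputable def Vw (A A' n : ℕ) (w : W) : ℝ≥0∞ :=
  ∑' L : List B, if HT ht L = n ∧ (∀ k ∈ CD ht dl cd L w, A < k) ∧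
    ∃ k ∈ CD ht dl cd L w, k ≤ A' then LW Λ L else 0

open Classical in
/-- contact of depth in `[D, D + r]` -/
noncomputable def Thin (D r n : ℕ) (w : W) : ℝ≥0∞ :=
  ∑' L : List B, if HT ht L = n ∧ ∃ k ∈ CD ht dl cd L w, D ≤ k ∧ k ≤ D + r then LW Λ L else 0

open Classical in
/-- **one window**. -/
theorem V_le (hcd : ∀ w b k, k ∈ cd w b → 1 ≤ k ∧ k ≤ ht b) (hU1 : ∀ n, U Λ ht n ≤ 1)
    (E Z : ℝ≥0∞) (hE : ∑' k, tail Λ ht k ≤ E) (hE' : ∑' b, Λ b * (ht b : ℝ≥0∞) ≤ E)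
    (s A A' i0 r n : ℕ) (w : W)
    (hA : 1 ≤ A) (hr : s + i0 ≤ r) (hAA : A + i0 < A') (hn : A' ≤ n)
    (hZ : ∀ b N h, N < A → A ≤ N + ht b → ht b ≤ i0 → N + ht b + h < A' →
      Zs Λ ht dl cd s N h b w ≤ Z) :
    Vw Λ ht dl cd A A' n w ≤ Thin Λ ht dl cd A r n w + Thin Λ ht dl cd (A' - r) (r + i0) n w
      + 2 * (∑' b, (if i0 < ht b then Λ b * (ht b : ℝ≥0∞) else 0)) + E * E * Z := by
  have hpt : ∀ L : List B, (if HT ht L = n ∧ (∀ k ∈ CD ht dl cd L w, A < k) ∧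
      ∃ k ∈ CD ht dl cd L w, k ≤ A' then LW Λ L else 0) ≤
      (if HT ht L = n ∧ ∃ k ∈ CD ht dl cd L w, A ≤ k ∧ k ≤ A + r then LW Λ L else 0) +
      (if HT ht L = n ∧ ∃ k ∈ CD ht dl cd L w, A' - r ≤ k ∧ k ≤ A' - r + (r + i0)
        then LW Λ L else 0) +
      ((if ∃ t : List B × B × List B, t.1 ++ t.2.1 :: t.2.2 = L ∧
        (HT ht t.1 < A ∧ A ≤ HT ht t.1 + ht t.2.1 ∧ i0 < ht t.2.1 ∧
        HT ht t.1 + ht t.2.1 + HT ht t.2.2 = n) then LW Λ L else 0) +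
      (if ∃ t : List B × B × List B, t.1 ++ t.2.1 :: t.2.2 = L ∧
        (HT ht t.1 < A' ∧ A' ≤ HT ht t.1 + ht t.2.1 ∧ i0 < ht t.2.1 ∧
        HT ht t.1 + ht t.2.1 + HT ht t.2.2 = n) then LW Λ L else 0)) +
      (if ∃ t : List B × B × List B × B × List B,
        t.1 ++ t.2.1 :: (t.2.2.1 ++ t.2.2.2.1 :: t.2.2.2.2) = L ∧
        Tc ht dl cd s A A' i0 n w t then LW Λ L else 0) := by
    intro L
    by_cases hc : HT ht L = n ∧ (∀ k ∈ CD ht dl cd L w, A < k) ∧ ∃ k ∈ CD ht dl cd L w, k ≤ A'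
    · rw [if_pos hc]
      by_cases hT1 : ∃ k ∈ CD ht dl cd L w, A ≤ k ∧ k ≤ A + r
      · rw [if_pos (⟨hc.1, hT1⟩ : HT ht L = n ∧ ∃ k ∈ CD ht dl cd L w, A ≤ k ∧ k ≤ A + r)]
        rw [add_assoc, add_assoc]; exact le_self_add
      by_cases hT2 : ∃ k ∈ CD ht dl cd L w, A' - r ≤ k ∧ k ≤ A' - r + (r + i0)
      · rw [if_pos (⟨hc.1, hT2⟩ : HT ht L = n ∧
          ∃ k ∈ CD ht dl cd L w, A' - r ≤ k ∧ k ≤ A' - r + (r + i0))]
        exact le_trans (le_trans le_add_self le_self_add) le_self_add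
      rcases alt ht dl cd hcd s A A' i0 r n w hA hr hAA hn L hc.1 hc.2.2 hc.2.1 hT1 hT2 with
        h | h | h
      · rw [if_pos h]
        exact le_trans (le_trans le_self_add le_add_self) le_self_add
      · rw [if_pos h]
        exact le_trans (le_trans le_add_self le_add_self) le_self_add
      · rw [if_pos h]
        exact le_add_self
    · rw [if_neg hc]; exact zero_le
  calc Vw Λ ht dl cd A A' n w ≤ _ := ENNReal.tsum_le_tsum hpt
    _ ≤ Thin Λ ht dl cd A r n w + Thin Λ ht dl cd (A' - r) (r + i0) n w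
      + ((∑' b, (if i0 < ht b then Λ b * (ht b : ℝ≥0∞) else 0))
      + (∑' b, (if i0 < ht b then Λ b * (ht b : ℝ≥0∞) else 0))) + E * E * Z := by
        simp only [ENNReal.tsum_add]
        refine add_le_add (add_le_add (le_of_eq rfl) (add_le_add ?_ ?_)) ?_
        · refine le_trans (sum_ex (fun t : List B × B × List B => t.1 ++ t.2.1 :: t.2.2) _ _) ?_
          refine le_trans (le_of_eq (tsum_congr fun t => ?_)) (S1_le Λ ht hU1 A n i0)
          split_ifs <;> rfl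
        · refine le_trans (sum_ex (fun t : List B × B × List B => t.1 ++ t.2.1 :: t.2.2) _ _) ?_
          refine le_trans (le_of_eq (tsum_congr fun t => ?_)) (S1_le Λ ht hU1 A' n i0)
          split_ifs <;> rfl
        · refine le_trans (sum_ex (fun t : List B × B × List B × B × List B =>
            t.1 ++ t.2.1 :: (t.2.2.1 ++ t.2.2.2.1 :: t.2.2.2.2)) _ _) ?_
          exact S3_le Λ ht dl cd hU1 E Z hE hE' s A A' i0 n w hZ
    _ = _ := by rw [two_mul]

end Crest.Agent.R154.JAsm407
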