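import Crest.Agent.R154.JAsmC_425

/-! Row 154 (helper425): joint-cut assembly, part D: one window. -/

set_option autoImplicit false

namespace Crest.Agent.R154.JA425

open scoped ENNReal
open Crest.Agent.R154.B5A

variable {B : Type*} (Λ : B → ℝ≥0∞) (ht : B → ℕ)

lemma tsum_cover' {ι : Type*} (f : List B → ℝ≥0∞) (g : ι → ℝ≥0∞) (c : ι → List B)
    (hc : ∀ L, f L ≠ 0 → ∃ i, c i = L ∧ f L ≤ g i) : ∑' L, f L ≤ ∑' i, g i := by
  classical
  choose p hp using hc
  calc ∑' L, f L = ∑' L : {L // f L ≠ 0}, f L.1 := by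
        rw [← tsum_subtype_eq_of_support_subset (s := {L | f L ≠ 0})]
        · rfl
        · intro L hL; exact hL
    _ ≤ ∑' L : {L // f L ≠ 0}, g (p L.1 L.2) := by
        refine ENNReal.tsum_le_tsum fun L => ?_
        exact (hp L.1 L.2).2
    _ ≤ ∑' i, g i := by
        refine ENNReal.tsum_comp_le_tsum_of_injective (f := fun L : {L // f L ≠ 0} => p L.1 L.2)
          ?_ g
        intro L L' h
        have h2 : c (p L.1 L.2) = c (p L'.1 L'.2) := congrArg c h
        rw [(hp L.1 L.2).1, (hp L'.1 L'.2).1] at h2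
        exact Subtype.ext h2

lemma fps_sum {ι : Type*} (N : ℕ) (s : Finset ι) (F : ι → List B → ℝ≥0∞) :
    fps Λ ht N (fun L => ∑ i ∈ s, F i L) = ∑ i ∈ s, fps Λ ht N (F i) := by
  classical
  induction s using Finset.induction_on with
  | empty => simp [fps]
  | insert a s ha ih =>
    simp only [Finset.sum_insert ha]
    rw [fps_add, ih]

open Classical in
/-- decomposition: first passage of `a`, piece, straddling block, rest -/
lemma dec_le (hU1 : ∀ n, U Λ ht n ≤ 1) (n a T : ℕ) (R0 : List B → List B → Prop) :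
    (∑' L : List B, if HT ht L = n ∧ (∃ L1 P b R, L = L1 ++ (P ++ b :: R) ∧ inFP ht a L1 ∧
      HT ht P ≤ T ∧ T < HT ht P + ht b ∧ R0 L1 P) then LW Λ L else 0)
      ≤ fps Λ ht a (fun L1 => ∑' P : List B,
        if HT ht P ≤ T ∧ R0 L1 P then LW Λ P * tail Λ ht (T - HT ht P) else 0) := by
  set g : List B × List B × B × List B → ℝ≥0∞ := fun i =>
    if inFP ht a i.1 ∧ HT ht i.2.1 ≤ T ∧ T < HT ht i.2.1 + ht i.2.2.1 ∧ R0 i.1 i.2.1 ∧
      HT ht (i.1 ++ (i.2.1 ++ i.2.2.1 :: i.2.2.2)) = n then
      LW Λ (i.1 ++ (i.2.1 ++ i.2.2.1 :: i.2.2.2)) else 0 with hg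
  refine le_trans (tsum_cover' _ g (fun i => i.1 ++ (i.2.1 ++ i.2.2.1 :: i.2.2.2)) ?_) ?_
  · intro L hL
    have hL' : HT ht L = n ∧ (∃ L1 P b R, L = L1 ++ (P ++ b :: R) ∧ inFP ht a L1 ∧
      HT ht P ≤ T ∧ T < HT ht P + ht b ∧ R0 L1 P) := by
      by_contra hcon
      exact hL (if_neg hcon)
    rw [if_pos hL']
    obtain ⟨hn, L1, P, b, R, e, h1, h2, h3, h4⟩ := hL'
    refine ⟨(L1, P, b, R), e.symm, ?_⟩
    simp only [hg]
    rw [if_pos ⟨h1, h2, h3, h4, by rw [← e]; exact hn⟩, ← e]
  · have hR : ∀ (L1 P : List B) (b : B), ∑' R : List B, g (L1, P, b, R)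
        ≤ (if inFP ht a L1 then LW Λ L1 else 0) * ((if HT ht P ≤ T ∧ R0 L1 P then LW Λ P else 0)
          * (if T - HT ht P < ht b then Λ b else 0)) := by
      intro L1 P b
      by_cases hc : inFP ht a L1 ∧ (HT ht P ≤ T ∧ R0 L1 P) ∧ T - HT ht P < ht b
      · rw [if_pos hc.1, if_pos hc.2.1, if_pos hc.2.2]
        calc ∑' R : List B, g (L1, P, b, R)
            ≤ ∑' R : List B, (LW Λ L1 * (LW Λ P * Λ b)) *
              (if HT ht R = n - (HT ht L1 + (HT ht P + ht b)) then LW Λ R else 0) := by
              refine ENNReal.tsum_le_tsum fun R => ?_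
              simp only [hg]
              split_ifs with h h'
              · rw [LW_append, LW_append, LW_cons]
                apply le_of_eq; ring
              · exfalso
                apply h'
                have := h.2.2.2.2
                rw [HT_append, HT_append, HT_cons] at this
                omega
              · exact zero_le
              · exact zero_le
          _ = (LW Λ L1 * (LW Λ P * Λ b)) * U Λ ht (n - (HT ht L1 + (HT ht P + ht b))) := by
              rw [ENNReal.tsum_mul_left]; rfl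
          _ ≤ (LW Λ L1 * (LW Λ P * Λ b)) * 1 := mul_le_mul_right (hU1 _) _
          _ = _ := mul_one _
      · refine le_trans (le_of_eq ?_) zero_le
        rw [ENNReal.tsum_eq_zero]
        intro R
        simp only [hg]
        rw [if_neg]
        rintro ⟨h1, h2, h3, h4, -⟩
        exact hc ⟨h1, ⟨h2, h4⟩, by omega⟩
    rw [ENNReal.tsum_prod', fps]
    refine ENNReal.tsum_le_tsum fun L1 => ?_
    rw [ENNReal.tsum_prod']
    have h2 : ∀ P : List B, ∑' i : B × List B, g (L1, P, i.1, i.2)
        ≤ (if inFP ht a L1 then LW Λ L1 else 0) *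
          ((if HT ht P ≤ T ∧ R0 L1 P then LW Λ P * tail Λ ht (T - HT ht P) else 0)) := by
      intro P
      rw [ENNReal.tsum_prod']
      refine le_trans (ENNReal.tsum_le_tsum fun b => hR L1 P b) (le_of_eq ?_)
      rw [ENNReal.tsum_mul_left, ENNReal.tsum_mul_left]
      congr 1
      by_cases hP : HT ht P ≤ T ∧ R0 L1 P
      · rw [if_pos hP, if_pos hP]; rfl
      · rw [if_neg hP, if_neg hP, zero_mul]
    refine le_trans (ENNReal.tsum_le_tsum fun P => h2 P) (le_of_eq ?_)
    rw [ENNReal.tsum_mul_left]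
    by_cases hL1 : inFP ht a L1
    · rw [if_pos hL1, if_pos hL1]
    · rw [if_neg hL1, if_neg hL1, zero_mul]

open Classical in
/-- the first passage overshoots -/
lemma over_le (hU1 : ∀ n, U Λ ht n ≤ 1) (n a g : ℕ) :
    (∑' L : List B, if HT ht L = n ∧ (∃ L1 L2, L = L1 ++ L2 ∧ inFP ht a L1 ∧
      a + g < HT ht L1) then LW Λ L else 0) ≤ eta Λ ht g := by
  set G : List B × List B → ℝ≥0∞ := fun i =>
    if inFP ht a i.1 ∧ a + g < HT ht i.1 ∧ HT ht (i.1 ++ i.2) = n then LW Λ (i.1 ++ i.2) else 0
    with hG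
  refine le_trans (tsum_cover' _ G (fun i => i.1 ++ i.2) ?_) ?_
  · intro L hL
    have hL' : HT ht L = n ∧ (∃ L1 L2, L = L1 ++ L2 ∧ inFP ht a L1 ∧ a + g < HT ht L1) := by
      by_contra hcon
      exact hL (if_neg hcon)
    rw [if_pos hL']
    obtain ⟨hn, L1, L2, e, h1, h2⟩ := hL'
    refine ⟨(L1, L2), e.symm, ?_⟩
    simp only [hG]
    rw [if_pos ⟨h1, h2, by rw [← e]; exact hn⟩, ← e]
  · refine le_trans ?_ (fps_over Λ ht hU1 a g)
    rw [ENNReal.tsum_prod', fps]
    refine ENNReal.tsum_le_tsum fun L1 => ?_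
    by_cases hc : inFP ht a L1 ∧ a + g < HT ht L1
    · rw [if_pos hc.1, if_pos hc.2, mul_one]
      calc ∑' L2 : List B, G (L1, L2)
          ≤ ∑' L2 : List B, LW Λ L1 * (if HT ht L2 = n - HT ht L1 then LW Λ L2 else 0) := by
            refine ENNReal.tsum_le_tsum fun L2 => ?_
            simp only [hG]
            split_ifs with h h'
            · rw [LW_append]
            · exfalso
              apply h'
              have := h.2.2
              rw [HT_append] at this
              omega
            · exact zero_le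
            · exact zero_le
        _ = LW Λ L1 * U Λ ht (n - HT ht L1) := by rw [ENNReal.tsum_mul_left]; rfl
        _ ≤ LW Λ L1 * 1 := mul_le_mul_right (hU1 _) _
        _ = _ := mul_one _
    · refine le_trans (le_of_eq ?_) zero_le
      rw [ENNReal.tsum_eq_zero]
      intro L2
      simp only [hG]
      rw [if_neg]
      rintro ⟨h1, h2, -⟩
      exact hc ⟨h1, h2⟩

open Classical in
/-- sums over pieces by height -/
lemma piece_sum (T : ℕ) (R0 : List B → Prop) :
    (∑' P : List B, if HT ht P ≤ T ∧ R0 P then LW Λ P * tail Λ ht (T - HT ht P) else 0)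
      = ∑ h ∈ Finset.range (T + 1), tail Λ ht (T - h) *
        ∑' P : List B, if HT ht P = h ∧ R0 P then LW Λ P else 0 := by
  have h2 : ∀ P : List B, (if HT ht P ≤ T ∧ R0 P then LW Λ P * tail Λ ht (T - HT ht P) else 0)
      = ∑ h ∈ Finset.range (T + 1), tail Λ ht (T - h) *
        (if HT ht P = h ∧ R0 P then LW Λ P else 0) := by
    intro P
    by_cases hP : HT ht P ≤ T ∧ R0 P
    · rw [if_pos hP, Finset.sum_eq_single (HT ht P)]
      · rw [if_pos ⟨rfl, hP.2⟩, mul_comm]
      · intro q _ hq; rw [if_neg (fun h' => hq h'.1.symm), mul_zero]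
      · intro h; exact absurd (Finset.mem_range.2 (by have := hP.1; omega)) h
    · rw [if_neg hP, Finset.sum_eq_zero]
      intro q hq
      rw [if_neg, mul_zero]
      rintro ⟨h1, h2⟩
      exact hP ⟨by have := Finset.mem_range.1 hq; omega, h2⟩
  simp_rw [h2]
  rw [Summable.tsum_finsetSum (fun _ _ => ENNReal.summable)]
  refine Finset.sum_congr rfl fun h _ => ?_
  rw [ENNReal.tsum_mul_left]

open Classical in
/-- the gap below the piece is long -/
lemma gap_le (hU1 : ∀ n, U Λ ht n ≤ 1) (h1 : ∀ b, 1 ≤ ht b) (hΛ : ∑' b, Λ b ≤ 1) (n a T g : ℕ) :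
    (∑' L : List B, if HT ht L = n ∧ (∃ L1 P b R, L = L1 ++ (P ++ b :: R) ∧ inFP ht a L1 ∧
      HT ht P ≤ T ∧ T < HT ht P + ht b ∧ HT ht P + g < T) then LW Λ L else 0) ≤ eta Λ ht g := by
  refine le_trans (dec_le Λ ht hU1 n a T (fun _ P => HT ht P + g < T)) ?_
  refine le_trans ?_ (fps_const Λ ht h1 hΛ a (eta Λ ht g))
  refine fps_mono Λ ht a fun L1 _ => ?_
  rw [piece_sum Λ ht T (fun P => HT ht P + g < T)]
  refine le_trans (Finset.sum_le_sum (g := fun h => if h + g < T then tail Λ ht (T - h) else 0)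
    fun h _ => ?_) ?_
  · by_cases hg : h + g < T
    · simp only [if_pos hg]
      refine le_trans (mul_le_mul' le_rfl ?_) (le_of_eq (mul_one _))
      refine le_trans (ENNReal.tsum_le_tsum fun P => ?_) (hU1 h)
      by_cases hP : HT ht P = h
      · rw [if_pos hP]; split_ifs <;> simp
      · rw [if_neg hP, if_neg (fun h' => hP h'.1)]
    · simp only [if_neg hg]
      refine le_of_eq ?_
      rw [ENNReal.tsum_eq_zero.2, mul_zero]
      intro P
      rw [if_neg]
      rintro ⟨h1, h2⟩
      omega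
  calc ∑ h ∈ Finset.range (T + 1), (if h + g < T then tail Λ ht (T - h) else 0)
    _ = ∑ j ∈ Finset.range (T + 1), (if g < j then tail Λ ht j else 0) := by
        rw [← Finset.sum_range_reflect]
        refine Finset.sum_congr rfl fun j hj => ?_
        have := Finset.mem_range.1 hj
        by_cases hg : g < j
        · rw [if_pos (by omega), if_pos hg]; congr 1; omega
        · rw [if_neg (by omega), if_neg hg]
    _ = ∑ j ∈ (Finset.range (T + 1)).filter (fun j => g < j), tail Λ ht j :=
        (Finset.sum_filter _ _).symm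
    _ ≤ ∑ j ∈ (Finset.range (T + 1)).image (fun k => k + g), tail Λ ht j := by
        refine Finset.sum_le_sum_of_subset ?_
        intro j hj
        rw [Finset.mem_filter, Finset.mem_range] at hj
        rw [Finset.mem_image]
        exact ⟨j - g, Finset.mem_range.2 (by omega), by omega⟩
    _ = ∑ k ∈ Finset.range (T + 1), tail Λ ht (k + g) :=
        Finset.sum_image (fun a _ b _ h => by simpa using h)
    _ ≤ eta Λ ht g := by
        rw [eta]
        exact ENNReal.sum_le_tsum _

end Crest.Agent.R154.JA425
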