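import Crest.Agent.R154.JAsmD_425

/-! Row 154 (helper425): joint-cut assembly, part E: sum over windows. -/

set_option autoImplicit false

namespace Crest.Agent.R154.JA425

open scoped ENNReal
open Crest.Agent.R154.B5A

variable {B : Type*} (Λ : B → ℝ≥0∞) (ht : B → ℕ) {W : Type*} [AddCommGroup W]
  (dl : B → W → W) (cd : W → B → Set ℕ)

omit [AddCommGroup W] in
/-- all contacts of the piece are deep -/
def GC (s h : ℕ) (L : List B) (w : W) : Prop :=
  (CD ht dl cd L w).Nonempty ∧ ∀ k ∈ CD ht dl cd L w, s ≤ k ∧ k + s ≤ h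

lemma act_eq (dX dY : B → W) (hdl : ∀ b w, dl b w = w + dX b + dY b) (L : List B) (w : W) :
    act dl L w = w + DS dX L + DS dY L := by
  induction L generalizing w with
  | nil => simp [act, DS]
  | cons b L ih =>
    rw [act, ih, hdl]
    simp only [DS, List.map_cons, List.sum_cons]
    abel

open Classical in
omit [AddCommGroup W] in
lemma win_E (hU1 : ∀ n, U Λ ht n ≤ 1) (n a T s : ℕ) (w : W) (Bd : ℝ≥0∞)
    (hBd : ∀ h, h ≤ T → fps Λ ht a (fun L1 => ∑' P : List B,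
      if HT ht P = h ∧ GC ht dl cd s h P (act dl L1 w) then LW Λ P else 0) ≤ Bd) :
    (∑' L : List B, if HT ht L = n ∧ (∃ L1 P b R, L = L1 ++ (P ++ b :: R) ∧ inFP ht a L1 ∧
      HT ht P ≤ T ∧ T < HT ht P + ht b ∧ GC ht dl cd s (HT ht P) P (act dl L1 w))
      then LW Λ L else 0) ≤ (∑' k, tail Λ ht k) * Bd := by
  refine le_trans (dec_le Λ ht hU1 n a T
    (fun L1 P => GC ht dl cd s (HT ht P) P (act dl L1 w))) ?_
  have e : ∀ L1 : List B, (∑' P : List B, if HT ht P ≤ T ∧ GC ht dl cd s (HT ht P) P (act dl L1 w)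
        then LW Λ P * tail Λ ht (T - HT ht P) else 0)
      = ∑ h ∈ Finset.range (T + 1), tail Λ ht (T - h) *
        ∑' P : List B, if HT ht P = h ∧ GC ht dl cd s h P (act dl L1 w) then LW Λ P else 0 := by
    intro L1
    rw [piece_sum Λ ht T (fun P => GC ht dl cd s (HT ht P) P (act dl L1 w))]
    refine Finset.sum_congr rfl fun h _ => ?_
    congr 1
    refine tsum_congr fun P => ?_
    by_cases hP : HT ht P = h
    · subst hP; rfl
    · rw [if_neg (fun h' => hP h'.1), if_neg (fun h' => hP h'.1)]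
  simp_rw [e]
  rw [fps_sum]
  simp_rw [fps_mul]
  calc ∑ h ∈ Finset.range (T + 1), tail Λ ht (T - h) * fps Λ ht a (fun L1 => ∑' P : List B,
        if HT ht P = h ∧ GC ht dl cd s h P (act dl L1 w) then LW Λ P else 0)
      ≤ ∑ h ∈ Finset.range (T + 1), tail Λ ht (T - h) * Bd :=
        Finset.sum_le_sum fun h hh => mul_le_mul' le_rfl
          (hBd h (by have := Finset.mem_range.1 hh; omega))
    _ = (∑ h ∈ Finset.range (T + 1), tail Λ ht h) * Bd := by
        rw [← Finset.sum_mul]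
        congr 1
        rw [← Finset.sum_range_reflect]
        refine Finset.sum_congr rfl fun j hj => ?_
        have := Finset.mem_range.1 hj
        congr 1; omega
    _ ≤ _ := mul_le_mul' (ENNReal.sum_le_tsum _) le_rfl

omit [AddCommGroup W] in
/-- geometry of one contact -/
lemma contact_cases (hcd : ∀ w b k, k ∈ cd w b → 1 ≤ k ∧ k ≤ ht b)
    (L : List B) (w : W) (κ t g s q : ℕ) (hgs : g + s < t) (hq2 : 2 ≤ q)
    (hκ : κ ∈ CD ht dl cd L w) (h1 : q * t ≤ κ) (h2 : κ < (q + 1) * t)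
    (hn : (q + 3) * t < HT ht L) :
    (∃ k ∈ CD ht dl cd L w, (q - 2) * t < k ∧ k ≤ (q - 2) * t + (g + s)) ∨
    (∃ k ∈ CD ht dl cd L w, (q - 2) * t + (4 * t - g - s) < k ∧
      k ≤ (q - 2) * t + (4 * t - g - s) + (2 * g + s)) ∨
    (∃ L1 L2, L = L1 ++ L2 ∧ inFP ht ((q - 2) * t) L1 ∧ (q - 2) * t + g < HT ht L1) ∨
    (∃ L1 P b R, L = L1 ++ (P ++ b :: R) ∧ inFP ht ((q - 2) * t) L1 ∧
      HT ht P ≤ 4 * t ∧ 4 * t < HT ht P + ht b ∧ HT ht P + g < 4 * t) ∨
    (∃ L1 P b R, L = L1 ++ (P ++ b :: R) ∧ inFP ht ((q - 2) * t) L1 ∧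
      HT ht P ≤ 4 * t ∧ 4 * t < HT ht P + ht b ∧ GC ht dl cd s (HT ht P) P (act dl L1 w)) := by
  obtain ⟨k, rfl⟩ : ∃ k, q = k + 2 := ⟨q - 2, by omega⟩
  have ek : k + 2 - 2 = k := by omega
  rw [ek]
  have e1 : (k + 2) * t = k * t + 2 * t := by ring
  have e2 : (k + 2 + 1) * t = k * t + 3 * t := by ring
  have e3 : (k + 2 + 3) * t = k * t + 5 * t := by ring
  rw [e1] at h1
  rw [e2] at h2
  rw [e3] at hn
  set a := k * t with ha
  by_cases hA : ∃ k ∈ CD ht dl cd L w, a < k ∧ k ≤ a + (g + s)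
  · exact Or.inl hA
  by_cases hB : ∃ k ∈ CD ht dl cd L w, a + (4 * t - g - s) < k ∧
      k ≤ a + (4 * t - g - s) + (2 * g + s)
  · exact Or.inr (Or.inl hB)
  obtain ⟨L1, L2, eL, hF⟩ := exists_FP ht a L (by omega)
  have hL1 := HT_ge_of_inFP ht a L1 hF
  by_cases hC : a + g < HT ht L1
  · exact Or.inr (Or.inr (Or.inl ⟨L1, L2, eL, hF, hC⟩))
  have hHT : HT ht L = HT ht L1 + HT ht L2 := by rw [eL, HT_append]
  obtain ⟨P, b, R, eL2, hP1, hP2⟩ := exists_piece ht (4 * t) L2 (by omega)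
  have eL' : L = L1 ++ (P ++ b :: R) := by rw [eL, eL2]
  by_cases hD : HT ht P + g < 4 * t
  · exact Or.inr (Or.inr (Or.inr (Or.inl ⟨L1, P, b, R, eL', hF, hP1, hP2, hD⟩)))
  refine Or.inr (Or.inr (Or.inr (Or.inr ⟨L1, P, b, R, eL', hF, hP1, hP2, ?_⟩)))
  have hmem : ∀ j ∈ CD ht dl cd P (act dl L1 w), HT ht L1 + j ∈ CD ht dl cd L w := by
    intro j hj
    rw [eL', CD_append]
    refine Or.inr ⟨j, ?_, rfl⟩
    rw [CD_append]
    exact Or.inl hj
  constructor
  · rw [eL', CD_append] at hκ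
    rcases hκ with hκ | ⟨κ', hκ', e⟩
    · have := CD_pos ht dl cd hcd L1 w κ hκ
      omega
    · rw [CD_append] at hκ'
      rcases hκ' with hκ' | ⟨κ'', hκ'', e'⟩
      · exact ⟨κ', hκ'⟩
      · have := CD_pos ht dl cd hcd _ _ κ'' hκ''
        simp only at e e'
        omega
  · intro j hj
    have hj1 := CD_pos ht dl cd hcd P _ j hj
    have hm := hmem j hj
    have hA' : ¬ (a < HT ht L1 + j ∧ HT ht L1 + j ≤ a + (g + s)) := fun h => hA ⟨_, hm, h⟩
    have hB' : ¬ (a + (4 * t - g - s) < HT ht L1 + j ∧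
      HT ht L1 + j ≤ a + (4 * t - g - s) + (2 * g + s)) := fun h => hB ⟨_, hm, h⟩
    constructor <;> omega

open Classical in
omit [AddCommGroup W] in
/-- **sum over windows** -/
lemma kap_le (h1 : ∀ b, 1 ≤ ht b) (hΛ : ∑' b, Λ b ≤ 1) (hU1 : ∀ n, U Λ ht n ≤ 1)
    (hcd : ∀ w b k, k ∈ cd w b → 1 ≤ k ∧ k ≤ ht b)
    (n m t g s k0 N0 : ℕ) (w : W) (hgs : g + s < t) (hk0 : (k0 + 2) * t ≤ m)
    (hN0 : 2 * m < (N0 + 2) * t) (hn : (N0 + 5) * t < n) (Bd ε' : ℝ≥0∞)
    (hBd : ∀ k, k0 ≤ k → ∀ h, h ≤ 4 * t → fps Λ ht (k * t) (fun L1 => ∑' P : List B,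
      if HT ht P = h ∧ GC ht dl cd s h P (act dl L1 w) then LW Λ P else 0) ≤ Bd)
    (hA : ∀ D, k0 * t ≤ D → (∑' L : List B, if HT ht L = n ∧ ∃ k ∈ CD ht dl cd L w,
      D < k ∧ k ≤ D + (2 * g + s) then LW Λ L else 0) ≤ ε') :
    Kap Λ ht dl cd n m w ≤ (N0 : ℝ≥0∞) * (ε' + ε' + eta Λ ht g + eta Λ ht g
      + (∑' k, tail Λ ht k) * Bd) := by
  set F : ℕ → List B → ℝ≥0∞ := fun k L =>
    (if HT ht L = n ∧ ∃ j ∈ CD ht dl cd L w, k * t < j ∧ j ≤ k * t + (2 * g + s)
      then LW Λ L else 0)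
    + (if HT ht L = n ∧ ∃ j ∈ CD ht dl cd L w, k * t + (4 * t - g - s) < j ∧
      j ≤ k * t + (4 * t - g - s) + (2 * g + s) then LW Λ L else 0)
    + (if HT ht L = n ∧ (∃ L1 L2, L = L1 ++ L2 ∧ inFP ht (k * t) L1 ∧
      k * t + g < HT ht L1) then LW Λ L else 0)
    + (if HT ht L = n ∧ (∃ L1 P b R, L = L1 ++ (P ++ b :: R) ∧ inFP ht (k * t) L1 ∧
      HT ht P ≤ 4 * t ∧ 4 * t < HT ht P + ht b ∧ HT ht P + g < 4 * t) then LW Λ L else 0)
    + (if HT ht L = n ∧ (∃ L1 P b R, L = L1 ++ (P ++ b :: R) ∧ inFP ht (k * t) L1 ∧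
      HT ht P ≤ 4 * t ∧ 4 * t < HT ht P + ht b ∧ GC ht dl cd s (HT ht P) P (act dl L1 w))
      then LW Λ L else 0) with hF
  set S := (Finset.range N0).filter (fun k => k0 ≤ k) with hS
  have hpt : ∀ L : List B, (if HT ht L = n ∧ ∃ k ∈ CD ht dl cd L w, m < k ∧ k ≤ 2 * m
      then LW Λ L else 0) ≤ ∑ k ∈ S, F k L := by
    intro L
    by_cases hL : HT ht L = n ∧ ∃ k ∈ CD ht dl cd L w, m < k ∧ k ≤ 2 * m
    · rw [if_pos hL]
      obtain ⟨hLn, κ, hκ, hm1, hm2⟩ := hL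
      have ht0 : 0 < t := by omega
      have hq1 : κ / t * t ≤ κ := Nat.div_mul_le_self κ t
      have hq2 : κ < (κ / t + 1) * t := by
        rw [mul_comm]
        exact Nat.lt_mul_div_succ κ ht0
      have hqlow : k0 + 2 ≤ κ / t := by
        rw [Nat.le_div_iff_mul_le ht0]
        omega
      have hqup : κ / t < N0 + 2 := by
        rw [Nat.div_lt_iff_lt_mul ht0]
        omega
      set q := κ / t with hq
      have hqn : (q + 3) * t < HT ht L := by
        rw [hLn]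
        refine lt_of_le_of_lt (Nat.mul_le_mul_right t ?_) hn
        omega
      have hk : q - 2 ∈ S := by
        rw [hS, Finset.mem_filter, Finset.mem_range]
        omega
      refine le_trans ?_ (Finset.single_le_sum (f := fun k => F k L) (fun _ _ => zero_le) hk)
      simp only [hF]
      rcases contact_cases ht dl cd hcd L w κ t g s q hgs (by omega) hκ hq1 hq2 hqn with
        h | h | h | h | h
      · have h' : HT ht L = n ∧ ∃ j ∈ CD ht dl cd L w, (q - 2) * t < j ∧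
            j ≤ (q - 2) * t + (2 * g + s) := by
          obtain ⟨j, hj, hj1, hj2⟩ := h
          exact ⟨hLn, j, hj, hj1, by omega⟩
        rw [if_pos h']
        simp only [add_assoc]
        exact le_self_add
      · rw [if_pos (show HT ht L = n ∧ _ from ⟨hLn, h⟩)]
        simp only [add_assoc]
        exact le_add_left le_self_add
      · rw [if_pos (show HT ht L = n ∧ _ from ⟨hLn, h⟩)]
        simp only [add_assoc]
        exact le_add_left (le_add_left le_self_add)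
      · rw [if_pos (show HT ht L = n ∧ (∃ L1 P b R, L = L1 ++ (P ++ b :: R) ∧
          inFP ht ((q - 2) * t) L1 ∧ HT ht P ≤ 4 * t ∧ 4 * t < HT ht P + ht b ∧
          HT ht P + g < 4 * t) from ⟨hLn, h⟩)]
        simp only [add_assoc]
        exact le_add_left (le_add_left (le_add_left le_self_add))
      · rw [if_pos (show HT ht L = n ∧ (∃ L1 P b R, L = L1 ++ (P ++ b :: R) ∧
          inFP ht ((q - 2) * t) L1 ∧ HT ht P ≤ 4 * t ∧ 4 * t < HT ht P + ht b ∧
          GC ht dl cd s (HT ht P) P (act dl L1 w)) from ⟨hLn, h⟩)]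
        exact le_add_left le_rfl
    · rw [if_neg hL]; exact zero_le
  calc Kap Λ ht dl cd n m w ≤ ∑' L : List B, ∑ k ∈ S, F k L := ENNReal.tsum_le_tsum hpt
    _ = ∑ k ∈ S, ∑' L : List B, F k L := Summable.tsum_finsetSum (fun _ _ => ENNReal.summable)
    _ ≤ ∑ k ∈ S, (ε' + ε' + eta Λ ht g + eta Λ ht g + (∑' k, tail Λ ht k) * Bd) := by
        refine Finset.sum_le_sum fun k hk => ?_
        rw [hS, Finset.mem_filter] at hk
        simp only [hF]
        rw [ENNReal.tsum_add, ENNReal.tsum_add, ENNReal.tsum_add, ENNReal.tsum_add]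
        refine add_le_add (add_le_add (add_le_add (add_le_add ?_ ?_) ?_) ?_) ?_
        · exact hA (k * t) (Nat.mul_le_mul_right t hk.2)
        · exact hA _ (le_trans (Nat.mul_le_mul_right t hk.2) (Nat.le_add_right _ _))
        · exact over_le Λ ht hU1 n (k * t) g
        · exact gap_le Λ ht hU1 h1 hΛ n (k * t) (4 * t) g
        · exact win_E Λ ht dl cd hU1 n (k * t) (4 * t) s w Bd (hBd k hk.2)
    _ = (S.card : ℝ≥0∞) * (ε' + ε' + eta Λ ht g + eta Λ ht g
      + (∑' k, tail Λ ht k) * Bd) := by rw [Finset.sum_const, nsmul_eq_mul]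
    _ ≤ _ := by
        refine mul_le_mul' ?_ le_rfl
        have : S.card ≤ N0 := by
          refine le_trans (Finset.card_filter_le _ _) ?_
          rw [Finset.card_range]
        exact_mod_cast this

end Crest.Agent.R154.JA425
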