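import Crest.Agent.R154.JAsmE_425

/-! Row 154 (helper425): joint-cut assembly, part F: order of constants. -/

set_option autoImplicit false

namespace Crest.Agent.R154.JA425

open scoped ENNReal Topology
open Crest.Agent.R154.B5A

lemma num_real (c D ε : ℝ) (hc : 0 < c) (hD : 0 ≤ D) (hε : 0 < ε) :
    ∃ r : ℕ, 2 ≤ r ∧ 14 * D / r + 28 * D * (r ^ 3 * Real.exp (-(c * r))) ≤ ε := by
  have h1 : Filter.Tendsto (fun r : ℕ => 14 * D / (r : ℝ)) Filter.atTop (𝓝 0) :=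
    tendsto_const_div_atTop_nhds_zero_nat (14 * D)
  have h2 : Filter.Tendsto (fun r : ℕ => (c * (r : ℝ)) ^ 3 * Real.exp (-(c * r))) Filter.atTop
      (𝓝 0) :=
    (Real.tendsto_pow_mul_exp_neg_atTop_nhds_zero 3).comp
      (Filter.Tendsto.const_mul_atTop hc tendsto_natCast_atTop_atTop)
  have h3 : Filter.Tendsto (fun r : ℕ => 28 * D * (r ^ 3 * Real.exp (-(c * r)))) Filter.atTop
      (𝓝 0) := by
    have := h2.const_mul (28 * D / c ^ 3)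
    rw [mul_zero] at this
    refine this.congr fun r => ?_
    field_simp
  have h4 := h1.add h3
  rw [add_zero] at h4
  obtain ⟨r, hr⟩ := ((h4.eventually_le_const hε).and (Filter.eventually_ge_atTop 2)).exists
  exact ⟨r, hr.2, hr.1⟩

lemma num (c C0 ε : ℝ≥0∞) (hc0 : c ≠ 0) (hc1 : c ≤ 1) (hC0 : C0 ≠ ⊤) (hε : ε ≠ 0) :
    ∃ (J : ℕ) (u : ℝ≥0∞), 1 ≤ J ∧ u ≠ 0 ∧ u < 1 ∧
      ((10 * J + 4 : ℕ) : ℝ≥0∞) * (C0 * (u * u + 2 * (1 - u * c) ^ J)) ≤ ε := by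
  have hct : c ≠ ⊤ := ne_top_of_le_ne_top ENNReal.one_ne_top hc1
  set ε1 := min ε 1 with hε1
  have hε1t : ε1 ≠ ⊤ := ne_top_of_le_ne_top ENNReal.one_ne_top (min_le_right _ _)
  have hε10 : ε1 ≠ 0 := by
    rw [hε1]
    exact (lt_min (pos_iff_ne_zero.2 hε) one_pos).ne'
  set c' := c.toReal with hc'
  have hc'0 : 0 < c' := ENNReal.toReal_pos hc0 hct
  have hc'1 : c' ≤ 1 := by
    have := ENNReal.toReal_mono ENNReal.one_ne_top hc1
    simpa using this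
  obtain ⟨r, hr2, hr⟩ := num_real c' C0.toReal ε1.toReal hc'0 ENNReal.toReal_nonneg
    (ENNReal.toReal_pos hε10 hε1t)
  have hrr : (2 : ℝ) ≤ r := by exact_mod_cast hr2
  have hr0 : (0 : ℝ) < r := by linarith
  have hsq : (1 : ℝ) / (r : ℝ) ^ 2 < 1 := by
    rw [div_lt_one (by positivity)]
    nlinarith
  have hx0 : (0 : ℝ) ≤ 1 - 1 / (r : ℝ) ^ 2 * c' := by
    have : 1 / (r : ℝ) ^ 2 * c' ≤ 1 * 1 := mul_le_mul hsq.le hc'1 hc'0.le zero_le_one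
    linarith
  refine ⟨r ^ 3, ENNReal.ofReal (1 / (r : ℝ) ^ 2), Nat.one_le_iff_ne_zero.2
    (pow_ne_zero 3 (by omega)), ?_, ?_, ?_⟩
  · rw [Ne, ENNReal.ofReal_eq_zero, not_le]; positivity
  · rw [ENNReal.ofReal_lt_one]; exact hsq
  · have e1 : (1 : ℝ≥0∞) - ENNReal.ofReal (1 / (r : ℝ) ^ 2) * c
        = ENNReal.ofReal (1 - 1 / (r : ℝ) ^ 2 * c') := by
      rw [ENNReal.ofReal_sub _ (by positivity), ENNReal.ofReal_one,
        ENNReal.ofReal_mul (by positivity), hc', ENNReal.ofReal_toReal hct]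
    have e2 : ((10 * r ^ 3 + 4 : ℕ) : ℝ≥0∞) = ENNReal.ofReal (10 * (r : ℝ) ^ 3 + 4) := by
      rw [← ENNReal.ofReal_natCast]; push_cast; rfl
    have e3 : (2 : ℝ≥0∞) = ENNReal.ofReal 2 := by simp
    rw [e1, e2, e3, ← ENNReal.ofReal_pow hx0, ← ENNReal.ofReal_mul (by positivity),
      ← ENNReal.ofReal_mul (by norm_num), ← ENNReal.ofReal_add (by positivity) (by positivity)]
    rw [← ENNReal.ofReal_toReal hC0, ← ENNReal.ofReal_mul ENNReal.toReal_nonneg,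
      ← ENNReal.ofReal_mul (by positivity)]
    refine le_trans ?_ (min_le_left ε 1)
    rw [← hε1, ← ENNReal.ofReal_toReal hε1t]
    refine ENNReal.ofReal_le_ofReal (le_trans ?_ hr)
    set D := C0.toReal with hD
    have hD0 : 0 ≤ D := ENNReal.toReal_nonneg
    have hexp : (1 - 1 / (r : ℝ) ^ 2 * c') ^ (r ^ 3) ≤ Real.exp (-(c' * r)) := by
      calc (1 - 1 / (r : ℝ) ^ 2 * c') ^ (r ^ 3)
          ≤ (Real.exp (-(1 / (r : ℝ) ^ 2 * c'))) ^ (r ^ 3) :=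
            pow_le_pow_left₀ hx0 (Real.one_sub_le_exp_neg _) _
        _ = Real.exp (-(c' * r)) := by
            rw [← Real.exp_nat_mul]
            congr 1
            push_cast
            field_simp
    have hr3 : (8 : ℝ) ≤ (r : ℝ) ^ 3 := by
      calc (8 : ℝ) = 2 ^ 3 := by norm_num
        _ ≤ (r : ℝ) ^ 3 := pow_le_pow_left₀ (by norm_num) hrr 3
    have hexp0 := Real.exp_pos (-(c' * r))
    calc (10 * (r : ℝ) ^ 3 + 4) * (D * (1 / (r : ℝ) ^ 2 * (1 / (r : ℝ) ^ 2)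
          + 2 * (1 - 1 / (r : ℝ) ^ 2 * c') ^ (r ^ 3)))
        ≤ (14 * (r : ℝ) ^ 3) * (D * (1 / (r : ℝ) ^ 2 * (1 / (r : ℝ) ^ 2)
          + 2 * Real.exp (-(c' * r)))) := by
          have hb : 0 ≤ 1 / (r : ℝ) ^ 2 * (1 / (r : ℝ) ^ 2)
            + 2 * (1 - 1 / (r : ℝ) ^ 2 * c') ^ (r ^ 3) := by positivity
          apply mul_le_mul
          · linarith
          · apply mul_le_mul_of_nonneg_left _ hD0
            linarith
          · exact mul_nonneg hD0 hb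
          · positivity
      _ = 14 * D / r + 28 * D * (r ^ 3 * Real.exp (-(c' * r))) := by
          field_simp
          ring

variable {B : Type*} (Λ : B → ℝ≥0∞) (ht : B → ℕ) {W : Type*} [AddCommGroup W]
  (dl : B → W → W) (cd : W → B → Set ℕ)

lemma ex_small (A ε : ℝ≥0∞) (hA : A ≠ ⊤) (hε : ε ≠ 0) : ∃ η : ℝ≥0∞, η ≠ 0 ∧ η ≠ ⊤ ∧ A * η ≤ ε := by
  have h1 : Filter.Tendsto (fun n : ℕ => A * ((n : ℝ≥0∞))⁻¹) Filter.atTop (𝓝 (A * 0)) :=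
    ENNReal.Tendsto.const_mul ENNReal.tendsto_inv_nat_nhds_zero (Or.inr hA)
  rw [mul_zero] at h1
  obtain ⟨n, hn⟩ := ((h1.eventually_le_const (pos_iff_ne_zero.2 hε)).and
    (Filter.eventually_ge_atTop 1)).exists
  refine ⟨(n : ℝ≥0∞)⁻¹, ENNReal.inv_ne_zero.2 (ENNReal.natCast_ne_top n), ?_, hn.1⟩
  rw [Ne, ENNReal.inv_eq_top]
  have := hn.2
  exact_mod_cast (by omega : n ≠ 0)

lemma ev_small (A ε : ℝ≥0∞) (hA : A ≠ ⊤) (hε : ε ≠ 0) (f : ℕ → ℝ≥0∞)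
    (hf : Filter.Tendsto f Filter.atTop (𝓝 0)) : ∀ᶠ n in Filter.atTop, A * f n ≤ ε := by
  have h1 : Filter.Tendsto (fun n : ℕ => A * f n) Filter.atTop (𝓝 (A * 0)) :=
    ENNReal.Tendsto.const_mul hf (Or.inr hA)
  rw [mul_zero] at h1
  exact h1.eventually_le_const (pos_iff_ne_zero.2 hε)

open Classical in
/-- **KAPPA' in the joint-cut frame.** -/
theorem kap_small (h1 : ∀ b, 1 ≤ ht b)
    (hcd : ∀ w b k, k ∈ cd w b → 1 ≤ k ∧ k ≤ ht b)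
    (dX dY : B → W) (hdl : ∀ b w, dl b w = w + dX b + dY b)
    (c : ℝ≥0∞) (hc0 : c ≠ 0) (hU : ∀ n, c ≤ U Λ ht n) (hU1 : ∀ n, U Λ ht n ≤ 1)
    (aX aY : ℕ → W → ℝ≥0∞)
    (hprod : ∀ h x y, (∑' L : List B, if HT ht L = h ∧ DS dX L = x ∧ DS dY L = y
      then LW Λ L else 0) = aX h x * aY h y)
    (haX : ∀ h, ∑' y, aX h y ≤ 1) (haY : ∀ h, ∑' y, aY h y ≤ 1)
    (C : ℝ≥0∞) (hC0 : C ≠ 0) (hCt : C ≠ ⊤) (δ : ℕ → ℝ≥0∞)
    (hδ : Filter.Tendsto δ Filter.atTop (𝓝 0))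
    (HX : ∀ (s h : ℕ) (E : Finset W) (ν : W → ℝ≥0∞) (M lam : ℝ≥0∞), lam ≠ 0 → lam ≠ ⊤ →
      ∑' w, ν w ≤ 1 → (∀ w, ν w ≤ M) →
      ∑' w, ν w * (∑' L : List B, if HT ht L = h ∧ DS dX L ∈ E ∧ GC ht dl cd s h L w
        then LW Λ L else 0) ≤ C * (lam + M * (E.card * δ s) / lam))
    (HY : ∀ (s h : ℕ) (E : Finset W) (ν : W → ℝ≥0∞) (M lam : ℝ≥0∞), lam ≠ 0 → lam ≠ ⊤ →
      ∑' w, ν w ≤ 1 → (∀ w, ν w ≤ M) →
      ∑' w, ν w * (∑' L : List B, if HT ht L = h ∧ DS dY L ∈ E ∧ GC ht dl cd s h L w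
        then LW Λ L else 0) ≤ C * (lam + M * (E.card * δ s) / lam))
    (hslab : ∀ ε : ℝ≥0∞, ε ≠ 0 → ∀ s : ℕ, ∃ N, ∀ D, N ≤ D → ∀ n w,
      ∑' L : List B, (if HT ht L = n ∧ ∃ k ∈ CD ht dl cd L w, D < k ∧ k ≤ D + s
        then LW Λ L else 0) ≤ ε) :
    ∀ ε : ℝ≥0∞, ε ≠ 0 → ∃ M : ℕ, ∀ m, M ≤ m → ∃ n0 : ℕ, ∀ n, n0 ≤ n → ∀ w,
      Kap Λ ht dl cd n m w ≤ ε := by
  intro ε hε
  have hc1 : c ≤ 1 := (hU 0).trans (hU1 0)
  have hct : c ≠ ⊤ := ne_top_of_le_ne_top ENNReal.one_ne_top hc1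
  have hΛ : ∑' b, Λ b = 1 :=
    le_antisymm (mass_le_one Λ ht h1 hU1) (mass_ge_one Λ ht c hc0 0 (fun n _ => hU n))
  set C0 := ∑' k, tail Λ ht k with hC0def
  have hC0t : C0 ≠ ⊤ := by
    rw [hC0def, ← sum_tail Λ ht hΛ]
    exact ne_top_of_le_ne_top (ENNReal.inv_ne_top.2 hc0)
      (mean_le Λ ht h1 hΛ c hc0 hct 0 (fun n _ => hU n))
  have heta := eta_tendsto Λ ht hC0t
  have hε6 : ε / 6 ≠ 0 := (ENNReal.div_pos hε (by norm_num)).ne'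
  -- J, u
  obtain ⟨J, u, hJ1, hu0, hu1, hJu⟩ := num c C0 (ε / 6) hc0 hc1 hC0t hε6
  set N0 : ℕ := 10 * J + 4 with hN0
  have hN0t : (N0 : ℝ≥0∞) ≠ ⊤ := ENNReal.natCast_ne_top _
  have hJt : (J : ℝ≥0∞) ≠ ⊤ := ENNReal.natCast_ne_top _
  -- g
  obtain ⟨g, hg⟩ := (ev_small ((N0 : ℝ≥0∞) * 2) (ε / 6)
    (ENNReal.mul_ne_top hN0t (by norm_num)) hε6 _ heta).exists
  -- lam
  obtain ⟨lam, hl0, hlt, hlam⟩ := ex_small ((N0 : ℝ≥0∞) * C0 * 4 * C) (ε / 6)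
    (ENNReal.mul_ne_top (ENNReal.mul_ne_top (ENNReal.mul_ne_top hN0t hC0t) (by norm_num)) hCt) hε6
  -- s
  obtain ⟨s, hs⟩ := (ev_small ((N0 : ℝ≥0∞) * C0 * 2 * J * (lam * lam)⁻¹) (ε / 6)
    (ENNReal.mul_ne_top (ENNReal.mul_ne_top (ENNReal.mul_ne_top (ENNReal.mul_ne_top hN0t hC0t)
      (by norm_num)) hJt) (ENNReal.inv_ne_top.2 (mul_ne_zero hl0 hl0))) hε6 _ hδ).exists
  -- ε'
  obtain ⟨ε', hε'0, -, hε'⟩ := ex_small ((N0 : ℝ≥0∞) * 2) (ε / 6)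
    (ENNReal.mul_ne_top hN0t (by norm_num)) hε6
  obtain ⟨N1, hN1⟩ := hslab ε' hε'0 (2 * g + s)
  -- t
  obtain ⟨T0, hT0⟩ := Filter.eventually_atTop.1 (ev_small ((N0 : ℝ≥0∞) * C0 * 2 * J) (ε / 6)
    (ENNReal.mul_ne_top (ENNReal.mul_ne_top (ENNReal.mul_ne_top hN0t hC0t)
      (by norm_num)) hJt) hε6 _ heta)
  set K : ℕ := 5 * J + 2 with hK
  set T1 : ℕ := T0 + N1 + K + g + s + 1 with hT1
  refine ⟨K * T1, fun m hm => ?_⟩
  set t := m / K with ht'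
  have hK0 : 0 < K := by omega
  have htT : T1 ≤ t := by
    rw [ht', Nat.le_div_iff_mul_le hK0, mul_comm]; exact hm
  have hm1 : K * t ≤ m := Nat.mul_div_le m K
  have hm2 : m < K * t + K := by
    have := Nat.lt_mul_div_succ m hK0
    rw [← ht'] at this
    calc m < K * (t + 1) := this
      _ = K * t + K := by ring
  refine ⟨(N0 + 5) * t + 1, fun n hn w => ?_⟩
  set Bd : ℝ≥0∞ := u * u + 2 * (2 * C * lam + (1 - u * c) ^ J
    + J * (δ s / (lam * lam) + eta Λ ht t)) with hBd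
  have eN : (N0 + 2) * t = 2 * (K * t) + 2 * t := by rw [hN0, hK]; ring
  have key : Kap Λ ht dl cd n m w ≤ (N0 : ℝ≥0∞) * (ε' + ε' + eta Λ ht g + eta Λ ht g
      + (∑' k, tail Λ ht k) * Bd) := by
    refine kap_le Λ ht dl cd h1 hΛ.le hU1 hcd n m t g s (5 * J) N0 w (by omega) hm1
      (by rw [eN]; omega) (by omega) Bd ε' ?_ ?_
    · intro k hk h hh
      have hcc : c ≤ (∑' x, aX h x) * ∑' y, aY h y := by
        have e := prod_sum Λ ht h dX dY (aX h) (aY h) (hprod h) (fun _ _ => 1)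
        simp only [mul_one] at e
        simp_rw [ENNReal.tsum_mul_left] at e
        rw [ENNReal.tsum_mul_right] at e
        rw [← e]
        exact hU h
      have hJk : J * (h + t) ≤ k * t := by
        calc J * (h + t) ≤ J * (5 * t) := Nat.mul_le_mul_left J (by omega)
          _ = (5 * J) * t := by ring
          _ ≤ k * t := Nat.mul_le_mul_right t hk
      have := height_le Λ ht h1 hΛ.le h t dX dY (aX h) (aY h) (hprod h) (haX h) (haY h) c u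
        (eta Λ ht t) (δ s) C lam hc0 hu0 hu1 hC0 hCt hl0 hlt hcc
        (fun L w => GC ht dl cd s h L w) (fun E ν M => HX s h E ν M lam hl0 hlt)
        (fun E ν M => HY s h E ν M lam hl0 hlt) (fps_over Λ ht hU1 h t) J (k * t) w hJk
      simp_rw [act_eq dl dX dY hdl]
      exact this
    · intro D hD
      refine hN1 D ?_ n w
      have : t ≤ 5 * J * t := Nat.le_mul_of_pos_left t (by omega)
      omega
  refine key.trans ?_
  have e6 : ε / 6 + ε / 6 + ε / 6 + ε / 6 + ε / 6 + ε / 6 = ε := by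
    have : ε / 6 + ε / 6 + ε / 6 + ε / 6 + ε / 6 + ε / 6 = 6 * (ε / 6) := by ring
    rw [this]
    exact ENNReal.mul_div_cancel (by norm_num) (by norm_num)
  calc (N0 : ℝ≥0∞) * (ε' + ε' + eta Λ ht g + eta Λ ht g + (∑' k, tail Λ ht k) * Bd)
      = (N0 : ℝ≥0∞) * 2 * ε' + (N0 : ℝ≥0∞) * 2 * eta Λ ht g
        + (N0 : ℝ≥0∞) * (C0 * (u * u + 2 * (1 - u * c) ^ J))
        + (N0 : ℝ≥0∞) * C0 * 4 * C * lam
        + (N0 : ℝ≥0∞) * C0 * 2 * J * (lam * lam)⁻¹ * δ s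
        + (N0 : ℝ≥0∞) * C0 * 2 * J * eta Λ ht t := by
        rw [hBd, div_eq_mul_inv]
        ring
    _ ≤ ε / 6 + ε / 6 + ε / 6 + ε / 6 + ε / 6 + ε / 6 := by
        have h6 := hT0 t (by omega)
        exact add_le_add (add_le_add (add_le_add (add_le_add (add_le_add hε' hg) hJu) hlam) hs) h6
    _ = ε := e6

end Crest.Agent.R154.JA425

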