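import Mathlib

/-! Row 154, road 801, joint-cut frame: choice of `J` and `u` (helper139). -/

set_option autoImplicit false

namespace Crest.Agent.R154.JAsm139

open scoped ENNReal Topology
open Filter

lemma num (c1 : ℝ≥0∞) (h0 : c1 ≠ 0) (h1 : c1 ≤ 1) (δ : ℝ≥0∞) (hδ : δ ≠ 0) :
    ∃ (J : ℕ) (u : ℝ≥0∞), u ≠ 0 ∧ u ≤ 1 ∧
      ((8 * J + 4 : ℕ) : ℝ≥0∞) * (u * u + 2 * (1 - c1 * u) ^ J) ≤ δ := by
  have hc1t : c1 ≠ ⊤ := ne_top_of_le_ne_top ENNReal.one_ne_top h1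
  set r := c1.toReal with hr'
  have hr : 0 < r := ENNReal.toReal_pos h0 hc1t
  have hr1 : r ≤ 1 := by
    have := ENNReal.toReal_mono ENNReal.one_ne_top h1
    simpa using this
  have hc1 : c1 = ENNReal.ofReal r := (ENNReal.ofReal_toReal hc1t).symm
  obtain ⟨δ', hδ'0, hδ'⟩ : ∃ δ' : ℝ, 0 < δ' ∧ ENNReal.ofReal δ' ≤ δ := by
    rcases eq_or_ne δ ⊤ with h | h
    · exact ⟨1, one_pos, by simp [h]⟩
    · exact ⟨δ.toReal, ENNReal.toReal_pos hδ h, by rw [ENNReal.ofReal_toReal h]⟩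
  have t0 : Tendsto (fun N : ℕ => r * (N : ℝ)) atTop atTop :=
    (tendsto_natCast_atTop_atTop).const_mul_atTop hr
  have t2 : Tendsto (fun N : ℕ => (r * (N : ℝ)) ^ 3 * Real.exp (-(r * N))) atTop (𝓝 0) :=
    (Real.tendsto_pow_mul_exp_neg_atTop_nhds_zero 3).comp t0
  have t3 : Tendsto (fun N : ℕ => 1 / (N : ℝ)) atTop (𝓝 0) := tendsto_one_div_atTop_nhds_zero_nat
  have t1 : Tendsto (fun N : ℕ => 12 * (1 / (N : ℝ))
      + 24 / r ^ 3 * ((r * (N : ℝ)) ^ 3 * Real.exp (-(r * N)))) atTop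
      (𝓝 (12 * 0 + 24 / r ^ 3 * 0)) := (t3.const_mul 12).add (t2.const_mul _)
  have t4 := t1.eventually_lt_const (show 12 * 0 + 24 / r ^ 3 * 0 < δ' by simpa using hδ'0)
  obtain ⟨N, hN, hN1⟩ := (t4.and (eventually_ge_atTop 1)).exists
  have hNr : (1 : ℝ) ≤ N := by exact_mod_cast hN1
  have hN0 : (0 : ℝ) < N := by linarith
  refine ⟨N ^ 3, ENNReal.ofReal (1 / (N : ℝ) ^ 2), ?_, ?_, ?_⟩
  · rw [Ne, ENNReal.ofReal_eq_zero, not_le]; positivity
  · rw [← ENNReal.ofReal_one]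
    refine ENNReal.ofReal_le_ofReal ?_
    rw [div_le_one (by positivity)]
    exact one_le_pow₀ hNr
  · refine le_trans ?_ hδ'
    have hx0 : 0 ≤ 1 - r * (1 / (N : ℝ) ^ 2) := by
      have : r * (1 / (N : ℝ) ^ 2) ≤ 1 * 1 := by
        refine mul_le_mul hr1 ?_ (by positivity) (by norm_num)
        rw [div_le_one (by positivity)]
        exact one_le_pow₀ hNr
      linarith
    have e1 : (1 - c1 * ENNReal.ofReal (1 / (N : ℝ) ^ 2)) ^ (N ^ 3)
        = ENNReal.ofReal ((1 - r * (1 / (N : ℝ) ^ 2)) ^ (N ^ 3)) := by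
      rw [hc1, ← ENNReal.ofReal_mul hr.le, ← ENNReal.ofReal_one,
        ← ENNReal.ofReal_sub _ (by positivity), ENNReal.ofReal_pow hx0]
    have e2 : (1 - r * (1 / (N : ℝ) ^ 2)) ^ (N ^ 3) ≤ Real.exp (-(r * N)) := by
      calc (1 - r * (1 / (N : ℝ) ^ 2)) ^ (N ^ 3)
          ≤ (Real.exp (-(r * (1 / (N : ℝ) ^ 2)))) ^ (N ^ 3) := by
            refine pow_le_pow_left₀ hx0 ?_ _
            have := Real.add_one_le_exp (-(r * (1 / (N : ℝ) ^ 2)))
            linarith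
        _ = Real.exp (-(r * N)) := by
            rw [← Real.exp_nat_mul]
            congr 1
            push_cast
            field_simp
    have e3 : ((8 * N ^ 3 + 4 : ℕ) : ℝ≥0∞) = ENNReal.ofReal (8 * (N : ℝ) ^ 3 + 4) := by
      rw [← ENNReal.ofReal_natCast]; push_cast; rfl
    rw [e1, e3, ← ENNReal.ofReal_mul (by positivity),
      show (2 : ℝ≥0∞) = ENNReal.ofReal 2 by simp, ← ENNReal.ofReal_mul (by norm_num),
      ← ENNReal.ofReal_add (by positivity) (by positivity), ← ENNReal.ofReal_mul (by positivity)]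
    refine ENNReal.ofReal_le_ofReal ?_
    have h12 : 8 * (N : ℝ) ^ 3 + 4 ≤ 12 * (N : ℝ) ^ 3 := by
      have : (1 : ℝ) ≤ (N : ℝ) ^ 3 := one_le_pow₀ hNr
      linarith
    calc (8 * (N : ℝ) ^ 3 + 4) * (1 / (N : ℝ) ^ 2 * (1 / (N : ℝ) ^ 2)
          + 2 * (1 - r * (1 / (N : ℝ) ^ 2)) ^ (N ^ 3))
        ≤ (12 * (N : ℝ) ^ 3) * (1 / (N : ℝ) ^ 2 * (1 / (N : ℝ) ^ 2)
          + 2 * Real.exp (-(r * N))) := by gcongr
      _ = 12 * (1 / (N : ℝ)) + 24 / r ^ 3 * ((r * (N : ℝ)) ^ 3 * Real.exp (-(r * N))) := by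
          field_simp
          ring
      _ ≤ δ' := hN.le

end Crest.Agent.R154.JAsm139
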