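import Crest.Agent.R154.JWin_139
import Crest.Agent.R154.JNum_139

/-! Row 154, road 801, assembly in the joint-cut frame, part 3 (helper139). -/

set_option autoImplicit false

namespace Crest.Agent.R154.JAsm139

open scoped ENNReal
open Crest.Agent.R154.B5A
open Crest.Agent.R154.FP178

variable {B W : Type*} (Λ : B → ℝ≥0∞) (ht : B → ℕ) (dl : B → W → W) (cd : W → B → Set ℕ)

/-- one window -/
lemma Kwin_le (h1 : ∀ b, 1 ≤ ht b) (hΛ : ∑' b, Λ b = 1) (hU1 : ∀ n, U Λ ht n ≤ 1)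
    (hcd : ∀ w b k, k ∈ cd w b → 1 ≤ k ∧ k ≤ ht b)
    (c : ℝ≥0∞) (hc : c ≠ 0) (hct : c ≠ ⊤) (hU : ∀ n, c ≤ U Λ ht n)
    (q s a n : ℕ) (hs : s ≤ q) (ha : q + s ≤ a) (hn : a + 2 * q ≤ n)
    (S1 S2 : Set W) (η' ε' : ℝ≥0∞)
    (hW : ∀ w, w ∉ S1 → w ∉ S2 → WL Λ ht dl cd (4 * q) s w ≤ η')
    (hS : ∀ w, SLB Λ ht dl cd (4 * q) s w ≤ ε') (w : W) :
    Kwin Λ ht dl cd n a q w ≤ ov Λ ht q + (ov Λ ht q + c⁻¹ * (ε' + η'))
      + c⁻¹ * (hitS Λ ht dl (a - (q + s)) S1 w + hitS Λ ht dl (a - (q + s)) S2 w) := by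
  classical
  set a0 := a - (q + s) with ha0
  set f : List B → ℝ≥0∞ := fun L => if HT ht L = n ∧ (∀ k ∈ CD ht dl cd L w, a < k) ∧
    (∃ k ∈ CD ht dl cd L w, k ≤ a + q) then 1 else 0 with hf
  have e1 : Kwin Λ ht dl cd n a q w = ∑' L, (if a0 ≤ HT ht L then LW Λ L * f L else 0) := by
    refine tsum_congr fun L => ?_
    simp only [hf]
    by_cases h : HT ht L = n ∧ (∀ k ∈ CD ht dl cd L w, a < k) ∧ (∃ k ∈ CD ht dl cd L w, k ≤ a + q)
    · rw [if_pos h, if_pos h, if_pos (by omega), mul_one]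
    · rw [if_neg h, if_neg h, mul_zero, ite_self]
  rw [e1, split Λ ht h1 a0 f]
  set C := ov Λ ht q + c⁻¹ * (ε' + η') with hC
  set I1 : W → ℝ≥0∞ := S1.indicator (fun _ => (1 : ℝ≥0∞)) with hI1
  set I2 : W → ℝ≥0∞ := S2.indicator (fun _ => (1 : ℝ≥0∞)) with hI2
  have hpiece : ∀ N w', 2 * q + s ≤ N → DD Λ ht dl cd N s (2 * q + s) w'
      ≤ C + c⁻¹ * (I1 w' + I2 w') := by
    intro N w' hN
    have hWL : WL Λ ht dl cd (4 * q) s w' ≤ η' + (I1 w' + I2 w') := by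
      by_cases m1 : w' ∈ S1
      · refine ((WL_le Λ ht dl cd _ _ _).trans (hU1 _)).trans (le_add_left (le_add_right ?_))
        simp [hI1, m1]
      · by_cases m2 : w' ∈ S2
        · refine ((WL_le Λ ht dl cd _ _ _).trans (hU1 _)).trans (le_add_left (le_add_left ?_))
          simp [hI2, m2]
        · exact (hW w' m1 m2).trans (le_add_right le_rfl)
    have hM : MM Λ ht dl cd s (2 * q + s) w' (2 * q + s + q)
        ≤ c⁻¹ * DD Λ ht dl cd (4 * q) s (2 * q + s) w' := by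
      rw [← ENNReal.div_eq_inv_mul, ENNReal.le_div_iff_mul_le (Or.inl hc) (Or.inl hct), mul_comm]
      exact MM_le_DD Λ ht dl cd h1 c hU (4 * q) s (2 * q + s) (2 * q + s + q) (by omega) (by omega)
        (by omega) w'
    calc DD Λ ht dl cd N s (2 * q + s) w'
        ≤ MM Λ ht dl cd s (2 * q + s) w' (2 * q + s + q) + ov Λ ht q :=
          DD_le_MM Λ ht dl cd h1 hU1 hcd N s (2 * q + s) q hN w'
      _ ≤ c⁻¹ * (ε' + (η' + (I1 w' + I2 w'))) + ov Λ ht q := by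
          gcongr
          refine hM.trans (mul_le_mul_right ((DD_split Λ ht dl cd _ _ _ _).trans ?_) _)
          exact add_le_add (hS w') hWL
      _ = C + c⁻¹ * (I1 w' + I2 w') := by rw [hC]; ring
  have key : ∀ L1 : List B, (if fp ht a0 L1 then LW Λ L1 * ∑' L2, LW Λ L2 * f (L1 ++ L2) else 0)
      ≤ (if fp ht a0 L1 ∧ a0 + q < HT ht L1 then LW Λ L1 else 0)
        + (if fp ht a0 L1 then LW Λ L1 else 0) * C
        + c⁻¹ * ((if fp ht a0 L1 then LW Λ L1 * I1 (act dl L1 w) else 0)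
          + (if fp ht a0 L1 then LW Λ L1 * I2 (act dl L1 w) else 0)) := by
    intro L1
    by_cases hL : fp ht a0 L1
    · simp only [if_pos hL]
      by_cases hov : a0 + q < HT ht L1
      · rw [if_pos (⟨hL, hov⟩ : fp ht a0 L1 ∧ a0 + q < HT ht L1)]
        refine le_add_right (le_add_right ?_)
        have hle1 : ∑' L2, LW Λ L2 * f (L1 ++ L2) ≤ 1 := by
          calc ∑' L2, LW Λ L2 * f (L1 ++ L2)
              ≤ ∑' L2 : List B, (if HT ht (L1 ++ L2) = n then LW Λ L2 * 1 else 0) := by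
                refine ENNReal.tsum_le_tsum fun L2 => ?_
                simp only [hf]
                by_cases h2 : HT ht (L1 ++ L2) = n
                · rw [if_pos h2]; refine mul_le_mul_right ?_ _; split_ifs <;> simp
                · rw [if_neg h2, if_neg (fun h' => h2 h'.1), mul_zero]
            _ = (if HT ht L1 ≤ n then U Λ ht (n - HT ht L1) else 0) * 1 := sum_ext Λ ht n L1 1
            _ ≤ 1 := by
              rw [mul_one]; split_ifs
              · exact hU1 _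
              · simp
        calc LW Λ L1 * _ ≤ LW Λ L1 * 1 := mul_le_mul_right hle1 _
          _ = _ := mul_one _
      · rw [if_neg (fun h => hov h.2), zero_add]
        have hge := le_HT_of_fp ht hL
        have hinner : ∑' L2, LW Λ L2 * f (L1 ++ L2)
            ≤ DD Λ ht dl cd (n - HT ht L1) s (2 * q + s) (act dl L1 w) := by
          refine ENNReal.tsum_le_tsum fun L2 => ?_
          simp only [hf]
          by_cases hcond : HT ht (L1 ++ L2) = n ∧ (∀ k ∈ CD ht dl cd (L1 ++ L2) w, a < k) ∧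
            (∃ k ∈ CD ht dl cd (L1 ++ L2) w, k ≤ a + q)
          · rw [if_pos hcond, mul_one, if_pos]
            obtain ⟨hH, hall, k, hk, hkq⟩ := hcond
            rw [HT_append] at hH
            refine ⟨by omega, ?_, ?_⟩
            · intro k' hk'
              have := hall (HT ht L1 + k') (by
                rw [CD_append]; exact Or.inr ⟨k', hk', rfl⟩)
              omega
            · have hak := hall k hk
              rw [CD_append] at hk
              rcases hk with hk | ⟨k2, hk2, rfl⟩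
              · have := CD_pos ht dl cd hcd _ _ _ hk
                omega
              · refine ⟨k2, hk2, ?_⟩
                simp only at hkq
                omega
          · rw [if_neg hcond, mul_zero]; exact zero_le
        calc LW Λ L1 * ∑' L2, LW Λ L2 * f (L1 ++ L2)
            ≤ LW Λ L1 * (C + c⁻¹ * (I1 (act dl L1 w) + I2 (act dl L1 w))) := by
              refine mul_le_mul_right (hinner.trans (hpiece _ _ (by omega))) _
          _ = _ := by ring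
    · simp only [if_neg hL]; exact zero_le
  calc _ ≤ _ := ENNReal.tsum_le_tsum key
    _ = (∑' L1 : List B, (if fp ht a0 L1 ∧ a0 + q < HT ht L1 then LW Λ L1 else 0))
        + (∑' L1 : List B, (if fp ht a0 L1 then LW Λ L1 else 0)) * C
        + c⁻¹ * (hitS Λ ht dl a0 S1 w + hitS Λ ht dl a0 S2 w) := by
        rw [ENNReal.tsum_add, ENNReal.tsum_add, ENNReal.tsum_mul_right, ENNReal.tsum_mul_left,
          ENNReal.tsum_add]
        rfl
    _ ≤ ov Λ ht q + 1 * C + _ := by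
        gcongr
        · exact overshoot Λ ht h1 hU1 q a0
        · exact sum_FP Λ ht h1 hΛ.le a0
    _ = _ := by rw [one_mul]

/-- extension at the bottom -/
lemma Kap1_ext (h1 : ∀ b, 1 ≤ ht b)
    (hcd : ∀ w b k, k ∈ cd w b → 1 ≤ k ∧ k ≤ ht b)
    (c : ℝ≥0∞) (hU : ∀ n, c ≤ U Λ ht n) (n m r : ℕ) (hn : 2 * m ≤ n) (w : W) :
    c * Kap1 Λ ht dl cd n m w ≤ Kap1 Λ ht dl cd (n + r) m w := by
  classical
  set f : List B → ℝ≥0∞ := fun L => if HT ht L = n + r ∧ (∀ k ∈ CD ht dl cd L w, m < k) ∧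
    (∃ k ∈ CD ht dl cd L w, k ≤ 2 * m) then 1 else 0 with hf
  have e1 : Kap1 Λ ht dl cd (n + r) m w = ∑' L, (if n ≤ HT ht L then LW Λ L * f L else 0) := by
    refine tsum_congr fun L => ?_
    simp only [hf]
    by_cases h : HT ht L = n + r ∧ (∀ k ∈ CD ht dl cd L w, m < k) ∧
      (∃ k ∈ CD ht dl cd L w, k ≤ 2 * m)
    · rw [if_pos h, if_pos h, if_pos (by omega), mul_one]
    · rw [if_neg h, if_neg h, mul_zero, ite_self]
  rw [e1, split Λ ht h1 n f, Kap1, ← ENNReal.tsum_mul_left]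
  refine ENNReal.tsum_le_tsum fun L => ?_
  by_cases hL : HT ht L = n ∧ (∀ k ∈ CD ht dl cd L w, m < k) ∧ ∃ k ∈ CD ht dl cd L w, k ≤ 2 * m
  · rw [if_pos hL]
    obtain ⟨hH, hall, k, hk, hk2⟩ := hL
    rw [if_pos (fp_of_HT ht h1 L n hH), mul_comm]
    refine mul_le_mul_right ?_ _
    calc c ≤ U Λ ht (n + r - HT ht L) := hU _
      _ = (if HT ht L ≤ n + r then U Λ ht (n + r - HT ht L) else 0) * 1 := by
          rw [if_pos (by omega), mul_one]
      _ = ∑' L2 : List B, (if HT ht (L ++ L2) = n + r then LW Λ L2 * 1 else 0) :=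
          (sum_ext Λ ht (n + r) L 1).symm
      _ ≤ _ := by
          refine ENNReal.tsum_le_tsum fun L2 => ?_
          by_cases h2 : HT ht (L ++ L2) = n + r
          · rw [if_pos h2]
            refine mul_le_mul_right ?_ _
            simp only [hf]
            rw [if_pos]
            refine ⟨h2, ?_, k, ?_, hk2⟩
            · intro k' hk'
              rw [CD_append] at hk'
              rcases hk' with hk' | ⟨k2, hk2', rfl⟩
              · exact hall k' hk'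
              · have := hall k hk
                simp only
                omega
            · rw [CD_append]; exact Or.inl hk
          · rw [if_neg h2]; exact zero_le
  · rw [if_neg hL, mul_zero]; exact zero_le

/-- the windows cover the octave -/
lemma Kap1_cover (n m q K : ℕ) (hq : 1 ≤ q) (hK : m ≤ K * q) (w : W) :
    Kap1 Λ ht dl cd n m w ≤ ∑ i ∈ Finset.range K, Kwin Λ ht dl cd n (m + i * q) q w := by
  classical
  simp only [Kwin]
  rw [Kap1, ← Summable.tsum_finsetSum (fun _ _ => ENNReal.summable)]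
  refine ENNReal.tsum_le_tsum fun L => ?_
  by_cases hL : HT ht L = n ∧ (∀ k ∈ CD ht dl cd L w, m < k) ∧ ∃ k ∈ CD ht dl cd L w, k ≤ 2 * m
  · rw [if_pos hL]
    obtain ⟨hH, hall, k, hk, hk2⟩ := hL
    have hex : ∃ k, k ∈ CD ht dl cd L w := ⟨k, hk⟩
    set k0 := Nat.find hex with hk0
    have hk0m := Nat.find_spec hex
    rw [← hk0] at hk0m
    have hmin : ∀ k ∈ CD ht dl cd L w, k0 ≤ k := fun k hk => Nat.find_min' hex hk
    have h3 := hall k0 hk0m
    have h4 := hmin k hk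
    set i := (k0 - m - 1) / q with hi
    have h5 : i * q ≤ k0 - m - 1 := Nat.div_mul_le_self _ _
    have h6 : k0 - m - 1 < i * q + q := Nat.lt_div_mul_add (by omega)
    have h7 : i < K := by
      rw [hi, Nat.div_lt_iff_lt_mul (by omega)]
      omega
    refine le_trans ?_ (Finset.single_le_sum (f := fun i => if HT ht L = n ∧
      (∀ k ∈ CD ht dl cd L w, m + i * q < k) ∧ (∃ k ∈ CD ht dl cd L w, k ≤ m + i * q + q)
      then LW Λ L else 0) (fun _ _ => zero_le) (Finset.mem_range.2 h7))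
    rw [if_pos]
    refine ⟨hH, fun k' hk' => ?_, k0, hk0m, ?_⟩
    · have := hmin k' hk'
      omega
    · omega
  · rw [if_neg hL]; exact zero_le

/-- `ov → 0` -/
lemma ov_small (h1 : ∀ b, 1 ≤ ht b) (hΛ : ∑' b, Λ b = 1)
    (c : ℝ≥0∞) (hc : c ≠ 0) (hct : c ≠ ⊤) (hU : ∀ n, c ≤ U Λ ht n) (ρ : ℝ≥0∞) (hρ : ρ ≠ 0) :
    ∃ q0, ∀ q, q0 ≤ q → ov Λ ht q ≤ ρ := by
  have hE : ∑' b, Λ b * (ht b : ℝ≥0∞) ≠ ⊤ :=
    ne_top_of_le_ne_top (ENNReal.inv_ne_top.2 hc) (mean_le Λ ht h1 hΛ c hc hct 0 (fun n _ => hU n))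
  have hsum : ∑' k, tail Λ ht k ≠ ⊤ := by rw [← sum_tail Λ ht hΛ]; exact hE
  have ht0 : Filter.Tendsto (fun i0 : ℕ => ∑' k : ℕ, tail Λ ht (k + i0)) Filter.atTop (nhds 0) :=
    ENNReal.tendsto_sum_nat_add _ hsum
  have := ht0.eventually_le_const (pos_iff_ne_zero.2 hρ)
  obtain ⟨q0, hq0⟩ := Filter.eventually_atTop.1 this
  refine ⟨q0, fun q hq => ?_⟩
  rw [ov]
  refine le_trans (le_of_eq (tsum_congr fun k => ?_)) (hq0 q hq)
  rw [add_comm]

/-- **ASSEMBLY in the joint-cut frame**: the one-height window input `hW` and the bottom slab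
`hSl` give the first-contact form of KAPPA'. -/
theorem kap1_of (h1 : ∀ b, 1 ≤ ht b)
    (hcd : ∀ w b k, k ∈ cd w b → 1 ≤ k ∧ k ≤ ht b)
    (hinj : ∀ b, Function.Injective (dl b))
    (c : ℝ≥0∞) (hc : c ≠ 0) (hU : ∀ n, c ≤ U Λ ht n) (hU1 : ∀ n, U Λ ht n ≤ 1)
    (c1 : ℝ≥0∞) (hc1 : c1 ≠ 0) (hc11 : c1 ≤ 1)
    (hW : ∀ u η : ℝ≥0∞, u ≠ 0 → u ≤ 1 → η ≠ 0 → ∃ s H0 : ℕ, ∀ H, H0 ≤ H → ∃ S1 S2 : Set W,
      Good Λ ht dl (c1 * u) η H S1 ∧ Good Λ ht dl (c1 * u) η H S2 ∧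
      ∀ w, w ∉ S1 → w ∉ S2 → WL Λ ht dl cd H s w ≤ u * u + η)
    (hSl : ∀ (s : ℕ) (ε : ℝ≥0∞), ε ≠ 0 → ∃ H0 : ℕ, ∀ H, H0 ≤ H → ∀ w,
      SLB Λ ht dl cd H s w ≤ ε) :
    ∀ ε : ℝ≥0∞, ε ≠ 0 → ∃ M : ℕ, ∀ m, M ≤ m → ∀ n, 2 * m ≤ n → ∀ w,
      Kap1 Λ ht dl cd n m w ≤ ε := by
  intro ε hε
  have hcle : c ≤ 1 := (hU 0).trans (hU1 0)
  have hct : c ≠ ⊤ := ne_top_of_le_ne_top ENNReal.one_ne_top hcle
  have hΛ : ∑' b, Λ b = 1 :=
    le_antisymm (mass_le_one Λ ht h1 hU1) (mass_ge_one Λ ht c hc 0 (fun n _ => hU n))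
  have hci : c⁻¹ ≠ ⊤ := ENNReal.inv_ne_top.2 hc
  have hci0 : c⁻¹ ≠ 0 := ENNReal.inv_ne_zero.2 hct
  -- finite version of `ε`
  set ε1 := min ε 1 with hε1
  have hε10 : ε1 ≠ 0 := by
    rw [hε1]; exact (lt_min (pos_iff_ne_zero.2 hε) one_pos).ne'
  have hε1t : ε1 ≠ ⊤ := ne_top_of_le_ne_top ENNReal.one_ne_top (min_le_right _ _)
  -- `J` and `u`
  set δ := ε1 / 2 / (2 * (c⁻¹ * c⁻¹)) with hδ
  have hcc : 2 * (c⁻¹ * c⁻¹) ≠ ⊤ := ENNReal.mul_ne_top (by simp) (ENNReal.mul_ne_top hci hci)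
  have hcc0 : 2 * (c⁻¹ * c⁻¹) ≠ 0 := mul_ne_zero (by simp) (mul_ne_zero hci0 hci0)
  have hδ0 : δ ≠ 0 :=
    ENNReal.div_ne_zero.2 ⟨ENNReal.div_ne_zero.2 ⟨hε10, by simp⟩, hcc⟩
  obtain ⟨J, u, hu0, hu1, hJ⟩ := num c1 hc1 hc11 δ hδ0
  set K : ℕ := 8 * J + 4 with hK
  -- the small parameter
  set X : ℝ≥0∞ := c⁻¹ * ((2 * K : ℕ) * (2 + c⁻¹ * 2 + c⁻¹ * (2 * (J * 2)))) with hX
  have hXt : X ≠ ⊤ := by
    rw [hX]
    refine ENNReal.mul_ne_top hci (ENNReal.mul_ne_top (ENNReal.natCast_ne_top _) ?_)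
    refine ENNReal.add_ne_top.2 ⟨ENNReal.add_ne_top.2 ⟨by simp, ENNReal.mul_ne_top hci (by simp)⟩,
      ENNReal.mul_ne_top hci (ENNReal.mul_ne_top (by simp)
        (ENNReal.mul_ne_top (ENNReal.natCast_ne_top _) (by simp)))⟩
  set t := ε1 / 2 / X with ht'
  have ht0 : t ≠ 0 :=
    ENNReal.div_ne_zero.2 ⟨ENNReal.div_ne_zero.2 ⟨hε10, by simp⟩, hXt⟩
  obtain ⟨s, H0, hW'⟩ := hW u t hu0 hu1 ht0
  obtain ⟨H1, hS'⟩ := hSl s t ht0
  obtain ⟨q0, hq0⟩ := ov_small Λ ht h1 hΛ c hc hct hU t ht0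
  refine ⟨K * (H0 + H1 + q0 + s + 1), fun m hm n hn w => ?_⟩
  set q := m / K with hq
  have hK0 : 0 < K := by omega
  have hq1 : H0 + H1 + q0 + s + 1 ≤ q := by
    rw [hq, Nat.le_div_iff_mul_le hK0, mul_comm]; exact hm
  have hqm : q * K ≤ m := Nat.div_mul_le_self m K
  have hmq : m < q * K + K := Nat.lt_div_mul_add hK0
  have hm2 : m ≤ (2 * K) * q := by
    have : K * 1 ≤ K * q := Nat.mul_le_mul_left K (by omega)
    nlinarith
  obtain ⟨S1, S2, hG1, hG2, hWL⟩ := hW' (4 * q) (by omega)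
  have hwin : ∀ i ∈ Finset.range (2 * K), Kwin Λ ht dl cd (n + 8 * m) (m + i * q) q w
      ≤ 2 * t + c⁻¹ * (u * u + 2 * t)
        + c⁻¹ * (2 * ((1 - c1 * u) ^ J + J * (2 * t))) := by
    intro i hi
    have hi' := Finset.mem_range.1 hi
    have hiq : i * q ≤ 2 * m := by
      calc i * q ≤ 2 * K * q := Nat.mul_le_mul_right q hi'.le
        _ = 2 * (q * K) := by ring
        _ ≤ _ := by omega
    have hq4 : 4 * q ≤ m := by
      calc 4 * q ≤ K * q := Nat.mul_le_mul_right q (by omega)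
        _ = q * K := by ring
        _ ≤ _ := hqm
    have hk := Kwin_le Λ ht dl cd h1 hΛ hU1 hcd c hc hct hU q s (m + i * q) (n + 8 * m)
      (by omega) (by omega) (by omega) S1 S2 (u * u + t) t hWL (hS' (4 * q) (by omega)) w
    have hJq : J * (2 * (4 * q)) ≤ m + i * q - (q + s) := by
      have e : J * (2 * (4 * q)) + 4 * q = q * K := by rw [hK]; ring
      omega
    have hA : ov Λ ht q ≤ t := hq0 q (by omega)
    have hB : (∑' k, tail Λ ht (4 * q + k)) ≤ t := hq0 (4 * q) (by omega)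
    have hh1 := hit_le Λ ht dl h1 hΛ hU1 hinj _ _ _ S1 hG1 J _ hJq w
    have hh2 := hit_le Λ ht dl h1 hΛ hU1 hinj _ _ _ S2 hG2 J _ hJq w
    refine hk.trans ?_
    calc _ ≤ t + (t + c⁻¹ * (t + (u * u + t)))
          + c⁻¹ * (((1 - c1 * u) ^ J + J * (t + t)) + ((1 - c1 * u) ^ J + J * (t + t))) := by
          gcongr
          · exact hh1.trans (by gcongr)
          · exact hh2.trans (by gcongr)
      _ = _ := by ring
  have hext : Kap1 Λ ht dl cd n m w ≤ c⁻¹ * Kap1 Λ ht dl cd (n + 8 * m) m w := by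
    rw [← ENNReal.div_eq_inv_mul, ENNReal.le_div_iff_mul_le (Or.inl hc) (Or.inl hct), mul_comm]
    exact Kap1_ext Λ ht dl cd h1 hcd c hU n m (8 * m) hn w
  calc Kap1 Λ ht dl cd n m w ≤ c⁻¹ * Kap1 Λ ht dl cd (n + 8 * m) m w := hext
    _ ≤ c⁻¹ * ∑ i ∈ Finset.range (2 * K), Kwin Λ ht dl cd (n + 8 * m) (m + i * q) q w := by
        gcongr
        exact Kap1_cover Λ ht dl cd _ m q (2 * K) (by omega) hm2 w
    _ ≤ c⁻¹ * ∑ _i ∈ Finset.range (2 * K), (2 * t + c⁻¹ * (u * u + 2 * t)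
        + c⁻¹ * (2 * ((1 - c1 * u) ^ J + J * (2 * t)))) := by
        gcongr with i hi
        exact hwin i hi
    _ = c⁻¹ * ((2 * K : ℕ) * (2 * t + c⁻¹ * (u * u + 2 * t)
        + c⁻¹ * (2 * ((1 - c1 * u) ^ J + J * (2 * t))))) := by
        rw [Finset.sum_const, Finset.card_range, nsmul_eq_mul]
    _ = (2 * (c⁻¹ * c⁻¹)) * ((K : ℕ) * (u * u + 2 * (1 - c1 * u) ^ J)) + X * t := by
        rw [hX]; push_cast; ring
    _ ≤ (2 * (c⁻¹ * c⁻¹)) * δ + X * t := by gcongr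
    _ ≤ ε1 / 2 + ε1 / 2 := by
        gcongr
        · rw [hδ]; exact ENNReal.mul_div_le
        · rw [ht']; exact ENNReal.mul_div_le
    _ = ε1 := ENNReal.add_halves _
    _ ≤ ε := min_le_left _ _

end Crest.Agent.R154.JAsm139
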