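import Crest.Agent.R154.JHit_139
import Crest.Agent.R154.B5Weak_865
import Crest.Agent.R154.NumK_658

/-! Row 154, road 801, assembly in the joint-cut frame (139's letters), second source (helper26). -/

set_option autoImplicit false

namespace Crest.Agent.R154.JAsm26

open scoped ENNReal Topology
open Filter
open Crest.Agent.R154.B5A
open Crest.Agent.R154.FP178
open Crest.Agent.R154.JAsm139

variable {B W : Type*} (Λ : B → ℝ≥0∞) (ht : B → ℕ) (dl : B → W → W) (cd : W → B → Set ℕ)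

/-- overshoot bound -/
noncomputable def ov (i : ℕ) : ℝ≥0∞ := ∑' k, tail Λ ht (i + k)

open Classical in
/-- pieces of exact height `H`, contacts away from both ends -/
noncomputable def YY (s H : ℕ) (w : W) : ℝ≥0∞ :=
  ∑' L : List B, if HT ht L = H ∧ CD ht dl cd L w ≠ ∅ ∧ ∀ k ∈ CD ht dl cd L w, s < k ∧ k + s ≤ H
    then LW Λ L else 0

open Classical in
/-- contact near the bottom -/
noncomputable def BB (s H : ℕ) (w : W) : ℝ≥0∞ :=
  ∑' L : List B, if HT ht L = H ∧ ∃ k ∈ CD ht dl cd L w, H < k + s then LW Λ L else 0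

open Classical in
/-- first contact in `(a, a + q]` -/
noncomputable def WinA (n a q : ℕ) (w : W) : ℝ≥0∞ :=
  ∑' L : List B, if HT ht L = n ∧ (∀ k ∈ CD ht dl cd L w, a < k) ∧ ∃ k ∈ CD ht dl cd L w, k ≤ a + q
    then LW Λ L else 0

open Classical in
lemma U_eq (n : ℕ) : ∑' L : List B, (if HT ht L = n then LW Λ L * 1 else 0) = U Λ ht n := by
  rw [U]
  refine tsum_congr fun L => ?_
  rw [mul_one]

open Classical in
lemma piece (h1 : ∀ b, 1 ≤ ht b) (hU1 : ∀ n, U Λ ht n ≤ 1) (c : ℝ≥0∞) (hc : c ≠ 0) (hc' : c ≠ ⊤)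
    (hU : ∀ n, c ≤ U Λ ht n) (hcd : ∀ w b k, k ∈ cd w b → 1 ≤ k ∧ k ≤ ht b)
    (s q T H n : ℕ) (hs : s ≤ T) (hH : T + q ≤ H) (hn : T ≤ n) (w : W) :
    ∑' L : List B, (if HT ht L = n ∧ (∀ k ∈ CD ht dl cd L w, s < k) ∧
        ∃ k ∈ CD ht dl cd L w, k ≤ T then LW Λ L else 0)
      ≤ ov Λ ht q + c⁻¹ * (YY Λ ht dl cd s H w + BB Λ ht dl cd s H w) := by
  set f : List B → ℝ≥0∞ := fun L => if HT ht L = n ∧ (∀ k ∈ CD ht dl cd L w, s < k) ∧
        ∃ k ∈ CD ht dl cd L w, k ≤ T then 1 else 0 with hf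
  set g : List B → ℝ≥0∞ := fun L => if HT ht L = H ∧ (∀ k ∈ CD ht dl cd L w, s < k) ∧
        CD ht dl cd L w ≠ ∅ then 1 else 0 with hg
  have e1 : ∑' L : List B, (if HT ht L = n ∧ (∀ k ∈ CD ht dl cd L w, s < k) ∧
        ∃ k ∈ CD ht dl cd L w, k ≤ T then LW Λ L else 0)
      = ∑' L, (if T ≤ HT ht L then LW Λ L * f L else 0) := by
    refine tsum_congr fun L => ?_
    by_cases h : HT ht L = n ∧ (∀ k ∈ CD ht dl cd L w, s < k) ∧
        ∃ k ∈ CD ht dl cd L w, k ≤ T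
    · simp only [hf]
      rw [if_pos h, if_pos (by omega), if_pos h, mul_one]
    · simp only [hf]
      rw [if_neg h, if_neg h, mul_zero]
      simp
  rw [e1, split Λ ht h1 T f]
  -- good prefix
  set P0 : List B → Prop := fun P => CD ht dl cd P w ≠ ∅ ∧ ∀ k ∈ CD ht dl cd P w, s < k with hP0
  have hin : ∀ P, fp ht T P → ∑' R, LW Λ R * f (P ++ R) ≤ if P0 P then 1 else 0 := by
    intro P hP
    have hTP : T ≤ HT ht P := le_HT_of_fp ht hP
    by_cases hp : P0 P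
    · rw [if_pos hp]
      refine le_trans (ENNReal.tsum_le_tsum fun R => ?_) (hU1 (n - HT ht P))
      simp only [hf]
      by_cases h : HT ht (P ++ R) = n ∧ (∀ k ∈ CD ht dl cd (P ++ R) w, s < k) ∧
        ∃ k ∈ CD ht dl cd (P ++ R) w, k ≤ T
      · rw [if_pos h, mul_one, if_pos (by have := h.1; rw [HT_append] at this; omega)]
      · rw [if_neg h, mul_zero]; exact zero_le
    · rw [if_neg hp]
      refine le_of_eq (ENNReal.tsum_eq_zero.2 fun R => ?_)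
      simp only [hf]
      rw [if_neg, mul_zero]
      rintro ⟨h2, h3, k, hk, hkT⟩
      refine hp ⟨?_, fun k hk => h3 k (by rw [CD_append]; exact Or.inl hk)⟩
      rw [CD_append] at hk
      rcases hk with hk | ⟨k2, hk2, hk2'⟩
      · exact Set.nonempty_iff_ne_empty.1 ⟨k, hk⟩
      · have := CD_pos ht dl cd hcd R _ _ hk2
        simp only at hk2'
        omega
  have step : ∀ P, (if fp ht T P then LW Λ P * ∑' R, LW Λ R * f (P ++ R) else 0)
      ≤ (if fp ht T P ∧ T + q < HT ht P then LW Λ P else 0)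
        + c⁻¹ * (if fp ht T P then LW Λ P * ∑' R, LW Λ R * g (P ++ R) else 0) := by
    intro P
    by_cases hP : fp ht T P
    · rw [if_pos hP, if_pos hP]
      have h2 := hin P hP
      by_cases hp : P0 P
      · rw [if_pos hp] at h2
        by_cases hh : T + q < HT ht P
        · rw [if_pos ⟨hP, hh⟩]
          refine le_add_right ?_
          calc _ ≤ LW Λ P * 1 := mul_le_mul_right h2 _
            _ = _ := mul_one _
        · refine le_add_left ?_
          have h3 : ∑' R, LW Λ R * g (P ++ R) = U Λ ht (H - HT ht P) := by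
            rw [U]
            refine tsum_congr fun R => ?_
            simp only [hg]
            by_cases h : HT ht R = H - HT ht P
            · rw [if_pos h, if_pos, mul_one]
              refine ⟨by rw [HT_append]; omega, ?_, ?_⟩
              · intro k hk
                rw [CD_append] at hk
                rcases hk with hk | ⟨k2, hk2, hk2'⟩
                · exact hp.2 k hk
                · have h4 := CD_pos ht dl cd hcd R _ _ hk2
                  have h5 := le_HT_of_fp ht hP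
                  simp only at hk2'
                  omega
              · obtain ⟨k, hk⟩ := Set.nonempty_iff_ne_empty.2 hp.1
                exact Set.nonempty_iff_ne_empty.1 ⟨k, by rw [CD_append]; exact Or.inl hk⟩
            · rw [if_neg h, if_neg, mul_zero]
              rintro ⟨h2, _⟩
              rw [HT_append] at h2
              omega
          rw [h3]
          calc LW Λ P * ∑' R, LW Λ R * f (P ++ R) ≤ LW Λ P * 1 := mul_le_mul_right h2 _
            _ = c⁻¹ * (LW Λ P * c) := by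
                rw [mul_one, mul_comm (LW Λ P), ← mul_assoc, ENNReal.inv_mul_cancel hc hc', one_mul]
            _ ≤ _ := mul_le_mul_right (mul_le_mul_right (hU _) _) _
      · rw [if_neg hp] at h2
        have : ∑' R, LW Λ R * f (P ++ R) = 0 := le_antisymm h2 zero_le
        rw [this, mul_zero]; exact zero_le
    · rw [if_neg hP]; exact zero_le
  refine (ENNReal.tsum_le_tsum step).trans ?_
  rw [ENNReal.tsum_add, ENNReal.tsum_mul_left, ← split Λ ht h1 T g]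
  refine add_le_add (overshoot Λ ht h1 hU1 q T) (mul_le_mul_right ?_ _)
  rw [YY, BB, ← ENNReal.tsum_add]
  refine ENNReal.tsum_le_tsum fun L => ?_
  simp only [hg]
  by_cases hT : T ≤ HT ht L
  · rw [if_pos hT]
    by_cases h : HT ht L = H ∧ (∀ k ∈ CD ht dl cd L w, s < k) ∧ CD ht dl cd L w ≠ ∅
    · rw [if_pos h, mul_one]
      by_cases h' : ∀ k ∈ CD ht dl cd L w, k + s ≤ H
      · rw [if_pos ⟨h.1, h.2.2, fun k hk => ⟨h.2.1 k hk, h' k hk⟩⟩]
        exact le_self_add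
      · push Not at h'
        rw [if_pos (⟨h.1, h'⟩ : HT ht L = H ∧ ∃ k ∈ CD ht dl cd L w, H < k + s)]
        exact le_add_self
    · rw [if_neg h, mul_zero]; exact zero_le
  · rw [if_neg hT]; exact zero_le


open Classical in
lemma YY_le_one (hU1 : ∀ n, U Λ ht n ≤ 1) (s H : ℕ) (w : W) : YY Λ ht dl cd s H w ≤ 1 := by
  refine le_trans (ENNReal.tsum_le_tsum fun L => ?_) (hU1 H)
  by_cases h : HT ht L = H ∧ CD ht dl cd L w ≠ ∅ ∧ ∀ k ∈ CD ht dl cd L w, s < k ∧ k + s ≤ H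
  · rw [if_pos h, if_pos h.1]
  · rw [if_neg h]; exact zero_le

open Classical in
lemma window (h1 : ∀ b, 1 ≤ ht b) (hΛ : ∑' b, Λ b ≤ 1) (hU1 : ∀ n, U Λ ht n ≤ 1)
    (c : ℝ≥0∞) (hc : c ≠ 0) (hc' : c ≠ ⊤)
    (hU : ∀ n, c ≤ U Λ ht n) (hcd : ∀ w b k, k ∈ cd w b → 1 ≤ k ∧ k ≤ ht b)
    (s q a n H : ℕ) (S1 S2 : Set W) (v ε' : ℝ≥0∞) (hs : s ≤ q) (ha : q + s ≤ a) (hH : 4 * q ≤ H)
    (hn : a + 2 * q ≤ n)
    (hY : ∀ w, w ∉ S1 → w ∉ S2 → YY Λ ht dl cd s H w ≤ v)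
    (hB : ∀ w, BB Λ ht dl cd s H w ≤ ε') (w : W) :
    WinA Λ ht dl cd n a q w ≤ ov Λ ht q + (ov Λ ht q + c⁻¹ * (v + ε'))
      + c⁻¹ * (hitS Λ ht dl (a - (q + s)) S1 w + hitS Λ ht dl (a - (q + s)) S2 w) := by
  set a0 := a - (q + s) with ha0
  set f : List B → ℝ≥0∞ := fun L => if HT ht L = n ∧ (∀ k ∈ CD ht dl cd L w, a < k) ∧
        ∃ k ∈ CD ht dl cd L w, k ≤ a + q then 1 else 0 with hf
  have e1 : WinA Λ ht dl cd n a q w = ∑' L, (if a0 ≤ HT ht L then LW Λ L * f L else 0) := by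
    refine tsum_congr fun L => ?_
    by_cases h : HT ht L = n ∧ (∀ k ∈ CD ht dl cd L w, a < k) ∧
        ∃ k ∈ CD ht dl cd L w, k ≤ a + q
    · simp only [hf]
      rw [if_pos h, if_pos (by omega), if_pos h, mul_one]
    · simp only [hf]
      rw [if_neg h, if_neg h, mul_zero]
      simp
  rw [e1, split Λ ht h1 a0 f]
  have hYY : ∀ w', YY Λ ht dl cd s H w' ≤ v + (S1.indicator (fun _ => (1 : ℝ≥0∞)) w'
      + S2.indicator (fun _ => (1 : ℝ≥0∞)) w') := by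
    intro w'
    by_cases h1' : w' ∈ S1
    · rw [Set.indicator_of_mem h1']
      exact le_add_left (le_add_right (YY_le_one Λ ht dl cd hU1 s H w'))
    · by_cases h2' : w' ∈ S2
      · rw [Set.indicator_of_mem h2']
        exact le_add_left (le_add_left (YY_le_one Λ ht dl cd hU1 s H w'))
      · exact le_add_right (hY w' h1' h2')
  have hbig : ∀ A, ∑' R, LW Λ R * f (A ++ R) ≤ 1 := by
    intro A
    refine le_trans (ENNReal.tsum_le_tsum fun R => ?_) (hU1 (n - HT ht A))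
    simp only [hf]
    by_cases h : HT ht (A ++ R) = n ∧ (∀ k ∈ CD ht dl cd (A ++ R) w, a < k) ∧
        ∃ k ∈ CD ht dl cd (A ++ R) w, k ≤ a + q
    · rw [if_pos h, mul_one, if_pos (by have := h.1; rw [HT_append] at this; omega)]
    · rw [if_neg h, mul_zero]; exact zero_le
  have hsmall : ∀ A, fp ht a0 A → HT ht A ≤ a0 + q → ∑' R, LW Λ R * f (A ++ R)
      ≤ ov Λ ht q + c⁻¹ * (YY Λ ht dl cd s H (act dl A w) + BB Λ ht dl cd s H (act dl A w)) := by
    intro A hA hA2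
    refine le_trans (ENNReal.tsum_le_tsum fun R => ?_)
      (piece Λ ht dl cd h1 hU1 c hc hc' hU hcd s q (2 * q + s) H (n - HT ht A)
        (by omega) (by omega) (by omega) (act dl A w))
    simp only [hf]
    by_cases h : HT ht (A ++ R) = n ∧ (∀ k ∈ CD ht dl cd (A ++ R) w, a < k) ∧
        ∃ k ∈ CD ht dl cd (A ++ R) w, k ≤ a + q
    · rw [if_pos h, mul_one, if_pos]
      obtain ⟨h2, h3, k, hk, hk2⟩ := h
      rw [HT_append] at h2
      refine ⟨by omega, ?_, ?_⟩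
      · intro k' hk'
        have := h3 (HT ht A + k') (by rw [CD_append]; exact Or.inr ⟨k', hk', rfl⟩)
        omega
      · have hka := h3 k hk
        rw [CD_append] at hk
        rcases hk with hk | ⟨k2, hk3, hk4⟩
        · have := CD_pos ht dl cd hcd A _ _ hk
          omega
        · simp only at hk4
          have := le_HT_of_fp ht hA
          exact ⟨k2, hk3, by omega⟩
    · rw [if_neg h, mul_zero]; exact zero_le
  have step : ∀ A, (if fp ht a0 A then LW Λ A * ∑' R, LW Λ R * f (A ++ R) else 0)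
      ≤ (if fp ht a0 A ∧ a0 + q < HT ht A then LW Λ A else 0)
        + (if fp ht a0 A then LW Λ A else 0) * (ov Λ ht q + c⁻¹ * (v + ε'))
        + c⁻¹ * ((if fp ht a0 A then LW Λ A * S1.indicator (fun _ => (1 : ℝ≥0∞)) (act dl A w)
            else 0)
          + (if fp ht a0 A then LW Λ A * S2.indicator (fun _ => (1 : ℝ≥0∞)) (act dl A w)
            else 0)) := by
    intro A
    by_cases hA : fp ht a0 A
    · rw [if_pos hA, if_pos hA, if_pos hA, if_pos hA]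
      by_cases hh : a0 + q < HT ht A
      · rw [if_pos ⟨hA, hh⟩]
        refine le_add_right (le_add_right ?_)
        calc _ ≤ LW Λ A * 1 := mul_le_mul_right (hbig A) _
          _ = _ := mul_one _
      · rw [if_neg (fun h => hh h.2), zero_add]
        calc _ ≤ LW Λ A * (ov Λ ht q + c⁻¹ * ((v + (S1.indicator (fun _ => (1 : ℝ≥0∞)) (act dl A w)
              + S2.indicator (fun _ => (1 : ℝ≥0∞)) (act dl A w))) + ε')) := by
              refine mul_le_mul_right ((hsmall A hA (by omega)).trans ?_) _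
              gcongr
              · exact hYY _
              · exact hB _
          _ = _ := by ring
    · rw [if_neg hA]; exact zero_le
  refine (ENNReal.tsum_le_tsum step).trans ?_
  rw [ENNReal.tsum_add, ENNReal.tsum_add, ENNReal.tsum_mul_left, ENNReal.tsum_add,
    ENNReal.tsum_mul_right]
  refine add_le_add (add_le_add (overshoot Λ ht h1 hU1 q a0) ?_) le_rfl
  calc _ ≤ 1 * (ov Λ ht q + c⁻¹ * (v + ε')) := mul_le_mul_left (sum_FP Λ ht h1 hΛ a0) _
    _ = _ := one_mul _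

open Classical in
lemma octave (n m q K : ℕ) (hq : 1 ≤ q) (hK : m ≤ K * q) (w : W) :
    Kap1 Λ ht dl cd n m w ≤ ∑ i ∈ Finset.range K, WinA Λ ht dl cd n (m + i * q) q w := by
  rw [Kap1]
  have : ∀ L : List B, (if HT ht L = n ∧ (∀ k ∈ CD ht dl cd L w, m < k) ∧
      ∃ k ∈ CD ht dl cd L w, k ≤ 2 * m then LW Λ L else 0)
      ≤ ∑ i ∈ Finset.range K, (if HT ht L = n ∧ (∀ k ∈ CD ht dl cd L w, m + i * q < k) ∧
        ∃ k ∈ CD ht dl cd L w, k ≤ m + i * q + q then LW Λ L else 0) := by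
    intro L
    by_cases h : HT ht L = n ∧ (∀ k ∈ CD ht dl cd L w, m < k) ∧
      ∃ k ∈ CD ht dl cd L w, k ≤ 2 * m
    · rw [if_pos h]
      obtain ⟨h1, h2, k, hk, hk2⟩ := h
      have hne : (CD ht dl cd L w).Nonempty := ⟨k, hk⟩
      set k0 := sInf (CD ht dl cd L w) with hk0
      have hk0m : k0 ∈ CD ht dl cd L w := Nat.sInf_mem hne
      have hmin : ∀ k ∈ CD ht dl cd L w, k0 ≤ k := fun k hk => Nat.sInf_le hk
      have h3 := h2 k0 hk0m
      have h4 := (hmin k hk).trans hk2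
      set i := (k0 - m - 1) / q with hi
      have hi1 : i * q ≤ k0 - m - 1 := Nat.div_mul_le_self _ _
      have hi2 : k0 - m - 1 < (i + 1) * q := by
        have := Nat.lt_mul_div_succ (k0 - m - 1) (show 0 < q by omega)
        rw [← hi] at this
        rw [mul_comm]
        exact this
      have hiK : i < K := by
        rw [hi, Nat.div_lt_iff_lt_mul (by omega)]
        omega
      refine le_trans ?_ (Finset.single_le_sum (f := fun i => (if HT ht L = n ∧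
        (∀ k ∈ CD ht dl cd L w, m + i * q < k) ∧
        ∃ k ∈ CD ht dl cd L w, k ≤ m + i * q + q then LW Λ L else 0)) (fun _ _ => zero_le)
        (Finset.mem_range.2 hiK))
      rw [if_pos]
      refine ⟨h1, fun k hk => lt_of_lt_of_le (by omega) (hmin k hk), k0, hk0m, ?_⟩
      have : (i + 1) * q = i * q + q := by ring
      omega
    · rw [if_neg h]; exact zero_le
  refine (ENNReal.tsum_le_tsum this).trans ?_
  rw [Summable.tsum_finsetSum (fun _ _ => ENNReal.summable)]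
  rfl


lemma ov_tendsto (hΛ : ∑' b, Λ b = 1) (hE : ∑' b, Λ b * (ht b : ℝ≥0∞) ≠ ⊤) :
    Tendsto (ov Λ ht) atTop (𝓝 0) := by
  rw [sum_tail Λ ht hΛ] at hE
  have := ENNReal.tendsto_sum_nat_add (tail Λ ht) hE
  refine this.congr fun i => ?_
  rw [ov]
  refine tsum_congr fun k => ?_
  rw [add_comm]

/-- numbers: windows and quantile -/
lemma numbers (c1 C : ℝ≥0∞) (hc1 : c1 ≠ 0) (hc1' : c1 ≤ 1) (hC : C ≠ ⊤) (ε : ℝ≥0∞) (hε : ε ≠ 0) :
    ∃ (J : ℕ) (u : ℝ≥0∞), 1 ≤ J ∧ u ≠ 0 ∧ u ≤ 1 ∧ C * ((J + 1) * (u * u)) ≤ ε ∧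
      C * ((J + 1) * (1 - c1 * u) ^ J) ≤ ε := by
  have hc1t : c1 ≠ ⊤ := ne_top_of_le_ne_top ENNReal.one_ne_top hc1'
  have hi : c1⁻¹ ≠ ⊤ := ENNReal.inv_ne_top.2 hc1
  set D := (C + 1) * (c1⁻¹ * c1⁻¹) with hD
  have h1i : 1 ≤ c1⁻¹ := ENNReal.one_le_inv.2 hc1'
  have hDt : D ≠ ⊤ := ENNReal.mul_ne_top (ENNReal.add_ne_top.2 ⟨hC, ENNReal.one_ne_top⟩)
    (ENNReal.mul_ne_top hi hi)
  obtain ⟨J, v, -, hJ, hv0, hv1, ha, hb⟩ := NumK658.chooseK1 D hDt (min ε 1)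
    (by simp [hε]) 1
  have hvc : v ≤ c1 := by
    have h2 : (c1⁻¹ * v) ^ 2 ≤ 1 := by
      calc (c1⁻¹ * v) ^ 2 = 1 * (c1⁻¹ * c1⁻¹) * (1 * v ^ 2) := by ring
        _ ≤ D * ((J + 1) * v ^ 2) := by
            rw [hD]
            gcongr
            · exact le_add_self
            · exact le_add_self
        _ ≤ 1 := ha.trans (min_le_right _ _)
    have h3 : c1⁻¹ * v ≤ 1 := by
      by_contra h
      push Not at h
      have : 1 < (c1⁻¹ * v) ^ 2 := one_lt_pow₀ h (by norm_num)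
      exact absurd h2 (not_le.2 this)
    calc v = c1 * (c1⁻¹ * v) := by rw [← mul_assoc, ENNReal.mul_inv_cancel hc1 hc1t, one_mul]
      _ ≤ c1 * 1 := mul_le_mul_right h3 _
      _ = c1 := mul_one _
  refine ⟨J, c1⁻¹ * v, hJ, mul_ne_zero (ENNReal.inv_ne_zero.2 hc1t) hv0, ?_, ?_, ?_⟩
  · calc c1⁻¹ * v ≤ c1⁻¹ * c1 := mul_le_mul_right hvc _
      _ = 1 := ENNReal.inv_mul_cancel hc1 hc1t
  · refine le_trans ?_ (ha.trans (min_le_left _ _))
    calc C * ((J + 1) * (c1⁻¹ * v * (c1⁻¹ * v)))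
        = C * (c1⁻¹ * c1⁻¹) * ((J + 1) * v ^ 2) := by ring
      _ ≤ D * ((J + 1) * v ^ 2) := by
          rw [hD]; gcongr; exact le_self_add
  · refine le_trans ?_ (hb.trans (min_le_left _ _))
    rw [← mul_assoc c1, ENNReal.mul_inv_cancel hc1 hc1t, one_mul]
    refine mul_le_mul_left ?_ _
    rw [hD]
    calc C = C * (1 * 1) := by ring
      _ ≤ (C + 1) * (c1⁻¹ * c1⁻¹) := by gcongr; exact le_self_add


open Classical in
/-- **the assembly in the joint-cut frame**: window estimate at exact height + slab ⟹ `hK` of 865's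
`abs_main2`. -/
theorem kap1_of (h1 : ∀ b, 1 ≤ ht b) (hcd : ∀ w b k, k ∈ cd w b → 1 ≤ k ∧ k ≤ ht b)
    (hinj : ∀ b, Function.Injective (dl b)) (hΛ : ∑' b, Λ b = 1)
    (hE : ∑' b, Λ b * (ht b : ℝ≥0∞) ≠ ⊤) (hU1 : ∀ n, U Λ ht n ≤ 1)
    (c : ℝ≥0∞) (hc : c ≠ 0) (hU : ∀ n, c ≤ U Λ ht n)
    (c1 : ℝ≥0∞) (hc1 : c1 ≠ 0) (hc1' : c1 ≤ 1)
    (hW : ∀ u η : ℝ≥0∞, u ≠ 0 → u ≤ 1 → η ≠ 0 → ∃ s H0 : ℕ, ∀ H, H0 ≤ H → ∃ S1 S2 : Set W,
      Good Λ ht dl (c1 * u) η H S1 ∧ Good Λ ht dl (c1 * u) η H S2 ∧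
      ∀ w, w ∉ S1 → w ∉ S2 → (∑' L : List B, if HT ht L = H ∧ CD ht dl cd L w ≠ ∅ ∧
        ∀ k ∈ CD ht dl cd L w, s < k ∧ k + s ≤ H then LW Λ L else 0) ≤ u * u + η)
    (hSl : ∀ (s : ℕ) (ε : ℝ≥0∞), ε ≠ 0 → ∃ H0 : ℕ, ∀ H, H0 ≤ H → ∀ w,
      (∑' L : List B, if HT ht L = H ∧ ∃ k ∈ CD ht dl cd L w, H < k + s then LW Λ L else 0) ≤ ε) :
    ∀ ε : ℝ≥0∞, ε ≠ 0 → ∃ M : ℕ, ∀ m, M ≤ m → ∃ n0 : ℕ, ∀ n, n0 ≤ n → ∀ w,
      Kap1 Λ ht dl cd n m w ≤ ε := by
  intro ε hε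
  have hcle : c ≤ 1 := (hU 0).trans (hU1 0)
  have hc' : c ≠ ⊤ := ne_top_of_le_ne_top ENNReal.one_ne_top hcle
  have hi : c⁻¹ ≠ ⊤ := ENNReal.inv_ne_top.2 hc
  have hδ : ε / 8 ≠ 0 := by
    rw [Ne, ENNReal.div_eq_zero_iff, not_or]
    exact ⟨hε, by norm_num⟩
  obtain ⟨J, u, hJ, hu0, hu1, hX, hY⟩ := numbers c1 (32 * c⁻¹) hc1 hc1'
    (ENNReal.mul_ne_top (by norm_num) hi) (ε / 8) hδ
  set K2 : ℕ := 2 * (8 * J + 2) with hK2
  have hJt : (J : ℝ≥0∞) ≠ ⊤ := ENNReal.natCast_ne_top J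
  have hKt : (K2 : ℝ≥0∞) ≠ ⊤ := ENNReal.natCast_ne_top K2
  obtain ⟨η, hη, hη'⟩ := NumK658.chooseEta (K2 * c⁻¹ * (1 + 2 * J))
    (ENNReal.mul_ne_top (ENNReal.mul_ne_top hKt hi)
      (ENNReal.add_ne_top.2 ⟨ENNReal.one_ne_top, ENNReal.mul_ne_top (by norm_num) hJt⟩))
    (ε / 8) hδ
  obtain ⟨ε', hε'0, hε'⟩ := NumK658.chooseEta (K2 * c⁻¹) (ENNReal.mul_ne_top hKt hi) (ε / 8) hδ
  obtain ⟨s, H0, hW'⟩ := hW u η hu0 hu1 hη
  obtain ⟨H1, hS'⟩ := hSl s ε' hε'0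
  obtain ⟨i1, hi1⟩ := NumK658.chooseNat (ov Λ ht) (ov_tendsto Λ ht hΛ hE) (K2 * 2)
    (ENNReal.mul_ne_top hKt (by norm_num)) (ε / 8) hδ
  obtain ⟨i2, hi2⟩ := NumK658.chooseNat (ov Λ ht) (ov_tendsto Λ ht hΛ hE) (2 * K2 * c⁻¹ * J)
    (ENNReal.mul_ne_top (ENNReal.mul_ne_top (ENNReal.mul_ne_top (by norm_num) hKt) hi) hJt)
    (ε / 8) hδ
  set Q : ℕ := i1 + i2 + s + H0 + H1 + 1 with hQ
  refine ⟨(8 * J + 2) * Q, fun m hm => ?_⟩
  set q : ℕ := m / (8 * J + 2) with hq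
  have hqQ : Q ≤ q := by
    rw [hq, Nat.le_div_iff_mul_le (by omega)]
    rw [mul_comm]; exact hm
  have hq1 : (8 * J + 2) * q ≤ m := by
    rw [hq]; exact Nat.mul_div_le _ _
  have hq2 : m ≤ K2 * q := by
    have := Nat.lt_mul_div_succ m (show 0 < 8 * J + 2 by omega)
    rw [← hq] at this
    have h3 : (8 * J + 2) * (q + 1) ≤ (8 * J + 2) * (2 * q) := Nat.mul_le_mul_left _ (by omega)
    rw [hK2]
    calc m ≤ (8 * J + 2) * (2 * q) := this.le.trans h3
      _ = 2 * (8 * J + 2) * q := by ring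
  refine ⟨m + K2 * q + 2 * q, fun n hn w => ?_⟩
  obtain ⟨S1, S2, hG1, hG2, hYY⟩ := hW' (4 * q) (by omega)
  have hBB := hS' (4 * q) (by omega)
  refine (octave Λ ht dl cd n m q K2 (by omega) hq2 w).trans ?_
  have hwin : ∀ i ∈ Finset.range K2, WinA Λ ht dl cd n (m + i * q) q w
      ≤ ov Λ ht q + (ov Λ ht q + c⁻¹ * ((u * u + η) + ε'))
      + c⁻¹ * (((1 - c1 * u) ^ J + J * (η + ov Λ ht (4 * q)))
        + ((1 - c1 * u) ^ J + J * (η + ov Λ ht (4 * q)))) := by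
    intro i hi
    have hiK : i < K2 := Finset.mem_range.1 hi
    have h5 : (i + 1) * q ≤ K2 * q := Nat.mul_le_mul_right _ hiK
    have h6 : (i + 1) * q = i * q + q := by ring
    have h7 : J * (2 * (4 * q)) ≤ m + i * q - (q + s) := by
      have : (8 * J + 2) * q = J * (2 * (4 * q)) + 2 * q := by ring
      omega
    have h8 : q + s ≤ m + i * q := by
      have : (8 * J + 2) * q = J * (2 * (4 * q)) + 2 * q := by ring
      omega
    refine (window Λ ht dl cd h1 hΛ.le hU1 c hc hc' hU hcd s q (m + i * q) n (4 * q) S1 S2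
      (u * u + η) ε' (by omega) h8 le_rfl (by omega) hYY hBB w).trans ?_
    gcongr
    · exact hit_le Λ ht dl h1 hΛ hU1 hinj (c1 * u) η (4 * q) S1 hG1 J _ h7 w
    · exact hit_le Λ ht dl h1 hΛ hU1 hinj (c1 * u) η (4 * q) S2 hG2 J _ h7 w
  refine (Finset.sum_le_sum hwin).trans ?_
  rw [Finset.sum_const, Finset.card_range, nsmul_eq_mul]
  set P := (1 - c1 * u) ^ J with hP
  have hK16 : (K2 : ℝ≥0∞) ≤ 16 * (J + 1) := by
    rw [hK2]
    have : 2 * (8 * J + 2) ≤ 16 * (J + 1) := by omega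
    exact_mod_cast this
  have t1 : (K2 : ℝ≥0∞) * 2 * ov Λ ht q ≤ ε / 8 := hi1 q (by omega)
  have t2 : (2 : ℝ≥0∞) * K2 * c⁻¹ * J * ov Λ ht (4 * q) ≤ ε / 8 := hi2 (4 * q) (by omega)
  have t3 : (K2 : ℝ≥0∞) * c⁻¹ * (u * u) ≤ ε / 8 := by
    refine le_trans ?_ hX
    calc (K2 : ℝ≥0∞) * c⁻¹ * (u * u) ≤ (32 * (J + 1)) * c⁻¹ * (u * u) := by
          gcongr
          refine hK16.trans ?_
          gcongr
          norm_num
      _ = _ := by ring
  have t4 : (2 : ℝ≥0∞) * K2 * c⁻¹ * P ≤ ε / 8 := by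
    refine le_trans ?_ hY
    calc (2 : ℝ≥0∞) * K2 * c⁻¹ * P ≤ 2 * (16 * (J + 1)) * c⁻¹ * P := by gcongr
      _ = _ := by ring
  calc (K2 : ℝ≥0∞) * (ov Λ ht q + (ov Λ ht q + c⁻¹ * ((u * u + η) + ε'))
        + c⁻¹ * ((P + J * (η + ov Λ ht (4 * q))) + (P + J * (η + ov Λ ht (4 * q)))))
      = K2 * 2 * ov Λ ht q + K2 * c⁻¹ * (u * u) + K2 * c⁻¹ * ε'
        + K2 * c⁻¹ * (1 + 2 * J) * η + 2 * K2 * c⁻¹ * P
        + 2 * K2 * c⁻¹ * J * ov Λ ht (4 * q) := by ring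
    _ ≤ ε / 8 + ε / 8 + ε / 8 + ε / 8 + ε / 8 + ε / 8 := by gcongr
    _ = 6 * (ε / 8) := by ring
    _ ≤ 8 * (ε / 8) := by gcongr; norm_num
    _ = ε := ENNReal.mul_div_cancel (by norm_num) (by norm_num)

end Crest.Agent.R154.JAsm26
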