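import Crest.Agent.R154.JHit_139
import Crest.Agent.R154.B5First_181
import Crest.Agent.R154.NumAsm_334

/-! Row 154, road 801, joint-cut frame (helper360): abstract assembly, `Kap1` from the one-piece
input `hW` and the slab input `hSl` (139's literals). -/

set_option autoImplicit false

namespace Crest.Agent.R154.JAsm360

open scoped ENNReal Classical
open Crest.Agent.R154.B5A
open Crest.Agent.R154.FP178
open Crest.Agent.R154.JAsm139

variable {B W : Type*} (Λ : B → ℝ≥0∞) (ht : B → ℕ) (dl : B → W → W) (cd : W → B → Set ℕ)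

/-- decompose every word -/
lemma tsum_split_le {F : List B → ℝ≥0∞} {G : List B → List B → ℝ≥0∞}
    (h : ∀ l, F l ≠ 0 → ∃ l1 l2, l = l1 ++ l2 ∧ F l ≤ G l1 l2) :
    ∑' l, F l ≤ ∑' l1, ∑' l2, G l1 l2 := by
  rw [← ENNReal.tsum_prod (f := G)]
  choose c1 c2 hc hG using h
  rw [← tsum_subtype_support F]
  calc ∑' l : Function.support F, F l
      ≤ ∑' l : Function.support F, (fun p : List B × List B => G p.1 p.2)
          (c1 l.1 l.2, c2 l.1 l.2) := ENNReal.tsum_le_tsum fun l => hG l.1 l.2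
    _ ≤ ∑' p : List B × List B, G p.1 p.2 := by
        refine ENNReal.tsum_comp_le_tsum_of_injective
          (f := fun l : Function.support F => (c1 l.1 l.2, c2 l.1 l.2)) ?_ _
        rintro ⟨l, hl⟩ ⟨l', hl'⟩ e
        simp only [Prod.mk.injEq] at e
        apply Subtype.ext
        change l = l'
        rw [hc l hl, hc l' hl', e.1, e.2]

/-- cut a list at the first passage -/
lemma exists_fp (L : List B) : ∀ a, a ≤ HT ht L →
    ∃ A L', L = A ++ L' ∧ fp ht a A := by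
  induction L with
  | nil =>
    intro a ha
    rw [HT_nil] at ha
    exact ⟨[], [], rfl, by rw [fp_nil]; omega⟩
  | cons b L ih =>
    intro a ha
    rcases Nat.eq_zero_or_pos a with rfl | h0
    · exact ⟨[], b :: L, rfl, by rw [fp_nil]⟩
    · rw [HT_cons] at ha
      obtain ⟨A, L', h2, h3⟩ := ih (a - ht b) (by omega)
      exact ⟨b :: A, L', by rw [h2]; rfl, by rw [fp_cons]; exact ⟨h0, h3⟩⟩

/-- last cut at height `≤ g` -/
lemma exists_last (L : List B) : ∀ g, g < HT ht L →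
    ∃ P b R, L = P ++ b :: R ∧ HT ht P ≤ g ∧ g < HT ht P + ht b := by
  induction L with
  | nil => intro g hg; rw [HT_nil] at hg; omega
  | cons b L ih =>
    intro g hg
    rw [HT_cons] at hg
    by_cases h : g < ht b
    · exact ⟨[], b, L, rfl, by rw [HT_nil]; omega, by rw [HT_nil]; omega⟩
    · obtain ⟨P, b', R, h2, h3, h4⟩ := ih (g - ht b) (by omega)
      exact ⟨b :: P, b', R, by rw [h2]; rfl, by rw [HT_cons]; omega, by rw [HT_cons]; omega⟩

/-- pieces of height `h` with a contact, all contacts at relative depth `> s` -/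
noncomputable def Dh (h s : ℕ) (w : W) : ℝ≥0∞ :=
  ∑' P : List B, if HT ht P = h ∧ (CD ht dl cd P w).Nonempty ∧ (∀ k ∈ CD ht dl cd P w, s < k)
    then LW Λ P else 0

/-- `∑_{k ≥ i} tail k` -/
noncomputable def tl (i : ℕ) : ℝ≥0∞ := ∑' k, tail Λ ht (i + k)

lemma tl_anti {i j : ℕ} (h : i ≤ j) : tl Λ ht j ≤ tl Λ ht i := by
  obtain ⟨e, rfl⟩ := Nat.exists_eq_add_of_le h
  unfold tl
  have : ∀ k, tail Λ ht (i + e + k) = (fun k => tail Λ ht (i + k)) (e + k) := fun k => by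
    simp only [add_assoc]
  simp_rw [this]
  exact ENNReal.tsum_comp_le_tsum_of_injective (add_right_injective e) _

/-- the letter which jumps over `g` -/
lemma jump_le (hU1 : ∀ n, U Λ ht n ≤ 1) (g n : ℕ) (P : List B) (hP : HT ht P ≤ g) :
    ∑' L : List B, (if (∃ b R, L = b :: R ∧ g < HT ht P + ht b) ∧ HT ht P + HT ht L = n
      then LW Λ L else 0) ≤ tail Λ ht (g - HT ht P) := by
  rw [tsum_list]
  rw [if_neg (by rintro ⟨⟨b, R, h, _⟩, _⟩; simp at h), zero_add, tail]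
  refine ENNReal.tsum_le_tsum fun b => ?_
  by_cases hb : g - HT ht P < ht b
  · rw [if_pos hb]
    calc ∑' L : List B, (if (∃ b' R, b :: L = b' :: R ∧ g < HT ht P + ht b') ∧
            HT ht P + HT ht (b :: L) = n then LW Λ (b :: L) else 0)
        ≤ ∑' L : List B, Λ b * (if HT ht L = n - HT ht P - ht b then LW Λ L else 0) := by
          refine ENNReal.tsum_le_tsum fun L => ?_
          by_cases h : (∃ b' R, b :: L = b' :: R ∧ g < HT ht P + ht b') ∧
            HT ht P + HT ht (b :: L) = n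
          · rw [if_pos h, if_pos, LW_cons]
            have := h.2
            rw [HT_cons] at this
            omega
          · rw [if_neg h]; exact zero_le
      _ = Λ b * U Λ ht (n - HT ht P - ht b) := by rw [ENNReal.tsum_mul_left, U]
      _ ≤ Λ b * 1 := mul_le_mul_right (hU1 _) _
      _ = Λ b := mul_one _
  · rw [if_neg hb]
    refine le_of_eq (ENNReal.tsum_eq_zero.2 fun L => ?_)
    rw [if_neg]
    rintro ⟨⟨b', R, h, h'⟩, _⟩
    simp only [List.cons.injEq] at h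
    rw [← h.1] at h'
    omega

/-- inner estimate: last cut at height `≤ 4 t` -/
lemma inner (h1 : ∀ b, 1 ≤ ht b) (hcd : ∀ w b k, k ∈ cd w b → 1 ≤ k ∧ k ≤ ht b)
    (hU1 : ∀ n, U Λ ht n ≤ 1) (t s n : ℕ) (hn : 4 * t < n) (w : W) :
    ∑' L : List B, (if HT ht L = n ∧ (∃ k ∈ CD ht dl cd L w, k ≤ 2 * t) ∧
        (∀ k ∈ CD ht dl cd L w, s < k) then LW Λ L else 0)
      ≤ tl Λ ht t + ∑ h ∈ Finset.Icc (3 * t) (4 * t), tail Λ ht (4 * t - h) *
          Dh Λ ht dl cd h s w := by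
  calc _ ≤ ∑' P : List B, ∑' L : List B, (if HT ht P ≤ 4 * t ∧ (3 * t ≤ HT ht P →
            (CD ht dl cd P w).Nonempty ∧ (∀ k ∈ CD ht dl cd P w, s < k)) then LW Λ P else 0) *
          (if (∃ b R, L = b :: R ∧ 4 * t < HT ht P + ht b) ∧ HT ht P + HT ht L = n
            then LW Λ L else 0) := by
        refine tsum_split_le fun L hL => ?_
        have hL' : HT ht L = n ∧ (∃ k ∈ CD ht dl cd L w, k ≤ 2 * t) ∧
            (∀ k ∈ CD ht dl cd L w, s < k) := by
          by_contra hcon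
          exact hL (if_neg hcon)
        obtain ⟨P, b, R, e, h3, h4⟩ := exists_last ht L (4 * t) (by rw [hL'.1]; exact hn)
        refine ⟨P, b :: R, e, ?_⟩
        rw [if_pos hL', if_pos, if_pos, e, LW_append]
        · refine ⟨⟨b, R, rfl, h4⟩, ?_⟩
          rw [← HT_append, ← e]; exact hL'.1
        · refine ⟨h3, fun h5 => ?_⟩
          obtain ⟨_, ⟨k, hk, hk2⟩, hall⟩ := hL'
          rw [e, CD_append] at hk hall
          refine ⟨?_, fun k' hk' => hall k' (Or.inl hk')⟩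
          rcases hk with hk | ⟨k', hk', rfl⟩
          · exact ⟨k, hk⟩
          · exfalso
            have := CD_pos ht dl cd hcd _ _ _ hk'
            simp only at hk2
            omega
    _ ≤ ∑' P : List B, (if HT ht P ≤ 4 * t ∧ (3 * t ≤ HT ht P →
            (CD ht dl cd P w).Nonempty ∧ (∀ k ∈ CD ht dl cd P w, s < k)) then LW Λ P else 0) *
          tail Λ ht (4 * t - HT ht P) := by
        refine ENNReal.tsum_le_tsum fun P => ?_
        rw [ENNReal.tsum_mul_left]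
        by_cases hP : HT ht P ≤ 4 * t
        · exact mul_le_mul_right (jump_le Λ ht hU1 _ _ P hP) _
        · rw [if_neg (fun h => hP h.1)]; simp
    _ ≤ ∑' P : List B, ((if HT ht P < 3 * t then LW Λ P * tail Λ ht (3 * t + t - HT ht P) else 0)
          + ∑ h ∈ Finset.Icc (3 * t) (4 * t), (if HT ht P = h ∧ (CD ht dl cd P w).Nonempty ∧
            (∀ k ∈ CD ht dl cd P w, s < k) then LW Λ P else 0) * tail Λ ht (4 * t - h)) := by
        refine ENNReal.tsum_le_tsum fun P => ?_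
        by_cases hP : HT ht P ≤ 4 * t ∧ (3 * t ≤ HT ht P →
            (CD ht dl cd P w).Nonempty ∧ (∀ k ∈ CD ht dl cd P w, s < k))
        · rw [if_pos hP]
          by_cases h3 : HT ht P < 3 * t
          · rw [if_pos h3, show 3 * t + t - HT ht P = 4 * t - HT ht P by omega]
            exact le_self_add
          · rw [not_lt] at h3
            refine le_trans ?_ le_add_self
            refine le_trans (le_of_eq ?_) (Finset.single_le_sum (f := fun h =>
              (if HT ht P = h ∧ (CD ht dl cd P w).Nonempty ∧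
              (∀ k ∈ CD ht dl cd P w, s < k) then LW Λ P else 0) * tail Λ ht (4 * t - h))
              (fun _ _ => zero_le) (Finset.mem_Icc.2 ⟨h3, hP.1⟩))
            simp only [true_and]
            rw [if_pos (hP.2 h3)]
        · rw [if_neg hP, zero_mul]; exact zero_le
    _ = ∑' P : List B, (if HT ht P < 3 * t then LW Λ P * tail Λ ht (3 * t + t - HT ht P) else 0)
          + ∑ h ∈ Finset.Icc (3 * t) (4 * t), tail Λ ht (4 * t - h) *
          Dh Λ ht dl cd h s w := by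
        rw [ENNReal.tsum_add, Summable.tsum_finsetSum (fun _ _ => ENNReal.summable)]
        congr 1
        refine Finset.sum_congr rfl fun h _ => ?_
        rw [ENNReal.tsum_mul_right, mul_comm, Dh]
    _ ≤ _ := by
        refine add_le_add ?_ le_rfl
        rw [← over_eq Λ ht h1 t (3 * t)]
        exact overshoot Λ ht h1 hU1 t (3 * t)

/-- one window -/
lemma win (h1 : ∀ b, 1 ≤ ht b) (hΛ : ∑' b, Λ b ≤ 1)
    (hcd : ∀ w b k, k ∈ cd w b → 1 ≤ k ∧ k ≤ ht b)
    (hU1 : ∀ n, U Λ ht n ≤ 1) (a t i s n : ℕ) (hi : i + s ≤ t) (hn : a + i + 4 * t < n) (w : W) :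
    ∑' L : List B, (if HT ht L = n ∧ (∀ k ∈ CD ht dl cd L w, a + t < k) ∧
        (∃ k ∈ CD ht dl cd L w, k ≤ a + 2 * t) then LW Λ L else 0)
      ≤ tl Λ ht i + tl Λ ht t + ∑ h ∈ Finset.Icc (3 * t) (4 * t), tail Λ ht (4 * t - h) *
          ∑' A : List B, (if fp ht a A then LW Λ A * Dh Λ ht dl cd h s (act dl A w) else 0) := by
  calc _ ≤ ∑' A : List B, ∑' L : List B, (if fp ht a A then LW Λ A *
          (if HT ht L = n - HT ht A ∧ (HT ht A ≤ a + i →
            (∃ k ∈ CD ht dl cd L (act dl A w), k ≤ 2 * t) ∧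
            (∀ k ∈ CD ht dl cd L (act dl A w), s < k)) then LW Λ L else 0) else 0) := by
        refine tsum_split_le fun L hL => ?_
        have hL' : HT ht L = n ∧ (∀ k ∈ CD ht dl cd L w, a + t < k) ∧
            (∃ k ∈ CD ht dl cd L w, k ≤ a + 2 * t) := by
          by_contra hcon
          exact hL (if_neg hcon)
        obtain ⟨A, L', e, h2⟩ := exists_fp ht L a (by rw [hL'.1]; omega)
        refine ⟨A, L', e, ?_⟩
        have hle := le_HT_of_fp ht h2
        rw [if_pos hL', if_pos h2, if_pos, e, LW_append]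
        obtain ⟨hh, hall, ⟨k, hk, hk2⟩⟩ := hL'
        rw [e, HT_append] at hh
        refine ⟨by omega, fun h3 => ?_⟩
        rw [e, CD_append] at hk hall
        refine ⟨?_, fun k' hk' => ?_⟩
        · rcases hk with hk | ⟨k', hk', rfl⟩
          · exfalso
            have h5 := CD_pos ht dl cd hcd _ _ _ hk
            have h6 := hall k (Or.inl hk)
            omega
          · exact ⟨k', hk', by simp only at hk2; omega⟩
        · have := hall _ (Or.inr ⟨k', hk', rfl⟩)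
          simp only at this
          omega
    _ ≤ ∑' A : List B, ((if fp ht a A ∧ a + i < HT ht A then LW Λ A else 0) +
          ((if fp ht a A then LW Λ A else 0) * tl Λ ht t +
          ∑ h ∈ Finset.Icc (3 * t) (4 * t), tail Λ ht (4 * t - h) *
           (if fp ht a A then LW Λ A * Dh Λ ht dl cd h s (act dl A w) else 0))) := by
        refine ENNReal.tsum_le_tsum fun A => ?_
        by_cases hA : fp ht a A
        · simp only [if_pos hA]
          rw [ENNReal.tsum_mul_left]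
          by_cases hi' : a + i < HT ht A
          · rw [if_pos ⟨hA, hi'⟩]
            refine le_trans ?_ le_self_add
            calc _ ≤ LW Λ A * ∑' L : List B, (if HT ht L = n - HT ht A then LW Λ L else 0) := by
                  refine mul_le_mul_right (ENNReal.tsum_le_tsum fun L => ?_) _
                  by_cases hL : HT ht L = n - HT ht A
                  · rw [if_pos hL]; split_ifs <;> simp
                  · rw [if_neg hL, if_neg (fun h => hL h.1)]
              _ ≤ LW Λ A * 1 := mul_le_mul_right (hU1 _) _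
              _ = _ := mul_one _
          · rw [not_lt] at hi'
            refine le_trans ?_ le_add_self
            calc _ ≤ LW Λ A * (tl Λ ht t + ∑ h ∈ Finset.Icc (3 * t) (4 * t),
                    tail Λ ht (4 * t - h) * Dh Λ ht dl cd h s (act dl A w)) := by
                  refine mul_le_mul_right ?_ _
                  refine le_trans (ENNReal.tsum_le_tsum fun L => ?_)
                    (inner Λ ht dl cd h1 hcd hU1 t s (n - HT ht A) (by omega) (act dl A w))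
                  by_cases hL : HT ht L = n - HT ht A ∧ (HT ht A ≤ a + i →
                    (∃ k ∈ CD ht dl cd L (act dl A w), k ≤ 2 * t) ∧
                    (∀ k ∈ CD ht dl cd L (act dl A w), s < k))
                  · rw [if_pos hL, if_pos ⟨hL.1, hL.2 hi'⟩]
                  · rw [if_neg hL]; exact zero_le
              _ = _ := by
                  rw [mul_add, Finset.mul_sum]
                  congr 1
                  refine Finset.sum_congr rfl fun h _ => by ring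
        · simp only [if_neg hA, tsum_zero]; exact zero_le
    _ = ∑' A : List B, (if fp ht a A ∧ a + i < HT ht A then LW Λ A else 0) +
          ((∑' A : List B, (if fp ht a A then LW Λ A else 0)) * tl Λ ht t +
          ∑ h ∈ Finset.Icc (3 * t) (4 * t), tail Λ ht (4 * t - h) *
           ∑' A : List B, (if fp ht a A then LW Λ A * Dh Λ ht dl cd h s (act dl A w) else 0)) := by
        rw [ENNReal.tsum_add, ENNReal.tsum_add, ENNReal.tsum_mul_right,
          Summable.tsum_finsetSum (fun _ _ => ENNReal.summable)]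
        congr 2
        exact Finset.sum_congr rfl fun h _ => ENNReal.tsum_mul_left
    _ ≤ tl Λ ht i + (1 * tl Λ ht t +
          ∑ h ∈ Finset.Icc (3 * t) (4 * t), tail Λ ht (4 * t - h) *
           ∑' A : List B, (if fp ht a A then LW Λ A * Dh Λ ht dl cd h s (act dl A w) else 0)) := by
        refine add_le_add (overshoot Λ ht h1 hU1 i a) (add_le_add ?_ le_rfl)
        exact mul_le_mul_left (sum_FP Λ ht h1 hΛ a) _
    _ = _ := by rw [one_mul, add_assoc]

/-- the piece estimate -/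
lemma Dh_le (hU1 : ∀ n, U Λ ht n ≤ 1) (h s : ℕ) (S1 S2 : Set W) (e1 e2 : ℝ≥0∞) (w : W)
    (hF : w ∉ S1 → w ∉ S2 → (∑' L : List B, if HT ht L = h ∧ CD ht dl cd L w ≠ ∅ ∧
      ∀ k ∈ CD ht dl cd L w, s < k ∧ k + s ≤ h then LW Λ L else 0) ≤ e1)
    (hS : (∑' L : List B, if HT ht L = h ∧ ∃ k ∈ CD ht dl cd L w, h < k + s
      then LW Λ L else 0) ≤ e2) :
    Dh Λ ht dl cd h s w ≤ S1.indicator (fun _ => 1) w + S2.indicator (fun _ => 1) w
      + (e1 + e2) := by
  have hone : Dh Λ ht dl cd h s w ≤ 1 := by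
    refine (ENNReal.tsum_le_tsum fun P => ?_).trans (hU1 h)
    by_cases hP : HT ht P = h
    · rw [if_pos hP]; split_ifs <;> simp
    · rw [if_neg hP, if_neg (fun h => hP h.1)]
  by_cases h1 : w ∈ S1
  · rw [Set.indicator_of_mem h1]
    exact hone.trans (le_add_right le_self_add)
  by_cases h2 : w ∈ S2
  · rw [Set.indicator_of_mem h2]
    exact hone.trans (le_add_right le_add_self)
  refine le_trans ?_ (le_add_left (add_le_add (hF h1 h2) hS))
  rw [← ENNReal.tsum_add]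
  refine ENNReal.tsum_le_tsum fun P => ?_
  by_cases hP : HT ht P = h ∧ (CD ht dl cd P w).Nonempty ∧ (∀ k ∈ CD ht dl cd P w, s < k)
  · rw [if_pos hP]
    by_cases hall : ∀ k ∈ CD ht dl cd P w, k + s ≤ h
    · rw [if_pos (show HT ht P = h ∧ CD ht dl cd P w ≠ ∅ ∧
        ∀ k ∈ CD ht dl cd P w, s < k ∧ k + s ≤ h from
        ⟨hP.1, hP.2.1.ne_empty, fun k hk => ⟨hP.2.2 k hk, hall k hk⟩⟩)]
      exact le_self_add
    · push Not at hall
      refine le_trans ?_ le_add_self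
      rw [if_pos (show HT ht P = h ∧ ∃ k ∈ CD ht dl cd P w, h < k + s from ⟨hP.1, hall⟩)]
  · rw [if_neg hP]; exact zero_le

lemma sum_tail_Icc (t : ℕ) :
    ∑ h ∈ Finset.Icc (3 * t) (4 * t), tail Λ ht (4 * t - h) ≤ tl Λ ht 0 := by
  have e : ∑ h ∈ Finset.Icc (3 * t) (4 * t), tail Λ ht (4 * t - h)
      = ∑ k ∈ (Finset.Icc (3 * t) (4 * t)).image (fun h => 4 * t - h), tail Λ ht k := by
    rw [Finset.sum_image]
    intro x hx y hy hxy
    have h1 := Finset.mem_Icc.1 hx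
    have h2 := Finset.mem_Icc.1 hy
    simp only at hxy
    omega
  rw [e, tl]
  simp only [zero_add]
  exact ENNReal.sum_le_tsum _

lemma win2 (h1 : ∀ b, 1 ≤ ht b) (hΛ : ∑' b, Λ b = 1)
    (hcd : ∀ w b k, k ∈ cd w b → 1 ≤ k ∧ k ≤ ht b) (hinj : ∀ b, Function.Injective (dl b))
    (hU1 : ∀ n, U Λ ht n ≤ 1) (a t i s n : ℕ) (hi : i + s ≤ t) (hn : a + i + 4 * t < n)
    (J : ℕ) (hJ : J * (8 * t) ≤ a) (q η e1 e2 : ℝ≥0∞)
    (hW : ∀ h, t ≤ h → ∃ S1 S2 : Set W, Good Λ ht dl q η h S1 ∧ Good Λ ht dl q η h S2 ∧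
      ∀ w, w ∉ S1 → w ∉ S2 → (∑' L : List B, if HT ht L = h ∧ CD ht dl cd L w ≠ ∅ ∧
      ∀ k ∈ CD ht dl cd L w, s < k ∧ k + s ≤ h then LW Λ L else 0) ≤ e1)
    (hS : ∀ h, t ≤ h → ∀ w, (∑' L : List B, if HT ht L = h ∧ ∃ k ∈ CD ht dl cd L w, h < k + s
      then LW Λ L else 0) ≤ e2) (w : W) :
    ∑' L : List B, (if HT ht L = n ∧ (∀ k ∈ CD ht dl cd L w, a + t < k) ∧
        (∃ k ∈ CD ht dl cd L w, k ≤ a + 2 * t) then LW Λ L else 0)
      ≤ tl Λ ht i + tl Λ ht t + tl Λ ht 0 *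
        (2 * ((1 - q) ^ J + J * (η + tl Λ ht t)) + (e1 + e2)) := by
  refine (win Λ ht dl cd h1 hΛ.le hcd hU1 a t i s n hi hn w).trans (add_le_add le_rfl ?_)
  have key : ∀ h ∈ Finset.Icc (3 * t) (4 * t),
      ∑' A : List B, (if fp ht a A then LW Λ A * Dh Λ ht dl cd h s (act dl A w) else 0)
      ≤ 2 * ((1 - q) ^ J + J * (η + tl Λ ht t)) + (e1 + e2) := by
    intro h hh
    rw [Finset.mem_Icc] at hh
    obtain ⟨S1, S2, hG1, hG2, hF⟩ := hW h (by omega)
    have hit : ∀ S : Set W, Good Λ ht dl q η h S →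
        hitS Λ ht dl a S w ≤ (1 - q) ^ J + J * (η + tl Λ ht t) := by
      intro S hG
      refine (hit_le Λ ht dl h1 hΛ hU1 hinj q η h S hG J a (le_trans ?_ hJ) w).trans ?_
      · exact Nat.mul_le_mul_left _ (by omega)
      · have : (∑' k, tail Λ ht (h + k)) ≤ tl Λ ht t := tl_anti Λ ht (by omega)
        gcongr
    calc _ ≤ ∑' A : List B, ((if fp ht a A then LW Λ A *
              S1.indicator (fun _ => (1 : ℝ≥0∞)) (act dl A w) else 0)
            + (if fp ht a A then LW Λ A *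
              S2.indicator (fun _ => (1 : ℝ≥0∞)) (act dl A w) else 0)
            + (if fp ht a A then LW Λ A else 0) * (e1 + e2)) := by
          refine ENNReal.tsum_le_tsum fun A => ?_
          by_cases hA : fp ht a A
          · simp only [if_pos hA]
            rw [← mul_add, ← mul_add]
            exact mul_le_mul_right (Dh_le Λ ht dl cd hU1 h s S1 S2 e1 e2 _ (hF _)
              (hS h (by omega) _)) _
          · rw [if_neg hA]; exact zero_le
      _ = hitS Λ ht dl a S1 w + hitS Λ ht dl a S2 w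
            + (∑' A : List B, (if fp ht a A then LW Λ A else 0)) * (e1 + e2) := by
          rw [ENNReal.tsum_add, ENNReal.tsum_add, ENNReal.tsum_mul_right]
          rfl
      _ ≤ ((1 - q) ^ J + J * (η + tl Λ ht t)) + ((1 - q) ^ J + J * (η + tl Λ ht t))
            + 1 * (e1 + e2) := by
          refine add_le_add (add_le_add (hit _ hG1) (hit _ hG2)) ?_
          exact mul_le_mul_left (sum_FP Λ ht h1 hΛ.le a) _
      _ = _ := by rw [one_mul, two_mul]
  calc _ ≤ ∑ h ∈ Finset.Icc (3 * t) (4 * t), tail Λ ht (4 * t - h) *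
          (2 * ((1 - q) ^ J + J * (η + tl Λ ht t)) + (e1 + e2)) :=
        Finset.sum_le_sum fun h hh => mul_le_mul_right (key h hh) _
    _ = (∑ h ∈ Finset.Icc (3 * t) (4 * t), tail Λ ht (4 * t - h)) *
          (2 * ((1 - q) ^ J + J * (η + tl Λ ht t)) + (e1 + e2)) := by rw [Finset.sum_mul]
    _ ≤ _ := mul_le_mul_left (sum_tail_Icc Λ ht t) _

/-- union over the windows -/
lemma kap_le (m t K n : ℕ) (htm : t ≤ m) (hK : m ≤ K * t) (w : W) (X : ℝ≥0∞)
    (hX : ∀ j < K, ∑' L : List B, (if HT ht L = n ∧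
        (∀ k ∈ CD ht dl cd L w, (m + j * t - t) + t < k) ∧
        (∃ k ∈ CD ht dl cd L w, k ≤ (m + j * t - t) + 2 * t) then LW Λ L else 0) ≤ X) :
    Kap1 Λ ht dl cd n m w ≤ K * X := by
  calc Kap1 Λ ht dl cd n m w
      ≤ ∑' L : List B, ∑ j ∈ Finset.range K, (if HT ht L = n ∧
        (∀ k ∈ CD ht dl cd L w, (m + j * t - t) + t < k) ∧
        (∃ k ∈ CD ht dl cd L w, k ≤ (m + j * t - t) + 2 * t) then LW Λ L else 0) := by
        rw [Kap1]
        refine ENNReal.tsum_le_tsum fun L => ?_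
        by_cases hL : HT ht L = n ∧ (∀ k ∈ CD ht dl cd L w, m < k) ∧
          ∃ k ∈ CD ht dl cd L w, k ≤ 2 * m
        · rw [if_pos hL]
          obtain ⟨hh, hall, k, hk, hk2⟩ := hL
          have hne : (CD ht dl cd L w).Nonempty := ⟨k, hk⟩
          set k0 := sInf (CD ht dl cd L w) with hk0
          have hm0 : k0 ∈ CD ht dl cd L w := Nat.sInf_mem hne
          have hmin : ∀ k ∈ CD ht dl cd L w, k0 ≤ k := fun k hk => Nat.sInf_le hk
          have g1 := hall k0 hm0
          have g2 : k0 ≤ 2 * m := (hmin k hk).trans hk2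
          have htpos : 0 < t := by
            rcases Nat.eq_zero_or_pos t with h0 | h0
            · rw [h0, mul_zero] at hK; omega
            · exact h0
          set j := (k0 - m - 1) / t with hj
          have e1 := Nat.div_add_mod (k0 - m - 1) t
          have e2 := Nat.mod_lt (k0 - m - 1) htpos
          rw [← hj, mul_comm t j] at e1
          have hjK : j < K := by
            rw [hj]
            refine Nat.div_lt_of_lt_mul ?_
            rw [mul_comm]
            omega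
          refine le_trans (le_of_eq ?_) (Finset.single_le_sum (f := fun j => (if HT ht L = n ∧
            (∀ k ∈ CD ht dl cd L w, (m + j * t - t) + t < k) ∧
            (∃ k ∈ CD ht dl cd L w, k ≤ (m + j * t - t) + 2 * t) then LW Λ L else 0))
            (fun _ _ => zero_le) (Finset.mem_range.2 hjK))
          refine (if_pos ⟨hh, fun k' hk' => ?_, k0, hm0, ?_⟩).symm
          · have := hmin k' hk'
            omega
          · omega
        · rw [if_neg hL]; exact zero_le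
    _ = ∑ j ∈ Finset.range K, ∑' L : List B, (if HT ht L = n ∧
        (∀ k ∈ CD ht dl cd L w, (m + j * t - t) + t < k) ∧
        (∃ k ∈ CD ht dl cd L w, k ≤ (m + j * t - t) + 2 * t) then LW Λ L else 0) :=
        Summable.tsum_finsetSum (fun _ _ => ENNReal.summable)
    _ ≤ ∑ j ∈ Finset.range K, X := Finset.sum_le_sum fun j hj => hX j (Finset.mem_range.1 hj)
    _ = _ := by simp

open Filter Topology in
lemma tl_tendsto (hT : ∑' k, tail Λ ht k ≠ ⊤) : Tendsto (tl Λ ht) atTop (𝓝 0) := by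
  have := ENNReal.tendsto_sum_nat_add (tail Λ ht) hT
  refine this.congr fun i => ?_
  unfold tl
  exact tsum_congr fun k => by rw [add_comm]

lemma pow_le_exp' (r : ℝ) (hr : 0 < r) (hr1 : r ≤ 1) (P N : ℕ) (hP : 1 ≤ r * P) (hN : 1 ≤ N) :
    (1 - ENNReal.ofReal r * ((N : ℝ≥0∞) ^ 2)⁻¹) ^ (P * N ^ 3)
      ≤ ENNReal.ofReal (Real.exp (-(N : ℝ))) := by
  have hN' : (0 : ℝ) < N := by exact_mod_cast hN
  have e : (1 - ENNReal.ofReal r * ((N : ℝ≥0∞) ^ 2)⁻¹)
      = ENNReal.ofReal (1 - r * ((N : ℝ) ^ 2)⁻¹) := by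
    rw [ENNReal.ofReal_sub _ (by positivity), ENNReal.ofReal_one, ENNReal.ofReal_mul hr.le,
      ENNReal.ofReal_inv_of_pos (by positivity), ENNReal.ofReal_pow hN'.le, ENNReal.ofReal_natCast]
  have h1 : r * ((N : ℝ) ^ 2)⁻¹ ≤ 1 := by
    have h0 : ((N : ℝ) ^ 2)⁻¹ ≤ 1 := by
      apply inv_le_one_of_one_le₀
      have : (1 : ℝ) ≤ N := by exact_mod_cast hN
      nlinarith
    have h00 : 0 ≤ ((N : ℝ) ^ 2)⁻¹ := by positivity
    nlinarith
  rw [e, ← ENNReal.ofReal_pow (by linarith)]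
  apply ENNReal.ofReal_le_ofReal
  have h2 : 1 - r * ((N : ℝ) ^ 2)⁻¹ ≤ Real.exp (-(r * ((N : ℝ) ^ 2)⁻¹)) := by
    have := Real.add_one_le_exp (-(r * ((N : ℝ) ^ 2)⁻¹))
    linarith
  calc (1 - r * ((N : ℝ) ^ 2)⁻¹) ^ (P * N ^ 3)
      ≤ (Real.exp (-(r * ((N : ℝ) ^ 2)⁻¹))) ^ (P * N ^ 3) :=
        pow_le_pow_left₀ (by linarith) h2 _
    _ = Real.exp (-((r * P) * N)) := by
        rw [← Real.exp_nat_mul]
        congr 1
        push_cast
        field_simp
    _ ≤ Real.exp (-(N : ℝ)) := by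
        apply Real.exp_le_exp.2
        nlinarith

open Filter Topology in
/-- `J` and `u` -/
lemma nums (τ : ℝ≥0∞) (hτ : τ ≠ ⊤) (c1 : ℝ≥0∞) (hc1 : c1 ≠ 0) (ε : ℝ≥0∞) (hε : ε ≠ 0) :
    ∃ (J : ℕ) (u : ℝ≥0∞), u ≠ 0 ∧ u ≤ 1 ∧
      ((8 * J + 2 : ℕ) : ℝ≥0∞) * (τ * (2 * (1 - c1 * u) ^ J + u * u)) ≤ ε := by
  set c' := min c1 1 with hc'
  have hc0 : c' ≠ 0 := by
    rw [hc']
    rcases min_choice c1 1 with h | h <;> rw [h]
    · exact hc1
    · exact one_ne_zero
  have hc1' : c' ≤ 1 := min_le_right _ _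
  have hct : c' ≠ ⊤ := ne_top_of_le_ne_top ENNReal.one_ne_top hc1'
  set r := c'.toReal with hr
  have hr0 : 0 < r := ENNReal.toReal_pos hc0 hct
  have hr1 : r ≤ 1 := by
    have := ENNReal.toReal_mono ENNReal.one_ne_top hc1'
    simpa using this
  have hcr : ENNReal.ofReal r = c' := ENNReal.ofReal_toReal hct
  obtain ⟨P, hP⟩ := exists_nat_ge (1 / r)
  have hP' : 1 ≤ r * P := by
    rw [div_le_iff₀ hr0] at hP
    linarith
  have hP1 : 1 ≤ P := by
    rcases Nat.eq_zero_or_pos P with h0 | h0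
    · rw [h0] at hP'; simp at hP'; linarith
    · exact h0
  have h : Tendsto (fun N : ℕ => ENNReal.ofReal ((32 * (N : ℝ) ^ 3 + 8) *
      (((N : ℝ) ^ 2)⁻¹ ^ 2 + 2 * Real.exp (-(N : ℝ))))) atTop (𝓝 0) := by
    have := ENNReal.tendsto_ofReal Num334.real_lim
    rwa [ENNReal.ofReal_zero] at this
  have hPτ : (P : ℝ≥0∞) * τ ≠ ⊤ := ENNReal.mul_ne_top (ENNReal.natCast_ne_top _) hτ
  obtain ⟨N, hN1, hN⟩ := ((eventually_ge_atTop 1).and (Num334.small_mul h hPτ hε)).exists
  have hN' : (0 : ℝ) < N := by exact_mod_cast hN1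
  refine ⟨P * N ^ 3, ((N : ℝ≥0∞) ^ 2)⁻¹, ?_, ?_, le_trans ?_ hN⟩
  · rw [Ne, ENNReal.inv_eq_zero]
    exact ENNReal.pow_ne_top (ENNReal.natCast_ne_top N)
  · rw [ENNReal.inv_le_one]
    exact one_le_pow₀ (by exact_mod_cast hN1)
  · have e1 : ENNReal.ofReal ((32 * (N : ℝ) ^ 3 + 8) *
        (((N : ℝ) ^ 2)⁻¹ ^ 2 + 2 * Real.exp (-(N : ℝ))))
        = (32 * (N : ℝ≥0∞) ^ 3 + 8) * ((((N : ℝ≥0∞) ^ 2)⁻¹) ^ 2
          + 2 * ENNReal.ofReal (Real.exp (-(N : ℝ)))) := by
      rw [ENNReal.ofReal_mul (by positivity), ENNReal.ofReal_add (by positivity) (by positivity),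
        ENNReal.ofReal_mul (by norm_num), ENNReal.ofReal_pow hN'.le, ENNReal.ofReal_natCast,
        ENNReal.ofReal_add (by positivity) (by positivity), ENNReal.ofReal_mul (by norm_num),
        ENNReal.ofReal_pow (by positivity), ENNReal.ofReal_inv_of_pos (by positivity),
        ENNReal.ofReal_pow hN'.le, ENNReal.ofReal_natCast]
      have e32 : ENNReal.ofReal 32 = 32 := by simp
      have e8 : ENNReal.ofReal 8 = 8 := by simp
      have e2 : ENNReal.ofReal 2 = 2 := by simp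
      rw [e32, e8, e2]
    rw [e1]
    have e3 : (1 - c1 * ((N : ℝ≥0∞) ^ 2)⁻¹) ^ (P * N ^ 3)
        ≤ ENNReal.ofReal (Real.exp (-(N : ℝ))) := by
      refine le_trans ?_ (pow_le_exp' r hr0 hr1 P N hP' hN1)
      rw [hcr]
      gcongr
      exact min_le_left _ _
    have e4 : ((8 * (P * N ^ 3) + 2 : ℕ) : ℝ≥0∞) ≤ P * (32 * (N : ℝ≥0∞) ^ 3 + 8) := by
      have : 8 * (P * N ^ 3) + 2 ≤ P * (32 * N ^ 3 + 8) := by
        nlinarith [Nat.zero_le (P * N ^ 3)]
      calc ((8 * (P * N ^ 3) + 2 : ℕ) : ℝ≥0∞) ≤ ((P * (32 * N ^ 3 + 8) : ℕ) : ℝ≥0∞) := by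
            exact_mod_cast this
        _ = _ := by push_cast; ring
    calc ((8 * (P * N ^ 3) + 2 : ℕ) : ℝ≥0∞) * (τ * (2 * (1 - c1 * ((N : ℝ≥0∞) ^ 2)⁻¹) ^ (P * N ^ 3)
          + ((N : ℝ≥0∞) ^ 2)⁻¹ * ((N : ℝ≥0∞) ^ 2)⁻¹))
        ≤ (P * (32 * (N : ℝ≥0∞) ^ 3 + 8)) * (τ * (2 * ENNReal.ofReal (Real.exp (-(N : ℝ)))
          + ((N : ℝ≥0∞) ^ 2)⁻¹ * ((N : ℝ≥0∞) ^ 2)⁻¹)) := by gcongr
      _ = _ := by ring

open Filter Topology in
/-- **the assembly** (joint-cut frame): weak `hK` from the one-piece input and the slab input -/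
theorem kap1_of (h1 : ∀ b, 1 ≤ ht b)
    (hcd : ∀ w b k, k ∈ cd w b → 1 ≤ k ∧ k ≤ ht b) (hinj : ∀ b, Function.Injective (dl b))
    (c : ℝ≥0∞) (hc : c ≠ 0) (R : ℕ) (hU : ∀ n, R ≤ n → c ≤ U Λ ht n) (hU1 : ∀ n, U Λ ht n ≤ 1)
    (c1 : ℝ≥0∞) (hc1 : c1 ≠ 0)
    (hW : ∀ u η : ℝ≥0∞, u ≠ 0 → u ≤ 1 → η ≠ 0 → ∃ s H0 : ℕ, ∀ H, H0 ≤ H → ∃ S1 S2 : Set W,
      Good Λ ht dl (c1 * u) η H S1 ∧ Good Λ ht dl (c1 * u) η H S2 ∧
      ∀ w, w ∉ S1 → w ∉ S2 → (∑' L : List B, if HT ht L = H ∧ CD ht dl cd L w ≠ ∅ ∧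
        ∀ k ∈ CD ht dl cd L w, s < k ∧ k + s ≤ H then LW Λ L else 0) ≤ u * u + η)
    (hSl : ∀ (s : ℕ) (ε : ℝ≥0∞), ε ≠ 0 → ∃ H0 : ℕ, ∀ H, H0 ≤ H → ∀ w,
      (∑' L : List B, if HT ht L = H ∧ ∃ k ∈ CD ht dl cd L w, H < k + s
        then LW Λ L else 0) ≤ ε) :
    ∀ ε : ℝ≥0∞, ε ≠ 0 → ∃ M : ℕ, ∀ m, M ≤ m → ∃ n0 : ℕ, ∀ n, n0 ≤ n → ∀ w,
      Kap1 Λ ht dl cd n m w ≤ ε := by
  have hcle : c ≤ 1 := (hU R le_rfl).trans (hU1 R)
  have hc' : c ≠ ⊤ := ne_top_of_le_ne_top ENNReal.one_ne_top hcle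
  have hΛ : ∑' b, Λ b = 1 :=
    le_antisymm (mass_le_one Λ ht h1 hU1) (mass_ge_one Λ ht c hc R hU)
  have hT : ∑' k, tail Λ ht k ≠ ⊤ := by
    rw [← sum_tail Λ ht hΛ]
    exact ne_top_of_le_ne_top (ENNReal.inv_ne_top.2 hc) (mean_le Λ ht h1 hΛ c hc hc' R hU)
  set τ := tl Λ ht 0 with hτ
  have hτt : τ ≠ ⊤ := by
    rw [hτ, tl]; simpa using hT
  have htl := tl_tendsto Λ ht hT
  intro ε0 hε0
  obtain ⟨ε, hε, hεε⟩ : ∃ ε : ℝ≥0∞, ε ≠ 0 ∧ 5 * ε ≤ ε0 := by
    rcases eq_or_ne ε0 ⊤ with rfl | h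
    · exact ⟨1, one_ne_zero, le_top⟩
    · refine ⟨ε0 / 5, ?_, ?_⟩
      · rw [Ne, ENNReal.div_eq_zero_iff, not_or]; exact ⟨hε0, by norm_num⟩
      · rw [ENNReal.mul_div_cancel (by norm_num) (by norm_num)]
  obtain ⟨J, u, hu0, hu1, hJu⟩ := nums τ hτt c1 hc1 ε hε
  set K : ℕ := 8 * J + 2 with hK
  have hKt : (K : ℝ≥0∞) ≠ ⊤ := ENNReal.natCast_ne_top _
  -- η
  obtain ⟨η, hη0, hη⟩ : ∃ η : ℝ≥0∞, η ≠ 0 ∧ (K * τ * (2 * J + 2)) * η ≤ ε := by
    have hA : (K : ℝ≥0∞) * τ * (2 * J + 2) ≠ ⊤ :=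
      ENNReal.mul_ne_top (ENNReal.mul_ne_top hKt hτt) (ENNReal.add_ne_top.2
        ⟨ENNReal.mul_ne_top (by norm_num) (ENNReal.natCast_ne_top _), by norm_num⟩)
    rcases eq_or_ne ε ⊤ with h | h
    · exact ⟨1, one_ne_zero, by rw [h]; exact le_top⟩
    · obtain ⟨x, hx0, _, hx⟩ := Num334.small_const hA hε h
      exact ⟨x, hx0, hx⟩
  obtain ⟨s, H0, hH0⟩ := hW u η hu0 hu1 hη0
  obtain ⟨H1, hH1⟩ := hSl s η hη0
  -- i
  obtain ⟨i, hi⟩ := (Num334.small_mul htl hKt hε).exists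
  -- t0
  have hB : (K : ℝ≥0∞) + K * τ * (2 * J) ≠ ⊤ := ENNReal.add_ne_top.2 ⟨hKt,
    ENNReal.mul_ne_top (ENNReal.mul_ne_top hKt hτt)
      (ENNReal.mul_ne_top (by norm_num) (ENNReal.natCast_ne_top _))⟩
  obtain ⟨t1, ht1⟩ := eventually_atTop.1 (Num334.small_mul htl hB hε)
  set t0 := max (max H0 H1) (max (i + s) (max t1 (8 * J + 1))) with ht0
  refine ⟨(8 * J + 1) * (t0 + 1), fun m hm => ?_⟩
  set t := m / (8 * J + 1) with htdef
  have htge : t0 + 1 ≤ t := by
    rw [htdef, Nat.le_div_iff_mul_le (by omega), mul_comm]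
    exact hm
  have e1 := Nat.div_add_mod m (8 * J + 1)
  have e2 := Nat.mod_lt m (show 0 < 8 * J + 1 by omega)
  rw [← htdef] at e1
  have g1 : H0 ≤ t0 := (le_max_left _ _).trans (le_max_left _ _)
  have g2 : H1 ≤ t0 := (le_max_right _ _).trans (le_max_left _ _)
  have g3 : i + s ≤ t0 := (le_max_left _ _).trans (le_max_right _ _)
  have g4 : t1 ≤ t0 := ((le_max_left _ _).trans (le_max_right _ _)).trans (le_max_right _ _)
  have g5 : 8 * J + 1 ≤ t0 := ((le_max_right _ _).trans (le_max_right _ _)).trans (le_max_right _ _)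
  have hJt : J * (8 * t) = 8 * (J * t) := by ring
  have hexp : (8 * J + 1) * t = 8 * (J * t) + t := by ring
  rw [hexp] at e1
  have htm : t ≤ m := by omega
  have hmK : m ≤ K * t := by
    rw [hK, show (8 * J + 2) * t = 8 * (J * t) + t + t by ring]
    omega
  refine ⟨m + K * t + 6 * t + 1, fun n hn w => ?_⟩
  refine (kap_le Λ ht dl cd m t K n htm hmK w (tl Λ ht i + tl Λ ht t + τ *
        (2 * ((1 - c1 * u) ^ J + J * (η + tl Λ ht t)) + ((u * u + η) + η))) ?_).trans ?_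
  · intro j hj
    have hjt : j * t ≤ K * t := Nat.mul_le_mul_right _ hj.le
    refine win2 Λ ht dl cd h1 hΛ hcd hinj hU1 (m + j * t - t) t i s n (by omega) (by omega) J
      (by rw [hJt]; omega) (c1 * u) η (u * u + η) η ?_ ?_ w
    · intro h hh
      exact hH0 h (by omega)
    · intro h hh
      exact hH1 h (by omega)
  · refine le_trans ?_ hεε
    have f1 := ht1 t (by omega)
    calc (K : ℝ≥0∞) * (tl Λ ht i + tl Λ ht t + τ *
        (2 * ((1 - c1 * u) ^ J + J * (η + tl Λ ht t)) + ((u * u + η) + η)))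
        = K * tl Λ ht i + (K + K * τ * (2 * J)) * tl Λ ht t
          + K * (τ * (2 * (1 - c1 * u) ^ J + u * u)) + (K * τ * (2 * J + 2)) * η := by ring
      _ ≤ ε + ε + ε + ε := by gcongr
      _ ≤ 5 * ε := by
        calc ε + ε + ε + ε = 4 * ε := by ring
          _ ≤ 5 * ε := by gcongr; norm_num

end Crest.Agent.R154.JAsm360
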