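import Crest.Agent.R154.FP_178
import Crest.Agent.R154.B5First_181
import Crest.Agent.R154.NumK_658

/-! Row 154, T0219 (helper450): ROAD 801 assembled on JOINT cuts (pair blocks, lists of 566's B5Abs). -/

set_option autoImplicit false

namespace Crest.Agent.R154.JAsm450

open scoped ENNReal
open Crest.Agent.R154.B5A Crest.Agent.R154.FP178

variable {B W : Type*} (Λ : B → ℝ≥0∞) (ht : B → ℕ) (dl : B → W → W) (cd : W → B → Set ℕ)

open Classical in
/-- weight of the pieces of height `H` with a contact, all contacts in `(s, H - s]` -/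
noncomputable def Q (H s : ℕ) (w : W) : ℝ≥0∞ :=
  ∑' L : List B, if HT ht L = H ∧ CD ht dl cd L w ≠ ∅ ∧
    (∀ k ∈ CD ht dl cd L w, s < k ∧ k + s ≤ H) then LW Λ L else 0

open Classical in
/-- weight of the pieces of height `H` with a contact in the last `s` levels -/
noncomputable def Slb (H s : ℕ) (w : W) : ℝ≥0∞ :=
  ∑' L : List B, if HT ht L = H ∧ ∃ k ∈ CD ht dl cd L w, H < k + s then LW Λ L else 0

open Classical in
/-- `S` seen from the first passage of depth `N` -/
noncomputable def V (S : W → ℝ≥0∞) (N : ℕ) (x : W) : ℝ≥0∞ :=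
  ∑' L : List B, if fp ht N L then LW Λ L * S (act dl L x) else 0

/-- overshoot mass -/
noncomputable def ov (r : ℕ) : ℝ≥0∞ := ∑' k, tail Λ ht (r + k)

lemma act_inj (hinj : ∀ b, Function.Injective (dl b)) (L : List B) :
    Function.Injective (act dl L) := by
  induction L with
  | nil => exact fun _ _ h => h
  | cons b L ih => exact fun _ _ h => hinj b (ih h)

lemma fp_of_HT (h1 : ∀ b, 1 ≤ ht b) {H : ℕ} {L : List B} (h : HT ht L = H) : fp ht H L := by
  induction L generalizing H with
  | nil => rw [HT_nil] at h; rw [fp_nil]; exact h.symm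
  | cons b L ih =>
    rw [HT_cons] at h
    have := h1 b
    rw [fp_cons]
    exact ⟨by omega, ih (by omega)⟩

lemma V_le_one (h1 : ∀ b, 1 ≤ ht b) (hΛ : ∑' b, Λ b ≤ 1) {S : W → ℝ≥0∞} (hS : ∀ y, S y ≤ 1)
    (N : ℕ) (x : W) : V Λ ht dl S N x ≤ 1 := by
  refine (ENNReal.tsum_le_tsum fun L => ?_).trans (sum_FP Λ ht h1 hΛ N)
  split_ifs
  · exact mul_le_of_le_one_right zero_le (hS _)
  · exact le_rfl

lemma sum_V (h1 : ∀ b, 1 ≤ ht b) (hΛ : ∑' b, Λ b ≤ 1) (hinj : ∀ b, Function.Injective (dl b))
    (S : W → ℝ≥0∞) (N : ℕ) : ∑' x, V Λ ht dl S N x ≤ ∑' y, S y := by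
  classical
  unfold V
  rw [ENNReal.tsum_comm]
  calc ∑' L : List B, ∑' x, (if fp ht N L then LW Λ L * S (act dl L x) else 0)
      ≤ ∑' L : List B, (if fp ht N L then LW Λ L else 0) * ∑' y, S y := by
        refine ENNReal.tsum_le_tsum fun L => ?_
        by_cases h : fp ht N L
        · simp only [h, if_true]
          rw [ENNReal.tsum_mul_left]
          exact mul_le_mul_right (ENNReal.tsum_comp_le_tsum_of_injective (act_inj dl hinj L) S) _
        · simp [h]
    _ = (∑' L : List B, (if fp ht N L then LW Λ L else 0)) * ∑' y, S y := ENNReal.tsum_mul_right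
    _ ≤ 1 * ∑' y, S y := mul_le_mul_left (sum_FP Λ ht h1 hΛ N) _
    _ = _ := one_mul _

lemma V_step (h1 : ∀ b, 1 ≤ ht b) (S : W → ℝ≥0∞) {H N : ℕ} (hHN : H ≤ N) (x : W) :
    V Λ ht dl S N x = ∑' A : List B, (open Classical in
      if fp ht H A then LW Λ A * V Λ ht dl S (N - HT ht A) (act dl A x) else 0) := by
  unfold V
  rw [fp_split Λ ht h1 H N hHN]
  refine tsum_congr fun A => ?_
  simp only [act_append]

/-- **density line** -/
lemma V_bound (h1 : ∀ b, 1 ≤ ht b) (hΛ : ∑' b, Λ b ≤ 1) (hinj : ∀ b, Function.Injective (dl b))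
    {S : W → ℝ≥0∞} (hS : ∀ y, S y ≤ 1) (H r : ℕ) (low : List B → Prop) (p th e : ℝ≥0∞)
    (hp : p ≤ ∑' A : List B, (open Classical in if HT ht A = H ∧ low A then LW Λ A else 0))
    (hth : ∀ (F : W → ℝ≥0∞) (x : W), ∑' A : List B, (open Classical in
      if HT ht A = H ∧ low A then LW Λ A * F (act dl A x) else 0) ≤ th * ∑' y, F y)
    (he : ∑' A : List B, (open Classical in if fp ht H A ∧ H + r < HT ht A then LW Λ A else 0) ≤ e)
    (J : ℕ) : ∀ (N : ℕ) (x : W), J * (H + r) ≤ N →
      V Λ ht dl S N x ≤ (1 - p) ^ J + J * (th * ∑' y, S y + e) := by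
  classical
  induction J with
  | zero =>
    intro N x _
    simpa using V_le_one Λ ht dl h1 hΛ hS N x
  | succ J ih =>
    intro N x hN
    have hHN : H ≤ N := by nlinarith
    set D : ℝ≥0∞ := th * ∑' y, S y + e with hD
    set b : ℝ≥0∞ := (1 - p) ^ J + J * D with hb
    have hnon : ∑' A : List B, (if fp ht H A ∧ ¬ (HT ht A = H ∧ low A) then LW Λ A else 0)
        ≤ 1 - p := by
      refine ENNReal.le_sub_of_add_le_right ?_ ?_
      · refine ne_top_of_le_ne_top ENNReal.one_ne_top (hp.trans ?_)
        refine (ENNReal.tsum_le_tsum fun A => ?_).trans (sum_FP Λ ht h1 hΛ H)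
        by_cases h : HT ht A = H ∧ low A
        · rw [if_pos h, if_pos (fp_of_HT ht h1 h.1)]
        · rw [if_neg h]; exact zero_le
      · refine (add_le_add_right hp _).trans ?_
        rw [← ENNReal.tsum_add]
        refine (ENNReal.tsum_le_tsum fun A => ?_).trans (sum_FP Λ ht h1 hΛ H)
        by_cases h : HT ht A = H ∧ low A
        · rw [if_neg (fun h' => h'.2 h), if_pos h, zero_add, if_pos (fp_of_HT ht h1 h.1)]
        · rw [if_neg h, add_zero]
          by_cases h' : fp ht H A
          · rw [if_pos ⟨h', h⟩, if_pos h']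
          · rw [if_neg (fun h2 => h' h2.1)]; exact zero_le
    have key : ∀ A : List B,
        (if fp ht H A then LW Λ A * V Λ ht dl S (N - HT ht A) (act dl A x) else 0)
        ≤ (if HT ht A = H ∧ low A then LW Λ A * V Λ ht dl S (N - H) (act dl A x) else 0)
          + ((if fp ht H A ∧ ¬ (HT ht A = H ∧ low A) then LW Λ A else 0) * b
          + (if fp ht H A ∧ H + r < HT ht A then LW Λ A else 0)) := by
      intro A
      by_cases hA : fp ht H A
      · rw [if_pos hA]
        by_cases hl : HT ht A = H ∧ low A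
        · rw [if_pos hl, hl.1]
          exact le_self_add
        · rw [if_neg hl, zero_add, if_pos (⟨hA, hl⟩ : fp ht H A ∧ ¬ (HT ht A = H ∧ low A))]
          by_cases hr : H + r < HT ht A
          · rw [if_pos (⟨hA, hr⟩ : fp ht H A ∧ H + r < HT ht A)]
            exact (mul_le_of_le_one_right zero_le (V_le_one Λ ht dl h1 hΛ hS _ _)).trans
              le_add_self
          · refine (mul_le_mul_right (ih (N - HT ht A) (act dl A x) ?_) _).trans le_self_add
            push Not at hr
            have : (J + 1) * (H + r) = J * (H + r) + (H + r) := by ring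
            omega
      · rw [if_neg hA]; exact zero_le
    rw [V_step Λ ht dl h1 S hHN x]
    refine (ENNReal.tsum_le_tsum key).trans ?_
    rw [ENNReal.tsum_add, ENNReal.tsum_add, ENNReal.tsum_mul_right]
    have t1 : ∑' A : List B, (if HT ht A = H ∧ low A then
        LW Λ A * V Λ ht dl S (N - H) (act dl A x) else 0) ≤ th * ∑' y, S y :=
      (hth (V Λ ht dl S (N - H)) x).trans
        (mul_le_mul_right (sum_V Λ ht dl h1 hΛ hinj S (N - H)) _)
    have t2 : (∑' A : List B, (if fp ht H A ∧ ¬ (HT ht A = H ∧ low A) then LW Λ A else 0)) * b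
        ≤ (1 - p) ^ (J + 1) + J * D := by
      refine (mul_le_mul_left hnon _).trans ?_
      rw [hb, mul_add, ← pow_succ']
      refine add_le_add le_rfl ?_
      exact mul_le_of_le_one_left zero_le tsub_le_self
    calc _ ≤ th * ∑' y, S y + (((1 - p) ^ (J + 1) + J * D) + e) :=
          add_le_add t1 (add_le_add t2 he)
      _ = (1 - p) ^ (J + 1) + (J + 1 : ℕ) * D := by
          rw [hD]; push_cast; ring

open Classical in
/-- first passage of depth `3q` from `x`, with a contact, all contacts `> q` -/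
noncomputable def G (q : ℕ) (x : W) : ℝ≥0∞ :=
  ∑' P : List B, if fp ht (3 * q) P ∧ CD ht dl cd P x ≠ ∅ ∧ (∀ k ∈ CD ht dl cd P x, q < k)
    then LW Λ P else 0

lemma G_le (h1 : ∀ b, 1 ≤ ht b) (hcd : ∀ w b k, k ∈ cd w b → 1 ≤ k ∧ k ≤ ht b)
    (hU1 : ∀ n, U Λ ht n ≤ 1) (c : ℝ≥0∞) (hc : c ≠ 0) (hc' : c ≠ ⊤) (R : ℕ)
    (hU : ∀ n, R ≤ n → c ≤ U Λ ht n) (q s : ℕ) (hs : s ≤ q) (hR : R ≤ q) (x : W) :
    G Λ ht dl cd q x ≤ ov Λ ht (q - R)
      + c⁻¹ * (Q Λ ht dl cd (4 * q) s x + Slb Λ ht dl cd (4 * q) s x) := by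
  classical
  set f : List B → ℝ≥0∞ := fun L => if HT ht L = 4 * q ∧ CD ht dl cd L x ≠ ∅ ∧
    (∀ k ∈ CD ht dl cd L x, q < k) then 1 else 0 with hf
  have key : ∀ P : List B, (if fp ht (3 * q) P ∧ CD ht dl cd P x ≠ ∅ ∧
      (∀ k ∈ CD ht dl cd P x, q < k) then LW Λ P else 0)
      ≤ (if fp ht (3 * q) P ∧ 3 * q + (q - R) < HT ht P then LW Λ P else 0)
        + c⁻¹ * (if fp ht (3 * q) P then LW Λ P * ∑' L2, LW Λ L2 * f (P ++ L2) else 0) := by
    intro P
    by_cases hP : fp ht (3 * q) P ∧ CD ht dl cd P x ≠ ∅ ∧ (∀ k ∈ CD ht dl cd P x, q < k)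
    · rw [if_pos hP, if_pos hP.1]
      by_cases hr : 3 * q + (q - R) < HT ht P
      · rw [if_pos ⟨hP.1, hr⟩]; exact le_self_add
      · have h2 : U Λ ht (4 * q - HT ht P) ≤ ∑' L2, LW Λ L2 * f (P ++ L2) := by
          unfold U
          refine ENNReal.tsum_le_tsum fun L2 => ?_
          by_cases hL : HT ht L2 = 4 * q - HT ht P
          · rw [if_pos hL]
            have hcond : HT ht (P ++ L2) = 4 * q ∧ CD ht dl cd (P ++ L2) x ≠ ∅ ∧
                (∀ k ∈ CD ht dl cd (P ++ L2) x, q < k) := by
              refine ⟨by rw [HT_append]; omega, ?_, ?_⟩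
              · rw [CD_append]
                intro h0
                exact hP.2.1 (Set.union_empty_iff.1 h0).1
              · intro k hk
                rw [CD_append] at hk
                rcases hk with hk | ⟨k', hk', rfl⟩
                · exact hP.2.2 k hk
                · have h3 := le_HT_of_fp ht hP.1
                  have h4 := (CD_pos ht dl cd hcd L2 _ _ hk').1
                  simp only
                  omega
            simp only [hf, if_pos hcond, mul_one]
            exact le_rfl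
          · rw [if_neg hL]; exact zero_le
        have h3 : c ≤ ∑' L2, LW Λ L2 * f (P ++ L2) := (hU _ (by omega)).trans h2
        refine le_trans ?_ le_add_self
        calc LW Λ P = c⁻¹ * (LW Λ P * c) := by
              rw [mul_comm (LW Λ P), ← mul_assoc, ENNReal.inv_mul_cancel hc hc', one_mul]
          _ ≤ _ := mul_le_mul_right (mul_le_mul_right h3 _) _
    · rw [if_neg hP]; exact zero_le
  unfold G
  refine (ENNReal.tsum_le_tsum key).trans ?_
  rw [ENNReal.tsum_add, ENNReal.tsum_mul_left, ← split Λ ht h1 (3 * q) f]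
  refine add_le_add (overshoot Λ ht h1 hU1 _ _) (mul_le_mul_right ?_ _)
  unfold Q Slb
  rw [← ENNReal.tsum_add]
  refine ENNReal.tsum_le_tsum fun L => ?_
  by_cases h3 : 3 * q ≤ HT ht L
  · rw [if_pos h3]
    by_cases hL : HT ht L = 4 * q ∧ CD ht dl cd L x ≠ ∅ ∧ (∀ k ∈ CD ht dl cd L x, q < k)
    · simp only [hf, if_pos hL, mul_one]
      by_cases hb : ∃ k ∈ CD ht dl cd L x, 4 * q < k + s
      · rw [if_pos (⟨hL.1, hb⟩ : HT ht L = 4 * q ∧ ∃ k ∈ CD ht dl cd L x, 4 * q < k + s)]
        exact le_add_self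
      · push Not at hb
        rw [if_pos (⟨hL.1, hL.2.1, fun k hk => ⟨lt_of_le_of_lt hs (hL.2.2 k hk), hb k hk⟩⟩ :
          HT ht L = 4 * q ∧ CD ht dl cd L x ≠ ∅ ∧
            (∀ k ∈ CD ht dl cd L x, s < k ∧ k + s ≤ 4 * q))]
        exact le_self_add
    · simp only [hf, if_neg hL, mul_zero]; exact zero_le
  · rw [if_neg h3]; exact zero_le

open Classical in
/-- one window -/
noncomputable def Win (n a q : ℕ) (w : W) : ℝ≥0∞ :=
  ∑' L : List B, if HT ht L = n ∧ (∀ k ∈ CD ht dl cd L w, a + 2 * q < k) ∧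
    (∃ k ∈ CD ht dl cd L w, k ≤ a + 3 * q) then LW Λ L else 0

lemma Win_le (h1 : ∀ b, 1 ≤ ht b) (hcd : ∀ w b k, k ∈ cd w b → 1 ≤ k ∧ k ≤ ht b)
    (hU1 : ∀ n, U Λ ht n ≤ 1) (n a q : ℕ) (hn : a + 4 * q ≤ n) (w : W) :
    Win Λ ht dl cd n a q w ≤ ov Λ ht q + V Λ ht dl (G Λ ht dl cd q) a w := by
  classical
  set g : List B → ℝ≥0∞ := fun L => if HT ht L = n ∧ (∀ k ∈ CD ht dl cd L w, a + 2 * q < k) ∧
    (∃ k ∈ CD ht dl cd L w, k ≤ a + 3 * q) then 1 else 0 with hg
  have e1 : Win Λ ht dl cd n a q w = ∑' L, (if a ≤ HT ht L then LW Λ L * g L else 0) := by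
    unfold Win
    refine tsum_congr fun L => ?_
    by_cases hL : HT ht L = n ∧ (∀ k ∈ CD ht dl cd L w, a + 2 * q < k) ∧
        (∃ k ∈ CD ht dl cd L w, k ≤ a + 3 * q)
    · simp only [hg, if_pos hL, mul_one]
      rw [if_pos (by omega)]
    · simp only [hg, if_neg hL, mul_zero, ite_self]
  rw [e1, split Λ ht h1 a g]
  have key : ∀ L1 : List B, (if fp ht a L1 then LW Λ L1 * ∑' L2, LW Λ L2 * g (L1 ++ L2) else 0)
      ≤ (if fp ht a L1 ∧ a + q < HT ht L1 then LW Λ L1 else 0)
        + (if fp ht a L1 then LW Λ L1 * G Λ ht dl cd q (act dl L1 w) else 0) := by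
    intro L1
    by_cases hL1 : fp ht a L1
    · rw [if_pos hL1, if_pos hL1]
      have hT := le_HT_of_fp ht hL1
      by_cases hq : a + q < HT ht L1
      · rw [if_pos ⟨hL1, hq⟩]
        refine le_trans ?_ le_self_add
        refine mul_le_of_le_one_right zero_le ?_
        refine le_trans ?_ (hU1 (n - HT ht L1))
        unfold U
        refine ENNReal.tsum_le_tsum fun L2 => ?_
        by_cases hL : HT ht (L1 ++ L2) = n ∧ (∀ k ∈ CD ht dl cd (L1 ++ L2) w, a + 2 * q < k) ∧
            (∃ k ∈ CD ht dl cd (L1 ++ L2) w, k ≤ a + 3 * q)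
        · simp only [hg, if_pos hL, mul_one]
          rw [HT_append] at hL
          rw [if_pos (by omega)]
        · simp only [hg, if_neg hL, mul_zero]; exact zero_le
      · refine le_trans ?_ le_add_self
        refine mul_le_mul_right ?_ _
        have e2 : ∑' L2, LW Λ L2 * g (L1 ++ L2)
            = ∑' L2, (if 3 * q ≤ HT ht L2 then LW Λ L2 * g (L1 ++ L2) else 0) := by
          refine tsum_congr fun L2 => ?_
          by_cases hL : HT ht (L1 ++ L2) = n ∧ (∀ k ∈ CD ht dl cd (L1 ++ L2) w, a + 2 * q < k) ∧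
              (∃ k ∈ CD ht dl cd (L1 ++ L2) w, k ≤ a + 3 * q)
          · rw [HT_append] at hL
            rw [if_pos (by omega)]
          · simp only [hg, if_neg hL, mul_zero, ite_self]
        rw [e2, split Λ ht h1 (3 * q) fun L2 => g (L1 ++ L2)]
        unfold G
        refine ENNReal.tsum_le_tsum fun P => ?_
        by_cases hP : fp ht (3 * q) P
        · rw [if_pos hP]
          have hPT := le_HT_of_fp ht hP
          by_cases hE : CD ht dl cd P (act dl L1 w) ≠ ∅ ∧
              (∀ k ∈ CD ht dl cd P (act dl L1 w), q < k)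
          · rw [if_pos ⟨hP, hE⟩]
            refine mul_le_of_le_one_right zero_le ?_
            refine le_trans ?_ (hU1 (n - HT ht L1 - HT ht P))
            unfold U
            refine ENNReal.tsum_le_tsum fun L3 => ?_
            by_cases hL : HT ht (L1 ++ (P ++ L3)) = n ∧
                (∀ k ∈ CD ht dl cd (L1 ++ (P ++ L3)) w, a + 2 * q < k) ∧
                (∃ k ∈ CD ht dl cd (L1 ++ (P ++ L3)) w, k ≤ a + 3 * q)
            · simp only [hg, if_pos hL, mul_one]
              rw [HT_append, HT_append] at hL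
              rw [if_pos (by omega)]
            · simp only [hg, if_neg hL, mul_zero]; exact zero_le
          · have hz : ∀ L3, g (L1 ++ (P ++ L3)) = 0 := by
              intro L3
              simp only [hg]
              rw [if_neg]
              rintro ⟨-, hall, k, hk, hk2⟩
              apply hE
              have hka := hall k hk
              rw [CD_append] at hk
              rcases hk with hk | ⟨k1, hk1, rfl⟩
              · exfalso
                have := (CD_pos ht dl cd hcd L1 _ _ hk).2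
                omega
              · simp only at hk2 hka
                rw [CD_append] at hk1
                rcases hk1 with hk1 | ⟨k2, hk2', rfl⟩
                · refine ⟨fun h0 => by rw [h0] at hk1; exact hk1, fun k' hk' => ?_⟩
                  have h5 := hall (HT ht L1 + k') (by
                    rw [CD_append]
                    exact Or.inr ⟨k', by rw [CD_append]; exact Or.inl hk', rfl⟩)
                  omega
                · exfalso
                  have := (CD_pos ht dl cd hcd L3 _ _ hk2').1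
                  simp only at hk2 hka
                  omega
            simp only [hz, mul_zero, tsum_zero]
            exact zero_le
        · rw [if_neg hP]; exact zero_le
    · rw [if_neg hL1]; exact zero_le
  refine (ENNReal.tsum_le_tsum key).trans ?_
  rw [ENNReal.tsum_add]
  exact add_le_add (overshoot Λ ht h1 hU1 _ _) le_rfl

end Crest.Agent.R154.JAsm450
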