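import Crest.Agent.R154.B5First_181
import Crest.Agent.R154.FP_178

/-! Row 154 (helper619): assembly of ROAD 801 in the joint-cut frame (139, 692): window bounds. -/

set_option autoImplicit false
set_option linter.unusedSectionVars false

namespace Crest.Agent.R154.J619

open scoped ENNReal
open Crest.Agent.R154.B5A Crest.Agent.R154.FP178

variable {B W : Type*} [AddCommGroup W] (Λ : B → ℝ≥0∞) (ht : B → ℕ) (D : B → W)
  (cd : W → B → Set ℕ)

/-- translation action -/
def dlD (D : B → W) (b : B) (w : W) : W := w + D b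

lemma act_dlD (L : List B) (w : W) : act (dlD D) L w = w + (L.map D).sum := by
  induction L generalizing w with
  | nil => simp [act]
  | cons b L ih => simp only [act, ih, dlD, List.map_cons, List.sum_cons]; abel

/-- first contact in the window `(a, a + q]` -/
def ev (a q : ℕ) (S : Set ℕ) : Prop := (∀ k ∈ S, a < k) ∧ ∃ k ∈ S, k ≤ a + q

/-- contacts, all of them away from the ends -/
def good (s H : ℕ) (S : Set ℕ) : Prop := S.Nonempty ∧ ∀ k ∈ S, s < k ∧ k + s ≤ H

open Classical in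
/-- window weight -/
noncomputable def Win (n a q : ℕ) (w : W) : ℝ≥0∞ :=
  ∑' L : List B, if HT ht L = n ∧ ev a q (CD ht (dlD D) cd L w) then LW Λ L else 0

open Classical in
/-- weight of the pieces of height `H` with good contacts and property `Q` -/
noncomputable def Ph (H s : ℕ) (Q : List B → Prop) (w : W) : ℝ≥0∞ :=
  ∑' L : List B, if HT ht L = H ∧ Q L ∧ good s H (CD ht (dlD D) cd L w) then LW Λ L else 0

open Classical in
lemma kap_le (n m q K : ℕ) (hq : 0 < q) (hK : m ≤ K * q) (w : W) :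
    Kap1 Λ ht (dlD D) cd n m w ≤ ∑ j ∈ Finset.range K, Win Λ ht D cd n (m + j * q) q w := by
  unfold Kap1 Win
  rw [← Summable.tsum_finsetSum (fun _ _ => ENNReal.summable)]
  refine ENNReal.tsum_le_tsum fun L => ?_
  by_cases h : HT ht L = n ∧ (∀ k ∈ CD ht (dlD D) cd L w, m < k) ∧
      ∃ k ∈ CD ht (dlD D) cd L w, k ≤ 2 * m
  swap
  · rw [if_neg h]; exact zero_le
  rw [if_pos h]
  obtain ⟨h1, h2, k, hk, hk2⟩ := h
  set S := CD ht (dlD D) cd L w with hS
  have hne : S.Nonempty := ⟨k, hk⟩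
  set k0 := sInf S with hk0
  have hk0S : k0 ∈ S := Nat.sInf_mem hne
  have hk0m : m < k0 := h2 _ hk0S
  have hk0k : k0 ≤ 2 * m := (Nat.sInf_le hk).trans hk2
  set j := (k0 - m - 1) / q with hj
  have hjK : j < K := by
    rw [hj, Nat.div_lt_iff_lt_mul hq]; omega
  have hdm := Nat.div_add_mod (k0 - m - 1) q
  have hml := Nat.mod_lt (k0 - m - 1) hq
  rw [← hj] at hdm
  have hcm : q * j = j * q := mul_comm _ _
  have hev : ev (m + j * q) q S := by
    refine ⟨fun k' hk' => ?_, k0, hk0S, ?_⟩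
    · have := Nat.sInf_le hk'
      omega
    · omega
  refine le_trans (le_of_eq ?_) (Finset.single_le_sum (f := fun j => if HT ht L = n ∧
    ev (m + j * q) q S then LW Λ L else 0) (fun _ _ => zero_le) (Finset.mem_range.2 hjK))
  rw [if_pos ⟨h1, hev⟩]

variable {Λ ht}

open Classical in
lemma rest_le_one (hU1 : ∀ n, U Λ ht n ≤ 1) (n : ℕ) (L1 : List B) (P : List B → Prop) :
    ∑' L2, LW Λ L2 * (if HT ht (L1 ++ L2) = n ∧ P L2 then 1 else 0) ≤ 1 := by
  refine le_trans (ENNReal.tsum_le_tsum fun L2 => ?_) (hU1 (n - HT ht L1))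
  by_cases h : HT ht (L1 ++ L2) = n ∧ P L2
  · have h' := h.1
    rw [HT_append] at h'
    rw [if_pos h, if_pos (by omega), mul_one]
  · rw [if_neg h, mul_zero]; exact zero_le

/-- overshoot constant -/
noncomputable def e1 (Λ : B → ℝ≥0∞) (ht : B → ℕ) (q : ℕ) : ℝ≥0∞ := ∑' k, tail Λ ht (q + k)

variable (Λ ht)

open Classical in
/-- the bottom cut at the exact height `H` costs `c⁻¹` -/
lemma V_le (h1 : ∀ b, 1 ≤ ht b) (hcd : ∀ w b k, k ∈ cd w b → 1 ≤ k ∧ k ≤ ht b)
    (c : ℝ≥0∞) (hc : c ≠ 0) (hc' : c ≠ ⊤) (hU : ∀ n, c ≤ U Λ ht n) (hU1 : ∀ n, U Λ ht n ≤ 1)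
    (n a q H : ℕ) (w : W) (hn : a + q ≤ n) (hH : a + 2 * q ≤ H) :
    Win Λ ht D cd n a q w ≤ e1 Λ ht q + c⁻¹ * Win Λ ht D cd H a q w := by
  have key : ∀ N, a + q ≤ N → Win Λ ht D cd N a q w
      = ∑' L1, (if fp ht (a + q) L1 then LW Λ L1 * ∑' L2, LW Λ L2 *
        (if HT ht (L1 ++ L2) = N ∧ ev a q (CD ht (dlD D) cd (L1 ++ L2) w) then 1 else 0)
          else 0) := by
    intro N hN
    rw [← split Λ ht h1 (a + q) (fun L => if HT ht L = N ∧ ev a q (CD ht (dlD D) cd L w)
      then 1 else 0)]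
    unfold Win
    refine tsum_congr fun L => ?_
    by_cases h : HT ht L = N ∧ ev a q (CD ht (dlD D) cd L w)
    · rw [if_pos h, if_pos (by omega), if_pos h, mul_one]
    · rw [if_neg h]
      split_ifs <;> simp
  set X := ∑' L1, (if fp ht (a + q) L1 ∧ HT ht L1 ≤ a + q + q ∧ ev a q (CD ht (dlD D) cd L1 w)
    then LW Λ L1 else 0) with hX
  have hup : Win Λ ht D cd n a q w ≤ e1 Λ ht q + X := by
    rw [key n hn]
    refine le_trans (ENNReal.tsum_le_tsum fun L1 => ?_) (le_trans (le_of_eq ENNReal.tsum_add)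
      (add_le_add (overshoot Λ ht h1 hU1 q (a + q)) le_rfl))
    by_cases hf : fp ht (a + q) L1
    swap
    · rw [if_neg hf]; exact zero_le
    rw [if_pos hf]
    have hL1 := le_HT_of_fp ht hf
    by_cases ho : a + q + q < HT ht L1
    · rw [if_pos (show fp ht (a + q) L1 ∧ a + q + q < HT ht L1 from ⟨hf, ho⟩)]
      refine le_trans (mul_le_mul_right (rest_le_one hU1 n L1 _) _) ?_
      rw [mul_one]; exact le_self_add
    · by_cases he : ev a q (CD ht (dlD D) cd L1 w)
      · rw [if_pos (show fp ht (a + q) L1 ∧ HT ht L1 ≤ a + q + q ∧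
          ev a q (CD ht (dlD D) cd L1 w) from ⟨hf, by omega, he⟩)]
        refine le_trans (mul_le_mul_right (rest_le_one hU1 n L1 _) _) ?_
        rw [mul_one]; exact le_add_self
      · rw [ENNReal.tsum_eq_zero.2, mul_zero]
        · exact zero_le
        · intro L2
          rw [if_neg, mul_zero]
          rintro ⟨_, h2, k, hk, hka⟩
          rw [CD_append] at h2 hk
          apply he
          rcases hk with hk | ⟨k', hk', rfl⟩
          · exact ⟨fun k' hk' => h2 k' (Or.inl hk'), k, hk, hka⟩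
          · have := CD_pos ht (dlD D) cd hcd L2 _ _ hk'
            simp only at hka
            omega
  have hlow : c * X ≤ Win Λ ht D cd H a q w := by
    rw [key H (by omega), hX, ← ENNReal.tsum_mul_left]
    refine ENNReal.tsum_le_tsum fun L1 => ?_
    by_cases h : fp ht (a + q) L1 ∧ HT ht L1 ≤ a + q + q ∧ ev a q (CD ht (dlD D) cd L1 w)
    swap
    · rw [if_neg h, mul_zero]; exact zero_le
    have hL1 := le_HT_of_fp ht h.1
    rw [if_pos h, if_pos h.1, mul_comm]
    refine mul_le_mul_right ((hU (H - HT ht L1)).trans ?_) _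
    refine ENNReal.tsum_le_tsum fun L2 => ?_
    by_cases h2 : HT ht L2 = H - HT ht L1
    swap
    · rw [if_neg h2]; exact zero_le
    rw [if_pos h2, if_pos, mul_one]
    refine ⟨by rw [HT_append]; omega, ?_⟩
    rw [CD_append]
    refine ⟨?_, ?_⟩
    · rintro k (hk | ⟨k', hk', rfl⟩)
      · exact h.2.2.1 k hk
      · have := CD_pos ht (dlD D) cd hcd L2 _ _ hk'
        simp only
        omega
    · obtain ⟨k, hk, hka⟩ := h.2.2.2
      exact ⟨k, Or.inl hk, hka⟩
  refine hup.trans (add_le_add le_rfl ?_)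
  calc X = c⁻¹ * (c * X) := by rw [← mul_assoc, ENNReal.inv_mul_cancel hc hc', one_mul]
    _ ≤ _ := mul_le_mul_right hlow _

open Classical in
/-- a piece of exact height `H` -/
lemma piece_le (a q H s : ℕ) (w : W) (hs : s ≤ a) (LX LY : List B → Prop) (pt : ℝ≥0∞)
    (hpt : ∀ k, H < k + s → k ≤ H → ∑' L : List B, (if HT ht L = H ∧ k ∈ CD ht (dlD D) cd L w
      then LW Λ L else 0) ≤ pt)
    (hcd : ∀ w b k, k ∈ cd w b → 1 ≤ k ∧ k ≤ ht b) :
    Win Λ ht D cd H a q w ≤ s * pt + (Ph Λ ht D cd H s LX w + Ph Λ ht D cd H s LY w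
      + ∑' L : List B, (if HT ht L = H ∧ ¬ LX L ∧ ¬ LY L then LW Λ L else 0)) := by
  have hsl : ∑ i ∈ Finset.range s, ∑' L : List B, (if HT ht L = H ∧ (H - i) ∈
      CD ht (dlD D) cd L w ∧ i ≤ H then LW Λ L else 0) ≤ s * pt := by
    calc _ ≤ ∑ i ∈ Finset.range s, pt := by
          refine Finset.sum_le_sum fun i hi => ?_
          have hi' := Finset.mem_range.1 hi
          by_cases hiH : i ≤ H
          · refine le_trans (ENNReal.tsum_le_tsum fun L => ?_) (hpt (H - i) (by omega) (by omega))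
            by_cases h : HT ht L = H ∧ (H - i) ∈ CD ht (dlD D) cd L w
            · rw [if_pos h]; split_ifs
              · exact le_rfl
              · exact zero_le
            · rw [if_neg h, if_neg (fun h' => h ⟨h'.1, h'.2.1⟩)]
          · rw [ENNReal.tsum_eq_zero.2]
            · exact zero_le
            · intro L; rw [if_neg (fun h' => hiH h'.2.2)]
      _ = s * pt := by rw [Finset.sum_const, Finset.card_range, nsmul_eq_mul]
  refine le_trans ?_ (add_le_add hsl le_rfl)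
  unfold Win Ph
  rw [← Summable.tsum_finsetSum (fun _ _ => ENNReal.summable), ← ENNReal.tsum_add,
    ← ENNReal.tsum_add, ← ENNReal.tsum_add]
  refine ENNReal.tsum_le_tsum fun L => ?_
  by_cases h : HT ht L = H ∧ ev a q (CD ht (dlD D) cd L w)
  swap
  · rw [if_neg h]; exact zero_le
  rw [if_pos h]
  obtain ⟨hH, h2, k0, hk0, hk0a⟩ := h
  by_cases hg : good s H (CD ht (dlD D) cd L w)
  · refine le_trans ?_ le_add_self
    by_cases hx : LX L
    · rw [if_pos (show HT ht L = H ∧ LX L ∧ good s H (CD ht (dlD D) cd L w) from ⟨hH, hx, hg⟩),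
        add_assoc]
      exact le_self_add
    · by_cases hy : LY L
      · rw [if_pos (show HT ht L = H ∧ LY L ∧ good s H (CD ht (dlD D) cd L w) from ⟨hH, hy, hg⟩)]
        exact le_trans le_add_self le_self_add
      · rw [if_pos (show HT ht L = H ∧ ¬ LX L ∧ ¬ LY L from ⟨hH, hx, hy⟩)]
        exact le_add_self
  · refine le_trans ?_ le_self_add
    have : ∃ k ∈ CD ht (dlD D) cd L w, H < k + s := by
      by_contra hcon
      push Not at hcon
      exact hg ⟨⟨k0, hk0⟩, fun k hk => ⟨lt_of_le_of_lt hs (h2 k hk), hcon k hk⟩⟩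
    obtain ⟨k, hk, hks⟩ := this
    have hkH := (CD_pos ht (dlD D) cd hcd L _ _ hk).2
    rw [hH] at hkH
    refine le_trans (le_of_eq ?_) (Finset.single_le_sum (f := fun i => if HT ht L = H ∧ (H - i) ∈
      CD ht (dlD D) cd L w ∧ i ≤ H then LW Λ L else 0) (fun _ _ => zero_le)
      (Finset.mem_range.2 (by omega : H - k < s)))
    rw [if_pos ⟨hH, by rwa [show H - (H - k) = k by omega], by omega⟩]

open Classical in
/-- the window bound -/
lemma win_bd (h1 : ∀ b, 1 ≤ ht b) (hcd : ∀ w b k, k ∈ cd w b → 1 ≤ k ∧ k ≤ ht b)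
    (c : ℝ≥0∞) (hc : c ≠ 0) (hc' : c ≠ ⊤) (hU : ∀ n, c ≤ U Λ ht n) (hU1 : ∀ n, U Λ ht n ≤ 1)
    (n a q H s a0 : ℕ) (w : W) (ha : a = a0 + q + s) (hn : a + q ≤ n) (hH : H = 4 * q)
    (hsq : s ≤ q) (LX LY : List B → Prop) (pt p2 : ℝ≥0∞)
    (hpt : ∀ w k, H < k + s → k ≤ H → ∑' L : List B, (if HT ht L = H ∧
      k ∈ CD ht (dlD D) cd L w then LW Λ L else 0) ≤ pt)
    (hp2 : ∑' L : List B, (if HT ht L = H ∧ ¬ LX L ∧ ¬ LY L then LW Λ L else 0) ≤ p2) :
    Win Λ ht D cd n a q w ≤ e1 Λ ht q + ∑' A : List B, (if fp ht a0 A then LW Λ A *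
      (e1 Λ ht q + c⁻¹ * (s * pt + (Ph Λ ht D cd H s LX (w + (A.map D).sum)
        + Ph Λ ht D cd H s LY (w + (A.map D).sum) + p2))) else 0) := by
  have key : Win Λ ht D cd n a q w
      = ∑' L1, (if fp ht a0 L1 then LW Λ L1 * ∑' L2, LW Λ L2 *
        (if HT ht (L1 ++ L2) = n ∧ ev a q (CD ht (dlD D) cd (L1 ++ L2) w) then 1 else 0)
          else 0) := by
    rw [← split Λ ht h1 a0 (fun L => if HT ht L = n ∧ ev a q (CD ht (dlD D) cd L w)
      then 1 else 0)]
    unfold Win
    refine tsum_congr fun L => ?_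
    by_cases h : HT ht L = n ∧ ev a q (CD ht (dlD D) cd L w)
    · rw [if_pos h, if_pos (by omega), if_pos h, mul_one]
    · rw [if_neg h]
      split_ifs <;> simp
  rw [key]
  refine le_trans (ENNReal.tsum_le_tsum fun L1 => ?_) (le_trans (le_of_eq ENNReal.tsum_add)
    (add_le_add (overshoot Λ ht h1 hU1 q a0) le_rfl))
  by_cases hf : fp ht a0 L1
  swap
  · rw [if_neg hf]; exact zero_le
  rw [if_pos hf, if_pos hf]
  have hL1 := le_HT_of_fp ht hf
  by_cases ho : a0 + q < HT ht L1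
  · rw [if_pos (show fp ht a0 L1 ∧ a0 + q < HT ht L1 from ⟨hf, ho⟩)]
    refine le_trans (mul_le_mul_right (rest_le_one hU1 n L1 _) _) ?_
    rw [mul_one]; exact le_self_add
  refine le_trans (mul_le_mul_right ?_ _) le_add_self
  have h3 : ∑' L2, LW Λ L2 * (if HT ht (L1 ++ L2) = n ∧
      ev a q (CD ht (dlD D) cd (L1 ++ L2) w) then 1 else 0)
      ≤ Win Λ ht D cd (n - HT ht L1) (a - HT ht L1) q (w + (L1.map D).sum) := by
    unfold Win
    refine ENNReal.tsum_le_tsum fun L2 => ?_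
    by_cases h : HT ht (L1 ++ L2) = n ∧ ev a q (CD ht (dlD D) cd (L1 ++ L2) w)
    swap
    · rw [if_neg h, mul_zero]; exact zero_le
    rw [if_pos h, mul_one, if_pos]
    obtain ⟨h4, h5, k, hk, hka⟩ := h
    rw [HT_append] at h4
    rw [CD_append, act_dlD] at h5 hk
    refine ⟨by omega, ?_, ?_⟩
    · intro k' hk'
      have := h5 (HT ht L1 + k') (Or.inr ⟨k', hk', rfl⟩)
      omega
    · rcases hk with hk | ⟨k', hk', rfl⟩
      · have h6 := (CD_pos ht (dlD D) cd hcd L1 _ _ hk).2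
        have h7 := h5 k (Or.inl hk)
        omega
      · simp only at hka
        exact ⟨k', hk', by omega⟩
  refine h3.trans ((V_le Λ ht D cd h1 hcd c hc hc' hU hU1 _ _ q H _ (by omega)
    (by omega)).trans (add_le_add le_rfl (mul_le_mul_right ?_ _)))
  exact (piece_le Λ ht D cd _ q H s _ (by omega) LX LY pt (fun k => hpt _ k) hcd).trans
    (add_le_add le_rfl (add_le_add le_rfl hp2))

end Crest.Agent.R154.J619
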