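import Crest.Agent.R154.JA_358

/-! Row 154, T0219 (helper358): quantiles and the bound for one height (joint cuts, abstract). -/

set_option autoImplicit false

namespace Crest.Agent.R154.J358

open scoped ENNReal
open Crest.Agent.R154.B5A

variable {B V : Type*}

open Classical in
lemma quant (a : V → ℝ≥0∞) (ha : ∑' z, a z ≤ 1) (u : ℝ≥0∞) (hu0 : u ≠ 0) (hu : u ≤ ∑' z, a z) :
    ∃ (th : ℝ≥0∞) (E : Finset V), (E.card : ℝ≥0∞) * th ≤ 2 ∧
      (∑' z, if z ∈ E then 0 else a z) ≤ u ∧ u ≤ ∑' z, if a z ≤ th then a z else 0 := by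
  have hutop : u ≠ ⊤ := ne_top_of_le_ne_top ENNReal.one_ne_top (hu.trans ha)
  set G : ℕ → ℝ≥0∞ := fun i => ∑' z, if a z ≤ (2⁻¹ : ℝ≥0∞) ^ i then a z else 0 with hG
  have hG0 : u ≤ G 0 := by
    refine hu.trans (le_of_eq (tsum_congr fun z => ?_))
    rw [pow_zero, if_pos ((ENNReal.le_tsum z).trans ha)]
  have hex : ∃ i, G i < u := by
    have hsum : ∑' z, a z ≠ ⊤ := ne_top_of_le_ne_top ENNReal.one_ne_top ha
    have h2 : u / 2 ≠ 0 := by simp [hu0]
    have h3 := (ENNReal.tendsto_tsum_compl_atTop_zero hsum).eventually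
      (gt_mem_nhds (pos_iff_ne_zero.2 (show u / 4 ≠ 0 by simp [hu0])))
    obtain ⟨S, hS⟩ := h3.exists
    have h4 : Filter.Tendsto (fun i : ℕ => (S.card : ℝ≥0∞) * (2⁻¹ : ℝ≥0∞) ^ i) Filter.atTop
        (nhds ((S.card : ℝ≥0∞) * 0)) :=
      ENNReal.Tendsto.const_mul (ENNReal.tendsto_pow_atTop_nhds_zero_of_lt_one (by
        rw [ENNReal.inv_lt_one]; norm_num)) (Or.inr (ENNReal.natCast_ne_top _))
    rw [mul_zero] at h4
    obtain ⟨i, hi⟩ := (h4.eventually
      (gt_mem_nhds (pos_iff_ne_zero.2 (show u / 4 ≠ 0 by simp [hu0])))).exists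
    refine ⟨i, ?_⟩
    calc G i = (∑ z ∈ S, if a z ≤ (2⁻¹ : ℝ≥0∞) ^ i then a z else 0) +
          ∑' z : {z // z ∉ S}, (if a z ≤ (2⁻¹ : ℝ≥0∞) ^ i then a z else 0) :=
          (ENNReal.sum_add_tsum_compl S _).symm
      _ ≤ (∑ z ∈ S, (2⁻¹ : ℝ≥0∞) ^ i) + ∑' z : {z // z ∉ S}, a z := by
          refine add_le_add (Finset.sum_le_sum fun z _ => ?_) (ENNReal.tsum_le_tsum fun z => ?_)
          · split_ifs with h
            · exact h
            · exact zero_le
          · split_ifs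
            · exact le_rfl
            · exact zero_le
      _ = S.card * (2⁻¹ : ℝ≥0∞) ^ i + ∑' z : {z // z ∉ S}, a z := by simp
      _ ≤ u / 4 + u / 4 := add_le_add hi.le hS.le
      _ = u / 2 := by
          rw [← ENNReal.add_div, ← two_mul, show (4 : ℝ≥0∞) = 2 * 2 by norm_num,
            ENNReal.mul_div_mul_left _ _ (by norm_num) (by norm_num)]
      _ < u := ENNReal.half_lt_self hu0 hutop
  set i := Nat.find hex with hi
  have hi1 : G i < u := Nat.find_spec hex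
  have hi0 : i ≠ 0 := fun h => by rw [h] at hi1; exact absurd hG0 (not_le.2 hi1)
  obtain ⟨i', hi'⟩ := Nat.exists_eq_succ_of_ne_zero hi0
  have hi2 : u ≤ G i' := by
    have := Nat.find_min hex (show i' < Nat.find hex by omega)
    exact not_lt.1 this
  have h2i : (2⁻¹ : ℝ≥0∞) ^ i ≠ 0 := pow_ne_zero _ (by simp)
  obtain ⟨hf, hcard⟩ := ENNReal.finset_card_const_le_le_of_tsum_le (a := a) (c := 1)
    ENNReal.one_ne_top ha h2i
  refine ⟨(2⁻¹ : ℝ≥0∞) ^ i', hf.toFinset, ?_, ?_, hi2⟩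
  · calc _ ≤ (1 / (2⁻¹ : ℝ≥0∞) ^ i) * (2⁻¹ : ℝ≥0∞) ^ i' := mul_le_mul_left hcard _
      _ = 2 := by
          rw [hi', Nat.succ_eq_add_one, pow_succ, one_div, ENNReal.mul_inv (Or.inr (by simp))
            (Or.inr (by simp)), inv_inv, mul_assoc, mul_comm (2 : ℝ≥0∞), ← mul_assoc,
            ENNReal.inv_mul_cancel (pow_ne_zero _ (by simp)) (ENNReal.pow_ne_top (by simp)), one_mul]
  · refine le_trans (ENNReal.tsum_le_tsum fun z => ?_) hi1.le
    by_cases hz : z ∈ hf.toFinset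
    · rw [if_pos hz]; exact zero_le
    · rw [if_neg hz]
      have : ¬ (2⁻¹ : ℝ≥0∞) ^ i ≤ a z := by simpa using hz
      rw [if_pos (not_le.1 this).le]

variable (Λ : B → ℝ≥0∞) (ht : B → ℕ) [AddCommGroup V] (zX zY : B → V)

/-- relative displacement of the pair block -/
def dz (b : B) : V := zX b + zY b

/-- the move -/
def dl (b : B) (w : V) : V := w + dz zX zY b

lemma Z_dz (L : List B) : Z (dz zX zY) L = Z zX L + Z zY L := by
  induction L with
  | nil => simp [Z]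
  | cons b L ih =>
    have h : ∀ (f : B → V), Z f (b :: L) = f b + Z f L := fun f => by simp [Z]
    rw [h, h, h, ih, dz]; abel

lemma act_dl (L : List B) (w : V) : act (dl zX zY) L w = w + Z (dz zX zY) L := by
  induction L generalizing w with
  | nil => simp [act, Z]
  | cons b L ih =>
    have h : Z (dz zX zY) (b :: L) = dz zX zY b + Z (dz zX zY) L := by simp [Z]
    rw [act, ih, h, dl]; abel

variable (cd : V → B → Set ℕ)

/-- good event for a piece -/
def ev (s : ℕ) (L : List B) (x : V) : Prop :=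
  CD ht (dl zX zY) cd L x ≠ ∅ ∧ ∀ k ∈ CD ht (dl zX zY) cd L x, s < k ∧ k + s ≤ HT ht L

open Classical in
/-- product structure -/
structure Pr (α β : ℕ → V → ℝ≥0∞) : Prop where
  pr : ∀ h z z', ∑' L, (if HT ht L = h ∧ Z zX L = z ∧ Z zY L = z' then LW Λ L else 0)
    = α h z * β h z'
  a1 : ∀ h, ∑' z, α h z ≤ 1
  b1 : ∀ h, ∑' z, β h z ≤ 1

variable {Λ ht zX zY}

open Classical in
lemma Pr.sum {α β : ℕ → V → ℝ≥0∞} (hp : Pr Λ ht zX zY α β) (h : ℕ) (R : V → V → Prop) :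
    ∑' L, (if HT ht L = h ∧ R (Z zX L) (Z zY L) then LW Λ L else 0)
      = ∑' z, ∑' z', if R z z' then α h z * β h z' else 0 := by
  simp_rw [← hp.pr]
  have e : ∀ z z', (if R z z' then ∑' L, (if HT ht L = h ∧ Z zX L = z ∧ Z zY L = z'
      then LW Λ L else 0) else 0) = ∑' L, (if HT ht L = h ∧ Z zX L = z ∧ Z zY L = z' ∧ R z z'
      then LW Λ L else 0) := by
    intro z z'
    by_cases hR : R z z' <;> simp [hR]
  simp_rw [e]
  have e2 : ∀ z, (∑' z', ∑' L, (if HT ht L = h ∧ Z zX L = z ∧ Z zY L = z' ∧ R z z'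
      then LW Λ L else 0)) = ∑' L, (if HT ht L = h ∧ Z zX L = z ∧ R z (Z zY L)
      then LW Λ L else 0) := by
    intro z
    rw [ENNReal.tsum_comm]
    refine tsum_congr fun L => ?_
    rw [tsum_eq_single (Z zY L)]
    · simp
    · intro z' hz'; rw [if_neg (fun h => hz' h.2.2.1.symm)]
  simp_rw [e2]
  rw [ENNReal.tsum_comm]
  refine tsum_congr fun L => ?_
  rw [tsum_eq_single (Z zX L)]
  · simp
  · intro z' hz'; rw [if_neg (fun h => hz' h.2.1.symm)]

open Classical in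
lemma Pr.sum2 {α β : ℕ → V → ℝ≥0∞} (hp : Pr Λ ht zX zY α β) (h : ℕ) (P Q : V → Prop) :
    ∑' L, (if HT ht L = h ∧ P (Z zX L) ∧ Q (Z zY L) then LW Λ L else 0)
      = (∑' z, if P z then α h z else 0) * ∑' z, if Q z then β h z else 0 := by
  have e := hp.sum h (fun z z' => P z ∧ Q z')
  refine Eq.trans (tsum_congr fun L => ?_) (e.trans ?_)
  · congr
  rw [← ENNReal.tsum_mul_right]
  refine tsum_congr fun z => ?_
  rw [← ENNReal.tsum_mul_left]
  refine tsum_congr fun z' => ?_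
  by_cases h1 : P z <;> by_cases h2 : Q z' <;> simp [h1, h2]

lemma Pr.swap {α β : ℕ → V → ℝ≥0∞} (hp : Pr Λ ht zX zY α β) : Pr Λ ht zY zX β α := by
  refine ⟨fun h z z' => ?_, hp.b1, hp.a1⟩
  rw [mul_comm, ← hp.pr]
  refine tsum_congr fun L => ?_
  congr 1
  exact propext ⟨fun h => ⟨h.1, h.2.2, h.2.1⟩, fun h => ⟨h.1, h.2.2, h.2.1⟩⟩

lemma Pr.U {α β : ℕ → V → ℝ≥0∞} (hp : Pr Λ ht zX zY α β) (h : ℕ) :
    U Λ ht h = (∑' z, α h z) * ∑' z, β h z := by
  classical
  have := hp.sum2 h (fun _ => True) (fun _ => True)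
  simpa [B5A.U] using this

open Classical in
/-- density of the position at the first passage, `X` version -/
lemma densX {α β : ℕ → V → ℝ≥0∞} (hp : Pr Λ ht zX zY α β) (h1 : ∀ b, 1 ≤ ht b)
    (hΛ : ∑' b, Λ b = 1) (h r : ℕ) (c u τ : ℝ≥0∞) (hu0 : u ≠ 0) (huc : u ≤ c)
    (hc : c ≤ U Λ ht h)
    (i3 : ∑' L, (if FP ht h L ∧ h + r < HT ht L then LW Λ L else 0) ≤ τ) :
    ∃ (th : ℝ≥0∞) (E : Finset V), (E.card : ℝ≥0∞) * th ≤ 2 ∧
      (∑' z, if z ∈ E then 0 else α h z) ≤ u ∧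
      ∀ (j a : ℕ), j * (h + r) ≤ a → ∃ g b : V → ℝ≥0∞,
        (∀ z, fp Λ ht (fun b => zX b + zY b) a z ≤ g z + b z) ∧
        (∀ z, g z ≤ j * th) ∧ ∑' z, b z ≤ (1 - c * u) ^ j + j * τ := by
  have hcα : c ≤ ∑' z, α h z := by
    rw [hp.U] at hc
    exact hc.trans ((mul_le_mul_right (hp.b1 h) _).trans (mul_one _).le)
  have hcβ : c ≤ ∑' z, β h z := by
    rw [hp.U] at hc
    exact hc.trans ((mul_le_mul_left (hp.a1 h) _).trans (one_mul _).le)
  obtain ⟨th, E, hE1, hE2, hE3⟩ := quant (α h) (hp.a1 h) u hu0 (huc.trans hcα)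
  refine ⟨th, E, hE1, hE2, fun j a ha => ?_⟩
  refine dens Λ ht (fun b => zX b + zY b) h1 hΛ h r
    (fun L => HT ht L = h ∧ α h (Z zX L) ≤ th) (fun L hL => hL.1) th (1 - c * u) τ tsub_le_self
    ?_ ?_ i3 j a ha
  · intro z
    have e := hp.sum h (fun z1 z2 => α h z1 ≤ th ∧ z1 + z2 = z)
    refine le_trans (le_of_eq (tsum_congr fun L => ?_)) (le_trans (le_of_eq e) ?_)
    · have := Z_dz zX zY L
      rw [show Z (fun b => zX b + zY b) L = Z zX L + Z zY L from this]
      by_cases hh : HT ht L = h ∧ α h (Z zX L) ≤ th ∧ Z zX L + Z zY L = z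
      · rw [if_pos hh, if_pos ⟨⟨hh.1, hh.2.1⟩, hh.2.2⟩]
      · rw [if_neg hh, if_neg (fun h' => hh ⟨h'.1.1, h'.1.2, h'.2⟩)]
    calc _ ≤ ∑' z1, th * β h (z - z1) := by
          refine ENNReal.tsum_le_tsum fun z1 => ?_
          rw [tsum_eq_single (z - z1)]
          · split_ifs with hh
            · exact mul_le_mul_left hh.1 _
            · exact zero_le
          · intro z2 hz2
            rw [if_neg]
            rintro ⟨_, h2⟩
            exact hz2 (by rw [← h2]; abel)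
      _ = th * ∑' z1, β h (z - z1) := ENNReal.tsum_mul_left
      _ = th * ∑' y, β h y := by
          congr 1
          exact (Equiv.subLeft z).tsum_eq (fun y => β h y)
      _ ≤ th * 1 := mul_le_mul_right (hp.b1 h) _
      _ = th := mul_one _
  · have hhit : c * u ≤ ∑' L, (if HT ht L = h ∧ α h (Z zX L) ≤ th then LW Λ L else 0) := by
      have := hp.sum2 h (fun z => α h z ≤ th) (fun _ => True)
      simp only [and_true, if_true] at this
      rw [this, mul_comm c]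
      exact mul_le_mul' (hE3.trans (le_of_eq (tsum_congr fun z => by congr))) hcβ
    refine ENNReal.le_sub_of_add_le_right ?_ ?_
    · exact ne_top_of_le_ne_top ENNReal.one_ne_top (hhit.trans (by
        refine le_trans (ENNReal.tsum_le_tsum fun L => ?_) (FP_mass Λ ht h1 hΛ h)
        split_ifs with h2 h3 h3
        · exact le_rfl
        · exact absurd (FP_of_HT ht h1 h L h2.1) h3
        · exact zero_le
        · exact zero_le))
    · refine (add_le_add_right hhit _).trans ?_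
      rw [← ENNReal.tsum_add]
      refine le_trans (ENNReal.tsum_le_tsum fun L => ?_) (FP_mass Λ ht h1 hΛ h)
      by_cases h2 : HT ht L = h ∧ α h (Z zX L) ≤ th
      · simp [h2, FP_of_HT ht h1 h L h2.1]
      · by_cases h3 : FP ht h L <;> simp [h2, h3]

end Crest.Agent.R154.J358
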