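import Crest.Agent.R154.JA_762
import Crest.Agent.R154.Num_873

/-! Row 154, ROAD 801 in the frame of joint cuts (helper762): KAPPA' for a system of joint blocks from
the one-piece lemmas at exact height and the thin slab. -/

set_option autoImplicit false

namespace Crest.Agent.R154.JA762

open Crest.Agent.R154.B5A Crest.Agent.R154.Hit776
open scoped ENNReal

variable {B W G : Type*} [AddCommGroup G] (Λ : B → ℝ≥0∞) (ht : B → ℕ)
  (dl : B → W → W) (cd : W → B → Set ℕ) (dz : B → G) (ι : W → G)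

open Classical in
/-- one-piece weight of class `lx` -/
noncomputable def FIx (lx : List B → Prop) (H s : ℕ) (w : W) : ℝ≥0∞ :=
  ∑' L : List B, if HT ht L = H ∧ lx L ∧ (∃ k, k ∈ CD ht dl cd L w) ∧
    (∀ k ∈ CD ht dl cd L w, s < k ∧ k + s ≤ H) then LW Λ L else 0

open Classical in
/-- slab weight -/
noncomputable def Sl (H s : ℕ) (w : W) : ℝ≥0∞ :=
  ∑' L : List B, if HT ht L = H ∧ (∃ k ∈ CD ht dl cd L w, H < k + s) then LW Λ L else 0

open Classical in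
lemma Ph0_le (lx ly : List B → Prop) (H s : ℕ) (w : W) :
    Ph0 Λ ht dl cd H s w ≤ Sl Λ ht dl cd H s w
      + (∑' L : List B, if HT ht L = H ∧ ¬ lx L ∧ ¬ ly L then LW Λ L else 0)
      + FIx Λ ht dl cd lx H s w + FIx Λ ht dl cd ly H s w := by
  rw [Ph0, Sl, FIx, FIx, ← ENNReal.tsum_add, ← ENNReal.tsum_add, ← ENNReal.tsum_add]
  refine ENNReal.tsum_le_tsum fun L => ?_
  by_cases hc : HT ht L = H ∧ (∀ k ∈ CD ht dl cd L w, s < k) ∧ (∃ k, k ∈ CD ht dl cd L w)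
  · rw [if_pos hc]
    obtain ⟨hH, hs, hk⟩ := hc
    by_cases hsl : ∃ k ∈ CD ht dl cd L w, H < k + s
    · rw [if_pos (⟨hH, hsl⟩ : HT ht L = H ∧ _)]
      exact le_self_add.trans (le_self_add.trans le_self_add)
    · have hsl' : ∀ k ∈ CD ht dl cd L w, s < k ∧ k + s ≤ H := fun k hk' =>
        ⟨hs k hk', not_lt.1 fun h => hsl ⟨k, hk', h⟩⟩
      by_cases hx : lx L
      · rw [if_pos (⟨hH, hx, hk, hsl'⟩ : HT ht L = H ∧ lx L ∧ _ ∧ _)]
        exact le_add_self.trans le_self_add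
      · by_cases hy : ly L
        · rw [if_pos (⟨hH, hy, hk, hsl'⟩ : HT ht L = H ∧ ly L ∧ _ ∧ _)]
          exact le_add_self
        · rw [if_pos (⟨hH, hx, hy⟩ : HT ht L = H ∧ ¬ lx L ∧ ¬ ly L)]
          exact le_add_self.trans (le_self_add.trans le_self_add)
  · rw [if_neg hc]; exact zero_le

open Classical in
/-- one-piece hypothesis -/
def PT (qq A : ℝ≥0∞) (δ : ℕ → ℝ≥0∞) (H : ℕ) (lx : List B → Prop) : Prop :=
  ∃ th : ℝ≥0∞, th ≠ 0 ∧ th ≠ ⊤ ∧ ∃ low : List B → Prop,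
    (∀ z : G, (∑' L : List B, if HT ht L = H ∧ (low L ∧ DZ dz L = z) then LW Λ L else 0) ≤ th) ∧
    (qq ≤ ∑' L : List B, if HT ht L = H ∧ low L then LW Λ L else 0) ∧
    ∀ (s : ℕ) (lam M : ℝ≥0∞), lam ≠ 0 → lam ≠ ⊤ → ∀ nu : W → ℝ≥0∞, ∑' w, nu w ≤ 1 →
      (∀ w, nu w ≤ M) →
      ∑' w, nu w * FIx Λ ht dl cd lx H s w ≤ A * (lam + M * th⁻¹ * δ s / lam)

lemma FIx_le_U (lx : List B → Prop) (H s : ℕ) (w : W) : FIx Λ ht dl cd lx H s w ≤ U Λ ht H := by
  refine ENNReal.tsum_le_tsum fun L => ?_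
  by_cases h : HT ht L = H
  · rw [if_pos h]; split_ifs <;> simp
  · rw [if_neg h, if_neg (fun h' => h h'.1)]

open Classical in
lemma dens_one (h1 : ∀ b, 1 ≤ ht b) (hΛ : ∑' b, Λ b = 1) (hU1 : ∀ n, U Λ ht n ≤ 1)
    (hι : Function.Injective ι) (hdz : ∀ b w, ι (dl b w) = ι w + dz b)
    (qq A : ℝ≥0∞) (δ : ℕ → ℝ≥0∞) (H : ℕ) (lx : List B → Prop) (hH : 0 < H)
    (hP : PT Λ ht dl cd dz qq A δ H lx) (s : ℕ) (lam : ℝ≥0∞) (hl0 : lam ≠ 0) (hlt : lam ≠ ⊤)
    (N a i : ℕ) (ha : N * (H + i) + H ≤ a) (w : W) :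
    S Λ ht a (fun L1 => FIx Λ ht dl cd lx H s (act dl L1 w))
      ≤ A * (lam + qq⁻¹ * δ s / lam) + (1 - qq) ^ N + N * Mid562.ep Λ ht i := by
  obtain ⟨th, hth0, htht, low, h2, h3, h4⟩ := hP
  have hact : ∀ (L : List B) (w : W), ι (act dl L w) = ι w + DZ dz L := by
    intro L
    induction L with
    | nil => intro w; simp [act, DZ]
    | cons b L ih => intro w; rw [act, ih, hdz]; simp [DZ, add_assoc]
  set K : G → ℝ≥0∞ := fun x => ∑' w', if ι w' = x then FIx Λ ht dl cd lx H s w' else 0 with hK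
  have hKι : ∀ w', K (ι w') = FIx Λ ht dl cd lx H s w' := by
    intro w'
    simp only [hK]
    rw [tsum_eq_single w', if_pos rfl]
    intro w'' hw
    rw [if_neg (fun h => hw (hι h))]
  have hK1 : ∀ x, K x ≤ 1 := by
    intro x
    by_cases hx : ∃ w', ι w' = x
    · obtain ⟨w', rfl⟩ := hx
      rw [hKι]
      exact (FIx_le_U Λ ht dl cd lx H s w').trans (hU1 H)
    · simp only [hK]
      have : ∀ w', (if ι w' = x then FIx Λ ht dl cd lx H s w' else 0) = 0 := fun w' =>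
        if_neg fun h => hx ⟨w', h⟩
      simp [this]
  obtain ⟨μ, hμ1, hμM, hμK⟩ := density Λ ht (fun C => HT ht C = H ∧ low C) dz h1 hΛ H hH
    (fun C h => h.1) th (fun z => by
      refine le_trans (le_of_eq ?_) (h2 z)
      rw [S]
      refine tsum_congr fun C => ?_
      by_cases hC : HT ht C = H ∧ low C ∧ DZ dz C = z
      · rw [if_pos hC, if_pos (FP_of_HT ht h1 C H hC.1), if_pos ⟨⟨hC.1, hC.2.1⟩, hC.2.2⟩, mul_one]
      · by_cases hF : FP ht H C
        · rw [if_pos hF, if_neg hC,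
            if_neg (fun h : (HT ht C = H ∧ low C) ∧ DZ dz C = z => hC ⟨h.1.1, h.1.2, h.2⟩), mul_zero]
        · rw [if_neg hF, if_neg hC]) qq (by
      refine h3.trans (le_of_eq ?_)
      have e := S_HT Λ ht h1 H (fun C => low C)
      symm
      convert e) N a (ι w)
  have h5 := hμK K hK1
  have e1 : S Λ ht a (fun L => K (ι w + DZ dz L))
      = S Λ ht a (fun L1 => FIx Λ ht dl cd lx H s (act dl L1 w)) := by
    congr 1
    funext L
    rw [← hact, hKι]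
  rw [e1] at h5
  refine h5.trans (add_le_add (add_le_add ?_ le_rfl) ?_)
  · have e2 : ∑' x, μ x * K x = ∑' w', μ (ι w') * FIx Λ ht dl cd lx H s w' := by
      simp only [hK]
      simp_rw [← ENNReal.tsum_mul_left]
      rw [ENNReal.tsum_comm]
      refine tsum_congr fun w' => ?_
      rw [tsum_eq_single (ι w'), if_pos rfl]
      intro x hx
      rw [if_neg (fun h => hx h.symm), mul_zero]
    rw [e2]
    refine (h4 s lam (th / qq) hl0 hlt (fun w' => μ (ι w')) ?_ fun w' => hμM _).trans ?_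
    · exact (ENNReal.tsum_comp_le_tsum_of_injective hι μ).trans hμ1
    · have e3 : th / qq * th⁻¹ = qq⁻¹ := by
        rw [div_eq_mul_inv, mul_comm th, mul_assoc, ENNReal.mul_inv_cancel hth0 htht, mul_one]
      rw [e3]
  · refine (SC_mono Λ ht H N fun P => ?_).trans (SC_high Λ ht h1 hΛ H i N)
    by_cases h : a < HT ht P + H
    · rw [if_pos h, if_pos (by omega)]
    · rw [if_neg h]; exact zero_le

open Classical in
lemma win_bound (h1 : ∀ b, 1 ≤ ht b) (hΛ : ∑' b, Λ b = 1)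
    (hcd : ∀ w b k, k ∈ cd w b → 1 ≤ k ∧ k ≤ ht b) (c : ℝ≥0∞) (hc : c ≠ 0) (hc' : c ≠ ⊤)
    (hU : ∀ n, c ≤ U Λ ht n) (hU1 : ∀ n, U Λ ht n ≤ 1)
    (hι : Function.Injective ι) (hdz : ∀ b w, ι (dl b w) = ι w + dz b)
    (qq A η vv : ℝ≥0∞) (δ : ℕ → ℝ≥0∞) (lam : ℝ≥0∞) (hl0 : lam ≠ 0) (hlt : lam ≠ ⊤)
    (n s b e a g i H N : ℕ) (hn : a + i + g ≤ n) (hs : s ≤ g) (hH : g + i ≤ H) (hH0 : 0 < H)
    (hb : a + i + s ≤ b) (hg : e ≤ a + g) (ha : N * (H + i) + H ≤ a)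
    (lx ly : List B → Prop)
    (hNL : (∑' L : List B, if HT ht L = H ∧ ¬ lx L ∧ ¬ ly L then LW Λ L else 0) ≤ vv)
    (hX : PT Λ ht dl cd dz qq A δ H lx) (hY : PT Λ ht dl cd dz qq A δ H ly)
    (hSl : ∀ w, Sl Λ ht dl cd H s w ≤ η) (w : W) :
    Win Λ ht dl cd n b e w ≤ 2 * Mid562.ep Λ ht i + c⁻¹ * (η + vv
      + 2 * (A * (lam + qq⁻¹ * δ s / lam) + (1 - qq) ^ N + N * Mid562.ep Λ ht i)) := by
  refine (Win_le Λ ht dl cd h1 hΛ hcd c hc hc' hU hU1 n s b e a g i H hn hs hH hb hg w).trans ?_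
  refine add_le_add le_rfl (mul_le_mul_right ?_ _)
  calc S Λ ht a (fun L1 => Ph0 Λ ht dl cd H s (act dl L1 w))
      ≤ S Λ ht a (fun L1 => (η + vv) * 1 + FIx Λ ht dl cd lx H s (act dl L1 w)
          + FIx Λ ht dl cd ly H s (act dl L1 w)) := by
        refine S_mono Λ ht a fun L1 _ => ?_
        refine (Ph0_le Λ ht dl cd lx ly H s _).trans ?_
        rw [mul_one]
        exact add_le_add (add_le_add (add_le_add (hSl _) hNL) le_rfl) le_rfl
    _ = (η + vv) + S Λ ht a (fun L1 => FIx Λ ht dl cd lx H s (act dl L1 w))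
          + S Λ ht a (fun L1 => FIx Λ ht dl cd ly H s (act dl L1 w)) := by
        rw [S_add_fun, S_add_fun, S_const_mul, S_one Λ ht h1 hΛ, mul_one]
    _ ≤ (η + vv) + (A * (lam + qq⁻¹ * δ s / lam) + (1 - qq) ^ N + N * Mid562.ep Λ ht i)
          + (A * (lam + qq⁻¹ * δ s / lam) + (1 - qq) ^ N + N * Mid562.ep Λ ht i) :=
        add_le_add (add_le_add le_rfl
          (dens_one Λ ht dl cd dz ι h1 hΛ hU1 hι hdz qq A δ H lx hH0 hX s lam hl0 hlt N a i ha w))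
          (dens_one Λ ht dl cd dz ι h1 hΛ hU1 hι hdz qq A δ H ly hH0 hY s lam hl0 hlt N a i ha w)
    _ = _ := by rw [two_mul, add_assoc]

open Classical in
/-- the first contact falls in one of the windows -/
lemma kap_windows (n m t K : ℕ) (ht0 : 0 < t) (h2 : K * t ≤ m) (h3 : 2 * m ≤ (2 * K + 2) * t)
    (w : W) :
    Kap1 Λ ht dl cd n m w
      ≤ ∑ j ∈ Finset.range (K + 2), Win Λ ht dl cd n ((K + j) * t) ((K + j + 1) * t) w := by
  rw [Kap1]
  simp only [Win]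
  rw [← Summable.tsum_finsetSum fun _ _ => ENNReal.summable]
  refine ENNReal.tsum_le_tsum fun L => ?_
  by_cases hc : HT ht L = n ∧ (∀ k ∈ CD ht dl cd L w, m < k) ∧ ∃ k ∈ CD ht dl cd L w, k ≤ 2 * m
  · rw [if_pos hc]
    obtain ⟨hn, hm, hex⟩ := hc
    have hne : ∃ k, k ∈ CD ht dl cd L w := by obtain ⟨k, hk, -⟩ := hex; exact ⟨k, hk⟩
    set k0 := Nat.find hne with hk0
    have hk0m : k0 ∈ CD ht dl cd L w := Nat.find_spec hne
    have hmin : ∀ k ∈ CD ht dl cd L w, k0 ≤ k := fun k hk => Nat.find_min' hne hk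
    have hk1 : m < k0 := hm k0 hk0m
    have hk2 : k0 ≤ 2 * m := by obtain ⟨k, hk, hk'⟩ := hex; exact (hmin k hk).trans hk'
    set j0 := (k0 - 1) / t with hj0
    have hA : j0 * t ≤ k0 - 1 := Nat.div_mul_le_self _ _
    have hB : k0 - 1 < (j0 + 1) * t := by
      have := Nat.lt_div_mul_add ht0 (a := k0 - 1)
      rw [add_mul, one_mul]; exact this
    have hC : K ≤ j0 := (Nat.le_div_iff_mul_le ht0).2 (by omega)
    have hD : j0 < 2 * K + 2 := (Nat.div_lt_iff_lt_mul ht0).2 (by omega)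
    have hE : K + (j0 - K) = j0 := by omega
    refine le_trans ?_ (Finset.single_le_sum (f := fun j => if HT ht L = n ∧
      (∀ k ∈ CD ht dl cd L w, (K + j) * t < k) ∧ (∃ k ∈ CD ht dl cd L w, k ≤ (K + j + 1) * t)
      then LW Λ L else 0) (fun _ _ => zero_le) (Finset.mem_range.2 (by omega : j0 - K < K + 2)))
    simp only [hE]
    rw [if_pos]
    refine ⟨hn, fun k hk => ?_, k0, hk0m, by omega⟩
    have := hmin k hk
    omega
  · rw [if_neg hc]; exact zero_le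

end Crest.Agent.R154.JA762
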