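import Crest.Agent.R154.B5First_181

/-! Row 154, KAPPA' along JOINT renewal levels (helper183): union bounds over decompositions of lists. -/

set_option autoImplicit false

namespace Crest.Agent.R154.J183

open Crest.Agent.R154.B5A
open scoped ENNReal

variable {B W : Type*} (Λ : B → ℝ≥0∞) (ht : B → ℕ) (dl : B → W → W) (cd : W → B → Set ℕ)

open Classical in
lemma app2 (R : List B → List B → Prop) :
    ∑' L : List B, (if ∃ A C, L = A ++ C ∧ R A C then LW Λ L else 0)
      ≤ ∑' A : List B, ∑' C : List B, (if R A C then LW Λ A * LW Λ C else 0) := by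
  calc _ ≤ ∑' L : List B, ∑' p : List B × List B,
          (if L = p.1 ++ p.2 ∧ R p.1 p.2 then LW Λ L else 0) := by
        refine ENNReal.tsum_le_tsum fun L => ?_
        split_ifs with h
        · obtain ⟨A, C, h1, h2⟩ := h
          refine le_trans ?_ (ENNReal.le_tsum (A, C))
          rw [if_pos ⟨h1, h2⟩]
        · exact zero_le
    _ = ∑' p : List B × List B, ∑' L : List B,
          (if L = p.1 ++ p.2 ∧ R p.1 p.2 then LW Λ L else 0) := ENNReal.tsum_comm
    _ = ∑' p : List B × List B, (if R p.1 p.2 then LW Λ p.1 * LW Λ p.2 else 0) := by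
        refine tsum_congr fun p => ?_
        rw [tsum_eq_single (p.1 ++ p.2)]
        · rw [LW_append]; by_cases h : R p.1 p.2 <;> simp [h]
        · intro L hL; rw [if_neg (fun h => hL h.1)]
    _ = _ := ENNReal.tsum_prod (f := fun A C => if R A C then LW Λ A * LW Λ C else 0)

open Classical in
lemma app2n (n : ℕ) (R V : List B → Prop) (q : ℝ≥0∞)
    (hV : ∀ k, ∑' C, (if HT ht C = k ∧ V C then LW Λ C else 0) ≤ q) :
    ∑' L : List B, (if HT ht L = n ∧ ∃ A C, L = A ++ C ∧ R A ∧ V C then LW Λ L else 0)
      ≤ (∑' A : List B, (if R A then LW Λ A else 0)) * q := by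
  calc _ ≤ ∑' L : List B, (if ∃ A C, L = A ++ C ∧ (HT ht A + HT ht C = n ∧ R A ∧ V C)
          then LW Λ L else 0) := by
        refine ENNReal.tsum_le_tsum fun L => ?_
        split_ifs with h1 h2 h2
        · exact le_rfl
        · obtain ⟨hn, A, C, h3, h4⟩ := h1
          exact absurd ⟨A, C, h3, by rw [← hn, h3, HT_append], h4⟩ h2
        · exact zero_le
        · exact le_rfl
    _ ≤ _ := app2 Λ _
    _ ≤ ∑' A : List B, (if R A then LW Λ A else 0) * q := by
        refine ENNReal.tsum_le_tsum fun A => ?_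
        by_cases hR : R A
        · rw [if_pos hR]
          refine (ENNReal.tsum_le_tsum (g := fun C => LW Λ A *
            (if HT ht C = n - HT ht A ∧ V C then LW Λ C else 0)) fun C => ?_).trans ?_
          · split_ifs with h1 h2 h2
            · exact le_rfl
            · exact absurd ⟨by omega, h1.2.2⟩ h2
            · exact zero_le
            · exact zero_le
          · rw [ENNReal.tsum_mul_left]
            exact mul_le_mul_right (hV _) _
        · have : ∀ C : List B, ¬ (HT ht A + HT ht C = n ∧ R A ∧ V C) := fun C h => hR h.2.1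
          simp [this]
    _ = _ := ENNReal.tsum_mul_right

open Classical in
lemma app1 (hU1 : ∀ n, U Λ ht n ≤ 1) (n : ℕ) (R : List B → Prop) :
    ∑' L : List B, (if HT ht L = n ∧ ∃ A C, L = A ++ C ∧ R A then LW Λ L else 0)
      ≤ ∑' A : List B, (if R A then LW Λ A else 0) := by
  have h := app2n Λ ht n R (fun _ => True) 1 (fun k => by simpa [U] using hU1 k)
  simpa using h

open Classical in
/-- law of the displacement after a list with property `R` -/
noncomputable def mu (R : List B → Prop) (w w' : W) : ℝ≥0∞ :=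
  ∑' Z : List B, if R Z ∧ act dl Z w = w' then LW Λ Z else 0

open Classical in
lemma push (R : List B → Prop) (w : W) (φ : W → ℝ≥0∞) :
    ∑' Z : List B, (if R Z then LW Λ Z * φ (act dl Z w) else 0) = ∑' w', mu Λ dl R w w' * φ w' := by
  simp only [mu]
  simp_rw [← ENNReal.tsum_mul_right]
  rw [ENNReal.tsum_comm]
  refine tsum_congr fun Z => ?_
  rw [tsum_eq_single (act dl Z w)]
  · by_cases h : R Z <;> simp [h]
  · intro w' hw'
    rw [if_neg (fun h => hw' h.2.symm), zero_mul]

open Classical in
lemma ev (hU1 : ∀ n, U Λ ht n ≤ 1) (n : ℕ) (R : List B → Prop) (V : List B → W → Prop) (w : W) :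
    ∑' L : List B, (if HT ht L = n ∧ ∃ Z P C, L = Z ++ (P ++ C) ∧ R Z ∧ V P (act dl Z w)
        then LW Λ L else 0)
      ≤ ∑' w', mu Λ dl R w w' * ∑' P, (if V P w' then LW Λ P else 0) := by
  calc _ ≤ ∑' L : List B, (if HT ht L = n ∧ ∃ A C, L = A ++ C ∧
          (∃ Z P, A = Z ++ P ∧ (R Z ∧ V P (act dl Z w))) then LW Λ L else 0) := by
        refine ENNReal.tsum_le_tsum fun L => ?_
        split_ifs with h1 h2 h2
        · exact le_rfl
        · obtain ⟨hn, Z, P, C, h3, h4⟩ := h1
          exact absurd ⟨hn, Z ++ P, C, by rw [h3, List.append_assoc], Z, P, rfl, h4⟩ h2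
        · exact zero_le
        · exact le_rfl
    _ ≤ ∑' A : List B, (if ∃ Z P, A = Z ++ P ∧ (R Z ∧ V P (act dl Z w)) then LW Λ A else 0) :=
        app1 Λ ht hU1 n _
    _ ≤ _ := app2 Λ _
    _ = ∑' Z : List B, (if R Z then LW Λ Z * ∑' P, (if V P (act dl Z w) then LW Λ P else 0)
          else 0) := by
        refine tsum_congr fun Z => ?_
        by_cases h : R Z
        · rw [if_pos h, ← ENNReal.tsum_mul_left]
          refine tsum_congr fun P => ?_
          by_cases h2 : V P (act dl Z w) <;> simp [h, h2]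
        · simp [h]
    _ = _ := push Λ dl R w (fun w' => ∑' P, (if V P w' then LW Λ P else 0))

/-- prefixes are comparable by height -/
lemma pref (h1 : ∀ b, 1 ≤ ht b) {X Y X' Y' : List B} (h : X ++ Y = X' ++ Y')
    (hh : HT ht X ≤ HT ht X') : ∃ T, X' = X ++ T ∧ Y = T ++ Y' := by
  rcases List.append_eq_append_iff.1 h with ⟨a, ha, hb⟩ | ⟨a, ha, hb⟩
  · exact ⟨a, ha, hb⟩
  · have : a = [] := by
      rw [ha, HT_append] at hh
      have h2 := length_le_HT ht h1 a
      have : a.length = 0 := by omega
      exact List.length_eq_zero_iff.1 this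
    subst this
    exact ⟨[], by simpa using ha.symm, by simpa using hb.symm⟩

open Classical in
/-- the covering block of a depth -/
lemma cov (τ : ℕ) (V : List B → Prop) (G : B → Prop) (v : ℝ≥0∞)
    (hV : ∀ k, k < τ → ∑' P, (if HT ht P = k ∧ V P then LW Λ P else 0) ≤ v) :
    ∑' A : List B, (if ∃ P b, A = P ++ [b] ∧ HT ht P < τ ∧ τ ≤ HT ht P + ht b ∧ V P ∧ G b
        then LW Λ A else 0)
      ≤ (∑' b, (if G b then Λ b * (ht b : ℝ≥0∞) else 0)) * v := by
  calc _ ≤ ∑' A : List B, ∑' p : List B × B, (if A = p.1 ++ [p.2] ∧ (HT ht p.1 < τ ∧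
          τ ≤ HT ht p.1 + ht p.2 ∧ V p.1 ∧ G p.2) then LW Λ A else 0) := by
        refine ENNReal.tsum_le_tsum fun A => ?_
        split_ifs with h
        · obtain ⟨P, b, h1, h2⟩ := h
          refine le_trans ?_ (ENNReal.le_tsum (P, b))
          rw [if_pos ⟨h1, h2⟩]
        · exact zero_le
    _ = ∑' p : List B × B, ∑' A : List B, (if A = p.1 ++ [p.2] ∧ (HT ht p.1 < τ ∧
          τ ≤ HT ht p.1 + ht p.2 ∧ V p.1 ∧ G p.2) then LW Λ A else 0) := ENNReal.tsum_comm
    _ = ∑' p : List B × B, (if (HT ht p.1 < τ ∧ τ ≤ HT ht p.1 + ht p.2 ∧ V p.1 ∧ G p.2)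
          then LW Λ p.1 * Λ p.2 else 0) := by
        refine tsum_congr fun p => ?_
        rw [tsum_eq_single (p.1 ++ [p.2])]
        · rw [LW_append, LW_cons, LW_nil, mul_one]
          by_cases h : (HT ht p.1 < τ ∧ τ ≤ HT ht p.1 + ht p.2 ∧ V p.1 ∧ G p.2) <;> simp [h]
        · intro L hL; rw [if_neg (fun h => hL h.1)]
    _ = ∑' P : List B, ∑' b, (if (HT ht P < τ ∧ τ ≤ HT ht P + ht b ∧ V P ∧ G b)
          then LW Λ P * Λ b else 0) :=
        ENNReal.tsum_prod (f := fun P b => if (HT ht P < τ ∧ τ ≤ HT ht P + ht b ∧ V P ∧ G b)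
          then LW Λ P * Λ b else 0)
    _ = ∑' b, ∑' P : List B, (if (HT ht P < τ ∧ τ ≤ HT ht P + ht b ∧ V P ∧ G b)
          then LW Λ P * Λ b else 0) := ENNReal.tsum_comm
    _ ≤ ∑' b, (if G b then Λ b * (ht b : ℝ≥0∞) else 0) * v := by
        refine ENNReal.tsum_le_tsum fun b => ?_
        by_cases hG : G b
        · rw [if_pos hG]
          calc ∑' P : List B, (if (HT ht P < τ ∧ τ ≤ HT ht P + ht b ∧ V P ∧ G b)
                then LW Λ P * Λ b else 0)
              ≤ ∑' P : List B, ∑ k ∈ Finset.Ico (τ - ht b) τ,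
                  Λ b * (if HT ht P = k ∧ V P then LW Λ P else 0) := by
                refine ENNReal.tsum_le_tsum fun P => ?_
                split_ifs with h
                · have hm : HT ht P ∈ Finset.Ico (τ - ht b) τ := by
                    rw [Finset.mem_Ico]; omega
                  refine le_trans ?_ (Finset.single_le_sum (f := fun k =>
                    Λ b * (if HT ht P = k ∧ V P then LW Λ P else 0)) (fun _ _ => zero_le) hm)
                  simp only [true_and, h.2.2.1, if_true]
                  rw [mul_comm]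
                · exact zero_le
            _ = ∑ k ∈ Finset.Ico (τ - ht b) τ, ∑' P : List B,
                  Λ b * (if HT ht P = k ∧ V P then LW Λ P else 0) :=
                Summable.tsum_finsetSum (fun _ _ => ENNReal.summable)
            _ ≤ ∑ k ∈ Finset.Ico (τ - ht b) τ, Λ b * v := by
                refine Finset.sum_le_sum fun k hk => ?_
                rw [ENNReal.tsum_mul_left]
                exact mul_le_mul_right (hV k (Finset.mem_Ico.1 hk).2) _
            _ ≤ Λ b * (ht b : ℝ≥0∞) * v := by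
                rw [Finset.sum_const, Nat.card_Ico, nsmul_eq_mul]
                calc ((τ - (τ - ht b) : ℕ) : ℝ≥0∞) * (Λ b * v) ≤ (ht b : ℝ≥0∞) * (Λ b * v) := by
                      refine mul_le_mul_left ?_ _
                      exact_mod_cast (by omega : τ - (τ - ht b) ≤ ht b)
                  _ = _ := by ring
        · have : ∀ P : List B, ¬ (HT ht P < τ ∧ τ ≤ HT ht P + ht b ∧ V P ∧ G b) :=
            fun P h => hG h.2.2.2
          simp [this]
    _ = _ := ENNReal.tsum_mul_right

end Crest.Agent.R154.J183
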