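import Crest.Agent.R154.JPos_132
import Crest.Agent.R154.B4Inst_797

/-! Row 154, B4 trunk side, binding part 1 (deterministic): the letters are the regeneration blocks. -/

set_option autoImplicit false
set_option linter.unusedSectionVars false
set_option linter.deprecated false

namespace Crest.Agent.R154.J132

open MeasureTheory ProbabilityTheory Filter Set Crest.ProbabilityR.RandomEnvironment
open Crest.Agent.R154.Mk561 Crest.Agent.R154.Bind263 Crest.Agent.R154.B4Inst797
open Crest.Agent.R154.Ren263 (Word pre hgt Stay Record len_pre hgt_zero hgt_shift)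
open Crest.Agent.R154.RenG263 (RecSys Reg tau tau_spec tau_min blk0 blks RegInf rest_mem reg_shift)
open scoped ENNReal Topology

variable {d : ℕ}

instance instInhabitedWord {S : Type*} : Inhabited (Word S) := ⟨([] : List S)⟩

/-- record system: `R` forced steps up -/
noncomputable def rhoU (u : Step d) (κ : ℝ) (R : ℕ) : RecSys (mht (B2d.dirVec u)) :=
  mrs (B2d.dirVec u) R κ u R (by rw [mht_dirVec, zht_up]; norm_num)
    (by rw [cR_dirVec, mht_dirVec, zht_up]; simp)

/-- height of a word -/
def Yw (u : Step d) (w : Word (Mark d)) : ℕ := max 1 (wzht u w).toNat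

lemma one_le_Yw (u : Step d) (w : Word (Mark d)) : 1 ≤ Yw u w := le_max_left _ _

/-- lateral displacement of a word -/
noncomputable def Vw (i1 i2 : Fin d) (w : Word (Mark d)) : Fin 2 → ℝ :=
  lat i1 i2 ((List.map stp w).sum)

/-- path of a word -/
def wp (u : Step d) (w : Word (Mark d)) : MPath d := fun i => List.getD w i (u, true)

/-- lateral position at the first hit of level `l` inside a word -/
noncomputable def Iw (u : Step d) (i1 i2 : Fin d) (w : Word (Mark d)) (l : ℕ) : Fin 2 → ℝ :=
  UU u i1 i2 l (wp u w)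

lemma Iw_zero (u : Step d) (i1 i2 : Fin d) (w : Word (Mark d)) : Iw u i1 i2 w 0 = 0 := by
  simp [Iw, UU]

lemma wzht_pre (u : Step d) (n : ℕ) (s : MPath d) : wzht u (pre n s) = zh u s n := by
  unfold wzht pre zh
  rw [List.map_map, ← List.sum_toFinset _ (List.nodup_range)]
  congr 1
  ext x; simp

lemma stp_pre (n : ℕ) (s : MPath d) : (List.map stp (pre n s)).sum = pos 0 s n := by
  unfold pre pos
  rw [List.map_map, ← List.sum_toFinset _ (List.nodup_range), zero_add]
  congr 1
  ext x; simp

lemma wp_pre (u : Step d) {n i : ℕ} (hi : i < n) (s : MPath d) : wp u (pre n s) i = s i := by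
  have h1 : i < ((List.range n).map s).length := by simpa using hi
  unfold wp pre
  rw [List.getD_eq_getElem _ _ h1]
  simp

variable {u : Step d} {κ : ℝ} {R : ℕ}

lemma record_zh {s : MPath d} {n : ℕ} (h : Record (mht (B2d.dirVec u)) s n) :
    ∀ i < n, zh u s i < zh u s n := by
  intro i hi
  have := h i hi
  rw [hgt_eq, hgt_eq] at this
  exact_mod_cast this

lemma stay_zh {s : MPath d} : s ∈ Stay (mht (B2d.dirVec u)) ↔ ∀ n, 0 ≤ zh u s n := by
  constructor
  · intro h n
    have := h n
    rw [hgt_eq] at this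
    exact_mod_cast this
  · intro h n
    rw [hgt_eq]
    exact_mod_cast h n

lemma hit_of_record {s : MPath d} {n : ℕ} (h1 : 1 ≤ n)
    (h : ∀ i < n, zh u s i < zh u s n) : Hit u (Yw u (pre n s)) n s := by
  have h0 := h 0 h1
  rw [zh_zero] at h0
  have hY : ((Yw u (pre n s) : ℕ) : ℤ) = zh u s n := by
    unfold Yw
    rw [wzht_pre]
    omega
  exact ⟨hY.symm, fun i hi => by rw [hY]; exact h i hi⟩

lemma hit_tau {s : MPath d} (hs : s ∈ RegInf (rhoU u κ R)) :
    Hit u (Yw u (blk0 (rhoU u κ R) s)) (tau (rhoU u κ R) s) s := by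
  obtain ⟨h1, h2⟩ := tau_spec hs
  exact hit_of_record h1 (record_zh ((rhoU u κ R).record h2.1))

lemma sh_blks (s : MPath d) : sh 1 (blks (rhoU u κ R) s) =
    blks (rhoU u κ R) (RenG263.rest (rhoU u κ R) s) := by
  funext k
  unfold sh
  rw [Nat.add_comm, RenG263.blks_succ]

lemma Uf_congr_ge (i1 i2 : Fin d) {l : ℕ} {s : MPath d} (hs : s ∈ RegInf (rhoU u κ R)) :
    UU u i1 i2 l s = Uf (Yw u) (Vw i1 i2) (Iw u i1 i2) l (blks (rhoU u κ R) s) := by
  induction l using Nat.strong_induction_on generalizing s with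
  | _ l ih =>
    set w0 := blk0 (rhoU u κ R) s with hw0
    have hb0 : blks (rhoU u κ R) s 0 = w0 := rfl
    have hHit := hit_tau hs
    rw [← hw0] at hHit
    rcases Nat.lt_or_ge l (Yw u w0) with hlt | hge
    · rw [Uf_lt (one_le_Yw u) _ _ (by rw [hb0]; exact hlt), hb0]
      unfold Iw
      obtain ⟨k, hk, hkh⟩ := exists_hit (u := u) (l := l) (s := s) (N := tau (rhoU u κ R) s)
        (by rw [hHit.1]; exact_mod_cast hlt.le)
      have hag : ∀ i < k, wp u w0 i = s i := fun i hi => wp_pre u (lt_of_lt_of_le hi hk) s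
      have hkh' : Hit u l k (wp u w0) := (det_Hit u l k (wp u w0) s hag).2 hkh
      rw [(hit_eq i1 i2 hkh).2, (hit_eq i1 i2 hkh').2]
      congr 1
      exact (pos_congr 0 hag le_rfl).symm
    · have hY := one_le_Yw u w0
      have hcov := (pos_Uf (one_le_Yw u) (Vw i1 i2) (Iw_zero u i1 i2)).cov
        (blks (rhoU u κ R) s) 1 l (by simpa [H, hb0] using hge)
      have hH1 : H (Yw u) 1 (blks (rhoU u κ R) s) = Yw u w0 := by simp [H, hb0]
      have hD1 : Dd (Vw i1 i2) 1 (blks (rhoU u κ R) s) = Vw i1 i2 w0 := by simp [Dd, hb0]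
      rw [hcov, hH1, hD1, sh_blks, ← ih (l - Yw u w0) (by omega) (rest_mem hs)]
      obtain ⟨e1, e2⟩ := hit_eq i1 i2 hHit
      have e3 : l = Yw u w0 + (l - Yw u w0) := by omega
      conv_lhs => rw [e3, UU_add, e1, e2]
      congr 1
      unfold Vw
      rw [hw0]
      unfold RenG263.blk0
      rw [stp_pre]

/-- the cuts are record times with the right heights -/
lemma cut_hit {s : MPath d} (hs : s ∈ RegInf (rhoU u κ R)) (i : ℕ) :
    ∃ n, Hit u (H (Yw u) i (blks (rhoU u κ R) s)) n s ∧
      Ren263.shift n s ∈ Stay (mht (B2d.dirVec u)) := by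
  induction i generalizing s with
  | zero =>
    refine ⟨0, ?_, ?_⟩
    · rw [H_zero]; exact hit_zero u s
    · rw [Ren263.shift_zero]; exact hs.1
  | succ i ih =>
    obtain ⟨m, hm1, hm2⟩ := ih (rest_mem hs)
    have hHit := hit_tau hs
    refine ⟨tau (rhoU u κ R) s + m, ?_, ?_⟩
    · rw [Nat.add_comm i 1, H_add, sh_blks]
      have hH1 : H (Yw u) 1 (blks (rhoU u κ R) s) = Yw u (blk0 (rhoU u κ R) s) := by
        simp [H]; rfl
      rw [hH1]
      have h3 := hit_comp (l := Yw u (blk0 (rhoU u κ R) s))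
        (m := H (Yw u) i (blks (rhoU u κ R) (RenG263.rest (rhoU u κ R) s))) hHit hm1
      exact h3
    · rw [← Ren263.shift_shift]
      exact hm2

/-- every regeneration time is a cut -/
lemma reg_cut {s : MPath d} (m : ℕ) (hs : s ∈ RegInf (rhoU u κ R))
    (hm : Reg (rhoU u κ R) s m) :
    ∃ i, ((H (Yw u) i (blks (rhoU u κ R) s) : ℕ) : ℤ) = zh u s m := by
  induction m using Nat.strong_induction_on generalizing s with
  | _ m ih =>
    rcases Nat.eq_zero_or_pos m with h0 | h0
    · subst h0
      exact ⟨0, by simp [H_zero]⟩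
    · have h1 := tau_spec hs
      have hle : tau (rhoU u κ R) s ≤ m := by
        by_contra hc
        push Not at hc
        exact tau_min h0 hc hm
      have hreg := reg_shift hle hm
      obtain ⟨i, hi⟩ := ih (m - tau (rhoU u κ R) s) (by omega) (rest_mem hs) hreg
      refine ⟨1 + i, ?_⟩
      have hHit := hit_tau hs
      have hH1 : H (Yw u) 1 (blks (rhoU u κ R) s) = Yw u (blk0 (rhoU u κ R) s) := by
        simp [H]; rfl
      rw [H_add, sh_blks, hH1]
      push_cast
      rw [hi, ← hHit.1]
      have := zh_add u s (tau (rhoU u κ R) s) (m - tau (rhoU u κ R) s)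
      rw [Nat.add_sub_cancel' hle] at this
      rw [this]
      rfl

end Crest.Agent.R154.J132
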