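import Crest.Agent.R154.JBind1_132

/-! Row 154, B4 trunk side, binding part 2: the law of the letters; lower bound of the renewal
function. -/

set_option autoImplicit false
set_option linter.unusedSectionVars false
set_option linter.deprecated false

namespace Crest.Agent.R154.J132

open MeasureTheory ProbabilityTheory Filter Set Crest.ProbabilityR.RandomEnvironment
open Crest.Agent.R154.Mk561 Crest.Agent.R154.Bind263 Crest.Agent.R154.B4Inst797
open Crest.Agent.R154.Ren263 (Word pre hgt Stay Record len_pre hgt_zero hgt_shift Det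
  measurableSet_Stay)
open Crest.Agent.R154.RenG263 (RecSys Reg tau tau_spec tau_min blk0 blks RegInf rest_mem reg_shift
  wordLaw RenewalG Climb det_Climb climb_hgt measurable_blks)
open scoped ENNReal Topology

variable {d : ℕ} {u : Step d} {κ : ℝ} {R : ℕ} {Q : Measure (Environment d)}
  [IsProbabilityMeasure Q]

/-- the law of the letters -/
noncomputable abbrev muW (Q : Measure (Environment d)) (κ : ℝ) (R : ℕ) (u : Step d) :
    Measure (Word (Mark d)) := wordLaw (rhoU u κ R) (mkAnn κ Q 0)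

theorem renU (F : Frame Q κ R) (u : Step d) : RenewalG (rhoU u κ R) (mkAnn κ Q 0) :=
  F.renewal (B2d.dirVec u) u R _ _ F.frc

theorem probW (F : Frame Q κ R) (hA : annealedProb Q 0 (escapeEvent (B2d.dirVec u)) ≠ 0) :
    IsProbabilityMeasure (muW Q κ R u) :=
  (renU F u).isProb (F.hp _ hA) (F.hT _ (B2d.dirVec_ne_zero u))

/-- conditional law of the walk which stays above the start -/
noncomputable abbrev stL (Q : Measure (Environment d)) (κ : ℝ) (u : Step d) : Measure (MPath d) :=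
  ProbabilityTheory.cond (mkAnn κ Q 0) (Stay (mht (B2d.dirVec u)))

theorem map_blksU (F : Frame Q κ R)
    (hA : annealedProb Q 0 (escapeEvent (B2d.dirVec u)) ≠ 0) :
    (stL Q κ u).map (blks (rhoU u κ R)) = iidL (muW Q κ R u) :=
  (renU F u).map_blks (F.hp _ hA) (F.hT _ (B2d.dirVec_ne_zero u))

theorem ae_regInfU (F : Frame Q κ R)
    (hA : annealedProb Q 0 (escapeEvent (B2d.dirVec u)) ≠ 0) :
    ∀ᵐ s ∂(stL Q κ u), s ∈ RegInf (rhoU u κ R) := by
  have h1 : ∀ᵐ s ∂((mkAnn κ Q 0).restrict (Stay (mht (B2d.dirVec u)))),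
      s ∈ RegInf (rhoU u κ R) := by
    rw [ae_restrict_iff' (measurableSet_Stay _)]
    exact (renU F u).ae_regInf (F.hp _ hA) (F.hT _ (B2d.dirVec_ne_zero u))
  unfold stL ProbabilityTheory.cond
  exact Measure.ae_smul_measure h1 _

lemma measurableSet_cutAt (Y : Word (Mark d) → ℕ) (l : ℕ) :
    MeasurableSet {a : ℕ → Word (Mark d) | ∃ i, H Y i a = l} := by
  have : {a : ℕ → Word (Mark d) | ∃ i, H Y i a = l} = ⋃ i, {a | H Y i a = l} := by
    ext a; simp
  rw [this]
  exact MeasurableSet.iUnion fun i => measurable_H Y i (measurableSet_singleton l)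

theorem cut_prob (F : Frame Q κ R)
    (hA : annealedProb Q 0 (escapeEvent (B2d.dirVec u)) ≠ 0) {l : ℕ} (hl : R ≤ l) :
    ENNReal.ofReal (kf d κ) ^ R * mkAnn κ Q 0 (Stay (mht (B2d.dirVec u)))
      ≤ iidL (muW Q κ R u) {a | ∃ i, H (Yw u) i a = l} := by
  set P := mkAnn κ Q 0 with hP
  set S := Stay (mht (B2d.dirVec u)) with hS
  have hSm : MeasurableSet S := measurableSet_Stay _
  have hp : P S ≠ 0 := F.hp _ hA
  have hC := measurableSet_cutAt (Yw u) l
  have hbm : Measurable (blks (rhoU u κ R)) := measurable_blks _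
  rw [← map_blksU F hA, Measure.map_apply hbm hC, stL, cond_apply hSm]
  set A : ℕ → Set (MPath d) := fun n => {s | Hit u (l - R) n s ∧ ∀ k ≤ n, 0 ≤ zh u s k} with hAdef
  have hdet0 : ∀ n, Det n {s : MPath d | ∀ k ≤ n, 0 ≤ zh u s k} := fun n s s' hss => by
    simp only [mem_setOf_eq]
    refine forall_congr' fun k => forall_congr' fun hk => ?_
    rw [zh_congr u hss hk]
  have hdet : ∀ n, Det n (A n) := fun n => (det_Hit u (l - R) n).inter (hdet0 n)
  have hrec : ∀ n, ∀ s ∈ A n, Record (mht (B2d.dirVec u)) s n := by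
    intro n s hs i hi
    rw [hgt_eq, hgt_eq, hs.1.1]
    exact_mod_cast hs.1.2 i hi
  have hdisj : Pairwise (Function.onFun Disjoint A) := fun n m hnm => by
    rw [Function.onFun, Set.disjoint_left]
    intro s h1 h2
    exact hnm (hit_unique h1.1 h2.1)
  have hren : ∀ n, P ((A n ∩ Climb (rhoU u κ R) n) ∩ Ren263.shift (n + R) ⁻¹' S)
      = P (A n) * (ENNReal.ofReal (kf d κ) ^ R * P S) := fun n =>
    (renU F u).climb_ren (hdet n) (hrec n) hSm le_rfl
  have hsum : P (⋃ n, (A n ∩ Climb (rhoU u κ R) n) ∩ Ren263.shift (n + R) ⁻¹' S)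
      = P (⋃ n, A n) * (ENNReal.ofReal (kf d κ) ^ R * P S) := by
    rw [measure_iUnion, measure_iUnion hdisj fun n => (hdet n).measurableSet,
      ← ENNReal.tsum_mul_right]
    · exact tsum_congr hren
    · intro n m hnm
      exact (hdisj hnm).mono (inter_subset_left.trans inter_subset_left)
        (inter_subset_left.trans inter_subset_left)
    · intro n
      exact ((hdet n).measurableSet.inter (det_Climb _ n).measurableSet).inter
        (Ren263.measurable_shift (n + R) hSm)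
  have hSA : P S ≤ P (⋃ n, A n) := by
    refine measure_mono_ae ?_
    filter_upwards [F.hT (B2d.dirVec u) (B2d.dirVec_ne_zero u)] with s hs hsS
    obtain ⟨n, hn⟩ := hs hsS ((l - R : ℕ) : ℝ)
    rw [hgt_eq] at hn
    obtain ⟨k, _, hk⟩ := exists_hit (u := u) (l := l - R) (s := s) (N := n) (by exact_mod_cast hn)
    exact mem_iUnion.2 ⟨k, hk, fun j _ => stay_zh.1 hsS j⟩
  have hE : P (⋃ n, (A n ∩ Climb (rhoU u κ R) n) ∩ Ren263.shift (n + R) ⁻¹' S)
      ≤ P (S ∩ blks (rhoU u κ R) ⁻¹' {a | ∃ i, H (Yw u) i a = l}) := by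
    refine measure_mono_ae ?_
    filter_upwards [(renU F u).ae_regInf (F.hp _ hA) (F.hT _ (B2d.dirVec_ne_zero u))] with s hri hs
    obtain ⟨n, ⟨hn1, hn2⟩, hn3⟩ := mem_iUnion.1 hs
    have hn3' : ∀ k, 0 ≤ zh u (Ren263.shift (n + R) s) k := stay_zh.1 hn3
    have hup : ∀ j ≤ R, zh u s (n + j) = zh u s n + j := by
      intro j
      induction j with
      | zero => intro _; simp
      | succ j ih =>
        intro hj
        have e : s (n + j) = ((u, true) : Mark d) := hn2 j (show j < R by omega)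
        rw [← Nat.add_assoc, zh_succ, ih (by omega), e, zht_up]
        push_cast; ring
    have hlev : zh u s (n + R) = l := by
      rw [hup R le_rfl, hn1.1.1]
      omega
    have hsS : s ∈ S := by
      rw [hS, stay_zh]
      intro k
      rcases Nat.lt_or_ge k (n + R) with hk | hk
      · rcases Nat.lt_or_ge k n with hk2 | hk2
        · exact hn1.2 k hk2.le
        · obtain ⟨j, rfl⟩ := Nat.exists_eq_add_of_le hk2
          rw [hup j (by omega), hn1.1.1]
          positivity
      · obtain ⟨j, rfl⟩ := Nat.exists_eq_add_of_le hk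
        rw [zh_add, hlev]
        have := hn3' j
        positivity
    refine ⟨hsS, ?_⟩
    have hreg : Reg (rhoU u κ R) s (n + R) :=
      ⟨(rhoU u κ R).climb (hrec n s hn1) hn2, hn3⟩
    obtain ⟨i, hi⟩ := reg_cut (n + R) (hri hsS) hreg
    refine ⟨i, ?_⟩
    rw [hlev] at hi
    exact_mod_cast hi
  calc ENNReal.ofReal (kf d κ) ^ R * P S
      = (P S)⁻¹ * (P S * (ENNReal.ofReal (kf d κ) ^ R * P S)) := by
        rw [← mul_assoc, ENNReal.inv_mul_cancel hp (measure_ne_top _ _), one_mul]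
    _ ≤ (P S)⁻¹ * (P (⋃ n, A n) * (ENNReal.ofReal (kf d κ) ^ R * P S)) := by gcongr
    _ ≤ _ := by
        rw [← hsum]
        gcongr

/-- the lower bound of the renewal function of joint cuts -/
theorem Ur_ge (F : Frame Q κ R)
    (hA : annealedProb Q 0 (escapeEvent (B2d.dirVec u)) ≠ 0) {l : ℕ} (hl : R ≤ l) :
    (ENNReal.ofReal (kf d κ) ^ R * mkAnn κ Q 0 (Stay (mht (B2d.dirVec u)))) ^ 2
      ≤ Ur (muW Q κ R u) (Yw u) l := by
  have := probW F hA
  have h1 : {p : (ℕ → Word (Mark d)) × (ℕ → Word (Mark d)) | JCut (Yw u) p l}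
      = {a | ∃ i, H (Yw u) i a = l} ×ˢ {a | ∃ i, H (Yw u) i a = l} := by
    ext p
    simp only [JCut, mem_setOf_eq, mem_prod]
    constructor
    · rintro ⟨i, j, h1, h2⟩; exact ⟨⟨i, h1⟩, ⟨j, h2⟩⟩
    · rintro ⟨⟨i, h1⟩, ⟨j, h2⟩⟩; exact ⟨i, j, h1, h2⟩
  rw [Ur, h1, Measure.prod_prod, sq]
  exact mul_le_mul' (cut_prob F hA hl) (cut_prob F hA hl)

theorem sum_noCut_ne_top (F : Frame Q κ R)
    (hA : annealedProb Q 0 (escapeEvent (B2d.dirVec u)) ≠ 0) :
    ∑' m, pairL (muW Q κ R u) (NoCut (Yw u) m) ≠ ⊤ := by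
  have := probW F hA
  set c := (ENNReal.ofReal (kf d κ) ^ R * mkAnn κ Q 0 (Stay (mht (B2d.dirVec u)))) ^ 2 with hc
  have hδ : ENNReal.ofReal (kf d κ) ^ R ≠ 0 := (renU F u).δ_ne
  have hc0 : c ≠ 0 := pow_ne_zero _ (mul_ne_zero hδ (F.hp _ hA))
  have hct : c ≠ ⊤ := by
    rw [hc]
    exact ENNReal.pow_ne_top (ENNReal.mul_ne_top (ENNReal.pow_ne_top ENNReal.ofReal_ne_top)
      (measure_ne_top _ _))
  refine ne_top_of_le_ne_top (ENNReal.inv_ne_top.2 hc0)
    (tsum_noCut_le' (muW Q κ R u) (one_le_Yw u) hc0 hct (l₀ := R) fun l hl => Ur_ge F hA hl)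

end Crest.Agent.R154.J132
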