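import Crest.Agent.R154.JBind2_132
import Crest.Agent.R154.BodyFin_818

/-! Row 154, B4 trunk side, binding part 3: atoms of the law of the joint blocks, BODY. -/

set_option autoImplicit false
set_option linter.unusedSectionVars false
set_option linter.deprecated false

namespace Crest.Agent.R154.J132

open MeasureTheory ProbabilityTheory Filter Set Crest.ProbabilityR.RandomEnvironment
open Crest.Agent.R154.Mk561 Crest.Agent.R154.Bind263 Crest.Agent.R154.B4Inst797
open Crest.Agent.R154.Ren263 (Word pre hgt Stay Record len_pre hgt_zero hgt_shift Det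
  measurableSet_Stay)
open Crest.Agent.R154.RenG263 (RecSys Reg tau tau_spec tau_min blk0 blks RegInf rest_mem reg_shift
  wordLaw RenewalG Climb det_Climb climb_hgt measurable_blks wordLaw_apply)
open Crest.Agent.R154.Body818 (BodyProp)
open scoped ENNReal Topology

section general

variable {A : Type} [MeasurableSpace A] [MeasurableSingletonClass A] [Countable A] [Inhabited A]

lemma iid_first (μ : Measure A) [IsProbabilityMeasure μ] (w : A) :
    iidL μ {a | a 0 = w} = μ {w} := by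
  have h := Measure.infinitePi_map_eval (fun _ : ℕ => μ) 0
  conv_rhs => rw [← h]
  rw [Measure.map_apply (measurable_pi_apply 0) (measurableSet_singleton w)]
  rfl

/-- atoms of the joint block law -/
theorem atom_pair (μ : Measure A) [IsProbabilityMeasure μ] {Y : A → ℕ} (hY : ∀ a, 1 ≤ Y a)
    (V : A → (Fin 2 → ℝ)) {w w' : A} (h : Y w = Y w') :
    μ {w} * μ {w'} ≤ jlaw μ Y V {V w - V w'} := by
  rw [jlaw, Measure.map_apply (measurable_X0 hY V) (measurableSet_singleton _),
    ← iid_first μ w, ← iid_first μ w', ← Measure.prod_prod]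
  refine measure_mono ?_
  rintro p ⟨h1, h2⟩
  have h1' : p.1 0 = w := h1
  have h2' : p.2 0 = w' := h2
  have hf : p ∈ Fst Y (1, 1) := by
    refine ⟨le_rfl, ?_, fun i j hi hi' _ => ?_⟩
    · simp [H, h1', h2', h]
    · have hi'' : i < 1 := hi'
      omega
  have hi := idx_eq hY hf
  simp only [mem_preimage, mem_singleton_iff, X0]
  rw [hi]
  simp [Dd, h1', h2']

end general

variable {d : ℕ} {u : Step d} {κ : ℝ} {R : ℕ} {Q : Measure (Environment d)}
  [IsProbabilityMeasure Q]

/-- the path of the words `(f, u)` -/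
noncomputable def Wf (u : Step d) (κ : ℝ) (f : Step d) : MPath d := fun i =>
  if i = 0 then (f, fb d κ) else (u, fb d κ)

theorem word_pos (F : Frame Q κ R)
    {f : Step d} (hf : f.1 ≠ u.1) : muW Q κ R u {pre 2 (Wf u κ f)} ≠ 0 := by
  rw [muW, wordLaw_apply]
  have hcy : mkAnn κ Q 0 (Cy (Wf u κ f) 2) ≠ 0 := by
    refine cy_pos F _ _ fun i _ => ?_
    unfold Wf
    split_ifs
    · exact fb_spec d κ
    · exact fb_spec d κ
  refine ne_of_gt (lt_of_lt_of_le (pos_iff_ne_zero.2 hcy) ?_)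
  refine le_trans (measure_mono ?_) (ENNReal.le_tsum 2)
  intro s hs
  have hs0 : s 0 = (f, fb d κ) := by rw [hs 0 (by norm_num)]; simp [Wf]
  have hs1 : s 1 = (u, fb d κ) := by rw [hs 1 (by norm_num)]; simp [Wf]
  have z1 : zh u s 1 = 0 := by
    rw [show (1 : ℕ) = 0 + 1 from rfl, zh_succ, zh_zero, hs0]
    obtain ⟨f1, f2⟩ := f
    rw [zht_lat hf, add_zero]
  have z2 : zh u s 2 = 1 := by
    rw [show (2 : ℕ) = 1 + 1 from rfl, zh_succ, z1, hs1, zht_up, zero_add]
  refine ⟨⟨by norm_num, ?_, ?_, ?_⟩, ?_⟩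
  · change MRec (B2d.dirVec u) R s 2
    intro i hi
    rw [hgt_eq, hgt_eq, z2]
    have hzi : zh u s i = 0 := by
      interval_cases i
      · exact zh_zero u s
      · exact z1
    rw [hzi]
    refine ⟨by norm_num, fun hflag => ?_⟩
    have hb : fb d κ = false := by
      interval_cases i
      · rw [hs0] at hflag; exact hflag
      · rw [hs1] at hflag; exact hflag
    have hk : kf d κ = 0 := by
      rcases fb_spec d κ with h | h
      · rw [hb] at h; simp at h
      · exact h.2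
    have hR0 : R = 0 := by
      rcases F.frc with h | h
      · exact h
      · rw [hk] at h; exact absurd h (lt_irrefl _)
    rw [hR0, cR_zero]
    norm_num
  · intro k hk
    rw [hgt_eq]
    interval_cases k
    · rw [zh_zero]; norm_num
    · rw [z1]; norm_num
    · rw [z2]; norm_num
  · intro m hm1 hm2 hcon
    have hm : m = 1 := by omega
    subst hm
    have := ((rhoU u κ R).record hcon.1) 0 (by norm_num)
    rw [hgt_eq, hgt_eq, z1, zh_zero] at this
    exact absurd this (lt_irrefl _)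
  · simp only [mem_setOf_eq, mem_singleton_iff]
    exact Ren263.pre_congr hs

lemma Yw_Wf {f : Step d} (hf : f.1 ≠ u.1) : Yw u (pre 2 (Wf u κ f)) = 1 := by
  unfold Yw
  rw [wzht_pre]
  have z1 : zh u (Wf u κ f) 1 = 0 := by
    rw [show (1 : ℕ) = 0 + 1 from rfl, zh_succ, zh_zero]
    obtain ⟨f1, f2⟩ := f
    simp only [Wf, if_true]
    rw [zht_lat hf, add_zero]
  have z2 : zh u (Wf u κ f) 2 = 1 := by
    rw [show (2 : ℕ) = 1 + 1 from rfl, zh_succ, z1]
    simp only [Wf]
    rw [if_neg (by norm_num), zht_up, zero_add]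
  rw [z2]
  rfl

lemma Vw_Wf {i1 i2 : Fin d} (h1 : i1 ≠ u.1) (h2 : i2 ≠ u.1) (f : Step d) :
    Vw i1 i2 (pre 2 (Wf u κ f)) = lat i1 i2 (stepVec f) := by
  unfold Vw
  have hp2 : pos 0 (Wf u κ f) (0 + 1 + 1) = 0 + stp (Wf u κ f 0) + stp (Wf u κ f (0 + 1)) := by
    rw [pos_succ, pos_succ, pos_zero]
  have hp2' : pos 0 (Wf u κ f) 2 = 0 + stp (Wf u κ f 0) + stp (Wf u κ f (0 + 1)) := hp2
  rw [stp_pre, hp2', lat_add, lat_add, lat_zero, zero_add]
  have hu1 : (stepVec u : Site d) i1 = 0 := by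
    unfold stepVec; rw [Pi.single_eq_of_ne h1]
  have hu2 : (stepVec u : Site d) i2 = 0 := by
    unfold stepVec; rw [Pi.single_eq_of_ne h2]
  have e2 : lat i1 i2 (stp (Wf u κ f (0 + 1))) = 0 := by
    have : Wf u κ f (0 + 1) = (u, fb d κ) := by simp [Wf]
    rw [this]
    unfold lat stp
    ext i
    fin_cases i
    · simp [hu1]
    · simp [hu2]
  rw [e2, add_zero]
  have : Wf u κ f 0 = (f, fb d κ) := by simp [Wf]
  rw [this]
  rfl

/-- **BODY for the joint blocks of two walkers** -/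
theorem body (F : Frame Q κ R) (hA : annealedProb Q 0 (escapeEvent (B2d.dirVec u)) ≠ 0)
    {i1 i2 : Fin d} (h1 : i1 ≠ u.1) (h2 : i2 ≠ u.1) (h12 : i1 ≠ i2) :
    BodyProp (jlaw (muW Q κ R u) (Yw u) (Vw i1 i2)) := by
  have := probW F hA
  have hg : pairL (muW Q κ R u) (Good (Yw u))ᶜ = 0 :=
    good_ae _ (one_le_Yw u) (noCut_tendsto' _ (sum_noCut_ne_top F hA))
  have hpj : IsProbabilityMeasure (jlaw (muW Q κ R u) (Yw u) (Vw i1 i2)) :=
    Measure.isProbabilityMeasure_map (measurable_X0 (one_le_Yw u) _).aemeasurable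
  have hsym := jlaw_symm (muW Q κ R u) (one_le_Yw u) hg (Vw i1 i2)
  set wa := pre 2 (Wf u κ (i1, true)) with hwa
  set wb := pre 2 (Wf u κ (i1, false)) with hwb
  set wc := pre 2 (Wf u κ (i2, true)) with hwc
  have pa : muW Q κ R u {wa} ≠ 0 := word_pos F h1
  have pb : muW Q κ R u {wb} ≠ 0 := word_pos F h1
  have pc : muW Q κ R u {wc} ≠ 0 := word_pos F h2
  have ya : Yw u wa = 1 := Yw_Wf h1
  have yb : Yw u wb = 1 := Yw_Wf h1
  have yc : Yw u wc = 1 := Yw_Wf h2
  have va : Vw i1 i2 wa = lat i1 i2 (stepVec (i1, true)) := Vw_Wf h1 h2 _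
  have vb : Vw i1 i2 wb = lat i1 i2 (stepVec (i1, false)) := Vw_Wf h1 h2 _
  have vc : Vw i1 i2 wc = lat i1 i2 (stepVec (i2, true)) := Vw_Wf h1 h2 _
  refine Body818.bodyProp_of_atoms hsym (x := Vw i1 i2 wa - Vw i1 i2 wb)
    (y := Vw i1 i2 wc - Vw i1 i2 wb) ?_ ?_ ?_
  · refine ne_of_gt (lt_of_lt_of_le ?_
      (atom_pair (muW Q κ R u) (one_le_Yw u) (Vw i1 i2) (ya.trans yb.symm)))
    exact pos_iff_ne_zero.2 (mul_ne_zero pa pb)
  · refine ne_of_gt (lt_of_lt_of_le ?_
      (atom_pair (muW Q κ R u) (one_le_Yw u) (Vw i1 i2) (yc.trans yb.symm)))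
    exact pos_iff_ne_zero.2 (mul_ne_zero pc pb)
  · rw [va, vb, vc]
    unfold lat stepVec
    simp [Pi.single_eq_of_ne h12, Pi.single_eq_of_ne h12.symm]

end Crest.Agent.R154.J132
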