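import Crest.Agent.R154.FP_178
import Crest.Agent.R154.B5First_181

/-! Row 154, ROAD 801 (helper235): the abstract assembly at JOINT cuts, part 1
(density of the displacement at a first passage). -/

set_option autoImplicit false

namespace Crest.Agent.R154.JC235

open scoped ENNReal
open Crest.Agent.R154.B5A
open Crest.Agent.R154.FP178 (fp fp_nil fp_cons fp_zero le_HT_of_fp split sum_FP fp_split overshoot)

variable {B W : Type*} (Λ : B → ℝ≥0∞) (ht : B → ℕ) (dl : B → W → W) (cd : W → B → Set ℕ)

lemma fp_of_HT_eq (h1 : ∀ b, 1 ≤ ht b) {a : ℕ} {L : List B} (h : HT ht L = a) : fp ht a L := by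
  induction L generalizing a with
  | nil => rw [HT_nil] at h; exact h.symm
  | cons b L ih =>
    rw [HT_cons] at h
    have := h1 b
    exact ⟨by omega, ih (by omega)⟩

lemma act_inj (hinj : ∀ b, Function.Injective (dl b)) (L : List B) :
    Function.Injective (act dl L) := by
  induction L with
  | nil => exact fun _ _ h => h
  | cons b L ih => exact fun w w' h => hinj b (ih h)

open Classical in
/-- law of the displacement at the first passage of depth `a` -/
noncomputable def F (a : ℕ) (w w' : W) : ℝ≥0∞ :=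
  ∑' L, if fp ht a L then LW Λ L * (if act dl L w = w' then 1 else 0) else 0

open Classical in
lemma F_mul (a : ℕ) (w : W) (g : W → ℝ≥0∞) :
    ∑' w', F Λ ht dl a w w' * g w' = ∑' L, if fp ht a L then LW Λ L * g (act dl L w) else 0 := by
  simp only [F, ← ENNReal.tsum_mul_right]
  rw [ENNReal.tsum_comm]
  refine tsum_congr fun L => ?_
  rw [tsum_eq_single (act dl L w)]
  · by_cases h : fp ht a L <;> simp [h]
  · intro w' hw'
    have hne : ¬ (act dl L w = w') := fun h => hw' h.symm
    by_cases h : fp ht a L <;> simp [h, hne]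

lemma F_sum (h1 : ∀ b, 1 ≤ ht b) (hΛ : ∑' b, Λ b ≤ 1) (a : ℕ) (w : W) :
    ∑' w', F Λ ht dl a w w' ≤ 1 := by
  classical
  have := F_mul Λ ht dl a w (fun _ => 1)
  simp only [mul_one] at this
  rw [this]
  exact sum_FP Λ ht h1 hΛ a

lemma F_sum' (h1 : ∀ b, 1 ≤ ht b) (hΛ : ∑' b, Λ b ≤ 1) (hinj : ∀ b, Function.Injective (dl b))
    (a : ℕ) (w' : W) : ∑' w, F Λ ht dl a w w' ≤ 1 := by
  classical
  simp only [F]
  rw [ENNReal.tsum_comm]
  refine le_trans (ENNReal.tsum_le_tsum fun L => ?_) (sum_FP Λ ht h1 hΛ a)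
  by_cases h : fp ht a L
  · simp only [h, if_true]
    rw [ENNReal.tsum_mul_left]
    have h2 : ∑' w, (if act dl L w = w' then (1 : ℝ≥0∞) else 0) ≤ 1 := by
      by_cases hex : ∃ w0, act dl L w0 = w'
      · obtain ⟨w0, hw0⟩ := hex
        rw [tsum_eq_single w0]
        · split_ifs <;> simp
        · intro w hw
          rw [if_neg]
          intro h3
          exact hw (act_inj dl hinj L (h3.trans hw0.symm))
      · push Not at hex
        simp [hex]
    calc LW Λ L * ∑' w, (if act dl L w = w' then (1 : ℝ≥0∞) else 0) ≤ LW Λ L * 1 :=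
          mul_le_mul_right h2 _
      _ = LW Λ L := mul_one _
  · simp [h]

open Classical in
theorem dens (h1 : ∀ b, 1 ≤ ht b) (hΛ : ∑' b, Λ b ≤ 1) (hinj : ∀ b, Function.Injective (dl b))
    (H i0 : ℕ) (low : Set (List B)) (hlow : ∀ L ∈ low, HT ht L = H) (θ q e : ℝ≥0∞)
    (hθ : ∀ w w', ∑' L, (if L ∈ low ∧ act dl L w = w' then LW Λ L else 0) ≤ θ)
    (hq : ∑' L, (if fp ht H L ∧ L ∉ low then LW Λ L else 0) ≤ q)
    (he : ∑' L, (if fp ht H L ∧ H + i0 < HT ht L then LW Λ L else 0) ≤ e)
    (N : ℕ) : ∀ a w, N * (H + i0) ≤ a →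
      ∑' w', (F Λ ht dl a w w' - N * θ) ≤ q ^ N + N * e := by
  induction N with
  | zero =>
    intro a w _
    simp only [Nat.cast_zero, zero_mul, tsub_zero, pow_zero, add_zero]
    exact F_sum Λ ht dl h1 hΛ a w
  | succ N ih =>
    intro a w ha
    have haH : H ≤ a := by nlinarith
    set T1 : W → ℝ≥0∞ := fun w' => ∑' A, (if fp ht H A ∧ H + i0 < HT ht A then LW Λ A else 0) *
      F Λ ht dl (a - HT ht A) (act dl A w) w' with hT1
    set T2 : W → ℝ≥0∞ := fun w' => ∑' A, (if fp ht H A ∧ A ∉ low ∧ HT ht A ≤ H + i0 then LW Λ A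
      else 0) * (F Λ ht dl (a - HT ht A) (act dl A w) w' - N * θ) with hT2
    have hF : ∀ w', F Λ ht dl a w w' = ∑' A, (if fp ht H A then LW Λ A *
        F Λ ht dl (a - HT ht A) (act dl A w) w' else 0) := by
      intro w'
      rw [F, fp_split Λ ht h1 H a haH (fun L => if act dl L w = w' then 1 else 0)]
      refine tsum_congr fun A => ?_
      simp only [act_append]
      rfl
    have hstep : ∀ w', F Λ ht dl a w w' - ((N + 1 : ℕ) : ℝ≥0∞) * θ ≤ T1 w' + T2 w' := by
      intro w'
      rw [tsub_le_iff_right, hF w']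
      have hL : ∑' A, (if A ∈ low then LW Λ A * F Λ ht dl (a - H) (act dl A w) w' else 0) ≤ θ := by
        calc ∑' A, (if A ∈ low then LW Λ A * F Λ ht dl (a - H) (act dl A w) w' else 0)
            = ∑' A, ∑' w'', (if A ∈ low ∧ act dl A w = w'' then LW Λ A else 0) *
                F Λ ht dl (a - H) w'' w' := by
              refine tsum_congr fun A => ?_
              rw [tsum_eq_single (act dl A w)]
              · by_cases h : A ∈ low <;> simp [h]
              · intro w'' hw''
                rw [if_neg (fun h => hw'' h.2.symm), zero_mul]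
          _ = ∑' w'', (∑' A, (if A ∈ low ∧ act dl A w = w'' then LW Λ A else 0)) *
                F Λ ht dl (a - H) w'' w' := by
              rw [ENNReal.tsum_comm]
              exact tsum_congr fun w'' => ENNReal.tsum_mul_right
          _ ≤ ∑' w'', θ * F Λ ht dl (a - H) w'' w' :=
              ENNReal.tsum_le_tsum fun w'' => mul_le_mul_left (hθ w w'') _
          _ = θ * ∑' w'', F Λ ht dl (a - H) w'' w' := ENNReal.tsum_mul_left
          _ ≤ θ * 1 := mul_le_mul_right (F_sum' Λ ht dl h1 hΛ hinj _ _) _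
          _ = θ := mul_one _
      have hN : ∑' A, (if fp ht H A ∧ A ∉ low ∧ HT ht A ≤ H + i0 then LW Λ A else 0) * (N * θ)
          ≤ N * θ := by
        rw [ENNReal.tsum_mul_right]
        calc _ ≤ 1 * (N * θ) := by
              refine mul_le_mul_left (le_trans (ENNReal.tsum_le_tsum fun A => ?_)
                (sum_FP Λ ht h1 hΛ H)) _
              by_cases h : fp ht H A
              · simp only [h, true_and, if_true]; split_ifs <;> simp
              · simp [h]
          _ = _ := one_mul _
      calc ∑' A, (if fp ht H A then LW Λ A * F Λ ht dl (a - HT ht A) (act dl A w) w' else 0)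
          ≤ ∑' A, ((if fp ht H A ∧ H + i0 < HT ht A then LW Λ A else 0) *
              F Λ ht dl (a - HT ht A) (act dl A w) w'
            + (if fp ht H A ∧ A ∉ low ∧ HT ht A ≤ H + i0 then LW Λ A
              else 0) * (F Λ ht dl (a - HT ht A) (act dl A w) w' - N * θ)
            + ((if fp ht H A ∧ A ∉ low ∧ HT ht A ≤ H + i0 then LW Λ A else 0) * (N * θ)
            + (if A ∈ low then LW Λ A * F Λ ht dl (a - H) (act dl A w) w' else 0))) := by
            refine ENNReal.tsum_le_tsum fun A => ?_
            by_cases hfp : fp ht H A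
            · by_cases hb : H + i0 < HT ht A
              · rw [if_pos hfp, if_pos ⟨hfp, hb⟩, add_assoc]
                exact le_self_add
              · by_cases hl : A ∈ low
                · have hA := hlow A hl
                  rw [if_pos hfp, if_pos hl, ← hA]
                  exact le_add_left (le_add_left le_rfl)
                · have hT : fp ht H A ∧ A ∉ low ∧ HT ht A ≤ H + i0 := ⟨hfp, hl, not_lt.1 hb⟩
                  rw [if_pos hfp, if_pos hT]
                  refine le_trans ?_ (add_le_add (le_add_left le_rfl) le_self_add)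
                  rw [← mul_add]
                  exact mul_le_mul_right le_tsub_add _
            · rw [if_neg hfp]; exact zero_le
        _ = T1 w' + T2 w' + (∑' A, (if fp ht H A ∧ A ∉ low ∧ HT ht A ≤ H + i0 then LW Λ A else 0) *
              (N * θ) + ∑' A, (if A ∈ low then LW Λ A * F Λ ht dl (a - H) (act dl A w) w' else 0)) := by
            rw [ENNReal.tsum_add, ENNReal.tsum_add, ENNReal.tsum_add]
        _ ≤ T1 w' + T2 w' + (N * θ + θ) := add_le_add le_rfl (add_le_add hN hL)
        _ = _ := by push_cast; ring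
    have hS1 : ∑' w', T1 w' ≤ e := by
      rw [hT1, ENNReal.tsum_comm]
      refine le_trans (ENNReal.tsum_le_tsum fun A => ?_) he
      rw [ENNReal.tsum_mul_left]
      calc _ ≤ (if fp ht H A ∧ H + i0 < HT ht A then LW Λ A else 0) * 1 :=
            mul_le_mul_right (F_sum Λ ht dl h1 hΛ _ _) _
        _ = _ := mul_one _
    have hS2 : ∑' w', T2 w' ≤ q ^ (N + 1) + N * e := by
      rw [hT2, ENNReal.tsum_comm]
      have hle1 : ∑' A, (if fp ht H A ∧ A ∉ low ∧ HT ht A ≤ H + i0 then LW Λ A else 0) ≤ q :=
        le_trans (ENNReal.tsum_le_tsum fun A => by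
          by_cases h : fp ht H A ∧ A ∉ low ∧ HT ht A ≤ H + i0
          · rw [if_pos h, if_pos ⟨h.1, h.2.1⟩]
          · rw [if_neg h]; exact zero_le) hq
      have hle2 : ∑' A, (if fp ht H A ∧ A ∉ low ∧ HT ht A ≤ H + i0 then LW Λ A else 0) ≤ 1 :=
        le_trans (ENNReal.tsum_le_tsum fun A => by
          by_cases h : fp ht H A ∧ A ∉ low ∧ HT ht A ≤ H + i0
          · rw [if_pos h, if_pos h.1]
          · rw [if_neg h]; exact zero_le) (sum_FP Λ ht h1 hΛ H)
      calc ∑' A, ∑' w', (if fp ht H A ∧ A ∉ low ∧ HT ht A ≤ H + i0 then LW Λ A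
              else 0) * (F Λ ht dl (a - HT ht A) (act dl A w) w' - N * θ)
          ≤ ∑' A, (if fp ht H A ∧ A ∉ low ∧ HT ht A ≤ H + i0 then LW Λ A
              else 0) * (q ^ N + N * e) := by
            refine ENNReal.tsum_le_tsum fun A => ?_
            rw [ENNReal.tsum_mul_left]
            by_cases h : fp ht H A ∧ A ∉ low ∧ HT ht A ≤ H + i0
            · refine mul_le_mul_right (ih _ _ ?_) _
              have : (N + 1) * (H + i0) = N * (H + i0) + (H + i0) := by ring
              omega
            · rw [if_neg h, zero_mul, zero_mul]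
        _ = (∑' A, (if fp ht H A ∧ A ∉ low ∧ HT ht A ≤ H + i0 then LW Λ A else 0)) * q ^ N
            + (∑' A, (if fp ht H A ∧ A ∉ low ∧ HT ht A ≤ H + i0 then LW Λ A else 0)) * (N * e) := by
            rw [ENNReal.tsum_mul_right, mul_add]
        _ ≤ q * q ^ N + 1 * (N * e) := add_le_add (mul_le_mul_left hle1 _) (mul_le_mul_left hle2 _)
        _ = _ := by ring
    calc ∑' w', (F Λ ht dl a w w' - ((N + 1 : ℕ) : ℝ≥0∞) * θ) ≤ ∑' w', (T1 w' + T2 w') :=
          ENNReal.tsum_le_tsum hstep
      _ = ∑' w', T1 w' + ∑' w', T2 w' := ENNReal.tsum_add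
      _ ≤ e + (q ^ (N + 1) + N * e) := add_le_add hS1 hS2
      _ = _ := by push_cast; ring

end Crest.Agent.R154.JC235
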