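import Crest.Agent.R154.JC1_235

/-! Row 154, ROAD 801 (helper235): the abstract assembly at JOINT cuts, part 2
(one window of first contacts; statement of the input `Piece`). -/

set_option autoImplicit false

namespace Crest.Agent.R154.JC235

open scoped ENNReal
open Crest.Agent.R154.B5A
open Crest.Agent.R154.FP178 (fp fp_nil fp_cons fp_zero le_HT_of_fp split sum_FP fp_split overshoot)

variable {B W : Type*} (Λ : B → ℝ≥0∞) (ht : B → ℕ) (dl : B → W → W) (cd : W → B → Set ℕ)

open Classical in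
/-- **Input of the assembly**: splitting of the lists of exact height `H` (joint cuts) into
non-local / `X`-local / `Y`-local ones.  `low` = displacements of small probability. -/
def Piece (c C : ℝ≥0∞) (us : ℕ → ℝ≥0∞) (u : ℝ≥0∞) (H : ℕ) : Prop :=
  ∃ (NL : Set (List B)) (loc low : Bool → Set (List B)) (θ : Bool → ℝ≥0∞),
    (∀ L, HT ht L = H → L ∈ NL ∨ L ∈ loc true ∨ L ∈ loc false) ∧
    (∑' L, (if HT ht L = H ∧ L ∈ NL then LW Λ L else 0) ≤ C * u ^ 2) ∧
    ∀ i, θ i ≠ 0 ∧ θ i ≠ ⊤ ∧ (∀ L ∈ low i, HT ht L = H) ∧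
      (c * u ≤ ∑' L, (if L ∈ low i then LW Λ L else 0)) ∧
      (∀ w w', ∑' L, (if L ∈ low i ∧ act dl L w = w' then LW Λ L else 0) ≤ θ i) ∧
      ∀ (s : ℕ) (μ : W → ℝ≥0∞) (M lam : ℝ≥0∞), ∑' w, μ w ≤ 1 → (∀ w, μ w ≤ M) →
        lam ≠ 0 → lam ≠ ⊤ →
        ∑' w, μ w * ∑' L, (if HT ht L = H ∧ L ∈ loc i ∧ CD ht dl cd L w ≠ ∅ ∧
          (∀ k ∈ CD ht dl cd L w, s < k ∧ k + s ≤ H) then LW Λ L else 0)
          ≤ C * (lam + M / θ i * us s / lam + us s)

open Classical in
/-- lists of exact height `H` with a contact, all contacts at depth `> s` -/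
noncomputable def Q (H s : ℕ) (w : W) : ℝ≥0∞ :=
  ∑' L, if HT ht L = H ∧ CD ht dl cd L w ≠ ∅ ∧ (∀ k ∈ CD ht dl cd L w, s < k) then LW Λ L else 0

open Classical in
/-- lists of height `n` with first contact in `(lo, hi]` -/
noncomputable def Wn (n lo hi : ℕ) (w : W) : ℝ≥0∞ :=
  ∑' L, if HT ht L = n ∧ (∀ k ∈ CD ht dl cd L w, lo < k) ∧ (∃ k ∈ CD ht dl cd L w, k ≤ hi)
    then LW Λ L else 0

open Classical in
lemma piece_le (h1 : ∀ b, 1 ≤ ht b) (hcd : ∀ w b k, k ∈ cd w b → 1 ≤ k ∧ k ≤ ht b)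
    (c : ℝ≥0∞) (hc : c ≠ 0) (hct : c ≠ ⊤) (hU : ∀ n, c ≤ U Λ ht n) (D i0 s : ℕ) (hD : s ≤ D)
    (w : W) :
    ∑' P, (if fp ht D P ∧ HT ht P ≤ D + i0 ∧ CD ht dl cd P w ≠ ∅ ∧
        (∀ k ∈ CD ht dl cd P w, s < k) then LW Λ P else 0)
      ≤ c⁻¹ * Q Λ ht dl cd (D + i0 + s) s w := by
  set H := D + i0 + s with hH
  set f : List B → ℝ≥0∞ := fun L => if HT ht L = H ∧ CD ht dl cd L w ≠ ∅ ∧
    (∀ k ∈ CD ht dl cd L w, s < k) then 1 else 0 with hf
  have hstep : ∀ P, (if fp ht D P ∧ HT ht P ≤ D + i0 ∧ CD ht dl cd P w ≠ ∅ ∧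
        (∀ k ∈ CD ht dl cd P w, s < k) then LW Λ P else 0)
      ≤ c⁻¹ * (if fp ht D P then LW Λ P * ∑' L3, LW Λ L3 * f (P ++ L3) else 0) := by
    intro P
    by_cases h : fp ht D P ∧ HT ht P ≤ D + i0 ∧ CD ht dl cd P w ≠ ∅ ∧
        (∀ k ∈ CD ht dl cd P w, s < k)
    · rw [if_pos h, if_pos h.1]
      obtain ⟨hfp, hP, hne, hall⟩ := h
      have hDP := le_HT_of_fp ht hfp
      have h2 : c ≤ ∑' L3, LW Λ L3 * f (P ++ L3) := by
        refine (hU (H - HT ht P)).trans (ENNReal.tsum_le_tsum fun L3 => ?_)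
        by_cases h3 : HT ht L3 = H - HT ht P
        · rw [if_pos h3]
          have h4 : f (P ++ L3) = 1 := by
            rw [hf]
            refine if_pos ⟨by rw [HT_append]; omega, ?_, ?_⟩
            · rw [CD_append]
              obtain ⟨k, hk⟩ := Set.nonempty_iff_ne_empty.2 hne
              exact Set.nonempty_iff_ne_empty.1 ⟨k, Or.inl hk⟩
            · intro k hk
              rw [CD_append] at hk
              rcases hk with hk | ⟨k', hk', rfl⟩
              · exact hall k hk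
              · have := CD_pos ht dl cd hcd L3 _ _ hk'
                simp only
                omega
          rw [h4, mul_one]
        · rw [if_neg h3]; exact zero_le
      calc LW Λ P = c⁻¹ * (LW Λ P * c) := by
            rw [mul_comm (LW Λ P) c, ← mul_assoc, ENNReal.inv_mul_cancel hc hct, one_mul]
        _ ≤ _ := mul_le_mul_right (mul_le_mul_right h2 _) _
    · rw [if_neg h]; exact zero_le
  calc _ ≤ ∑' P, c⁻¹ * (if fp ht D P then LW Λ P * ∑' L3, LW Λ L3 * f (P ++ L3) else 0) :=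
        ENNReal.tsum_le_tsum hstep
    _ = c⁻¹ * ∑' L, (if D ≤ HT ht L then LW Λ L * f L else 0) := by
        rw [ENNReal.tsum_mul_left, split Λ ht h1 D f]
    _ ≤ c⁻¹ * Q Λ ht dl cd H s w := by
        refine mul_le_mul_right (ENNReal.tsum_le_tsum fun L => ?_) _
        by_cases h : HT ht L = H ∧ CD ht dl cd L w ≠ ∅ ∧ (∀ k ∈ CD ht dl cd L w, s < k)
        · rw [if_pos h]
          split_ifs
          · rw [hf]; simp only [if_pos h, mul_one]; exact le_rfl
          · exact zero_le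
        · rw [if_neg h]
          have : f L = 0 := if_neg h
          rw [this, mul_zero, ite_self]

open Classical in
theorem window (h1 : ∀ b, 1 ≤ ht b) (hcd : ∀ w b k, k ∈ cd w b → 1 ≤ k ∧ k ≤ ht b)
    (hΛ : ∑' b, Λ b ≤ 1)
    (c : ℝ≥0∞) (hc : c ≠ 0) (hct : c ≠ ⊤) (hU : ∀ n, c ≤ U Λ ht n) (hU1 : ∀ n, U Λ ht n ≤ 1)
    (a D i0 s n : ℕ) (hD : s ≤ D) (hn : a + i0 + D ≤ n) (e : ℝ≥0∞)
    (he : ∀ a, ∑' L, (if fp ht a L ∧ a + i0 < HT ht L then LW Λ L else 0) ≤ e) (w : W) :
    Wn Λ ht dl cd n (a + i0 + s) (a + D) w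
      ≤ 2 * e + c⁻¹ * ∑' w', F Λ ht dl a w w' * Q Λ ht dl cd (D + i0 + s) s w' := by
  -- a bound for the remainder
  have hrem : ∀ (n : ℕ) (P : List B) (g : List B → ℝ≥0∞), (∀ L, g L ≤ if HT ht L = n then 1 else 0) →
      ∑' L3, LW Λ L3 * g (P ++ L3) ≤ 1 := by
    intro n P g hg
    refine le_trans (ENNReal.tsum_le_tsum fun L3 => ?_) (hU1 (n - HT ht P))
    refine le_trans (mul_le_mul_right (hg _) _) ?_
    rw [HT_append]
    by_cases h : HT ht P + HT ht L3 = n
    · rw [if_pos h, if_pos (by omega), mul_one]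
    · rw [if_neg h, mul_zero]; exact zero_le
  set g : List B → ℝ≥0∞ := fun L => if HT ht L = n ∧ (∀ k ∈ CD ht dl cd L w, a + i0 + s < k) ∧
    (∃ k ∈ CD ht dl cd L w, k ≤ a + D) then 1 else 0 with hg
  have hgle : ∀ L, g L ≤ if HT ht L = n then 1 else 0 := by
    intro L
    simp only [hg]
    by_cases h : HT ht L = n
    · rw [if_pos h]; split_ifs <;> simp
    · rw [if_neg h, if_neg (fun h' => h h'.1)]
  have hW : Wn Λ ht dl cd n (a + i0 + s) (a + D) w
      = ∑' L1, (if fp ht a L1 then LW Λ L1 * ∑' L2, LW Λ L2 * g (L1 ++ L2) else 0) := by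
    rw [← split Λ ht h1 a g, Wn]
    refine tsum_congr fun L => ?_
    simp only [hg]
    by_cases h : HT ht L = n ∧ (∀ k ∈ CD ht dl cd L w, a + i0 + s < k) ∧
      (∃ k ∈ CD ht dl cd L w, k ≤ a + D)
    · rw [if_pos h, if_pos h, if_pos (by omega), mul_one]
    · rw [if_neg h, if_neg h, mul_zero, ite_self]
  have hclaim : ∀ L1, fp ht a L1 → HT ht L1 ≤ a + i0 →
      ∑' L2, LW Λ L2 * g (L1 ++ L2) ≤ e + c⁻¹ * Q Λ ht dl cd (D + i0 + s) s (act dl L1 w) := by
    intro L1 hfp hL1
    have haL := le_HT_of_fp ht hfp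
    set w' := act dl L1 w with hw'
    set n' := n - HT ht L1 with hn'
    set g2 : List B → ℝ≥0∞ := fun L => if HT ht L = n' ∧ (∀ k ∈ CD ht dl cd L w', s < k) ∧
      (∃ k ∈ CD ht dl cd L w', k ≤ D) then 1 else 0 with hg2
    have hgg : ∀ L2, g (L1 ++ L2) ≤ g2 L2 := by
      intro L2
      simp only [hg]
      split_ifs with h
      · obtain ⟨e1, e2, k, hk, hk2⟩ := h
        rw [CD_append] at e2 hk
        rw [HT_append] at e1
        refine le_of_eq (Eq.symm ?_)
        refine if_pos ⟨by omega, ?_, ?_⟩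
        · intro k' hk'
          have := e2 (HT ht L1 + k') (Or.inr ⟨k', hk', rfl⟩)
          omega
        · have hkk := e2 k hk
          rcases hk with hk | ⟨k', hk', rfl⟩
          · have := CD_pos ht dl cd hcd L1 _ _ hk
            omega
          · simp only at hk2
            exact ⟨k', hk', by omega⟩
      · exact zero_le
    have hg2le : ∀ L, g2 L ≤ if HT ht L = n' then 1 else 0 := by
      intro L
      simp only [hg2]
      by_cases h : HT ht L = n'
      · rw [if_pos h]; split_ifs <;> simp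
      · rw [if_neg h, if_neg (fun h' => h h'.1)]
    calc ∑' L2, LW Λ L2 * g (L1 ++ L2) ≤ ∑' L2, LW Λ L2 * g2 L2 :=
          ENNReal.tsum_le_tsum fun L2 => mul_le_mul_right (hgg L2) _
      _ ≤ ∑' L2, (if D ≤ HT ht L2 then LW Λ L2 * g2 L2 else 0) := by
          refine ENNReal.tsum_le_tsum fun L2 => ?_
          by_cases h : D ≤ HT ht L2
          · rw [if_pos h]
          · rw [if_neg h]
            refine le_of_eq ?_
            have : g2 L2 = 0 := if_neg (fun h' => h (by rw [h'.1]; omega))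
            rw [this, mul_zero]
      _ = ∑' P, (if fp ht D P then LW Λ P * ∑' L3, LW Λ L3 * g2 (P ++ L3) else 0) :=
          split Λ ht h1 D g2
      _ ≤ ∑' P, ((if fp ht D P ∧ D + i0 < HT ht P then LW Λ P else 0)
            + (if fp ht D P ∧ HT ht P ≤ D + i0 ∧ CD ht dl cd P w' ≠ ∅ ∧
              (∀ k ∈ CD ht dl cd P w', s < k) then LW Λ P else 0)) := by
          refine ENNReal.tsum_le_tsum fun P => ?_
          by_cases hP : fp ht D P
          · rw [if_pos hP]
            have hDP := le_HT_of_fp ht hP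
            by_cases ho : D + i0 < HT ht P
            · rw [if_pos ⟨hP, ho⟩]
              refine le_add_right ?_
              calc _ ≤ LW Λ P * 1 := mul_le_mul_right (hrem n' P g2 hg2le) _
                _ = _ := mul_one _
            · refine le_add_left ?_
              by_cases hE : CD ht dl cd P w' ≠ ∅ ∧ (∀ k ∈ CD ht dl cd P w', s < k)
              · rw [if_pos ⟨hP, not_lt.1 ho, hE⟩]
                calc _ ≤ LW Λ P * 1 := mul_le_mul_right (hrem n' P g2 hg2le) _
                  _ = _ := mul_one _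
              · have h0 : ∀ L3, g2 (P ++ L3) = 0 := by
                  intro L3
                  refine if_neg ?_
                  rintro ⟨-, e2, k, hk, hk2⟩
                  rw [CD_append] at e2 hk
                  apply hE
                  refine ⟨?_, fun k hk => e2 k (Or.inl hk)⟩
                  rcases hk with hk | ⟨k', hk', rfl⟩
                  · exact Set.nonempty_iff_ne_empty.1 ⟨k, hk⟩
                  · have := CD_pos ht dl cd hcd L3 _ _ hk'
                    simp only at hk2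
                    omega
                simp [h0]
          · rw [if_neg hP]; exact zero_le
      _ ≤ e + c⁻¹ * Q Λ ht dl cd (D + i0 + s) s w' := by
          rw [ENNReal.tsum_add]
          exact add_le_add (he D) (piece_le Λ ht dl cd h1 hcd c hc hct hU D i0 s hD w')
  rw [hW]
  calc ∑' L1, (if fp ht a L1 then LW Λ L1 * ∑' L2, LW Λ L2 * g (L1 ++ L2) else 0)
      ≤ ∑' L1, ((if fp ht a L1 ∧ a + i0 < HT ht L1 then LW Λ L1 else 0)
          + ((if fp ht a L1 then LW Λ L1 else 0) * e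
          + (if fp ht a L1 then LW Λ L1 *
            (c⁻¹ * Q Λ ht dl cd (D + i0 + s) s (act dl L1 w)) else 0))) := by
        refine ENNReal.tsum_le_tsum fun L1 => ?_
        by_cases hP : fp ht a L1
        · rw [if_pos hP, if_pos hP, if_pos hP]
          by_cases ho : a + i0 < HT ht L1
          · rw [if_pos ⟨hP, ho⟩]
            refine le_add_right ?_
            calc _ ≤ LW Λ L1 * 1 := mul_le_mul_right (hrem n L1 g hgle) _
              _ = _ := mul_one _
          · refine le_add_left ?_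
            rw [← mul_add]
            exact mul_le_mul_right (hclaim L1 hP (not_lt.1 ho)) _
        · rw [if_neg hP]; exact zero_le
    _ = ∑' L1, (if fp ht a L1 ∧ a + i0 < HT ht L1 then LW Λ L1 else 0)
          + ((∑' L1, (if fp ht a L1 then LW Λ L1 else 0)) * e
          + ∑' w', F Λ ht dl a w w' * (c⁻¹ * Q Λ ht dl cd (D + i0 + s) s w')) := by
        rw [ENNReal.tsum_add, ENNReal.tsum_add, ENNReal.tsum_mul_right,
          F_mul Λ ht dl a w (fun w' => c⁻¹ * Q Λ ht dl cd (D + i0 + s) s w')]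
    _ ≤ e + (1 * e + c⁻¹ * ∑' w', F Λ ht dl a w w' * Q Λ ht dl cd (D + i0 + s) s w') := by
        refine add_le_add (he a) (add_le_add (mul_le_mul_left (sum_FP Λ ht h1 hΛ a) _) ?_)
        rw [← ENNReal.tsum_mul_left]
        refine le_of_eq (tsum_congr fun w' => by ring)
    _ = _ := by ring

end Crest.Agent.R154.JC235
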