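import Crest.Agent.R154.JC2_235
import Crest.Agent.R154.NumK_658

/-! Row 154, ROAD 801 (helper235): the abstract assembly at JOINT cuts, part 3
(sum over the windows, order of the constants). -/

set_option autoImplicit false

namespace Crest.Agent.R154.JC235

open scoped ENNReal Topology
open Filter
open Crest.Agent.R154.B5A
open Crest.Agent.R154.FP178 (fp fp_nil fp_cons fp_zero le_HT_of_fp split sum_FP fp_split overshoot)

variable {B W : Type*} (Λ : B → ℝ≥0∞) (ht : B → ℕ) (dl : B → W → W) (cd : W → B → Set ℕ)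

open Classical in
theorem Qsum (h1 : ∀ b, 1 ≤ ht b) (hcd : ∀ w b k, k ∈ cd w b → 1 ≤ k ∧ k ≤ ht b)
    (hΛ : ∑' b, Λ b ≤ 1) (hinj : ∀ b, Function.Injective (dl b)) (hU1 : ∀ n, U Λ ht n ≤ 1)
    (c C : ℝ≥0∞) (us : ℕ → ℝ≥0∞) (u : ℝ≥0∞) (H : ℕ) (hP : Piece Λ ht dl cd c C us u H)
    (i0 s N a : ℕ) (e η lam : ℝ≥0∞)
    (he : ∀ a, ∑' L, (if fp ht a L ∧ a + i0 < HT ht L then LW Λ L else 0) ≤ e)
    (ha : N * (H + i0) ≤ a) (hs : s ≤ H)
    (hbot : ∀ w k, H - s < k → k ≤ H →
      ∑' L, (if HT ht L = H ∧ k ∈ CD ht dl cd L w then LW Λ L else 0) ≤ η)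
    (hl0 : lam ≠ 0) (hlt : lam ≠ ⊤) (w : W) :
    ∑' w', F Λ ht dl a w w' * Q Λ ht dl cd H s w'
      ≤ (s * η + C * u ^ 2) + 2 * (((1 - c * u) ^ N + N * e) + C * (lam + N * us s / lam + us s)) := by
  obtain ⟨NL, loc, low, θ, hcov, hNL, hP⟩ := hP
  set Bi : Bool → W → ℝ≥0∞ := fun i w => ∑' L, (if HT ht L = H ∧ L ∈ loc i ∧
    CD ht dl cd L w ≠ ∅ ∧ (∀ k ∈ CD ht dl cd L w, s < k ∧ k + s ≤ H) then LW Λ L else 0) with hBi
  have hBi1 : ∀ i w, Bi i w ≤ 1 := by
    intro i w
    refine le_trans (ENNReal.tsum_le_tsum fun L => ?_) (hU1 H)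
    split_ifs with h h' h'
    · exact le_rfl
    · exact absurd h.1 h'
    · exact zero_le
    · exact le_rfl
  have hQ : ∀ w', Q Λ ht dl cd H s w' ≤ (s * η + C * u ^ 2) + (Bi true w' + Bi false w') := by
    intro w'
    have hbb : ∑ k ∈ Finset.Ioc (H - s) H,
        ∑' L, (if HT ht L = H ∧ k ∈ CD ht dl cd L w' then LW Λ L else 0) ≤ s * η := by
      calc _ ≤ ∑ _k ∈ Finset.Ioc (H - s) H, η :=
            Finset.sum_le_sum fun k hk => hbot w' k (Finset.mem_Ioc.1 hk).1 (Finset.mem_Ioc.1 hk).2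
        _ = s * η := by
            rw [Finset.sum_const, Nat.card_Ioc, nsmul_eq_mul, show H - (H - s) = s by omega]
    calc Q Λ ht dl cd H s w' ≤ ∑' L, ((∑ k ∈ Finset.Ioc (H - s) H,
          (if HT ht L = H ∧ k ∈ CD ht dl cd L w' then LW Λ L else 0))
          + (if HT ht L = H ∧ L ∈ NL then LW Λ L else 0)
          + ((if HT ht L = H ∧ L ∈ loc true ∧
    CD ht dl cd L w' ≠ ∅ ∧ (∀ k ∈ CD ht dl cd L w', s < k ∧ k + s ≤ H) then LW Λ L else 0)
          + (if HT ht L = H ∧ L ∈ loc false ∧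
    CD ht dl cd L w' ≠ ∅ ∧ (∀ k ∈ CD ht dl cd L w', s < k ∧ k + s ≤ H) then LW Λ L else 0))) := by
          refine ENNReal.tsum_le_tsum fun L => ?_
          by_cases h : HT ht L = H ∧ CD ht dl cd L w' ≠ ∅ ∧ (∀ k ∈ CD ht dl cd L w', s < k)
          · rw [if_pos h]
            obtain ⟨hH, hne, hall⟩ := h
            by_cases hb : ∃ k ∈ CD ht dl cd L w', H < k + s
            · obtain ⟨k, hk, hks⟩ := hb
              have hkH := CD_pos ht dl cd hcd L _ _ hk
              refine le_add_right (le_add_right ?_)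
              refine le_trans ?_ (Finset.single_le_sum (f := fun k =>
                (if HT ht L = H ∧ k ∈ CD ht dl cd L w' then LW Λ L else 0))
                (fun _ _ => zero_le) (Finset.mem_Ioc.2 ⟨(by omega : H - s < k), by omega⟩))
              rw [if_pos ⟨hH, hk⟩]
            · push Not at hb
              have hall' : ∀ k ∈ CD ht dl cd L w', s < k ∧ k + s ≤ H :=
                fun k hk => ⟨hall k hk, hb k hk⟩
              rcases hcov L hH with h | h | h
              · refine le_add_right (le_add_left ?_)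
                rw [if_pos ⟨hH, h⟩]
              · refine le_add_left (le_add_right ?_)
                rw [if_pos ⟨hH, h, hne, hall'⟩]
              · refine le_add_left (le_add_left ?_)
                rw [if_pos ⟨hH, h, hne, hall'⟩]
          · rw [if_neg h]; exact zero_le
      _ = ((∑ k ∈ Finset.Ioc (H - s) H,
          ∑' L, (if HT ht L = H ∧ k ∈ CD ht dl cd L w' then LW Λ L else 0))
          + ∑' L, (if HT ht L = H ∧ L ∈ NL then LW Λ L else 0)) + (Bi true w' + Bi false w') := by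
          rw [ENNReal.tsum_add, ENNReal.tsum_add, ENNReal.tsum_add,
            Summable.tsum_finsetSum (fun _ _ => ENNReal.summable)]
      _ ≤ _ := add_le_add (add_le_add hbb hNL) le_rfl
  have hF1 := F_sum Λ ht dl h1 hΛ a w
  have hloc : ∀ i, ∑' w', F Λ ht dl a w w' * Bi i w'
      ≤ ((1 - c * u) ^ N + N * e) + C * (lam + N * us s / lam + us s) := by
    intro i
    obtain ⟨hθ0, hθt, hlow, hmass, hsup, hbd⟩ := hP i
    have hlow1 : ∑' L, (if L ∈ low i then LW Λ L else 0) ≤ 1 := by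
      refine le_trans (ENNReal.tsum_le_tsum fun L => ?_) (hU1 H)
      split_ifs with h h' h'
      · exact le_rfl
      · exact absurd (hlow L h) h'
      · exact zero_le
      · exact le_rfl
    have hcu : c * u ≠ ⊤ := ne_top_of_le_ne_top ENNReal.one_ne_top (hmass.trans hlow1)
    have hq : ∑' L, (if fp ht H L ∧ L ∉ low i then LW Λ L else 0) ≤ 1 - c * u := by
      refine ENNReal.le_sub_of_add_le_right hcu ?_
      calc _ ≤ ∑' L, (if fp ht H L ∧ L ∉ low i then LW Λ L else 0)
            + ∑' L, (if L ∈ low i then LW Λ L else 0) := add_le_add le_rfl hmass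
        _ = ∑' L, ((if fp ht H L ∧ L ∉ low i then LW Λ L else 0)
            + (if L ∈ low i then LW Λ L else 0)) := ENNReal.tsum_add.symm
        _ ≤ ∑' L, (if fp ht H L then LW Λ L else 0) := by
            refine ENNReal.tsum_le_tsum fun L => ?_
            by_cases hl : L ∈ low i
            · have := fp_of_HT_eq ht h1 (hlow L hl)
              simp [hl, this]
            · simp [hl]
        _ ≤ 1 := sum_FP Λ ht h1 hΛ H
    have hdens := dens Λ ht dl h1 hΛ hinj H i0 (low i) hlow (θ i) (1 - c * u) e hsup hq (he H) N a w ha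
    have hmin := hbd s (fun w' => min (F Λ ht dl a w w') (N * θ i)) (N * θ i) lam
      (le_trans (ENNReal.tsum_le_tsum fun w' => min_le_left _ _) hF1) (fun w' => min_le_right _ _)
      hl0 hlt
    rw [ENNReal.mul_div_cancel_right hθ0 hθt] at hmin
    calc ∑' w', F Λ ht dl a w w' * Bi i w'
        ≤ ∑' w', ((F Λ ht dl a w w' - N * θ i) + min (F Λ ht dl a w w') (N * θ i) * Bi i w') := by
          refine ENNReal.tsum_le_tsum fun w' => ?_
          calc F Λ ht dl a w w' * Bi i w'
              = ((F Λ ht dl a w w' - N * θ i) + min (F Λ ht dl a w w') (N * θ i)) * Bi i w' := by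
                rw [tsub_add_min]
            _ = (F Λ ht dl a w w' - N * θ i) * Bi i w'
                + min (F Λ ht dl a w w') (N * θ i) * Bi i w' := add_mul _ _ _
            _ ≤ (F Λ ht dl a w w' - N * θ i) * 1
                + min (F Λ ht dl a w w') (N * θ i) * Bi i w' :=
                add_le_add (mul_le_mul_right (hBi1 i w') _) le_rfl
            _ = _ := by rw [mul_one]
      _ = ∑' w', (F Λ ht dl a w w' - N * θ i)
            + ∑' w', min (F Λ ht dl a w w') (N * θ i) * Bi i w' := ENNReal.tsum_add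
      _ ≤ _ := add_le_add hdens hmin
  calc ∑' w', F Λ ht dl a w w' * Q Λ ht dl cd H s w'
      ≤ ∑' w', (F Λ ht dl a w w' * (s * η + C * u ^ 2) + (F Λ ht dl a w w' * Bi true w'
        + F Λ ht dl a w w' * Bi false w')) := by
        refine ENNReal.tsum_le_tsum fun w' => ?_
        rw [← mul_add, ← mul_add]
        exact mul_le_mul_right (hQ w') _
    _ = (∑' w', F Λ ht dl a w w') * (s * η + C * u ^ 2) + (∑' w', F Λ ht dl a w w' * Bi true w'
        + ∑' w', F Λ ht dl a w w' * Bi false w') := by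
        rw [ENNReal.tsum_add, ENNReal.tsum_add, ENNReal.tsum_mul_right]
    _ ≤ 1 * (s * η + C * u ^ 2) + ((((1 - c * u) ^ N + N * e) + C * (lam + N * us s / lam + us s))
        + (((1 - c * u) ^ N + N * e) + C * (lam + N * us s / lam + us s))) :=
        add_le_add (mul_le_mul_left hF1 _) (add_le_add (hloc true) (hloc false))
    _ = _ := by ring

/-- small multiple -/
lemma small (A ε : ℝ≥0∞) (hA : A ≠ ⊤) (hε : ε ≠ 0) : ∃ δ : ℝ≥0∞, δ ≠ 0 ∧ δ ≤ 1 ∧ A * δ ≤ ε := by
  refine ⟨min 1 (ε / (A + 1)), ?_, min_le_left _ _, ?_⟩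
  · have : ε / (A + 1) ≠ 0 := by
      rw [Ne, ENNReal.div_eq_zero_iff, not_or]
      exact ⟨hε, by finiteness⟩
    exact (lt_min (by norm_num) (pos_iff_ne_zero.2 this)).ne'
  · calc A * min 1 (ε / (A + 1)) ≤ (A + 1) * (ε / (A + 1)) :=
          mul_le_mul' le_self_add (min_le_right _ _)
      _ ≤ ε := ENNReal.mul_div_le

open Classical in
lemma Kap1_le (n m K t : ℕ) (hK : m ≤ K * t) (ht0 : 0 < t) (w : W) :
    Kap1 Λ ht dl cd n m w ≤ ∑ j ∈ Finset.range K, Wn Λ ht dl cd n (m + j * t) (m + (j + 1) * t) w := by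
  simp only [Kap1, Wn]
  rw [← Summable.tsum_finsetSum (fun _ _ => ENNReal.summable)]
  refine ENNReal.tsum_le_tsum fun L => ?_
  by_cases h : HT ht L = n ∧ (∀ k ∈ CD ht dl cd L w, m < k) ∧ ∃ k ∈ CD ht dl cd L w, k ≤ 2 * m
  · rw [if_pos h]
    obtain ⟨hn, hall, k, hk, hk2⟩ := h
    have hne : (CD ht dl cd L w).Nonempty := ⟨k, hk⟩
    set k0 := sInf (CD ht dl cd L w) with hk0
    have hk0m : k0 ∈ CD ht dl cd L w := Nat.sInf_mem hne
    have hmin : ∀ k ∈ CD ht dl cd L w, k0 ≤ k := fun k hk => Nat.sInf_le hk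
    have h3 := hall k0 hk0m
    have h4 := hmin k hk
    set j := (k0 - m - 1) / t with hj
    have hj1 : j * t ≤ k0 - m - 1 := Nat.div_mul_le_self _ _
    have hj2 : k0 - m - 1 < (j + 1) * t := by
      have := Nat.lt_mul_div_succ (k0 - m - 1) ht0
      rw [mul_comm] at this
      exact this
    have hjK : j < K := by
      by_contra hcon
      have : K * t ≤ j * t := Nat.mul_le_mul_right t (not_lt.1 hcon)
      omega
    refine le_trans ?_ (Finset.single_le_sum (f := fun j => (if HT ht L = n ∧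
      (∀ k ∈ CD ht dl cd L w, m + j * t < k) ∧ (∃ k ∈ CD ht dl cd L w, k ≤ m + (j + 1) * t)
        then LW Λ L else 0)) (fun _ _ => zero_le) (Finset.mem_range.2 hjK))
    rw [if_pos]
    exact ⟨hn, fun k hk => lt_of_lt_of_le (by omega) (hmin k hk), k0, hk0m, by omega⟩
  · rw [if_neg h]; exact zero_le

end Crest.Agent.R154.JC235
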