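import Crest.Agent.R154.JC3_235

/-! Row 154, ROAD 801 (helper235): the abstract assembly at JOINT cuts, end. -/

set_option autoImplicit false

namespace Crest.Agent.R154.JC235

open scoped ENNReal Topology
open Filter
open Crest.Agent.R154.B5A
open Crest.Agent.R154.FP178 (fp fp_nil fp_cons fp_zero le_HT_of_fp split sum_FP fp_split overshoot)

variable {B W : Type*} (Λ : B → ℝ≥0∞) (ht : B → ℕ) (dl : B → W → W) (cd : W → B → Set ℕ)

open Classical in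
/-- **THE ASSEMBLY**: from the pieces of exact height to `hK` of `abs_main2`. -/
theorem asm (h1 : ∀ b, 1 ≤ ht b) (hcd : ∀ w b k, k ∈ cd w b → 1 ≤ k ∧ k ≤ ht b)
    (hinj : ∀ b, Function.Injective (dl b))
    (c : ℝ≥0∞) (hc : c ≠ 0) (hU : ∀ n, c ≤ U Λ ht n) (hU1 : ∀ n, U Λ ht n ≤ 1)
    (hPt : ∀ ε : ℝ≥0∞, ε ≠ 0 → ∃ k0 : ℕ, ∀ k, k0 ≤ k → ∀ n, k ≤ n → ∀ w,
      ∑' L, (if HT ht L = n ∧ k ∈ CD ht dl cd L w then LW Λ L else 0) ≤ ε)
    (C : ℝ≥0∞) (hC : C ≠ ⊤) (us : ℕ → ℝ≥0∞) (hus : Tendsto us atTop (𝓝 0))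
    (hPiece : ∀ u : ℝ≥0∞, u ≠ 0 → u ≤ c → ∀ H, 1 ≤ H → Piece Λ ht dl cd c C us u H) :
    ∀ ε : ℝ≥0∞, ε ≠ 0 → ∃ M : ℕ, ∀ m, M ≤ m → ∃ n0 : ℕ, ∀ n, n0 ≤ n → ∀ w,
      Kap1 Λ ht dl cd n m w ≤ ε := by
  have hΛ : ∑' b, Λ b = 1 := le_antisymm (mass_le_one Λ ht h1 hU1)
    (mass_ge_one Λ ht c hc 0 (fun n _ => hU n))
  have hc1 : c ≤ 1 := (hU 0).trans (hU1 0)
  have hct : c ≠ ⊤ := ne_top_of_le_ne_top ENNReal.one_ne_top hc1
  have hci : c⁻¹ ≠ ⊤ := ENNReal.inv_ne_top.2 hc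
  have hT : ∑' k, tail Λ ht k ≠ ⊤ := by
    rw [← sum_tail Λ ht hΛ]
    exact ne_top_of_le_ne_top hci (mean_le Λ ht h1 hΛ c hc hct 0 (fun n _ => hU n))
  have hep : Tendsto (fun i => ∑' k, tail Λ ht (i + k)) atTop (𝓝 0) := by
    have := ENNReal.tendsto_sum_nat_add (fun k => tail Λ ht k) hT
    simpa only [add_comm] using this
  intro ε hε
  set E := ε / 8 with hE
  have hE0 : E ≠ 0 := by
    rw [hE, Ne, ENNReal.div_eq_zero_iff, not_or]
    exact ⟨hε, by norm_num⟩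
  -- (a)
  obtain ⟨ε1, h10, h11, h12⟩ := small (C * c⁻¹ ^ 3 + 2 * c⁻¹) E (by finiteness) hE0
  have hε2 : min ε1 (c ^ 4) ≠ 0 :=
    (lt_min (pos_iff_ne_zero.2 h10) (pos_iff_ne_zero.2 (pow_ne_zero _ hc))).ne'
  obtain ⟨K, u', hK4, hK1, hu0, hu1, hA, hB⟩ := NumK658.chooseK 2 two_pos (min ε1 (c ^ 4)) hε2 4
  set N := K / 2 - 1 with hN
  set u := u' / 2 * c⁻¹ with hu
  have hu't : u' ≠ ⊤ := ne_top_of_le_ne_top ENNReal.one_ne_top hu1
  have hcu : c * u = u' / 2 := by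
    rw [hu, mul_comm, mul_assoc, ENNReal.inv_mul_cancel hc hct, mul_one]
  have hu0' : u ≠ 0 := by
    rw [hu]
    refine mul_ne_zero ?_ (ENNReal.inv_ne_zero.2 hct)
    rw [Ne, ENNReal.div_eq_zero_iff, not_or]
    exact ⟨hu0, by norm_num⟩
  have hKu : (K : ℝ≥0∞) * u' ^ 2 ≤ min ε1 (c ^ 4) :=
    le_trans (mul_le_mul_left le_self_add _) hA
  have hu'c : u' ≤ c ^ 2 := by
    rw [← ENNReal.pow_le_pow_left_iff (two_ne_zero)]
    calc u' ^ 2 = 1 * u' ^ 2 := (one_mul _).symm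
      _ ≤ (K : ℝ≥0∞) * u' ^ 2 := mul_le_mul_left (by exact_mod_cast hK1) _
      _ ≤ c ^ 4 := hKu.trans (min_le_right _ _)
      _ = (c ^ 2) ^ 2 := by ring
  have huc : u ≤ c := by
    calc u ≤ c ^ 2 * c⁻¹ := by
          rw [hu]
          exact mul_le_mul_left (le_trans ENNReal.half_le_self hu'c) _
      _ = c := by rw [pow_two, mul_assoc, ENNReal.mul_inv_cancel hc hct, mul_one]
  have hKa : (K : ℝ≥0∞) * (c⁻¹ * (C * u ^ 2)) ≤ E := by
    calc (K : ℝ≥0∞) * (c⁻¹ * (C * u ^ 2))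
        ≤ (K : ℝ≥0∞) * (c⁻¹ * (C * (u' * c⁻¹) ^ 2)) := by
          gcongr
          rw [hu]
          exact mul_le_mul_left ENNReal.half_le_self _
      _ = (C * c⁻¹ ^ 3) * ((K : ℝ≥0∞) * u' ^ 2) := by ring
      _ ≤ (C * c⁻¹ ^ 3 + 2 * c⁻¹) * ε1 := mul_le_mul' le_self_add (hKu.trans (min_le_left _ _))
      _ ≤ E := h12
  have hKb : (K : ℝ≥0∞) * (c⁻¹ * (2 * (1 - c * u) ^ N)) ≤ E := by
    rw [hcu]
    calc (K : ℝ≥0∞) * (c⁻¹ * (2 * (1 - u' / 2) ^ N))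
        = (2 * c⁻¹) * ((K : ℝ≥0∞) * (1 - u' / 2) ^ N) := by ring
      _ ≤ (C * c⁻¹ ^ 3 + 2 * c⁻¹) * ε1 := by
          refine mul_le_mul' le_add_self ?_
          exact le_trans (mul_le_mul_left le_self_add _) (hB.trans (min_le_left _ _))
      _ ≤ E := h12
  -- (b)
  obtain ⟨e, he0, he1, he2⟩ := small (2 * K + K * (c⁻¹ * (2 * N))) E (by finiteness) hE0
  obtain ⟨i0, hi0⟩ : ∃ i0, ∑' k, tail Λ ht (i0 + k) ≤ e :=
    ((hep.eventually (gt_mem_nhds (pos_iff_ne_zero.2 he0))).exists).imp fun _ h => h.le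
  have he : ∀ a, ∑' L, (if fp ht a L ∧ a + i0 < HT ht L then LW Λ L else 0) ≤ e :=
    fun a => (overshoot Λ ht h1 hU1 i0 a).trans hi0
  -- (c)
  obtain ⟨lam, hl0, hl1, hl2⟩ := small (K * (c⁻¹ * (2 * C))) E (by finiteness) hE0
  have hlt : lam ≠ ⊤ := ne_top_of_le_ne_top ENNReal.one_ne_top hl1
  -- (d)
  have hNl : (N : ℝ≥0∞) / lam ≠ ⊤ := ENNReal.div_ne_top (ENNReal.natCast_ne_top N) hl0
  obtain ⟨δ, hδ0, hδ1, hδ2⟩ := small (K * (c⁻¹ * (2 * (C * ((N : ℝ≥0∞) / lam + 1))))) E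
    (by finiteness) hE0
  obtain ⟨s, hs⟩ : ∃ s, us s ≤ δ :=
    ((hus.eventually (gt_mem_nhds (pos_iff_ne_zero.2 hδ0))).exists).imp fun _ h => h.le
  -- (e)
  obtain ⟨η, hη0, hη1, hη2⟩ := small (K * (c⁻¹ * s)) E (by finiteness) hE0
  obtain ⟨k0, hk0⟩ := hPt η hη0
  refine ⟨K * k0 + 2 * (K + N * (3 * i0 + 2 * s) + i0 + s) + 2, fun m hm => ?_⟩
  set t := m / K + 1 with ht'
  refine ⟨m + K * t + i0, fun n hn w => ?_⟩
  have hKpos : 0 < K := by omega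
  have ht1 : 1 ≤ t := Nat.le_add_left 1 _
  have hKt : m ≤ K * t := (Nat.lt_mul_div_succ m hKpos).le
  have hk0t : k0 ≤ t := by
    have : k0 ≤ m / K := by
      rw [Nat.le_div_iff_mul_le hKpos, mul_comm]
      omega
    omega
  have hNt : N * t ≤ m / 2 + K := by
    have e1 : 2 * (K / 2) ≤ K := Nat.mul_div_le K 2
    have e2 : K * (m / K) ≤ m := Nat.mul_div_le m K
    have e3 : 2 * ((K / 2) * (m / K)) ≤ m := by
      calc 2 * ((K / 2) * (m / K)) = (2 * (K / 2)) * (m / K) := by ring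
        _ ≤ K * (m / K) := Nat.mul_le_mul_right _ e1
        _ ≤ m := e2
    have e4 : N * t ≤ (K / 2) * t := Nat.mul_le_mul_right _ (by omega)
    have e5 : (K / 2) * t = (K / 2) * (m / K) + K / 2 := by rw [ht']; ring
    omega
  have hwin : ∀ j ∈ Finset.range K, Wn Λ ht dl cd n (m + j * t) (m + (j + 1) * t) w
      ≤ 2 * e + c⁻¹ * ((s * η + C * u ^ 2) +
        2 * (((1 - c * u) ^ N + N * e) + C * (lam + N * us s / lam + us s))) := by
    intro j hj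
    have hjK := Finset.mem_range.1 hj
    set D := t + i0 + s with hD
    set a := m + j * t - i0 - s with ha
    have hmis : i0 + s ≤ m := by omega
    have ea : a + i0 + s = m + j * t := by omega
    have ej : (j + 1) * t = j * t + t := by ring
    have eb : a + D = m + (j + 1) * t := by omega
    have hjt : (j + 1) * t ≤ K * t := Nat.mul_le_mul_right t hjK
    have hw := window Λ ht dl cd h1 hcd hΛ.le c hc hct hU hU1 a D i0 s n (by omega) (by omega) e he w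
    rw [ea, eb] at hw
    refine hw.trans (add_le_add le_rfl (mul_le_mul_right ?_ _))
    refine Qsum Λ ht dl cd h1 hcd hΛ.le hinj hU1 c C us u (D + i0 + s)
      (hPiece u hu0' huc _ (le_trans ht1 (by omega))) i0 s N a e η lam he ?_ (by omega) ?_ hl0 hlt w
    · have e6 : N * (D + i0 + s + i0) = N * t + N * (3 * i0 + 2 * s) := by rw [hD]; ring
      rw [e6]
      have e7 : 0 ≤ j * t := Nat.zero_le _
      omega
    · intro w k hk1 hk2
      exact hk0 k (by omega) _ hk2 w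
  calc Kap1 Λ ht dl cd n m w
      ≤ ∑ j ∈ Finset.range K, Wn Λ ht dl cd n (m + j * t) (m + (j + 1) * t) w :=
        Kap1_le Λ ht dl cd n m K t hKt ht1 w
    _ ≤ ∑ _j ∈ Finset.range K, (2 * e + c⁻¹ * ((s * η + C * u ^ 2) +
        2 * (((1 - c * u) ^ N + N * e) + C * (lam + N * us s / lam + us s)))) :=
        Finset.sum_le_sum hwin
    _ = (2 * K + K * (c⁻¹ * (2 * N))) * e + (K * (c⁻¹ * s)) * η + K * (c⁻¹ * (C * u ^ 2))
        + K * (c⁻¹ * (2 * (1 - c * u) ^ N)) + (K * (c⁻¹ * (2 * C))) * lam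
        + (K * (c⁻¹ * (2 * (C * ((N : ℝ≥0∞) / lam + 1))))) * us s := by
        rw [Finset.sum_const, Finset.card_range, nsmul_eq_mul, ENNReal.mul_div_right_comm]
        ring
    _ ≤ E + E + E + E + E + E := by
        refine add_le_add (add_le_add (add_le_add (add_le_add (add_le_add he2 hη2) hKa) hKb) hl2) ?_
        exact (mul_le_mul_right hs _).trans hδ2
    _ ≤ 8 * E := by
        calc E + E + E + E + E + E ≤ E + E + E + E + E + E + (E + E) := le_self_add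
          _ = 8 * E := by ring
    _ ≤ ε := ENNReal.mul_div_le

end Crest.Agent.R154.JC235
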