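import Crest.Agent.R154.JB_358

/-! Row 154, T0219 (helper358): bound for one window (joint cuts, abstract). -/

set_option autoImplicit false

namespace Crest.Agent.R154.J358

open scoped ENNReal
open Crest.Agent.R154.B5A

variable {B V : Type*} (Λ : B → ℝ≥0∞) (ht : B → ℕ) [AddCommGroup V] (zX zY : B → V)
  (cd : V → B → Set ℕ)

open Classical in
/-- weight of the pieces of height `h` with the good event -/
noncomputable def QE (s h : ℕ) (P : List B → Prop) (x : V) : ℝ≥0∞ :=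
  ∑' L, if HT ht L = h ∧ P L ∧ ev ht zX zY cd s L x then LW Λ L else 0

open Classical in
/-- weight of the pieces of height `h` with a contact in the last `s` levels -/
noncomputable def SLB (s h : ℕ) (x : V) : ℝ≥0∞ :=
  ∑' L, if HT ht L = h ∧ ∃ k ∈ CD ht (dl zX zY) cd L x, h < k + s then LW Λ L else 0

/-- window hypothesis -/
def HW (f : B → V) (C : ℝ≥0∞) (us : ℕ → ℝ≥0∞) : Prop :=
  ∀ (s h : ℕ) (E : Finset V) (μ : V → ℝ≥0∞) (M lam : ℝ≥0∞), ∑' x, μ x ≤ 1 → (∀ x, μ x ≤ M) →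
    lam ≠ 0 → lam ≠ ⊤ →
    ∑' x, μ x * QE Λ ht zX zY cd s h (fun L => Z f L ∈ E) x ≤ C * (lam + M * E.card * us s / lam)

lemma QE_le (hU1 : ∀ n, U Λ ht n ≤ 1) (s h : ℕ) (P : List B → Prop) (x : V) :
    QE Λ ht zX zY cd s h P x ≤ 1 := by
  classical
  refine le_trans (ENNReal.tsum_le_tsum fun L => ?_) (hU1 h)
  by_cases h1 : HT ht L = h
  · rw [if_pos h1]; split_ifs
    · exact le_rfl
    · exact zero_le
  · rw [if_neg (fun h' => h1 h'.1)]; exact zero_le

lemma side (hU1 : ∀ n, U Λ ht n ≤ 1) (h1 : ∀ b, 1 ≤ ht b)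
    (hΛ : ∑' b, Λ b = 1) (f : B → V) (C : ℝ≥0∞) (us : ℕ → ℝ≥0∞) (hH : HW Λ ht zX zY cd f C us)
    (th : ℝ≥0∞) (E : Finset V) (hE : (E.card : ℝ≥0∞) * th ≤ 2) (j a : ℕ) (g b : V → ℝ≥0∞)
    (hgb : ∀ z, fp Λ ht (fun b => zX b + zY b) a z ≤ g z + b z) (hg : ∀ z, g z ≤ j * th)
    (β : ℝ≥0∞) (hb : ∑' z, b z ≤ β) (s h : ℕ) (lam : ℝ≥0∞) (hl0 : lam ≠ 0) (hl1 : lam ≠ ⊤)
    (w : V) :
    ∑' z, fp Λ ht (fun b => zX b + zY b) a z *
      QE Λ ht zX zY cd s h (fun L => Z f L ∈ E) (w + z) ≤ C * (lam + 2 * j * us s / lam) + β := by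
  set p : V → ℝ≥0∞ := fp Λ ht (fun b => zX b + zY b) a with hp
  set Q : V → ℝ≥0∞ := QE Λ ht zX zY cd s h (fun L => Z f L ∈ E) with hQ
  have hpm : ∀ z, p z ≤ min (p z) (g z) + b z := by
    intro z
    rcases le_total (p z) (g z) with h' | h'
    · rw [min_eq_left h']; exact le_self_add
    · rw [min_eq_right h']; exact hgb z
  calc ∑' z, p z * Q (w + z) ≤ ∑' z, (min (p z) (g z) * Q (w + z) + b z * 1) := by
        refine ENNReal.tsum_le_tsum fun z => ?_
        calc _ ≤ (min (p z) (g z) + b z) * Q (w + z) := mul_le_mul_left (hpm z) _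
          _ = min (p z) (g z) * Q (w + z) + b z * Q (w + z) := add_mul _ _ _
          _ ≤ _ := add_le_add_right (mul_le_mul_right (QE_le Λ ht zX zY cd hU1 s h _ _) _) _
    _ = ∑' z, min (p z) (g z) * Q (w + z) + ∑' z, b z := by
        rw [ENNReal.tsum_add]; simp
    _ ≤ C * (lam + 2 * j * us s / lam) + β := by
        refine add_le_add ?_ hb
        have e : ∑' z, min (p z) (g z) * Q (w + z)
            = ∑' x, min (p (x - w)) (g (x - w)) * Q x := by
          rw [← (Equiv.subRight w).tsum_eq (fun z => min (p z) (g z) * Q (w + z))]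
          refine tsum_congr fun x => ?_
          simp only [Equiv.subRight_apply]
          rw [show w + (x - w) = x by abel]
        rw [e]
        refine (hH s h E (fun x => min (p (x - w)) (g (x - w))) (j * th) lam ?_ ?_ hl0 hl1).trans ?_
        · calc _ ≤ ∑' x, p (x - w) := ENNReal.tsum_le_tsum fun x => min_le_left _ _
            _ = ∑' z, p z := by
                have := (Equiv.subRight w).tsum_eq p
                simp only [Equiv.subRight_apply] at this
                exact this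
            _ ≤ 1 := fp_mass Λ ht _ h1 hΛ a
        · exact fun x => (min_le_right _ _).trans (hg _)
        · refine mul_le_mul_right (add_le_add_right ?_ _) _
          refine ENNReal.div_le_div_right (mul_le_mul_left ?_ _) _
          calc (j : ℝ≥0∞) * th * E.card = j * (E.card * th) := by ring
            _ ≤ j * 2 := mul_le_mul_right hE _
            _ = 2 * j := mul_comm _ _

variable {Λ ht zX zY}

open Classical in
lemma perh {α β : ℕ → V → ℝ≥0∞} (hp : Pr Λ ht zX zY α β) (hU1 : ∀ n, U Λ ht n ≤ 1)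
    (h1 : ∀ b, 1 ≤ ht b)
    (hΛ : ∑' b, Λ b = 1) (C : ℝ≥0∞) (us : ℕ → ℝ≥0∞)
    (H2 : HW Λ ht zX zY cd zX C us) (H3 : HW Λ ht zX zY cd zY C us)
    (h r : ℕ) (c u τ : ℝ≥0∞) (hu0 : u ≠ 0) (huc : u ≤ c) (hc : c ≤ U Λ ht h)
    (i3 : ∑' L, (if FP ht h L ∧ h + r < HT ht L then LW Λ L else 0) ≤ τ)
    (j a : ℕ) (ha : j * (h + r) ≤ a) (s : ℕ) (lam : ℝ≥0∞) (hl0 : lam ≠ 0) (hl1 : lam ≠ ⊤)
    (w : V) :
    ∑' L1, (if FP ht a L1 then LW Λ L1 *
      QE Λ ht zX zY cd s h (fun _ => True) (w + Z (fun b => zX b + zY b) L1) else 0)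
      ≤ u * u + 2 * (C * (lam + 2 * j * us s / lam) + ((1 - c * u) ^ j + j * τ)) := by
  obtain ⟨th, E, hE1, hE2, hE3⟩ := densX hp h1 hΛ h r c u τ hu0 huc hc i3
  obtain ⟨th', F, hF1, hF2, hF3⟩ := densX hp.swap h1 hΛ h r c u τ hu0 huc hc i3
  obtain ⟨g, b, hgb1, hgb2, hgb3⟩ := hE3 j a ha
  obtain ⟨g', b', hgb1', hgb2', hgb3'⟩ := hF3 j a ha
  have esw : (fun b => zY b + zX b) = (fun b => zX b + zY b) := by
    funext b; exact add_comm _ _
  rw [esw] at hgb1'
  have S1 := side Λ ht zX zY cd hU1 h1 hΛ zX C us H2 th E hE1 j a g b hgb1 hgb2 _ hgb3 s h lam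
    hl0 hl1 w
  have S2 := side Λ ht zX zY cd hU1 h1 hΛ zY C us H3 th' F hF1 j a g' b' hgb1' hgb2' _ hgb3' s h
    lam hl0 hl1 w
  have hNL : ∑' L, (if HT ht L = h ∧ Z zX L ∉ E ∧ Z zY L ∉ F then LW Λ L else 0) ≤ u * u := by
    have := hp.sum2 h (fun z => z ∉ E) (fun z => z ∉ F)
    refine le_trans (le_of_eq (Eq.trans (tsum_congr fun L => ?_) this)) (mul_le_mul' ?_ ?_)
    · congr
    · refine le_trans (le_of_eq (tsum_congr fun z => ?_)) hE2
      by_cases hz : z ∈ E <;> simp [hz]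
    · refine le_trans (le_of_eq (tsum_congr fun z => ?_)) hF2
      by_cases hz : z ∈ F <;> simp [hz]
  have hQ : ∀ x, QE Λ ht zX zY cd s h (fun _ => True) x ≤
      QE Λ ht zX zY cd s h (fun L => Z zX L ∈ E) x + QE Λ ht zX zY cd s h (fun L => Z zY L ∈ F) x
        + u * u := by
    intro x
    refine le_trans ?_ (add_le_add_right hNL _)
    rw [QE, QE, QE, ← ENNReal.tsum_add, ← ENNReal.tsum_add]
    refine ENNReal.tsum_le_tsum fun L => ?_
    by_cases hL : HT ht L = h ∧ ev ht zX zY cd s L x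
    · rw [if_pos ⟨hL.1, trivial, hL.2⟩]
      by_cases hX : Z zX L ∈ E
      · rw [if_pos (show HT ht L = h ∧ Z zX L ∈ E ∧ ev ht zX zY cd s L x from ⟨hL.1, hX, hL.2⟩)]
        rw [add_assoc]; exact le_self_add
      · by_cases hY : Z zY L ∈ F
        · rw [if_pos (show HT ht L = h ∧ Z zY L ∈ F ∧ ev ht zX zY cd s L x from
            ⟨hL.1, hY, hL.2⟩)]
          exact le_add_self.trans le_self_add
        · rw [if_pos (show HT ht L = h ∧ Z zX L ∉ E ∧ Z zY L ∉ F from ⟨hL.1, hX, hY⟩)]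
          exact le_add_self
    · rw [if_neg (fun h' => hL ⟨h'.1, h'.2.2⟩)]; exact zero_le
  have hfib := fib (fun b => zX b + zY b) (FP ht a) (LW Λ)
    (fun z => QE Λ ht zX zY cd s h (fun _ => True) (w + z))
  rw [← hfib]
  calc _ = ∑' z, fp Λ ht (fun b => zX b + zY b) a z *
        QE Λ ht zX zY cd s h (fun _ => True) (w + z) := tsum_congr fun z => mul_comm _ _
    _ ≤ ∑' z, (fp Λ ht (fun b => zX b + zY b) a z *
        QE Λ ht zX zY cd s h (fun L => Z zX L ∈ E) (w + z) +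
        fp Λ ht (fun b => zX b + zY b) a z *
        QE Λ ht zX zY cd s h (fun L => Z zY L ∈ F) (w + z) +
        fp Λ ht (fun b => zX b + zY b) a z * (u * u)) := by
        refine ENNReal.tsum_le_tsum fun z => ?_
        rw [← mul_add, ← mul_add]
        exact mul_le_mul_right (hQ _) _
    _ ≤ (C * (lam + 2 * j * us s / lam) + ((1 - c * u) ^ j + j * τ)) +
        (C * (lam + 2 * j * us s / lam) + ((1 - c * u) ^ j + j * τ)) + 1 * (u * u) := by
        rw [ENNReal.tsum_add, ENNReal.tsum_add, ENNReal.tsum_mul_right]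
        exact add_le_add (add_le_add S1 S2) (mul_le_mul_left (fp_mass Λ ht _ h1 hΛ a) _)
    _ = _ := by ring

end Crest.Agent.R154.J358
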