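import Crest.Agent.R154.JB_762

/-! Row 154, ROAD 801 in the frame of joint cuts (helper762): choice of the constants; KAPPA' (first
contact form) for a system of joint blocks. -/

set_option autoImplicit false

namespace Crest.Agent.R154.JA762

open Crest.Agent.R154.B5A Crest.Agent.R154.Hit776 Filter Topology
open scoped ENNReal

variable {B W G : Type*} [AddCommGroup G] (Λ : B → ℝ≥0∞) (ht : B → ℕ)
  (dl : B → W → W) (cd : W → B → Set ℕ) (dz : B → G) (ι : W → G)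

lemma ev_small {f : ℕ → ℝ≥0∞} (hf : Tendsto f atTop (𝓝 0)) {C e : ℝ≥0∞} (hC : C ≠ ⊤) (he : e ≠ 0) :
    ∃ N, ∀ n, N ≤ n → C * f n ≤ e := by
  have h := ENNReal.Tendsto.const_mul (a := C) hf (Or.inr hC)
  rw [mul_zero] at h
  have h2 := h.eventually (Iic_mem_nhds (pos_iff_ne_zero.2 he))
  exact eventually_atTop.1 h2

open Classical in
theorem kap_of (h1 : ∀ b, 1 ≤ ht b)
    (hcd : ∀ w b k, k ∈ cd w b → 1 ≤ k ∧ k ≤ ht b) (c : ℝ≥0∞) (hc : c ≠ 0)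
    (hU : ∀ n, c ≤ U Λ ht n) (hU1 : ∀ n, U Λ ht n ≤ 1)
    (hι : Function.Injective ι) (hdz : ∀ b w, ι (dl b w) = ι w + dz b)
    (A : ℝ≥0∞) (hA : A ≠ ⊤) (δ : ℕ → ℝ≥0∞) (hδ : Tendsto δ atTop (𝓝 0))
    (hP : ∀ v : ℝ≥0∞, v ≠ 0 → v ≤ c → ∀ H : ℕ, 0 < H → ∃ lx ly : List B → Prop,
      ((∑' L : List B, if HT ht L = H ∧ ¬ lx L ∧ ¬ ly L then LW Λ L else 0) ≤ v * v) ∧
      PT Λ ht dl cd dz (c * v) A δ H lx ∧ PT Λ ht dl cd dz (c * v) A δ H ly)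
    (hS : ∀ s, ∀ η : ℝ≥0∞, η ≠ 0 → ∃ H0, ∀ H, H0 ≤ H → ∀ w, Sl Λ ht dl cd H s w ≤ η) :
    ∀ ε : ℝ≥0∞, ε ≠ 0 → ∃ M : ℕ, ∀ m, M ≤ m → ∃ n0 : ℕ, ∀ n, n0 ≤ n → ∀ w,
      Kap1 Λ ht dl cd n m w ≤ ε := by
  intro ε hε
  have hc1 : c ≤ 1 := (hU 0).trans (hU1 0)
  have hc' : c ≠ ⊤ := ne_top_of_le_ne_top ENNReal.one_ne_top hc1
  have hci0 : c⁻¹ ≠ 0 := ENNReal.inv_ne_zero.2 hc'
  have hcit : c⁻¹ ≠ ⊤ := ENNReal.inv_ne_top.2 hc
  have hci1 : 1 ≤ c⁻¹ := ENNReal.one_le_inv.2 hc1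
  have hΛ : ∑' b, Λ b = 1 :=
    le_antisymm (mass_le_one Λ ht h1 hU1) (mass_ge_one Λ ht c hc 0 fun n _ => hU n)
  have hE : ∑' b, Λ b * (ht b : ℝ≥0∞) ≠ ⊤ :=
    ne_top_of_le_ne_top hcit (mean_le Λ ht h1 hΛ c hc hc' 0 fun n _ => hU n)
  have hep : Tendsto (Mid562.ep Λ ht) atTop (𝓝 0) := Mid562.ep_tendsto Λ ht hΛ hE
  -- constants
  set D : ℝ≥0∞ := c⁻¹ * (2 * (A + 1)) with hD
  have hD1 : 1 ≤ D := by
    calc (1 : ℝ≥0∞) = 1 * (1 * 1) := by simp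
      _ ≤ c⁻¹ * (2 * (A + 1)) := by
        gcongr
        · exact one_le_two
        · exact le_add_self
  have hDt : D ≠ ⊤ := ENNReal.mul_ne_top hcit (ENNReal.mul_ne_top (by simp)
    (ENNReal.add_ne_top.2 ⟨hA, ENNReal.one_ne_top⟩))
  set e8 : ℝ≥0∞ := ε / 8 with he8
  have he80 : e8 ≠ 0 := by rw [he8, Ne, ENNReal.div_eq_zero_iff]; simp [hε]
  set D0 : ℝ≥0∞ := D * (c⁻¹ * c⁻¹) with hD0
  have hD0t : D0 ≠ ⊤ := ENNReal.mul_ne_top hDt (ENNReal.mul_ne_top hcit hcit)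
  have hDD0 : D ≤ D0 := by
    calc D = D * (1 * 1) := by simp
      _ ≤ D * (c⁻¹ * c⁻¹) := by gcongr
  set e' : ℝ≥0∞ := min (c ^ 4) (e8 / D0) with he'
  have he'0 : e' ≠ 0 := by
    rw [he', Ne, ← le_zero_iff, min_le_iff, not_or, le_zero_iff, le_zero_iff]
    exact ⟨pow_ne_zero _ hc, by rw [ENNReal.div_eq_zero_iff]; simp [he80, hD0t]⟩
  have hD0e : D0 * e' ≤ e8 := by
    calc D0 * e' ≤ D0 * (e8 / D0) := by gcongr; exact min_le_right _ _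
      _ ≤ e8 := ENNReal.mul_div_le
  obtain ⟨K0, hK0⟩ := Num873.num 7 (by norm_num) e' he'0
  set K := max K0 100 with hK
  obtain ⟨u, hu0, hu1, hu2, hu3⟩ := hK0 K (le_max_left _ _)
  have hK100 : 100 ≤ K := le_max_right _ _
  set N := K / 7 with hN
  have hKle : ((K + 2 : ℕ) : ℝ≥0∞) ≤ ((7 * (K + 7) : ℕ) : ℝ≥0∞) := by
    exact_mod_cast (by omega : K + 2 ≤ 7 * (K + 7))
  have hone : (1 : ℝ≥0∞) ≤ ((7 * (K + 7) : ℕ) : ℝ≥0∞) := by
    exact_mod_cast (by omega : 1 ≤ 7 * (K + 7))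
  -- the quantile
  set v : ℝ≥0∞ := c⁻¹ * u with hv
  have hcv : c * v = u := by rw [hv, ← mul_assoc, ENNReal.mul_inv_cancel hc hc', one_mul]
  have hv0 : v ≠ 0 := mul_ne_zero hci0 hu0
  have huc : u ≤ c ^ 2 := by
    have h2 : u ^ 2 ≤ (c ^ 2) ^ 2 := by
      calc u ^ 2 = 1 * u ^ 2 := (one_mul _).symm
        _ ≤ ((7 * (K + 7) : ℕ) : ℝ≥0∞) * u ^ 2 := by gcongr
        _ ≤ e' := hu2
        _ ≤ c ^ 4 := min_le_left _ _
        _ = (c ^ 2) ^ 2 := by rw [← pow_mul]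
    exact (ENNReal.pow_le_pow_left_iff (by norm_num)).1 h2
  have hvc : v ≤ c := by
    calc v = c⁻¹ * u := rfl
      _ ≤ c⁻¹ * c ^ 2 := by gcongr
      _ = c := by rw [pow_two, ← mul_assoc, ENNReal.inv_mul_cancel hc hc', one_mul]
  -- lam
  set C1 : ℝ≥0∞ := ((K + 2 : ℕ) : ℝ≥0∞) * D with hC1
  have hC1t : C1 ≠ ⊤ := ENNReal.mul_ne_top (ENNReal.natCast_ne_top _) hDt
  have hC10 : C1 ≠ 0 := mul_ne_zero (by simp) (fun h => by rw [h] at hD1; simp at hD1)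
  set lam : ℝ≥0∞ := min 1 (e8 / C1) with hlam
  have hl0 : lam ≠ 0 := by
    rw [hlam, Ne, ← le_zero_iff, min_le_iff, not_or, le_zero_iff, le_zero_iff]
    exact ⟨one_ne_zero, by rw [ENNReal.div_eq_zero_iff]; simp [he80, hC1t]⟩
  have hlt : lam ≠ ⊤ := ne_top_of_le_ne_top ENNReal.one_ne_top (min_le_left _ _)
  have hlame : C1 * lam ≤ e8 := by
    calc C1 * lam ≤ C1 * (e8 / C1) := by gcongr; exact min_le_right _ _
      _ ≤ e8 := ENNReal.mul_div_le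
  -- s
  obtain ⟨s, hs⟩ := ev_small hδ (C := C1 * (u⁻¹ * lam⁻¹)) (e := e8)
    (ENNReal.mul_ne_top hC1t (ENNReal.mul_ne_top (ENNReal.inv_ne_top.2 hu0)
      (ENNReal.inv_ne_top.2 hl0))) he80
  have hs' : C1 * (u⁻¹ * δ s / lam) ≤ e8 := by
    refine le_trans (le_of_eq ?_) (hs s le_rfl)
    rw [div_eq_mul_inv]; ring
  -- the slab
  obtain ⟨H0, hH0⟩ := hS s (e8 / C1) (by rw [Ne, ENNReal.div_eq_zero_iff]; simp [he80, hC1t])
  have hη : C1 * (e8 / C1) ≤ e8 := ENNReal.mul_div_le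
  -- the overshoot
  obtain ⟨t0, ht0⟩ := ev_small hep (C := C1 * ((N + 1 : ℕ) : ℝ≥0∞)) (e := e8)
    (ENNReal.mul_ne_top hC1t (ENNReal.natCast_ne_top _)) he80
  set T0 := max (max t0 H0) (max K (s + 1)) with hT0
  refine ⟨K * T0, fun m hm => ?_⟩
  have hKpos : 0 < K := by omega
  set t := m / K with ht'
  have htT : T0 ≤ t := (Nat.le_div_iff_mul_le hKpos).2 (by rw [mul_comm]; exact hm)
  have htt0 : t0 ≤ t := le_trans (le_trans (le_max_left _ _) (le_max_left _ _)) htT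
  have htH0 : H0 ≤ t := le_trans (le_trans (le_max_right _ _) (le_max_left _ _)) htT
  have htK : K ≤ t := le_trans (le_trans (le_max_left _ _) (le_max_right _ _)) htT
  have hts : s + 1 ≤ t := le_trans (le_trans (le_max_right _ _) (le_max_right _ _)) htT
  have htpos : 0 < t := by omega
  have hKt : K * t ≤ m := Nat.mul_div_le m K
  have hm2 : m < K * t + K := by
    have := Nat.lt_mul_div_succ m hKpos
    rw [mul_add, mul_one] at this
    exact this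
  have h2m : 2 * m ≤ (2 * K + 2) * t := by
    have : (2 * K + 2) * t = 2 * (K * t) + 2 * t := by ring
    omega
  refine ⟨(2 * K + 10) * t, fun n hn w => ?_⟩
  obtain ⟨lx, ly, hNL, hX, hY⟩ := hP v hv0 hvc (5 * t) (by omega)
  rw [hcv] at hX hY
  set E : ℝ≥0∞ := 2 * Mid562.ep Λ ht t + c⁻¹ * (e8 / C1 + v * v
      + 2 * (A * (lam + u⁻¹ * δ s / lam) + (1 - u) ^ N + N * Mid562.ep Λ ht t)) with hEdef
  have hwin : ∀ j ∈ Finset.range (K + 2),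
      Win Λ ht dl cd n ((K + j) * t) ((K + j + 1) * t) w ≤ E := by
    intro j hj
    rw [Finset.mem_range] at hj
    obtain ⟨r, hr⟩ : ∃ r, K + j = r + 3 := ⟨K + j - 3, by omega⟩
    have hr1 : 6 * N + 5 ≤ r := by omega
    have hr2 : r + 3 ≤ 2 * K + 1 := by omega
    have hrt : (6 * N + 5) * t ≤ r * t := Nat.mul_le_mul_right t hr1
    have hrt2 : (r + 3) * t ≤ (2 * K + 1) * t := Nat.mul_le_mul_right t hr2
    rw [hr]
    refine win_bound Λ ht dl cd dz ι h1 hΛ hcd c hc hc' hU hU1 hι hdz u A (e8 / C1) (v * v) δ lam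
      hl0 hlt n s ((r + 3) * t) ((r + 3 + 1) * t) (r * t) (4 * t) t (5 * t) N ?_ (by omega)
      (by omega) (by omega) ?_ ?_ ?_ lx ly hNL hX hY (fun w => hH0 _ (by omega) w) w
    · have e1 : (2 * K + 10) * t = (2 * K + 1) * t + 9 * t := by ring
      have e2 : (r + 3) * t = r * t + 3 * t := by ring
      omega
    · have e2 : (r + 3) * t = r * t + 3 * t := by ring
      omega
    · have e2 : (r + 3 + 1) * t = r * t + 4 * t := by ring
      omega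
    · have e2 : N * (5 * t + t) + 5 * t = (6 * N + 5) * t := by ring
      omega
  refine (kap_windows Λ ht dl cd n m t K htpos hKt h2m w).trans ?_
  refine (Finset.sum_le_sum hwin).trans ?_
  rw [Finset.sum_const, Finset.card_range, nsmul_eq_mul]
  -- the sum
  set ep := Mid562.ep Λ ht t with hepdef
  have hE1 : E ≤ D * (ep + e8 / C1 + v * v + lam + u⁻¹ * δ s / lam + (1 - u) ^ N + N * ep) := by
    have k1 : 2 * ep ≤ D * ep := by
      refine mul_le_mul_left ?_ _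
      calc (2 : ℝ≥0∞) = 1 * (2 * 1) := by simp
        _ ≤ c⁻¹ * (2 * (A + 1)) := by gcongr; exact le_add_self
    have k2 : c⁻¹ * (e8 / C1 + v * v
        + 2 * (A * (lam + u⁻¹ * δ s / lam) + (1 - u) ^ N + N * ep))
        ≤ D * (e8 / C1 + v * v + (lam + u⁻¹ * δ s / lam) + (1 - u) ^ N + N * ep) := by
      have g1 : (1 : ℝ≥0∞) ≤ 2 * (A + 1) := by
        calc (1 : ℝ≥0∞) = 1 * 1 := by simp
          _ ≤ 2 * (A + 1) := by gcongr; exacts [one_le_two, le_add_self]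
      have g2 : 2 * A ≤ 2 * (A + 1) := by gcongr; exact le_self_add
      have g3 : (2 : ℝ≥0∞) ≤ 2 * (A + 1) := by
        calc (2 : ℝ≥0∞) = 2 * 1 := by simp
          _ ≤ 2 * (A + 1) := by gcongr; exact le_add_self
      have g4 : e8 / C1 + v * v + 2 * (A * (lam + u⁻¹ * δ s / lam) + (1 - u) ^ N + N * ep)
          ≤ (2 * (A + 1)) *
            (e8 / C1 + v * v + (lam + u⁻¹ * δ s / lam) + (1 - u) ^ N + N * ep) := by
        calc e8 / C1 + v * v + 2 * (A * (lam + u⁻¹ * δ s / lam) + (1 - u) ^ N + N * ep)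
            = 1 * (e8 / C1) + 1 * (v * v) + (2 * A) * (lam + u⁻¹ * δ s / lam)
              + 2 * (1 - u) ^ N + 2 * (N * ep) := by ring
          _ ≤ (2 * (A + 1)) * (e8 / C1) + (2 * (A + 1)) * (v * v)
              + (2 * (A + 1)) * (lam + u⁻¹ * δ s / lam)
              + (2 * (A + 1)) * (1 - u) ^ N + (2 * (A + 1)) * (N * ep) := by gcongr
          _ = _ := by ring
      calc c⁻¹ * (e8 / C1 + v * v + 2 * (A * (lam + u⁻¹ * δ s / lam) + (1 - u) ^ N + N * ep))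
          ≤ c⁻¹ * ((2 * (A + 1)) *
            (e8 / C1 + v * v + (lam + u⁻¹ * δ s / lam) + (1 - u) ^ N + N * ep)) := by
            gcongr
        _ = _ := by rw [hD]; ring
    calc E ≤ D * ep + D * (e8 / C1 + v * v + (lam + u⁻¹ * δ s / lam) + (1 - u) ^ N + N * ep) :=
          add_le_add k1 k2
      _ = _ := by ring
  have t1 : C1 * (v * v) ≤ e8 := by
    calc C1 * (v * v) = D0 * (((K + 2 : ℕ) : ℝ≥0∞) * u ^ 2) := by rw [hC1, hD0, hv]; ring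
      _ ≤ D0 * (((7 * (K + 7) : ℕ) : ℝ≥0∞) * u ^ 2) := by gcongr
      _ ≤ D0 * e' := by gcongr
      _ ≤ e8 := hD0e
  have t2 : C1 * (1 - u) ^ N ≤ e8 := by
    calc C1 * (1 - u) ^ N = D * (((K + 2 : ℕ) : ℝ≥0∞) * (1 - u) ^ N) := by rw [hC1]; ring
      _ ≤ D0 * (((7 * (K + 7) : ℕ) : ℝ≥0∞) * (1 - u) ^ N) := by gcongr
      _ ≤ D0 * e' := by gcongr
      _ ≤ e8 := hD0e
  have t3 : C1 * (ep + N * ep) ≤ e8 := by
    refine le_trans (le_of_eq ?_) (ht0 t htt0)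
    push_cast
    ring
  calc ((K + 2 : ℕ) : ℝ≥0∞) * E
      ≤ ((K + 2 : ℕ) : ℝ≥0∞) *
        (D * (ep + e8 / C1 + v * v + lam + u⁻¹ * δ s / lam + (1 - u) ^ N + N * ep)) := by gcongr
    _ = C1 * (ep + N * ep) + C1 * (e8 / C1) + C1 * (v * v) + C1 * lam
        + C1 * (u⁻¹ * δ s / lam) + C1 * (1 - u) ^ N := by rw [hC1]; ring
    _ ≤ e8 + e8 + e8 + e8 + e8 + e8 := by gcongr
    _ = 6 * e8 := by ring
    _ ≤ 8 * e8 := by gcongr; norm_num
    _ = ε := by rw [he8, ENNReal.mul_div_cancel (by norm_num) (by norm_num)]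

end Crest.Agent.R154.JA762
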