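import Crest.Agent.R154.JBase_183

/-! Row 154, KAPPA' along joint renewal levels (helper183): chain of attempts. -/

set_option autoImplicit false

namespace Crest.Agent.R154.J183

open Crest.Agent.R154.B5A
open scoped ENNReal

variable {B W : Type*} (Λ : B → ℝ≥0∞) (ht : B → ℕ) (dl : B → W → W) (cd : W → B → Set ℕ)

/-- first passage over `τ` -/
def FP (τ : ℕ) (A : List B) : Prop :=
  ∃ P b, A = P ++ [b] ∧ HT ht P < τ ∧ τ ≤ HT ht P + ht b

lemma FP_cons (τ : ℕ) (hτ : 1 ≤ τ) (b : B) (L : List B) :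
    FP ht τ (b :: L) ↔ (τ ≤ ht b ∧ L = []) ∨ (ht b < τ ∧ FP ht (τ - ht b) L) := by
  constructor
  · rintro ⟨P, b', h1, h2, h3⟩
    cases P with
    | nil =>
      simp only [List.nil_append, List.cons.injEq] at h1
      obtain ⟨rfl, rfl⟩ := h1
      left
      rw [HT_nil] at h3
      exact ⟨by omega, rfl⟩
    | cons a P =>
      simp only [List.cons_append, List.cons.injEq] at h1
      obtain ⟨rfl, rfl⟩ := h1
      rw [HT_cons] at h2 h3
      right
      exact ⟨by omega, P, b', rfl, by omega, by omega⟩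
  · rintro (⟨h1, rfl⟩ | ⟨h1, P, b', rfl, h2, h3⟩)
    · exact ⟨[], b, rfl, by rw [HT_nil]; omega, by rw [HT_nil]; omega⟩
    · exact ⟨b :: P, b', rfl, by rw [HT_cons]; omega, by rw [HT_cons]; omega⟩

open Classical in
lemma FP_mass (h1 : ∀ b, 1 ≤ ht b) (hΛ : ∑' b, Λ b = 1) (τ : ℕ) (hτ : 1 ≤ τ) :
    ∑' A : List B, (if FP ht τ A then LW Λ A else 0) = 1 := by
  induction τ using Nat.strong_induction_on with
  | _ τ ih =>
    rw [tsum_list]
    have h0 : ¬ FP ht τ ([] : List B) := by
      rintro ⟨P, b, h, -⟩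
      simp at h
    rw [if_neg h0, zero_add]
    have : ∀ b, ∑' L : List B, (if FP ht τ (b :: L) then LW Λ (b :: L) else 0) = Λ b := by
      intro b
      by_cases hb : τ ≤ ht b
      · rw [tsum_eq_single ([] : List B)]
        · rw [if_pos ((FP_cons ht τ hτ b []).2 (Or.inl ⟨hb, rfl⟩)), LW_cons, LW_nil, mul_one]
        · intro L hL
          rw [if_neg]
          rw [FP_cons ht τ hτ]
          rintro (h | h)
          · exact hL h.2
          · omega
      · have h2 : ∀ L : List B, (if FP ht τ (b :: L) then LW Λ (b :: L) else 0)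
            = Λ b * (if FP ht (τ - ht b) L then LW Λ L else 0) := by
          intro L
          have : FP ht τ (b :: L) ↔ FP ht (τ - ht b) L := by
            rw [FP_cons ht τ hτ]
            constructor
            · rintro (h | h)
              · omega
              · exact h.2
            · intro h
              exact Or.inr ⟨by omega, h⟩
          by_cases h : FP ht (τ - ht b) L
          · rw [if_pos (this.2 h), if_pos h, LW_cons]
          · rw [if_neg (fun h' => h (this.1 h')), if_neg h, mul_zero]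
        rw [tsum_congr h2, ENNReal.tsum_mul_left, ih (τ - ht b) (by have := h1 b; omega) (by omega),
          mul_one]
    rw [tsum_congr this, hΛ]

/-- a good prefix of height `k` -/
def Suc (k : ℕ) (σ : List B → Prop) (A : List B) : Prop := ∃ S C, A = S ++ C ∧ HT ht S = k ∧ σ S

open Classical in
lemma suc_mass (h1 : ∀ b, 1 ≤ ht b) (hΛ : ∑' b, Λ b = 1) (τ k : ℕ) (hk : k < τ)
    (σ : List B → Prop) :
    ∑' S : List B, (if HT ht S = k ∧ σ S then LW Λ S else 0)
      ≤ ∑' A : List B, (if FP ht τ A ∧ Suc ht k σ A then LW Λ A else 0) := by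
  calc _ = ∑' S : List B, ∑' C : List B,
        (if (HT ht S = k ∧ σ S) ∧ FP ht (τ - k) C then LW Λ (S ++ C) else 0) := by
        refine tsum_congr fun S => ?_
        by_cases h : HT ht S = k ∧ σ S
        · rw [if_pos h]
          have : ∀ C : List B, (if (HT ht S = k ∧ σ S) ∧ FP ht (τ - k) C then LW Λ (S ++ C) else 0)
              = LW Λ S * (if FP ht (τ - k) C then LW Λ C else 0) := by
            intro C
            by_cases h2 : FP ht (τ - k) C <;> simp [h, h2, LW_append]
          rw [tsum_congr this, ENNReal.tsum_mul_left, FP_mass Λ ht h1 hΛ (τ - k) (by omega),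
            mul_one]
        · simp [h]
    _ = ∑' p : List B × List B,
        (if (HT ht p.1 = k ∧ σ p.1) ∧ FP ht (τ - k) p.2 then LW Λ (p.1 ++ p.2) else 0) :=
        (ENNReal.tsum_prod (f := fun S C =>
          if (HT ht S = k ∧ σ S) ∧ FP ht (τ - k) C then LW Λ (S ++ C) else 0)).symm
    _ = ∑' p : List B × List B, ∑' A : List B,
        (if A = p.1 ++ p.2 ∧ (HT ht p.1 = k ∧ σ p.1) ∧ FP ht (τ - k) p.2 then LW Λ A else 0) := by
        refine tsum_congr fun p => ?_
        rw [tsum_eq_single (p.1 ++ p.2)]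
        · by_cases h : (HT ht p.1 = k ∧ σ p.1) ∧ FP ht (τ - k) p.2 <;> simp [h]
        · intro L hL; rw [if_neg (fun h => hL h.1)]
    _ = ∑' A : List B, ∑' p : List B × List B,
        (if A = p.1 ++ p.2 ∧ (HT ht p.1 = k ∧ σ p.1) ∧ FP ht (τ - k) p.2 then LW Λ A else 0) :=
        ENNReal.tsum_comm
    _ ≤ _ := by
        refine ENNReal.tsum_le_tsum fun A => ?_
        by_cases hex : ∃ p : List B × List B,
            A = p.1 ++ p.2 ∧ (HT ht p.1 = k ∧ σ p.1) ∧ FP ht (τ - k) p.2
        · obtain ⟨p, hp⟩ := hex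
          rw [tsum_eq_single p]
          · rw [if_pos hp, if_pos]
            obtain ⟨hA, ⟨hS, hσ⟩, P, b, hC, h3, h4⟩ := hp
            refine ⟨⟨p.1 ++ P, b, by rw [hA, hC, List.append_assoc], ?_, ?_⟩, p.1, p.2, hA, hS, hσ⟩
            · rw [HT_append]; omega
            · rw [HT_append]; omega
          · intro p' hp'
            rw [if_neg]
            rintro ⟨hA', ⟨hS', -⟩, -⟩
            apply hp'
            have hh : p.1 ++ p.2 = p'.1 ++ p'.2 := by rw [← hp.1, ← hA']
            obtain ⟨T, hT1, hT2⟩ := pref ht h1 hh (by rw [hp.2.1.1, hS'])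
            have hT : T = [] := by
              have h5 := congrArg (HT ht) hT1
              rw [HT_append, hp.2.1.1, hS'] at h5
              have h6 := length_le_HT ht h1 T
              exact List.length_eq_zero_iff.1 (by omega)
            subst hT
            exact Prod.ext (by simpa using hT1) (by simpa using hT2.symm)
        · have : ∀ p : List B × List B,
              ¬ (A = p.1 ++ p.2 ∧ (HT ht p.1 = k ∧ σ p.1) ∧ FP ht (τ - k) p.2) :=
            fun p hp => hex ⟨p, hp⟩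
          simp [this]

open Classical in
lemma fail_mass (h1 : ∀ b, 1 ≤ ht b) (hΛ : ∑' b, Λ b = 1) (τ k : ℕ) (hk : k < τ)
    (σ : List B → Prop) (s : ℝ≥0∞)
    (hs : s ≤ ∑' S : List B, (if HT ht S = k ∧ σ S then LW Λ S else 0)) :
    ∑' A : List B, (if FP ht τ A ∧ ¬ Suc ht k σ A then LW Λ A else 0) ≤ 1 - s := by
  have h2 := suc_mass Λ ht h1 hΛ τ k hk σ
  have h3 : ∑' A : List B, (if FP ht τ A ∧ ¬ Suc ht k σ A then LW Λ A else 0)
      + ∑' A : List B, (if FP ht τ A ∧ Suc ht k σ A then LW Λ A else 0) = 1 := by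
    rw [← ENNReal.tsum_add, ← FP_mass Λ ht h1 hΛ τ (by omega)]
    refine tsum_congr fun A => ?_
    by_cases h : FP ht τ A <;> by_cases h' : Suc ht k σ A <;> simp [h, h']
  have hs1 : s ≤ 1 := (hs.trans h2).trans (h3 ▸ le_add_self)
  have hst : s ≠ ⊤ := ne_top_of_le_ne_top ENNReal.one_ne_top hs1
  refine ENNReal.le_sub_of_add_le_right hst ?_
  calc _ ≤ _ := add_le_add le_rfl (hs.trans h2)
    _ = 1 := h3

/-- `j` attempts fail -/
def NS (τ k : ℕ) (σ : List B → Prop) : ℕ → List B → Prop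
  | 0, _ => True
  | j + 1, L => ∃ A C, L = A ++ C ∧ (FP ht τ A ∧ ¬ Suc ht k σ A) ∧ NS τ k σ j C

open Classical in
lemma NS_mass (hU1 : ∀ n, U Λ ht n ≤ 1) (τ k : ℕ) (σ : List B → Prop) (q : ℝ≥0∞)
    (hq : ∑' A : List B, (if FP ht τ A ∧ ¬ Suc ht k σ A then LW Λ A else 0) ≤ q) (j n : ℕ) :
    ∑' L : List B, (if HT ht L = n ∧ NS ht τ k σ j L then LW Λ L else 0) ≤ q ^ j := by
  induction j generalizing n with
  | zero => simpa [NS, U] using hU1 n
  | succ j ih =>
    have h := app2n Λ ht n (fun A => FP ht τ A ∧ ¬ Suc ht k σ A) (NS ht τ k σ j) (q ^ j)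
      (fun k' => ih k')
    refine h.trans ?_
    rw [pow_succ, mul_comm]
    refine mul_le_mul_right (le_trans (le_of_eq ?_) hq) _
    refine tsum_congr fun A => ?_
    congr

/-- a big block covers one of the first `j` marks of the chain -/
def BB (τ i0 : ℕ) : ℕ → List B → Prop
  | 0, _ => False
  | j + 1, L => (∃ A C, L = A ++ C ∧ ∃ P b, A = P ++ [b] ∧ HT ht P < τ ∧ τ ≤ HT ht P + ht b ∧
      True ∧ i0 < ht b) ∨ ∃ A C, L = A ++ C ∧ FP ht τ A ∧ BB τ i0 j C

open Classical in
/-- size-biased tail -/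
noncomputable def e1 (i0 : ℕ) : ℝ≥0∞ := ∑' b, (if i0 < ht b then Λ b * (ht b : ℝ≥0∞) else 0)

open Classical in
lemma big_mass (hU1 : ∀ n, U Λ ht n ≤ 1) (τ i0 n : ℕ) :
    ∑' L : List B, (if HT ht L = n ∧ ∃ A C, L = A ++ C ∧ ∃ P b, A = P ++ [b] ∧ HT ht P < τ ∧
      τ ≤ HT ht P + ht b ∧ True ∧ i0 < ht b then LW Λ L else 0) ≤ e1 Λ ht i0 := by
  refine (app1 Λ ht hU1 n _).trans ?_
  refine (cov Λ ht τ (fun _ => True) (fun b => i0 < ht b) 1 (fun k _ => ?_)).trans ?_
  · simpa [U] using hU1 k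
  · rw [mul_one]
    refine le_of_eq ?_
    rw [e1]
    refine tsum_congr fun b => ?_
    congr

open Classical in
lemma BB_mass (h1 : ∀ b, 1 ≤ ht b) (hΛ : ∑' b, Λ b = 1) (hU1 : ∀ n, U Λ ht n ≤ 1)
    (τ i0 : ℕ) (hτ : 1 ≤ τ) (j n : ℕ) :
    ∑' L : List B, (if HT ht L = n ∧ BB ht τ i0 j L then LW Λ L else 0) ≤ j * e1 Λ ht i0 := by
  induction j generalizing n with
  | zero => simp [BB]
  | succ j ih =>
    have h2 := app2n Λ ht n (fun A => FP ht τ A) (BB ht τ i0 j) (j * e1 Λ ht i0) (fun k' => ih k')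
    rw [FP_mass Λ ht h1 hΛ τ hτ, one_mul] at h2
    have h3 := big_mass Λ ht hU1 τ i0 n
    calc _ ≤ ∑' L : List B, ((if HT ht L = n ∧ ∃ A C, L = A ++ C ∧ ∃ P b, A = P ++ [b] ∧
            HT ht P < τ ∧ τ ≤ HT ht P + ht b ∧ True ∧ i0 < ht b then LW Λ L else 0)
          + (if HT ht L = n ∧ ∃ A C, L = A ++ C ∧ FP ht τ A ∧ BB ht τ i0 j C then LW Λ L
            else 0)) := by
          refine ENNReal.tsum_le_tsum fun L => ?_
          by_cases h : HT ht L = n ∧ BB ht τ i0 (j + 1) L
          · rw [if_pos h]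
            obtain ⟨hn, h | h⟩ := h
            · rw [if_pos ⟨hn, h⟩]; exact le_self_add
            · rw [if_pos (c := HT ht L = n ∧ ∃ A C, L = A ++ C ∧ FP ht τ A ∧ BB ht τ i0 j C)
                ⟨hn, h⟩]; exact le_add_self
          · rw [if_neg h]; exact zero_le
      _ ≤ e1 Λ ht i0 + j * e1 Λ ht i0 := by
          rw [ENNReal.tsum_add]
          exact add_le_add h3 h2
      _ = _ := by push_cast; ring

/-- existence of the covering block -/
lemma exists_cov (τ : ℕ) (hτ : 1 ≤ τ) (L : List B) (hL : τ ≤ HT ht L) :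
    ∃ P b C, L = P ++ b :: C ∧ HT ht P < τ ∧ τ ≤ HT ht P + ht b := by
  induction L generalizing τ with
  | nil => rw [HT_nil] at hL; omega
  | cons b L ih =>
    rw [HT_cons] at hL
    by_cases hb : τ ≤ ht b
    · exact ⟨[], b, L, rfl, by rw [HT_nil]; omega, by rw [HT_nil]; omega⟩
    · obtain ⟨P, b', C, h1, h2, h3⟩ := ih (τ - ht b) (by omega) (by omega)
      exact ⟨b :: P, b', C, by rw [h1]; rfl, by rw [HT_cons]; omega, by rw [HT_cons]; omega⟩

lemma chain (τ k i0 : ℕ) (hτ : 1 ≤ τ) (σ : List B → Prop) (J : ℕ) (L : List B)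
    (hL : J * (τ + i0) ≤ HT ht L) :
    NS ht τ k σ J L ∨ BB ht τ i0 J L ∨ ∃ A1 S A2, L = A1 ++ (S ++ A2) ∧ HT ht S = k ∧ σ S ∧
      ∃ j < J, ∃ i ≤ j * i0, HT ht A1 = j * τ + i := by
  induction J generalizing L with
  | zero => exact Or.inl trivial
  | succ J ih =>
    have hL' : τ + i0 + J * (τ + i0) ≤ HT ht L := by
      calc _ = (J + 1) * (τ + i0) := by ring
        _ ≤ _ := hL
    obtain ⟨P, b, C, h1, h2, h3⟩ := exists_cov ht τ hτ L (by omega)
    have hA : L = (P ++ [b]) ++ C := by rw [h1]; simp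
    by_cases hb : i0 < ht b
    · exact Or.inr (Or.inl (Or.inl ⟨P ++ [b], C, hA, P, b, rfl, h2, h3, trivial, hb⟩))
    · have hFP : FP ht τ (P ++ [b]) := ⟨P, b, rfl, h2, h3⟩
      have hHT : HT ht (P ++ [b]) = HT ht P + ht b := by
        rw [HT_append, HT_cons, HT_nil]; rfl
      by_cases hs : Suc ht k σ (P ++ [b])
      · obtain ⟨S, C', h4, h5, h6⟩ := hs
        exact Or.inr (Or.inr ⟨[], S, C' ++ C, by rw [hA, h4]; simp, h5, h6, 0, by omega, 0,
          by omega, by rw [HT_nil]; ring⟩)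
      · have hC : J * (τ + i0) ≤ HT ht C := by
          have := congrArg (HT ht) hA
          rw [HT_append, hHT] at this
          omega
        rcases ih C hC with h | h | ⟨A1, S, A2, h4, h5, h6, j, hj, i, hi, h7⟩
        · exact Or.inl ⟨P ++ [b], C, hA, ⟨hFP, hs⟩, h⟩
        · exact Or.inr (Or.inl (Or.inr ⟨P ++ [b], C, hA, hFP, h⟩))
        · refine Or.inr (Or.inr ⟨(P ++ [b]) ++ A1, S, A2, by rw [hA, h4]; simp, h5, h6, j + 1,
            by omega, i + (HT ht P + ht b - τ), ?_, ?_⟩)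
          · have : (j + 1) * i0 = j * i0 + i0 := by ring
            omega
          · rw [HT_append, hHT, h7]
            have : (j + 1) * τ = j * τ + τ := by ring
            omega

end Crest.Agent.R154.J183
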