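import Crest.Agent.R154.FP_178
import Crest.Agent.R154.B5First_181
import Crest.Agent.R154.Bd_958

/-! Row 154 (helper598), ROAD 801 on joint cuts: windows -> `Kap1` (frame of 818 / 692 / 139). -/

set_option autoImplicit false

namespace Crest.Agent.R154.JC598

open scoped ENNReal
open Crest.Agent.R154.B5A
open Crest.Agent.R154.FP178 (fp)

variable {B W : Type*} (Λ : B → ℝ≥0∞) (ht : B → ℕ) (dl : B → W → W) (cd : W → B → Set ℕ)

open Classical in
/-- contact of a piece of exact height `H`, all contacts in the middle -/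
noncomputable def WLp (H s : ℕ) (w : W) : ℝ≥0∞ :=
  ∑' L : List B, if HT ht L = H ∧ (∃ k, k ∈ CD ht dl cd L w) ∧
    (∀ k ∈ CD ht dl cd L w, s < k ∧ k + s ≤ H) then LW Λ L else 0

open Classical in
/-- contact in the bottom slab of a piece of exact height `H` -/
noncomputable def SLb (H s : ℕ) (w : W) : ℝ≥0∞ :=
  ∑' L : List B, if HT ht L = H ∧ (∃ k ∈ CD ht dl cd L w, H < k + s) then LW Λ L else 0

/-- first contact in `(D, b]` -/
def ev (D b : ℕ) (w : W) (L : List B) : Prop :=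
  (∀ j ∈ CD ht dl cd L w, D < j) ∧ ∃ j ∈ CD ht dl cd L w, j ≤ b

open Classical in
noncomputable def GG (n D b : ℕ) (w : W) : ℝ≥0∞ :=
  ∑' L : List B, if HT ht L = n then LW Λ L * (if ev ht dl cd D b w L then 1 else 0) else 0

open Classical in
noncomputable def GT (D b : ℕ) (w : W) : ℝ≥0∞ :=
  ∑' L : List B, if fp ht b L then LW Λ L * (if ev ht dl cd D b w L then 1 else 0) else 0

lemma le_inv_mul' {c x y : ℝ≥0∞} (hc : c ≠ 0) (hc' : c ≠ ⊤) (h : c * x ≤ y) : x ≤ c⁻¹ * y :=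
  calc x = c⁻¹ * (c * x) := by rw [← mul_assoc, ENNReal.inv_mul_cancel hc hc', one_mul]
    _ ≤ _ := mul_le_mul_right h _

lemma cover (n m K q : ℕ) (hq : 1 ≤ q) (hK : m ≤ K * q) (w : W) :
    Kap1 Λ ht dl cd n m w ≤ ∑ k ∈ Finset.range K, GG Λ ht dl cd n (m + k * q) (m + (k + 1) * q) w := by
  classical
  unfold Kap1 GG
  rw [← Summable.tsum_finsetSum (fun _ _ => ENNReal.summable)]
  refine ENNReal.tsum_le_tsum fun L => ?_
  by_cases h : HT ht L = n ∧ (∀ k ∈ CD ht dl cd L w, m < k) ∧ ∃ k ∈ CD ht dl cd L w, k ≤ 2 * m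
  · rw [if_pos h]
    obtain ⟨hn, h1, k0, hk0, hk0'⟩ := h
    have hex : ∃ k, k ∈ CD ht dl cd L w := ⟨k0, hk0⟩
    obtain ⟨j, hj, hjmin⟩ : ∃ j, j ∈ CD ht dl cd L w ∧ ∀ i ∈ CD ht dl cd L w, j ≤ i :=
      ⟨Nat.find hex, Nat.find_spec hex, fun i hi => Nat.find_min' hex hi⟩
    have hjm : m < j := h1 j hj
    have hj2 : j ≤ 2 * m := (hjmin k0 hk0).trans hk0'
    obtain ⟨e, r, he, hr⟩ : ∃ e r, q * e + r = j - m - 1 ∧ r < q :=
      ⟨(j - m - 1) / q, (j - m - 1) % q, Nat.div_add_mod _ _, Nat.mod_lt _ hq⟩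
    have hk : e < K := by
      by_contra hcon
      have : K * q ≤ q * e := by rw [mul_comm]; exact Nat.mul_le_mul_left _ (not_lt.1 hcon)
      omega
    refine le_trans ?_ (Finset.single_le_sum (fun _ _ => zero_le) (Finset.mem_range.2 hk))
    have e1 : e * q = q * e := mul_comm _ _
    have e2 : (e + 1) * q = q * e + q := by ring
    have hev : ev ht dl cd (m + e * q) (m + (e + 1) * q) w L := by
      refine ⟨fun i hi => ?_, j, hj, ?_⟩
      · have := hjmin i hi; omega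
      · omega
    rw [if_pos hn, if_pos hev, mul_one]
  · rw [if_neg h]; exact zero_le

lemma stop (h1 : ∀ b, 1 ≤ ht b) (hcd : ∀ w b k, k ∈ cd w b → 1 ≤ k ∧ k ≤ ht b)
    (c : ℝ≥0∞) (hc : c ≠ 0) (hc' : c ≠ ⊤) (hU : ∀ n, c ≤ U Λ ht n) (hU1 : ∀ n, U Λ ht n ≤ 1)
    (n D b : ℕ) (hD : D ≤ n) (w : W) :
    GG Λ ht dl cd n D b w ≤ c⁻¹ * GT Λ ht dl cd D b w := by
  classical
  refine le_inv_mul' hc hc' ?_
  have s1 : c * GG Λ ht dl cd n D b w ≤ ∑' L : List B, (if HT ht L = n + b then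
      LW Λ L * (if ev ht dl cd D b w L then (1 : ℝ≥0∞) else 0) else 0) := by
    refine le_trans (mul_le_mul_left (hU b) _) ?_
    refine Bd958.ext_one Λ ht h1 n b _ _ fun L R hL hR => ?_
    by_cases h : ev ht dl cd D b w L
    · rw [if_pos h, if_pos]
      refine ⟨fun j hj => ?_, ?_⟩
      · rw [CD_append] at hj
        rcases hj with hj | ⟨k, hk, rfl⟩
        · exact h.1 j hj
        · have := CD_pos ht dl cd hcd R _ k hk
          simp only; omega
      · obtain ⟨j, hj, hj'⟩ := h.2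
        exact ⟨j, by rw [CD_append]; exact Or.inl hj, hj'⟩
    · rw [if_neg h]; exact zero_le
  refine s1.trans ?_
  set f : List B → ℝ≥0∞ := fun L => if HT ht L = n + b ∧ ev ht dl cd D b w L then 1 else 0 with hf
  have s2 : ∑' L : List B, (if HT ht L = n + b then
      LW Λ L * (if ev ht dl cd D b w L then (1 : ℝ≥0∞) else 0) else 0)
      ≤ ∑' L, (if b ≤ HT ht L then LW Λ L * f L else 0) := by
    refine ENNReal.tsum_le_tsum fun L => ?_
    by_cases hL : HT ht L = n + b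
    · have hb' : b ≤ HT ht L := by omega
      rw [if_pos hL, if_pos hb', hf]
      simp [hL]
    · rw [if_neg hL]; exact zero_le
  refine s2.trans ?_
  rw [FP178.split Λ ht h1 b f]
  unfold GT
  refine ENNReal.tsum_le_tsum fun L1 => ?_
  by_cases hfp : fp ht b L1
  · rw [if_pos hfp, if_pos hfp]
    refine mul_le_mul_right ?_ _
    have hb := FP178.le_HT_of_fp ht hfp
    by_cases hev : ev ht dl cd D b w L1
    · rw [if_pos hev]
      refine le_trans (ENNReal.tsum_le_tsum fun L2 => ?_) (hU1 (n + b - HT ht L1))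
      · by_cases h2 : HT ht L2 = n + b - HT ht L1
        · rw [if_pos h2, hf]
          calc LW Λ L2 * _ ≤ LW Λ L2 * 1 := mul_le_mul_right (by dsimp only; split_ifs <;> simp) _
            _ = _ := mul_one _
        · rw [if_neg h2, hf]
          dsimp only
          rw [if_neg, mul_zero]
          rintro ⟨h3, -⟩
          rw [HT_append] at h3
          omega
    · rw [if_neg hev, nonpos_iff_eq_zero, ENNReal.tsum_eq_zero]
      intro L2
      rw [hf]; dsimp only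
      rw [if_neg, mul_zero]
      rintro ⟨-, h3, j, hj, hjb⟩
      refine hev ⟨fun i hi => h3 i (by rw [CD_append]; exact Or.inl hi), ?_⟩
      rw [CD_append] at hj
      rcases hj with hj | ⟨k, hk, rfl⟩
      · exact ⟨j, hj, hjb⟩
      · have := CD_pos ht dl cd hcd L2 _ k hk
        simp only at hjb; omega
  · rw [if_neg hfp, if_neg hfp]

lemma inner (h1 : ∀ b, 1 ≤ ht b) (hcd : ∀ w b k, k ∈ cd w b → 1 ≤ k ∧ k ≤ ht b)
    (c : ℝ≥0∞) (hc : c ≠ 0) (hc' : c ≠ ⊤) (hU : ∀ n, c ≤ U Λ ht n)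
    (a0 i s D b g H : ℕ) (hD : a0 + i + s ≤ D) (hDb : D ≤ b) (hH : b + g ≤ a0 + H) (w : W)
    (A : List B) (hA0 : a0 ≤ HT ht A) (hA : HT ht A ≤ a0 + i) :
    open Classical in
    ∑' L, (if fp ht (b - HT ht A) L then LW Λ L *
      (if ev ht dl cd D b w (A ++ L) ∧ HT ht (A ++ L) ≤ b + g then (1 : ℝ≥0∞) else 0) else 0)
      ≤ c⁻¹ * (SLb Λ ht dl cd H s (act dl A w) + WLp Λ ht dl cd H s (act dl A w)) := by
  classical
  refine le_inv_mul' hc hc' ?_
  set w' := act dl A w with hw'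
  set gg : List B → ℝ≥0∞ := fun L => if HT ht L = H ∧ (∃ k, k ∈ CD ht dl cd L w') ∧
    (∀ k ∈ CD ht dl cd L w', s < k) then 1 else 0 with hgg
  have s2 : ∑' L, (if b - HT ht A ≤ HT ht L then LW Λ L * gg L else 0)
      ≤ SLb Λ ht dl cd H s w' + WLp Λ ht dl cd H s w' := by
    unfold SLb WLp
    rw [← ENNReal.tsum_add]
    refine ENNReal.tsum_le_tsum fun L => ?_
    by_cases hb : b - HT ht A ≤ HT ht L
    · rw [if_pos hb, hgg]
      dsimp only
      by_cases hc1 : HT ht L = H ∧ (∃ k, k ∈ CD ht dl cd L w') ∧ (∀ k ∈ CD ht dl cd L w', s < k)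
      · rw [if_pos hc1, mul_one]
        by_cases hs : ∃ k ∈ CD ht dl cd L w', H < k + s
        · rw [if_pos ⟨hc1.1, hs⟩]; exact le_add_right le_rfl
        · push Not at hs
          refine le_add_left ?_
          rw [if_pos ⟨hc1.1, hc1.2.1, fun k hk => ⟨hc1.2.2 k hk, hs k hk⟩⟩]
      · rw [if_neg hc1, mul_zero]; exact zero_le
    · rw [if_neg hb]; exact zero_le
  refine le_trans ?_ s2
  rw [FP178.split Λ ht h1 (b - HT ht A) gg, ← ENNReal.tsum_mul_left]
  refine ENNReal.tsum_le_tsum fun L1 => ?_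
  by_cases hfp : fp ht (b - HT ht A) L1
  · rw [if_pos hfp, if_pos hfp, mul_left_comm]
    refine mul_le_mul_right ?_ _
    have hb := FP178.le_HT_of_fp ht hfp
    by_cases hev : ev ht dl cd D b w (A ++ L1) ∧ HT ht (A ++ L1) ≤ b + g
    · rw [if_pos hev, mul_one]
      obtain ⟨⟨he1, j, hj, hjb⟩, hg⟩ := hev
      rw [HT_append] at hg
      refine (hU (H - HT ht L1)).trans ?_
      unfold U
      refine ENNReal.tsum_le_tsum fun L2 => ?_
      by_cases h2 : HT ht L2 = H - HT ht L1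
      · rw [if_pos h2, hgg]
        dsimp only
        have hmem : ∀ k ∈ CD ht dl cd L1 w', s < k := fun k hk => by
          have := he1 (HT ht A + k) (by rw [CD_append]; exact Or.inr ⟨k, hk, rfl⟩)
          omega
        rw [if_pos, mul_one]
        refine ⟨by rw [HT_append]; omega, ?_, fun k hk => ?_⟩
        · rw [CD_append] at hj
          rcases hj with hj' | ⟨k, hk, rfl⟩
          · have h3 := CD_pos ht dl cd hcd A w j hj'
            have h4 := he1 j (by rw [CD_append]; exact Or.inl hj')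
            omega
          · exact ⟨k, by rw [CD_append]; exact Or.inl hk⟩
        · rw [CD_append] at hk
          rcases hk with hk | ⟨k', hk', rfl⟩
          · exact hmem k hk
          · have h3 := CD_pos ht dl cd hcd L2 _ k' hk'
            simp only; omega
      · rw [if_neg h2]; exact zero_le
    · rw [if_neg hev, mul_zero]; exact zero_le
  · rw [if_neg hfp, if_neg hfp, mul_zero]

lemma GT_le (h1 : ∀ b, 1 ≤ ht b) (hΛ : ∑' b, Λ b ≤ 1) (hcd : ∀ w b k, k ∈ cd w b → 1 ≤ k ∧ k ≤ ht b)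
    (c : ℝ≥0∞) (hc : c ≠ 0) (hc' : c ≠ ⊤) (hU : ∀ n, c ≤ U Λ ht n) (hU1 : ∀ n, U Λ ht n ≤ 1)
    (a0 i s D b g H : ℕ) (hD : a0 + i + s ≤ D) (hDb : D ≤ b) (hH : b + g ≤ a0 + H) (w : W) :
    open Classical in
    GT Λ ht dl cd D b w ≤ ∑' k, tail Λ ht (g + k) + (∑' k, tail Λ ht (i + k) +
      c⁻¹ * ∑' A, (if fp ht a0 A then LW Λ A *
        (SLb Λ ht dl cd H s (act dl A w) + WLp Λ ht dl cd H s (act dl A w)) else 0)) := by
  classical
  have s1 : GT Λ ht dl cd D b w ≤ ∑' L, (if fp ht b L ∧ b + g < HT ht L then LW Λ L else 0) +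
      ∑' L, (if fp ht b L then LW Λ L *
        (if ev ht dl cd D b w L ∧ HT ht L ≤ b + g then (1 : ℝ≥0∞) else 0) else 0) := by
    unfold GT
    rw [← ENNReal.tsum_add]
    refine ENNReal.tsum_le_tsum fun L => ?_
    by_cases hfp : fp ht b L
    · by_cases hg : HT ht L ≤ b + g
      · simp [hfp, hg]
      · have h5 : fp ht b L ∧ b + g < HT ht L := ⟨hfp, by omega⟩
        rw [if_pos hfp, if_pos h5]
        refine le_add_right ?_
        calc LW Λ L * _ ≤ LW Λ L * 1 := mul_le_mul_right (by split_ifs <;> simp) _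
          _ = _ := mul_one _
    · simp [hfp]
  refine s1.trans (add_le_add (FP178.overshoot Λ ht h1 hU1 g b) ?_)
  rw [FP178.fp_split Λ ht h1 a0 b (by omega)]
  refine le_trans ?_ (add_le_add (FP178.overshoot Λ ht h1 hU1 i a0) le_rfl)
  rw [← ENNReal.tsum_mul_left, ← ENNReal.tsum_add]
  refine ENNReal.tsum_le_tsum fun A => ?_
  by_cases hfp : fp ht a0 A
  · rw [if_pos hfp, if_pos hfp]
    have hA0 := FP178.le_HT_of_fp ht hfp
    by_cases hA : HT ht A ≤ a0 + i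
    · refine le_add_left ?_
      rw [mul_left_comm]
      exact mul_le_mul_right (inner Λ ht dl cd h1 hcd c hc hc' hU a0 i s D b g H hD hDb hH w A hA0 hA) _
    · have h5 : fp ht a0 A ∧ a0 + i < HT ht A := ⟨hfp, by omega⟩
      rw [if_pos h5]
      refine le_add_right ?_
      calc LW Λ A * _ ≤ LW Λ A * 1 := by
            refine mul_le_mul_right (le_trans (ENNReal.tsum_le_tsum fun L => ?_)
              (FP178.sum_FP Λ ht h1 hΛ (b - HT ht A))) _
            by_cases h : fp ht (b - HT ht A) L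
            · rw [if_pos h, if_pos h]
              calc LW Λ L * _ ≤ LW Λ L * 1 := mul_le_mul_right (by split_ifs <;> simp) _
                _ = _ := mul_one _
            · rw [if_neg h, if_neg h]
        _ = _ := mul_one _
  · rw [if_neg hfp, if_neg hfp]; simp

lemma tails (h1 : ∀ b, 1 ≤ ht b) (hΛ : ∑' b, Λ b = 1)
    (c : ℝ≥0∞) (hc : c ≠ 0) (hc' : c ≠ ⊤) (hU : ∀ n, c ≤ U Λ ht n) (δ : ℝ≥0∞) (hδ : δ ≠ 0) :
    ∃ I, ∀ i, I ≤ i → ∑' k, tail Λ ht (i + k) ≤ δ := by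
  have hfin : ∑' k, tail Λ ht k ≠ ⊤ := by
    rw [← sum_tail Λ ht hΛ]
    exact ne_top_of_le_ne_top (ENNReal.inv_ne_top.2 hc)
      (mean_le Λ ht h1 hΛ c hc hc' 0 fun n _ => hU n)
  have ht0 := ENNReal.tendsto_sum_nat_add (fun k => tail Λ ht k) hfin
  obtain ⟨I, hI⟩ := Filter.eventually_atTop.1 (ht0.eventually_le_const (pos_iff_ne_zero.2 hδ))
  refine ⟨I, fun i hi => ?_⟩
  have := hI i hi
  simpa [add_comm] using this

open Classical in
/-- **composition**: windows + bottom slab give `Kap1 → 0`. -/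
theorem comp (h1 : ∀ b, 1 ≤ ht b) (hΛ : ∑' b, Λ b = 1)
    (hcd : ∀ w b k, k ∈ cd w b → 1 ≤ k ∧ k ≤ ht b)
    (c : ℝ≥0∞) (hc : c ≠ 0) (hU : ∀ n, c ≤ U Λ ht n) (hU1 : ∀ n, U Λ ht n ≤ 1)
    (hSlab : ∀ s : ℕ, ∀ ε : ℝ≥0∞, ε ≠ 0 → ∃ H0, ∀ H, H0 ≤ H → ∀ w, SLb Λ ht dl cd H s w ≤ ε)
    (hWin : ∀ ε : ℝ≥0∞, ε ≠ 0 → ∃ K s H0 : ℕ, 4 ≤ K ∧ ∀ H, H0 ≤ H → ∀ a, K * H ≤ 8 * a → ∀ w,
      ∑' A, (if fp ht a A then LW Λ A * WLp Λ ht dl cd H s (act dl A w) else 0) ≤ ε / K) :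
    ∀ ε : ℝ≥0∞, ε ≠ 0 → ∃ M : ℕ, ∀ m, M ≤ m → ∀ n, 2 * m ≤ n → ∀ w, Kap1 Λ ht dl cd n m w ≤ ε := by
  intro ε hε
  have hc' : c ≠ ⊤ := ne_top_of_le_ne_top ENNReal.one_ne_top ((hU 0).trans (hU1 0))
  set C : ℝ≥0∞ := c⁻¹ * (1 + (1 + c⁻¹ * (1 + 1))) with hC
  have hCt : C ≠ ⊤ := by
    have := ENNReal.inv_ne_top.2 hc
    finiteness
  obtain ⟨e1, he1, he1'⟩ := ENNReal.exists_nnreal_pos_mul_lt hCt hε
  have he0 : (e1 : ℝ≥0∞) ≠ 0 := by exact_mod_cast he1.ne'
  obtain ⟨K, s, H0, hK4, hW⟩ := hWin e1 he0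
  have hKt : (K : ℝ≥0∞) ≠ ⊤ := ENNReal.natCast_ne_top K
  have hδ : (e1 : ℝ≥0∞) / K ≠ 0 := ENNReal.div_ne_zero.2 ⟨he0, hKt⟩
  obtain ⟨Hs, hHs⟩ := hSlab s _ hδ
  obtain ⟨I, hI⟩ := tails Λ ht h1 hΛ c hc hc' hU _ hδ
  refine ⟨K * (8 + K + 2 * s + 2 * I + H0 + Hs), fun m hm n hn w => ?_⟩
  obtain ⟨p, hp⟩ : ∃ p, p = m / K := ⟨_, rfl⟩
  have hKpos : 0 < K := by omega
  have hpm : K * p ≤ m := by rw [hp]; exact Nat.mul_div_le m K
  have hmp : m < K * p + K := by
    have := Nat.lt_mul_div_succ m hKpos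
    rw [← hp] at this
    linarith [this, Nat.mul_add K p 1]
  have hpN : 8 + K + 2 * s + 2 * I + H0 + Hs ≤ p := by
    rw [hp]; exact (Nat.le_div_iff_mul_le hKpos).2 (by rw [mul_comm]; exact hm)
  have f1 : 4 * p ≤ K * p := Nat.mul_le_mul_right _ hK4
  have f2 : K * 8 ≤ K * p := Nat.mul_le_mul_left _ (by omega)
  refine (cover Λ ht dl cd n m K (p + 1) (by omega) (by rw [Nat.mul_add]; omega) w).trans ?_
  have key : ∀ k ∈ Finset.range K, GG Λ ht dl cd n (m + k * (p + 1)) (m + (k + 1) * (p + 1)) w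
      ≤ c⁻¹ * ((e1 : ℝ≥0∞) / K + ((e1 : ℝ≥0∞) / K + c⁻¹ * ((e1 : ℝ≥0∞) / K + (e1 : ℝ≥0∞) / K))) := by
    intro k hk
    have hk' := Finset.mem_range.1 hk
    have g1 : (k + 1) * (p + 1) ≤ K * (p + 1) := Nat.mul_le_mul_right _ hk'
    have g2 : (k + 1) * (p + 1) = k * (p + 1) + (p + 1) := by ring
    have g3 : K * (p + 1) = K * p + K := by ring
    have g4 : K * (4 * (p + 1)) = 4 * (K * p) + 4 * K := by ring
    refine (stop Λ ht dl cd h1 hcd c hc hc' hU hU1 n _ _ (by omega) w).trans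
      (mul_le_mul_right ?_ _)
    have hGT := GT_le Λ ht dl cd h1 hΛ.le hcd c hc hc' hU hU1 (m + k * (p + 1) - (p + 1)) ((p + 1) / 2) s
      (m + k * (p + 1)) (m + (k + 1) * (p + 1)) (p + 1) (4 * (p + 1)) (by omega) (by omega) (by omega) w
    refine hGT.trans (add_le_add (hI _ (by omega)) (add_le_add (hI _ (by omega))
      (mul_le_mul_right ?_ _)))
    have hsl : ∑' A, (if fp ht (m + k * (p + 1) - (p + 1)) A then
        LW Λ A * SLb Λ ht dl cd (4 * (p + 1)) s (act dl A w) else 0) ≤ (e1 : ℝ≥0∞) / K := by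
      calc _ ≤ ∑' A, (e1 : ℝ≥0∞) / K * (if fp ht (m + k * (p + 1) - (p + 1)) A then LW Λ A else 0) := by
            refine ENNReal.tsum_le_tsum fun A => ?_
            split_ifs
            · rw [mul_comm ((e1 : ℝ≥0∞) / K)]
              exact mul_le_mul_right (hHs _ (by omega) _) _
            · simp
        _ ≤ (e1 : ℝ≥0∞) / K * 1 := by
            rw [ENNReal.tsum_mul_left]
            exact mul_le_mul_right (FP178.sum_FP Λ ht h1 hΛ.le _) _
        _ = _ := mul_one _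
    have hwn := hW (4 * (p + 1)) (by omega) (m + k * (p + 1) - (p + 1)) (by omega) w
    refine le_trans (le_of_eq ?_) (add_le_add hsl hwn)
    rw [← ENNReal.tsum_add]
    refine tsum_congr fun A => ?_
    split_ifs
    · rw [mul_add]
    · simp
  refine (Finset.sum_le_sum key).trans ?_
  rw [Finset.sum_const, Finset.card_range, nsmul_eq_mul]
  calc (K : ℝ≥0∞) * (c⁻¹ * ((e1 : ℝ≥0∞) / K + ((e1 : ℝ≥0∞) / K + c⁻¹ * ((e1 : ℝ≥0∞) / K + (e1 : ℝ≥0∞) / K))))
      = (K * ((e1 : ℝ≥0∞) / K)) * C := by rw [hC]; ring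
    _ ≤ e1 * C := mul_le_mul_left ENNReal.mul_div_le _
    _ ≤ ε := he1'.le

end Crest.Agent.R154.JC598
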