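import Crest.Agent.R154.B5Abs_566

/-! Row 154 (T0219, joint cut frame, helper216): the thin slab.
The weight of the lists of blocks with a contact at depth in `[a, a + s)` tends to `0`. -/

set_option autoImplicit false

namespace Crest.Agent.R154.SlabJ216

open scoped ENNReal
open Crest.Agent.R154.B5A

variable {B W : Type*} (Λ : B → ℝ≥0∞) (ht : B → ℕ) (dl : B → W → W) (cd : W → B → Set ℕ)

lemma cd_split {L : List B} {w : W} {k : ℕ} (hk : k ∈ CD ht dl cd L w) :
    ∃ (A : List B) (b : B) (R : List B), L = A ++ b :: R ∧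
      ∃ k' ∈ cd (act dl A w) b, k = HT ht A + k' := by
  induction L generalizing w k with
  | nil => simp [CD] at hk
  | cons b L ih =>
    rcases hk with hk | ⟨k', hk', rfl⟩
    · exact ⟨[], b, L, rfl, k, hk, by simp [HT]⟩
    · obtain ⟨A, b', R, rfl, k'', hk'', e⟩ := ih hk'
      exact ⟨b :: A, b', R, rfl, k'', hk'', by simp only [e, HT_cons]; ring⟩

open Classical in
/-- contact in one given block, at a level in the slab -/
noncomputable def fb (a s : ℕ) (w : W) (b : B) : ℝ≥0∞ :=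
  ∑' A : List B, if ∃ k' ∈ cd (act dl A w) b, a ≤ HT ht A + k' ∧ HT ht A + k' < a + s
    then LW Λ A else 0

open Classical in
lemma slab_le (hU1 : ∀ n, U Λ ht n ≤ 1) (a s n : ℕ) (w : W) :
    ∑' L : List B, (if HT ht L = n ∧ ∃ k ∈ CD ht dl cd L w, a ≤ k ∧ k < a + s
      then LW Λ L else 0) ≤ ∑' b, Λ b * fb Λ ht dl cd a s w b := by
  set P : List B → Prop := fun L => HT ht L = n ∧ ∃ k ∈ CD ht dl cd L w, a ≤ k ∧ k < a + s with hP
  set g : List B × B × List B → ℝ≥0∞ := fun x =>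
    if HT ht x.2.2 = n - HT ht x.1 - ht x.2.1 ∧
      ∃ k' ∈ cd (act dl x.1 w) x.2.1, a ≤ HT ht x.1 + k' ∧ HT ht x.1 + k' < a + s
    then LW Λ x.1 * (Λ x.2.1 * LW Λ x.2.2) else 0 with hg
  have hex : ∀ L : {L // P L}, ∃ x : List B × B × List B, L.1 = x.1 ++ x.2.1 :: x.2.2 ∧
      (∃ k' ∈ cd (act dl x.1 w) x.2.1, a ≤ HT ht x.1 + k' ∧ HT ht x.1 + k' < a + s) := by
    rintro ⟨L, hL, k, hk, h1, h2⟩
    obtain ⟨A, b, R, e, k', hk', e'⟩ := cd_split ht dl cd hk
    refine ⟨(A, b, R), e, k', hk', ?_, ?_⟩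
    · show a ≤ HT ht A + k'
      omega
    · show HT ht A + k' < a + s
      omega
  choose σ hσ1 hσ2 using hex
  have hinj : Function.Injective σ := by
    intro L L' h
    apply Subtype.ext
    rw [hσ1 L, hσ1 L', h]
  have e1 : ∑' L : List B, (if P L then LW Λ L else 0) = ∑' L : {L // P L}, LW Λ L.1 := by
    have := tsum_subtype {L | P L} (fun L => LW Λ L)
    rw [show (∑' L : {L // P L}, LW Λ L.1) = ∑' L : ({L | P L} : Set (List B)), LW Λ L.1 from rfl,
      this]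
    refine tsum_congr fun L => ?_
    by_cases h : P L
    · rw [if_pos h, Set.indicator_of_mem (by exact h)]
    · rw [if_neg h, Set.indicator_of_notMem (by exact h)]
  calc _ = ∑' L : List B, (if P L then LW Λ L else 0) := rfl
    _ = ∑' L : {L // P L}, LW Λ L.1 := e1
    _ ≤ ∑' L : {L // P L}, g (σ L) := by
        refine ENNReal.tsum_le_tsum fun L => ?_
        have hh := L.2.1
        rw [hσ1 L, HT_append, HT_cons] at hh
        rw [hg]
        simp only
        rw [if_pos ⟨by omega, hσ2 L⟩]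
        conv_lhs => rw [hσ1 L, LW_append, LW_cons]
    _ ≤ ∑' x, g x := ENNReal.tsum_comp_le_tsum_of_injective hinj g
    _ = ∑' A : List B, ∑' b : B, ∑' R : List B, g (A, b, R) := by
        rw [ENNReal.tsum_prod']
        exact tsum_congr fun A => by rw [ENNReal.tsum_prod']
    _ ≤ ∑' A : List B, ∑' b : B, Λ b * (if ∃ k' ∈ cd (act dl A w) b,
          a ≤ HT ht A + k' ∧ HT ht A + k' < a + s then LW Λ A else 0) := by
        refine ENNReal.tsum_le_tsum fun A => ENNReal.tsum_le_tsum fun b => ?_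
        by_cases h : ∃ k' ∈ cd (act dl A w) b, a ≤ HT ht A + k' ∧ HT ht A + k' < a + s
        · rw [if_pos h]
          calc ∑' R : List B, g (A, b, R)
              = ∑' R : List B, LW Λ A * Λ b *
                (if HT ht R = n - HT ht A - ht b then LW Λ R else 0) := by
                refine tsum_congr fun R => ?_
                by_cases hR : HT ht R = n - HT ht A - ht b
                · rw [hg]; simp only; rw [if_pos ⟨hR, h⟩, if_pos hR, mul_assoc]
                · rw [hg]; simp only; rw [if_neg (fun hh => hR hh.1), if_neg hR, mul_zero]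
            _ = LW Λ A * Λ b * U Λ ht (n - HT ht A - ht b) := by rw [ENNReal.tsum_mul_left]; rfl
            _ ≤ LW Λ A * Λ b * 1 := mul_le_mul_right (hU1 _) _
            _ = Λ b * LW Λ A := by rw [mul_one, mul_comm]
        · rw [if_neg h, mul_zero]
          refine le_of_eq (ENNReal.tsum_eq_zero.2 fun R => ?_)
          rw [hg]; simp only; rw [if_neg (fun hh => h hh.2)]
    _ = _ := by
        rw [ENNReal.tsum_comm]
        refine tsum_congr fun b => ?_
        rw [fb, ENNReal.tsum_mul_left]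

open Classical in
lemma fb_le_levels (hcd : ∀ w b k, k ∈ cd w b → 1 ≤ k ∧ k ≤ ht b) (a s : ℕ) (w : W) (b : B) :
    fb Λ ht dl cd a s w b ≤ ∑ j ∈ Finset.range (s + ht b),
      ∑' A : List B, (if HT ht A + ht b = a + j ∧ cd (act dl A w) b ≠ ∅ then LW Λ A else 0) := by
  rw [fb, ← Summable.tsum_finsetSum (fun _ _ => ENNReal.summable)]
  refine ENNReal.tsum_le_tsum fun A => ?_
  by_cases h : ∃ k' ∈ cd (act dl A w) b, a ≤ HT ht A + k' ∧ HT ht A + k' < a + s
  · rw [if_pos h]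
    obtain ⟨k', hk', h1, h2⟩ := h
    have h3 := hcd _ _ _ hk'
    have hj : HT ht A + ht b - a ∈ Finset.range (s + ht b) := Finset.mem_range.2 (by omega)
    refine le_trans ?_ (Finset.single_le_sum (fun _ _ => zero_le) hj)
    rw [if_pos ⟨by omega, Set.nonempty_iff_ne_empty.1 ⟨k', hk'⟩⟩]
  · rw [if_neg h]; exact zero_le

open Classical in
lemma fb_le (hU1 : ∀ n, U Λ ht n ≤ 1) (hcd : ∀ w b k, k ∈ cd w b → 1 ≤ k ∧ k ≤ ht b)
    (a s : ℕ) (w : W) (b : B) : fb Λ ht dl cd a s w b ≤ (s + ht b : ℕ) := by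
  refine (fb_le_levels Λ ht dl cd hcd a s w b).trans ?_
  calc _ ≤ ∑ j ∈ Finset.range (s + ht b), (1 : ℝ≥0∞) := by
        refine Finset.sum_le_sum fun j _ => ?_
        refine le_trans ?_ (hU1 (a + j - ht b))
        rw [U]
        refine ENNReal.tsum_le_tsum fun A => ?_
        by_cases h : HT ht A + ht b = a + j ∧ cd (act dl A w) b ≠ ∅
        · rw [if_pos h, if_pos (by omega)]
        · rw [if_neg h]; exact zero_le
    _ = _ := by simp

open Classical in
lemma fb_small (hcd : ∀ w b k, k ∈ cd w b → 1 ≤ k ∧ k ≤ ht b)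
    (hfin : ∀ b, {w | cd w b ≠ ∅}.Finite)
    (hconc : ∀ ε : ℝ≥0∞, ε ≠ 0 → ∃ T : ℕ, ∀ n, T ≤ n → ∀ w w',
      ∑' L : List B, (if HT ht L = n ∧ act dl L w = w' then LW Λ L else 0) ≤ ε)
    (s : ℕ) (b : B) (ε : ℝ≥0∞) (hε : ε ≠ 0) :
    ∃ T : ℕ, ∀ a, T ≤ a → ∀ w, fb Λ ht dl cd a s w b ≤ ε := by
  set N : ℕ := (s + ht b) * (hfin b).toFinset.card with hN
  obtain ⟨T, hT⟩ := hconc (ε / (N + 1 : ℕ)) (by
    rw [Ne, ENNReal.div_eq_zero_iff, not_or]
    exact ⟨hε, ENNReal.natCast_ne_top _⟩)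
  refine ⟨T + ht b, fun a ha w => ?_⟩
  refine (fb_le_levels Λ ht dl cd hcd a s w b).trans ?_
  calc _ ≤ ∑ j ∈ Finset.range (s + ht b), ∑ w' ∈ (hfin b).toFinset, ε / (N + 1 : ℕ) := by
        refine Finset.sum_le_sum fun j _ => ?_
        calc _ ≤ ∑' A : List B, ∑ w' ∈ (hfin b).toFinset,
              (if HT ht A = a + j - ht b ∧ act dl A w = w' then LW Λ A else 0) := by
              refine ENNReal.tsum_le_tsum fun A => ?_
              by_cases h : HT ht A + ht b = a + j ∧ cd (act dl A w) b ≠ ∅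
              · rw [if_pos h]
                have hm : act dl A w ∈ (hfin b).toFinset := (hfin b).mem_toFinset.2 h.2
                refine le_trans ?_ (Finset.single_le_sum (fun _ _ => zero_le) hm)
                rw [if_pos ⟨by omega, rfl⟩]
              · rw [if_neg h]; exact zero_le
          _ = ∑ w' ∈ (hfin b).toFinset, ∑' A : List B,
              (if HT ht A = a + j - ht b ∧ act dl A w = w' then LW Λ A else 0) :=
              Summable.tsum_finsetSum (fun _ _ => ENNReal.summable)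
          _ ≤ _ := Finset.sum_le_sum fun w' _ => hT _ (by omega) w w'
    _ = (N : ℝ≥0∞) * (ε / (N + 1 : ℕ)) := by
        rw [Finset.sum_const, Finset.sum_const, Finset.card_range, nsmul_eq_mul, nsmul_eq_mul, hN]
        push_cast
        ring
    _ ≤ ((N + 1 : ℕ) : ℝ≥0∞) * (ε / (N + 1 : ℕ)) :=
        mul_le_mul_left (by exact_mod_cast Nat.le_succ N) _
    _ ≤ ε := ENNReal.mul_div_le

open Classical in
/-- **The thin slab in joint letters.** -/
theorem slabJ (h1 : ∀ b, 1 ≤ ht b) (hU1 : ∀ n, U Λ ht n ≤ 1)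
    (hmean : ∑' b, Λ b * (ht b : ℝ≥0∞) ≠ ⊤)
    (hcd : ∀ w b k, k ∈ cd w b → 1 ≤ k ∧ k ≤ ht b)
    (hfin : ∀ b, {w | cd w b ≠ ∅}.Finite)
    (hconc : ∀ ε : ℝ≥0∞, ε ≠ 0 → ∃ T : ℕ, ∀ n, T ≤ n → ∀ w w',
      ∑' L : List B, (if HT ht L = n ∧ act dl L w = w' then LW Λ L else 0) ≤ ε) :
    ∀ s : ℕ, ∀ η : ℝ≥0∞, η ≠ 0 → ∃ T : ℕ, ∀ a, T ≤ a → ∀ n, ∀ w,
      ∑' L : List B, (if HT ht L = n ∧ ∃ k ∈ CD ht dl cd L w, a ≤ k ∧ k < a + s
        then LW Λ L else 0) ≤ η := by
  intro s η hη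
  have hΛ1 : ∑' b, Λ b ≤ 1 := mass_le_one Λ ht h1 hU1
  have hsum : ∑' b, Λ b * ((s + ht b : ℕ) : ℝ≥0∞) ≠ ⊤ := by
    have : ∑' b, Λ b * ((s + ht b : ℕ) : ℝ≥0∞)
        = (∑' b, Λ b) * s + ∑' b, Λ b * (ht b : ℝ≥0∞) := by
      rw [← ENNReal.tsum_mul_right, ← ENNReal.tsum_add]
      exact tsum_congr fun b => by push_cast; ring
    rw [this]
    exact ENNReal.add_ne_top.2 ⟨ENNReal.mul_ne_top (ne_top_of_le_ne_top ENNReal.one_ne_top hΛ1)
      (ENNReal.natCast_ne_top s), hmean⟩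
  have hη2 : η / 2 ≠ 0 := (ENNReal.half_pos hη).ne'
  obtain ⟨S, hS⟩ : ∃ S : Finset B,
      ∑' b : {b // b ∉ S}, Λ b * ((s + ht b : ℕ) : ℝ≥0∞) ≤ η / 2 := by
    have := ENNReal.tendsto_tsum_compl_atTop_zero hsum
    have h2 := (ENNReal.tendsto_nhds_zero.1 this) (η / 2) (pos_iff_ne_zero.2 hη2)
    obtain ⟨S, hS⟩ := Filter.eventually_atTop.1 h2
    exact ⟨S, hS S le_rfl⟩
  have hT : ∀ b, ∃ T : ℕ, ∀ a, T ≤ a → ∀ w, fb Λ ht dl cd a s w b ≤ η / 2 := fun b =>
    fb_small Λ ht dl cd hcd hfin hconc s b _ hη2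
  choose T hT using hT
  refine ⟨∑ b ∈ S, T b, fun a ha n w => ?_⟩
  refine (slab_le Λ ht dl cd hU1 a s n w).trans ?_
  rw [← ENNReal.sum_add_tsum_compl S (fun b => Λ b * fb Λ ht dl cd a s w b)]
  calc _ ≤ η / 2 + η / 2 := by
        refine add_le_add ?_ ?_
        · calc ∑ b ∈ S, Λ b * fb Λ ht dl cd a s w b ≤ ∑ b ∈ S, Λ b * (η / 2) := by
                refine Finset.sum_le_sum fun b hb => mul_le_mul_right ?_ _
                exact hT b a ((Finset.single_le_sum (f := T) (fun _ _ => Nat.zero_le _) hb).trans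
                  ha) w
            _ = (∑ b ∈ S, Λ b) * (η / 2) := by rw [Finset.sum_mul]
            _ ≤ 1 * (η / 2) := mul_le_mul_left ((ENNReal.sum_le_tsum S).trans hΛ1) _
            _ = η / 2 := one_mul _
        · refine le_trans (ENNReal.tsum_le_tsum fun b => mul_le_mul_right ?_ _) hS
          exact fb_le Λ ht dl cd hU1 hcd a s w b
    _ = η := ENNReal.add_halves η

end Crest.Agent.R154.SlabJ216
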