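import Crest.Agent.R154.B5Br_657
import Crest.Agent.R154.Conc_926
import Crest.Agent.R154.SlabJ_216
import Crest.Agent.R154.Slab_689
import Crest.Agent.R154.PFDefs_692

/-! Row 154, NBProp (helper82): the point concentration (`hconc`), the slabs and `HPoint` at the
concrete pair letters `Lam ν u`, `ht u`, `dl u`, `cd u` of helper657. -/

set_option autoImplicit false

open MeasureTheory ProbabilityTheory Crest.ProbabilityR.RandomEnvironment
open scoped ENNReal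

namespace Crest.Agent.R154.JConc82

open Crest.Agent.R154.B5A Crest.Agent.R154.B5W
open Crest.Agent.R154.Flux566 (lw endp sitesL lev lev_add lev_neg lev_zero lev_self)
open Crest.Agent.R154.NB28 (IsUp IsDn)

variable {d : ℕ}

/-- displacement of a pair block -/
def zb (u : Step d) (b : PB u) : Site d := endp 0 b.1.1 + endp 0 b.1.2

lemma act_val (u : Step d) (L : List (PB u)) (w : Lat u) :
    (act (dl u) L w).1 = w.1 + (L.map (zb u)).sum := by
  induction L generalizing w with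
  | nil => simp [act]
  | cons b L ih =>
    rw [act, ih]
    simp only [List.map_cons, List.sum_cons, zb, dl, dlp]
    abel

lemma mem_up1 {E : Type*} (h : E → ℤ) (x : E) (hx : h x = 1) : [x] ∈ UpW h 1 := by
  refine ⟨by simp [lv, hx], fun p hp hne => ?_⟩
  rcases p with _ | ⟨a, p⟩
  · simp
  · rw [List.cons_prefix_cons, List.prefix_nil] at hp
    exact absurd (by rw [hp.1, hp.2]) hne

lemma mem_up2 {E : Type*} (h : E → ℤ) (e x : E) (he : h e = 0) (hx : h x = 1) :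
    [e, x] ∈ UpW h 1 := by
  refine ⟨by simp [lv, hx, he], fun p hp hne => ?_⟩
  rcases p with _ | ⟨a, _ | ⟨b, p⟩⟩
  · simp
  · rw [List.cons_prefix_cons] at hp
    simp [lv, hp.1, he]
  · rw [List.cons_prefix_cons, List.cons_prefix_cons, List.prefix_nil] at hp
    exact absurd (by rw [hp.1, hp.2.1, hp.2.2]) hne

lemma irr1 {E : Type*} {h h' : E → ℤ} {a b : List E} (ha : a ∈ UpW h 1) (hb : b ∈ UpW h' 1) :
    Irr h h' (a, b) := by
  refine ⟨1, le_rfl, ⟨ha, hb⟩, fun x y k l hx hy he => ?_⟩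
  have hxy : (a, b) ∈ PC h h' (k + l) := he ▸ pm_mem hx hy
  have h1 : (a, b) ∈ PC h h' 1 := ⟨ha, hb⟩
  have := PC_height hxy h1
  omega

variable (ν : Measure (Row d)) [IsProbabilityMeasure ν] (u : Step d)

lemma aw_ne (hν : ∀ᵐ p ∂ν, ∀ e : Step d, 0 < p.1 e) (l : List (Step d))
    (hl : (sitesL (0 : Site d) l).Nodup) : B5W.aw (iidEnvironmentLaw ν) l ≠ 0 := by
  obtain ⟨c, hc0, hc1, hc⟩ := FinE804.exists_c ν hν
  have := Flux566.ann_lw_ge ν (ENNReal.ofReal c) hc l 0 hl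
  intro h0
  unfold B5W.aw at h0
  rw [h0, nonpos_iff_eq_zero] at this
  exact (pow_ne_zero _ (by simpa using hc0)) this

lemma smul_step_ne (e : Step d) (k : ℕ) (hk : k ≠ 0) : k • stepVec e ≠ (0 : Site d) := by
  intro h
  have h1 := congrFun h e.1
  simp only [Pi.smul_apply, stepVec, Pi.single_eq_same, Pi.zero_apply, nsmul_eq_mul] at h1
  split_ifs at h1 <;> simp_all

/-- the two atoms -/
lemma atoms (hd : 2 ≤ d) (hν : ∀ᵐ p ∂ν, ∀ e : Step d, 0 < p.1 e) :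
    ∃ b1 b2 : PB u, ht u b1 = ht u b2 ∧ Lam ν u b1 ≠ 0 ∧ Lam ν u b2 ≠ 0 ∧
      ∀ k : ℕ, k ≠ 0 → k • (zb u b2 - zb u b1) ≠ 0 := by
  obtain ⟨i, hi⟩ : ∃ i : Fin d, i ≠ u.1 := by
    by_cases h0 : u.1 = ⟨0, by omega⟩
    · exact ⟨⟨1, by omega⟩, by rw [h0]; simp [Fin.ext_iff]⟩
    · exact ⟨⟨0, by omega⟩, fun h => h0 h.symm⟩
  set e : Step d := (i, true) with he
  have hse : stepVec e ≠ (0 : Site d) := by
    have := smul_step_ne e 1 one_ne_zero
    simpa using this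
  have hle : hu u e = 0 := by
    have : Flux132.lev u (stepVec e) = 0 := Flux132.lev_step_of_ne (by simpa [he] using hi)
    exact this
  have hlu : hu u u = 1 := Flux132.lev_step_self u
  have hlo : hdn u (Flux132.opp u) = 1 := by
    unfold hdn
    rw [stepVec_opp', lev_neg, lev_self]; simp
  have ho := mem_up1 (hdn u) (Flux132.opp u) hlo
  have hu1 := mem_up1 (hu u) u hlu
  have hu2 := mem_up2 (hu u) e u hle hlu
  refine ⟨⟨_, irr1 hu1 ho⟩, ⟨_, irr1 hu2 ho⟩, ?_, ?_, ?_, ?_⟩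
  · have e1 : hb (hu u) (hdn u) (⟨_, irr1 hu1 ho⟩ : PB u) = 1 := hb_eq ⟨hu1, ho⟩
    have e2 : hb (hu u) (hdn u) (⟨_, irr1 hu2 ho⟩ : PB u) = 1 := hb_eq ⟨hu2, ho⟩
    unfold ht
    rw [e1, e2]
  · exact mul_ne_zero (aw_ne ν hν _ (by simp [sitesL])) (aw_ne ν hν _ (by simp [sitesL]))
  · refine mul_ne_zero (aw_ne ν hν _ ?_) (aw_ne ν hν _ (by simp [sitesL]))
    simpa [sitesL] using hse.symm
  · intro k hk
    have : zb u (⟨_, irr1 hu2 ho⟩ : PB u) - zb u (⟨_, irr1 hu1 ho⟩ : PB u) = stepVec e := by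
      simp only [zb, endp]
      abel
    rw [this]
    exact smul_step_ne e k hk

lemma U_one (n : ℕ) : U (Lam ν u) (ht u) n ≤ 1 := by
  rw [U_eq28]
  exact mul_le_one' (sum_if_le_one ν fun l l' h h' hp => NB28.isUp_prefix h h' hp)
    (sum_if_le_one ν fun l l' h h' hp => NB28.isDn_prefix h h' hp)

section

variable {ν u} (hd : 2 ≤ d) (hν : ∀ᵐ p ∂ν, ∀ e : Step d, 0 < p.1 e) (c : ℝ≥0∞) (hc : c ≠ 0) (R : ℕ)
  (hU : ∀ n, R ≤ n → c ≤ U (Lam ν u) (ht u) n)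

include hc hU

lemma lam_one : ∑' b, Lam ν u b = 1 :=
  le_antisymm (mass_le_one _ _ one_le_hb (U_one ν u)) (mass_ge_one _ _ c hc R hU)

lemma mean_ne_top : ∑' b, Lam ν u b * (ht u b : ℝ≥0∞) ≠ ⊤ := by
  have hcle : c ≤ 1 := (hU R le_rfl).trans (U_one ν u R)
  have hc' : c ≠ ⊤ := ne_top_of_le_ne_top ENNReal.one_ne_top hcle
  exact ne_top_of_le_ne_top (ENNReal.inv_ne_top.2 hc)
    (mean_le _ _ one_le_hb (lam_one c hc R hU) c hc hc' R hU)

include hd hν

open Classical in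
/-- **point concentration of the displacement of a pair crossing of height `n`** -/
theorem jconc : ∀ ε : ℝ≥0∞, ε ≠ 0 → ∃ D : ℕ, ∀ n, D ≤ n → ∀ w w' : Lat u,
    (∑' L : List (PB u), if HT (ht u) L = n ∧ act (dl u) L w = w' then LW (Lam ν u) L else 0)
      ≤ ε := by
  intro ε hε
  obtain ⟨b1, b2, hh, hb1, hb2, hz⟩ := atoms ν u hd hν
  obtain ⟨N, hN⟩ := Conc926.conc (Lam ν u) (ht u) (zb u) one_le_hb (lam_one c hc R hU) (U_one ν u)
    (mean_ne_top c hc R hU) hh hb1 hb2 hz ε hε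
  refine ⟨N, fun n hn w w' => ?_⟩
  refine le_trans (ENNReal.tsum_le_tsum fun L => ?_) (hN n hn (w'.1 - w.1))
  by_cases h : HT (ht u) L = n ∧ act (dl u) L w = w'
  · rw [if_pos h, if_pos ⟨h.1, by rw [← h.2, act_val]; abel⟩]
  · rw [if_neg h]; exact bot_le

open Classical in
/-- every slab of fixed thickness deep below the top -/
theorem jslab : ∀ s : ℕ, ∀ η : ℝ≥0∞, η ≠ 0 → ∃ T : ℕ, ∀ a, T ≤ a → ∀ n, ∀ w : Lat u,
    (∑' L : List (PB u), if HT (ht u) L = n ∧ ∃ k ∈ CD (ht u) (dl u) (cd u) L w, a ≤ k ∧ k < a + s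
      then LW (Lam ν u) L else 0) ≤ η :=
  SlabJ216.slabJ (Lam ν u) (ht u) (dl u) (cd u) one_le_hb (U_one ν u) (mean_ne_top c hc R hU)
    (fun w b k hk => hcd u w b k hk) (hfar u) (jconc hd hν c hc R hU)

open Classical in
/-- 818's `hSlab` -/
theorem hSlab : ∀ s : ℕ, ∀ ε : ℝ≥0∞, ε ≠ 0 → ∃ D0 : ℕ, ∀ δ, D0 ≤ δ → ∀ w : Lat u,
    (∑' L : List (PB u), if HT (ht u) L = δ ∧ ∃ k ∈ CD (ht u) (dl u) (cd u) L w, δ < k + s
      then LW (Lam ν u) L else 0) ≤ ε :=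
  Slab689.slab (Lam ν u) (ht u) (dl u) (cd u) one_le_hb
    (fun w b k hk => hcd u w b k hk) (hinj u) (hfar u) (lam_one c hc R hU) (U_one ν u)
    (jconc hd hν c hc R hU)

/-- 692's `HPoint` -/
theorem hPoint : HPoint (Lam ν u) (ht u) (dl u) (cd u) := by
  classical
  intro ε hε
  obtain ⟨T, hT⟩ := jslab hd hν c hc R hU 1 ε hε
  refine ⟨T, fun k hk n _ w => le_trans (ENNReal.tsum_le_tsum fun L => ?_) (hT k hk n w)⟩
  by_cases h : HT (ht u) L = n ∧ k ∈ CD (ht u) (dl u) (cd u) L w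
  · rw [if_pos h, if_pos ⟨h.1, k, h.2, le_rfl, Nat.lt_succ_self k⟩]
  · rw [if_neg h]; exact bot_le

end

end Crest.Agent.R154.JConc82
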