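import Crest.Agent.R154.JChain_183

/-! Row 154, KAPPA' along joint renewal levels (helper183): the inclusion and the core estimate. -/

set_option autoImplicit false

namespace Crest.Agent.R154.J183

open Crest.Agent.R154.B5A
open scoped ENNReal

variable {B W : Type*} (Λ : B → ℝ≥0∞) (ht : B → ℕ) (dl : B → W → W) (cd : W → B → Set ℕ)

open Classical in
/-- mass of an event on the lists of height `n` -/
noncomputable def ms (n : ℕ) (E : List B → Prop) : ℝ≥0∞ :=
  ∑' L : List B, if HT ht L = n ∧ E L then LW Λ L else 0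

lemma ms_mono (n : ℕ) {E F : List B → Prop} (h : ∀ L, HT ht L = n → E L → F L) :
    ms Λ ht n E ≤ ms Λ ht n F := by
  classical
  refine ENNReal.tsum_le_tsum fun L => ?_
  by_cases h1 : HT ht L = n ∧ E L
  · rw [if_pos h1, if_pos ⟨h1.1, h L h1.1 h1.2⟩]
  · rw [if_neg h1]; exact zero_le

lemma ms_or (n : ℕ) (E F : List B → Prop) :
    ms Λ ht n (fun L => E L ∨ F L) ≤ ms Λ ht n E + ms Λ ht n F := by
  classical
  rw [ms, ms, ms, ← ENNReal.tsum_add]
  refine ENNReal.tsum_le_tsum fun L => ?_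
  by_cases h0 : HT ht L = n
  · by_cases h1 : E L <;> by_cases h2 : F L <;> simp [h0, h1, h2]
  · simp [h0]

lemma ms_un (n N : ℕ) (E : ℕ → List B → Prop) (δ : ℝ≥0∞) (h : ∀ i < N, ms Λ ht n (E i) ≤ δ) :
    ms Λ ht n (fun L => ∃ i < N, E i L) ≤ N * δ := by
  classical
  induction N with
  | zero => simp [ms]
  | succ N ih =>
    calc _ ≤ ms Λ ht n (fun L => (∃ i < N, E i L) ∨ E N L) := by
          refine ms_mono Λ ht n fun L _ hL => ?_
          obtain ⟨i, hi, hE⟩ := hL
          rcases Nat.lt_succ_iff_lt_or_eq.1 hi with h1 | rfl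
          · exact Or.inl ⟨i, h1, hE⟩
          · exact Or.inr hE
      _ ≤ _ := ms_or Λ ht n _ _
      _ ≤ N * δ + δ := add_le_add (ih fun i hi => h i (by omega)) (h N (by omega))
      _ = _ := by push_cast; ring

/-- lists which contain a smooth piece `S` of height `k` after a top part of height `g` -/
def Rs (k : ℕ) (σ : List B → Prop) (g r : ℕ) (Z : List B) : Prop :=
  ∃ A1 S A2, Z = A1 ++ (S ++ A2) ∧ HT ht A1 = g ∧ HT ht S = k ∧ σ S ∧ HT ht Z = r

open Classical in
lemma mu_sum (hU1 : ∀ n, U Λ ht n ≤ 1) (k : ℕ) (σ : List B → Prop) (g r : ℕ) (w : W) :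
    ∑' w', mu Λ dl (Rs ht k σ g r) w w' ≤ 1 := by
  have h := push Λ dl (Rs ht k σ g r) w (fun _ => 1)
  simp only [mul_one] at h
  rw [← h]
  refine le_trans (ENNReal.tsum_le_tsum fun Z => ?_) (hU1 r)
  split_ifs with h1 h2 h2
  · exact le_rfl
  · obtain ⟨A1, S, A2, -, -, -, -, h3⟩ := h1
    exact absurd h3 h2
  · exact zero_le
  · exact le_rfl

open Classical in
lemma mu_le (hU1 : ∀ n, U Λ ht n ≤ 1) (k : ℕ) (σ : List B → Prop) (M : ℝ≥0∞)
    (hM : ∀ A1 A2 w w', ∑' S : List B, (if HT ht S = k ∧ σ S ∧ act dl (A1 ++ (S ++ A2)) w = w'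
      then LW Λ S else 0) ≤ M) (g r : ℕ) (w w' : W) :
    mu Λ dl (Rs ht k σ g r) w w' ≤ M := by
  rw [mu]
  calc _ ≤ ∑' Z : List B, (if ∃ A1 C, Z = A1 ++ C ∧ (HT ht A1 = g ∧ ∃ S A2, C = S ++ A2 ∧
          (HT ht A2 = r - g - k ∧ HT ht S = k ∧ σ S ∧ act dl (A1 ++ (S ++ A2)) w = w'))
          then LW Λ Z else 0) := by
        refine ENNReal.tsum_le_tsum fun Z => ?_
        split_ifs with h1 h2 h2
        · exact le_rfl
        · exfalso
          obtain ⟨⟨A1, S, A2, h3, h4, h5, h6, h7⟩, h8⟩ := h1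
          refine h2 ⟨A1, S ++ A2, h3, h4, S, A2, rfl, ?_, h5, h6, ?_⟩
          · rw [h3, HT_append, HT_append] at h7; omega
          · rw [← h3]; exact h8
        · exact zero_le
        · exact le_rfl
    _ ≤ _ := app2 Λ (fun A1 C => HT ht A1 = g ∧ ∃ S A2,
            C = S ++ A2 ∧ (HT ht A2 = r - g - k ∧ HT ht S = k ∧ σ S ∧
            act dl (A1 ++ (S ++ A2)) w = w'))
    _ ≤ ∑' A1 : List B, (if HT ht A1 = g then LW Λ A1 else 0) * M := by
        refine ENNReal.tsum_le_tsum fun A1 => ?_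
        by_cases hg : HT ht A1 = g
        · rw [if_pos hg]
          refine (ENNReal.tsum_le_tsum (g := fun C => LW Λ A1 * (if ∃ S A2, C = S ++ A2 ∧
            (HT ht A2 = r - g - k ∧ HT ht S = k ∧ σ S ∧ act dl (A1 ++ (S ++ A2)) w = w')
            then LW Λ C else 0)) fun C => ?_).trans ?_
          · split_ifs with h1 h2 h2
            · exact le_rfl
            · exact absurd h1.2 h2
            · exact zero_le
            · exact zero_le
          · rw [ENNReal.tsum_mul_left]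
            refine mul_le_mul_right ?_ _
            refine (app2 Λ (fun S A2 => HT ht A2 = r - g - k ∧ HT ht S = k ∧ σ S ∧
              act dl (A1 ++ (S ++ A2)) w = w')).trans ?_
            rw [ENNReal.tsum_comm]
            calc _ ≤ ∑' A2 : List B, (if HT ht A2 = r - g - k then LW Λ A2 else 0) * M := by
                  refine ENNReal.tsum_le_tsum fun A2 => ?_
                  by_cases h2 : HT ht A2 = r - g - k
                  · rw [if_pos h2]
                    refine (ENNReal.tsum_le_tsum (g := fun S => LW Λ A2 * (if HT ht S = k ∧ σ S ∧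
                      act dl (A1 ++ (S ++ A2)) w = w' then LW Λ S else 0)) fun S => ?_).trans ?_
                    · split_ifs with h3 h4 h4
                      · rw [mul_comm]
                      · exact absurd h3.2 h4
                      · exact zero_le
                      · exact zero_le
                    · rw [ENNReal.tsum_mul_left]
                      exact mul_le_mul_right (hM A1 A2 w w') _
                  · simp [h2]
              _ = U Λ ht (r - g - k) * M := by rw [ENNReal.tsum_mul_right, U]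
              _ ≤ 1 * M := mul_le_mul_left (hU1 _) _
              _ = M := one_mul M
        · simp [hg]
    _ = U Λ ht g * M := by rw [ENNReal.tsum_mul_right, U]
    _ ≤ 1 * M := mul_le_mul_left (hU1 _) _
    _ = M := one_mul M

/-- one term of the window sum -/
lemma win (hU1 : ∀ n, U Λ ht n ≤ 1) (k : ℕ) (σ : List B → Prop) (M δ : ℝ≥0∞)
    (hM : ∀ A1 A2 w w', (∑' S : List B, open Classical in (if HT ht S = k ∧ σ S ∧
      act dl (A1 ++ (S ++ A2)) w = w' then LW Λ S else 0)) ≤ M)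
    (V : List B → W → Prop)
    (hV : ∀ f : W → ℝ≥0∞, ∑' w, f w ≤ 1 → (∀ w, f w ≤ M) →
      (∑' w', f w' * ∑' P, open Classical in (if V P w' then LW Λ P else 0)) ≤ δ)
    (n g r : ℕ) (w : W) :
    ms Λ ht n (fun L => ∃ Z P C, L = Z ++ (P ++ C) ∧ Rs ht k σ g r Z ∧ V P (act dl Z w)) ≤ δ := by
  classical
  rw [ms]
  refine (ev Λ ht dl hU1 n (Rs ht k σ g r) V w).trans ?_
  exact hV _ (mu_sum Λ ht dl hU1 k σ g r w) (fun w' => mu_le Λ ht dl hU1 k σ M hM g r w w')

/-- both walkers non-local -/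
lemma nonloc (h1 : ∀ b, 1 ≤ ht b) (hΛ : ∑' b, Λ b = 1) (hU1 : ∀ n, U Λ ht n ≤ 1) (τ τ' n : ℕ)
    (hτ : 1 ≤ τ) (V : List B → Prop) (v : ℝ≥0∞)
    (hV : ∀ k, (∑' P : List B, open Classical in (if HT ht P = k ∧ V P then LW Λ P else 0)) ≤ v) :
    ms Λ ht n (fun L => ∃ Z P b C, L = Z ++ ((P ++ [b]) ++ C) ∧ FP ht τ Z ∧
      HT ht Z + HT ht P < τ' ∧ τ' ≤ HT ht Z + HT ht P + ht b ∧ V P)
      ≤ (∑' b, Λ b * (ht b : ℝ≥0∞)) * v := by
  classical
  calc _ ≤ ms Λ ht n (fun L => ∃ A C, L = A ++ C ∧ ∃ Z Q, A = Z ++ Q ∧ (FP ht τ Z ∧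
        ∃ P b, Q = P ++ [b] ∧ HT ht P < τ' - HT ht Z ∧ τ' - HT ht Z ≤ HT ht P + ht b ∧ V P
          ∧ True)) := by
        refine ms_mono Λ ht n fun L _ hL => ?_
        obtain ⟨Z, P, b, C, h2, h3, h4, h5, h6⟩ := hL
        exact ⟨Z ++ (P ++ [b]), C, by rw [h2]; simp, Z, P ++ [b], rfl, h3, P, b, rfl, by omega,
          by omega, h6, trivial⟩
    _ ≤ ∑' A : List B, (if ∃ Z Q, A = Z ++ Q ∧ (FP ht τ Z ∧
        ∃ P b, Q = P ++ [b] ∧ HT ht P < τ' - HT ht Z ∧ τ' - HT ht Z ≤ HT ht P + ht b ∧ V P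
          ∧ True) then LW Λ A else 0) := app1 Λ ht hU1 n _
    _ ≤ _ := app2 Λ (fun Z Q => FP ht τ Z ∧
        ∃ P b, Q = P ++ [b] ∧ HT ht P < τ' - HT ht Z ∧ τ' - HT ht Z ≤ HT ht P + ht b ∧ V P
          ∧ True)
    _ ≤ ∑' Z : List B, (if FP ht τ Z then LW Λ Z else 0) *
          ((∑' b, Λ b * (ht b : ℝ≥0∞)) * v) := by
        refine ENNReal.tsum_le_tsum fun Z => ?_
        by_cases hZ : FP ht τ Z
        · rw [if_pos hZ]
          refine (ENNReal.tsum_le_tsum (g := fun Q => LW Λ Z * (if ∃ P b, Q = P ++ [b] ∧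
            HT ht P < τ' - HT ht Z ∧ τ' - HT ht Z ≤ HT ht P + ht b ∧ V P ∧ True
            then LW Λ Q else 0)) fun Q => ?_).trans ?_
          · split_ifs with h2 h3 h3
            · exact le_rfl
            · exact absurd h2.2 h3
            · exact zero_le
            · exact zero_le
          · rw [ENNReal.tsum_mul_left]
            refine mul_le_mul_right ?_ _
            refine (cov Λ ht (τ' - HT ht Z) V (fun _ => True) v (fun k _ => hV k)).trans ?_
            simp
        · simp [hZ]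
    _ = _ := by rw [ENNReal.tsum_mul_right, FP_mass Λ ht h1 hΛ τ hτ, one_mul]

end Crest.Agent.R154.J183
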