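import Crest.Agent.R154.FP_178

/-! Row 154 (helper199), ROAD 801 in the joint-cut frame (692 / 818): density of the displacement
over first-passage lists, with hits of exact height `h`. -/

set_option autoImplicit false

namespace Crest.Agent.R154.JD199

open scoped ENNReal
open Crest.Agent.R154.B5A Crest.Agent.R154.FP178

variable {B W : Type*} (Λ : B → ℝ≥0∞) (ht : B → ℕ) (dl : B → W → W)

lemma fp_of_HT (h1 : ∀ b, 1 ≤ ht b) {h : ℕ} {L : List B} (hL : HT ht L = h) : fp ht h L := by
  induction L generalizing h with
  | nil => rw [fp_nil, ← hL, HT_nil]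
  | cons b L ih =>
    rw [HT_cons] at hL
    have := h1 b
    exact (fp_cons ht h b L).2 ⟨by omega, ih (by omega)⟩

lemma act_inj (hinj : ∀ b, Function.Injective (dl b)) (L : List B) :
    Function.Injective (act dl L) := by
  induction L with
  | nil => exact fun _ _ h => h
  | cons b L ih => exact ih.comp (hinj b)

open Classical in
/-- law of the displacement at the first passage of `T` -/
noncomputable def law (T : ℕ) (w x : W) : ℝ≥0∞ :=
  ∑' L, (if fp ht T L then LW Λ L * (if act dl L w = x then 1 else 0) else 0)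

open Classical in
lemma law_split (h1 : ∀ b, 1 ≤ ht b) (h T : ℕ) (hT : h ≤ T) (w x : W) :
    law Λ ht dl T w x = ∑' A, (if fp ht h A then
      LW Λ A * law Λ ht dl (T - HT ht A) (act dl A w) x else 0) := by
  rw [law, fp_split Λ ht h1 h T hT]
  refine tsum_congr fun A => ?_
  simp only [law, act_append]

open Classical in
lemma sum_law (h1 : ∀ b, 1 ≤ ht b) (hΛ : ∑' b, Λ b ≤ 1) (T : ℕ) (w : W) :
    ∑' x, law Λ ht dl T w x ≤ 1 := by
  unfold law
  rw [ENNReal.tsum_comm]
  refine le_trans (ENNReal.tsum_le_tsum fun L => ?_) (sum_FP Λ ht h1 hΛ T)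
  by_cases h : fp ht T L
  · simp only [if_pos h]
    rw [ENNReal.tsum_mul_left, tsum_eq_single (act dl L w)]
    · simp
    · intro y hy; rw [if_neg hy.symm]
  · simp [h]

open Classical in
lemma sum_law' (h1 : ∀ b, 1 ≤ ht b) (hΛ : ∑' b, Λ b ≤ 1)
    (hinj : ∀ b, Function.Injective (dl b)) (T : ℕ) (x : W) :
    ∑' w, law Λ ht dl T w x ≤ 1 := by
  unfold law
  rw [ENNReal.tsum_comm]
  refine le_trans (ENNReal.tsum_le_tsum fun L => ?_) (sum_FP Λ ht h1 hΛ T)
  by_cases h : fp ht T L
  · simp only [if_pos h]
    rw [ENNReal.tsum_mul_left]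
    have : ∑' w, (if act dl L w = x then (1 : ℝ≥0∞) else 0) ≤ 1 := by
      by_cases he : ∃ w, act dl L w = x
      · obtain ⟨w, hw⟩ := he
        rw [tsum_eq_single w]
        · rw [if_pos hw]
        · intro y hy
          rw [if_neg]
          intro h'
          exact hy (act_inj dl hinj L (h'.trans hw.symm))
      · push Not at he
        simp [he]
    calc LW Λ L * _ ≤ LW Λ L * 1 := mul_le_mul_right this _
      _ = LW Λ L := mul_one _
  · simp [h]

open Classical in
/-- **density over first-passage lists** -/
theorem dens (h1 : ∀ b, 1 ≤ ht b) (hΛ : ∑' b, Λ b ≤ 1)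
    (hinj : ∀ b, Function.Injective (dl b)) (h : ℕ) (hh : 1 ≤ h)
    (Hit : List B → Prop) (hHit : ∀ L, Hit L → HT ht L = h) (q th τ : ℝ≥0∞)
    (hq : q ≤ ∑' L, (if Hit L then LW Λ L else 0))
    (hth : ∀ w y, ∑' L, (if Hit L ∧ act dl L w = y then LW Λ L else 0) ≤ th)
    (hτ : ∑' L, (if fp ht h L ∧ h + h < HT ht L then LW Λ L else 0) ≤ τ) :
    ∀ N : ℕ, ∃ bad : ℕ → W → W → ℝ≥0∞, ∀ T w, 2 * h * N ≤ T →
      ∑' x, bad T w x ≤ (1 - q) ^ N + N * τ ∧ ∀ x, law Λ ht dl T w x ≤ N * th + bad T w x := by
  intro N
  induction N with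
  | zero =>
    refine ⟨law Λ ht dl, fun T w _ => ⟨?_, fun x => ?_⟩⟩
    · simpa using sum_law Λ ht dl h1 hΛ T w
    · simp
  | succ N ih =>
    obtain ⟨bad, hbad⟩ := ih
    -- the remaining factor
    set R : ℕ → W → List B → W → ℝ≥0∞ := fun T w A x =>
      if Hit A then 0 else if HT ht A ≤ 2 * h then bad (T - HT ht A) (act dl A w) x
        else law Λ ht dl (T - HT ht A) (act dl A w) x with hR
    refine ⟨fun T w x => ∑' A, (if fp ht h A then LW Λ A * R T w A x else 0), fun T w hT => ?_⟩
    have hT' : 2 * h * N + 2 * h ≤ T := by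
      have : 2 * h * (N + 1) = 2 * h * N + 2 * h := by ring
      omega
    have hnh : ∑' A, (if fp ht h A ∧ ¬ Hit A then LW Λ A else 0) ≤ 1 - q := by
      have e : ∑' A, (if fp ht h A then LW Λ A else 0)
          = ∑' A, (if fp ht h A ∧ ¬ Hit A then LW Λ A else 0)
            + ∑' L, (if Hit L then LW Λ L else 0) := by
        rw [← ENNReal.tsum_add]
        refine tsum_congr fun A => ?_
        by_cases hA : Hit A
        · have := fp_of_HT ht h1 (hHit A hA)
          simp [hA, this]
        · by_cases hf : fp ht h A <;> simp [hA, hf]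
      have hle := sum_FP Λ ht h1 hΛ h
      rw [e] at hle
      have h3 : ∑' A, (if fp ht h A ∧ ¬ Hit A then LW Λ A else 0) + q ≤ 1 :=
        (add_le_add le_rfl hq).trans hle
      have hqt : q ≠ ⊤ := ne_top_of_le_ne_top ENNReal.one_ne_top (le_add_self.trans h3)
      exact ENNReal.le_sub_of_add_le_right hqt h3
    refine ⟨?_, fun x => ?_⟩
    · rw [ENNReal.tsum_comm]
      have hb : ∀ A, ∑' x, (if fp ht h A then LW Λ A * R T w A x else 0)
          ≤ (if fp ht h A ∧ ¬ Hit A then LW Λ A else 0) * ((1 - q) ^ N + N * τ)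
            + (if fp ht h A ∧ h + h < HT ht A then LW Λ A else 0) := by
        intro A
        by_cases hf : fp ht h A
        · simp only [if_pos hf]
          rw [ENNReal.tsum_mul_left]
          by_cases hA : Hit A
          · simp [hR, hA]
          · by_cases h2 : HT ht A ≤ 2 * h
            · simp only [hR, if_neg hA, if_pos h2]
              rw [if_pos ⟨hf, hA⟩]
              refine le_trans (mul_le_mul_right (hbad _ _ (by omega)).1 _) le_self_add
            · simp only [hR, if_neg hA, if_neg h2]
              rw [if_pos (⟨hf, by omega⟩ : fp ht h A ∧ h + h < HT ht A)]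
              calc LW Λ A * _ ≤ LW Λ A * 1 := mul_le_mul_right (sum_law Λ ht dl h1 hΛ _ _) _
                _ = LW Λ A := mul_one _
                _ ≤ _ := le_add_self
        · simp [hf]
      refine (ENNReal.tsum_le_tsum hb).trans ?_
      rw [ENNReal.tsum_add, ENNReal.tsum_mul_right]
      have hq1 : (1 - q) * (N * τ) ≤ N * τ := by
        calc (1 - q) * (N * τ) ≤ 1 * (N * τ) := mul_le_mul_left tsub_le_self _
          _ = _ := one_mul _
      calc _ ≤ (1 - q) * ((1 - q) ^ N + N * τ) + τ :=
            add_le_add (mul_le_mul_left hnh _) hτ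
        _ = (1 - q) ^ (N + 1) + ((1 - q) * (N * τ) + τ) := by rw [mul_add, pow_succ]; ring
        _ ≤ (1 - q) ^ (N + 1) + (N * τ + τ) := by gcongr
        _ = _ := by push_cast; ring
    · rw [law_split Λ ht dl h1 h T (by nlinarith) w x]
      have hb : ∀ A, (if fp ht h A then LW Λ A * law Λ ht dl (T - HT ht A) (act dl A w) x else 0)
          ≤ (if Hit A then LW Λ A * law Λ ht dl (T - h) (act dl A w) x else 0)
            + ((if fp ht h A then LW Λ A else 0) * (N * th)
            + (if fp ht h A then LW Λ A * R T w A x else 0)) := by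
        intro A
        by_cases hf : fp ht h A
        · simp only [if_pos hf]
          by_cases hA : Hit A
          · rw [if_pos hA, hHit A hA]; exact le_self_add
          · by_cases h2 : HT ht A ≤ 2 * h
            · rw [if_neg hA, zero_add, ← mul_add]
              simp only [hR, if_neg hA, if_pos h2]
              exact mul_le_mul_right ((hbad _ _ (by omega)).2 x) _
            · rw [if_neg hA, zero_add, ← mul_add]
              simp only [hR, if_neg hA, if_neg h2]
              exact mul_le_mul_right le_add_self _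
        · simp [hf]
      refine (ENNReal.tsum_le_tsum hb).trans ?_
      rw [ENNReal.tsum_add, ENNReal.tsum_add, ENNReal.tsum_mul_right]
      have e1 : ∑' A, (if Hit A then LW Λ A * law Λ ht dl (T - h) (act dl A w) x else 0) ≤ th := by
        calc ∑' A, (if Hit A then LW Λ A * law Λ ht dl (T - h) (act dl A w) x else 0)
            = ∑' A, ∑' y, (if Hit A ∧ act dl A w = y then LW Λ A else 0)
                * law Λ ht dl (T - h) y x := by
              refine tsum_congr fun A => ?_
              rw [tsum_eq_single (act dl A w)]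
              · by_cases hA : Hit A <;> simp [hA]
              · intro y hy
                rw [if_neg (fun h' => hy h'.2.symm), zero_mul]
          _ = ∑' y, (∑' A, (if Hit A ∧ act dl A w = y then LW Λ A else 0))
                * law Λ ht dl (T - h) y x := by
              rw [ENNReal.tsum_comm]
              exact tsum_congr fun y => ENNReal.tsum_mul_right
          _ ≤ ∑' y, th * law Λ ht dl (T - h) y x :=
              ENNReal.tsum_le_tsum fun y => mul_le_mul_left (hth w y) _
          _ = th * ∑' y, law Λ ht dl (T - h) y x := ENNReal.tsum_mul_left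
          _ ≤ th * 1 := mul_le_mul_right (sum_law' Λ ht dl h1 hΛ hinj _ _) _
          _ = th := mul_one _
      calc _ ≤ th + (1 * (N * th) + _) :=
            add_le_add e1 (add_le_add (mul_le_mul_left (sum_FP Λ ht h1 hΛ h) _) le_rfl)
        _ = _ := by push_cast; ring

end Crest.Agent.R154.JD199
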