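import Crest.Agent.R154.JC_358

/-! Row 154, T0219 (helper358): one window of the first contact (joint cuts, abstract). -/

set_option autoImplicit false

namespace Crest.Agent.R154.J358

open scoped ENNReal
open Crest.Agent.R154.B5A

variable {B V : Type*} (Λ : B → ℝ≥0∞) (ht : B → ℕ) [AddCommGroup V] (zX zY : B → V)
  (cd : V → B → Set ℕ)

/-- sum of tails -/
noncomputable def T (r : ℕ) : ℝ≥0∞ := ∑' k, tail Λ ht (k + r)

lemma sum_by (I : List B → ℝ≥0∞) (f : ℕ → ℝ≥0∞) :
    ∑' L, LW Λ L * I L * f (HT ht L)
      = ∑' h, f h * ∑' L, (if HT ht L = h then LW Λ L * I L else 0) := by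
  simp_rw [← ENNReal.tsum_mul_left]
  rw [ENNReal.tsum_comm]
  refine tsum_congr fun L => ?_
  rw [tsum_eq_single (HT ht L)]
  · simp [mul_comm]
  · intro j hj; rw [if_neg (fun h => hj h.symm), mul_zero]

/-- weights of the last cut at depth `≤ g` -/
noncomputable def lc (g h : ℕ) : ℝ≥0∞ := if h ≤ g then tail Λ ht (g - h) else 0

lemma sum_lc (g : ℕ) : ∑' h, lc Λ ht g h ≤ T Λ ht 0 := by
  calc ∑' h, lc Λ ht g h = ∑ h ∈ Finset.range (g + 1), tail Λ ht (g - h) := by
        rw [tsum_eq_sum (s := Finset.range (g + 1))]
        · exact Finset.sum_congr rfl fun h hh => if_pos (by have := Finset.mem_range.1 hh; omega)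
        · intro h hh; exact if_neg (by intro h'; exact hh (Finset.mem_range.2 (by omega)))
    _ = ∑ h ∈ Finset.range (g + 1), tail Λ ht (h + 0) := by
        rw [← Finset.sum_range_reflect]
        refine Finset.sum_congr rfl fun h hh => ?_
        have := Finset.mem_range.1 hh
        congr 1; omega
    _ ≤ _ := ENNReal.sum_le_tsum _

lemma sum_lc2 (q r : ℕ) : ∑' h, (if h < q then lc Λ ht (q + r) h else 0) ≤ T Λ ht r := by
  calc ∑' h, (if h < q then lc Λ ht (q + r) h else 0)
      = ∑ h ∈ Finset.range q, tail Λ ht (q + r - h) := by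
        rw [tsum_eq_sum (s := Finset.range q)]
        · refine Finset.sum_congr rfl fun h hh => ?_
          have := Finset.mem_range.1 hh
          rw [if_pos this, lc, if_pos (by omega)]
        · intro h hh; exact if_neg (by simpa using hh)
    _ = ∑ h ∈ Finset.range q, tail Λ ht (h + 1 + r) := by
        rw [← Finset.sum_range_reflect]
        refine Finset.sum_congr rfl fun h hh => ?_
        have := Finset.mem_range.1 hh
        congr 1; omega
    _ ≤ ∑' h, tail Λ ht (h + 1 + r) := ENNReal.sum_le_tsum _
    _ ≤ _ := ENNReal.tsum_comp_le_tsum_of_injective (f := fun h : ℕ => h + 1)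
        (fun a b h => by simpa using h) (fun k => tail Λ ht (k + r))

open Classical in
/-- indicator of the bad pieces -/
noncomputable def IL (r s : ℕ) (x : V) (L : List B) : ℝ≥0∞ :=
  if HT ht L < 7 * r ∨ (∃ k ∈ CD ht (dl zX zY) cd L x, HT ht L < k + s) ∨ ev ht zX zY cd s L x
  then 1 else 0

open Classical in
lemma IL_sum (hU1 : ∀ n, U Λ ht n ≤ 1) (r s h : ℕ) (x : V) :
    ∑' L, (if HT ht L = h then LW Λ L * IL ht zX zY cd r s x L else 0)
      ≤ if h < 7 * r then 1 else SLB Λ ht zX zY cd s h x + QE Λ ht zX zY cd s h (fun _ => True) x := by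
  split_ifs with hh
  · refine le_trans (ENNReal.tsum_le_tsum fun L => ?_) (hU1 h)
    by_cases h1 : HT ht L = h
    · rw [if_pos h1, if_pos h1]
      calc _ ≤ LW Λ L * 1 := by
            refine mul_le_mul_right ?_ _
            rw [IL]; split_ifs <;> simp
        _ = _ := mul_one _
    · rw [if_neg h1]; exact zero_le
  · rw [SLB, QE, ← ENNReal.tsum_add]
    refine ENNReal.tsum_le_tsum fun L => ?_
    by_cases h1 : HT ht L = h
    · subst h1
      rw [if_pos rfl, IL]
      by_cases h2 : ∃ k ∈ CD ht (dl zX zY) cd L x, HT ht L < k + s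
      · rw [if_pos (Or.inr (Or.inl h2)), if_pos (⟨rfl, h2⟩ : HT ht L = HT ht L ∧ _), mul_one]
        exact le_self_add
      · by_cases h3 : ev ht zX zY cd s L x
        · rw [if_pos (Or.inr (Or.inr h3)),
            if_pos (⟨rfl, trivial, h3⟩ : HT ht L = HT ht L ∧ True ∧ _), mul_one]
          exact le_add_self
        · rw [if_neg (by rintro (h' | h' | h'); exacts [hh h', h2 h', h3 h']), mul_zero]
          exact zero_le
    · rw [if_neg h1]; exact zero_le

open Classical in
/-- weight of the lists of height `n` with first contact in `(a + 2r, a + 4r]` -/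
noncomputable def Wk (n a r : ℕ) (w : V) : ℝ≥0∞ :=
  ∑' L, if HT ht L = n ∧ (∀ k ∈ CD ht (dl zX zY) cd L w, a + 2 * r < k) ∧
    ∃ k ∈ CD ht (dl zX zY) cd L w, k ≤ a + 4 * r then LW Λ L else 0

open Classical in
lemma key (hcd : ∀ w b k, k ∈ cd w b → 1 ≤ k ∧ k ≤ ht b) (a r s : ℕ) (hs : s ≤ r) (w : V)
    (L1 Lp L3 : List B) (hL1 : a ≤ HT ht L1) (hL1' : HT ht L1 ≤ a + r)
    (hall : ∀ k ∈ CD ht (dl zX zY) cd (L1 ++ (Lp ++ L3)) w, a + 2 * r < k)
    (hex : ∃ k ∈ CD ht (dl zX zY) cd (L1 ++ (Lp ++ L3)) w, k ≤ a + 4 * r) :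
    IL ht zX zY cd r s (w + Z (dz zX zY) L1) Lp = 1 := by
  rw [IL, if_pos]
  by_cases h7 : HT ht Lp < 7 * r
  · exact Or.inl h7
  · right
    by_cases h2 : ∃ k ∈ CD ht (dl zX zY) cd Lp (w + Z (dz zX zY) L1), HT ht Lp < k + s
    · exact Or.inl h2
    · right
      push Not at h2
      rw [CD_append, CD_append, act_dl] at hall hex
      refine ⟨?_, fun k hk => ⟨?_, h2 k hk⟩⟩
      · obtain ⟨k, hk, hk4⟩ := hex
        rcases hk with hk | ⟨k', hk', rfl⟩
        · have h3 := CD_pos ht (dl zX zY) cd hcd L1 w k hk
          have h4 := hall k (Or.inl hk)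
          omega
        · rcases hk' with hk' | ⟨k'', hk'', rfl⟩
          · exact Set.nonempty_iff_ne_empty.1 ⟨k', hk'⟩
          · have h3 := CD_pos ht (dl zX zY) cd hcd L3 _ k'' hk''
            simp only at hk4
            omega
      · have h4 := hall (HT ht L1 + k) (Or.inr ⟨k, Or.inl hk, rfl⟩)
        omega

open Classical in
lemma window (hcd : ∀ w b k, k ∈ cd w b → 1 ≤ k ∧ k ≤ ht b) (hU1 : ∀ n, U Λ ht n ≤ 1)
    (n a r s : ℕ) (hn : a + 9 * r + 1 ≤ n) (ha : a ≠ 0) (hs : s ≤ r) (w : V) (X : ℝ≥0∞)
    (hX : ∀ h, 7 * r ≤ h → h ≤ 8 * r → ∑' L1, (if FP ht a L1 then LW Λ L1 *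
      (SLB Λ ht zX zY cd s h (w + Z (dz zX zY) L1) +
        QE Λ ht zX zY cd s h (fun _ => True) (w + Z (dz zX zY) L1)) else 0) ≤ X)
    (hFP : ∑' L, (if FP ht a L then LW Λ L else 0) ≤ 1) :
    Wk Λ ht zX zY cd n a r w ≤ T Λ ht r + (T Λ ht r + T Λ ht 0 * X) := by
  set F : List B → ℝ≥0∞ := fun L => if HT ht L = n ∧ (∀ k ∈ CD ht (dl zX zY) cd L w,
    a + 2 * r < k) ∧ ∃ k ∈ CD ht (dl zX zY) cd L w, k ≤ a + 4 * r then LW Λ L else 0 with hF
  -- the sum over the rest, for each `L1`
  have step : ∀ L1, FP ht a L1 → ∑' L2, F (L1 ++ L2) ≤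
      (if FP ht a L1 ∧ a + (r + 1) ≤ HT ht L1 then LW Λ L1 else 0) +
      LW Λ L1 * ∑' h, lc Λ ht (8 * r) h * (if h < 7 * r then 1 else
        SLB Λ ht zX zY cd s h (w + Z (dz zX zY) L1) +
        QE Λ ht zX zY cd s h (fun _ => True) (w + Z (dz zX zY) L1)) := by
    intro L1 hL1
    by_cases hr1 : a + (r + 1) ≤ HT ht L1
    · rw [if_pos ⟨hL1, hr1⟩]
      refine le_trans ?_ le_self_add
      calc ∑' L2, F (L1 ++ L2) ≤ ∑' L2, LW Λ L1 * (if HT ht L2 = n - HT ht L1 then LW Λ L2
            else 0) := by
            refine ENNReal.tsum_le_tsum fun L2 => ?_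
            simp only [hF]
            split_ifs with h1 h2
            · rw [LW_append]
            · exfalso; apply h2; have := h1.1; rw [HT_append] at this; omega
            · exact zero_le
            · exact zero_le
        _ = LW Λ L1 * U Λ ht (n - HT ht L1) := ENNReal.tsum_mul_left
        _ ≤ LW Λ L1 * 1 := mul_le_mul_right (hU1 _) _
        _ = _ := mul_one _
    · refine le_trans ?_ le_add_self
      have hr2 : HT ht L1 ≤ a + r := by omega
      set x := w + Z (dz zX zY) L1 with hx
      calc ∑' L2, F (L1 ++ L2)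
          ≤ ∑' L2, ∑' L3, (if FP ht (8 * r + 1) L2 then F (L1 ++ (L2 ++ L3)) else 0) := by
            refine split_le (fun L => F (L1 ++ L)) (fun L2 _ => FP ht (8 * r + 1) L2) ?_
            intro L hL
            have hc : HT ht (L1 ++ L) = n := by
              by_contra hn'
              apply hL
              simp only [hF]
              rw [if_neg (fun h' => hn' h'.1)]
            rw [HT_append] at hc
            obtain ⟨La, Lb, e, h0⟩ := exists_FP ht (8 * r + 1) L (by omega)
            exact ⟨La, Lb, e, h0⟩
        _ = ∑' L2, (if FP ht (8 * r + 1) L2 then ∑' L3, F (L1 ++ (L2 ++ L3)) else 0) := by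
            refine tsum_congr fun L2 => ?_
            by_cases h : FP ht (8 * r + 1) L2 <;> simp [h]
        _ ≤ ∑' Lp, ∑' b, (if HT ht Lp < 8 * r + 1 ∧ 8 * r + 1 ≤ HT ht Lp + ht b then
              ∑' L3, F (L1 ++ ((Lp ++ [b]) ++ L3)) else 0) :=
            FP_sum_le ht (8 * r + 1) (by omega) _
        _ ≤ ∑' Lp, ∑' b, (if HT ht Lp < 8 * r + 1 ∧ 8 * r + 1 ≤ HT ht Lp + ht b then
              LW Λ L1 * (LW Λ Lp * IL ht zX zY cd r s x Lp) * Λ b else 0) := by
            refine ENNReal.tsum_le_tsum fun Lp => ENNReal.tsum_le_tsum fun b => ?_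
            by_cases hb : HT ht Lp < 8 * r + 1 ∧ 8 * r + 1 ≤ HT ht Lp + ht b
            · rw [if_pos hb, if_pos hb]
              calc ∑' L3, F (L1 ++ ((Lp ++ [b]) ++ L3))
                  ≤ ∑' L3, (LW Λ L1 * (LW Λ Lp * IL ht zX zY cd r s x Lp) * Λ b) *
                    (if HT ht L3 = n - HT ht L1 - HT ht Lp - ht b then LW Λ L3 else 0) := by
                    refine ENNReal.tsum_le_tsum fun L3 => ?_
                    have e : L1 ++ ((Lp ++ [b]) ++ L3) = L1 ++ (Lp ++ ([b] ++ L3)) := by simp
                    simp only [hF]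
                    split_ifs with h1 h2
                    · have hI : IL ht zX zY cd r s x Lp = 1 := by
                        rw [e] at h1
                        exact key ht zX zY cd hcd a r s hs w L1 Lp ([b] ++ L3) hL1.1 hr2 h1.2.1
                          h1.2.2
                      rw [hI, LW_append, LW_append, LW_append]
                      simp only [LW, List.map_cons, List.map_nil, List.prod_cons, List.prod_nil,
                        mul_one]
                      apply le_of_eq; ring
                    · exfalso; apply h2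
                      have h3 := h1.1
                      rw [HT_append, HT_append, HT_append] at h3
                      have h4 : HT ht [b] = ht b := by simp [HT]
                      omega
                    · exact zero_le
                    · exact zero_le
                _ = (LW Λ L1 * (LW Λ Lp * IL ht zX zY cd r s x Lp) * Λ b) *
                    U Λ ht (n - HT ht L1 - HT ht Lp - ht b) := ENNReal.tsum_mul_left
                _ ≤ (LW Λ L1 * (LW Λ Lp * IL ht zX zY cd r s x Lp) * Λ b) * 1 :=
                    mul_le_mul_right (hU1 _) _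
                _ = _ := mul_one _
            · rw [if_neg hb]; exact zero_le
        _ ≤ ∑' Lp, LW Λ L1 * (LW Λ Lp * IL ht zX zY cd r s x Lp * lc Λ ht (8 * r) (HT ht Lp)) := by
            refine ENNReal.tsum_le_tsum fun Lp => ?_
            by_cases hp : HT ht Lp ≤ 8 * r
            · have e2 : LW Λ L1 * (LW Λ Lp * IL ht zX zY cd r s x Lp * lc Λ ht (8 * r) (HT ht Lp))
                  = (LW Λ L1 * (LW Λ Lp * IL ht zX zY cd r s x Lp)) * lc Λ ht (8 * r) (HT ht Lp) := by
                ring
              rw [e2, lc, if_pos hp, tail, ← ENNReal.tsum_mul_left]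
              refine ENNReal.tsum_le_tsum fun b => ?_
              split_ifs with h1 h2
              · exact le_rfl
              · exact absurd h1.2 (by omega)
              · exact zero_le
              · exact zero_le
            · refine le_trans (le_of_eq ?_) zero_le
              rw [ENNReal.tsum_eq_zero]
              intro b; exact if_neg (fun h' => hp (by omega))
        _ = LW Λ L1 * ∑' h, lc Λ ht (8 * r) h *
              ∑' L, (if HT ht L = h then LW Λ L * IL ht zX zY cd r s x L else 0) := by
            rw [ENNReal.tsum_mul_left, sum_by]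
        _ ≤ _ := by
            refine mul_le_mul_right (ENNReal.tsum_le_tsum fun h => mul_le_mul_right ?_ _) _
            exact IL_sum Λ ht zX zY cd hU1 r s h x
  calc Wk Λ ht zX zY cd n a r w = ∑' L, F L := rfl
    _ ≤ ∑' L1, ∑' L2, (if FP ht a L1 then F (L1 ++ L2) else 0) := by
        refine split_le F (fun L1 _ => FP ht a L1) ?_
        intro L hL
        have hc : HT ht L = n := by
          by_contra hn'
          apply hL
          simp only [hF]
          rw [if_neg (fun h' => hn' h'.1)]
        obtain ⟨La, Lb, e, h0⟩ := exists_FP ht a L (by omega)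
        exact ⟨La, Lb, e, h0⟩
    _ ≤ ∑' L1, ((if FP ht a L1 ∧ a + (r + 1) ≤ HT ht L1 then LW Λ L1 else 0) +
          (if FP ht a L1 then LW Λ L1 * ∑' h, lc Λ ht (8 * r) h * (if h < 7 * r then 1 else
        SLB Λ ht zX zY cd s h (w + Z (dz zX zY) L1) +
        QE Λ ht zX zY cd s h (fun _ => True) (w + Z (dz zX zY) L1)) else 0)) := by
        refine ENNReal.tsum_le_tsum fun L1 => ?_
        by_cases h : FP ht a L1
        · simp only [if_pos h]
          exact step L1 h
        · simp [h]
    _ = ∑' L1, (if FP ht a L1 ∧ a + (r + 1) ≤ HT ht L1 then LW Λ L1 else 0) +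
          ∑' L1, (if FP ht a L1 then LW Λ L1 * ∑' h, lc Λ ht (8 * r) h * (if h < 7 * r then 1 else
        SLB Λ ht zX zY cd s h (w + Z (dz zX zY) L1) +
        QE Λ ht zX zY cd s h (fun _ => True) (w + Z (dz zX zY) L1)) else 0) := ENNReal.tsum_add
    _ ≤ T Λ ht r + (T Λ ht r + T Λ ht 0 * X) := by
        refine add_le_add ?_ ?_
        · refine (FP_over Λ ht hU1 a (r + 1) ha).trans ?_
          have := ENNReal.tsum_comp_le_tsum_of_injective (f := fun h : ℕ => h + 1)
            (fun a b h => by simpa using h) (fun k => tail Λ ht (k + r))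
          refine le_trans (le_of_eq (tsum_congr fun k => ?_)) this
          congr 1; omega
        · have e : ∀ L1, (if FP ht a L1 then LW Λ L1 * ∑' h, lc Λ ht (8 * r) h *
              (if h < 7 * r then 1 else SLB Λ ht zX zY cd s h (w + Z (dz zX zY) L1) +
              QE Λ ht zX zY cd s h (fun _ => True) (w + Z (dz zX zY) L1)) else 0)
              = ∑' h, lc Λ ht (8 * r) h * (if FP ht a L1 then LW Λ L1 *
                (if h < 7 * r then 1 else SLB Λ ht zX zY cd s h (w + Z (dz zX zY) L1) +
              QE Λ ht zX zY cd s h (fun _ => True) (w + Z (dz zX zY) L1)) else 0) := by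
            intro L1
            by_cases h : FP ht a L1
            · simp only [if_pos h]
              rw [← ENNReal.tsum_mul_left]
              exact tsum_congr fun h => by ring
            · simp [h]
          simp_rw [e]
          rw [ENNReal.tsum_comm]
          simp_rw [ENNReal.tsum_mul_left]
          calc _ ≤ ∑' h, ((if h < 7 * r then lc Λ ht (7 * r + r) h else 0) +
                lc Λ ht (8 * r) h * X) := by
                refine ENNReal.tsum_le_tsum fun h => ?_
                by_cases hh : h < 7 * r
                · rw [if_pos hh]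
                  simp only [if_pos hh, mul_one]
                  refine le_trans ?_ le_self_add
                  rw [show 7 * r + r = 8 * r by ring]
                  exact (mul_le_mul_right hFP _).trans (mul_one _).le
                · simp only [if_neg hh, zero_add]
                  by_cases h8 : h ≤ 8 * r
                  · exact mul_le_mul_right (hX h (by omega) h8) _
                  · rw [lc, if_neg h8, zero_mul, zero_mul]
            _ ≤ _ := by
                rw [ENNReal.tsum_add, ENNReal.tsum_mul_right]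
                exact add_le_add (sum_lc2 Λ ht (7 * r) r) (mul_le_mul_left (sum_lc Λ ht _) _)

end Crest.Agent.R154.J358
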