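import Crest.Agent.R154.JFp_156

/-! Row 154, ROAD 801 in the joint-cut frame (helper156): smooth density at the top of a window. -/

set_option autoImplicit false

namespace Crest.Agent.R154.B5A.J156

open scoped ENNReal Classical
open Finset

variable {B W : Type*}
variable (Λ : B → ℝ≥0∞) (ht : B → ℕ) (dl : B → W → W) (cd : W → B → Set ℕ)

/-- law of the position after a minimal list of height `≥ T` -/
noncomputable def law (T : ℕ) (w w' : W) : ℝ≥0∞ :=
  ∑' L, if FP ht T L ∧ act dl L w = w' then LW Λ L else 0

lemma act_inj (hinj : ∀ b, Function.Injective (dl b)) : ∀ L : List B,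
    Function.Injective (act dl L)
  | [] => fun _ _ h => h
  | b :: L => fun _ _ h => hinj b (act_inj hinj L h)

/-- sum over the position -/
lemma tsum_pos (Q : List B → Prop) (w : W) (X : W → ℝ≥0∞) :
    ∑' w', (∑' L, if Q L ∧ act dl L w = w' then LW Λ L else 0) * X w'
      = ∑' L, if Q L then LW Λ L * X (act dl L w) else 0 := by
  simp_rw [← ENNReal.tsum_mul_right]
  rw [ENNReal.tsum_comm]
  refine tsum_congr fun L => ?_
  by_cases h : Q L
  · rw [if_pos h, tsum_eq_single (act dl L w)]
    · rw [if_pos ⟨h, rfl⟩]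
    · intro w' hw'; rw [if_neg (fun h' => hw' h'.2.symm), zero_mul]
  · rw [if_neg h]
    refine ENNReal.tsum_eq_zero.2 fun w' => ?_
    rw [if_neg (fun h' => h h'.1), zero_mul]

lemma law_mass (h1 : ∀ b, 1 ≤ ht b) (hΛ : ∑' b, Λ b = 1) (T : ℕ) (w : W) :
    ∑' w', law Λ ht dl T w w' ≤ 1 := by
  have h := tsum_pos Λ dl (FP ht T) w (fun _ => 1)
  simp only [mul_one] at h
  unfold law
  rw [h]
  exact FP_mass Λ ht h1 hΛ T

lemma law_split (T h : ℕ) (hh : h ≤ T) (w w' : W) :
    law Λ ht dl T w w' ≤ ∑' C, (if FP ht h C then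
      LW Λ C * law Λ ht dl (T - HT ht C) (act dl C w) w' else 0) := by
  unfold law
  refine (tsum_le_pair _ (fun C R => FP ht h C ∧ FP ht (T - HT ht C) R) ?_).trans ?_
  · intro L hL
    by_cases hc : FP ht T L ∧ act dl L w = w'
    · obtain ⟨C, R, e, h2, h3⟩ := FP_split ht L T h hh hc.1
      exact ⟨C, R, e, h2, h3⟩
    · rw [if_neg hc] at hL; exact absurd rfl hL
  · refine ENNReal.tsum_le_tsum fun C => ?_
    by_cases hC : FP ht h C
    · rw [if_pos hC, ← ENNReal.tsum_mul_left]
      refine ENNReal.tsum_le_tsum fun R => ?_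
      by_cases hR : FP ht (T - HT ht C) R
      · rw [if_pos ⟨hC, hR⟩]
        by_cases hc : FP ht T (C ++ R) ∧ act dl (C ++ R) w = w'
        · rw [if_pos hc, if_pos ⟨hR, by rw [← act_append]; exact hc.2⟩, LW_append]
        · rw [if_neg hc]; exact zero_le
      · rw [if_neg (fun h => hR h.2)]; exact zero_le
    · rw [if_neg hC]
      refine le_of_eq (ENNReal.tsum_eq_zero.2 fun R => ?_)
      rw [if_neg (fun h => hC h.1)]

/-- **smooth density** -/
theorem density (h1 : ∀ b, 1 ≤ ht b) (hΛ : ∑' b, Λ b = 1)
    (hinj : ∀ b, Function.Injective (dl b)) (h R : ℕ) (hit : List B → Prop)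
    (hhit : ∀ C, hit C → HT ht C = h) (th q e : ℝ≥0∞)
    (hconc : ∀ w w', ∑' C, (if hit C ∧ act dl C w = w' then LW Λ C else 0) ≤ th)
    (hq : ∑' C, (if FP ht h C ∧ ¬ hit C then LW Λ C else 0) ≤ q)
    (hq1 : q ≤ 1)
    (he : ∑' C, (if FP ht h C ∧ h + R < HT ht C then LW Λ C else 0) ≤ e) (J : ℕ) :
    ∀ T, J * (h + R) ≤ T → ∀ w, ∃ g b : W → ℝ≥0∞, (∀ w', law Λ ht dl T w w' ≤ g w' + b w') ∧
      (∀ w', g w' ≤ th * ∑ j ∈ range J, q ^ j) ∧ ∑' w', b w' ≤ q ^ J + J * e := by
  induction J with
  | zero =>
    intro T _ w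
    refine ⟨fun _ => 0, law Λ ht dl T w, fun _ => by simp, fun _ => by simp, ?_⟩
    simpa using law_mass Λ ht dl h1 hΛ T w
  | succ J ih =>
    intro T hT w
    have hhT : h ≤ T := by
      have : h + R ≤ (J + 1) * (h + R) := by nlinarith [Nat.zero_le (J * (h + R))]
      omega
    have hrest : ∀ C, HT ht C ≤ h + R → J * (h + R) ≤ T - HT ht C := by
      intro C hC
      have : (J + 1) * (h + R) = J * (h + R) + (h + R) := by ring
      omega
    have hch : ∀ C, ∃ g b : W → ℝ≥0∞, HT ht C ≤ h + R →
        (∀ w', law Λ ht dl (T - HT ht C) (act dl C w) w' ≤ g w' + b w') ∧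
        (∀ w', g w' ≤ th * ∑ j ∈ range J, q ^ j) ∧ ∑' w', b w' ≤ q ^ J + J * e := by
      intro C
      by_cases hC : HT ht C ≤ h + R
      · obtain ⟨g, b, hg⟩ := ih _ (hrest C hC) (act dl C w)
        exact ⟨g, b, fun _ => hg⟩
      · exact ⟨0, 0, fun h => absurd h hC⟩
    choose gC bC hgb using hch
    refine ⟨fun w' => (∑' C, if hit C then LW Λ C * law Λ ht dl (T - h) (act dl C w) w' else 0)
        + ∑' C, (if FP ht h C ∧ ¬ hit C ∧ HT ht C ≤ h + R then LW Λ C * gC C w' else 0),
      fun w' => (∑' C, if FP ht h C ∧ ¬ hit C ∧ HT ht C ≤ h + R then LW Λ C * bC C w' else 0)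
        + ∑' C, (if FP ht h C ∧ h + R < HT ht C then
          LW Λ C * law Λ ht dl (T - HT ht C) (act dl C w) w' else 0), ?_, ?_, ?_⟩
    · intro w'
      refine (law_split Λ ht dl T h hhT w w').trans ?_
      simp only
      rw [← ENNReal.tsum_add, ← ENNReal.tsum_add, ← ENNReal.tsum_add]
      refine ENNReal.tsum_le_tsum fun C => ?_
      by_cases hC : FP ht h C
      · rw [if_pos hC]
        by_cases hi : hit C
        · have := hhit C hi
          rw [this, if_pos hi]
          exact le_add_right (le_add_right le_rfl)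
        · by_cases hb : HT ht C ≤ h + R
          · have hcc : FP ht h C ∧ ¬ hit C ∧ HT ht C ≤ h + R := ⟨hC, hi, hb⟩
            rw [if_neg hi, if_pos hcc, if_pos hcc, zero_add]
            have := (hgb C hb).1 w'
            calc LW Λ C * law Λ ht dl (T - HT ht C) (act dl C w) w'
                ≤ LW Λ C * (gC C w' + bC C w') := mul_le_mul_right this _
              _ = LW Λ C * gC C w' + LW Λ C * bC C w' := mul_add _ _ _
              _ ≤ _ := add_le_add le_rfl (le_add_right le_rfl)
          · rw [if_pos (show FP ht h C ∧ h + R < HT ht C from ⟨hC, by omega⟩)]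
            exact le_add_left (le_add_left le_rfl)
      · rw [if_neg hC]; exact zero_le
    · intro w'
      have hqs : ∑ j ∈ range (J + 1), q ^ j = 1 + q * ∑ j ∈ range J, q ^ j := by
        rw [Finset.sum_range_succ', Finset.mul_sum, add_comm]
        simp [pow_succ, mul_comm]
      rw [hqs, mul_add, mul_one]
      refine add_le_add ?_ ?_
      · calc ∑' C, (if hit C then LW Λ C * law Λ ht dl (T - h) (act dl C w) w' else 0)
            = ∑' C, ∑' L, (if hit C ∧ FP ht (T - h) L ∧ act dl L (act dl C w) = w' then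
                LW Λ C * LW Λ L else 0) := by
              refine tsum_congr fun C => ?_
              by_cases hi : hit C
              · rw [if_pos hi, law, ← ENNReal.tsum_mul_left]
                refine tsum_congr fun L => ?_
                by_cases hL : FP ht (T - h) L ∧ act dl L (act dl C w) = w'
                · rw [if_pos hL, if_pos ⟨hi, hL⟩]
                · rw [if_neg hL, if_neg (fun h => hL h.2), mul_zero]
              · rw [if_neg hi]
                refine (ENNReal.tsum_eq_zero.2 fun L => ?_).symm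
                rw [if_neg (fun h => hi h.1)]
          _ = ∑' L, ∑' C, (if hit C ∧ FP ht (T - h) L ∧ act dl L (act dl C w) = w' then
                LW Λ C * LW Λ L else 0) := ENNReal.tsum_comm
          _ ≤ ∑' L, (if FP ht (T - h) L then LW Λ L else 0) * th := by
              refine ENNReal.tsum_le_tsum fun L => ?_
              by_cases hL : FP ht (T - h) L
              · rw [if_pos hL]
                by_cases hex : ∃ w2, act dl L w2 = w'
                · obtain ⟨w2, hw2⟩ := hex
                  calc _ ≤ ∑' C, LW Λ L * (if hit C ∧ act dl C w = w2 then LW Λ C else 0) := by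
                        refine ENNReal.tsum_le_tsum fun C => ?_
                        by_cases hc : hit C ∧ FP ht (T - h) L ∧ act dl L (act dl C w) = w'
                        · rw [if_pos hc, if_pos ⟨hc.1, act_inj dl hinj L
                            (hc.2.2.trans hw2.symm)⟩, mul_comm]
                        · rw [if_neg hc]; exact zero_le
                    _ = LW Λ L * ∑' C, (if hit C ∧ act dl C w = w2 then LW Λ C else 0) :=
                        ENNReal.tsum_mul_left
                    _ ≤ _ := mul_le_mul_right (hconc _ _) _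
                · refine le_trans (le_of_eq (ENNReal.tsum_eq_zero.2 fun C => ?_)) zero_le
                  rw [if_neg (fun h => hex ⟨_, h.2.2⟩)]
              · refine le_trans (le_of_eq (ENNReal.tsum_eq_zero.2 fun C => ?_)) zero_le
                rw [if_neg (fun h => hL h.2.1)]
          _ = (∑' L, (if FP ht (T - h) L then LW Λ L else 0)) * th := ENNReal.tsum_mul_right
          _ ≤ 1 * th := mul_le_mul_left (FP_mass Λ ht h1 hΛ _) _
          _ = th := one_mul _
      · calc _ ≤ ∑' C, (if FP ht h C ∧ ¬ hit C then LW Λ C else 0)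
                * (th * ∑ j ∈ range J, q ^ j) := by
              refine ENNReal.tsum_le_tsum fun C => ?_
              by_cases hc : FP ht h C ∧ ¬ hit C ∧ HT ht C ≤ h + R
              · rw [if_pos hc, if_pos ⟨hc.1, hc.2.1⟩]
                exact mul_le_mul_right ((hgb C hc.2.2).2.1 w') _
              · rw [if_neg hc]; exact zero_le
          _ = (∑' C, (if FP ht h C ∧ ¬ hit C then LW Λ C else 0))
                * (th * ∑ j ∈ range J, q ^ j) := ENNReal.tsum_mul_right
          _ ≤ q * (th * ∑ j ∈ range J, q ^ j) := mul_le_mul_left hq _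
          _ = _ := by ring
    · have hA : ∑' w', ∑' C, (if FP ht h C ∧ ¬ hit C ∧ HT ht C ≤ h + R then
          LW Λ C * bC C w' else 0) ≤ q * (q ^ J + J * e) := by
        rw [ENNReal.tsum_comm]
        calc _ ≤ ∑' C, (if FP ht h C ∧ ¬ hit C then LW Λ C else 0) * (q ^ J + J * e) := by
              refine ENNReal.tsum_le_tsum fun C => ?_
              by_cases hc : FP ht h C ∧ ¬ hit C ∧ HT ht C ≤ h + R
              · rw [if_pos ⟨hc.1, hc.2.1⟩]
                simp only [if_pos hc]
                rw [ENNReal.tsum_mul_left]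
                exact mul_le_mul_right (hgb C hc.2.2).2.2 _
              · simp only [if_neg hc, tsum_zero]; exact zero_le
          _ = (∑' C, (if FP ht h C ∧ ¬ hit C then LW Λ C else 0)) * (q ^ J + J * e) :=
              ENNReal.tsum_mul_right
          _ ≤ _ := mul_le_mul_left hq _
      have hB : ∑' w', ∑' C, (if FP ht h C ∧ h + R < HT ht C then
          LW Λ C * law Λ ht dl (T - HT ht C) (act dl C w) w' else 0) ≤ e := by
        rw [ENNReal.tsum_comm]
        refine le_trans (ENNReal.tsum_le_tsum fun C => ?_) he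
        by_cases hc : FP ht h C ∧ h + R < HT ht C
        · simp only [if_pos hc]
          rw [ENNReal.tsum_mul_left]
          calc _ ≤ LW Λ C * 1 := mul_le_mul_right (law_mass Λ ht dl h1 hΛ _ _) _
            _ = _ := mul_one _
        · simp only [if_neg hc, tsum_zero]; exact le_rfl
      calc _ = ∑' w', ∑' C, (if FP ht h C ∧ ¬ hit C ∧ HT ht C ≤ h + R then
          LW Λ C * bC C w' else 0) + ∑' w', ∑' C, (if FP ht h C ∧ h + R < HT ht C then
          LW Λ C * law Λ ht dl (T - HT ht C) (act dl C w) w' else 0) := ENNReal.tsum_add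
        _ ≤ q * (q ^ J + J * e) + e := add_le_add hA hB
        _ = q ^ (J + 1) + q * (J * e) + e := by ring
        _ ≤ q ^ (J + 1) + 1 * (J * e) + e := by gcongr
        _ = q ^ (J + 1) + ((J + 1 : ℕ) : ℝ≥0∞) * e := by push_cast; ring

end Crest.Agent.R154.B5A.J156
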