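import Crest.Agent.R154.FP_178
import Crest.Agent.R154.B5Rec_566

/-! Row 154 (helper299), ROAD 801, joint-cut frame: the density recursion. -/

set_option autoImplicit false

namespace Crest.Agent.R154.JK299

open scoped ENNReal
open Crest.Agent.R154.B5A Crest.Agent.R154.FP178

variable {B W : Type*} (Λ : B → ℝ≥0∞) (ht : B → ℕ) (dl : B → W → W)

lemma act_inj (hinj : ∀ b, Function.Injective (dl b)) (L : List B) :
    Function.Injective (act dl L) := by
  induction L with
  | nil => intro a b h; exact h
  | cons b L ih =>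
    intro x y h
    exact hinj b (ih h)

open Classical in
lemma tsum_act (hinj : ∀ b, Function.Injective (dl b)) (S : Finset W) (L : List B) :
    ∑' w, (if act dl L w ∈ S then (1 : ℝ≥0∞) else 0) ≤ S.card := by
  have h1 : ∑' w, (if act dl L w ∈ S then (1 : ℝ≥0∞) else 0)
      ≤ ∑' v, (if v ∈ S then (1 : ℝ≥0∞) else 0) := by
    have := ENNReal.tsum_comp_le_tsum_of_injective (act_inj dl hinj L)
      (fun v => if v ∈ S then (1 : ℝ≥0∞) else 0)
    exact this
  refine h1.trans ?_
  rw [tsum_eq_sum (s := S) (fun v hv => by rw [if_neg hv])]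
  rw [Finset.sum_congr rfl (fun v hv => if_pos hv)]
  simp

open Classical in
/-- the mass of the first passages of `T` with displacement in `S` -/
noncomputable def hS (S : Finset W) (T : ℕ) (w : W) : ℝ≥0∞ :=
  ∑' L, (if fp ht T L then LW Λ L * (if act dl L w ∈ S then 1 else 0) else 0)

lemma hS_le_one (h1 : ∀ b, 1 ≤ ht b) (hΛ : ∑' b, Λ b ≤ 1) (S : Finset W) (T : ℕ) (w : W) :
    hS Λ ht dl S T w ≤ 1 := by
  classical
  refine le_trans (ENNReal.tsum_le_tsum fun L => ?_) (sum_FP Λ ht h1 hΛ T)
  split_ifs <;> simp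

lemma tsum_hS (h1 : ∀ b, 1 ≤ ht b) (hΛ : ∑' b, Λ b ≤ 1)
    (hinj : ∀ b, Function.Injective (dl b)) (S : Finset W) (T : ℕ) :
    ∑' w, hS Λ ht dl S T w ≤ S.card := by
  classical
  unfold hS
  rw [ENNReal.tsum_comm]
  calc _ ≤ ∑' L, (if fp ht T L then LW Λ L else 0) * (S.card : ℝ≥0∞) := by
        refine ENNReal.tsum_le_tsum fun L => ?_
        by_cases h : fp ht T L
        · simp only [if_pos h]
          rw [ENNReal.tsum_mul_left]
          exact mul_le_mul_right (tsum_act dl hinj S L) _
        · simp only [if_neg h, tsum_zero, zero_mul]; exact le_rfl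
    _ = (∑' L, (if fp ht T L then LW Λ L else 0)) * (S.card : ℝ≥0∞) := ENNReal.tsum_mul_right
    _ ≤ 1 * (S.card : ℝ≥0∞) := mul_le_mul_left (sum_FP Λ ht h1 hΛ T) _
    _ = _ := one_mul _

/-- **the density recursion** -/
theorem dens (h1 : ∀ b, 1 ≤ ht b) (hΛ : ∑' b, Λ b ≤ 1)
    (hinj : ∀ b, Function.Injective (dl b)) (H : ℕ) (ε : ℝ≥0∞)
    (hov : ∑' L, (open Classical in if fp ht H L ∧ H + H < HT ht L then LW Λ L else 0) ≤ ε)
    (good : List B → Prop) (hg : ∀ L, good L → HT ht L = H) (th v : ℝ≥0∞)
    (hgf : ∀ L, good L → fp ht H L)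
    (hth : ∀ (f : W → ℝ≥0∞) (w : W),
      ∑' L, (open Classical in if good L then LW Λ L * f (act dl L w) else 0) ≤ th * ∑' w', f w')
    (hv : v ≤ ∑' L, (open Classical in if good L then LW Λ L else 0)) (S : Finset W) :
    ∀ J T, 2 * H * J ≤ T → ∀ w,
      hS Λ ht dl S T w ≤ (1 - v) ^ J + J * (th * S.card + ε) := by
  classical
  intro J
  induction J with
  | zero =>
    intro T _ w
    simpa using hS_le_one Λ ht dl h1 hΛ S T w
  | succ J ih =>
    intro T hT w
    have hHT : H ≤ T := by nlinarith
    have e1 : hS Λ ht dl S T w = ∑' A, (if fp ht H A then LW Λ A *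
        hS Λ ht dl S (T - HT ht A) (act dl A w) else 0) := by
      unfold hS
      rw [fp_split Λ ht h1 H T hHT]
      simp only [act_append]
    rw [e1]
    have hpt : ∀ A : List B, (if fp ht H A then LW Λ A *
        hS Λ ht dl S (T - HT ht A) (act dl A w) else 0)
        ≤ (if good A then LW Λ A * hS Λ ht dl S (T - H) (act dl A w) else 0)
          + (if fp ht H A ∧ ¬ good A then LW Λ A else 0) * ((1 - v) ^ J + J * (th * S.card + ε))
          + (if fp ht H A ∧ H + H < HT ht A then LW Λ A else 0) := by
      intro A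
      by_cases hA : fp ht H A
      · rw [if_pos hA]
        by_cases hgA : good A
        · rw [if_pos hgA, hg A hgA]
          exact le_self_add.trans le_self_add
        · by_cases hb : H + H < HT ht A
          · rw [if_pos (show fp ht H A ∧ H + H < HT ht A from ⟨hA, hb⟩)]
            refine le_add_left ?_
            calc _ ≤ LW Λ A * 1 := mul_le_mul_right (hS_le_one Λ ht dl h1 hΛ S _ _) _
              _ = _ := mul_one _
          · rw [if_pos (show fp ht H A ∧ ¬ good A from ⟨hA, hgA⟩)]
            refine le_trans ?_ (le_self_add)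
            refine le_add_left ?_
            refine mul_le_mul_right (ih _ ?_ _) _
            have : 2 * H * (J + 1) = 2 * H * J + 2 * H := by ring
            omega
      · rw [if_neg hA]; exact zero_le
    refine (ENNReal.tsum_le_tsum hpt).trans ?_
    rw [ENNReal.tsum_add, ENNReal.tsum_add, ENNReal.tsum_mul_right]
    have hgood : ∑' A, (if good A then LW Λ A * hS Λ ht dl S (T - H) (act dl A w) else 0)
        ≤ th * S.card :=
      (hth (fun w' => hS Λ ht dl S (T - H) w') w).trans
        (mul_le_mul_right (tsum_hS Λ ht dl h1 hΛ hinj S _) _)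
    have hbad : ∑' A, (if fp ht H A ∧ ¬ good A then LW Λ A else 0) ≤ 1 - v := by
      have hsum : ∑' A, (if fp ht H A ∧ ¬ good A then LW Λ A else 0)
          + ∑' A, (if good A then LW Λ A else 0) ≤ 1 := by
        rw [← ENNReal.tsum_add]
        refine le_trans (ENNReal.tsum_le_tsum fun A => ?_) (sum_FP Λ ht h1 hΛ H)
        by_cases hA : good A
        · rw [if_neg (fun h => h.2 hA), if_pos hA, zero_add, if_pos (hgf A hA)]
        · rw [if_neg hA, add_zero]
          by_cases hA' : fp ht H A
          · rw [if_pos ⟨hA', hA⟩, if_pos hA']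
          · rw [if_neg (fun h => hA' h.1), if_neg hA']
      have hne : ∑' A, (if good A then LW Λ A else 0) ≠ ⊤ :=
        ne_top_of_le_ne_top ENNReal.one_ne_top (le_add_self.trans hsum)
      exact (ENNReal.le_sub_of_add_le_right hne hsum).trans (tsub_le_tsub_left hv _)
    calc _ ≤ th * S.card + (1 - v) * ((1 - v) ^ J + J * (th * S.card + ε)) + ε :=
          add_le_add (add_le_add hgood (mul_le_mul_left hbad _)) hov
      _ ≤ th * S.card + ((1 - v) ^ (J + 1) + J * (th * S.card + ε)) + ε := by
          refine add_le_add (add_le_add le_rfl ?_) le_rfl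
          rw [mul_add, pow_succ']
          refine add_le_add le_rfl ?_
          calc (1 - v) * (J * (th * S.card + ε)) ≤ 1 * (J * (th * S.card + ε)) :=
                mul_le_mul_left tsub_le_self _
            _ = _ := one_mul _
      _ = _ := by push_cast; ring

end Crest.Agent.R154.JK299
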