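import Crest.Agent.R154.JD_358

/-! Row 154, T0219 (helper358): `Kap1 → 0` from the window hypotheses (joint cuts, abstract). -/

set_option autoImplicit false

namespace Crest.Agent.R154.J358

open scoped ENNReal
open Crest.Agent.R154.B5A

lemma small (A ε : ℝ≥0∞) (hA : A ≠ ⊤) (hε : ε ≠ 0) : ∃ x : ℝ≥0∞, x ≠ 0 ∧ x ≤ 1 ∧ A * x ≤ ε := by
  refine ⟨min 1 (ε / (A + 1)), ?_, min_le_left _ _, ?_⟩
  · have : ε / (A + 1) ≠ 0 := by
      rw [Ne, ENNReal.div_eq_zero_iff, not_or]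
      exact ⟨hε, by simpa using hA⟩
    exact (lt_min (by simp) (pos_iff_ne_zero.2 this)).ne'
  · calc A * min 1 (ε / (A + 1)) ≤ (A + 1) * (ε / (A + 1)) :=
          mul_le_mul' le_self_add (min_le_right _ _)
      _ ≤ ε := ENNReal.mul_div_le

lemma num (A c ε : ℝ≥0∞) (hA : A ≠ ⊤) (hc : c ≠ 0) (hc1 : c ≤ 1) (hε : ε ≠ 0) :
    ∃ (J : ℕ) (u : ℝ≥0∞), 1 ≤ J ∧ u ≠ 0 ∧ u ≤ c ∧ A * (J * (u * u)) ≤ ε ∧
      A * (J * (1 - c * u) ^ J) ≤ ε := by
  obtain ⟨x, hx0, hx1, hx⟩ := small A ε hA hε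
  set δ : ℝ≥0∞ := min x c with hδ
  have hδ0 : δ ≠ 0 := (lt_min (pos_iff_ne_zero.2 hx0) (pos_iff_ne_zero.2 hc)).ne'
  have hδ1 : δ ≤ 1 := (min_le_left _ _).trans hx1
  have hδt : δ ≠ ⊤ := ne_top_of_le_ne_top ENNReal.one_ne_top hδ1
  have hxt : x ≠ ⊤ := ne_top_of_le_ne_top ENNReal.one_ne_top hx1
  have hct : c ≠ ⊤ := ne_top_of_le_ne_top ENNReal.one_ne_top hc1
  set y : ℝ := (c * δ).toReal with hy
  have hy0 : 0 < y := ENNReal.toReal_pos (mul_ne_zero hc hδ0) (ENNReal.mul_ne_top hct hδt)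
  have hyE : ENNReal.ofReal y = c * δ := ENNReal.ofReal_toReal (ENNReal.mul_ne_top hct hδt)
  have hy1 : y ≤ 1 := by
    have : c * δ ≤ 1 := (mul_le_mul' hc1 hδ1).trans (mul_one _).le
    have := ENNReal.toReal_mono ENNReal.one_ne_top this
    rw [ENNReal.toReal_one] at this
    exact this
  have hlim : Filter.Tendsto (fun i : ℕ => (i : ℝ) ^ 2 * Real.exp (-(y * i))) Filter.atTop
      (nhds 0) := by
    have h1 := (Real.tendsto_pow_mul_exp_neg_atTop_nhds_zero 2).comp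
      (Filter.Tendsto.const_mul_atTop hy0 tendsto_natCast_atTop_atTop)
    have h2 := h1.const_mul (1 / y ^ 2)
    rw [mul_zero] at h2
    refine h2.congr fun i => ?_
    simp only [Function.comp]
    field_simp
  have hxr : 0 < x.toReal := ENNReal.toReal_pos hx0 hxt
  obtain ⟨i, hi1, hi2⟩ := ((hlim.eventually (gt_mem_nhds hxr)).and
    (Filter.eventually_ge_atTop 1)).exists
  have hi0 : (i : ℝ≥0∞) ≠ 0 := by
    have : i ≠ 0 := by omega
    exact_mod_cast this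
  have hit : (i : ℝ≥0∞) ≠ ⊤ := ENNReal.natCast_ne_top i
  have hir : (1 : ℝ) ≤ i := by exact_mod_cast hi2
  refine ⟨i ^ 2, δ / i, Nat.one_le_pow _ _ (by omega), ?_, ?_, ?_, ?_⟩
  · rw [Ne, ENNReal.div_eq_zero_iff, not_or]; exact ⟨hδ0, hit⟩
  · refine le_trans ?_ (min_le_right x c)
    refine ENNReal.div_le_of_le_mul ?_
    calc δ = δ * 1 := (mul_one _).symm
      _ ≤ δ * i := mul_le_mul_right (by exact_mod_cast hi2) _
  · have e : ((i ^ 2 : ℕ) : ℝ≥0∞) * (δ / i * (δ / i)) = δ * δ := by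
      rw [div_eq_mul_inv]
      push_cast
      calc (i : ℝ≥0∞) ^ 2 * (δ * (i : ℝ≥0∞)⁻¹ * (δ * (i : ℝ≥0∞)⁻¹))
          = (i * (i : ℝ≥0∞)⁻¹) * (i * (i : ℝ≥0∞)⁻¹) * (δ * δ) := by ring
        _ = _ := by rw [ENNReal.mul_inv_cancel hi0 hit]; ring
    rw [e]
    refine le_trans (mul_le_mul_right ?_ A) hx
    calc δ * δ ≤ x * 1 := mul_le_mul' (min_le_left _ _) hδ1
      _ = x := mul_one _
  · have e : c * (δ / i) = ENNReal.ofReal (y / i) := by
      rw [ENNReal.ofReal_div_of_pos (by linarith), hyE, ENNReal.ofReal_natCast, mul_div_assoc]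
    have hyi : y / i ≤ 1 := by
      rw [div_le_one (by linarith)]; linarith
    have hyi0 : 0 ≤ y / i := by positivity
    have e2 : 1 - c * (δ / i) = ENNReal.ofReal (1 - y / i) := by
      rw [e, ENNReal.ofReal_sub _ hyi0, ENNReal.ofReal_one]
    have hb : (1 - y / i) ^ (i ^ 2) ≤ Real.exp (-(y * i)) := by
      calc (1 - y / i) ^ (i ^ 2) ≤ (Real.exp (-(y / i))) ^ (i ^ 2) := by
            refine pow_le_pow_left₀ (by linarith) ?_ _
            have := Real.add_one_le_exp (-(y / i)); linarith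
        _ = Real.exp (-(y * i)) := by
            rw [← Real.exp_nat_mul]
            congr 1
            push_cast
            field_simp
    rw [e2, ← ENNReal.ofReal_pow (by linarith)]
    refine le_trans (mul_le_mul_right ?_ A) hx
    calc ((i ^ 2 : ℕ) : ℝ≥0∞) * ENNReal.ofReal ((1 - y / i) ^ (i ^ 2))
        ≤ ((i ^ 2 : ℕ) : ℝ≥0∞) * ENNReal.ofReal (Real.exp (-(y * i))) :=
          mul_le_mul_right (ENNReal.ofReal_le_ofReal hb) _
      _ = ENNReal.ofReal ((i : ℝ) ^ 2 * Real.exp (-(y * i))) := by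
          rw [ENNReal.ofReal_mul (by positivity)]
          congr 1
          rw [← ENNReal.ofReal_natCast]
          push_cast
          rfl
      _ ≤ ENNReal.ofReal x.toReal := ENNReal.ofReal_le_ofReal hi1.le
      _ = x := ENNReal.ofReal_toReal hxt

variable {B V : Type*} {Λ : B → ℝ≥0∞} {ht : B → ℕ} [AddCommGroup V] {zX zY : B → V}
  {cd : V → B → Set ℕ}

lemma HT_eq_zero (h1 : ∀ b, 1 ≤ ht b) (L : List B) (h : HT ht L = 0) : L = [] := by
  have := length_le_HT ht h1 L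
  exact List.length_eq_zero_iff.1 (by omega)

lemma cut_unique (h1 : ∀ b, 1 ≤ ht b) (L1 L2 L1' L2' : List B) (e : L1 ++ L2 = L1' ++ L2')
    (h : HT ht L1 = HT ht L1') : L1 = L1' ∧ L2 = L2' := by
  rcases List.append_eq_append_iff.1 e with ⟨a, ha, hb⟩ | ⟨a, ha, hb⟩
  · subst ha
    rw [HT_append] at h
    have := HT_eq_zero h1 a (by omega)
    subst this; simp at hb ⊢; exact hb
  · subst ha
    rw [HT_append] at h
    have := HT_eq_zero h1 a (by omega)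
    subst this; simp at hb ⊢; exact hb.symm

open Classical in
lemma bd (hcd : ∀ w b k, k ∈ cd w b → 1 ≤ k ∧ k ≤ ht b) (h1 : ∀ b, 1 ≤ ht b) (c : ℝ≥0∞)
    (N n m : ℕ) (w : V) (hN : c ≤ U Λ ht N) (hn : 2 * m ≤ n) :
    c * Kap1 Λ ht (dl zX zY) cd n m w ≤ Kap1 Λ ht (dl zX zY) cd (n + N) m w := by
  refine (mul_le_mul_left hN _).trans ?_
  refine le_trans ?_ (join_le (fun L => if HT ht L = n + N ∧
    (∀ k ∈ CD ht (dl zX zY) cd L w, m < k) ∧ ∃ k ∈ CD ht (dl zX zY) cd L w, k ≤ 2 * m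
    then LW Λ L else 0) (fun L1 L2 => HT ht L1 = n ∧ HT ht L2 = N) ?_)
  · rw [mul_comm, Kap1, ← ENNReal.tsum_mul_right]
    refine ENNReal.tsum_le_tsum fun L1 => ?_
    rw [U, ← ENNReal.tsum_mul_left]
    refine ENNReal.tsum_le_tsum fun L2 => ?_
    by_cases hL1 : HT ht L1 = n ∧ (∀ k ∈ CD ht (dl zX zY) cd L1 w, m < k) ∧
      ∃ k ∈ CD ht (dl zX zY) cd L1 w, k ≤ 2 * m
    · by_cases hL2 : HT ht L2 = N
      · obtain ⟨e1, hall, k, hk, hk2⟩ := hL1
        have hc : HT ht (L1 ++ L2) = n + N ∧ (∀ k ∈ CD ht (dl zX zY) cd (L1 ++ L2) w, m < k) ∧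
            ∃ k ∈ CD ht (dl zX zY) cd (L1 ++ L2) w, k ≤ 2 * m := by
          rw [CD_append, HT_append]
          refine ⟨by omega, ?_, k, Or.inl hk, hk2⟩
          rintro k' (hk' | ⟨k'', hk'', rfl⟩)
          · exact hall k' hk'
          · have h3 := CD_pos ht (dl zX zY) cd hcd L2 _ k'' hk''
            simp only
            omega
        rw [if_pos (show HT ht L1 = n ∧ HT ht L2 = N from ⟨e1, hL2⟩), if_pos hc,
          if_pos ⟨e1, hall, k, hk, hk2⟩, if_pos hL2, LW_append]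
      · rw [if_neg hL2, mul_zero]; exact zero_le
    · rw [if_neg hL1, zero_mul]; exact zero_le
  · rintro L1 L2 L1' L2' e ⟨ha, _⟩ ⟨hb, _⟩
    exact cut_unique h1 _ _ _ _ e (by omega)

open Classical in
lemma windows (n m r N0 : ℕ) (w : V) (hr : 1 ≤ r) (hN : N0 ≤ r)
    (hm1 : 2 * N0 * r ≤ m)
    (hm2 : m < 2 * N0 * r + 2 * N0) :
    Kap1 Λ ht (dl zX zY) cd n m w
      ≤ ∑ k ∈ Finset.Ico N0 (2 * N0 + 2), Wk Λ ht zX zY cd n (2 * r * (k - 1)) r w := by
  simp only [Kap1, Wk]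
  rw [← Summable.tsum_finsetSum (fun _ _ => ENNReal.summable)]
  refine ENNReal.tsum_le_tsum fun L => ?_
  by_cases hL : HT ht L = n ∧ (∀ k ∈ CD ht (dl zX zY) cd L w, m < k) ∧
      ∃ k ∈ CD ht (dl zX zY) cd L w, k ≤ 2 * m
  · rw [if_pos hL]
    obtain ⟨e1, hall, hex⟩ := hL
    have hex' : ∃ k, k ∈ CD ht (dl zX zY) cd L w := ⟨hex.choose, hex.choose_spec.1⟩
    set D := Nat.find hex' with hD
    have hD1 : D ∈ CD ht (dl zX zY) cd L w := Nat.find_spec hex'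
    have hD2 : ∀ k ∈ CD ht (dl zX zY) cd L w, D ≤ k := fun k hk => Nat.find_min' hex' hk
    have hDm : m < D := hall D hD1
    have hD2m : D ≤ 2 * m := by
      obtain ⟨k, hk, hk2⟩ := hex
      exact (hD2 k hk).trans hk2
    set k := (D - 1) / (2 * r) with hk
    have hk1 : 2 * r * k ≤ D - 1 := Nat.mul_div_le _ _
    have hk2 : D - 1 < 2 * r * (k + 1) := by
      have := Nat.lt_mul_div_succ (D - 1) (show 0 < 2 * r by omega)
      simpa using this
    have hkN : N0 ≤ k := by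
      rw [hk, Nat.le_div_iff_mul_le (by omega)]
      have : N0 * (2 * r) = 2 * N0 * r := by ring
      omega
    have hkN2 : k < 2 * N0 + 2 := by
      rw [hk, Nat.div_lt_iff_lt_mul (by omega)]
      have : (2 * N0 + 2) * (2 * r) = 2 * (2 * N0 * r) + 4 * r := by ring
      omega
    have hkm : 2 * r * k = 2 * r * (k - 1) + 2 * r := by
      obtain ⟨k', hk'⟩ : ∃ k', k = k' + 1 := ⟨k - 1, by omega⟩
      rw [hk']; simp; ring
    have hkm2 : 2 * r * (k + 1) = 2 * r * (k - 1) + 4 * r := by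
      rw [mul_add, hkm]; ring
    calc LW Λ L = (if HT ht L = n ∧ (∀ k' ∈ CD ht (dl zX zY) cd L w, 2 * r * (k - 1) + 2 * r < k') ∧
          ∃ k' ∈ CD ht (dl zX zY) cd L w, k' ≤ 2 * r * (k - 1) + 4 * r then LW Λ L else 0) := by
          rw [if_pos]
          refine ⟨e1, fun k' hk' => ?_, D, hD1, ?_⟩
          · have := hD2 k' hk'; omega
          · omega
      _ ≤ _ := Finset.single_le_sum (f := fun k => if HT ht L = n ∧
          (∀ k' ∈ CD ht (dl zX zY) cd L w, 2 * r * (k - 1) + 2 * r < k') ∧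
          ∃ k' ∈ CD ht (dl zX zY) cd L w, k' ≤ 2 * r * (k - 1) + 4 * r then LW Λ L else 0)
          (fun _ _ => zero_le) (Finset.mem_Ico.2 ⟨hkN, hkN2⟩)
  · rw [if_neg hL]; exact zero_le

lemma T_tendsto (h : T Λ ht 0 ≠ ⊤) (ε : ℝ≥0∞) (hε : ε ≠ 0) : ∃ r0, ∀ r, r0 ≤ r → T Λ ht r ≤ ε := by
  have h' : ∑' k, tail Λ ht k ≠ ⊤ := by simpa [T] using h
  have := (ENNReal.tendsto_sum_nat_add (tail Λ ht) h').eventually
    (gt_mem_nhds (pos_iff_ne_zero.2 hε))
  obtain ⟨r0, hr0⟩ := Filter.eventually_atTop.1 this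
  exact ⟨r0, fun r hr => (hr0 r hr).le⟩

open Classical in
lemma FP_over' (hU1 : ∀ n, U Λ ht n ≤ 1) (a r : ℕ) (ha : a ≠ 0) :
    ∑' L, (if FP ht a L ∧ a + r < HT ht L then LW Λ L else 0) ≤ T Λ ht r := by
  refine le_trans ?_ ((FP_over Λ ht hU1 a (r + 1) ha).trans ?_)
  · refine ENNReal.tsum_le_tsum fun L => ?_
    by_cases h : FP ht a L ∧ a + r < HT ht L
    · rw [if_pos h, if_pos ⟨h.1, by omega⟩]
    · rw [if_neg h]; exact zero_le
  · have := ENNReal.tsum_comp_le_tsum_of_injective (f := fun h : ℕ => h + 1)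
      (fun a b h => by simpa using h) (fun k => tail Λ ht (k + r))
    refine le_trans (le_of_eq (tsum_congr fun k => ?_)) this
    congr 1; omega

/-- **KAPPA'** (first-contact form) from the two window hypotheses and the slab. -/
theorem main {α β : ℕ → V → ℝ≥0∞} (hp : Pr Λ ht zX zY α β) (h1 : ∀ b, 1 ≤ ht b)
    (hcd : ∀ w b k, k ∈ cd w b → 1 ≤ k ∧ k ≤ ht b)
    (c : ℝ≥0∞) (hc : c ≠ 0) (R : ℕ) (hU : ∀ n, R ≤ n → c ≤ U Λ ht n) (hU1 : ∀ n, U Λ ht n ≤ 1)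
    (C : ℝ≥0∞) (hC : C ≠ ⊤) (us : ℕ → ℝ≥0∞) (hus : ∀ ε : ℝ≥0∞, ε ≠ 0 → ∃ s, us s ≤ ε)
    (H2 : HW Λ ht zX zY cd zX C us) (H3 : HW Λ ht zX zY cd zY C us)
    (hS : ∀ (s : ℕ) (η : ℝ≥0∞), η ≠ 0 → ∃ D, ∀ h, D ≤ h → ∀ x, SLB Λ ht zX zY cd s h x ≤ η) :
    ∀ ε : ℝ≥0∞, ε ≠ 0 → ∃ M : ℕ, ∀ m, M ≤ m → ∀ n, 2 * m ≤ n → ∀ w,
      Kap1 Λ ht (dl zX zY) cd n m w ≤ ε := by
  classical
  intro ε hε
  have hc1 : c ≤ 1 := (hU R le_rfl).trans (hU1 R)
  have hct : c ≠ ⊤ := ne_top_of_le_ne_top ENNReal.one_ne_top hc1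
  have hΛ : ∑' b, Λ b = 1 :=
    le_antisymm (mass_le_one Λ ht h1 hU1) (mass_ge_one Λ ht c hc R hU)
  have hT0 : T Λ ht 0 ≠ ⊤ := by
    have h2 : T Λ ht 0 = ∑' b, Λ b * (ht b : ℝ≥0∞) := by
      rw [sum_tail Λ ht hΛ]; simp [T]
    rw [h2]
    exact ne_top_of_le_ne_top (ENNReal.inv_ne_top.2 hc) (mean_le Λ ht h1 hΛ c hc hct R hU)
  set A : ℝ≥0∞ := 12 * c⁻¹ * (T Λ ht 0 + 1) with hA
  have hAt : A ≠ ⊤ := ENNReal.mul_ne_top (ENNReal.mul_ne_top (by norm_num)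
    (ENNReal.inv_ne_top.2 hc)) (by simpa using hT0)
  have hε8 : ε / 8 ≠ 0 := by
    rw [Ne, ENNReal.div_eq_zero_iff, not_or]; exact ⟨hε, by norm_num⟩
  -- constants
  obtain ⟨J, u, hJ1, hu0, huc, hJu, hJq⟩ := num (2 * A) c (ε / 8)
    (ENNReal.mul_ne_top (by norm_num) hAt) hc hc1 hε8
  have hJt : (J : ℝ≥0∞) ≠ ⊤ := ENNReal.natCast_ne_top J
  obtain ⟨lam, hl0, hl1, hlam⟩ := small (A * J * 2 * C) (ε / 8)
    (ENNReal.mul_ne_top (ENNReal.mul_ne_top (ENNReal.mul_ne_top hAt hJt) (by norm_num)) hC) hε8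
  have hlt : lam ≠ ⊤ := ne_top_of_le_ne_top ENNReal.one_ne_top hl1
  obtain ⟨x1, hx10, hx11, hx1⟩ := small (A * J * 2 * C * 2 * J * lam⁻¹) (ε / 8)
    (ENNReal.mul_ne_top (ENNReal.mul_ne_top (ENNReal.mul_ne_top (ENNReal.mul_ne_top
      (ENNReal.mul_ne_top (ENNReal.mul_ne_top hAt hJt) (by norm_num)) hC) (by norm_num)) hJt)
      (ENNReal.inv_ne_top.2 hl0)) hε8
  obtain ⟨s, hs⟩ := hus x1 hx10
  obtain ⟨η, hη0, hη1, hη⟩ := small (A * J) (ε / 8) (ENNReal.mul_ne_top hAt hJt) hε8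
  obtain ⟨D, hD⟩ := hS s η hη0
  obtain ⟨τ, hτ0, hτ1, hτ⟩ := small (A * J * (2 + 2 * J)) (ε / 8)
    (ENNReal.mul_ne_top (ENNReal.mul_ne_top hAt hJt) (by
      refine ENNReal.add_ne_top.2 ⟨by norm_num, ENNReal.mul_ne_top (by norm_num) hJt⟩)) hε8
  obtain ⟨r1, hr1⟩ := T_tendsto hT0 τ hτ0
  set N0 : ℕ := 9 * J + 1 with hN0
  set r0 : ℕ := R + s + D + r1 + N0 with hr0
  refine ⟨2 * N0 * r0, fun m hm n hn w => ?_⟩
  -- `r`
  set r : ℕ := m / (2 * N0) with hr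
  have hrr0 : r0 ≤ r := by
    rw [hr, Nat.le_div_iff_mul_le (by omega)]
    calc r0 * (2 * N0) = 2 * N0 * r0 := by ring
      _ ≤ m := hm
  have hm1 : 2 * N0 * r ≤ m := Nat.mul_div_le _ _
  have hm2 : m < 2 * N0 * r + 2 * N0 := by
    have := Nat.lt_mul_div_succ m (show 0 < 2 * N0 by omega)
    calc m < 2 * N0 * (m / (2 * N0) + 1) := by simpa using this
      _ = _ := by rw [← hr]; ring
  have hTr : T Λ ht r ≤ τ := hr1 r (by omega)
  -- one window
  set q : ℝ≥0∞ := (1 - c * u) ^ J with hq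
  set X : ℝ≥0∞ := η + (u * u + 2 * (C * (lam + 2 * J * us s / lam) + (q + J * τ))) with hX
  have hwin : ∀ k ∈ Finset.Ico N0 (2 * N0 + 2),
      Wk Λ ht zX zY cd (n + (R + 9 * r + 1)) (2 * r * (k - 1)) r w ≤ τ + (τ + T Λ ht 0 * X) := by
    intro k hk
    obtain ⟨hk1, hk2⟩ := Finset.mem_Ico.1 hk
    obtain ⟨k', hk'⟩ : ∃ k', k = k' + 1 := ⟨k - 1, by omega⟩
    have hkk : k - 1 = k' := by omega
    rw [hkk]
    have hk9 : 9 * J ≤ k' := by omega
    have hr1' : 1 ≤ r := by omega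
    have ha0 : 2 * r * k' ≠ 0 := by
      have : 1 ≤ k' := by omega
      have : 1 ≤ r * k' := Nat.one_le_iff_ne_zero.2 (Nat.mul_ne_zero (by omega) (by omega))
      have e : 2 * r * k' = 2 * (r * k') := by ring
      omega
    have hak : 2 * r * k' ≤ 2 * m := by
      have : k' ≤ 2 * N0 := by omega
      calc 2 * r * k' ≤ 2 * r * (2 * N0) := Nat.mul_le_mul_left _ this
        _ = 2 * (2 * N0 * r) := by ring
        _ ≤ _ := by omega
    have hJa : J * (8 * r + r) ≤ 2 * r * k' := by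
      calc J * (8 * r + r) = r * (9 * J) := by ring
        _ ≤ r * k' := Nat.mul_le_mul_left _ hk9
        _ ≤ 2 * r * k' := by nlinarith
    refine (window Λ ht zX zY cd hcd hU1 (n + (R + 9 * r + 1)) (2 * r * k') r s (by omega) ha0
      (by omega) w X ?_ (FP_mass Λ ht h1 hΛ _)).trans (add_le_add hTr (add_le_add hTr le_rfl))
    intro h h7 h8
    have hper := perh cd hp hU1 h1 hΛ C us H2 H3 h r c u τ hu0 huc (hU h (by omega))
      ((FP_over' hU1 h r (by omega)).trans hTr) J (2 * r * k')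
      ((Nat.mul_le_mul_left J (by omega)).trans hJa) s lam hl0 hlt w
    calc _ = ∑' L1, ((if FP ht (2 * r * k') L1 then LW Λ L1 *
            SLB Λ ht zX zY cd s h (w + Z (dz zX zY) L1) else 0) +
            (if FP ht (2 * r * k') L1 then LW Λ L1 *
            QE Λ ht zX zY cd s h (fun _ => True) (w + Z (dz zX zY) L1) else 0)) := by
          refine tsum_congr fun L1 => ?_
          by_cases hF : FP ht (2 * r * k') L1 <;> simp [hF, mul_add]
      _ = ∑' L1, (if FP ht (2 * r * k') L1 then LW Λ L1 *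
            SLB Λ ht zX zY cd s h (w + Z (dz zX zY) L1) else 0) +
            ∑' L1, (if FP ht (2 * r * k') L1 then LW Λ L1 *
            QE Λ ht zX zY cd s h (fun _ => True) (w + Z (dz zX zY) L1) else 0) := ENNReal.tsum_add
      _ ≤ X := by
          refine add_le_add ?_ hper
          calc _ ≤ ∑' L1, (if FP ht (2 * r * k') L1 then LW Λ L1 else 0) * η := by
                refine ENNReal.tsum_le_tsum fun L1 => ?_
                by_cases hF : FP ht (2 * r * k') L1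
                · simp only [if_pos hF]
                  exact mul_le_mul_right (hD h (by omega) _) _
                · simp [hF]
            _ = (∑' L1, (if FP ht (2 * r * k') L1 then LW Λ L1 else 0)) * η :=
                ENNReal.tsum_mul_right
            _ ≤ 1 * η := mul_le_mul_left (FP_mass Λ ht h1 hΛ _) _
            _ = η := one_mul _
  -- all windows
  have hK : c * Kap1 Λ ht (dl zX zY) cd n m w ≤ (12 * J : ℝ≥0∞) * (τ + (τ + T Λ ht 0 * X)) := by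
    refine (bd hcd h1 c (R + 9 * r + 1) n m w (hU _ (by omega)) hn).trans ?_
    refine (windows (n + (R + 9 * r + 1)) m r N0 w (by omega) (by omega) hm1 hm2).trans ?_
    refine (Finset.sum_le_sum hwin).trans ?_
    rw [Finset.sum_const, nsmul_eq_mul]
    refine mul_le_mul_left ?_ _
    rw [Nat.card_Ico]
    have : 2 * N0 + 2 - N0 ≤ 12 * J := by omega
    exact_mod_cast this
  have hK2 : Kap1 Λ ht (dl zX zY) cd n m w ≤ c⁻¹ * ((12 * J : ℝ≥0∞) * (τ + (τ + T Λ ht 0 * X))) := by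
    calc _ = c⁻¹ * (c * Kap1 Λ ht (dl zX zY) cd n m w) := by
          rw [← mul_assoc, ENNReal.inv_mul_cancel hc hct, one_mul]
      _ ≤ _ := mul_le_mul_right hK _
  refine hK2.trans ?_
  have hus' : us s ≤ x1 := hs
  calc c⁻¹ * ((12 * J : ℝ≥0∞) * (τ + (τ + T Λ ht 0 * X)))
      ≤ c⁻¹ * ((12 * J : ℝ≥0∞) * ((T Λ ht 0 + 1) * (2 * τ) + (T Λ ht 0 + 1) * X)) := by
        refine mul_le_mul_right (mul_le_mul_right ?_ _) _
        calc τ + (τ + T Λ ht 0 * X) = 1 * (2 * τ) + T Λ ht 0 * X := by ring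
          _ ≤ _ := add_le_add (mul_le_mul_left le_add_self _) (mul_le_mul_left le_self_add _)
    _ = A * (J * (2 * τ + X)) := by rw [hA]; ring
    _ = A * J * η + A * (J * (u * u)) + 2 * A * (J * q) + A * J * 2 * C * lam +
        A * J * 2 * C * 2 * J * lam⁻¹ * us s + A * J * (2 + 2 * J) * τ := by
        rw [hX, ENNReal.div_eq_inv_mul]; ring
    _ ≤ ε / 8 + ε / 8 + ε / 8 + ε / 8 + ε / 8 + ε / 8 := by
        refine add_le_add (add_le_add (add_le_add (add_le_add (add_le_add hη ?_) hJq) hlam) ?_) hτ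
        · refine le_trans (mul_le_mul_left ?_ _) hJu
          calc A = 1 * A := (one_mul _).symm
            _ ≤ 2 * A := mul_le_mul_left (by norm_num) _
        · exact (mul_le_mul_right hus' _).trans hx1
    _ = 6 * (ε / 8) := by ring
    _ ≤ 8 * (ε / 8) := mul_le_mul_left (by norm_num) _
    _ ≤ ε := ENNReal.mul_div_le

end Crest.Agent.R154.J358
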