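import Crest.Agent.R154.JInc_183

/-! Row 154, KAPPA' along joint renewal levels (helper183): the core estimate. -/

set_option autoImplicit false

namespace Crest.Agent.R154.J183

open Crest.Agent.R154.B5A
open scoped ENNReal

variable {B W : Type*} (Λ : B → ℝ≥0∞) (ht : B → ℕ) (dl : B → W → W) (cd : W → B → Set ℕ)

/-- number of index tuples -/
def NN (J i0 : ℕ) : ℕ := (3 * J + 4) * (J * ((J * i0 + 1) * ((i0 + 1) * (2 * i0 + 1))))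

lemma EF_mass (hU1 : ∀ n, U Λ ht n ≤ 1) (T i0 J k : ℕ) (σ l : List B → Prop) (M δ : ℝ≥0∞)
    (hM : ∀ A1 A2 w w', (∑' S : List B, open Classical in (if HT ht S = k ∧ σ S ∧
      act dl (A1 ++ (S ++ A2)) w = w' then LW Λ S else 0)) ≤ M)
    (hF : ∀ k', T ≤ k' + 2 * i0 → k' ≤ T → ∀ f : W → ℝ≥0∞, ∑' w, f w ≤ 1 → (∀ w, f w ≤ M) →
      (∑' w', f w' * ∑' P, open Classical in
        (if HT ht P = k' ∧ l P ∧ CD ht dl cd P w' ≠ ∅ then LW Λ P else 0)) ≤ δ)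
    (n : ℕ) (w : W) :
    ms Λ ht n (EF ht dl cd T i0 J k σ l w) ≤ (NN J i0 : ℝ≥0∞) * δ := by
  calc ms Λ ht n (EF ht dl cd T i0 J k σ l w)
      ≤ ms Λ ht n (fun L => ∃ j < 3 * J + 4, ∃ j' < J, ∃ i < J * i0 + 1, ∃ r < i0 + 1,
        ∃ q < 2 * i0 + 1, ∃ Z P C,
    L = Z ++ (P ++ C) ∧ Rs ht k σ (j' * (2 * T) + i) (tm J T j + r) Z ∧
      (HT ht P = T - q ∧ l P ∧ CD ht dl cd P (act dl Z w) ≠ ∅)) :=
        ms_mono Λ ht n fun L _ h => h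
    _ ≤ ((3 * J + 4 : ℕ) : ℝ≥0∞) * ((J : ℝ≥0∞) * (((J * i0 + 1 : ℕ) : ℝ≥0∞) *
          (((i0 + 1 : ℕ) : ℝ≥0∞) * (((2 * i0 + 1 : ℕ) : ℝ≥0∞) * δ)))) :=
        ms_un Λ ht n _ _ _ fun j _ => ms_un Λ ht n _ _ _ fun j' _ => ms_un Λ ht n _ _ _ fun i _ =>
          ms_un Λ ht n _ _ _ fun r _ => ms_un Λ ht n _ _ _ fun q hq =>
            win Λ ht dl hU1 k σ M δ hM (fun P w' => HT ht P = T - q ∧ l P ∧ CD ht dl cd P w' ≠ ∅)
              (fun f hf1 hf2 => le_trans (le_of_eq (tsum_congr fun w' => by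
                congr 1; exact tsum_congr fun P => by congr))
                (hF (T - q) (by omega) (by omega) f hf1 hf2)) n _ _ w
    _ = _ := by rw [NN]; push_cast; ring

lemma EH_mass (hU1 : ∀ n, U Λ ht n ≤ 1) (T i0 J k : ℕ) (σ : List B → Prop) (M δ : ℝ≥0∞)
    (hM : ∀ A1 A2 w w', (∑' S : List B, open Classical in (if HT ht S = k ∧ σ S ∧
      act dl (A1 ++ (S ++ A2)) w = w' then LW Λ S else 0)) ≤ M)
    (hF : ∀ f : W → ℝ≥0∞, ∑' w, f w ≤ 1 → (∀ w, f w ≤ M) →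
      (∑' w', f w' * ∑' P, open Classical in
        (if ∃ b, P = [b] ∧ cd w' b ≠ ∅ then LW Λ P else 0)) ≤ δ)
    (n : ℕ) (w : W) :
    ms Λ ht n (EH ht dl cd T i0 J k σ w) ≤ (NN J i0 : ℝ≥0∞) * δ := by
  calc ms Λ ht n (EH ht dl cd T i0 J k σ w)
      ≤ ms Λ ht n (fun L => ∃ j < 3 * J + 4, ∃ j' < J, ∃ i < J * i0 + 1, ∃ r < i0 + 1, ∃ Z P C,
    L = Z ++ (P ++ C) ∧ Rs ht k σ (j' * (2 * T) + i) (tm J T (j + 1) - r) Z ∧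
      (∃ b, P = [b] ∧ cd (act dl Z w) b ≠ ∅)) :=
        ms_mono Λ ht n fun L _ h => h
    _ ≤ ((3 * J + 4 : ℕ) : ℝ≥0∞) * ((J : ℝ≥0∞) * (((J * i0 + 1 : ℕ) : ℝ≥0∞) *
          (((i0 + 1 : ℕ) : ℝ≥0∞) * δ))) :=
        ms_un Λ ht n _ _ _ fun j _ => ms_un Λ ht n _ _ _ fun j' _ => ms_un Λ ht n _ _ _ fun i _ =>
          ms_un Λ ht n _ _ _ fun r _ =>
            win Λ ht dl hU1 k σ M δ hM (fun P w' => ∃ b, P = [b] ∧ cd w' b ≠ ∅)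
              (fun f hf1 hf2 => hF f hf1 hf2) n _ _ w
    _ ≤ ((3 * J + 4 : ℕ) : ℝ≥0∞) * ((J : ℝ≥0∞) * (((J * i0 + 1 : ℕ) : ℝ≥0∞) *
          (((i0 + 1 : ℕ) : ℝ≥0∞) * (((2 * i0 + 1 : ℕ) : ℝ≥0∞) * δ)))) := by
        gcongr
        have : (1 : ℝ≥0∞) ≤ ((2 * i0 + 1 : ℕ) : ℝ≥0∞) := by exact_mod_cast (by omega : 1 ≤ 2 * i0 + 1)
        calc δ = 1 * δ := (one_mul δ).symm
          _ ≤ _ := mul_le_mul_left this δ
    _ = _ := by rw [NN]; push_cast; ring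

theorem core (h1 : ∀ b, 1 ≤ ht b) (hcd : ∀ w b k, k ∈ cd w b → 1 ≤ k ∧ k ≤ ht b)
    (hΛ : ∑' b, Λ b = 1) (hU1 : ∀ n, U Λ ht n ≤ 1)
    (T i0 J kX kY : ℕ) (σX σY lx ly : List B → Prop) (hT : 2 * i0 < T) (hkX : kX ≤ T)
    (hkY : kY ≤ T) (sX sY MX MY δ v : ℝ≥0∞)
    (hsX : sX ≤ ∑' S : List B, open Classical in (if HT ht S = kX ∧ σX S then LW Λ S else 0))
    (hsY : sY ≤ ∑' S : List B, open Classical in (if HT ht S = kY ∧ σY S then LW Λ S else 0))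
    (hMX : ∀ A1 A2 w w', (∑' S : List B, open Classical in (if HT ht S = kX ∧ σX S ∧
      act dl (A1 ++ (S ++ A2)) w = w' then LW Λ S else 0)) ≤ MX)
    (hMY : ∀ A1 A2 w w', (∑' S : List B, open Classical in (if HT ht S = kY ∧ σY S ∧
      act dl (A1 ++ (S ++ A2)) w = w' then LW Λ S else 0)) ≤ MY)
    (hFX : ∀ k', T ≤ k' + 2 * i0 → k' ≤ T → ∀ f : W → ℝ≥0∞, ∑' w, f w ≤ 1 → (∀ w, f w ≤ MX) →
      (∑' w', f w' * ∑' P, open Classical in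
        (if HT ht P = k' ∧ lx P ∧ CD ht dl cd P w' ≠ ∅ then LW Λ P else 0)) ≤ δ)
    (hFY : ∀ k', T ≤ k' + 2 * i0 → k' ≤ T → ∀ f : W → ℝ≥0∞, ∑' w, f w ≤ 1 → (∀ w, f w ≤ MY) →
      (∑' w', f w' * ∑' P, open Classical in
        (if HT ht P = k' ∧ ly P ∧ CD ht dl cd P w' ≠ ∅ then LW Λ P else 0)) ≤ δ)
    (hB : ∀ f : W → ℝ≥0∞, ∑' w, f w ≤ 1 → (∀ w, f w ≤ MX) →
      (∑' w', f w' * ∑' P, open Classical in
        (if ∃ b, P = [b] ∧ cd w' b ≠ ∅ then LW Λ P else 0)) ≤ δ)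
    (hNL : ∀ k, (∑' P : List B, open Classical in (if HT ht P = k ∧
      (T ≤ HT ht P + 2 * i0 ∧ HT ht P ≤ T ∧ ¬ lx P ∧ ¬ ly P) then LW Λ P else 0)) ≤ v)
    (n m : ℕ) (hm : (3 * J + 2) * T ≤ m) (hm2 : 2 * m ≤ (6 * J + 5) * T)
    (hn : (6 * J + 5) * T ≤ n) (w : W) :
    Kap1 Λ ht dl cd n m w ≤ ((J : ℝ≥0∞) * e1 Λ ht i0 + ((1 - sX) ^ J + ((1 - sY) ^ J +
      ((3 * J + 5 : ℕ) : ℝ≥0∞) * e1 Λ ht i0))) + (((3 * J + 4 : ℕ) : ℝ≥0∞) *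
      ((∑' b, Λ b * (ht b : ℝ≥0∞)) * v) + ((NN J i0 : ℝ≥0∞) * δ + ((NN J i0 : ℝ≥0∞) * δ +
        (NN J i0 : ℝ≥0∞) * δ))) := by
  classical
  have hT1 : 1 ≤ T := by omega
  have hstart : Kap1 Λ ht dl cd n m w ≤ ms Λ ht n (fun L =>
      (BB ht (2 * T) i0 J L ∨ NS ht (2 * T) kX σX J L ∨ NS ht (2 * T) kY σY J L ∨
    (∃ j < 3 * J + 5, ∃ A C, L = A ++ C ∧ ∃ P b, A = P ++ [b] ∧ HT ht P < tm J T j ∧
      tm J T j ≤ HT ht P + ht b ∧ True ∧ i0 < ht b)) ∨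
    (∃ j < 3 * J + 4, ∃ Z P b C, L = Z ++ ((P ++ [b]) ++ C) ∧ FP ht (tm J T j) Z ∧
      HT ht Z + HT ht P < tm J T (j + 1) ∧ tm J T (j + 1) ≤ HT ht Z + HT ht P + ht b ∧
      (T ≤ HT ht P + 2 * i0 ∧ HT ht P ≤ T ∧ ¬ lx P ∧ ¬ ly P)) ∨
    EF ht dl cd T i0 J kX σX lx w L ∨ EF ht dl cd T i0 J kY σY ly w L ∨
    EH ht dl cd T i0 J kX σX w L) := by
    rw [Kap1, ms]
    refine ENNReal.tsum_le_tsum fun L => ?_
    by_cases hL : HT ht L = n ∧ (∀ k ∈ CD ht dl cd L w, m < k) ∧ ∃ k ∈ CD ht dl cd L w, k ≤ 2 * m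
    · rw [if_pos hL, if_pos]
      obtain ⟨hLn, hall, κ, hκ, hκ2⟩ := hL
      exact ⟨hLn, incl ht dl cd h1 hcd T i0 J kX kY σX σY lx ly hT hkX hkY n m hm hm2 hn w L hLn κ
        hκ (hall κ hκ) hκ2⟩
    · rw [if_neg hL]; exact zero_le
  refine hstart.trans ?_
  refine (ms_or Λ ht n _ _).trans (add_le_add ?_ ?_)
  · refine (ms_or Λ ht n _ _).trans (add_le_add ?_ ?_)
    · exact BB_mass Λ ht h1 hΛ hU1 (2 * T) i0 (by omega) J n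
    refine (ms_or Λ ht n _ _).trans (add_le_add ?_ ?_)
    · refine NS_mass Λ ht hU1 (2 * T) kX σX (1 - sX) ?_ J n
      exact fail_mass Λ ht h1 hΛ (2 * T) kX (by omega) σX sX hsX
    refine (ms_or Λ ht n _ _).trans (add_le_add ?_ ?_)
    · refine NS_mass Λ ht hU1 (2 * T) kY σY (1 - sY) ?_ J n
      exact fail_mass Λ ht h1 hΛ (2 * T) kY (by omega) σY sY hsY
    · exact ms_un Λ ht n _ _ _ fun j _ => big_mass Λ ht hU1 (tm J T j) i0 n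
  · refine (ms_or Λ ht n _ _).trans (add_le_add ?_ ?_)
    · refine ms_un Λ ht n _ _ _ fun j _ => ?_
      have htm : 1 ≤ tm J T j := by
        simp only [tm]
        have : T ≤ (3 * J + 1) * T := Nat.le_mul_of_pos_left T (by omega)
        omega
      exact nonloc Λ ht h1 hΛ hU1 (tm J T j) (tm J T (j + 1)) n htm
        (fun P => T ≤ HT ht P + 2 * i0 ∧ HT ht P ≤ T ∧ ¬ lx P ∧ ¬ ly P) v
        (fun k => le_trans (le_of_eq (tsum_congr fun P => by congr)) (hNL k))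
    refine (ms_or Λ ht n _ _).trans (add_le_add ?_ ?_)
    · exact EF_mass Λ ht dl cd hU1 T i0 J kX σX lx MX δ hMX hFX n w
    refine (ms_or Λ ht n _ _).trans (add_le_add ?_ ?_)
    · exact EF_mass Λ ht dl cd hU1 T i0 J kY σY ly MY δ hMY hFY n w
    · exact EH_mass Λ ht dl cd hU1 T i0 J kX σX MX δ hMX hB n w

end Crest.Agent.R154.J183
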