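import Crest.Agent.R154.Spine_796
import Crest.Agent.R154.Half_419
import Crest.Agent.R154.B2Frame_719

/-! Row 154, SPINE (helper796): input 1 (`HalfProp`) is closed (419's `halfSpace_of` + 719's
`Frame.x_bounded`), so S0219 <- `NBProp`, S0221 <- `FL3Prop`, S0220 <- `FL3Prop` + `FL2Prop`. -/

set_option autoImplicit false

namespace Crest.Agent.R154.Spine

open MeasureTheory ProbabilityTheory Crest.ProbabilityR.RandomEnvironment Crest.Agent.R154
open Crest.Agent.R154.B2d Crest.Agent.R154.Bind263
open scoped ENNReal Topology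

/-- **input 1 closed**: half space property in every frame. -/
theorem halfProp : HalfProp := by
  intro d Q _ κ R F ℓ h hℓ
  have h' : annealedProb Q 0 (escapeEvent ℓ) ≠ 0 := by
    rwa [← annealed_apply Q 0 (B2d.measurableSet_escapeEvent ℓ)]
  exact Half419.halfSpace_of F ℓ hℓ h'
    fun i => F.x_bounded ℓ hℓ h' (Half419.crd i) (abs_crd_stp i)

theorem s0219' (hNB : NBProp) : T0219 := s0219 halfProp hNB

theorem s0220' (h3 : FL3Prop) (h2 : FL2Prop) : T0220 := s0220 halfProp h3 h2

theorem s0221' (h3 : FL3Prop) : T0221 := s0221 halfProp h3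

end Crest.Agent.R154.Spine
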