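import Crest.Agent.R154.B5Br_657
import Crest.Agent.R154.WMass_286
import Crest.Agent.R154.SpineH_796

/-! Row 154 (helper657): `KappaW` for every direction with both escapes gives `NBProp`. -/

set_option autoImplicit false

open MeasureTheory ProbabilityTheory Crest.ProbabilityR.RandomEnvironment
open scoped ENNReal

namespace Crest.Agent.R154.B5W

open Crest.Agent.R154.NB28 (IsUp IsDn Cm KW KappaW)

theorem nbProp_of_kappaW
    (hK : ∀ (d : ℕ) (_ : 3 ≤ d) (ν : Measure (Row d)) [IsProbabilityMeasure ν],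
      (∀ᵐ p ∂ν, ∀ e : Step d, 0 < p.1 e) → ∀ u : Step d,
      annealed (iidEnvironmentLaw ν) 0 (escapeEvent (B2d.dirVec u)) ≠ 0 →
      annealed (iidEnvironmentLaw ν) 0 (escapeEvent (-B2d.dirVec u)) ≠ 0 → KappaW ν u) :
    Spine.NBProp := by
  intro d hd ν _ hν u hA
  by_contra hB
  obtain ⟨c, hc, _, hup, hdn⟩ := WM286.mass_pos ν hν u hA hB
  exact no_both ν u (by omega) hν c hc 0 (fun n _ => hup n) (fun n _ => hdn n)
    (hK d hd ν hν u hA hB)

end Crest.Agent.R154.B5W
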