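import Crest.Agent.R154.JComp_598
import Crest.Agent.R154.NBTop_657
import Crest.Agent.R154.JD_199
import Crest.Agent.R154.Num_873

/-! Row 154, ROAD 801, joint-cut frame (helper188): `NBProp` from the two window lemmas at ONE common
height (912's `E2`, `E3`, words) and the slab. -/

set_option autoImplicit false
set_option linter.unusedVariables false
set_option linter.unusedSectionVars false

namespace Crest.Agent.R154.JF188

open scoped ENNReal Topology
open Filter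
open Crest.Agent.R154.B5A Crest.Agent.R154.FP178
open Crest.Agent.R154.JD199 (law sum_law)

lemma ite_eq' {P : Prop} (i1 i2 : Decidable P) (a b : ℝ≥0∞) :
    @ite _ P i1 a b = @ite _ P i2 a b := by rw [Subsingleton.elim i1 i2]

section abs

variable {B W : Type*} (Λ : B → ℝ≥0∞) (ht : B → ℕ) (dl : B → W → W)

open Classical in
lemma law_int (T : ℕ) (w : W) (Ψ : W → ℝ≥0∞) :
    ∑' A, (if fp ht T A then LW Λ A * Ψ (act dl A w) else 0)
      = ∑' x, law Λ ht dl T w x * Ψ x := by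
  have h : ∀ x, law Λ ht dl T w x * Ψ x
      = ∑' A, (if fp ht T A then LW Λ A * ((if act dl A w = x then 1 else 0) * Ψ x) else 0) := by
    intro x
    rw [law, ← ENNReal.tsum_mul_right]
    refine tsum_congr fun A => ?_
    by_cases hA : fp ht T A
    · rw [if_pos hA, if_pos hA, mul_assoc]
    · rw [if_neg hA, if_neg hA, zero_mul]
  simp_rw [h]
  rw [ENNReal.tsum_comm]
  refine tsum_congr fun A => ?_
  by_cases hA : fp ht T A
  · simp only [if_pos hA]
    rw [ENNReal.tsum_mul_left]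
    congr 1
    rw [tsum_eq_single (act dl A w)]
    · simp
    · intro x hx
      rw [if_neg (Ne.symm hx), zero_mul]
  · simp [hA]

open Classical in
/-- a functional `≤ 1` of the position at a first passage, through smooth measures -/
lemma smoothed (h1 : ∀ b, 1 ≤ ht b) (hΛ : ∑' b, Λ b ≤ 1)
    (hinj : ∀ b, Function.Injective (dl b)) (h : ℕ) (hh : 1 ≤ h)
    (Hit : List B → Prop) (hHit : ∀ L, Hit L → HT ht L = h) (q th τ : ℝ≥0∞)
    (hq : q ≤ ∑' L, (if Hit L then LW Λ L else 0))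
    (hth : ∀ w y, ∑' L, (if Hit L ∧ act dl L w = y then LW Λ L else 0) ≤ th)
    (hτ : ∑' L, (if fp ht h L ∧ h + h < HT ht L then LW Λ L else 0) ≤ τ)
    (N T : ℕ) (w : W) (hT : 2 * h * N ≤ T) (Ψ : W → ℝ≥0∞) (hΨ : ∀ x, Ψ x ≤ 1) (D : ℝ≥0∞)
    (hD : ∀ μ : W → ℝ≥0∞, ∑' x, μ x ≤ 1 → (∀ x, μ x ≤ N * th) → ∑' x, μ x * Ψ x ≤ D) :
    ∑' A, (if fp ht T A then LW Λ A * Ψ (act dl A w) else 0) ≤ D + ((1 - q) ^ N + N * τ) := by
  rw [law_int Λ ht dl]
  obtain ⟨bad, hbad⟩ := JD199.dens Λ ht dl h1 hΛ hinj h hh Hit hHit q th τ hq hth hτ N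
  obtain ⟨hb1, hb2⟩ := hbad T w hT
  have h3 : ∀ x, law Λ ht dl T w x * Ψ x
      ≤ min (law Λ ht dl T w x) (N * th) * Ψ x + bad T w x := by
    intro x
    have h4 : law Λ ht dl T w x ≤ min (law Λ ht dl T w x) (N * th) + bad T w x := by
      rcases le_total (law Λ ht dl T w x) (N * th) with h5 | h5
      · rw [min_eq_left h5]; exact le_self_add
      · rw [min_eq_right h5]; exact hb2 x
    calc law Λ ht dl T w x * Ψ x ≤ (min (law Λ ht dl T w x) (N * th) + bad T w x) * Ψ x :=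
          mul_le_mul_left h4 _
      _ = min (law Λ ht dl T w x) (N * th) * Ψ x + bad T w x * Ψ x := add_mul _ _ _
      _ ≤ _ := add_le_add le_rfl (by
          calc bad T w x * Ψ x ≤ bad T w x * 1 := mul_le_mul_right (hΨ x) _
            _ = _ := mul_one _)
  refine (ENNReal.tsum_le_tsum h3).trans ?_
  rw [ENNReal.tsum_add]
  refine add_le_add (hD _ ?_ fun x => min_le_right _ _) hb1
  exact (ENNReal.tsum_le_tsum fun x => min_le_left _ _).trans (sum_law Λ ht dl h1 hΛ T w)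

end abs

section num

/-- quantile for a law of mass in `[c, 1]` -/
lemma quantm {ι : Type*} (p : ι → ℝ≥0∞) (c : ℝ≥0∞) (hc : c ≠ 0) (hp : c ≤ ∑' i, p i)
    (hp1 : ∑' i, p i ≤ 1) (v : ℝ≥0∞) (hv : v ≠ 0) (hv1 : v < 1) :
    ∃ th : ℝ≥0∞, th ≠ 0 ∧ th ≤ 1 ∧ (∑' i, (if p i < th then p i else 0)) ≤ v ∧
      v * c ≤ (∑' i, (if p i < 2 * th then p i else 0)) ∧ {i | th ≤ p i}.Finite ∧
      ({i | th ≤ p i}.ncard : ℝ≥0∞) * th ≤ 1 := by
  set m := ∑' i, p i with hm
  have hm0 : m ≠ 0 := fun h => hc (le_antisymm (h ▸ hp) zero_le)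
  have hmt : m ≠ ⊤ := ne_top_of_le_ne_top ENNReal.one_ne_top hp1
  have hsum : ∑' i, p i / m = 1 := by
    simp_rw [ENNReal.div_eq_inv_mul]
    rw [ENNReal.tsum_mul_left, ← hm, ENNReal.inv_mul_cancel hm0 hmt]
  obtain ⟨th, h0, h1, h2, h3, h4, h5⟩ := Num873.quant (fun i => p i / m) hsum v hv hv1
  have key : ∀ (i : ι) (t : ℝ≥0∞), p i / m < t ↔ p i < t * m := fun i t => by
    rw [ENNReal.div_lt_iff (Or.inl hm0) (Or.inl hmt)]
  have key' : ∀ (i : ι) (t : ℝ≥0∞), t ≤ p i / m ↔ t * m ≤ p i := fun i t => by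
    rw [← not_lt, key, not_lt]
  have hsc : ∀ t : ℝ≥0∞, (∑' i, (if p i / m < t then p i / m else 0)) * m
      = ∑' i, (if p i < t * m then p i else 0) := by
    intro t
    rw [← ENNReal.tsum_mul_right]
    refine tsum_congr fun i => ?_
    by_cases h : p i / m < t
    · rw [if_pos h, if_pos ((key i t).1 h), ENNReal.div_mul_cancel hm0 hmt]
    · rw [if_neg h, if_neg (fun h' => h ((key i t).2 h')), zero_mul]
  refine ⟨th * m, mul_ne_zero h0 hm0, mul_le_one' h1 hp1, ?_, ?_, ?_, ?_⟩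
  · rw [← hsc]
    calc _ ≤ v * 1 := mul_le_mul' h2 hp1
      _ = v := mul_one _
  · rw [← mul_assoc, ← hsc]
    exact mul_le_mul' h3 hp
  · simpa only [key'] using h4
  · have : ({i | th ≤ p i / m}.ncard : ℝ≥0∞) * (th * m) ≤ 1 := by
      rw [← mul_assoc]
      exact mul_le_one' h5 hp1
    simpa only [key'] using this

/-- choice of `lam`, `s` -/
lemma pick (C : ℝ≥0∞) (hC : C ≠ ⊤) (us : ℕ → ℝ≥0∞) (hus : Tendsto us atTop (𝓝 0)) (N : ℕ)
    (δ : ℝ≥0∞) (hδ : δ ≠ 0) :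
    ∃ (lam : ℝ≥0∞) (s : ℕ), lam ≠ 0 ∧ lam ≠ ⊤ ∧ C * (lam + N * us s / lam + us s) ≤ δ := by
  obtain ⟨e, he0, he⟩ := ENNReal.exists_nnreal_pos_mul_lt hC
    (show δ / 3 ≠ 0 from ENNReal.div_ne_zero.2 ⟨hδ, by norm_num⟩)
  have he0' : (e : ℝ≥0∞) ≠ 0 := by exact_mod_cast he0.ne'
  have het : (e : ℝ≥0∞) ≠ ⊤ := ENNReal.coe_ne_top
  have t1 : Tendsto (fun s => (N : ℝ≥0∞) * us s / e) atTop (𝓝 0) := by
    have h1 := ENNReal.Tendsto.const_mul (a := (N : ℝ≥0∞)) hus
      (Or.inr (ENNReal.natCast_ne_top N))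
    rw [mul_zero] at h1
    have h2 := ENNReal.Tendsto.div_const h1 (Or.inr he0')
    rwa [ENNReal.zero_div] at h2
  obtain ⟨s, hs1, hs2⟩ := ((t1.eventually_le_const (pos_iff_ne_zero.2 he0')).and
    (hus.eventually_le_const (pos_iff_ne_zero.2 he0'))).exists
  refine ⟨e, s, he0', het, ?_⟩
  calc C * ((e : ℝ≥0∞) + N * us s / e + us s) ≤ C * (e + e + e) :=
        mul_le_mul_right (add_le_add (add_le_add le_rfl hs1) hs2) _
    _ = (e * C) * 3 := by ring
    _ ≤ δ / 3 * 3 := mul_le_mul_left he.le _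
    _ = δ := ENNReal.div_mul_cancel (by norm_num) (by norm_num)

end num

section inst

open MeasureTheory ProbabilityTheory Crest.ProbabilityR.RandomEnvironment
open Crest.Agent.R154.B5W
open Crest.Agent.R154.NB28 (IsUp IsDn Cm)
open Crest.Agent.R154.Flux566 (endp sitesL lev endp_append endp_eq_add)

variable {d : ℕ} (ν : Measure (Row d)) [IsProbabilityMeasure ν] (u : Step d)

lemma act_cat (L : List (PB u)) (w : Lat u) :
    (act (dl u) L w).1 = w.1 + endp 0 (cat L).1 + endp 0 (cat L).2 := by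
  induction L generalizing w with
  | nil => simp [act, cat, endp]
  | cons b L ih =>
    rw [act, ih]
    show (w.1 + endp 0 b.1.1 + endp 0 b.1.2) + endp 0 (cat L).1 + endp 0 (cat L).2
      = w.1 + endp 0 ((cat L).1 ++ b.1.1) + endp 0 (b.1.2 ++ (cat L).2)
    rw [endp_append, endp_append, endp_eq_add b.1.1 (endp 0 (cat L).1),
      endp_eq_add (cat L).2 (endp 0 b.1.2)]
    abel

open Classical in
/-- law of the end point over a family -/
noncomputable def pw (P : List (Step d) → Prop) (x : Site d) : ℝ≥0∞ :=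
  ∑' l : List (Step d), if P l ∧ endp 0 l = x then NB28.aw ν l else 0

open Classical in
lemma pw_int (P : List (Step d) → Prop) (F : Site d → ℝ≥0∞) :
    ∑' x, pw ν P x * F x = ∑' l : List (Step d), if P l then NB28.aw ν l * F (endp 0 l) else 0 := by
  have h : ∀ x, pw ν P x * F x
      = ∑' l : List (Step d), (if P l ∧ endp 0 l = x then NB28.aw ν l * F x else 0) := by
    intro x
    rw [pw, ← ENNReal.tsum_mul_right]
    refine tsum_congr fun l => ?_
    by_cases hl : P l ∧ endp 0 l = x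
    · rw [if_pos hl, if_pos hl]
    · rw [if_neg hl, if_neg hl, zero_mul]
  simp_rw [h]
  rw [ENNReal.tsum_comm]
  refine tsum_congr fun l => ?_
  rw [tsum_eq_single (endp 0 l)]
  · by_cases hl : P l
    · rw [if_pos ⟨hl, rfl⟩, if_pos hl]
    · rw [if_neg (fun h' => hl h'.1), if_neg hl]
  · intro x hx
    rw [if_neg (fun h' => hx h'.2.symm)]

open Classical in
lemma pw_sum (P : List (Step d) → Prop) :
    ∑' x, pw ν P x = ∑' l : List (Step d), if P l then NB28.aw ν l else 0 := by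
  have := pw_int ν P (fun _ => 1)
  simpa using this

open Classical in
lemma pw_low (P : List (Step d) → Prop) (t : ℝ≥0∞) :
    ∑' l : List (Step d), (if P l then NB28.aw ν l * (if pw ν P (endp 0 l) < t then 1 else 0) else 0)
      = ∑' x, (if pw ν P x < t then pw ν P x else 0) := by
  rw [← pw_int ν P (fun x => if pw ν P x < t then 1 else 0)]
  refine tsum_congr fun x => ?_
  by_cases h : pw ν P x < t
  · rw [if_pos h, if_pos h, mul_one]
  · rw [if_neg h, if_neg h, mul_zero]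

open Classical in
lemma prod_eq (P Q : List (Step d) → Prop) (f g : List (Step d) → ℝ≥0∞) :
    ∑' π : List (Step d), ∑' γ : List (Step d),
      (if P π ∧ Q γ then NB28.aw ν π * NB28.aw ν γ * (f π * g γ) else 0)
      = (∑' π : List (Step d), if P π then NB28.aw ν π * f π else 0) *
        ∑' γ : List (Step d), if Q γ then NB28.aw ν γ * g γ else 0 := by
  rw [← ENNReal.tsum_mul_right]
  refine tsum_congr fun π => ?_
  rw [← ENNReal.tsum_mul_left]
  refine tsum_congr fun γ => ?_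
  by_cases h1 : P π <;> by_cases h2 : Q γ
  · rw [if_pos ⟨h1, h2⟩, if_pos h1, if_pos h2]; ring
  · simp [h1, h2]
  · simp [h1, h2]
  · simp [h1, h2]

open Classical in
/-- contact weight of a piece of exact height `H`, all contacts in the middle, property `A` -/
noncomputable def PP (H s : ℕ) (A : List (Step d) → List (Step d) → Prop) (x : Site d) : ℝ≥0∞ :=
  ∑' π : List (Step d), ∑' γ : List (Step d),
    (if IsUp u H π ∧ IsDn u H γ ∧ A π γ ∧ (∃ k, k ∈ Cm u x π γ) ∧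
      (∀ k ∈ Cm u x π γ, s < k ∧ k + s ≤ H) then NB28.aw ν π * NB28.aw ν γ else 0)

open Classical in
/-- **912's `E2`** (weakest form: both clauses, `M ≠ ⊤`). -/
def E2 (C : ℝ≥0∞) (us : ℕ → ℝ≥0∞) : Prop :=
  ∀ (s H : ℕ) (E : Finset (Site d)) (μ : Site d → ℝ≥0∞) (M lam : ℝ≥0∞), ∑' x, μ x ≤ 1 →
    (∀ x, μ x ≤ M) → M ≠ ⊤ → lam ≠ 0 → lam ≠ ⊤ →
    ∑' x, (if lev u x = 0 then μ x * PP ν u H s (fun π _ => endp 0 π ∈ E) x else 0)
      ≤ C * (lam + M * E.card * us s / lam + us s)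

open Classical in
/-- **912's `E3`** (weakest form: both clauses, `M ≠ ⊤`). -/
def E3 (C : ℝ≥0∞) (us : ℕ → ℝ≥0∞) : Prop :=
  ∀ (s H : ℕ) (E : Finset (Site d)) (μ : Site d → ℝ≥0∞) (M lam : ℝ≥0∞), ∑' x, μ x ≤ 1 →
    (∀ x, μ x ≤ M) → M ≠ ⊤ → lam ≠ 0 → lam ≠ ⊤ →
    ∑' x, (if lev u x = 0 then μ x * PP ν u H s (fun _ γ => endp 0 γ ∈ E) x else 0)
      ≤ C * (lam + M * E.card * us s / lam + us s)

open Classical in
lemma mU_le (n : ℕ) : ∑' π : List (Step d), (if IsUp u n π then NB28.aw ν π else 0) ≤ 1 :=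
  sum_if_le_one ν fun l l' h h' hp => NB28.isUp_prefix h h' hp

open Classical in
lemma mD_le (n : ℕ) : ∑' π : List (Step d), (if IsDn u n π then NB28.aw ν π else 0) ≤ 1 :=
  sum_if_le_one ν fun l l' h h' hp => NB28.isDn_prefix h h' hp

open Classical in
lemma PP_le_one (H s : ℕ) (A : List (Step d) → List (Step d) → Prop) (x : Site d) :
    PP ν u H s A x ≤ 1 := by
  have h1 : PP ν u H s A x ≤ ∑' π : List (Step d), ∑' γ : List (Step d),
      (if IsUp u H π ∧ IsDn u H γ then NB28.aw ν π * NB28.aw ν γ * (1 * 1) else 0) := by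
    refine ENNReal.tsum_le_tsum fun π => ENNReal.tsum_le_tsum fun γ => ?_
    by_cases h : IsUp u H π ∧ IsDn u H γ ∧ A π γ ∧ (∃ k, k ∈ Cm u x π γ) ∧
      (∀ k ∈ Cm u x π γ, s < k ∧ k + s ≤ H)
    · rw [if_pos h, if_pos ⟨h.1, h.2.1⟩, mul_one, mul_one]
    · rw [if_neg h]; exact zero_le
  refine h1.trans ?_
  have h2 := prod_eq ν (IsUp u H) (IsDn u H) (fun _ => 1) (fun _ => 1)
  simp only [mul_one] at h2 ⊢
  rw [h2]
  exact mul_le_one' (mU_le ν u H) (mD_le ν u H)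

open Classical in
/-- the piece: non-local pairs, `X` local, `Y` local -/
lemma WLp_le (H s : ℕ) (w : Lat u) (tX tY v : ℝ≥0∞)
    (EX EY : Finset (Site d)) (hEX : ∀ x, tX ≤ pw ν (IsUp u H) x → x ∈ EX)
    (hEY : ∀ x, tY ≤ pw ν (IsDn u H) x → x ∈ EY)
    (hvX : ∑' x, (if pw ν (IsUp u H) x < tX then pw ν (IsUp u H) x else 0) ≤ v)
    (hvY : ∑' x, (if pw ν (IsDn u H) x < tY then pw ν (IsDn u H) x else 0) ≤ v) :
    JC598.WLp (Lam ν u) (ht u) (dl u) (cd u) H s w
      ≤ v * v + (PP ν u H s (fun π _ => endp 0 π ∈ EX) w.1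
        + PP ν u H s (fun _ γ => endp 0 γ ∈ EY) w.1) := by
  have e : JC598.WLp (Lam ν u) (ht u) (dl u) (cd u) H s w
      = ∑' π : List (Step d), ∑' γ : List (Step d), (if IsUp u H π ∧ IsDn u H γ then
        NB28.aw ν π * NB28.aw ν γ * (if (∃ k, k ∈ Cm u w.1 π γ) ∧
          (∀ k ∈ Cm u w.1 π γ, s < k ∧ k + s ≤ H) then 1 else 0) else 0) := by
    have h := tsum_L ν u H (fun x => if (∃ k, k ∈ cds u x w.1) ∧
      (∀ k ∈ cds u x w.1, s < k ∧ k + s ≤ H) then 1 else 0)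
    simp only [cds_eq] at h
    rw [← h]
    unfold JC598.WLp
    refine tsum_congr fun L => ?_
    rw [CD_cat]
    by_cases h1 : HT (ht u) L = H
    · by_cases h2 : (∃ k, k ∈ cds u (cat L) w.1) ∧ ∀ k ∈ cds u (cat L) w.1, s < k ∧ k + s ≤ H
      · rw [if_pos ⟨h1, h2⟩, if_pos h1, if_pos h2, mul_one]
      · rw [if_neg (fun h' => h2 h'.2), if_pos h1, if_neg h2, mul_zero]
    · rw [if_neg (fun h' => h1 h'.1), if_neg h1]
  rw [e]
  have hp := prod_eq ν (IsUp u H) (IsDn u H)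
    (fun π => if pw ν (IsUp u H) (endp 0 π) < tX then 1 else 0)
    (fun γ => if pw ν (IsDn u H) (endp 0 γ) < tY then 1 else 0)
  rw [pw_low, pw_low] at hp
  calc _ ≤ ∑' π : List (Step d), ∑' γ : List (Step d),
        ((if IsUp u H π ∧ IsDn u H γ then NB28.aw ν π * NB28.aw ν γ *
          ((if pw ν (IsUp u H) (endp 0 π) < tX then 1 else 0) *
            (if pw ν (IsDn u H) (endp 0 γ) < tY then 1 else 0)) else 0) +
        ((if IsUp u H π ∧ IsDn u H γ ∧ endp 0 π ∈ EX ∧ (∃ k, k ∈ Cm u w.1 π γ) ∧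
          (∀ k ∈ Cm u w.1 π γ, s < k ∧ k + s ≤ H) then NB28.aw ν π * NB28.aw ν γ else 0) +
        (if IsUp u H π ∧ IsDn u H γ ∧ endp 0 γ ∈ EY ∧ (∃ k, k ∈ Cm u w.1 π γ) ∧
          (∀ k ∈ Cm u w.1 π γ, s < k ∧ k + s ≤ H) then NB28.aw ν π * NB28.aw ν γ else 0))) := by
        refine ENNReal.tsum_le_tsum fun π => ENNReal.tsum_le_tsum fun γ => ?_
        by_cases h1 : IsUp u H π ∧ IsDn u H γ
        · by_cases h2 : (∃ k, k ∈ Cm u w.1 π γ) ∧ ∀ k ∈ Cm u w.1 π γ, s < k ∧ k + s ≤ H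
          · rw [if_pos h1, if_pos h2, mul_one, if_pos h1]
            by_cases h3 : pw ν (IsUp u H) (endp 0 π) < tX
            · by_cases h4 : pw ν (IsDn u H) (endp 0 γ) < tY
              · rw [if_pos h3, if_pos h4, mul_one, mul_one]
                exact le_self_add
              · rw [if_pos (⟨h1.1, h1.2, hEY _ (not_lt.1 h4), h2⟩ : IsUp u H π ∧ IsDn u H γ ∧
                  endp 0 γ ∈ EY ∧ (∃ k, k ∈ Cm u w.1 π γ) ∧
                  (∀ k ∈ Cm u w.1 π γ, s < k ∧ k + s ≤ H))]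
                exact le_add_left (le_add_left le_rfl)
            · rw [if_pos (⟨h1.1, h1.2, hEX _ (not_lt.1 h3), h2⟩ : IsUp u H π ∧ IsDn u H γ ∧
                  endp 0 π ∈ EX ∧ (∃ k, k ∈ Cm u w.1 π γ) ∧
                  (∀ k ∈ Cm u w.1 π γ, s < k ∧ k + s ≤ H))]
              exact le_add_left (le_add_right le_rfl)
          · rw [if_pos h1, if_neg h2, mul_zero]; exact zero_le
        · rw [if_neg h1]; exact zero_le
    _ ≤ _ := by
        simp_rw [ENNReal.tsum_add]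
        refine add_le_add ?_ (add_le_add (le_of_eq ?_) (le_of_eq ?_))
        · rw [hp]
          exact mul_le_mul' hvX hvY
        · unfold PP
          exact tsum_congr fun π => tsum_congr fun γ => ite_eq' _ _ _ _
        · unfold PP
          exact tsum_congr fun π => tsum_congr fun γ => ite_eq' _ _ _ _

open Classical in
/-- the mass of the pairs with a condition on `π` -/
lemma hitX_mass (H : ℕ) (t : ℝ≥0∞) :
    ∑' L : List (PB u), (if HT (ht u) L = H ∧ pw ν (IsUp u H) (endp 0 (cat L).1) < t then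
      LW (Lam ν u) L else 0)
      = (∑' x, (if pw ν (IsUp u H) x < t then pw ν (IsUp u H) x else 0)) *
        ∑' γ : List (Step d), (if IsDn u H γ then NB28.aw ν γ else 0) := by
  have h := tsum_L ν u H (fun x => if pw ν (IsUp u H) (endp 0 x.1) < t then 1 else 0)
  have hp := prod_eq ν (IsUp u H) (IsDn u H)
    (fun π => if pw ν (IsUp u H) (endp 0 π) < t then 1 else 0) (fun _ => 1)
  rw [pw_low] at hp
  simp only [mul_one] at hp
  rw [← hp, ← h]
  refine tsum_congr fun L => ?_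
  by_cases h1 : HT (ht u) L = H
  · by_cases h2 : pw ν (IsUp u H) (endp 0 (cat L).1) < t
    · rw [if_pos ⟨h1, h2⟩, if_pos h1, if_pos h2, mul_one]
    · rw [if_neg (fun h' => h2 h'.2), if_pos h1, if_neg h2, mul_zero]
  · rw [if_neg (fun h' => h1 h'.1), if_neg h1]

open Classical in
lemma hitY_mass (H : ℕ) (t : ℝ≥0∞) :
    ∑' L : List (PB u), (if HT (ht u) L = H ∧ pw ν (IsDn u H) (endp 0 (cat L).2) < t then
      LW (Lam ν u) L else 0)
      = (∑' π : List (Step d), (if IsUp u H π then NB28.aw ν π else 0)) *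
        ∑' x, (if pw ν (IsDn u H) x < t then pw ν (IsDn u H) x else 0) := by
  have h := tsum_L ν u H (fun x => if pw ν (IsDn u H) (endp 0 x.2) < t then 1 else 0)
  have hp := prod_eq ν (IsUp u H) (IsDn u H) (fun _ => 1)
    (fun γ => if pw ν (IsDn u H) (endp 0 γ) < t then 1 else 0)
  rw [pw_low] at hp
  simp only [mul_one, one_mul] at hp
  rw [← hp, ← h]
  refine tsum_congr fun L => ?_
  by_cases h1 : HT (ht u) L = H
  · by_cases h2 : pw ν (IsDn u H) (endp 0 (cat L).2) < t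
    · rw [if_pos ⟨h1, h2⟩, if_pos h1, if_pos h2, mul_one]
    · rw [if_neg (fun h' => h2 h'.2), if_pos h1, if_neg h2, mul_zero]
  · rw [if_neg (fun h' => h1 h'.1), if_neg h1]

open Classical in
lemma hitX_th (H : ℕ) (t : ℝ≥0∞) (w y : Lat u) :
    ∑' L : List (PB u), (if (HT (ht u) L = H ∧ pw ν (IsUp u H) (endp 0 (cat L).1) < t) ∧
      act (dl u) L w = y then LW (Lam ν u) L else 0) ≤ t := by
  have h := tsum_L ν u H (fun x => if pw ν (IsUp u H) (endp 0 x.1) < t ∧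
    w.1 + endp 0 x.1 + endp 0 x.2 = y.1 then 1 else 0)
  have e : ∑' L : List (PB u), (if (HT (ht u) L = H ∧ pw ν (IsUp u H) (endp 0 (cat L).1) < t) ∧
      act (dl u) L w = y then LW (Lam ν u) L else 0)
      = ∑' π : List (Step d), ∑' γ : List (Step d), (if IsUp u H π ∧ IsDn u H γ then
        NB28.aw ν π * NB28.aw ν γ * (if pw ν (IsUp u H) (endp 0 π) < t ∧
          w.1 + endp 0 π + endp 0 γ = y.1 then 1 else 0) else 0) := by
    rw [← h]
    refine tsum_congr fun L => ?_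
    have hact : act (dl u) L w = y ↔ w.1 + endp 0 (cat L).1 + endp 0 (cat L).2 = y.1 := by
      rw [← act_cat]; exact Subtype.ext_iff
    by_cases h1 : HT (ht u) L = H
    · by_cases h2 : pw ν (IsUp u H) (endp 0 (cat L).1) < t ∧
        w.1 + endp 0 (cat L).1 + endp 0 (cat L).2 = y.1
      · rw [if_pos ⟨⟨h1, h2.1⟩, hact.2 h2.2⟩, if_pos h1, if_pos h2, mul_one]
      · rw [if_neg (fun h' => h2 ⟨h'.1.2, hact.1 h'.2⟩), if_pos h1, if_neg h2, mul_zero]
    · rw [if_neg (fun h' => h1 h'.1.1), if_neg h1]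
  rw [e, ENNReal.tsum_comm]
  have h2 : ∀ γ : List (Step d), ∑' π : List (Step d), (if IsUp u H π ∧ IsDn u H γ then
        NB28.aw ν π * NB28.aw ν γ * (if pw ν (IsUp u H) (endp 0 π) < t ∧
          w.1 + endp 0 π + endp 0 γ = y.1 then 1 else 0) else 0)
      ≤ t * (if IsDn u H γ then NB28.aw ν γ else 0) := by
    intro γ
    by_cases hγ : IsDn u H γ
    · rw [if_pos hγ]
      have h3 : ∀ π : List (Step d), (if IsUp u H π ∧ IsDn u H γ then
        NB28.aw ν π * NB28.aw ν γ * (if pw ν (IsUp u H) (endp 0 π) < t ∧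
          w.1 + endp 0 π + endp 0 γ = y.1 then 1 else 0) else 0)
          = (if IsUp u H π then NB28.aw ν π * (if pw ν (IsUp u H) (endp 0 π) < t ∧
          w.1 + endp 0 π + endp 0 γ = y.1 then 1 else 0) else 0) * NB28.aw ν γ := by
        intro π
        by_cases hπ : IsUp u H π
        · rw [if_pos ⟨hπ, hγ⟩, if_pos hπ]; ring
        · rw [if_neg (fun h' => hπ h'.1), if_neg hπ, zero_mul]
      simp_rw [h3]
      rw [ENNReal.tsum_mul_right]
      refine mul_le_mul_left ?_ _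
      rw [← pw_int ν (IsUp u H) (fun x => if pw ν (IsUp u H) x < t ∧
          w.1 + x + endp 0 γ = y.1 then 1 else 0)]
      rw [tsum_eq_single (y.1 - endp 0 γ - w.1)]
      · by_cases h4 : pw ν (IsUp u H) (y.1 - endp 0 γ - w.1) < t
        · exact (mul_le_mul_right (by split_ifs <;> simp) _).trans ((mul_one _).le.trans h4.le)
        · rw [if_neg (fun h' => h4 h'.1), mul_zero]; exact zero_le
      · intro x hx
        rw [if_neg, mul_zero]
        rintro ⟨-, h5⟩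
        exact hx (by rw [← h5]; abel)
    · have : ∀ π : List (Step d), (if IsUp u H π ∧ IsDn u H γ then
        NB28.aw ν π * NB28.aw ν γ * (if pw ν (IsUp u H) (endp 0 π) < t ∧
          w.1 + endp 0 π + endp 0 γ = y.1 then 1 else 0) else 0) = 0 := fun π => by
        rw [if_neg (fun h' => hγ h'.2)]
      simp_rw [this]
      simp
  refine (ENNReal.tsum_le_tsum h2).trans ?_
  rw [ENNReal.tsum_mul_left]
  calc t * _ ≤ t * 1 := mul_le_mul_right (mD_le ν u H) _
    _ = t := mul_one _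

open Classical in
lemma hitY_th (H : ℕ) (t : ℝ≥0∞) (w y : Lat u) :
    ∑' L : List (PB u), (if (HT (ht u) L = H ∧ pw ν (IsDn u H) (endp 0 (cat L).2) < t) ∧
      act (dl u) L w = y then LW (Lam ν u) L else 0) ≤ t := by
  have h := tsum_L ν u H (fun x => if pw ν (IsDn u H) (endp 0 x.2) < t ∧
    w.1 + endp 0 x.1 + endp 0 x.2 = y.1 then 1 else 0)
  have e : ∑' L : List (PB u), (if (HT (ht u) L = H ∧ pw ν (IsDn u H) (endp 0 (cat L).2) < t) ∧
      act (dl u) L w = y then LW (Lam ν u) L else 0)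
      = ∑' π : List (Step d), ∑' γ : List (Step d), (if IsUp u H π ∧ IsDn u H γ then
        NB28.aw ν π * NB28.aw ν γ * (if pw ν (IsDn u H) (endp 0 γ) < t ∧
          w.1 + endp 0 π + endp 0 γ = y.1 then 1 else 0) else 0) := by
    rw [← h]
    refine tsum_congr fun L => ?_
    have hact : act (dl u) L w = y ↔ w.1 + endp 0 (cat L).1 + endp 0 (cat L).2 = y.1 := by
      rw [← act_cat]; exact Subtype.ext_iff
    by_cases h1 : HT (ht u) L = H
    · by_cases h2 : pw ν (IsDn u H) (endp 0 (cat L).2) < t ∧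
        w.1 + endp 0 (cat L).1 + endp 0 (cat L).2 = y.1
      · rw [if_pos ⟨⟨h1, h2.1⟩, hact.2 h2.2⟩, if_pos h1, if_pos h2, mul_one]
      · rw [if_neg (fun h' => h2 ⟨h'.1.2, hact.1 h'.2⟩), if_pos h1, if_neg h2, mul_zero]
    · rw [if_neg (fun h' => h1 h'.1.1), if_neg h1]
  rw [e]
  have h2 : ∀ π : List (Step d), ∑' γ : List (Step d), (if IsUp u H π ∧ IsDn u H γ then
        NB28.aw ν π * NB28.aw ν γ * (if pw ν (IsDn u H) (endp 0 γ) < t ∧
          w.1 + endp 0 π + endp 0 γ = y.1 then 1 else 0) else 0)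
      ≤ t * (if IsUp u H π then NB28.aw ν π else 0) := by
    intro π
    by_cases hπ : IsUp u H π
    · rw [if_pos hπ]
      have h3 : ∀ γ : List (Step d), (if IsUp u H π ∧ IsDn u H γ then
        NB28.aw ν π * NB28.aw ν γ * (if pw ν (IsDn u H) (endp 0 γ) < t ∧
          w.1 + endp 0 π + endp 0 γ = y.1 then 1 else 0) else 0)
          = (if IsDn u H γ then NB28.aw ν γ * (if pw ν (IsDn u H) (endp 0 γ) < t ∧
          w.1 + endp 0 π + endp 0 γ = y.1 then 1 else 0) else 0) * NB28.aw ν π := by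
        intro γ
        by_cases hγ : IsDn u H γ
        · rw [if_pos ⟨hπ, hγ⟩, if_pos hγ]; ring
        · rw [if_neg (fun h' => hγ h'.2), if_neg hγ, zero_mul]
      simp_rw [h3]
      rw [ENNReal.tsum_mul_right]
      refine mul_le_mul_left ?_ _
      rw [← pw_int ν (IsDn u H) (fun x => if pw ν (IsDn u H) x < t ∧
          w.1 + endp 0 π + x = y.1 then 1 else 0)]
      rw [tsum_eq_single (y.1 - (w.1 + endp 0 π))]
      · by_cases h4 : pw ν (IsDn u H) (y.1 - (w.1 + endp 0 π)) < t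
        · exact (mul_le_mul_right (by split_ifs <;> simp) _).trans ((mul_one _).le.trans h4.le)
        · rw [if_neg (fun h' => h4 h'.1), mul_zero]; exact zero_le
      · intro x hx
        rw [if_neg, mul_zero]
        rintro ⟨-, h5⟩
        exact hx (by rw [← h5]; abel)
    · have : ∀ γ : List (Step d), (if IsUp u H π ∧ IsDn u H γ then
        NB28.aw ν π * NB28.aw ν γ * (if pw ν (IsDn u H) (endp 0 γ) < t ∧
          w.1 + endp 0 π + endp 0 γ = y.1 then 1 else 0) else 0) = 0 := fun γ => by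
        rw [if_neg (fun h' => hπ h'.1)]
      simp_rw [this]
      simp
  refine (ENNReal.tsum_le_tsum h2).trans ?_
  rw [ENNReal.tsum_mul_left]
  calc t * _ ≤ t * 1 := mul_le_mul_right (mU_le ν u H) _
    _ = t := mul_one _

/-- the extension by zero of a measure on the level -/
noncomputable def ex (μ : Lat u → ℝ≥0∞) (x : Site d) : ℝ≥0∞ :=
  open Classical in if h : lev u x = 0 then μ ⟨x, h⟩ else 0

open Classical in
lemma ex_sum (μ : Lat u → ℝ≥0∞) (Ψ : Site d → ℝ≥0∞) :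
    ∑' x : Site d, (if lev u x = 0 then ex u μ x * Ψ x else 0) = ∑' w : Lat u, μ w * Ψ w.1 := by
  have h1 := tsum_subtype {x : Site d | lev u x = 0} (fun x => ex u μ x * Ψ x)
  have h2 : ∑' x : Site d, (if lev u x = 0 then ex u μ x * Ψ x else 0)
      = ∑' w : {x : Site d | lev u x = 0}, ex u μ w.1 * Ψ w.1 := by
    rw [h1]
    refine tsum_congr fun x => ?_
    simp [Set.indicator_apply]
  rw [h2]
  refine tsum_congr fun w => ?_
  have hw : lev u w.1 = 0 := w.2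
  rw [ex, dif_pos hw]
  rfl

lemma ex_mass (μ : Lat u → ℝ≥0∞) (h : ∑' w, μ w ≤ 1) : ∑' x, ex u μ x ≤ 1 := by
  classical
  have h1 := ex_sum u μ (fun _ => 1)
  simp only [mul_one] at h1
  refine le_trans (le_of_eq ?_) (h1.le.trans h)
  refine tsum_congr fun x => ?_
  by_cases hx : lev u x = 0
  · rw [if_pos hx]
  · rw [if_neg hx, ex, dif_neg hx]

lemma ex_le (μ : Lat u → ℝ≥0∞) (M : ℝ≥0∞) (h : ∀ w, μ w ≤ M) (x : Site d) : ex u μ x ≤ M := by
  classical
  by_cases hx : lev u x = 0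
  · rw [ex, dif_pos hx]; exact h _
  · rw [ex, dif_neg hx]; exact zero_le

open Classical in
/-- **one window** -/
theorem one (c : ℝ≥0∞) (hc : c ≠ 0)
    (hup : ∀ n : ℕ, c ≤ ∑' l : List (Step d), if IsUp u n l then NB28.aw ν l else 0)
    (hdn : ∀ n : ℕ, c ≤ ∑' l : List (Step d), if IsDn u n l then NB28.aw ν l else 0)
    (hΛ : ∑' b, Lam ν u b ≤ 1)
    (C : ℝ≥0∞) (us : ℕ → ℝ≥0∞) (h2 : E2 ν u C us) (h3 : E3 ν u C us)
    (v : ℝ≥0∞) (hv : v ≠ 0) (hv1 : v < 1) (N s H : ℕ) (hH : 1 ≤ H) (lam : ℝ≥0∞) (hl : lam ≠ 0)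
    (hl' : lam ≠ ⊤) (τ : ℝ≥0∞)
    (hτ : ∑' L, (if fp (ht u) H L ∧ H + H < HT (ht u) L then LW (Lam ν u) L else 0) ≤ τ)
    (a : ℕ) (ha : 2 * H * N ≤ a) (w : Lat u) :
    ∑' A, (if fp (ht u) a A then LW (Lam ν u) A *
        JC598.WLp (Lam ν u) (ht u) (dl u) (cd u) H s (act (dl u) A w) else 0)
      ≤ v * v + ((C * (lam + (2 * N : ℕ) * us s / lam + us s) + ((1 - v * c * c) ^ N + N * τ)) +
        (C * (lam + (2 * N : ℕ) * us s / lam + us s) + ((1 - v * c * c) ^ N + N * τ))) := by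
  obtain ⟨tX, hX0, hX1, hX2, hX3, hX4, hX5⟩ := quantm (pw ν (IsUp u H)) c hc
    (by rw [pw_sum]; exact hup H) (by rw [pw_sum]; exact mU_le ν u H) v hv hv1
  obtain ⟨tY, hY0, hY1, hY2, hY3, hY4, hY5⟩ := quantm (pw ν (IsDn u H)) c hc
    (by rw [pw_sum]; exact hdn H) (by rw [pw_sum]; exact mD_le ν u H) v hv hv1
  have key : ∀ A : List (PB u), (if fp (ht u) a A then LW (Lam ν u) A *
        JC598.WLp (Lam ν u) (ht u) (dl u) (cd u) H s (act (dl u) A w) else 0)
      ≤ (if fp (ht u) a A then LW (Lam ν u) A * (v * v) else 0) +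
        ((if fp (ht u) a A then LW (Lam ν u) A *
          PP ν u H s (fun π _ => endp 0 π ∈ hX4.toFinset) (act (dl u) A w).1 else 0) +
        (if fp (ht u) a A then LW (Lam ν u) A *
          PP ν u H s (fun _ γ => endp 0 γ ∈ hY4.toFinset) (act (dl u) A w).1 else 0)) := by
    intro A
    by_cases hA : fp (ht u) a A
    · rw [if_pos hA, if_pos hA, if_pos hA, if_pos hA, ← mul_add, ← mul_add]
      refine mul_le_mul_right ?_ _
      exact WLp_le ν u H s (act (dl u) A w) tX tY v hX4.toFinset hY4.toFinset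
        (fun x hx => by rw [Set.Finite.mem_toFinset]; exact hx)
        (fun x hx => by rw [Set.Finite.mem_toFinset]; exact hx) hX2 hY2
    · rw [if_neg hA]; exact zero_le
  refine (ENNReal.tsum_le_tsum key).trans ?_
  rw [ENNReal.tsum_add, ENNReal.tsum_add]
  have hM : ∀ (t : ℝ≥0∞) (S : Set (Site d)) (hS : S.Finite), (S.ncard : ℝ≥0∞) * t ≤ 1 →
      C * (lam + (N * (2 * t)) * hS.toFinset.card * us s / lam + us s)
        ≤ C * (lam + (2 * N : ℕ) * us s / lam + us s) := by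
    intro t S hS hSt
    refine mul_le_mul_right (add_le_add (add_le_add le_rfl ?_) le_rfl) _
    refine ENNReal.div_le_div_right (mul_le_mul_left ?_ _) _
    rw [← Set.ncard_eq_toFinset_card S hS]
    calc (N : ℝ≥0∞) * (2 * t) * S.ncard = (2 * N) * (S.ncard * t) := by ring
      _ ≤ (2 * N) * 1 := mul_le_mul_right hSt _
      _ = ((2 * N : ℕ) : ℝ≥0∞) := by push_cast; ring
  refine add_le_add ?_ (add_le_add ?_ ?_)
  · calc _ = (∑' A, (if fp (ht u) a A then LW (Lam ν u) A else 0)) * (v * v) := by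
          rw [← ENNReal.tsum_mul_right]
          refine tsum_congr fun A => ?_
          by_cases hA : fp (ht u) a A
          · rw [if_pos hA, if_pos hA]
          · rw [if_neg hA, if_neg hA, zero_mul]
      _ ≤ 1 * (v * v) := mul_le_mul_left (sum_FP _ _ one_le_hb hΛ a) _
      _ = v * v := one_mul _
  · refine smoothed (Lam ν u) (ht u) (dl u) one_le_hb hΛ (hinj u) H hH
      (fun L => HT (ht u) L = H ∧ pw ν (IsUp u H) (endp 0 (cat L).1) < 2 * tX)
      (fun L hL => hL.1) (v * c * c) (2 * tX) τ ?_ (fun w y => (tsum_congr fun L => ite_eq' _ _ _ _).trans_le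
        (hitX_th ν u H (2 * tX) w y)) hτ N a w
      ha (fun x => PP ν u H s (fun π _ => endp 0 π ∈ hX4.toFinset) x.1)
      (fun x => PP_le_one ν u H s _ x.1) _ ?_
    · refine (le_trans (mul_le_mul' hX3 (hdn H)) (hitX_mass ν u H (2 * tX)).ge).trans
        (le_of_eq (tsum_congr fun L => ite_eq' _ _ _ _))
    · intro μ hμ hμ'
      rw [← ex_sum u μ (fun x => PP ν u H s (fun π _ => endp 0 π ∈ hX4.toFinset) x)]
      refine (h2 s H hX4.toFinset (ex u μ) (N * (2 * tX)) lam (ex_mass u μ hμ)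
        (ex_le u μ _ hμ') ?_ hl hl').trans (hM tX _ hX4 hX5)
      exact ENNReal.mul_ne_top (ENNReal.natCast_ne_top N)
        (ENNReal.mul_ne_top (by norm_num) (ne_top_of_le_ne_top ENNReal.one_ne_top hX1))
  · refine smoothed (Lam ν u) (ht u) (dl u) one_le_hb hΛ (hinj u) H hH
      (fun L => HT (ht u) L = H ∧ pw ν (IsDn u H) (endp 0 (cat L).2) < 2 * tY)
      (fun L hL => hL.1) (v * c * c) (2 * tY) τ ?_ (fun w y => (tsum_congr fun L => ite_eq' _ _ _ _).trans_le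
        (hitY_th ν u H (2 * tY) w y)) hτ N a w
      ha (fun x => PP ν u H s (fun _ γ => endp 0 γ ∈ hY4.toFinset) x.1)
      (fun x => PP_le_one ν u H s _ x.1) _ ?_
    · rw [mul_comm (v * c) c]
      refine (le_trans (mul_le_mul' (hup H) hY3) (hitY_mass ν u H (2 * tY)).ge).trans
        (le_of_eq (tsum_congr fun L => ite_eq' _ _ _ _))
    · intro μ hμ hμ'
      rw [← ex_sum u μ (fun x => PP ν u H s (fun _ γ => endp 0 γ ∈ hY4.toFinset) x)]
      refine (h3 s H hY4.toFinset (ex u μ) (N * (2 * tY)) lam (ex_mass u μ hμ)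
        (ex_le u μ _ hμ') ?_ hl hl').trans (hM tY _ hY4 hY5)
      exact ENNReal.mul_ne_top (ENNReal.natCast_ne_top N)
        (ENNReal.mul_ne_top (by norm_num) (ne_top_of_le_ne_top ENNReal.one_ne_top hY1))

open Classical in
/-- **`hWin` of 598's composition** -/
theorem win (c : ℝ≥0∞) (hc : c ≠ 0) (hc1 : c ≤ 1)
    (hup : ∀ n : ℕ, c ≤ ∑' l : List (Step d), if IsUp u n l then NB28.aw ν l else 0)
    (hdn : ∀ n : ℕ, c ≤ ∑' l : List (Step d), if IsDn u n l then NB28.aw ν l else 0)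
    (hΛ : ∑' b, Lam ν u b = 1)
    (hU : ∀ n, c * c ≤ U (Lam ν u) (ht u) n) (hU1 : ∀ n, U (Lam ν u) (ht u) n ≤ 1)
    (C : ℝ≥0∞) (hC : C ≠ ⊤) (us : ℕ → ℝ≥0∞) (hus : Tendsto us atTop (𝓝 0))
    (h2 : E2 ν u C us) (h3 : E3 ν u C us) :
    ∀ ε : ℝ≥0∞, ε ≠ 0 → ∃ K s H0 : ℕ, 4 ≤ K ∧ ∀ H, H0 ≤ H → ∀ a, K * H ≤ 8 * a → ∀ w,
      ∑' A, (if fp (ht u) a A then LW (Lam ν u) A *
        JC598.WLp (Lam ν u) (ht u) (dl u) (cd u) H s (act (dl u) A w) else 0) ≤ ε / K := by
  intro ε hε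
  set q : ℝ≥0∞ := (c * c) ^ 2 with hq
  have hct : c ≠ ⊤ := ne_top_of_le_ne_top ENNReal.one_ne_top hc1
  have hcc : c * c ≠ 0 := mul_ne_zero hc hc
  have hcct : c * c ≠ ⊤ := ENNReal.mul_ne_top hct hct
  have hq0 : q ≠ 0 := pow_ne_zero 2 hcc
  have hqt : q ≠ ⊤ := ENNReal.pow_ne_top hcct
  have hq1 : q ≤ 1 := pow_le_one' (mul_le_one' hc1 hc1) 2
  set y : ℝ≥0∞ := min ε 1 / 16 with hy
  have hy0 : y ≠ 0 := ENNReal.div_ne_zero.2 ⟨by
    simp only [ne_eq, min_eq_iff, not_or, not_and]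
    refine ⟨fun h => absurd h hε, fun h => absurd h one_ne_zero⟩, by norm_num⟩
  have h16y : 16 * y = min ε 1 := by
    rw [hy]; exact ENNReal.mul_div_cancel (by norm_num) (by norm_num)
  have hyt : y ≠ ⊤ := by
    intro h
    rw [h] at h16y
    have : (16 : ℝ≥0∞) * ⊤ = ⊤ := ENNReal.mul_top (by norm_num)
    rw [this] at h16y
    exact absurd (h16y ▸ min_le_right ε 1 : (⊤ : ℝ≥0∞) ≤ 1) (by simp)
  have hy1 : y < 1 := by
    by_contra h
    have h' : (1 : ℝ≥0∞) ≤ y := not_lt.1 h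
    have : (16 : ℝ≥0∞) ≤ 1 := by
      calc (16 : ℝ≥0∞) = 16 * 1 := (mul_one _).symm
        _ ≤ 16 * y := mul_le_mul_right h' _
        _ = min ε 1 := h16y
        _ ≤ 1 := min_le_right _ _
    exact absurd this (by norm_num)
  obtain ⟨K0, hK0⟩ := Num873.num 16 (by norm_num) (y * q) (mul_ne_zero hy0 hq0)
  obtain ⟨K, hK⟩ : ∃ K, K = max K0 16 := ⟨_, rfl⟩
  have hK16 : 16 ≤ K := by rw [hK]; exact le_max_right _ _
  obtain ⟨u0, hu0, hu1, hu2, hu3⟩ := hK0 K (by rw [hK]; exact le_max_left _ _)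
  have hKle : (K : ℝ≥0∞) ≤ ((16 * (K + 16) : ℕ) : ℝ≥0∞) := by
    exact_mod_cast (show K ≤ 16 * (K + 16) by omega)
  have hK1 : (1 : ℝ≥0∞) ≤ K := by exact_mod_cast (show 1 ≤ K by omega)
  have hKt : (K : ℝ≥0∞) ≠ ⊤ := ENNReal.natCast_ne_top K
  have hKne : (K : ℝ≥0∞) ≠ 0 := by
    intro h
    rw [h] at hK1
    exact absurd hK1 (by norm_num)
  have g1 : (K : ℝ≥0∞) * u0 ^ 2 ≤ y * q := (mul_le_mul_left hKle _).trans hu2
  have g2 : (K : ℝ≥0∞) * (1 - u0) ^ (K / 16) ≤ y :=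
    ((mul_le_mul_left hKle _).trans hu3).trans
      ((mul_le_mul_right hq1 y).trans (mul_one y).le)
  set v : ℝ≥0∞ := u0 / (c * c) with hv
  have hvcc : v * (c * c) = u0 := ENNReal.div_mul_cancel hcc hcct
  have hvc : v * c * c = u0 := by rw [mul_assoc]; exact hvcc
  have hv0 : v ≠ 0 := ENNReal.div_ne_zero.2 ⟨hu0, hcct⟩
  have hlt : u0 < c * c := by
    by_contra h
    have h' : c * c ≤ u0 := not_lt.1 h
    have h4 : q ≤ y * q := by
      calc q = (c * c) ^ 2 := hq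
        _ ≤ u0 ^ 2 := pow_le_pow_left' h' 2
        _ = 1 * u0 ^ 2 := (one_mul _).symm
        _ ≤ K * u0 ^ 2 := mul_le_mul_left hK1 _
        _ ≤ y * q := g1
    have h5 : (1 : ℝ≥0∞) ≤ y := by
      calc (1 : ℝ≥0∞) ≤ (y * q) / q :=
            (ENNReal.le_div_iff_mul_le (Or.inl hq0) (Or.inl hqt)).2 (by rwa [one_mul])
        _ = y := ENNReal.mul_div_cancel_right hq0 hqt
    exact absurd hy1 (not_lt.2 h5)
  have hv1 : v < 1 := by
    rw [hv, ENNReal.div_lt_iff (Or.inl hcc) (Or.inl hcct), one_mul]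
    exact hlt
  have g3 : v * v * K ≤ y := by
    calc v * v * K ≤ (y * q) / q :=
          (ENNReal.le_div_iff_mul_le (Or.inl hq0) (Or.inl hqt)).2 (by
            calc v * v * K * q = K * ((v * (c * c)) ^ 2) := by rw [hq]; ring
              _ = K * u0 ^ 2 := by rw [hvcc]
              _ ≤ y * q := g1)
      _ = y := ENNReal.mul_div_cancel_right hq0 hqt
  set δ : ℝ≥0∞ := y / K with hδ
  have hδ0 : δ ≠ 0 := ENNReal.div_ne_zero.2 ⟨hy0, hKt⟩
  have hδK : δ * K = y := ENNReal.div_mul_cancel hKne hKt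
  obtain ⟨lam, s, hl, hl', hpick⟩ := pick C hC us hus (2 * (K / 16)) δ hδ0
  have hN1 : ((K / 16 + 1 : ℕ) : ℝ≥0∞) ≠ ⊤ := ENNReal.natCast_ne_top _
  obtain ⟨I, hI⟩ := JC598.tails (Lam ν u) (ht u) one_le_hb hΛ (c * c) hcc hcct hU
    (δ / (K / 16 + 1 : ℕ)) (ENNReal.div_ne_zero.2 ⟨hδ0, hN1⟩)
  refine ⟨K, s, max I 1, by omega, fun H hH a ha w => ?_⟩
  have hHI : I ≤ H := le_trans (le_max_left _ _) hH
  have hH1 : 1 ≤ H := le_trans (le_max_right _ _) hH
  have hτ : ∑' L, (if fp (ht u) H L ∧ H + H < HT (ht u) L then LW (Lam ν u) L else 0)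
      ≤ δ / (K / 16 + 1 : ℕ) :=
    (FP178.overshoot (Lam ν u) (ht u) one_le_hb hU1 H H).trans (hI H hHI)
  have haN : 2 * H * (K / 16) ≤ a := by
    have h5 : 16 * (K / 16) ≤ K := Nat.mul_div_le K 16
    have h6 : (16 * (K / 16)) * H ≤ K * H := Nat.mul_le_mul_right H h5
    have h7 : (16 * (K / 16)) * H = 8 * (2 * H * (K / 16)) := by ring
    omega
  have hone := one ν u c hc hup hdn hΛ.le C us h2 h3 v hv0 hv1 (K / 16) s H hH1 lam hl hl'
    (δ / (K / 16 + 1 : ℕ)) hτ a haN w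
  have g4 : ((K / 16 : ℕ) : ℝ≥0∞) * (δ / (K / 16 + 1 : ℕ)) ≤ δ := by
    calc ((K / 16 : ℕ) : ℝ≥0∞) * (δ / (K / 16 + 1 : ℕ))
        ≤ ((K / 16 + 1 : ℕ) : ℝ≥0∞) * (δ / (K / 16 + 1 : ℕ)) := by
          refine mul_le_mul_left ?_ _
          exact_mod_cast Nat.le_succ _
      _ ≤ δ := ENNReal.mul_div_le
  rw [hvc] at hone
  refine hone.trans ?_
  refine (ENNReal.le_div_iff_mul_le (Or.inl hKne) (Or.inl hKt)).2 ?_
  set X2 := (1 - u0) ^ (K / 16) with hX2
  set D := C * (lam + ((2 * (K / 16) : ℕ) : ℝ≥0∞) * us s / lam + us s) with hD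
  set T := ((K / 16 : ℕ) : ℝ≥0∞) * (δ / (K / 16 + 1 : ℕ)) with hT
  have g5 : D * K ≤ y := (mul_le_mul_left hpick _).trans hδK.le
  have g6 : T * K ≤ y := (mul_le_mul_left g4 _).trans hδK.le
  have g7 : X2 * K ≤ y := by rw [mul_comm]; exact g2
  calc (v * v + ((D + (X2 + T)) + (D + (X2 + T)))) * K
      = v * v * K + ((D * K + (X2 * K + T * K)) + (D * K + (X2 * K + T * K))) := by ring
    _ ≤ y + ((y + (y + y)) + (y + (y + y))) :=
        add_le_add g3 (add_le_add (add_le_add g5 (add_le_add g7 g6))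
          (add_le_add g5 (add_le_add g7 g6)))
    _ = 7 * y := by ring
    _ ≤ 16 * y := mul_le_mul_left (by norm_num) _
    _ = min ε 1 := h16y
    _ ≤ ε := min_le_left _ _

open Classical in
/-- **`KappaW` from the two window lemmas at one common height and the bottom slab.** -/
theorem kappaW_of (c : ℝ≥0∞) (hc : c ≠ 0) (hc1 : c ≤ 1)
    (hup : ∀ n : ℕ, c ≤ ∑' l : List (Step d), if IsUp u n l then NB28.aw ν l else 0)
    (hdn : ∀ n : ℕ, c ≤ ∑' l : List (Step d), if IsDn u n l then NB28.aw ν l else 0)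
    (C : ℝ≥0∞) (hC : C ≠ ⊤) (us : ℕ → ℝ≥0∞) (hus : Tendsto us atTop (𝓝 0))
    (h2 : E2 ν u C us) (h3 : E3 ν u C us)
    (hSlab : ∀ s : ℕ, ∀ ε : ℝ≥0∞, ε ≠ 0 → ∃ H0, ∀ H, H0 ≤ H → ∀ w,
      JC598.SLb (Lam ν u) (ht u) (dl u) (cd u) H s w ≤ ε) : NB28.KappaW ν u := by
  have hU : ∀ n, c * c ≤ U (Lam ν u) (ht u) n := fun n => by
    rw [U_eq28]; exact mul_le_mul' (hup n) (hdn n)
  have hU1 : ∀ n, U (Lam ν u) (ht u) n ≤ 1 := fun n => by
    rw [U_eq28]; exact mul_le_one' (mU_le ν u n) (mD_le ν u n)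
  have hcc : c * c ≠ 0 := mul_ne_zero hc hc
  have hΛ : ∑' b, Lam ν u b = 1 :=
    le_antisymm (mass_le_one (Lam ν u) (ht u) one_le_hb hU1)
      (mass_ge_one (Lam ν u) (ht u) (c * c) hcc 0 fun n _ => hU n)
  have h := JC598.comp (Lam ν u) (ht u) (dl u) (cd u) one_le_hb hΛ
    (fun w b k hk => hcd u w b k hk) (c * c) hcc hU hU1 hSlab
    (win ν u c hc hc1 hup hdn hΛ hU hU1 C hC us hus h2 h3)
  intro ε hε
  obtain ⟨M, hM⟩ := h ε hε
  refine ⟨M, fun m hm n hn w hw => ?_⟩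
  have h5 := hM m hm n hn ⟨w, hw⟩
  have e := Kap1_eq ν u n m (⟨w, hw⟩ : Lat u)
  exact e.symm.trans_le h5

/-- **`NBProp`** from the inputs, for every direction with both escapes. -/
theorem nbProp_of
    (hin : ∀ (d : ℕ) (_ : 3 ≤ d) (ν : Measure (Row d)) [IsProbabilityMeasure ν],
      (∀ᵐ p ∂ν, ∀ e : Step d, 0 < p.1 e) → ∀ u : Step d,
      annealed (iidEnvironmentLaw ν) 0 (escapeEvent (B2d.dirVec u)) ≠ 0 →
      annealed (iidEnvironmentLaw ν) 0 (escapeEvent (-B2d.dirVec u)) ≠ 0 →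
      (∃ (C : ℝ≥0∞) (us : ℕ → ℝ≥0∞), C ≠ ⊤ ∧ Tendsto us atTop (𝓝 0) ∧ E2 ν u C us ∧ E3 ν u C us) ∧
      ∀ s : ℕ, ∀ ε : ℝ≥0∞, ε ≠ 0 → ∃ H0, ∀ H, H0 ≤ H → ∀ w,
        JC598.SLb (Lam ν u) (ht u) (dl u) (cd u) H s w ≤ ε) : Spine.NBProp := by
  refine nbProp_of_kappaW fun d hd ν _ hν u hA hB => ?_
  obtain ⟨c, hc, hc1, hup, hdn⟩ := WM286.mass_pos ν hν u hA hB
  obtain ⟨⟨C, us, hC, hus, h2, h3⟩, hSlab⟩ := hin d hd ν hν u hA hB
  refine kappaW_of ν u c hc hc1 (fun n => ?_) (fun n => ?_) C hC us hus h2 h3 hSlab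
  · exact (hup n).trans (le_of_eq (tsum_congr fun L => ite_eq' _ _ _ _))
  · exact (hdn n).trans (le_of_eq (tsum_congr fun L => ite_eq' _ _ _ _))

end inst

end Crest.Agent.R154.JF188
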