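import Crest.Agent.R154.B5Weak_865

/-! Row 154, ROAD 801 in the joint-cut frame (helper156): minimal lists of height `≥ T`. -/

set_option autoImplicit false

namespace Crest.Agent.R154.B5A.J156

open scoped ENNReal Classical
open Finset

variable {B W : Type*}

/-- `L` is minimal of height `≥ T` -/
def FP (ht : B → ℕ) : ℕ → List B → Prop
  | T, [] => T = 0
  | T, b :: L => T ≠ 0 ∧ FP ht (T - ht b) L

variable (Λ : B → ℝ≥0∞) (ht : B → ℕ) (dl : B → W → W) (cd : W → B → Set ℕ)

lemma FP_le : ∀ (L : List B) (T : ℕ), FP ht T L → T ≤ HT ht L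
  | [], T, h => by have : T = 0 := h; omega
  | b :: L, T, h => by
    have := FP_le L _ h.2
    rw [HT_cons]; omega

lemma exists_FP : ∀ (L : List B) (T : ℕ), T ≤ HT ht L → ∃ L1 R, L = L1 ++ R ∧ FP ht T L1
  | [], T, h => ⟨[], [], rfl, by rw [HT_nil] at h; exact Nat.le_zero.1 h⟩
  | b :: L, T, h => by
    by_cases h0 : T = 0
    · exact ⟨[], b :: L, rfl, h0⟩
    · rw [HT_cons] at h
      obtain ⟨L1, R, rfl, h2⟩ := exists_FP L (T - ht b) (by omega)
      exact ⟨b :: L1, R, rfl, h0, h2⟩

lemma FP_split : ∀ (L : List B) (T h : ℕ), h ≤ T → FP ht T L →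
    ∃ C R, L = C ++ R ∧ FP ht h C ∧ FP ht (T - HT ht C) R
  | [], T, h, hh, hL => by
    have h0 : T = 0 := hL
    refine ⟨[], [], rfl, ?_, ?_⟩
    · show h = 0
      omega
    · show T - _ = 0
      omega
  | b :: L, T, h, hh, hL => by
    by_cases h0 : h = 0
    · refine ⟨[], b :: L, rfl, h0, ?_⟩
      rw [HT_nil, Nat.sub_zero]; exact hL
    · obtain ⟨C, R, rfl, h2, h3⟩ := FP_split L (T - ht b) (h - ht b) (by omega) hL.2
      refine ⟨b :: C, R, rfl, ⟨h0, h2⟩, ?_⟩
      rw [HT_cons, ← Nat.sub_sub]; exact h3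

lemma FP_last : ∀ (L : List B) (b : B) (T : ℕ), FP ht T (L ++ [b]) → HT ht L < T
  | [], b, T, h => by rw [HT_nil]; exact Nat.pos_of_ne_zero h.1
  | a :: L, b, T, h => by
    have := FP_last L b _ h.2
    rw [HT_cons]; omega

lemma FP_of_eq (h1 : ∀ b, 1 ≤ ht b) : ∀ (L : List B), FP ht (HT ht L) L
  | [] => by show HT ht [] = 0; simp [HT]
  | b :: L => by
    refine ⟨?_, ?_⟩
    · rw [HT_cons]; have := h1 b; omega
    · rw [HT_cons, Nat.add_sub_cancel_left]; exact FP_of_eq h1 L

/-- cutting a list -/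
lemma tsum_le_pair (G : List B → ℝ≥0∞) (Q : List B → List B → Prop)
    (h : ∀ L, G L ≠ 0 → ∃ L1 R, L = L1 ++ R ∧ Q L1 R) :
    ∑' L, G L ≤ ∑' L1, ∑' R, if Q L1 R then G (L1 ++ R) else 0 := by
  calc ∑' L, G L ≤ ∑' L, ∑' p : List B × List B,
        (if p.1 ++ p.2 = L ∧ Q p.1 p.2 then G L else 0) := by
        refine ENNReal.tsum_le_tsum fun L => ?_
        by_cases h0 : G L = 0
        · rw [h0]; exact zero_le
        · obtain ⟨L1, R, e, hq⟩ := h L h0
          refine le_trans ?_ (ENNReal.le_tsum (L1, R))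
          rw [if_pos ⟨e.symm, hq⟩]
    _ = ∑' p : List B × List B, ∑' L, (if p.1 ++ p.2 = L ∧ Q p.1 p.2 then G L else 0) :=
        ENNReal.tsum_comm
    _ = ∑' p : List B × List B, (if Q p.1 p.2 then G (p.1 ++ p.2) else 0) := by
        refine tsum_congr fun p => ?_
        rw [tsum_eq_single (p.1 ++ p.2)]
        · simp
        · intro L hL; rw [if_neg (fun h => hL h.1.symm)]
    _ = _ := ENNReal.tsum_prod (f := fun a b => if Q a b then G (a ++ b) else 0)

lemma tsum_le_last (G : List B → ℝ≥0∞) (h0 : G [] = 0) :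
    ∑' L, G L ≤ ∑' L1, ∑' b, G (L1 ++ [b]) := by
  refine (tsum_le_pair G (fun _ R => R.length = 1) ?_).trans ?_
  · intro L hL
    rcases List.eq_nil_or_concat L with rfl | ⟨L', b, rfl⟩
    · exact absurd h0 hL
    · exact ⟨L', [b], by simp, rfl⟩
  · refine ENNReal.tsum_le_tsum fun L1 => ?_
    rw [tsum_list]
    simp only [List.length_nil, List.length_cons]
    rw [if_neg (by norm_num), zero_add]
    refine ENNReal.tsum_le_tsum fun b => ?_
    rw [tsum_eq_single []]
    · simp
    · intro L hL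
      rw [if_neg]
      intro h
      exact hL (List.length_eq_zero_iff.1 (by omega))

lemma FP_mass (h1 : ∀ b, 1 ≤ ht b) (hΛ : ∑' b, Λ b = 1) (T : ℕ) :
    ∑' L, (if FP ht T L then LW Λ L else 0) ≤ 1 := by
  induction T using Nat.strong_induction_on with
  | _ T ih =>
    rw [tsum_list]
    by_cases h0 : T = 0
    · have e : ∀ (b : B) (L : List B), (if FP ht T (b :: L) then LW Λ (b :: L) else 0) = 0 :=
        fun b L => if_neg (fun h => h.1 h0)
      simp only [e, tsum_zero, add_zero]
      rw [if_pos (show FP ht T [] from h0), LW_nil]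
    · rw [if_neg (show ¬ FP ht T [] from h0), zero_add, ← hΛ]
      refine ENNReal.tsum_le_tsum fun b => ?_
      calc ∑' L, (if FP ht T (b :: L) then LW Λ (b :: L) else 0)
          = ∑' L, Λ b * (if FP ht (T - ht b) L then LW Λ L else 0) := by
            refine tsum_congr fun L => ?_
            by_cases h : FP ht (T - ht b) L
            · rw [if_pos (show FP ht T (b :: L) from ⟨h0, h⟩), if_pos h, LW_cons]
            · rw [if_neg (fun h' : FP ht T (b :: L) => h h'.2), if_neg h, mul_zero]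
        _ = Λ b * ∑' L, (if FP ht (T - ht b) L then LW Λ L else 0) := ENNReal.tsum_mul_left
        _ ≤ Λ b * 1 := mul_le_mul_right (ih _ (by have := h1 b; omega)) _
        _ = Λ b := mul_one _

lemma tsum_byHT (G : List B → ℝ≥0∞) (S : ℕ) :
    ∑' L, (if HT ht L < S then G L else 0)
      = ∑ h ∈ range S, ∑' L, (if HT ht L = h then G L else 0) := by
  rw [← Summable.tsum_finsetSum (fun _ _ => ENNReal.summable)]
  refine tsum_congr fun L => ?_
  by_cases h : HT ht L < S
  · rw [if_pos h, Finset.sum_eq_single (HT ht L)]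
    · rw [if_pos rfl]
    · intro b _ hb; rw [if_neg (Ne.symm hb)]
    · intro h'; exact absurd (Finset.mem_range.2 h) h'
  · rw [if_neg h, Finset.sum_eq_zero]
    intro b hb
    rw [if_neg]
    rintro rfl
    exact h (Finset.mem_range.1 hb)

/-- tail sums -/
noncomputable def tau (R : ℕ) : ℝ≥0∞ := ∑' i, tail Λ ht (i + R)

lemma tau_tendsto (hE : ∑' k, tail Λ ht k ≠ ⊤) :
    Filter.Tendsto (tau Λ ht) Filter.atTop (nhds 0) :=
  ENNReal.tendsto_sum_nat_add _ hE

/-- overshoot of the minimal lists -/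
lemma FP_over (hU1 : ∀ n, U Λ ht n ≤ 1) (T R : ℕ) :
    ∑' L, (if FP ht T L ∧ T + R < HT ht L then LW Λ L else 0) ≤ tau Λ ht R := by
  calc _ ≤ ∑' L1, ∑' b, (if FP ht T (L1 ++ [b]) ∧ T + R < HT ht (L1 ++ [b])
          then LW Λ (L1 ++ [b]) else 0) := by
        refine tsum_le_last _ ?_
        rw [if_neg]
        rw [HT_nil]; omega
    _ ≤ ∑' L1, (if HT ht L1 < T then LW Λ L1 * tail Λ ht (T + R - HT ht L1) else 0) := by
        refine ENNReal.tsum_le_tsum fun L1 => ?_
        by_cases h : HT ht L1 < T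
        · rw [if_pos h, tail, ← ENNReal.tsum_mul_left]
          refine ENNReal.tsum_le_tsum fun b => ?_
          have e1 : HT ht (L1 ++ [b]) = HT ht L1 + ht b := by
            rw [HT_append, HT_cons, HT_nil, add_zero]
          have e2 : LW Λ (L1 ++ [b]) = LW Λ L1 * Λ b := by
            rw [LW_append, LW_cons, LW_nil, mul_one]
          by_cases h2 : FP ht T (L1 ++ [b]) ∧ T + R < HT ht (L1 ++ [b])
          · rw [if_pos h2, if_pos (by have := h2.2; omega), e2]
          · rw [if_neg h2]; exact zero_le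
        · rw [if_neg h]
          refine le_of_eq (ENNReal.tsum_eq_zero.2 fun b => ?_)
          rw [if_neg]
          intro h2
          exact h (FP_last ht L1 b T h2.1)
    _ = ∑ j ∈ range T, ∑' L1, (if HT ht L1 = j
          then LW Λ L1 * tail Λ ht (T + R - HT ht L1) else 0) := tsum_byHT ht _ T
    _ ≤ ∑ j ∈ range T, tail Λ ht (T + R - j) := by
        refine Finset.sum_le_sum fun j _ => ?_
        calc _ = ∑' L1, (if HT ht L1 = j then LW Λ L1 else 0) * tail Λ ht (T + R - j) := by
              refine tsum_congr fun L1 => ?_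
              by_cases h : HT ht L1 = j
              · rw [if_pos h, if_pos h, h]
              · rw [if_neg h, if_neg h, zero_mul]
          _ = U Λ ht j * tail Λ ht (T + R - j) := by rw [ENNReal.tsum_mul_right]; rfl
          _ ≤ 1 * tail Λ ht (T + R - j) := mul_le_mul_left (hU1 j) _
          _ = _ := one_mul _
    _ = ∑ j ∈ range T, tail Λ ht (j + 1 + R) := by
        rw [← Finset.sum_range_reflect]
        refine Finset.sum_congr rfl fun j hj => ?_
        have := Finset.mem_range.1 hj
        congr 1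
        omega
    _ ≤ ∑ j ∈ range (T + 1), tail Λ ht (j + R) := by
        rw [Finset.sum_range_succ']
        exact le_self_add
    _ ≤ _ := ENNReal.sum_le_tsum _

end Crest.Agent.R154.B5A.J156
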