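import Crest.Agent.R154.JCore_183

/-! Row 154, KAPPA' along joint renewal levels (helper183): the inclusion. -/

set_option autoImplicit false

namespace Crest.Agent.R154.J183

open Crest.Agent.R154.B5A
open scoped ENNReal

variable {B W : Type*} (Λ : B → ℝ≥0∞) (ht : B → ℕ) (dl : B → W → W) (cd : W → B → Set ℕ)

lemma toRs (h1 : ∀ b, 1 ≤ ht b) {L A1 S A2 Z Y : List B} (hL : L = A1 ++ (S ++ A2))
    (hZ : L = Z ++ Y) (hh : HT ht A1 + HT ht S ≤ HT ht Z) {k g r : ℕ} {σ : List B → Prop}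
    (hS : HT ht S = k) (hσ : σ S) (hA : HT ht A1 = g) (hr : HT ht Z = r) : Rs ht k σ g r Z := by
  have h : (A1 ++ S) ++ A2 = Z ++ Y := by rw [← hZ, hL, List.append_assoc]
  obtain ⟨T, hT, -⟩ := pref ht h1 h (by rw [HT_append]; exact hh)
  exact ⟨A1, S, T, by rw [hT, List.append_assoc], hA, hS, hσ, hr⟩

/-- marks -/
def tm (J T j : ℕ) : ℕ := (3 * J + 1) * T + j * T

/-- window event -/
def EF (T i0 J k : ℕ) (σ l : List B → Prop) (w : W) (L : List B) : Prop :=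
  ∃ j < 3 * J + 4, ∃ j' < J, ∃ i < J * i0 + 1, ∃ r < i0 + 1, ∃ q < 2 * i0 + 1, ∃ Z P C,
    L = Z ++ (P ++ C) ∧ Rs ht k σ (j' * (2 * T) + i) (tm J T j + r) Z ∧
      (HT ht P = T - q ∧ l P ∧ CD ht dl cd P (act dl Z w) ≠ ∅)

/-- block event -/
def EH (T i0 J k : ℕ) (σ : List B → Prop) (w : W) (L : List B) : Prop :=
  ∃ j < 3 * J + 4, ∃ j' < J, ∃ i < J * i0 + 1, ∃ r < i0 + 1, ∃ Z P C,
    L = Z ++ (P ++ C) ∧ Rs ht k σ (j' * (2 * T) + i) (tm J T (j + 1) - r) Z ∧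
      (∃ b, P = [b] ∧ cd (act dl Z w) b ≠ ∅)

lemma incl (h1 : ∀ b, 1 ≤ ht b) (hcd : ∀ w b k, k ∈ cd w b → 1 ≤ k ∧ k ≤ ht b)
    (T i0 J kX kY : ℕ) (σX σY lx ly : List B → Prop) (hT : 2 * i0 < T) (hkX : kX ≤ T)
    (hkY : kY ≤ T) (n m : ℕ) (hm : (3 * J + 2) * T ≤ m) (hm2 : 2 * m ≤ (6 * J + 5) * T)
    (hn : (6 * J + 5) * T ≤ n) (w : W) (L : List B) (hL : HT ht L = n) (κ : ℕ)
    (hκ : κ ∈ CD ht dl cd L w) (hκ1 : m < κ) (hκ2 : κ ≤ 2 * m) :
    (BB ht (2 * T) i0 J L ∨ NS ht (2 * T) kX σX J L ∨ NS ht (2 * T) kY σY J L ∨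
    (∃ j < 3 * J + 5, ∃ A C, L = A ++ C ∧ ∃ P b, A = P ++ [b] ∧ HT ht P < tm J T j ∧
      tm J T j ≤ HT ht P + ht b ∧ True ∧ i0 < ht b)) ∨
    (∃ j < 3 * J + 4, ∃ Z P b C, L = Z ++ ((P ++ [b]) ++ C) ∧ FP ht (tm J T j) Z ∧
      HT ht Z + HT ht P < tm J T (j + 1) ∧ tm J T (j + 1) ≤ HT ht Z + HT ht P + ht b ∧
      (T ≤ HT ht P + 2 * i0 ∧ HT ht P ≤ T ∧ ¬ lx P ∧ ¬ ly P)) ∨
    EF ht dl cd T i0 J kX σX lx w L ∨ EF ht dl cd T i0 J kY σY ly w L ∨
    EH ht dl cd T i0 J kX σX w L := by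
  have e1 : (3 * J + 2) * T = (3 * J + 1) * T + T := by ring
  have e2 : (6 * J + 5) * T = (3 * J + 1) * T + (3 * J + 4) * T := by ring
  have e3 : J * (2 * T + i0) + T ≤ (3 * J + 1) * T := by
    calc J * (2 * T + i0) + T ≤ J * (3 * T) + T :=
          Nat.add_le_add_right (Nat.mul_le_mul_left J (by omega)) T
      _ = _ := by ring
  have ejT : ∀ j, j ≤ 3 * J + 4 → j * T ≤ (3 * J + 4) * T := fun j hj =>
    Nat.mul_le_mul_right T hj
  by_cases hBB : BB ht (2 * T) i0 J L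
  · exact Or.inl (Or.inl hBB)
  by_cases hNX : NS ht (2 * T) kX σX J L
  · exact Or.inl (Or.inr (Or.inl hNX))
  by_cases hNY : NS ht (2 * T) kY σY J L
  · exact Or.inl (Or.inr (Or.inr (Or.inl hNY)))
  by_cases hbig : ∃ j < 3 * J + 5, ∃ A C, L = A ++ C ∧ ∃ P b, A = P ++ [b] ∧
      HT ht P < tm J T j ∧ tm J T j ≤ HT ht P + ht b ∧ True ∧ i0 < ht b
  · exact Or.inl (Or.inr (Or.inr (Or.inr hbig)))
  refine Or.inr ?_
  have hsm : ∀ j, j < 3 * J + 5 → ∀ P b C, L = P ++ b :: C → HT ht P < tm J T j →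
      tm J T j ≤ HT ht P + ht b → ht b ≤ i0 := by
    intro j hj P b C h2 h3 h4
    by_contra hlt
    exact hbig ⟨j, hj, P ++ [b], C, by rw [h2]; simp, P, b, rfl, h3, h4, trivial, by omega⟩
  have hchain : ∀ (k : ℕ) (σ : List B → Prop), k ≤ T → ¬ NS ht (2 * T) k σ J L →
      ∃ A1 S A2, L = A1 ++ (S ++ A2) ∧ HT ht S = k ∧ σ S ∧ HT ht A1 + HT ht S ≤ (3 * J + 1) * T ∧
        ∃ j < J, ∃ i < J * i0 + 1, HT ht A1 = j * (2 * T) + i := by
    intro k σ hk hN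
    rcases chain ht (2 * T) k i0 (by omega) σ J L (by omega) with h | h | h
    · exact absurd h hN
    · exact absurd h hBB
    · obtain ⟨A1, S, A2, h2, h3, h4, j, hj, i, hi, h5⟩ := h
      have e4 : j * i0 ≤ J * i0 := Nat.mul_le_mul_right i0 hj.le
      have e5 : j * (2 * T + i0) ≤ J * (2 * T + i0) := Nat.mul_le_mul_right _ hj.le
      have e6 : j * (2 * T + i0) = j * (2 * T) + j * i0 := by ring
      exact ⟨A1, S, A2, h2, h3, h4, by omega, j, hj, i, by omega, h5⟩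
  -- the window of κ
  have hex : ∃ j, ∃ P b C, L = P ++ b :: C ∧ HT ht P < tm J T j ∧ tm J T j ≤ HT ht P + ht b ∧
      κ ≤ HT ht P + ht b := by
    obtain ⟨P, b, C, h2, h3, h4⟩ := exists_cov ht (tm J T (3 * J + 4)) (by simp only [tm]; omega) L
      (by simp only [tm]; omega)
    exact ⟨3 * J + 4, P, b, C, h2, h3, h4, by simp only [tm] at h4; omega⟩
  classical
  have hlast : ∃ P b C, L = P ++ b :: C ∧ HT ht P < tm J T (3 * J + 4) ∧
      tm J T (3 * J + 4) ≤ HT ht P + ht b ∧ κ ≤ HT ht P + ht b := by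
    obtain ⟨P, b, C, h2, h3, h4⟩ := exists_cov ht (tm J T (3 * J + 4)) (by simp only [tm]; omega) L
      (by simp only [tm]; omega)
    exact ⟨P, b, C, h2, h3, h4, by simp only [tm] at h4; omega⟩
  obtain ⟨j1, hj1, hj1'⟩ : ∃ j1, Nat.find hex = j1 ∧ j1 ≤ 3 * J + 4 :=
    ⟨_, rfl, Nat.find_min' hex hlast⟩
  have hspec := Nat.find_spec hex
  have hmin := fun {j} => @Nat.find_min _ _ hex j
  rw [hj1] at hspec
  obtain ⟨P2, b2, C2, hP2, hP2a, hP2b, hP2c⟩ := hspec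
  have hj0 : j1 ≠ 0 := by
    rintro rfl
    have := hsm 0 (by omega) P2 b2 C2 hP2 hP2a hP2b
    simp only [tm] at hP2a
    omega
  obtain ⟨j, rfl⟩ : ∃ j, j1 = j + 1 := ⟨j1 - 1, by omega⟩
  have hnot := hmin (j := j) (by omega)
  have ej := ejT j (by omega)
  have ej1 := ejT (j + 1) (by omega)
  have ejs : (j + 1) * T = j * T + T := by ring
  obtain ⟨P1, b1, C1, hP1, hP1a, hP1b⟩ := exists_cov ht (tm J T j) (by simp only [tm]; omega) L
    (by simp only [tm]; omega)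
  have hP1c : HT ht P1 + ht b1 < κ := by
    by_contra hcon
    exact hnot ⟨P1, b1, C1, hP1, hP1a, hP1b, by omega⟩
  have hb1 := hsm j (by omega) P1 b1 C1 hP1 hP1a hP1b
  have hb2 := hsm (j + 1) (by omega) P2 b2 C2 hP2 hP2a hP2b
  simp only [tm] at hP1a hP1b hP2a hP2b
  have hZ1 : HT ht (P1 ++ [b1]) = HT ht P1 + ht b1 := by rw [HT_append, HT_cons, HT_nil]; rfl
  have hLZ : L = (P1 ++ [b1]) ++ C1 := by rw [hP1]; simp
  obtain ⟨P, hP, hC1⟩ := pref ht h1 (X := P1 ++ [b1]) (Y := C1) (X' := P2) (Y' := b2 :: C2)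
    (by rw [← hLZ, hP2]) (by rw [hZ1]; omega)
  set Z := P1 ++ [b1] with hZdef
  have hHP2 : HT ht P2 = HT ht Z + HT ht P := by rw [hP, HT_append]
  have hLd : L = Z ++ (P ++ b2 :: C2) := by rw [hLZ, hC1]
  have hZr : HT ht Z = tm J T j + (HT ht Z - tm J T j) := by simp only [tm]; omega
  have hPq : HT ht P = T - (T - HT ht P) := by omega
  have hPT : HT ht P ≤ T := by omega
  have hPT2 : T ≤ HT ht P + 2 * i0 := by omega
  have hc1 : CD ht dl cd P (act dl Z w) ≠ ∅ ∨ cd (act dl (Z ++ P) w) b2 ≠ ∅ := by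
    rw [hLd, CD_append] at hκ
    rcases hκ with hκ | ⟨κ', hκ', hκe⟩
    · have := CD_pos ht dl cd hcd Z w κ hκ
      omega
    · rw [CD_append] at hκ'
      rcases hκ' with hκ' | ⟨κ'', hκ'', hκe'⟩
      · exact Or.inl (Set.nonempty_iff_ne_empty.1 ⟨κ', hκ'⟩)
      · right
        simp only at hκe hκe'
        rcases hκ'' with hκ'' | ⟨κ3, hκ3, hκe3⟩
        · rw [← act_append] at hκ''
          exact Set.nonempty_iff_ne_empty.1 ⟨κ'', hκ''⟩
        · have := CD_pos ht dl cd hcd C2 _ κ3 hκ3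
          simp only at hκe3
          omega
  rcases hc1 with hc | hc
  · by_cases hlx : lx P
    · right; left
      obtain ⟨A1, S, A2, h2, h3, h4, h5, j', hj', i, hi, h6⟩ := hchain kX σX hkX hNX
      refine ⟨j, by omega, j', hj', i, hi, HT ht Z - tm J T j, by simp only [tm]; omega,
        T - HT ht P, by omega, Z, P, b2 :: C2, hLd, ?_, hPq, hlx, hc⟩
      exact toRs ht h1 h2 hLd (by omega) h3 h4 h6 hZr
    · by_cases hly : ly P
      · right; right; left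
        obtain ⟨A1, S, A2, h2, h3, h4, h5, j', hj', i, hi, h6⟩ := hchain kY σY hkY hNY
        refine ⟨j, by omega, j', hj', i, hi, HT ht Z - tm J T j, by simp only [tm]; omega,
          T - HT ht P, by omega, Z, P, b2 :: C2, hLd, ?_, hPq, hly, hc⟩
        exact toRs ht h1 h2 hLd (by omega) h3 h4 h6 hZr
      · left
        refine ⟨j, by omega, Z, P, b2, C2, by rw [hLd]; simp, ⟨P1, b1, rfl, ?_, ?_⟩, ?_, ?_,
          hPT2, hPT, hlx, hly⟩
        · simp only [tm]; omega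
        · simp only [tm]; omega
        · simp only [tm]; omega
        · simp only [tm]; omega
  · right; right; right
    obtain ⟨A1, S, A2, h2, h3, h4, h5, j', hj', i, hi, h6⟩ := hchain kX σX hkX hNX
    have hLd2 : L = (Z ++ P) ++ ([b2] ++ C2) := by rw [hLd]; simp
    have hZP : HT ht (Z ++ P) = tm J T (j + 1) - (tm J T (j + 1) - HT ht (Z ++ P)) := by
      rw [HT_append]; simp only [tm]; omega
    refine ⟨j, by omega, j', hj', i, hi, tm J T (j + 1) - HT ht (Z ++ P), ?_, Z ++ P, [b2], C2,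
      hLd2, toRs ht h1 h2 hLd2 ?_ h3 h4 h6 hZP, b2, rfl, hc⟩
    · rw [HT_append]; simp only [tm]; omega
    · rw [HT_append]; omega

end Crest.Agent.R154.J183
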