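import Crest.Agent.R154.FP_178
import Crest.Agent.R154.B5Rec_566

/-! Row 154 (helper299), ROAD 801, joint-cut frame: one window. -/

set_option autoImplicit false

namespace Crest.Agent.R154.JK299

open scoped ENNReal
open Crest.Agent.R154.B5A Crest.Agent.R154.FP178

variable {B W : Type*} (Λ : B → ℝ≥0∞) (ht : B → ℕ) (dl : B → W → W) (cd : W → B → Set ℕ)

open Classical in
/-- crossings of height `n` whose first contact has depth in `(a, a+q]` -/
noncomputable def Wn (n a q : ℕ) (w : W) : ℝ≥0∞ :=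
  ∑' L : List B, LW Λ L * (if HT ht L = n ∧ (∀ k ∈ CD ht dl cd L w, a < k) ∧
    ∃ k ∈ CD ht dl cd L w, k ≤ a + q then 1 else 0)

open Classical in
/-- pieces of exact height `5 q` with contacts, all below depth `q`, one above the last `q` -/
noncomputable def Qp (q : ℕ) (w : W) : ℝ≥0∞ :=
  ∑' L : List B, LW Λ L * (if HT ht L = 5 * q ∧ (∀ k ∈ CD ht dl cd L w, q < k) ∧
    ∃ k ∈ CD ht dl cd L w, k ≤ 3 * q then 1 else 0)

open Classical in
lemma sum_eq_le (hU1 : ∀ n, U Λ ht n ≤ 1) (n α : ℕ) (g : List B → ℝ≥0∞)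
    (hg : ∀ L, g L ≤ if α + HT ht L = n then 1 else 0) :
    ∑' L, LW Λ L * g L ≤ 1 := by
  refine le_trans (ENNReal.tsum_le_tsum fun L => ?_) (hU1 (n - α))
  by_cases h : α + HT ht L = n
  · have := hg L
    rw [if_pos h] at this
    rw [if_pos (by omega)]
    calc _ ≤ LW Λ L * 1 := mul_le_mul_right this _
      _ = _ := mul_one _
  · have := hg L
    rw [if_neg h] at this
    rw [le_antisymm this zero_le, mul_zero]
    exact zero_le

/-- **one window** -/
theorem window (h1 : ∀ b, 1 ≤ ht b) (hΛ : ∑' b, Λ b ≤ 1)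
    (hcd : ∀ w b k, k ∈ cd w b → 1 ≤ k ∧ k ≤ ht b)
    (c : ℝ≥0∞) (hc : c ≠ 0) (hc' : c ≠ ⊤) (R : ℕ)
    (hU : ∀ n, R ≤ n → c ≤ U Λ ht n) (hU1 : ∀ n, U Λ ht n ≤ 1)
    (q : ℕ) (hq : R ≤ q) (ε : ℝ≥0∞)
    (hov : ∀ a, ∑' L, (open Classical in if fp ht a L ∧ a + q < HT ht L then LW Λ L else 0) ≤ ε)
    (a n : ℕ) (ha : 2 * q ≤ a) (hn : a + q ≤ n) (w : W) :
    Wn Λ ht dl cd n a q w ≤ 2 * ε
      + c⁻¹ * ∑' L1, (open Classical in if fp ht (a - 2 * q) L1 then
          LW Λ L1 * Qp Λ ht dl cd q (act dl L1 w) else 0) := by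
  classical
  set F : List B → ℝ≥0∞ := fun L => (if HT ht L = n ∧ (∀ k ∈ CD ht dl cd L w, a < k) ∧
    ∃ k ∈ CD ht dl cd L w, k ≤ a + q then 1 else 0) with hF
  have hFle : ∀ L, F L ≤ if HT ht L = n then 1 else 0 := by
    intro L
    simp only [hF]
    by_cases h : HT ht L = n
    · rw [if_pos h]; split_ifs <;> simp
    · rw [if_neg (fun h' => h h'.1), if_neg h]
  have e1 : Wn Λ ht dl cd n a q w = ∑' L1, (if fp ht (a - 2 * q) L1 then
      LW Λ L1 * ∑' L2, LW Λ L2 * F (L1 ++ L2) else 0) := by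
    rw [← split Λ ht h1 (a - 2 * q) F]
    unfold Wn
    refine tsum_congr fun L => ?_
    by_cases h : a - 2 * q ≤ HT ht L
    · rw [if_pos h]
    · rw [if_neg h, if_neg (fun h' => h (by have := h'.1; omega)), mul_zero]
  rw [e1]
  -- pointwise bound
  have hpt : ∀ L1, (if fp ht (a - 2 * q) L1 then LW Λ L1 * ∑' L2, LW Λ L2 * F (L1 ++ L2) else 0)
      ≤ (if fp ht (a - 2 * q) L1 ∧ a - 2 * q + q < HT ht L1 then LW Λ L1 else 0)
        + (if fp ht (a - 2 * q) L1 then LW Λ L1 else 0) * ε
        + c⁻¹ * (if fp ht (a - 2 * q) L1 then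
          LW Λ L1 * Qp Λ ht dl cd q (act dl L1 w) else 0) := by
    intro L1
    by_cases hL1 : fp ht (a - 2 * q) L1
    swap
    · rw [if_neg hL1]; exact zero_le
    rw [if_pos hL1]
    have hα := le_HT_of_fp ht hL1
    by_cases hbig : a - 2 * q + q < HT ht L1
    · rw [if_pos (show fp ht (a - 2 * q) L1 ∧ a - 2 * q + q < HT ht L1 from ⟨hL1, hbig⟩)]
      refine le_trans ?_ (le_self_add.trans le_self_add)
      calc _ ≤ LW Λ L1 * 1 := by
            refine mul_le_mul_right (sum_eq_le Λ ht hU1 n (HT ht L1) _ fun L => ?_) _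
            have := hFle (L1 ++ L)
            rwa [HT_append] at this
        _ = _ := mul_one _
    rw [if_neg (fun h => hbig h.2), zero_add, if_pos hL1]
    set T3 := a + q - HT ht L1 with hT3
    have e2 : ∑' L2, LW Λ L2 * F (L1 ++ L2) = ∑' L3, (if fp ht T3 L3 then
        LW Λ L3 * ∑' L5, LW Λ L5 * F (L1 ++ (L3 ++ L5)) else 0) := by
      rw [← split Λ ht h1 T3 (fun L => F (L1 ++ L))]
      refine tsum_congr fun L => ?_
      by_cases h : T3 ≤ HT ht L
      · rw [if_pos h]
      · rw [if_neg h]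
        have := hFle (L1 ++ L)
        rw [HT_append, if_neg (by omega)] at this
        rw [le_antisymm this zero_le, mul_zero]
    set g : List B → ℝ≥0∞ := fun L => (if HT ht L = 5 * q ∧
      (∀ k ∈ CD ht dl cd L (act dl L1 w), q < k) ∧
      ∃ k ∈ CD ht dl cd L (act dl L1 w), k ≤ 3 * q then 1 else 0) with hg
    have hpt2 : ∀ L3, (if fp ht T3 L3 then
        LW Λ L3 * ∑' L5, LW Λ L5 * F (L1 ++ (L3 ++ L5)) else 0)
        ≤ (if fp ht T3 L3 ∧ T3 + q < HT ht L3 then LW Λ L3 else 0)
          + c⁻¹ * (if fp ht T3 L3 then LW Λ L3 * ∑' L4, LW Λ L4 * g (L3 ++ L4) else 0) := by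
      intro L3
      by_cases hL3 : fp ht T3 L3
      swap
      · rw [if_neg hL3]; exact zero_le
      rw [if_pos hL3]
      have hle3 := le_HT_of_fp ht hL3
      have hone : ∑' L5, LW Λ L5 * F (L1 ++ (L3 ++ L5)) ≤ 1 := by
        refine sum_eq_le Λ ht hU1 n (HT ht L1 + HT ht L3) _ fun L => ?_
        have := hFle (L1 ++ (L3 ++ L))
        rwa [HT_append, HT_append, ← add_assoc] at this
      by_cases hb3 : T3 + q < HT ht L3
      · rw [if_pos (show fp ht T3 L3 ∧ T3 + q < HT ht L3 from ⟨hL3, hb3⟩)]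
        refine le_trans ?_ le_self_add
        calc _ ≤ LW Λ L3 * 1 := mul_le_mul_right hone _
          _ = _ := mul_one _
      rw [if_neg (fun h => hb3 h.2), zero_add, if_pos hL3]
      by_cases hE : (∀ k ∈ CD ht dl cd L3 (act dl L1 w), q < k) ∧
          ∃ k ∈ CD ht dl cd L3 (act dl L1 w), k ≤ 3 * q
      · -- extension
        have hext : c ≤ ∑' L4, LW Λ L4 * g (L3 ++ L4) := by
          refine (hU (5 * q - HT ht L3) (by omega)).trans ?_
          unfold U
          refine ENNReal.tsum_le_tsum fun L4 => ?_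
          by_cases h4 : HT ht L4 = 5 * q - HT ht L3
          · rw [if_pos h4]
            have : g (L3 ++ L4) = 1 := by
              simp only [hg]
              rw [if_pos]
              refine ⟨by rw [HT_append]; omega, ?_, ?_⟩
              · intro k hk
                rw [CD_append] at hk
                rcases hk with hk | ⟨k', hk', rfl⟩
                · exact hE.1 k hk
                · have := CD_pos ht dl cd hcd L4 _ _ hk'
                  simp only
                  omega
              · obtain ⟨k, hk, hk3⟩ := hE.2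
                exact ⟨k, by rw [CD_append]; exact Or.inl hk, hk3⟩
            rw [this, mul_one]
          · rw [if_neg h4]; exact zero_le
        calc LW Λ L3 * ∑' L5, LW Λ L5 * F (L1 ++ (L3 ++ L5)) ≤ LW Λ L3 * 1 :=
              mul_le_mul_right hone _
          _ = c⁻¹ * (LW Λ L3 * c) := by
              rw [mul_one, mul_comm (LW Λ L3), ← mul_assoc, ENNReal.inv_mul_cancel hc hc', one_mul]
          _ ≤ _ := mul_le_mul_right (mul_le_mul_right hext _) _
      · -- no contribution
        have hz : ∀ L5, F (L1 ++ (L3 ++ L5)) = 0 := by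
          intro L5
          simp only [hF]
          rw [if_neg]
          rintro ⟨hn', hall, k, hk, hka⟩
          apply hE
          have hall3 : ∀ k ∈ CD ht dl cd L3 (act dl L1 w), HT ht L1 + k ∈
              CD ht dl cd (L1 ++ (L3 ++ L5)) w := by
            intro k hk
            rw [CD_append]
            refine Or.inr ⟨k, ?_, rfl⟩
            rw [CD_append]
            exact Or.inl hk
          refine ⟨fun k' hk' => ?_, ?_⟩
          · have := hall _ (hall3 k' hk')
            omega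
          · have hka' := hall k hk
            rw [CD_append] at hk
            rcases hk with hk | ⟨k', hk', rfl⟩
            · have := CD_pos ht dl cd hcd L1 _ _ hk
              omega
            · simp only at hka hka'
              rw [CD_append] at hk'
              rcases hk' with hk' | ⟨k'', hk'', rfl⟩
              · exact ⟨k', hk', by omega⟩
              · have := CD_pos ht dl cd hcd L5 _ _ hk''
                simp only at hka
                omega
        simp only [hz, mul_zero, tsum_zero]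
        exact zero_le
    have hQ : ∑' L3, (if fp ht T3 L3 then LW Λ L3 * ∑' L4, LW Λ L4 * g (L3 ++ L4) else 0)
        ≤ Qp Λ ht dl cd q (act dl L1 w) := by
      rw [← split Λ ht h1 T3 g]
      unfold Qp
      refine ENNReal.tsum_le_tsum fun L => ?_
      by_cases h : T3 ≤ HT ht L
      · rw [if_pos h]
      · rw [if_neg h]; exact zero_le
    have h3 : ∑' L2, LW Λ L2 * F (L1 ++ L2) ≤ ε + c⁻¹ * Qp Λ ht dl cd q (act dl L1 w) := by
      rw [e2]
      refine (ENNReal.tsum_le_tsum hpt2).trans ?_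
      rw [ENNReal.tsum_add, ENNReal.tsum_mul_left]
      exact add_le_add (hov T3) (mul_le_mul_right hQ _)
    calc LW Λ L1 * ∑' L2, LW Λ L2 * F (L1 ++ L2)
        ≤ LW Λ L1 * (ε + c⁻¹ * Qp Λ ht dl cd q (act dl L1 w)) := mul_le_mul_right h3 _
      _ = LW Λ L1 * ε + c⁻¹ * (LW Λ L1 * Qp Λ ht dl cd q (act dl L1 w)) := by ring
      _ ≤ _ := by rw [if_pos hL1]
  refine (ENNReal.tsum_le_tsum hpt).trans ?_
  rw [ENNReal.tsum_add, ENNReal.tsum_add, ENNReal.tsum_mul_right, ENNReal.tsum_mul_left]
  refine add_le_add ?_ le_rfl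
  rw [two_mul ε]
  refine add_le_add (hov _) ?_
  calc _ ≤ 1 * ε := mul_le_mul_left (sum_FP Λ ht h1 hΛ _) _
    _ = _ := one_mul _

end Crest.Agent.R154.JK299
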