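import Crest.Agent.R154.JDens_299
import Crest.Agent.R154.JWin_299
import Crest.Agent.R154.B5First_181
import Crest.Agent.R154.Sel_300

/-! Row 154 (helper299), ROAD 801, joint-cut frame: the sum over the windows. -/

set_option autoImplicit false

namespace Crest.Agent.R154.JK299

open scoped ENNReal Topology
open Filter
open Crest.Agent.R154.B5A Crest.Agent.R154.FP178

variable {B W : Type*} (Λ : B → ℝ≥0∞) (ht : B → ℕ) (dl : B → W → W) (cd : W → B → Set ℕ)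

lemma fp_of_HT (h1 : ∀ b, 1 ≤ ht b) (L : List B) (H : ℕ) (h : HT ht L = H) : fp ht H L := by
  induction L generalizing H with
  | nil => rw [HT_nil] at h; exact h.symm
  | cons b L ih =>
    rw [HT_cons] at h
    have := h1 b
    exact ⟨by omega, ih _ (by omega)⟩

lemma tsum_tail : ∑' k, tail Λ ht k = ∑' b, Λ b * (ht b : ℝ≥0∞) := by
  classical
  unfold tail
  rw [ENNReal.tsum_comm]
  refine tsum_congr fun b => ?_
  rw [tsum_eq_sum (s := Finset.range (ht b)) (fun k hk => by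
    rw [if_neg (by simpa using hk)])]
  rw [Finset.sum_congr rfl (fun k hk => if_pos (Finset.mem_range.1 hk))]
  simp [mul_comm]

open Classical in
/-- a small exceptional set of displacements -/
def GoodSet (v η : ℝ≥0∞) (H : ℕ) (S : Finset W) : Prop :=
  ∃ (Sc : List B → Prop) (th : ℝ≥0∞), (∀ L, Sc L → HT ht L = H) ∧
    v ≤ ∑' L, (if Sc L then LW Λ L else 0) ∧
    (∀ (f : W → ℝ≥0∞) (w : W),
      ∑' L, (if Sc L then LW Λ L * f (act dl L w) else 0) ≤ th * ∑' w', f w') ∧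
    th * S.card ≤ η

open Classical in
/-- pieces of exact height with contacts, all at distance `s` from both ends -/
noncomputable def Wp (H s : ℕ) (w : W) : ℝ≥0∞ :=
  ∑' L : List B, (if HT ht L = H ∧ (∃ k, k ∈ CD ht dl cd L w) ∧
    (∀ k ∈ CD ht dl cd L w, s < k ∧ k + s ≤ H) then LW Λ L else 0)

open Classical in
/-- contact in the bottom slab -/
noncomputable def Sb (H s : ℕ) (w : W) : ℝ≥0∞ :=
  ∑' L : List B, (if HT ht L = H ∧ (∃ k ∈ CD ht dl cd L w, H < k + s) then LW Λ L else 0)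

lemma Qp_le (q s : ℕ) (hs : s ≤ q) (w : W) :
    Qp Λ ht dl cd q w ≤ Sb Λ ht dl cd (5 * q) s w + Wp Λ ht dl cd (5 * q) s w := by
  classical
  unfold Qp Sb Wp
  rw [← ENNReal.tsum_add]
  refine ENNReal.tsum_le_tsum fun L => ?_
  by_cases h : HT ht L = 5 * q ∧ (∀ k ∈ CD ht dl cd L w, q < k) ∧
    ∃ k ∈ CD ht dl cd L w, k ≤ 3 * q
  · rw [if_pos h, mul_one]
    by_cases h2 : ∃ k ∈ CD ht dl cd L w, 5 * q < k + s
    · rw [if_pos (show HT ht L = 5 * q ∧ (∃ k ∈ CD ht dl cd L w, 5 * q < k + s) from ⟨h.1, h2⟩)]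
      exact le_self_add
    · refine le_add_left ?_
      rw [if_pos]
      refine ⟨h.1, ?_, fun k hk => ⟨lt_of_le_of_lt hs (h.2.1 k hk), ?_⟩⟩
      · obtain ⟨k, hk, _⟩ := h.2.2
        exact ⟨k, hk⟩
      · by_contra h3
        exact h2 ⟨k, hk, by omega⟩
  · rw [if_neg h, mul_zero]; exact zero_le

lemma Wp_le_one (hU1 : ∀ n, U Λ ht n ≤ 1) (H s : ℕ) (w : W) : Wp Λ ht dl cd H s w ≤ 1 := by
  classical
  refine le_trans (ENNReal.tsum_le_tsum fun L => ?_) (hU1 H)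
  by_cases h : HT ht L = H
  · rw [if_pos h]; split_ifs <;> simp
  · rw [if_neg h, if_neg (fun h' => h h'.1)]

/-- the windows cover -/
lemma cover (n m K q : ℕ) (hq : 1 ≤ q) (hKq : m ≤ K * q) (w : W) :
    Kap1 Λ ht dl cd n m w ≤ ∑ j ∈ Finset.range K, Wn Λ ht dl cd n (m + j * q) q w := by
  classical
  unfold Kap1 Wn
  rw [← Summable.tsum_finsetSum (fun i _ => ENNReal.summable)]
  refine ENNReal.tsum_le_tsum fun L => ?_
  by_cases h : HT ht L = n ∧ (∀ k ∈ CD ht dl cd L w, m < k) ∧ ∃ k ∈ CD ht dl cd L w, k ≤ 2 * m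
  · rw [if_pos h]
    obtain ⟨hn, hall, k1, hk1, hk2⟩ := h
    set k0 := sInf (CD ht dl cd L w) with hk0
    have hk0m : k0 ∈ CD ht dl cd L w := Nat.sInf_mem ⟨k1, hk1⟩
    have hmin : ∀ k ∈ CD ht dl cd L w, k0 ≤ k := fun k hk => Nat.sInf_le hk
    have hm0 := hall k0 hk0m
    have hle := hmin k1 hk1
    set j := (k0 - m - 1) / q with hj
    have hjd := Nat.div_add_mod (k0 - m - 1) q
    have hmod := Nat.mod_lt (k0 - m - 1) (show 0 < q by omega)
    rw [← hj] at hjd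
    have hjK : j < K := by
      by_contra hcon
      push Not at hcon
      have : K * q ≤ q * j := by rw [mul_comm]; exact Nat.mul_le_mul_left _ hcon
      omega
    refine le_trans ?_ (Finset.single_le_sum (f := fun j => LW Λ L * (if HT ht L = n ∧
      (∀ k ∈ CD ht dl cd L w, m + j * q < k) ∧
      ∃ k ∈ CD ht dl cd L w, k ≤ m + j * q + q then (1 : ℝ≥0∞) else 0))
      (fun _ _ => zero_le) (Finset.mem_range.2 hjK))
    have hc : j * q = q * j := mul_comm _ _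
    rw [if_pos ⟨hn, fun k hk => by have := hmin k hk; omega, k0, hk0m, by omega⟩, mul_one]
  · rw [if_neg h]; exact zero_le

/-- one window, with a good exceptional set -/
lemma window2 (h1 : ∀ b, 1 ≤ ht b) (hΛ : ∑' b, Λ b ≤ 1)
    (hcd : ∀ w b k, k ∈ cd w b → 1 ≤ k ∧ k ≤ ht b)
    (hinj : ∀ b, Function.Injective (dl b))
    (c : ℝ≥0∞) (hc : c ≠ 0) (hc' : c ≠ ⊤) (R : ℕ)
    (hU : ∀ n, R ≤ n → c ≤ U Λ ht n) (hU1 : ∀ n, U Λ ht n ≤ 1)
    (q s : ℕ) (hq : R ≤ q) (hs : s ≤ q) (δ v η β : ℝ≥0∞)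
    (hov : ∀ a, ∑' L, (open Classical in if fp ht a L ∧ a + q < HT ht L then LW Λ L else 0) ≤ δ)
    (a n J : ℕ) (ha : 2 * q ≤ a) (hn : a + q ≤ n) (hJ : 2 * (5 * q) * J ≤ a - 2 * q)
    (S1 S2 : Finset W) (hS1 : GoodSet Λ ht dl v η (5 * q) S1)
    (hS2 : GoodSet Λ ht dl v η (5 * q) S2)
    (hSb : ∀ w, Sb Λ ht dl cd (5 * q) s w ≤ δ)
    (hWp : ∀ w, w ∉ S1 → w ∉ S2 → Wp Λ ht dl cd (5 * q) s w ≤ β) (w : W) :
    Wn Λ ht dl cd n a q w ≤ 2 * δ + c⁻¹ * (δ + β + 2 * ((1 - v) ^ J + J * (η + δ))) := by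
  classical
  refine (window Λ ht dl cd h1 hΛ hcd c hc hc' R hU hU1 q hq δ hov a n ha hn w).trans ?_
  refine add_le_add le_rfl (mul_le_mul_right ?_ _)
  have hd : ∀ S : Finset W, GoodSet Λ ht dl v η (5 * q) S →
      hS Λ ht dl S (a - 2 * q) w ≤ (1 - v) ^ J + J * (η + δ) := by
    rintro S ⟨Sc, th, hH, hv, hth, hcard⟩
    have hov5 : ∑' L, (if fp ht (5 * q) L ∧ 5 * q + 5 * q < HT ht L then LW Λ L else 0) ≤ δ := by
      refine le_trans (ENNReal.tsum_le_tsum fun L => ?_) (hov (5 * q))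
      by_cases h : fp ht (5 * q) L ∧ 5 * q + 5 * q < HT ht L
      · rw [if_pos h, if_pos ⟨h.1, by have := h.2; omega⟩]
      · rw [if_neg h]; exact zero_le
    refine (dens Λ ht dl h1 hΛ hinj (5 * q) δ hov5 Sc hH th v
      (fun L hL => fp_of_HT ht h1 L _ (hH L hL)) hth hv S J (a - 2 * q) hJ w).trans ?_
    exact add_le_add le_rfl (mul_le_mul_right (add_le_add hcard le_rfl) _)
  calc ∑' L1, (if fp ht (a - 2 * q) L1 then LW Λ L1 * Qp Λ ht dl cd q (act dl L1 w) else 0)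
      ≤ ∑' L1, ((if fp ht (a - 2 * q) L1 then LW Λ L1 else 0) * (δ + β)
          + (if fp ht (a - 2 * q) L1 then LW Λ L1 * (if act dl L1 w ∈ S1 then 1 else 0) else 0)
          + (if fp ht (a - 2 * q) L1 then LW Λ L1 * (if act dl L1 w ∈ S2 then 1 else 0) else 0)) := by
        refine ENNReal.tsum_le_tsum fun L1 => ?_
        by_cases hL : fp ht (a - 2 * q) L1
        · simp only [if_pos hL]
          rw [← mul_add, ← mul_add]
          refine mul_le_mul_right ?_ _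
          refine (Qp_le Λ ht dl cd q s hs _).trans ?_
          by_cases hm1 : act dl L1 w ∈ S1
          · rw [if_pos hm1]
            calc _ ≤ δ + 1 := add_le_add (hSb _) (Wp_le_one Λ ht dl cd hU1 _ _ _)
              _ ≤ (δ + β) + 1 := add_le_add le_self_add le_rfl
              _ ≤ _ := le_self_add
          by_cases hm2 : act dl L1 w ∈ S2
          · rw [if_pos hm2]
            calc _ ≤ δ + 1 := add_le_add (hSb _) (Wp_le_one Λ ht dl cd hU1 _ _ _)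
              _ ≤ (δ + β + (if act dl L1 w ∈ S1 then 1 else 0)) + 1 :=
                add_le_add (le_self_add.trans le_self_add) le_rfl
          · refine le_trans (add_le_add (hSb _) (hWp _ hm1 hm2)) ?_
            exact le_self_add.trans le_self_add
        · simp only [if_neg hL]; simp
    _ ≤ 1 * (δ + β) + ((1 - v) ^ J + J * (η + δ)) + ((1 - v) ^ J + J * (η + δ)) := by
        rw [ENNReal.tsum_add, ENNReal.tsum_add, ENNReal.tsum_mul_right]
        exact add_le_add (add_le_add (mul_le_mul_left (sum_FP Λ ht h1 hΛ _) _) (hd S1 hS1))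
          (hd S2 hS2)
    _ = _ := by ring

/-- **the assembly on joint cuts** -/
theorem kap_weak (h1 : ∀ b, 1 ≤ ht b)
    (hcd : ∀ w b k, k ∈ cd w b → 1 ≤ k ∧ k ≤ ht b)
    (hinj : ∀ b, Function.Injective (dl b))
    (c : ℝ≥0∞) (hc : c ≠ 0) (R : ℕ)
    (hU : ∀ n, R ≤ n → c ≤ U Λ ht n) (hU1 : ∀ n, U Λ ht n ≤ 1)
    (c1 : ℝ≥0∞) (hc1 : c1 ≠ 0) (hc1' : c1 ≤ 1)
    (hW : ∀ υ η : ℝ≥0∞, υ ≠ 0 → υ ≤ 1 → η ≠ 0 → ∃ s H0 : ℕ, ∀ H, H0 ≤ H →
      ∃ S1 S2 : Finset W, GoodSet Λ ht dl (c1 * υ) η H S1 ∧ GoodSet Λ ht dl (c1 * υ) η H S2 ∧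
        ∀ w, w ∉ S1 → w ∉ S2 → Wp Λ ht dl cd H s w ≤ υ * υ + η)
    (hSl : ∀ (s : ℕ) (ε : ℝ≥0∞), ε ≠ 0 → ∃ H0 : ℕ, ∀ H, H0 ≤ H → ∀ w, Sb Λ ht dl cd H s w ≤ ε) :
    ∀ ε : ℝ≥0∞, ε ≠ 0 → ∃ M : ℕ, ∀ m, M ≤ m → ∃ n0 : ℕ, ∀ n, n0 ≤ n → ∀ w,
      Kap1 Λ ht dl cd n m w ≤ ε := by
  classical
  intro ε hε
  have hcle : c ≤ 1 := (hU R le_rfl).trans (hU1 R)
  have hc' : c ≠ ⊤ := ne_top_of_le_ne_top ENNReal.one_ne_top hcle
  have hΛ : ∑' b, Λ b = 1 :=
    le_antisymm (mass_le_one Λ ht h1 hU1) (mass_ge_one Λ ht c hc R hU)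
  have hmean : ∑' k, tail Λ ht k ≠ ⊤ := by
    rw [tsum_tail Λ ht]
    exact ne_top_of_le_ne_top (ENNReal.inv_ne_top.2 hc) (mean_le Λ ht h1 hΛ c hc hc' R hU)
  have hc1t : c1 ≠ ⊤ := ne_top_of_le_ne_top ENNReal.one_ne_top hc1'
  -- constants
  obtain ⟨C0, hC0⟩ := ENNReal.exists_nat_gt (r := c⁻¹ * (c1⁻¹ * c1⁻¹ + 2) + 1) (by
    refine ENNReal.add_ne_top.2 ⟨ENNReal.mul_ne_top (ENNReal.inv_ne_top.2 hc)
      (ENNReal.add_ne_top.2 ⟨ENNReal.mul_ne_top (ENNReal.inv_ne_top.2 hc1)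
        (ENNReal.inv_ne_top.2 hc1), by norm_num⟩), by norm_num⟩)
  have hε2 : min (ε / 2) (c1 * c1) ≠ 0 := by
    rw [← pos_iff_ne_zero]
    exact lt_min (ENNReal.div_pos hε (by norm_num)) (pos_iff_ne_zero.2 (mul_ne_zero hc1 hc1))
  obtain ⟨v, K, hv0, hv1, hK, hsel⟩ := _root_.Crest.Agent.R154.Sel300.sel C0 16 16 (by norm_num) hε2
  set J := K / 16 with hJdef
  have hC01 : (1 : ℝ≥0∞) ≤ C0 := le_trans le_add_self hC0.le
  have hK1 : (1 : ℝ≥0∞) ≤ K := by exact_mod_cast (show 1 ≤ K by omega)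
  have hvc : v ≤ c1 := by
    have h2 : v * v ≤ c1 * c1 := by
      calc v * v = 1 * 1 * (v ^ 2) := by ring
        _ ≤ (C0 : ℝ≥0∞) * K * (v ^ 2 + (1 - v) ^ (K / 16)) :=
          mul_le_mul' (mul_le_mul' hC01 hK1) le_self_add
        _ ≤ _ := hsel.trans (min_le_right _ _)
    by_contra hcon
    push Not at hcon
    have := ENNReal.mul_lt_mul hcon hcon
    exact absurd h2 (not_le.2 this)
  set υ := v / c1 with hυ
  have hυ0 : υ ≠ 0 := (ENNReal.div_pos hv0 hc1t).ne'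
  have hυ1 : υ ≤ 1 := ENNReal.div_le_of_le_mul (by rwa [one_mul])
  have hcυ : c1 * υ = v := by rw [hυ]; exact ENNReal.mul_div_cancel hc1 hc1t
  -- η
  set D : ℝ≥0∞ := K * (2 + c⁻¹ * (2 + 4 * J)) with hD
  have hD0 : D ≠ 0 := by
    refine mul_ne_zero (by exact_mod_cast (show K ≠ 0 by omega)) ?_
    simp
  have hDt : D ≠ ⊤ := by
    refine ENNReal.mul_ne_top (ENNReal.natCast_ne_top _) (ENNReal.add_ne_top.2 ⟨by norm_num,
      ENNReal.mul_ne_top (ENNReal.inv_ne_top.2 hc) (ENNReal.add_ne_top.2 ⟨by norm_num,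
        ENNReal.mul_ne_top (by norm_num) (ENNReal.natCast_ne_top _)⟩)⟩)
  set η : ℝ≥0∞ := ε / 2 / D with hη
  have hη0 : η ≠ 0 := (ENNReal.div_pos (ENNReal.div_pos hε (by norm_num)).ne' hDt).ne'
  obtain ⟨s, H0, hH0⟩ := hW υ η hυ0 hυ1 hη0
  obtain ⟨H1, hH1⟩ := hSl s η hη0
  have htl : ∀ᶠ q : ℕ in atTop, ∑' k, tail Λ ht (k + q) < η :=
    (ENNReal.tendsto_sum_nat_add (tail Λ ht) hmean).eventually_lt_const (pos_iff_ne_zero.2 hη0)
  obtain ⟨Q0, hQ0⟩ := htl.exists_forall_of_atTop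
  refine ⟨K * (Q0 + R + s + H0 + H1 + 1) + 3 * K, fun m hm => ⟨2 * m + K, fun n hn w => ?_⟩⟩
  set q := m / K + 1 with hq
  have hKpos : 0 < K := by omega
  have hdm := Nat.div_add_mod m K
  have hmod := Nat.mod_lt m hKpos
  have hqlow : Q0 + R + s + H0 + H1 + 1 ≤ m / K := by
    rw [Nat.le_div_iff_mul_le hKpos]
    nlinarith
  have hKq : m ≤ K * q := by rw [hq, mul_add, mul_one]; omega
  have hKq2 : K * q ≤ m + K := by rw [hq, mul_add, mul_one]; omega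
  have hm3 : 3 * K ≤ m := by omega
  have hJK : 16 * J ≤ K := by rw [hJdef]; exact Nat.mul_div_le K 16
  have hJq : (10 * J + 2) * q ≤ m := by
    have h4 : 4 * (10 * J + 2) ≤ 3 * K := by omega
    have h5 : 4 * (10 * J + 2) * q ≤ 3 * K * q := Nat.mul_le_mul_right _ h4
    have h6 : 3 * K * q = 3 * (K * q) := by ring
    have h7 : 4 * (10 * J + 2) * q = 4 * ((10 * J + 2) * q) := by ring
    omega
  have hJq' : 10 * q * J + 2 * q ≤ m := by
    have : (10 * J + 2) * q = 10 * q * J + 2 * q := by ring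
    omega
  obtain ⟨S1, S2, hS1, hS2, hWp⟩ := hH0 (5 * q) (by omega)
  rw [hcυ] at hS1 hS2
  have hov : ∀ a, ∑' L, (if fp ht a L ∧ a + q < HT ht L then LW Λ L else 0) ≤ η := by
    intro a
    refine (overshoot Λ ht h1 hU1 q a).trans ?_
    have := (hQ0 q (by omega)).le
    simpa only [add_comm] using this
  have hwin : ∀ j ∈ Finset.range K, Wn Λ ht dl cd n (m + j * q) q w
      ≤ 2 * η + c⁻¹ * (η + (υ * υ + η) + 2 * ((1 - v) ^ J + J * (η + η))) := by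
    intro j hj
    have hj' : j + 1 ≤ K := Finset.mem_range.1 hj
    have hjq : (j + 1) * q ≤ K * q := Nat.mul_le_mul_right _ hj'
    have hjq' : (j + 1) * q = j * q + q := by ring
    refine window2 Λ ht dl cd h1 hΛ.le hcd hinj c hc hc' R hU hU1 q s (by omega) (by omega)
      η v η (υ * υ + η) hov (m + j * q) n J ?_ ?_ ?_ S1 S2 hS1 hS2
      (fun w => hH1 (5 * q) (by omega) w) hWp w
    · omega
    · omega
    · have : 2 * (5 * q) * J = 10 * q * J := by ring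
      omega
  have hυυ : υ * υ = v ^ 2 * (c1⁻¹ * c1⁻¹) := by
    rw [hυ, div_eq_mul_inv]; ring
  calc Kap1 Λ ht dl cd n m w ≤ ∑ j ∈ Finset.range K, Wn Λ ht dl cd n (m + j * q) q w :=
        cover Λ ht dl cd n m K q (by omega) hKq w
    _ ≤ ∑ j ∈ Finset.range K, (2 * η + c⁻¹ * (η + (υ * υ + η) + 2 * ((1 - v) ^ J + J * (η + η)))) :=
        Finset.sum_le_sum hwin
    _ = K * (c⁻¹ * (v ^ 2 * (c1⁻¹ * c1⁻¹) + 2 * (1 - v) ^ J)) + D * η := by
        rw [Finset.sum_const, Finset.card_range, nsmul_eq_mul, hυυ, hD]; ring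
    _ ≤ ε / 2 + ε / 2 := by
        refine add_le_add ?_ ?_
        · calc (K : ℝ≥0∞) * (c⁻¹ * (v ^ 2 * (c1⁻¹ * c1⁻¹) + 2 * (1 - v) ^ J))
              ≤ K * (c⁻¹ * (v ^ 2 * (c1⁻¹ * c1⁻¹ + 2) + (c1⁻¹ * c1⁻¹ + 2) * (1 - v) ^ J)) := by
                refine mul_le_mul_right (mul_le_mul_right (add_le_add ?_ ?_) _) _
                · exact mul_le_mul_right le_self_add _
                · exact mul_le_mul_left le_add_self _
            _ = (c⁻¹ * (c1⁻¹ * c1⁻¹ + 2)) * K * (v ^ 2 + (1 - v) ^ J) := by ring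
            _ ≤ C0 * K * (v ^ 2 + (1 - v) ^ J) := by
                refine mul_le_mul_left (mul_le_mul_left ?_ _) _
                exact le_trans le_self_add hC0.le
            _ ≤ _ := hsel.trans (min_le_left _ _)
        · rw [hη]
          exact (ENNReal.mul_div_cancel hD0 hDt).le
    _ = ε := ENNReal.add_halves ε

end Crest.Agent.R154.JK299
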