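import Crest.Agent.R154.B5First_181
import Crest.Agent.R154.FP_178
import Crest.Agent.R154.NumK_658

/-! Row 154, ROAD 801 (helper497): abstract assembly in the joint-cut frame (139's plan).
Output: `Kap1` is small for `n ≥ 8 m`, from one exact-height piece. -/

set_option autoImplicit false

namespace Crest.Agent.R154.JM497

open scoped ENNReal
open Crest.Agent.R154.B5A Crest.Agent.R154.FP178

variable {B W : Type*} (Λ : B → ℝ≥0∞) (ht : B → ℕ) (dl : B → W → W) (cd : W → B → Set ℕ)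

open Classical in
/-- sum over first passages -/
noncomputable def fS (a : ℕ) (f : List B → ℝ≥0∞) : ℝ≥0∞ :=
  ∑' L, if fp ht a L then LW Λ L * f L else 0

variable {Λ ht}

lemma fS_mono (a : ℕ) {f g : List B → ℝ≥0∞} (h : ∀ L, fp ht a L → f L ≤ g L) :
    fS Λ ht a f ≤ fS Λ ht a g := by
  unfold fS
  refine ENNReal.tsum_le_tsum fun L => ?_
  by_cases hL : fp ht a L
  · rw [if_pos hL, if_pos hL]; exact mul_le_mul_right (h L hL) _
  · rw [if_neg hL, if_neg hL]

lemma fS_add (a : ℕ) (f g : List B → ℝ≥0∞) :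
    fS Λ ht a (fun L => f L + g L) = fS Λ ht a f + fS Λ ht a g := by
  unfold fS
  rw [← ENNReal.tsum_add]
  refine tsum_congr fun L => ?_
  by_cases hL : fp ht a L
  · simp only [if_pos hL, mul_add]
  · simp only [if_neg hL, add_zero]

lemma fS_mul (a : ℕ) (c : ℝ≥0∞) (f : List B → ℝ≥0∞) :
    fS Λ ht a (fun L => c * f L) = c * fS Λ ht a f := by
  unfold fS
  rw [← ENNReal.tsum_mul_left]
  refine tsum_congr fun L => ?_
  by_cases hL : fp ht a L
  · simp only [if_pos hL, mul_left_comm]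
  · simp only [if_neg hL, mul_zero]

lemma fS_le (h1 : ∀ b, 1 ≤ ht b) (hΛ : ∑' b, Λ b ≤ 1) (a : ℕ) {f : List B → ℝ≥0∞} {c : ℝ≥0∞}
    (h : ∀ L, fp ht a L → f L ≤ c) : fS Λ ht a f ≤ c := by
  calc fS Λ ht a f ≤ fS Λ ht a (fun _ => c * 1) :=
        fS_mono a fun L hL => by rw [mul_one]; exact h L hL
    _ = c * fS Λ ht a (fun _ => 1) := fS_mul a c _
    _ ≤ c * 1 := by
        refine mul_le_mul_right ?_ _
        have := sum_FP Λ ht h1 hΛ a
        unfold fS
        simpa using this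
    _ = c := mul_one c

lemma fp_of_HT (h1 : ∀ b, 1 ≤ ht b) : ∀ (A : List B) (H : ℕ), HT ht A = H → fp ht H A := by
  intro A
  induction A with
  | nil => intro H h; rw [fp_nil]; rw [HT_nil] at h; exact h.symm
  | cons b A ih =>
    intro H h
    rw [HT_cons] at h
    rw [fp_cons]
    have := h1 b
    exact ⟨by omega, ih _ (by omega)⟩

open Classical in
/-- **attempts**: the set charged by `g` is rarely hit after many attempts. -/
theorem attempts (h1 : ∀ b, 1 ≤ ht b) (hΛ : ∑' b, Λ b ≤ 1) (H q : ℕ) (hqH : q ≤ H)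
    (g : W → ℝ≥0∞) (hg : ∀ w, g w ≤ 1) (Gd : List B → Prop) (hGH : ∀ A, Gd A → HT ht A = H)
    (θ e v : ℝ≥0∞) (hv : v ≤ 1)
    (hθ : ∀ (T : List B) (w : W),
      ∑' A, (if Gd A then LW Λ A * g (act dl T (act dl A w)) else 0) ≤ θ)
    (hGd : v ≤ ∑' A, (if Gd A then LW Λ A else 0))
    (he : ∀ a, ∑' A, (if fp ht a A ∧ a + q < HT ht A then LW Λ A else 0) ≤ e) :
    ∀ (j a : ℕ) (w : W), 2 * H * j ≤ a →
      fS Λ ht a (fun L => g (act dl L w)) ≤ (1 - v) ^ j + j * (θ + e) := by
  intro j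
  induction j with
  | zero =>
    intro a w _
    simp only [pow_zero, Nat.cast_zero, zero_mul, add_zero]
    exact fS_le h1 hΛ a fun L _ => hg _
  | succ j ih =>
    intro a w ha
    have haH : H ≤ a := by nlinarith [Nat.zero_le j, Nat.zero_le H]
    -- mass of the failures
    have hfail : ∑' A, (if fp ht H A ∧ ¬ Gd A then LW Λ A else 0) ≤ 1 - v := by
      have hs : ∑' A, (if fp ht H A ∧ ¬ Gd A then LW Λ A else 0)
          + ∑' A, (if Gd A then LW Λ A else 0) ≤ 1 := by
        rw [← ENNReal.tsum_add]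
        refine le_trans (ENNReal.tsum_le_tsum fun A => ?_) (sum_FP Λ ht h1 hΛ H)
        by_cases hA : Gd A
        · have : fp ht H A := fp_of_HT h1 A H (hGH A hA)
          simp [hA, this]
        · by_cases hf : fp ht H A <;> simp [hA, hf]
      have hvt : v ≠ ⊤ := ne_top_of_le_ne_top ENNReal.one_ne_top hv
      refine ENNReal.le_sub_of_add_le_right hvt (le_trans ?_ hs)
      exact add_le_add le_rfl hGd
    have hstep : fS Λ ht a (fun L => g (act dl L w))
        = ∑' A, (if fp ht H A then LW Λ A *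
          fS Λ ht (a - HT ht A) (fun L => g (act dl L (act dl A w))) else 0) := by
      have := fp_split Λ ht h1 H a haH (fun L => g (act dl L w))
      unfold fS
      rw [this]
      refine tsum_congr fun A => ?_
      simp only [act_append]
    rw [hstep]
    set F : List B → ℝ≥0∞ := fun A =>
      fS Λ ht (a - HT ht A) (fun L => g (act dl L (act dl A w))) with hF
    have hF1 : ∀ A, F A ≤ 1 := fun A => fS_le h1 hΛ _ fun L _ => hg _
    -- pointwise split
    have hsplit : ∀ A, (if fp ht H A then LW Λ A * F A else 0)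
        ≤ (if Gd A then LW Λ A * fS Λ ht (a - H) (fun L => g (act dl L (act dl A w))) else 0)
          + (if fp ht H A ∧ ¬ Gd A then LW Λ A else 0) * ((1 - v) ^ j + j * (θ + e))
          + (if fp ht H A ∧ H + q < HT ht A then LW Λ A else 0) := by
      intro A
      by_cases hf : fp ht H A
      · rw [if_pos hf]
        by_cases hA : Gd A
        · rw [if_pos hA]
          have : F A = fS Λ ht (a - H) (fun L => g (act dl L (act dl A w))) := by
            rw [hF]; simp only [hGH A hA]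
          rw [this]
          exact le_trans le_self_add le_self_add
        · rw [if_neg hA, zero_add, if_pos ⟨hf, hA⟩]
          by_cases ho : H + q < HT ht A
          · rw [if_pos ⟨hf, ho⟩]
            refine le_trans ?_ le_add_self
            calc LW Λ A * F A ≤ LW Λ A * 1 := mul_le_mul_right (hF1 A) _
              _ = _ := mul_one _
          · refine le_trans ?_ le_self_add
            refine mul_le_mul_right ?_ _
            have hle : HT ht A ≤ 2 * H := by omega
            exact ih (a - HT ht A) (act dl A w) (by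
              have : 2 * H * (j + 1) = 2 * H * j + 2 * H := by ring
              omega)
      · rw [if_neg hf]; exact zero_le
    refine le_trans (ENNReal.tsum_le_tsum hsplit) ?_
    rw [ENNReal.tsum_add, ENNReal.tsum_add, ENNReal.tsum_mul_right]
    have hgood : ∑' A, (if Gd A then LW Λ A *
        fS Λ ht (a - H) (fun L => g (act dl L (act dl A w))) else 0) ≤ θ := by
      have e1 : ∀ A, (if Gd A then LW Λ A *
          fS Λ ht (a - H) (fun L => g (act dl L (act dl A w))) else 0)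
          = ∑' T, (if fp ht (a - H) T then LW Λ T *
            (if Gd A then LW Λ A * g (act dl T (act dl A w)) else 0) else 0) := by
        intro A
        by_cases hA : Gd A
        · rw [if_pos hA, fS, ← ENNReal.tsum_mul_left]
          refine tsum_congr fun T => ?_
          by_cases hT : fp ht (a - H) T
          · rw [if_pos hT, if_pos hT, if_pos hA, mul_left_comm]
          · rw [if_neg hT, if_neg hT, mul_zero]
        · rw [if_neg hA]
          symm
          rw [ENNReal.tsum_eq_zero]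
          intro T
          simp [hA]
      rw [tsum_congr e1, ENNReal.tsum_comm]
      have e2 : ∀ T, ∑' A, (if fp ht (a - H) T then LW Λ T *
            (if Gd A then LW Λ A * g (act dl T (act dl A w)) else 0) else 0)
          ≤ (if fp ht (a - H) T then LW Λ T * θ else 0) := by
        intro T
        by_cases hT : fp ht (a - H) T
        · simp only [if_pos hT]
          rw [ENNReal.tsum_mul_left]
          exact mul_le_mul_right (hθ T w) _
        · simp [hT]
      refine le_trans (ENNReal.tsum_le_tsum e2) ?_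
      exact fS_le (f := fun _ => θ) h1 hΛ (a - H) fun L _ => le_rfl
    calc _ ≤ θ + (1 - v) * ((1 - v) ^ j + j * (θ + e)) + e :=
          add_le_add (add_le_add hgood (mul_le_mul_left hfail _)) (he H)
      _ ≤ θ + ((1 - v) ^ (j + 1) + j * (θ + e)) + e := by
          refine add_le_add (add_le_add le_rfl ?_) le_rfl
          rw [mul_add, pow_succ']
          refine add_le_add le_rfl ?_
          calc (1 - v) * (j * (θ + e)) ≤ 1 * (j * (θ + e)) := mul_le_mul_left tsub_le_self _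
            _ = _ := one_mul _
      _ = (1 - v) ^ (j + 1) + ((j + 1 : ℕ) : ℝ≥0∞) * (θ + e) := by
          push_cast; ring


/-! ### one window -/

open Classical in
/-- the exact-height piece: height `4q`, all contacts deeper than `q`, some contact `≤ 3q` -/
noncomputable def Phi (Λ : B → ℝ≥0∞) (ht : B → ℕ) (dl : B → W → W) (cd : W → B → Set ℕ)
    (q : ℕ) (w : W) : ℝ≥0∞ :=
  ∑' L : List B, if HT ht L = 4 * q ∧ (∀ k ∈ CD ht dl cd L w, q < k) ∧
    (∃ k ∈ CD ht dl cd L w, k ≤ 3 * q) then LW Λ L else 0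

open Classical in
/-- first contact in the window `(lo, hi]` -/
noncomputable def Win (Λ : B → ℝ≥0∞) (ht : B → ℕ) (dl : B → W → W) (cd : W → B → Set ℕ)
    (n lo hi : ℕ) (w : W) : ℝ≥0∞ :=
  ∑' L : List B, if HT ht L = n ∧ (∀ k ∈ CD ht dl cd L w, lo < k) ∧
    (∃ k ∈ CD ht dl cd L w, k ≤ hi) then LW Λ L else 0

variable {dl cd}

open Classical in
/-- step (b): below the top cut -/
lemma piece_le (h1 : ∀ b, 1 ≤ ht b) (hU1 : ∀ n, U Λ ht n ≤ 1)
    (hcd : ∀ w b k, k ∈ cd w b → 1 ≤ k ∧ k ≤ ht b) (c : ℝ≥0∞) (hc : c ≠ 0) (hc' : c ≠ ⊤)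
    (hU : ∀ n, c ≤ U Λ ht n) (q : ℕ) (e : ℝ≥0∞)
    (he : ∀ a, ∑' A, (if fp ht a A ∧ a + q < HT ht A then LW Λ A else 0) ≤ e)
    (n : ℕ) (hn : 3 * q ≤ n) (w : W) :
    Win Λ ht dl cd n q (3 * q) w ≤ e + c⁻¹ * Phi Λ ht dl cd q w := by
  -- the event on the first passage of `3q`
  set φ : List B → Prop := fun P => (∀ k ∈ CD ht dl cd P w, q < k) ∧
    (∃ k ∈ CD ht dl cd P w, k ≤ 3 * q) with hφ
  have hrest : ∀ (P R : List B), fp ht (3 * q) P →
      (∃ k ∈ CD ht dl cd (P ++ R) w, k ≤ 3 * q) → ∃ k ∈ CD ht dl cd P w, k ≤ 3 * q := by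
    rintro P R hP ⟨k, hk, hk3⟩
    rw [CD_append] at hk
    rcases hk with hk | ⟨k', hk', rfl⟩
    · exact ⟨k, hk, hk3⟩
    · have := (CD_pos ht dl cd hcd R _ k' hk').1
      have h2 := le_HT_of_fp ht hP
      simp only at hk3
      omega
  have hPhi : ∑' P, (if fp ht (3 * q) P ∧ ¬ (3 * q + q < HT ht P) ∧ φ P
      then LW Λ P * U Λ ht (4 * q - HT ht P) else 0) ≤ Phi Λ ht dl cd q w := by
    have hs := split Λ ht h1 (3 * q) (fun L => if HT ht L = 4 * q ∧ φ L then (1 : ℝ≥0∞) else 0)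
    have hs1 : Phi Λ ht dl cd q w = ∑' L, (if 3 * q ≤ HT ht L then LW Λ L *
        (if HT ht L = 4 * q ∧ φ L then (1 : ℝ≥0∞) else 0) else 0) := by
      unfold Phi
      refine tsum_congr fun L => ?_
      by_cases h : HT ht L = 4 * q ∧ φ L
      · refine (if_pos ⟨h.1, h.2⟩).trans ?_
        rw [if_pos (by rw [h.1]; omega), if_pos h, mul_one]
      · refine (if_neg (fun h' => h ⟨h'.1, h'.2⟩)).trans ?_
        rw [if_neg h, mul_zero]; simp
    rw [hs1, hs]
    refine ENNReal.tsum_le_tsum fun P => ?_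
    by_cases h : fp ht (3 * q) P ∧ ¬ (3 * q + q < HT ht P) ∧ φ P
    · rw [if_pos h, if_pos h.1]
      refine mul_le_mul_right ?_ _
      rw [U]
      refine ENNReal.tsum_le_tsum fun R => ?_
      by_cases hR : HT ht R = 4 * q - HT ht P
      · rw [if_pos hR]
        have h2 := le_HT_of_fp ht h.1
        have : HT ht (P ++ R) = 4 * q ∧ φ (P ++ R) := by
          refine ⟨by rw [HT_append]; omega, ?_, ?_⟩
          · intro k hk
            rw [CD_append] at hk
            rcases hk with hk | ⟨k', hk', rfl⟩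
            · exact h.2.2.1 k hk
            · have := (CD_pos ht dl cd hcd R _ k' hk').1
              simp only
              omega
          · obtain ⟨k, hk, hk3⟩ := h.2.2.2
            exact ⟨k, by rw [CD_append]; exact Or.inl hk, hk3⟩
        rw [if_pos this, mul_one]
      · rw [if_neg hR]; exact zero_le
    · rw [if_neg h]; exact zero_le
  have hwin : Win Λ ht dl cd n q (3 * q) w
      ≤ ∑' P, (if fp ht (3 * q) P ∧ φ P then LW Λ P else 0) := by
    have hs := split Λ ht h1 (3 * q) (fun L => if HT ht L = n ∧ φ L then (1 : ℝ≥0∞) else 0)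
    have hs1 : Win Λ ht dl cd n q (3 * q) w = ∑' L, (if 3 * q ≤ HT ht L then LW Λ L *
        (if HT ht L = n ∧ φ L then (1 : ℝ≥0∞) else 0) else 0) := by
      unfold Win
      refine tsum_congr fun L => ?_
      by_cases h : HT ht L = n ∧ φ L
      · refine (if_pos ⟨h.1, h.2⟩).trans ?_
        rw [if_pos (by rw [h.1]; omega), if_pos h, mul_one]
      · refine (if_neg (fun h' => h ⟨h'.1, h'.2⟩)).trans ?_
        rw [if_neg h, mul_zero]; simp
    rw [hs1, hs]
    refine ENNReal.tsum_le_tsum fun P => ?_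
    by_cases hP : fp ht (3 * q) P
    · rw [if_pos hP]
      have h2 := le_HT_of_fp ht hP
      by_cases h : φ P
      · rw [if_pos ⟨hP, h⟩]
        calc LW Λ P * ∑' R, LW Λ R * (if HT ht (P ++ R) = n ∧ φ (P ++ R) then (1 : ℝ≥0∞) else 0)
            ≤ LW Λ P * U Λ ht (n - HT ht P) := by
              refine mul_le_mul_right ?_ _
              rw [U]
              refine ENNReal.tsum_le_tsum fun R => ?_
              by_cases hR : HT ht (P ++ R) = n ∧ φ (P ++ R)
              · rw [if_pos hR, mul_one, if_pos]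
                have := hR.1
                rw [HT_append] at this
                omega
              · rw [if_neg hR, mul_zero]; exact zero_le
          _ ≤ LW Λ P * 1 := mul_le_mul_right (hU1 _) _
          _ = _ := mul_one _
      · rw [if_neg (fun h' => h h'.2)]
        refine le_of_eq ?_
        rw [mul_eq_zero]
        right
        rw [ENNReal.tsum_eq_zero]
        intro R
        rw [if_neg, mul_zero]
        rintro ⟨-, h3, h4⟩
        refine h ⟨fun k hk => h3 k (by rw [CD_append]; exact Or.inl hk), hrest P R hP h4⟩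
    · rw [if_neg hP]; exact zero_le
  refine hwin.trans ?_
  have hpt : ∀ P, (if fp ht (3 * q) P ∧ φ P then LW Λ P else 0)
      ≤ (if fp ht (3 * q) P ∧ 3 * q + q < HT ht P then LW Λ P else 0)
        + c⁻¹ * (if fp ht (3 * q) P ∧ ¬ (3 * q + q < HT ht P) ∧ φ P
          then LW Λ P * U Λ ht (4 * q - HT ht P) else 0) := by
    intro P
    by_cases h : fp ht (3 * q) P ∧ φ P
    · rw [if_pos h]
      by_cases ho : 3 * q + q < HT ht P
      · rw [if_pos ⟨h.1, ho⟩]; exact le_self_add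
      · rw [if_neg (fun h' => ho h'.2), zero_add, if_pos ⟨h.1, ho, h.2⟩]
        calc LW Λ P = c⁻¹ * (LW Λ P * c) := by
              rw [mul_comm (LW Λ P), ← mul_assoc, ENNReal.inv_mul_cancel hc hc', one_mul]
          _ ≤ _ := mul_le_mul_right (mul_le_mul_right (hU _) _) _
    · rw [if_neg h]; exact zero_le
  refine (ENNReal.tsum_le_tsum hpt).trans ?_
  rw [ENNReal.tsum_add, ENNReal.tsum_mul_left]
  exact add_le_add (he _) (mul_le_mul_right hPhi _)

open Classical in
/-- step (a): one window -/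
lemma win_le (h1 : ∀ b, 1 ≤ ht b) (hΛ : ∑' b, Λ b ≤ 1) (hU1 : ∀ n, U Λ ht n ≤ 1)
    (hcd : ∀ w b k, k ∈ cd w b → 1 ≤ k ∧ k ≤ ht b) (c : ℝ≥0∞) (hc : c ≠ 0) (hc' : c ≠ ⊤)
    (hU : ∀ n, c ≤ U Λ ht n) (q : ℕ) (e : ℝ≥0∞)
    (he : ∀ a, ∑' A, (if fp ht a A ∧ a + q < HT ht A then LW Λ A else 0) ≤ e)
    (a n : ℕ) (hn : a + 4 * q ≤ n) (w : W) :
    Win Λ ht dl cd n (a + 2 * q) (a + 3 * q) w
      ≤ 2 * e + c⁻¹ * fS Λ ht a (fun A => Phi Λ ht dl cd q (act dl A w)) := by
  set ψ : List B → Prop := fun L => (∀ k ∈ CD ht dl cd L w, a + 2 * q < k) ∧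
    (∃ k ∈ CD ht dl cd L w, k ≤ a + 3 * q) with hψ
  have hs := split Λ ht h1 a (fun L => if HT ht L = n ∧ ψ L then (1 : ℝ≥0∞) else 0)
  have hs1 : Win Λ ht dl cd n (a + 2 * q) (a + 3 * q) w = ∑' L, (if a ≤ HT ht L then LW Λ L *
      (if HT ht L = n ∧ ψ L then (1 : ℝ≥0∞) else 0) else 0) := by
    unfold Win
    refine tsum_congr fun L => ?_
    by_cases h : HT ht L = n ∧ ψ L
    · refine (if_pos ⟨h.1, h.2⟩).trans ?_
      rw [if_pos (by rw [h.1]; omega), if_pos h, mul_one]
    · refine (if_neg (fun h' => h ⟨h'.1, h'.2⟩)).trans ?_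
      rw [if_neg h, mul_zero]; simp
  rw [hs1, hs]
  have hpt : ∀ A, (if fp ht a A then LW Λ A * ∑' R, LW Λ R *
        (if HT ht (A ++ R) = n ∧ ψ (A ++ R) then (1 : ℝ≥0∞) else 0) else 0)
      ≤ (if fp ht a A ∧ a + q < HT ht A then LW Λ A else 0)
        + (if fp ht a A then LW Λ A * (e + c⁻¹ * Phi Λ ht dl cd q (act dl A w)) else 0) := by
    intro A
    by_cases hA : fp ht a A
    · rw [if_pos hA, if_pos hA]
      have h2 := le_HT_of_fp ht hA
      by_cases ho : a + q < HT ht A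
      · rw [if_pos ⟨hA, ho⟩]
        refine le_trans ?_ le_self_add
        calc _ ≤ LW Λ A * U Λ ht (n - HT ht A) := by
              refine mul_le_mul_right ?_ _
              rw [U]
              refine ENNReal.tsum_le_tsum fun R => ?_
              by_cases hR : HT ht (A ++ R) = n ∧ ψ (A ++ R)
              · rw [if_pos hR, mul_one, if_pos]
                have := hR.1
                rw [HT_append] at this
                omega
              · rw [if_neg hR, mul_zero]; exact zero_le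
          _ ≤ LW Λ A * 1 := mul_le_mul_right (hU1 _) _
          _ = _ := mul_one _
      · refine le_trans ?_ le_add_self
        refine mul_le_mul_right ?_ _
        refine le_trans ?_ (piece_le h1 hU1 hcd c hc hc' hU q e he (n - HT ht A) (by omega)
          (act dl A w))
        unfold Win
        refine ENNReal.tsum_le_tsum fun R => ?_
        by_cases hR : HT ht (A ++ R) = n ∧ ψ (A ++ R)
        · rw [if_pos hR, mul_one, if_pos]
          obtain ⟨h3, h4, k, hk, hk3⟩ := hR
          rw [HT_append] at h3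
          refine ⟨by omega, ?_, ?_⟩
          · intro k' hk'
            have := h4 (HT ht A + k') (by
              rw [CD_append]; exact Or.inr ⟨k', hk', rfl⟩)
            omega
          · rw [CD_append] at hk
            rcases hk with hk | ⟨k', hk', rfl⟩
            · have h5 := h4 k (by rw [CD_append]; exact Or.inl hk)
              have h6 := (CD_pos ht dl cd hcd A w k hk).2
              omega
            · refine ⟨k', hk', ?_⟩
              simp only at hk3
              omega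
        · rw [if_neg hR, mul_zero]; exact zero_le
    · rw [if_neg hA]; exact zero_le
  refine (ENNReal.tsum_le_tsum hpt).trans ?_
  rw [ENNReal.tsum_add]
  have h3 : ∑' A, (if fp ht a A then LW Λ A * (e + c⁻¹ * Phi Λ ht dl cd q (act dl A w)) else 0)
      ≤ e + c⁻¹ * fS Λ ht a (fun A => Phi Λ ht dl cd q (act dl A w)) := by
    have := fS_add (Λ := Λ) (ht := ht) a (fun _ => e)
      (fun A => c⁻¹ * Phi Λ ht dl cd q (act dl A w))
    rw [fS_mul] at this
    rw [show ∑' A, (if fp ht a A then LW Λ A * (e + c⁻¹ * Phi Λ ht dl cd q (act dl A w)) else 0)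
      = fS Λ ht a (fun A => e + c⁻¹ * Phi Λ ht dl cd q (act dl A w)) from rfl, this]
    exact add_le_add (fS_le h1 hΛ a fun _ _ => le_rfl) le_rfl
  calc _ ≤ e + (e + c⁻¹ * fS Λ ht a (fun A => Phi Λ ht dl cd q (act dl A w))) :=
        add_le_add (he a) h3
    _ = _ := by ring


open Classical in
/-- windows -/
lemma kap_windows {n m q K : ℕ} (hq : 0 < q) (h1 : K * q ≤ m) (h2 : 2 * m ≤ (2 * K + 1) * q)
    (w : W) :
    Kap1 Λ ht dl cd n m w
      ≤ ∑ k ∈ Finset.Icc K (2 * K), Win Λ ht dl cd n (k * q) ((k + 1) * q) w := by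
  unfold Win Kap1
  rw [← Summable.tsum_finsetSum (fun _ _ => ENNReal.summable)]
  refine ENNReal.tsum_le_tsum fun L => ?_
  split_ifs with h
  · obtain ⟨hn, h3, h4⟩ := h
    have hne : ∃ k, k ∈ CD ht dl cd L w := ⟨h4.choose, h4.choose_spec.1⟩
    set D := Nat.find hne with hD
    have hDm : D ∈ CD ht dl cd L w := Nat.find_spec hne
    have hmin : ∀ k ∈ CD ht dl cd L w, D ≤ k := fun k hk => Nat.find_min' hne hk
    have hD1 : m < D := h3 D hDm
    have hD2 : D ≤ 2 * m := by
      obtain ⟨k, hk, hk2⟩ := h4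
      exact (hmin k hk).trans hk2
    have hk1 : K ≤ (D - 1) / q := by
      rw [Nat.le_div_iff_mul_le hq]; omega
    have hk2 : (D - 1) / q ≤ 2 * K := by
      have : (D - 1) / q < 2 * K + 1 := by
        rw [Nat.div_lt_iff_lt_mul hq]; omega
      omega
    refine le_trans ?_ (Finset.single_le_sum (f := fun k =>
      (if HT ht L = n ∧ (∀ k' ∈ CD ht dl cd L w, k * q < k') ∧
        (∃ k' ∈ CD ht dl cd L w, k' ≤ (k + 1) * q) then LW Λ L else 0 : ℝ≥0∞))
      (fun _ _ => zero_le) (Finset.mem_Icc.mpr ⟨hk1, hk2⟩))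
    rw [if_pos]
    have h5 := Nat.div_mul_le_self (D - 1) q
    have h6 := Nat.lt_mul_div_succ (D - 1) hq
    refine ⟨hn, fun k hk => ?_, D, hDm, ?_⟩
    · have := hmin k hk
      omega
    · rw [mul_comm] at h6
      omega
  · exact zero_le

open Classical in
/-- the one-piece input: nonlocal/local splitting at exact height `4q` -/
def PieceProp (Λ : B → ℝ≥0∞) (ht : B → ℕ) (dl : B → W → W) (cd : W → B → Set ℕ)
    (c2 C2 : ℝ≥0∞) : Prop :=
  ∀ v : ℝ≥0∞, v ≠ 0 → v ≤ c2 → ∀ ε1 : ℝ≥0∞, ε1 ≠ 0 → ∃ q0 : ℕ, ∀ q, q0 ≤ q →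
    ∃ (gX gY : W → ℝ≥0∞) (GX GY : List B → Prop),
      (∀ w, gX w ≤ 1) ∧ (∀ w, gY w ≤ 1) ∧
      (∀ A, GX A → HT ht A = 4 * q) ∧ (∀ A, GY A → HT ht A = 4 * q) ∧
      (v ≤ ∑' A, (if GX A then LW Λ A else 0)) ∧ (v ≤ ∑' A, (if GY A then LW Λ A else 0)) ∧
      (∀ (T : List B) (w : W),
        ∑' A, (if GX A then LW Λ A * gX (act dl T (act dl A w)) else 0) ≤ ε1) ∧
      (∀ (T : List B) (w : W),
        ∑' A, (if GY A then LW Λ A * gY (act dl T (act dl A w)) else 0) ≤ ε1) ∧
      ∀ w, Phi Λ ht dl cd q w ≤ ε1 + C2 * v ^ 2 + gX w + gY w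

open Classical in
/-- **the assembly** -/
theorem kap_le (h1 : ∀ b, 1 ≤ ht b) (hcd : ∀ w b k, k ∈ cd w b → 1 ≤ k ∧ k ≤ ht b)
    (c : ℝ≥0∞) (hc : c ≠ 0) (hU : ∀ n, c ≤ U Λ ht n) (hU1 : ∀ n, U Λ ht n ≤ 1)
    (c2 C2 : ℝ≥0∞) (hc2 : c2 ≠ 0) (hC2 : C2 ≠ ⊤) (hP : PieceProp Λ ht dl cd c2 C2) :
    ∀ ε : ℝ≥0∞, ε ≠ 0 → ∃ M : ℕ, ∀ m, M ≤ m → ∀ n, 8 * m ≤ n → ∀ w,
      Kap1 Λ ht dl cd n m w ≤ ε := by
  intro ε hε
  have hcle : c ≤ 1 := (hU 0).trans (hU1 0)
  have hc' : c ≠ ⊤ := ne_top_of_le_ne_top ENNReal.one_ne_top hcle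
  have hci : c⁻¹ ≠ ⊤ := ENNReal.inv_ne_top.2 hc
  have hci1 : 1 ≤ c⁻¹ := ENNReal.one_le_inv.2 hcle
  have hΛ1 : ∑' b, Λ b = 1 :=
    le_antisymm (mass_le_one Λ ht h1 hU1) (mass_ge_one Λ ht c hc 0 fun n _ => hU n)
  have hΛ : ∑' b, Λ b ≤ 1 := hΛ1.le
  have htl : ∑' k, tail Λ ht k ≠ ⊤ := by
    rw [← sum_tail Λ ht hΛ1]
    exact ne_top_of_le_ne_top hci (mean_le Λ ht h1 hΛ1 c hc hc' 0 fun n _ => hU n)
  have htail : Filter.Tendsto (fun i => ∑' k, tail Λ ht (i + k)) Filter.atTop (nhds 0) := by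
    have := ENNReal.tendsto_sum_nat_add (tail Λ ht) htl
    simpa [add_comm] using this
  set A : ℝ≥0∞ := 8 * c⁻¹ * (C2 + 2) with hA
  have hAt : A ≠ ⊤ := by
    refine ENNReal.mul_ne_top (ENNReal.mul_ne_top (by norm_num) hci) ?_
    exact ENNReal.add_ne_top.2 ⟨hC2, by norm_num⟩
  have hA1 : 1 ≤ A := by
    calc (1 : ℝ≥0∞) = 1 * 1 * 1 := by norm_num
      _ ≤ 8 * c⁻¹ * (C2 + 2) := by
        refine mul_le_mul' (mul_le_mul' (by norm_num) hci1) ?_
        exact le_trans (by norm_num) le_add_self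
  have hε4 : ε / 4 ≠ 0 := by simp [hε]
  obtain ⟨J, v, -, hJ1, hv0, hv1, hvA, hvB⟩ := NumK658.chooseK1 A hAt (min (ε / 4) (c2 ^ 2))
    (lt_min (pos_iff_ne_zero.2 hε4) (pos_iff_ne_zero.2 (pow_ne_zero 2 hc2))).ne' 1
  have hvA1 : A * ((J + 1) * v ^ 2) ≤ ε / 4 := hvA.trans (min_le_left _ _)
  have hvB1 : A * ((J + 1) * (1 - v) ^ J) ≤ ε / 4 := hvB.trans (min_le_left _ _)
  have hvc : v ≤ c2 := by
    have h3 : v ^ 2 ≤ c2 ^ 2 := by
      calc v ^ 2 = 1 * (1 * v ^ 2) := by ring
        _ ≤ A * ((J + 1) * v ^ 2) := by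
            refine mul_le_mul' hA1 (mul_le_mul' ?_ le_rfl)
            exact le_add_self
        _ ≤ c2 ^ 2 := hvA.trans (min_le_right _ _)
    by_contra hlt
    rw [not_le] at hlt
    exact absurd (ENNReal.pow_lt_pow_left two_ne_zero hlt) (not_lt.2 h3)
  obtain ⟨ε1, hε10, hε1⟩ := NumK658.chooseEta (8 * (J + 1) * (c⁻¹ * (1 + 2 * J)))
    (by
      refine ENNReal.mul_ne_top (ENNReal.mul_ne_top (by norm_num) ?_)
        (ENNReal.mul_ne_top hci ?_)
      · exact ENNReal.add_ne_top.2 ⟨ENNReal.natCast_ne_top _, by norm_num⟩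
      · exact ENNReal.add_ne_top.2 ⟨by norm_num,
          ENNReal.mul_ne_top (by norm_num) (ENNReal.natCast_ne_top _)⟩) (ε / 4) hε4
  obtain ⟨q0, hq0⟩ := hP v hv0 hvc ε1 hε10
  obtain ⟨q1, hq1⟩ := NumK658.chooseNat _ htail (8 * (J + 1) * (2 + c⁻¹ * (2 * J)))
    (by
      refine ENNReal.mul_ne_top (ENNReal.mul_ne_top (by norm_num) ?_) ?_
      · exact ENNReal.add_ne_top.2 ⟨ENNReal.natCast_ne_top _, by norm_num⟩
      · exact ENNReal.add_ne_top.2 ⟨by norm_num,
          ENNReal.mul_ne_top hci (ENNReal.mul_ne_top (by norm_num) (ENNReal.natCast_ne_top _))⟩)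
    (ε / 4) hε4
  set K : ℕ := 8 * J + 2 with hK
  refine ⟨K * (q0 + q1 + 2 * K + 1), fun m hm n hn w => ?_⟩
  have hKpos : 0 < K := by omega
  set q := m / K with hq
  have hq2 : q0 + q1 + 2 * K + 1 ≤ q := by
    rw [hq, Nat.le_div_iff_mul_le hKpos, mul_comm]; exact hm
  have hKq : K * q ≤ m := Nat.mul_div_le m K
  have h2m : 2 * m ≤ (2 * K + 1) * q := by
    have h3 := Nat.lt_mul_div_succ m hKpos
    rw [← hq] at h3
    nlinarith
  obtain ⟨gX, gY, GX, GY, g1, g2, g3, g4, g5, g6, g7, g8, g9⟩ := hq0 q (by omega)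
  set e : ℝ≥0∞ := ∑' k, tail Λ ht (q + k) with he
  have he' : ∀ a, ∑' P, (if fp ht a P ∧ a + q < HT ht P then LW Λ P else 0) ≤ e :=
    fun a => overshoot Λ ht h1 hU1 q a
  set X : ℝ≥0∞ := 2 * e + c⁻¹ * (ε1 + C2 * v ^ 2 + 2 * ((1 - v) ^ J + J * (ε1 + e))) with hX
  have hwin : ∀ k ∈ Finset.Icc K (2 * K), Win Λ ht dl cd n (k * q) ((k + 1) * q) w ≤ X := by
    intro k hk
    rw [Finset.mem_Icc] at hk
    obtain ⟨r, hr⟩ : ∃ r, k = r + 2 := ⟨k - 2, by omega⟩
    have h3 := win_le (dl := dl) h1 hΛ hU1 hcd c hc hc' hU q e he' (r * q) n (by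
      have : r * q + 4 * q ≤ 8 * m := by
        have h4 : (r + 4) * q ≤ (8 * K) * q := Nat.mul_le_mul_right _ (by omega)
        have h5 : 8 * K * q = 8 * (K * q) := by ring
        nlinarith
      omega) w
    have e1 : r * q + 2 * q = k * q := by rw [hr]; ring
    have e2 : r * q + 3 * q = (k + 1) * q := by rw [hr]; ring
    rw [e1, e2] at h3
    refine h3.trans (add_le_add le_rfl (mul_le_mul_right ?_ _))
    have hrJ : 2 * (4 * q) * J ≤ r * q := by
      have : 8 * J ≤ r := by omega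
      calc 2 * (4 * q) * J = (8 * J) * q := by ring
        _ ≤ r * q := Nat.mul_le_mul_right _ this
    have hgx := attempts dl h1 hΛ (4 * q) q (by omega) gX g1 GX g3 ε1 e v hv1 g7 g5 he' J (r * q)
      w hrJ
    have hgy := attempts dl h1 hΛ (4 * q) q (by omega) gY g2 GY g4 ε1 e v hv1 g8 g6 he' J (r * q)
      w hrJ
    calc fS Λ ht (r * q) (fun P => Phi Λ ht dl cd q (act dl P w))
        ≤ fS Λ ht (r * q) (fun P => (ε1 + C2 * v ^ 2) + (gX (act dl P w) + gY (act dl P w))) :=
          fS_mono _ fun P _ => by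
            have := g9 (act dl P w)
            rw [add_assoc] at this
            exact this
      _ = fS Λ ht (r * q) (fun _ => ε1 + C2 * v ^ 2)
          + (fS Λ ht (r * q) (fun P => gX (act dl P w))
            + fS Λ ht (r * q) (fun P => gY (act dl P w))) := by
          rw [fS_add (r * q) (fun _ => ε1 + C2 * v ^ 2)
            (fun P => gX (act dl P w) + gY (act dl P w)),
            fS_add (r * q) (fun P => gX (act dl P w)) (fun P => gY (act dl P w))]
      _ ≤ (ε1 + C2 * v ^ 2) + (((1 - v) ^ J + J * (ε1 + e)) + ((1 - v) ^ J + J * (ε1 + e))) :=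
          add_le_add (fS_le h1 hΛ _ fun _ _ => le_rfl) (add_le_add hgx hgy)
      _ = ε1 + C2 * v ^ 2 + 2 * ((1 - v) ^ J + J * (ε1 + e)) := by ring
  refine (kap_windows (by omega) hKq h2m w).trans ?_
  calc ∑ k ∈ Finset.Icc K (2 * K), Win Λ ht dl cd n (k * q) ((k + 1) * q) w
      ≤ ∑ _k ∈ Finset.Icc K (2 * K), X := Finset.sum_le_sum hwin
    _ = ((K + 1 : ℕ) : ℝ≥0∞) * X := by
        rw [Finset.sum_const, Nat.card_Icc, nsmul_eq_mul]
        congr 2
        omega
    _ ≤ (8 * (J + 1)) * X := by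
        refine mul_le_mul_left ?_ _
        have : K + 1 ≤ 8 * (J + 1) := by omega
        calc ((K + 1 : ℕ) : ℝ≥0∞) ≤ ((8 * (J + 1) : ℕ) : ℝ≥0∞) := by exact_mod_cast this
          _ = _ := by push_cast; ring
    _ = 8 * (J + 1) * (c⁻¹ * (C2 * v ^ 2 + 2 * (1 - v) ^ J))
        + 8 * (J + 1) * (c⁻¹ * (1 + 2 * J)) * ε1
        + 8 * (J + 1) * (2 + c⁻¹ * (2 * J)) * e := by rw [hX]; ring
    _ ≤ (ε / 4 + ε / 4) + ε / 4 + ε / 4 := by
        refine add_le_add (add_le_add ?_ hε1) (hq1 q (by omega))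
        refine le_trans ?_ (add_le_add hvA1 hvB1)
        calc 8 * ((J : ℝ≥0∞) + 1) * (c⁻¹ * (C2 * v ^ 2 + 2 * (1 - v) ^ J))
            = 8 * c⁻¹ * C2 * ((J + 1) * v ^ 2) + 8 * c⁻¹ * 2 * ((J + 1) * (1 - v) ^ J) := by ring
          _ ≤ A * ((J + 1) * v ^ 2) + A * ((J + 1) * (1 - v) ^ J) := by
              rw [hA]
              refine add_le_add (mul_le_mul_left (mul_le_mul_right le_self_add _) _)
                (mul_le_mul_left (mul_le_mul_right le_add_self _) _)
    _ = ε := by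
        have h4 : ε / 4 + ε / 4 + ε / 4 + ε / 4 = 4 * (ε / 4) := by ring
        rw [h4]
        exact ENNReal.mul_div_cancel (by norm_num) (by norm_num)

end Crest.Agent.R154.JM497
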