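import Crest.Agent.R154.JD_199

/-! Row 154 (helper199), ROAD 801 in the joint-cut frame: the window is paid by one piece
of exact height `h` below the first passage of `a`. -/

set_option autoImplicit false

namespace Crest.Agent.R154.JD199

open scoped ENNReal
open Crest.Agent.R154.B5A Crest.Agent.R154.FP178

variable {B W : Type*} (Λ : B → ℝ≥0∞) (ht : B → ℕ) (dl : B → W → W) (cd : W → B → Set ℕ)

open Classical in
/-- the last cut before `a` -/
lemma sum_fp_drop (h1 : ∀ b, 1 ≤ ht b) (a : ℕ) (ha : 0 < a) (φ : List B → ℝ≥0∞) :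
    ∑' A, (if fp ht a A then LW Λ A * φ A.dropLast else 0)
      = ∑' L, (if HT ht L < a then LW Λ L * (tail Λ ht (a - 1 - HT ht L) * φ L) else 0) := by
  induction a using Nat.strong_induction_on generalizing φ with
  | _ a ih =>
    rw [sum_fp_step Λ ht a ha (fun A => φ A.dropLast), tsum_list (fun L =>
      if HT ht L < a then LW Λ L * (tail Λ ht (a - 1 - HT ht L) * φ L) else 0)]
    rw [if_pos (by rw [HT_nil]; exact ha), LW_nil, one_mul, HT_nil, Nat.sub_zero]
    have e2 : ∀ b : B, Λ b * ∑' L, (if fp ht (a - ht b) L then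
          LW Λ L * φ (b :: L).dropLast else 0)
        = (if a - 1 < ht b then Λ b else 0) * φ [] + ∑' L, (if HT ht (b :: L) < a then
          LW Λ (b :: L) * (tail Λ ht (a - 1 - HT ht (b :: L)) * φ (b :: L)) else 0) := by
      intro b
      by_cases hb : ht b < a
      · rw [if_neg (by omega), zero_mul, zero_add]
        have e3 : ∀ L : List B, (if HT ht (b :: L) < a then
            LW Λ (b :: L) * (tail Λ ht (a - 1 - HT ht (b :: L)) * φ (b :: L)) else 0)
            = Λ b * (if HT ht L < a - ht b then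
              LW Λ L * (tail Λ ht (a - ht b - 1 - HT ht L) * φ (b :: L)) else 0) := by
          intro L
          rw [HT_cons, LW_cons]
          by_cases h : HT ht L < a - ht b
          · rw [if_pos h, if_pos (by omega), mul_assoc,
              show a - 1 - (ht b + HT ht L) = a - ht b - 1 - HT ht L by omega]
          · rw [if_neg h, if_neg (by omega), mul_zero]
        rw [tsum_congr e3, ENNReal.tsum_mul_left, ← ih (a - ht b) (by have := h1 b; omega)
          (by omega) (fun L => φ (b :: L))]
        congr 1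
        refine tsum_congr fun L => ?_
        by_cases h : fp ht (a - ht b) L
        · rw [if_pos h, if_pos h]
          cases L with
          | nil => rw [fp_nil] at h; omega
          | cons c L => rfl
        · rw [if_neg h, if_neg h]
      · have h0 : a - ht b = 0 := by omega
        rw [h0, sum_fp_zero Λ ht (fun L => φ (b :: L).dropLast), if_pos (by omega)]
        have e3 : ∀ L : List B, (if HT ht (b :: L) < a then
            LW Λ (b :: L) * (tail Λ ht (a - 1 - HT ht (b :: L)) * φ (b :: L)) else 0) = 0 := by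
          intro L
          rw [if_neg (by rw [HT_cons]; omega)]
        rw [tsum_congr e3, tsum_zero, add_zero]
        rfl
    rw [tsum_congr e2, ENNReal.tsum_add, ENNReal.tsum_mul_right]
    rfl

open Classical in
/-- a piece of exact height `h`: some contact, none at depth `< s` -/
noncomputable def PS (h s : ℕ) (x : W) : ℝ≥0∞ :=
  ∑' L : List B, if HT ht L = h ∧ CD ht dl cd L x ≠ ∅ ∧ (∀ k ∈ CD ht dl cd L x, s ≤ k)
    then LW Λ L else 0

open Classical in
/-- first contact depth in `[a, b)` -/
noncomputable def Win (n a b : ℕ) (w : W) : ℝ≥0∞ :=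
  ∑' L : List B, if HT ht L = n ∧ (∀ k ∈ CD ht dl cd L w, a ≤ k) ∧
    (∃ k ∈ CD ht dl cd L w, k < b) then LW Λ L else 0

open Classical in
/-- weighted sum of the pieces -/
noncomputable def WS (a h s : ℕ) (w : W) : ℝ≥0∞ :=
  ∑' L : List B, (if fp ht a L then LW Λ L * PS Λ ht dl cd h s (act dl L w) else 0)

open Classical in
theorem outer (h1 : ∀ b, 1 ≤ ht b) (hΛ : ∑' b, Λ b ≤ 1) (hU1 : ∀ n, U Λ ht n ≤ 1)
    (hcd : ∀ w b k, k ∈ cd w b → 1 ≤ k ∧ k ≤ ht b)
    (a t r s n : ℕ) (ht1 : 1 ≤ t) (hr : 2 * r ≤ t) (hs : s ≤ r) (hn : a + 5 * t ≤ n) (w : W) :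
    Win Λ ht dl cd n (a + t) (a + 2 * t) w ≤ 2 * ∑' k, tail Λ ht (r + k)
      + ∑ h ∈ Finset.Icc (4 * t - r) (4 * t), tail Λ ht (4 * t - h) * WS Λ ht dl cd a h s w := by
  set f : List B → ℝ≥0∞ := fun L => if HT ht L = n ∧ (∀ k ∈ CD ht dl cd L w, a + t ≤ k) ∧
    (∃ k ∈ CD ht dl cd L w, k < a + 2 * t) then 1 else 0 with hf
  have hf1 : ∀ L, f L ≤ 1 := fun L => by
    simp only [hf]; split_ifs <;> simp
  have hfn : ∀ L, HT ht L ≠ n → f L = 0 := fun L hL => by
    simp only [hf]; rw [if_neg]; rintro ⟨h, _⟩; exact hL h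
  -- restart below a list
  have hrest : ∀ (A : List B), ∑' L3, LW Λ L3 * f (A ++ L3) ≤ 1 := by
    intro A
    by_cases hA : HT ht A ≤ n
    · refine le_trans (ENNReal.tsum_le_tsum fun L3 => ?_) (hU1 (n - HT ht A))
      by_cases h3 : HT ht L3 = n - HT ht A
      · rw [if_pos h3]
        calc _ ≤ LW Λ L3 * 1 := mul_le_mul_right (hf1 _) _
          _ = _ := mul_one _
      · rw [hfn _ (by rw [HT_append]; omega), mul_zero]; exact zero_le
    · have : ∀ L3, LW Λ L3 * f (A ++ L3) = 0 := fun L3 => by
        rw [hfn _ (by rw [HT_append]; omega), mul_zero]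
      rw [tsum_congr this, tsum_zero]; exact zero_le
  have step1 : Win Λ ht dl cd n (a + t) (a + 2 * t) w
      = ∑' L1, (if fp ht a L1 then LW Λ L1 * ∑' L2, LW Λ L2 * f (L1 ++ L2) else 0) := by
    rw [← split Λ ht h1 a f]
    refine tsum_congr fun L => ?_
    by_cases hL : HT ht L = n
    · rw [if_pos (show a ≤ HT ht L by omega)]
      simp only [hf]
      by_cases hc : HT ht L = n ∧ (∀ k ∈ CD ht dl cd L w, a + t ≤ k) ∧
        (∃ k ∈ CD ht dl cd L w, k < a + 2 * t)
      · rw [if_pos hc, if_pos hc, mul_one]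
      · rw [if_neg hc, if_neg hc, mul_zero]
    · rw [if_neg (fun h => hL h.1), hfn L hL, mul_zero]
      simp
  -- one list above
  set TR : ℝ≥0∞ := ∑' k, tail Λ ht (r + k) with hTR
  have step2 : ∀ L1, fp ht a L1 → HT ht L1 ≤ a + r → ∑' L2, LW Λ L2 * f (L1 ++ L2)
      ≤ TR + ∑ h ∈ Finset.Icc (4 * t - r) (4 * t), tail Λ ht (4 * t - h)
        * PS Λ ht dl cd h s (act dl L1 w) := by
    intro L1 hL1 hr1
    have ha1 := le_HT_of_fp ht hL1
    set x := act dl L1 w with hx
    set φ : List B → ℝ≥0∞ := fun Lp => if HT ht Lp < 4 * t - r ∨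
      (CD ht dl cd Lp x ≠ ∅ ∧ (∀ k ∈ CD ht dl cd Lp x, s ≤ k)) then 1 else 0 with hφ
    have e1 : ∑' L2, LW Λ L2 * f (L1 ++ L2)
        = ∑' L2, (if 4 * t + 1 ≤ HT ht L2 then LW Λ L2 * f (L1 ++ L2) else 0) := by
      refine tsum_congr fun L2 => ?_
      by_cases h2 : 4 * t + 1 ≤ HT ht L2
      · rw [if_pos h2]
      · rw [if_neg h2, hfn _ (by rw [HT_append]; omega), mul_zero]
    rw [e1, split Λ ht h1 (4 * t + 1) (fun L2 => f (L1 ++ L2))]
    have e2 : ∀ A, (if fp ht (4 * t + 1) A then LW Λ A * ∑' L3, LW Λ L3 * f (L1 ++ (A ++ L3))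
        else 0) ≤ (if fp ht (4 * t + 1) A then LW Λ A * φ A.dropLast else 0) := by
      intro A
      by_cases hA : fp ht (4 * t + 1) A
      · rw [if_pos hA, if_pos hA]
        refine mul_le_mul_right ?_ _
        by_cases hg : HT ht A.dropLast < 4 * t - r ∨ (CD ht dl cd A.dropLast x ≠ ∅ ∧
            (∀ k ∈ CD ht dl cd A.dropLast x, s ≤ k))
        · simp only [hφ, if_pos hg]
          have := hrest (L1 ++ A)
          simpa only [List.append_assoc] using this
        · have hz : ∀ L3, LW Λ L3 * f (L1 ++ (A ++ L3)) = 0 := by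
            intro L3
            have : f (L1 ++ (A ++ L3)) = 0 := by
              simp only [hf]
              rw [if_neg]
              rintro ⟨hn', hall, k, hk, hkb⟩
              apply hg
              by_cases hlt : HT ht A.dropLast < 4 * t - r
              · exact Or.inl hlt
              right
              have hAne : A ≠ [] := by
                rintro rfl; rw [fp_nil] at hA; omega
              have hA' : A = A.dropLast ++ [A.getLast hAne] :=
                (List.dropLast_append_getLast hAne).symm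
              set Lp := A.dropLast with hLp
              have hE : L1 ++ (A ++ L3) = L1 ++ (Lp ++ (A.getLast hAne :: L3)) := by
                conv_lhs => rw [hA']
                simp
              rw [hE, CD_append, CD_append] at hk
              have hall' : ∀ j ∈ CD ht dl cd Lp x, a + t ≤ HT ht L1 + j := by
                intro j hj
                apply hall
                rw [hE, CD_append, CD_append]
                exact Or.inr ⟨j, Or.inl hj, rfl⟩
              rcases hk with hk | ⟨k', hk', hkk⟩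
              · exfalso
                have h5 := CD_pos ht dl cd hcd _ _ _ hk
                have h6 := hall k (by rw [CD_append]; exact Or.inl hk)
                omega
              · simp only at hkk
                rcases hk' with hk' | ⟨k2, hk2, hkk2⟩
                · refine ⟨Set.nonempty_iff_ne_empty.1 ⟨k', hk'⟩, fun j hj => ?_⟩
                  have := hall' j hj
                  omega
                · exfalso
                  simp only at hkk2
                  omega
            rw [this, mul_zero]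
          rw [tsum_congr hz, tsum_zero]; exact zero_le
      · rw [if_neg hA, if_neg hA]
    refine (ENNReal.tsum_le_tsum e2).trans ?_
    rw [sum_fp_drop Λ ht h1 (4 * t + 1) (by omega) φ]
    have e3 : ∀ L, (if HT ht L < 4 * t + 1 then
          LW Λ L * (tail Λ ht (4 * t + 1 - 1 - HT ht L) * φ L) else 0)
        ≤ (if HT ht L < 4 * t - r then LW Λ L * tail Λ ht ((4 * t - r) + r - HT ht L) else 0)
          + ∑ h ∈ Finset.Icc (4 * t - r) (4 * t), tail Λ ht (4 * t - h) *
            (if HT ht L = h ∧ CD ht dl cd L x ≠ ∅ ∧ (∀ k ∈ CD ht dl cd L x, s ≤ k)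
              then LW Λ L else 0) := by
      intro L
      by_cases hL : HT ht L < 4 * t - r
      · refine le_trans ?_ le_self_add
        rw [if_pos (by omega), if_pos hL, show 4 * t - r + r - HT ht L = 4 * t + 1 - 1 - HT ht L
          by omega]
        have hφ1 : φ L ≤ 1 := by simp only [hφ]; split_ifs <;> simp
        calc _ ≤ LW Λ L * (tail Λ ht (4 * t + 1 - 1 - HT ht L) * 1) := by gcongr
          _ = _ := by rw [mul_one]
      · by_cases hL2 : HT ht L < 4 * t + 1
        · rw [if_pos hL2, if_neg hL, zero_add]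
          refine le_trans ?_ (Finset.single_le_sum (f := fun h => tail Λ ht (4 * t - h) *
            (if HT ht L = h ∧ CD ht dl cd L x ≠ ∅ ∧ (∀ k ∈ CD ht dl cd L x, s ≤ k)
              then LW Λ L else 0)) (fun _ _ => zero_le)
            (Finset.mem_Icc.2 ⟨(by omega : 4 * t - r ≤ HT ht L), by omega⟩))
          by_cases hg : CD ht dl cd L x ≠ ∅ ∧ (∀ k ∈ CD ht dl cd L x, s ≤ k)
          · simp only [hφ]
            rw [if_pos (Or.inr hg), if_pos ⟨trivial, hg⟩, mul_one, mul_comm,
              show 4 * t + 1 - 1 - HT ht L = 4 * t - HT ht L by omega]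
          · simp only [hφ]
            rw [if_neg (by rintro (h | h); exacts [hL h, hg h]), mul_zero, mul_zero]
            exact zero_le
        · rw [if_neg hL2]; exact zero_le
    refine (ENNReal.tsum_le_tsum e3).trans ?_
    rw [ENNReal.tsum_add, Summable.tsum_finsetSum (fun _ _ => ENNReal.summable)]
    refine add_le_add ?_ ?_
    · rw [← over_eq Λ ht h1 r (4 * t - r)]
      exact overshoot Λ ht h1 hU1 r _
    · refine Finset.sum_le_sum fun h _ => ?_
      rw [ENNReal.tsum_mul_left]
      rfl
  rw [step1]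
  have e4 : ∀ L1, (if fp ht a L1 then LW Λ L1 * ∑' L2, LW Λ L2 * f (L1 ++ L2) else 0)
      ≤ (if fp ht a L1 ∧ a + r < HT ht L1 then LW Λ L1 else 0)
        + ((if fp ht a L1 then LW Λ L1 else 0) * TR
        + ∑ h ∈ Finset.Icc (4 * t - r) (4 * t), tail Λ ht (4 * t - h) *
          (if fp ht a L1 then LW Λ L1 * PS Λ ht dl cd h s (act dl L1 w) else 0)) := by
    intro L1
    by_cases hL1 : fp ht a L1
    · simp only [if_pos hL1]
      by_cases hr1 : HT ht L1 ≤ a + r
      · refine le_trans ?_ le_add_self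
        calc LW Λ L1 * ∑' L2, LW Λ L2 * f (L1 ++ L2)
            ≤ LW Λ L1 * (TR + ∑ h ∈ Finset.Icc (4 * t - r) (4 * t), tail Λ ht (4 * t - h)
              * PS Λ ht dl cd h s (act dl L1 w)) := mul_le_mul_right (step2 L1 hL1 hr1) _
          _ = _ := by
              rw [mul_add, Finset.mul_sum]
              congr 1
              exact Finset.sum_congr rfl fun h _ => by ring
      · refine le_trans ?_ le_self_add
        rw [if_pos ⟨hL1, by omega⟩]
        calc _ ≤ LW Λ L1 * 1 := mul_le_mul_right (hrest L1) _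
          _ = _ := mul_one _
    · simp [hL1]
  refine (ENNReal.tsum_le_tsum e4).trans ?_
  rw [ENNReal.tsum_add, ENNReal.tsum_add, ENNReal.tsum_mul_right,
    Summable.tsum_finsetSum (fun _ _ => ENNReal.summable)]
  have e5 : ∑ h ∈ Finset.Icc (4 * t - r) (4 * t), ∑' L1, tail Λ ht (4 * t - h) *
      (if fp ht a L1 then LW Λ L1 * PS Λ ht dl cd h s (act dl L1 w) else 0)
      = ∑ h ∈ Finset.Icc (4 * t - r) (4 * t), tail Λ ht (4 * t - h) * WS Λ ht dl cd a h s w :=
    Finset.sum_congr rfl fun h _ => by rw [ENNReal.tsum_mul_left]; rfl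
  rw [e5, ← add_assoc]
  refine add_le_add ?_ le_rfl
  rw [two_mul]
  refine add_le_add (overshoot Λ ht h1 hU1 r a) ?_
  calc _ ≤ 1 * TR := mul_le_mul_left (sum_FP Λ ht h1 hΛ a) _
    _ = TR := one_mul _

/-- uniform bound of the pieces -/
theorem outer' (h1 : ∀ b, 1 ≤ ht b) (hΛ : ∑' b, Λ b = 1) (hU1 : ∀ n, U Λ ht n ≤ 1)
    (hcd : ∀ w b k, k ∈ cd w b → 1 ≤ k ∧ k ≤ ht b)
    (a t r s n : ℕ) (ht1 : 1 ≤ t) (hr : 2 * r ≤ t) (hs : s ≤ r) (hn : a + 5 * t ≤ n) (w : W)
    (δ : ℝ≥0∞) (hδ : ∀ h, 4 * t - r ≤ h → h ≤ 4 * t → WS Λ ht dl cd a h s w ≤ δ) :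
    Win Λ ht dl cd n (a + t) (a + 2 * t) w ≤ 2 * ∑' k, tail Λ ht (r + k)
      + (∑' b, Λ b * (ht b : ℝ≥0∞)) * δ := by
  refine (outer Λ ht dl cd h1 hΛ.le hU1 hcd a t r s n ht1 hr hs hn w).trans ?_
  refine add_le_add le_rfl ?_
  rw [sum_tail Λ ht hΛ, ← ENNReal.tsum_mul_right]
  calc ∑ h ∈ Finset.Icc (4 * t - r) (4 * t), tail Λ ht (4 * t - h) * WS Λ ht dl cd a h s w
      ≤ ∑ h ∈ Finset.Icc (4 * t - r) (4 * t), tail Λ ht (4 * t - h) * δ := by
        refine Finset.sum_le_sum fun h hh => ?_
        rw [Finset.mem_Icc] at hh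
        exact mul_le_mul_right (hδ h hh.1 hh.2) _
    _ = ∑ k ∈ (Finset.Icc (4 * t - r) (4 * t)).image (fun h => 4 * t - h),
          tail Λ ht k * δ := by
        rw [Finset.sum_image]
        intro x hx y hy hxy
        have hx' := Finset.mem_Icc.1 (Finset.mem_coe.1 hx)
        have hy' := Finset.mem_Icc.1 (Finset.mem_coe.1 hy)
        simp only at hxy
        omega
    _ ≤ _ := ENNReal.sum_le_tsum _

end Crest.Agent.R154.JD199
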