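import Crest.Agent.R154.JObj1_132

/-! Row 154, joint blocks of two independent natural walkers: the `k`-th block, from two start
sites of one level. -/

set_option autoImplicit false
set_option linter.unusedSectionVars false
set_option linter.deprecated false

namespace Crest.Agent.R154.J132

open MeasureTheory ProbabilityTheory Filter Set Crest.ProbabilityR.RandomEnvironment
open Crest.Agent.R154.Mk561 Crest.Agent.R154.Bind263 Crest.Agent.R154.B4Inst797
open Crest.Agent.R154.Ren263 (Word pre hgt Stay Record len_pre hgt_zero hgt_shift)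
open Crest.Agent.R154.RenG263 (RecSys Reg tau tau_spec tau_min blk0 blks RegInf rest_mem reg_shift)
open scoped ENNReal Topology

variable {d : ℕ} {u : Step d} {κ : ℝ} {R : ℕ}

/-- height of the `k`-th joint cut -/
noncomputable def Hk (u : Step d) (κ : ℝ) (R : ℕ) (k : ℕ) (π : MPath d × MPath d) : ℕ :=
  ∑ i ∈ Finset.range k, Rj u (jw u κ R i π)

/-- difference of the displacements at the `k`-th joint cut -/
noncomputable def Sk (φ : Site d →+ ℝ) (u : Step d) (κ : ℝ) (R : ℕ) (k : ℕ)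
    (π : MPath d × MPath d) : ℝ :=
  ∑ i ∈ Finset.range k, Vj φ (jw u κ R i π)

lemma pos_zero_add (s : MPath d) (n m : ℕ) :
    pos 0 s (n + m) = pos 0 s n + pos 0 (Ren263.shift n s) m := by
  unfold pos Ren263.shift
  rw [Finset.sum_range_add, zero_add, zero_add, zero_add]

lemma pos_start (x : Site d) (s : MPath d) (n : ℕ) : pos x s n = x + pos 0 s n := by
  unfold pos
  rw [zero_add]

lemma jw_succ {π : MPath d × MPath d} (hπ : π ∈ JG u κ R) (k : ℕ) :
    jw u κ R (k + 1) π = jw u κ R k (jr u κ R π) := by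
  unfold jw wdk
  rw [Function.iterate_succ_apply, bp_jr hπ]

lemma jw_add {π : MPath d × MPath d} (hπ : π ∈ JG u κ R) (k j : ℕ) :
    jw u κ R (k + j) π = jw u κ R j ((jr u κ R)^[k] π) := by
  unfold jw wdk
  rw [(bp_iter hπ k).2, ← Function.iterate_add_apply, Nat.add_comm k j]

lemma Hk_zero (π : MPath d × MPath d) : Hk u κ R 0 π = 0 := by simp [Hk]

lemma Hk_succ (k : ℕ) (π : MPath d × MPath d) :
    Hk u κ R (k + 1) π = Hk u κ R k π + Rj u (jw u κ R k π) := Finset.sum_range_succ _ _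

lemma Hk_succ' {π : MPath d × MPath d} (hπ : π ∈ JG u κ R) (k : ℕ) :
    Hk u κ R (k + 1) π = Rj u (jw u κ R 0 π) + Hk u κ R k (jr u κ R π) := by
  unfold Hk
  rw [Finset.sum_range_succ', add_comm]
  congr 1
  exact Finset.sum_congr rfl fun i _ => by rw [jw_succ hπ]

lemma Sk_succ' {π : MPath d × MPath d} (hπ : π ∈ JG u κ R) (φ : Site d →+ ℝ) (k : ℕ) :
    Sk φ u κ R (k + 1) π = Vj φ (jw u κ R 0 π) + Sk φ u κ R k (jr u κ R π) := by
  unfold Sk
  rw [Finset.sum_range_succ', add_comm]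
  congr 1
  exact Finset.sum_congr rfl fun i _ => by rw [jw_succ hπ]

lemma Jk_succ_last (k : ℕ) (π : MPath d × MPath d) :
    Jk u κ R (k + 1) π = Jk u κ R k π + J1 u κ R ((jr u κ R)^[k] π) := by
  induction k generalizing π with
  | zero =>
    simp only [Jk, Function.iterate_zero, id_eq]
    exact (add_zero _).trans (zero_add _).symm
  | succ k ih =>
    rw [Function.iterate_succ_apply]
    change J1 u κ R π + Jk u κ R (k + 1) (jr u κ R π) = J1 u κ R π + Jk u κ R k (jr u κ R π)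
      + J1 u κ R ((jr u κ R)^[k] (jr u κ R π))
    rw [ih (jr u κ R π), add_assoc]

/-- both walkers hit the level `Hk` for the first time at the joint cut times and stay above it. -/
theorem cutk {π : MPath d × MPath d} (hπ : π ∈ JG u κ R) (k : ℕ) :
    Hit u (Hk u κ R k π) (Jk u κ R k π).1 π.1 ∧ Hit u (Hk u κ R k π) (Jk u κ R k π).2 π.2 ∧
    (∀ n, (Jk u κ R k π).1 ≤ n → ((Hk u κ R k π : ℕ) : ℤ) ≤ zh u π.1 n) ∧
    (∀ n, (Jk u κ R k π).2 ≤ n → ((Hk u κ R k π : ℕ) : ℤ) ≤ zh u π.2 n) := by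
  induction k generalizing π with
  | zero =>
    rw [Hk_zero]
    refine ⟨hit_zero u _, hit_zero u _, fun n _ => ?_, fun n _ => ?_⟩
    · exact_mod_cast stay_zh.1 hπ.1.1 n
    · exact_mod_cast stay_zh.1 hπ.2.1.1 n
  | succ k ih =>
    obtain ⟨a1, a2, a3, a4, _⟩ := first_block hπ
    obtain ⟨b1, b2, b3, b4⟩ := ih (jr_mem hπ)
    rw [Hk_succ' hπ]
    refine ⟨hit_comp a1 b1, hit_comp a2 b2, fun n hn => ?_, fun n hn => ?_⟩
    · have h1 : (J1 u κ R π).1 + (Jk u κ R k (jr u κ R π)).1 ≤ n := hn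
      obtain ⟨m, rfl⟩ := Nat.exists_eq_add_of_le
        (show (J1 u κ R π).1 ≤ n from le_trans (Nat.le_add_right _ _) h1)
      have h2 : zh u π.1 (J1 u κ R π).1 = _ := a1.1
      have h3 : _ ≤ zh u (Ren263.shift (J1 u κ R π).1 π.1) m := b3 m (by omega)
      rw [zh_add, h2]
      push_cast
      linarith
    · have h1 : (J1 u κ R π).2 + (Jk u κ R k (jr u κ R π)).2 ≤ n := hn
      obtain ⟨m, rfl⟩ := Nat.exists_eq_add_of_le
        (show (J1 u κ R π).2 ≤ n from le_trans (Nat.le_add_right _ _) h1)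
      have h2 : zh u π.2 (J1 u κ R π).2 = _ := a2.1
      have h3 : _ ≤ zh u (Ren263.shift (J1 u κ R π).2 π.2) m := b4 m (by omega)
      rw [zh_add, h2]
      push_cast
      linarith

lemma one_le_Rj {π : MPath d × MPath d} (hπ : π ∈ JG u κ R) (k : ℕ) :
    1 ≤ Rj u (jw u κ R k π) := by
  have h := (first_block (bp_iter hπ k).1).2.2.2.2
  rwa [← jw_add hπ k 0] at h

lemma Hk_lt {π : MPath d × MPath d} (hπ : π ∈ JG u κ R) (k : ℕ) :
    Hk u κ R k π < Hk u κ R (k + 1) π := by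
  have := one_le_Rj hπ k
  rw [Hk_succ]
  omega

lemma Hk_strictMono {π : MPath d × MPath d} (hπ : π ∈ JG u κ R) :
    StrictMono fun k => Hk u κ R k π := strictMono_nat_of_lt_succ (Hk_lt hπ)

lemma le_Hk {π : MPath d × MPath d} (hπ : π ∈ JG u κ R) (k : ℕ) : k ≤ Hk u κ R k π :=
  (Hk_strictMono hπ).le_apply

/-- every level is in exactly one joint block -/
lemma exists_Hk {π : MPath d × MPath d} (hπ : π ∈ JG u κ R) (l : ℕ) :
    ∃ k, Hk u κ R k π ≤ l ∧ l < Hk u κ R (k + 1) π := by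
  classical
  have hex : ∃ k, l < Hk u κ R (k + 1) π := ⟨l, lt_of_lt_of_le (Nat.lt_succ_self l) (le_Hk hπ _)⟩
  refine ⟨Nat.find hex, ?_, Nat.find_spec hex⟩
  rcases Nat.eq_zero_or_pos (Nat.find hex) with h | h
  · rw [h, Hk_zero]; exact Nat.zero_le _
  · obtain ⟨j, hj⟩ := Nat.exists_eq_succ_of_ne_zero h.ne'
    have := Nat.find_min hex (m := j) (by omega)
    rw [hj]
    exact not_lt.1 this

/-- difference of the displacements at the joint cut -/
theorem cutW {π : MPath d × MPath d} (hπ : π ∈ JG u κ R) (φ : Site d →+ ℝ) (k : ℕ) :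
    φ (pos 0 π.1 (Jk u κ R k π).1) - φ (pos 0 π.2 (Jk u κ R k π).2) = Sk φ u κ R k π := by
  induction k generalizing π with
  | zero => simp [Sk, Jk, pos_zero]
  | succ k ih =>
    have h1 := ih (jr_mem hπ)
    have h2 := first_V hπ φ
    rw [Sk_succ' hπ]
    have e1 : pos 0 π.1 (Jk u κ R (k + 1) π).1
        = pos 0 π.1 (J1 u κ R π).1 + pos 0 (jr u κ R π).1 (Jk u κ R k (jr u κ R π)).1 :=
      pos_zero_add _ _ _
    have e2 : pos 0 π.2 (Jk u κ R (k + 1) π).2
        = pos 0 π.2 (J1 u κ R π).2 + pos 0 (jr u κ R π).2 (Jk u κ R k (jr u κ R π)).2 :=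
      pos_zero_add _ _ _
    rw [e1, e2, map_add, map_add, h2, ← h1]
    ring

/-- times of block `k`: same-level deviation -/
theorem same_block {π : MPath d × MPath d} (hπ : π ∈ JG u κ R) (φ : Site d →+ ℝ) {k n m : ℕ}
    (h1 : (Jk u κ R k π).1 ≤ n) (h2 : n ≤ (Jk u κ R (k + 1) π).1)
    (h3 : (Jk u κ R k π).2 ≤ m) (h4 : m ≤ (Jk u κ R (k + 1) π).2)
    (h : zh u π.1 n = zh u π.2 m) :
    |φ (pos 0 π.1 n) - φ (pos 0 π.2 m) - Sk φ u κ R k π| ≤ Bj u φ (jw u κ R k π) := by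
  obtain ⟨n', rfl⟩ := Nat.exists_eq_add_of_le h1
  obtain ⟨m', rfl⟩ := Nat.exists_eq_add_of_le h3
  obtain ⟨c1, c2, _, _⟩ := cutk hπ k
  rw [Jk_succ_last] at h2 h4
  have h2' : n' ≤ (J1 u κ R ((jr u κ R)^[k] π)).1 := by
    have : (Jk u κ R k π).1 + n' ≤ (Jk u κ R k π).1 + (J1 u κ R ((jr u κ R)^[k] π)).1 := h2
    omega
  have h4' : m' ≤ (J1 u κ R ((jr u κ R)^[k] π)).2 := by
    have : (Jk u κ R k π).2 + m' ≤ (Jk u κ R k π).2 + (J1 u κ R ((jr u κ R)^[k] π)).2 := h4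
    omega
  rw [zh_add, zh_add, c1.1, c2.1] at h
  have e : (jr u κ R)^[k] π = (Ren263.shift (Jk u κ R k π).1 π.1,
      Ren263.shift (Jk u κ R k π).2 π.2) := jr_iter π k
  have hb := first_B (bp_iter hπ k).1 φ h2' h4' (by rw [e]; exact add_left_cancel h)
  rw [← jw_add hπ k 0, Nat.add_zero] at hb
  rw [pos_zero_add, pos_zero_add, map_add, map_add, ← cutW hπ φ k]
  rw [e] at hb
  have : φ (pos 0 π.1 (Jk u κ R k π).1) + φ (pos 0 (Ren263.shift (Jk u κ R k π).1 π.1) n') -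
      (φ (pos 0 π.2 (Jk u κ R k π).2) + φ (pos 0 (Ren263.shift (Jk u κ R k π).2 π.2) m')) -
      (φ (pos 0 π.1 (Jk u κ R k π).1) - φ (pos 0 π.2 (Jk u κ R k π).2))
      = φ (pos 0 (Ren263.shift (Jk u κ R k π).1 π.1) n')
        - φ (pos 0 (Ren263.shift (Jk u κ R k π).2 π.2) m') := by ring
  rw [this]
  exact hb

/-- a time of level `< Hk k` is before the `k`-th cut, a time of level `≥ Hk k` … -/
lemma time_of_level {π : MPath d × MPath d} (hπ : π ∈ JG u κ R) {k n : ℕ}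
    (h1 : ((Hk u κ R k π : ℕ) : ℤ) ≤ zh u π.1 n) (h2 : zh u π.1 n < (Hk u κ R (k + 1) π : ℕ)) :
    (Jk u κ R k π).1 ≤ n ∧ n ≤ (Jk u κ R (k + 1) π).1 := by
  obtain ⟨c1, _, _, _⟩ := cutk hπ k
  obtain ⟨_, _, c3, _⟩ := cutk hπ (k + 1)
  constructor
  · by_contra hc
    push Not at hc
    exact absurd (c1.2 n hc) (not_lt.2 h1)
  · by_contra hc
    push Not at hc
    exact absurd (c3 n hc.le) (not_le.2 h2)

lemma time_of_level' {π : MPath d × MPath d} (hπ : π ∈ JG u κ R) {k n : ℕ}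
    (h1 : ((Hk u κ R k π : ℕ) : ℤ) ≤ zh u π.2 n) (h2 : zh u π.2 n < (Hk u κ R (k + 1) π : ℕ)) :
    (Jk u κ R k π).2 ≤ n ∧ n ≤ (Jk u κ R (k + 1) π).2 := by
  obtain ⟨_, c1, _, _⟩ := cutk hπ k
  obtain ⟨_, _, _, c3⟩ := cutk hπ (k + 1)
  constructor
  · by_contra hc
    push Not at hc
    exact absurd (c1.2 n hc) (not_lt.2 h1)
  · by_contra hc
    push Not at hc
    exact absurd (c3 n hc.le) (not_le.2 h2)

/-- **same level visits in block `k`** -/
theorem same_level {π : MPath d × MPath d} (hπ : π ∈ JG u κ R) (φ : Site d →+ ℝ) {k n m : ℕ}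
    (h : zh u π.1 n = zh u π.2 m) (h1 : ((Hk u κ R k π : ℕ) : ℤ) ≤ zh u π.1 n)
    (h2 : zh u π.1 n < (Hk u κ R (k + 1) π : ℕ)) :
    |φ (pos 0 π.1 n) - φ (pos 0 π.2 m) - Sk φ u κ R k π| ≤ Bj u φ (jw u κ R k π) := by
  obtain ⟨a1, a2⟩ := time_of_level hπ h1 h2
  obtain ⟨b1, b2⟩ := time_of_level' hπ (by rw [← h]; exact h1) (by rw [← h]; exact h2)
  exact same_block hπ φ a1 a2 b1 b2 h

/-- **first hits of the levels of block `k`** (both ends included) -/
theorem same_hit {π : MPath d × MPath d} (hπ : π ∈ JG u κ R) (φ : Site d →+ ℝ) {k l n m : ℕ}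
    (hn : Hit u l n π.1) (hm : Hit u l m π.2) (h1 : Hk u κ R k π ≤ l)
    (h2 : l ≤ Hk u κ R (k + 1) π) :
    |φ (pos 0 π.1 n) - φ (pos 0 π.2 m) - Sk φ u κ R k π| ≤ Bj u φ (jw u κ R k π) := by
  obtain ⟨c1, c2, _, _⟩ := cutk hπ k
  obtain ⟨d1, d2, _, _⟩ := cutk hπ (k + 1)
  have key : ∀ {s : MPath d} {l l' n n' : ℕ}, l ≤ l' → Hit u l n s → Hit u l' n' s → n ≤ n' := by
    intro s l l' n n' hl hn hn'
    by_contra hc
    push Not at hc
    have := hn.2 n' hc
    rw [hn'.1] at this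
    have : l' < l := by exact_mod_cast this
    omega
  exact same_block hπ φ (key h1 c1 hn) (key h2 hn d1) (key h1 c2 hm) (key h2 hm d2)
    (by rw [hn.1, hm.1])

lemma lev_pos0 (u : Step d) (s : MPath d) (n : ℕ) : Flux132.lev u (pos 0 s n) = zh u s n := by
  rw [B6I.lev_pos, B6I.lev_zero, zero_add, zt_eq]

/-- **no contact below the `k`-th joint cut** -/
theorem no_contact {π : MPath d × MPath d} (hπ : π ∈ JG u κ R) (φ : Site d →+ ℝ) {x x' : Site d}
    (hx : Flux132.lev u x = Flux132.lev u x') {k : ℕ}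
    (hB : ∀ i < k, Bj u φ (jw u κ R i π) < |φ x - φ x' + Sk φ u κ R i π|) {n m : ℕ}
    (hn : zh u π.1 n < (Hk u κ R k π : ℕ)) : x + pos 0 π.1 n ≠ x' + pos 0 π.2 m := by
  intro he
  have hl : zh u π.1 n = zh u π.2 m := by
    have := congrArg (Flux132.lev u) he
    rw [Fin804.lev_add, Fin804.lev_add, lev_pos0, lev_pos0, hx] at this
    exact add_left_cancel this
  have h0 : 0 ≤ zh u π.1 n := stay_zh.1 hπ.1.1 n
  obtain ⟨l, hl0⟩ := Int.eq_ofNat_of_zero_le h0
  obtain ⟨i, hi1, hi2⟩ := exists_Hk hπ l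
  have hik : i < k := by
    by_contra hc
    push Not at hc
    have h1 : Hk u κ R k π ≤ Hk u κ R i π := (Hk_strictMono hπ).monotone hc
    rw [hl0] at hn
    have : l < Hk u κ R k π := by exact_mod_cast hn
    omega
  have h2 := same_level hπ φ hl (k := i) (by rw [hl0]; exact_mod_cast hi1)
    (by rw [hl0]; exact_mod_cast hi2)
  have h3 := congrArg φ he
  rw [map_add, map_add] at h3
  have h4 : φ (pos 0 π.1 n) - φ (pos 0 π.2 m) - Sk φ u κ R i π
      = -(φ x - φ x' + Sk φ u κ R i π) := by linarith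
  rw [h4, abs_neg] at h2
  exact absurd (hB i hik) (not_lt.2 h2)

end Crest.Agent.R154.J132
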