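import Crest.Agent.R154.Joint5_132

/-! Row 154, B4 trunk side: the position process made from letters (heights `Y ≥ 1`, displacements
`V`, inner positions `I`). -/

set_option autoImplicit false
set_option linter.unusedSectionVars false

namespace Crest.Agent.R154.J132

open MeasureTheory ProbabilityTheory Filter Topology Set
open scoped ENNReal

variable {A : Type*}

/-- index of the last cut at a level `≤ l` -/
def li (Y : A → ℕ) (l : ℕ) (a : ℕ → A) : ℕ := Nat.findGreatest (fun i => H Y i a ≤ l) l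

lemma li_le (Y : A → ℕ) (l : ℕ) (a : ℕ → A) : H Y (li Y l a) a ≤ l :=
  Nat.findGreatest_spec (P := fun i => H Y i a ≤ l) (Nat.zero_le l) (by
    rw [H_zero]; exact Nat.zero_le _)

lemma lt_of_li_lt {Y : A → ℕ} (hY : ∀ a, 1 ≤ Y a) {l : ℕ} {a : ℕ → A} {i : ℕ}
    (h : li Y l a < i) : l < H Y i a := by
  by_contra hc
  push Not at hc
  have h1 : i ≤ l := (le_H hY i a).trans hc
  have h2 : i ≤ li Y l a := Nat.le_findGreatest h1 hc
  omega

lemma li_eq_iff {Y : A → ℕ} (hY : ∀ a, 1 ≤ Y a) {l : ℕ} {a : ℕ → A} {i : ℕ} :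
    li Y l a = i ↔ H Y i a ≤ l ∧ l < H Y (i + 1) a := by
  constructor
  · rintro rfl
    exact ⟨li_le Y l a, lt_of_li_lt hY (Nat.lt_succ_self _)⟩
  · rintro ⟨h1, h2⟩
    refine le_antisymm ?_ ?_
    · by_contra hc
      push Not at hc
      have h3 : H Y (i + 1) a ≤ H Y (li Y l a) a := (H_strictMono hY a).monotone hc
      have := li_le Y l a
      omega
    · by_contra hc
      push Not at hc
      have := lt_of_li_lt hY hc
      omega

lemma li_add {Y : A → ℕ} (hY : ∀ a, 1 ≤ Y a) {l : ℕ} {a : ℕ → A} {i : ℕ} (h : H Y i a ≤ l) :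
    li Y l a = i + li Y (l - H Y i a) (sh i a) := by
  rw [li_eq_iff hY]
  have h1 := li_le Y (l - H Y i a) (sh i a)
  have h2 : l - H Y i a < H Y (li Y (l - H Y i a) (sh i a) + 1) (sh i a) :=
    lt_of_li_lt hY (Nat.lt_succ_self _)
  rw [H_add, Nat.add_assoc, H_add]
  constructor <;> omega

/-- the position process -/
def Uf (Y : A → ℕ) (V : A → (Fin 2 → ℝ)) (I : A → ℕ → (Fin 2 → ℝ)) (l : ℕ) (a : ℕ → A) :
    Fin 2 → ℝ :=
  Dd V (li Y l a) a + I (a (li Y l a)) (l - H Y (li Y l a) a)

lemma Uf_lt {Y : A → ℕ} (hY : ∀ a, 1 ≤ Y a) (V : A → (Fin 2 → ℝ)) (I : A → ℕ → (Fin 2 → ℝ))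
    {l : ℕ} {a : ℕ → A} (h : l < Y (a 0)) : Uf Y V I l a = I (a 0) l := by
  have h0 : li Y l a = 0 := by
    rw [li_eq_iff hY]
    refine ⟨by rw [H_zero]; exact Nat.zero_le _, ?_⟩
    simpa [H] using h
  unfold Uf
  rw [h0, Dd_zero, H_zero, zero_add, Nat.sub_zero]

theorem pos_Uf [MeasurableSpace A] [MeasurableSingletonClass A] [Countable A] [Inhabited A]
    {Y : A → ℕ} (hY : ∀ a, 1 ≤ Y a) (V : A → (Fin 2 → ℝ)) {I : A → ℕ → (Fin 2 → ℝ)}
    (hI : ∀ w, I w 0 = 0) : Pos Y V (Uf Y V I) where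
  meas l := by
    have hli : Measurable (li Y l) := by
      refine measurable_to_countable' fun i => ?_
      have : li Y l ⁻¹' {i} = {a | H Y i a ≤ l} ∩ {a | l < H Y (i + 1) a} := by
        ext a
        simp only [mem_preimage, mem_singleton_iff, mem_inter_iff, mem_ofPred_eq]
        exact li_eq_iff hY
      rw [this]
      exact (measurableSet_le (measurable_H Y i) measurable_const).inter
        (measurableSet_lt measurable_const (measurable_H Y (i + 1)))
    have h1 : Measurable (fun x : ℕ × (ℕ → A) =>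
        Dd V x.1 x.2 + I (x.2 x.1) (l - H Y x.1 x.2)) := by
      refine measurable_from_prod_countable_right fun i => ?_
      refine (measurable_Dd V i).add ?_
      exact (measurable_of_countable (fun y : A × ℕ => I y.1 (l - y.2))).comp
        ((measurable_pi_apply i).prodMk (measurable_H Y i))
    exact h1.comp (hli.prodMk measurable_id)
  cov a i l h := by
    unfold Uf
    rw [li_add hY h, Dd_add, H_add]
    simp only [sh]
    rw [add_assoc, Nat.sub_sub]
  det a b i l h hab := by
    have hk : li Y l a ≤ i := by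
      by_contra hc
      push Not at hc
      have h3 : H Y i a < H Y (li Y l a) a := H_strictMono hY a hc
      have := li_le Y l a
      omega
    have hHeq : ∀ j ≤ i, H Y j a = H Y j b := fun j hj => H_congr fun k hk' => hab k (by omega)
    have hlib : li Y l b = li Y l a := by
      have h1 := li_le Y l a
      rcases Nat.lt_or_ge (li Y l a) i with hlt | hge
      · rw [li_eq_iff hY, ← hHeq _ hk, ← hHeq _ hlt]
        exact ⟨h1, lt_of_li_lt hY (Nat.lt_succ_self _)⟩
      · have he : li Y l a = i := le_antisymm hk hge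
        rw [he] at h1 ⊢
        have he2 : H Y i b = l := by rw [← hHeq i le_rfl]; omega
        rw [li_eq_iff hY]
        have h4 : H Y i b < H Y (i + 1) b := H_strictMono hY b (Nat.lt_succ_self _)
        omega
    unfold Uf
    rw [hlib, ← hHeq _ hk, Dd_congr (V := V) (n := li Y l a) fun k hk' => hab k (by omega)]
    congr 1
    rcases Nat.lt_or_ge (li Y l a) i with hlt | hge
    · rw [hab _ hlt]
    · have he : li Y l a = i := le_antisymm hk hge
      have h1 := li_le Y l a
      rw [he] at h1 ⊢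
      have : l - H Y i a = 0 := by omega
      rw [this, hI, hI]

/-- lower bound of the renewal function at high levels is enough -/
theorem tsum_noCut_le' [MeasurableSpace A] [MeasurableSingletonClass A] [Countable A] [Inhabited A]
    (μ : Measure A) [IsProbabilityMeasure μ] {Y : A → ℕ}
    (hY : ∀ a, 1 ≤ Y a) {c : ℝ≥0∞} (hc : c ≠ 0) (hc' : c ≠ ⊤) {l₀ : ℕ}
    (hU : ∀ l, l₀ ≤ l → c ≤ Ur μ Y l) : ∑' m, pairL μ (NoCut Y m) ≤ c⁻¹ := by
  refine ENNReal.tsum_le_of_sum_range_le fun n => ?_
  rw [← one_mul (c⁻¹), ← div_eq_mul_inv, ENNReal.le_div_iff_mul_le (Or.inl hc) (Or.inl hc')]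
  have h0 := renewal_identity μ hY (n + l₀)
  rw [← Finset.sum_range_reflect (fun k => Ur μ Y k * pairL μ (NoCut Y (n + l₀ - k)))
    (n + l₀ + 1)] at h0
  rw [← h0, Finset.sum_mul]
  have h1 : ∑ i ∈ Finset.range n, pairL μ (NoCut Y i) * c
      ≤ ∑ i ∈ Finset.range n, Ur μ Y (n + l₀ + 1 - 1 - i) *
        pairL μ (NoCut Y (n + l₀ - (n + l₀ + 1 - 1 - i))) := by
    refine Finset.sum_le_sum fun i hi => ?_
    have hi' := Finset.mem_range.1 hi
    have e : n + l₀ - (n + l₀ + 1 - 1 - i) = i := by omega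
    rw [e, mul_comm]
    gcongr
    exact hU _ (by omega)
  refine h1.trans ?_
  exact Finset.sum_le_sum_of_subset (Finset.range_mono (by omega))

theorem tendsto_tl' [MeasurableSpace A] [MeasurableSingletonClass A] [Countable A] [Inhabited A]
    (μ : Measure A) [IsProbabilityMeasure μ] {Y : A → ℕ}
    (hs : ∑' m, pairL μ (NoCut Y m) ≠ ⊤) : Tendsto (tl μ Y) atTop (𝓝 0) :=
  ENNReal.tendsto_sum_nat_add (fun m => pairL μ (NoCut Y m)) hs

theorem noCut_tendsto' [MeasurableSpace A] [MeasurableSingletonClass A] [Countable A] [Inhabited A]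
    (μ : Measure A) [IsProbabilityMeasure μ] {Y : A → ℕ}
    (hs : ∑' m, pairL μ (NoCut Y m) ≠ ⊤) :
    Tendsto (fun m => pairL μ (NoCut Y m)) atTop (𝓝 0) := by
  refine tendsto_of_tendsto_of_tendsto_of_le_of_le tendsto_const_nhds
    (tendsto_tl' μ hs) (fun _ => zero_le) fun m => ?_
  have := ENNReal.le_tsum (f := fun k => pairL μ (NoCut Y (k + m))) 0
  simp only [zero_add] at this
  exact this

end Crest.Agent.R154.J132
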