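import Crest.Agent.R154.JWin_139
import Crest.Agent.R154.B5Br_657
import Crest.Agent.R154.WMass_286
import Crest.Agent.R154.Dens_903

/-! Row 154, ROAD 801, joint-cut frame (helper141): helper139's input `hW` (two small sets of top
displacements, product bound off them) for helper657's instance, from the two window lemmas at a
common height (`E2`: X local, `E3`: Y local). -/

set_option autoImplicit false
set_option linter.unusedVariables false

namespace Crest.Agent.R154.JW141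

open MeasureTheory ProbabilityTheory Crest.ProbabilityR.RandomEnvironment
open scoped ENNReal Topology
open Filter
open Crest.Agent.R154.B5A (LW HT act CD U SL)
open Crest.Agent.R154.B5W (PB Lat Lam dlp cds cat tsum_L CD_cat cds_eq pm)
open Crest.Agent.R154.NB28 (IsUp IsDn Cm)
open Crest.Agent.R154.Flux566 (lw endp sitesL endp_append endp_eq_add)

/-! ### counting -/

open Classical in
lemma cnt {W : Type*} (Φ : W → ℝ≥0∞) (C lam δ N th η : ℝ≥0∞) (hC0 : C ≠ 0) (hCt : C ≠ ⊤)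
    (hl0 : lam ≠ 0) (hlt : lam ≠ ⊤) (hδ : δ ≤ lam) (hth : th * N ≤ 1) (hδη : δ ≤ lam * lam * η)
    (hE : ∀ S : Finset W, S.Nonempty → (S.card : ℝ≥0∞)⁻¹ * ∑ w ∈ S, Φ w
      ≤ C * (lam + (S.card : ℝ≥0∞)⁻¹ * N * δ / lam + δ)) :
    th * JAsm139.card {w | C * (4 * lam) < Φ w} ≤ η := by
  have key : ∀ S : Finset W, (∀ w ∈ S, C * (4 * lam) < Φ w) → th * (S.card : ℝ≥0∞) ≤ η := by
    intro S hS
    rcases S.eq_empty_or_nonempty with rfl | hne
    · simp
    have hn0 : (S.card : ℝ≥0∞) ≠ 0 := by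
      have := Finset.card_pos.2 hne
      exact_mod_cast this.ne'
    have hnt : (S.card : ℝ≥0∞) ≠ ⊤ := ENNReal.natCast_ne_top _
    have h1 : C * (4 * lam) ≤ (S.card : ℝ≥0∞)⁻¹ * ∑ w ∈ S, Φ w := by
      calc C * (4 * lam) = (S.card : ℝ≥0∞)⁻¹ * ((S.card : ℝ≥0∞) * (C * (4 * lam))) := by
            rw [← mul_assoc ((S.card : ℝ≥0∞)⁻¹), ENNReal.inv_mul_cancel hn0 hnt, one_mul]
        _ = (S.card : ℝ≥0∞)⁻¹ * ∑ _w ∈ S, C * (4 * lam) := by
            rw [Finset.sum_const, nsmul_eq_mul]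
        _ ≤ _ := by
            gcongr with w hw
            exact (hS w hw).le
    have h2 := h1.trans (hE S hne)
    have h3 : 4 * lam ≤ lam + (S.card : ℝ≥0∞)⁻¹ * N * δ / lam + δ :=
      (ENNReal.mul_le_mul_iff_right hC0 hCt).1 h2
    have h4 : 2 * lam + 2 * lam ≤ 2 * lam + (S.card : ℝ≥0∞)⁻¹ * N * δ / lam := by
      calc 2 * lam + 2 * lam = 4 * lam := by ring
        _ ≤ lam + (S.card : ℝ≥0∞)⁻¹ * N * δ / lam + δ := h3
        _ ≤ lam + (S.card : ℝ≥0∞)⁻¹ * N * δ / lam + lam := by gcongr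
        _ = _ := by ring
    have h5 : 2 * lam ≤ (S.card : ℝ≥0∞)⁻¹ * N * δ / lam :=
      (ENNReal.add_le_add_iff_left (ENNReal.mul_ne_top (by norm_num) hlt)).1 h4
    have h6 : 2 * lam * lam ≤ (S.card : ℝ≥0∞)⁻¹ * N * δ :=
      (ENNReal.le_div_iff_mul_le (Or.inl hl0) (Or.inl hlt)).1 h5
    have h7 : (S.card : ℝ≥0∞) * (lam * lam) ≤ N * δ := by
      calc (S.card : ℝ≥0∞) * (lam * lam) ≤ (S.card : ℝ≥0∞) * (2 * lam * lam) := by
            gcongr
            rw [two_mul]; exact le_self_add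
        _ ≤ (S.card : ℝ≥0∞) * ((S.card : ℝ≥0∞)⁻¹ * N * δ) := mul_le_mul_right h6 _
        _ = ((S.card : ℝ≥0∞) * (S.card : ℝ≥0∞)⁻¹) * (N * δ) := by ring
        _ = N * δ := by rw [ENNReal.mul_inv_cancel hn0 hnt, one_mul]
    have h8 : lam * lam * (th * (S.card : ℝ≥0∞)) ≤ lam * lam * η := by
      calc lam * lam * (th * (S.card : ℝ≥0∞)) = th * ((S.card : ℝ≥0∞) * (lam * lam)) := by ring
        _ ≤ th * (N * δ) := mul_le_mul_right h7 _
        _ = th * N * δ := by ring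
        _ ≤ 1 * δ := mul_le_mul_left hth _
        _ = δ := one_mul _
        _ ≤ _ := hδη
    exact (ENNReal.mul_le_mul_iff_right (mul_ne_zero hl0 hl0) (ENNReal.mul_ne_top hlt hlt)).1 h8
  unfold JAsm139.card
  rw [← ENNReal.tsum_mul_left, ENNReal.tsum_eq_iSup_sum]
  refine iSup_le fun F => ?_
  have h := key (F.filter fun w => C * (4 * lam) < Φ w) (fun w hw => (Finset.mem_filter.1 hw).2)
  refine le_trans (le_of_eq ?_) h
  rw [Finset.card_filter]
  push_cast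
  rw [Finset.mul_sum]
  refine Finset.sum_congr rfl fun w _ => ?_
  by_cases hw : C * (4 * lam) < Φ w
  · simp [Set.indicator_apply, hw]
  · simp [Set.indicator_apply, hw]

/-! ### the laws of the crossings of one height -/

variable {d : ℕ} (ν : Measure (Row d)) [IsProbabilityMeasure ν]

open Classical in
/-- mass of the words of `P` with displacement `z` -/
noncomputable def pz (P : List (Step d) → Prop) (z : Site d) : ℝ≥0∞ :=
  ∑' l : List (Step d), if P l ∧ endp 0 l = z then NB28.aw ν l else 0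

open Classical in
lemma sumfib (P : List (Step d) → Prop) (G : Site d → ℝ≥0∞) :
    ∑' l : List (Step d), (if P l then NB28.aw ν l * G (endp 0 l) else 0)
      = ∑' z, pz ν P z * G z := by
  unfold pz
  simp_rw [← ENNReal.tsum_mul_right]
  rw [ENNReal.tsum_comm]
  refine tsum_congr fun l => ?_
  by_cases h : P l
  · rw [if_pos h, tsum_eq_single (endp 0 l)]
    · simp [h]
    · intro z hz; simp [h, hz.symm]
  · simp [h]

open Classical in
lemma sumfib' (P : List (Step d) → Prop) (R : Site d → Prop) :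
    ∑' l : List (Step d), (if P l ∧ R (endp 0 l) then NB28.aw ν l else 0)
      = ∑' z, (if R z then pz ν P z else 0) := by
  have h := sumfib ν P (fun z => if R z then 1 else 0)
  refine Eq.trans (tsum_congr fun l => ?_) (h.trans (tsum_congr fun z => ?_))
  · by_cases h1 : P l <;> by_cases h2 : R (endp 0 l) <;> simp [h1, h2]
  · by_cases h2 : R z <;> simp [h2]

open Classical in
/-- thresholds -/
lemma thr (P : List (Step d) → Prop) (c v : ℝ≥0∞) (hc : c ≠ 0)
    (h1 : c ≤ ∑' l : List (Step d), if P l then NB28.aw ν l else 0)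
    (h2 : ∑' l : List (Step d), (if P l then NB28.aw ν l else 0) ≤ 1) (hv0 : v ≠ 0)
    (hv1 : v ≤ 1) :
    ∃ (th : ℝ≥0∞) (Lo Le : Site d → Prop), th ≠ 0 ∧ (∀ z, Lo z ↔ pz ν P z < th) ∧
      (∀ z, Le z ↔ pz ν P z ≤ th) ∧
      ∑' l : List (Step d), (if P l ∧ Lo (endp 0 l) then NB28.aw ν l else 0) ≤ v ∧
      c * v ≤ ∑' l : List (Step d), (if P l ∧ Le (endp 0 l) then NB28.aw ν l else 0) ∧
      ∃ E : Finset (Site d), (∀ z, z ∈ E ↔ th ≤ pz ν P z) ∧ th * (E.card : ℝ≥0∞) ≤ 1 := by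
  set A : ℝ≥0∞ := ∑' l : List (Step d), if P l then NB28.aw ν l else 0 with hA
  have hA0 : A ≠ 0 := fun h => hc (le_antisymm (h ▸ h1) zero_le)
  have hAt : A ≠ ⊤ := ne_top_of_le_ne_top ENNReal.one_ne_top h2
  have hsum : ∑' z, pz ν P z = A := by
    have := sumfib' ν P (fun _ => True)
    simpa using this.symm
  have hn : ∑' z, pz ν P z * A⁻¹ = 1 := by
    rw [ENNReal.tsum_mul_right, hsum, ENNReal.mul_inv_cancel hA0 hAt]
  obtain ⟨t, ht0, ht1, hlo, hhi⟩ := Dens903.quantile (fun z => pz ν P z * A⁻¹) hn hv0 hv1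
  have e1 : ∀ z, pz ν P z * A⁻¹ < t ↔ pz ν P z < t * A := by
    intro z
    rw [← div_eq_mul_inv, ENNReal.div_lt_iff (Or.inl hA0) (Or.inl hAt)]
  have e2 : ∀ z, pz ν P z * A⁻¹ ≤ t ↔ pz ν P z ≤ t * A := by
    intro z
    rw [← div_eq_mul_inv, ENNReal.div_le_iff_le_mul (Or.inl hA0) (Or.inl hAt)]
  have hth0 : t * A ≠ 0 := mul_ne_zero ht0 hA0
  have hAA : A * A⁻¹ = 1 := ENNReal.mul_inv_cancel hA0 hAt
  clear_value A
  obtain ⟨Lo, hLo⟩ : ∃ Lo : Site d → Prop, ∀ z, Lo z ↔ pz ν P z < t * A :=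
    ⟨_, fun _ => Iff.rfl⟩
  obtain ⟨Le, hLe⟩ : ∃ Le : Site d → Prop, ∀ z, Le z ↔ pz ν P z ≤ t * A :=
    ⟨_, fun _ => Iff.rfl⟩
  refine ⟨t * A, Lo, Le, hth0, hLo, hLe, ?_, ?_, ?_⟩
  · rw [sumfib' ν P Lo]
    have : ∑' z, (if Lo z then pz ν P z else 0)
        = A * ∑' z, (if pz ν P z * A⁻¹ < t then pz ν P z * A⁻¹ else 0) := by
      rw [← ENNReal.tsum_mul_left]
      refine tsum_congr fun z => ?_
      by_cases h : Lo z
      · rw [if_pos h, if_pos ((e1 z).2 ((hLo z).1 h)), mul_comm A, mul_assoc, mul_comm A⁻¹, hAA,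
          mul_one]
      · rw [if_neg h, if_neg (fun h' => h ((hLo z).2 ((e1 z).1 h'))), mul_zero]
    rw [this]
    calc A * _ ≤ 1 * v := mul_le_mul' h2 hlo
      _ = v := one_mul _
  · rw [sumfib' ν P Le]
    have : ∑' z, (if Le z then pz ν P z else 0)
        = A * ∑' z, (if pz ν P z * A⁻¹ ≤ t then pz ν P z * A⁻¹ else 0) := by
      rw [← ENNReal.tsum_mul_left]
      refine tsum_congr fun z => ?_
      by_cases h : Le z
      · rw [if_pos h, if_pos ((e2 z).2 ((hLe z).1 h)), mul_comm A, mul_assoc, mul_comm A⁻¹, hAA,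
          mul_one]
      · rw [if_neg h, if_neg (fun h' => h ((hLe z).2 ((e2 z).1 h'))), mul_zero]
    rw [this]
    exact mul_le_mul' h1 hhi
  · have hfin : {z | t * A ≤ pz ν P z}.Finite :=
      Dens903.finite_level _ (by rw [hsum]; exact hAt) hth0
    refine ⟨hfin.toFinset, fun z => by simp, ?_⟩
    have h3 := Dens903.card_le (pz ν P) (t * A)
    rw [hsum] at h3
    refine le_trans (le_of_eq ?_) (h3.trans h2)
    congr 1
    rw [tsum_eq_sum (s := hfin.toFinset)]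
    · rw [Finset.sum_congr rfl (g := fun _ => (1 : ℝ≥0∞)) (fun z hz => if_pos (by simpa using hz))]
      simp
    · intro z hz
      rw [if_neg (by simpa using hz)]

/-! ### the window lemmas at a common height -/

variable (u : Step d)

open Classical in
/-- X local -/
def E2 (C : ℝ≥0∞) (us : ℕ → ℝ≥0∞) : Prop :=
  ∀ (s H : ℕ) (E : Finset (Site d)) (μ : Site d → ℝ≥0∞) (M lam : ℝ≥0∞),
    ∑' x, μ x ≤ 1 → (∀ x, μ x ≤ M) → M ≠ 0 → M ≠ ⊤ → lam ≠ 0 → lam ≠ ⊤ →
    ∑' x, (if Flux132.lev u x = 0 then μ x * ∑' π : List (Step d), ∑' γ : List (Step d),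
      (if IsUp u H π ∧ IsDn u H γ ∧ endp 0 π ∈ E ∧ (∃ k, k ∈ Cm u x π γ) ∧
        (∀ k ∈ Cm u x π γ, s < k) then NB28.aw ν π * NB28.aw ν γ else 0) else 0)
      ≤ C * (lam + M * E.card * us s / lam + us s)

open Classical in
/-- Y local -/
def E3 (C : ℝ≥0∞) (us : ℕ → ℝ≥0∞) : Prop :=
  ∀ (s H : ℕ) (E : Finset (Site d)) (μ : Site d → ℝ≥0∞) (M lam : ℝ≥0∞),
    ∑' x, μ x ≤ 1 → (∀ x, μ x ≤ M) → M ≠ 0 → M ≠ ⊤ → lam ≠ 0 → lam ≠ ⊤ →
    ∑' x, (if Flux132.lev u x = 0 then μ x * ∑' π : List (Step d), ∑' γ : List (Step d),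
      (if IsUp u H π ∧ IsDn u H γ ∧ endp 0 γ ∈ E ∧ (∃ k, k ∈ Cm u x π γ) ∧
        (∀ k ∈ Cm u x π γ, k + s ≤ H) then NB28.aw ν π * NB28.aw ν γ else 0) else 0)
      ≤ C * (lam + M * E.card * us s / lam + us s)

open Classical in
/-- averages over finite sets of displacements -/
lemma avg (G : Site d → ℝ≥0∞) (B : ℝ≥0∞ → ℝ≥0∞)
    (h : ∀ (μ : Site d → ℝ≥0∞) (M : ℝ≥0∞), ∑' x, μ x ≤ 1 → (∀ x, μ x ≤ M) → M ≠ 0 → M ≠ ⊤ →
      ∑' x, (if Flux132.lev u x = 0 then μ x * G x else 0) ≤ B M)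
    (S : Finset (Lat u)) (hS : S.Nonempty) :
    (S.card : ℝ≥0∞)⁻¹ * ∑ w ∈ S, G w.1 ≤ B (S.card : ℝ≥0∞)⁻¹ := by
  have hn0 : (S.card : ℝ≥0∞) ≠ 0 := by
    have := Finset.card_pos.2 hS
    exact_mod_cast this.ne'
  have hnt : (S.card : ℝ≥0∞) ≠ ⊤ := ENNReal.natCast_ne_top _
  set vl : Lat u → Site d := fun w => w.1 with hvl
  set T : Finset (Site d) := S.image vl with hT
  have hinj : Set.InjOn vl (S : Set (Lat u)) :=
    fun a _ b _ hab => Subtype.ext hab
  have hcard : T.card = S.card := Finset.card_image_of_injOn hinj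
  set μ : Site d → ℝ≥0∞ := fun x => if x ∈ T then (S.card : ℝ≥0∞)⁻¹ else 0 with hμ
  have h1 : ∑' x, μ x ≤ 1 := by
    rw [tsum_eq_sum (s := T) (fun x hx => by simp [hμ, hx])]
    rw [Finset.sum_congr rfl (g := fun _ => (S.card : ℝ≥0∞)⁻¹) (fun x hx => by simp [hμ, hx])]
    rw [Finset.sum_const, nsmul_eq_mul, hcard, ENNReal.mul_inv_cancel hn0 hnt]
  have h2 : ∀ x, μ x ≤ (S.card : ℝ≥0∞)⁻¹ := by
    intro x
    simp only [hμ]
    split_ifs
    · exact le_rfl
    · exact zero_le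
  have h3 := h μ _ h1 h2 (by simp [hnt]) (by simp [hn0])
  refine le_trans (le_of_eq ?_) h3
  rw [tsum_eq_sum (s := T) (fun x hx => by simp [hμ, hx]), hT,
    Finset.sum_image (fun a ha b hb hab => hinj ha hb hab), Finset.mul_sum]
  refine Finset.sum_congr rfl fun w hw => ?_
  have hw1 : vl w ∈ T := Finset.mem_image_of_mem _ hw
  have hw2 : Flux132.lev u (vl w) = 0 := w.2
  rw [if_pos hw2]
  simp only [hμ]
  rw [if_pos hw1]

/-- displacement of a list -/
lemma act_val (L : List (PB u)) (w : Lat u) :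
    (act (B5W.dl u) L w).1 = w.1 + endp 0 (cat L).1 + endp 0 (cat L).2 := by
  induction L generalizing w with
  | nil => simp [act, cat, endp]
  | cons b L ih =>
    have e : act (B5W.dl u) (b :: L) w = act (B5W.dl u) L (B5W.dl u b w) := rfl
    rw [e, ih]
    have e2 : cat (b :: L) = pm b.1 (cat L) := rfl
    rw [e2]
    simp only [pm]
    rw [endp_append, endp_append, endp_eq_add b.1.1, endp_eq_add (cat L).2 (endp 0 b.1.2)]
    simp only [B5W.dl, dlp]
    abel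

/-! ### lists and words -/

open Classical in
lemma lists_eq (H : ℕ) (R : List (Step d) → List (Step d) → Prop) :
    ∑' L : List (PB u), (if HT (B5W.ht u) L = H ∧ R (cat L).1 (cat L).2 then LW (Lam ν u) L else 0)
      = ∑' π : List (Step d), ∑' γ : List (Step d),
        (if IsUp u H π ∧ IsDn u H γ ∧ R π γ then NB28.aw ν π * NB28.aw ν γ else 0) := by
  have h := tsum_L ν u H (fun x => if R x.1 x.2 then 1 else 0)
  refine Eq.trans ?_ (h.trans ?_)
  · refine tsum_congr fun L => ?_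
    by_cases h1 : HT (B5W.ht u) L = H
    · by_cases h2 : R (cat L).1 (cat L).2
      · rw [if_pos ⟨h1, h2⟩, if_pos h1, if_pos h2, mul_one]
      · rw [if_neg (fun h' => h2 h'.2), if_pos h1, if_neg h2, mul_zero]
    · rw [if_neg (fun h' => h1 h'.1), if_neg h1]
  · refine tsum_congr fun π => tsum_congr fun γ => ?_
    by_cases h1 : IsUp u H π <;> by_cases h2 : IsDn u H γ <;> by_cases h3 : R π γ <;>
      simp [h1, h2, h3]

open Classical in
lemma mass_prod (A B : List (Step d) → Prop) :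
    ∑' π : List (Step d), ∑' γ : List (Step d), (if A π ∧ B γ then NB28.aw ν π * NB28.aw ν γ else 0)
      = (∑' π : List (Step d), if A π then NB28.aw ν π else 0)
        * ∑' γ : List (Step d), if B γ then NB28.aw ν γ else 0 := by
  rw [← ENNReal.tsum_mul_right]
  refine tsum_congr fun π => ?_
  rw [← ENNReal.tsum_mul_left]
  refine tsum_congr fun γ => ?_
  by_cases h1 : A π <;> by_cases h2 : B γ <;> simp [h1, h2]

open Classical in
lemma mass_prod' (A B A' B' : List (Step d) → Prop) (hA : ∀ l, A l ↔ A' l) (hB : ∀ l, B l ↔ B' l)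
    (iA : ∀ l, Decidable (A' l)) (iB : ∀ l, Decidable (B' l)) :
    (∑' π : List (Step d), @ite _ (A' π) (iA π) (NB28.aw ν π) 0)
        * ∑' γ : List (Step d), @ite _ (B' γ) (iB γ) (NB28.aw ν γ) 0
      = ∑' π : List (Step d), ∑' γ : List (Step d),
        (if A π ∧ B γ then NB28.aw ν π * NB28.aw ν γ else 0) := by
  rw [mass_prod ν A B]
  congr 1
  · refine tsum_congr fun l => ?_
    by_cases h1 : A l
    · rw [if_pos h1, if_pos ((hA l).1 h1)]
    · rw [if_neg h1, if_neg (fun h' => h1 ((hA l).2 h'))]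
  · refine tsum_congr fun l => ?_
    by_cases h1 : B l
    · rw [if_pos h1, if_pos ((hB l).1 h1)]
    · rw [if_neg h1, if_neg (fun h' => h1 ((hB l).2 h'))]

open Classical in
lemma dens_le (P Q : List (Step d) → Prop) (Le : Site d → Prop) (th : ℝ≥0∞)
    (hLe : ∀ z, Le z → pz ν P z ≤ th)
    (hQ : ∑' γ : List (Step d), (if Q γ then NB28.aw ν γ else 0) ≤ 1) (a b : Site d) :
    ∑' π : List (Step d), ∑' γ : List (Step d),
      (if P π ∧ Q γ ∧ Le (endp 0 π) ∧ a + endp 0 π + endp 0 γ = b then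
        NB28.aw ν π * NB28.aw ν γ else 0) ≤ th := by
  rw [ENNReal.tsum_comm]
  calc _ ≤ ∑' γ : List (Step d), (if Q γ then NB28.aw ν γ else 0) * th := by
        refine ENNReal.tsum_le_tsum fun γ => ?_
        by_cases hq : Q γ
        · rw [if_pos hq]
          by_cases hz : Le (b - a - endp 0 γ)
          · calc _ ≤ ∑' π : List (Step d),
                  NB28.aw ν γ * (if P π ∧ endp 0 π = b - a - endp 0 γ then NB28.aw ν π else 0) := by
                  refine ENNReal.tsum_le_tsum fun π => ?_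
                  by_cases h : P π ∧ Q γ ∧ Le (endp 0 π) ∧ a + endp 0 π + endp 0 γ = b
                  · have h' : P π ∧ endp 0 π = b - a - endp 0 γ :=
                      ⟨h.1, by rw [← h.2.2.2]; abel⟩
                    rw [if_pos h, if_pos h', mul_comm]
                  · rw [if_neg h]; exact zero_le
              _ = NB28.aw ν γ * pz ν P (b - a - endp 0 γ) := by
                  rw [ENNReal.tsum_mul_left]; rfl
              _ ≤ _ := mul_le_mul_right (hLe _ hz) _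
          · refine le_of_eq_of_le ?_ zero_le
            rw [ENNReal.tsum_eq_zero]
            intro π
            refine if_neg fun h => hz ?_
            have : b - a - endp 0 γ = endp 0 π := by rw [← h.2.2.2]; abel
            rw [this]; exact h.2.2.1
        · refine le_of_eq_of_le ?_ zero_le
          rw [ENNReal.tsum_eq_zero]
          intro π
          exact if_neg fun h => hq h.2.1
    _ = (∑' γ : List (Step d), if Q γ then NB28.aw ν γ else 0) * th := ENNReal.tsum_mul_right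
    _ ≤ 1 * th := mul_le_mul_left hQ _
    _ = th := one_mul _

lemma mass_up (H : ℕ) : ∑' l : List (Step d), (open Classical in if IsUp u H l then NB28.aw ν l else 0) ≤ 1 :=
  B5W.sum_if_le_one ν fun l l' h h' hp => NB28.isUp_prefix h h' hp

lemma mass_dn (H : ℕ) : ∑' l : List (Step d), (open Classical in if IsDn u H l then NB28.aw ν l else 0) ≤ 1 :=
  B5W.sum_if_le_one ν fun l l' h h' hp => NB28.isDn_prefix h h' hp

open Classical in
/-- a threshold of the up words gives a good set -/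
lemma good_up (H : ℕ) (c v η th : ℝ≥0∞) (Le : Site d → Prop)
    (hLe : ∀ z, Le z ↔ pz ν (IsUp u H) z ≤ th)
    (hm : c * v ≤ ∑' l : List (Step d), (if IsUp u H l ∧ Le (endp 0 l) then NB28.aw ν l else 0))
    (hdn : c ≤ ∑' l : List (Step d), if IsDn u H l then NB28.aw ν l else 0)
    (S : Set (Lat u)) (hS : th * JAsm139.card S ≤ η) :
    JAsm139.Good (Lam ν u) (B5W.ht u) (B5W.dl u) (c * c * v) η H S := by
  refine ⟨{L | Le (endp 0 (cat L).1)}, th, ?_, ?_, hS⟩
  · have h := lists_eq ν u H (fun π γ => Le (endp 0 π))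
    have h2 : ∑' L : List (PB u), (if HT (B5W.ht u) L = H ∧ L ∈ {L : List (PB u) | Le (endp 0 (cat L).1)}
        then LW (Lam ν u) L else 0)
        = (∑' l : List (Step d), (if IsUp u H l ∧ Le (endp 0 l) then NB28.aw ν l else 0))
          * ∑' l : List (Step d), if IsDn u H l then NB28.aw ν l else 0 := by
      obtain ⟨A, hA⟩ : ∃ A : List (Step d) → Prop, ∀ l, A l ↔ (IsUp u H l ∧ Le (endp 0 l)) :=
        ⟨_, fun _ => Iff.rfl⟩
      rw [mass_prod' ν A (IsDn u H) _ _ hA (fun _ => Iff.rfl)]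
      refine Eq.trans (tsum_congr fun L => ?_) (h.trans (tsum_congr fun π => tsum_congr fun γ => ?_))
      · rfl
      · have hAπ := hA π
        by_cases h1 : IsUp u H π <;> by_cases h2 : IsDn u H γ <;>
          by_cases h3 : Le (endp 0 π) <;> simp [h1, h2, h3, hAπ]
    rw [h2]
    calc c * c * v = (c * v) * c := by ring
      _ ≤ _ := mul_le_mul' hm hdn
  · intro w w'
    have h := lists_eq ν u H (fun π γ => Le (endp 0 π) ∧ w.1 + endp 0 π + endp 0 γ = w'.1)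
    have h2 := dens_le ν (IsUp u H) (IsDn u H) Le th (fun z hz => (hLe z).1 hz) (mass_dn ν u H)
      w.1 w'.1
    refine le_trans (le_of_eq ?_) h2
    refine Eq.trans (tsum_congr fun L => ?_) (h.trans (tsum_congr fun π => tsum_congr fun γ => ?_))
    · have e : act (B5W.dl u) L w = w' ↔ w.1 + endp 0 (cat L).1 + endp 0 (cat L).2 = w'.1 :=
        ⟨fun h5 => by rw [← h5]; exact (act_val u L w).symm,
          fun h5 => Subtype.ext ((act_val u L w).trans h5)⟩
      by_cases h1 : HT (B5W.ht u) L = H ∧ L ∈ {L : List (PB u) | Le (endp 0 (cat L).1)} ∧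
          act (B5W.dl u) L w = w'
      · rw [if_pos h1, if_pos ⟨h1.1, h1.2.1, e.1 h1.2.2⟩]
      · rw [if_neg h1, if_neg (fun h' => h1 ⟨h'.1, h'.2.1, e.2 h'.2.2⟩)]
    · congr

open Classical in
/-- a threshold of the down words gives a good set -/
lemma good_dn (H : ℕ) (c v η th : ℝ≥0∞) (Le : Site d → Prop)
    (hLe : ∀ z, Le z ↔ pz ν (IsDn u H) z ≤ th)
    (hm : c * v ≤ ∑' l : List (Step d), (if IsDn u H l ∧ Le (endp 0 l) then NB28.aw ν l else 0))
    (hup : c ≤ ∑' l : List (Step d), if IsUp u H l then NB28.aw ν l else 0)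
    (S : Set (Lat u)) (hS : th * JAsm139.card S ≤ η) :
    JAsm139.Good (Lam ν u) (B5W.ht u) (B5W.dl u) (c * c * v) η H S := by
  refine ⟨{L | Le (endp 0 (cat L).2)}, th, ?_, ?_, hS⟩
  · have h := lists_eq ν u H (fun π γ => Le (endp 0 γ))
    have h2 : ∑' L : List (PB u), (if HT (B5W.ht u) L = H ∧ L ∈ {L : List (PB u) | Le (endp 0 (cat L).2)}
        then LW (Lam ν u) L else 0)
        = (∑' l : List (Step d), if IsUp u H l then NB28.aw ν l else 0)
          * ∑' l : List (Step d), (if IsDn u H l ∧ Le (endp 0 l) then NB28.aw ν l else 0) := by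
      obtain ⟨A, hA⟩ : ∃ A : List (Step d) → Prop, ∀ l, A l ↔ (IsDn u H l ∧ Le (endp 0 l)) :=
        ⟨_, fun _ => Iff.rfl⟩
      rw [mass_prod' ν (IsUp u H) A _ _ (fun _ => Iff.rfl) hA]
      refine Eq.trans (tsum_congr fun L => ?_) (h.trans (tsum_congr fun π => tsum_congr fun γ => ?_))
      · rfl
      · have hAγ := hA γ
        by_cases h1 : IsUp u H π <;> by_cases h2 : IsDn u H γ <;>
          by_cases h3 : Le (endp 0 γ) <;> simp [h1, h2, h3, hAγ]
    rw [h2]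
    calc c * c * v = c * (c * v) := by ring
      _ ≤ _ := mul_le_mul' hup hm
  · intro w w'
    have h := lists_eq ν u H (fun π γ => Le (endp 0 γ) ∧ w.1 + endp 0 π + endp 0 γ = w'.1)
    have h2 := dens_le ν (IsDn u H) (IsUp u H) Le th (fun z hz => (hLe z).1 hz) (mass_up ν u H)
      w.1 w'.1
    refine le_trans (le_of_eq ?_) h2
    rw [ENNReal.tsum_comm]
    refine Eq.trans (tsum_congr fun L => ?_) (h.trans (tsum_congr fun π => tsum_congr fun γ => ?_))
    · have e : act (B5W.dl u) L w = w' ↔ w.1 + endp 0 (cat L).1 + endp 0 (cat L).2 = w'.1 :=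
        ⟨fun h5 => by rw [← h5]; exact (act_val u L w).symm,
          fun h5 => Subtype.ext ((act_val u L w).trans h5)⟩
      by_cases h1 : HT (B5W.ht u) L = H ∧ L ∈ {L : List (PB u) | Le (endp 0 (cat L).2)} ∧
          act (B5W.dl u) L w = w'
      · rw [if_pos h1, if_pos ⟨h1.1, h1.2.1, e.1 h1.2.2⟩]
      · rw [if_neg h1, if_neg (fun h' => h1 ⟨h'.1, h'.2.1, e.2 h'.2.2⟩)]
    · have e : w.1 + endp 0 π + endp 0 γ = w'.1 ↔ w.1 + endp 0 γ + endp 0 π = w'.1 := by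
        rw [add_right_comm]
      by_cases h1 : IsUp u H π ∧ IsDn u H γ ∧ Le (endp 0 γ) ∧ w.1 + endp 0 π + endp 0 γ = w'.1
      · rw [if_pos h1, if_pos ⟨h1.2.1, h1.1, h1.2.2.1, e.1 h1.2.2.2⟩, mul_comm]
      · rw [if_neg h1, if_neg (fun h' => h1 ⟨h'.2.1, h'.1, h'.2.2.1, e.2 h'.2.2.2⟩)]

open Classical in
/-- X local mass at one displacement -/
noncomputable def PX (s H : ℕ) (E : Finset (Site d)) (x : Site d) : ℝ≥0∞ :=
  ∑' π : List (Step d), ∑' γ : List (Step d),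
    (if IsUp u H π ∧ IsDn u H γ ∧ endp 0 π ∈ E ∧ (∃ k, k ∈ Cm u x π γ) ∧
      (∀ k ∈ Cm u x π γ, s < k) then NB28.aw ν π * NB28.aw ν γ else 0)

open Classical in
/-- Y local mass at one displacement -/
noncomputable def PY (s H : ℕ) (E : Finset (Site d)) (x : Site d) : ℝ≥0∞ :=
  ∑' π : List (Step d), ∑' γ : List (Step d),
    (if IsUp u H π ∧ IsDn u H γ ∧ endp 0 γ ∈ E ∧ (∃ k, k ∈ Cm u x π γ) ∧
      (∀ k ∈ Cm u x π γ, k + s ≤ H) then NB28.aw ν π * NB28.aw ν γ else 0)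

open Classical in
/-- the window mass at one displacement -/
lemma WL_le (s H : ℕ) (w : Lat u) (E1 E2 : Finset (Site d)) (Lo1 Lo2 : Site d → Prop)
    (h1 : ∀ z, z ∈ E1 ∨ Lo1 z) (h2 : ∀ z, z ∈ E2 ∨ Lo2 z) :
    JAsm139.WL (Lam ν u) (B5W.ht u) (B5W.dl u) (B5W.cd u) H s w
      ≤ PX ν u s H E1 w.1 + PY ν u s H E2 w.1
        + (∑' l : List (Step d), (if IsUp u H l ∧ Lo1 (endp 0 l) then NB28.aw ν l else 0))
          * ∑' l : List (Step d), (if IsDn u H l ∧ Lo2 (endp 0 l) then NB28.aw ν l else 0) := by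
  obtain ⟨R, hR⟩ : ∃ R : List (Step d) → List (Step d) → Prop, ∀ π γ, R π γ ↔
      (Cm u w.1 π γ ≠ ∅ ∧ ∀ k ∈ Cm u w.1 π γ, s < k ∧ k + s ≤ H) := ⟨_, fun _ _ => Iff.rfl⟩
  obtain ⟨A, hA⟩ : ∃ A : List (Step d) → Prop, ∀ l, A l ↔ (IsUp u H l ∧ Lo1 (endp 0 l)) :=
    ⟨_, fun _ => Iff.rfl⟩
  obtain ⟨B, hB⟩ : ∃ B : List (Step d) → Prop, ∀ l, B l ↔ (IsDn u H l ∧ Lo2 (endp 0 l)) :=
    ⟨_, fun _ => Iff.rfl⟩
  have h := lists_eq ν u H R
  have e : JAsm139.WL (Lam ν u) (B5W.ht u) (B5W.dl u) (B5W.cd u) H s w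
      = ∑' π : List (Step d), ∑' γ : List (Step d),
        (if IsUp u H π ∧ IsDn u H γ ∧ R π γ then NB28.aw ν π * NB28.aw ν γ else 0) := by
    refine Eq.trans (tsum_congr fun L => ?_) h
    have e1 : (HT (B5W.ht u) L = H ∧ CD (B5W.ht u) (B5W.dl u) (B5W.cd u) L w ≠ ∅ ∧
        (∀ k ∈ CD (B5W.ht u) (B5W.dl u) (B5W.cd u) L w, s < k ∧ k + s ≤ H)) ↔
        (HT (B5W.ht u) L = H ∧ R (cat L).1 (cat L).2) := by
      rw [hR, CD_cat, cds_eq]
    by_cases h1 : HT (B5W.ht u) L = H ∧ R (cat L).1 (cat L).2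
    · rw [if_pos h1, if_pos (e1.2 h1)]
    · rw [if_neg h1, if_neg (fun h' => h1 (e1.1 h'))]
  have eP : (∑' l : List (Step d), (if IsUp u H l ∧ Lo1 (endp 0 l) then NB28.aw ν l else 0))
      * ∑' l : List (Step d), (if IsDn u H l ∧ Lo2 (endp 0 l) then NB28.aw ν l else 0)
      = ∑' π : List (Step d), ∑' γ : List (Step d),
        (if A π ∧ B γ then NB28.aw ν π * NB28.aw ν γ else 0) := by
    rw [mass_prod ν A B]
    congr 1
    · refine tsum_congr fun l => ?_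
      by_cases h1 : A l
      · rw [if_pos h1, if_pos ((hA l).1 h1)]
      · rw [if_neg h1, if_neg (fun h' => h1 ((hA l).2 h'))]
    · refine tsum_congr fun l => ?_
      by_cases h1 : B l
      · rw [if_pos h1, if_pos ((hB l).1 h1)]
      · rw [if_neg h1, if_neg (fun h' => h1 ((hB l).2 h'))]
  rw [e, eP, PX, PY, ← ENNReal.tsum_add, ← ENNReal.tsum_add]
  refine ENNReal.tsum_le_tsum fun π => ?_
  rw [← ENNReal.tsum_add, ← ENNReal.tsum_add]
  refine ENNReal.tsum_le_tsum fun γ => ?_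
  by_cases hc : IsUp u H π ∧ IsDn u H γ ∧ R π γ
  · rw [if_pos hc]
    obtain ⟨hp, hg, hR'⟩ := hc
    obtain ⟨hne, hall⟩ := (hR π γ).1 hR'
    have hne' : ∃ k, k ∈ Cm u w.1 π γ := Set.nonempty_iff_ne_empty.2 hne
    by_cases a1 : endp 0 π ∈ E1
    · rw [if_pos (⟨hp, hg, a1, hne', fun k hk => (hall k hk).1⟩ : IsUp u H π ∧ IsDn u H γ ∧
        endp 0 π ∈ E1 ∧ (∃ k, k ∈ Cm u w.1 π γ) ∧ (∀ k ∈ Cm u w.1 π γ, s < k))]
      exact le_add_right (le_add_right le_rfl)
    by_cases a2 : endp 0 γ ∈ E2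
    · rw [if_pos (⟨hp, hg, a2, hne', fun k hk => (hall k hk).2⟩ : IsUp u H π ∧ IsDn u H γ ∧
        endp 0 γ ∈ E2 ∧ (∃ k, k ∈ Cm u w.1 π γ) ∧ (∀ k ∈ Cm u w.1 π γ, k + s ≤ H))]
      exact le_add_right (le_add_left le_rfl)
    · rw [if_pos (⟨(hA π).2 ⟨hp, (h1 _).resolve_left a1⟩, (hB γ).2 ⟨hg, (h2 _).resolve_left a2⟩⟩ :
        A π ∧ B γ)]
      exact le_add_left le_rfl
  · rw [if_neg hc]; exact zero_le

open Classical in
/-- **139's `hW`** for helper657's instance -/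
theorem hW_of (c : ℝ≥0∞)
    (hup : ∀ n, c ≤ ∑' l : List (Step d), if IsUp u n l then NB28.aw ν l else 0)
    (hdn : ∀ n, c ≤ ∑' l : List (Step d), if IsDn u n l then NB28.aw ν l else 0)
    (hc : c ≠ 0) (C : ℝ≥0∞) (hC : C ≠ ⊤) (us : ℕ → ℝ≥0∞)
    (hus : ∀ ε : ℝ≥0∞, ε ≠ 0 → ∃ s0 : ℕ, ∀ s, s0 ≤ s → us s ≤ ε)
    (h2 : E2 ν u C us) (h3 : E3 ν u C us) :
    ∀ v η : ℝ≥0∞, v ≠ 0 → v ≤ 1 → η ≠ 0 → ∃ s H0 : ℕ, ∀ H, H0 ≤ H → ∃ S1 S2 : Set (Lat u),
      JAsm139.Good (Lam ν u) (B5W.ht u) (B5W.dl u) (c * c * v) η H S1 ∧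
      JAsm139.Good (Lam ν u) (B5W.ht u) (B5W.dl u) (c * c * v) η H S2 ∧
      ∀ w, w ∉ S1 → w ∉ S2 →
        JAsm139.WL (Lam ν u) (B5W.ht u) (B5W.dl u) (B5W.cd u) H s w ≤ v * v + η := by
  intro v η hv0 hv1 hη
  set η1 := min η 1 with hη1
  have hη0 : η1 ≠ 0 := (lt_min (pos_iff_ne_zero.2 hη) one_pos).ne'
  have hηt : η1 ≠ ⊤ := ne_top_of_le_ne_top ENNReal.one_ne_top (min_le_right _ _)
  have hηle : η1 ≤ η := min_le_left _ _
  clear_value η1
  set K := C + 1 with hK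
  have hK0 : K ≠ 0 := by rw [hK]; simp
  have hKt : K ≠ ⊤ := by rw [hK]; simp [hC]
  have hCK : C ≤ K := le_self_add
  clear_value K
  have h8K0 : 8 * K ≠ 0 := mul_ne_zero (by norm_num) hK0
  have h8Kt : 8 * K ≠ ⊤ := ENNReal.mul_ne_top (by norm_num) hKt
  obtain ⟨lam, hlam⟩ : ∃ lam, lam = η1 / (8 * K) := ⟨_, rfl⟩
  have hl0 : lam ≠ 0 := by rw [hlam]; exact ENNReal.div_ne_zero.2 ⟨hη0, h8Kt⟩
  have hlt : lam ≠ ⊤ := by rw [hlam]; exact ENNReal.div_ne_top hηt h8K0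
  have hlK : K * (4 * lam) + K * (4 * lam) ≤ η := by
    calc K * (4 * lam) + K * (4 * lam) = 8 * K * lam := by ring
      _ = η1 := by rw [hlam]; exact ENNReal.mul_div_cancel h8K0 h8Kt
      _ ≤ η := hηle
  obtain ⟨s, hs⟩ := hus (min lam (lam * lam * η1))
    (lt_min (pos_iff_ne_zero.2 hl0) (pos_iff_ne_zero.2 (mul_ne_zero (mul_ne_zero hl0 hl0) hη0))).ne'
  have hs := hs s le_rfl
  have hs1 : us s ≤ lam := hs.trans (min_le_left _ _)
  have hs2 : us s ≤ lam * lam * η :=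
    (hs.trans (min_le_right _ _)).trans (mul_le_mul_right hηle _)
  refine ⟨s, 0, fun H _ => ?_⟩
  obtain ⟨th1, Lo1, Le1, ht1, hLo1, hLe1, hm1, hM1, F1, hF1, hc1⟩ :=
    thr ν (IsUp u H) c v hc (hup H) (mass_up ν u H) hv0 hv1
  obtain ⟨th2, Lo2, Le2, ht2, hLo2, hLe2, hm2, hM2, F2, hF2, hc2⟩ :=
    thr ν (IsDn u H) c v hc (hdn H) (mass_dn ν u H) hv0 hv1
  refine ⟨{w | K * (4 * lam) < PX ν u s H F1 w.1}, {w | K * (4 * lam) < PY ν u s H F2 w.1},
    ?_, ?_, ?_⟩
  · refine good_up ν u H c v η th1 Le1 hLe1 hM1 (hdn H) _ ?_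
    refine cnt (fun w : Lat u => PX ν u s H F1 w.1) K lam (us s) F1.card th1 η hK0 hKt hl0 hlt hs1
      hc1 hs2 fun S hS => ?_
    refine avg u (PX ν u s H F1) (fun M => K * (lam + M * F1.card * us s / lam + us s)) ?_ S hS
    intro μ M hμ hM hM0 hMt
    exact (h2 s H F1 μ M lam hμ hM hM0 hMt hl0 hlt).trans (mul_le_mul_left hCK _)
  · refine good_dn ν u H c v η th2 Le2 hLe2 hM2 (hup H) _ ?_
    refine cnt (fun w : Lat u => PY ν u s H F2 w.1) K lam (us s) F2.card th2 η hK0 hKt hl0 hlt hs1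
      hc2 hs2 fun S hS => ?_
    refine avg u (PY ν u s H F2) (fun M => K * (lam + M * F2.card * us s / lam + us s)) ?_ S hS
    intro μ M hμ hM hM0 hMt
    exact (h3 s H F2 μ M lam hμ hM hM0 hMt hl0 hlt).trans (mul_le_mul_left hCK _)
  · intro w hw1 hw2
    have hw1 : PX ν u s H F1 w.1 ≤ K * (4 * lam) := not_lt.1 hw1
    have hw2 : PY ν u s H F2 w.1 ≤ K * (4 * lam) := not_lt.1 hw2
    refine (WL_le ν u s H w F1 F2 Lo1 Lo2 (fun z => ?_) (fun z => ?_)).trans ?_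
    · rw [hF1, hLo1]; exact le_or_gt _ _
    · rw [hF2, hLo2]; exact le_or_gt _ _
    calc _ ≤ K * (4 * lam) + K * (4 * lam) + v * v := by
          refine add_le_add (add_le_add hw1 hw2) (mul_le_mul' hm1 hm2)
      _ ≤ η + v * v := by gcongr
      _ = v * v + η := add_comm _ _

end Crest.Agent.R154.JW141
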