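import Crest.Agent.R154.JComp_598
import Crest.Agent.R154.Num_873

/-! Row 154 (helper362), ROAD 801 on joint cuts: `hWin` of `JComp_598.comp` from the one-piece input. -/

set_option autoImplicit false

namespace Crest.Agent.R154.JW362

open scoped ENNReal
open Crest.Agent.R154.B5A
open Crest.Agent.R154.FP178 (fp)
open Crest.Agent.R154.JC598 (WLp SLb)

variable {B W : Type*} (Λ : B → ℝ≥0∞) (ht : B → ℕ) (dl : B → W → W) (cd : W → B → Set ℕ)

lemma act_inj (hinj : ∀ b, Function.Injective (dl b)) (L : List B) :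
    Function.Injective (act dl L) := by
  induction L with
  | nil => exact fun _ _ h => h
  | cons b L ih => exact fun x y h => hinj b (ih h)

lemma fp_of_HT (h1 : ∀ b, 1 ≤ ht b) {H : ℕ} {L : List B} (h : HT ht L = H) : fp ht H L := by
  induction L generalizing H with
  | nil => rw [FP178.fp_nil]; rw [HT_nil] at h; omega
  | cons b L ih =>
    rw [FP178.fp_cons]
    rw [HT_cons] at h
    have := h1 b
    exact ⟨by omega, ih (by omega)⟩

open Classical in
lemma fiber (g : List B → ℝ≥0∞) (w : W) (G : W → ℝ≥0∞) :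
    ∑' L, g L * G (act dl L w)
      = ∑' w', (∑' L, if act dl L w = w' then g L else 0) * G w' := by
  have e1 : ∀ L : List B, g L * G (act dl L w)
      = ∑' w', (if act dl L w = w' then g L else 0) * G w' := by
    intro L
    rw [tsum_eq_single (act dl L w)]
    · rw [if_pos rfl]
    · intro w' hw'
      rw [if_neg (fun h => hw' h.symm), zero_mul]
  rw [tsum_congr e1, ENNReal.tsum_comm]
  exact tsum_congr fun w' => ENNReal.tsum_mul_right

open Classical in
/-- duality form of the density at the first passage -/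
theorem dual (h1 : ∀ b, 1 ≤ ht b) (hΛ : ∑' b, Λ b = 1) (hU1 : ∀ n, U Λ ht n ≤ 1)
    (hinj : ∀ b, Function.Injective (dl b))
    (th q : ℝ≥0∞) (H i0 : ℕ) (low : List B → Prop)
    (hlow : ∀ w w', (∑' L : List B, if HT ht L = H ∧ low L ∧ act dl L w = w' then LW Λ L else 0) ≤ th)
    (hq : q ≤ ∑' L : List B, if HT ht L = H ∧ low L then LW Λ L else 0)
    (F : W → ℝ≥0∞) (hF : ∀ w, F w ≤ 1) (J : ℕ) : ∀ a, J * (H + i0) ≤ a → ∀ w,
    ∑' A : List B, (if fp ht a A then LW Λ A * F (act dl A w) else 0)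
      ≤ J * th * ∑' w', F w' + ((1 - q) ^ J + J * ∑' k, tail Λ ht (i0 + k)) := by
  have hfp1 : ∀ a w, ∑' A : List B, (if fp ht a A then LW Λ A * F (act dl A w) else 0) ≤ 1 := by
    intro a w
    refine le_trans (ENNReal.tsum_le_tsum fun A => ?_) (FP178.sum_FP Λ ht h1 hΛ.le a)
    by_cases h : fp ht a A
    · rw [if_pos h, if_pos h]
      calc _ ≤ LW Λ A * 1 := mul_le_mul_right (hF _) _
        _ = _ := mul_one _
    · rw [if_neg h, if_neg h]
  induction J with
  | zero =>
    intro a _ w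
    refine (hfp1 a w).trans ?_
    simp
  | succ J ih =>
    intro a ha w
    set tl := ∑' k, tail Λ ht (i0 + k) with htl
    set R : ℝ≥0∞ := J * th * ∑' w', F w' + ((1 - q) ^ J + J * tl) with hR
    have hHa : H ≤ a := by
      have : (J + 1) * (H + i0) = J * (H + i0) + (H + i0) := by ring
      omega
    rw [FP178.fp_split Λ ht h1 H a hHa]
    set T1 : List B → ℝ≥0∞ := fun C => if HT ht C = H ∧ low C then
      LW Λ C * ∑' L, (if fp ht (a - H) L then LW Λ L * F (act dl L (act dl C w)) else 0) else 0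
      with hT1
    set T2 : List B → ℝ≥0∞ := fun C =>
      (if fp ht H C ∧ ¬ (HT ht C = H ∧ low C) then LW Λ C else 0) * R with hT2
    set T3 : List B → ℝ≥0∞ := fun C => if fp ht H C ∧ H + i0 < HT ht C then LW Λ C else 0 with hT3
    have hpt : ∀ C : List B, (if fp ht H C then LW Λ C *
        ∑' L, (if fp ht (a - HT ht C) L then LW Λ L * F (act dl (C ++ L) w) else 0) else 0)
        ≤ T1 C + (T2 C + T3 C) := by
      intro C
      by_cases hC : fp ht H C
      · rw [if_pos hC]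
        simp only [act_append]
        by_cases hhit : HT ht C = H ∧ low C
        · refine le_trans ?_ le_self_add
          simp only [hT1, if_pos hhit]
          rw [hhit.1]
        · refine le_trans ?_ le_add_self
          by_cases hfar : H + i0 < HT ht C
          · refine le_trans ?_ le_add_self
            simp only [hT3]
            rw [if_pos (⟨hC, hfar⟩ : fp ht H C ∧ H + i0 < HT ht C)]
            calc _ ≤ LW Λ C * 1 := mul_le_mul_right (hfp1 _ _) _
              _ = _ := mul_one _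
          · refine le_trans ?_ le_self_add
            simp only [hT2]
            rw [if_pos (⟨hC, hhit⟩ : fp ht H C ∧ ¬ (HT ht C = H ∧ low C))]
            refine mul_le_mul_right (ih _ ?_ _) _
            have : (J + 1) * (H + i0) = J * (H + i0) + (H + i0) := by ring
            omega
      · rw [if_neg hC]; exact zero_le
    refine (ENNReal.tsum_le_tsum hpt).trans ?_
    rw [ENNReal.tsum_add, ENNReal.tsum_add]
    have b1 : ∑' C, T1 C ≤ th * ∑' w', F w' := by
      have e1 : ∑' C, T1 C = ∑' L : List B, (if fp ht (a - H) L then LW Λ L *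
          ∑' C : List B, (if HT ht C = H ∧ low C then LW Λ C else 0) *
            F (act dl L (act dl C w)) else 0) := by
        have : ∀ C, T1 C = ∑' L : List B, (if fp ht (a - H) L then LW Λ L *
            ((if HT ht C = H ∧ low C then LW Λ C else 0) * F (act dl L (act dl C w))) else 0) := by
          intro C
          simp only [hT1]
          by_cases h : HT ht C = H ∧ low C
          · simp only [if_pos h]
            rw [← ENNReal.tsum_mul_left]
            refine tsum_congr fun L => ?_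
            by_cases h' : fp ht (a - H) L
            · rw [if_pos h', if_pos h', mul_left_comm]
            · rw [if_neg h', if_neg h', mul_zero]
          · simp [h]
        rw [tsum_congr this, ENNReal.tsum_comm]
        refine tsum_congr fun L => ?_
        by_cases h' : fp ht (a - H) L
        · simp only [if_pos h']
          rw [ENNReal.tsum_mul_left]
        · simp [h']
      rw [e1]
      calc _ ≤ ∑' L : List B, (if fp ht (a - H) L then LW Λ L else 0) * (th * ∑' w', F w') := by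
            refine ENNReal.tsum_le_tsum fun L => ?_
            by_cases h' : fp ht (a - H) L
            · rw [if_pos h', if_pos h']
              refine mul_le_mul_right ?_ _
              rw [fiber dl (fun C => if HT ht C = H ∧ low C then LW Λ C else 0) w
                (fun x => F (act dl L x))]
              calc _ ≤ ∑' w', th * F (act dl L w') := by
                    refine ENNReal.tsum_le_tsum fun w' => mul_le_mul_left ?_ _
                    refine le_trans (le_of_eq ?_) (hlow w w')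
                    refine tsum_congr fun C => ?_
                    by_cases h2 : act dl C w = w' <;> by_cases h3 : HT ht C = H ∧ low C
                    · rw [if_pos h2, if_pos h3, if_pos ⟨h3.1, h3.2, h2⟩]
                    · rw [if_pos h2, if_neg h3, if_neg (fun h => h3 ⟨h.1, h.2.1⟩)]
                    · rw [if_neg h2, if_neg (fun h => h2 h.2.2)]
                    · rw [if_neg h2, if_neg (fun h => h2 h.2.2)]
                _ = th * ∑' w', F (act dl L w') := ENNReal.tsum_mul_left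
                _ ≤ _ := mul_le_mul_right
                    (ENNReal.tsum_comp_le_tsum_of_injective (act_inj dl hinj L) F) _
            · rw [if_neg h', if_neg h', zero_mul]
        _ = (∑' L : List B, if fp ht (a - H) L then LW Λ L else 0) * (th * ∑' w', F w') :=
            ENNReal.tsum_mul_right
        _ ≤ 1 * (th * ∑' w', F w') := mul_le_mul_left (FP178.sum_FP Λ ht h1 hΛ.le _) _
        _ = _ := one_mul _
    have b2 : ∑' C, T2 C ≤ (1 - q) * R := by
      simp only [hT2]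
      rw [ENNReal.tsum_mul_right]
      refine mul_le_mul_left ?_ _
      have h5 : ∑' C : List B, (if fp ht H C ∧ ¬ (HT ht C = H ∧ low C) then LW Λ C else 0)
          + ∑' C : List B, (if HT ht C = H ∧ low C then LW Λ C else 0) ≤ 1 := by
        rw [← ENNReal.tsum_add]
        refine le_trans (ENNReal.tsum_le_tsum fun C => ?_) (FP178.sum_FP Λ ht h1 hΛ.le H)
        by_cases hh : HT ht C = H ∧ low C
        · rw [if_neg (fun h => h.2 hh), if_pos hh, zero_add, if_pos (fp_of_HT ht h1 hh.1)]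
        · rw [if_neg hh, add_zero]
          by_cases h6 : fp ht H C
          · rw [if_pos ⟨h6, hh⟩, if_pos h6]
          · rw [if_neg (fun h => h6 h.1), if_neg h6]
      have hY : ∑' C : List B, (if HT ht C = H ∧ low C then LW Λ C else 0) ≠ ⊤ :=
        ne_top_of_le_ne_top ENNReal.one_ne_top (le_add_self.trans h5)
      exact (ENNReal.le_sub_of_add_le_right hY h5).trans (tsub_le_tsub_left hq 1)
    have b3 : ∑' C, T3 C ≤ tl := FP178.overshoot Λ ht h1 hU1 i0 H
    have b4 : (1 - q) * R ≤ J * th * ∑' w', F w' + ((1 - q) ^ (J + 1) + J * tl) := by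
      have h1q : (1 - q) ≤ 1 := tsub_le_self
      rw [hR, mul_add, mul_add]
      refine add_le_add ?_ (add_le_add ?_ ?_)
      · calc _ ≤ 1 * (J * th * ∑' w', F w') := mul_le_mul_left h1q _
          _ = _ := one_mul _
      · rw [pow_succ, mul_comm]
      · calc _ ≤ 1 * (J * tl) := mul_le_mul_left h1q _
          _ = _ := one_mul _
    calc _ ≤ th * ∑' w', F w' + ((J * th * ∑' w', F w' + ((1 - q) ^ (J + 1) + J * tl)) + tl) :=
          add_le_add b1 (add_le_add (b2.trans b4) b3)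
      _ = _ := by push_cast; ring

open Classical in
/-- class function along the first passage: density `≤ J th` up to the bad mass -/
theorem use (h1 : ∀ b, 1 ≤ ht b) (hΛ : ∑' b, Λ b = 1) (hU1 : ∀ n, U Λ ht n ≤ 1)
    (hinj : ∀ b, Function.Injective (dl b))
    (th q : ℝ≥0∞) (H i0 : ℕ) (low : List B → Prop)
    (hlow : ∀ w w', (∑' L : List B, if HT ht L = H ∧ low L ∧ act dl L w = w' then LW Λ L else 0) ≤ th)
    (hq : q ≤ ∑' L : List B, if HT ht L = H ∧ low L then LW Λ L else 0)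
    (Fi : W → ℝ≥0∞) (hFi : ∀ w, Fi w ≤ 1) (J : ℕ) (D : ℝ≥0∞)
    (hD : ∀ nu : W → ℝ≥0∞, ∑' w, nu w ≤ 1 → (∀ w, nu w ≤ J * th) → ∑' w, nu w * Fi w ≤ D)
    (a : ℕ) (ha : J * (H + i0) ≤ a) (w : W) :
    ∑' A : List B, (if fp ht a A then LW Λ A * Fi (act dl A w) else 0)
      ≤ D + ((1 - q) ^ J + J * ∑' k, tail Λ ht (i0 + k)) := by
  set g : List B → ℝ≥0∞ := fun A => if fp ht a A then LW Λ A else 0 with hg
  set nu : W → ℝ≥0∞ := fun w' => ∑' A, if act dl A w = w' then g A else 0 with hnu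
  have hint : ∀ G : W → ℝ≥0∞, ∑' A : List B, (if fp ht a A then LW Λ A * G (act dl A w) else 0)
      = ∑' w', nu w' * G w' := by
    intro G
    rw [← fiber dl g w G]
    refine tsum_congr fun A => ?_
    simp only [hg]
    by_cases h : fp ht a A <;> simp [h]
  have hnu1 : ∑' w', nu w' ≤ 1 := by
    have := hint (fun _ => 1)
    simp only [mul_one] at this
    rw [← this]
    exact FP178.sum_FP Λ ht h1 hΛ.le a
  set M : ℝ≥0∞ := J * th with hM
  set one : W → ℝ≥0∞ := fun w' => if M < nu w' then 1 else 0 with hone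
  have hdual := dual Λ ht dl h1 hΛ hU1 hinj th q H i0 low hlow hq one
    (fun w => by simp only [hone]; split_ifs <;> simp) J a ha w
  rw [hint one] at hdual
  set bad : ℝ≥0∞ := (1 - q) ^ J + J * ∑' k, tail Λ ht (i0 + k) with hbad
  have hsplit : ∑' w', (nu w' - M) + M * ∑' w', one w' = ∑' w', nu w' * one w' := by
    rw [← ENNReal.tsum_mul_left, ← ENNReal.tsum_add]
    refine tsum_congr fun w' => ?_
    simp only [hone]
    by_cases h : M < nu w'
    · rw [if_pos h, mul_one, mul_one, tsub_add_cancel_of_le h.le]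
    · rw [if_neg h, mul_zero, mul_zero, add_zero, tsub_eq_zero_of_le (not_lt.1 h)]
  have hfin : M * ∑' w', one w' ≠ ⊤ := by
    refine ne_top_of_le_ne_top ENNReal.one_ne_top ?_
    calc M * ∑' w', one w' ≤ ∑' w', nu w' * one w' := by rw [← hsplit]; exact le_add_self
      _ ≤ ∑' w', nu w' := by
          refine ENNReal.tsum_le_tsum fun w' => ?_
          calc _ ≤ nu w' * 1 := mul_le_mul_right (by simp only [hone]; split_ifs <;> simp) _
            _ = _ := mul_one _
      _ ≤ 1 := hnu1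
  have hrest : ∑' w', (nu w' - M) ≤ bad := by
    rw [← hsplit, add_comm] at hdual
    exact (ENNReal.add_le_add_iff_left hfin).1 hdual
  rw [hint Fi]
  calc ∑' w', nu w' * Fi w' ≤ ∑' w', (min (nu w') M * Fi w' + (nu w' - M)) := by
        refine ENNReal.tsum_le_tsum fun w' => ?_
        rcases le_total (nu w') M with h | h
        · rw [min_eq_left h]; exact le_self_add
        · rw [min_eq_right h]
          calc nu w' * Fi w' = (M + (nu w' - M)) * Fi w' := by rw [add_tsub_cancel_of_le h]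
            _ = M * Fi w' + (nu w' - M) * Fi w' := by rw [add_mul]
            _ ≤ M * Fi w' + (nu w' - M) * 1 := add_le_add le_rfl (mul_le_mul_right (hFi _) _)
            _ = _ := by rw [mul_one]
    _ = ∑' w', min (nu w') M * Fi w' + ∑' w', (nu w' - M) := ENNReal.tsum_add
    _ ≤ D + bad := add_le_add (hD _ ((ENNReal.tsum_le_tsum fun w' => min_le_left _ _).trans hnu1)
        fun w' => min_le_right _ _) hrest

open Classical in
/-- pieces of exact height `H` of the class `loc`, contact, all contacts in the middle -/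
noncomputable def FI (loc : List B → Prop) (H s : ℕ) (w : W) : ℝ≥0∞ :=
  ∑' L : List B, if HT ht L = H ∧ loc L ∧ (∃ k, k ∈ CD ht dl cd L w) ∧
    (∀ k ∈ CD ht dl cd L w, s < k ∧ k + s ≤ H) then LW Λ L else 0

open Classical in
/-- one-piece input for one walker -/
def PT (q A : ℝ≥0∞) (δ : ℕ → ℝ≥0∞) (H : ℕ) (loc : List B → Prop) : Prop :=
  ∃ (th : ℝ≥0∞) (low : List B → Prop),
    (∀ w w', (∑' L : List B, if HT ht L = H ∧ low L ∧ act dl L w = w' then LW Λ L else 0) ≤ th) ∧
    (q ≤ ∑' L : List B, if HT ht L = H ∧ low L then LW Λ L else 0) ∧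
    ∀ (s J : ℕ) (lam : ℝ≥0∞), lam ≠ 0 → lam ≠ ⊤ → ∀ nu : W → ℝ≥0∞, ∑' w, nu w ≤ 1 →
      (∀ w, nu w ≤ J * th) →
      ∑' w, nu w * FI Λ ht dl cd loc H s w ≤ A * (lam + J * δ s / lam + δ s)

open Classical in
lemma FI_le_one (hU1 : ∀ n, U Λ ht n ≤ 1) (loc : List B → Prop) (H s : ℕ) (w : W) :
    FI Λ ht dl cd loc H s w ≤ 1 := by
  refine le_trans (ENNReal.tsum_le_tsum fun L => ?_) (hU1 H)
  by_cases h : HT ht L = H ∧ loc L ∧ (∃ k, k ∈ CD ht dl cd L w) ∧
    (∀ k ∈ CD ht dl cd L w, s < k ∧ k + s ≤ H)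
  · rw [if_pos h, if_pos h.1]
  · rw [if_neg h]; exact zero_le

open Classical in
lemma WLp_le (lx ly : List B → Prop) (H s : ℕ) (w : W) :
    WLp Λ ht dl cd H s w ≤ (∑' L : List B, if HT ht L = H ∧ ¬ lx L ∧ ¬ ly L then LW Λ L else 0)
      + (FI Λ ht dl cd lx H s w + FI Λ ht dl cd ly H s w) := by
  unfold WLp FI
  rw [← ENNReal.tsum_add, ← ENNReal.tsum_add]
  refine ENNReal.tsum_le_tsum fun L => ?_
  by_cases h : HT ht L = H ∧ (∃ k, k ∈ CD ht dl cd L w) ∧
    (∀ k ∈ CD ht dl cd L w, s < k ∧ k + s ≤ H)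
  · rw [if_pos h]
    by_cases hx : lx L
    · refine le_trans ?_ le_add_self
      refine le_trans ?_ le_self_add
      rw [if_pos ⟨h.1, hx, h.2⟩]
    · by_cases hy : ly L
      · refine le_trans ?_ le_add_self
        refine le_trans ?_ le_add_self
        rw [if_pos ⟨h.1, hy, h.2⟩]
      · refine le_trans ?_ le_self_add
        rw [if_pos ⟨h.1, hx, hy⟩]
  · rw [if_neg h]; exact zero_le

open Classical in
/-- one window -/
lemma one_win (h1 : ∀ b, 1 ≤ ht b) (hΛ : ∑' b, Λ b = 1) (hU1 : ∀ n, U Λ ht n ≤ 1)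
    (hinj : ∀ b, Function.Injective (dl b)) (q A : ℝ≥0∞) (δ : ℕ → ℝ≥0∞) (H i0 s J : ℕ)
    (lx ly : List B → Prop) (v : ℝ≥0∞)
    (hNL : (∑' L : List B, if HT ht L = H ∧ ¬ lx L ∧ ¬ ly L then LW Λ L else 0) ≤ v * v)
    (hx : PT Λ ht dl cd q A δ H lx) (hy : PT Λ ht dl cd q A δ H ly)
    (lam : ℝ≥0∞) (hl : lam ≠ 0) (hl' : lam ≠ ⊤) (a : ℕ) (ha : J * (H + i0) ≤ a) (w : W) :
    ∑' B, (if fp ht a B then LW Λ B * WLp Λ ht dl cd H s (act dl B w) else 0)
      ≤ v * v + 2 * (A * (lam + J * δ s / lam + δ s)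
        + ((1 - q) ^ J + J * ∑' k, tail Λ ht (i0 + k))) := by
  obtain ⟨tx, sx, hx1, hx2, hx3⟩ := hx
  obtain ⟨ty, sy, hy1, hy2, hy3⟩ := hy
  have u1 := use Λ ht dl h1 hΛ hU1 hinj tx q H i0 sx hx1 hx2 (FI Λ ht dl cd lx H s)
    (FI_le_one Λ ht dl cd hU1 lx H s) J _ (fun nu h h' => hx3 s J lam hl hl' nu h h') a ha w
  have u2 := use Λ ht dl h1 hΛ hU1 hinj ty q H i0 sy hy1 hy2 (FI Λ ht dl cd ly H s)
    (FI_le_one Λ ht dl cd hU1 ly H s) J _ (fun nu h h' => hy3 s J lam hl hl' nu h h') a ha w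
  set E := A * (lam + J * δ s / lam + δ s) + ((1 - q) ^ J + J * ∑' k, tail Λ ht (i0 + k)) with hE
  have hpt : ∀ B : List B, (if fp ht a B then LW Λ B * WLp Λ ht dl cd H s (act dl B w) else 0)
      ≤ (if fp ht a B then LW Λ B else 0) * (v * v)
        + ((if fp ht a B then LW Λ B * FI Λ ht dl cd lx H s (act dl B w) else 0)
        + (if fp ht a B then LW Λ B * FI Λ ht dl cd ly H s (act dl B w) else 0)) := by
    intro B
    by_cases h : fp ht a B
    · simp only [if_pos h]
      rw [← mul_add, ← mul_add]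
      exact mul_le_mul_right ((WLp_le Λ ht dl cd lx ly H s _).trans (add_le_add hNL le_rfl)) _
    · simp [h]
  refine (ENNReal.tsum_le_tsum hpt).trans ?_
  rw [ENNReal.tsum_add, ENNReal.tsum_add, ENNReal.tsum_mul_right]
  calc _ ≤ 1 * (v * v) + (E + E) :=
        add_le_add (mul_le_mul_left (FP178.sum_FP Λ ht h1 hΛ.le a) _) (add_le_add u1 u2)
    _ = _ := by rw [one_mul, two_mul]

/-- the constants `J`, `v` -/
lemma consts (c : ℝ≥0∞) (hc : c ≠ 0) (hc1 : c ≤ 1) (e : ℝ≥0∞) (he : e ≠ 0) :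
    ∃ (J : ℕ) (v : ℝ≥0∞), 1 ≤ J ∧ v ≠ 0 ∧ v ≤ c ∧ ((16 * J : ℕ) : ℝ≥0∞) * (v * v) ≤ e ∧
      ((16 * J : ℕ) : ℝ≥0∞) * (1 - c * v) ^ J ≤ e := by
  have hct : c ≠ ⊤ := ne_top_of_le_ne_top ENNReal.one_ne_top hc1
  set e' : ℝ≥0∞ := min (min (e * c ^ 2) e) (c ^ 4) with he'
  have he'0 : e' ≠ 0 := by
    rw [he']
    exact (lt_min (lt_min (pos_iff_ne_zero.2 (mul_ne_zero he (pow_ne_zero _ hc)))
      (pos_iff_ne_zero.2 he)) (pos_iff_ne_zero.2 (pow_ne_zero _ hc))).ne'
  obtain ⟨K0, hK0⟩ := Num873.num 16 (by norm_num) e' he'0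
  obtain ⟨u, hu0, hu1, h3, h4⟩ := hK0 (16 * (K0 + 1)) (by omega)
  have hut : u ≠ ⊤ := ne_top_of_lt hu1
  set J := K0 + 1 with hJ
  have hdiv : 16 * J / 16 = J := by omega
  rw [hdiv] at h4
  have hle : ((16 * J : ℕ) : ℝ≥0∞) ≤ ((16 * (16 * J + 16) : ℕ) : ℝ≥0∞) := by
    exact_mod_cast (by omega : 16 * J ≤ 16 * (16 * J + 16))
  have hone : (1 : ℝ≥0∞) ≤ ((16 * (16 * J + 16) : ℕ) : ℝ≥0∞) := by
    exact_mod_cast (by omega : 1 ≤ 16 * (16 * J + 16))
  have hu2 : u ^ 2 ≤ (c ^ 2) ^ 2 := by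
    calc u ^ 2 = 1 * u ^ 2 := (one_mul _).symm
      _ ≤ _ := mul_le_mul_left hone _
      _ ≤ e' := h3
      _ ≤ c ^ 4 := min_le_right _ _
      _ = _ := by ring
  have huc : u ≤ c ^ 2 := le_of_not_gt fun h => absurd hu2 (not_le.2
    (ENNReal.pow_right_strictMono (n := 2) (by norm_num) h))
  refine ⟨J, c⁻¹ * u, by omega, mul_ne_zero (ENNReal.inv_ne_zero.2 hct) hu0, ?_, ?_, ?_⟩
  · calc c⁻¹ * u ≤ c⁻¹ * c ^ 2 := mul_le_mul_right huc _
      _ = c := by rw [sq, ← mul_assoc, ENNReal.inv_mul_cancel hc hct, one_mul]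
  · have h7 : (c⁻¹ * u) * (c⁻¹ * u) = (c ^ 2)⁻¹ * u ^ 2 := by
      rw [ENNReal.inv_pow]; ring
    rw [h7]
    calc ((16 * J : ℕ) : ℝ≥0∞) * ((c ^ 2)⁻¹ * u ^ 2)
        = (c ^ 2)⁻¹ * (((16 * J : ℕ) : ℝ≥0∞) * u ^ 2) := by ring
      _ ≤ (c ^ 2)⁻¹ * e' := mul_le_mul_right ((mul_le_mul_left hle _).trans h3) _
      _ ≤ (c ^ 2)⁻¹ * (e * c ^ 2) :=
          mul_le_mul_right ((min_le_left _ _).trans (min_le_left _ _)) _
      _ = e := by
          rw [mul_comm e, ← mul_assoc, ENNReal.inv_mul_cancel (pow_ne_zero _ hc)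
            (ENNReal.pow_ne_top hct), one_mul]
  · rw [← mul_assoc, ENNReal.mul_inv_cancel hc hct, one_mul]
    exact (mul_le_mul_left hle _).trans (h4.trans ((min_le_left _ _).trans (min_le_right _ _)))

open Classical in
/-- **`hWin` of `JComp_598.comp`** -/
theorem win (h1 : ∀ b, 1 ≤ ht b) (hΛ : ∑' b, Λ b = 1)
    (hinj : ∀ b, Function.Injective (dl b))
    (c : ℝ≥0∞) (hc : c ≠ 0) (hU : ∀ n, c ≤ U Λ ht n) (hU1 : ∀ n, U Λ ht n ≤ 1)
    (A : ℝ≥0∞) (hA : A ≠ ⊤) (δ : ℕ → ℝ≥0∞) (hδ : Filter.Tendsto δ Filter.atTop (nhds 0))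
    (hP : ∀ v : ℝ≥0∞, v ≠ 0 → v ≤ c → ∀ H : ℕ, ∃ lx ly : List B → Prop,
      ((∑' L : List B, if HT ht L = H ∧ ¬ lx L ∧ ¬ ly L then LW Λ L else 0) ≤ v * v) ∧
      PT Λ ht dl cd (c * v) A δ H lx ∧ PT Λ ht dl cd (c * v) A δ H ly) :
    ∀ ε : ℝ≥0∞, ε ≠ 0 → ∃ K s H0 : ℕ, 4 ≤ K ∧ ∀ H, H0 ≤ H → ∀ a, K * H ≤ 8 * a → ∀ w,
      ∑' A, (if fp ht a A then LW Λ A * WLp Λ ht dl cd H s (act dl A w) else 0) ≤ ε / K := by
  intro ε hε
  have hc1 : c ≤ 1 := (hU 0).trans (hU1 0)
  have hct : c ≠ ⊤ := ne_top_of_le_ne_top ENNReal.one_ne_top hc1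
  set e : ℝ≥0∞ := min ε 1 / 9 with he
  have he0 : e ≠ 0 := by
    rw [he]
    refine ENNReal.div_ne_zero.2 ⟨?_, by norm_num⟩
    simp [hε]
  have het : e ≠ ⊤ := by
    rw [he]
    exact ENNReal.div_ne_top (ne_top_of_le_ne_top ENNReal.one_ne_top (min_le_right _ _)) (by norm_num)
  have he9 : 9 * e ≤ ε := by
    rw [he, ENNReal.mul_div_cancel (by norm_num) (by norm_num)]
    exact min_le_left _ _
  obtain ⟨J, v, hJ1, hv0, hvc, hKv, hKq⟩ := consts c hc hc1 e he0
  set K : ℕ := 16 * J with hK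
  have hKt : (K : ℝ≥0∞) ≠ ⊤ := ENNReal.natCast_ne_top K
  have hJt : (J : ℝ≥0∞) ≠ ⊤ := ENNReal.natCast_ne_top J
  -- `lam`
  obtain ⟨l0, hl0, hl1⟩ := ENNReal.exists_nnreal_pos_mul_lt (ENNReal.mul_ne_top hKt hA) he0
  have hlam0 : (l0 : ℝ≥0∞) ≠ 0 := by exact_mod_cast hl0.ne'
  have hlamt : (l0 : ℝ≥0∞) ≠ ⊤ := ENNReal.coe_ne_top
  -- `s`
  have hts : Filter.Tendsto (fun s => K * A * (J * δ s / (l0 : ℝ≥0∞) + δ s)) Filter.atTop (nhds 0) := by
    have t1 : Filter.Tendsto (fun s => (J : ℝ≥0∞) * δ s / (l0 : ℝ≥0∞)) Filter.atTop (nhds 0) := by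
      have := ENNReal.Tendsto.const_mul (a := (J : ℝ≥0∞) * (l0 : ℝ≥0∞)⁻¹) hδ
        (Or.inr (ENNReal.mul_ne_top hJt (ENNReal.inv_ne_top.2 hlam0)))
      rw [mul_zero] at this
      refine this.congr fun s => ?_
      rw [ENNReal.div_eq_inv_mul]; ring
    have t2 := ENNReal.Tendsto.const_mul (a := (K : ℝ≥0∞) * A) (t1.add hδ)
      (Or.inr (ENNReal.mul_ne_top hKt hA))
    simpa using t2
  obtain ⟨s, hs⟩ := Filter.eventually_atTop.1 (hts.eventually_le_const (pos_iff_ne_zero.2 he0))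
  have hs' := hs s le_rfl
  -- `i0`
  obtain ⟨e2, he2, he2'⟩ := ENNReal.exists_nnreal_pos_mul_lt (ENNReal.mul_ne_top hKt hJt) he0
  have he20 : (e2 : ℝ≥0∞) ≠ 0 := by exact_mod_cast he2.ne'
  obtain ⟨I, hI⟩ := JC598.tails Λ ht h1 hΛ c hc hct hU _ he20
  have hI' := hI I le_rfl
  refine ⟨K, s, I, by omega, fun H hH a ha w => ?_⟩
  obtain ⟨lx, ly, hNL, hx, hy⟩ := hP v hv0 hvc H
  have haJ : J * (H + I) ≤ a := by
    have h5 : J * (H + I) ≤ J * (2 * H) := Nat.mul_le_mul_left _ (by omega)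
    have h6 : J * (2 * H) = 2 * (J * H) := by ring
    have h7 : K * H = 16 * (J * H) := by rw [hK]; ring
    omega
  refine (one_win Λ ht dl cd h1 hΛ hU1 hinj (c * v) A δ H I s J lx ly v hNL hx hy l0 hlam0 hlamt
    a haJ w).trans ?_
  have hK0 : (K : ℝ≥0∞) ≠ 0 := by
    have : K ≠ 0 := by omega
    exact_mod_cast this
  rw [ENNReal.le_div_iff_mul_le (Or.inl hK0) (Or.inl hKt), mul_comm]
  calc (K : ℝ≥0∞) * (v * v + 2 * (A * ((l0 : ℝ≥0∞) + J * δ s / l0 + δ s)
        + ((1 - c * v) ^ J + J * ∑' k, tail Λ ht (I + k))))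
      = K * (v * v) + 2 * (K * A * l0) + 2 * (K * A * (J * δ s / l0 + δ s))
        + 2 * (K * (1 - c * v) ^ J) + 2 * (K * J * ∑' k, tail Λ ht (I + k)) := by ring
    _ ≤ e + 2 * e + 2 * e + 2 * e + 2 * e := by
        refine add_le_add (add_le_add (add_le_add (add_le_add hKv ?_) ?_) ?_) ?_
        · refine mul_le_mul_right ?_ _
          rw [mul_comm]; exact hl1.le
        · exact mul_le_mul_right hs' _
        · exact mul_le_mul_right hKq _
        · refine mul_le_mul_right ?_ _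
          refine (mul_le_mul_right hI' _).trans ?_
          rw [mul_comm]; exact he2'.le
    _ = 9 * e := by ring
    _ ≤ ε := he9

end Crest.Agent.R154.JW362
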