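import Crest.Agent.R154.JHit_139
import Crest.Agent.R154.B5First_181

/-! Row 154, road 801, assembly in the joint-cut frame, part 2 (helper139): one window. -/

set_option autoImplicit false

namespace Crest.Agent.R154.JAsm139

open scoped ENNReal
open Crest.Agent.R154.B5A
open Crest.Agent.R154.FP178

variable {B W : Type*} (Λ : B → ℝ≥0∞) (ht : B → ℕ) (dl : B → W → W) (cd : W → B → Set ℕ)

open Classical in
/-- first contact in `(a, a+q]`, crossings of height `n` -/
noncomputable def Kwin (n a q : ℕ) (w : W) : ℝ≥0∞ :=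
  ∑' L : List B, if HT ht L = n ∧ (∀ k ∈ CD ht dl cd L w, a < k) ∧
    (∃ k ∈ CD ht dl cd L w, k ≤ a + q) then LW Λ L else 0

open Classical in
/-- pieces of height `N` without contact at depth `≤ s` and with a contact at depth `≤ b` -/
noncomputable def DD (N s b : ℕ) (w : W) : ℝ≥0∞ :=
  ∑' L : List B, if HT ht L = N ∧ (∀ k ∈ CD ht dl cd L w, s < k) ∧
    (∃ k ∈ CD ht dl cd L w, k ≤ b) then LW Λ L else 0

open Classical in
/-- 818's window mass -/
noncomputable def WL (H s : ℕ) (w : W) : ℝ≥0∞ :=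
  ∑' L : List B, if HT ht L = H ∧ CD ht dl cd L w ≠ ∅ ∧
    (∀ k ∈ CD ht dl cd L w, s < k ∧ k + s ≤ H) then LW Λ L else 0

open Classical in
/-- the bottom slab -/
noncomputable def SLB (H s : ℕ) (w : W) : ℝ≥0∞ :=
  ∑' L : List B, if HT ht L = H ∧ (∃ k ∈ CD ht dl cd L w, H < k + s) then LW Λ L else 0

/-- overshoot mass -/
noncomputable def ov (q : ℕ) : ℝ≥0∞ := ∑' k, tail Λ ht (q + k)

lemma DD_le (N s b : ℕ) (w : W) : DD Λ ht dl cd N s b w ≤ U Λ ht N := by
  classical
  refine ENNReal.tsum_le_tsum fun L => ?_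
  by_cases h : HT ht L = N
  · rw [if_pos h]; split_ifs <;> simp
  · rw [if_neg h, if_neg (fun h' => h h'.1)]

lemma WL_le (H s : ℕ) (w : W) : WL Λ ht dl cd H s w ≤ U Λ ht H := by
  classical
  refine ENNReal.tsum_le_tsum fun L => ?_
  by_cases h : HT ht L = H
  · rw [if_pos h]; split_ifs <;> simp
  · rw [if_neg h, if_neg (fun h' => h h'.1)]

lemma DD_split (H s b : ℕ) (w : W) :
    DD Λ ht dl cd H s b w ≤ SLB Λ ht dl cd H s w + WL Λ ht dl cd H s w := by
  classical
  rw [DD, SLB, WL, ← ENNReal.tsum_add]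
  refine ENNReal.tsum_le_tsum fun L => ?_
  by_cases h : HT ht L = H ∧ (∀ k ∈ CD ht dl cd L w, s < k) ∧ (∃ k ∈ CD ht dl cd L w, k ≤ b)
  · obtain ⟨hH, hall, k, hk, _⟩ := h
    rw [if_pos ⟨hH, hall, k, hk, by assumption⟩]
    by_cases h2 : ∃ k ∈ CD ht dl cd L w, H < k + s
    · rw [if_pos ⟨hH, h2⟩]; exact le_add_right le_rfl
    · push Not at h2
      rw [if_pos (⟨hH, Set.nonempty_iff_ne_empty.1 ⟨k, hk⟩, fun k hk => ⟨hall k hk, h2 k hk⟩⟩ :
        HT ht L = H ∧ CD ht dl cd L w ≠ ∅ ∧ (∀ k ∈ CD ht dl cd L w, s < k ∧ k + s ≤ H))]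
      exact le_add_left le_rfl
  · rw [if_neg h]; exact zero_le

open Classical in
/-- the common middle term -/
noncomputable def MM (s b : ℕ) (w : W) (X : ℕ) : ℝ≥0∞ :=
  ∑' R : List B, if fp ht b R ∧ (∀ k ∈ CD ht dl cd R w, s < k) ∧ (∃ k ∈ CD ht dl cd R w, k ≤ b) ∧
    HT ht R ≤ X then LW Λ R else 0

lemma sum_ext (n : ℕ) (L1 : List B) (x : ℝ≥0∞) :
    ∑' L2 : List B, (if HT ht (L1 ++ L2) = n then LW Λ L2 * x else 0)
      = (if HT ht L1 ≤ n then U Λ ht (n - HT ht L1) else 0) * x := by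
  classical
  by_cases h : HT ht L1 ≤ n
  · rw [if_pos h, U, ← ENNReal.tsum_mul_right]
    refine tsum_congr fun L2 => ?_
    rw [HT_append]
    by_cases h2 : HT ht L1 + HT ht L2 = n
    · rw [if_pos h2, if_pos (by omega)]
    · rw [if_neg h2, if_neg (by omega), zero_mul]
  · rw [if_neg h, zero_mul]
    refine ENNReal.tsum_eq_zero.2 fun L2 => ?_
    rw [HT_append, if_neg (by omega)]

/-- from height `N` down to the middle term -/
lemma DD_le_MM (h1 : ∀ b, 1 ≤ ht b) (hU1 : ∀ n, U Λ ht n ≤ 1)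
    (hcd : ∀ w b k, k ∈ cd w b → 1 ≤ k ∧ k ≤ ht b) (N s b q : ℕ) (hN : b ≤ N) (w : W) :
    DD Λ ht dl cd N s b w ≤ MM Λ ht dl cd s b w (b + q) + ov Λ ht q := by
  classical
  set f : List B → ℝ≥0∞ := fun L => if HT ht L = N ∧ (∀ k ∈ CD ht dl cd L w, s < k) ∧
    (∃ k ∈ CD ht dl cd L w, k ≤ b) then 1 else 0 with hf
  have e1 : DD Λ ht dl cd N s b w = ∑' L, (if b ≤ HT ht L then LW Λ L * f L else 0) := by
    refine tsum_congr fun L => ?_
    simp only [hf]
    by_cases h : HT ht L = N ∧ (∀ k ∈ CD ht dl cd L w, s < k) ∧ (∃ k ∈ CD ht dl cd L w, k ≤ b)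
    · rw [if_pos h, if_pos h, if_pos (by omega), mul_one]
    · rw [if_neg h, if_neg h, mul_zero, ite_self]
  rw [e1, split Λ ht h1 b f]
  have key : ∀ R : List B, (if fp ht b R then LW Λ R * ∑' L2, LW Λ L2 * f (R ++ L2) else 0)
      ≤ (if fp ht b R ∧ (∀ k ∈ CD ht dl cd R w, s < k) ∧ (∃ k ∈ CD ht dl cd R w, k ≤ b) ∧
          HT ht R ≤ b + q then LW Λ R else 0)
        + (if fp ht b R ∧ b + q < HT ht R then LW Λ R else 0) := by
    intro R
    by_cases hR : fp ht b R
    · rw [if_pos hR]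
      have hb := le_HT_of_fp ht hR
      have hle1 : ∑' L2, LW Λ L2 * f (R ++ L2) ≤ 1 := by
        calc ∑' L2, LW Λ L2 * f (R ++ L2)
            ≤ ∑' L2 : List B, (if HT ht (R ++ L2) = N then LW Λ L2 * 1 else 0) := by
              refine ENNReal.tsum_le_tsum fun L2 => ?_
              simp only [hf]
              by_cases h2 : HT ht (R ++ L2) = N
              · rw [if_pos h2]; refine mul_le_mul_right ?_ _; split_ifs <;> simp
              · rw [if_neg h2, if_neg (fun h' => h2 h'.1), mul_zero]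
          _ = (if HT ht R ≤ N then U Λ ht (N - HT ht R) else 0) * 1 := sum_ext Λ ht N R 1
          _ ≤ 1 := by
            rw [mul_one]; split_ifs
            · exact hU1 _
            · simp
      by_cases hq : HT ht R ≤ b + q
      · by_cases hc : (∀ k ∈ CD ht dl cd R w, s < k) ∧ (∃ k ∈ CD ht dl cd R w, k ≤ b)
        · rw [if_pos ⟨hR, hc.1, hc.2, hq⟩]
          refine le_add_right ?_
          calc LW Λ R * _ ≤ LW Λ R * 1 := mul_le_mul_right hle1 _
            _ = _ := mul_one _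
        · have hz : ∑' L2, LW Λ L2 * f (R ++ L2) = 0 := by
            refine ENNReal.tsum_eq_zero.2 fun L2 => ?_
            simp only [hf]
            rw [if_neg, mul_zero]
            rintro ⟨_, hall, k, hk, hkb⟩
            rw [CD_append] at hall hk
            refine hc ⟨fun k hk => hall k (Or.inl hk), ?_⟩
            rcases hk with hk | ⟨k2, hk2, rfl⟩
            · exact ⟨k, hk, hkb⟩
            · have := CD_pos ht dl cd hcd _ _ _ hk2
              simp only at hkb
              omega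
          rw [hz, mul_zero]; exact zero_le
      · rw [if_pos (⟨hR, by omega⟩ : fp ht b R ∧ b + q < HT ht R)]
        refine le_add_left ?_
        calc LW Λ R * _ ≤ LW Λ R * 1 := mul_le_mul_right hle1 _
          _ = _ := mul_one _
    · rw [if_neg hR]; exact zero_le
  calc _ ≤ _ := ENNReal.tsum_le_tsum key
    _ = _ := ENNReal.tsum_add
    _ ≤ _ := by
      rw [MM, ov]
      gcongr
      exact overshoot Λ ht h1 hU1 q b

/-- from the middle term to exact height `H` -/
lemma MM_le_DD (h1 : ∀ b, 1 ≤ ht b) (c : ℝ≥0∞) (hU : ∀ n, c ≤ U Λ ht n)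
    (H s b X : ℕ) (hsb : s ≤ b) (hX : X ≤ H) (hb : b ≤ H) (w : W) :
    c * MM Λ ht dl cd s b w X ≤ DD Λ ht dl cd H s b w := by
  classical
  set f : List B → ℝ≥0∞ := fun L => if HT ht L = H ∧ (∀ k ∈ CD ht dl cd L w, s < k) ∧
    (∃ k ∈ CD ht dl cd L w, k ≤ b) then 1 else 0 with hf
  have e1 : DD Λ ht dl cd H s b w = ∑' L, (if b ≤ HT ht L then LW Λ L * f L else 0) := by
    refine tsum_congr fun L => ?_
    simp only [hf]
    by_cases h : HT ht L = H ∧ (∀ k ∈ CD ht dl cd L w, s < k) ∧ (∃ k ∈ CD ht dl cd L w, k ≤ b)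
    · rw [if_pos h, if_pos h, if_pos (by omega), mul_one]
    · rw [if_neg h, if_neg h, mul_zero, ite_self]
  rw [e1, split Λ ht h1 b f, MM, ← ENNReal.tsum_mul_left]
  refine ENNReal.tsum_le_tsum fun R => ?_
  by_cases hR : fp ht b R ∧ (∀ k ∈ CD ht dl cd R w, s < k) ∧ (∃ k ∈ CD ht dl cd R w, k ≤ b) ∧
      HT ht R ≤ X
  · obtain ⟨hf1, hall, ⟨k, hk, hkb⟩, hRX⟩ := hR
    rw [if_pos ⟨hf1, hall, ⟨k, hk, hkb⟩, hRX⟩, if_pos hf1, mul_comm]
    refine mul_le_mul_right ?_ _
    have hbR := le_HT_of_fp ht hf1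
    calc c ≤ U Λ ht (H - HT ht R) := hU _
      _ = (if HT ht R ≤ H then U Λ ht (H - HT ht R) else 0) * 1 := by
          rw [if_pos (by omega), mul_one]
      _ = ∑' L2 : List B, (if HT ht (R ++ L2) = H then LW Λ L2 * 1 else 0) :=
          (sum_ext Λ ht H R 1).symm
      _ ≤ _ := by
          refine ENNReal.tsum_le_tsum fun L2 => ?_
          by_cases h2 : HT ht (R ++ L2) = H
          · rw [if_pos h2]
            refine mul_le_mul_right ?_ _
            simp only [hf]
            rw [if_pos]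
            refine ⟨h2, ?_, k, ?_, hkb⟩
            · intro k' hk'
              rw [CD_append] at hk'
              rcases hk' with hk' | ⟨k2, hk2, rfl⟩
              · exact hall k' hk'
              · by_contra hcon
                simp only [not_lt] at hcon
                have := hall k hk
                omega
            · rw [CD_append]; exact Or.inl hk
          · rw [if_neg h2]; exact zero_le
  · rw [if_neg hR, mul_zero]; exact zero_le

end Crest.Agent.R154.JAsm139
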