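import Crest.Agent.R154.JComp_598
import Crest.Agent.R154.KU_823

/-! Row 154 (helper598), ROAD 801 on joint cuts: the window bound from the one-piece input. -/

set_option autoImplicit false

namespace Crest.Agent.R154.JW598

open scoped ENNReal
open Crest.Agent.R154.B5A
open Crest.Agent.R154.FP178 (fp)
open Crest.Agent.R154.JC598

variable {B W : Type*} (Λ : B → ℝ≥0∞) (ht : B → ℕ) (dl : B → W → W) (cd : W → B → Set ℕ)

lemma fp_of_HT (h1 : ∀ b, 1 ≤ ht b) (a : ℕ) (L : List B) (h : HT ht L = a) : fp ht a L := by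
  induction L generalizing a with
  | nil => rw [HT_nil] at h; exact h.symm
  | cons b L ih =>
    rw [HT_cons] at h
    have := h1 b
    exact ⟨by omega, ih _ (by omega)⟩

lemma act_inj (hinj : ∀ b, Function.Injective (dl b)) (L : List B) :
    Function.Injective (act dl L) := by
  induction L with
  | nil => exact fun _ _ h => h
  | cons b L ih => exact fun x y h => hinj b (ih h)

open Classical in
/-- indicator -/
noncomputable def ind (S : Set W) (w : W) : ℝ≥0∞ := if w ∈ S then 1 else 0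

open Classical in
lemma ind_le (S : Set W) (w : W) : ind S w ≤ 1 := by unfold ind; split_ifs <;> simp

open Classical in
lemma dens (h1 : ∀ b, 1 ≤ ht b) (hΛ : ∑' b, Λ b ≤ 1) (hU1 : ∀ n, U Λ ht n ≤ 1)
    (hinj : ∀ b, Function.Injective (dl b))
    (H : ℕ) (low : List B → Prop) (th q : ℝ≥0∞)
    (hq : q ≤ ∑' A, (if HT ht A = H ∧ low A then LW Λ A else 0))
    (hlow : ∀ (V : W → ℝ≥0∞) (w : W),
      ∑' A, (if HT ht A = H ∧ low A then LW Λ A * V (act dl A w) else 0) ≤ th * ∑' w', V w')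
    (S : Set W) :
    ∀ J a : ℕ, 2 * H * J ≤ a → ∀ w, ∑' L, (if fp ht a L then LW Λ L * ind S (act dl L w) else 0)
      ≤ (1 - q) ^ J + J * (th * ∑' w', ind S w' + ∑' k, tail Λ ht (H + k)) := by
  intro J
  induction J with
  | zero =>
    intro a _ w
    simp only [pow_zero, Nat.cast_zero, zero_mul, add_zero]
    refine le_trans (ENNReal.tsum_le_tsum fun L => ?_) (FP178.sum_FP Λ ht h1 hΛ a)
    by_cases h : fp ht a L
    · rw [if_pos h, if_pos h]
      calc LW Λ L * _ ≤ LW Λ L * 1 := mul_le_mul_right (ind_le _ _) _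
        _ = _ := mul_one _
    · rw [if_neg h, if_neg h]
  | succ J ih =>
    intro a ha w
    have ha' : 2 * H * J + 2 * H ≤ a := by
      have : 2 * H * (J + 1) = 2 * H * J + 2 * H := by ring
      omega
    set E := th * ∑' w', ind S w' + ∑' k, tail Λ ht (H + k) with hE
    set WJ := (1 - q) ^ J + J * E with hWJ
    rw [FP178.fp_split Λ ht h1 H a (by omega)]
    set V : W → ℝ≥0∞ := fun w' => ∑' L, (if fp ht (a - H) L then LW Λ L * ind S (act dl L w') else 0)
      with hV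
    have hsumV : ∑' w', V w' ≤ ∑' w', ind S w' := by
      rw [hV, ENNReal.tsum_comm]
      calc ∑' L, ∑' w', (if fp ht (a - H) L then LW Λ L * ind S (act dl L w') else 0)
          ≤ ∑' L, (if fp ht (a - H) L then LW Λ L else 0) * ∑' w', ind S w' := by
            refine ENNReal.tsum_le_tsum fun L => ?_
            by_cases h : fp ht (a - H) L
            · simp only [if_pos h]
              rw [ENNReal.tsum_mul_left]
              exact mul_le_mul_right
                (ENNReal.tsum_comp_le_tsum_of_injective (act_inj dl hinj L) _) _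
            · simp [h]
        _ ≤ 1 * ∑' w', ind S w' := by
            rw [ENNReal.tsum_mul_right]
            exact mul_le_mul_left (FP178.sum_FP Λ ht h1 hΛ _) _
        _ = _ := one_mul _
    have hpt : ∀ A : List B, (if fp ht H A then LW Λ A *
        (∑' L, (if fp ht (a - HT ht A) L then LW Λ L * ind S (act dl (A ++ L) w) else 0)) else 0)
        ≤ (if HT ht A = H ∧ low A then LW Λ A * V (act dl A w) else 0)
          + ((if fp ht H A ∧ H + H < HT ht A then LW Λ A else 0)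
          + (if fp ht H A ∧ ¬ (HT ht A = H ∧ low A) then LW Λ A else 0) * WJ) := by
      intro A
      by_cases hfp : fp ht H A
      · rw [if_pos hfp]
        by_cases hs : HT ht A = H ∧ low A
        · rw [if_pos hs]
          refine le_add_right (le_of_eq ?_)
          rw [hV]
          dsimp only
          rw [hs.1]
          congr 1
          refine tsum_congr fun L => ?_
          rw [act_append]
        · refine le_add_left ?_
          by_cases ho : H + H < HT ht A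
          · rw [if_pos (⟨hfp, ho⟩ : fp ht H A ∧ H + H < HT ht A)]
            refine le_add_right ?_
            calc LW Λ A * _ ≤ LW Λ A * 1 := by
                  refine mul_le_mul_right (le_trans (ENNReal.tsum_le_tsum fun L => ?_)
                    (FP178.sum_FP Λ ht h1 hΛ (a - HT ht A))) _
                  by_cases h : fp ht (a - HT ht A) L
                  · rw [if_pos h, if_pos h]
                    calc LW Λ L * _ ≤ LW Λ L * 1 := mul_le_mul_right (ind_le _ _) _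
                      _ = _ := mul_one _
                  · rw [if_neg h, if_neg h]
              _ = _ := mul_one _
          · refine le_add_left ?_
            rw [if_pos (⟨hfp, hs⟩ : fp ht H A ∧ ¬ (HT ht A = H ∧ low A))]
            refine mul_le_mul_right ?_ _
            have := ih (a - HT ht A) (by omega) (act dl A w)
            refine le_trans (le_of_eq (tsum_congr fun L => ?_)) this
            rw [act_append]
      · rw [if_neg hfp]; exact zero_le
    refine (ENNReal.tsum_le_tsum hpt).trans ?_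
    rw [ENNReal.tsum_add, ENNReal.tsum_add, ENNReal.tsum_mul_right]
    have b1 : ∑' A, (if HT ht A = H ∧ low A then LW Λ A * V (act dl A w) else 0)
        ≤ th * ∑' w', ind S w' := (hlow V w).trans (mul_le_mul_right hsumV _)
    have b2 := FP178.overshoot Λ ht h1 hU1 H H
    have b3 : ∑' A, (if fp ht H A ∧ ¬ (HT ht A = H ∧ low A) then LW Λ A else 0) ≤ 1 - q := by
      have hs : ∑' A, (if fp ht H A ∧ ¬ (HT ht A = H ∧ low A) then LW Λ A else 0)
          + ∑' A, (if HT ht A = H ∧ low A then LW Λ A else 0) ≤ 1 := by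
        rw [← ENNReal.tsum_add]
        refine le_trans (ENNReal.tsum_le_tsum fun A => ?_) (FP178.sum_FP Λ ht h1 hΛ H)
        by_cases hs : HT ht A = H ∧ low A
        · have hfp := fp_of_HT ht h1 H A hs.1
          simp [hs, hfp]
        · simp [hs]
      have hq1 : q ≤ 1 := hq.trans (le_trans (le_add_left le_rfl) hs)
      refine ENNReal.le_sub_of_add_le_right (ne_top_of_le_ne_top ENNReal.one_ne_top hq1) ?_
      exact (add_le_add le_rfl hq).trans hs
    have b4 : (1 - q) * WJ ≤ (1 - q) ^ (J + 1) + J * E := by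
      rw [hWJ, mul_add, pow_succ']
      refine add_le_add le_rfl ?_
      calc (1 - q) * (J * E) ≤ 1 * (J * E) := mul_le_mul_left tsub_le_self _
        _ = _ := one_mul _
    calc _ ≤ th * ∑' w', ind S w' + (∑' k, tail Λ ht (H + k) + (1 - q) * WJ) :=
          add_le_add b1 (add_le_add b2 (mul_le_mul_left b3 _))
      _ ≤ th * ∑' w', ind S w' + (∑' k, tail Λ ht (H + k) + ((1 - q) ^ (J + 1) + J * E)) :=
          add_le_add le_rfl (add_le_add le_rfl b4)
      _ = (1 - q) ^ (J + 1) + ((J + 1 : ℕ) : ℝ≥0∞) * E := by rw [hE]; push_cast; ring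

open Classical in
/-- the one-piece input -/
def Piece (v0 C1 : ℝ≥0∞) : Prop :=
  ∀ v : ℝ≥0∞, v ≠ 0 → v ≤ v0 → ∀ τ : ℝ≥0∞, τ ≠ 0 → ∀ ρ : ℝ≥0∞, ρ ≠ 0 →
    ∃ s H0 : ℕ, ∀ H, H0 ≤ H → ∃ (lowX lowY : List B → Prop) (thX thY : ℝ≥0∞) (SX SY : Set W),
      v / 2 ≤ ∑' A, (if HT ht A = H ∧ lowX A then LW Λ A else 0) ∧
      v / 2 ≤ ∑' A, (if HT ht A = H ∧ lowY A then LW Λ A else 0) ∧
      (∀ (V : W → ℝ≥0∞) (w : W),
        ∑' A, (if HT ht A = H ∧ lowX A then LW Λ A * V (act dl A w) else 0) ≤ thX * ∑' w', V w') ∧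
      (∀ (V : W → ℝ≥0∞) (w : W),
        ∑' A, (if HT ht A = H ∧ lowY A then LW Λ A * V (act dl A w) else 0) ≤ thY * ∑' w', V w') ∧
      thX * ∑' w', ind SX w' ≤ ρ ∧ thY * ∑' w', ind SY w' ≤ ρ ∧
      ∀ w, WLp Λ ht dl cd H s w ≤ 2 * τ + C1 * v ^ 2 + (ind SX w + ind SY w)

open Classical in
theorem win (h1 : ∀ b, 1 ≤ ht b) (hΛ : ∑' b, Λ b = 1)
    (hinj : ∀ b, Function.Injective (dl b))
    (c : ℝ≥0∞) (hc : c ≠ 0) (hU : ∀ n, c ≤ U Λ ht n) (hU1 : ∀ n, U Λ ht n ≤ 1)
    (v0 C1 : ℝ≥0∞) (hv0 : v0 ≠ 0) (hC1 : C1 ≠ ⊤) (hP : Piece Λ ht dl cd v0 C1) :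
    ∀ ε : ℝ≥0∞, ε ≠ 0 → ∃ K s H0 : ℕ, 4 ≤ K ∧ ∀ H, H0 ≤ H → ∀ a, K * H ≤ 8 * a → ∀ w,
      ∑' A, (if fp ht a A then LW Λ A * WLp Λ ht dl cd H s (act dl A w) else 0) ≤ ε / K := by
  intro ε hε
  have hc' : c ≠ ⊤ := ne_top_of_le_ne_top ENNReal.one_ne_top ((hU 0).trans (hU1 0))
  have hD : C1 + 8 ≠ ⊤ := by finiteness
  obtain ⟨η, hη, hη'⟩ := ENNReal.exists_nnreal_pos_mul_lt hD hε
  have hη0 : (η : ℝ≥0∞) ≠ 0 := by exact_mod_cast hη.ne'
  have hm : min (η : ℝ≥0∞) (v0 ^ 2) ≠ 0 := by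
    rw [Ne, min_eq_iff]
    rintro (⟨h, -⟩ | ⟨h, -⟩)
    · exact hη0 h
    · exact pow_ne_zero 2 hv0 h
  obtain ⟨K, v, hK4, hK1, -, hv, hv1, hKv, hKv2⟩ := KU823.exists_Ku 0 16 (by norm_num) _ hm 4
  simp only [Nat.cast_zero, add_zero] at hKv hKv2
  have hKt : (K : ℝ≥0∞) ≠ ⊤ := ENNReal.natCast_ne_top K
  have hK0 : (K : ℝ≥0∞) ≠ 0 := by exact_mod_cast (by omega : K ≠ 0)
  have hvv0 : v ≤ v0 := by
    have h : v ^ 2 ≤ v0 ^ 2 := by
      calc v ^ 2 ≤ K * v ^ 2 := by
            calc v ^ 2 = 1 * v ^ 2 := (one_mul _).symm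
              _ ≤ K * v ^ 2 := mul_le_mul_left (by exact_mod_cast hK1) _
        _ ≤ v0 ^ 2 := hKv.trans (min_le_right _ _)
    exact (ENNReal.pow_le_pow_left_iff (by norm_num)).1 h
  have hKK : (K : ℝ≥0∞) * K ≠ ⊤ := ENNReal.mul_ne_top hKt hKt
  have hτ : (η : ℝ≥0∞) / K ≠ 0 := ENNReal.div_ne_zero.2 ⟨hη0, hKt⟩
  have hρ : (η : ℝ≥0∞) / (K * K) ≠ 0 := ENNReal.div_ne_zero.2 ⟨hη0, hKK⟩
  obtain ⟨s, H0, hH⟩ := hP v hv hvv0 _ hτ _ hρ
  obtain ⟨I, hI⟩ := tails Λ ht h1 hΛ c hc hc' hU _ hρ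
  refine ⟨K, s, max H0 I, hK4, fun H hHH a ha w => ?_⟩
  obtain ⟨lowX, lowY, thX, thY, SX, SY, qX, qY, lX, lY, cX, cY, hW⟩ := hH H (le_of_max_le_left hHH)
  have hJ : 2 * H * (K / 16) ≤ a := by
    have h1 : 16 * (K / 16) ≤ K := Nat.mul_div_le K 16
    have h2 : 16 * (K / 16) * H ≤ K * H := Nat.mul_le_mul_right _ h1
    have h3 : 16 * (K / 16) * H = 8 * (2 * H * (K / 16)) := by ring
    omega
  have dX := dens Λ ht dl h1 hΛ.le hU1 hinj H lowX thX _ qX lX SX (K / 16) a hJ w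
  have dY := dens Λ ht dl h1 hΛ.le hU1 hinj H lowY thY _ qY lY SY (K / 16) a hJ w
  have hE : ∑' k, tail Λ ht (H + k) ≤ (η : ℝ≥0∞) / (K * K) := hI H (le_of_max_le_right hHH)
  have hJK : (((K / 16 : ℕ)) : ℝ≥0∞) ≤ K := by exact_mod_cast Nat.div_le_self K 16
  set R : ℝ≥0∞ := (1 - v / 2) ^ (K / 16) + K * ((η : ℝ≥0∞) / (K * K) + (η : ℝ≥0∞) / (K * K)) with hR
  have dX' : ∑' L, (if fp ht a L then LW Λ L * ind SX (act dl L w) else 0) ≤ R :=
    dX.trans (add_le_add le_rfl (mul_le_mul' hJK (add_le_add cX hE)))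
  have dY' : ∑' L, (if fp ht a L then LW Λ L * ind SY (act dl L w) else 0) ≤ R :=
    dY.trans (add_le_add le_rfl (mul_le_mul' hJK (add_le_add cY hE)))
  have main : ∑' A, (if fp ht a A then LW Λ A * WLp Λ ht dl cd H s (act dl A w) else 0)
      ≤ (2 * ((η : ℝ≥0∞) / K) + C1 * v ^ 2) + (R + R) := by
    calc _ ≤ ∑' A, ((if fp ht a A then LW Λ A else 0) * (2 * ((η : ℝ≥0∞) / K) + C1 * v ^ 2)
          + ((if fp ht a A then LW Λ A * ind SX (act dl A w) else 0)
            + (if fp ht a A then LW Λ A * ind SY (act dl A w) else 0))) := by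
          refine ENNReal.tsum_le_tsum fun A => ?_
          by_cases h : fp ht a A
          · simp only [if_pos h]
            rw [← mul_add, ← mul_add]
            exact mul_le_mul_right (hW _) _
          · simp [h]
      _ ≤ 1 * (2 * ((η : ℝ≥0∞) / K) + C1 * v ^ 2) + (R + R) := by
          rw [ENNReal.tsum_add, ENNReal.tsum_add, ENNReal.tsum_mul_right]
          exact add_le_add (mul_le_mul_left (FP178.sum_FP Λ ht h1 hΛ.le a) _) (add_le_add dX' dY')
      _ = _ := by rw [one_mul]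
  refine main.trans ?_
  rw [ENNReal.le_div_iff_mul_le (Or.inl hK0) (Or.inl hKt)]
  have k1 : (η : ℝ≥0∞) / K * K ≤ η := by rw [mul_comm]; exact ENNReal.mul_div_le
  have k2 : (η : ℝ≥0∞) / (K * K) * (K * K) ≤ η := by rw [mul_comm]; exact ENNReal.mul_div_le
  have k3 : v ^ 2 * K ≤ η := by rw [mul_comm]; exact hKv.trans (min_le_left _ _)
  have k4 : (1 - v / 2) ^ (K / 16) * K ≤ η := by rw [mul_comm]; exact hKv2.trans (min_le_left _ _)
  calc (2 * ((η : ℝ≥0∞) / K) + C1 * v ^ 2 + (R + R)) * K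
      = 2 * ((η : ℝ≥0∞) / K * K) + C1 * (v ^ 2 * K) + (2 * ((1 - v / 2) ^ (K / 16) * K)
        + 4 * ((η : ℝ≥0∞) / (K * K) * (K * K))) := by rw [hR]; ring
    _ ≤ 2 * η + C1 * η + (2 * η + 4 * η) := by gcongr
    _ = η * (C1 + 8) := by ring
    _ ≤ ε := hη'.le

end Crest.Agent.R154.JW598
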