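import Crest.Agent.R154.Joint3_132

/-! Row 154, joint blocks of two independent renewal words: the joint WORDS are iid
(any function of the joint word). -/

set_option autoImplicit false
set_option linter.unusedSectionVars false

namespace Crest.Agent.R154.J132

open MeasureTheory ProbabilityTheory Filter Topology Set
open scoped ENNReal

variable {A : Type*}

/-- the first `n` letters -/
def prf (n : ℕ) (a : ℕ → A) : List A := (List.range n).map a

lemma length_prf (n : ℕ) (a : ℕ → A) : (prf n a).length = n := by simp [prf]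

lemma prf_zero (a : ℕ → A) : prf 0 a = [] := rfl

lemma prf_congr {n : ℕ} {a b : ℕ → A} (h : ∀ i < n, a i = b i) : prf n a = prf n b := by
  unfold prf
  exact List.map_congr_left fun i hi => h i (List.mem_range.1 hi)

lemma prf_add (n m : ℕ) (a : ℕ → A) : prf (n + m) a = prf n a ++ prf m (sh n a) := by
  unfold prf sh
  rw [List.range_add, List.map_append, List.map_map]
  rfl

lemma sum_prf {M : Type*} [AddCommMonoid M] (f : A → M) (n : ℕ) (a : ℕ → A) :
    ((prf n a).map f).sum = ∑ i ∈ Finset.range n, f (a i) := by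
  induction n with
  | zero => simp [prf]
  | succ n ih =>
    rw [Finset.sum_range_succ, ← ih, prf_add, List.map_append, List.sum_append]
    simp [prf, sh]

/-- the joint word: letters of the two walkers up to the first joint cut -/
noncomputable def wd (Y : A → ℕ) (p : (ℕ → A) × (ℕ → A)) : List A × List A :=
  (prf (idx Y p).1 p.1, prf (idx Y p).2 p.2)

/-- the `k`-th joint word -/
noncomputable def wdk (Y : A → ℕ) (k : ℕ) (p : (ℕ → A) × (ℕ → A)) : List A × List A :=
  wd Y ((rest Y)^[k] p)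

/-- height of a word -/
def hw (Y : A → ℕ) (w : List A) : ℕ := (w.map Y).sum

lemma hw_prf (Y : A → ℕ) (n : ℕ) (a : ℕ → A) : hw Y (prf n a) = H Y n a := sum_prf Y n a

lemma hw_append (Y : A → ℕ) (v w : List A) : hw Y (v ++ w) = hw Y v + hw Y w := by
  simp [hw]

lemma hw_wd (Y : A → ℕ) (p : (ℕ → A) × (ℕ → A)) : hw Y (wd Y p).1 = R0 Y p := hw_prf Y _ _

/-- the two words of a joint word have the same height (on `Good`) -/
lemma hw_wd' {Y : A → ℕ} (hY : ∀ a, 1 ≤ Y a) {p : (ℕ → A) × (ℕ → A)} (hp : p ∈ Good Y) :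
    hw Y (wd Y p).1 = hw Y (wd Y p).2 := by
  unfold wd
  rw [hw_prf, hw_prf]
  exact (mem_fst_idx hY hp).2.1

/-- the first `Qk` letters of walker one are the concatenation of the first `k` words -/
lemma flat_fst (Y : A → ℕ) (k : ℕ) (p : (ℕ → A) × (ℕ → A)) :
    ((List.range k).map fun i => (wdk Y i p).1).flatten = prf (Qk Y k p).1 p.1 := by
  induction k generalizing p with
  | zero => simp [Qk, prf]
  | succ k ih =>
    rw [List.range_succ_eq_map, List.map_cons, List.flatten_cons, List.map_map, Qk_succ,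
      Prod.fst_add, prf_add]
    congr 1
    have := ih (rest Y p)
    rw [show sh (idx Y p).1 p.1 = (rest Y p).1 from rfl, ← this]
    rfl

lemma flat_snd (Y : A → ℕ) (k : ℕ) (p : (ℕ → A) × (ℕ → A)) :
    ((List.range k).map fun i => (wdk Y i p).2).flatten = prf (Qk Y k p).2 p.2 := by
  induction k generalizing p with
  | zero => simp [Qk, prf]
  | succ k ih =>
    rw [List.range_succ_eq_map, List.map_cons, List.flatten_cons, List.map_map, Qk_succ,
      Prod.snd_add, prf_add]
    congr 1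
    have := ih (rest Y p)
    rw [show sh (idx Y p).2 p.2 = (rest Y p).2 from rfl, ← this]
    rfl

/-- additive functionals: sum over the first `k` words -/
lemma sum_wdk_fst {M : Type*} [AddCommMonoid M] (Y : A → ℕ) (f : A → M) (k : ℕ)
    (p : (ℕ → A) × (ℕ → A)) :
    ∑ i ∈ Finset.range k, ((wdk Y i p).1.map f).sum
      = ∑ i ∈ Finset.range (Qk Y k p).1, f (p.1 i) := by
  rw [← sum_prf f, ← flat_fst]
  rw [← sum_prf (fun w : List A × List A => (w.1.map f).sum) k (fun i => wdk Y i p)]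
  simp [prf, List.map_flatten, List.sum_flatten, Function.comp_def]

lemma sum_wdk_snd {M : Type*} [AddCommMonoid M] (Y : A → ℕ) (f : A → M) (k : ℕ)
    (p : (ℕ → A) × (ℕ → A)) :
    ∑ i ∈ Finset.range k, ((wdk Y i p).2.map f).sum
      = ∑ i ∈ Finset.range (Qk Y k p).2, f (p.2 i) := by
  rw [← sum_prf f, ← flat_snd]
  rw [← sum_prf (fun w : List A × List A => (w.2.map f).sum) k (fun i => wdk Y i p)]
  simp [prf, List.map_flatten, List.sum_flatten, Function.comp_def]

variable [MeasurableSpace A] [MeasurableSingletonClass A] [Countable A] [Inhabited A]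

lemma measurable_prf_pair {E : Type*} [MeasurableSpace E] (Φ : List A × List A → E) (q : ℕ × ℕ) :
    Measurable fun p : (ℕ → A) × (ℕ → A) => Φ (prf q.1 p.1, prf q.2 p.2) := by
  have h : (fun p : (ℕ → A) × (ℕ → A) => Φ (prf q.1 p.1, prf q.2 p.2))
      = (fun v : (Fin q.1 → A) × (Fin q.2 → A) => Φ (List.ofFn v.1, List.ofFn v.2))
        ∘ (fun p : (ℕ → A) × (ℕ → A) => ((fun i : Fin q.1 => p.1 i), (fun i : Fin q.2 => p.2 i))) := by
    funext p
    simp only [Function.comp_apply, prf]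
    congr 2
    · exact List.ext_getElem (by simp) fun i h1 h2 => by simp
    · exact List.ext_getElem (by simp) fun i h1 h2 => by simp
  rw [h]
  refine (measurable_of_countable _).comp ?_
  exact (measurable_pi_lambda _ fun i => (measurable_pi_apply _).comp measurable_fst).prodMk
    (measurable_pi_lambda _ fun i => (measurable_pi_apply _).comp measurable_snd)

section iid
variable {E : Type*} [MeasurableSpace E] (Φ : List A × List A → E)

lemma measurable_wd {Y : A → ℕ} (hY : ∀ a, 1 ≤ Y a) : Measurable fun p => Φ (wd Y p) :=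
  measurable_idx_comp (f := fun q p => Φ (prf q.1 p.1, prf q.2 p.2)) hY
    fun q => measurable_prf_pair Φ q

lemma measurable_wdk {Y : A → ℕ} (hY : ∀ a, 1 ≤ Y a) (k : ℕ) :
    Measurable fun p => Φ (wdk Y k p) :=
  (measurable_wd Φ hY).comp ((measurable_rest hY).iterate k)

omit [MeasurableSpace A] [MeasurableSingletonClass A] [Countable A] [Inhabited A]
  [MeasurableSpace E] in
lemma det2_wd (T : Set E) (q : ℕ × ℕ) :
    Det2 q.1 q.2 {p : (ℕ → A) × (ℕ → A) | Φ (prf q.1 p.1, prf q.2 p.2) ∈ T} := by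
  intro p p' h1 h2
  simp only [mem_ofPred_eq]
  rw [prf_congr h1, prf_congr h2]

theorem step_wd (μ : Measure A) [IsProbabilityMeasure μ] {Y : A → ℕ} (hY : ∀ a, 1 ≤ Y a)
    (hg : pairL μ (Good Y)ᶜ = 0) (T : Set E)
    {B : Set ((ℕ → A) × (ℕ → A))} (hB : MeasurableSet B) :
    pairL μ {p | Φ (wd Y p) ∈ T ∧ rest Y p ∈ B}
      = pairL μ {p | Φ (wd Y p) ∈ T} * pairL μ B :=
  step μ hY hg (det2_wd Φ T) hB

/-- `n` words and the rest -/
theorem steps_wd (μ : Measure A) [IsProbabilityMeasure μ] {Y : A → ℕ} (hY : ∀ a, 1 ≤ Y a)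
    (hg : pairL μ (Good Y)ᶜ = 0) (n : ℕ) :
    ∀ (T : ℕ → Set E), (∀ k, MeasurableSet (T k)) →
    ∀ {B : Set ((ℕ → A) × (ℕ → A))}, MeasurableSet B →
    pairL μ {p | (∀ k < n, Φ (wdk Y k p) ∈ T k) ∧ (rest Y)^[n] p ∈ B}
      = (∏ k ∈ Finset.range n, pairL μ {p | Φ (wd Y p) ∈ T k}) * pairL μ B := by
  induction n with
  | zero =>
    intro T hT B hB
    simp
  | succ n ih =>
    intro T hT B hB
    have hB' : MeasurableSet {p : (ℕ → A) × (ℕ → A) |
        (∀ k < n, Φ (wdk Y k p) ∈ T (k + 1)) ∧ (rest Y)^[n] p ∈ B} := by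
      have : {p : (ℕ → A) × (ℕ → A) |
        (∀ k < n, Φ (wdk Y k p) ∈ T (k + 1)) ∧ (rest Y)^[n] p ∈ B}
        = (⋂ k : ℕ, ⋂ _ : k < n, (fun p => Φ (wdk Y k p)) ⁻¹' T (k + 1))
          ∩ (rest Y)^[n] ⁻¹' B := by
        ext p; simp
      rw [this]
      refine (MeasurableSet.iInter fun k => MeasurableSet.iInter fun _ => ?_).inter ?_
      · exact (measurable_wdk Φ hY k) (hT _)
      · exact ((measurable_rest hY).iterate n) hB
    have key := step_wd Φ μ hY hg (T 0) hB'
    rw [ih (fun k => T (k + 1)) (fun k => hT _) hB] at key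
    rw [Finset.prod_range_succ', mul_comm (∏ k ∈ Finset.range n, _) _, mul_assoc, ← key]
    congr 1
    ext p
    simp only [mem_ofPred_eq, wdk, Function.iterate_succ_apply]
    constructor
    · rintro ⟨h1, h2⟩
      refine ⟨h1 0 (by omega), fun k hk => ?_, h2⟩
      have := h1 (k + 1) (by omega)
      rwa [Function.iterate_succ_apply] at this
    · rintro ⟨h0, h1, h2⟩
      refine ⟨fun k hk => ?_, h2⟩
      cases k with
      | zero => exact h0
      | succ k => rw [Function.iterate_succ_apply]; exact h1 k (by omega)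

/-- **the joint words are iid** (through any function `Φ`) -/
theorem map_wd (μ : Measure A) [IsProbabilityMeasure μ] {Y : A → ℕ} (hY : ∀ a, 1 ≤ Y a)
    (hg : pairL μ (Good Y)ᶜ = 0) :
    (pairL μ).map (fun p (k : ℕ) => Φ (wdk Y k p))
      = Measure.infinitePi fun _ : ℕ => (pairL μ).map (fun p => Φ (wd Y p)) := by
  have : IsProbabilityMeasure ((pairL μ).map (fun p => Φ (wd Y p))) :=
    Measure.isProbabilityMeasure_map (measurable_wd Φ hY).aemeasurable
  classical
  refine Measure.eq_infinitePi _ fun s t ht => ?_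
  have hm : Measurable (fun (p : (ℕ → A) × (ℕ → A)) (k : ℕ) => Φ (wdk Y k p)) :=
    measurable_pi_lambda _ fun k => measurable_wdk Φ hY k
  rw [Measure.map_apply hm (MeasurableSet.pi s.countable_toSet fun i _ => ht i)]
  obtain ⟨n, hn⟩ : ∃ n, s ⊆ Finset.range n :=
    ⟨s.sup id + 1, fun i hi => Finset.mem_range.2 (Nat.lt_succ_of_le (Finset.le_sup (f := id) hi))⟩
  have key := steps_wd Φ μ hY hg n (fun k => if k ∈ s then t k else univ) (fun k => by
    split_ifs; exacts [ht k, MeasurableSet.univ]) (B := univ) MeasurableSet.univ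
  rw [measure_univ, mul_one] at key
  have e1 : (fun (p : (ℕ → A) × (ℕ → A)) (k : ℕ) => Φ (wdk Y k p)) ⁻¹'
      Set.pi (s : Set ℕ) t = {p | (∀ k < n, Φ (wdk Y k p) ∈
        (if k ∈ s then t k else univ)) ∧ (rest Y)^[n] p ∈ univ} := by
    ext p
    simp only [mem_preimage, Set.mem_pi, Finset.mem_coe, mem_ofPred_eq, mem_univ, and_true]
    constructor
    · intro h k _
      split_ifs with hk
      · exact h k hk
      · trivial
    · intro h k hk
      have := h k (Finset.mem_range.1 (hn hk))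
      rwa [if_pos hk] at this
  rw [e1, key]
  rw [← Finset.prod_subset hn]
  · refine Finset.prod_congr rfl fun k hk => ?_
    rw [if_pos hk, Measure.map_apply (measurable_wd Φ hY) (ht k)]
    rfl
  · intro k _ hk
    rw [if_neg hk]
    simp

theorem law_wdk (μ : Measure A) [IsProbabilityMeasure μ] {Y : A → ℕ} (hY : ∀ a, 1 ≤ Y a)
    (hg : pairL μ (Good Y)ᶜ = 0) (k : ℕ) :
    (pairL μ).map (fun p => Φ (wdk Y k p)) = (pairL μ).map (fun p => Φ (wd Y p)) := by
  have := ((preserving_rest μ hY hg).iterate k).map_eq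
  conv_rhs => rw [← this]
  rw [Measure.map_map (measurable_wd Φ hY) ((measurable_rest hY).iterate k)]
  rfl

theorem indep_wdk (μ : Measure A) [IsProbabilityMeasure μ] {Y : A → ℕ} (hY : ∀ a, 1 ≤ Y a)
    (hg : pairL μ (Good Y)ᶜ = 0) :
    iIndepFun (fun (k : ℕ) p => Φ (wdk Y k p)) (pairL μ) := by
  rw [iIndepFun_iff_map_fun_eq_infinitePi_map (measurable_wdk Φ hY)]
  simp_rw [law_wdk Φ μ hY hg]
  exact map_wd Φ μ hY hg

theorem identDistrib_wdk (μ : Measure A) [IsProbabilityMeasure μ] {Y : A → ℕ}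
    (hY : ∀ a, 1 ≤ Y a) (hg : pairL μ (Good Y)ᶜ = 0) (k : ℕ) :
    IdentDistrib (fun p => Φ (wdk Y k p)) (fun p => Φ (wd Y p)) (pairL μ) (pairL μ) :=
  ⟨(measurable_wdk Φ hY k).aemeasurable, (measurable_wd Φ hY).aemeasurable,
    law_wdk Φ μ hY hg k⟩

/-- **swap symmetry of the joint word** -/
theorem swap_wd (μ : Measure A) [IsProbabilityMeasure μ] {Y : A → ℕ} (hY : ∀ a, 1 ≤ Y a)
    (hg : pairL μ (Good Y)ᶜ = 0) :
    (pairL μ).map (fun p => Φ (wd Y p).swap) = (pairL μ).map (fun p => Φ (wd Y p)) := by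
  have hs : (pairL μ).map Prod.swap = pairL μ := Measure.prod_swap
  conv_rhs => rw [← hs]
  rw [Measure.map_map (measurable_wd Φ hY) measurable_swap]
  refine Measure.map_congr ?_
  have hg' : ∀ᵐ p ∂(pairL μ), p ∈ Good Y := hg
  filter_upwards [hg'] with p hp
  have h1 := mem_fst_idx hY hp
  have h2 := idx_eq hY (fst_swap hY h1)
  simp only [Function.comp_apply, wd]
  rw [h2]
  rfl

end iid

section height

lemma r0_gt_iff {Y : A → ℕ} (hY : ∀ a, 1 ≤ Y a) {p : (ℕ → A) × (ℕ → A)} (hp : p ∈ Good Y) (m : ℕ) :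
    m < R0 Y p ↔ p ∈ NoCut Y m := by
  have h1 := mem_fst_idx hY hp
  constructor
  · intro h l hl hlm hc
    exact fst_nocut hY h1 hl (lt_of_le_of_lt hlm h) hc
  · intro h
    by_contra hcon
    push Not at hcon
    exact h (R0 Y p) (h1.1.trans (le_H hY _ _)) hcon ⟨(idx Y p).1, (idx Y p).2, rfl, h1.2.1.symm⟩

lemma lintegral_nat_eq_tsum {Ω : Type*} [MeasurableSpace Ω] (P : Measure Ω) {f : Ω → ℕ}
    (hf : Measurable f) : ∫⁻ ω, (f ω : ℝ≥0∞) ∂P = ∑' m : ℕ, P {ω | m < f ω} := by
  have h1 : ∀ ω, (f ω : ℝ≥0∞) = ∑' m : ℕ, {ω | m < f ω}.indicator (fun _ => (1 : ℝ≥0∞)) ω := by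
    intro ω
    rw [tsum_eq_sum (s := Finset.range (f ω))]
    · rw [Finset.sum_congr rfl (g := fun _ => (1 : ℝ≥0∞))]
      · simp
      · intro m hm
        rw [Set.indicator_of_mem]
        exact Finset.mem_range.1 hm
    · intro m hm
      rw [Set.indicator_of_notMem]
      intro h
      exact hm (Finset.mem_range.2 h)
  simp_rw [h1]
  have hms : ∀ m : ℕ, MeasurableSet {ω | m < f ω} := fun m => hf (measurableSet_Ioi (a := m))
  rw [lintegral_tsum fun m => (measurable_const.indicator (hms m)).aemeasurable]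
  refine tsum_congr fun m => ?_
  rw [lintegral_indicator (hms m), lintegral_one, Measure.restrict_apply_univ]

/-- **mean height of a joint block** -/
theorem mean_R0 (μ : Measure A) [IsProbabilityMeasure μ] {Y : A → ℕ} (hY : ∀ a, 1 ≤ Y a)
    (hg : pairL μ (Good Y)ᶜ = 0) :
    ∫⁻ p, (R0 Y p : ℝ≥0∞) ∂(pairL μ) = ∑' m : ℕ, pairL μ (NoCut Y m) := by
  rw [lintegral_nat_eq_tsum _ (measurable_R0 hY)]
  refine tsum_congr fun m => measure_congr ?_
  have hg' : ∀ᵐ p ∂(pairL μ), p ∈ Good Y := hg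
  filter_upwards [hg'] with p hp
  exact propext (r0_gt_iff hY hp m)

end height

end Crest.Agent.R154.J132
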