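import Mathlib

/-! Row 154, B4 trunk side: joint cuts of two independent renewal-reward sequences.
Part 1: shift property of product measures, joint restart. Mathlib only. -/

set_option autoImplicit false
set_option linter.unusedSectionVars false

namespace Crest.Agent.R154.J132

open MeasureTheory ProbabilityTheory Filter Topology Set
open scoped ENNReal

variable {A : Type*} [MeasurableSpace A]

/-- drop the first `n` letters -/
def sh (n : ℕ) (a : ℕ → A) : ℕ → A := fun k => a (n + k)

lemma measurable_sh (n : ℕ) : Measurable (sh n : (ℕ → A) → ℕ → A) :=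
  measurable_pi_lambda _ fun _ => measurable_pi_apply _

lemma sh_zero (a : ℕ → A) : sh 0 a = a := by funext k; simp [sh]

lemma sh_sh (n m : ℕ) (a : ℕ → A) : sh n (sh m a) = sh (m + n) a := by
  funext k; simp only [sh, add_assoc]

/-- iid sequence law -/
noncomputable abbrev iidL (μ : Measure A) : Measure (ℕ → A) := Measure.infinitePi fun _ : ℕ => μ

/-- the cylinder of the first `n` letters of `w` -/
def cy (n : ℕ) (w : ℕ → A) : Set (ℕ → A) := {a | ∀ i < n, a i = w i}

lemma cy_eq_pi (n : ℕ) (w : ℕ → A) :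
    cy n w = Set.pi ((Finset.range n : Finset ℕ) : Set ℕ) fun i => {w i} := by
  ext a
  simp [cy, Set.mem_pi]

variable [MeasurableSingletonClass A]

lemma measurableSet_cy (n : ℕ) (w : ℕ → A) : MeasurableSet (cy n w) := by
  rw [cy_eq_pi]
  exact MeasurableSet.pi (Finset.countable_toSet _) fun i _ => measurableSet_singleton _

/-- **shift**: given the first `n` letters, the rest is iid with the same law. -/
theorem restrict_cy_map_sh (μ : Measure A) [IsProbabilityMeasure μ] (n : ℕ) (w : ℕ → A) :
    ((iidL μ).restrict (cy n w)).map (sh n) = (iidL μ (cy n w)) • iidL μ := by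
  classical
  -- both sides are finite measures which agree on boxes
  set c := iidL μ (cy n w) with hc
  by_cases h0 : c = 0
  · rw [h0, zero_smul]
    have : (iidL μ).restrict (cy n w) = 0 := Measure.restrict_eq_zero.2 h0
    rw [this, Measure.map_zero]
  have hct : c ≠ ⊤ := measure_ne_top _ _
  have key : c⁻¹ • ((iidL μ).restrict (cy n w)).map (sh n) = iidL μ := by
    refine Measure.eq_infinitePi _ fun s t ht => ?_
    have hbox : MeasurableSet (Set.pi (s : Set ℕ) t) :=
      MeasurableSet.pi s.countable_toSet fun i _ => ht i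
    rw [Measure.smul_apply, smul_eq_mul, Measure.map_apply (measurable_sh n) hbox,
      Measure.restrict_apply (measurable_sh n hbox)]
    set t' : ℕ → Set A := fun i => if i < n then {w i} else t (i - n) with ht'
    set s' : Finset ℕ := Finset.range n ∪ s.map (addLeftEmbedding n) with hs'
    have hset : sh n ⁻¹' (Set.pi (s : Set ℕ) t) ∩ cy n w = Set.pi (s' : Set ℕ) t' := by
      ext a
      simp only [Set.mem_inter_iff, Set.mem_preimage, Set.mem_pi, cy, Set.mem_ofPred_eq, hs',
        Finset.coe_union, Finset.coe_range, Finset.coe_map, Set.mem_union, Set.mem_Iio,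
        Set.mem_image, Finset.mem_coe, addLeftEmbedding_apply, ht', sh]
      constructor
      · rintro ⟨h1, h2⟩ i (hi | ⟨j, hj, rfl⟩)
        · rw [if_pos hi]; exact h2 i hi
        · rw [if_neg (by omega), Nat.add_sub_cancel_left]
          exact h1 j hj
      · intro h
        refine ⟨fun j hj => ?_, fun i hi => ?_⟩
        · have := h (n + j) (Or.inr ⟨j, hj, rfl⟩)
          rwa [if_neg (by omega), Nat.add_sub_cancel_left] at this
        · have := h i (Or.inl hi)
          rwa [if_pos hi] at this
    have ht'm : ∀ i ∈ s', MeasurableSet (t' i) := by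
      intro i _
      simp only [ht']
      split_ifs
      · exact measurableSet_singleton _
      · exact ht _
    rw [hset, Measure.infinitePi_pi _ ht'm]
    have hdisj : Disjoint (Finset.range n) (s.map (addLeftEmbedding n)) := by
      rw [Finset.disjoint_left]
      intro i hi hi'
      rw [Finset.mem_map] at hi'
      obtain ⟨j, _, rfl⟩ := hi'
      simp at hi
    rw [hs', Finset.prod_union hdisj, Finset.prod_map]
    have e1 : ∏ i ∈ Finset.range n, μ (t' i) = c := by
      rw [hc, cy_eq_pi, Measure.infinitePi_pi _ fun i _ => measurableSet_singleton _]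
      refine Finset.prod_congr rfl fun i hi => ?_
      simp only [ht', if_pos (Finset.mem_range.1 hi)]
    have e2 : ∏ i ∈ s, μ (t' (addLeftEmbedding n i)) = ∏ i ∈ s, μ (t i) := by
      refine Finset.prod_congr rfl fun i _ => ?_
      simp only [ht', addLeftEmbedding_apply]
      rw [if_neg (by omega), Nat.add_sub_cancel_left]
    rw [e1, e2, ← mul_assoc, ENNReal.inv_mul_cancel h0 hct, one_mul]
  conv_rhs => rw [← key]
  rw [smul_smul, ENNReal.mul_inv_cancel h0 hct, one_smul]

/-- the law of two independent sequences -/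
noncomputable abbrev pairL (μ : Measure A) : Measure ((ℕ → A) × (ℕ → A)) :=
  (iidL μ).prod (iidL μ)

/-- joint shift -/
def sh2 (i j : ℕ) (p : (ℕ → A) × (ℕ → A)) : (ℕ → A) × (ℕ → A) := (sh i p.1, sh j p.2)

omit [MeasurableSingletonClass A] in
lemma measurable_sh2 (i j : ℕ) : Measurable (sh2 i j : (ℕ → A) × (ℕ → A) → _) :=
  ((measurable_sh i).comp measurable_fst).prodMk ((measurable_sh j).comp measurable_snd)

/-- determined by the first `i` letters of the first and the first `j` letters of the second. -/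
def Det2 (i j : ℕ) (C : Set ((ℕ → A) × (ℕ → A))) : Prop :=
  ∀ p q : (ℕ → A) × (ℕ → A), (∀ k < i, p.1 k = q.1 k) → (∀ k < j, p.2 k = q.2 k) →
    (p ∈ C ↔ q ∈ C)

lemma restrict_cy2_map (μ : Measure A) [IsProbabilityMeasure μ] (i j : ℕ) (w w' : ℕ → A) :
    ((pairL μ).restrict (cy i w ×ˢ cy j w')).map (sh2 i j)
      = (pairL μ (cy i w ×ˢ cy j w')) • pairL μ := by
  have h1 : (sh2 i j : (ℕ → A) × (ℕ → A) → _) = Prod.map (sh i) (sh j) := rfl
  rw [h1, ← Measure.prod_restrict, ← Measure.map_prod_map _ _ (measurable_sh i) (measurable_sh j),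
    restrict_cy_map_sh, restrict_cy_map_sh, Measure.prod_prod, Measure.prod_smul_left,
    Measure.prod_smul_right, smul_smul]

/-- extension of a finite word -/
def extW [Inhabited A] (n : ℕ) (w : Fin n → A) : ℕ → A :=
  fun k => if h : k < n then w ⟨k, h⟩ else default

variable [Countable A] [Inhabited A]

/-- decomposition of a determined set -/
lemma Det2.eq_iUnion {i j : ℕ} {C : Set ((ℕ → A) × (ℕ → A))} (hC : Det2 i j C) :
    C = ⋃ v : {v : (Fin i → A) × (Fin j → A) // (extW i v.1, extW j v.2) ∈ C},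
      cy i (extW i v.1.1) ×ˢ cy j (extW j v.1.2) := by
  ext p
  simp only [Set.mem_iUnion]
  constructor
  · intro hp
    refine ⟨⟨(fun k => p.1 k, fun k => p.2 k), ?_⟩, ?_, ?_⟩
    · refine (hC _ p (fun k hk => ?_) fun k hk => ?_).2 hp
      · simp [extW, hk]
      · simp [extW, hk]
    · intro k hk; simp [extW, hk]
    · intro k hk; simp [extW, hk]
  · rintro ⟨⟨v, hv⟩, h1, h2⟩
    exact (hC p (extW i v.1, extW j v.2) (fun k hk => h1 k hk) (fun k hk => h2 k hk)).2 hv

lemma disj_cy2 {i j : ℕ} {v v' : (Fin i → A) × (Fin j → A)} (hne : v ≠ v') :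
    Disjoint (cy i (extW i v.1) ×ˢ cy j (extW j v.2))
      (cy i (extW i v'.1) ×ˢ cy j (extW j v'.2)) := by
  rw [Set.disjoint_left]
  rintro p ⟨h1, h2⟩ ⟨h3, h4⟩
  apply hne
  refine Prod.ext (funext fun k => ?_) (funext fun k => ?_)
  · have e1 := h1 k.1 k.2
    have e2 := h3 k.1 k.2
    simp only [extW, k.2, dif_pos] at e1 e2
    exact e1.symm.trans e2
  · have e1 := h2 k.1 k.2
    have e2 := h4 k.1 k.2
    simp only [extW, k.2, dif_pos] at e1 e2
    exact e1.symm.trans e2

lemma Det2.measurableSet {i j : ℕ} {C : Set ((ℕ → A) × (ℕ → A))} (hC : Det2 i j C) :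
    MeasurableSet C := by
  rw [hC.eq_iUnion]
  exact MeasurableSet.iUnion fun v => (measurableSet_cy _ _).prod (measurableSet_cy _ _)

/-- **joint restart**: `P(C ∩ shift⁻¹ B) = P(C) P(B)`. -/
theorem restart (μ : Measure A) [IsProbabilityMeasure μ] {i j : ℕ}
    {C : Set ((ℕ → A) × (ℕ → A))} (hC : Det2 i j C) {B : Set ((ℕ → A) × (ℕ → A))}
    (hB : MeasurableSet B) :
    pairL μ (C ∩ sh2 i j ⁻¹' B) = pairL μ C * pairL μ B := by
  have hd : Pairwise (Function.onFun Disjoint
      fun v : {v : (Fin i → A) × (Fin j → A) // (extW i v.1, extW j v.2) ∈ C} =>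
        cy i (extW i v.1.1) ×ˢ cy j (extW j v.1.2)) := by
    intro v v' hne
    exact disj_cy2 fun h => hne (Subtype.ext h)
  have hm : ∀ v : {v : (Fin i → A) × (Fin j → A) // (extW i v.1, extW j v.2) ∈ C},
      MeasurableSet (cy i (extW i v.1.1) ×ˢ cy j (extW j v.1.2)) :=
    fun v => (measurableSet_cy _ _).prod (measurableSet_cy _ _)
  have hB' : MeasurableSet (sh2 i j ⁻¹' B) := measurable_sh2 i j hB
  have e1 : pairL μ C = ∑' v : {v : (Fin i → A) × (Fin j → A) // (extW i v.1, extW j v.2) ∈ C},
      pairL μ (cy i (extW i v.1.1) ×ˢ cy j (extW j v.1.2)) := by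
    conv_lhs => rw [hC.eq_iUnion]
    exact measure_iUnion hd hm
  have e2 : pairL μ (C ∩ sh2 i j ⁻¹' B)
      = ∑' v : {v : (Fin i → A) × (Fin j → A) // (extW i v.1, extW j v.2) ∈ C},
      pairL μ ((cy i (extW i v.1.1) ×ˢ cy j (extW j v.1.2)) ∩ sh2 i j ⁻¹' B) := by
    conv_lhs => rw [hC.eq_iUnion, Set.iUnion_inter]
    refine measure_iUnion ?_ fun v => (hm v).inter hB'
    intro v v' hne
    exact (hd hne).mono Set.inter_subset_left Set.inter_subset_left
  rw [e1, e2, ← ENNReal.tsum_mul_right]
  refine tsum_congr fun v => ?_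
  have h := congrArg (fun ν : Measure ((ℕ → A) × (ℕ → A)) => ν B)
    (restrict_cy2_map μ i j (extW i v.1.1) (extW j v.1.2))
  simp only [Measure.smul_apply, smul_eq_mul] at h
  rw [Measure.map_apply (measurable_sh2 i j) hB, Measure.restrict_apply hB'] at h
  rw [Set.inter_comm]; exact h

end Crest.Agent.R154.J132
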