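import Crest.Agent.R154.Joint1_132

/-! Row 154, B4 trunk side, part 2: joint cuts, the renewal identity, tail bound. -/

set_option autoImplicit false
set_option linter.unusedSectionVars false

namespace Crest.Agent.R154.J132

open MeasureTheory ProbabilityTheory Filter Topology Set
open scoped ENNReal

variable {A : Type*}

/-- height after `n` letters -/
def H (Y : A → ℕ) (n : ℕ) (a : ℕ → A) : ℕ := ∑ i ∈ Finset.range n, Y (a i)

lemma H_zero (Y : A → ℕ) (a : ℕ → A) : H Y 0 a = 0 := by simp [H]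

lemma H_succ (Y : A → ℕ) (n : ℕ) (a : ℕ → A) : H Y (n + 1) a = H Y n a + Y (a n) := by
  simp [H, Finset.sum_range_succ]

lemma H_add (Y : A → ℕ) (n m : ℕ) (a : ℕ → A) : H Y (n + m) a = H Y n a + H Y m (sh n a) := by
  simp [H, Finset.sum_range_add, sh]

lemma H_congr {Y : A → ℕ} {n : ℕ} {a b : ℕ → A} (h : ∀ i < n, a i = b i) : H Y n a = H Y n b :=
  Finset.sum_congr rfl fun i hi => by rw [h i (Finset.mem_range.1 hi)]

lemma H_strictMono {Y : A → ℕ} (hY : ∀ a, 1 ≤ Y a) (a : ℕ → A) :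
    StrictMono fun n => H Y n a := by
  refine strictMono_nat_of_lt_succ fun n => ?_
  rw [H_succ]
  have := hY (a n)
  omega

lemma le_H {Y : A → ℕ} (hY : ∀ a, 1 ≤ Y a) (n : ℕ) (a : ℕ → A) : n ≤ H Y n a :=
  (H_strictMono hY a).id_le n

/-- `ℓ` is a joint cut level -/
def JCut (Y : A → ℕ) (p : (ℕ → A) × (ℕ → A)) (l : ℕ) : Prop :=
  ∃ i j, H Y i p.1 = l ∧ H Y j p.2 = l

lemma jcut_zero (Y : A → ℕ) (p : (ℕ → A) × (ℕ → A)) : JCut Y p 0 :=
  ⟨0, 0, H_zero _ _, H_zero _ _⟩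

/-- both have a cut at level `k`, with indices `q` -/
def At (Y : A → ℕ) (k : ℕ) (q : ℕ × ℕ) : Set ((ℕ → A) × (ℕ → A)) :=
  {p | H Y q.1 p.1 = k ∧ H Y q.2 p.2 = k}

/-- no joint cut level in `[1, m]` -/
def NoCut (Y : A → ℕ) (m : ℕ) : Set ((ℕ → A) × (ℕ → A)) :=
  {p | ∀ l, 1 ≤ l → l ≤ m → ¬ JCut Y p l}

lemma det2_At (Y : A → ℕ) (k : ℕ) (q : ℕ × ℕ) : Det2 q.1 q.2 (At Y k q) := by
  intro p p' h1 h2
  simp only [At, mem_ofPred_eq]
  rw [H_congr h1, H_congr h2]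

lemma disj_At {Y : A → ℕ} (hY : ∀ a, 1 ≤ Y a) (k : ℕ) {q q' : ℕ × ℕ} (hne : q ≠ q') :
    Disjoint (At Y k q) (At Y k q') := by
  rw [Set.disjoint_left]
  rintro p ⟨h1, h2⟩ ⟨h3, h4⟩
  apply hne
  exact Prod.ext ((H_strictMono hY p.1).injective (h1.trans h3.symm))
    ((H_strictMono hY p.2).injective (h2.trans h4.symm))

lemma jcut_sh {Y : A → ℕ} {k l : ℕ} {q : ℕ × ℕ} {p : (ℕ → A) × (ℕ → A)} (hp : p ∈ At Y k q)
    (h : JCut Y (sh2 q.1 q.2 p) l) : JCut Y p (k + l) := by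
  obtain ⟨i, j, h1, h2⟩ := h
  exact ⟨q.1 + i, q.2 + j, by rw [H_add, hp.1]; exact congrArg _ h1,
    by rw [H_add, hp.2]; exact congrArg _ h2⟩

lemma jcut_of_sh {Y : A → ℕ} (hY : ∀ a, 1 ≤ Y a) {k l : ℕ} {q : ℕ × ℕ}
    {p : (ℕ → A) × (ℕ → A)} (hp : p ∈ At Y k q)
    (h : JCut Y p (k + l)) : JCut Y (sh2 q.1 q.2 p) l := by
  obtain ⟨i, j, h1, h2⟩ := h
  have hi : q.1 ≤ i := by
    refine (H_strictMono hY p.1).le_iff_le.1 ?_
    change H Y q.1 p.1 ≤ H Y i p.1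
    rw [hp.1, h1]; omega
  have hj : q.2 ≤ j := by
    refine (H_strictMono hY p.2).le_iff_le.1 ?_
    change H Y q.2 p.2 ≤ H Y j p.2
    rw [hp.2, h2]; omega
  refine ⟨i - q.1, j - q.2, ?_, ?_⟩
  · have := H_add Y q.1 (i - q.1) p.1
    rw [Nat.add_sub_cancel' hi, h1, hp.1] at this
    change H Y (i - q.1) (sh q.1 p.1) = l
    omega
  · have := H_add Y q.2 (j - q.2) p.2
    rw [Nat.add_sub_cancel' hj, h2, hp.2] at this
    change H Y (j - q.2) (sh q.2 p.2) = l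
    omega

variable [MeasurableSpace A] [MeasurableSingletonClass A] [Countable A] [Inhabited A]

lemma measurableSet_jcut (Y : A → ℕ) (l : ℕ) : MeasurableSet {p | JCut Y p l} := by
  have : {p | JCut Y p l} = ⋃ q : ℕ × ℕ, At Y l q := by
    ext p
    simp only [JCut, mem_ofPred_eq, mem_iUnion, At, Prod.exists]
  rw [this]
  exact MeasurableSet.iUnion fun q => (det2_At Y l q).measurableSet

lemma measurableSet_noCut (Y : A → ℕ) (m : ℕ) : MeasurableSet (NoCut Y m) := by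
  have : NoCut Y m = ⋂ l : ℕ, ⋂ _ : 1 ≤ l, ⋂ _ : l ≤ m, {p | JCut Y p l}ᶜ := by
    ext p; simp [NoCut]
  rw [this]
  exact MeasurableSet.iInter fun l => MeasurableSet.iInter fun _ => MeasurableSet.iInter fun _ =>
    (measurableSet_jcut Y l).compl

lemma noCut_anti (Y : A → ℕ) {m m' : ℕ} (h : m ≤ m') : NoCut Y m' ⊆ NoCut (A := A) Y m :=
  fun _ hp l h1 h2 => hp l h1 (h2.trans h)

/-- restart along a disjoint family of determined events -/
theorem restart_family (μ : Measure A) [IsProbabilityMeasure μ]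
    (C : ℕ × ℕ → Set ((ℕ → A) × (ℕ → A))) (hC : ∀ q, Det2 q.1 q.2 (C q))
    (hd : Pairwise (Function.onFun Disjoint C)) {B : Set ((ℕ → A) × (ℕ → A))}
    (hB : MeasurableSet B) :
    pairL μ (⋃ q, (C q ∩ sh2 q.1 q.2 ⁻¹' B)) = pairL μ (⋃ q, C q) * pairL μ B := by
  rw [measure_iUnion (fun q q' h => (hd h).mono inter_subset_left inter_subset_left)
      (fun q => (hC q).measurableSet.inter (measurable_sh2 q.1 q.2 hB)),
    measure_iUnion hd fun q => (hC q).measurableSet, ← ENNReal.tsum_mul_right]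
  exact tsum_congr fun q => restart μ (hC q) hB

/-- the renewal function -/
noncomputable def Ur (μ : Measure A) (Y : A → ℕ) (l : ℕ) : ℝ≥0∞ := pairL μ {p | JCut Y p l}

/-- **restart at level `k`** -/
theorem restart_level (μ : Measure A) [IsProbabilityMeasure μ] {Y : A → ℕ} (hY : ∀ a, 1 ≤ Y a)
    (k : ℕ) {B : Set ((ℕ → A) × (ℕ → A))} (hB : MeasurableSet B) :
    pairL μ (⋃ q : ℕ × ℕ, (At Y k q ∩ sh2 q.1 q.2 ⁻¹' B)) = Ur μ Y k * pairL μ B := by
  rw [restart_family μ _ (det2_At Y k) (fun q q' h => disj_At hY k h) hB, Ur]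
  congr 2
  ext p
  simp only [JCut, mem_ofPred_eq, mem_iUnion, At, Prod.exists]

/-- the last joint cut level `≤ l` is `k`, and the shifted pair lies in `G (l - k)` -/
def Last (Y : A → ℕ) (l : ℕ) (G : ℕ → Set ((ℕ → A) × (ℕ → A))) (k : ℕ) :
    Set ((ℕ → A) × (ℕ → A)) :=
  ⋃ q : ℕ × ℕ, (At Y k q ∩ sh2 q.1 q.2 ⁻¹' (NoCut Y (l - k) ∩ G (l - k)))

lemma exists_last (Y : A → ℕ) (l : ℕ) (p : (ℕ → A) × (ℕ → A)) :
    ∃ k ≤ l, p ∈ Last Y l (fun _ => univ) k := by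
  classical
  have h0 : ∃ k, k ≤ l ∧ JCut Y p k := ⟨0, Nat.zero_le _, jcut_zero Y p⟩
  set k := Nat.findGreatest (fun k => JCut Y p k) l with hk
  have hkl : k ≤ l := Nat.findGreatest_le l
  have hkc : JCut Y p k := Nat.findGreatest_spec (P := fun k => JCut Y p k) (Nat.zero_le l)
    (jcut_zero Y p)
  refine ⟨k, hkl, ?_⟩
  obtain ⟨i, j, h1, h2⟩ := hkc
  simp only [Last, mem_iUnion]
  refine ⟨(i, j), ⟨h1, h2⟩, ?_, trivial⟩
  intro x hx1 hx2 hc
  have h3 : JCut Y p (k + x) := jcut_sh (q := (i, j)) ⟨h1, h2⟩ hc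
  have h4 : k + x ≤ k := Nat.le_findGreatest (by omega) h3
  omega

lemma disj_last {Y : A → ℕ} (hY : ∀ a, 1 ≤ Y a) (l : ℕ) (G G' : ℕ → Set ((ℕ → A) × (ℕ → A)))
    {k k' : ℕ} (hk : k ≤ l) (hk' : k' ≤ l) (hne : k ≠ k') :
    Disjoint (Last Y l G k) (Last Y l G' k') := by
  wlog h : k < k' generalizing k k' G G'
  · exact (this G' G hk' hk (Ne.symm hne) (by omega)).symm
  rw [Set.disjoint_left]
  intro p hp hp'
  simp only [Last, mem_iUnion] at hp hp'
  obtain ⟨q, hq, hn, -⟩ := hp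
  obtain ⟨q', hq', -⟩ := hp'
  have h1 : JCut Y p (k + (k' - k)) := by
    rw [Nat.add_sub_cancel' h.le]
    exact ⟨q'.1, q'.2, hq'.1, hq'.2⟩
  exact hn (k' - k) (by omega) (by omega) (jcut_of_sh hY hq h1)

lemma measurableSet_last (Y : A → ℕ) (l : ℕ) {G : ℕ → Set ((ℕ → A) × (ℕ → A))}
    (hG : ∀ m, MeasurableSet (G m)) (k : ℕ) : MeasurableSet (Last Y l G k) :=
  MeasurableSet.iUnion fun q => (det2_At Y k q).measurableSet.inter
    (measurable_sh2 _ _ ((measurableSet_noCut Y _).inter (hG _)))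

lemma measure_last (μ : Measure A) [IsProbabilityMeasure μ] {Y : A → ℕ} (hY : ∀ a, 1 ≤ Y a)
    (l : ℕ) {G : ℕ → Set ((ℕ → A) × (ℕ → A))} (hG : ∀ m, MeasurableSet (G m)) (k : ℕ) :
    pairL μ (Last Y l G k) = Ur μ Y k * pairL μ (NoCut Y (l - k) ∩ G (l - k)) :=
  restart_level μ hY k ((measurableSet_noCut Y _).inter (hG _))

/-- **the renewal identity** -/
theorem renewal_identity (μ : Measure A) [IsProbabilityMeasure μ] {Y : A → ℕ}
    (hY : ∀ a, 1 ≤ Y a) (l : ℕ) :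
    ∑ k ∈ Finset.range (l + 1), Ur μ Y k * pairL μ (NoCut Y (l - k)) = 1 := by
  have h1 : (⋃ k ∈ Finset.range (l + 1), Last Y l (fun _ => univ) k)
      = (univ : Set ((ℕ → A) × (ℕ → A))) := by
    rw [Set.eq_univ_iff_forall]
    intro p
    obtain ⟨k, hk, hp⟩ := exists_last Y l p
    simp only [mem_iUnion]
    exact ⟨k, Finset.mem_range.2 (by omega), hp⟩
  have h2 := measure_biUnion_finset (μ := pairL μ) (s := Finset.range (l + 1))
    (f := fun k => Last Y l (fun _ => univ) k) (fun k hk k' hk' hne => by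
      have e1 := Finset.mem_range.1 hk
      have e2 := Finset.mem_range.1 hk'
      exact disj_last hY l _ _ (by omega) (by omega) hne)
    (fun k _ => measurableSet_last Y l (fun _ => MeasurableSet.univ) k)
  rw [h1, measure_univ] at h2
  rw [h2]
  refine Finset.sum_congr rfl fun k _ => ?_
  rw [measure_last μ hY l (fun _ => MeasurableSet.univ), inter_univ]

/-- the events at the last joint cut before level `l`. -/
def AtLast (Y : A → ℕ) (l : ℕ) (G : ℕ → Set ((ℕ → A) × (ℕ → A))) : Set ((ℕ → A) × (ℕ → A)) :=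
  ⋃ k ∈ Finset.range (l + 1), Last Y l G k

lemma measure_atLast_le (μ : Measure A) [IsProbabilityMeasure μ] {Y : A → ℕ}
    (hY : ∀ a, 1 ≤ Y a) (l : ℕ) {G : ℕ → Set ((ℕ → A) × (ℕ → A))}
    (hG : ∀ m, MeasurableSet (G m)) :
    pairL μ (AtLast Y l G) ≤ ∑ m ∈ Finset.range (l + 1), pairL μ (NoCut Y m ∩ G m) := by
  refine (measure_biUnion_finset_le _ _).trans ?_
  have h1 : ∀ k ∈ Finset.range (l + 1), pairL μ (Last Y l G k)
      ≤ pairL μ (NoCut Y (l - k) ∩ G (l - k)) := by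
    intro k _
    rw [measure_last μ hY l hG]
    calc _ ≤ 1 * pairL μ (NoCut Y (l - k) ∩ G (l - k)) := by
          gcongr
          exact prob_le_one
      _ = _ := one_mul _
  refine (Finset.sum_le_sum h1).trans (le_of_eq ?_)
  exact Finset.sum_range_reflect (fun m => pairL μ (NoCut Y m ∩ G m)) (l + 1)

/-- `E[R_1] ≤ 1/c` -/
theorem tsum_noCut_le (μ : Measure A) [IsProbabilityMeasure μ] {Y : A → ℕ}
    (hY : ∀ a, 1 ≤ Y a) {c : ℝ≥0∞} (hc : c ≠ 0) (hc' : c ≠ ⊤) (hU : ∀ l, c ≤ Ur μ Y l) :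
    ∑' m, pairL μ (NoCut Y m) ≤ c⁻¹ := by
  refine ENNReal.tsum_le_of_sum_range_le fun n => ?_
  have h1 : ∑ i ∈ Finset.range n, pairL μ (NoCut Y i)
      ≤ ∑ i ∈ Finset.range (n + 1), pairL μ (NoCut Y i) :=
    Finset.sum_le_sum_of_subset (Finset.range_mono (Nat.le_succ n))
  refine h1.trans ?_
  rw [← one_mul (c⁻¹), ← div_eq_mul_inv, ENNReal.le_div_iff_mul_le (Or.inl hc) (Or.inl hc')]
  rw [← renewal_identity μ hY n, Finset.sum_mul,
    ← Finset.sum_range_reflect (fun m => pairL μ (NoCut Y m) * c) (n + 1)]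
  refine Finset.sum_le_sum fun k _ => ?_
  rw [mul_comm]
  have : n + 1 - 1 - k = n - k := by omega
  rw [this]
  gcongr
  exact hU k

/-- tail of the mean -/
noncomputable def tl (μ : Measure A) (Y : A → ℕ) (h : ℕ) : ℝ≥0∞ :=
  ∑' m, pairL μ (NoCut Y (m + h))

theorem tendsto_tl (μ : Measure A) [IsProbabilityMeasure μ] {Y : A → ℕ}
    (hY : ∀ a, 1 ≤ Y a) {c : ℝ≥0∞} (hc : c ≠ 0) (hc' : c ≠ ⊤) (hU : ∀ l, c ≤ Ur μ Y l) :
    Tendsto (tl μ Y) atTop (𝓝 0) := by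
  have h : ∑' m, pairL μ (NoCut Y m) ≠ ⊤ :=
    ne_top_of_le_ne_top (ENNReal.inv_ne_top.2 hc) (tsum_noCut_le μ hY hc hc' hU)
  exact ENNReal.tendsto_sum_nat_add (fun m => pairL μ (NoCut Y m)) h

theorem noCut_tendsto (μ : Measure A) [IsProbabilityMeasure μ] {Y : A → ℕ}
    (hY : ∀ a, 1 ≤ Y a) {c : ℝ≥0∞} (hc : c ≠ 0) (hc' : c ≠ ⊤) (hU : ∀ l, c ≤ Ur μ Y l) :
    Tendsto (fun m => pairL μ (NoCut Y m)) atTop (𝓝 0) := by
  refine tendsto_of_tendsto_of_tendsto_of_le_of_le tendsto_const_nhds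
    (tendsto_tl μ hY hc hc' hU) (fun _ => zero_le) fun m => ?_
  have := ENNReal.le_tsum (f := fun k => pairL μ (NoCut Y (k + m))) 0
  simp only [zero_add] at this
  exact this

theorem measure_atLast_le' (μ : Measure A) [IsProbabilityMeasure μ] {Y : A → ℕ}
    (hY : ∀ a, 1 ≤ Y a) (l h : ℕ) {G : ℕ → Set ((ℕ → A) × (ℕ → A))}
    (hG : ∀ m, MeasurableSet (G m)) :
    pairL μ (AtLast Y l G) ≤ ∑ m ∈ Finset.range h, pairL μ (NoCut Y m ∩ G m) + tl μ Y h := by
  refine (measure_atLast_le μ hY l hG).trans ?_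
  have h1 : ∑ m ∈ Finset.range (l + 1), pairL μ (NoCut Y m ∩ G m)
      ≤ ∑ m ∈ Finset.range (h + (l + 1)), pairL μ (NoCut Y m ∩ G m) :=
    Finset.sum_le_sum_of_subset (Finset.range_mono (Nat.le_add_left _ _))
  refine h1.trans ?_
  rw [Finset.sum_range_add]
  gcongr
  calc ∑ x ∈ Finset.range (l + 1), pairL μ (NoCut Y (h + x) ∩ G (h + x))
      ≤ ∑ x ∈ Finset.range (l + 1), pairL μ (NoCut Y (x + h)) := by
        refine Finset.sum_le_sum fun x _ => ?_
        rw [add_comm x h]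
        exact measure_mono inter_subset_left
    _ ≤ _ := ENNReal.sum_le_tsum _

/-- no joint cut level in `(l - h, l]` -/
theorem no_cut_window (μ : Measure A) [IsProbabilityMeasure μ] {Y : A → ℕ}
    (hY : ∀ a, 1 ≤ Y a) (l h : ℕ) :
    pairL μ {p | ∀ x, x ≤ l → l < x + h → ¬ JCut Y p x} ≤ tl μ Y h := by
  classical
  have hsub : {p | ∀ x, x ≤ l → l < x + h → ¬ JCut Y p x}
      ⊆ AtLast Y l (fun m => if h ≤ m then univ else ∅) := by
    intro p hp
    obtain ⟨k, hk, hl⟩ := exists_last Y l p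
    simp only [AtLast, mem_iUnion]
    refine ⟨k, Finset.mem_range.2 (by omega), ?_⟩
    simp only [Last, mem_iUnion] at hl ⊢
    obtain ⟨q, hq, hn, -⟩ := hl
    refine ⟨q, hq, hn, ?_⟩
    by_cases hkh : h ≤ l - k
    · rw [if_pos hkh]; trivial
    · exact absurd ⟨q.1, q.2, hq.1, hq.2⟩ (hp k hk (by omega))
  refine (measure_mono hsub).trans ((measure_atLast_le' μ hY l h (fun m => ?_)).trans ?_)
  · split_ifs
    · exact MeasurableSet.univ
    · exact MeasurableSet.empty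
  · have : ∑ m ∈ Finset.range h, pairL μ (NoCut Y m ∩ (if h ≤ m then univ else ∅)) = 0 := by
      refine Finset.sum_eq_zero fun m hm => ?_
      rw [if_neg (by have := Finset.mem_range.1 hm; omega), inter_empty, measure_empty]
    rw [this, zero_add]

end Crest.Agent.R154.J132
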