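import Crest.Agent.R154.Joint3_132
import Crest.Agent.R154.BodyDefs_818

/-! Row 154, B4 trunk side, part 4: definitions and the literal intermediate statements.
All about letters: `a : ℕ → A` iid with law `μ`, height `Y a ≥ 1`, displacement `V a`,
`U l a` = lateral position at the first passage of level `l`. -/

set_option autoImplicit false
set_option linter.unusedSectionVars false

namespace Crest.Agent.R154.J132

open MeasureTheory ProbabilityTheory Filter Topology Set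
open Crest.Agent.R154.Conc412 (dot)
open scoped ENNReal

variable {A : Type*} [MeasurableSpace A]

/-- `U l a` is the lateral position at the first passage of level `l`, in terms of letters. -/
structure Pos (Y : A → ℕ) (V : A → (Fin 2 → ℝ)) (U : ℕ → (ℕ → A) → (Fin 2 → ℝ)) : Prop where
  meas : ∀ l, Measurable (U l)
  cov : ∀ (a : ℕ → A) (i l : ℕ), H Y i a ≤ l → U l a = Dd V i a + U (l - H Y i a) (sh i a)
  det : ∀ (a b : ℕ → A) (i l : ℕ), l ≤ H Y i a → (∀ k < i, a k = b k) → U l a = U l b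

/-- displacement difference after `k` joint blocks -/
noncomputable def SS (Y : A → ℕ) (V : A → (Fin 2 → ℝ)) (k : ℕ) (p : (ℕ → A) × (ℕ → A)) :
    Fin 2 → ℝ := ∑ i ∈ Finset.range k, X0 Y V ((rest Y)^[i] p)

/-- height after `k` joint blocks -/
noncomputable def RR (Y : A → ℕ) (k : ℕ) (p : (ℕ → A) × (ℕ → A)) : ℕ :=
  ∑ i ∈ Finset.range k, R0 Y ((rest Y)^[i] p)

/-- index of the first cut at a level `≥ l` -/
noncomputable def fi (Y : A → ℕ) (l : ℕ) (a : ℕ → A) : ℕ := sInf {i | l ≤ H Y i a}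

/-- the norm of the frame `b` is at most `s` -/
def nb (b : Fin 2 → Fin 2 → ℝ) (s : ℝ) (x : Fin 2 → ℝ) : Prop := ∀ i, |dot (b i) x| ≤ s

lemma nb_add {b : Fin 2 → Fin 2 → ℝ} {s t : ℝ} {x y : Fin 2 → ℝ} (hx : nb b s x) (hy : nb b t y) :
    nb b (s + t) (x + y) := fun i => by
  rw [Conc412.dot_add_right]
  exact (abs_add_le _ _).trans (add_le_add (hx i) (hy i))

lemma nb_neg {b : Fin 2 → Fin 2 → ℝ} {s : ℝ} {x : Fin 2 → ℝ} (hx : nb b s x) :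
    nb b s (-x) := fun i => by
  have h : dot (b i) (-x) = - dot (b i) x := by simp [dot, Finset.sum_neg_distrib]
  rw [h, abs_neg]
  exact hx i

lemma nb_mono {b : Fin 2 → Fin 2 → ℝ} {s t : ℝ} {x : Fin 2 → ℝ} (h : s ≤ t) (hx : nb b s x) :
    nb b t x := fun i => (hx i).trans h

lemma nb_of_norm {b : Fin 2 → Fin 2 → ℝ} {g r s : ℝ}
    (hg : ∀ i, ∀ x : Fin 2 → ℝ, |dot (b i) x| ≤ g * ‖x‖) (hg0 : 0 ≤ g) (hr : g * r ≤ s)
    {x : Fin 2 → ℝ} (hx : ‖x‖ ≤ r) : nb b s x := fun i =>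
  (hg i x).trans ((mul_le_mul_of_nonneg_left hx hg0).trans hr)

variable [MeasurableSingletonClass A] [Countable A] [Inhabited A]

/-- (132) the position difference at level `l` is the sum over the joint blocks, up to `O(1)`,
uniformly in `l`. -/
def CloseSum (μ : Measure A) (Y : A → ℕ) (V : A → (Fin 2 → ℝ))
    (U : ℕ → (ℕ → A) → (Fin 2 → ℝ)) : Prop :=
  ∀ η : ℝ, 0 < η → ∃ h r : ℕ, ∀ l, (pairL μ).real {p | ¬ ∃ k, k ≤ RR Y k p ∧ RR Y k p ≤ l ∧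
    l < RR Y k p + h ∧ ‖U l p.1 - U l p.2 - SS Y V k p‖ ≤ r} ≤ η

/-- (132) the first cut at a level `≥ L` is close, uniformly in `L`. -/
def TightCut (μ : Measure A) (Y : A → ℕ) (V : A → (Fin 2 → ℝ))
    (U : ℕ → (ℕ → A) → (Fin 2 → ℝ)) : Prop :=
  ∀ η : ℝ, 0 < η → ∃ r : ℕ, ∀ L, (iidL μ).real {a | ¬ (H Y (fi Y L a) a ≤ L + r ∧
    ‖U L a - Dd V (fi Y L a) a‖ ≤ r)} ≤ η

/-- (132) increments over `m` levels are tight, uniformly in `L`. -/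
def TightInc (μ : Measure A) (U : ℕ → (ℕ → A) → (Fin 2 → ℝ)) : Prop :=
  ∀ η : ℝ, 0 < η → ∀ m : ℕ, ∃ r : ℕ, ∀ L, (iidL μ).real {a | (r : ℝ) < ‖U (L + m) a - U L a‖} ≤ η

/-- (132) every window of height `t` contains a cut with high probability. -/
def CutWindow (μ : Measure A) (Y : A → ℕ) : Prop :=
  ∀ η : ℝ, 0 < η → ∃ t0 : ℕ, ∀ t, t0 ≤ t → ∀ L, (iidL μ).real {a | ∀ i, ¬ (L < H Y i a ∧
    H Y i a ≤ L + t)} ≤ η

/-- (412) linear growth of the joint cut levels at most. -/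
def SumRTail (μ : Measure A) (Y : A → ℕ) (e : ℝ) : Prop :=
  ∀ (n : ℕ) (x : ℝ), 0 < x → (pairL μ).real {p | x ≤ (RR Y n p : ℝ)} ≤ n * e / x

/-- (818) **Claim (U)**: the displacement of one walker over `7t` levels stays in `c + E`. -/
def ClaimU (μ : Measure A) (Y : A → ℕ) (V : A → (Fin 2 → ℝ))
    (U : ℕ → (ℕ → A) → (Fin 2 → ℝ)) : Prop :=
  ∀ η : ℝ, 0 < η → ∀ r₂ : ℕ, ∃ r : ℕ, ∀ t : ℕ, r ≤ t → ∀ (b : Fin 2 → Fin 2 → ℝ) (g v : ℝ),
    0 ≤ g → (∀ i, ∀ x : Fin 2 → ℝ, |dot (b i) x| ≤ g * ‖x‖) → g * r ≤ 1 / 7 →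
    (pairL μ).real {p | ∃ j ≤ 7 * t, ∃ i, 1 < |dot (b i) (SS Y V j p)|} ≤ v →
    ∃ c : Fin 2 → ℝ,
      (∀ m ≤ r₂, (iidL μ).real {a | ¬ nb b (9 / 7) (U (7 * t - m) a - c)} ≤ v + 2 * η) ∧
      (∀ L, (iidL μ).real {a | ¬ nb b (10 / 7) (U (L + 7 * t) a - U L a - c)} ≤ v + 3 * η)

/-- (412) **Claim (Π)**: closeness at the levels `(k+7)t`, `kt` for some `K/2 ≤ k ≤ M`. -/
def ClaimPi (μ : Measure A) (Y : A → ℕ) (V : A → (Fin 2 → ℝ))
    (U : ℕ → (ℕ → A) → (Fin 2 → ℝ)) : Prop :=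
  ∀ η : ℝ, 0 < η → ∃ r₂ h : ℕ, ∀ (t K M R N : ℕ) (b : Fin 2 → Fin 2 → ℝ) (g w : ℝ)
    (c y : Fin 2 → ℝ), r₂ ≤ t → N = K * t → 4 * h ≤ N → (M + 7) * t ≤ R * N → 1 ≤ R →
    0 ≤ g → (∀ i, ∀ x : Fin 2 → ℝ, |dot (b i) x| ≤ g * ‖x‖) → g * r₂ ≤ 1 / 7 →
    (∀ m ≤ r₂, (iidL μ).real {a | ¬ nb b (9 / 7) (U (7 * t - m) a - c)} ≤ w) →
    (pairL μ).real {p | ∃ k, K ≤ 2 * k ∧ k ≤ M ∧
        nb b (10 / 7) (U ((k + 7) * t) p.1 - U (k * t) p.2 - c - y)}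
      ≤ 2 * (M + 1) * η + w
        + (pairL μ).real {p | ∃ j, N ≤ R * j ∧ j ≤ R * N ∧ ∀ i, |dot (b i) (SS Y V j p - y)| ≤ 3}
        + (pairL μ).real {p | (N : ℝ) / 4 ≤ RR Y (N / R + 1) p}

end Crest.Agent.R154.J132
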