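import Crest.Agent.R154.Joint2_132

/-! Row 154, B4 trunk side, part 4: (JC3) windows without a cut, (JC4) the number of joint cuts,
uniform tightness of the block at a level. -/

set_option autoImplicit false
set_option linter.unusedSectionVars false

namespace Crest.Agent.R154.J132

open MeasureTheory ProbabilityTheory Filter Topology Set
open scoped ENNReal

variable {A : Type*}

open Classical in
/-- number of joint cut levels in `[1, l]` -/
noncomputable def cnt (Y : A → ℕ) (l : ℕ) (p : (ℕ → A) × (ℕ → A)) : ℕ :=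
  ∑ k ∈ Finset.Icc 1 l, if JCut Y p k then 1 else 0

/-- fewer than `n` joint cuts in `[1, l]` -/
def Few (Y : A → ℕ) (n l : ℕ) : Set ((ℕ → A) × (ℕ → A)) := {p | cnt Y l p < n}

lemma cnt_mono (Y : A → ℕ) {l l' : ℕ} (h : l ≤ l') (p : (ℕ → A) × (ℕ → A)) :
    cnt Y l p ≤ cnt Y l' p :=
  Finset.sum_le_sum_of_subset (Finset.Icc_subset_Icc_right h)

lemma cnt_le (Y : A → ℕ) (l : ℕ) (p : (ℕ → A) × (ℕ → A)) : cnt Y l p ≤ l := by
  classical
  unfold cnt
  calc _ ≤ ∑ k ∈ Finset.Icc 1 l, 1 := Finset.sum_le_sum fun k _ => by split_ifs <;> simp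
    _ = l := by simp

lemma few_anti (Y : A → ℕ) (n : ℕ) {l l' : ℕ} (h : l ≤ l') : Few Y n l' ⊆ Few Y n l :=
  fun p hp => lt_of_le_of_lt (cnt_mono Y h p) hp

/-- the first joint cut is at level `k` with indices `q` -/
def First (Y : A → ℕ) (k : ℕ) (q : ℕ × ℕ) : Set ((ℕ → A) × (ℕ → A)) :=
  At Y k q ∩ NoCut Y (k - 1)

lemma det2_noCut_at {Y : A → ℕ} (hY : ∀ a, 1 ≤ Y a) {k m : ℕ} (hm : m ≤ k) (q : ℕ × ℕ)
    {p p' : (ℕ → A) × (ℕ → A)}
    (h1 : ∀ i < q.1, p.1 i = p'.1 i) (h2 : ∀ i < q.2, p.2 i = p'.2 i)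
    (hp : p ∈ At Y k q) (hn : p ∈ NoCut Y m) : p' ∈ NoCut Y m := by
  rintro l hl1 hl2 ⟨i, j, hi, hj⟩
  have hp' : p' ∈ At Y k q := (det2_At Y k q p p' h1 h2).1 hp
  refine hn l hl1 hl2 ⟨i, j, ?_, ?_⟩
  · have hiq : i ≤ q.1 := by
      refine (H_strictMono hY p'.1).le_iff_le.1 ?_
      change H Y i p'.1 ≤ H Y q.1 p'.1
      rw [hp'.1, hi]; omega
    rw [← hi]
    exact H_congr fun x hx => h1 x (by omega)
  · have hjq : j ≤ q.2 := by
      refine (H_strictMono hY p'.2).le_iff_le.1 ?_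
      change H Y j p'.2 ≤ H Y q.2 p'.2
      rw [hp'.2, hj]; omega
    rw [← hj]
    exact H_congr fun x hx => h2 x (by omega)

lemma det2_First {Y : A → ℕ} (hY : ∀ a, 1 ≤ Y a) (k : ℕ) (q : ℕ × ℕ) :
    Det2 q.1 q.2 (First Y k q) := by
  intro p p' h1 h2
  constructor
  · rintro ⟨ha, hb⟩
    exact ⟨(det2_At Y k q p p' h1 h2).1 ha,
      det2_noCut_at hY (Nat.sub_le _ _) q h1 h2 ha hb⟩
  · rintro ⟨ha, hb⟩
    have h1' : ∀ i < q.1, p'.1 i = p.1 i := fun i hi => (h1 i hi).symm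
    have h2' : ∀ i < q.2, p'.2 i = p.2 i := fun i hi => (h2 i hi).symm
    exact ⟨(det2_At Y k q p' p h1' h2').1 ha,
      det2_noCut_at hY (Nat.sub_le _ _) q h1' h2' ha hb⟩

lemma disj_First {Y : A → ℕ} (hY : ∀ a, 1 ≤ Y a) (k : ℕ) {q q' : ℕ × ℕ} (hne : q ≠ q') :
    Disjoint (First Y k q) (First Y k q') :=
  (disj_At hY k hne).mono inter_subset_left inter_subset_left

lemma exists_first {Y : A → ℕ} {l : ℕ} {p : (ℕ → A) × (ℕ → A)} (h : p ∉ NoCut Y l) :
    ∃ k, 1 ≤ k ∧ k ≤ l ∧ ∃ q, p ∈ First Y k q := by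
  classical
  simp only [NoCut, mem_ofPred_eq, not_forall, not_not] at h
  obtain ⟨x, hx1, hx2, hx⟩ := h
  have hex : ∃ x, 1 ≤ x ∧ JCut Y p x := ⟨x, hx1, hx⟩
  obtain ⟨h1, i, j, hi, hj⟩ := Nat.find_spec hex
  refine ⟨Nat.find hex, h1, (Nat.find_min' hex ⟨hx1, hx⟩).trans hx2, (i, j), ⟨hi, hj⟩, ?_⟩
  intro y hy1 hy2 hy
  exact Nat.find_min hex (m := y) (by omega) ⟨hy1, hy⟩

lemma cnt_sh_le {Y : A → ℕ} {k l : ℕ} (hk : k ≤ l) (hk1 : 1 ≤ k) {q : ℕ × ℕ}
    {p : (ℕ → A) × (ℕ → A)} (hp : p ∈ At Y k q) :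
    cnt Y (l - k) (sh2 q.1 q.2 p) + 1 ≤ cnt Y l p := by
  classical
  unfold cnt
  have hd : Disjoint (Finset.Icc 1 k) (Finset.Icc (k + 1) l) := by
    rw [Finset.disjoint_left]
    intro x hx hx'
    have := Finset.mem_Icc.1 hx
    have := Finset.mem_Icc.1 hx'
    omega
  have hu : Finset.Icc 1 k ∪ Finset.Icc (k + 1) l = Finset.Icc 1 l := by
    ext x
    simp only [Finset.mem_union, Finset.mem_Icc]
    omega
  rw [← hu, Finset.sum_union hd]
  have h1 : 1 ≤ ∑ x ∈ Finset.Icc 1 k, if JCut Y p x then 1 else 0 := by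
    have : (if JCut Y p k then 1 else 0) ≤ ∑ x ∈ Finset.Icc 1 k, if JCut Y p x then 1 else 0 :=
      Finset.single_le_sum (f := fun x => if JCut Y p x then 1 else 0)
        (fun _ _ => Nat.zero_le _) (Finset.mem_Icc.2 ⟨hk1, le_rfl⟩)
    rwa [if_pos ⟨q.1, q.2, hp.1, hp.2⟩] at this
  have h2 : (∑ x ∈ Finset.Icc 1 (l - k), if JCut Y (sh2 q.1 q.2 p) x then 1 else 0)
      ≤ ∑ x ∈ Finset.Icc (k + 1) l, if JCut Y p x then 1 else 0 := by
    have himg : Finset.Icc (k + 1) l = (Finset.Icc 1 (l - k)).map (addLeftEmbedding k) := by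
      ext x
      simp only [Finset.mem_map, Finset.mem_Icc, addLeftEmbedding_apply]
      constructor
      · intro hx
        exact ⟨x - k, by omega, by omega⟩
      · rintro ⟨y, hy, rfl⟩
        omega
    rw [himg, Finset.sum_map]
    refine Finset.sum_le_sum fun x _ => ?_
    simp only [addLeftEmbedding_apply]
    split_ifs with ha hb hb
    · exact le_rfl
    · exact absurd (jcut_sh hp ha) hb
    · exact Nat.zero_le _
    · exact le_rfl
  omega

lemma few_succ_subset (Y : A → ℕ) (n l : ℕ) :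
    Few Y (n + 1) l ⊆ NoCut Y l ∪
      ⋃ k ∈ Finset.Icc 1 l, ⋃ q : ℕ × ℕ, (First Y k q ∩ sh2 q.1 q.2 ⁻¹' (Few Y n (l - k))) := by
  intro p hp
  by_cases hN : p ∈ NoCut Y l
  · exact Or.inl hN
  obtain ⟨k, hk1, hk2, q, hq⟩ := exists_first hN
  refine Or.inr ?_
  simp only [mem_iUnion]
  refine ⟨k, Finset.mem_Icc.2 ⟨hk1, hk2⟩, q, hq, ?_⟩
  change cnt Y (l - k) (sh2 q.1 q.2 p) < n
  have h1 := cnt_sh_le hk2 hk1 hq.1
  have h2 : cnt Y l p < n + 1 := hp
  omega

variable [MeasurableSpace A] [MeasurableSingletonClass A] [Countable A] [Inhabited A]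

lemma measurable_cnt (Y : A → ℕ) (l : ℕ) : Measurable (cnt Y l) := by
  classical
  unfold cnt
  refine Finset.measurable_sum _ fun k _ => ?_
  exact Measurable.ite (measurableSet_jcut Y k) measurable_const measurable_const

lemma measurableSet_few (Y : A → ℕ) (n l : ℕ) : MeasurableSet (Few Y n l) :=
  measurable_cnt Y l (measurableSet_Iio : MeasurableSet (Set.Iio n))

/-- law of the level of the first joint cut -/
noncomputable def fl (μ : Measure A) (Y : A → ℕ) (k : ℕ) : ℝ≥0∞ :=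
  if 1 ≤ k then pairL μ (⋃ q, First Y k q) else 0

lemma tsum_fl_le (μ : Measure A) [IsProbabilityMeasure μ] {Y : A → ℕ} (hY : ∀ a, 1 ≤ Y a) :
    ∑' k, fl μ Y k ≤ 1 := by
  have hE : ∀ k, fl μ Y k = pairL μ (if 1 ≤ k then ⋃ q, First Y k q else ∅) := by
    intro k
    unfold fl
    split_ifs <;> simp
  simp_rw [hE]
  rw [← measure_iUnion]
  · exact prob_le_one
  · intro k k' hne
    simp only [Function.onFun]
    wlog h : k < k' generalizing k k'
    · exact (this (Ne.symm hne) (by omega)).symm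
    split_ifs with h1 h2 h2
    · rw [Set.disjoint_left]
      intro p hp hp'
      simp only [mem_iUnion] at hp hp'
      obtain ⟨q, hq, -⟩ := hp
      obtain ⟨q', -, hn⟩ := hp'
      exact hn k h1 (by omega) ⟨q.1, q.2, hq.1, hq.2⟩
    · exact Set.disjoint_empty _
    · exact Set.empty_disjoint _
    · exact Set.disjoint_empty _
  · intro k
    split_ifs
    · exact MeasurableSet.iUnion fun q => (det2_First hY k q).measurableSet
    · exact MeasurableSet.empty

lemma measure_few_succ_le (μ : Measure A) [IsProbabilityMeasure μ] {Y : A → ℕ}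
    (hY : ∀ a, 1 ≤ Y a) (n l : ℕ) :
    pairL μ (Few Y (n + 1) l) ≤ pairL μ (NoCut Y l)
      + ∑' k, fl μ Y k * (if k ≤ l then pairL μ (Few Y n (l - k)) else 0) := by
  refine (measure_mono (few_succ_subset Y n l)).trans ((measure_union_le _ _).trans ?_)
  gcongr
  refine (measure_biUnion_finset_le _ _).trans ?_
  calc ∑ k ∈ Finset.Icc 1 l,
        pairL μ (⋃ q : ℕ × ℕ, (First Y k q ∩ sh2 q.1 q.2 ⁻¹' (Few Y n (l - k))))
      = ∑ k ∈ Finset.Icc 1 l,
          fl μ Y k * (if k ≤ l then pairL μ (Few Y n (l - k)) else 0) := by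
        refine Finset.sum_congr rfl fun k hk => ?_
        obtain ⟨hk1, hk2⟩ := Finset.mem_Icc.1 hk
        rw [restart_family μ _ (det2_First hY k) (fun q q' h => disj_First hY k h)
          (measurableSet_few Y n (l - k)), fl, if_pos hk1, if_pos hk2]
    _ ≤ _ := ENNReal.sum_le_tsum _

lemma tsum_shift_eq (f : ℕ → ℝ≥0∞) (k : ℕ) :
    ∑' l, (if k ≤ l then f (l - k) else 0) = ∑' m, f m := by
  have h := Summable.sum_add_tsum_nat_add' (f := fun l => if k ≤ l then f (l - k) else 0) (k := k)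
    ENNReal.summable
  rw [← h]
  have h1 : ∑ i ∈ Finset.range k, (if k ≤ i then f (i - k) else 0) = 0 := by
    refine Finset.sum_eq_zero fun i hi => ?_
    rw [if_neg (by have := Finset.mem_range.1 hi; omega)]
  rw [h1, zero_add]
  refine tsum_congr fun m => ?_
  rw [if_pos (Nat.le_add_left _ _), Nat.add_sub_cancel]

/-- `E[R_n] ≤ n E[R_1]` -/
theorem tsum_few_le (μ : Measure A) [IsProbabilityMeasure μ] {Y : A → ℕ}
    (hY : ∀ a, 1 ≤ Y a) (n : ℕ) :
    ∑' l, pairL μ (Few Y n l) ≤ n * ∑' m, pairL μ (NoCut Y m) := by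
  induction n with
  | zero =>
    have : ∀ l, Few Y 0 l = ∅ := fun l => by
      ext p; simp [Few]
    simp [this]
  | succ n ih =>
    calc ∑' l, pairL μ (Few Y (n + 1) l)
        ≤ ∑' l, (pairL μ (NoCut Y l)
          + ∑' k, fl μ Y k * (if k ≤ l then pairL μ (Few Y n (l - k)) else 0)) :=
          ENNReal.tsum_le_tsum fun l => measure_few_succ_le μ hY n l
      _ = ∑' l, pairL μ (NoCut Y l)
          + ∑' k, fl μ Y k * ∑' m, pairL μ (Few Y n m) := by
          rw [ENNReal.tsum_add, ENNReal.tsum_comm]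
          congr 1
          refine tsum_congr fun k => ?_
          rw [ENNReal.tsum_mul_left, tsum_shift_eq (fun m => pairL μ (Few Y n m))]
      _ ≤ ∑' l, pairL μ (NoCut Y l) + 1 * (n * ∑' m, pairL μ (NoCut Y m)) := by
          rw [ENNReal.tsum_mul_right]
          gcongr
          exact tsum_fl_le μ hY
      _ = _ := by
          push_cast
          ring

/-- **(JC4)**: `P(#joint cuts in [1, l] < n) ≤ n E[R_1] / (l + 1)`. -/
theorem few_le (μ : Measure A) [IsProbabilityMeasure μ] {Y : A → ℕ}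
    (hY : ∀ a, 1 ≤ Y a) (n l : ℕ) :
    ((l : ℝ≥0∞) + 1) * pairL μ (Few Y n l) ≤ n * ∑' m, pairL μ (NoCut Y m) := by
  refine le_trans ?_ (tsum_few_le μ hY n)
  calc ((l : ℝ≥0∞) + 1) * pairL μ (Few Y n l)
      = ∑ _x ∈ Finset.range (l + 1), pairL μ (Few Y n l) := by
        rw [Finset.sum_const, Finset.card_range, nsmul_eq_mul]
        push_cast
        ring
    _ ≤ ∑ x ∈ Finset.range (l + 1), pairL μ (Few Y n x) := by
        refine Finset.sum_le_sum fun x hx => ?_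
        exact measure_mono (few_anti Y n (by have := Finset.mem_range.1 hx; omega))
    _ ≤ _ := ENNReal.sum_le_tsum _

theorem few_le' (μ : Measure A) [IsProbabilityMeasure μ] {Y : A → ℕ}
    (hY : ∀ a, 1 ≤ Y a) {c : ℝ≥0∞} (hc : c ≠ 0) (hc' : c ≠ ⊤) (hU : ∀ l, c ≤ Ur μ Y l)
    (n l : ℕ) : pairL μ (Few Y n l) ≤ n / (c * (l + 1)) := by
  have h1 := few_le μ hY n l
  have h2 := tsum_noCut_le μ hY hc hc' hU
  have h3 : (c * ((l : ℝ≥0∞) + 1)) ≠ 0 := by
    refine mul_ne_zero hc ?_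
    positivity
  have h4 : (c * ((l : ℝ≥0∞) + 1)) ≠ ⊤ := ENNReal.mul_ne_top hc' (by simp)
  rw [ENNReal.le_div_iff_mul_le (Or.inl h3) (Or.inl h4)]
  calc pairL μ (Few Y n l) * (c * ((l : ℝ≥0∞) + 1))
      = c * (((l : ℝ≥0∞) + 1) * pairL μ (Few Y n l)) := by ring
    _ ≤ c * (n * c⁻¹) := by
        have h5 : ((l : ℝ≥0∞) + 1) * pairL μ (Few Y n l) ≤ n * c⁻¹ :=
          h1.trans (by gcongr)
        gcongr
    _ = n := by
        rw [mul_comm (n : ℝ≥0∞), ← mul_assoc, ENNReal.mul_inv_cancel hc hc', one_mul]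

/-- **(JC3)** for one walker: no own cut in `(L, L + t]`. -/
theorem own_window (μ : Measure A) [IsProbabilityMeasure μ] {Y : A → ℕ}
    (hY : ∀ a, 1 ≤ Y a) (L t : ℕ) :
    iidL μ {a | ∀ i, L < H Y i a → L + t < H Y i a} ≤ tl μ Y t := by
  have h1 := no_cut_window μ hY (L + t) t
  refine le_trans ?_ h1
  have h2 : pairL μ ({a | ∀ i, L < H Y i a → L + t < H Y i a} ×ˢ (univ : Set (ℕ → A)))
      = iidL μ {a | ∀ i, L < H Y i a → L + t < H Y i a} := by
    rw [Measure.prod_prod, measure_univ, mul_one]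
  rw [← h2]
  refine measure_mono ?_
  rintro p ⟨hp, -⟩ x hx1 hx2 ⟨i, j, hi, -⟩
  have := hp i (by omega)
  omega

end Crest.Agent.R154.J132
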