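import Crest.Agent.R154.Joint4_132

/-! Row 154, B4 trunk side, part 5: restart at stopping indices, uniform tightness. -/

set_option autoImplicit false
set_option linter.unusedSectionVars false

namespace Crest.Agent.R154.J132

open MeasureTheory ProbabilityTheory Filter Topology Set
open scoped ENNReal

variable {A : Type*}

lemma fi_spec {Y : A → ℕ} (hY : ∀ a, 1 ≤ Y a) (l : ℕ) (a : ℕ → A) : l ≤ H Y (fi Y l a) a :=
  Nat.sInf_mem (s := {i | l ≤ H Y i a}) ⟨l, le_H hY l a⟩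

lemma lt_of_lt_fi {Y : A → ℕ} {l : ℕ} {a : ℕ → A} {i : ℕ} (h : i < fi Y l a) : H Y i a < l := by
  by_contra hc
  push Not at hc
  exact absurd (Nat.sInf_le (s := {i | l ≤ H Y i a}) hc) (not_le.2 h)

lemma fi_le {Y : A → ℕ} (hY : ∀ a, 1 ≤ Y a) (l : ℕ) (a : ℕ → A) : fi Y l a ≤ l :=
  Nat.sInf_le (s := {i | l ≤ H Y i a}) (le_H hY l a)

lemma fi_eq_iff {Y : A → ℕ} (hY : ∀ a, 1 ≤ Y a) {l : ℕ} {a : ℕ → A} {i : ℕ} :
    fi Y l a = i ↔ l ≤ H Y i a ∧ ∀ j < i, H Y j a < l := by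
  constructor
  · rintro rfl
    exact ⟨fi_spec hY l a, fun j hj => lt_of_lt_fi hj⟩
  · rintro ⟨h1, h2⟩
    refine le_antisymm (Nat.sInf_le (s := {i | l ≤ H Y i a}) h1) ?_
    by_contra hc
    push Not at hc
    have := h2 _ hc
    have := fi_spec hY l a
    omega

lemma fi_congr {Y : A → ℕ} (hY : ∀ a, 1 ≤ Y a) {l : ℕ} {a b : ℕ → A} {i : ℕ}
    (h : fi Y l a = i) (hab : ∀ k < i, a k = b k) : fi Y l b = i := by
  rw [fi_eq_iff hY] at h ⊢
  refine ⟨by rw [← H_congr hab]; exact h.1, fun j hj => ?_⟩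
  rw [← H_congr (a := a) (b := b) fun k hk => hab k (by omega)]
  exact h.2 j hj

lemma fi_add {Y : A → ℕ} (hY : ∀ a, 1 ≤ Y a) {l : ℕ} {a : ℕ → A} {i : ℕ} (h : H Y i a ≤ l) :
    fi Y l a = i + fi Y (l - H Y i a) (sh i a) := by
  rw [fi_eq_iff hY, H_add]
  refine ⟨?_, fun j hj => ?_⟩
  · have := fi_spec hY (l - H Y i a) (sh i a)
    omega
  · by_cases hji : j < i
    · have : H Y j a < H Y i a := H_strictMono hY a hji
      omega
    · push Not at hji
      obtain ⟨k, rfl⟩ := Nat.exists_eq_add_of_le hji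
      have hk : k < fi Y (l - H Y i a) (sh i a) := by omega
      have := lt_of_lt_fi hk
      rw [H_add]
      omega

variable [MeasurableSpace A] [MeasurableSingletonClass A] [Countable A] [Inhabited A]

/-- **restart at a stopping index pair** -/
theorem restart_stop (μ : Measure A) [IsProbabilityMeasure μ]
    (τ : (ℕ → A) × (ℕ → A) → ℕ × ℕ) (hτ : ∀ q, Det2 q.1 q.2 {p | τ p = q})
    {G : ℕ × ℕ → Set ((ℕ → A) × (ℕ → A))} (hG : ∀ q, Det2 q.1 q.2 (G q))
    {B : Set ((ℕ → A) × (ℕ → A))} (hB : MeasurableSet B) :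
    pairL μ {p | p ∈ G (τ p) ∧ sh2 (τ p).1 (τ p).2 p ∈ B}
      = pairL μ {p | p ∈ G (τ p)} * pairL μ B := by
  have hd : Pairwise (Function.onFun Disjoint fun q => {p | τ p = q} ∩ G q) := fun q q' h => by
    rw [Function.onFun, Set.disjoint_left]
    rintro p ⟨h1, -⟩ ⟨h2, -⟩
    exact h (h1.symm.trans h2)
  have hdet : ∀ q : ℕ × ℕ, Det2 q.1 q.2 ({p | τ p = q} ∩ G q) := fun q p p' h1 h2 =>
    and_congr (hτ q p p' h1 h2) (hG q p p' h1 h2)
  have key := restart_family μ _ hdet hd hB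
  have e1 : (⋃ q, ({p | τ p = q} ∩ G q ∩ sh2 q.1 q.2 ⁻¹' B))
      = {p | p ∈ G (τ p) ∧ sh2 (τ p).1 (τ p).2 p ∈ B} := by
    ext p
    simp only [mem_iUnion, mem_inter_iff, mem_ofPred_eq, mem_preimage]
    constructor
    · rintro ⟨q, ⟨rfl, h2⟩, h3⟩
      exact ⟨h2, h3⟩
    · rintro ⟨h1, h2⟩
      exact ⟨τ p, ⟨rfl, h1⟩, h2⟩
  have e2 : (⋃ q, ({p | τ p = q} ∩ G q)) = {p | p ∈ G (τ p)} := by
    ext p
    simp only [mem_iUnion, mem_inter_iff, mem_ofPred_eq]
    constructor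
    · rintro ⟨q, rfl, h2⟩
      exact h2
    · intro h1
      exact ⟨τ p, rfl, h1⟩
  rw [e1, e2] at key
  exact key

lemma pair_fst (μ : Measure A) [IsProbabilityMeasure μ] (S : Set (ℕ → A)) :
    pairL μ {p | p.1 ∈ S} = iidL μ S := by
  have : {p : (ℕ → A) × (ℕ → A) | p.1 ∈ S} = S ×ˢ (univ : Set (ℕ → A)) := by ext; simp
  rw [this, Measure.prod_prod, measure_univ, mul_one]

lemma pair_snd (μ : Measure A) [IsProbabilityMeasure μ] (S : Set (ℕ → A)) :
    pairL μ {p | p.2 ∈ S} = iidL μ S := by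
  have : {p : (ℕ → A) × (ℕ → A) | p.2 ∈ S} = (univ : Set (ℕ → A)) ×ˢ S := by ext; simp
  rw [this, Measure.prod_prod, measure_univ, one_mul]

lemma pair_fst_real (μ : Measure A) [IsProbabilityMeasure μ] (S : Set (ℕ → A)) :
    (pairL μ).real {p | p.1 ∈ S} = (iidL μ).real S := by
  rw [Measure.real, pair_fst, Measure.real]

lemma pair_snd_real (μ : Measure A) [IsProbabilityMeasure μ] (S : Set (ℕ → A)) :
    (pairL μ).real {p | p.2 ∈ S} = (iidL μ).real S := by
  rw [Measure.real, pair_snd, Measure.real]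

/-- **restart at a stopping index, one walker** -/
theorem restart_one (μ : Measure A) [IsProbabilityMeasure μ] (τ : (ℕ → A) → ℕ)
    (hτ : ∀ (a b : ℕ → A) (i : ℕ), τ a = i → (∀ k < i, a k = b k) → τ b = i)
    {G : ℕ → Set (ℕ → A)}
    (hG : ∀ (i : ℕ) (a b : ℕ → A), a ∈ G i → (∀ k < i, a k = b k) → b ∈ G i)
    {B : Set (ℕ → A)} (hB : MeasurableSet B) :
    iidL μ {a | a ∈ G (τ a) ∧ sh (τ a) a ∈ B} = iidL μ {a | a ∈ G (τ a)} * iidL μ B := by
  have key := restart_stop μ (fun p => (τ p.1, 0)) (G := fun q => {p | p.1 ∈ G q.1})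
    (fun q p p' h1 _ => by
      simp only [mem_ofPred_eq]
      constructor
      · intro h
        have h0 : τ p.1 = q.1 := congrArg Prod.fst h
        have h2 : (0 : ℕ) = q.2 := congrArg Prod.snd h
        exact Prod.ext (hτ p.1 p'.1 q.1 h0 h1) h2
      · intro h
        have h0 : τ p'.1 = q.1 := congrArg Prod.fst h
        have h2 : (0 : ℕ) = q.2 := congrArg Prod.snd h
        exact Prod.ext (hτ p'.1 p.1 q.1 h0 fun k hk => (h1 k hk).symm) h2)
    (fun q p p' h1 _ => ⟨fun h => hG q.1 _ _ h h1, fun h => hG q.1 _ _ h fun k hk => (h1 k hk).symm⟩)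
    (B := {p | p.1 ∈ B}) (measurable_fst hB)
  rw [pair_fst] at key
  have e1 : pairL μ {p : (ℕ → A) × (ℕ → A) | p ∈ {p : (ℕ → A) × (ℕ → A) | p.1 ∈ G (τ p.1)}}
      = iidL μ {a | a ∈ G (τ a)} := pair_fst μ {a | a ∈ G (τ a)}
  have e2 : pairL μ {p : (ℕ → A) × (ℕ → A) | p ∈ {p : (ℕ → A) × (ℕ → A) | p.1 ∈ G (τ p.1)} ∧
      sh2 (τ p.1) 0 p ∈ {p : (ℕ → A) × (ℕ → A) | p.1 ∈ B}}
      = iidL μ {a | a ∈ G (τ a) ∧ sh (τ a) a ∈ B} := pair_fst μ {a | a ∈ G (τ a) ∧ sh (τ a) a ∈ B}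
  rw [← e1, ← e2]
  exact key

lemma det2_fi {Y : A → ℕ} (hY : ∀ a, 1 ≤ Y a) (l l' : ℕ) (q : ℕ × ℕ) :
    Det2 q.1 q.2 {p : (ℕ → A) × (ℕ → A) | (fi Y l p.1, fi Y l' p.2) = q} := by
  intro p p' h1 h2
  simp only [mem_ofPred_eq]
  constructor
  · intro h
    exact Prod.ext (fi_congr hY (congrArg Prod.fst h) h1) (fi_congr hY (congrArg Prod.snd h) h2)
  · intro h
    exact Prod.ext (fi_congr hY (congrArg Prod.fst h) fun k hk => (h1 k hk).symm)
      (fi_congr hY (congrArg Prod.snd h) fun k hk => (h2 k hk).symm)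

lemma measurable_fi {Y : A → ℕ} (hY : ∀ a, 1 ≤ Y a) (l : ℕ) : Measurable (fi Y l) := by
  refine measurable_to_countable' fun i => ?_
  have : fi Y l ⁻¹' {i} = {a | l ≤ H Y i a} ∩ ⋂ j : ℕ, ⋂ _ : j < i, {a | H Y j a < l} := by
    ext a
    simp only [mem_preimage, mem_singleton_iff, mem_inter_iff, mem_iInter, mem_ofPred_eq]
    exact fi_eq_iff hY
  rw [this]
  exact (measurableSet_le measurable_const (measurable_H Y i)).inter
    (MeasurableSet.iInter fun j => MeasurableSet.iInter fun _ =>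
      measurableSet_lt (measurable_H Y j) measurable_const)

lemma measurable_at_fi {Y : A → ℕ} (hY : ∀ a, 1 ≤ Y a) (l : ℕ) {B : Type*} [MeasurableSpace B]
    {f : ℕ → (ℕ → A) → B} (hf : ∀ i, Measurable (f i)) : Measurable fun a => f (fi Y l a) a := by
  have h1 : Measurable (fun x : ℕ × (ℕ → A) => f x.1 x.2) :=
    measurable_from_prod_countable_right hf
  exact h1.comp ((measurable_fi hY l).prodMk measurable_id)

lemma exists_of_notMem_atLast {Y : A → ℕ} {l h : ℕ} {r : ℝ}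
    {W : ℕ → (ℕ → A) × (ℕ → A) → ℝ} {p : (ℕ → A) × (ℕ → A)}
    (hp : p ∉ AtLast Y l (fun m => {p | h ≤ m ∨ r < W m p})) :
    ∃ (q : ℕ × ℕ) (k : ℕ), k ≤ l ∧ p ∈ At Y k q ∧ l < k + h ∧ W (l - k) (sh2 q.1 q.2 p) ≤ r := by
  obtain ⟨k, hk, hl⟩ := exists_last Y l p
  simp only [Last, mem_iUnion] at hl
  obtain ⟨q, hq, hn, -⟩ := hl
  have hno : ¬ (h ≤ l - k ∨ r < W (l - k) (sh2 q.1 q.2 p)) := by
    intro hc
    apply hp
    simp only [AtLast, mem_iUnion]
    refine ⟨k, Finset.mem_range.2 (by omega), ?_⟩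
    simp only [Last, mem_iUnion]
    exact ⟨q, hq, hn, hc⟩
  push Not at hno
  exact ⟨q, k, hk, hq, by omega, hno.2⟩

lemma tendsto_tail {Ω : Type*} [MeasurableSpace Ω] (P : Measure Ω) [IsFiniteMeasure P]
    {W : Ω → ℝ} (hW : Measurable W) :
    Tendsto (fun r : ℕ => P {x | (r : ℝ) < W x}) atTop (𝓝 0) := by
  have h1 : ⋂ r : ℕ, {x | (r : ℝ) < W x} = ∅ := by
    rw [Set.eq_empty_iff_forall_notMem]
    intro x hx
    rw [mem_iInter] at hx
    obtain ⟨n, hn⟩ := exists_nat_gt (W x)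
    exact absurd (hx n) (not_lt.2 hn.le)
  have h2 := tendsto_measure_iInter_atTop (μ := P) (s := fun r : ℕ => {x | (r : ℝ) < W x})
    (fun r => (measurableSet_lt measurable_const hW).nullMeasurableSet)
    (fun r r' h x hx => by
      have hx' : (r' : ℝ) < W x := hx
      have h' : (r : ℝ) ≤ (r' : ℝ) := Nat.cast_le.2 h
      exact lt_of_le_of_lt h' hx') ⟨0, measure_ne_top _ _⟩
  rw [h1, measure_empty] at h2
  exact h2

/-- **uniform tightness at the last joint cut** -/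
theorem unif (μ : Measure A) [IsProbabilityMeasure μ] {Y : A → ℕ} (hY : ∀ a, 1 ≤ Y a)
    (ht : Tendsto (tl μ Y) atTop (𝓝 0)) (W : ℕ → (ℕ → A) × (ℕ → A) → ℝ)
    (hW : ∀ m, Measurable (W m)) {η : ℝ} (hη : 0 < η) :
    ∃ h r : ℕ, ∀ l, (pairL μ).real (AtLast Y l (fun m => {p | h ≤ m ∨ (r : ℝ) < W m p})) ≤ η := by
  have hη2 : (0 : ℝ≥0∞) < ENNReal.ofReal (η / 2) := ENNReal.ofReal_pos.2 (by linarith)
  obtain ⟨h, hh⟩ := ((tendsto_order.1 ht).2 _ hη2).exists
  have h2 : Tendsto (fun r : ℕ => ∑ m ∈ Finset.range h, pairL μ {p | (r : ℝ) < W m p})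
      atTop (𝓝 (∑ m ∈ Finset.range h, 0)) := tendsto_finsetSum _ fun m _ => tendsto_tail _ (hW m)
  rw [Finset.sum_const_zero] at h2
  obtain ⟨r, hr⟩ := ((tendsto_order.1 h2).2 _ hη2).exists
  refine ⟨h, r, fun l => ?_⟩
  have hm : ∀ m : ℕ, MeasurableSet {p : (ℕ → A) × (ℕ → A) | h ≤ m ∨ (r : ℝ) < W m p} := fun m => by
    by_cases hc : h ≤ m
    · simp [hc]
    · simp only [hc, false_or]
      exact measurableSet_lt measurable_const (hW m)
  have h3 := measure_atLast_le' μ hY l h hm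
  have h4 : ∑ m ∈ Finset.range h, pairL μ (NoCut Y m ∩ {p | h ≤ m ∨ (r : ℝ) < W m p})
      ≤ ∑ m ∈ Finset.range h, pairL μ {p | (r : ℝ) < W m p} := by
    refine Finset.sum_le_sum fun m hm => measure_mono ?_
    rintro p ⟨-, h1 | h1⟩
    · have := Finset.mem_range.1 hm
      omega
    · exact h1
  refine ENNReal.toReal_le_of_le_ofReal hη.le ?_
  calc _ ≤ _ := h3
    _ ≤ ENNReal.ofReal (η / 2) + ENNReal.ofReal (η / 2) := by
        gcongr
        exact h4.trans hr.le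
    _ = ENNReal.ofReal η := by
        rw [← ENNReal.ofReal_add (by linarith) (by linarith)]
        congr 1; ring

section claims

variable (μ : Measure A) [IsProbabilityMeasure μ] {Y : A → ℕ} (hY : ∀ a, 1 ≤ Y a)
  (ht : Tendsto (tl μ Y) atTop (𝓝 0)) {V : A → (Fin 2 → ℝ)} {U : ℕ → (ℕ → A) → (Fin 2 → ℝ)}
  (hU : Pos Y V U)

include hY ht hU

theorem closeSum (hg : pairL μ (Good Y)ᶜ = 0) : CloseSum μ Y V U := by
  intro η hη
  obtain ⟨h, r, hr⟩ := unif μ hY ht (fun m p => ‖U m p.1 - U m p.2‖)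
    (fun m => (((hU.meas m).comp measurable_fst).sub ((hU.meas m).comp measurable_snd)).norm) hη
  refine ⟨h, r, fun l => ?_⟩
  refine le_trans ?_ (hr l)
  have hag := allGood_ae μ hY hg
  have hsub : {p | ¬ ∃ k, k ≤ RR Y k p ∧ RR Y k p ≤ l ∧
      l < RR Y k p + h ∧ ‖U l p.1 - U l p.2 - SS Y V k p‖ ≤ r}
      ⊆ (AtLast Y l (fun m => {p | h ≤ m ∨ (r : ℝ) < ‖U m p.1 - U m p.2‖})) ∪ (AllGood Y)ᶜ := by
    intro p hp
    by_contra hc
    simp only [mem_union, not_or, mem_compl_iff, not_not] at hc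
    obtain ⟨h1, h2⟩ := hc
    obtain ⟨q, k, hk, hq, hlk, hW⟩ := exists_of_notMem_atLast h1
    obtain ⟨κ, hκ⟩ := exists_Qk hY q.1 q.2 h2 (hq.1.trans hq.2.symm)
    have e1 : RR Y κ p = k := by
      rw [RR, sum_R, hκ]; exact hq.1
    have e2 : SS Y V κ p = Dd V q.1 p.1 - Dd V q.2 p.2 := by
      rw [SS, sum_X, hκ]
    apply hp
    refine ⟨κ, ?_, by omega, by omega, ?_⟩
    · rw [e1, ← hq.1]
      have := le_Qk hY κ h2
      rw [hκ] at this
      exact this.trans (le_H hY q.1 p.1)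
    · have c1 := hU.cov p.1 q.1 l (by rw [hq.1]; exact hk)
      have c2 := hU.cov p.2 q.2 l (by rw [hq.2]; exact hk)
      rw [hq.1] at c1
      rw [hq.2] at c2
      rw [e2, c1, c2]
      have : Dd V q.1 p.1 + U (l - k) (sh q.1 p.1) - (Dd V q.2 p.2 + U (l - k) (sh q.2 p.2))
          - (Dd V q.1 p.1 - Dd V q.2 p.2) = U (l - k) (sh q.1 p.1) - U (l - k) (sh q.2 p.2) := by
        abel
      rw [this]
      exact hW
  have := measureReal_mono (μ := pairL μ) hsub (measure_ne_top _ _)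
  refine this.trans ?_
  refine (measureReal_union_le _ _).trans ?_
  rw [Measure.real, Measure.real, hag]
  simp

theorem tightCut : TightCut μ Y V U := by
  intro η hη
  obtain ⟨h, r, hr⟩ := unif μ hY ht (fun m p => max (H Y (fi Y m p.1) p.1 : ℝ)
      ‖U m p.1 - Dd V (fi Y m p.1) p.1‖) (fun m => by
        refine Measurable.max ?_ ?_
        · have h1 : Measurable fun a : ℕ → A => (H Y (fi Y m a) a : ℝ) :=
            measurable_at_fi hY m (f := fun i a => (H Y i a : ℝ)) fun i =>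
              (measurable_of_countable _).comp (measurable_H Y i)
          exact h1.comp measurable_fst
        · have h1 : Measurable fun a : ℕ → A => ‖U m a - Dd V (fi Y m a) a‖ :=
            measurable_at_fi hY m (f := fun i a => ‖U m a - Dd V i a‖) fun i =>
              ((hU.meas m).sub (measurable_Dd V i)).norm
          exact h1.comp measurable_fst) hη
  refine ⟨r, fun L => ?_⟩
  rw [← pair_fst_real]
  refine le_trans (measureReal_mono ?_ (measure_ne_top _ _)) (hr L)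
  intro p hp
  by_contra hc
  obtain ⟨q, k, hk, hq, hlk, hW⟩ := exists_of_notMem_atLast hc
  have hW1 := (le_max_left _ _).trans hW
  have hW2 := (le_max_right _ _).trans hW
  simp only [mem_ofPred_eq] at hp
  apply hp
  have e0 := fi_add hY (l := L) (a := p.1) (i := q.1) (by rw [hq.1]; exact hk)
  rw [hq.1] at e0
  simp only [sh2] at hW1 hW2
  refine ⟨?_, ?_⟩
  · rw [e0, H_add, hq.1]
    have : H Y (fi Y (L - k) (sh q.1 p.1)) (sh q.1 p.1) ≤ r := by exact_mod_cast hW1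
    omega
  · rw [e0, Dd_add]
    have c1 := hU.cov p.1 q.1 L (by rw [hq.1]; exact hk)
    rw [hq.1] at c1
    rw [c1]
    have : Dd V q.1 p.1 + U (L - k) (sh q.1 p.1) - (Dd V q.1 p.1 +
        Dd V (fi Y (L - k) (sh q.1 p.1)) (sh q.1 p.1))
        = U (L - k) (sh q.1 p.1) - Dd V (fi Y (L - k) (sh q.1 p.1)) (sh q.1 p.1) := by abel
    rw [this]
    exact hW2

theorem tightInc : TightInc μ U := by
  intro η hη m
  obtain ⟨h, r, hr⟩ := unif μ hY ht (fun j p => ‖U (j + m) p.1 - U j p.1‖)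
    (fun j => (((hU.meas (j + m)).comp measurable_fst).sub
      ((hU.meas j).comp measurable_fst)).norm) hη
  refine ⟨r, fun L => ?_⟩
  rw [← pair_fst_real]
  refine le_trans (measureReal_mono ?_ (measure_ne_top _ _)) (hr L)
  intro p hp
  by_contra hc
  obtain ⟨q, k, hk, hq, hlk, hW⟩ := exists_of_notMem_atLast hc
  simp only [mem_ofPred_eq] at hp
  apply absurd hp
  rw [not_lt]
  have c1 := hU.cov p.1 q.1 L (by rw [hq.1]; exact hk)
  have c2 := hU.cov p.1 q.1 (L + m) (by rw [hq.1]; omega)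
  rw [hq.1] at c1 c2
  have e : L + m - k = L - k + m := by omega
  rw [e] at c2
  rw [c1, c2, add_sub_add_left_eq_sub]
  exact hW

omit hU in
theorem cutWindow : CutWindow μ Y := by
  intro η hη
  have hη2 : (0 : ℝ≥0∞) < ENNReal.ofReal η := ENNReal.ofReal_pos.2 hη
  obtain ⟨t0, ht0⟩ := eventually_atTop.1 ((tendsto_order.1 ht).2 _ hη2)
  refine ⟨t0, fun t htt L => ?_⟩
  rw [← pair_fst_real]
  refine ENNReal.toReal_le_of_le_ofReal hη.le ?_
  refine le_trans ?_ (ht0 t htt).le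
  refine le_trans (measure_mono ?_) (no_cut_window μ hY (L + t) t)
  rintro p hp x hx1 hx2 ⟨i, j, hi, hj⟩
  exact hp i ⟨by omega, by omega⟩

end claims

end Crest.Agent.R154.J132
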