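import Crest.Agent.R154.B5First_181
import Crest.Agent.R154.Gap_583

/-! Row 154 (helper107), ROAD 801, assembly by EXACT JOINT CUTS in the letters of 566's `B5A`. -/

set_option autoImplicit false

namespace Crest.Agent.R154.Joint107

open Crest.Agent.R154.B5A Crest.Agent.R154.Gap583
open scoped ENNReal Classical

variable {B G : Type*}

/-! ### sums over splittings -/

lemma split_le (g : List B → ℝ≥0∞) (f : List B → List B → ℝ≥0∞)
    (h : ∀ L, g L ≠ 0 → ∃ A R, L = A ++ R ∧ g L ≤ f A R) :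
    ∑' L, g L ≤ ∑' A, ∑' R, f A R := by
  calc ∑' L, g L ≤ ∑' L, ∑' A, ∑' R, (if L = A ++ R then f A R else 0) := by
        refine ENNReal.tsum_le_tsum fun L => ?_
        by_cases h0 : g L = 0
        · rw [h0]; exact zero_le
        obtain ⟨A, R, hL, hle⟩ := h L h0
        refine hle.trans ?_
        calc f A R = (if L = A ++ R then f A R else 0) := by rw [if_pos hL]
          _ ≤ ∑' R', (if L = A ++ R' then f A R' else 0) :=
            ENNReal.le_tsum (f := fun R' => if L = A ++ R' then f A R' else 0) R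
          _ ≤ _ := ENNReal.le_tsum (f := fun A' => ∑' R', if L = A' ++ R' then f A' R' else 0) A
    _ = ∑' A, ∑' L, ∑' R, (if L = A ++ R then f A R else 0) := ENNReal.tsum_comm
    _ = ∑' A, ∑' R, ∑' L, (if L = A ++ R then f A R else 0) :=
        tsum_congr fun A => ENNReal.tsum_comm
    _ = _ := by
        refine tsum_congr fun A => tsum_congr fun R => ?_
        rw [tsum_eq_single (A ++ R)]
        · simp
        · intro L hL; exact if_neg hL

lemma join_le (g : List B → ℝ≥0∞) (f : List B → List B → ℝ≥0∞)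
    (h : ∀ A R, f A R ≤ g (A ++ R))
    (hinj : ∀ A R A' R', f A R ≠ 0 → f A' R' ≠ 0 → A ++ R = A' ++ R' → A = A') :
    ∑' A, ∑' R, f A R ≤ ∑' L, g L := by
  rw [← ENNReal.tsum_prod (f := f)]
  set S : Set (List B × List B) := {p | f p.1 p.2 ≠ 0} with hS
  have e : ∑' p : List B × List B, f p.1 p.2 = ∑' p : S, f p.1.1 p.1.2 :=
    (tsum_subtype_eq_of_support_subset (f := fun p : List B × List B => f p.1 p.2)
      (s := S) (by intro p hp; exact hp)).symm
  rw [e]
  calc ∑' p : S, f p.1.1 p.1.2 ≤ ∑' p : S, g (p.1.1 ++ p.1.2) :=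
        ENNReal.tsum_le_tsum fun p => h _ _
    _ ≤ ∑' L, g L := ENNReal.tsum_comp_le_tsum_of_injective (f := fun p : S => p.1.1 ++ p.1.2)
        (by
          rintro ⟨⟨A, R⟩, hp⟩ ⟨⟨A', R'⟩, hp'⟩ he
          have h1 := hinj A R A' R' hp hp' he
          subst h1
          have h2 := List.append_cancel_left he
          simp only [Subtype.mk.injEq, Prod.mk.injEq, true_and]
          exact h2) g

variable (Λ : B → ℝ≥0∞) (ht : B → ℕ)

lemma eq_nil_of_HT {ht : B → ℕ} (h1 : ∀ b, 1 ≤ ht b) {L : List B} (h : HT ht L = 0) : L = [] := by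
  have := length_le_HT ht h1 L
  exact List.eq_nil_of_length_eq_zero (by omega)

/-- comparison of prefixes by height -/
lemma pref_le {ht : B → ℕ} (h1 : ∀ b, 1 ≤ ht b) {A R A' R' : List B} (he : A ++ R = A' ++ R')
    (hh : HT ht A ≤ HT ht A') : ∃ t, A' = A ++ t ∧ R = t ++ R' := by
  rcases List.append_eq_append_iff.1 he with ⟨t, ht1, ht2⟩ | ⟨t, ht1, ht2⟩
  · exact ⟨t, ht1, ht2⟩
  · have h2 : HT ht t = 0 := by
      rw [ht1, HT_append] at hh; omega
    have := eq_nil_of_HT h1 h2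
    subst this
    exact ⟨[], by simpa using ht1.symm, by simpa using ht2.symm⟩

lemma pref_eq {ht : B → ℕ} (h1 : ∀ b, 1 ≤ ht b) {A R A' R' : List B} (he : A ++ R = A' ++ R')
    (hh : HT ht A = HT ht A') : A = A' ∧ R = R' := by
  obtain ⟨t, e1, e2⟩ := pref_le h1 he hh.le
  have h2 : HT ht t = 0 := by
    rw [e1, HT_append] at hh; omega
  have := eq_nil_of_HT h1 h2
  subst this
  exact ⟨by simpa using e1.symm, by simpa using e2⟩

/-- weight of the lists of height `n` with property `Q` -/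
noncomputable def Wt (n : ℕ) (Q : List B → Prop) : ℝ≥0∞ :=
  ∑' L : List B, if HT ht L = n ∧ Q L then LW Λ L else 0

lemma Wt_mono (n : ℕ) {Q Q' : List B → Prop} (h : ∀ L, HT ht L = n → Q L → Q' L) :
    Wt Λ ht n Q ≤ Wt Λ ht n Q' := by
  refine ENNReal.tsum_le_tsum fun L => ?_
  by_cases hL : HT ht L = n ∧ Q L
  · rw [if_pos hL, if_pos ⟨hL.1, h L hL.1 hL.2⟩]
  · rw [if_neg hL]; exact zero_le

lemma Wt_le_U (n : ℕ) (Q : List B → Prop) : Wt Λ ht n Q ≤ U Λ ht n := by
  refine ENNReal.tsum_le_tsum fun L => ?_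
  by_cases hL : HT ht L = n ∧ Q L
  · rw [if_pos hL, if_pos hL.1]
  · rw [if_neg hL]; exact zero_le

lemma Wt_or (n : ℕ) (Q Q' : List B → Prop) :
    Wt Λ ht n (fun L => Q L ∨ Q' L) ≤ Wt Λ ht n Q + Wt Λ ht n Q' := by
  rw [Wt, Wt, Wt, ← ENNReal.tsum_add]
  refine ENNReal.tsum_le_tsum fun L => ?_
  by_cases hL : HT ht L = n
  · by_cases h1 : Q L
    · simp [hL, h1]
    · by_cases h2 : Q' L
      · simp [hL, h1, h2]
      · simp [h1, h2]
  · simp [hL]

lemma Wt_exists {ι : Type*} (s : Finset ι) (n : ℕ) (Q : ι → List B → Prop) :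
    Wt Λ ht n (fun L => ∃ i ∈ s, Q i L) ≤ ∑ i ∈ s, Wt Λ ht n (Q i) := by
  induction s using Finset.induction_on with
  | empty =>
    simp [Wt]
  | insert a s ha ih =>
    rw [Finset.sum_insert ha]
    refine le_trans (le_trans (Wt_mono Λ ht n ?_) (Wt_or Λ ht n (Q a)
      (fun L => ∃ i ∈ s, Q i L))) (add_le_add le_rfl ih)
    rintro L _ ⟨i, hi, hQ⟩
    rcases Finset.mem_insert.1 hi with rfl | hi
    · exact Or.inl hQ
    · exact Or.inr ⟨i, hi, hQ⟩

/-- the list has a renewal at depth `D` followed by a piece in `Suc` -/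
def Hit (Suc : Set (List B)) (D : ℕ) (L : List B) : Prop :=
  ∃ A P R, L = A ++ (P ++ R) ∧ HT ht A = D ∧ P ∈ Suc

/-- gap -/
noncomputable def gp (g : ℕ) : ℝ≥0∞ := ∑' b, Λ b * ((ht b - g : ℕ) : ℝ≥0∞)

lemma hit_append {ht : B → ℕ} (h1 : ∀ b, 1 ≤ ht b) {Suc : Set (List B)} {H : ℕ}
    (hSuc : ∀ P ∈ Suc, HT ht P = H) {D : ℕ} {A R : List B} (hA : D + H ≤ HT ht A) :
    Hit ht Suc D (A ++ R) ↔ Hit ht Suc D A := by
  constructor
  · rintro ⟨A1, P, R1, he, hA1, hP⟩
    have h2 : HT ht (A1 ++ P) ≤ HT ht A := by rw [HT_append, hA1, hSuc P hP]; exact hA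
    rw [← List.append_assoc] at he
    obtain ⟨t, e1, _⟩ := pref_le h1 he.symm h2
    exact ⟨A1, P, t, by rw [e1, List.append_assoc], hA1, hP⟩
  · rintro ⟨A1, P, R1, he, hA1, hP⟩
    exact ⟨A1, P, R1 ++ R, by rw [he]; simp, hA1, hP⟩

/-- mass of the lists with a success at `D` -/
lemma hit_mass (h1 : ∀ b, 1 ≤ ht b) {Suc : Set (List B)} {H : ℕ}
    (hSuc : ∀ P ∈ Suc, HT ht P = H) (D n : ℕ) (hn : D + H ≤ n) :
    U Λ ht D * ((∑' P, if P ∈ Suc then LW Λ P else 0) * U Λ ht (n - D - H))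
      ≤ Wt Λ ht n (Hit ht Suc D) := by
  have e1 : (∑' P, if P ∈ Suc then LW Λ P else 0) * U Λ ht (n - D - H)
      ≤ Wt Λ ht (n - D) (fun L => ∃ P R, L = P ++ R ∧ P ∈ Suc) := by
    have := join_le (fun L => if HT ht L = n - D ∧ (∃ P R, L = P ++ R ∧ P ∈ Suc)
      then LW Λ L else 0)
      (fun P R => if P ∈ Suc ∧ HT ht R = n - D - H then LW Λ P * LW Λ R else 0)
      (by
        intro P R
        by_cases h : P ∈ Suc ∧ HT ht R = n - D - H
        · rw [if_pos h]
          rw [if_pos ⟨by rw [HT_append, hSuc P h.1, h.2]; omega, P, R, rfl, h.1⟩, LW_append]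
        · rw [if_neg h]; exact zero_le)
      (by
        intro P R P' R' h h' he
        have a1 : P ∈ Suc ∧ HT ht R = n - D - H := by
          by_contra hcon; exact h (if_neg hcon)
        have a2 : P' ∈ Suc ∧ HT ht R' = n - D - H := by
          by_contra hcon; exact h' (if_neg hcon)
        exact (pref_eq h1 he (by rw [hSuc P a1.1, hSuc P' a2.1])).1)
    refine le_trans (le_of_eq ?_) this
    rw [← ENNReal.tsum_mul_right]
    refine tsum_congr fun P => ?_
    by_cases hP : P ∈ Suc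
    · simp only [hP, true_and, if_true]
      rw [U, ← ENNReal.tsum_mul_left]
      refine tsum_congr fun R => ?_
      split_ifs <;> simp
    · simp [hP]
  refine le_trans (mul_le_mul_right e1 _) ?_
  have := join_le (fun L => if HT ht L = n ∧ Hit ht Suc D L then LW Λ L else 0)
      (fun A R => if HT ht A = D ∧ (HT ht R = n - D ∧ ∃ P R', R = P ++ R' ∧ P ∈ Suc)
        then LW Λ A * LW Λ R else 0)
      (by
        intro A R
        by_cases h : HT ht A = D ∧ (HT ht R = n - D ∧ ∃ P R', R = P ++ R' ∧ P ∈ Suc)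
        · rw [if_pos h]
          obtain ⟨hA, hR, P, R', hPR, hP⟩ := h
          rw [if_pos ⟨by rw [HT_append, hA, hR]; omega, A, P, R', by rw [hPR], hA, hP⟩, LW_append]
        · rw [if_neg h]; exact zero_le)
      (by
        intro A R A' R' h h' he
        have a1 : HT ht A = D := by
          by_contra hcon; exact h (if_neg fun hh => hcon hh.1)
        have a2 : HT ht A' = D := by
          by_contra hcon; exact h' (if_neg fun hh => hcon hh.1)
        exact (pref_eq h1 he (by rw [a1, a2])).1)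
  refine le_trans (le_of_eq ?_) this
  rw [U, ← ENNReal.tsum_mul_right]
  refine tsum_congr fun A => ?_
  by_cases hA : HT ht A = D
  · simp only [hA, true_and, if_true]
    rw [Wt, ← ENNReal.tsum_mul_left]
    refine tsum_congr fun R => ?_
    split_ifs <;> simp
  · simp [hA]

lemma Wt_compl (n : ℕ) (Q : List B → Prop) :
    Wt Λ ht n (fun L => ¬ Q L) + Wt Λ ht n Q = U Λ ht n := by
  rw [Wt, Wt, U, ← ENNReal.tsum_add]
  refine tsum_congr fun L => ?_
  by_cases hL : HT ht L = n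
  · by_cases h1 : Q L <;> simp [hL, h1]
  · simp [hL]

/-- failing mass of one exact attempt -/
lemma miss_le (h1 : ∀ b, 1 ≤ ht b) (c : ℝ≥0∞) (hU : ∀ n, c ≤ U Λ ht n)
    (hU1 : ∀ n, U Λ ht n ≤ 1) {Suc : Set (List B)} {H : ℕ}
    (hSuc : ∀ P ∈ Suc, HT ht P = H) (w ρ : ℝ≥0∞)
    (hw : w ≤ ∑' P, if P ∈ Suc then LW Λ P else 0) (hρ : 1 ≤ ρ + c * w * c)
    (D n : ℕ) (hn : D + H ≤ n) :
    Wt Λ ht n (fun L => ¬ Hit ht Suc D L) ≤ ρ * U Λ ht n := by
  have hq : c * w * c ≤ Wt Λ ht n (Hit ht Suc D) := by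
    refine le_trans ?_ (hit_mass Λ ht h1 hSuc D n hn)
    rw [mul_assoc]
    exact mul_le_mul' (hU _) (mul_le_mul' hw (hU _))
  have hq1 : c * w * c ≤ 1 := hq.trans ((Wt_le_U Λ ht n _).trans (hU1 n))
  have hcomp := Wt_compl Λ ht n (Hit ht Suc D)
  have hfin : c * w * c * U Λ ht n ≠ ⊤ :=
    ne_top_of_le_ne_top ENNReal.one_ne_top (mul_le_one' hq1 (hU1 n))
  refine (ENNReal.add_le_add_iff_right hfin).1 ?_
  calc Wt Λ ht n (fun L => ¬ Hit ht Suc D L) + c * w * c * U Λ ht n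
      ≤ Wt Λ ht n (fun L => ¬ Hit ht Suc D L) + Wt Λ ht n (Hit ht Suc D) := by
        refine add_le_add le_rfl ?_
        calc c * w * c * U Λ ht n ≤ c * w * c * 1 := mul_le_mul_right (hU1 n) _
          _ = c * w * c := mul_one _
          _ ≤ _ := hq
    _ = 1 * U Λ ht n := by rw [hcomp, one_mul]
    _ ≤ (ρ + c * w * c) * U Λ ht n := mul_le_mul_left hρ _
    _ = _ := add_mul _ _ _

/-- one attempt -/
lemma step (h1 : ∀ b, 1 ≤ ht b) (c : ℝ≥0∞) (hU : ∀ n, c ≤ U Λ ht n)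
    (hU1 : ∀ n, U Λ ht n ≤ 1) {Suc : Set (List B)} {H : ℕ}
    (hSuc : ∀ P ∈ Suc, HT ht P = H) (w ρ : ℝ≥0∞)
    (hw : w ≤ ∑' P, if P ∈ Suc then LW Λ P else 0) (hρ : 1 ≤ ρ + c * w * c)
    (D' g n : ℕ) (hn : D' + g + H ≤ n) (Q : List B → Prop)
    (hQ : ∀ A R, D' ≤ HT ht A → (Q (A ++ R) ↔ Q A)) :
    Wt Λ ht n (fun L => Q L ∧ ¬ Hit ht Suc (D' + g) L) ≤ gp Λ ht g + ρ * Wt Λ ht n Q := by
  -- gap or a first renewal in [D', D' + g]
  have hgap := gap_le Λ ht hU1 D' g n (by omega)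
  set first : List B → Prop := fun A => D' ≤ HT ht A ∧ HT ht A ≤ D' + g ∧
    ∀ A1 A2, A = A1 ++ A2 → A2 ≠ [] → HT ht A1 < D' with hfirst
  have hex : ∀ L : List B, (∃ L1 L2, L = L1 ++ L2 ∧ D' ≤ HT ht L1 ∧ HT ht L1 ≤ D' + g) →
      ∃ A R, L = A ++ R ∧ first A := by
    intro L hL
    have hex' : ∃ k, ∃ L1 L2, L = L1 ++ L2 ∧ L1.length = k ∧ D' ≤ HT ht L1 := by
      obtain ⟨L1, L2, h2, h3, _⟩ := hL
      exact ⟨_, L1, L2, h2, rfl, h3⟩
    obtain ⟨A, R, hA, hAl, hA2⟩ := Nat.find_spec hex'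
    obtain ⟨L1, L2, h2, h3, h4⟩ := hL
    have hle : A.length ≤ L1.length := by
      rw [hAl]
      exact Nat.find_min' hex' ⟨L1, L2, h2, rfl, h3⟩
    refine ⟨A, R, hA, hA2, ?_, ?_⟩
    · have : A <+: L1 := List.prefix_of_prefix_length_le ⟨R, hA.symm⟩ ⟨L2, h2.symm⟩ hle
      obtain ⟨t, rfl⟩ := this
      rw [HT_append] at h4
      omega
    · intro A1 A2 he hne
      by_contra hcon
      rw [not_lt] at hcon
      have hlt : A1.length < A.length := by
        rw [he, List.length_append]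
        have := List.length_pos_of_ne_nil hne
        omega
      rw [hAl] at hlt
      exact Nat.find_min hex' hlt ⟨A1, A2 ++ R, by rw [hA, he, List.append_assoc], rfl, hcon⟩
  have hfu : ∀ A R A' R', first A → first A' → A ++ R = A' ++ R' → A = A' := by
    intro A R A' R' hA hA' he
    rcases List.append_eq_append_iff.1 he with ⟨t, e1, _⟩ | ⟨t, e1, _⟩
    · by_cases ht0 : t = []
      · rw [e1, ht0, List.append_nil]
      · have := hA'.2.2 A t e1 ht0
        have := hA.1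
        omega
    · by_cases ht0 : t = []
      · rw [e1, ht0, List.append_nil]
      · have := hA.2.2 A' t e1 ht0
        have := hA'.1
        omega
  calc Wt Λ ht n (fun L => Q L ∧ ¬ Hit ht Suc (D' + g) L)
      ≤ Wt Λ ht n (fun L => (∀ L1 L2, L = L1 ++ L2 → ¬ (D' ≤ HT ht L1 ∧ HT ht L1 ≤ D' + g)) ∨
          ((∃ L1 L2, L = L1 ++ L2 ∧ D' ≤ HT ht L1 ∧ HT ht L1 ≤ D' + g) ∧
            (Q L ∧ ¬ Hit ht Suc (D' + g) L))) := by
        refine Wt_mono Λ ht n fun L _ hL => ?_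
        by_cases hc : ∃ L1 L2, L = L1 ++ L2 ∧ D' ≤ HT ht L1 ∧ HT ht L1 ≤ D' + g
        · exact Or.inr ⟨hc, hL⟩
        · left
          intro L1 L2 h2 h3
          exact hc ⟨L1, L2, h2, h3.1, h3.2⟩
    _ ≤ _ := Wt_or Λ ht n _ _
    _ ≤ gp Λ ht g + ρ * Wt Λ ht n Q := by
        refine add_le_add hgap ?_
        calc Wt Λ ht n (fun L => (∃ L1 L2, L = L1 ++ L2 ∧ D' ≤ HT ht L1 ∧ HT ht L1 ≤ D' + g) ∧
            (Q L ∧ ¬ Hit ht Suc (D' + g) L))
            ≤ ∑' A, ∑' R, (if first A ∧ Q A ∧ (HT ht R = n - HT ht A ∧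
                ¬ Hit ht Suc (D' + g - HT ht A) R) then LW Λ A * LW Λ R else 0) := by
              refine split_le _ _ fun L hL => ?_
              have hL' : HT ht L = n ∧ (∃ L1 L2, L = L1 ++ L2 ∧ D' ≤ HT ht L1 ∧
                  HT ht L1 ≤ D' + g) ∧ (Q L ∧ ¬ Hit ht Suc (D' + g) L) := by
                by_contra hcon; exact hL (if_neg hcon)
              obtain ⟨hn', hcut, hQL, hnh⟩ := hL'
              obtain ⟨A, R, hAR, hfA⟩ := hex L hcut
              refine ⟨A, R, hAR, ?_⟩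
              have hcond : first A ∧ Q A ∧ (HT ht R = n - HT ht A ∧
                ¬ Hit ht Suc (D' + g - HT ht A) R) := by
                refine ⟨hfA, ?_, ?_, ?_⟩
                · rw [hAR] at hQL
                  exact (hQ A R hfA.1).1 hQL
                · rw [hAR, HT_append] at hn'
                  omega
                · rintro ⟨A1, P, R1, e1, e2, e3⟩
                  refine hnh ⟨A ++ A1, P, R1, ?_, ?_, e3⟩
                  · rw [hAR, e1, List.append_assoc]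
                  · rw [HT_append, e2]
                    have := hfA.2.1
                    omega
              rw [if_pos hcond, if_pos ⟨hn', hcut, hQL, hnh⟩, hAR, LW_append]
          _ ≤ ∑' A, ∑' R, (if first A ∧ Q A ∧ HT ht R = n - HT ht A
                then ρ * (LW Λ A * LW Λ R) else 0) := by
              refine ENNReal.tsum_le_tsum fun A => ?_
              by_cases hA : first A ∧ Q A
              · have e1 : ∑' R, (if first A ∧ Q A ∧ (HT ht R = n - HT ht A ∧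
                    ¬ Hit ht Suc (D' + g - HT ht A) R) then LW Λ A * LW Λ R else 0)
                    = LW Λ A * Wt Λ ht (n - HT ht A)
                      (fun L => ¬ Hit ht Suc (D' + g - HT ht A) L) := by
                  rw [Wt, ← ENNReal.tsum_mul_left]
                  refine tsum_congr fun R => ?_
                  simp only [hA.1, hA.2, true_and]
                  split_ifs <;> simp
                have e2 : ∑' R, (if first A ∧ Q A ∧ HT ht R = n - HT ht A
                    then ρ * (LW Λ A * LW Λ R) else 0)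
                    = LW Λ A * (ρ * U Λ ht (n - HT ht A)) := by
                  rw [U, ← ENNReal.tsum_mul_left, ← ENNReal.tsum_mul_left]
                  refine tsum_congr fun R => ?_
                  simp only [hA.1, hA.2, true_and]
                  split_ifs
                  · ring
                  · simp
                rw [e1, e2]
                refine mul_le_mul_right ?_ _
                refine miss_le Λ ht h1 c hU hU1 hSuc w ρ hw hρ _ _ ?_
                have := hA.1.1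
                have := hA.1.2.1
                omega
              · have : ∀ R, ¬ (first A ∧ Q A ∧ (HT ht R = n - HT ht A ∧
                    ¬ Hit ht Suc (D' + g - HT ht A) R)) := fun R h => hA ⟨h.1, h.2.1⟩
                simp only [this, if_false, tsum_zero]
                exact zero_le
          _ = ρ * ∑' A, ∑' R, (if first A ∧ Q A ∧ HT ht R = n - HT ht A
                then LW Λ A * LW Λ R else 0) := by
              rw [← ENNReal.tsum_mul_left]
              refine tsum_congr fun A => ?_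
              rw [← ENNReal.tsum_mul_left]
              refine tsum_congr fun R => ?_
              split_ifs <;> simp
          _ ≤ ρ * Wt Λ ht n Q := by
              refine mul_le_mul_right ?_ _
              refine join_le _ _ ?_ ?_
              · intro A R
                by_cases h : first A ∧ Q A ∧ HT ht R = n - HT ht A
                · rw [if_pos h]
                  obtain ⟨hf, hQA, hR⟩ := h
                  rw [if_pos ⟨by
                    rw [HT_append, hR]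
                    have := hf.2.1
                    omega, (hQ A R hf.1).2 hQA⟩, LW_append]
                · rw [if_neg h]; exact zero_le
              · intro A R A' R' h h' he
                have a1 : first A := by
                  by_contra hcon; exact h (if_neg fun hh => hcon hh.1)
                have a2 : first A' := by
                  by_contra hcon; exact h' (if_neg fun hh => hcon hh.1)
                exact hfu A R A' R' a1 a2 he

/-- `N` attempts -/
lemma fail (h1 : ∀ b, 1 ≤ ht b) (c : ℝ≥0∞) (hU : ∀ n, c ≤ U Λ ht n)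
    (hU1 : ∀ n, U Λ ht n ≤ 1) {Suc : Set (List B)} {H : ℕ}
    (hSuc : ∀ P ∈ Suc, HT ht P = H) (w ρ : ℝ≥0∞)
    (hw : w ≤ ∑' P, if P ∈ Suc then LW Λ P else 0) (hρ : 1 ≤ ρ + c * w * c) (hρ1 : ρ ≤ 1)
    (D0 g n : ℕ) (N : ℕ) (hn : D0 + N * (H + g) ≤ n) :
    Wt Λ ht n (fun L => ∀ i < N, ¬ Hit ht Suc (D0 + i * (H + g) + g) L)
      ≤ ρ ^ N + N * gp Λ ht g := by
  induction N with
  | zero =>
    simp only [Nat.cast_zero, zero_mul, pow_zero, add_zero]
    exact (Wt_le_U Λ ht n _).trans (hU1 n)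
  | succ N ih =>
    have hle : D0 + N * (H + g) + (H + g) ≤ n := by
      have : (N + 1) * (H + g) = N * (H + g) + (H + g) := by ring
      omega
    have ih' := ih (by omega)
    have hst := step Λ ht h1 c hU hU1 hSuc w ρ hw hρ (D0 + N * (H + g)) g n (by omega)
      (fun L => ∀ i < N, ¬ Hit ht Suc (D0 + i * (H + g) + g) L) (by
        intro A R hA
        refine forall_congr' fun i => forall_congr' fun hi => not_congr ?_
        refine hit_append h1 hSuc ?_
        have : (i + 1) * (H + g) ≤ N * (H + g) := Nat.mul_le_mul_right _ hi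
        have h2 : (i + 1) * (H + g) = i * (H + g) + (H + g) := by ring
        omega)
    calc Wt Λ ht n (fun L => ∀ i < N + 1, ¬ Hit ht Suc (D0 + i * (H + g) + g) L)
        ≤ Wt Λ ht n (fun L => (∀ i < N, ¬ Hit ht Suc (D0 + i * (H + g) + g) L) ∧
            ¬ Hit ht Suc (D0 + N * (H + g) + g) L) := by
          refine Wt_mono Λ ht n fun L _ hL => ⟨fun i hi => hL i (by omega), hL N (by omega)⟩
      _ ≤ gp Λ ht g + ρ * (ρ ^ N + N * gp Λ ht g) :=
          hst.trans (add_le_add le_rfl (mul_le_mul_right ih' _))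
      _ ≤ gp Λ ht g + (ρ ^ (N + 1) + N * gp Λ ht g) := by
          refine add_le_add le_rfl ?_
          rw [mul_add, ← pow_succ']
          refine add_le_add le_rfl ?_
          calc ρ * (N * gp Λ ht g) ≤ 1 * (N * gp Λ ht g) := mul_le_mul_left hρ1 _
            _ = _ := one_mul _
      _ = _ := by push_cast; ring

/-! ### the tie law -/

variable [AddCommGroup G] (δ : B → G)

/-- total displacement -/
def dsp (L : List B) : G := (L.map δ).sum

lemma dsp_append (A R : List B) : dsp δ (A ++ R) = dsp δ A + dsp δ R := by simp [dsp]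

/-- density of the part of the tie law with a success -/
lemma dens_hit (h1 : ∀ b, 1 ≤ ht b) (hU1 : ∀ n, U Λ ht n ≤ 1) {Suc : Set (List B)} {H : ℕ}
    (hSuc : ∀ P ∈ Suc, HT ht P = H) (θ : ℝ≥0∞)
    (hθ : ∀ z, ∑' P, (if P ∈ Suc ∧ dsp δ P = z then LW Λ P else 0) ≤ θ) (D a : ℕ) (z : G) :
    Wt Λ ht a (fun A => Hit ht Suc D A ∧ dsp δ A = z) ≤ θ := by
  have e0 : ∀ z' : G, ∀ r : ℕ, ∑' P, ∑' R, (if P ∈ Suc ∧ HT ht R = r ∧ dsp δ P + dsp δ R = z' then
      LW Λ P * LW Λ R else 0) ≤ θ := by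
    intro z' r
    rw [ENNReal.tsum_comm]
    calc ∑' R, ∑' P, (if P ∈ Suc ∧ HT ht R = r ∧ dsp δ P + dsp δ R = z' then
          LW Λ P * LW Λ R else 0)
        ≤ ∑' R, (if HT ht R = r then LW Λ R else 0) * θ := by
          refine ENNReal.tsum_le_tsum fun R => ?_
          by_cases hR : HT ht R = r
          · rw [if_pos hR]
            refine le_trans ?_ (mul_le_mul_right (hθ (z' - dsp δ R)) _)
            rw [← ENNReal.tsum_mul_left]
            refine ENNReal.tsum_le_tsum fun P => ?_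
            by_cases hP : P ∈ Suc ∧ dsp δ P = z' - dsp δ R
            · rw [if_pos hP, if_pos ⟨hP.1, hR, by rw [hP.2]; abel⟩, mul_comm]
            · rw [if_neg hP, if_neg (fun h => hP ⟨h.1, by rw [← h.2.2]; abel⟩)]
              simp
          · simp [hR]
      _ = U Λ ht r * θ := by rw [U, ENNReal.tsum_mul_right]
      _ ≤ 1 * θ := mul_le_mul_left (hU1 _) _
      _ = θ := one_mul _
  calc Wt Λ ht a (fun A => Hit ht Suc D A ∧ dsp δ A = z)
      ≤ ∑' A, ∑' L', (if HT ht A = D ∧ (HT ht L' = a - D ∧ ∃ P R, L' = P ++ R ∧ P ∈ Suc) ∧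
          dsp δ A + dsp δ L' = z then LW Λ A * LW Λ L' else 0) := by
        refine split_le _ _ fun L hL => ?_
        have hL' : HT ht L = a ∧ (Hit ht Suc D L ∧ dsp δ L = z) := by
          by_contra hcon; exact hL (if_neg hcon)
        obtain ⟨hn, ⟨A, P, R, e1, hA, hP⟩, hz⟩ := hL'
        refine ⟨A, P ++ R, e1, ?_⟩
        rw [if_pos ⟨hn, ⟨A, P, R, e1, hA, hP⟩, hz⟩, if_pos ⟨hA, ⟨by
          rw [e1, HT_append, hA] at hn
          omega, P, R, rfl, hP⟩, by rw [← dsp_append, ← e1]; exact hz⟩, e1, LW_append]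
    _ ≤ ∑' A, (if HT ht A = D then LW Λ A else 0) * θ := by
        refine ENNReal.tsum_le_tsum fun A => ?_
        by_cases hA : HT ht A = D
        · rw [if_pos hA]
          refine le_trans ?_ (mul_le_mul_right (e0 (z - dsp δ A) (a - D - H)) _)
          have : ∑' L', (if HT ht A = D ∧ (HT ht L' = a - D ∧ ∃ P R, L' = P ++ R ∧ P ∈ Suc) ∧
              dsp δ A + dsp δ L' = z then LW Λ A * LW Λ L' else 0)
              = LW Λ A * ∑' L', (if (HT ht L' = a - D ∧ ∃ P R, L' = P ++ R ∧ P ∈ Suc) ∧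
              dsp δ A + dsp δ L' = z then LW Λ L' else 0) := by
            rw [← ENNReal.tsum_mul_left]
            refine tsum_congr fun L' => ?_
            simp only [hA, true_and]
            split_ifs <;> simp
          rw [this]
          refine mul_le_mul_right ?_ _
          refine split_le _ _ fun L' hL' => ?_
          have h' : (HT ht L' = a - D ∧ ∃ P R, L' = P ++ R ∧ P ∈ Suc) ∧
              dsp δ A + dsp δ L' = z := by
            by_contra hcon; exact hL' (if_neg hcon)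
          obtain ⟨⟨hn, P, R, e1, hP⟩, hz⟩ := h'
          refine ⟨P, R, e1, ?_⟩
          rw [if_pos ⟨⟨hn, P, R, e1, hP⟩, hz⟩, if_pos ⟨hP, by
            rw [e1, HT_append, hSuc P hP] at hn
            omega, by rw [← dsp_append, ← e1, ← hz]; abel⟩, e1, LW_append]
        · have : ∀ L', ¬ (HT ht A = D ∧ (HT ht L' = a - D ∧ ∃ P R, L' = P ++ R ∧ P ∈ Suc) ∧
              dsp δ A + dsp δ L' = z) := fun L' h => hA h.1
          simp only [this, if_false, tsum_zero]
          exact zero_le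
    _ = U Λ ht D * θ := by rw [U, ENNReal.tsum_mul_right]
    _ ≤ 1 * θ := mul_le_mul_left (hU1 _) _
    _ = θ := one_mul _

/-- sum over tops, sorted by the tie -/
lemma tsum_fiber (a : ℕ) (Q : List B → Prop) (w : G) (F : G → ℝ≥0∞) :
    ∑' A, (if HT ht A = a ∧ Q A then LW Λ A * F (w + dsp δ A) else 0)
      = ∑' x, Wt Λ ht a (fun A => Q A ∧ dsp δ A = x - w) * F x := by
  simp only [Wt]
  simp_rw [← ENNReal.tsum_mul_right]
  rw [ENNReal.tsum_comm]
  refine tsum_congr fun A => ?_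
  by_cases h : HT ht A = a ∧ Q A
  · rw [if_pos h, tsum_eq_single (w + dsp δ A)]
    · rw [if_pos ⟨h.1, h.2, by abel⟩]
    · intro x hx
      rw [if_neg (fun hh => hx (by rw [hh.2.2]; abel)), zero_mul]
  · rw [if_neg h]
    symm
    rw [ENNReal.tsum_eq_zero]
    intro x
    rw [if_neg (fun hh => h ⟨hh.1, hh.2.1⟩), zero_mul]

/-- **window with exact cuts, one local class**: `F x` = mass of the local pieces in contact. -/
lemma win_one (h1 : ∀ b, 1 ≤ ht b) (c : ℝ≥0∞) (hU : ∀ n, c ≤ U Λ ht n)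
    (hU1 : ∀ n, U Λ ht n ≤ 1) {Suc : Set (List B)} {H : ℕ}
    (hSuc : ∀ P ∈ Suc, HT ht P = H) (v ρ θ : ℝ≥0∞)
    (hv : v ≤ ∑' P, if P ∈ Suc then LW Λ P else 0) (hρ : 1 ≤ ρ + c * v * c) (hρ1 : ρ ≤ 1)
    (hθ : ∀ z, ∑' P, (if P ∈ Suc ∧ dsp δ P = z then LW Λ P else 0) ≤ θ)
    (g a N : ℕ) (ha : N * (H + g) ≤ a) (w : G) (F : G → ℝ≥0∞) (hF : ∀ x, F x ≤ 1) (K : ℝ≥0∞)
    (hK : ∀ μ : G → ℝ≥0∞, ∑' x, μ x ≤ 1 → (∀ x, μ x ≤ N * θ) → ∑' x, μ x * F x ≤ K) :
    ∑' A, (if HT ht A = a then LW Λ A * F (w + dsp δ A) else 0)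
      ≤ K + (ρ ^ N + N * gp Λ ht g) := by
  have hfail := fail Λ ht h1 c hU hU1 hSuc v ρ hv hρ hρ1 0 g a N (by omega)
  obtain ⟨Ok, hOk⟩ : ∃ Ok : List B → Prop, ∀ A, Ok A ↔
      ∃ i ∈ Finset.range N, Hit ht Suc (0 + i * (H + g) + g) A := ⟨_, fun _ => Iff.rfl⟩
  have e1 : ∑' A, (if HT ht A = a then LW Λ A * F (w + dsp δ A) else 0)
      ≤ ∑' A, (if HT ht A = a ∧ Ok A then LW Λ A * F (w + dsp δ A) else 0)
        + ∑' A, (if HT ht A = a ∧ ¬ Ok A then LW Λ A * F (w + dsp δ A) else 0) := by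
    rw [← ENNReal.tsum_add]
    refine ENNReal.tsum_le_tsum fun A => ?_
    by_cases hA : HT ht A = a
    · by_cases hO : Ok A <;> simp [hA, hO]
    · simp [hA]
  refine e1.trans (add_le_add ?_ ?_)
  · rw [tsum_fiber]
    refine hK _ ?_ ?_
    · have := tsum_fiber Λ ht δ a Ok w (fun _ => 1)
      simp only [mul_one] at this
      rw [← this]
      exact (Wt_le_U Λ ht a Ok).trans (hU1 a)
    · intro x
      calc Wt Λ ht a (fun A => Ok A ∧ dsp δ A = x - w)
          ≤ Wt Λ ht a (fun A => ∃ i ∈ Finset.range N,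
              (Hit ht Suc (0 + i * (H + g) + g) A ∧ dsp δ A = x - w)) := by
            refine Wt_mono Λ ht a fun A _ hA => ?_
            obtain ⟨hO, hz⟩ := hA
            obtain ⟨i, hi, hh⟩ := (hOk A).1 hO
            exact ⟨i, hi, hh, hz⟩
        _ ≤ ∑ i ∈ Finset.range N, Wt Λ ht a (fun A => Hit ht Suc (0 + i * (H + g) + g) A
              ∧ dsp δ A = x - w) := Wt_exists Λ ht _ a _
        _ ≤ ∑ _i ∈ Finset.range N, θ := Finset.sum_le_sum fun i _ =>
            dens_hit Λ ht δ h1 hU1 hSuc θ hθ _ _ _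
        _ = N * θ := by simp
  · refine le_trans ?_ hfail
    refine ENNReal.tsum_le_tsum fun A => ?_
    by_cases h : HT ht A = a ∧ ¬ Ok A
    · rw [if_pos h, if_pos ⟨h.1, fun i hi hh => h.2 ((hOk A).2 ⟨i, Finset.mem_range.2 hi, hh⟩)⟩]
      calc LW Λ A * F (w + dsp δ A) ≤ LW Λ A * 1 := mul_le_mul_right (hF _) _
        _ = _ := mul_one _
    · rw [if_neg h]; exact zero_le

/-! ### windows -/

/-- sum over the three parts of a list with exact cuts at depths `a` and `a + H` -/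
lemma main_split (hU1 : ∀ n, U Λ ht n ≤ 1) (n a H : ℕ) (w : G) (Cn : G → List B → Prop) :
    Wt Λ ht n (fun L => ∃ A P R, L = A ++ (P ++ R) ∧ HT ht A = a ∧ HT ht P = H ∧
        Cn (w + dsp δ A) P)
      ≤ ∑' A, (if HT ht A = a then LW Λ A * Wt Λ ht H (Cn (w + dsp δ A)) else 0) := by
  calc Wt Λ ht n (fun L => ∃ A P R, L = A ++ (P ++ R) ∧ HT ht A = a ∧ HT ht P = H ∧
        Cn (w + dsp δ A) P)
      ≤ ∑' A, ∑' L', (if HT ht A = a ∧ (∃ P R, L' = P ++ R ∧ HT ht P = H ∧ HT ht R = n - a - H ∧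
          Cn (w + dsp δ A) P) then LW Λ A * LW Λ L' else 0) := by
        refine split_le _ _ fun L hL => ?_
        have hL' : HT ht L = n ∧ (∃ A P R, L = A ++ (P ++ R) ∧ HT ht A = a ∧ HT ht P = H ∧
            Cn (w + dsp δ A) P) := by
          by_contra hcon; exact hL (if_neg hcon)
        rw [if_pos hL']
        obtain ⟨hn, A, P, R, e1, hA, hP, hC⟩ := hL'
        refine ⟨A, P ++ R, e1, ?_⟩
        rw [if_pos ⟨hA, P, R, rfl, hP, by
          rw [e1, HT_append, HT_append, hA, hP] at hn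
          omega, hC⟩, e1, LW_append]
    _ ≤ ∑' A, (if HT ht A = a then LW Λ A * Wt Λ ht H (Cn (w + dsp δ A)) else 0) := by
        refine ENNReal.tsum_le_tsum fun A => ?_
        by_cases hA : HT ht A = a
        · rw [if_pos hA]
          have : ∑' L', (if HT ht A = a ∧ (∃ P R, L' = P ++ R ∧ HT ht P = H ∧
              HT ht R = n - a - H ∧ Cn (w + dsp δ A) P) then LW Λ A * LW Λ L' else 0)
              = LW Λ A * ∑' L', (if (∃ P R, L' = P ++ R ∧ HT ht P = H ∧
              HT ht R = n - a - H ∧ Cn (w + dsp δ A) P) then LW Λ L' else 0) := by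
            rw [← ENNReal.tsum_mul_left]
            refine tsum_congr fun L' => ?_
            simp only [hA, true_and]
            split_ifs <;> simp
          rw [this]
          refine mul_le_mul_right ?_ _
          calc ∑' L', (if (∃ P R, L' = P ++ R ∧ HT ht P = H ∧
              HT ht R = n - a - H ∧ Cn (w + dsp δ A) P) then LW Λ L' else 0)
              ≤ ∑' P, ∑' R, (if (HT ht P = H ∧ Cn (w + dsp δ A) P) ∧ HT ht R = n - a - H
                then LW Λ P * LW Λ R else 0) := by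
                refine split_le _ _ fun L' hL' => ?_
                have h' : ∃ P R, L' = P ++ R ∧ HT ht P = H ∧
                    HT ht R = n - a - H ∧ Cn (w + dsp δ A) P := by
                  by_contra hcon; exact hL' (if_neg hcon)
                rw [if_pos h']
                obtain ⟨P, R, e1, hP, hR, hC⟩ := h'
                refine ⟨P, R, e1, ?_⟩
                rw [if_pos ⟨⟨hP, hC⟩, hR⟩, e1, LW_append]
            _ ≤ ∑' P, (if HT ht P = H ∧ Cn (w + dsp δ A) P then LW Λ P else 0) := by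
                refine ENNReal.tsum_le_tsum fun P => ?_
                by_cases hP : HT ht P = H ∧ Cn (w + dsp δ A) P
                · rw [if_pos hP]
                  calc ∑' R, (if (HT ht P = H ∧ Cn (w + dsp δ A) P) ∧ HT ht R = n - a - H
                      then LW Λ P * LW Λ R else 0)
                      = LW Λ P * U Λ ht (n - a - H) := by
                        rw [U, ← ENNReal.tsum_mul_left]
                        refine tsum_congr fun R => ?_
                        simp only [hP, true_and, and_self]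
                        split_ifs <;> simp
                    _ ≤ LW Λ P * 1 := mul_le_mul_right (hU1 _) _
                    _ = LW Λ P := mul_one _
                · simp [hP]
        · simp [hA]

/-- translation move -/
def dlG : B → G → G := fun b w => w + δ b

lemma act_eq (L : List B) (w : G) : act (dlG δ) L w = w + dsp δ L := by
  induction L generalizing w with
  | nil => simp [act, dsp]
  | cons b L ih =>
    rw [act, ih]
    simp [dlG, dsp, add_assoc]

variable (cd : G → B → Set ℕ)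

/-- all contacts of the piece are `s`-deep from both ends, and there is one -/
def Deep (s H : ℕ) (x : G) (P : List B) : Prop :=
  (CD ht (dlG δ) cd P x).Nonempty ∧ ∀ k ∈ CD ht (dlG δ) cd P x, s < k ∧ k + s ≤ H

/-- input: one class of local pieces of the slab of height `H` -/
def Side (C c1 : ℝ≥0∞) (us : ℕ → ℝ≥0∞) (u : ℝ≥0∞) (H : ℕ) (Lo : List B → Prop) : Prop :=
  ∃ (S : Set (List B)) (θ : ℝ≥0∞), (∀ P ∈ S, HT ht P = H) ∧
    c1 * u ≤ (∑' P, if P ∈ S then LW Λ P else 0) ∧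
    (∀ z, ∑' P, (if P ∈ S ∧ dsp δ P = z then LW Λ P else 0) ≤ θ) ∧
    ∀ (s : ℕ) (N lam : ℝ≥0∞) (μ : G → ℝ≥0∞), lam ≠ 0 → lam ≠ ⊤ → ∑' x, μ x ≤ 1 →
      (∀ x, μ x ≤ N * θ) →
      ∑' x, μ x * Wt Λ ht H (fun P => Lo P ∧ Deep ht δ cd s H x P)
        ≤ C * (lam + N * us s / lam + us s)

/-- input: the slabs -/
def HW (C c1 : ℝ≥0∞) (us : ℕ → ℝ≥0∞) : Prop :=
  ∀ u : ℝ≥0∞, u ≠ 0 → u ≤ 1 → ∀ H : ℕ, 1 ≤ H → ∃ LX LY : List B → Prop,
    Wt Λ ht H (fun P => ¬ LX P ∧ ¬ LY P) ≤ u ^ 2 ∧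
    Side Λ ht δ cd C c1 us u H LX ∧ Side Λ ht δ cd C c1 us u H LY

lemma main_le (h1 : ∀ b, 1 ≤ ht b) (c : ℝ≥0∞) (hU : ∀ n, c ≤ U Λ ht n)
    (hU1 : ∀ n, U Λ ht n ≤ 1) (C c1 : ℝ≥0∞) (us : ℕ → ℝ≥0∞) (u : ℝ≥0∞) (H : ℕ)
    (LX LY : List B → Prop) (hNL : Wt Λ ht H (fun P => ¬ LX P ∧ ¬ LY P) ≤ u ^ 2)
    (hX : Side Λ ht δ cd C c1 us u H LX) (hY : Side Λ ht δ cd C c1 us u H LY)
    (ρ : ℝ≥0∞) (hρ : 1 ≤ ρ + c * (c1 * u) * c) (hρ1 : ρ ≤ 1)
    (g a N : ℕ) (ha : N * (H + g) ≤ a) (n s : ℕ) (w : G) (lam : ℝ≥0∞) (hl0 : lam ≠ 0)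
    (hl1 : lam ≠ ⊤) :
    Wt Λ ht n (fun L => ∃ A P R, L = A ++ (P ++ R) ∧ HT ht A = a ∧ HT ht P = H ∧
        Deep ht δ cd s H (w + dsp δ A) P)
      ≤ u ^ 2 + 2 * (C * (lam + N * us s / lam + us s) + (ρ ^ N + N * gp Λ ht g)) := by
  refine (main_split Λ ht δ hU1 n a H w (fun x P => Deep ht δ cd s H x P)).trans ?_
  have side : ∀ Lo : List B → Prop, Side Λ ht δ cd C c1 us u H Lo →
      ∑' A, (if HT ht A = a then LW Λ A * Wt Λ ht H (fun P => Lo P ∧
        Deep ht δ cd s H (w + dsp δ A) P) else 0)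
      ≤ C * (lam + N * us s / lam + us s) + (ρ ^ N + N * gp Λ ht g) := by
    rintro Lo ⟨S, θ, hS, hSm, hSd, hwin⟩
    exact win_one Λ ht δ h1 c hU hU1 hS (c1 * u) ρ θ hSm hρ hρ1 hSd g a N ha w
      (fun x => Wt Λ ht H (fun P => Lo P ∧ Deep ht δ cd s H x P))
      (fun x => (Wt_le_U Λ ht H _).trans (hU1 H)) _
      (fun μ h2 h3 => hwin s N lam μ hl0 hl1 h2 h3)
  have hpt : ∀ x, Wt Λ ht H (fun P => Deep ht δ cd s H x P)
      ≤ u ^ 2 + (Wt Λ ht H (fun P => LX P ∧ Deep ht δ cd s H x P)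
        + Wt Λ ht H (fun P => LY P ∧ Deep ht δ cd s H x P)) := by
    intro x
    refine le_trans (Wt_mono Λ ht H (Q' := fun P => (¬ LX P ∧ ¬ LY P) ∨
      ((LX P ∧ Deep ht δ cd s H x P) ∨ (LY P ∧ Deep ht δ cd s H x P))) ?_) ?_
    · intro P _ hP
      by_cases hx : LX P
      · exact Or.inr (Or.inl ⟨hx, hP⟩)
      · by_cases hy : LY P
        · exact Or.inr (Or.inr ⟨hy, hP⟩)
        · exact Or.inl ⟨hx, hy⟩
    · refine (Wt_or Λ ht H _ _).trans (add_le_add hNL (Wt_or Λ ht H _ _))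
  calc ∑' A, (if HT ht A = a then LW Λ A * Wt Λ ht H (fun P => Deep ht δ cd s H
        (w + dsp δ A) P) else 0)
      ≤ ∑' A, ((if HT ht A = a then LW Λ A else 0) * u ^ 2
        + ((if HT ht A = a then LW Λ A * Wt Λ ht H (fun P => LX P ∧
            Deep ht δ cd s H (w + dsp δ A) P) else 0)
          + (if HT ht A = a then LW Λ A * Wt Λ ht H (fun P => LY P ∧
            Deep ht δ cd s H (w + dsp δ A) P) else 0))) := by
        refine ENNReal.tsum_le_tsum fun A => ?_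
        by_cases hA : HT ht A = a
        · simp only [hA, if_true]
          rw [← mul_add, ← mul_add]
          exact mul_le_mul_right (hpt _) _
        · simp [hA]
    _ = U Λ ht a * u ^ 2 + (_ + _) := by
        rw [ENNReal.tsum_add, ENNReal.tsum_add, ENNReal.tsum_mul_right, U]
    _ ≤ 1 * u ^ 2 + ((C * (lam + N * us s / lam + us s) + (ρ ^ N + N * gp Λ ht g))
          + (C * (lam + N * us s / lam + us s) + (ρ ^ N + N * gp Λ ht g))) :=
        add_le_add (mul_le_mul_left (hU1 a) _) (add_le_add (side LX hX) (side LY hY))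
    _ = _ := by rw [one_mul, two_mul]

/-- deterministic part: a list with first contact in `(jT, (j+1)T]` -/
lemma window_det (h1 : ∀ b, 1 ≤ ht b) (hcd : ∀ w b k, k ∈ cd w b → 1 ≤ k ∧ k ≤ ht b)
    (q g s j T : ℕ) (hT : T = q * g) (hsT : s ≤ T) (hj : 2 ≤ j)
    (L : List B) (w : G) (k0 : ℕ) (hk0 : k0 ∈ CD ht (dlG δ) cd L w)
    (hmin : ∀ k ∈ CD ht (dlG δ) cd L w, k0 ≤ k) (hk1 : j * T < k0) (hk2 : k0 ≤ (j + 1) * T) :
    ((∀ i < q, ¬ Hit ht {[]} ((j - 2) * T + i * (0 + g) + g) L) ∨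
      (∀ i < q, ¬ Hit ht {[]} ((j + 2) * T + i * (0 + g) + g) L)) ∨
    ((∃ i ∈ Finset.range q, ∃ k ∈ CD ht (dlG δ) cd L w,
        (j + 2) * T + i * (0 + g) + g - s < k ∧ k ≤ (j + 2) * T + i * (0 + g) + g - s + s) ∨
      (∃ i ∈ Finset.range q, ∃ i' ∈ Finset.range q, ∃ A P R, L = A ++ (P ++ R) ∧
        HT ht A = (j - 2) * T + i * (0 + g) + g ∧
        HT ht P = (j + 2) * T + i' * (0 + g) + g - ((j - 2) * T + i * (0 + g) + g) ∧
        Deep ht δ cd s ((j + 2) * T + i' * (0 + g) + g - ((j - 2) * T + i * (0 + g) + g))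
          (w + dsp δ A) P)) := by
  by_cases hf1 : ∀ i < q, ¬ Hit ht {[]} ((j - 2) * T + i * (0 + g) + g) L
  · exact Or.inl (Or.inl hf1)
  by_cases hf2 : ∀ i < q, ¬ Hit ht {[]} ((j + 2) * T + i * (0 + g) + g) L
  · exact Or.inl (Or.inr hf2)
  right
  push Not at hf1 hf2
  obtain ⟨i, hi, A, P0, R0, e1, hA, hP0⟩ := hf1
  obtain ⟨i', hi', A', P0', R', e2, hA', hP0'⟩ := hf2
  rw [Set.mem_singleton_iff] at hP0 hP0'
  subst hP0
  subst hP0'
  rw [List.nil_append] at e1 e2
  simp only [zero_add] at hA hA' ⊢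
  have hig : i * g + g ≤ T := by
    rw [hT]
    calc i * g + g = (i + 1) * g := by ring
      _ ≤ q * g := Nat.mul_le_mul_right _ hi
  have hj2 : (j - 2) * T + 2 * T = j * T := by
    rw [← add_mul]; congr 1; omega
  have hj3 : (j + 2) * T = j * T + 2 * T := by ring
  have hj4 : (j + 1) * T = j * T + T := by ring
  by_cases hslab : ∃ k ∈ CD ht (dlG δ) cd L w,
      (j + 2) * T + i' * g + g - s < k ∧ k ≤ (j + 2) * T + i' * g + g - s + s
  · exact Or.inl ⟨i', Finset.mem_range.2 hi', hslab⟩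
  right
  push Not at hslab
  obtain ⟨P, e3, e4⟩ := pref_le h1 (e1.symm.trans e2) (by rw [hA, hA']; omega)
  have hHP : HT ht P = (j + 2) * T + i' * g + g - ((j - 2) * T + i * g + g) := by
    rw [e3, HT_append, hA] at hA'
    omega
  have hCD : CD ht (dlG δ) cd L w = CD ht (dlG δ) cd A w ∪ (fun k => HT ht A + k) ''
      (CD ht (dlG δ) cd P (w + dsp δ A) ∪ (fun k => HT ht P + k) ''
        CD ht (dlG δ) cd R' (act (dlG δ) P (w + dsp δ A))) := by
    rw [e1, e4, CD_append, CD_append, act_eq]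
  refine ⟨i, Finset.mem_range.2 hi, i', Finset.mem_range.2 hi', A, P, R', by rw [e1, e4], hA, hHP,
    ?_, ?_⟩
  · have hk := hk0
    rw [hCD] at hk
    rcases hk with hk | ⟨k, hk | ⟨k', hk', rfl⟩, hkk⟩
    · have := CD_pos ht _ cd hcd A w _ hk
      omega
    · exact ⟨k, hk⟩
    · have := CD_pos ht _ cd hcd R' _ _ hk'
      simp only at hkk
      omega
  · intro k hk
    have hkL : HT ht A + k ∈ CD ht (dlG δ) cd L w := by
      rw [hCD]; exact Or.inr ⟨k, Or.inl hk, rfl⟩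
    have h2 := hmin _ hkL
    have h3 := CD_pos ht _ cd hcd P _ _ hk
    refine ⟨by omega, ?_⟩
    by_contra hcon
    have h4 := hslab _ hkL (by omega)
    omega

lemma exists_small (A ε : ℝ≥0∞) (hA : A ≠ ⊤) (hε : ε ≠ 0) : ∃ x, x ≠ 0 ∧ x ≠ ⊤ ∧ A * x ≤ ε := by
  refine ⟨min ε 1 / (A + 1), ?_, ?_, ?_⟩
  · rw [Ne, ENNReal.div_eq_zero_iff, not_or]
    refine ⟨?_, ENNReal.add_ne_top.2 ⟨hA, ENNReal.one_ne_top⟩⟩
    simp [hε]
  · refine ENNReal.div_ne_top (ne_top_of_le_ne_top ENNReal.one_ne_top (min_le_right _ _)) ?_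
    simp
  · calc A * (min ε 1 / (A + 1)) ≤ (A + 1) * (min ε 1 / (A + 1)) :=
          mul_le_mul_left le_self_add _
      _ = min ε 1 := ENNReal.mul_div_cancel (by simp)
          (ENNReal.add_ne_top.2 ⟨hA, ENNReal.one_ne_top⟩)
      _ ≤ ε := min_le_left _ _

/-- the number lemma -/
def Num : Prop := ∀ (c c1 ε : ℝ≥0∞), c ≠ 0 → c ≤ 1 → c1 ≠ 0 → c1 ≤ 1 → ε ≠ 0 →
  ∃ q : ℕ, 1 ≤ q ∧ ((4 * (5 * q ^ 5 + 2) : ℕ) : ℝ≥0∞) * (2 * (1 - c * 1 * c) ^ q +
    (q : ℝ≥0∞) ^ 2 * ((((q : ℝ≥0∞) ^ 4)⁻¹) ^ 2 +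
      2 * (1 - c * (c1 * ((q : ℝ≥0∞) ^ 4)⁻¹) * c) ^ (q ^ 5))) ≤ ε

/-- **assembly by exact joint cuts.** -/
theorem kap_of_joint (hnum : Num) (h1 : ∀ b, 1 ≤ ht b)
    (hcd : ∀ w b k, k ∈ cd w b → 1 ≤ k ∧ k ≤ ht b)
    (c : ℝ≥0∞) (hc : c ≠ 0) (hU : ∀ n, c ≤ U Λ ht n) (hU1 : ∀ n, U Λ ht n ≤ 1)
    (C c1 : ℝ≥0∞) (hC : C ≠ ⊤) (hc1 : c1 ≠ 0) (hc1' : c1 ≤ 1) (us : ℕ → ℝ≥0∞)
    (hus : ∀ ε : ℝ≥0∞, ε ≠ 0 → ∃ s, us s ≤ ε)
    (hW : HW Λ ht δ cd C c1 us)
    (hS : ∀ ε : ℝ≥0∞, ε ≠ 0 → ∀ s : ℕ, ∃ N : ℕ, ∀ D, N ≤ D → ∀ n, ∀ w,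
      Wt Λ ht n (fun L => ∃ k ∈ CD ht (dlG δ) cd L w, D < k ∧ k ≤ D + s) ≤ ε) :
    ∀ ε : ℝ≥0∞, ε ≠ 0 → ∃ M : ℕ, ∀ m, M ≤ m → ∃ n0 : ℕ, ∀ n, n0 ≤ n → ∀ w,
      Kap1 Λ ht (dlG δ) cd n m w ≤ ε := by
  intro ε hε
  have hcle : c ≤ 1 := (hU 0).trans (hU1 0)
  have hε4 : ε / 4 ≠ 0 := by
    rw [Ne, ENNReal.div_eq_zero_iff, not_or]; exact ⟨hε, by norm_num⟩
  have hε8 : ε / 4 / 2 ≠ 0 := by
    rw [Ne, ENNReal.div_eq_zero_iff, not_or]; exact ⟨hε4, by norm_num⟩
  obtain ⟨q, hq1, hq⟩ := hnum c c1 (ε / 4) hc hcle hc1 hc1' hε4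
  set Q : ℕ := 5 * q ^ 5 + 2 with hQ
  set K : ℝ≥0∞ := ((4 * Q : ℕ) : ℝ≥0∞) with hK
  have hKt : K ≠ ⊤ := ENNReal.natCast_ne_top _
  set u : ℝ≥0∞ := ((q : ℝ≥0∞) ^ 4)⁻¹ with hu
  have hqR : (1 : ℝ≥0∞) ≤ q := by exact_mod_cast hq1
  have hu0 : u ≠ 0 := by
    rw [hu, Ne, ENNReal.inv_eq_zero]
    exact ENNReal.pow_ne_top (ENNReal.natCast_ne_top q)
  have hu1 : u ≤ 1 := by
    rw [hu]
    exact ENNReal.inv_le_one.2 (one_le_pow₀ hqR)
  set ρ1 : ℝ≥0∞ := 1 - c * 1 * c with hρ1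
  set ρ : ℝ≥0∞ := 1 - c * (c1 * u) * c with hρ
  set N : ℕ := q ^ 5 with hN
  have hqt : (q : ℝ≥0∞) ≠ ⊤ := ENNReal.natCast_ne_top q
  have hNt : (N : ℝ≥0∞) ≠ ⊤ := ENNReal.natCast_ne_top N
  -- lam
  have hA : K * (q : ℝ≥0∞) ^ 2 * 2 * C ≠ ⊤ :=
    ENNReal.mul_ne_top (ENNReal.mul_ne_top (ENNReal.mul_ne_top hKt (ENNReal.pow_ne_top hqt))
      (by norm_num)) hC
  obtain ⟨lam, hl0, hl1, hlam⟩ := exists_small _ (ε / 4) hA hε4
  -- s
  have hA2 : K * (q : ℝ≥0∞) ^ 2 * 2 * C * (N / lam + 1) ≠ ⊤ :=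
    ENNReal.mul_ne_top hA (ENNReal.add_ne_top.2 ⟨ENNReal.div_ne_top hNt hl0,
      ENNReal.one_ne_top⟩)
  obtain ⟨x0, hx0, _, hx0'⟩ := exists_small _ (ε / 4) hA2 hε4
  obtain ⟨s, hs⟩ := hus x0 hx0
  -- gap
  have hA3 : K * (2 * q + (q : ℝ≥0∞) ^ 2 * (2 * N)) ≠ ⊤ :=
    ENNReal.mul_ne_top hKt (ENNReal.add_ne_top.2 ⟨ENNReal.mul_ne_top (by norm_num) hqt,
      ENNReal.mul_ne_top (ENNReal.pow_ne_top hqt) (ENNReal.mul_ne_top (by norm_num) hNt)⟩)
  obtain ⟨x1, hx1, _, hx1'⟩ := exists_small _ (ε / 4 / 2) hA3 hε8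
  have hgt := gap_tendsto Λ ht h1 c hc 0 (fun n _ => hU n) hU1
  have hgev : ∀ᶠ g : ℕ in Filter.atTop, gp Λ ht g < x1 :=
    hgt.eventually_lt_const (pos_iff_ne_zero.2 hx1)
  obtain ⟨g1, hg1⟩ := Filter.eventually_atTop.1 hgev
  -- slab
  have hA4 : K * (q : ℝ≥0∞) ≠ ⊤ := ENNReal.mul_ne_top hKt hqt
  obtain ⟨x2, hx2, _, hx2'⟩ := exists_small _ (ε / 4 / 2) hA4 hε8
  obtain ⟨Ns, hNs⟩ := hS x2 hx2 s
  refine ⟨Q * q * (g1 + s + Ns + 1), fun m hm => ⟨(4 * Q + 4) * m, fun n hn w => ?_⟩⟩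
  have hQ0 : 0 < Q := by rw [hQ]; omega
  have hQq : 0 < Q * q := Nat.mul_pos hQ0 hq1
  set g : ℕ := m / (Q * q) with hg
  have hgbig : g1 + s + Ns + 1 ≤ g := by
    rw [hg, Nat.le_div_iff_mul_le hQq, mul_comm]; exact hm
  set T : ℕ := q * g with hT
  have hgT : g ≤ T := by rw [hT]; exact Nat.le_mul_of_pos_left g hq1
  have hQT : Q * T ≤ m := by
    rw [hT, ← mul_assoc, mul_comm, hg]; exact Nat.div_mul_le_self m (Q * q)
  have hmT : 2 * m < 4 * Q * T := by
    have h2 : m < (Q * q) * (g + 1) := by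
      rw [hg]; exact Nat.lt_mul_div_succ m hQq
    have h3 : (Q * q) * (g + 1) ≤ (Q * q) * (2 * g) := Nat.mul_le_mul_left _ (by omega)
    have h4 : 4 * Q * T = 2 * ((Q * q) * (2 * g)) := by rw [hT]; ring
    omega
  have hT0 : 0 < T := by omega
  have hTm : T ≤ m := le_trans (Nat.le_mul_of_pos_left T hQ0) hQT
  -- the events
  have hdet : ∀ L : List B, HT ht L = n →
      ((∀ k ∈ CD ht (dlG δ) cd L w, m < k) ∧ ∃ k ∈ CD ht (dlG δ) cd L w, k ≤ 2 * m) →
      ∃ j ∈ Finset.Ico Q (4 * Q),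
    ((∀ i < q, ¬ Hit ht {[]} ((j - 2) * T + i * (0 + g) + g) L) ∨
      (∀ i < q, ¬ Hit ht {[]} ((j + 2) * T + i * (0 + g) + g) L)) ∨
    ((∃ i ∈ Finset.range q, ∃ k ∈ CD ht (dlG δ) cd L w,
        (j + 2) * T + i * (0 + g) + g - s < k ∧ k ≤ (j + 2) * T + i * (0 + g) + g - s + s) ∨
      (∃ i ∈ Finset.range q, ∃ i' ∈ Finset.range q, ∃ A P R, L = A ++ (P ++ R) ∧
        HT ht A = (j - 2) * T + i * (0 + g) + g ∧
        HT ht P = (j + 2) * T + i' * (0 + g) + g - ((j - 2) * T + i * (0 + g) + g) ∧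
        Deep ht δ cd s ((j + 2) * T + i' * (0 + g) + g - ((j - 2) * T + i * (0 + g) + g))
          (w + dsp δ A) P)) := by
    rintro L _ ⟨hall, k, hk, hk2⟩
    have hne : (CD ht (dlG δ) cd L w).Nonempty := ⟨k, hk⟩
    set k0 := sInf (CD ht (dlG δ) cd L w) with hk0
    have hk0m : k0 ∈ CD ht (dlG δ) cd L w := Nat.sInf_mem hne
    have hmin : ∀ k ∈ CD ht (dlG δ) cd L w, k0 ≤ k := fun k hk => Nat.sInf_le hk
    have hk0a := hall k0 hk0m
    have hk0b : k0 ≤ 2 * m := (hmin k hk).trans hk2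
    set j : ℕ := (k0 - 1) / T with hj
    have hj1 : Q ≤ j := by
      rw [hj, Nat.le_div_iff_mul_le hT0]; omega
    have hj2 : j < 4 * Q := by
      rw [hj, Nat.div_lt_iff_lt_mul hT0]; omega
    have hj3 : j * T ≤ k0 - 1 := Nat.div_mul_le_self _ _
    have hj4 : k0 - 1 < (j + 1) * T := by
      rw [mul_comm, hj]; exact Nat.lt_mul_div_succ _ hT0
    exact ⟨j, Finset.mem_Ico.2 ⟨hj1, hj2⟩, window_det ht δ cd h1 hcd q g s j T hT (by omega)
      (by rw [hQ] at hj1; omega) L w k0 hk0m hmin (by omega) (by omega)⟩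
  have hρle : ρ ≤ 1 := tsub_le_self
  have hρ1le : ρ1 ≤ 1 := tsub_le_self
  have hρa : 1 ≤ ρ + c * (c1 * u) * c := le_tsub_add
  have hρ1a : 1 ≤ ρ1 + c * 1 * c := le_tsub_add
  have hgp : gp Λ ht g ≤ x1 := (hg1 g (by omega)).le
  have hSuc0 : ∀ P ∈ ({[]} : Set (List B)), HT ht P = 0 := by
    intro P hP
    rw [Set.mem_singleton_iff] at hP
    rw [hP, HT_nil]
  have hw0 : (1 : ℝ≥0∞) ≤ ∑' P : List B, if P ∈ ({[]} : Set (List B)) then LW Λ P else 0 := by
    refine le_trans ?_ (ENNReal.le_tsum (f := fun P : List B =>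
      if P ∈ ({[]} : Set (List B)) then LW Λ P else 0) [])
    simp [LW_nil]
  have hfail : ∀ D0 : ℕ, D0 + q * (0 + g) ≤ n →
      Wt Λ ht n (fun L => ∀ i < q, ¬ Hit ht {[]} (D0 + i * (0 + g) + g) L)
        ≤ ρ1 ^ q + q * gp Λ ht g := fun D0 hD0 =>
    fail Λ ht h1 c hU hU1 hSuc0 1 ρ1 (by convert hw0) hρ1a hρ1le D0 g n q hD0
  set MB : ℝ≥0∞ := u ^ 2 + 2 * (C * (lam + N * us s / lam + us s) + (ρ ^ N + N * gp Λ ht g))
    with hMB
  have hone : ∀ j ∈ Finset.Ico Q (4 * Q), Wt Λ ht n (fun L =>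
    ((∀ i < q, ¬ Hit ht {[]} ((j - 2) * T + i * (0 + g) + g) L) ∨
      (∀ i < q, ¬ Hit ht {[]} ((j + 2) * T + i * (0 + g) + g) L)) ∨
    ((∃ i ∈ Finset.range q, ∃ k ∈ CD ht (dlG δ) cd L w,
        (j + 2) * T + i * (0 + g) + g - s < k ∧ k ≤ (j + 2) * T + i * (0 + g) + g - s + s) ∨
      (∃ i ∈ Finset.range q, ∃ i' ∈ Finset.range q, ∃ A P R, L = A ++ (P ++ R) ∧
        HT ht A = (j - 2) * T + i * (0 + g) + g ∧
        HT ht P = (j + 2) * T + i' * (0 + g) + g - ((j - 2) * T + i * (0 + g) + g) ∧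
        Deep ht δ cd s ((j + 2) * T + i' * (0 + g) + g - ((j - 2) * T + i * (0 + g) + g))
          (w + dsp δ A) P)))
      ≤ ((ρ1 ^ q + q * gp Λ ht g) + (ρ1 ^ q + q * gp Λ ht g))
        + (q * x2 + q * (q * MB)) := by
    intro j hj
    rw [Finset.mem_Ico] at hj
    have hjT : (j + 3) * T ≤ n := by
      have h2 : (j + 3) * T ≤ (4 * Q + 4) * T := Nat.mul_le_mul_right _ (by omega)
      have h3 : (4 * Q + 4) * T ≤ (4 * Q + 4) * m := Nat.mul_le_mul_left _ hTm
      omega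
    have hqg : q * (0 + g) = T := by rw [zero_add]
    have hj32 : (j + 3) * T = (j + 2) * T + T := by ring
    have hj22 : (j - 2) * T + 4 * T = (j + 2) * T := by
      rw [← add_mul]; congr 1; omega
    refine (Wt_or Λ ht n _ _).trans (add_le_add ?_ ?_)
    · refine (Wt_or Λ ht n _ _).trans (add_le_add ?_ ?_)
      · exact hfail _ (by omega)
      · exact hfail _ (by omega)
    · refine (Wt_or Λ ht n _ _).trans (add_le_add ?_ ?_)
      · refine (Wt_exists Λ ht _ n _).trans ?_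
        calc _ ≤ ∑ _i ∈ Finset.range q, x2 := by
              refine Finset.sum_le_sum fun i _ => hNs _ ?_ n w
              have : 2 * T ≤ (j + 2) * T := Nat.mul_le_mul_right _ (by omega)
              omega
          _ = q * x2 := by simp
      · refine (Wt_exists Λ ht _ n _).trans ?_
        calc _ ≤ ∑ _i ∈ Finset.range q, (q * MB) := by
              refine Finset.sum_le_sum fun i hi => ?_
              refine (Wt_exists Λ ht _ n _).trans ?_
              calc _ ≤ ∑ _i' ∈ Finset.range q, MB := by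
                    refine Finset.sum_le_sum fun i' hi' => ?_
                    rw [Finset.mem_range] at hi hi'
                    have hig : i * (0 + g) + g ≤ T := by
                      rw [hT, zero_add]
                      calc i * g + g = (i + 1) * g := by ring
                        _ ≤ q * g := Nat.mul_le_mul_right _ hi
                    have hig' : i' * (0 + g) + g ≤ T := by
                      rw [hT, zero_add]
                      calc i' * g + g = (i' + 1) * g := by ring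
                        _ ≤ q * g := Nat.mul_le_mul_right _ hi'
                    obtain ⟨LX, LY, hNL, hX, hY⟩ := hW u hu0 hu1
                      ((j + 2) * T + i' * (0 + g) + g - ((j - 2) * T + i * (0 + g) + g))
                      (by omega)
                    refine main_le Λ ht δ cd h1 c hU hU1 C c1 us u _ LX LY hNL hX hY ρ hρa hρle
                      g _ N ?_ n s w lam hl0 hl1
                    have h5 : N * ((j + 2) * T + i' * (0 + g) + g
                        - ((j - 2) * T + i * (0 + g) + g) + g) ≤ N * (5 * T) :=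
                      Nat.mul_le_mul_left _ (by omega)
                    have h6 : N * (5 * T) ≤ (j - 2) * T := by
                      calc N * (5 * T) = (5 * N) * T := by ring
                        _ ≤ (j - 2) * T := Nat.mul_le_mul_right _ (by
                          have := hj.1
                          rw [hQ] at this
                          omega)
                    omega
                _ = q * MB := by simp
          _ = q * (q * MB) := by simp
  -- total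
  have htot : Kap1 Λ ht (dlG δ) cd n m w ≤ K * (((ρ1 ^ q + q * gp Λ ht g)
      + (ρ1 ^ q + q * gp Λ ht g)) + (q * x2 + q * (q * MB))) := by
    have h0 : Kap1 Λ ht (dlG δ) cd n m w = Wt Λ ht n (fun L =>
        (∀ k ∈ CD ht (dlG δ) cd L w, m < k) ∧ ∃ k ∈ CD ht (dlG δ) cd L w, k ≤ 2 * m) := by
      rw [Kap1, Wt]
      exact tsum_congr fun L => by congr
    rw [h0]
    refine (Wt_mono Λ ht n hdet).trans ?_
    refine (Wt_exists Λ ht _ n _).trans ?_
    refine (Finset.sum_le_sum hone).trans ?_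
    rw [Finset.sum_const, nsmul_eq_mul, Nat.card_Ico]
    refine mul_le_mul_left ?_ _
    rw [hK]
    exact_mod_cast (by omega : 4 * Q - Q ≤ 4 * Q)
  refine htot.trans ?_
  have hrw : K * (((ρ1 ^ q + q * gp Λ ht g)
      + (ρ1 ^ q + q * gp Λ ht g)) + (q * x2 + q * (q * MB)))
      = K * (2 * ρ1 ^ q + (q : ℝ≥0∞) ^ 2 * (u ^ 2 + 2 * ρ ^ N))
        + (K * (q : ℝ≥0∞) ^ 2 * 2 * C * lam
        + (K * (q : ℝ≥0∞) ^ 2 * 2 * C * ((N / lam + 1) * us s)
        + (K * (2 * q + (q : ℝ≥0∞) ^ 2 * (2 * N)) * gp Λ ht g + K * q * x2))) := by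
    rw [hMB, div_eq_mul_inv, div_eq_mul_inv]
    ring
  rw [hrw]
  have t1 : K * (q : ℝ≥0∞) ^ 2 * 2 * C * ((N / lam + 1) * us s) ≤ ε / 4 := by
    refine le_trans ?_ hx0'
    rw [← mul_assoc]
    exact mul_le_mul_right hs _
  have t2 : K * (2 * q + (q : ℝ≥0∞) ^ 2 * (2 * N)) * gp Λ ht g ≤ ε / 4 / 2 :=
    (mul_le_mul_right hgp _).trans hx1'
  calc _ ≤ ε / 4 + (ε / 4 + (ε / 4 + (ε / 4 / 2 + ε / 4 / 2))) :=
        add_le_add hq (add_le_add hlam (add_le_add t1 (add_le_add t2 hx2')))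
    _ = ε / 4 + (ε / 4 + (ε / 4 + ε / 4)) := by rw [ENNReal.add_halves]
    _ = ε := by
        have : ε / 4 + (ε / 4 + (ε / 4 + ε / 4)) = 4 * (ε / 4) := by ring
        rw [this]
        exact ENNReal.mul_div_cancel (by norm_num) (by norm_num)

end Crest.Agent.R154.Joint107
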