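import Crest.Agent.R154.B5Weak_865
import Crest.Agent.R154.FP_178
import Crest.Agent.R154.Num_869

/-! Row 154, ROAD 801 (helper38): the assembly at JOINT cuts, pieces of one exact height `H`. -/

set_option autoImplicit false

namespace Crest.Agent.R154.Joint38

open scoped ENNReal
open Crest.Agent.R154.B5A
open Crest.Agent.R154.FP178

variable {B W : Type*} (Λ : B → ℝ≥0∞) (ht : B → ℕ) (dl : B → W → W) (cd : W → B → Set ℕ)

/-! ### lists of exact height are first passages, uniqueness -/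

lemma fp_of_HT (h1 : ∀ b, 1 ≤ ht b) {L : List B} {a : ℕ} (h : HT ht L = a) : fp ht a L := by
  induction L generalizing a with
  | nil => rw [fp_nil]; rw [HT_nil] at h; exact h.symm
  | cons b L ih =>
    rw [HT_cons] at h
    rw [fp_cons]
    have := h1 b
    exact ⟨by omega, ih (by omega)⟩

lemma fp_unique (a : ℕ) {A A' R R' : List B} (hA : fp ht a A) (hA' : fp ht a A')
    (h : A ++ R = A' ++ R') : A = A' ∧ R = R' := by
  induction A generalizing a A' with
  | nil =>
    rw [fp_nil] at hA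
    subst hA
    rw [fp_zero] at hA'
    subst hA'
    exact ⟨rfl, by simpa using h⟩
  | cons b A ih =>
    cases A' with
    | nil =>
      rw [fp_nil] at hA'
      subst hA'
      rw [fp_cons] at hA
      exact absurd hA.1 (lt_irrefl _)
    | cons b' A' =>
      rw [fp_cons] at hA hA'
      simp only [List.cons_append, List.cons.injEq] at h
      obtain ⟨rfl, h⟩ := h
      obtain ⟨e1, e2⟩ := ih (a - ht b) hA.2 hA'.2 h
      exact ⟨by rw [e1], e2⟩

lemma act_inj (hinj : ∀ b, Function.Injective (dl b)) (L : List B) :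
    Function.Injective (act dl L) := by
  induction L with
  | nil => exact fun x y h => h
  | cons b L ih => exact fun x y h => hinj b (ih h)

/-! ### the hits -/

/-- one of the first `J` composites (first passages of `H`) is a hit -/
def Good (H i0 : ℕ) (X : Set (List B)) : ℕ → List B → Prop
  | 0, _ => False
  | J + 1, L => ∃ A R, L = A ++ R ∧ fp ht H A ∧ (A ∈ X ∨ (HT ht A ≤ H + i0 ∧ Good H i0 X J R))

lemma good_append {H i0 : ℕ} {X : Set (List B)} {J : ℕ} {A R : List B} (hA : fp ht H A) :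
    Good ht H i0 X (J + 1) (A ++ R) ↔ (A ∈ X ∨ (HT ht A ≤ H + i0 ∧ Good ht H i0 X J R)) := by
  constructor
  · rintro ⟨A', R', h, hA', h2⟩
    obtain ⟨rfl, rfl⟩ := fp_unique ht H hA hA' h
    exact h2
  · intro h
    exact ⟨A, R, rfl, hA, h⟩

open Classical in
lemma fp_not_hit_le (h1 : ∀ b, 1 ≤ ht b) (hΛ : ∑' b, Λ b = 1) (H : ℕ) (X : Set (List B))
    (hX : ∀ L ∈ X, HT ht L = H) (q : ℝ≥0∞) (hqt : q ≠ ⊤)
    (hq : q ≤ ∑' L : List B, if L ∈ X then LW Λ L else 0) :
    ∑' A : List B, (if fp ht H A ∧ A ∉ X then LW Λ A else 0) ≤ 1 - q := by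
  have h := sum_FP Λ ht h1 hΛ.le H
  have e : ∑' A : List B, (if fp ht H A then LW Λ A else 0)
      = ∑' A : List B, (if fp ht H A ∧ A ∉ X then LW Λ A else 0)
        + ∑' L : List B, (if L ∈ X then LW Λ L else 0) := by
    rw [← ENNReal.tsum_add]
    refine tsum_congr fun A => ?_
    by_cases hA : A ∈ X
    · have := fp_of_HT ht h1 (hX A hA)
      simp [hA, this]
    · simp [hA]
  rw [e] at h
  refine ENNReal.le_sub_of_add_le_right hqt ?_
  exact (add_le_add le_rfl hq).trans h

open Classical in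
/-- density of the good part -/
theorem dens_good (h1 : ∀ b, 1 ≤ ht b) (hΛ : ∑' b, Λ b = 1)
    (hinj : ∀ b, Function.Injective (dl b)) (H : ℕ) (X : Set (List B))
    (hX : ∀ L ∈ X, HT ht L = H) (q th : ℝ≥0∞) (hq0 : q ≠ 0) (hq1 : q ≤ 1)
    (hq : q ≤ ∑' L : List B, if L ∈ X then LW Λ L else 0)
    (hth : ∀ w w', ∑' L : List B, (if L ∈ X ∧ act dl L w = w' then LW Λ L else 0) ≤ th) (i0 : ℕ) :
    ∀ (J a : ℕ), J * (H + i0) ≤ a → ∀ w w',
      ∑' L : List B, (if fp ht a L then LW Λ L *
        (if Good ht H i0 X J L ∧ act dl L w = w' then 1 else 0) else 0) ≤ th / q := by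
  have hqt : q ≠ ⊤ := ne_top_of_le_ne_top ENNReal.one_ne_top hq1
  intro J
  induction J with
  | zero =>
    intro a _ w w'
    simp [Good]
  | succ J ih =>
    intro a ha w w'
    have hHa : H ≤ a := by nlinarith
    rw [fp_split Λ ht h1 H a hHa]
    have key : ∀ A : List B, (if fp ht H A then LW Λ A *
          ∑' L, (if fp ht (a - HT ht A) L then LW Λ L *
            (if Good ht H i0 X (J + 1) (A ++ L) ∧ act dl (A ++ L) w = w' then (1 : ℝ≥0∞) else 0)
            else 0) else 0)
        ≤ (∑' L, (if fp ht (a - H) L then LW Λ L *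
            (if A ∈ X ∧ act dl L (act dl A w) = w' then LW Λ A else 0) else 0))
          + (if fp ht H A ∧ A ∉ X then LW Λ A else 0) * (th / q) := by
      intro A
      by_cases hA : fp ht H A
      · rw [if_pos hA]
        by_cases hAX : A ∈ X
        · refine le_trans (le_of_eq ?_) le_self_add
          rw [← ENNReal.tsum_mul_left, hX A hAX]
          refine tsum_congr fun L => ?_
          rw [good_append ht hA, act_append]
          by_cases h2 : fp ht (a - H) L
          · by_cases h3 : act dl L (act dl A w) = w'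
            · simp [hAX, h2, h3, mul_comm]
            · simp [hAX, h2, h3]
          · simp [h2]
        · refine le_trans ?_ le_add_self
          rw [if_pos ⟨hA, hAX⟩]
          refine mul_le_mul_right ?_ _
          by_cases hAi : HT ht A ≤ H + i0
          · refine le_trans (le_of_eq ?_) (ih (a - HT ht A) (by
              have : (J + 1) * (H + i0) = J * (H + i0) + (H + i0) := by ring
              omega) (act dl A w) w')
            refine tsum_congr fun L => ?_
            rw [good_append ht hA, act_append]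
            simp [hAX, hAi]
          · refine le_trans (le_of_eq ?_) zero_le
            rw [ENNReal.tsum_eq_zero]
            intro L
            rw [good_append ht hA]
            simp [hAX, hAi]
      · rw [if_neg hA]; exact zero_le
    refine (ENNReal.tsum_le_tsum key).trans ?_
    rw [ENNReal.tsum_add, ENNReal.tsum_mul_right, ENNReal.tsum_comm]
    have hfirst : ∑' L : List B, ∑' A : List B, (if fp ht (a - H) L then LW Λ L *
            (if A ∈ X ∧ act dl L (act dl A w) = w' then LW Λ A else 0) else 0) ≤ th := by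
      calc ∑' L : List B, ∑' A : List B, (if fp ht (a - H) L then LW Λ L *
            (if A ∈ X ∧ act dl L (act dl A w) = w' then LW Λ A else 0) else 0)
          ≤ ∑' L : List B, (if fp ht (a - H) L then LW Λ L else 0) * th := by
            refine ENNReal.tsum_le_tsum fun L => ?_
            by_cases h2 : fp ht (a - H) L
            · simp only [if_pos h2]
              rw [ENNReal.tsum_mul_left]
              refine mul_le_mul_right ?_ _
              by_cases hv : ∃ v, act dl L v = w'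
              · obtain ⟨v, hv⟩ := hv
                refine le_trans (le_of_eq ?_) (hth w v)
                refine tsum_congr fun A => ?_
                have : act dl L (act dl A w) = w' ↔ act dl A w = v := by
                  rw [← hv]
                  exact (act_inj dl hinj L).eq_iff
                rw [this]
              · refine le_trans (le_of_eq ?_) zero_le
                rw [ENNReal.tsum_eq_zero]
                intro A
                rw [if_neg]
                rintro ⟨_, h⟩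
                exact hv ⟨_, h⟩
            · simp [if_neg h2]
        _ ≤ 1 * th := by
            rw [ENNReal.tsum_mul_right]
            exact mul_le_mul_left (sum_FP Λ ht h1 hΛ.le (a - H)) _
        _ = th := one_mul th
    calc _ ≤ th + (1 - q) * (th / q) :=
          add_le_add hfirst (mul_le_mul_left (fp_not_hit_le Λ ht h1 hΛ H X hX q hqt hq) _)
      _ = q * (th / q) + (1 - q) * (th / q) := by rw [ENNReal.mul_div_cancel hq0 hqt]
      _ = th / q := by
          rw [← add_mul, add_tsub_cancel_of_le hq1, one_mul]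

open Classical in
/-- mass of the bad part -/
theorem bad_mass (h1 : ∀ b, 1 ≤ ht b) (hΛ : ∑' b, Λ b = 1) (hU1 : ∀ n, U Λ ht n ≤ 1)
    (H : ℕ) (X : Set (List B))
    (hX : ∀ L ∈ X, HT ht L = H) (q : ℝ≥0∞) (hq1 : q ≤ 1)
    (hq : q ≤ ∑' L : List B, if L ∈ X then LW Λ L else 0) (i0 : ℕ) :
    ∀ (J a : ℕ), J * (H + i0) ≤ a →
      ∑' L : List B, (if fp ht a L then LW Λ L * (if Good ht H i0 X J L then 0 else 1) else 0)
        ≤ (1 - q) ^ J + J * ∑' k, tail Λ ht (i0 + k) := by
  have hqt : q ≠ ⊤ := ne_top_of_le_ne_top ENNReal.one_ne_top hq1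
  intro J
  induction J with
  | zero =>
    intro a _
    refine le_trans (le_of_eq ?_) ((sum_FP Λ ht h1 hΛ.le a).trans (by simp))
    simp [Good]
  | succ J ih =>
    intro a ha
    have hHa : H ≤ a := by nlinarith
    rw [fp_split Λ ht h1 H a hHa]
    set τ := ∑' k, tail Λ ht (i0 + k) with hτ
    have key : ∀ A : List B, (if fp ht H A then LW Λ A *
          ∑' L, (if fp ht (a - HT ht A) L then LW Λ L *
            (if Good ht H i0 X (J + 1) (A ++ L) then (0 : ℝ≥0∞) else 1)
            else 0) else 0)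
        ≤ (if fp ht H A ∧ H + i0 < HT ht A then LW Λ A else 0)
          + (if fp ht H A ∧ A ∉ X then LW Λ A else 0) * ((1 - q) ^ J + J * τ) := by
      intro A
      by_cases hA : fp ht H A
      · rw [if_pos hA]
        by_cases hAi : HT ht A ≤ H + i0
        · by_cases hAX : A ∈ X
          · refine le_trans (le_of_eq ?_) zero_le
            have : ∑' L, (if fp ht (a - HT ht A) L then LW Λ L *
              (if Good ht H i0 X (J + 1) (A ++ L) then (0 : ℝ≥0∞) else 1) else 0) = 0 := by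
              rw [ENNReal.tsum_eq_zero]
              intro L
              rw [good_append ht hA]
              simp [hAX]
            rw [this, mul_zero]
          · refine le_trans ?_ le_add_self
            rw [if_pos ⟨hA, hAX⟩]
            refine mul_le_mul_right ?_ _
            refine le_trans (le_of_eq ?_) (ih (a - HT ht A) (by
              have : (J + 1) * (H + i0) = J * (H + i0) + (H + i0) := by ring
              omega))
            refine tsum_congr fun L => ?_
            rw [good_append ht hA]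
            simp [hAX, hAi]
        · refine le_trans ?_ le_self_add
          rw [if_pos ⟨hA, by omega⟩]
          calc LW Λ A * _ ≤ LW Λ A * ∑' L, (if fp ht (a - HT ht A) L then LW Λ L else 0) := by
                refine mul_le_mul_right (ENNReal.tsum_le_tsum fun L => ?_) _
                by_cases h2 : fp ht (a - HT ht A) L
                · simp only [if_pos h2]
                  split_ifs <;> simp
                · simp [if_neg h2]
            _ ≤ LW Λ A * 1 := mul_le_mul_right (sum_FP Λ ht h1 hΛ.le _) _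
            _ = LW Λ A := mul_one _
      · rw [if_neg hA]; exact zero_le
    refine (ENNReal.tsum_le_tsum key).trans ?_
    rw [ENNReal.tsum_add, ENNReal.tsum_mul_right]
    have e1 : ∑' A : List B, (if fp ht H A ∧ H + i0 < HT ht A then LW Λ A else 0) ≤ τ :=
      overshoot Λ ht h1 hU1 i0 H
    have e2 := fp_not_hit_le Λ ht h1 hΛ H X hX q hqt hq
    calc _ ≤ τ + (1 - q) * ((1 - q) ^ J + J * τ) := add_le_add e1 (mul_le_mul_left e2 _)
      _ ≤ τ + ((1 - q) ^ (J + 1) + 1 * (J * τ)) := by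
          rw [mul_add, pow_succ']
          gcongr
          exact tsub_le_self
      _ = (1 - q) ^ (J + 1) + ((J + 1 : ℕ) : ℝ≥0∞) * τ := by
          push_cast; ring


/-! ### one window -/

open Classical in
/-- the piece of exact height `H`: contact, none in the top / bottom `s` levels -/
noncomputable def PH (s H : ℕ) (w : W) : ℝ≥0∞ :=
  ∑' L : List B, if HT ht L = H ∧ (∃ k, k ∈ CD ht dl cd L w) ∧
    (∀ k ∈ CD ht dl cd L w, s < k ∧ k + s ≤ H) then LW Λ L else 0

open Classical in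
/-- thin slab at the bottom of a crossing of height `δ` -/
noncomputable def SLB (s δ : ℕ) (w : W) : ℝ≥0∞ :=
  ∑' L : List B, if HT ht L = δ ∧ (∃ k, k ∈ CD ht dl cd L w ∧ δ < k + s) then LW Λ L else 0

open Classical in
/-- first contact depth in `(α, β]` -/
noncomputable def WinK (n α β : ℕ) (w : W) : ℝ≥0∞ :=
  ∑' L : List B, if HT ht L = n ∧ (∀ k ∈ CD ht dl cd L w, α < k) ∧
    (∃ k ∈ CD ht dl cd L w, k ≤ β) then LW Λ L else 0

open Classical in
lemma PH_le_one (hU1 : ∀ n, U Λ ht n ≤ 1) (s H : ℕ) (w : W) : PH Λ ht dl cd s H w ≤ 1 := by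
  refine le_trans (ENNReal.tsum_le_tsum fun L => ?_) (hU1 H)
  by_cases h : HT ht L = H
  · rw [if_pos h]; split_ifs <;> simp
  · rw [if_neg h, if_neg (fun h' => h h'.1)]

open Classical in
lemma tsum_height_le (hU1 : ∀ n, U Λ ht n ≤ 1) (k n : ℕ) (P : List B → Prop) :
    ∑' L : List B, LW Λ L * (if k + HT ht L = n ∧ P L then (1 : ℝ≥0∞) else 0) ≤ 1 := by
  refine le_trans (ENNReal.tsum_le_tsum fun L => ?_) (hU1 (n - k))
  by_cases h : k + HT ht L = n ∧ P L
  · rw [if_pos h, mul_one, if_pos (by omega)]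
  · rw [if_neg h, mul_zero]; exact zero_le

open Classical in
lemma inner_piece (h1 : ∀ b, 1 ≤ ht b) (hcd : ∀ w b k, k ∈ cd w b → 1 ≤ k ∧ k ≤ ht b)
    (hΛ : ∑' b, Λ b = 1) (hU1 : ∀ n, U Λ ht n ≤ 1) (c : ℝ≥0∞) (hc : c ≠ 0) (hct : c ≠ ⊤)
    (hU : ∀ n, c ≤ U Λ ht n) (H i0 s α β n D : ℕ) (hα : D + s ≤ α) (hβ : β + i0 ≤ D + H)
    (hH : i0 + s < H) (hn : D + H ≤ n) (w1 : W) :
    ∑' L2 : List B, LW Λ L2 * (if D + HT ht L2 = n ∧ ((∀ k ∈ CD ht dl cd L2 w1, α < D + k) ∧
        (∃ k ∈ CD ht dl cd L2 w1, D + k ≤ β)) then (1 : ℝ≥0∞) else 0)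
      ≤ (∑' k, tail Λ ht (i0 + k)) + c⁻¹ * (PH Λ ht dl cd s H w1 +
        ∑' L : List B, (if HT ht L = H ∧ (∃ k, k ∈ CD ht dl cd L w1 ∧ H < k + s)
          then LW Λ L else 0)) := by
  set τ := ∑' k, tail Λ ht (i0 + k) with hτ
  set f : List B → ℝ≥0∞ := fun L2 => (if D + HT ht L2 = n ∧
    ((∀ k ∈ CD ht dl cd L2 w1, α < D + k) ∧ (∃ k ∈ CD ht dl cd L2 w1, D + k ≤ β))
    then (1 : ℝ≥0∞) else 0) with hf
  set g : List B → ℝ≥0∞ := fun L => (if HT ht L = H ∧ (∃ k, k ∈ CD ht dl cd L w1) ∧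
    (∀ k ∈ CD ht dl cd L w1, s < k) then (1 : ℝ≥0∞) else 0) with hg
  have e1 : ∑' L2 : List B, LW Λ L2 * f L2
      = ∑' L2 : List B, (if H - i0 ≤ HT ht L2 then LW Λ L2 * f L2 else 0) := by
    refine tsum_congr fun L => ?_
    by_cases h : H - i0 ≤ HT ht L
    · rw [if_pos h]
    · rw [if_neg h, hf]
      simp only
      rw [if_neg (fun h' => h (by omega)), mul_zero]
  rw [e1, split Λ ht h1 (H - i0) f]
  have key : ∀ A : List B, (if fp ht (H - i0) A then LW Λ A * ∑' R, LW Λ R * f (A ++ R) else 0)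
      ≤ (if fp ht (H - i0) A ∧ (H - i0) + i0 < HT ht A then LW Λ A else 0)
        + c⁻¹ * (if fp ht (H - i0) A then LW Λ A * ∑' R, LW Λ R * g (A ++ R) else 0) := by
    intro A
    by_cases hA : fp ht (H - i0) A
    · simp only [if_pos hA]
      by_cases hAi : HT ht A ≤ H
      · refine le_trans ?_ le_add_self
        rw [mul_left_comm]
        refine mul_le_mul_right ?_ _
        by_cases hR : ∃ R, f (A ++ R) ≠ 0
        · obtain ⟨R, hR⟩ := hR
          have hR' : D + HT ht (A ++ R) = n ∧ ((∀ k ∈ CD ht dl cd (A ++ R) w1, α < D + k) ∧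
              (∃ k ∈ CD ht dl cd (A ++ R) w1, D + k ≤ β)) := by
            by_contra hcon
            exact hR (if_neg hcon)
          obtain ⟨hR1, hR2, k0, hk0, hk0'⟩ := hR'
          have hAle := le_HT_of_fp ht hA
          have hk0A : k0 ∈ CD ht dl cd A w1 := by
            rw [CD_append] at hk0
            rcases hk0 with h | ⟨k', hk', rfl⟩
            · exact h
            · exfalso
              have := (CD_pos ht dl cd hcd _ _ _ hk').1
              simp only at hk0'
              omega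
          have hsum : ∑' R, LW Λ R * f (A ++ R) ≤ 1 := by
            refine le_trans (ENNReal.tsum_le_tsum fun R => ?_)
              (tsum_height_le Λ ht hU1 (D + HT ht A) n (fun _ => True))
            refine mul_le_mul_right ?_ _
            rw [hf]
            simp only
            by_cases h : D + HT ht (A ++ R) = n
            · have h' : D + HT ht A + HT ht R = n := by rw [HT_append] at h; omega
              rw [if_pos (⟨h', trivial⟩ : D + HT ht A + HT ht R = n ∧ True)]
              split_ifs <;> simp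
            · rw [if_neg (fun h' => h h'.1)]; exact zero_le
          have hcU : (1 : ℝ≥0∞) ≤ c⁻¹ * U Λ ht (H - HT ht A) := by
            calc (1 : ℝ≥0∞) = c⁻¹ * c := (ENNReal.inv_mul_cancel hc hct).symm
              _ ≤ _ := mul_le_mul_right (hU _) _
          refine hsum.trans (hcU.trans (mul_le_mul_right ?_ _))
          rw [U]
          refine ENNReal.tsum_le_tsum fun R' => ?_
          by_cases hR' : HT ht R' = H - HT ht A
          · rw [if_pos hR', hg]
            simp only
            rw [if_pos, mul_one]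
            refine ⟨by rw [HT_append]; omega, ⟨k0, by rw [CD_append]; exact Or.inl hk0A⟩, ?_⟩
            intro k hk
            rw [CD_append] at hk
            rcases hk with h | ⟨k', hk', rfl⟩
            · have := hR2 k (by rw [CD_append]; exact Or.inl h)
              omega
            · have := (CD_pos ht dl cd hcd _ _ _ hk').1
              simp only
              omega
          · rw [if_neg hR']; exact zero_le
        · push Not at hR
          simp [hR]
      · refine le_trans ?_ le_self_add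
        rw [if_pos ⟨hA, by omega⟩]
        calc LW Λ A * _ ≤ LW Λ A * 1 := by
              refine mul_le_mul_right ?_ _
              refine le_trans (ENNReal.tsum_le_tsum fun R => ?_)
                (tsum_height_le Λ ht hU1 (D + HT ht A) n (fun _ => True))
              refine mul_le_mul_right ?_ _
              rw [hf]
              simp only
              by_cases h : D + HT ht (A ++ R) = n
              · have h' : D + HT ht A + HT ht R = n := by rw [HT_append] at h; omega
                rw [if_pos (⟨h', trivial⟩ : D + HT ht A + HT ht R = n ∧ True)]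
                split_ifs <;> simp
              · rw [if_neg (fun h' => h h'.1)]; exact zero_le
          _ = LW Λ A := mul_one _
    · simp [hA]
  refine (ENNReal.tsum_le_tsum key).trans ?_
  rw [ENNReal.tsum_add, ENNReal.tsum_mul_left, ← split Λ ht h1 (H - i0) g]
  refine add_le_add (overshoot Λ ht h1 hU1 i0 (H - i0)) (mul_le_mul_right ?_ _)
  rw [PH, ← ENNReal.tsum_add]
  refine ENNReal.tsum_le_tsum fun L => ?_
  by_cases h : HT ht L = H ∧ (∃ k, k ∈ CD ht dl cd L w1) ∧ (∀ k ∈ CD ht dl cd L w1, s < k)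
  · by_cases h2 : ∀ k ∈ CD ht dl cd L w1, k + s ≤ H
    · rw [if_pos (⟨h.1, h.2.1, fun k hk => ⟨h.2.2 k hk, h2 k hk⟩⟩ : HT ht L = H ∧
        (∃ k, k ∈ CD ht dl cd L w1) ∧ (∀ k ∈ CD ht dl cd L w1, s < k ∧ k + s ≤ H))]
      refine le_trans ?_ le_self_add
      rw [hg]
      simp only
      split_ifs <;> simp
    · push Not at h2
      rw [if_pos (⟨h.1, h2⟩ : HT ht L = H ∧ (∃ k, k ∈ CD ht dl cd L w1 ∧ H < k + s))]
      refine le_trans ?_ le_add_self
      rw [hg]
      simp only
      split_ifs <;> simp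
  · rw [hg]
    simp only
    rw [if_neg h, mul_zero]
    simp

open Classical in
theorem win_bound (h1 : ∀ b, 1 ≤ ht b) (hcd : ∀ w b k, k ∈ cd w b → 1 ≤ k ∧ k ≤ ht b)
    (hΛ : ∑' b, Λ b = 1) (hU1 : ∀ n, U Λ ht n ≤ 1) (c : ℝ≥0∞) (hc : c ≠ 0) (hct : c ≠ ⊤)
    (hU : ∀ n, c ≤ U Λ ht n) (H i0 s a α β n : ℕ) (hα : a + i0 + s ≤ α) (hβ : β + i0 ≤ a + H)
    (hH : i0 + s < H) (hn : a + i0 + H ≤ n) (w : W) :
    WinK Λ ht dl cd n α β w
      ≤ 2 * (∑' k, tail Λ ht (i0 + k)) + c⁻¹ *
        (∑' L1 : List B, (if fp ht a L1 then LW Λ L1 * PH Λ ht dl cd s H (act dl L1 w) else 0)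
          + ∑ i ∈ Finset.range (i0 + 1), SLB Λ ht dl cd s (a + i + H) w) := by
  set τ := ∑' k, tail Λ ht (i0 + k) with hτ
  set f : List B → ℝ≥0∞ := fun L => (if HT ht L = n ∧ (∀ k ∈ CD ht dl cd L w, α < k) ∧
    (∃ k ∈ CD ht dl cd L w, k ≤ β) then (1 : ℝ≥0∞) else 0) with hf
  set SR : W → ℝ≥0∞ := fun w1 => ∑' L : List B, (if HT ht L = H ∧
    (∃ k, k ∈ CD ht dl cd L w1 ∧ H < k + s) then LW Λ L else 0) with hSR
  have e1 : WinK Λ ht dl cd n α β w = ∑' L : List B, (if a ≤ HT ht L then LW Λ L * f L else 0) := by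
    rw [WinK]
    refine tsum_congr fun L => ?_
    by_cases h : HT ht L = n ∧ (∀ k ∈ CD ht dl cd L w, α < k) ∧ (∃ k ∈ CD ht dl cd L w, k ≤ β)
    · rw [if_pos h, if_pos (by omega), hf]
      simp only
      rw [if_pos h, mul_one]
    · rw [if_neg h, hf]
      simp only
      rw [if_neg h, mul_zero, ite_self]
  rw [e1, split Λ ht h1 a f]
  have key : ∀ L1 : List B, (if fp ht a L1 then LW Λ L1 * ∑' L2, LW Λ L2 * f (L1 ++ L2) else 0)
      ≤ ((if fp ht a L1 ∧ a + i0 < HT ht L1 then LW Λ L1 else 0)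
        + (if fp ht a L1 then LW Λ L1 else 0) * τ)
        + c⁻¹ * ((if fp ht a L1 then LW Λ L1 * PH Λ ht dl cd s H (act dl L1 w) else 0)
          + (if fp ht a L1 ∧ HT ht L1 ≤ a + i0 then LW Λ L1 * SR (act dl L1 w) else 0)) := by
    intro L1
    by_cases hL : fp ht a L1
    · simp only [hL, true_and, if_true]
      by_cases hi : HT ht L1 ≤ a + i0
      · have hno : ¬ (a + i0 < HT ht L1) := by omega
        rw [if_neg hno, if_pos hi, zero_add]
        have hle := le_HT_of_fp ht hL
        have := inner_piece Λ ht dl cd h1 hcd hΛ hU1 c hc hct hU H i0 s α β n (HT ht L1)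
          (by omega) (by omega) hH (by omega) (act dl L1 w)
        calc LW Λ L1 * ∑' L2, LW Λ L2 * f (L1 ++ L2)
            ≤ LW Λ L1 * (τ + c⁻¹ * (PH Λ ht dl cd s H (act dl L1 w) + SR (act dl L1 w))) := by
              refine mul_le_mul_right (le_trans (ENNReal.tsum_le_tsum fun L2 => ?_) this) _
              refine mul_le_mul_right ?_ _
              rw [hf]
              simp only
              by_cases h : HT ht (L1 ++ L2) = n ∧ (∀ k ∈ CD ht dl cd (L1 ++ L2) w, α < k) ∧
                (∃ k ∈ CD ht dl cd (L1 ++ L2) w, k ≤ β)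
              · rw [if_pos h, if_pos]
                obtain ⟨g1, g2, k0, hk0, hk0'⟩ := h
                rw [CD_append] at g2 hk0
                refine ⟨by rw [HT_append] at g1; exact g1, fun k hk => ?_, ?_⟩
                · exact g2 _ (Or.inr ⟨k, hk, rfl⟩)
                · rcases hk0 with h | ⟨k', hk', rfl⟩
                  · exfalso
                    have h3 := (CD_pos ht dl cd hcd _ _ _ h).2
                    have h4 := g2 k0 (Or.inl h)
                    omega
                  · exact ⟨k', hk', hk0'⟩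
              · rw [if_neg h]; exact zero_le
          _ = LW Λ L1 * τ + c⁻¹ * (LW Λ L1 * PH Λ ht dl cd s H (act dl L1 w)
                + LW Λ L1 * SR (act dl L1 w)) := by ring
      · have hno : a + i0 < HT ht L1 := by omega
        rw [if_pos hno, if_neg hi]
        refine le_trans ?_ (le_self_add.trans le_self_add)
        calc LW Λ L1 * _ ≤ LW Λ L1 * 1 := by
              refine mul_le_mul_right ?_ _
              refine le_trans (ENNReal.tsum_le_tsum fun R => ?_)
                (tsum_height_le Λ ht hU1 (HT ht L1) n (fun _ => True))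
              refine mul_le_mul_right ?_ _
              rw [hf]
              simp only
              by_cases h : HT ht (L1 ++ R) = n
              · have h' : HT ht L1 + HT ht R = n := by rw [HT_append] at h; omega
                rw [if_pos (⟨h', trivial⟩ : HT ht L1 + HT ht R = n ∧ True)]
                split_ifs <;> simp
              · rw [if_neg (fun h' => h h'.1)]; exact zero_le
          _ = LW Λ L1 := mul_one _
    · simp [hL]
  refine (ENNReal.tsum_le_tsum key).trans ?_
  rw [ENNReal.tsum_add, ENNReal.tsum_add, ENNReal.tsum_mul_right, ENNReal.tsum_mul_left,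
    ENNReal.tsum_add]
  have h2 : ∑' L1 : List B, (if fp ht a L1 ∧ HT ht L1 ≤ a + i0 then LW Λ L1 * SR (act dl L1 w)
      else 0) ≤ ∑ i ∈ Finset.range (i0 + 1), SLB Λ ht dl cd s (a + i + H) w := by
    calc ∑' L1 : List B, (if fp ht a L1 ∧ HT ht L1 ≤ a + i0 then LW Λ L1 * SR (act dl L1 w)
          else 0)
        ≤ ∑' L1 : List B, ∑ i ∈ Finset.range (i0 + 1), (if fp ht a L1 ∧ HT ht L1 = a + i then
            LW Λ L1 * SR (act dl L1 w) else 0) := by
          refine ENNReal.tsum_le_tsum fun L1 => ?_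
          by_cases h : fp ht a L1 ∧ HT ht L1 ≤ a + i0
          · rw [if_pos h]
            have hle := le_HT_of_fp ht h.1
            refine le_trans (le_of_eq ?_) (Finset.single_le_sum (f := fun i =>
              (if fp ht a L1 ∧ HT ht L1 = a + i then LW Λ L1 * SR (act dl L1 w) else 0))
              (fun _ _ => zero_le) (Finset.mem_range.2 (by omega : HT ht L1 - a < i0 + 1)))
            rw [if_pos ⟨h.1, by omega⟩]
          · rw [if_neg h]; exact zero_le
      _ = ∑ i ∈ Finset.range (i0 + 1), ∑' L1 : List B, (if fp ht a L1 ∧ HT ht L1 = a + i then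
            LW Λ L1 * SR (act dl L1 w) else 0) :=
          Summable.tsum_finsetSum (fun _ _ => ENNReal.summable)
      _ ≤ _ := by
          refine Finset.sum_le_sum fun i _ => ?_
          set f' : List B → ℝ≥0∞ := fun L => (if HT ht L = a + i + H ∧
            (∃ k, k ∈ CD ht dl cd L w ∧ a + i + H < k + s) then (1 : ℝ≥0∞) else 0) with hf'
          have e2 : SLB Λ ht dl cd s (a + i + H) w
              = ∑' L : List B, (if a ≤ HT ht L then LW Λ L * f' L else 0) := by
            rw [SLB]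
            refine tsum_congr fun L => ?_
            by_cases h : HT ht L = a + i + H ∧ (∃ k, k ∈ CD ht dl cd L w ∧ a + i + H < k + s)
            · rw [if_pos h, if_pos (by omega), hf']
              simp only
              rw [if_pos h, mul_one]
            · rw [if_neg h, hf']
              simp only
              rw [if_neg h, mul_zero, ite_self]
          rw [e2, split Λ ht h1 a f']
          refine ENNReal.tsum_le_tsum fun L1 => ?_
          by_cases h : fp ht a L1 ∧ HT ht L1 = a + i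
          · rw [if_pos h, if_pos h.1]
            refine mul_le_mul_right ?_ _
            rw [hSR]
            simp only
            refine ENNReal.tsum_le_tsum fun L2 => ?_
            by_cases h3 : HT ht L2 = H ∧ (∃ k, k ∈ CD ht dl cd L2 (act dl L1 w) ∧ H < k + s)
            · rw [if_pos h3, hf']
              simp only
              rw [if_pos, mul_one]
              obtain ⟨g1, k, hk, hks⟩ := h3
              refine ⟨by rw [HT_append]; omega, HT ht L1 + k, ?_, by omega⟩
              rw [CD_append]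
              exact Or.inr ⟨k, hk, rfl⟩
            · rw [if_neg h3]; exact zero_le
          · rw [if_neg h]; exact zero_le
  calc _ ≤ (τ + 1 * τ) + c⁻¹ * (_ + _) := by
        refine add_le_add (add_le_add (overshoot Λ ht h1 hU1 i0 a)
          (mul_le_mul_left (sum_FP Λ ht h1 hΛ.le a) _)) (mul_le_mul_right (add_le_add le_rfl h2) _)
    _ = _ := by ring

open Classical in
/-- the pieces, summed over the tops: good tops through the one-piece bound, bad tops by mass. -/
theorem piece_sum (h1 : ∀ b, 1 ≤ ht b) (hΛ : ∑' b, Λ b = 1) (hU1 : ∀ n, U Λ ht n ≤ 1)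
    (hinj : ∀ b, Function.Injective (dl b)) (s H i0 J a : ℕ) (hJ : J * (H + i0) ≤ a)
    (X Y : Set (List B)) (hX : ∀ L ∈ X, HT ht L = H) (hY : ∀ L ∈ Y, HT ht L = H)
    (q thX thY ρ : ℝ≥0∞) (hq0 : q ≠ 0) (hq1 : q ≤ 1)
    (hqX : q ≤ ∑' L : List B, if L ∈ X then LW Λ L else 0)
    (hqY : q ≤ ∑' L : List B, if L ∈ Y then LW Λ L else 0)
    (hthX : ∀ w w', ∑' L : List B, (if L ∈ X ∧ act dl L w = w' then LW Λ L else 0) ≤ thX)
    (hthY : ∀ w w', ∑' L : List B, (if L ∈ Y ∧ act dl L w = w' then LW Λ L else 0) ≤ thY)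
    (hρ : ∀ ν : W → ℝ≥0∞, ∑' w, ν w ≤ 1 → (∀ w, ν w ≤ thX / q) → (∀ w, ν w ≤ thY / q) →
      ∑' w, ν w * PH Λ ht dl cd s H w ≤ ρ) (w : W) :
    ∑' L1 : List B, (if fp ht a L1 then LW Λ L1 * PH Λ ht dl cd s H (act dl L1 w) else 0)
      ≤ ρ + 2 * ((1 - q) ^ J + J * ∑' k, tail Λ ht (i0 + k)) := by
  set bad := (1 - q) ^ J + J * ∑' k, tail Λ ht (i0 + k) with hbad
  set μ : List B → ℝ≥0∞ := fun L => (if fp ht a L then LW Λ L *
    (if Good ht H i0 X J L ∧ Good ht H i0 Y J L then 1 else 0) else 0) with hμ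
  have hbX := bad_mass Λ ht h1 hΛ hU1 H X hX q hq1 hqX i0 J a hJ
  have hbY := bad_mass Λ ht h1 hΛ hU1 H Y hY q hq1 hqY i0 J a hJ
  have hdX := dens_good Λ ht dl h1 hΛ hinj H X hX q thX hq0 hq1 hqX hthX i0 J a hJ w
  have hdY := dens_good Λ ht dl h1 hΛ hinj H Y hY q thY hq0 hq1 hqY hthY i0 J a hJ w
  have key : ∀ L1 : List B, (if fp ht a L1 then LW Λ L1 * PH Λ ht dl cd s H (act dl L1 w) else 0)
      ≤ μ L1 * PH Λ ht dl cd s H (act dl L1 w)
        + ((if fp ht a L1 then LW Λ L1 * (if Good ht H i0 X J L1 then 0 else 1) else 0)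
          + (if fp ht a L1 then LW Λ L1 * (if Good ht H i0 Y J L1 then 0 else 1) else 0)) := by
    intro L1
    have hP := PH_le_one Λ ht dl cd hU1 s H (act dl L1 w)
    rw [hμ]
    simp only
    by_cases hL : fp ht a L1
    · simp only [if_pos hL]
      by_cases gX : Good ht H i0 X J L1
      · by_cases gY : Good ht H i0 Y J L1
        · simp [gX, gY]
        · simp only [gX, gY, and_false, if_false, if_true, mul_zero, zero_mul, zero_add, mul_one]
          calc _ ≤ LW Λ L1 * 1 := mul_le_mul_right hP _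
            _ = _ := mul_one _
      · simp only [gX, false_and, if_false, mul_zero, zero_mul, zero_add, mul_one]
        refine le_trans ?_ le_self_add
        calc _ ≤ LW Λ L1 * 1 := mul_le_mul_right hP _
          _ = _ := mul_one _
    · simp [hL]
  refine (ENNReal.tsum_le_tsum key).trans ?_
  rw [ENNReal.tsum_add, ENNReal.tsum_add]
  have hmain : ∑' L1 : List B, μ L1 * PH Λ ht dl cd s H (act dl L1 w) ≤ ρ := by
    have hν := hρ (fun w' => ∑' L1 : List B, (if act dl L1 w = w' then μ L1 else 0)) ?_ ?_ ?_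
    · refine le_trans (le_of_eq ?_) hν
      simp_rw [← ENNReal.tsum_mul_right]
      rw [ENNReal.tsum_comm]
      refine tsum_congr fun L1 => ?_
      rw [tsum_eq_single (act dl L1 w)]
      · rw [if_pos rfl]
      · intro w' hw'
        rw [if_neg (Ne.symm hw'), zero_mul]
    · rw [ENNReal.tsum_comm]
      refine le_trans (ENNReal.tsum_le_tsum fun L1 => ?_) (sum_FP Λ ht h1 hΛ.le a)
      rw [tsum_eq_single (act dl L1 w)]
      · rw [if_pos rfl, hμ]
        simp only
        split_ifs <;> simp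
      · intro w' hw'
        rw [if_neg (Ne.symm hw')]
    · intro w'
      refine le_trans (ENNReal.tsum_le_tsum fun L1 => ?_) (hdX w')
      rw [hμ]
      simp only
      by_cases h1' : act dl L1 w = w'
      · by_cases h2' : Good ht H i0 X J L1
        · simp only [h1', h2', if_true, true_and, and_true]
          split_ifs <;> simp
        · simp [h2']
      · simp [h1']
    · intro w'
      refine le_trans (ENNReal.tsum_le_tsum fun L1 => ?_) (hdY w')
      rw [hμ]
      simp only
      by_cases h1' : act dl L1 w = w'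
      · by_cases h2' : Good ht H i0 Y J L1
        · simp only [h1', h2', if_true, true_and, and_true]
          split_ifs <;> simp
        · simp [h2']
      · simp [h1']
  calc _ ≤ ρ + (bad + bad) := add_le_add hmain (add_le_add hbX hbY)
    _ = _ := by ring


/-! ### the sum over the windows and the choice of the constants -/

open Classical in
lemma kap_windows (K t n m : ℕ) (hKt : m ≤ K * t) (ht0 : 1 ≤ t) (w : W) :
    Kap1 Λ ht dl cd n m w
      ≤ ∑ j ∈ Finset.range K, WinK Λ ht dl cd n (m + j * t) (m + j * t + t) w := by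
  simp only [Kap1, WinK]
  rw [← Summable.tsum_finsetSum (fun _ _ => ENNReal.summable)]
  refine ENNReal.tsum_le_tsum fun L => ?_
  by_cases h : HT ht L = n ∧ (∀ k ∈ CD ht dl cd L w, m < k) ∧ ∃ k ∈ CD ht dl cd L w, k ≤ 2 * m
  · rw [if_pos h]
    obtain ⟨hn, hm, k1, hk1, hk1'⟩ := h
    have hex : ∃ k, k ∈ CD ht dl cd L w := ⟨k1, hk1⟩
    set k0 := Nat.find hex with hk0
    have hk0m : k0 ∈ CD ht dl cd L w := Nat.find_spec hex
    have hk0le : ∀ k ∈ CD ht dl cd L w, k0 ≤ k := fun k hk => Nat.find_min' hex hk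
    have h1 := hm k0 hk0m
    have h2 := hk0le k1 hk1
    set j := (k0 - m - 1) / t with hj
    have hj1 : j * t ≤ k0 - m - 1 := Nat.div_mul_le_self _ _
    have hj2 : k0 - m - 1 < (j + 1) * t := by
      have := Nat.lt_succ_iff.2 (le_refl j)
      exact (Nat.div_lt_iff_lt_mul (by omega)).1 (by rw [← hj]; exact this)
    have hjK : j < K := by
      rw [hj]
      refine (Nat.div_lt_iff_lt_mul (by omega)).2 ?_
      omega
    have hj3 : (j + 1) * t = j * t + t := by ring
    refine le_trans (le_of_eq ?_) (Finset.single_le_sum (f := fun j =>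
      (if HT ht L = n ∧ (∀ k ∈ CD ht dl cd L w, m + j * t < k) ∧
        (∃ k ∈ CD ht dl cd L w, k ≤ m + j * t + t) then LW Λ L else 0))
      (fun _ _ => zero_le) (Finset.mem_range.2 hjK))
    rw [if_pos]
    refine ⟨hn, fun k hk => ?_, k0, hk0m, by omega⟩
    have := hk0le k hk
    omega
  · rw [if_neg h]; exact zero_le

lemma exists_small (A : ℝ≥0∞) (hA : A ≠ ⊤) (δ : ℝ≥0∞) (hδ : δ ≠ 0) :
    ∃ x : ℝ≥0∞, x ≠ 0 ∧ x ≠ ⊤ ∧ A * x ≤ δ := by
  rcases eq_or_ne δ ⊤ with h | h
  · exact ⟨1, one_ne_zero, ENNReal.one_ne_top, by rw [h]; exact le_top⟩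
  · have hA1 : A + 1 ≠ ⊤ := by finiteness
    have hA0 : A + 1 ≠ 0 := by simp
    refine ⟨δ / (A + 1), (ENNReal.div_pos hδ hA1).ne', (ENNReal.div_lt_top h hA0).ne, ?_⟩
    calc A * (δ / (A + 1)) ≤ (A + 1) * (δ / (A + 1)) := mul_le_mul_left le_self_add _
      _ = δ := ENNReal.mul_div_cancel hA0 hA1

open Classical in
/-- **The assembly.**  One-piece bound at every exact height `H` + thin slab `⟹` `Kap1 → 0`. -/
theorem hK_of (h1 : ∀ b, 1 ≤ ht b) (hcd : ∀ w b k, k ∈ cd w b → 1 ≤ k ∧ k ≤ ht b)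
    (hinj : ∀ b, Function.Injective (dl b)) (c : ℝ≥0∞) (hc : c ≠ 0)
    (hU : ∀ n, c ≤ U Λ ht n) (hU1 : ∀ n, U Λ ht n ≤ 1)
    (hSlab : ∀ s : ℕ, ∀ ε : ℝ≥0∞, ε ≠ 0 → ∃ D0 : ℕ, ∀ δ, D0 ≤ δ → ∀ w,
      SLB Λ ht dl cd s δ w ≤ ε)
    (C : ℝ≥0∞) (hC : C ≠ ⊤) (us : ℕ → ℝ≥0∞) (hus : Filter.Tendsto us Filter.atTop (nhds 0))
    (hOne : ∀ u : ℝ≥0∞, u ≠ 0 → u ≤ c → ∀ H : ℕ, 1 ≤ H → ∃ (thX thY : ℝ≥0∞) (X Y : Set (List B)),
      (∀ L ∈ X, HT ht L = H) ∧ (∀ L ∈ Y, HT ht L = H) ∧
      (c * u ≤ ∑' L : List B, if L ∈ X then LW Λ L else 0) ∧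
      (c * u ≤ ∑' L : List B, if L ∈ Y then LW Λ L else 0) ∧
      (∀ w w', ∑' L : List B, (if L ∈ X ∧ act dl L w = w' then LW Λ L else 0) ≤ thX) ∧
      (∀ w w', ∑' L : List B, (if L ∈ Y ∧ act dl L w = w' then LW Λ L else 0) ≤ thY) ∧
      (∀ (s : ℕ) (lam : ℝ≥0∞) (ν : W → ℝ≥0∞), lam ≠ 0 → lam ≠ ⊤ → ∑' w, ν w ≤ 1 →
        (∀ w, ν w ≤ thX / (c * u)) → (∀ w, ν w ≤ thY / (c * u)) →
        ∑' w, ν w * PH Λ ht dl cd s H w ≤ u ^ 2 + C * (lam + us s / (c * u) / lam))) :
    ∀ ε : ℝ≥0∞, ε ≠ 0 → ∃ M : ℕ, ∀ m, M ≤ m → ∃ n0 : ℕ, ∀ n, n0 ≤ n → ∀ w,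
      Kap1 Λ ht dl cd n m w ≤ ε := by
  have hcle : c ≤ 1 := (hU 0).trans (hU1 0)
  have hct : c ≠ ⊤ := ne_top_of_le_ne_top ENNReal.one_ne_top hcle
  have hcinv : c⁻¹ ≠ ⊤ := ENNReal.inv_ne_top.2 hc
  have hΛ : ∑' b, Λ b = 1 :=
    le_antisymm (mass_le_one Λ ht h1 hU1) (mass_ge_one Λ ht c hc 0 (fun n _ => hU n))
  have hmean : ∑' k, tail Λ ht k ≠ ⊤ := by
    rw [← sum_tail Λ ht hΛ]
    exact ne_top_of_le_ne_top hcinv (mean_le Λ ht h1 hΛ c hc hct 0 (fun n _ => hU n))
  have hτ0 : Filter.Tendsto (fun i0 : ℕ => ∑' k, tail Λ ht (i0 + k)) Filter.atTop (nhds 0) := by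
    have := ENNReal.tendsto_sum_nat_add (fun k => tail Λ ht k) hmean
    refine this.congr fun i => tsum_congr fun k => by rw [add_comm]
  intro ε hε
  have hε6 : ε / 6 ≠ 0 := by simp [hε]
  -- `K`, `u`
  obtain ⟨e1, he10, he1t, he1⟩ := exists_small (10 * (c⁻¹ ^ 3 + 2 * c⁻¹)) (by finiteness) (ε / 6) hε6
  obtain ⟨K, v, hK, hv0, hv1, hKv⟩ := Num869.choose_Ku (min e1 ((c ^ 2) ^ 2)) (by
    have : (c ^ 2) ^ 2 ≠ 0 := by positivity
    exact (lt_min (pos_iff_ne_zero.2 he10) (pos_iff_ne_zero.2 this)).ne')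
  have hvt : v ≠ ⊤ := ne_top_of_le_ne_top ENNReal.one_ne_top hv1
  have hK1 : (1 : ℝ≥0∞) ≤ K := by exact_mod_cast hK
  have hv2 : 2 * v ≤ c ^ 2 := by
    have h2 : (2 * v) ^ 2 ≤ (c ^ 2) ^ 2 := by
      calc (2 * v) ^ 2 ≤ (2 * v) ^ 2 + (1 - v / 2) ^ K := le_self_add
        _ ≤ K * ((2 * v) ^ 2 + (1 - v / 2) ^ K) := le_mul_of_one_le_left zero_le hK1
        _ ≤ _ := hKv.trans (min_le_right _ _)
    exact (ENNReal.pow_le_pow_left_iff (two_ne_zero)).1 h2
  have hvh : v / 2 ≤ 2 * v := by
    calc v / 2 ≤ v := ENNReal.half_le_self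
      _ ≤ 2 * v := le_mul_of_one_le_left zero_le one_le_two
  set u : ℝ≥0∞ := v / 2 / c with hu
  have hcu : c * u = v / 2 := ENNReal.mul_div_cancel hc hct
  have hu0 : u ≠ 0 := (ENNReal.div_pos (ENNReal.div_pos hv0 (by norm_num)).ne' hct).ne'
  have huc : u ≤ c := by
    rw [hu, ENNReal.div_le_iff hc hct, ← sq]
    exact hvh.trans hv2
  have hq0 : c * u ≠ 0 := mul_ne_zero hc hu0
  have hq1 : c * u ≤ 1 := by
    rw [hcu]; exact ENNReal.half_le_self.trans hv1
  have hqt : c * u ≠ ⊤ := ne_top_of_le_ne_top ENNReal.one_ne_top hq1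
  set K' : ℕ := 8 * K + 2 with hK'
  have hK't : (K' : ℝ≥0∞) ≠ ⊤ := ENNReal.natCast_ne_top _
  have hK10 : (K' : ℝ≥0∞) ≤ 10 * K := by
    have : K' ≤ 10 * K := by omega
    exact_mod_cast this
  have T1 : (K' : ℝ≥0∞) * c⁻¹ * (u ^ 2 + 2 * (1 - c * u) ^ K) ≤ ε / 6 := by
    have hu2 : u ^ 2 ≤ c⁻¹ ^ 2 * (2 * v) ^ 2 := by
      rw [hu, div_eq_mul_inv (v / 2) c, mul_pow, mul_comm]
      gcongr
    calc (K' : ℝ≥0∞) * c⁻¹ * (u ^ 2 + 2 * (1 - c * u) ^ K)
        ≤ (10 * K) * c⁻¹ * (c⁻¹ ^ 2 * (2 * v) ^ 2 + 2 * (1 - v / 2) ^ K) := by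
          rw [hcu]; gcongr
      _ = 10 * (c⁻¹ ^ 3 * (K * (2 * v) ^ 2) + 2 * c⁻¹ * (K * (1 - v / 2) ^ K)) := by ring
      _ ≤ 10 * ((c⁻¹ ^ 3 + 2 * c⁻¹) * (K * ((2 * v) ^ 2 + (1 - v / 2) ^ K))) := by
          rw [add_mul]
          gcongr
          · exact le_self_add
          · exact le_add_self
      _ ≤ 10 * ((c⁻¹ ^ 3 + 2 * c⁻¹) * e1) := by
          gcongr
          exact hKv.trans (min_le_left _ _)
      _ = 10 * (c⁻¹ ^ 3 + 2 * c⁻¹) * e1 := by ring
      _ ≤ ε / 6 := he1
  -- `i0`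
  obtain ⟨e2, he20, he2t, he2⟩ := exists_small (2 * K' + 2 * K' * c⁻¹ * K) (by finiteness)
    (ε / 6) hε6
  obtain ⟨i0, hi0⟩ := ((ENNReal.tendsto_nhds_zero.1 hτ0) e2 (pos_iff_ne_zero.2 he20)).exists
  set τ := ∑' k, tail Λ ht (i0 + k) with hτ
  have T2 : (2 * (K' : ℝ≥0∞) + 2 * K' * c⁻¹ * K) * τ ≤ ε / 6 :=
    (mul_le_mul_right hi0 _).trans he2
  -- `lam`
  obtain ⟨lam, hl0, hlt, T3⟩ := exists_small ((K' : ℝ≥0∞) * c⁻¹ * C) (by finiteness) (ε / 6) hε6
  -- `s`
  have hqi : (c * u)⁻¹ ≠ ⊤ := ENNReal.inv_ne_top.2 hq0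
  have hli : lam⁻¹ ≠ ⊤ := ENNReal.inv_ne_top.2 hl0
  obtain ⟨e3, he30, he3t, he3⟩ := exists_small ((K' : ℝ≥0∞) * c⁻¹ * C * (c * u)⁻¹ * lam⁻¹)
    (by finiteness) (ε / 6) hε6
  obtain ⟨s, hs⟩ := ((ENNReal.tendsto_nhds_zero.1 hus) e3 (pos_iff_ne_zero.2 he30)).exists
  have T4 : (K' : ℝ≥0∞) * c⁻¹ * C * (us s / (c * u) / lam) ≤ ε / 6 := by
    calc (K' : ℝ≥0∞) * c⁻¹ * C * (us s / (c * u) / lam)
        = (K' : ℝ≥0∞) * c⁻¹ * C * (c * u)⁻¹ * lam⁻¹ * us s := by
          rw [div_eq_mul_inv, div_eq_mul_inv]; ring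
      _ ≤ _ := (mul_le_mul_right hs _).trans he3
  -- slab
  obtain ⟨e4, he40, he4t, T5⟩ := exists_small ((K' : ℝ≥0∞) * c⁻¹ * (i0 + 1)) (by finiteness)
    (ε / 6) hε6
  obtain ⟨D0, hD0⟩ := hSlab s e4 he40
  refine ⟨K' * (i0 + s + 1) + D0, fun m hm => ?_⟩
  set t : ℕ := m / K' + 1 with htt
  have hK'pos : 0 < K' := by omega
  have hmK : K' * (m / K') ≤ m := Nat.mul_div_le _ _
  have hdiv : i0 + s + 1 ≤ m / K' := by
    rw [Nat.le_div_iff_mul_le hK'pos, mul_comm]
    omega
  have hKt : m ≤ K' * t := by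
    have := Nat.lt_mul_div_succ m hK'pos
    rw [htt]; exact this.le
  have h4 : (4 * K + 1) * t ≤ m := by
    have e : K' * (m / K') = 2 * ((4 * K + 1) * (m / K')) := by rw [hK']; ring
    have e2 : (4 * K + 1) * t = (4 * K + 1) * (m / K') + (4 * K + 1) := by rw [htt]; ring
    have e3 : K' * 1 ≤ m := by
      calc K' * 1 ≤ K' * (i0 + s + 1) := Nat.mul_le_mul_left _ (by omega)
        _ ≤ m := by omega
    omega
  have h5 : K * (4 * t) + t ≤ m := by
    have : (4 * K + 1) * t = K * (4 * t) + t := by ring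
    omega
  refine ⟨m + (K' + 4) * t + i0, fun n hn w => ?_⟩
  refine (kap_windows Λ ht dl cd K' t n m hKt (by omega) w).trans ?_
  obtain ⟨thX, thY, X, Y, hX, hY, hqX, hqY, hthX, hthY, hρ⟩ := hOne u hu0 huc (3 * t) (by omega)
  have hwin : ∀ j ∈ Finset.range K', WinK Λ ht dl cd n (m + j * t) (m + j * t + t) w
      ≤ 2 * τ + c⁻¹ * ((u ^ 2 + C * (lam + us s / (c * u) / lam)
        + 2 * ((1 - c * u) ^ K + K * τ)) + (i0 + 1) * e4) := by
    intro j hj
    have hj' := Finset.mem_range.1 hj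
    have hjt : j * t + t ≤ K' * t := by
      calc j * t + t = (j + 1) * t := by ring
        _ ≤ K' * t := Nat.mul_le_mul_right _ (by omega)
    have hK4 : (K' + 4) * t = K' * t + 4 * t := by ring
    have hJ : K * (3 * t + i0) ≤ m + j * t - t := by
      calc K * (3 * t + i0) ≤ K * (4 * t) := Nat.mul_le_mul_left _ (by omega)
        _ ≤ m + j * t - t := by omega
    have hb := win_bound Λ ht dl cd h1 hcd hΛ hU1 c hc hct hU (3 * t) i0 s (m + j * t - t)
      (m + j * t) (m + j * t + t) n (by omega) (by omega) (by omega) (by omega) w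
    refine hb.trans (add_le_add le_rfl (mul_le_mul_right (add_le_add ?_ ?_) _))
    · exact piece_sum Λ ht dl cd h1 hΛ hU1 hinj s (3 * t) i0 K (m + j * t - t) hJ X Y hX hY
        (c * u) thX thY _ hq0 hq1 hqX hqY hthX hthY (fun ν hν1 hνX hνY =>
          hρ s lam ν hl0 hlt hν1 hνX hνY) w
    · calc ∑ i ∈ Finset.range (i0 + 1), SLB Λ ht dl cd s (m + j * t - t + i + 3 * t) w
          ≤ ∑ _i ∈ Finset.range (i0 + 1), e4 :=
            Finset.sum_le_sum fun i _ => hD0 _ (by omega) w
        _ = (i0 + 1) * e4 := by simp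
  refine (Finset.sum_le_sum hwin).trans ?_
  rw [Finset.sum_const, Finset.card_range, nsmul_eq_mul]
  calc (K' : ℝ≥0∞) * (2 * τ + c⁻¹ * ((u ^ 2 + C * (lam + us s / (c * u) / lam)
        + 2 * ((1 - c * u) ^ K + K * τ)) + (i0 + 1) * e4))
      = (K' : ℝ≥0∞) * c⁻¹ * (u ^ 2 + 2 * (1 - c * u) ^ K)
        + (2 * (K' : ℝ≥0∞) + 2 * K' * c⁻¹ * K) * τ + (K' : ℝ≥0∞) * c⁻¹ * C * lam
        + (K' : ℝ≥0∞) * c⁻¹ * C * (us s / (c * u) / lam)
        + (K' : ℝ≥0∞) * c⁻¹ * (i0 + 1) * e4 := by ring
    _ ≤ ε / 6 + ε / 6 + ε / 6 + ε / 6 + ε / 6 := by gcongr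
    _ ≤ ε / 6 + ε / 6 + ε / 6 + ε / 6 + ε / 6 + ε / 6 := le_self_add
    _ = 6 * (ε / 6) := by ring
    _ = ε := ENNReal.mul_div_cancel (by norm_num) (by norm_num)

end Crest.Agent.R154.Joint38
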