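import Crest.Agent.R154.RatioA_872

/-! Row 154 (helper582): any law, any height: the cost of a natural climb is submultiplicative
(stop at the LEVEL where the mass drops), first moment step, exponential rate.
Abstract kernel system. -/

set_option autoImplicit false
set_option linter.unusedSectionVars false
set_option linter.deprecated false

namespace Crest.Agent.R154.Rate582

open MeasureTheory ProbabilityTheory Set Filter
open Crest.Agent.R154.RatioR872 Crest.Agent.R154.RatioR872.KerSys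
open scoped ENNReal

variable {S : Type*} [Countable S] {Ω : Type*} {m0 : MeasurableSpace Ω} {P : Measure Ω}

/-- the bad event: the relative mass of the climb of `n` levels is at most `ε` -/
def Bad (A : KerSys S P) (a n : ℕ) (w : Ω → S → ℝ≥0∞) (ε : ℝ≥0∞) : Set Ω :=
  {ω | tot w ω ≠ 0 ∧ tot (A.push a (a + n) w) ω ≤ ε * tot w ω}

/-- from ANY law at ANY level, given the past: climbing `n` levels keeps at most the fraction `ε`
of the mass with conditional probability at most `q`. -/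
def TL (A : KerSys S P) (n : ℕ) (ε q : ℝ≥0∞) : Prop :=
  ∀ (a : ℕ) (w : Ω → S → ℝ≥0∞), A.Wt a w → (∀ ω, tot w ω ≤ 1) →
    ∀ B, MeasurableSet[A.F a] B → P (B ∩ Bad A a n w ε) ≤ q * P B

variable {A : KerSys S P}

lemma N_anti {a b c : ℕ} (hab : a ≤ b) (hbc : b ≤ c) (ω : Ω) (x : S) :
    A.N a c ω x ≤ A.N a b ω x := A.anti a b c ω x hab hbc

lemma tot_anti {a b c : ℕ} (hab : a ≤ b) (hbc : b ≤ c) (w : Ω → S → ℝ≥0∞) (ω : Ω) :
    tot (A.push a c w) ω ≤ tot (A.push a b w) ω := by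
  rw [tot_push, tot_push]
  exact ENNReal.tsum_le_tsum fun x => by gcongr; exact N_anti hab hbc ω x

lemma TL.mono {n n' : ℕ} {ε ε' q q' : ℝ≥0∞} (h : TL A n ε q) (hn : n' ≤ n) (hε : ε' ≤ ε)
    (hq : q ≤ q') : TL A n' ε' q' := by
  intro a w hw hw1 B hB
  refine le_trans (measure_mono ?_) ((h a w hw hw1 B hB).trans (by gcongr))
  rintro ω ⟨h1, h2, h3⟩
  refine ⟨h1, h2, ?_⟩
  calc tot (A.push a (a + n) w) ω ≤ tot (A.push a (a + n') w) ω :=
        tot_anti (by omega) (by omega) w ω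
    _ ≤ ε' * tot w ω := h3
    _ ≤ ε * tot w ω := by gcongr

/-- composition of masses -/
lemma tot_comp {a b c : ℕ} (hab : a ≤ b) (hbc : b ≤ c) (w : Ω → S → ℝ≥0∞) :
    ∀ᵐ ω ∂P, tot (A.push b c (A.push a b w)) ω ≤ tot (A.push a c w) ω := by
  filter_upwards [A.comp a b c hab hbc] with ω hω
  rw [tot_push, tot_push]
  calc ∑' y, A.push a b w ω y * A.N b c ω y
      = ∑' y, ∑' z, A.push a b w ω y * A.G b c ω y z := by
        refine tsum_congr fun y => ?_
        rw [ENNReal.tsum_mul_left]; rfl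
    _ = ∑' y, ∑' z, ∑' x, w ω x * (A.G a b ω x y * A.G b c ω y z) := by
        refine tsum_congr fun y => tsum_congr fun z => ?_
        unfold KerSys.push
        rw [← ENNReal.tsum_mul_right]
        exact tsum_congr fun x => by ring
    _ = ∑' x, ∑' z, ∑' y, w ω x * (A.G a b ω x y * A.G b c ω y z) := by
        calc _ = ∑' y, ∑' x, ∑' z, w ω x * (A.G a b ω x y * A.G b c ω y z) :=
              tsum_congr fun y => ENNReal.tsum_comm
          _ = ∑' x, ∑' y, ∑' z, w ω x * (A.G a b ω x y * A.G b c ω y z) := ENNReal.tsum_comm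
          _ = _ := tsum_congr fun x => ENNReal.tsum_comm
    _ = ∑' x, w ω x * ∑' z, ∑' y, A.G a b ω x y * A.G b c ω y z := by
        refine tsum_congr fun x => ?_
        rw [← ENNReal.tsum_mul_left]
        refine tsum_congr fun z => ?_
        rw [ENNReal.tsum_mul_left]
    _ ≤ ∑' x, w ω x * A.N a c ω x := by
        refine ENNReal.tsum_le_tsum fun x => ?_
        gcongr
        exact ENNReal.tsum_le_tsum fun z => hω x z

/-- one level costs at most `κ₀` -/
def UE1 (A : KerSys S P) (κ₀ : ℝ≥0∞) : Prop :=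
  ∀ᵐ ω ∂P, ∀ a : ℕ, ∀ x ∈ A.L a, κ₀ ≤ A.N a (a + 1) ω x

lemma one_level {κ₀ : ℝ≥0∞} {a : ℕ} {w : Ω → S → ℝ≥0∞} (hw : A.Wt a w) {ω : Ω}
    (h : ∀ a : ℕ, ∀ x ∈ A.L a, κ₀ ≤ A.N a (a + 1) ω x) :
    κ₀ * tot w ω ≤ tot (A.push a (a + 1) w) ω := by
  rw [tot_push, tot, ← ENNReal.tsum_mul_left]
  refine ENNReal.tsum_le_tsum fun x => ?_
  by_cases hx : x ∈ A.L a
  · rw [mul_comm]
    gcongr
    exact h a x hx
  · rw [hw.supp ω x hx]; simp

lemma meas_tot_push {a b : ℕ} (hab : a ≤ b) {w : Ω → S → ℝ≥0∞} (hw : A.Wt a w) :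
    Measurable[A.F b] fun ω => tot (A.push a b w) ω := (hw.push hab).meas_tot

/-- first level (after `a`) at which the mass is at most `ε` times the initial mass -/
def Dr (A : KerSys S P) (a : ℕ) (w : Ω → S → ℝ≥0∞) (ε : ℝ≥0∞) (j : ℕ) : Set Ω :=
  {ω | tot (A.push a (a + j) w) ω ≤ ε * tot w ω ∧
    ∀ i, 1 ≤ i → i < j → ε * tot w ω < tot (A.push a (a + i) w) ω}

lemma meas_Dr {a : ℕ} {w : Ω → S → ℝ≥0∞} (hw : A.Wt a w) (ε : ℝ≥0∞) (j : ℕ) :
    MeasurableSet[A.F (a + j)] (Dr A a w ε j) := by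
  have h0 : Measurable[A.F (a + j)] fun ω => ε * tot w ω :=
    ((hw.meas_tot).mono (A.F.mono (Nat.le_add_right a j)) le_rfl).const_mul ε
  have h1 : MeasurableSet[A.F (a + j)] {ω | tot (A.push a (a + j) w) ω ≤ ε * tot w ω} :=
    @measurableSet_le _ _ _ _ _ (A.F (a + j)) _ _ _ _ _
      (meas_tot_push (Nat.le_add_right a j) hw) h0
  have h2 : MeasurableSet[A.F (a + j)]
      (⋂ i ∈ {i : ℕ | 1 ≤ i ∧ i < j}, {ω | ε * tot w ω < tot (A.push a (a + i) w) ω}) := by
    refine MeasurableSet.biInter (to_countable _) fun i hi => ?_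
    exact @measurableSet_lt _ _ _ _ _ (A.F (a + j)) _ _ _ _ _ h0
      ((meas_tot_push (Nat.le_add_right a i) hw).mono (A.F.mono (by
        have := hi.2; omega)) le_rfl)
  have h3 : Dr A a w ε j = {ω | tot (A.push a (a + j) w) ω ≤ ε * tot w ω} ∩
      (⋂ i ∈ {i : ℕ | 1 ≤ i ∧ i < j}, {ω | ε * tot w ω < tot (A.push a (a + i) w) ω}) := by
    ext ω
    simp only [Dr, mem_setOf_eq, mem_inter_iff, mem_iInter]
    exact and_congr_right fun _ => ⟨fun h i hi => h i hi.1 hi.2, fun h i h1 h2 => h i ⟨h1, h2⟩⟩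
  rw [h3]
  exact MeasurableSet.inter h1 h2

lemma disj_Dr {a : ℕ} {w : Ω → S → ℝ≥0∞} {ε : ℝ≥0∞} {i j : ℕ} (hi : 1 ≤ i) (hij : i < j) :
    Disjoint (Dr A a w ε i) (Dr A a w ε j) := by
  rw [Set.disjoint_left]
  rintro ω ⟨h1, _⟩ ⟨_, h2⟩
  exact absurd (h2 i hi hij) (not_lt.2 h1)

/-- **submultiplicativity**: `T (x + y + c) ≤ T x * T y`. -/
theorem TL.mul {n : ℕ} (hn : 1 ≤ n) {κ₀ ε₁ ε₂ q₁ q₂ : ℝ≥0∞} (hue : UE1 A κ₀) (hκ : κ₀ ≠ 0)
    (hε0 : ε₁ ≠ 0) (hε1 : ε₁ ≤ 1) (hε2 : ε₂ < 1) (h1 : TL A n ε₁ q₁) (h2 : TL A n ε₂ q₂) :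
    TL A n (ε₁ * κ₀ * ε₂) (q₁ * q₂) := by
  classical
  intro a w hw hw1 B hB
  set s : ℕ → Ω → ℝ≥0∞ := fun j ω => tot (A.push a (a + j) w) ω with hs
  have hcomp : ∀ᵐ ω ∂P, ∀ j : ℕ, j ≤ n →
      tot (A.push (a + j) (a + n) (A.push a (a + j) w)) ω ≤ s n ω := by
    rw [ae_all_iff]
    intro j
    by_cases hj : j ≤ n
    · filter_upwards [tot_comp (A := A) (Nat.le_add_right a j)
        (show a + j ≤ a + n by omega) w] with ω h _ using h
    · exact Eventually.of_forall fun ω h => absurd h hj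
  have hstep : ∀ᵐ ω ∂P, ∀ j : ℕ,
      tot (A.push (a + j) (a + j + 1) (A.push a (a + j) w)) ω ≤ s (j + 1) ω := by
    rw [ae_all_iff]
    intro j
    exact tot_comp (A := A) (Nat.le_add_right a j) (Nat.le_succ _) w
  set D : ℕ → Set Ω := fun j => B ∩ {ω | tot w ω ≠ 0} ∩ Dr A a w ε₁ j with hD
  set C : ℕ → Set Ω := fun j => D j ∩ Bad A (a + j) (n - j) (A.push a (a + j) w) ε₂ with hC
  have hBa : ∀ j, MeasurableSet[A.F (a + j)] (D j) := by
    intro j
    have hle := A.F.mono (Nat.le_add_right a j)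
    refine MeasurableSet.inter (MeasurableSet.inter (hle B hB) ?_) (meas_Dr hw ε₁ j)
    have hm : Measurable[A.F (a + j)] fun ω => tot w ω := (hw.meas_tot).mono hle le_rfl
    exact (hm (measurableSet_singleton (0 : ℝ≥0∞))).compl
  -- cover
  have hcov : ∀ᵐ ω ∂P, ω ∈ B ∩ Bad A a n w (ε₁ * κ₀ * ε₂) → ω ∈ ⋃ j ∈ Finset.Ico 1 n, C j := by
    filter_upwards [hcomp, hstep, hue] with ω hc hst hu
    rintro ⟨hωB, hω0, hω1⟩
    have ht0 : tot w ω ≠ ∞ := ne_top_of_le_ne_top ENNReal.one_ne_top (hw1 ω)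
    have hpos : 0 < ε₁ * κ₀ * tot w ω :=
      pos_iff_ne_zero.2 (mul_ne_zero (mul_ne_zero hε0 hκ) hω0)
    have hκtop : κ₀ ≠ ∞ := by
      intro hk
      obtain ⟨x, hx⟩ : ∃ x, w ω x ≠ 0 := by
        by_contra hcon
        push Not at hcon
        exact hω0 (by unfold tot; simp [hcon])
      have hxL : x ∈ A.L a := by
        by_contra hcon
        exact hx (hw.supp ω x hcon)
      have := hu a x hxL
      rw [hk] at this
      exact absurd (this.trans (A.N_le_one (Nat.le_succ a) ω x)) (by simp)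
    -- lower bound one step after a level where the mass is larger than ε₁ tot
    have hlow : ∀ j, 1 ≤ j → (∀ i, 1 ≤ i → i < j → ε₁ * tot w ω < s i ω) →
        ε₁ * κ₀ * tot w ω ≤ s j ω := by
      intro j hj hi
      rcases Nat.eq_or_lt_of_le hj with hj1 | hj1
      · subst hj1
        calc ε₁ * κ₀ * tot w ω ≤ 1 * κ₀ * tot w ω := by gcongr
          _ = κ₀ * tot w ω := by rw [one_mul]
          _ ≤ s 1 ω := one_level hw hu
      · obtain ⟨i, rfl⟩ : ∃ i, j = i + 1 := ⟨j - 1, by omega⟩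
        have h3 := hi i (by omega) (by omega)
        calc ε₁ * κ₀ * tot w ω = κ₀ * (ε₁ * tot w ω) := by ring
          _ ≤ κ₀ * s i ω := by gcongr
          _ ≤ tot (A.push (a + i) (a + i + 1) (A.push a (a + i) w)) ω :=
              one_level (hw.push (Nat.le_add_right a i)) hu
          _ ≤ s (i + 1) ω := hst i
    -- the strict inequality against the bad event
    have hbad : s n ω ≤ ε₁ * κ₀ * ε₂ * tot w ω := hω1
    have hlt : ε₁ * κ₀ * ε₂ * tot w ω < ε₁ * κ₀ * tot w ω := by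
      have e1 : ε₁ * κ₀ * ε₂ * tot w ω = (ε₁ * κ₀ * tot w ω) * ε₂ := by ring
      rw [e1]
      have hfin : ε₁ * κ₀ * tot w ω ≠ ∞ :=
        ENNReal.mul_ne_top (ENNReal.mul_ne_top (ne_top_of_le_ne_top ENNReal.one_ne_top hε1)
          hκtop) ht0
      calc (ε₁ * κ₀ * tot w ω) * ε₂ < (ε₁ * κ₀ * tot w ω) * 1 :=
            (ENNReal.mul_lt_mul_iff_right hpos.ne' hfin).2 hε2
        _ = _ := mul_one _
    have hex : ∃ j, 1 ≤ j ∧ j ≤ n ∧ s j ω ≤ ε₁ * tot w ω := by
      refine ⟨n, hn, le_rfl, hbad.trans (hlt.le.trans ?_)⟩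
      have hκ1 : κ₀ ≤ 1 := by
        obtain ⟨x, hx⟩ : ∃ x, w ω x ≠ 0 := by
          by_contra hcon
          push Not at hcon
          exact hω0 (by unfold tot; simp [hcon])
        have hxL : x ∈ A.L a := by
          by_contra hcon
          exact hx (hw.supp ω x hcon)
        exact (hu a x hxL).trans (A.N_le_one (Nat.le_succ a) ω x)
      calc ε₁ * κ₀ * tot w ω ≤ ε₁ * 1 * tot w ω := by gcongr
        _ = ε₁ * tot w ω := by rw [mul_one]
    set j := Nat.find hex with hj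
    obtain ⟨j1, jn, js⟩ := Nat.find_spec hex
    have hmin : ∀ i, 1 ≤ i → i < j → ε₁ * tot w ω < s i ω := by
      intro i hi1 hij
      by_contra hcon
      push Not at hcon
      exact Nat.find_min hex hij ⟨hi1, by omega, hcon⟩
    have hlj := hlow j j1 hmin
    have hjn : j < n := by
      rcases Nat.lt_or_ge j n with h | h
      · exact h
      · exfalso
        have : j = n := le_antisymm jn h
        rw [this] at hlj
        exact absurd (hlj.trans hbad) (not_le.2 hlt)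
    refine mem_iUnion₂.2 ⟨j, Finset.mem_Ico.2 ⟨j1, hjn⟩, ⟨⟨⟨hωB, hω0⟩, js, hmin⟩, ?_, ?_⟩⟩
    · exact (hpos.trans_le hlj).ne'
    · have e : a + j + (n - j) = a + n := by omega
      rw [e]
      calc tot (A.push (a + j) (a + n) (A.push a (a + j) w)) ω ≤ s n ω := hc j jn
        _ ≤ ε₁ * κ₀ * ε₂ * tot w ω := hbad
        _ = ε₂ * (ε₁ * κ₀ * tot w ω) := by ring
        _ ≤ ε₂ * s j ω := by gcongr
  have hdisj : (↑(Finset.Ico 1 n) : Set ℕ).PairwiseDisjoint D := by
    intro i hi j hj hij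
    have hi1 := (Finset.mem_Ico.1 (Finset.mem_coe.1 hi)).1
    have hj1 := (Finset.mem_Ico.1 (Finset.mem_coe.1 hj)).1
    have key : ∀ i j : ℕ, 1 ≤ i → i < j → Disjoint (D i) (D j) := fun i j h1 h2 =>
      (disj_Dr h1 h2).mono inter_subset_right inter_subset_right
    rcases lt_or_gt_of_ne hij with h | h
    · exact key i j hi1 h
    · exact (key j i hj1 h).symm
  calc P (B ∩ Bad A a n w (ε₁ * κ₀ * ε₂)) ≤ P (⋃ j ∈ Finset.Ico 1 n, C j) :=
        measure_mono_ae hcov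
    _ ≤ ∑ j ∈ Finset.Ico 1 n, P (C j) := measure_biUnion_finset_le _ _
    _ ≤ ∑ j ∈ Finset.Ico 1 n, q₂ * P (D j) := by
        refine Finset.sum_le_sum fun j hj => ?_
        have hj' := Finset.mem_Ico.1 hj
        exact (h2.mono (show n - j ≤ n by omega) le_rfl le_rfl) (a + j) _
          (hw.push (Nat.le_add_right a j))
          (fun ω => (A.tot_push_le (Nat.le_add_right a j) w ω).trans (hw1 ω)) _ (hBa j)
    _ = q₂ * ∑ j ∈ Finset.Ico 1 n, P (D j) := by rw [Finset.mul_sum]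
    _ = q₂ * P (⋃ j ∈ Finset.Ico 1 n, D j) := by
        rw [measure_biUnion_finset hdisj fun j _ => A.F.le (a + j) _ (hBa j)]
    _ ≤ q₂ * P (B ∩ Bad A a n w ε₁) := by
        gcongr
        refine iUnion₂_subset fun j hj => ?_
        have hj' := Finset.mem_Ico.1 hj
        rintro ω ⟨⟨hB', h0⟩, h3, _⟩
        exact ⟨hB', h0, (tot_anti (Nat.le_add_right a j) (by omega) w ω).trans h3⟩
    _ ≤ q₂ * (q₁ * P B) := by gcongr; exact h1 a w hw hw1 B hB
    _ = q₁ * q₂ * P B := by ring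

/-- from points to laws: Markov on the share of bad points -/
theorem TL.of_point {n : ℕ} {y q : ℝ≥0∞} (hy0 : y ≠ 0) (hy : y ≠ ∞)
    (h : ∀ a, ∀ x ∈ A.L a, P {ω | A.N a (a + n) ω x ≤ y} ≤ q) : TL A n (y / 2) (2 * q) := by
  classical
  intro a w hw hw1 B hB
  set W : S → Set Ω := fun x => {ω | A.N a (a + n) ω x ≤ y} with hW
  have hWH : ∀ x, MeasurableSet[A.H a] (W x) := fun x =>
    (A.meas_N_H (Nat.le_add_right a n) x) measurableSet_Iic
  set φ : S → Ω → ℝ≥0∞ := fun x ω => B.indicator (fun _ => (1 : ℝ≥0∞)) ω *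
    (w ω x * (tot w ω)⁻¹) with hφ
  have hφF : ∀ x, Measurable[A.F a] (φ x) := fun x =>
    (measurable_const.indicator hB).mul ((hw.meas x).mul hw.meas_tot.inv)
  have hψH : ∀ x, Measurable[A.H a] ((W x).indicator fun _ => (1 : ℝ≥0∞)) := fun x =>
    measurable_const.indicator (hWH x)
  have hB0 : MeasurableSet B := A.F.le a B hB
  have key : ∀ ω ∈ B ∩ Bad A a n w (y / 2),
      (1 : ℝ≥0∞) ≤ 2 * ∑' x, φ x ω * (W x).indicator (fun _ => (1 : ℝ≥0∞)) ω := by
    rintro ω ⟨hωB, h0, h1⟩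
    have ht : tot w ω ≠ ∞ := ne_top_of_le_ne_top ENNReal.one_ne_top (hw1 ω)
    set f : ℝ≥0∞ := ∑' x, w ω x * (W x).indicator (fun _ => (1 : ℝ≥0∞)) ω with hf
    have hfle : f ≤ tot w ω := by
      unfold tot
      refine ENNReal.tsum_le_tsum fun x => ?_
      calc w ω x * (W x).indicator (fun _ => (1 : ℝ≥0∞)) ω ≤ w ω x * 1 := by
            gcongr
            exact Set.indicator_le_self' (fun _ _ => zero_le) ω
        _ = w ω x := mul_one _
    have h2 : y * tot w ω ≤ tot (A.push a (a + n) w) ω + y * f := by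
      rw [tot_push, tot, hf, ← ENNReal.tsum_mul_left, ← ENNReal.tsum_mul_left,
        ← ENNReal.tsum_add]
      refine ENNReal.tsum_le_tsum fun x => ?_
      by_cases hx : ω ∈ W x
      · rw [Set.indicator_of_mem hx, mul_one]
        exact le_add_self
      · rw [Set.indicator_of_notMem hx, mul_zero, mul_zero, add_zero, mul_comm]
        have : y < A.N a (a + n) ω x := not_le.1 hx
        gcongr
    have h3 : y * tot w ω ≤ y * (tot w ω / 2 + f) := by
      calc y * tot w ω ≤ tot (A.push a (a + n) w) ω + y * f := h2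
        _ ≤ y / 2 * tot w ω + y * f := by gcongr
        _ = y * (tot w ω / 2 + f) := by
            rw [mul_add, ENNReal.div_eq_inv_mul, ENNReal.div_eq_inv_mul]; ring
    have h4 : tot w ω ≤ tot w ω / 2 + f := (ENNReal.mul_le_mul_iff_right hy0 hy).1 h3
    have h5 : tot w ω / 2 ≤ f := by
      have e : tot w ω / 2 + tot w ω / 2 ≤ tot w ω / 2 + f := by
        rw [ENNReal.add_halves]; exact h4
      exact (ENNReal.add_le_add_iff_left (ENNReal.div_ne_top ht (by norm_num))).1 e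
    have h6 : ∑' x, φ x ω * (W x).indicator (fun _ => (1 : ℝ≥0∞)) ω = f * (tot w ω)⁻¹ := by
      rw [hf, ← ENNReal.tsum_mul_right]
      refine tsum_congr fun x => ?_
      simp only [hφ]
      rw [Set.indicator_of_mem hωB]
      ring
    rw [h6]
    calc (1 : ℝ≥0∞) = tot w ω * (tot w ω)⁻¹ := (ENNReal.mul_inv_cancel h0 ht).symm
      _ = 2 * (tot w ω / 2) * (tot w ω)⁻¹ := by
          rw [ENNReal.mul_div_cancel (by norm_num) (by norm_num)]
      _ ≤ 2 * f * (tot w ω)⁻¹ := by gcongr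
      _ = 2 * (f * (tot w ω)⁻¹) := by ring
  have hSm : MeasurableSet (B ∩ Bad A a n w (y / 2)) := by
    have h1 : Measurable fun ω => tot w ω := hw.meas_tot.mono (A.F.le a) le_rfl
    have h2 : Measurable fun ω => tot (A.push a (a + n) w) ω :=
      (meas_tot_push (Nat.le_add_right a n) hw).mono (A.F.le _) le_rfl
    exact hB0.inter ((h1 (measurableSet_singleton (0 : ℝ≥0∞))).compl.inter
      (measurableSet_le h2 (h1.const_mul _)))
  calc P (B ∩ Bad A a n w (y / 2))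
      = ∫⁻ ω in B ∩ Bad A a n w (y / 2), 1 ∂P := by simp
    _ ≤ ∫⁻ ω in B ∩ Bad A a n w (y / 2),
          2 * ∑' x, φ x ω * (W x).indicator (fun _ => (1 : ℝ≥0∞)) ω ∂P :=
        setLIntegral_mono' hSm key
    _ ≤ ∫⁻ ω, 2 * ∑' x, φ x ω * (W x).indicator (fun _ => (1 : ℝ≥0∞)) ω ∂P :=
        setLIntegral_le_lintegral _ _
    _ = 2 * ∑' x, ∫⁻ ω, φ x ω * (W x).indicator (fun _ => (1 : ℝ≥0∞)) ω ∂P := by
        have hm : ∀ x, Measurable fun ω => φ x ω * (W x).indicator (fun _ => (1 : ℝ≥0∞)) ω :=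
          fun x => ((hφF x).mono (A.F.le a) le_rfl).mul ((hψH x).mono (A.H_le a) le_rfl)
        rw [lintegral_const_mul _ (Measurable.ennreal_tsum hm),
          lintegral_tsum fun x => (hm x).aemeasurable]
    _ = 2 * ∑' x, (∫⁻ ω, φ x ω ∂P) * P (W x) := by
        congr 1
        refine tsum_congr fun x => ?_
        rw [A.indep_mul (hφF x) (hψH x), lintegral_indicator_const (A.H_le a _ (hWH x)), one_mul]
    _ ≤ 2 * ∑' x, (∫⁻ ω, φ x ω ∂P) * q := by
        refine mul_le_mul_right (ENNReal.tsum_le_tsum fun x => ?_) _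
        by_cases hx : x ∈ A.L a
        · exact mul_le_mul_right (h a x hx) _
        · have e : ∫⁻ ω, φ x ω ∂P = 0 := by
            have e : φ x = fun _ => 0 := by
              funext ω
              simp [hφ, hw.supp ω x hx]
            rw [e]; simp
          rw [e]; simp
    _ = 2 * (q * ∫⁻ ω, ∑' x, φ x ω ∂P) := by
        rw [ENNReal.tsum_mul_right, lintegral_tsum fun x =>
          ((hφF x).mono (A.F.le a) le_rfl).aemeasurable, mul_comm q]
    _ ≤ 2 * (q * ∫⁻ ω, B.indicator (fun _ => (1 : ℝ≥0∞)) ω ∂P) := by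
        gcongr with ω
        simp only [hφ]
        rw [ENNReal.tsum_mul_left, ENNReal.tsum_mul_right]
        calc B.indicator (fun _ => (1 : ℝ≥0∞)) ω * ((∑' x, w ω x) * (tot w ω)⁻¹)
            ≤ B.indicator (fun _ => (1 : ℝ≥0∞)) ω * 1 := by
              gcongr
              exact ENNReal.mul_inv_le_one _
          _ = _ := mul_one _
    _ = 2 * q * P B := by rw [lintegral_indicator_const hB0]; ring

/-- **first moment step**: after `h` levels the relative loss is small. -/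
theorem TL.late [IsProbabilityMeasure P] {h n : ℕ} (hn : h ≤ n) {ε q : ℝ≥0∞} (hε0 : ε ≠ 0)
    (hε : ε ≠ ∞) (hfin : A.h n ≠ ∞) (hT : TL A h ε q) :
    TL A n (ε / 2) (q + (A.h h - A.h n) * (2 / ε)) := by
  classical
  intro a w hw hw1 B hB
  have hB0 : MeasurableSet B := A.F.le a B hB
  set D : Set Ω := {ω | tot w ω ≠ 0 ∧ ε * tot w ω < tot (A.push a (a + h) w) ω ∧
    tot (A.push a (a + n) w) ω ≤ ε / 2 * tot w ω} with hD
  have m0' : Measurable fun ω => tot w ω := hw.meas_tot.mono (A.F.le a) le_rfl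
  have mh : Measurable fun ω => tot (A.push a (a + h) w) ω :=
    (meas_tot_push (Nat.le_add_right a h) hw).mono (A.F.le _) le_rfl
  have mn : Measurable fun ω => tot (A.push a (a + n) w) ω :=
    (meas_tot_push (Nat.le_add_right a n) hw).mono (A.F.le _) le_rfl
  have hDm : MeasurableSet D :=
    ((m0' (measurableSet_singleton (0 : ℝ≥0∞))).compl).inter
      ((measurableSet_lt (m0'.const_mul _) mh).inter (measurableSet_le mn (m0'.const_mul _)))
  have hsub : B ∩ Bad A a n w (ε / 2) ⊆ (B ∩ Bad A a h w ε) ∪ (B ∩ D) := by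
    rintro ω ⟨h1, h2, h3⟩
    by_cases h4 : tot (A.push a (a + h) w) ω ≤ ε * tot w ω
    · exact Or.inl ⟨h1, h2, h4⟩
    · exact Or.inr ⟨h1, h2, not_le.1 h4, h3⟩
  set φ : Ω → ℝ≥0∞ := fun ω => B.indicator (fun _ => (1 : ℝ≥0∞)) ω * (tot w ω)⁻¹ with hφ
  have hφF : Measurable[A.F a] φ := (measurable_const.indicator hB).mul hw.meas_tot.inv
  have hφ0 : Measurable φ := hφF.mono (A.F.le a) le_rfl
  set b : ℝ≥0∞ := ∫⁻ ω, φ ω * tot w ω ∂P with hb
  have hbB : b ≤ P B := by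
    have e0 : P B = ∫⁻ ω, B.indicator (fun _ => (1 : ℝ≥0∞)) ω ∂P := by
      rw [lintegral_indicator_const hB0, one_mul]
    rw [hb, e0]
    refine lintegral_mono fun ω => ?_
    simp only [hφ]
    calc B.indicator (fun _ => (1 : ℝ≥0∞)) ω * (tot w ω)⁻¹ * tot w ω
        = B.indicator (fun _ => (1 : ℝ≥0∞)) ω * ((tot w ω)⁻¹ * tot w ω) := by ring
      _ ≤ B.indicator (fun _ => (1 : ℝ≥0∞)) ω * 1 := by
          gcongr
          exact ENNReal.inv_mul_le_one _
      _ = _ := by rw [mul_one]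
  have e1 : ∫⁻ ω, φ ω * tot (A.push a (a + h) w) ω ∂P = A.h h * b := by
    have := first_moment (A := A) (Nat.le_add_right a h) hw hφF
    rwa [Nat.add_sub_cancel_left] at this
  have e2 : ∫⁻ ω, φ ω * tot (A.push a (a + n) w) ω ∂P = A.h n * b := by
    have := first_moment (A := A) (Nat.le_add_right a n) hw hφF
    rwa [Nat.add_sub_cancel_left] at this
  have hpt : ∀ ω, φ ω * tot (A.push a (a + n) w) ω + (B ∩ D).indicator (fun _ => ε / 2) ω
      ≤ φ ω * tot (A.push a (a + h) w) ω := by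
    intro ω
    by_cases hω : ω ∈ B ∩ D
    · obtain ⟨hωB, hd0, hd1, hd2⟩ := hω
      rw [Set.indicator_of_mem (show ω ∈ B ∩ D from ⟨hωB, hd0, hd1, hd2⟩)]
      have ht : tot w ω ≠ ∞ := ne_top_of_le_ne_top ENNReal.one_ne_top (hw1 ω)
      simp only [hφ]
      rw [Set.indicator_of_mem hωB, one_mul]
      have e3 : ε / 2 = (tot w ω)⁻¹ * (ε / 2 * tot w ω) := by
        rw [mul_comm (ε / 2), ← mul_assoc, ENNReal.inv_mul_cancel hd0 ht, one_mul]
      calc (tot w ω)⁻¹ * tot (A.push a (a + n) w) ω + ε / 2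
          ≤ (tot w ω)⁻¹ * (ε / 2 * tot w ω) + (tot w ω)⁻¹ * (ε / 2 * tot w ω) := by
            rw [← e3]
            gcongr
            calc (tot w ω)⁻¹ * tot (A.push a (a + n) w) ω
                ≤ (tot w ω)⁻¹ * (ε / 2 * tot w ω) := by gcongr
              _ = ε / 2 := e3.symm
        _ = (tot w ω)⁻¹ * (ε * tot w ω) := by
            rw [← mul_add, ← add_mul, ENNReal.add_halves]
        _ ≤ (tot w ω)⁻¹ * tot (A.push a (a + h) w) ω := by gcongr
    · rw [Set.indicator_of_notMem hω, add_zero]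
      gcongr
      exact tot_anti (Nat.le_add_right a h) (by omega) w ω
  have hint : A.h n * b + ε / 2 * P (B ∩ D) ≤ A.h h * b := by
    rw [← e1, ← e2]
    calc ∫⁻ ω, φ ω * tot (A.push a (a + n) w) ω ∂P + ε / 2 * P (B ∩ D)
        = ∫⁻ ω, (φ ω * tot (A.push a (a + n) w) ω +
            (B ∩ D).indicator (fun _ => ε / 2) ω) ∂P := by
          have hmm : Measurable fun ω => φ ω * tot (A.push a (a + n) w) ω := hφ0.mul mn
          rw [lintegral_add_left hmm, lintegral_indicator_const (hB0.inter hDm)]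
      _ ≤ _ := lintegral_mono hpt
  have hbfin : b ≠ ∞ := ne_top_of_le_ne_top (measure_ne_top P B) hbB
  have h7 : ε / 2 * P (B ∩ D) ≤ (A.h h - A.h n) * P B := by
    have h8 : ε / 2 * P (B ∩ D) ≤ A.h h * b - A.h n * b := by
      refine ENNReal.le_sub_of_add_le_left (ENNReal.mul_ne_top hfin hbfin) ?_
      exact hint
    rw [← ENNReal.sub_mul fun _ _ => hbfin] at h8
    exact h8.trans (by gcongr)
  have hε2 : ε / 2 ≠ 0 := by
    rw [Ne, ENNReal.div_eq_zero_iff]; simp [hε0]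
  have hε2' : ε / 2 ≠ ∞ := ENNReal.div_ne_top hε (by norm_num)
  have h9 : P (B ∩ D) ≤ (A.h h - A.h n) * (2 / ε) * P B := by
    have h10 : P (B ∩ D) = (ε / 2)⁻¹ * (ε / 2 * P (B ∩ D)) := by
      rw [← mul_assoc, ENNReal.inv_mul_cancel hε2 hε2', one_mul]
    rw [h10]
    calc (ε / 2)⁻¹ * (ε / 2 * P (B ∩ D)) ≤ (ε / 2)⁻¹ * ((A.h h - A.h n) * P B) := by gcongr
      _ = (A.h h - A.h n) * (2 / ε) * P B := by
          rw [ENNReal.inv_div (by norm_num) (by norm_num)]; ring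
  calc P (B ∩ Bad A a n w (ε / 2)) ≤ P ((B ∩ Bad A a h w ε) ∪ (B ∩ D)) := measure_mono hsub
    _ ≤ P (B ∩ Bad A a h w ε) + P (B ∩ D) := measure_union_le _ _
    _ ≤ q * P B + (A.h h - A.h n) * (2 / ε) * P B := add_le_add (hT a w hw hw1 B hB) h9
    _ = _ := by ring

/-- iteration of `TL.mul` -/
theorem TL.pow {n : ℕ} (hn : 1 ≤ n) {κ₀ ε q : ℝ≥0∞} (hue : UE1 A κ₀) (hκ : κ₀ ≠ 0)
    (hκ1 : κ₀ ≤ 1) (hε0 : ε ≠ 0) (hε1 : ε < 1) (h : TL A n ε q) (k : ℕ) :
    TL A n ((κ₀ * ε) ^ k * ε) (q ^ (k + 1)) := by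
  induction k with
  | zero => simpa using h
  | succ k ih =>
    have h1 : (κ₀ * ε) ^ k * ε ≠ 0 := mul_ne_zero (pow_ne_zero _ (mul_ne_zero hκ hε0)) hε0
    have h2 : (κ₀ * ε) ^ k * ε ≤ 1 := by
      calc (κ₀ * ε) ^ k * ε ≤ 1 ^ k * 1 := by
            gcongr
            exact mul_le_one' hκ1 hε1.le
        _ = 1 := by simp
    have h3 := TL.mul hn hue hκ h1 h2 hε1 ih h
    refine h3.mono le_rfl (le_of_eq ?_) (le_of_eq ?_)
    · ring
    · ring

/-- **exponential rate from one threshold** (any law, any height):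
`P (mass ≤ r ^ (k + 1)) ≤ q ^ (k + 1)` with `r = κ₀ ε`. -/
theorem TL.rate {n : ℕ} (hn : 1 ≤ n) {κ₀ ε q : ℝ≥0∞} (hue : UE1 A κ₀) (hκ : κ₀ ≠ 0)
    (hκ1 : κ₀ ≤ 1) (hε0 : ε ≠ 0) (hε1 : ε < 1) (h : TL A n ε q) (k : ℕ) :
    TL A n ((κ₀ * ε) ^ (k + 1)) (q ^ (k + 1)) := by
  refine (TL.pow hn hue hκ hκ1 hε0 hε1 h k).mono le_rfl ?_ le_rfl
  calc (κ₀ * ε) ^ (k + 1) = (κ₀ * ε) ^ k * (κ₀ * ε) := pow_succ _ _
    _ ≤ (κ₀ * ε) ^ k * (1 * ε) := by gcongr
    _ = _ := by rw [one_mul]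

end Crest.Agent.R154.Rate582
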