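import Crest.Agent.R154.Home_903
import Crest.Agent.R154.Rate_582
import Crest.Agent.R154.RatioB_872

/-!
Row 154, `d ≥ 3` (helper607), route 263 HOME, leaf HM4: THE ROBUST JUMP on any kernel system.

From any random weight `w` at level `a`: run `s` levels (home part), then the marked part of the
climb of `n` levels has mass `≥ (π/2) θ tot w` off an event of small conditional probability
(second moment, only contacts after the first `s` levels are seen).
-/

set_option autoImplicit false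
set_option linter.unusedSectionVars false
set_option linter.deprecated false

namespace Crest.Agent.R154.Jump607

open MeasureTheory ProbabilityTheory Set Filter
open Crest.Agent.R154.RatioR872 Crest.Agent.R154.RatioR872.KerSys
open Crest.Agent.R154.Home903 Crest.Agent.R154.Rate582
open scoped ENNReal Classical

variable {S : Type*} [Countable S] {Ω : Type*} {m0 : MeasurableSpace Ω} {P : Measure Ω}

/-- marked mass of the climb `a → b` from `x` -/
noncomputable def NJ (A : KerSys S P) (D : S → S → Prop) (a b : ℕ) (ω : Ω) (x : S) : ℝ≥0∞ :=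
  ∑' y, (if D x y then A.G a b ω x y else 0)

/-- second moment property for marked masses -/
def Mark2 (A : KerSys S P) : Prop :=
  ∀ (a b : ℕ) (D : S → S → Prop) (x x' : S), a ≤ b → x ∈ A.L a → x' ∈ A.L a →
    ∫⁻ ω, NJ A D a b ω x * NJ A D a b ω x' ∂P
      ≤ (∫⁻ ω, NJ A D a b ω x ∂P) * (∫⁻ ω, NJ A D a b ω x' ∂P) + A.K a b x x'

variable {A : KerSys S P}

lemma NJ_le (D : S → S → Prop) (a b : ℕ) (ω : Ω) (x : S) : NJ A D a b ω x ≤ A.N a b ω x := by
  unfold NJ KerSys.N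
  refine ENNReal.tsum_le_tsum fun y => ?_
  split_ifs
  · exact le_rfl
  · exact zero_le

lemma meas_NJ_H (D : S → S → Prop) {a b : ℕ} (hab : a ≤ b) (x : S) :
    Measurable[A.H a] fun ω => NJ A D a b ω x := by
  unfold NJ
  refine Measurable.ennreal_tsum fun y => ?_
  by_cases h : D x y
  · simpa [h] using A.measH a b x y hab
  · simp [h]

lemma tot_rp (D : S → S → Prop) (a b : ℕ) (w : Ω → S → ℝ≥0∞) (ω : Ω) :
    tot (rpush A D a b w) ω = ∑' x, w ω x * NJ A D a b ω x := tot_rpush D a b w ω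

/-- conditional mean of the marked push -/
noncomputable def mJ (A : KerSys S P) (D : S → S → Prop) (a b : ℕ) (w : Ω → S → ℝ≥0∞) (ω : Ω) :
    ℝ≥0∞ := ∑' x, w ω x * ∫⁻ ω', NJ A D a b ω' x ∂P

lemma meas_mJ (D : S → S → Prop) {a b : ℕ} {w : Ω → S → ℝ≥0∞} (hw : A.Wt a w) :
    Measurable[A.F a] (mJ A D a b w) := by
  unfold mJ
  exact Measurable.ennreal_tsum fun x => (hw.meas x).mul_const _

/-- first moment -/
lemma first_J (D : S → S → Prop) {a b : ℕ} (hab : a ≤ b) {w : Ω → S → ℝ≥0∞} (hw : A.Wt a w)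
    {φ : Ω → ℝ≥0∞} (hφ : Measurable[A.F a] φ) :
    ∫⁻ ω, φ ω * tot (rpush A D a b w) ω ∂P = ∫⁻ ω, φ ω * mJ A D a b w ω ∂P := by
  have hφ0 : Measurable φ := hφ.mono (A.F.le a) le_rfl
  have hw0 : ∀ x, Measurable fun ω => w ω x := fun x => (hw.meas x).mono (A.F.le a) le_rfl
  have hN0 : ∀ x, Measurable fun ω => NJ A D a b ω x :=
    fun x => (meas_NJ_H D hab x).mono (A.H_le a) le_rfl
  have h1 : ∀ ω, φ ω * tot (rpush A D a b w) ω = ∑' x, (φ ω * w ω x) * NJ A D a b ω x := by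
    intro ω
    rw [tot_rp, ← ENNReal.tsum_mul_left]
    exact tsum_congr fun x => by ring
  have h2 : ∀ ω, φ ω * mJ A D a b w ω
      = ∑' x, (φ ω * w ω x) * ∫⁻ ω', NJ A D a b ω' x ∂P := by
    intro ω
    rw [mJ, ← ENNReal.tsum_mul_left]
    exact tsum_congr fun x => by ring
  have g1 : ∀ x, Measurable fun ω => (φ ω * w ω x) * NJ A D a b ω x :=
    fun x => (hφ0.mul (hw0 x)).mul (hN0 x)
  have g2 : ∀ x, Measurable fun ω => (φ ω * w ω x) * ∫⁻ ω', NJ A D a b ω' x ∂P :=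
    fun x => (hφ0.mul (hw0 x)).mul_const _
  simp_rw [h1, h2]
  rw [lintegral_tsum (fun x => (g1 x).aemeasurable), lintegral_tsum (fun x => (g2 x).aemeasurable)]
  refine tsum_congr fun x => ?_
  have g3 : Measurable[A.F a] fun ω => φ ω * w ω x := hφ.mul (hw.meas x)
  have g4 : Measurable fun ω => φ ω * w ω x := hφ0.mul (hw0 x)
  rw [A.indep_mul g3 (meas_NJ_H D hab x), lintegral_mul_const _ g4]

/-- second moment -/
lemma second_J (hM : Mark2 A) (D : S → S → Prop) {a b : ℕ} (hab : a ≤ b) {w : Ω → S → ℝ≥0∞}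
    (hw : A.Wt a w) {φ : Ω → ℝ≥0∞} (hφ : Measurable[A.F a] φ) :
    ∫⁻ ω, φ ω * tot (rpush A D a b w) ω ^ 2 ∂P
      ≤ ∫⁻ ω, φ ω * mJ A D a b w ω ^ 2 ∂P + ∫⁻ ω, φ ω * A.energy a b w ω ∂P := by
  have hφ0 : Measurable φ := hφ.mono (A.F.le a) le_rfl
  have hw0 : ∀ x, Measurable fun ω => w ω x := fun x => (hw.meas x).mono (A.F.le a) le_rfl
  have hN0 : ∀ x, Measurable fun ω => NJ A D a b ω x :=
    fun x => (meas_NJ_H D hab x).mono (A.H_le a) le_rfl
  have h1 : ∀ ω, φ ω * tot (rpush A D a b w) ω ^ 2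
      = ∑' x, ∑' x', (φ ω * w ω x * w ω x') * (NJ A D a b ω x * NJ A D a b ω x') := by
    intro ω
    rw [tot_rp, sq, ← ENNReal.tsum_mul_right, ← ENNReal.tsum_mul_left]
    refine tsum_congr fun x => ?_
    rw [← ENNReal.tsum_mul_left, ← ENNReal.tsum_mul_left]
    exact tsum_congr fun x' => by ring
  have h2 : ∀ ω, φ ω * mJ A D a b w ω ^ 2
      = ∑' x, ∑' x', (φ ω * w ω x * w ω x') *
        ((∫⁻ ω', NJ A D a b ω' x ∂P) * (∫⁻ ω', NJ A D a b ω' x' ∂P)) := by
    intro ω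
    rw [mJ, sq, ← ENNReal.tsum_mul_right, ← ENNReal.tsum_mul_left]
    refine tsum_congr fun x => ?_
    rw [← ENNReal.tsum_mul_left, ← ENNReal.tsum_mul_left]
    exact tsum_congr fun x' => by ring
  have h3 : ∀ ω, φ ω * A.energy a b w ω
      = ∑' x, ∑' x', (φ ω * w ω x * w ω x') * A.K a b x x' := by
    intro ω
    rw [KerSys.energy, ← ENNReal.tsum_mul_left]
    refine tsum_congr fun x => ?_
    rw [← ENNReal.tsum_mul_left]
    exact tsum_congr fun x' => by ring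
  have hm2 : ∀ x x', Measurable fun ω => φ ω * w ω x * w ω x' :=
    fun x x' => (hφ0.mul (hw0 x)).mul (hw0 x')
  have hm3 : ∀ x x', Measurable fun ω =>
      (φ ω * w ω x * w ω x') * (NJ A D a b ω x * NJ A D a b ω x') :=
    fun x x' => (hm2 x x').mul ((hN0 x).mul (hN0 x'))
  have hF2 : ∀ x x', Measurable[A.F a] fun ω => φ ω * w ω x * w ω x' :=
    fun x x' => (hφ.mul (hw.meas x)).mul (hw.meas x')
  have hH2 : ∀ x x', Measurable[A.H a] fun ω => NJ A D a b ω x * NJ A D a b ω x' :=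
    fun x x' => (meas_NJ_H D hab x).mul (meas_NJ_H D hab x')
  simp_rw [h1, h2, h3]
  rw [lintegral_tsum (fun x => (Measurable.tsum fun x' => hm3 x x').aemeasurable),
    lintegral_tsum (fun x => (Measurable.tsum fun x' => (hm2 x x').mul_const _).aemeasurable),
    lintegral_tsum (fun x => (Measurable.tsum fun x' => (hm2 x x').mul_const _).aemeasurable),
    ← ENNReal.tsum_add]
  refine ENNReal.tsum_le_tsum fun x => ?_
  rw [lintegral_tsum (fun x' => (hm3 x x').aemeasurable),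
    lintegral_tsum (fun x' => ((hm2 x x').mul_const _).aemeasurable),
    lintegral_tsum (fun x' => ((hm2 x x').mul_const _).aemeasurable), ← ENNReal.tsum_add]
  refine ENNReal.tsum_le_tsum fun x' => ?_
  rw [A.indep_mul (hF2 x x') (hH2 x x'), lintegral_mul_const _ (hm2 x x'),
    lintegral_mul_const _ (hm2 x x')]
  by_cases hx : x ∈ A.L a
  · by_cases hx' : x' ∈ A.L a
    · rw [← mul_add]
      gcongr
      exact hM a b D x x' hab hx hx'
    · simp [hw.supp _ x' hx']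
  · simp [hw.supp _ x hx]

lemma energy_mono {a b : ℕ} {w w' : Ω → S → ℝ≥0∞} {ω : Ω} (h : ∀ x, w ω x ≤ w' ω x) :
    A.energy a b w ω ≤ A.energy a b w' ω := by
  unfold KerSys.energy
  refine ENNReal.tsum_le_tsum fun x => ENNReal.tsum_le_tsum fun x' => ?_
  gcongr
  · exact h x
  · exact h x'

lemma rpush_le_push (D : S → S → Prop) (a b : ℕ) (w : Ω → S → ℝ≥0∞) (ω : Ω) (y : S) :
    rpush A D a b w ω y ≤ A.push a b w ω y := by
  unfold rpush KerSys.push
  refine ENNReal.tsum_le_tsum fun x => ?_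
  gcongr
  split_ifs
  · exact le_rfl
  · exact zero_le

/-- lower deviations of the marked push -/
lemma var_J (hM : Mark2 A) (D : S → S → Prop) {a b : ℕ} (hab : a ≤ b) {w : Ω → S → ℝ≥0∞}
    (hw : A.Wt a w) (hw1 : ∀ ω, tot w ω ≤ 1) (hm1 : ∀ x, ∫⁻ ω, NJ A D a b ω x ∂P ≤ 1)
    {φ : Ω → ℝ≥0∞} (hφ : Measurable[A.F a] φ) (hfin : ∫⁻ ω, φ ω * tot w ω ^ 2 ∂P ≠ ∞) :
    ∫⁻ ω, φ ω * (mJ A D a b w ω - tot (rpush A D a b w) ω) ^ 2 ∂P
      ≤ ∫⁻ ω, φ ω * A.energy a b w ω ∂P := by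
  set m : Ω → ℝ≥0∞ := mJ A D a b w with hm
  set X : Ω → ℝ≥0∞ := tot (rpush A D a b w) with hX
  have hmle : ∀ ω, m ω ≤ tot w ω := by
    intro ω
    rw [hm, mJ, tot]
    refine ENNReal.tsum_le_tsum fun x => ?_
    calc w ω x * ∫⁻ ω', NJ A D a b ω' x ∂P ≤ w ω x * 1 := by gcongr; exact hm1 x
      _ = _ := mul_one _
  have hXle : ∀ ω, X ω ≤ 1 := fun ω =>
    (tot_rpush_le D a b w ω).trans ((A.tot_push_le hab w ω).trans (hw1 ω))
  have hm1' : ∀ ω, m ω ≤ 1 := fun ω => (hmle ω).trans (hw1 ω)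
  have hφ0 : Measurable φ := hφ.mono (A.F.le a) le_rfl
  have hmF : Measurable[A.F a] m := meas_mJ D hw
  have hm0 : Measurable m := hmF.mono (A.F.le a) le_rfl
  have hX0 : Measurable X := ((rpush_wt hab hw).meas_tot).mono (A.F.le b) le_rfl
  have e1 : ∫⁻ ω, (φ ω * m ω) * X ω ∂P = ∫⁻ ω, (φ ω * m ω) * m ω ∂P :=
    first_J D hab hw (hφ.mul hmF)
  have e2 := second_J hM D hab hw hφ
  have hfm : ∫⁻ ω, φ ω * m ω ^ 2 ∂P ≠ ∞ := by
    refine ne_top_of_le_ne_top hfin (lintegral_mono fun ω => ?_)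
    gcongr
    exact hmle ω
  have hA1 : Measurable fun ω => 2 * ((φ ω * m ω) * X ω) := ((hφ0.mul hm0).mul hX0).const_mul _
  have hA1' : Measurable fun ω => (φ ω * m ω) * X ω := (hφ0.mul hm0).mul hX0
  have hA3 : Measurable fun ω => φ ω * X ω ^ 2 := hφ0.mul (hX0.pow_const 2)
  have key : 2 * (∫⁻ ω, φ ω * m ω ^ 2 ∂P) + ∫⁻ ω, φ ω * (m ω - X ω) ^ 2 ∂P
      ≤ 2 * (∫⁻ ω, φ ω * m ω ^ 2 ∂P) + ∫⁻ ω, φ ω * A.energy a b w ω ∂P := by
    calc 2 * (∫⁻ ω, φ ω * m ω ^ 2 ∂P) + ∫⁻ ω, φ ω * (m ω - X ω) ^ 2 ∂P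
        = ∫⁻ ω, (2 * ((φ ω * m ω) * X ω) + φ ω * (m ω - X ω) ^ 2) ∂P := by
          rw [lintegral_add_left hA1, lintegral_const_mul _ hA1', e1]
          congr 2
          refine lintegral_congr fun ω => ?_
          ring
      _ ≤ ∫⁻ ω, (φ ω * X ω ^ 2 + φ ω * m ω ^ 2) ∂P := by
          refine lintegral_mono fun ω => ?_
          have h1 := KerSys.two_mul_add_sq_le (a := X ω) (b := m ω)
            (ne_top_of_le_ne_top ENNReal.one_ne_top (hXle ω))
            (ne_top_of_le_ne_top ENNReal.one_ne_top (hm1' ω))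
          calc 2 * ((φ ω * m ω) * X ω) + φ ω * (m ω - X ω) ^ 2
              = φ ω * (2 * (X ω * m ω) + (m ω - X ω) ^ 2) := by ring
            _ ≤ φ ω * (X ω ^ 2 + m ω ^ 2) := by gcongr
            _ = _ := by ring
      _ = ∫⁻ ω, φ ω * X ω ^ 2 ∂P + ∫⁻ ω, φ ω * m ω ^ 2 ∂P := lintegral_add_left hA3 _
      _ ≤ (∫⁻ ω, φ ω * m ω ^ 2 ∂P + ∫⁻ ω, φ ω * A.energy a b w ω ∂P)
          + ∫⁻ ω, φ ω * m ω ^ 2 ∂P := by gcongr
      _ = _ := by ring
  exact (ENNReal.add_le_add_iff_left (ENNReal.mul_ne_top (by simp) hfm)).1 key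

/-- composition: home part, then marked part -/
lemma comp_J {a b c : ℕ} (hab : a ≤ b) (hbc : b ≤ c) {D1 D2 D3 : S → S → Prop}
    (h123 : ∀ x y z, D1 x y → D2 y z → D3 x z) (w : Ω → S → ℝ≥0∞) :
    ∀ᵐ ω ∂P, tot (rpush A D2 b c (rpush A D1 a b w)) ω ≤ tot (rpush A D3 a c w) ω := by
  filter_upwards [A.comp a b c hab hbc] with ω hω
  unfold tot
  refine ENNReal.tsum_le_tsum fun z => ?_
  calc rpush A D2 b c (rpush A D1 a b w) ω z
      = ∑' y, ∑' x, w ω x * ((if D1 x y then A.G a b ω x y else 0)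
          * (if D2 y z then A.G b c ω y z else 0)) := by
        unfold rpush
        refine tsum_congr fun y => ?_
        rw [← ENNReal.tsum_mul_right]
        exact tsum_congr fun x => by ring
    _ = ∑' x, w ω x * ∑' y, ((if D1 x y then A.G a b ω x y else 0)
          * (if D2 y z then A.G b c ω y z else 0)) := by
        rw [ENNReal.tsum_comm]
        exact tsum_congr fun x => ENNReal.tsum_mul_left
    _ ≤ ∑' x, w ω x * (if D3 x z then A.G a c ω x z else 0) := by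
        refine ENNReal.tsum_le_tsum fun x => ?_
        gcongr
        by_cases h3 : D3 x z
        · rw [if_pos h3]
          refine le_trans (ENNReal.tsum_le_tsum fun y => ?_) (hω x z)
          gcongr <;> split_ifs <;> first | exact le_rfl | exact zero_le
        · rw [if_neg h3, nonpos_iff_eq_zero, ENNReal.tsum_eq_zero]
          intro y
          by_cases h1 : D1 x y
          · have h2 : ¬ D2 y z := fun h => h3 (h123 x y z h1 h)
            simp [h2]
          · simp [h1]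
    _ = rpush A D3 a c w ω z := rfl

/-- **the robust jump**, one application. -/
theorem jump_core [IsProbabilityMeasure P] (hM : Mark2 A) {a b c : ℕ} (hab : a ≤ b) (hbc : b ≤ c)
    {w : Ω → S → ℝ≥0∞} (hw : A.Wt a w) (hw1 : ∀ ω, tot w ω ≤ 1)
    {D1 D2 D3 : S → S → Prop} (h123 : ∀ x y z, D1 x y → D2 y z → D3 x z)
    {B : Set Ω} (hB : MeasurableSet[A.F a] B) {θ ν p ε π q : ℝ≥0∞}
    (hθ0 : θ ≠ 0) (hθ1 : θ ≠ ∞) (hp0 : p ≠ 0) (hp1 : p ≠ ∞) (hp : ∀ n, n ≤ b - a → p ≤ A.h n)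
    (hπ0 : π ≠ 0) (hπ1 : π ≤ 1)
    {Bd : S → Ω → ℝ≥0∞} (hBm : ∀ x, Measurable[A.H a] (Bd x))
    (hBi : ∀ x ∈ A.L a, ∫⁻ ω, Bd x ω ∂P ≤ ν)
    (hBd : ∀ l, a ≤ l → l ≤ b → ∀ᵐ ω ∂P, ∀ x ∈ A.L a,
      ∑' y, (if D1 x y then 0 else A.G a l ω x y) * A.N l b ω y ≤ Bd x ω)
    (hmark : ∀ x ∈ A.L b, π ≤ ∫⁻ ω, NJ A D2 b c ω x ∂P)
    (hε : ∀ x ∈ A.L a, ∀ x' ∈ A.L a,
      ∑' z, ∑' z', (∫⁻ ω, A.G a b ω x z * A.G a b ω x' z' ∂P) * A.K b c z z' ≤ ε)
    (hq : P (B ∩ {ω | tot w ω ≠ 0 ∧ tot (A.push a b w) ω ≤ 2 * θ * tot w ω}) ≤ q * P B) :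
    P (B ∩ {ω | tot (rpush A D3 a c w) ω < π / 2 * θ * tot w ω})
      ≤ (q + ν / p / θ + ε / (π / 2 * θ) ^ 2) * P B := by
  have hwt : Measurable[A.F a] (tot w) := hw.meas_tot
  have hwt0 : Measurable (tot w) := hwt.mono (A.F.le a) le_rfl
  set B' : Set Ω := B ∩ {ω | tot w ω ≠ 0} with hB'
  have hB'F : MeasurableSet[A.F a] B' :=
    hB.inter ((measurableSet_eq_fun hwt (@measurable_const _ _ _ (A.F a) 0)).compl)
  have hB'0 : MeasurableSet B' := A.F.le a _ hB'F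
  have hPB' : P B' ≤ P B := measure_mono inter_subset_left
  set μ := rpush A D1 a b w with hμ
  have hμW : A.Wt b μ := rpush_wt hab hw
  have hμ1 : ∀ ω, tot μ ω ≤ 1 := fun ω =>
    (tot_rpush_le D1 a b w ω).trans ((A.tot_push_le hab w ω).trans (hw1 ω))
  have hμw : ∀ ω, tot μ ω ≤ tot w ω := fun ω =>
    (tot_rpush_le D1 a b w ω).trans (A.tot_push_le hab w ω)
  set X : Ω → ℝ≥0∞ := tot (rpush A D2 b c μ) with hX
  have hX0 : Measurable X := ((rpush_wt hbc hμW).meas_tot).mono (A.F.le c) le_rfl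
  -- step 1: home mass at `b`
  have s1 : P (B' ∩ {ω | tot μ ω < θ * tot w ω}) ≤ (q + ν / p / θ) * P B := by
    have h := home_norm (a := a) (c := b) (D := fun _ => D1) hw hB'F (fun ω hω => hω.2)
      (fun ω _ => ne_top_of_le_ne_top ENNReal.one_ne_top (hw1 ω)) hθ0 hθ1
      (Bd := fun x ω => if x ∈ A.L a then Bd x ω else ⊤) (ν := ν) (p := p)
      (fun x => by
        by_cases hx : x ∈ A.L a
        · simpa [hx] using hBm x
        · simp [hx])
      (fun x hx => by simpa [hx] using hBi x hx)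
      (fun l h1 h2 => by
        filter_upwards [hBd l h1 h2] with ω hω x
        by_cases hx : x ∈ A.L a
        · simpa only [hx, if_true] using hω x hx
        · simp [hx]) hp0 hp1 hp
    have h1 : B' ∩ {ω | tot μ ω < θ * tot w ω}
        ⊆ B' ∩ {ω | ∃ l, a ≤ l ∧ l ≤ b ∧ tot (rpush A D1 a l w) ω < θ * tot w ω} := by
      rintro ω ⟨h2, h3⟩
      exact ⟨h2, b, hab, le_rfl, h3⟩
    refine (measure_mono h1).trans (h.trans ?_)
    rw [add_mul]
    refine add_le_add (le_trans (measure_mono ?_) hq) (by gcongr)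
    rintro ω ⟨h2, h3⟩
    refine ⟨h2.1, h2.2, ?_⟩
    have h4 : tot (A.push a b w) ω < 2 * (θ * tot w ω) := h3
    rw [mul_assoc]
    exact h4.le
  -- step 2: Chebyshev
  set φ : Ω → ℝ≥0∞ := B'.indicator (fun ω => (tot w ω)⁻¹ ^ 2) with hφd
  have hφ : Measurable[A.F a] φ := (hwt.inv.pow_const 2).indicator hB'F
  have hφw : ∀ ω, φ ω * tot w ω ^ 2 = B'.indicator 1 ω := by
    intro ω
    by_cases h : ω ∈ B'
    · rw [hφd, indicator_of_mem h, indicator_of_mem h, ← mul_pow,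
        ENNReal.inv_mul_cancel h.2 (ne_top_of_le_ne_top ENNReal.one_ne_top (hw1 ω)), one_pow]
      rfl
    · rw [hφd, indicator_of_notMem h, indicator_of_notMem h, zero_mul]
  have hφint : ∫⁻ ω, φ ω * tot w ω ^ 2 ∂P = P B' := by
    simp_rw [hφw]
    exact lintegral_indicator_one hB'0
  have hφb : Measurable[A.F b] φ := hφ.mono (A.F.mono hab) le_rfl
  have hφ0 : Measurable φ := hφ.mono (A.F.le a) le_rfl
  have hm1 : ∀ x, ∫⁻ ω, NJ A D2 b c ω x ∂P ≤ 1 := by
    intro x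
    calc ∫⁻ ω, NJ A D2 b c ω x ∂P ≤ ∫⁻ _, 1 ∂P :=
          lintegral_mono fun ω => (NJ_le D2 b c ω x).trans (A.N_le_one hbc ω x)
      _ = 1 := by simp
  have hvar := var_J hM D2 hbc hμW hμ1 hm1 hφb (by
    refine ne_top_of_le_ne_top (measure_ne_top P B') ?_
    rw [← hφint]
    refine lintegral_mono fun ω => ?_
    gcongr
    exact hμw ω)
  have hen : ∫⁻ ω, φ ω * A.energy b c μ ω ∂P ≤ ε * P B' := by
    calc ∫⁻ ω, φ ω * A.energy b c μ ω ∂P
        ≤ ∫⁻ ω, φ ω * A.energy b c (A.push a b w) ω ∂P := by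
          refine lintegral_mono fun ω => ?_
          gcongr
          exact energy_mono fun y => rpush_le_push D1 a b w ω y
      _ ≤ ε * ∫⁻ ω, φ ω * tot w ω ^ 2 ∂P := energy_push hab hw hφ hε
      _ = ε * P B' := by rw [hφint]
  set k : ℝ≥0∞ := (π / 2 * θ) ^ 2 with hk
  have hk0 : k ≠ 0 := by
    rw [hk]
    refine pow_ne_zero _ (mul_ne_zero ?_ hθ0)
    exact (ENNReal.div_pos hπ0 (by simp)).ne'
  have hk1 : k ≠ ∞ := by
    rw [hk]
    refine ENNReal.pow_ne_top (ENNReal.mul_ne_top ?_ hθ1)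
    exact (ENNReal.div_lt_top (ne_top_of_le_ne_top ENNReal.one_ne_top hπ1) (by simp)).ne
  have s2 : P (B' ∩ {ω | θ * tot w ω ≤ tot μ ω ∧ X ω < π / 2 * tot μ ω}) ≤ ε / k * P B := by
    set f : Ω → ℝ≥0∞ := fun ω => φ ω * (mJ A D2 b c μ ω - X ω) ^ 2 with hf
    have hmm : Measurable (mJ A D2 b c μ) := (meas_mJ D2 hμW).mono (A.F.le b) le_rfl
    have hfm : Measurable f := hφ0.mul ((hmm.sub hX0).pow_const 2)
    have hsub : B' ∩ {ω | θ * tot w ω ≤ tot μ ω ∧ X ω < π / 2 * tot μ ω} ⊆ {ω | k ≤ f ω} := by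
      rintro ω ⟨hω, h1, h2⟩
      have h3 : π * tot μ ω ≤ mJ A D2 b c μ ω := by
        rw [mJ, tot, ← ENNReal.tsum_mul_left]
        refine ENNReal.tsum_le_tsum fun y => ?_
        by_cases hy : y ∈ A.L b
        · rw [mul_comm]
          gcongr
          exact hmark y hy
        · simp [hμW.supp ω y hy]
      have h4 : π / 2 * tot μ ω ≤ mJ A D2 b c μ ω - X ω := by
        have hfin : π / 2 * tot μ ω ≠ ∞ := ENNReal.mul_ne_top
          (ENNReal.div_lt_top (ne_top_of_le_ne_top ENNReal.one_ne_top hπ1) (by simp)).ne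
          (ne_top_of_le_ne_top ENNReal.one_ne_top (hμ1 ω))
        refine ENNReal.le_sub_of_add_le_right (ne_top_of_lt h2) ?_
        calc π / 2 * tot μ ω + X ω ≤ π / 2 * tot μ ω + π / 2 * tot μ ω := by gcongr
          _ = π * tot μ ω := by
            rw [← add_mul, ENNReal.add_halves]
          _ ≤ _ := h3
      have h5 : (tot w ω)⁻¹ * (π / 2 * (θ * tot w ω)) = π / 2 * θ := by
        calc (tot w ω)⁻¹ * (π / 2 * (θ * tot w ω))
            = π / 2 * θ * ((tot w ω)⁻¹ * tot w ω) := by ring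
          _ = π / 2 * θ := by
            rw [ENNReal.inv_mul_cancel hω.2 (ne_top_of_le_ne_top ENNReal.one_ne_top (hw1 ω)),
              mul_one]
      calc k = ((tot w ω)⁻¹ * (π / 2 * (θ * tot w ω))) ^ 2 := by rw [h5]
        _ = (tot w ω)⁻¹ ^ 2 * (π / 2 * (θ * tot w ω)) ^ 2 := by ring
        _ ≤ (tot w ω)⁻¹ ^ 2 * (mJ A D2 b c μ ω - X ω) ^ 2 := by
            gcongr
            refine le_trans ?_ h4
            gcongr
        _ = f ω := by
            rw [hf]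
            simp only
            rw [hφd, indicator_of_mem hω]
    have h6 : k * P {ω | k ≤ f ω} ≤ ε * P B := by
      refine (mul_meas_ge_le_lintegral hfm k).trans (hvar.trans (hen.trans ?_))
      gcongr
    calc P (B' ∩ {ω | θ * tot w ω ≤ tot μ ω ∧ X ω < π / 2 * tot μ ω})
        ≤ P {ω | k ≤ f ω} := measure_mono hsub
      _ ≤ ε * P B / k := by
          rw [ENNReal.le_div_iff_mul_le (Or.inl hk0) (Or.inl hk1), mul_comm]
          exact h6
      _ = ε / k * P B := by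
          rw [ENNReal.mul_div_right_comm]
  -- union
  have hcomp := comp_J (A := A) hab hbc h123 w
  have hmain : P (B ∩ {ω | tot (rpush A D3 a c w) ω < π / 2 * θ * tot w ω})
      ≤ P ((B' ∩ {ω | tot μ ω < θ * tot w ω}) ∪
        (B' ∩ {ω | θ * tot w ω ≤ tot μ ω ∧ X ω < π / 2 * tot μ ω})) := by
    refine measure_mono_ae ?_
    filter_upwards [hcomp] with ω hω h
    obtain ⟨h1, h2⟩ := h
    have h2' : tot (rpush A D3 a c w) ω < π / 2 * θ * tot w ω := h2
    have h0 : tot w ω ≠ 0 := by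
      intro h0
      rw [h0, mul_zero] at h2'
      exact absurd h2' (not_lt.2 zero_le)
    by_cases h3 : tot μ ω < θ * tot w ω
    · exact Or.inl ⟨⟨h1, h0⟩, h3⟩
    · refine Or.inr ⟨⟨h1, h0⟩, not_lt.1 h3, ?_⟩
      calc X ω ≤ tot (rpush A D3 a c w) ω := hω
        _ < π / 2 * θ * tot w ω := h2'
        _ = π / 2 * (θ * tot w ω) := mul_assoc _ _ _
        _ ≤ π / 2 * tot μ ω := by gcongr; exact not_lt.1 h3
  refine hmain.trans ((measure_union_le _ _).trans ?_)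
  calc _ ≤ (q + ν / p / θ) * P B + ε / k * P B := add_le_add s1 s2
    _ = _ := by rw [← add_mul]

end Crest.Agent.R154.Jump607
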