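import Crest.Agent.R154.Home_903
import Crest.Agent.R154.Rate_582

/-!
Row 154, `d ≥ 3` (helper872), route 263 #36390, HM4: THE ROBUST JUMP on an abstract `KerSys`.

From ANY law at level `a`: diversify for `s` levels (home part), then one natural climb of `n`
levels with a displacement mark; the jump mass is `≥ e^{-x₁ (1 + log (1/δ))}` off probability `δ`.
Second moment with the late pair energy (any kernel `Kf`).
-/

set_option autoImplicit false
set_option linter.unusedSectionVars false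
set_option linter.deprecated false
set_option linter.unusedVariables false

namespace Crest.Agent.R154.Jump872

open MeasureTheory ProbabilityTheory Set Filter
open Crest.Agent.R154.RatioR872 Crest.Agent.R154.RatioR872.KerSys
open Crest.Agent.R154.Home903 Crest.Agent.R154.Rate582
open scoped ENNReal Classical

variable {S : Type*} [Countable S] {Ω : Type*} {m0 : MeasurableSpace Ω} {P : Measure Ω}
variable {A : KerSys S P}

/-- energy of a weight for a pair kernel `Kf` -/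
noncomputable def en (Kf : S → S → ℝ≥0∞) (w : Ω → S → ℝ≥0∞) (ω : Ω) : ℝ≥0∞ :=
  ∑' x, ∑' x', w ω x * w ω x' * Kf x x'

/-- energy after a climb, any pair kernel -/
lemma en_push {a b : ℕ} (hab : a ≤ b) {w : Ω → S → ℝ≥0∞} (hw : A.Wt a w) (Kf : S → S → ℝ≥0∞)
    {φ : Ω → ℝ≥0∞} (hφ : Measurable[A.F a] φ) {ε : ℝ≥0∞}
    (hε : ∀ x ∈ A.L a, ∀ x' ∈ A.L a,
      ∑' z, ∑' z', (∫⁻ ω, A.G a b ω x z * A.G a b ω x' z' ∂P) * Kf z z' ≤ ε) :
    ∫⁻ ω, φ ω * en Kf (A.push a b w) ω ∂P ≤ ε * ∫⁻ ω, φ ω * tot w ω ^ 2 ∂P := by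
  have hφ0 : Measurable φ := hφ.mono (A.F.le a) le_rfl
  have hw0 : ∀ x, Measurable fun ω => w ω x := fun x => (hw.meas x).mono (A.F.le a) le_rfl
  have hG0 : ∀ x z, Measurable fun ω => A.G a b ω x z :=
    fun x z => (A.measH a b x z hab).mono (A.H_le a) le_rfl
  have h1 : ∀ ω, φ ω * en Kf (A.push a b w) ω
      = ∑' x, ∑' x', ∑' z, ∑' z', ((φ ω * w ω x * w ω x') * (A.G a b ω x z * A.G a b ω x' z'))
        * Kf z z' := by
    intro ω
    have e1 : ∀ z z', A.push a b w ω z * A.push a b w ω z' * Kf z z'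
        = ∑' x, ∑' x', (w ω x * w ω x') * (A.G a b ω x z * A.G a b ω x' z') * Kf z z' := by
      intro z z'
      unfold push
      rw [← ENNReal.tsum_mul_right, ← ENNReal.tsum_mul_right]
      refine tsum_congr fun x => ?_
      rw [← ENNReal.tsum_mul_left, ← ENNReal.tsum_mul_right]
      exact tsum_congr fun x' => by ring
    rw [en]
    simp_rw [e1]
    have e2 : ∑' z, ∑' z', ∑' x, ∑' x', (w ω x * w ω x') * (A.G a b ω x z * A.G a b ω x' z')
          * Kf z z'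
        = ∑' x, ∑' x', ∑' z, ∑' z', (w ω x * w ω x') * (A.G a b ω x z * A.G a b ω x' z')
          * Kf z z' := by
      calc _ = ∑' z, ∑' x, ∑' z', ∑' x', (w ω x * w ω x') * (A.G a b ω x z * A.G a b ω x' z')
          * Kf z z' := tsum_congr fun z => ENNReal.tsum_comm
        _ = ∑' x, ∑' z, ∑' z', ∑' x', (w ω x * w ω x') * (A.G a b ω x z * A.G a b ω x' z')
          * Kf z z' := ENNReal.tsum_comm
        _ = ∑' x, ∑' z, ∑' x', ∑' z', (w ω x * w ω x') * (A.G a b ω x z * A.G a b ω x' z')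
          * Kf z z' := tsum_congr fun x => tsum_congr fun z => ENNReal.tsum_comm
        _ = _ := tsum_congr fun x => ENNReal.tsum_comm
    rw [e2, ← ENNReal.tsum_mul_left]
    refine tsum_congr fun x => ?_
    rw [← ENNReal.tsum_mul_left]
    refine tsum_congr fun x' => ?_
    rw [← ENNReal.tsum_mul_left]
    refine tsum_congr fun z => ?_
    rw [← ENNReal.tsum_mul_left]
    exact tsum_congr fun z' => by ring
  have h2 : ∀ ω, φ ω * tot w ω ^ 2 = ∑' x, ∑' x', (φ ω * w ω x * w ω x') := by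
    intro ω
    rw [tot, sq, ← ENNReal.tsum_mul_right, ← ENNReal.tsum_mul_left]
    refine tsum_congr fun x => ?_
    rw [← ENNReal.tsum_mul_left, ← ENNReal.tsum_mul_left]
    exact tsum_congr fun x' => by ring
  have hm2 : ∀ x x', Measurable fun ω => φ ω * w ω x * w ω x' :=
    fun x x' => (hφ0.mul (hw0 x)).mul (hw0 x')
  have hm4 : ∀ x x' z z', Measurable fun ω => ((φ ω * w ω x * w ω x') *
      (A.G a b ω x z * A.G a b ω x' z')) * Kf z z' :=
    fun x x' z z' => ((hm2 x x').mul ((hG0 x z).mul (hG0 x' z'))).mul_const _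
  simp_rw [h1, h2]
  rw [lintegral_tsum (fun x => (Measurable.tsum fun x' => Measurable.tsum fun z =>
      Measurable.tsum fun z' => hm4 x x' z z').aemeasurable),
    lintegral_tsum (fun x => (Measurable.tsum fun x' => hm2 x x').aemeasurable),
    ← ENNReal.tsum_mul_left]
  refine ENNReal.tsum_le_tsum fun x => ?_
  rw [lintegral_tsum (fun x' => (Measurable.tsum fun z =>
      Measurable.tsum fun z' => hm4 x x' z z').aemeasurable),
    lintegral_tsum (fun x' => (hm2 x x').aemeasurable), ← ENNReal.tsum_mul_left]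
  refine ENNReal.tsum_le_tsum fun x' => ?_
  by_cases hx : x ∈ A.L a
  · by_cases hx' : x' ∈ A.L a
    · rw [lintegral_tsum (fun z => (Measurable.tsum fun z' => hm4 x x' z z').aemeasurable)]
      have h5 : ∀ z, ∫⁻ ω, ∑' z', ((φ ω * w ω x * w ω x') *
          (A.G a b ω x z * A.G a b ω x' z')) * Kf z z' ∂P
          = ∑' z', (∫⁻ ω, φ ω * w ω x * w ω x' ∂P) *
            ((∫⁻ ω, A.G a b ω x z * A.G a b ω x' z' ∂P) * Kf z z') := by
        intro z
        rw [lintegral_tsum (fun z' => (hm4 x x' z z').aemeasurable)]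
        refine tsum_congr fun z' => ?_
        have hk1 : Measurable fun ω => (φ ω * w ω x * w ω x') *
            (A.G a b ω x z * A.G a b ω x' z') := (hm2 x x').mul ((hG0 x z).mul (hG0 x' z'))
        have hk2 : Measurable[A.F a] fun ω => φ ω * w ω x * w ω x' :=
          (hφ.mul (hw.meas x)).mul (hw.meas x')
        have hk3 : Measurable[A.H a] fun ω => A.G a b ω x z * A.G a b ω x' z' :=
          (A.measH a b x z hab).mul (A.measH a b x' z' hab)
        rw [lintegral_mul_const _ hk1, A.indep_mul hk2 hk3, mul_assoc]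
      simp_rw [h5, ENNReal.tsum_mul_left]
      rw [mul_comm]
      gcongr
      exact hε x hx x' hx'
    · simp [hw.supp _ x' hx']
  · simp [hw.supp _ x hx]

/-- **variance of a test of the fresh rows** -/
lemma var_test {b : ℕ} {ρ : Ω → S → ℝ≥0∞} (hρ : A.Wt b ρ) (hρ1 : ∀ ω, tot ρ ω ≤ 1)
    {J : S → Ω → ℝ≥0∞} (hJ : ∀ x, Measurable[A.H b] (J x)) (hJ1 : ∀ x ω, J x ω ≤ 1)
    [IsProbabilityMeasure P] {Kf : S → S → ℝ≥0∞}
    (hK : ∀ x ∈ A.L b, ∀ x' ∈ A.L b,
      ∫⁻ ω, J x ω * J x' ω ∂P ≤ (∫⁻ ω, J x ω ∂P) * (∫⁻ ω, J x' ω ∂P) + Kf x x')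
    {φ : Ω → ℝ≥0∞} (hφ : Measurable[A.F b] φ) (hfin : ∫⁻ ω, φ ω * tot ρ ω ^ 2 ∂P ≠ ∞) :
    ∫⁻ ω, φ ω * ((∑' x, ρ ω x * ∫⁻ ω', J x ω' ∂P) - ∑' x, ρ ω x * J x ω) ^ 2 ∂P
      ≤ ∫⁻ ω, φ ω * en Kf ρ ω ∂P := by
  set m : S → ℝ≥0∞ := fun x => ∫⁻ ω', J x ω' ∂P with hm
  set M : Ω → ℝ≥0∞ := fun ω => ∑' x, ρ ω x * m x with hM
  set X : Ω → ℝ≥0∞ := fun ω => ∑' x, ρ ω x * J x ω with hX
  have hφ0 : Measurable φ := hφ.mono (A.F.le b) le_rfl
  have hρ0 : ∀ x, Measurable fun ω => ρ ω x := fun x => (hρ.meas x).mono (A.F.le b) le_rfl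
  have hJ0 : ∀ x, Measurable (J x) := fun x => (hJ x).mono (A.H_le b) le_rfl
  have hm1 : ∀ x, m x ≤ 1 := fun x => by
    calc m x ≤ ∫⁻ _, 1 ∂P := lintegral_mono fun ω => hJ1 x ω
      _ = 1 := by simp
  have hMt : ∀ ω, M ω ≤ tot ρ ω := fun ω => by
    refine ENNReal.tsum_le_tsum fun x => ?_
    calc ρ ω x * m x ≤ ρ ω x * 1 := by gcongr; exact hm1 x
      _ = _ := mul_one _
  have hXt : ∀ ω, X ω ≤ tot ρ ω := fun ω => by
    refine ENNReal.tsum_le_tsum fun x => ?_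
    calc ρ ω x * J x ω ≤ ρ ω x * 1 := by gcongr; exact hJ1 x ω
      _ = _ := mul_one _
  have hMF : Measurable[A.F b] M := Measurable.ennreal_tsum fun x => (hρ.meas x).mul_const _
  have hM0 : Measurable M := hMF.mono (A.F.le b) le_rfl
  have hX0 : Measurable X := Measurable.ennreal_tsum fun x => (hρ0 x).mul (hJ0 x)
  -- mixed moment
  have e1 : ∫⁻ ω, φ ω * M ω * X ω ∂P = ∫⁻ ω, φ ω * M ω ^ 2 ∂P := by
    have h1 : ∀ ω, φ ω * M ω * X ω = ∑' x, (φ ω * M ω * ρ ω x) * J x ω := fun ω => by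
      rw [hX, ← ENNReal.tsum_mul_left]
      exact tsum_congr fun x => by ring
    have h2 : ∀ ω, φ ω * M ω ^ 2 = ∑' x, (φ ω * M ω * ρ ω x) * m x := fun ω => by
      calc φ ω * M ω ^ 2 = (φ ω * M ω) * ∑' x, ρ ω x * m x := by rw [sq]; ring
        _ = _ := by
          rw [← ENNReal.tsum_mul_left]
          exact tsum_congr fun x => by ring
    simp_rw [h1, h2]
    have g1 : ∀ x, Measurable fun ω => φ ω * M ω * ρ ω x * J x ω :=
      fun x => ((hφ0.mul hM0).mul (hρ0 x)).mul (hJ0 x)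
    have g2 : ∀ x, Measurable fun ω => φ ω * M ω * ρ ω x * m x :=
      fun x => ((hφ0.mul hM0).mul (hρ0 x)).mul_const _
    rw [lintegral_tsum (fun x => (g1 x).aemeasurable),
      lintegral_tsum (fun x => (g2 x).aemeasurable)]
    refine tsum_congr fun x => ?_
    have hk1 : Measurable[A.F b] fun ω => φ ω * M ω * ρ ω x := (hφ.mul hMF).mul (hρ.meas x)
    have hk2 : Measurable fun ω => φ ω * M ω * ρ ω x := (hφ0.mul hM0).mul (hρ0 x)
    rw [A.indep_mul hk1 (hJ x), lintegral_mul_const _ hk2]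
  -- second moment
  have e2 : ∫⁻ ω, φ ω * X ω ^ 2 ∂P
      ≤ ∫⁻ ω, φ ω * M ω ^ 2 ∂P + ∫⁻ ω, φ ω * en Kf ρ ω ∂P := by
    have h1 : ∀ ω, φ ω * X ω ^ 2
        = ∑' x, ∑' x', (φ ω * ρ ω x * ρ ω x') * (J x ω * J x' ω) := by
      intro ω
      rw [hX, sq, ← ENNReal.tsum_mul_right, ← ENNReal.tsum_mul_left]
      refine tsum_congr fun x => ?_
      rw [← ENNReal.tsum_mul_left, ← ENNReal.tsum_mul_left]
      exact tsum_congr fun x' => by ring
    have h2 : ∀ ω, φ ω * M ω ^ 2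
        = ∑' x, ∑' x', (φ ω * ρ ω x * ρ ω x') * (m x * m x') := by
      intro ω
      rw [hM, sq, ← ENNReal.tsum_mul_right, ← ENNReal.tsum_mul_left]
      refine tsum_congr fun x => ?_
      rw [← ENNReal.tsum_mul_left, ← ENNReal.tsum_mul_left]
      exact tsum_congr fun x' => by ring
    have h3 : ∀ ω, φ ω * en Kf ρ ω
        = ∑' x, ∑' x', (φ ω * ρ ω x * ρ ω x') * Kf x x' := by
      intro ω
      rw [en, ← ENNReal.tsum_mul_left]
      refine tsum_congr fun x => ?_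
      rw [← ENNReal.tsum_mul_left]
      exact tsum_congr fun x' => by ring
    have hm2 : ∀ x x', Measurable fun ω => φ ω * ρ ω x * ρ ω x' :=
      fun x x' => (hφ0.mul (hρ0 x)).mul (hρ0 x')
    have hm3 : ∀ x x', Measurable fun ω => (φ ω * ρ ω x * ρ ω x') * (J x ω * J x' ω) :=
      fun x x' => (hm2 x x').mul ((hJ0 x).mul (hJ0 x'))
    have hm4 : ∀ x x', Measurable fun ω => (φ ω * ρ ω x * ρ ω x') * (m x * m x') :=
      fun x x' => (hm2 x x').mul_const _
    have hm5 : ∀ x x', Measurable fun ω => (φ ω * ρ ω x * ρ ω x') * Kf x x' :=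
      fun x x' => (hm2 x x').mul_const _
    simp_rw [h1, h2, h3]
    rw [lintegral_tsum (fun x => (Measurable.tsum fun x' => hm3 x x').aemeasurable),
      lintegral_tsum (fun x => (Measurable.tsum fun x' => hm4 x x').aemeasurable),
      lintegral_tsum (fun x => (Measurable.tsum fun x' => hm5 x x').aemeasurable),
      ← ENNReal.tsum_add]
    refine ENNReal.tsum_le_tsum fun x => ?_
    rw [lintegral_tsum (fun x' => (hm3 x x').aemeasurable),
      lintegral_tsum (fun x' => (hm4 x x').aemeasurable),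
      lintegral_tsum (fun x' => (hm5 x x').aemeasurable), ← ENNReal.tsum_add]
    refine ENNReal.tsum_le_tsum fun x' => ?_
    have hk1 : Measurable[A.F b] fun ω => φ ω * ρ ω x * ρ ω x' :=
      (hφ.mul (hρ.meas x)).mul (hρ.meas x')
    have hk2 : Measurable[A.H b] fun ω => J x ω * J x' ω := (hJ x).mul (hJ x')
    rw [A.indep_mul hk1 hk2,
      lintegral_mul_const _ (hm2 x x'), lintegral_mul_const _ (hm2 x x'), ← mul_add]
    by_cases hx : x ∈ A.L b
    · by_cases hx' : x' ∈ A.L b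
      · exact mul_le_mul_right (hK x hx x' hx') _
      · simp [hρ.supp _ x' hx']
    · simp [hρ.supp _ x hx]
  have hfinM : ∫⁻ ω, φ ω * M ω ^ 2 ∂P ≠ ∞ := by
    refine ne_top_of_le_ne_top hfin (lintegral_mono fun ω => ?_)
    gcongr
    exact hMt ω
  have hA1 : Measurable fun ω => φ ω * M ω * X ω := (hφ0.mul hM0).mul hX0
  have hA2 : Measurable fun ω => 2 * (φ ω * M ω * X ω) := hA1.const_mul _
  have hA3 : Measurable fun ω => φ ω * X ω ^ 2 := hφ0.mul (hX0.pow_const 2)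
  have key : 2 * ∫⁻ ω, φ ω * M ω ^ 2 ∂P + ∫⁻ ω, φ ω * (M ω - X ω) ^ 2 ∂P
      ≤ 2 * ∫⁻ ω, φ ω * M ω ^ 2 ∂P + ∫⁻ ω, φ ω * en Kf ρ ω ∂P := by
    calc 2 * ∫⁻ ω, φ ω * M ω ^ 2 ∂P + ∫⁻ ω, φ ω * (M ω - X ω) ^ 2 ∂P
        = ∫⁻ ω, (2 * (φ ω * M ω * X ω) + φ ω * (M ω - X ω) ^ 2) ∂P := by
          rw [lintegral_add_left hA2, lintegral_const_mul _ hA1, e1]
      _ ≤ ∫⁻ ω, (φ ω * X ω ^ 2 + φ ω * M ω ^ 2) ∂P := by
          refine lintegral_mono fun ω => ?_
          have h1 := two_mul_add_sq_le (a := X ω) (b := M ω)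
            (ne_top_of_le_ne_top ENNReal.one_ne_top ((hXt ω).trans (hρ1 ω)))
            (ne_top_of_le_ne_top ENNReal.one_ne_top ((hMt ω).trans (hρ1 ω)))
          calc 2 * (φ ω * M ω * X ω) + φ ω * (M ω - X ω) ^ 2
              = φ ω * (2 * (X ω * M ω) + (M ω - X ω) ^ 2) := by ring
            _ ≤ φ ω * (X ω ^ 2 + M ω ^ 2) := by gcongr
            _ = _ := by ring
      _ = ∫⁻ ω, φ ω * X ω ^ 2 ∂P + ∫⁻ ω, φ ω * M ω ^ 2 ∂P := lintegral_add_left hA3 _
      _ ≤ (∫⁻ ω, φ ω * M ω ^ 2 ∂P + ∫⁻ ω, φ ω * en Kf ρ ω ∂P) + ∫⁻ ω, φ ω * M ω ^ 2 ∂P := by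
          gcongr
      _ = _ := by ring
  exact (ENNReal.add_le_add_iff_left (ENNReal.mul_ne_top (by simp) hfinM)).1 key

/-- the marked mass of one site -/
noncomputable def mk (A : KerSys S P) (D : S → S → Prop) (b c : ℕ) (x : S) (ω : Ω) : ℝ≥0∞ :=
  ∑' y, (if D x y then A.G b c ω x y else 0)

lemma mk_meas {D : S → S → Prop} {b c : ℕ} (hbc : b ≤ c) (x : S) :
    Measurable[A.H b] (mk A D b c x) := by
  unfold mk
  refine Measurable.ennreal_tsum fun y => ?_
  by_cases h : D x y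
  · simpa [h] using A.measH b c x y hbc
  · simp [h]

lemma mk_le {D : S → S → Prop} {b c : ℕ} (hbc : b ≤ c) (x : S) (ω : Ω) : mk A D b c x ω ≤ 1 := by
  refine le_trans (ENNReal.tsum_le_tsum fun y => ?_) (A.mass b c ω x hbc)
  by_cases h : D x y <;> simp [h]

/-- composition of marked pushes -/
lemma tot_rpush_comp {D1 D2 D : S → S → Prop} (hD : ∀ x y z, D1 x y → D2 y z → D x z)
    {a b c : ℕ} (hab : a ≤ b) (hbc : b ≤ c) (w : Ω → S → ℝ≥0∞) :
    ∀ᵐ ω ∂P, ∑' y, rpush A D1 a b w ω y * mk A D2 b c y ω ≤ tot (rpush A D a c w) ω := by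
  filter_upwards [A.comp a b c hab hbc] with ω hω
  rw [tot_rpush]
  have e : ∀ y, rpush A D1 a b w ω y * mk A D2 b c y ω
      = ∑' x, w ω x * ((if D1 x y then A.G a b ω x y else 0) * mk A D2 b c y ω) := by
    intro y
    unfold rpush
    rw [← ENNReal.tsum_mul_right]
    exact tsum_congr fun x => by ring
  simp_rw [e]
  rw [ENNReal.tsum_comm]
  refine ENNReal.tsum_le_tsum fun x => ?_
  rw [ENNReal.tsum_mul_left]
  refine mul_le_mul_right ?_ _
  unfold mk
  simp_rw [← ENNReal.tsum_mul_left]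
  rw [ENNReal.tsum_comm]
  refine ENNReal.tsum_le_tsum fun z => ?_
  by_cases hz : D x z
  · simp only [hz, if_true]
    refine le_trans (ENNReal.tsum_le_tsum fun y => ?_) (hω x z)
    by_cases h1 : D1 x y
    · by_cases h2 : D2 y z
      · simp [h1, h2]
      · simp [h2]
    · simp [h1]
  · simp only [hz, if_false, nonpos_iff_eq_zero]
    rw [ENNReal.tsum_eq_zero]
    intro y
    by_cases h1 : D1 x y
    · by_cases h2 : D2 y z
      · exact absurd (hD x y z h1 h2) hz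
      · simp [h2]
    · simp [h1]

/-- **THE ROBUST JUMP, abstract**: off probability `q + 4ε/(π θ)²` the jump mass is
`≥ (π/2) θ tot w`. -/
theorem jump_abs [IsProbabilityMeasure P] {a b c : ℕ} (hab : a ≤ b) (hbc : b ≤ c)
    {w : Ω → S → ℝ≥0∞} (hw : A.Wt a w) (hw1 : ∀ ω, tot w ω ≤ 1)
    {D1 D2 D : S → S → Prop} (hD : ∀ x y z, D1 x y → D2 y z → D x z)
    {Kf : S → S → ℝ≥0∞}
    (hK : ∀ x ∈ A.L b, ∀ x' ∈ A.L b,
      ∫⁻ ω, mk A D2 b c x ω * mk A D2 b c x' ω ∂P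
        ≤ (∫⁻ ω, mk A D2 b c x ω ∂P) * (∫⁻ ω, mk A D2 b c x' ω ∂P) + Kf x x')
    {ε : ℝ≥0∞} (hε : ∀ x ∈ A.L a, ∀ x' ∈ A.L a,
      ∑' z, ∑' z', (∫⁻ ω, A.G a b ω x z * A.G a b ω x' z' ∂P) * Kf z z' ≤ ε)
    {π θ q : ℝ≥0∞} (hπ0 : π ≠ 0) (hπ1 : π ≤ 1) (hθ0 : θ ≠ 0) (hθ1 : θ ≠ ∞)
    (hmean : ∀ x ∈ A.L b, π ≤ ∫⁻ ω, mk A D2 b c x ω ∂P)
    {B : Set Ω} (hB : MeasurableSet[A.F a] B)
    (hhome : P (B ∩ {ω | tot (rpush A D1 a b w) ω < θ * tot w ω}) ≤ q * P B) :
    P (B ∩ {ω | tot (rpush A D a c w) ω < π / 2 * θ * tot w ω})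
      ≤ (q + 4 * ε / (π * θ) ^ 2) * P B := by
  set ρ := rpush A D1 a b w with hρdef
  have hρ : A.Wt b ρ := rpush_wt hab hw
  have hρpush : ∀ ω x, ρ ω x ≤ A.push a b w ω x := fun ω x => by
    refine ENNReal.tsum_le_tsum fun y => ?_
    by_cases h : D1 y x <;> simp [h]
  have hρt : ∀ ω, tot ρ ω ≤ tot w ω := fun ω =>
    (tot_rpush_le D1 a b w ω).trans (A.tot_push_le hab w ω)
  have hρ1 : ∀ ω, tot ρ ω ≤ 1 := fun ω => (hρt ω).trans (hw1 ω)
  set J : S → Ω → ℝ≥0∞ := fun x ω => mk A D2 b c x ω with hJdef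
  have hJm : ∀ x, Measurable[A.H b] (J x) := fun x => mk_meas hbc x
  have hJ1 : ∀ x ω, J x ω ≤ 1 := fun x ω => mk_le hbc x ω
  set M : Ω → ℝ≥0∞ := fun ω => ∑' x, ρ ω x * ∫⁻ ω', J x ω' ∂P with hM
  set X : Ω → ℝ≥0∞ := fun ω => ∑' x, ρ ω x * J x ω with hX
  -- normalisation
  set B' : Set Ω := B ∩ {ω | tot w ω ≠ 0} with hB'
  have hB'F : MeasurableSet[A.F a] B' :=
    hB.inter ((hw.meas_tot (measurableSet_singleton 0)).compl)
  have hB'0 : MeasurableSet B' := A.F.le a _ hB'F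
  have htt : ∀ ω, tot w ω ≠ ∞ := fun ω => ne_top_of_le_ne_top ENNReal.one_ne_top (hw1 ω)
  set φ : Ω → ℝ≥0∞ := B'.indicator fun ω => (tot w ω ^ 2)⁻¹ with hφdef
  have hφF : Measurable[A.F a] φ := ((hw.meas_tot.pow_const 2).inv).indicator hB'F
  have hφb : Measurable[A.F b] φ := hφF.mono (A.F.mono hab) le_rfl
  have hφt : ∫⁻ ω, φ ω * tot w ω ^ 2 ∂P = P B' := by
    rw [← lintegral_indicator_one hB'0]
    refine lintegral_congr fun ω => ?_
    by_cases hω : ω ∈ B'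
    · simp only [hφdef, indicator_of_mem hω, Pi.one_apply]
      exact ENNReal.inv_mul_cancel (pow_ne_zero 2 hω.2) (ENNReal.pow_ne_top (htt ω))
    · simp [hφdef, indicator_of_notMem hω]
  have hfin : ∫⁻ ω, φ ω * tot ρ ω ^ 2 ∂P ≠ ∞ := by
    refine ne_top_of_le_ne_top (measure_ne_top P B') (hφt ▸ lintegral_mono fun ω => ?_)
    gcongr
    exact hρt ω
  have hv := var_test hρ hρ1 hJm hJ1 hK hφb hfin
  have hen : ∫⁻ ω, φ ω * en Kf ρ ω ∂P ≤ ε * P B := by
    calc ∫⁻ ω, φ ω * en Kf ρ ω ∂P ≤ ∫⁻ ω, φ ω * en Kf (A.push a b w) ω ∂P := by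
          refine lintegral_mono fun ω => mul_le_mul_right ?_ _
          refine ENNReal.tsum_le_tsum fun x => ENNReal.tsum_le_tsum fun x' => ?_
          gcongr
          · exact hρpush ω x
          · exact hρpush ω x'
      _ ≤ ε * ∫⁻ ω, φ ω * tot w ω ^ 2 ∂P := en_push hab hw Kf hφF hε
      _ ≤ ε * P B := by rw [hφt]; gcongr; exact inter_subset_left
  -- Chebyshev
  have hXm : Measurable X := Measurable.ennreal_tsum fun x =>
    ((hρ.meas x).mono (A.F.le b) le_rfl).mul ((hJm x).mono (A.H_le b) le_rfl)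
  have hρm : Measurable fun ω => tot ρ ω := (hρ.meas_tot).mono (A.F.le b) le_rfl
  have hwm : Measurable fun ω => tot w ω := (hw.meas_tot).mono (A.F.le a) le_rfl
  set E : Set Ω := {ω | θ * tot w ω ≤ tot ρ ω ∧ X ω < π / 2 * θ * tot w ω} with hE
  have hEm : MeasurableSet E :=
    (measurableSet_le (hwm.const_mul _) hρm).inter (measurableSet_lt hXm (hwm.const_mul _))
  have hπt : π ≠ ∞ := ne_top_of_le_ne_top ENNReal.one_ne_top hπ1
  have l1 : (π * θ) ^ 2 / 4 * P (B' ∩ E) ≤ ε * P B := by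
    refine le_trans ?_ (hv.trans hen)
    rw [← lintegral_indicator_one (hB'0.inter hEm),
      ← lintegral_const_mul _ (measurable_one.indicator (hB'0.inter hEm))]
    refine lintegral_mono fun ω => ?_
    by_cases hω : ω ∈ B' ∩ E
    · rw [indicator_of_mem hω]
      simp only [Pi.one_apply, mul_one, hφdef, indicator_of_mem hω.1]
      have hMge : π * tot ρ ω ≤ M ω := by
        rw [tot, ← ENNReal.tsum_mul_left]
        refine ENNReal.tsum_le_tsum fun x => ?_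
        by_cases hx : x ∈ A.L b
        · rw [mul_comm]
          gcongr
          exact hmean x hx
        · simp [hρ.supp _ x hx]
      have h2 : π * (θ * tot w ω) ≤ M ω := (mul_le_mul_right hω.2.1 π).trans hMge
      have h3 : X ω ≤ π * (θ * tot w ω) / 2 := by
        refine hω.2.2.le.trans (le_of_eq ?_)
        rw [ENNReal.div_eq_inv_mul, ENNReal.div_eq_inv_mul]
        ring
      have h4 : π * (θ * tot w ω) / 2 ≤ M ω - X ω := by
        have hzt : π * (θ * tot w ω) ≠ ∞ :=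
          ENNReal.mul_ne_top hπt (ENNReal.mul_ne_top hθ1 (htt ω))
        refine ENNReal.le_sub_of_add_le_right
          (ne_top_of_le_ne_top (ENNReal.div_ne_top hzt (by norm_num)) h3) ?_
        calc π * (θ * tot w ω) / 2 + X ω
            ≤ π * (θ * tot w ω) / 2 + π * (θ * tot w ω) / 2 := by gcongr
          _ = π * (θ * tot w ω) := ENNReal.add_halves _
          _ ≤ M ω := h2
      calc (π * θ) ^ 2 / 4 = (tot w ω ^ 2)⁻¹ * (π * (θ * tot w ω) / 2) ^ 2 := by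
            have h5 : (π * (θ * tot w ω) / 2) ^ 2 = (π * θ) ^ 2 / 4 * tot w ω ^ 2 := by
              rw [ENNReal.div_eq_inv_mul, ENNReal.div_eq_inv_mul]
              have : ((2:ℝ≥0∞)⁻¹) ^ 2 = 4⁻¹ := by
                rw [← ENNReal.inv_pow]; norm_num
              rw [← this]
              ring
            rw [h5, mul_comm ((π * θ) ^ 2 / 4), ← mul_assoc,
              ENNReal.inv_mul_cancel (pow_ne_zero 2 hω.1.2) (ENNReal.pow_ne_top (htt ω)), one_mul]
        _ ≤ _ := by gcongr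
    · rw [indicator_of_notMem hω]
      simp
  have hπθ0 : (π * θ) ^ 2 ≠ 0 := pow_ne_zero 2 (mul_ne_zero hπ0 hθ0)
  have hπθt : (π * θ) ^ 2 ≠ ∞ := ENNReal.pow_ne_top (ENNReal.mul_ne_top hπt hθ1)
  have l2 : P (B' ∩ E) ≤ 4 * ε / (π * θ) ^ 2 * P B := by
    rw [← ENNReal.mul_div_right_comm, ENNReal.le_div_iff_mul_le (Or.inl hπθ0) (Or.inl hπθt)]
    calc P (B' ∩ E) * (π * θ) ^ 2 = 4 * ((π * θ) ^ 2 / 4 * P (B' ∩ E)) := by
          rw [← mul_assoc, ENNReal.mul_div_cancel (by norm_num) (by norm_num), mul_comm]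
      _ ≤ 4 * (ε * P B) := by gcongr
      _ = _ := by ring
  -- union
  have hsub : (B ∩ {ω | tot (rpush A D a c w) ω < π / 2 * θ * tot w ω} : Set Ω)
      ≤ᵐ[P] ((B ∩ {ω | tot ρ ω < θ * tot w ω}) ∪ (B' ∩ E) : Set Ω) := by
    filter_upwards [tot_rpush_comp hD hab hbc w] with ω hω h
    have h' : ω ∈ (B ∩ {ω | tot (rpush A D a c w) ω < π / 2 * θ * tot w ω} : Set Ω) := h
    obtain ⟨h1, h2⟩ := h'
    change ω ∈ ((B ∩ {ω | tot ρ ω < θ * tot w ω}) ∪ (B' ∩ E) : Set Ω)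
    have h0 : tot w ω ≠ 0 := by
      intro h0
      simp only [Set.mem_setOf_eq, h0, mul_zero, not_lt_zero] at h2
    by_cases h3 : tot ρ ω < θ * tot w ω
    · exact Or.inl ⟨h1, h3⟩
    · exact Or.inr ⟨⟨h1, h0⟩, not_lt.1 h3, lt_of_le_of_lt hω h2⟩
  refine (measure_mono_ae hsub).trans ((measure_union_le _ _).trans ?_)
  rw [add_mul]
  exact add_le_add hhome l2

end Crest.Agent.R154.Jump872
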