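import Crest.Agent.R154.JumpR_618
import Crest.Agent.R154.RateT_582
import Crest.Agent.R154.SE_424

/-! Row 154, d >= 3, home-mass route (263 #36390), HM4 complete (helper618):
`JUMP (kT ..)` (872's literal, contract file HomeDoc_74) from 582's rate, 424's late contacts and
the second moment of marked climbs. -/

set_option autoImplicit false
set_option linter.unusedSectionVars false
set_option linter.deprecated false

namespace Crest.Agent.R154.JumpF618

open MeasureTheory ProbabilityTheory Set Filter Crest.ProbabilityR.RandomEnvironment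
open Crest.Agent.R154.Mk561 (kf)
open Crest.Agent.R154.RatioR872 Crest.Agent.R154.RatioR872.KerSys
open Crest.Agent.R154.Home903 Crest.Agent.R154.Rate582
open Crest.Agent.R154.JumpK618 Crest.Agent.R154.JumpR618
open Crest.Agent.R154.Doc74 (TailH Hm Jp JumpTail JumpAt JUMP)
open scoped ENNReal

section abs

variable {S : Type*} [Countable S] {Ω : Type*} {m0 : MeasurableSpace Ω} {P : Measure Ω}

/-- **JUMP** on a kernel system with an exponential rate, small energies and marks. -/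
theorem jump_of [IsProbabilityMeasure P] (A : KerSys S P) {lam0 C : ℝ} (hl : 0 < lam0)
    (hC : 1 ≤ C)
    (hrate : ∀ (n : ℕ), ∀ x : ℝ, 0 ≤ x → TL A n (ENNReal.ofReal (Real.exp (-x)))
        (ENNReal.ofReal (C * Real.exp (-lam0 * x))))
    {p : ℝ≥0∞} (hp0 : p ≠ 0) (hp1 : p ≤ 1) (hp : ∀ k, p ≤ A.h k)
    {n0 : ℕ → ℝ≥0∞ → ℕ} (hSE : A.SmallEnergy n0)
    (hMark : ∀ (D : S → S → Prop) (b c : ℕ), b ≤ c →
      ∃ m : S → ℝ≥0∞, MarkV A b c (Jm A D b c) m) : JUMP A := by
  classical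
  intro π hπ0 hπ1
  have hπt : π ≠ ∞ := ne_top_of_le_ne_top ENNReal.one_ne_top hπ1
  set πr : ℝ := π.toReal with hπr
  have hπr0 : 0 < πr := ENNReal.toReal_pos hπ0 hπt
  have hπr1 : πr ≤ 1 := by
    have := ENNReal.toReal_mono ENNReal.one_ne_top hπ1
    simpa using this
  have hπe : π = ENNReal.ofReal πr := (ENNReal.ofReal_toReal hπt).symm
  have hlogC : 0 ≤ Real.log (3 * C) := Real.log_nonneg (by linarith)
  have hlogπ : 0 ≤ Real.log (4 / πr) := by
    refine Real.log_nonneg ?_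
    rw [le_div_iff₀ hπr0]; linarith
  have hil : 0 < 1 / lam0 := by positivity
  refine ⟨1 / lam0 + Real.log (3 * C) / lam0 + Real.log (4 / πr), by positivity, ?_⟩
  intro δ hδ0 hδ1
  have hL0 : 0 ≤ Real.log (1 / δ) := by
    refine Real.log_nonneg ?_
    rw [le_div_iff₀ hδ0]; linarith
  set Lg := Real.log (1 / δ) with hLg
  set X : ℝ := (Real.log (3 * C) + Lg) / lam0 with hX
  have hX0 : 0 ≤ X := by positivity
  set t : ℝ≥0∞ := ENNReal.ofReal (Real.exp (-X) / 2) with ht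
  have ht0 : t ≠ 0 := by
    rw [ht]; exact (ENNReal.ofReal_pos.2 (by positivity)).ne'
  have htt : t ≠ ∞ := ENNReal.ofReal_ne_top
  have h2t : 2 * t = ENNReal.ofReal (Real.exp (-X)) := by
    rw [ht, show (2 : ℝ≥0∞) = ENNReal.ofReal 2 by simp, ← ENNReal.ofReal_mul (by norm_num)]
    congr 1; ring
  have hq : C * Real.exp (-lam0 * X) = δ / 3 := by
    have e1 : -lam0 * X = -Real.log (3 * C) - Lg := by
      rw [hX]; field_simp; ring
    rw [e1, Real.exp_sub, Real.exp_neg, Real.exp_log (by linarith), hLg,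
      Real.exp_log (by positivity)]
    field_simp
  set e3 : ℝ≥0∞ := ENNReal.ofReal (δ / 3) with he3
  have he30 : e3 ≠ 0 := by rw [he3]; exact (ENNReal.ofReal_pos.2 (by positivity)).ne'
  have he3t : e3 ≠ ∞ := ENNReal.ofReal_ne_top
  have hpt : p ≠ ∞ := ne_top_of_le_ne_top ENNReal.one_ne_top hp1
  have hpt0 : p * t ≠ 0 := mul_ne_zero hp0 ht0
  have hptt : p * t ≠ ∞ := ENNReal.mul_ne_top hpt htt
  have hπt0 : (π * t) ^ 2 ≠ 0 := pow_ne_zero _ (mul_ne_zero hπ0 ht0)
  have hπtt : (π * t) ^ 2 ≠ ∞ := ENNReal.pow_ne_top (ENNReal.mul_ne_top hπt htt)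
  refine ⟨e3 * (p * t), mul_ne_zero he30 hpt0, ?_⟩
  intro r
  set ε : ℝ≥0∞ := e3 * (π * t) ^ 2 / 4 with hε
  have hε0 : ε ≠ 0 := by
    rw [hε]
    exact (ENNReal.div_pos (mul_ne_zero he30 hπt0) (by norm_num)).ne'
  refine ⟨n0 r ε, ?_⟩
  intro s hs n hn φ Δ hJT hTH L w B hB hw hw1
  obtain ⟨m, hJ⟩ := hMark (Jp φ (2 * Δ)) (L + s) (L + s + n) (Nat.le_add_right _ _)
  have hπm : ∀ x ∈ A.L (L + s), π ≤ m x := by
    intro x hx
    rw [← hJ.first x hx]
    exact hJT (L + s) x hx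
  have hT : TL A s (2 * t) (ENNReal.ofReal (δ / 3)) := by
    have := hrate s X hX0
    rw [hq] at this
    rw [h2t]
    exact this
  have h := jump_rel (A := A) (a := L) (s := s) (n := n) (φ := φ) (Δ := Δ) hJ hπm hπ0 hπt ht0 htt
    hT hTH hp0 hp1 hp (ε := ε)
    (hSE r ε hε0 s hs L (L + s + n) (Nat.le_add_right _ _) (by omega)) hw hw1 hB
  have hsum : ENNReal.ofReal (δ / 3) + e3 * (p * t) / (p * t) + 4 * ε / (π * t) ^ 2
      = ENNReal.ofReal δ := by
    have a1 : e3 * (p * t) / (p * t) = e3 := ENNReal.mul_div_cancel_right hpt0 hptt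
    have a2 : 4 * ε = e3 * (π * t) ^ 2 := by
      rw [hε]; exact ENNReal.mul_div_cancel (by norm_num) (by norm_num)
    have a3 : 4 * ε / (π * t) ^ 2 = e3 := by
      rw [a2]; exact ENNReal.mul_div_cancel_right hπt0 hπtt
    rw [a1, a3, he3, ← ENNReal.ofReal_add (by positivity) (by positivity),
      ← ENNReal.ofReal_add (by positivity) (by positivity)]
    congr 1; ring
  rw [hsum] at h
  refine le_trans (measure_mono ?_) h
  rintro ω ⟨hωB, hω⟩
  refine ⟨hωB, ?_⟩
  change tot (rpush A (Jp φ Δ) L (L + s + n) w) ω < π * t / 2 * tot w ω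
  have hω' : tot (rpush A (Jp φ Δ) L (L + (s + n)) w) ω
      < ENNReal.ofReal (Real.exp (-((1 / lam0 + Real.log (3 * C) / lam0 + Real.log (4 / πr))
      * (1 + Lg)))) * tot w ω := hω
  rw [← Nat.add_assoc] at hω'
  refine lt_of_lt_of_le hω' ?_
  · gcongr ?_ * _
    have e1 : π * t / 2 = ENNReal.ofReal (πr * (Real.exp (-X) / 2) / 2) := by
      rw [hπe, ht, ← ENNReal.ofReal_mul hπr0.le, ENNReal.ofReal_div_of_pos (by norm_num)]
      simp
    rw [e1]
    refine ENNReal.ofReal_le_ofReal ?_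
    have e2 : πr * (Real.exp (-X) / 2) / 2 = Real.exp (-(X + Real.log (4 / πr))) := by
      rw [neg_add, Real.exp_add, Real.exp_neg (Real.log (4 / πr)), Real.exp_log (by positivity)]
      field_simp
      norm_num
    rw [e2]
    refine Real.exp_le_exp.2 (neg_le_neg ?_)
    have e3' : (1 / lam0 + Real.log (3 * C) / lam0 + Real.log (4 / πr)) * (1 + Lg)
        = (X + Real.log (4 / πr)) + (1 / lam0 + (Real.log (3 * C) / lam0) * Lg
          + Real.log (4 / πr) * Lg) := by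
      rw [hX]; field_simp; ring
    rw [e3']
    have : 0 ≤ 1 / lam0 + (Real.log (3 * C) / lam0) * Lg + Real.log (4 / πr) * Lg := by
      positivity
    linarith

/-- `JUMP` does not see the energy -/
theorem jump_congr {A A' : KerSys S P} (hF : A.F = A'.F) (hH : A.H = A'.H) (hL : A.L = A'.L)
    (hG : A.G = A'.G) (h : JUMP A) : JUMP A' := by
  have hN : ∀ a b ω x, A.N a b ω x = A'.N a b ω x := by
    intro a b ω x; unfold KerSys.N; rw [hG]
  have hr : ∀ D a b w ω, tot (rpush A D a b w) ω = tot (rpush A' D a b w) ω := by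
    intro D a b w ω; unfold tot rpush; rw [hG]
  intro π hπ0 hπ1
  obtain ⟨x1, hx1, h1⟩ := h π hπ0 hπ1
  refine ⟨x1, hx1, fun δ hδ0 hδ1 => ?_⟩
  obtain ⟨ν, hν, h2⟩ := h1 δ hδ0 hδ1
  refine ⟨ν, hν, fun r => ?_⟩
  obtain ⟨s0, h3⟩ := h2 r
  refine ⟨s0, fun s hs n hn φ Δ hJT hTH L w B hB hw hw1 => ?_⟩
  have hJT' : JumpTail A φ n (2 * Δ) π := by
    intro a x hx
    rw [hL] at hx
    have := hJT a x hx
    rw [← hG] at this
    exact this
  have hTH' : TailH A φ s Δ ν := by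
    intro a c hac hc
    obtain ⟨Bd, g1, g2, g3⟩ := hTH a c hac hc
    rw [← hH] at g1
    rw [← hL] at g2 g3
    refine ⟨Bd, g1, g2, fun b hab hbc => ?_⟩
    filter_upwards [g3 b hab hbc] with ω hω x hx
    have := hω x hx
    simp_rw [← hN, ← hG] at this
    exact this
  have hw' : A.Wt L w := by
    refine ⟨fun x => ?_, fun ω x hx => ?_⟩
    · rw [hF]; exact hw.meas x
    · rw [hL] at hx; exact hw.supp ω x hx
  have hB' : MeasurableSet[A.F L] B := by rw [hF]; exact hB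
  have := h3 s hs n hn φ Δ hJT' hTH' L w B hB' hw' hw1
  simp_rw [hr] at this
  exact this

end abs

section inst

variable {d : ℕ}

/-- marks of an arbitrary relation on `kS` -/
theorem markV_kS (u : Step d) (R : ℕ) (κ : ℝ) (Q : Measure (Environment d))
    [IsProbabilityMeasure Q] (hstat : ∀ z : Site d, MeasurePreserving (shiftEnv z) Q Q)
    (hR : IsFiniteRangeDependent Q R) (D : Site d → Site d → Prop) (b c : ℕ) (hbc : b ≤ c) :
    ∃ m : Site d → ℝ≥0∞, MarkV (kS u R κ Q hstat hR) b c (Jm (kS u R κ Q hstat hR) D b c) m := by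
  classical
  have hJ : ∀ x, Flux132.lev u x = b → ∀ ω, Jm (kS u R κ Q hstat hR) D b c ω x
      = Nd u R κ {z | D x (x + z)} c ω x := by
    intro x hx ω
    rw [Nd_kS u R κ Q hstat hR {z | D x (x + z)} ω hx]
    unfold Jm
    refine tsum_congr fun y => ?_
    have : (y - x ∈ {z | D x (x + z)}) ↔ D x y := by
      simp only [mem_setOf_eq, add_sub_cancel]
    by_cases h : D x y
    · rw [if_pos h, if_pos (this.2 h)]
    · rw [if_neg h, if_neg (fun h' => h (this.1 h'))]
  refine ⟨fun x => hD u R κ Q {z | D x (x + z)} (c - b), ?_⟩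
  refine ⟨fun x hx => ?_, fun ω x => ?_, fun x _ => hD_le_one u R κ Q _ _, fun x hx => ?_,
    fun x hx x' hx' => ?_⟩
  · have h0 := meas_Nd_H u R κ {z | D x (x + z)} (c : ℤ) (a := b) (x := x) hx
    have e : (fun ω => Jm (kS u R κ Q hstat hR) D b c ω x)
        = fun ω => Nd u R κ {z | D x (x + z)} c ω x := funext fun ω => hJ x hx ω
    rw [e]
    exact h0
  · refine le_trans ?_ ((kS u R κ Q hstat hR).mass b c ω x hbc)
    unfold Jm
    refine ENNReal.tsum_le_tsum fun y => ?_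
    split_ifs
    · exact le_rfl
    · exact zero_le
  · simp_rw [hJ x hx]
    exact first_mark u R κ Q hstat _ hbc hx
  · simp_rw [hJ x hx, hJ x' hx']
    exact second_mark u R κ Q hstat hR _ _ b c x x' hbc hx hx'

variable {Q : Measure (Environment d)} [IsProbabilityMeasure Q] {κ : ℝ} {R : ℕ}

/-- the rate on `kS` -/
theorem rate_kS (F : Bind263.Frame Q κ R) (u : Step d)
    (hA : annealedProb Q 0 (escapeEvent (B2d.dirVec u)) ≠ 0) (hk : 0 < kf d κ) :
    ∃ lam0 C : ℝ, 0 < lam0 ∧ 1 ≤ C ∧ ∀ (n : ℕ), ∀ x : ℝ, 0 ≤ x →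
      TL (kS u R κ Q F.stat F.fin) n (ENNReal.ofReal (Real.exp (-x)))
        (ENNReal.ofReal (C * Real.exp (-lam0 * x))) := by
  obtain ⟨lam0, C, h1, h2, h3⟩ := RateT582.rate_real F u hA hk
  refine ⟨lam0, C, h1, h2, fun n x hx a w hw hw1 B hB => ?_⟩
  exact h3 n x hx a w ⟨hw.meas, hw.supp⟩ hw1 B hB

/-- **HM4: JUMP on `kT`**, no open input. -/
theorem jump_kT (F : Bind263.Frame Q κ R) (hd : 3 ≤ d) {u : Step d}
    (hA : annealedProb Q 0 (escapeEvent (B2d.dirVec u)) ≠ 0) (hc : KB424.Half κ Q)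
    (hk : 0 < kf d κ) : JUMP (D2Asm244.kT u R κ Q F.stat F.fin) := by
  obtain ⟨lam0, C, hl, hC, hrate⟩ := rate_kS F u hA hk
  obtain ⟨n0, hSE⟩ := KB424.smallE F hd hA hc
  set p : ℝ≥0∞ := ∫⁻ ω, Tile872.rho u R κ ω 0 ∂Q with hp
  have hph : ∀ k, p ≤ (D2Asm244.kT u R κ Q F.stat F.fin).h k := fun k => D2Asm244.h_ge F u k
  have hp1 : p ≤ 1 := (hph 0).trans (D2Asm244.h_le F u 0)
  have hp0 : p ≠ 0 := by
    rw [hp]
    intro h0
    rw [lintegral_eq_zero_iff (Tile872.measurable_rho u R κ 0)] at h0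
    have h1 := D2Asm244.rho_pos_all F u hA
    have h2 : ∀ᵐ ω ∂Q, False := by
      filter_upwards [h0, h1] with ω h3 h4
      exact h4 0 h3
    rw [Filter.eventually_false_iff_eq_bot, ae_eq_bot] at h2
    exact IsProbabilityMeasure.ne_zero Q h2
  have hJ : JUMP (kS u R κ Q F.stat F.fin) :=
    jump_of (kS u R κ Q F.stat F.fin) hl hC hrate hp0 hp1 hph hSE
      (fun D b c hbc => markV_kS u R κ Q F.stat F.fin D b c hbc)
  exact jump_congr (A := kS u R κ Q F.stat F.fin) (A' := D2Asm244.kT u R κ Q F.stat F.fin)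
    rfl rfl rfl rfl hJ

end inst

end Crest.Agent.R154.JumpF618
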