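import Crest.Agent.R154.JumpK_618
import Crest.Agent.R154.HomeC_903
import Crest.Agent.R154.Rate_582
import Crest.Agent.R154.HomeDoc_74

/-! Row 154, d >= 3, home-mass route (263 #36390), HM4 (helper618): the robust jump in the form of
872's literal `JUMP`, for an arbitrary lateral coordinate, on any kernel system with
(rate) 582's exponential rate, (energy) late contacts, (marks) second moment of marked climbs. -/

set_option autoImplicit false
set_option linter.unusedSectionVars false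
set_option linter.deprecated false

namespace Crest.Agent.R154.JumpR618

open MeasureTheory ProbabilityTheory Set Filter
open Crest.Agent.R154.RatioR872 Crest.Agent.R154.RatioR872.KerSys
open Crest.Agent.R154.Home903 Crest.Agent.R154.Rate582
open Crest.Agent.R154.JumpK618 (Xm Xm_le_tot meas_term meas_Xm)
open Crest.Agent.R154.Doc74 (TailH Hm Jp Hm_Jp)
open scoped ENNReal

variable {S : Type*} [Countable S] {Ω : Type*} {m0 : MeasurableSpace Ω} {P : Measure Ω}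

/-- marked mass with a start-dependent mean `m` -/
structure MarkV (A : KerSys S P) (b c : ℕ) (J : Ω → S → ℝ≥0∞) (m : S → ℝ≥0∞) : Prop where
  measH : ∀ x ∈ A.L b, Measurable[A.H b] fun ω => J ω x
  le_one : ∀ ω x, J ω x ≤ 1
  mle_one : ∀ x ∈ A.L b, m x ≤ 1
  first : ∀ x ∈ A.L b, ∫⁻ ω, J ω x ∂P = m x
  second : ∀ x ∈ A.L b, ∀ x' ∈ A.L b, ∫⁻ ω, J ω x * J ω x' ∂P ≤ m x * m x' + A.K b c x x'

variable {A : KerSys S P}

/-- mean of the marked mass given the weight -/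
noncomputable def Mw (w : Ω → S → ℝ≥0∞) (m : S → ℝ≥0∞) (ω : Ω) : ℝ≥0∞ := ∑' x, w ω x * m x

lemma meas_Mw {b : ℕ} {w : Ω → S → ℝ≥0∞} (hw : A.Wt b w) (m : S → ℝ≥0∞) :
    Measurable[A.F b] (Mw w m) := by
  unfold Mw
  exact Measurable.ennreal_tsum fun x => (hw.meas x).mul (@measurable_const _ _ _ (A.F b) (m x))

lemma Mw_le {b : ℕ} {w : Ω → S → ℝ≥0∞} (hw : A.Wt b w) {m : S → ℝ≥0∞}
    (hm : ∀ x ∈ A.L b, m x ≤ 1) (ω : Ω) : Mw w m ω ≤ tot w ω := by
  unfold Mw tot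
  refine ENNReal.tsum_le_tsum fun x => ?_
  by_cases hx : x ∈ A.L b
  · calc w ω x * m x ≤ w ω x * 1 := by gcongr; exact hm x hx
      _ = w ω x := mul_one _
  · rw [hw.supp ω x hx, zero_mul]

lemma le_Mw {b : ℕ} {w : Ω → S → ℝ≥0∞} (hw : A.Wt b w) {m : S → ℝ≥0∞} {π : ℝ≥0∞}
    (hm : ∀ x ∈ A.L b, π ≤ m x) (ω : Ω) : π * tot w ω ≤ Mw w m ω := by
  unfold Mw tot
  rw [← ENNReal.tsum_mul_left]
  refine ENNReal.tsum_le_tsum fun x => ?_
  by_cases hx : x ∈ A.L b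
  · rw [mul_comm]; gcongr; exact hm x hx
  · rw [hw.supp ω x hx, mul_zero, zero_mul]

lemma xm_first {b c : ℕ} {J : Ω → S → ℝ≥0∞} {m : S → ℝ≥0∞} (hJ : MarkV A b c J m)
    {w : Ω → S → ℝ≥0∞} (hw : A.Wt b w) {φ : Ω → ℝ≥0∞} (hφ : Measurable[A.F b] φ) :
    ∫⁻ ω, φ ω * Xm w J ω ∂P = ∫⁻ ω, φ ω * Mw w m ω ∂P := by
  have hφ0 : Measurable φ := hφ.mono (A.F.le b) le_rfl
  have h1 : ∀ ω, φ ω * Xm w J ω = ∑' x, φ ω * (w ω x * J ω x) := by
    intro ω
    rw [Xm, ← ENNReal.tsum_mul_left]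
  have h2 : ∀ ω, φ ω * Mw w m ω = ∑' x, φ ω * (w ω x * m x) := by
    intro ω
    rw [Mw, ← ENNReal.tsum_mul_left]
  have hJ0 : ∀ x ∈ A.L b, Measurable fun ω => J ω x :=
    fun x hx => (hJ.measH x hx).mono (A.H_le b) le_rfl
  simp_rw [h1, h2]
  rw [lintegral_tsum, lintegral_tsum]
  · refine tsum_congr fun x => ?_
    by_cases hx : x ∈ A.L b
    · have hm1 : Measurable[A.F b] fun ω => φ ω * w ω x := hφ.mul (hw.meas x)
      have e : ∀ ω, φ ω * (w ω x * J ω x) = (φ ω * w ω x) * J ω x := fun ω => by ring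
      have e' : ∀ ω, φ ω * (w ω x * m x) = (φ ω * w ω x) * m x := fun ω => by ring
      simp_rw [e, e']
      rw [A.indep_mul hm1 (hJ.measH x hx), hJ.first x hx,
        lintegral_mul_const _ (hm1.mono (A.F.le b) le_rfl)]
    · simp [hw.supp _ x hx]
  · intro x
    exact (hφ0.mul (((hw.meas x).mono (A.F.le b) le_rfl).mul_const _)).aemeasurable
  · intro x
    exact (hφ0.mul (meas_term hw (A.F.le b) hJ0 x)).aemeasurable

lemma xm_second {b c : ℕ} {J : Ω → S → ℝ≥0∞} {m : S → ℝ≥0∞} (hJ : MarkV A b c J m)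
    {w : Ω → S → ℝ≥0∞} (hw : A.Wt b w) {φ : Ω → ℝ≥0∞} (hφ : Measurable[A.F b] φ) :
    ∫⁻ ω, φ ω * Xm w J ω ^ 2 ∂P
      ≤ ∫⁻ ω, φ ω * Mw w m ω ^ 2 ∂P + ∫⁻ ω, φ ω * A.energy b c w ω ∂P := by
  have hφ0 : Measurable φ := hφ.mono (A.F.le b) le_rfl
  have hw0 : ∀ x, Measurable fun ω => w ω x := fun x => (hw.meas x).mono (A.F.le b) le_rfl
  have hJ0 : ∀ x ∈ A.L b, Measurable fun ω => J ω x :=
    fun x hx => (hJ.measH x hx).mono (A.H_le b) le_rfl
  have hwJ : ∀ x, Measurable fun ω => w ω x * J ω x :=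
    fun x => meas_term hw (A.F.le b) hJ0 x
  have h1 : ∀ ω, φ ω * Xm w J ω ^ 2
      = ∑' x, ∑' x', φ ω * ((w ω x * J ω x) * (w ω x' * J ω x')) := by
    intro ω
    rw [Xm, sq, ← ENNReal.tsum_mul_right, ← ENNReal.tsum_mul_left]
    refine tsum_congr fun x => ?_
    rw [← ENNReal.tsum_mul_left, ← ENNReal.tsum_mul_left]
  have h2 : ∀ ω, φ ω * Mw w m ω ^ 2
      = ∑' x, ∑' x', (φ ω * w ω x * w ω x') * (m x * m x') := by
    intro ω
    rw [Mw, sq, ← ENNReal.tsum_mul_right, ← ENNReal.tsum_mul_left]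
    refine tsum_congr fun x => ?_
    rw [← ENNReal.tsum_mul_left, ← ENNReal.tsum_mul_left]
    exact tsum_congr fun x' => by ring
  have h3 : ∀ ω, φ ω * A.energy b c w ω
      = ∑' x, ∑' x', (φ ω * w ω x * w ω x') * A.K b c x x' := by
    intro ω
    rw [KerSys.energy, ← ENNReal.tsum_mul_left]
    refine tsum_congr fun x => ?_
    rw [← ENNReal.tsum_mul_left]
    exact tsum_congr fun x' => by ring
  have hm2 : ∀ x x', Measurable fun ω => φ ω * w ω x * w ω x' :=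
    fun x x' => (hφ0.mul (hw0 x)).mul (hw0 x')
  have hm3 : ∀ x x', Measurable fun ω =>
      φ ω * ((w ω x * J ω x) * (w ω x' * J ω x')) :=
    fun x x' => hφ0.mul ((hwJ x).mul (hwJ x'))
  have hm4 : ∀ x x', Measurable fun ω => (φ ω * w ω x * w ω x') * A.K b c x x' :=
    fun x x' => (hm2 x x').mul_const _
  have hm5 : ∀ x x', Measurable fun ω => (φ ω * w ω x * w ω x') * (m x * m x') :=
    fun x x' => (hm2 x x').mul_const _
  have hF2 : ∀ x x', Measurable[A.F b] fun ω => φ ω * w ω x * w ω x' :=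
    fun x x' => (hφ.mul (hw.meas x)).mul (hw.meas x')
  simp_rw [h1, h2, h3]
  rw [lintegral_tsum (fun x => (Measurable.tsum fun x' => hm3 x x').aemeasurable),
    lintegral_tsum (fun x => (Measurable.tsum fun x' => hm5 x x').aemeasurable),
    lintegral_tsum (fun x => (Measurable.tsum fun x' => hm4 x x').aemeasurable),
    ← ENNReal.tsum_add]
  refine ENNReal.tsum_le_tsum fun x => ?_
  rw [lintegral_tsum (fun x' => (hm3 x x').aemeasurable),
    lintegral_tsum (fun x' => (hm5 x x').aemeasurable),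
    lintegral_tsum (fun x' => (hm4 x x').aemeasurable),
    ← ENNReal.tsum_add]
  refine ENNReal.tsum_le_tsum fun x' => ?_
  by_cases hx : x ∈ A.L b
  · by_cases hx' : x' ∈ A.L b
    · have e : ∀ ω, φ ω * ((w ω x * J ω x) * (w ω x' * J ω x'))
          = (φ ω * w ω x * w ω x') * (J ω x * J ω x') := fun ω => by ring
      simp_rw [e]
      have hJJ : Measurable[A.H b] fun ω => J ω x * J ω x' :=
        (hJ.measH x hx).mul (hJ.measH x' hx')
      rw [A.indep_mul (hF2 x x') hJJ, lintegral_mul_const _ (hm2 x x'),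
        lintegral_mul_const _ (hm2 x x'), ← mul_add]
      gcongr
      exact hJ.second x hx x' hx'
    · simp [hw.supp _ x' hx']
  · simp [hw.supp _ x hx]

lemma energy_mono (b c : ℕ) {w w' : Ω → S → ℝ≥0∞} (h : ∀ ω x, w ω x ≤ w' ω x) (ω : Ω) :
    A.energy b c w ω ≤ A.energy b c w' ω := by
  unfold KerSys.energy
  refine ENNReal.tsum_le_tsum fun x => ENNReal.tsum_le_tsum fun x' => ?_
  gcongr
  · exact h ω x
  · exact h ω x'

/-- variance (lower deviations) of the marked mass, for any sub-weight of the push -/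
lemma xm_variance [IsProbabilityMeasure P] {a b c : ℕ} (hab : a ≤ b)
    {J : Ω → S → ℝ≥0∞} {m : S → ℝ≥0∞} (hJ : MarkV A b c J m) {w ρ : Ω → S → ℝ≥0∞}
    (hw : A.Wt a w) (hw1 : ∀ ω, tot w ω ≤ 1) (hρW : A.Wt b ρ)
    (hρ : ∀ ω y, ρ ω y ≤ A.push a b w ω y)
    {φ : Ω → ℝ≥0∞} (hφ : Measurable[A.F a] φ) (hφ1 : ∀ ω, φ ω ≤ 1) {ε : ℝ≥0∞}
    (hε : ∀ x ∈ A.L a, ∀ x' ∈ A.L a,
      ∑' z, ∑' z', (∫⁻ ω, A.G a b ω x z * A.G a b ω x' z' ∂P) * A.K b c z z' ≤ ε) :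
    ∫⁻ ω, φ ω * (Mw ρ m ω - Xm ρ J ω) ^ 2 ∂P ≤ ε * ∫⁻ ω, φ ω ∂P := by
  set s : Ω → ℝ≥0∞ := Mw ρ m with hs
  set X : Ω → ℝ≥0∞ := Xm ρ J with hX
  have hsm : Measurable[A.F b] s := meas_Mw hρW m
  have hJ0 : ∀ x ∈ A.L b, Measurable fun ω => J ω x :=
    fun x hx => (hJ.measH x hx).mono (A.H_le b) le_rfl
  have hm0' : Measurable X := meas_Xm hρW (A.F.le b) hJ0
  have ht1 : ∀ ω, tot ρ ω ≤ 1 := fun ω =>
    (ENNReal.tsum_le_tsum fun y => hρ ω y).trans ((A.tot_push_le hab w ω).trans (hw1 ω))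
  have hs1 : ∀ ω, s ω ≤ 1 := fun ω => (Mw_le hρW hJ.mle_one ω).trans (ht1 ω)
  have hm1 : ∀ ω, X ω ≤ 1 := fun ω => (Xm_le_tot hJ.le_one ω).trans (ht1 ω)
  have hφb : Measurable[A.F b] φ := hφ.mono (A.F.mono hab) le_rfl
  have hφ0 : Measurable φ := hφ.mono (A.F.le a) le_rfl
  have hs0 : Measurable s := hsm.mono (A.F.le b) le_rfl
  have hA1 : Measurable fun ω => φ ω * s ω * X ω := (hφ0.mul hs0).mul hm0'
  have hA2 : Measurable fun ω => 2 * (φ ω * s ω * X ω) := hA1.const_mul _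
  have hA3 : Measurable fun ω => φ ω * X ω ^ 2 := hφ0.mul (hm0'.pow_const 2)
  have e1 : ∫⁻ ω, (φ ω * s ω) * X ω ∂P = ∫⁻ ω, (φ ω * s ω) * s ω ∂P :=
    xm_first hJ hρW (hφb.mul hsm)
  have e2 := xm_second hJ hρW hφb
  have e3 : ∫⁻ ω, φ ω * A.energy b c ρ ω ∂P ≤ ε * ∫⁻ ω, φ ω * tot w ω ^ 2 ∂P := by
    refine le_trans (lintegral_mono fun ω => ?_) (KerSys.energy_push hab hw hφ hε)
    gcongr
    exact energy_mono b c hρ ω
  have e4 : ∫⁻ ω, φ ω * tot w ω ^ 2 ∂P ≤ ∫⁻ ω, φ ω ∂P := by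
    refine lintegral_mono fun ω => ?_
    calc φ ω * tot w ω ^ 2 ≤ φ ω * 1 ^ 2 := by gcongr; exact hw1 ω
      _ = φ ω := by simp
  have hfin : ∫⁻ ω, φ ω * s ω ^ 2 ∂P ≠ ∞ := by
    refine ne_top_of_le_ne_top ENNReal.one_ne_top ?_
    calc ∫⁻ ω, φ ω * s ω ^ 2 ∂P ≤ ∫⁻ _, 1 ∂P := by
          refine lintegral_mono fun ω => ?_
          calc φ ω * s ω ^ 2 ≤ 1 * 1 ^ 2 := by gcongr; exact hφ1 ω; exact hs1 ω
            _ = 1 := by simp
      _ = 1 := by simp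
  have key : 2 * ∫⁻ ω, φ ω * s ω ^ 2 ∂P + ∫⁻ ω, φ ω * (s ω - X ω) ^ 2 ∂P
      ≤ 2 * ∫⁻ ω, φ ω * s ω ^ 2 ∂P + ε * ∫⁻ ω, φ ω ∂P := by
    calc 2 * ∫⁻ ω, φ ω * s ω ^ 2 ∂P + ∫⁻ ω, φ ω * (s ω - X ω) ^ 2 ∂P
        = ∫⁻ ω, (2 * ((φ ω * s ω) * X ω) + φ ω * (s ω - X ω) ^ 2) ∂P := by
          rw [lintegral_add_left hA2, lintegral_const_mul _ hA1, e1]
          congr 1
          have : ∀ ω, φ ω * s ω * s ω = φ ω * s ω ^ 2 := fun ω => by ring
          simp_rw [this]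
      _ ≤ ∫⁻ ω, (φ ω * X ω ^ 2 + φ ω * s ω ^ 2) ∂P := by
          refine lintegral_mono fun ω => ?_
          have h1 := KerSys.two_mul_add_sq_le (a := X ω) (b := s ω)
            (ne_top_of_le_ne_top ENNReal.one_ne_top (hm1 ω))
            (ne_top_of_le_ne_top ENNReal.one_ne_top (hs1 ω))
          calc 2 * (φ ω * s ω * X ω) + φ ω * (s ω - X ω) ^ 2
              = φ ω * (2 * (X ω * s ω) + (s ω - X ω) ^ 2) := by ring
            _ ≤ φ ω * (X ω ^ 2 + s ω ^ 2) := by gcongr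
            _ = _ := by ring
      _ = ∫⁻ ω, φ ω * X ω ^ 2 ∂P + ∫⁻ ω, φ ω * s ω ^ 2 ∂P := lintegral_add_left hA3 _
      _ ≤ (∫⁻ ω, φ ω * s ω ^ 2 ∂P + ε * ∫⁻ ω, φ ω ∂P) + ∫⁻ ω, φ ω * s ω ^ 2 ∂P := by
          gcongr
          refine e2.trans ?_
          gcongr
          exact e3.trans (by gcongr)
      _ = _ := by ring
  refine (ENNReal.add_le_add_iff_left ?_).1 key
  exact ENNReal.mul_ne_top (by simp) hfin

/-- robust jump of a sub-weight of the push -/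
lemma jump_sub [IsProbabilityMeasure P] {a b c : ℕ} (hab : a ≤ b)
    {J : Ω → S → ℝ≥0∞} {m : S → ℝ≥0∞} (hJ : MarkV A b c J m) {π : ℝ≥0∞}
    (hπm : ∀ x ∈ A.L b, π ≤ m x) {w ρ : Ω → S → ℝ≥0∞} (hw : A.Wt a w)
    (hw1 : ∀ ω, tot w ω ≤ 1) (hρW : A.Wt b ρ) (hρ : ∀ ω y, ρ ω y ≤ A.push a b w ω y)
    {ε : ℝ≥0∞}
    (hε : ∀ x ∈ A.L a, ∀ x' ∈ A.L a,
      ∑' z, ∑' z', (∫⁻ ω, A.G a b ω x z * A.G a b ω x' z' ∂P) * A.K b c z z' ≤ ε)
    (hπ0 : π ≠ 0) (hπ : π ≠ ∞) {t : ℝ≥0∞} (ht0 : t ≠ 0) (ht : t ≠ ∞)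
    {B : Set Ω} (hB : MeasurableSet[A.F a] B) :
    P (B ∩ {ω | t ≤ tot ρ ω ∧ Xm ρ J ω < π * t / 2}) ≤ 4 * ε / (π * t) ^ 2 * P B := by
  have hB0 : MeasurableSet B := A.F.le a _ hB
  have hφ : Measurable[A.F a] (B.indicator (1 : Ω → ℝ≥0∞)) :=
    (@measurable_one _ _ _ (A.F a) _).indicator hB
  have hv := xm_variance hab hJ hw hw1 hρW hρ hφ (fun ω => by
    by_cases h : ω ∈ B <;> simp [h]) hε
  set X : Ω → ℝ≥0∞ := Xm ρ J with hX
  have hsm : Measurable (tot ρ) := hρW.meas_tot.mono (A.F.le b) le_rfl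
  have hJ0 : ∀ x ∈ A.L b, Measurable fun ω => J ω x :=
    fun x hx => (hJ.measH x hx).mono (A.H_le b) le_rfl
  have hmm : Measurable X := meas_Xm hρW (A.F.le b) hJ0
  set E : Set Ω := {ω | t ≤ tot ρ ω ∧ X ω < π * t / 2} with hE
  have hEm : MeasurableSet E :=
    (measurableSet_le measurable_const hsm).inter (measurableSet_lt hmm measurable_const)
  rw [lintegral_indicator_one hB0] at hv
  set q : ℝ≥0∞ := π * t with hq
  have hq0 : q ≠ 0 := mul_ne_zero hπ0 ht0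
  have hqt : q ≠ ∞ := ENNReal.mul_ne_top hπ ht
  have l1 : (q / 2) ^ 2 * P (B ∩ E) ≤ ε * P B := by
    refine le_trans ?_ hv
    rw [← lintegral_indicator_one (hB0.inter hEm),
      ← lintegral_const_mul _ (measurable_one.indicator (hB0.inter hEm))]
    refine lintegral_mono fun ω => ?_
    by_cases h1 : ω ∈ B ∩ E
    · rw [indicator_of_mem h1, indicator_of_mem h1.1]
      simp only [Pi.one_apply, one_mul, mul_one]
      have h2 : t ≤ tot ρ ω := h1.2.1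
      have h3 : X ω < q / 2 := h1.2.2
      have h4 : q / 2 + X ω ≤ Mw ρ m ω := by
        calc q / 2 + X ω ≤ q / 2 + q / 2 := by gcongr
          _ = q := ENNReal.add_halves q
          _ ≤ π * tot ρ ω := by rw [hq]; gcongr
          _ ≤ Mw ρ m ω := le_Mw hρW hπm ω
      have h5 : q / 2 ≤ Mw ρ m ω - X ω :=
        ENNReal.le_sub_of_add_le_right (ne_top_of_lt h3) h4
      gcongr
    · rw [indicator_of_notMem h1]
      simp
  have hq2 : q ^ 2 ≠ 0 := pow_ne_zero _ hq0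
  have hq2t : q ^ 2 ≠ ∞ := ENNReal.pow_ne_top hqt
  have h16 : 4 * (q / 2) ^ 2 = q ^ 2 := by
    have h2 : 2 * (q / 2) = q := ENNReal.mul_div_cancel (by norm_num) (by norm_num)
    calc 4 * (q / 2) ^ 2 = (2 * (q / 2)) ^ 2 := by ring
      _ = q ^ 2 := by rw [h2]
  calc P (B ∩ E) = (q ^ 2)⁻¹ * (q ^ 2 * P (B ∩ E)) := by
        rw [← mul_assoc, ENNReal.inv_mul_cancel hq2 hq2t, one_mul]
    _ = (q ^ 2)⁻¹ * (4 * ((q / 2) ^ 2 * P (B ∩ E))) := by
        rw [← h16]; ring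
    _ ≤ (q ^ 2)⁻¹ * (4 * (ε * P B)) := by gcongr
    _ = 4 * ε / q ^ 2 * P B := by
        rw [ENNReal.div_eq_inv_mul]; ring

/-- the marked mass of a relation -/
noncomputable def Jm (A : KerSys S P) (D : S → S → Prop) (b c : ℕ) (ω : Ω) (x : S) : ℝ≥0∞ :=
  open Classical in ∑' y, if D x y then A.G b c ω x y else 0

lemma Xm_Jm (A : KerSys S P) (D : S → S → Prop) (b c : ℕ) (ρ : Ω → S → ℝ≥0∞) (ω : Ω) :
    Xm ρ (Jm A D b c) ω = tot (rpush A D b c ρ) ω := by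
  unfold Xm Jm tot rpush
  rw [ENNReal.tsum_comm]
  exact tsum_congr fun x => ENNReal.tsum_mul_left.symm

/-- **one robust jump attempt** (relative to an `F_a`-weight of mass `≤ 1`): `s` levels at home, then
`n` levels with displacement `≥ 2Δ`. -/
theorem jump_att [IsProbabilityMeasure P] {a s n : ℕ} {φ : S → ℝ} {Δ : ℝ}
    {m : S → ℝ≥0∞}
    (hJ : MarkV A (a + s) (a + s + n) (Jm A (Jp φ (2 * Δ)) (a + s) (a + s + n)) m)
    {π : ℝ≥0∞} (hπm : ∀ x ∈ A.L (a + s), π ≤ m x) (hπ0 : π ≠ 0) (hπ : π ≠ ∞)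
    {t q : ℝ≥0∞} (ht0 : t ≠ 0) (ht : t ≠ ∞) (hT : TL A s (2 * t) q)
    {ν : ℝ≥0∞} (hH : TailH A φ s Δ ν) {p : ℝ≥0∞} (hp0 : p ≠ 0) (hp1 : p ≤ 1)
    (hp : ∀ k, p ≤ A.h k) {ε : ℝ≥0∞}
    (hε : ∀ x ∈ A.L a, ∀ x' ∈ A.L a,
      ∑' z, ∑' z', (∫⁻ ω, A.G a (a + s) ω x z * A.G a (a + s) ω x' z' ∂P)
        * A.K (a + s) (a + s + n) z z' ≤ ε)
    {w : Ω → S → ℝ≥0∞} (hw : A.Wt a w) (hw1 : ∀ ω, tot w ω ≤ 1)
    {B : Set Ω} (hB : MeasurableSet[A.F a] B) (hBt : ∀ ω ∈ B, tot w ω = 1) :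
    P (B ∩ {ω | tot (rpush A (Jp φ Δ) a (a + s + n) w) ω < π * t / 2})
      ≤ (q + ν / (p * t) + 4 * ε / (π * t) ^ 2) * P B := by
  classical
  set b := a + s with hb
  set c := b + n with hc
  have hab : a ≤ b := Nat.le_add_right _ _
  have hbc : b ≤ c := Nat.le_add_right _ _
  set D1 : S → S → Prop := Hm φ Δ with hD1
  set D2 : S → S → Prop := Jp φ (2 * Δ) with hD2
  set D : S → S → Prop := Jp φ Δ with hD
  set ρ := rpush A D1 a b w with hρ
  set hr := rpush A (fun x y => ¬ D1 x y) a b w with hhr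
  have hρW : A.Wt b ρ := rpush_wt hab hw
  have hcomp : ∀ x y z, D1 x y → D2 y z → D x z := by
    intro x y z h1 h2
    have h3 := Hm_Jp h1 h2
    have h4 : 2 * Δ - Δ = Δ := by ring
    rw [h4] at h3
    exact h3
  -- the three bad events
  have hB0 : MeasurableSet B := A.F.le a _ hB
  have b1 : P (B ∩ Bad A a s w (2 * t)) ≤ q * P B := hT a w hw hw1 B hB
  have b2 : P (B ∩ {ω | t ≤ tot hr ω}) ≤ ν / (p * t) * P B := by
    obtain ⟨Bd, h1, h2, h3⟩ := hH a b hab le_rfl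
    have hBm : ∀ x, Measurable[A.H a] (fun ω => if x ∈ A.L a then Bd x ω else ∞) := by
      intro x
      by_cases hx : x ∈ A.L a
      · simp only [hx, if_true]; exact h1 x
      · simp only [hx, if_false]; exact @measurable_const _ _ _ (A.H a) _
    have hφ : Measurable[A.F a] (B.indicator (1 : Ω → ℝ≥0∞)) :=
      (@measurable_one _ _ _ (A.F a) _).indicator hB
    have h4 := nonhome (A := A) (a := a) (c := b) (C := fun _ x y => ¬ D1 x y) hw hφ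
      (T := fun _ => t) (@measurable_const _ _ _ (A.F a) _)
      (Bd := fun x ω => if x ∈ A.L a then Bd x ω else ∞) (ν := ν) (p := p) hBm
      (fun x hx => by simp only [hx, if_true]; exact h2 x hx)
      (fun b' g1 g2 => by
        filter_upwards [h3 b' g1 g2] with ω hω x
        by_cases hx : x ∈ A.L a
        · simp only [hx, if_true]
          refine le_trans (le_of_eq (tsum_congr fun y => ?_)) (hω x hx)
          by_cases h : D1 x y
          · have h' : Hm φ Δ x y := h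
            simp [h, h']
          · have h' : ¬ Hm φ Δ x y := h
            simp [h, h']
        · simp only [hx, if_false]; exact le_top)
      (fun k _ => hp k)
    have h5 : ∫⁻ ω, B.indicator 1 ω * tot w ω ∂P = P B := by
      rw [← lintegral_indicator_one hB0]
      refine lintegral_congr fun ω => ?_
      by_cases hω : ω ∈ B
      · rw [indicator_of_mem hω, hBt ω hω]; simp
      · rw [indicator_of_notMem hω]; simp
    rw [h5] at h4
    set Ev : Set Ω := {ω | ∃ b', a ≤ b' ∧ b' ≤ b ∧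
      (fun _ : Ω => t) ω ≤ tot (rpush A ((fun _ x y => ¬ D1 x y : ℕ → S → S → Prop) b') a b' w) ω}
      with hEv
    have h6 : t * P (B ∩ {ω | t ≤ tot hr ω})
        ≤ ∫⁻ ω in Ev, B.indicator 1 ω * t ∂P := by
      have hm : MeasurableSet {ω | t ≤ tot hr ω} := by
        have : Measurable (tot hr) := (rpush_wt hab hw).meas_tot.mono (A.F.le b) le_rfl
        exact measurableSet_le measurable_const this
      rw [← setLIntegral_const, ← lintegral_indicator (hB0.inter hm)]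
      have h7 : B ∩ {ω | t ≤ tot hr ω} ⊆ Ev := fun ω hω => ⟨b, hab, le_rfl, hω.2⟩
      calc ∫⁻ ω, (B ∩ {ω | t ≤ tot hr ω}).indicator (fun _ => t) ω ∂P
          = ∫⁻ ω in B ∩ {ω | t ≤ tot hr ω}, B.indicator 1 ω * t ∂P := by
            rw [← lintegral_indicator (hB0.inter hm)]
            refine lintegral_congr fun ω => ?_
            by_cases hω : ω ∈ B ∩ {ω | t ≤ tot hr ω}
            · rw [indicator_of_mem hω, indicator_of_mem hω, indicator_of_mem hω.1]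
              simp
            · rw [indicator_of_notMem hω, indicator_of_notMem hω]
        _ ≤ _ := lintegral_mono_set h7
    have h8 : (p * t) * P (B ∩ {ω | t ≤ tot hr ω}) ≤ ν * P B := by
      calc (p * t) * P (B ∩ {ω | t ≤ tot hr ω})
          = p * (t * P (B ∩ {ω | t ≤ tot hr ω})) := by ring
        _ ≤ p * ∫⁻ ω in Ev, B.indicator 1 ω * t ∂P := by gcongr
        _ ≤ _ := h4
    have hpt0 : p * t ≠ 0 := mul_ne_zero hp0 ht0
    have hptt : p * t ≠ ∞ := ENNReal.mul_ne_top (ne_top_of_le_ne_top ENNReal.one_ne_top hp1) ht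
    rw [← ENNReal.mul_div_right_comm, ENNReal.le_div_iff_mul_le (Or.inl hpt0) (Or.inl hptt),
      mul_comm]
    exact h8
  have b3 := jump_sub hab hJ hπm hw hw1 hρW (fun ω y => rpush_le_push D1 a b w ω y) hε hπ0 hπ
    ht0 ht hB
  -- inclusion
  have hsub : (B ∩ {ω | tot (rpush A D a c w) ω < π * t / 2} : Set Ω)
      ≤ᵐ[P] (((B ∩ Bad A a s w (2 * t)) ∪ (B ∩ {ω | t ≤ tot hr ω})) ∪
        (B ∩ {ω | t ≤ tot ρ ω ∧ Xm ρ (Jm A D2 b c) ω < π * t / 2}) : Set Ω) := by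
    filter_upwards [tot_rpush_comp (A := A) hcomp hab hbc] with ω hω
    rintro ⟨hωB, hωX⟩
    by_contra hcon
    have hcon' : ¬ (((ω ∈ B ∩ Bad A a s w (2 * t)) ∨ (ω ∈ B ∩ {ω | t ≤ tot hr ω})) ∨
        (ω ∈ B ∩ {ω | t ≤ tot ρ ω ∧ Xm ρ (Jm A D2 b c) ω < π * t / 2})) := hcon
    push Not at hcon'
    obtain ⟨⟨c1, c2⟩, c3⟩ := hcon'
    have hX : Xm ρ (Jm A D2 b c) ω < π * t / 2 := by
      rw [Xm_Jm]
      exact (hω w).trans_lt hωX
    have hn1 : ¬ (t ≤ tot ρ ω) := fun h => c3 ⟨hωB, h, hX⟩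
    have hn2 : ¬ (t ≤ tot hr ω) := fun h => c2 ⟨hωB, h⟩
    have hadd : tot ρ ω + tot hr ω = tot (A.push a b w) ω := tot_rpush_add D1 a b w ω
    refine c1 ⟨hωB, ?_, ?_⟩
    · rw [hBt ω hωB]; exact one_ne_zero
    · change tot (A.push a (a + s) w) ω ≤ _
      rw [← hb, ← hadd, hBt ω hωB, mul_one, two_mul]
      exact add_le_add (not_le.1 hn1).le (not_le.1 hn2).le
  calc P (B ∩ {ω | tot (rpush A D a c w) ω < π * t / 2})
      ≤ P (((B ∩ Bad A a s w (2 * t)) ∪ (B ∩ {ω | t ≤ tot hr ω})) ∪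
        (B ∩ {ω | t ≤ tot ρ ω ∧ Xm ρ (Jm A D2 b c) ω < π * t / 2})) := measure_mono_ae hsub
    _ ≤ (P (B ∩ Bad A a s w (2 * t)) + P (B ∩ {ω | t ≤ tot hr ω})) +
        P (B ∩ {ω | t ≤ tot ρ ω ∧ Xm ρ (Jm A D2 b c) ω < π * t / 2}) :=
        (measure_union_le _ _).trans (by gcongr; exact measure_union_le _ _)
    _ ≤ (q * P B + ν / (p * t) * P B) + 4 * ε / (π * t) ^ 2 * P B := by gcongr
    _ = _ := by ring

/-- the same relative to the mass of the weight -/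
theorem jump_rel [IsProbabilityMeasure P] {a s n : ℕ} {φ : S → ℝ} {Δ : ℝ}
    {m : S → ℝ≥0∞}
    (hJ : MarkV A (a + s) (a + s + n) (Jm A (Jp φ (2 * Δ)) (a + s) (a + s + n)) m)
    {π : ℝ≥0∞} (hπm : ∀ x ∈ A.L (a + s), π ≤ m x) (hπ0 : π ≠ 0) (hπ : π ≠ ∞)
    {t q : ℝ≥0∞} (ht0 : t ≠ 0) (ht : t ≠ ∞) (hT : TL A s (2 * t) q)
    {ν : ℝ≥0∞} (hH : TailH A φ s Δ ν) {p : ℝ≥0∞} (hp0 : p ≠ 0) (hp1 : p ≤ 1)
    (hp : ∀ k, p ≤ A.h k) {ε : ℝ≥0∞}
    (hε : ∀ x ∈ A.L a, ∀ x' ∈ A.L a,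
      ∑' z, ∑' z', (∫⁻ ω, A.G a (a + s) ω x z * A.G a (a + s) ω x' z' ∂P)
        * A.K (a + s) (a + s + n) z z' ≤ ε)
    {w : Ω → S → ℝ≥0∞} (hw : A.Wt a w) (hw1 : ∀ ω, tot w ω ≤ 1)
    {B : Set Ω} (hB : MeasurableSet[A.F a] B) :
    P (B ∩ {ω | tot (rpush A (Jp φ Δ) a (a + s + n) w) ω
        < π * t / 2 * tot w ω})
      ≤ (q + ν / (p * t) + 4 * ε / (π * t) ^ 2) * P B := by
  set w' : Ω → S → ℝ≥0∞ := fun ω x => (tot w ω)⁻¹ * w ω x with hw'
  have htm : Measurable[A.F a] fun ω => (tot w ω)⁻¹ := hw.meas_tot.inv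
  have hw'W : A.Wt a w' := by
    refine ⟨fun x => htm.mul (hw.meas x), fun ω x hx => ?_⟩
    rw [hw']
    simp only
    rw [hw.supp ω x hx, mul_zero]
  have htt : ∀ ω, tot w ω ≠ ∞ := fun ω => ne_top_of_le_ne_top ENNReal.one_ne_top (hw1 ω)
  have htot : ∀ ω, tot w' ω = (tot w ω)⁻¹ * tot w ω := fun ω => ENNReal.tsum_mul_left
  have hw'1 : ∀ ω, tot w' ω ≤ 1 := by
    intro ω
    rw [htot]
    exact ENNReal.inv_mul_le_one _
  set B' := B ∩ {ω | tot w ω ≠ 0} with hB'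
  have hB'm : MeasurableSet[A.F a] B' := by
    refine MeasurableSet.inter hB ?_
    have h0 : MeasurableSet[A.F a] ((tot w) ⁻¹' {0}ᶜ) :=
      hw.meas_tot (measurableSet_singleton (0 : ℝ≥0∞)).compl
    exact h0
  have hBt : ∀ ω ∈ B', tot w' ω = 1 := by
    intro ω hω
    rw [htot]
    exact ENNReal.inv_mul_cancel hω.2 (htt ω)
  have h := jump_att hJ hπm hπ0 hπ ht0 ht hT hH hp0 hp1 hp hε hw'W hw'1 hB'm hBt
  refine le_trans (measure_mono ?_) (h.trans ?_)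
  · rintro ω ⟨hωB, hω⟩
    have h0 : tot w ω ≠ 0 := by
      intro h0
      have hω' : tot (rpush A (Jp φ Δ) a (a + s + n) w) ω
        < π * t / 2 * tot w ω := hω
      rw [h0, mul_zero] at hω'
      exact absurd hω' not_lt_zero'
    refine ⟨⟨hωB, h0⟩, ?_⟩
    have e : tot (rpush A (Jp φ Δ) a (a + s + n) w') ω
        = (tot w ω)⁻¹ * tot (rpush A (Jp φ Δ) a (a + s + n) w) ω := by
      unfold tot rpush
      rw [← ENNReal.tsum_mul_left]
      refine tsum_congr fun y => ?_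
      rw [← ENNReal.tsum_mul_left]
      refine tsum_congr fun x => ?_
      simp only [hw', tot]
      ring
    change tot (rpush A (Jp φ Δ) a (a + s + n) w') ω < _
    rw [e]
    have hω' : tot (rpush A (Jp φ Δ) a (a + s + n) w) ω
        < π * t / 2 * tot w ω := hω
    rw [← ENNReal.div_eq_inv_mul]
    exact (ENNReal.div_lt_iff (Or.inl h0) (Or.inl (htt ω))).2 hω'
  · gcongr
    exact inter_subset_left

end Crest.Agent.R154.JumpR618
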