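import Crest.Agent.R154.B5Abs_566

/-! Row 154, KAPPA' (helper509), part 1: first passage lists, splitting, smooth density. -/

set_option autoImplicit false

namespace Crest.Agent.R154.KA509

open scoped ENNReal
open Crest.Agent.R154.B5A

variable {B G : Type*}

/-- first passage list at depth `a` -/
def FP (ht : B → ℕ) : List B → ℕ → Prop
  | [], a => a = 0
  | b :: L, a => a ≠ 0 ∧ FP ht L (a - ht b)

/-- the first passage prefix -/
def pre (ht : B → ℕ) : List B → ℕ → List B
  | [], _ => []
  | b :: L, a => if a = 0 then [] else b :: pre ht L (a - ht b)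

/-- the rest -/
def rst (ht : B → ℕ) : List B → ℕ → List B
  | [], _ => []
  | b :: L, a => if a = 0 then b :: L else rst ht L (a - ht b)

lemma pre_rst (ht : B → ℕ) (L : List B) (a : ℕ) : pre ht L a ++ rst ht L a = L := by
  induction L generalizing a with
  | nil => rfl
  | cons b L ih =>
    by_cases h : a = 0
    · simp [pre, rst, h]
    · simp [pre, rst, h, ih]

lemma fp_zero (ht : B → ℕ) (L : List B) : FP ht L 0 ↔ L = [] := by
  cases L <;> simp [FP]

lemma fp_pre (ht : B → ℕ) (L : List B) (a : ℕ) (h : a ≤ HT ht L) : FP ht (pre ht L a) a := by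
  induction L generalizing a with
  | nil => simp [HT_nil] at h; simp [pre, FP, h]
  | cons b L ih =>
    by_cases h0 : a = 0
    · simp [pre, FP, h0]
    · simp only [pre, h0, if_false, FP, ne_eq, not_false_eq_true, true_and]
      rw [HT_cons] at h
      exact ih _ (by omega)

lemma fp_ge (ht : B → ℕ) (L : List B) (a : ℕ) (h : FP ht L a) : a ≤ HT ht L := by
  induction L generalizing a with
  | nil => simp [FP] at h; omega
  | cons b L ih =>
    have := ih _ h.2
    rw [HT_cons]; omega

lemma fp_split (ht : B → ℕ) (L : List B) (a T : ℕ) (hT : T ≤ a) (h : FP ht L a) :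
    FP ht (pre ht L T) T ∧ FP ht (rst ht L T) (a - HT ht (pre ht L T)) := by
  induction L generalizing a T with
  | nil =>
    simp only [FP] at h
    simp [pre, rst, FP, h]; omega
  | cons b L ih =>
    by_cases h0 : T = 0
    · subst h0
      simp only [pre, rst, if_true, FP, HT_nil, Nat.sub_zero]
      exact ⟨trivial, h⟩
    · simp only [pre, rst, h0, if_false, FP, HT_cons, ne_eq, not_false_eq_true, true_and]
      obtain ⟨h1, h2⟩ := ih (a - ht b) (T - ht b) (by omega) h.2
      exact ⟨h1, by rwa [Nat.sub_sub] at h2⟩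

lemma tsum_pre_le (ht : B → ℕ) (a : ℕ) (f : List B → ℝ≥0∞) (P : List B → List B → Prop)
    [∀ L R, Decidable (P L R)] (hP : ∀ L, f L ≠ 0 → P (pre ht L a) (rst ht L a)) :
    ∑' L, f L ≤ ∑' L, ∑' R, if P L R then f (L ++ R) else 0 := by
  rw [← ENNReal.tsum_prod (f := fun L R => if P L R then f (L ++ R) else 0)]
  have hinj : Function.Injective (fun L : List B => (pre ht L a, rst ht L a)) := by
    intro L L' h
    rw [← pre_rst ht L a, ← pre_rst ht L' a]
    simp only [Prod.mk.injEq] at h
    rw [h.1, h.2]
  refine le_trans ?_ (ENNReal.tsum_comp_le_tsum_of_injective hinj _)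
  refine ENNReal.tsum_le_tsum fun L => ?_
  by_cases h : f L = 0
  · rw [h]; exact zero_le
  · simp only
    rw [if_pos (hP L h), pre_rst]

section mass

variable (Λ : B → ℝ≥0∞) (ht : B → ℕ)

open Classical in
lemma fp_mass (hΛ : ∑' b, Λ b ≤ 1) (h1 : ∀ b, 1 ≤ ht b) (a : ℕ) :
    ∑' L, (if FP ht L a then LW Λ L else 0) ≤ 1 := by
  induction a using Nat.strong_induction_on with
  | _ a ih =>
    rw [tsum_list]
    rcases Nat.eq_zero_or_pos a with h0 | h0
    · subst h0
      simp [FP, LW_nil]
    · have e0 : (if FP ht ([] : List B) a then LW Λ ([] : List B) else 0) = 0 := by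
        rw [if_neg]; simp only [FP]; omega
      rw [e0, zero_add]
      refine le_trans (ENNReal.tsum_le_tsum fun b => ?_) hΛ
      calc ∑' L, (if FP ht (b :: L) a then LW Λ (b :: L) else 0)
          = Λ b * ∑' L, (if FP ht L (a - ht b) then LW Λ L else 0) := by
            rw [← ENNReal.tsum_mul_left]
            refine tsum_congr fun L => ?_
            have : FP ht (b :: L) a ↔ FP ht L (a - ht b) := by
              simp only [FP]
              exact ⟨fun h => h.2, fun h => ⟨by omega, h⟩⟩
            simp only [this, LW_cons]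
            by_cases h : FP ht L (a - ht b) <;> simp [h]
        _ ≤ Λ b * 1 := mul_le_mul_right (ih _ (by have := h1 b; omega)) _
        _ = Λ b := mul_one _

end mass

/-! ### joint law of height and displacement -/

section dens

variable [AddCommGroup G] (Λ : B → ℝ≥0∞) (ht : B → ℕ) (z : B → G)

/-- displacement -/
def DS (L : List B) : G := (L.map z).sum

omit [AddCommGroup G] in
lemma ENN_tsum_ite_eq {ι : Type*} [DecidableEq ι] (i : ι) (F : ι → ℝ≥0∞) :
    ∑' j, (if i = j then F j else 0) = F i := by
  rw [tsum_eq_single i]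
  · simp
  · intro j hj; rw [if_neg (Ne.symm hj)]

lemma DS_append (L L' : List B) : DS z (L ++ L') = DS z L + DS z L' := by
  simp [DS]

open Classical in
/-- law of (height, displacement) of a first passage list -/
noncomputable def pl (a : ℕ) (q : ℕ × G) : ℝ≥0∞ :=
  ∑' L, if FP ht L a ∧ HT ht L = q.1 ∧ DS z L = q.2 then LW Λ L else 0

open Classical in
lemma pl_group (a : ℕ) (F : ℕ × G → ℝ≥0∞) :
    ∑' q, pl Λ ht z a q * F q
      = ∑' L, if FP ht L a then LW Λ L * F (HT ht L, DS z L) else 0 := by
  simp only [pl, ← ENNReal.tsum_mul_right]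
  rw [ENNReal.tsum_comm]
  refine tsum_congr fun L => ?_
  by_cases h : FP ht L a
  · rw [if_pos h]
    rw [← ENN_tsum_ite_eq (HT ht L, DS z L) (fun q => LW Λ L * F q)]
    refine tsum_congr fun q => ?_
    by_cases hq : (HT ht L, DS z L) = q
    · subst hq; simp [h]
    · rw [if_neg hq, if_neg, zero_mul]
      rintro ⟨-, h1, h2⟩
      exact hq (Prod.ext h1 h2)
  · simp [h]

lemma pl_mass (hΛ : ∑' b, Λ b ≤ 1) (h1 : ∀ b, 1 ≤ ht b) (a : ℕ) :
    ∑' q, pl Λ ht z a q ≤ 1 := by
  classical
  have := pl_group Λ ht z a (fun _ => 1)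
  simp only [mul_one] at this
  rw [this]
  convert fp_mass Λ ht hΛ h1 a

lemma pl_lt (a : ℕ) (q : ℕ × G) (h : q.1 < a) : pl Λ ht z a q = 0 := by
  classical
  rw [pl, ENNReal.tsum_eq_zero]
  intro L
  rw [if_neg]
  rintro ⟨h1, h2, -⟩
  have := fp_ge ht L a h1
  omega

/-- kernel after the first piece -/
noncomputable def ker (f : ℕ → ℕ × G → ℝ≥0∞) (a : ℕ) (q' q : ℕ × G) : ℝ≥0∞ :=
  if q'.1 ≤ q.1 then f (a - q'.1) (q.1 - q'.1, q.2 - q'.2) else 0

lemma ker_sum (f : ℕ → ℕ × G → ℝ≥0∞) (a : ℕ) (q' : ℕ × G) :
    ∑' q, ker f a q' q ≤ ∑' q, f (a - q'.1) q := by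
  classical
  have hinj : Function.Injective (fun q : ℕ × G => (q.1 + q'.1, q.2 + q'.2)) := by
    intro q r h
    simp only [Prod.mk.injEq, Nat.add_right_cancel_iff, add_left_inj] at h
    exact Prod.ext h.1 h.2
  have hs : Function.support (fun q : ℕ × G => ker f a q' q)
      ⊆ Set.range (fun q : ℕ × G => (q.1 + q'.1, q.2 + q'.2)) := by
    intro q hq
    have : q'.1 ≤ q.1 := by
      by_contra hc
      apply hq
      simp only [ker, if_neg hc]
    exact ⟨(q.1 - q'.1, q.2 - q'.2), Prod.ext (by simp; omega) (by simp)⟩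
  rw [← hinj.tsum_eq hs]
  refine ENNReal.tsum_le_tsum fun q => ?_
  simp [ker]

lemma pl_conv (a T : ℕ) (hT : T ≤ a) (q : ℕ × G) :
    pl Λ ht z a q ≤ ∑' q', pl Λ ht z T q' * ker (pl Λ ht z) a q' q := by
  classical
  rw [pl_group]
  rw [pl]
  refine (tsum_pre_le ht T _ (fun L R => FP ht L T ∧ FP ht R (a - HT ht L)) ?_).trans ?_
  · intro L hL
    have : FP ht L a := by
      by_contra hc
      apply hL
      rw [if_neg]; exact fun h => hc h.1
    exact fp_split ht L a T hT this
  · refine ENNReal.tsum_le_tsum fun L => ?_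
    by_cases h : FP ht L T
    · rw [if_pos h]
      by_cases hle : HT ht L ≤ q.1
      · simp only [ker, if_pos hle, pl]
        rw [← ENNReal.tsum_mul_left]
        refine ENNReal.tsum_le_tsum fun R => ?_
        by_cases hR : FP ht R (a - HT ht L)
        · rw [if_pos ⟨h, hR⟩]
          by_cases hq : FP ht (L ++ R) a ∧ HT ht (L ++ R) = q.1 ∧ DS z (L ++ R) = q.2
          · rw [if_pos hq]
            rw [HT_append, DS_append] at hq
            rw [if_pos ⟨hR, by omega, by rw [← hq.2.2]; abel⟩, LW_append]
          · rw [if_neg hq]; exact zero_le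
        · rw [if_neg (fun h => hR h.2)]; exact zero_le
      · have : ∀ R, (if FP ht L T ∧ FP ht R (a - HT ht L) then
            (if FP ht (L ++ R) a ∧ HT ht (L ++ R) = q.1 ∧ DS z (L ++ R) = q.2
              then LW Λ (L ++ R) else 0) else 0) = (0 : ℝ≥0∞) := by
          intro R
          rw [if_neg (c := FP ht (L ++ R) a ∧ _), ite_self]
          rintro ⟨-, h2, -⟩
          rw [HT_append] at h2
          omega
        simp only [this, tsum_zero]; exact zero_le
    · have : ∀ R, (if FP ht L T ∧ FP ht R (a - HT ht L) then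
            (if FP ht (L ++ R) a ∧ HT ht (L ++ R) = q.1 ∧ DS z (L ++ R) = q.2
              then LW Λ (L ++ R) else 0) else 0) = (0 : ℝ≥0∞) := by
        intro R
        rw [if_neg]
        exact fun hc => h hc.1
      simp only [this, tsum_zero]; exact zero_le

open Classical in
/-- **smooth density by induction on the attempts** -/
theorem dens (hΛ : ∑' b, Λ b ≤ 1) (h1 : ∀ b, 1 ≤ ht b) (T i0 : ℕ) (th β e C : ℝ≥0∞)
    (hβ : ∑' q, (if th ≤ pl Λ ht z T q then pl Λ ht z T q else 0) ≤ β) (hβ1 : β ≤ 1)
    (he : ∑' L, (if FP ht L T ∧ T + i0 < HT ht L then LW Λ L else 0) ≤ e)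
    (hC : (i0 + 1) * th + β * C ≤ C) (j : ℕ) :
    ∃ g r : ℕ → ℕ × G → ℝ≥0∞, ∀ a, j * (T + i0) ≤ a →
      (∀ q, pl Λ ht z a q ≤ g a q + r a q) ∧ (∀ q, g a q ≤ C) ∧
      ∑' q, r a q ≤ β ^ j + j * e := by
  set p := pl Λ ht z with hp
  have hm : ∀ a, ∑' q, p a q ≤ 1 := fun a => pl_mass Λ ht z hΛ h1 a
  induction j with
  | zero =>
    refine ⟨fun _ _ => 0, fun a q => p a q, fun a _ => ⟨fun q => by simp, fun q => zero_le, ?_⟩⟩
    simpa using hm a
  | succ j ih =>
    obtain ⟨g, r, hgr⟩ := ih
    refine ⟨fun a q =>
        (∑' q', if T ≤ q'.1 ∧ q'.1 ≤ T + i0 ∧ p T q' < th then p T q' * ker p a q' q else 0)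
        + ∑' q', (if q'.1 ≤ T + i0 ∧ th ≤ p T q' then p T q' * ker g a q' q else 0),
      fun a q =>
        (∑' q', if q'.1 ≤ T + i0 ∧ th ≤ p T q' then p T q' * ker r a q' q else 0)
        + ∑' q', (if T + i0 < q'.1 then p T q' * ker p a q' q else 0), fun a ha => ?_⟩
    have hja : ∀ q' : ℕ × G, q'.1 ≤ T + i0 → j * (T + i0) ≤ a - q'.1 := by
      intro q' hq'
      have : (j + 1) * (T + i0) = j * (T + i0) + (T + i0) := by ring
      omega
    have hTa : T ≤ a := by
      have : (j + 1) * (T + i0) = j * (T + i0) + (T + i0) := by ring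
      omega
    refine ⟨fun q => ?_, fun q => ?_, ?_⟩
    · refine (pl_conv Λ ht z a T hTa q).trans ?_
      beta_reduce
      rw [← ENNReal.tsum_add, ← ENNReal.tsum_add, ← ENNReal.tsum_add]
      refine ENNReal.tsum_le_tsum fun q' => ?_
      change p T q' * ker p a q' q ≤ _
      by_cases c1 : q'.1 ≤ T + i0
      · by_cases c2 : p T q' < th
        · by_cases c3 : T ≤ q'.1
          · rw [if_pos ⟨c3, c1, c2⟩]
            exact le_add_right (le_add_right le_rfl)
          · have : p T q' = 0 := pl_lt Λ ht z T q' (by omega)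
            rw [this, zero_mul]; exact zero_le
        · have c2' : th ≤ p T q' := not_lt.1 c2
          rw [if_pos (c := q'.1 ≤ T + i0 ∧ th ≤ p T q') ⟨c1, c2'⟩,
            if_pos (c := q'.1 ≤ T + i0 ∧ th ≤ p T q') ⟨c1, c2'⟩]
          have : ker p a q' q ≤ ker g a q' q + ker r a q' q := by
            by_cases c4 : q'.1 ≤ q.1
            · simp only [ker, if_pos c4]
              exact (hgr (a - q'.1) (hja q' c1)).1 _
            · simp only [ker, if_neg c4]; exact zero_le
          calc p T q' * ker p a q' q ≤ p T q' * (ker g a q' q + ker r a q' q) :=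
                mul_le_mul_right this _
            _ = p T q' * ker g a q' q + p T q' * ker r a q' q := mul_add _ _ _
            _ ≤ _ := add_le_add (le_add_left le_rfl) (le_add_right le_rfl)
      · rw [if_pos (c := T + i0 < q'.1) (by omega)]
        exact le_add_left (le_add_left le_rfl)
    · refine le_trans (add_le_add ?_ ?_) hC
      · -- small part
        calc ∑' q' : ℕ × G, (if T ≤ q'.1 ∧ q'.1 ≤ T + i0 ∧ p T q' < th
              then p T q' * ker p a q' q else 0)
            ≤ ∑' q' : ℕ × G, (if T ≤ q'.1 ∧ q'.1 ≤ T + i0 then th * ker p a q' q else 0) := by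
              refine ENNReal.tsum_le_tsum fun q' => ?_
              by_cases c : T ≤ q'.1 ∧ q'.1 ≤ T + i0 ∧ p T q' < th
              · rw [if_pos c, if_pos ⟨c.1, c.2.1⟩]
                exact mul_le_mul_left c.2.2.le _
              · rw [if_neg c]; exact zero_le
          _ = ∑' h : ℕ, ∑' y : G, (if T ≤ h ∧ h ≤ T + i0 then th * ker p a (h, y) q else 0) :=
              ENNReal.tsum_prod (f := fun h y => if T ≤ h ∧ h ≤ T + i0
                then th * ker p a (h, y) q else 0)
          _ ≤ ∑' h : ℕ, (if T ≤ h ∧ h ≤ T + i0 then th else 0) := by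
              refine ENNReal.tsum_le_tsum fun h => ?_
              by_cases c : T ≤ h ∧ h ≤ T + i0
              · simp only [if_pos c]
                rw [ENNReal.tsum_mul_left]
                refine mul_le_of_le_one_right zero_le ?_
                by_cases c' : h ≤ q.1
                · simp only [ker, if_pos c']
                  have e1 : ∑' y : G, p (a - h) (q.1 - h, q.2 - y)
                      = ∑' y : G, p (a - h) (q.1 - h, y) :=
                    (Equiv.subLeft q.2).tsum_eq (fun y => p (a - h) (q.1 - h, y))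
                  rw [e1]
                  refine le_trans ?_ (hm (a - h))
                  exact ENNReal.tsum_comp_le_tsum_of_injective
                    (f := fun y : G => (q.1 - h, y)) (fun y y' hy => by simpa using hy) _
                · simp only [ker, if_neg c', tsum_zero]; exact zero_le
              · simp [c]
          _ = ∑ h ∈ Finset.Icc T (T + i0), th := by
              rw [tsum_eq_sum (s := Finset.Icc T (T + i0))]
              · refine Finset.sum_congr rfl fun h hh => ?_
                rw [if_pos (Finset.mem_Icc.1 hh)]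
              · intro h hh
                rw [if_neg]; exact fun hc => hh (Finset.mem_Icc.2 hc)
          _ = (i0 + 1) * th := by
              rw [Finset.sum_const, Nat.card_Icc, nsmul_eq_mul]
              congr 1
              rw [show T + i0 + 1 - T = i0 + 1 by omega]; push_cast; ring
      · calc ∑' q' : ℕ × G, (if q'.1 ≤ T + i0 ∧ th ≤ p T q' then p T q' * ker g a q' q else 0)
            ≤ ∑' q' : ℕ × G, (if th ≤ p T q' then p T q' else 0) * C := by
              refine ENNReal.tsum_le_tsum fun q' => ?_
              by_cases c : q'.1 ≤ T + i0 ∧ th ≤ p T q'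
              · rw [if_pos c, if_pos c.2]
                refine mul_le_mul_right ?_ _
                by_cases c4 : q'.1 ≤ q.1
                · simp only [ker, if_pos c4]
                  exact (hgr (a - q'.1) (hja q' c.1)).2.1 _
                · simp only [ker, if_neg c4]; exact zero_le
              · rw [if_neg c]; exact zero_le
          _ = (∑' q' : ℕ × G, (if th ≤ p T q' then p T q' else 0)) * C := ENNReal.tsum_mul_right
          _ ≤ β * C := mul_le_mul_left hβ _
    · beta_reduce
      rw [ENNReal.tsum_add]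
      have hA : ∑' q, ∑' q' : ℕ × G, (if q'.1 ≤ T + i0 ∧ th ≤ p T q'
          then p T q' * ker r a q' q else 0) ≤ β * (β ^ j + j * e) := by
        rw [ENNReal.tsum_comm]
        calc ∑' q' : ℕ × G, ∑' q, (if q'.1 ≤ T + i0 ∧ th ≤ p T q'
              then p T q' * ker r a q' q else 0)
            ≤ ∑' q' : ℕ × G, (if th ≤ p T q' then p T q' else 0) * (β ^ j + j * e) := by
              refine ENNReal.tsum_le_tsum fun q' => ?_
              by_cases c : q'.1 ≤ T + i0 ∧ th ≤ p T q'
              · simp only [if_pos c, if_pos c.2]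
                rw [ENNReal.tsum_mul_left]
                exact mul_le_mul_right ((ker_sum r a q').trans
                  (hgr (a - q'.1) (hja q' c.1)).2.2) _
              · simp only [if_neg c, tsum_zero]; exact zero_le
          _ = (∑' q' : ℕ × G, (if th ≤ p T q' then p T q' else 0)) * (β ^ j + j * e) :=
              ENNReal.tsum_mul_right
          _ ≤ _ := mul_le_mul_left hβ _
      have hB : ∑' q, ∑' q' : ℕ × G, (if T + i0 < q'.1
          then p T q' * ker p a q' q else 0) ≤ e := by
        rw [ENNReal.tsum_comm]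
        calc ∑' q' : ℕ × G, ∑' q, (if T + i0 < q'.1 then p T q' * ker p a q' q else 0)
            ≤ ∑' q' : ℕ × G, p T q' * (if T + i0 < q'.1 then 1 else 0) := by
              refine ENNReal.tsum_le_tsum fun q' => ?_
              by_cases c : T + i0 < q'.1
              · simp only [if_pos c]
                rw [ENNReal.tsum_mul_left]
                exact mul_le_mul_right ((ker_sum p a q').trans (hm _)) _
              · simp only [if_neg c, tsum_zero]; exact zero_le
          _ = ∑' L, (if FP ht L T then LW Λ L * (if T + i0 < HT ht L then 1 else 0) else 0) :=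
              pl_group Λ ht z T (fun q' => if T + i0 < q'.1 then 1 else 0)
          _ ≤ e := by
              refine le_trans (ENNReal.tsum_le_tsum fun L => ?_) he
              by_cases c : FP ht L T <;> by_cases c' : T + i0 < HT ht L <;> simp [c, c']
      refine (add_le_add hA hB).trans ?_
      calc β * (β ^ j + j * e) + e = β ^ (j + 1) + β * (j * e) + e := by ring
        _ ≤ β ^ (j + 1) + 1 * (j * e) + e := by gcongr
        _ = β ^ (j + 1) + ((j + 1 : ℕ) : ℝ≥0∞) * e := by push_cast; ring

end dens

end Crest.Agent.R154.KA509
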