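import Crest.Agent.R154.KA1_509

/-! Row 154, KAPPA' (helper509), part 2: traces of lists, mixing of the two top laws, one window. -/

set_option autoImplicit false

namespace Crest.Agent.R154.KA509

open scoped ENNReal
open Crest.Agent.R154.B5A

variable {B G : Type*} [AddCommGroup G]

/-- sites (position, depth) read by a list hung with its top at `x`, depth `a` -/
def TS (s : B → Set (G × ℕ)) (z : B → G) (ht : B → ℕ) : List B → G → ℕ → Set (G × ℕ)
  | [], _, _ => ∅
  | b :: L, x, a => {p | ∃ q ∈ s b, p = (x + q.1, a + q.2)} ∪ TS s z ht L (x + z b) (a + ht b)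

section TS

variable (s : B → Set (G × ℕ)) (z : B → G) (ht : B → ℕ)

lemma TS_append (L L' : List B) (x : G) (a : ℕ) :
    TS s z ht (L ++ L') x a = TS s z ht L x a ∪ TS s z ht L' (x + DS z L) (a + HT ht L) := by
  induction L generalizing x a with
  | nil => simp [TS, DS, HT_nil]
  | cons b L ih =>
    simp only [List.cons_append, TS, ih, Set.union_assoc, HT_cons]
    congr 3
    · simp [DS, add_assoc]
    · ring

lemma TS_depth (hs : ∀ b, ∀ q ∈ s b, 1 ≤ q.2 ∧ q.2 ≤ ht b) (L : List B) (x : G) (a : ℕ)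
    (p : G × ℕ) (hp : p ∈ TS s z ht L x a) : a < p.2 ∧ p.2 ≤ a + HT ht L := by
  induction L generalizing x a with
  | nil => simp [TS] at hp
  | cons b L ih =>
    rw [HT_cons]
    rcases hp with ⟨q, hq, rfl⟩ | hp
    · have := hs b q hq
      simp only; omega
    · have := ih _ _ hp; omega

lemma TS_shift (L : List B) (x y : G) (a : ℕ) (p : G × ℕ) :
    p ∈ TS s z ht L x a ↔ (p.1 + y, p.2) ∈ TS s z ht L (x + y) a := by
  induction L generalizing x a with
  | nil => simp [TS]
  | cons b L ih =>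
    simp only [TS, Set.mem_union, Set.mem_ofPred_eq]
    refine or_congr ?_ ?_
    · constructor
      · rintro ⟨q, hq, rfl⟩
        exact ⟨q, hq, Prod.ext (by simp only; abel) rfl⟩
      · rintro ⟨q, hq, h⟩
        refine ⟨q, hq, ?_⟩
        simp only [Prod.mk.injEq] at h
        refine Prod.ext ?_ h.2
        have := h.1
        simp only
        have e : x + y + q.1 = x + q.1 + y := by abel
        rw [e] at this
        exact add_right_cancel this
    · rw [ih (x + z b) (a + ht b), show x + z b + y = x + y + z b by abel]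

end TS

/-! ### the law of the relative position -/

/-- law of the relative position of the two tops -/
noncomputable def mu (f f' : ℕ × G → ℝ≥0∞) (w : G) (h h' : ℕ) (x : G) : ℝ≥0∞ :=
  ∑' y, f (h, y) * f' (h', x - w + y)

lemma slice_le (f : ℕ × G → ℝ≥0∞) (h : ℕ) : ∑' y, f (h, y) ≤ ∑' q, f q :=
  ENNReal.tsum_comp_le_tsum_of_injective (f := fun y : G => (h, y))
    (fun y y' hy => by simpa using hy) f

lemma slice_le' (f : ℕ × G → ℝ≥0∞) (h : ℕ) (c : G) : ∑' y, f (h, c + y) ≤ ∑' q, f q :=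
  ENNReal.tsum_comp_le_tsum_of_injective (f := fun y : G => (h, c + y))
    (fun y y' hy => by simpa using hy) f

lemma slice_le'' (f : ℕ × G → ℝ≥0∞) (h : ℕ) (c d : G) : ∑' y, f (h, y - c + d) ≤ ∑' q, f q :=
  ENNReal.tsum_comp_le_tsum_of_injective (f := fun y : G => (h, y - c + d))
    (fun y y' hy => by simpa using hy) f

variable {f f' : ℕ × G → ℝ≥0∞}

lemma mu_sum (hf : ∑' q, f q ≤ 1) (hf' : ∑' q, f' q ≤ 1) (w : G) (h h' : ℕ) :
    ∑' x, mu f f' w h h' x ≤ 1 := by
  simp only [mu]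
  rw [ENNReal.tsum_comm]
  calc ∑' y, ∑' x, f (h, y) * f' (h', x - w + y)
      = ∑' y, f (h, y) * ∑' x, f' (h', x - w + y) := by simp only [ENNReal.tsum_mul_left]
    _ ≤ ∑' y, f (h, y) * 1 := ENNReal.tsum_le_tsum fun y =>
        mul_le_mul_right ((slice_le'' f' h' w y).trans hf') _
    _ ≤ 1 := by simp only [mul_one]; exact (slice_le f h).trans hf

lemma mu_le_left {C : ℝ≥0∞} (hC : ∀ q, f q ≤ C) (hf' : ∑' q, f' q ≤ 1) (w : G) (h h' : ℕ)
    (x : G) : mu f f' w h h' x ≤ C := by
  calc mu f f' w h h' x ≤ ∑' y, C * f' (h', x - w + y) :=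
        ENNReal.tsum_le_tsum fun y => mul_le_mul_left (hC _) _
    _ = C * ∑' y, f' (h', x - w + y) := ENNReal.tsum_mul_left
    _ ≤ C * 1 := mul_le_mul_right ((slice_le' f' h' (x - w)).trans hf') _
    _ = C := mul_one _

lemma mu_le_right {C : ℝ≥0∞} (hC : ∀ q, f' q ≤ C) (hf : ∑' q, f q ≤ 1) (w : G) (h h' : ℕ)
    (x : G) : mu f f' w h h' x ≤ C := by
  calc mu f f' w h h' x ≤ ∑' y, f (h, y) * C :=
        ENNReal.tsum_le_tsum fun y => mul_le_mul_right (hC _) _
    _ = (∑' y, f (h, y)) * C := ENNReal.tsum_mul_right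
    _ ≤ 1 * C := mul_le_mul_left ((slice_le f h).trans hf) _
    _ = C := one_mul _

lemma mix (f f' : ℕ × G → ℝ≥0∞) (w : G) (I I' : Finset ℕ) (Θ : ℕ → ℕ → G → ℝ≥0∞) :
    ∑' q, f q * ∑' q', f' q' * (if q.1 ∈ I ∧ q'.1 ∈ I' then Θ q.1 q'.1 (w + q'.2 - q.2) else 0)
      = ∑ h ∈ I, ∑ h' ∈ I', ∑' x, mu f f' w h h' x * Θ h h' x := by
  classical
  rw [ENNReal.tsum_prod']
  rw [tsum_eq_sum (s := I)]
  · refine Finset.sum_congr rfl fun h hh => ?_
    calc ∑' y, f (h, y) * ∑' q' : ℕ × G, f' q' *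
          (if h ∈ I ∧ q'.1 ∈ I' then Θ h q'.1 (w + q'.2 - y) else 0)
        = ∑' y, ∑ h' ∈ I', f (h, y) * ∑' x, f' (h', x - w + y) * Θ h h' x := by
          refine tsum_congr fun y => ?_
          rw [ENNReal.tsum_prod', ← Finset.mul_sum]
          congr 1
          rw [tsum_eq_sum (s := I')]
          · refine Finset.sum_congr rfl fun h' hh' => ?_
            simp only [hh, hh', and_self, if_true]
            rw [← (Equiv.addRight (-w + y)).tsum_eq
              (fun y' => f' (h', y') * Θ h h' (w + y' - y))]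
            refine tsum_congr fun x => ?_
            simp only [Equiv.coe_addRight]
            rw [show x + (-w + y) = x - w + y by abel, show w + (x - w + y) - y = x by abel]
          · intro h' hh'
            simp [hh']
      _ = ∑ h' ∈ I', ∑' y, f (h, y) * ∑' x, f' (h', x - w + y) * Θ h h' x :=
          Summable.tsum_finsetSum (fun _ _ => ENNReal.summable)
      _ = _ := by
          refine Finset.sum_congr rfl fun h' _ => ?_
          simp only [mu, ← ENNReal.tsum_mul_left, ← ENNReal.tsum_mul_right]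
          rw [ENNReal.tsum_comm]
          refine tsum_congr fun x => tsum_congr fun y => ?_
          ring
  · intro h hh
    simp [hh]

/-- the two top laws are split into a smooth and a rough part -/
lemma mixbound (p p' g g' r r' : ℕ × G → ℝ≥0∞) (w : G) (I I' : Finset ℕ)
    (Θ ΘX ΘY : ℕ → ℕ → G → ℝ≥0∞) (κ MX MY RX RY bX bY : ℝ≥0∞)
    (hp : ∑' q, p q ≤ 1) (hp' : ∑' q, p' q ≤ 1)
    (hg : ∀ q, p q ≤ g q + r q) (hg' : ∀ q, p' q ≤ g' q + r' q)
    (hgp : ∀ q, g q ≤ p q) (hgp' : ∀ q, g' q ≤ p' q)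
    (hM : ∀ q, g q ≤ MX) (hM' : ∀ q, g' q ≤ MY)
    (hr : ∑' q, r q ≤ RX) (hr' : ∑' q, r' q ≤ RY)
    (hΘ : ∀ h ∈ I, ∀ h' ∈ I', ∀ x, Θ h h' x ≤ κ + ΘX h h' x + ΘY h h' x)
    (hX1 : ∀ h ∈ I, ∀ h' ∈ I', ∀ x, ΘX h h' x ≤ 1) (hY1 : ∀ h ∈ I, ∀ h' ∈ I', ∀ x, ΘY h h' x ≤ 1)
    (hX : ∀ h ∈ I, ∀ h' ∈ I', ∀ μ : G → ℝ≥0∞, ∑' x, μ x ≤ 1 → (∀ x, μ x ≤ MX) →
      ∑' x, μ x * ΘX h h' x ≤ bX)
    (hY : ∀ h ∈ I, ∀ h' ∈ I', ∀ μ : G → ℝ≥0∞, ∑' x, μ x ≤ 1 → (∀ x, μ x ≤ MY) →
      ∑' x, μ x * ΘY h h' x ≤ bY) :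
    ∑' q, p q * ∑' q', p' q' * (if q.1 ∈ I ∧ q'.1 ∈ I' then Θ q.1 q'.1 (w + q'.2 - q.2) else 0)
      ≤ κ + (RX + ((I.card : ℝ≥0∞) * I'.card) * bX) + (RY + ((I.card : ℝ≥0∞) * I'.card) * bY) := by
  classical
  have hcard : ∀ b : ℝ≥0∞, ∑ h ∈ I, ∑ h' ∈ I', b = ((I.card : ℝ≥0∞) * I'.card) * b := by
    intro b
    simp only [Finset.sum_const, nsmul_eq_mul]
    ring
  have hgs : ∑' q, g q ≤ 1 := (ENNReal.tsum_le_tsum hgp).trans hp
  have hgs' : ∑' q, g' q ≤ 1 := (ENNReal.tsum_le_tsum hgp').trans hp'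
  calc ∑' q, p q * ∑' q', p' q' *
        (if q.1 ∈ I ∧ q'.1 ∈ I' then Θ q.1 q'.1 (w + q'.2 - q.2) else 0)
      ≤ ∑' q, p q * ∑' q', (p' q' * κ + p' q' *
          (if q.1 ∈ I ∧ q'.1 ∈ I' then ΘX q.1 q'.1 (w + q'.2 - q.2) else 0) + p' q' *
          (if q.1 ∈ I ∧ q'.1 ∈ I' then ΘY q.1 q'.1 (w + q'.2 - q.2) else 0)) := by
        refine ENNReal.tsum_le_tsum fun q => mul_le_mul_right
          (ENNReal.tsum_le_tsum fun q' => ?_) _
        rw [← mul_add, ← mul_add]
        refine mul_le_mul_right ?_ _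
        by_cases c : q.1 ∈ I ∧ q'.1 ∈ I'
        · simp only [if_pos c]; exact hΘ _ c.1 _ c.2 _
        · simp only [if_neg c]; exact zero_le
    _ = ∑' q, p q * ∑' q', p' q' * κ + ∑' q, p q * ∑' q', p' q' *
          (if q.1 ∈ I ∧ q'.1 ∈ I' then ΘX q.1 q'.1 (w + q'.2 - q.2) else 0)
        + ∑' q, p q * ∑' q', p' q' *
          (if q.1 ∈ I ∧ q'.1 ∈ I' then ΘY q.1 q'.1 (w + q'.2 - q.2) else 0) := by
        rw [← ENNReal.tsum_add, ← ENNReal.tsum_add]
        refine tsum_congr fun q => ?_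
        rw [ENNReal.tsum_add, ENNReal.tsum_add, mul_add, mul_add]
    _ ≤ κ + (RX + ((I.card : ℝ≥0∞) * I'.card) * bX) + (RY + ((I.card : ℝ≥0∞) * I'.card) * bY) := by
        refine add_le_add (add_le_add ?_ ?_) ?_
        · calc ∑' q, p q * ∑' q', p' q' * κ ≤ ∑' q, p q * (1 * κ) := by
                refine ENNReal.tsum_le_tsum fun q => mul_le_mul_right ?_ _
                rw [ENNReal.tsum_mul_right]
                exact mul_le_mul_left hp' _
            _ = (∑' q, p q) * κ := by rw [one_mul, ENNReal.tsum_mul_right]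
            _ ≤ 1 * κ := mul_le_mul_left hp _
            _ = κ := one_mul _
        · calc ∑' q, p q * ∑' q', p' q' *
                (if q.1 ∈ I ∧ q'.1 ∈ I' then ΘX q.1 q'.1 (w + q'.2 - q.2) else 0)
              ≤ ∑' q, (r q * 1 + g q * ∑' q', p' q' *
                (if q.1 ∈ I ∧ q'.1 ∈ I' then ΘX q.1 q'.1 (w + q'.2 - q.2) else 0)) := by
                refine ENNReal.tsum_le_tsum fun q => ?_
                refine (mul_le_mul_left (hg q) _).trans ?_
                rw [add_mul, add_comm]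
                refine add_le_add (mul_le_mul_right ?_ _) le_rfl
                refine le_trans (ENNReal.tsum_le_tsum fun q' => ?_) hp'
                refine mul_le_of_le_one_right zero_le ?_
                by_cases c : q.1 ∈ I ∧ q'.1 ∈ I'
                · rw [if_pos c]; exact hX1 _ c.1 _ c.2 _
                · rw [if_neg c]; exact zero_le
            _ = ∑' q, r q + ∑ h ∈ I, ∑ h' ∈ I', ∑' x, mu g p' w h h' x * ΘX h h' x := by
                rw [ENNReal.tsum_add, mix]; simp
            _ ≤ RX + ∑ h ∈ I, ∑ h' ∈ I', bX := by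
                refine add_le_add hr (Finset.sum_le_sum fun h hh =>
                  Finset.sum_le_sum fun h' hh' => ?_)
                exact hX h hh h' hh' _ (mu_sum hgs hp' w h h') (mu_le_left hM hp' w h h')
            _ = _ := by rw [hcard]
        · calc ∑' q, p q * ∑' q', p' q' *
                (if q.1 ∈ I ∧ q'.1 ∈ I' then ΘY q.1 q'.1 (w + q'.2 - q.2) else 0)
              ≤ ∑' q, (p q * RY + p q * ∑' q', g' q' *
                (if q.1 ∈ I ∧ q'.1 ∈ I' then ΘY q.1 q'.1 (w + q'.2 - q.2) else 0)) := by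
                refine ENNReal.tsum_le_tsum fun q => ?_
                rw [← mul_add]
                refine mul_le_mul_right ?_ _
                calc ∑' q', p' q' *
                      (if q.1 ∈ I ∧ q'.1 ∈ I' then ΘY q.1 q'.1 (w + q'.2 - q.2) else 0)
                    ≤ ∑' q', (r' q' + g' q' *
                      (if q.1 ∈ I ∧ q'.1 ∈ I' then ΘY q.1 q'.1 (w + q'.2 - q.2) else 0)) := by
                      refine ENNReal.tsum_le_tsum fun q' => ?_
                      refine (mul_le_mul_left (hg' q') _).trans ?_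
                      rw [add_mul, add_comm]
                      refine add_le_add (mul_le_of_le_one_right zero_le ?_) le_rfl
                      by_cases c : q.1 ∈ I ∧ q'.1 ∈ I'
                      · rw [if_pos c]; exact hY1 _ c.1 _ c.2 _
                      · rw [if_neg c]; exact zero_le
                  _ ≤ _ := by rw [ENNReal.tsum_add]; exact add_le_add hr' le_rfl
            _ = (∑' q, p q) * RY + ∑ h ∈ I, ∑ h' ∈ I', ∑' x, mu p g' w h h' x * ΘY h h' x := by
                rw [ENNReal.tsum_add, mix, ENNReal.tsum_mul_right]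
            _ ≤ 1 * RY + ∑ h ∈ I, ∑ h' ∈ I', bY := by
                refine add_le_add (mul_le_mul_left hp _) (Finset.sum_le_sum fun h hh =>
                  Finset.sum_le_sum fun h' hh' => ?_)
                exact hY h hh h' hh' _ (mu_sum hp hgs' w h h') (mu_le_right hM' hp w h h')
            _ = _ := by rw [hcard, one_mul]

end Crest.Agent.R154.KA509
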