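import Crest.Agent.R154.KA2_509

/-! Row 154, KAPPA' (helper509), part 3: decomposition of the two lists at one window. -/

set_option autoImplicit false

namespace Crest.Agent.R154.KA509

open scoped ENNReal
open Crest.Agent.R154.B5A

section one

variable {B : Type*} (Λ : B → ℝ≥0∞) (ht : B → ℕ)

open Classical in
/-- top part and piece of one walker -/
lemma L3 (hU1 : ∀ n, U Λ ht n ≤ 1) (a T0 i0 n : ℕ) (hn : a + i0 + T0 ≤ n)
    (F : List B → List B → ℝ≥0∞) :
    ∑' L, (if HT ht L = n ∧ HT ht (pre ht L a) ≤ a + i0 then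
        LW Λ L * F (pre ht L a) (pre ht (rst ht L a) T0) else 0)
      ≤ ∑' P, (if FP ht P a ∧ HT ht P ≤ a + i0 then
          LW Λ P * ∑' Q, (if FP ht Q T0 then LW Λ Q * F P Q else 0) else 0) := by
  set φ : List B → List B × (List B × List B) :=
    fun L => (pre ht L a, (pre ht (rst ht L a) T0, rst ht (rst ht L a) T0)) with hφ
  have hinj : Function.Injective φ := by
    intro L L' h
    simp only [hφ, Prod.mk.injEq] at h
    have e1 : rst ht L a = rst ht L' a := by
      rw [← pre_rst ht (rst ht L a) T0, ← pre_rst ht (rst ht L' a) T0, h.2.1, h.2.2]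
    rw [← pre_rst ht L a, ← pre_rst ht L' a, h.1, e1]
  set f : List B × (List B × List B) → ℝ≥0∞ := fun t =>
    if FP ht t.1 a ∧ HT ht t.1 ≤ a + i0 ∧ FP ht t.2.1 T0 ∧
      HT ht t.2.2 = n - HT ht t.1 - HT ht t.2.1 then
      LW Λ t.1 * (LW Λ t.2.1 * F t.1 t.2.1 * LW Λ t.2.2) else 0 with hf
  calc ∑' L, (if HT ht L = n ∧ HT ht (pre ht L a) ≤ a + i0 then
        LW Λ L * F (pre ht L a) (pre ht (rst ht L a) T0) else 0)
      ≤ ∑' L, f (φ L) := by
        refine ENNReal.tsum_le_tsum fun L => ?_
        by_cases c : HT ht L = n ∧ HT ht (pre ht L a) ≤ a + i0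
        · rw [if_pos c]
          have e1 : HT ht (pre ht L a) + HT ht (rst ht L a) = n := by
            rw [← HT_append, pre_rst]; exact c.1
          have e2 : HT ht (pre ht (rst ht L a) T0) + HT ht (rst ht (rst ht L a) T0)
              = HT ht (rst ht L a) := by
            rw [← HT_append, pre_rst]
          have p1 : FP ht (pre ht L a) a := fp_pre ht L a (by omega)
          have p2 : FP ht (pre ht (rst ht L a) T0) T0 := fp_pre ht _ T0 (by omega)
          simp only [hf, hφ]
          rw [if_pos ⟨p1, c.2, p2, by omega⟩]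
          have e3 : LW Λ L = LW Λ (pre ht L a) * (LW Λ (pre ht (rst ht L a) T0)
              * LW Λ (rst ht (rst ht L a) T0)) := by
            rw [← LW_append, pre_rst, ← LW_append, pre_rst]
          rw [e3]
          exact le_of_eq (by ring)
        · rw [if_neg c]; exact zero_le
    _ ≤ ∑' t, f t := ENNReal.tsum_comp_le_tsum_of_injective hinj f
    _ = ∑' P, ∑' Q, ∑' R, f (P, (Q, R)) := by
        rw [ENNReal.tsum_prod']
        refine tsum_congr fun P => ?_
        rw [ENNReal.tsum_prod']
    _ ≤ _ := by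
        refine ENNReal.tsum_le_tsum fun P => ?_
        by_cases c : FP ht P a ∧ HT ht P ≤ a + i0
        · rw [if_pos c, ← ENNReal.tsum_mul_left]
          refine ENNReal.tsum_le_tsum fun Q => ?_
          by_cases c' : FP ht Q T0
          · rw [if_pos c']
            calc ∑' R, f (P, (Q, R))
                = ∑' R, LW Λ P * (LW Λ Q * F P Q) *
                    (if HT ht R = n - HT ht P - HT ht Q then LW Λ R else 0) := by
                  refine tsum_congr fun R => ?_
                  simp only [hf]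
                  by_cases c2 : HT ht R = n - HT ht P - HT ht Q
                  · rw [if_pos ⟨c.1, c.2, c', c2⟩, if_pos c2]; ring
                  · rw [if_neg (fun h => c2 h.2.2.2), if_neg c2, mul_zero]
              _ = LW Λ P * (LW Λ Q * F P Q) * U Λ ht (n - HT ht P - HT ht Q) := by
                  rw [ENNReal.tsum_mul_left, U]
              _ ≤ LW Λ P * (LW Λ Q * F P Q) * 1 := mul_le_mul_right (hU1 _) _
              _ = _ := mul_one _
          · have : ∀ R, f (P, (Q, R)) = 0 := fun R => by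
              simp only [hf]; rw [if_neg]; exact fun h => c' h.2.2.1
            simp only [this, tsum_zero]; exact zero_le
        · have : ∀ Q R, f (P, (Q, R)) = 0 := fun Q R => by
            simp only [hf]; rw [if_neg]; exact fun h => c ⟨h.1, h.2.1⟩
          simp only [this, tsum_zero]; exact zero_le

open Classical in
lemma bad1 (hU1 : ∀ n, U Λ ht n ≤ 1) (a i0 n : ℕ) (hn : a ≤ n) (e : ℝ≥0∞)
    (he : ∑' L, (if FP ht L a ∧ a + i0 < HT ht L then LW Λ L else 0) ≤ e) :
    ∑' L, (if HT ht L = n ∧ a + i0 < HT ht (pre ht L a) then LW Λ L else 0) ≤ e := by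
  set φ : List B → List B × List B := fun L => (pre ht L a, rst ht L a) with hφ
  have hinj : Function.Injective φ := by
    intro L L' h
    simp only [hφ, Prod.mk.injEq] at h
    rw [← pre_rst ht L a, ← pre_rst ht L' a, h.1, h.2]
  set f : List B × List B → ℝ≥0∞ := fun t =>
    (if FP ht t.1 a ∧ a + i0 < HT ht t.1 then LW Λ t.1 else 0) *
      (if HT ht t.2 = n - HT ht t.1 then LW Λ t.2 else 0) with hf
  calc ∑' L, (if HT ht L = n ∧ a + i0 < HT ht (pre ht L a) then LW Λ L else 0)
      ≤ ∑' L, f (φ L) := by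
        refine ENNReal.tsum_le_tsum fun L => ?_
        by_cases c : HT ht L = n ∧ a + i0 < HT ht (pre ht L a)
        · rw [if_pos c]
          have e1 : HT ht (pre ht L a) + HT ht (rst ht L a) = n := by
            rw [← HT_append, pre_rst]; exact c.1
          have p1 : FP ht (pre ht L a) a := fp_pre ht L a (by omega)
          simp only [hf, hφ]
          rw [if_pos ⟨p1, c.2⟩, if_pos (by omega), ← LW_append, pre_rst]
        · rw [if_neg c]; exact zero_le
    _ ≤ ∑' t, f t := ENNReal.tsum_comp_le_tsum_of_injective hinj f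
    _ = ∑' P, (if FP ht P a ∧ a + i0 < HT ht P then LW Λ P else 0) *
          U Λ ht (n - HT ht P) := by
        rw [ENNReal.tsum_prod']
        refine tsum_congr fun P => ?_
        simp only [hf]
        rw [ENNReal.tsum_mul_left, U]
    _ ≤ ∑' P, (if FP ht P a ∧ a + i0 < HT ht P then LW Λ P else 0) * 1 :=
        ENNReal.tsum_le_tsum fun P => mul_le_mul_right (hU1 _) _
    _ ≤ e := by simpa only [mul_one] using he

open Classical in
lemma bad2 (hΛ : ∑' b, Λ b ≤ 1) (h1 : ∀ b, 1 ≤ ht b) (hU1 : ∀ n, U Λ ht n ≤ 1)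
    (a T0 i0 n : ℕ) (hn : a + i0 + T0 ≤ n) (e : ℝ≥0∞)
    (he : ∑' L, (if FP ht L T0 ∧ T0 + i0 < HT ht L then LW Λ L else 0) ≤ e) :
    ∑' L, (if HT ht L = n ∧ HT ht (pre ht L a) ≤ a + i0 ∧
      T0 + i0 < HT ht (pre ht (rst ht L a) T0) then LW Λ L else 0) ≤ e := by
  calc ∑' L, (if HT ht L = n ∧ HT ht (pre ht L a) ≤ a + i0 ∧
      T0 + i0 < HT ht (pre ht (rst ht L a) T0) then LW Λ L else 0)
      = ∑' L, (if HT ht L = n ∧ HT ht (pre ht L a) ≤ a + i0 then
        LW Λ L * (fun _ Q => if T0 + i0 < HT ht Q then (1 : ℝ≥0∞) else 0)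
          (pre ht L a) (pre ht (rst ht L a) T0) else 0) := by
        refine tsum_congr fun L => ?_
        by_cases c : HT ht L = n ∧ HT ht (pre ht L a) ≤ a + i0
        · by_cases c' : T0 + i0 < HT ht (pre ht (rst ht L a) T0)
          · simp [c, c']
          · simp [c']
        · rw [if_neg c, if_neg]; exact fun h => c ⟨h.1, h.2.1⟩
    _ ≤ ∑' P, (if FP ht P a ∧ HT ht P ≤ a + i0 then
          LW Λ P * ∑' Q, (if FP ht Q T0 then LW Λ Q *
            (fun _ Q => if T0 + i0 < HT ht Q then (1 : ℝ≥0∞) else 0) P Q else 0) else 0) :=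
        L3 Λ ht hU1 a T0 i0 n hn _
    _ ≤ ∑' P, (if FP ht P a then LW Λ P else 0) * e := by
        refine ENNReal.tsum_le_tsum fun P => ?_
        by_cases c : FP ht P a ∧ HT ht P ≤ a + i0
        · rw [if_pos c, if_pos c.1]
          refine mul_le_mul_right (le_trans (ENNReal.tsum_le_tsum fun Q => ?_) he) _
          by_cases c1 : FP ht Q T0 <;> by_cases c2 : T0 + i0 < HT ht Q <;> simp [c1, c2]
        · rw [if_neg c]; exact zero_le
    _ = (∑' P, (if FP ht P a then LW Λ P else 0)) * e := ENNReal.tsum_mul_right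
    _ ≤ 1 * e := mul_le_mul_left (fp_mass Λ ht hΛ h1 a) _
    _ = e := one_mul _

end one

end Crest.Agent.R154.KA509
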