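import Crest.Agent.R154.KA3_509

/-! Row 154, KAPPA' (helper509), part 4: one window. -/

set_option autoImplicit false

namespace Crest.Agent.R154.KA509

open scoped ENNReal
open Crest.Agent.R154.B5A

variable {BX BY G : Type*} [AddCommGroup G]
variable (ΛX : BX → ℝ≥0∞) (ΛY : BY → ℝ≥0∞) (hX : BX → ℕ) (hY : BY → ℕ) (zX : BX → G)
  (zY : BY → G) (sX : BX → Set (G × ℕ)) (sY : BY → Set (G × ℕ))

/-- contact sets -/
def Cn (L : List BX) (x : G) (a : ℕ) (L' : List BY) (x' : G) (a' : ℕ) : Set (G × ℕ) :=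
  TS sX zX hX L x a ∩ TS sY zY hY L' x' a'

/-- contact, all contacts at depth in `[lo, hi]` -/
def Cd (lo hi : ℕ) (S : Set (G × ℕ)) : Prop := (∃ p, p ∈ S) ∧ ∀ p ∈ S, lo ≤ p.2 ∧ p.2 ≤ hi

lemma Cn_shift (L : List BX) (x : G) (a : ℕ) (L' : List BY) (x' : G) (a' : ℕ) (y : G)
    (lo hi : ℕ) :
    Cd lo hi (Cn hX hY zX zY sX sY L x a L' x' a')
      ↔ Cd lo hi (Cn hX hY zX zY sX sY L (x + y) a L' (x' + y) a') := by
  have key : ∀ p : G × ℕ, p ∈ Cn hX hY zX zY sX sY L x a L' x' a'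
      ↔ (p.1 + y, p.2) ∈ Cn hX hY zX zY sX sY L (x + y) a L' (x' + y) a' := by
    intro p
    exact and_congr (TS_shift sX zX hX L x y a p) (TS_shift sY zY hY L' x' y a' p)
  constructor
  · rintro ⟨⟨p, hp⟩, h⟩
    refine ⟨⟨_, (key p).1 hp⟩, fun q hq => ?_⟩
    have : (q.1 - y, q.2) ∈ Cn hX hY zX zY sX sY L x a L' x' a' := by
      rw [key]; simpa using hq
    exact h (q.1 - y, q.2) this
  · rintro ⟨⟨p, hp⟩, h⟩
    refine ⟨⟨(p.1 - y, p.2), ?_⟩, fun q hq => ?_⟩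
    · rw [key]; simpa using hp
    · exact h (q.1 + y, q.2) ((key q).1 hq)

open Classical in
/-- pieces with a deep contact -/
noncomputable def Th (T0 T1 i0 lo hi : ℕ) (PX : List BX → Prop) (PY : List BY → Prop)
    (h h' : ℕ) (x : G) : ℝ≥0∞ :=
  ∑' Q, ∑' Q', if (FP hX Q T0 ∧ HT hX Q ≤ T0 + i0 ∧ PX Q) ∧ (FP hY Q' T1 ∧ HT hY Q' ≤ T1 + i0 ∧
    PY Q') ∧ Cd lo hi (Cn hX hY zX zY sX sY Q 0 h Q' x h') then LW ΛX Q * LW ΛY Q' else 0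

open Classical in
lemma Th_le (T0 T1 i0 lo hi : ℕ) (PX : List BX → Prop) (PY : List BY → Prop) (h h' : ℕ) (x : G)
    (c c' : ℝ≥0∞)
    (hc : ∑' Q, (if FP hX Q T0 ∧ PX Q then LW ΛX Q else 0) ≤ c)
    (hc' : ∑' Q, (if FP hY Q T1 ∧ PY Q then LW ΛY Q else 0) ≤ c') :
    Th ΛX ΛY hX hY zX zY sX sY T0 T1 i0 lo hi PX PY h h' x ≤ c * c' := by
  calc Th ΛX ΛY hX hY zX zY sX sY T0 T1 i0 lo hi PX PY h h' x
      ≤ ∑' Q, ∑' Q', (if FP hX Q T0 ∧ PX Q then LW ΛX Q else 0) *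
          (if FP hY Q' T1 ∧ PY Q' then LW ΛY Q' else 0) := by
        refine ENNReal.tsum_le_tsum fun Q => ENNReal.tsum_le_tsum fun Q' => ?_
        split_ifs with h1 h2 h3 h3
        · exact le_rfl
        · exact absurd ⟨h1.2.1.1, h1.2.1.2.2⟩ h3
        · exact absurd ⟨h1.1.1, h1.1.2.2⟩ h2
        · exact absurd ⟨h1.1.1, h1.1.2.2⟩ h2
        all_goals exact zero_le
    _ = (∑' Q, (if FP hX Q T0 ∧ PX Q then LW ΛX Q else 0)) *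
          ∑' Q', (if FP hY Q' T1 ∧ PY Q' then LW ΛY Q' else 0) := by
        simp only [ENNReal.tsum_mul_left, ENNReal.tsum_mul_right]
    _ ≤ _ := mul_le_mul' hc hc'

open Classical in
lemma Th_split (T0 T1 i0 lo hi : ℕ) (PX : List BX → Prop) (PY : List BY → Prop) (h h' : ℕ)
    (x : G) :
    Th ΛX ΛY hX hY zX zY sX sY T0 T1 i0 lo hi (fun _ => True) (fun _ => True) h h' x ≤
      Th ΛX ΛY hX hY zX zY sX sY T0 T1 i0 lo hi (fun Q => ¬ PX Q) (fun Q => ¬ PY Q) h h' x +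
      Th ΛX ΛY hX hY zX zY sX sY T0 T1 i0 lo hi PX (fun _ => True) h h' x +
      Th ΛX ΛY hX hY zX zY sX sY T0 T1 i0 lo hi (fun _ => True) PY h h' x := by
  simp only [Th, ← ENNReal.tsum_add]
  refine ENNReal.tsum_le_tsum fun Q => ENNReal.tsum_le_tsum fun Q' => ?_
  by_cases c : (FP hX Q T0 ∧ HT hX Q ≤ T0 + i0 ∧ True) ∧ (FP hY Q' T1 ∧ HT hY Q' ≤ T1 + i0 ∧
    True) ∧ Cd lo hi (Cn hX hY zX zY sX sY Q 0 h Q' x h')
  · rw [if_pos c]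
    by_cases c1 : PX Q
    · rw [if_pos (c := (FP hX Q T0 ∧ HT hX Q ≤ T0 + i0 ∧ PX Q) ∧ (FP hY Q' T1 ∧
        HT hY Q' ≤ T1 + i0 ∧ True) ∧ _) ⟨⟨c.1.1, c.1.2.1, c1⟩, c.2⟩]
      exact le_add_right (le_add_left le_rfl)
    · by_cases c2 : PY Q'
      · rw [if_pos (c := (FP hX Q T0 ∧ HT hX Q ≤ T0 + i0 ∧ True) ∧ (FP hY Q' T1 ∧
          HT hY Q' ≤ T1 + i0 ∧ PY Q') ∧ _) ⟨c.1, ⟨c.2.1.1, c.2.1.2.1, c2⟩, c.2.2⟩]
        exact le_add_left le_rfl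
      · rw [if_pos (c := (FP hX Q T0 ∧ HT hX Q ≤ T0 + i0 ∧ ¬ PX Q) ∧ (FP hY Q' T1 ∧
          HT hY Q' ≤ T1 + i0 ∧ ¬ PY Q') ∧ _)
          ⟨⟨c.1.1, c.1.2.1, c1⟩, ⟨c.2.1.1, c.2.1.2.1, c2⟩, c.2.2⟩]
        exact le_add_right (le_add_right le_rfl)
  · rw [if_neg c]; exact zero_le

open Classical in
/-- finite sum over the heights of the two pieces -/
lemma Th_heights (T0 T1 i0 lo hi : ℕ) (PX : List BX → Prop) (PY : List BY → Prop)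
    (b : ℝ≥0∞) (μ : G → ℝ≥0∞) (h h' : ℕ)
    (H : ∀ k ∈ Finset.Icc T0 (T0 + i0), ∀ k' ∈ Finset.Icc T1 (T1 + i0),
      ∑' x, μ x * (∑' Q, ∑' Q', if HT hX Q = k ∧ HT hY Q' = k' ∧
        (FP hX Q T0 ∧ PX Q) ∧ (FP hY Q' T1 ∧ PY Q') ∧
        Cd lo hi (Cn hX hY zX zY sX sY Q 0 h Q' x h') then LW ΛX Q * LW ΛY Q' else 0) ≤ b) :
    ∑' x, μ x * Th ΛX ΛY hX hY zX zY sX sY T0 T1 i0 lo hi PX PY h h' x
      ≤ ((i0 + 1 : ℕ) * (i0 + 1 : ℕ) : ℝ≥0∞) * b := by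
  set f : G → ℕ → ℕ → ℝ≥0∞ := fun x k k' => ∑' Q, ∑' Q', if HT hX Q = k ∧ HT hY Q' = k' ∧
        (FP hX Q T0 ∧ PX Q) ∧ (FP hY Q' T1 ∧ PY Q') ∧
        Cd lo hi (Cn hX hY zX zY sX sY Q 0 h Q' x h') then LW ΛX Q * LW ΛY Q' else 0 with hf
  calc ∑' x, μ x * Th ΛX ΛY hX hY zX zY sX sY T0 T1 i0 lo hi PX PY h h' x
      ≤ ∑' x, μ x * ∑ k ∈ Finset.Icc T0 (T0 + i0), ∑ k' ∈ Finset.Icc T1 (T1 + i0), f x k k' := by
        refine ENNReal.tsum_le_tsum fun x => mul_le_mul_right ?_ _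
        simp only [Th, hf]
        have e := show (∑' Q, ∑' Q', ∑ k ∈ Finset.Icc T0 (T0 + i0),
            ∑ k' ∈ Finset.Icc T1 (T1 + i0), (if HT hX Q = k ∧ HT hY Q' = k' ∧
            (FP hX Q T0 ∧ PX Q) ∧ (FP hY Q' T1 ∧ PY Q') ∧
            Cd lo hi (Cn hX hY zX zY sX sY Q 0 h Q' x h') then LW ΛX Q * LW ΛY Q' else 0))
            = ∑ k ∈ Finset.Icc T0 (T0 + i0), ∑ k' ∈ Finset.Icc T1 (T1 + i0), ∑' Q, ∑' Q',
            (if HT hX Q = k ∧ HT hY Q' = k' ∧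
            (FP hX Q T0 ∧ PX Q) ∧ (FP hY Q' T1 ∧ PY Q') ∧
            Cd lo hi (Cn hX hY zX zY sX sY Q 0 h Q' x h') then LW ΛX Q * LW ΛY Q' else 0) by
          simp_rw [Summable.tsum_finsetSum (fun _ _ => ENNReal.summable)]
        rw [← e]
        refine ENNReal.tsum_le_tsum fun Q => ENNReal.tsum_le_tsum fun Q' => ?_
        by_cases c : (FP hX Q T0 ∧ HT hX Q ≤ T0 + i0 ∧ PX Q) ∧ (FP hY Q' T1 ∧
          HT hY Q' ≤ T1 + i0 ∧ PY Q') ∧ Cd lo hi (Cn hX hY zX zY sX sY Q 0 h Q' x h')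
        · have m1 : HT hX Q ∈ Finset.Icc T0 (T0 + i0) :=
            Finset.mem_Icc.2 ⟨fp_ge hX Q T0 c.1.1, c.1.2.1⟩
          have m2 : HT hY Q' ∈ Finset.Icc T1 (T1 + i0) :=
            Finset.mem_Icc.2 ⟨fp_ge hY Q' T1 c.2.1.1, c.2.1.2.1⟩
          refine le_trans ?_ (Finset.single_le_sum (fun _ _ => zero_le) m1)
          refine le_trans ?_ (Finset.single_le_sum (fun _ _ => zero_le) m2)
          rw [if_pos c, if_pos ⟨rfl, rfl, ⟨c.1.1, c.1.2.2⟩, ⟨c.2.1.1, c.2.1.2.2⟩, c.2.2⟩]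
        · rw [if_neg c]; exact zero_le
    _ = ∑ k ∈ Finset.Icc T0 (T0 + i0), ∑ k' ∈ Finset.Icc T1 (T1 + i0), ∑' x, μ x * f x k k' := by
        simp only [Finset.mul_sum]
        rw [Summable.tsum_finsetSum (fun _ _ => ENNReal.summable)]
        refine Finset.sum_congr rfl fun k _ => ?_
        rw [Summable.tsum_finsetSum (fun _ _ => ENNReal.summable)]
    _ ≤ ∑ k ∈ Finset.Icc T0 (T0 + i0), ∑ k' ∈ Finset.Icc T1 (T1 + i0), b :=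
        Finset.sum_le_sum fun k hk => Finset.sum_le_sum fun k' hk' => H k hk k' hk'
    _ = _ := by
        simp only [Finset.sum_const, Nat.card_Icc, nsmul_eq_mul]
        rw [show T0 + i0 + 1 - T0 = i0 + 1 by omega, show T1 + i0 + 1 - T1 = i0 + 1 by omega]
        ring

end Crest.Agent.R154.KA509
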