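import Crest.Agent.R154.KA4_509

/-! Row 154, KAPPA' (helper509), part 5: one window, the decomposition. -/

set_option autoImplicit false

namespace Crest.Agent.R154.KA509

open scoped ENNReal
open Crest.Agent.R154.B5A

variable {BX BY G : Type*} [AddCommGroup G]
variable (ΛX : BX → ℝ≥0∞) (ΛY : BY → ℝ≥0∞) (hX : BX → ℕ) (hY : BY → ℕ) (zX : BX → G)
  (zY : BY → G) (sX : BX → Set (G × ℕ)) (sY : BY → Set (G × ℕ))

/-- window event: contact in the window, no contact in the slabs -/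
def Wd (A A2 lo hi w1 w2 : ℕ) (w : G) (LX : List BX) (LY : List BY) : Prop :=
  (∃ p ∈ Cn hX hY zX zY sX sY LX 0 0 LY w 0, w1 < p.2 ∧ p.2 ≤ w2) ∧
  ∀ p ∈ Cn hX hY zX zY sX sY LX 0 0 LY w 0, A < p.2 → p.2 ≤ A2 → lo ≤ p.2 ∧ p.2 ≤ hi

omit [AddCommGroup G] in
lemma TS_mid [AddCommGroup G] {B : Type*} (s : B → Set (G × ℕ)) (z : B → G) (ht : B → ℕ)
    (hs : ∀ b, ∀ q ∈ s b, 1 ≤ q.2 ∧ q.2 ≤ ht b) (L : List B) (x : G) (A T0 : ℕ) (p : G × ℕ)
    (h1 : HT ht (pre ht L A) < p.2)
    (h2 : p.2 ≤ HT ht (pre ht L A) + HT ht (pre ht (rst ht L A) T0)) :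
    p ∈ TS s z ht L x 0 ↔
      p ∈ TS s z ht (pre ht (rst ht L A) T0) (x + DS z (pre ht L A)) (HT ht (pre ht L A)) := by
  conv_lhs => rw [← pre_rst ht L A, TS_append]
  conv_lhs => rw [← pre_rst ht (rst ht L A) T0, TS_append]
  simp only [Set.mem_union, zero_add]
  constructor
  · rintro (h | h | h)
    · have := TS_depth s z ht hs _ _ _ p h; omega
    · exact h
    · have := TS_depth s z ht hs _ _ _ p h; omega
  · intro h; exact Or.inr (Or.inl h)

/-- reordering of the four sums -/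
lemma reord (c : List BX → Prop) (c' d' : List BY → Prop) (Φ : List BX → List BY → List BY → Prop)
    [DecidablePred c] [DecidablePred c'] [DecidablePred d'] [∀ Q P Q', Decidable (Φ Q P Q')] :
    ∑' Q, (if c Q then LW ΛX Q * ∑' P', (if c' P' then LW ΛY P' *
      ∑' Q', (if d' Q' then LW ΛY Q' * (if Φ Q P' Q' then 1 else 0) else 0) else 0) else 0)
    = ∑' P', (if c' P' then LW ΛY P' * ∑' Q, ∑' Q', (if c Q ∧ d' Q' ∧ Φ Q P' Q'
        then LW ΛX Q * LW ΛY Q' else 0) else 0) := by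
  have e1 : ∀ Q, (if c Q then LW ΛX Q * ∑' P', (if c' P' then LW ΛY P' *
      ∑' Q', (if d' Q' then LW ΛY Q' * (if Φ Q P' Q' then 1 else 0) else 0) else 0) else 0)
      = ∑' P', ∑' Q', (if c Q ∧ c' P' ∧ d' Q' ∧ Φ Q P' Q'
        then LW ΛX Q * (LW ΛY P' * LW ΛY Q') else 0) := by
    intro Q
    by_cases h : c Q
    · rw [if_pos h, ← ENNReal.tsum_mul_left]
      refine tsum_congr fun P' => ?_
      by_cases h' : c' P'
      · rw [if_pos h', ← ENNReal.tsum_mul_left, ← ENNReal.tsum_mul_left]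
        refine tsum_congr fun Q' => ?_
        by_cases h2 : d' Q' <;> by_cases h3 : Φ Q P' Q' <;> simp [h, h', h2, h3]
      · simp [h']
    · simp [h]
  have e2 : ∀ P', (if c' P' then LW ΛY P' * ∑' Q, ∑' Q', (if c Q ∧ d' Q' ∧ Φ Q P' Q'
        then LW ΛX Q * LW ΛY Q' else 0) else 0)
      = ∑' Q, ∑' Q', (if c Q ∧ c' P' ∧ d' Q' ∧ Φ Q P' Q'
        then LW ΛX Q * (LW ΛY P' * LW ΛY Q') else 0) := by
    intro P'
    by_cases h' : c' P'
    · rw [if_pos h', ← ENNReal.tsum_mul_left]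
      refine tsum_congr fun Q => ?_
      rw [← ENNReal.tsum_mul_left]
      refine tsum_congr fun Q' => ?_
      by_cases h2 : c Q ∧ d' Q' ∧ Φ Q P' Q'
      · rw [if_pos h2, if_pos ⟨h2.1, h', h2.2.1, h2.2.2⟩]; ring
      · rw [if_neg h2, if_neg (fun h => h2 ⟨h.1, h.2.2.1, h.2.2.2⟩), mul_zero]
    · simp [h']
  rw [tsum_congr e1, tsum_congr e2, ENNReal.tsum_comm]

open Classical in
theorem window_sum (hU1X : ∀ n, U ΛX hX n ≤ 1) (hU1Y : ∀ n, U ΛY hY n ≤ 1)
    (h1X : ∀ b, 1 ≤ hX b) (h1Y : ∀ b, 1 ≤ hY b) (hΛX : ∑' b, ΛX b ≤ 1) (hΛY : ∑' b, ΛY b ≤ 1)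
    (hsX : ∀ b, ∀ q ∈ sX b, 1 ≤ q.2 ∧ q.2 ≤ hX b) (hsY : ∀ b, ∀ q ∈ sY b, 1 ≤ q.2 ∧ q.2 ≤ hY b)
    (A A1 T0 T1 i0 n lo hi w1 w2 A2 : ℕ) (w : G) (hA : A ≤ A1)
    (hn : A + i0 + T0 ≤ n) (hn1 : A1 + i0 + T1 ≤ n) (hw1 : A1 + i0 ≤ w1) (hw1' : A + i0 ≤ w1)
    (hw2 : w2 ≤ A + T0) (hw2' : w2 ≤ A1 + T1) (hA2 : A + i0 + (T0 + i0) ≤ A2)
    (eX eY : ℝ≥0∞)
    (eX1 : ∑' L, (if FP hX L A ∧ A + i0 < HT hX L then LW ΛX L else 0) ≤ eX)
    (eX2 : ∑' L, (if FP hX L T0 ∧ T0 + i0 < HT hX L then LW ΛX L else 0) ≤ eX)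
    (eY1 : ∑' L, (if FP hY L A1 ∧ A1 + i0 < HT hY L then LW ΛY L else 0) ≤ eY)
    (eY2 : ∑' L, (if FP hY L T1 ∧ T1 + i0 < HT hY L then LW ΛY L else 0) ≤ eY) :
    ∑' LX, ∑' LY, (if HT hX LX = n ∧ HT hY LY = n ∧
        Wd hX hY zX zY sX sY A A2 lo hi w1 w2 w LX LY then LW ΛX LX * LW ΛY LY else 0)
      ≤ (eX + eX) + (eY + eY) +
        ∑' q, pl ΛX hX zX A q * ∑' q', pl ΛY hY zY A1 q' *
          (if q.1 ∈ Finset.Icc A (A + i0) ∧ q'.1 ∈ Finset.Icc A1 (A1 + i0) then
            Th ΛX ΛY hX hY zX zY sX sY T0 T1 i0 lo hi (fun _ => True) (fun _ => True)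
              q.1 q'.1 (w + q'.2 - q.2) else 0) := by
  -- the contact of the pieces
  set Φ : List BX → List BX → List BY → List BY → Prop := fun P Q P' Q' =>
    HT hX Q ≤ T0 + i0 ∧ HT hY Q' ≤ T1 + i0 ∧
      Cd lo hi (Cn hX hY zX zY sX sY Q (DS zX P) (HT hX P) Q' (w + DS zY P') (HT hY P')) with hΦ
  set bX : List BX → ℝ≥0∞ := fun LX =>
    (if HT hX LX = n ∧ A + i0 < HT hX (pre hX LX A) then LW ΛX LX else 0) +
    (if HT hX LX = n ∧ HT hX (pre hX LX A) ≤ A + i0 ∧
      T0 + i0 < HT hX (pre hX (rst hX LX A) T0) then LW ΛX LX else 0) with hbX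
  set bY : List BY → ℝ≥0∞ := fun LY =>
    (if HT hY LY = n ∧ A1 + i0 < HT hY (pre hY LY A1) then LW ΛY LY else 0) +
    (if HT hY LY = n ∧ HT hY (pre hY LY A1) ≤ A1 + i0 ∧
      T1 + i0 < HT hY (pre hY (rst hY LY A1) T1) then LW ΛY LY else 0) with hbY
  have sbX : ∑' LX, bX LX ≤ eX + eX := by
    rw [hbX, ENNReal.tsum_add]
    exact add_le_add (bad1 ΛX hX hU1X A i0 n (by omega) eX eX1)
      (bad2 ΛX hX hΛX h1X hU1X A T0 i0 n hn eX eX2)
  have sbY : ∑' LY, bY LY ≤ eY + eY := by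
    rw [hbY, ENNReal.tsum_add]
    exact add_le_add (bad1 ΛY hY hU1Y A1 i0 n (by omega) eY eY1)
      (bad2 ΛY hY hΛY h1Y hU1Y A1 T1 i0 n hn1 eY eY2)
  have uX : ∑' LX, (if HT hX LX = n then LW ΛX LX else 0) ≤ 1 := hU1X n
  have uY : ∑' LY, (if HT hY LY = n then LW ΛY LY else 0) ≤ 1 := hU1Y n
  calc ∑' LX, ∑' LY, (if HT hX LX = n ∧ HT hY LY = n ∧
        Wd hX hY zX zY sX sY A A2 lo hi w1 w2 w LX LY then LW ΛX LX * LW ΛY LY else 0)
      ≤ ∑' LX, ∑' LY, (bX LX * (if HT hY LY = n then LW ΛY LY else 0)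
          + (if HT hX LX = n then LW ΛX LX else 0) * bY LY
          + (if HT hX LX = n ∧ HT hX (pre hX LX A) ≤ A + i0 then LW ΛX LX *
              (if HT hY LY = n ∧ HT hY (pre hY LY A1) ≤ A1 + i0 then LW ΛY LY *
                (if Φ (pre hX LX A) (pre hX (rst hX LX A) T0) (pre hY LY A1)
                  (pre hY (rst hY LY A1) T1) then 1 else 0) else 0) else 0)) := by
        refine ENNReal.tsum_le_tsum fun LX => ENNReal.tsum_le_tsum fun LY => ?_
        by_cases c : HT hX LX = n ∧ HT hY LY = n ∧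
          Wd hX hY zX zY sX sY A A2 lo hi w1 w2 w LX LY
        · rw [if_pos c]
          obtain ⟨c1, c2, c3⟩ := c
          by_cases x1 : A + i0 < HT hX (pre hX LX A)
          · refine le_add_right (le_add_right ?_)
            simp only [hbX]
            rw [if_pos ⟨c1, x1⟩, if_pos c2]
            exact mul_le_mul_left le_self_add _
          by_cases x2 : T0 + i0 < HT hX (pre hX (rst hX LX A) T0)
          · refine le_add_right (le_add_right ?_)
            simp only [hbX]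
            rw [if_pos (c := HT hX LX = n ∧ HT hX (pre hX LX A) ≤ A + i0 ∧ _)
              ⟨c1, not_lt.1 x1, x2⟩, if_pos c2]
            exact mul_le_mul_left le_add_self _
          by_cases y1 : A1 + i0 < HT hY (pre hY LY A1)
          · refine le_add_right (le_add_left ?_)
            simp only [hbY]
            rw [if_pos (c := HT hY LY = n ∧ A1 + i0 < HT hY (pre hY LY A1)) ⟨c2, y1⟩, if_pos c1]
            exact mul_le_mul_right le_self_add _
          by_cases y2 : T1 + i0 < HT hY (pre hY (rst hY LY A1) T1)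
          · refine le_add_right (le_add_left ?_)
            simp only [hbY]
            rw [if_pos (c := HT hY LY = n ∧ HT hY (pre hY LY A1) ≤ A1 + i0 ∧ _)
              ⟨c2, not_lt.1 y1, y2⟩, if_pos c1]
            exact mul_le_mul_right le_add_self _
          push Not at x1 x2 y1 y2
          refine le_add_left ?_
          have ex : HT hX (pre hX LX A) + HT hX (rst hX LX A) = n := by
            rw [← HT_append, pre_rst]; exact c1
          have ey : HT hY (pre hY LY A1) + HT hY (rst hY LY A1) = n := by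
            rw [← HT_append, pre_rst]; exact c2
          have px : A ≤ HT hX (pre hX LX A) := fp_ge _ _ _ (fp_pre hX LX A (by omega))
          have py : A1 ≤ HT hY (pre hY LY A1) := fp_ge _ _ _ (fp_pre hY LY A1 (by omega))
          have qx : T0 ≤ HT hX (pre hX (rst hX LX A) T0) :=
            fp_ge _ _ _ (fp_pre hX _ T0 (by omega))
          have qy : T1 ≤ HT hY (pre hY (rst hY LY A1) T1) :=
            fp_ge _ _ _ (fp_pre hY _ T1 (by omega))
          have hphi : Φ (pre hX LX A) (pre hX (rst hX LX A) T0) (pre hY LY A1)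
              (pre hY (rst hY LY A1) T1) := by
            refine ⟨x2, y2, ?_, ?_⟩
            · obtain ⟨⟨p, hp, hp1, hp2⟩, -⟩ := c3
              refine ⟨p, ?_, ?_⟩
              · have := (TS_mid sX zX hX hsX LX 0 A T0 p (by omega) (by omega)).1 hp.1
                rwa [zero_add] at this
              · exact (TS_mid sY zY hY hsY LY w A1 T1 p (by omega) (by omega)).1 hp.2
            · rintro p ⟨hp1, hp2⟩
              have d1 := TS_depth sX zX hX hsX _ _ _ p hp1
              have d2 := TS_depth sY zY hY hsY _ _ _ p hp2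
              refine c3.2 p ⟨?_, ?_⟩ (by omega) (by omega)
              · refine (TS_mid sX zX hX hsX LX 0 A T0 p (by omega) (by omega)).2 ?_
                rwa [zero_add]
              · exact (TS_mid sY zY hY hsY LY w A1 T1 p (by omega) (by omega)).2 hp2
          rw [if_pos ⟨c1, x1⟩, if_pos ⟨c2, y1⟩, if_pos hphi, mul_one]
        · rw [if_neg c]; exact zero_le
    _ = (∑' LX, bX LX) * (∑' LY, (if HT hY LY = n then LW ΛY LY else 0))
          + (∑' LX, (if HT hX LX = n then LW ΛX LX else 0)) * (∑' LY, bY LY)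
          + ∑' LX, (if HT hX LX = n ∧ HT hX (pre hX LX A) ≤ A + i0 then LW ΛX LX *
              ∑' LY, (if HT hY LY = n ∧ HT hY (pre hY LY A1) ≤ A1 + i0 then LW ΛY LY *
                (if Φ (pre hX LX A) (pre hX (rst hX LX A) T0) (pre hY LY A1)
                  (pre hY (rst hY LY A1) T1) then 1 else 0) else 0) else 0) := by
        simp only [ENNReal.tsum_add, ENNReal.tsum_mul_left, ENNReal.tsum_mul_right]
        congr 1
        refine tsum_congr fun LX => ?_
        by_cases c : HT hX LX = n ∧ HT hX (pre hX LX A) ≤ A + i0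
        · simp only [if_pos c, ENNReal.tsum_mul_left]
        · simp only [if_neg c, tsum_zero]
    _ ≤ (eX + eX) + (eY + eY) + _ := by
        refine add_le_add (add_le_add ?_ ?_) ?_
        · exact (mul_le_mul' sbX uY).trans (by rw [mul_one])
        · exact (mul_le_mul' uX sbY).trans (by rw [one_mul])
        · -- the good part
          refine (ENNReal.tsum_le_tsum fun LX => ?_ : _ ≤ ∑' LX,
            (if HT hX LX = n ∧ HT hX (pre hX LX A) ≤ A + i0 then LW ΛX LX *
              (fun P Q => ∑' P', (if FP hY P' A1 ∧ HT hY P' ≤ A1 + i0 then LW ΛY P' *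
                ∑' Q', (if FP hY Q' T1 then LW ΛY Q' * (if Φ P Q P' Q' then 1 else 0) else 0)
                else 0)) (pre hX LX A) (pre hX (rst hX LX A) T0) else 0)).trans ?_
          · by_cases c : HT hX LX = n ∧ HT hX (pre hX LX A) ≤ A + i0
            · rw [if_pos c, if_pos c]
              refine mul_le_mul_right ?_ _
              exact L3 ΛY hY hU1Y A1 T1 i0 n hn1 (fun P' Q' =>
                if Φ (pre hX LX A) (pre hX (rst hX LX A) T0) P' Q' then 1 else 0)
            · rw [if_neg c, if_neg c]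
          refine (L3 ΛX hX hU1X A T0 i0 n hn (fun P Q => ∑' P', (if FP hY P' A1 ∧
                HT hY P' ≤ A1 + i0 then LW ΛY P' *
                ∑' Q', (if FP hY Q' T1 then LW ΛY Q' * (if Φ P Q P' Q' then 1 else 0) else 0)
                else 0))).trans ?_
          rw [pl_group]
          refine ENNReal.tsum_le_tsum fun P => ?_
          by_cases c : FP hX P A ∧ HT hX P ≤ A + i0
          · rw [if_pos c, if_pos c.1]
            refine mul_le_mul_right ?_ _
            beta_reduce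
            rw [reord ΛX ΛY (fun Q => FP hX Q T0) (fun P' => FP hY P' A1 ∧ HT hY P' ≤ A1 + i0)
              (fun Q' => FP hY Q' T1) (fun Q P' Q' => Φ P Q P' Q'), pl_group]
            refine ENNReal.tsum_le_tsum fun P' => ?_
            by_cases c' : FP hY P' A1 ∧ HT hY P' ≤ A1 + i0
            · rw [if_pos c', if_pos c'.1]
              refine mul_le_mul_right ?_ _
              rw [if_pos ⟨Finset.mem_Icc.2 ⟨fp_ge _ _ _ c.1, c.2⟩,
                Finset.mem_Icc.2 ⟨fp_ge _ _ _ c'.1, c'.2⟩⟩]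
              refine ENNReal.tsum_le_tsum fun Q => ENNReal.tsum_le_tsum fun Q' => ?_
              by_cases c2 : FP hX Q T0 ∧ FP hY Q' T1 ∧ Φ P Q P' Q'
              · rw [if_pos c2, if_pos]
                refine ⟨⟨c2.1, c2.2.2.1, trivial⟩, ⟨c2.2.1, c2.2.2.2.1, trivial⟩, ?_⟩
                rw [Cn_shift hX hY zX zY sX sY Q 0 (HT hX P) Q' _ (HT hY P') (DS zX P) lo hi]
                have := c2.2.2.2.2
                simpa using this
              · rw [if_neg c2]; exact zero_le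
            · rw [if_neg c']; exact zero_le
          · rw [if_neg c]; exact zero_le

end Crest.Agent.R154.KA509
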