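import Crest.Agent.R154.KA5_509
import Crest.Agent.R154.MidA_562
import Crest.Agent.R154.Num_873
import Crest.Agent.R154.NumK_658

/-! Row 154, KAPPA' (helper509), part 6: the bound of one window. -/

set_option autoImplicit false

namespace Crest.Agent.R154.KA509

open scoped ENNReal
open Crest.Agent.R154.B5A

variable {BX BY G : Type*} [AddCommGroup G]
variable (ΛX : BX → ℝ≥0∞) (ΛY : BY → ℝ≥0∞) (hX : BX → ℕ) (hY : BY → ℕ) (zX : BX → G)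
  (zY : BY → G) (sX : BX → Set (G × ℕ)) (sY : BY → Set (G × ℕ))

open Classical in
/-- window lemma (2) on lists: `X` local, `a ≤ a'` -/
def H2L (C : ℝ≥0∞) (us : ℕ → ℝ≥0∞) : Prop :=
  ∀ (s h h' a a' lo : ℕ) (E : Finset G) (μ : G → ℝ≥0∞) (M lam : ℝ≥0∞),
    ∑' x, μ x ≤ 1 → (∀ x, μ x ≤ M) → lam ≠ 0 → lam ≠ ⊤ → a ≤ a' → a + s ≤ lo → a' + s ≤ lo →
    ∑' x, μ x * (∑' L : List BX, ∑' L' : List BY, if HT hX L = h ∧
        DS zX L ∈ E ∧ HT hY L' = h' ∧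
        (∃ z k, (z, k) ∈ TS sX zX hX L 0 a ∧ (z, k) ∈ TS sY zY hY L' x a') ∧
        (∀ z k, (z, k) ∈ TS sX zX hX L 0 a → (z, k) ∈ TS sY zY hY L' x a' → lo ≤ k)
        then LW ΛX L * LW ΛY L' else 0)
      ≤ C * (lam + M * E.card * us s / lam + us s)

open Classical in
/-- window lemma (3) on lists: `Y` local, `a + h ≤ a' + h'` -/
def H3L (C : ℝ≥0∞) (us : ℕ → ℝ≥0∞) : Prop :=
  ∀ (s h h' a a' hi : ℕ) (E : Finset G) (μ : G → ℝ≥0∞) (M lam : ℝ≥0∞),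
    ∑' x, μ x ≤ 1 → (∀ x, μ x ≤ M) → lam ≠ 0 → lam ≠ ⊤ → a + h ≤ a' + h' →
    hi + s ≤ a + h → hi + s ≤ a' + h' →
    ∑' x, μ x * (∑' L : List BX, ∑' L' : List BY, if HT hX L = h ∧ HT hY L' = h' ∧
        DS zY L' ∈ E ∧
        (∃ z k, (z, k) ∈ TS sX zX hX L 0 a ∧ (z, k) ∈ TS sY zY hY L' x a') ∧
        (∀ z k, (z, k) ∈ TS sX zX hX L 0 a → (z, k) ∈ TS sY zY hY L' x a' → k ≤ hi)
        then LW ΛX L * LW ΛY L' else 0)
      ≤ C * (lam + M * E.card * us s / lam + us s)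

omit [AddCommGroup G] in
/-- slice of the local set -/
lemma slice_card {th : ℝ≥0∞} {p : ℕ × G → ℝ≥0∞} (hf : {q | th ≤ p q}.Finite) (k : ℕ) :
    ∃ E : Finset G, (∀ y, y ∈ E ↔ th ≤ p (k, y)) ∧ E.card ≤ {q | th ≤ p q}.ncard := by
  classical
  refine ⟨(hf.toFinset.filter fun q => q.1 = k).image Prod.snd, fun y => ?_, ?_⟩
  · simp only [Finset.mem_image, Finset.mem_filter, Set.Finite.mem_toFinset]
    constructor
    · rintro ⟨q, ⟨h1, h2⟩, h3⟩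
      have : (k, y) = q := Prod.ext h2.symm h3.symm
      rw [this]; exact h1
    · intro h; exact ⟨(k, y), ⟨h, rfl⟩, rfl⟩
  · rw [Set.ncard_eq_toFinset_card _ hf]
    exact Finset.card_image_le.trans (Finset.card_filter_le _ _)

open Classical in
theorem window_bound {C : ℝ≥0∞} {us : ℕ → ℝ≥0∞}
    (H2 : H2L ΛX ΛY hX hY zX zY sX sY C us) (H3 : H3L ΛX ΛY hX hY zX zY sX sY C us)
    (hU1X : ∀ n, U ΛX hX n ≤ 1) (hU1Y : ∀ n, U ΛY hY n ≤ 1)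
    (h1X : ∀ b, 1 ≤ hX b) (h1Y : ∀ b, 1 ≤ hY b) (hΛX : ∑' b, ΛX b ≤ 1) (hΛY : ∑' b, ΛY b ≤ 1)
    (hsX : ∀ b, ∀ q ∈ sX b, 1 ≤ q.2 ∧ q.2 ≤ hX b) (hsY : ∀ b, ∀ q ∈ sY b, 1 ≤ q.2 ∧ q.2 ≤ hY b)
    (A T0 i0 s n w1 w2 : ℕ) (w : G)
    (hn : A + i0 + i0 + (T0 + i0) ≤ n) (hw1 : A + i0 + i0 ≤ w1)
    (hw2 : w2 ≤ A + T0) (hs : s ≤ A + T0)
    (eX eY : ℝ≥0∞)
    (eX0 : ∀ a, ∑' L, (if FP hX L a ∧ a + i0 < HT hX L then LW ΛX L else 0) ≤ eX)
    (eY0 : ∀ a, ∑' L, (if FP hY L a ∧ a + i0 < HT hY L then LW ΛY L else 0) ≤ eY)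
    (u lam D b RX RY MX MY : ℝ≥0∞) (thX thY : ℝ≥0∞) (hl : lam ≠ 0) (hl' : lam ≠ ⊤)
    (fX : {q | thX ≤ pl ΛX hX zX T0 q}.Finite) (fY : {q | thY ≤ pl ΛY hY zY (T0 + i0) q}.Finite)
    (DX : MX * ({q | thX ≤ pl ΛX hX zX T0 q}.ncard : ℝ≥0∞) ≤ D)
    (DY : MY * ({q | thY ≤ pl ΛY hY zY (T0 + i0) q}.ncard : ℝ≥0∞) ≤ D)
    (qX : ∑' q, (if pl ΛX hX zX T0 q < thX then pl ΛX hX zX T0 q else 0) ≤ u)
    (qY : ∑' q, (if pl ΛY hY zY (T0 + i0) q < thY then pl ΛY hY zY (T0 + i0) q else 0) ≤ u)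
    (gX rX gY rY : ℕ × G → ℝ≥0∞)
    (dX : ∀ q, pl ΛX hX zX A q ≤ gX q + rX q) (dX1 : ∀ q, gX q ≤ MX) (dX2 : ∑' q, rX q ≤ RX)
    (dY : ∀ q, pl ΛY hY zY (A + i0) q ≤ gY q + rY q) (dY1 : ∀ q, gY q ≤ MY)
    (dY2 : ∑' q, rY q ≤ RY)
    (hb : C * (lam + D * us s / lam + us s) ≤ b) :
    ∑' LX, ∑' LY, (if HT hX LX = n ∧ HT hY LY = n ∧
        Wd hX hY zX zY sX sY A (A + T0 + i0 + i0) (A + i0 + i0 + s) (A + T0 - s) w1 w2 w LX LY
        then LW ΛX LX * LW ΛY LY else 0)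
      ≤ (eX + eX) + (eY + eY) + (u * u + (RX + ((i0 + 1 : ℕ) * (i0 + 1 : ℕ) : ℝ≥0∞) *
          (((i0 + 1 : ℕ) * (i0 + 1 : ℕ) : ℝ≥0∞) * b)) +
          (RY + ((i0 + 1 : ℕ) * (i0 + 1 : ℕ) : ℝ≥0∞) *
          (((i0 + 1 : ℕ) * (i0 + 1 : ℕ) : ℝ≥0∞) * b))) := by
  refine (window_sum ΛX ΛY hX hY zX zY sX sY hU1X hU1Y h1X h1Y hΛX hΛY hsX hsY A (A + i0) T0
    (T0 + i0) i0 n (A + i0 + i0 + s) (A + T0 - s) w1 w2 (A + T0 + i0 + i0) w (by omega) (by omega)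
    (by omega) (by omega) (by omega) (by omega) (by omega) (by omega) eX eY (eX0 _) (eX0 _)
    (eY0 _) (eY0 _)).trans ?_
  refine add_le_add le_rfl ?_
  -- truncate the smooth parts
  set pX := pl ΛX hX zX A with hpX
  set pY := pl ΛY hY zY (A + i0) with hpY
  have mX : ∑' q, pX q ≤ 1 := pl_mass ΛX hX zX hΛX h1X A
  have mY : ∑' q, pY q ≤ 1 := pl_mass ΛY hY zY hΛY h1Y (A + i0)
  set PX : List BX → Prop := fun Q => thX ≤ pl ΛX hX zX T0 (HT hX Q, DS zX Q) with hPX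
  set PY : List BY → Prop := fun Q => thY ≤ pl ΛY hY zY (T0 + i0) (HT hY Q, DS zY Q) with hPY
  have massX : ∑' Q, (if FP hX Q T0 ∧ True then LW ΛX Q else 0) ≤ 1 := by
    simpa using fp_mass ΛX hX hΛX h1X T0
  have massY : ∑' Q, (if FP hY Q (T0 + i0) ∧ True then LW ΛY Q else 0) ≤ 1 := by
    simpa using fp_mass ΛY hY hΛY h1Y (T0 + i0)
  have massX' : ∑' Q, (if FP hX Q T0 ∧ PX Q then LW ΛX Q else 0) ≤ 1 := by
    refine le_trans (ENNReal.tsum_le_tsum fun Q => ?_) massX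
    by_cases c : FP hX Q T0 ∧ PX Q
    · rw [if_pos c, if_pos ⟨c.1, trivial⟩]
    · rw [if_neg c]; exact zero_le
  have massY' : ∑' Q, (if FP hY Q (T0 + i0) ∧ PY Q then LW ΛY Q else 0) ≤ 1 := by
    refine le_trans (ENNReal.tsum_le_tsum fun Q => ?_) massY
    by_cases c : FP hY Q (T0 + i0) ∧ PY Q
    · rw [if_pos c, if_pos ⟨c.1, trivial⟩]
    · rw [if_neg c]; exact zero_le
  have nX : ∑' Q, (if FP hX Q T0 ∧ ¬ PX Q then LW ΛX Q else 0) ≤ u := by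
    refine le_trans (le_of_eq ?_) qX
    have := pl_group ΛX hX zX T0 (fun q => if pl ΛX hX zX T0 q < thX then 1 else 0)
    simp only [mul_ite, mul_one, mul_zero] at this
    rw [this]
    refine tsum_congr fun Q => ?_
    by_cases c : FP hX Q T0 <;> simp [c, hPX, not_le]
  have nY : ∑' Q, (if FP hY Q (T0 + i0) ∧ ¬ PY Q then LW ΛY Q else 0) ≤ u := by
    refine le_trans (le_of_eq ?_) qY
    have := pl_group ΛY hY zY (T0 + i0)
      (fun q => if pl ΛY hY zY (T0 + i0) q < thY then 1 else 0)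
    simp only [mul_ite, mul_one, mul_zero] at this
    rw [this]
    refine tsum_congr fun Q => ?_
    by_cases c : FP hY Q (T0 + i0) <;> simp [c, hPY, not_le]
  have key := mixbound pX pY (fun q => min (gX q) (pX q)) (fun q => min (gY q) (pY q)) rX rY w
    (Finset.Icc A (A + i0)) (Finset.Icc (A + i0) (A + i0 + i0))
    (fun h h' x => Th ΛX ΛY hX hY zX zY sX sY T0 (T0 + i0) i0 (A + i0 + i0 + s) (A + T0 - s)
      (fun _ => True) (fun _ => True) h h' x)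
    (fun h h' x => Th ΛX ΛY hX hY zX zY sX sY T0 (T0 + i0) i0 (A + i0 + i0 + s) (A + T0 - s)
      PX (fun _ => True) h h' x)
    (fun h h' x => Th ΛX ΛY hX hY zX zY sX sY T0 (T0 + i0) i0 (A + i0 + i0 + s) (A + T0 - s)
      (fun _ => True) PY h h' x)
    (u * u) MX MY RX RY (((i0 + 1 : ℕ) * (i0 + 1 : ℕ) : ℝ≥0∞) * b)
    (((i0 + 1 : ℕ) * (i0 + 1 : ℕ) : ℝ≥0∞) * b) mX mY
    (fun q => by
      rcases le_total (gX q) (pX q) with h | h
      · simp only [min_eq_left h]; exact dX q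
      · simp only [min_eq_right h]; exact le_self_add)
    (fun q => by
      rcases le_total (gY q) (pY q) with h | h
      · simp only [min_eq_left h]; exact dY q
      · simp only [min_eq_right h]; exact le_self_add)
    (fun q => min_le_right _ _) (fun q => min_le_right _ _)
    (fun q => (min_le_left _ _).trans (dX1 q)) (fun q => (min_le_left _ _).trans (dY1 q))
    dX2 dY2
    (fun h _ h' _ x => (Th_split ΛX ΛY hX hY zX zY sX sY T0 (T0 + i0) i0 _ _ PX PY h h' x).trans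
      (add_le_add (add_le_add (Th_le ΛX ΛY hX hY zX zY sX sY T0 (T0 + i0) i0 _ _ _ _ h h' x u u
        (by convert nX) (by convert nY)) le_rfl) le_rfl))
    (fun h _ h' _ x => (Th_le ΛX ΛY hX hY zX zY sX sY T0 (T0 + i0) i0 _ _ _ _ h h' x 1 1
        (by convert massX') (by convert massY)).trans (by rw [one_mul]))
    (fun h _ h' _ x => (Th_le ΛX ΛY hX hY zX zY sX sY T0 (T0 + i0) i0 _ _ _ _ h h' x 1 1
        (by convert massX) (by convert massY')).trans (by rw [one_mul]))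
    ?_ ?_
  · refine key.trans (le_of_eq ?_)
    rw [Nat.card_Icc, Nat.card_Icc, show A + i0 + 1 - A = i0 + 1 by omega,
      show A + i0 + i0 + 1 - (A + i0) = i0 + 1 by omega]
  · -- X local
    intro h hh h' hh' μ hμ hμM
    rw [Finset.mem_Icc] at hh hh'
    refine Th_heights ΛX ΛY hX hY zX zY sX sY T0 (T0 + i0) i0 _ _ PX (fun _ => True) b μ h h' ?_
    intro k hk k' hk'
    rw [Finset.mem_Icc] at hk hk'
    obtain ⟨E, hE, hEc⟩ := slice_card (p := pl ΛX hX zX T0) fX k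
    refine le_trans ?_ ((H2 s k k' h h' (A + i0 + i0 + s) E μ MX lam hμ hμM hl hl' (by omega)
      (by omega) (by omega)).trans (le_trans ?_ hb))
    · refine ENNReal.tsum_le_tsum fun x => mul_le_mul_right
        (ENNReal.tsum_le_tsum fun Q => ENNReal.tsum_le_tsum fun Q' => ?_) _
      by_cases c : HT hX Q = k ∧ HT hY Q' = k' ∧ (FP hX Q T0 ∧ PX Q) ∧
        (FP hY Q' (T0 + i0) ∧ True) ∧
        Cd (A + i0 + i0 + s) (A + T0 - s) (Cn hX hY zX zY sX sY Q 0 h Q' x h')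
      · rw [if_pos c, if_pos]
        obtain ⟨c1, c2, c3, -, ⟨⟨p, hp⟩, c5⟩⟩ := c
        refine ⟨c1, ?_, c2, ⟨p.1, p.2, hp.1, hp.2⟩, fun z k0 h1 h2 => (c5 (z, k0) ⟨h1, h2⟩).1⟩
        rw [hE, ← c1]; exact c3.2
      · rw [if_neg c]; exact zero_le
    · have hc : MX * (E.card : ℝ≥0∞) ≤ D :=
        (mul_le_mul_right (by exact_mod_cast hEc) _).trans DX
      gcongr
  · -- Y local
    intro h hh h' hh' μ hμ hμM
    rw [Finset.mem_Icc] at hh hh'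
    refine Th_heights ΛX ΛY hX hY zX zY sX sY T0 (T0 + i0) i0 _ _ (fun _ => True) PY b μ h h' ?_
    intro k hk k' hk'
    rw [Finset.mem_Icc] at hk hk'
    obtain ⟨E, hE, hEc⟩ := slice_card (p := pl ΛY hY zY (T0 + i0)) fY k'
    refine le_trans ?_ ((H3 s k k' h h' (A + T0 - s) E μ MY lam hμ hμM hl hl' (by omega)
      (by omega) (by omega)).trans (le_trans ?_ hb))
    · refine ENNReal.tsum_le_tsum fun x => mul_le_mul_right
        (ENNReal.tsum_le_tsum fun Q => ENNReal.tsum_le_tsum fun Q' => ?_) _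
      by_cases c : HT hX Q = k ∧ HT hY Q' = k' ∧ (FP hX Q T0 ∧ True) ∧
        (FP hY Q' (T0 + i0) ∧ PY Q') ∧
        Cd (A + i0 + i0 + s) (A + T0 - s) (Cn hX hY zX zY sX sY Q 0 h Q' x h')
      · rw [if_pos c, if_pos]
        obtain ⟨c1, c2, -, c3, ⟨⟨p, hp⟩, c5⟩⟩ := c
        refine ⟨c1, c2, ?_, ⟨p.1, p.2, hp.1, hp.2⟩, fun z k0 h1 h2 => (c5 (z, k0) ⟨h1, h2⟩).2⟩
        rw [hE, ← c2]; exact c3.2
      · rw [if_neg c]; exact zero_le
    · have hc : MY * (E.card : ℝ≥0∞) ≤ D :=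
        (mul_le_mul_right (by exact_mod_cast hEc) _).trans DY
      gcongr

end Crest.Agent.R154.KA509
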