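import Crest.Agent.R154.KB_169
import Crest.Agent.R154.HWb_597
import Crest.Agent.R154.HW_334
import Crest.Agent.R154.E2_934

/-! Row 154, ROAD 801, frame B (helper109): the last binding, `NB28.KappaAll`. -/

set_option autoImplicit false

open MeasureTheory ProbabilityTheory Crest.ProbabilityR.RandomEnvironment
open Filter
open scoped ENNReal Topology

namespace Crest.Agent.R154.KA109

open Crest.Agent.R154.B5A Crest.Agent.R154.B5W
open Crest.Agent.R154.NB28 (IsUp IsDn Cm)
open Crest.Agent.R154.Flux566 (endp)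

variable {d : ℕ} (ν : Measure (Row d)) [IsProbabilityMeasure ν]

lemma act_cat (u : Step d) (L : List (PB u)) (w : Lat u) :
    (act (dl u) L w).1 = w.1 + endp 0 (cat L).1 + endp 0 (cat L).2 := by
  induction L generalizing w with
  | nil => simp [act, cat, endp]
  | cons b L ih =>
    rw [act, ih]
    simp only [dl, dlp, cat, pm, Flux566.endp_append]
    rw [Flux566.endp_eq_add _ (endp 0 b.1.2), Flux566.endp_eq_add _ (endp 0 (cat L).1)]
    abel

open Classical in
/-- extension of a weight on lateral sites by zero -/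
noncomputable def ext (u : Step d) (μ : Lat u → ℝ≥0∞) (x : Site d) : ℝ≥0∞ :=
  if h : Flux566.lev u x = 0 then μ (⟨x, h⟩ : {w : Site d // Flux566.lev u w = 0}) else 0

lemma tsum_ext (u : Step d) (μ : Lat u → ℝ≥0∞) (Φ : Site d → ℝ≥0∞) :
    ∑' w : Lat u, μ w * Φ w.1 = ∑' x : Site d, (ext u μ x * Φ x) := by
  classical
  have h := tsum_subtype {x : Site d | Flux566.lev u x = 0} (fun x => ext u μ x * Φ x)
  have e1 : ∑' w : Lat u, μ w * Φ w.1
      = ∑' x : {x : Site d | Flux566.lev u x = 0}, ext u μ x.1 * Φ x.1 := by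
    refine tsum_congr fun w => ?_
    have : ext u μ w.1 = μ w := by
      rw [ext, dif_pos w.2]; rfl
    rw [this]
  rw [e1, h]
  refine tsum_congr fun x => ?_
  rw [Set.indicator_apply]
  split_ifs with h1
  · rfl
  · have h1' : ¬ Flux566.lev u x = 0 := h1
    have : ext u μ x = 0 := by rw [ext, dif_neg h1']
    rw [this, zero_mul]

open Classical in
theorem hW (hν : ∀ᵐ p ∂ν, ∀ e : Step d, 0 < p.1 e) (u : Step d) (c : ℝ≥0∞) (hc : c ≠ 0)
    (hup : ∀ n : ℕ, c ≤ ∑' π : List (Step d), if IsUp u n π then NB28.aw ν π else 0)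
    (hdn : ∀ n : ℕ, c ≤ ∑' γ : List (Step d), if IsDn u n γ then NB28.aw ν γ else 0) :
    ∀ v η : ℝ≥0∞, v ≠ 0 → v ≤ 1 → η ≠ 0 → ∃ s : ℕ, ∀ H : ℕ, ∃ S1 S2 : Set (Lat u),
      JAsm139.Good (Lam ν u) (ht u) (dl u) (c * c * 2⁻¹ * v) η H S1 ∧
      JAsm139.Good (Lam ν u) (ht u) (dl u) (c * c * 2⁻¹ * v) η H S2 ∧
      ∀ w, w ∉ S1 → w ∉ S2 → (∑' L : List (PB u), (if HT (ht u) L = H ∧
          CD (ht u) (dl u) (cd u) L w ≠ ∅ ∧
          (∀ k ∈ CD (ht u) (dl u) (cd u) L w, s < k ∧ k + s ≤ H) then LW (Lam ν u) L else 0))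
        ≤ v * v + η := by
  refine HW334.hW_of (Lam ν u) (ht u) (dl u) (cd u) cat (fun w => w.1) (fun π => endp 0 π)
    (fun γ => endp 0 γ) (fun H π => if IsUp u H π then NB28.aw ν π else 0)
    (fun H γ => if IsDn u H γ then NB28.aw ν γ else 0) (fun w π γ => Cm u w.1 π γ)
    ?_ (act_cat u) ?_ c hc hup
    (fun H => sum_if_le_one ν fun l l' h h' hp => NB28.isUp_prefix h h' hp) hdn
    (fun H => sum_if_le_one ν fun l l' h h' hp => NB28.isDn_prefix h h' hp)
    (fun s => E934.us ν u s + E934.us ν (Flux132.opp u) s) ?_ 8 (by norm_num) (by norm_num) ?_ ?_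
  · intro H F
    rw [tsum_L ν u H (fun x => F x.1 x.2)]
    refine tsum_congr fun π => tsum_congr fun γ => ?_
    by_cases h1 : IsUp u H π <;> by_cases h2 : IsDn u H γ <;> simp [h1, h2]
  · intro L w
    rw [CD_cat]
    exact cds_eq u (cat L).1 (cat L).2 w.1
  · intro ε hε
    obtain ⟨s1, h1⟩ := E934.us_small ν u (ε / 2) (ENNReal.half_pos hε).ne'
    obtain ⟨s2, h2⟩ := E934.us_small ν (Flux132.opp u) (ε / 2) (ENNReal.half_pos hε).ne'
    refine ⟨max s1 s2, ?_⟩
    calc _ ≤ ε / 2 + ε / 2 := add_le_add (h1 _ (le_max_left _ _)) (h2 _ (le_max_right _ _))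
      _ = ε := ENNReal.add_halves ε
  · intro s H E μ M lam hμ hM hl0 hlt
    have key := E934.E2 ν (u := u) s H E (ext u μ) M lam
      (by
        have := tsum_ext u μ (fun _ => 1)
        simp only [mul_one] at this
        rw [← this]; exact hμ)
      (fun x => by
        unfold ext
        split_ifs with h
        · exact hM _
        · exact zero_le) hl0 hlt
    refine le_trans (le_of_eq (Eq.trans (tsum_congr fun w => ?_)
      (tsum_ext u μ (fun x => ∑' π : List (Step d), ∑' γ : List (Step d),
        (if endp 0 π ∈ E ∧ (∃ k, k ∈ Cm u x π γ) ∧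
        (∀ k ∈ Cm u x π γ, s < k ∧ k + s ≤ H) then
          (if IsUp u H π then NB28.aw ν π else 0) * (if IsDn u H γ then NB28.aw ν γ else 0)
          else 0))))) ?_
    · congr 1
      refine tsum_congr fun π => tsum_congr fun γ => ?_
      congr
    refine le_trans (le_trans (ENNReal.tsum_le_tsum fun x => ?_) key) ?_
    · by_cases hx : Flux132.lev u x = 0
      · rw [if_pos hx]
        gcongr with π γ
        by_cases h1 : IsUp u H π
        · by_cases h2 : IsDn u H γ
          · simp only [h1, h2, if_true, true_and]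
            split_ifs with g1 g2 g2
            · exact le_rfl
            · exact absurd ⟨g1.1, g1.2.1, fun k hk => (g1.2.2 k hk).1⟩ g2
            · exact zero_le
            · exact le_rfl
          · simp [h2]
        · simp [h1]
      · have : ext u μ x = 0 := by
          unfold ext; exact dif_neg hx
        rw [this, zero_mul]
        exact zero_le
    · have e1 : lam ≤ 8 * lam := le_mul_of_one_le_left' (by norm_num)
      have e2 : M * (E.card * E934.us ν u s) / lam
          ≤ 8 * (M * E.card * (E934.us ν u s + E934.us ν (Flux132.opp u) s) / lam) := by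
        refine le_trans ?_ (le_mul_of_one_le_left' (by norm_num))
        rw [← mul_assoc]
        gcongr
        exact le_self_add
      calc _ ≤ 8 * lam + 8 * (M * E.card * (E934.us ν u s + E934.us ν (Flux132.opp u) s) / lam) :=
            add_le_add e1 e2
        _ = _ := by ring
  · intro s H E μ M lam hμ hM hl0 hlt
    have key := E934.E3 ν (u := u) s H E (ext u μ) M lam
      (by
        have := tsum_ext u μ (fun _ => 1)
        simp only [mul_one] at this
        rw [← this]; exact hμ)
      (fun x => by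
        unfold ext
        split_ifs with h
        · exact hM _
        · exact zero_le) hl0 hlt
    refine le_trans (le_of_eq (Eq.trans (tsum_congr fun w => ?_)
      (tsum_ext u μ (fun x => ∑' π : List (Step d), ∑' γ : List (Step d),
        (if endp 0 γ ∈ E ∧ (∃ k, k ∈ Cm u x π γ) ∧
        (∀ k ∈ Cm u x π γ, s < k ∧ k + s ≤ H) then
          (if IsUp u H π then NB28.aw ν π else 0) * (if IsDn u H γ then NB28.aw ν γ else 0)
          else 0))))) ?_
    · congr 1
      refine tsum_congr fun π => tsum_congr fun γ => ?_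
      congr
    refine le_trans (le_trans (ENNReal.tsum_le_tsum fun x => ?_) key) ?_
    · by_cases hx : Flux132.lev u x = 0
      · rw [if_pos hx]
        gcongr with π γ
        by_cases h1 : IsUp u H π
        · by_cases h2 : IsDn u H γ
          · simp only [h1, h2, if_true, true_and]
            split_ifs with g1 g2 g2
            · exact le_rfl
            · exact absurd ⟨g1.1, g1.2.1, fun k hk => (g1.2.2 k hk).2⟩ g2
            · exact zero_le
            · exact le_rfl
          · simp [h2]
        · simp [h1]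
      · have : ext u μ x = 0 := by
          unfold ext; exact dif_neg hx
        rw [this, zero_mul]
        exact zero_le
    · have e2 : 2 * (M * (E.card * E934.us ν (Flux132.opp u) s) / lam)
          ≤ 8 * (M * E.card * (E934.us ν u s + E934.us ν (Flux132.opp u) s) / lam) := by
        refine mul_le_mul' (by norm_num) ?_
        rw [← mul_assoc]
        gcongr
        exact le_add_self
      calc _ ≤ 8 * lam + 8 * (M * E.card * (E934.us ν u s + E934.us ν (Flux132.opp u) s) / lam) :=
            add_le_add le_rfl e2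
        _ = _ := by ring

/-- **KAPPA'** -/
theorem kappaAll : NB28.KappaAll := by
  classical
  refine KB169.kappaAll_of fun d hd ν _ hν u hA hB => ?_
  obtain ⟨c, hc, hc1, hup, hdn⟩ := WM286.mass_pos ν hν u hA hB
  have hU : ∀ n, c * c ≤ U (Lam ν u) (ht u) n := fun n => by
    rw [U_eq28]; exact mul_le_mul' (hup n) (hdn n)
  have hU1 := HSl169.U_le_one ν u
  have hcc : c * c ≠ 0 := mul_ne_zero hc hc
  have hcct : c * c ≠ ⊤ := ne_top_of_le_ne_top ENNReal.one_ne_top (mul_le_one' hc1 hc1)
  have h1 : ∀ b, 1 ≤ ht u b := one_le_hb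
  have hΛ : ∑' b, Lam ν u b = 1 :=
    le_antisymm (mass_le_one _ _ h1 hU1) (mass_ge_one _ _ (c * c) hcc 0 fun n _ => hU n)
  have hmean : ∑' k, tail (Lam ν u) (ht u) k ≠ ⊤ := by
    rw [← sum_tail _ _ hΛ]
    exact ne_top_of_le_ne_top (ENNReal.inv_ne_top.2 hcc)
      (mean_le _ _ h1 hΛ (c * c) hcc hcct 0 fun n _ => hU n)
  have htl : Tendsto (fun H : ℕ => ∑' k, tail (Lam ν u) (ht u) (H + k)) atTop (𝓝 0) := by
    refine (ENNReal.tendsto_sum_nat_add (fun k => tail (Lam ν u) (ht u) k) hmean).congr fun i => ?_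
    exact tsum_congr fun k => by rw [add_comm]
  refine HWb597.hWin_of (Lam ν u) (ht u) (dl u) (cd u) h1 hΛ hU1 (hinj u) htl (c * c * 2⁻¹)
    (mul_ne_zero hcc (by simp)) (mul_le_one' (mul_le_one' hc1 hc1) (by simp)) ?_
  intro v η hv hv1 hη
  obtain ⟨s, hs⟩ := hW ν hν u c hc hup hdn v η hv hv1 hη
  exact ⟨s, 0, fun H _ => hs H⟩

/-- **NBProp** -/
theorem nbProp : Spine.NBProp := NB28.nb_of_kappaW kappaAll

end Crest.Agent.R154.KA109
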