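import Crest.Agent.R154.HW_334
import Crest.Agent.R154.HWinB_19
import Crest.Agent.R154.KB_818
import Crest.Agent.R154.E2_934

/-! Row 154, ROAD 801, frame B (helper150): the last binding, `KappaAll` from 334's `hW_of`,
934's `E2` / `E3`, 19's `hWin_of'` and 818's `kappaAll_of`. -/

set_option autoImplicit false
set_option linter.unusedVariables false

namespace Crest.Agent.R154.KA150

open MeasureTheory ProbabilityTheory Crest.ProbabilityR.RandomEnvironment Crest.Agent.R154
open Crest.Agent.R154.Flux132 (lev opp)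
open Crest.Agent.R154.Flux566 (lw endp sitesL endp_append)
open Crest.Agent.R154.NB28 (IsUp IsDn Cm KappaAll)
open Crest.Agent.R154.B5A (HT LW CD U act)
open Crest.Agent.R154.B5W (Lat PB Lam ht dl cd cat cds CD_cat cds_eq tsum_L U_eq28 sum_if_le_one
  one_le_hb)
open scoped ENNReal

variable {d : ℕ}

/-- extension of a weight on the lateral sites by `0` -/
noncomputable def ext (u : Step d) (μ : Lat u → ℝ≥0∞) (x : Site d) : ℝ≥0∞ :=
  @dite _ (lev u x = 0) (Classical.propDecidable _) (fun h => μ ⟨x, h⟩) (fun _ => 0)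

lemma ext_val (u : Step d) (μ : Lat u → ℝ≥0∞) (w : Lat u) : ext u μ w.1 = μ w := by
  unfold ext
  rw [dif_pos (show lev u w.1 = 0 from w.2)]
  rfl

lemma ext_zero (u : Step d) (μ : Lat u → ℝ≥0∞) {x : Site d} (h : lev u x ≠ 0) :
    ext u μ x = 0 := by
  unfold ext
  rw [dif_neg h]

open Classical in
lemma sum_lat (u : Step d) (f : Site d → ℝ≥0∞) :
    ∑' w : Lat u, f w.1 = ∑' x : Site d, (if lev u x = 0 then f x else 0) := by
  have h := tsum_subtype {x : Site d | lev u x = 0} f
  refine Eq.trans h (tsum_congr fun x => ?_)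
  by_cases hx : lev u x = 0
  · rw [if_pos hx, Set.indicator_of_mem (show x ∈ {x : Site d | lev u x = 0} from hx)]
  · rw [if_neg hx, Set.indicator_of_notMem (show x ∉ {x : Site d | lev u x = 0} from hx)]

lemma ext_sum (u : Step d) (μ : Lat u → ℝ≥0∞) : ∑' x, ext u μ x = ∑' w, μ w := by
  classical
  have h := sum_lat u (ext u μ)
  simp only [ext_val] at h
  rw [h]
  refine tsum_congr fun x => ?_
  by_cases hx : lev u x = 0
  · rw [if_pos hx]
  · rw [if_neg hx, ext_zero u μ hx]

lemma ext_le (u : Step d) (μ : Lat u → ℝ≥0∞) (M : ℝ≥0∞) (hM : ∀ w, μ w ≤ M) (x : Site d) :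
    ext u μ x ≤ M := by
  by_cases hx : lev u x = 0
  · have := ext_val u μ ⟨x, hx⟩
    change ext u μ x = μ ⟨x, hx⟩ at this
    rw [this]
    exact hM _
  · rw [ext_zero u μ hx]; exact zero_le

lemma cat_endp (u : Step d) (L : List (PB u)) (w : Lat u) :
    (act (dl u) L w).1 = w.1 + endp 0 (cat L).1 + endp 0 (cat L).2 := by
  induction L generalizing w with
  | nil => simp [act, cat, endp]
  | cons b L ih =>
    rw [act, ih]
    simp only [dl, B5W.dlp, cat, B5W.pm]
    rw [endp_append, endp_append]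
    have e1 : ∀ (x : Site d) (l : List (Step d)), endp x l = x + endp 0 l := fun x l => by
      exact Flux566.endp_eq_add l x
    rw [e1 (endp 0 (cat L).1), e1 (endp 0 b.1.2)]
    abel

section inst

variable (ν : Measure (Row d)) [IsProbabilityMeasure ν] (u : Step d)

open Classical in
/-- masses of the up crossings -/
noncomputable def aU (H : ℕ) (π : List (Step d)) : ℝ≥0∞ := if IsUp u H π then NB28.aw ν π else 0

open Classical in
/-- masses of the down crossings -/
noncomputable def aD (H : ℕ) (π : List (Step d)) : ℝ≥0∞ := if IsDn u H π then NB28.aw ν π else 0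

/-- common return mass -/
noncomputable def uss (s : ℕ) : ℝ≥0∞ := E934.us ν u s + E934.us ν (opp u) s

open Classical in
theorem hW (c : ℝ≥0∞) (hc : c ≠ 0)
    (hup : ∀ n, c ≤ ∑' π : List (Step d), if IsUp u n π then NB28.aw ν π else 0)
    (hdn : ∀ n, c ≤ ∑' γ : List (Step d), if IsDn u n γ then NB28.aw ν γ else 0) :
    ∀ v η : ℝ≥0∞, v ≠ 0 → v ≤ 1 → η ≠ 0 → ∃ s : ℕ, ∀ H : ℕ, ∃ S1 S2 : Set (Lat u),
      JAsm139.Good (Lam ν u) (ht u) (dl u) (c * c * 2⁻¹ * v) η H S1 ∧
      JAsm139.Good (Lam ν u) (ht u) (dl u) (c * c * 2⁻¹ * v) η H S2 ∧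
      ∀ w, w ∉ S1 → w ∉ S2 →
        (∑' L : List (PB u), (if HT (ht u) L = H ∧ CD (ht u) (dl u) (cd u) L w ≠ ∅ ∧
          (∀ k ∈ CD (ht u) (dl u) (cd u) L w, s < k ∧ k + s ≤ H) then LW (Lam ν u) L else 0))
          ≤ v * v + η := by
  refine HW334.hW_of (P := List (Step d)) (Q := List (Step d)) (G := Site d)
    (Lam ν u) (ht u) (dl u) (cd u) (fun L => cat L) (fun w : Lat u => w.1)
    (fun π => endp 0 π) (fun γ => endp 0 γ) (aU ν u) (aD ν u) (fun w π γ => Cm u w.1 π γ)
    ?_ ?_ ?_ c hc ?_ ?_ ?_ ?_ (uss ν u) ?_ 8 (by norm_num) (by norm_num) ?_ ?_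
  · intro H F
    have h := tsum_L ν u H (fun x => F x.1 x.2)
    refine Eq.trans ?_ (h.trans ?_)
    · refine tsum_congr fun L => ?_
      congr
    · refine tsum_congr fun π => tsum_congr fun γ => ?_
      unfold aU aD
      by_cases h1 : IsUp u H π
      · by_cases h2 : IsDn u H γ
        · rw [if_pos ⟨h1, h2⟩, if_pos h1, if_pos h2]
        · rw [if_neg (fun h => h2 h.2), if_neg h2]; simp
      · rw [if_neg (fun h => h1 h.1), if_neg h1]; simp
  · intro L w
    exact cat_endp u L w
  · intro L w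
    rw [CD_cat, cds_eq]
  · intro H; exact hup H
  · intro H
    exact sum_if_le_one ν fun l l' h h' hp => NB28.isUp_prefix h h' hp
  · intro H; exact hdn H
  · intro H
    exact sum_if_le_one ν fun l l' h h' hp => NB28.isDn_prefix h h' hp
  · intro ε hε
    obtain ⟨s1, h1⟩ := E934.us_small ν u (ε / 2) (ENNReal.half_pos hε).ne'
    obtain ⟨s2, h2⟩ := E934.us_small ν (opp u) (ε / 2) (ENNReal.half_pos hε).ne'
    refine ⟨max s1 s2, ?_⟩
    calc uss ν u (max s1 s2) ≤ ε / 2 + ε / 2 :=
          add_le_add (h1 _ (le_max_left _ _)) (h2 _ (le_max_right _ _))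
      _ = ε := ENNReal.add_halves ε
  · intro s H E μ M lam hμ hM hl0 hl1
    have key := E934.E2 ν (u := u) s H E (ext u μ) M lam (by rw [ext_sum]; exact hμ)
      (ext_le u μ M hM) hl0 hl1
    refine le_trans ?_ (key.trans ?_)
    · rw [← sum_lat u]
      refine ENNReal.tsum_le_tsum fun w => ?_
      rw [ext_val]
      refine mul_le_mul_right (ENNReal.tsum_le_tsum fun π => ENNReal.tsum_le_tsum fun γ => ?_) _
      split_ifs with h1 h2
      · unfold aU aD
        rw [if_pos h2.1, if_pos h2.2.2.1]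
      · unfold aU aD
        by_cases h3 : IsUp u H π
        · by_cases h4 : IsDn u H γ
          · exact absurd ⟨h3, h1.1, h4, h1.2.1, fun k hk => (h1.2.2 k hk).1⟩ h2
          · rw [if_neg h4, mul_zero]
        · rw [if_neg h3, zero_mul]
      · exact zero_le
      · exact le_rfl
    · calc lam + M * (E.card * E934.us ν u s) / lam
          ≤ 8 * lam + 8 * (M * E.card * uss ν u s / lam) := by
            refine add_le_add ?_ ?_
            · calc lam = 1 * lam := (one_mul _).symm
                _ ≤ 8 * lam := mul_le_mul_left (by norm_num) _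
            · calc M * (E.card * E934.us ν u s) / lam ≤ M * E.card * uss ν u s / lam := by
                    rw [← mul_assoc]
                    exact ENNReal.div_le_div_right (mul_le_mul_right le_self_add _) _
                _ = 1 * (M * E.card * uss ν u s / lam) := (one_mul _).symm
                _ ≤ _ := mul_le_mul_left (by norm_num) _
        _ = _ := by ring
  · intro s H E μ M lam hμ hM hl0 hl1
    have key := E934.E3 ν (u := u) s H E (ext u μ) M lam (by rw [ext_sum]; exact hμ)
      (ext_le u μ M hM) hl0 hl1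
    refine le_trans ?_ (key.trans ?_)
    · rw [← sum_lat u]
      refine ENNReal.tsum_le_tsum fun w => ?_
      rw [ext_val]
      refine mul_le_mul_right (ENNReal.tsum_le_tsum fun π => ENNReal.tsum_le_tsum fun γ => ?_) _
      split_ifs with h1 h2
      · unfold aU aD
        rw [if_pos h2.1, if_pos h2.2.2.1]
      · unfold aU aD
        by_cases h3 : IsUp u H π
        · by_cases h4 : IsDn u H γ
          · exact absurd ⟨h3, h1.1, h4, h1.2.1, fun k hk => (h1.2.2 k hk).2⟩ h2
          · rw [if_neg h4, mul_zero]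
        · rw [if_neg h3, zero_mul]
      · exact zero_le
      · exact le_rfl
    · calc 8 * lam + 2 * (M * (E.card * E934.us ν (opp u) s) / lam)
          ≤ 8 * lam + 8 * (M * E.card * uss ν u s / lam) := by
            refine add_le_add le_rfl ?_
            refine mul_le_mul' (by norm_num) ?_
            rw [← mul_assoc]
            exact ENNReal.div_le_div_right (mul_le_mul_right le_add_self _) _
        _ = _ := by ring

theorem hWin (hν : ∀ᵐ p ∂ν, ∀ e : Step d, 0 < p.1 e)
    (hA : annealed (iidEnvironmentLaw ν) 0 (escapeEvent (B2d.dirVec u)) ≠ 0)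
    (hB : annealed (iidEnvironmentLaw ν) 0 (escapeEvent (-B2d.dirVec u)) ≠ 0) :
    KB818.HWin ν u := by
  classical
  obtain ⟨c, hc, -, h1, h2⟩ := WM286.mass_pos ν hν u hA hB
  have hU : ∀ n, c * c ≤ U (Lam ν u) (ht u) n := fun n => by
    rw [U_eq28]; exact mul_le_mul' (h1 n) (h2 n)
  have hU1 : ∀ n, U (Lam ν u) (ht u) n ≤ 1 := fun n => by
    rw [U_eq28]
    exact mul_le_one' (sum_if_le_one ν fun l l' h h' hp => NB28.isUp_prefix h h' hp)
      (sum_if_le_one ν fun l l' h h' hp => NB28.isDn_prefix h h' hp)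
  have hcc : c * c ≤ 1 := (hU 0).trans (hU1 0)
  have hk := HWinB19.hWin_of' (Lam ν u) (ht u) (dl u) (cd u) one_le_hb (c * c)
    (mul_ne_zero hc hc) hU hU1 (B5W.hinj u) (c * c * 2⁻¹)
    (mul_ne_zero (mul_ne_zero hc hc) (by simp))
    (mul_le_one' hcc (ENNReal.inv_le_one.2 (by norm_num)))
    (fun v η hv hv1 hη => by
      obtain ⟨s, hs⟩ := hW ν u c hc h1 h2 v η hv hv1 hη
      refine ⟨s, 0, fun H _ => ?_⟩
      obtain ⟨S1, S2, g1, g2, g3⟩ := hs H
      exact ⟨S1, S2, g1, g2, g3⟩)
  exact hk

end inst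

/-- **`KappaAll`.** -/
theorem kappaAll : KappaAll :=
  KB818.kappaAll_of fun d hd ν _ hν u hA hB => hWin ν u hν hA hB

/-- **`NBProp`.** -/
theorem nb : Spine.NBProp := NB28.nb_of_kappaW kappaAll

end Crest.Agent.R154.KA150
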