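import Crest.Agent.R154.HW_280
import Crest.Agent.R154.HWinB_19
import Crest.Agent.R154.KB_818
import Crest.Agent.R154.E23_168

/-! Row 154, ROAD 801, FRAME B (helper168): the last binder. -/

set_option autoImplicit false

namespace Crest.Agent.R154.KA168

open MeasureTheory ProbabilityTheory Crest.ProbabilityR.RandomEnvironment Crest.Agent.R154
open Crest.Agent.R154.Flux132 (lev opp)
open Crest.Agent.R154.Flux566 (lw endp sitesL)
open Crest.Agent.R154.B5A Crest.Agent.R154.B5W Crest.Agent.R154.Comp818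
open Crest.Agent.R154.NB28 (IsUp IsDn Cm KappaW KappaAll)
open scoped ENNReal Topology

variable {d : ℕ}

theorem e2 (ν : Measure (Row d)) [IsProbabilityMeasure ν] (u : Step d) :
    HW280.E2 ν u 4 (E23168.uc ν u) := by
  intro s H E μ M lam h1 h2 h3 h4
  refine (le_of_eq ?_).trans (E23168.e2c ν u s H E μ M lam h1 h2 h3 h4)
  refine tsum_congr fun x => ?_
  by_cases hx : lev u x = 0
  · rw [if_pos hx, if_pos hx]
    unfold HW280.PhiX
    congr 1
    refine tsum_congr fun π => tsum_congr fun γ => ?_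
    by_cases hc : IsUp u H π ∧ IsDn u H γ ∧ endp 0 π ∈ E ∧ (∃ k, k ∈ Cm u x π γ) ∧
        (∀ k ∈ Cm u x π γ, s < k)
    · rw [if_pos hc, if_pos ⟨hc.1, hc.2.2.1, hc.2.1, hc.2.2.2⟩]
    · rw [if_neg hc, if_neg (fun h => hc ⟨h.1, h.2.2.1, h.2.1, h.2.2.2⟩)]
  · rw [if_neg hx, if_neg hx]

theorem e3 (ν : Measure (Row d)) [IsProbabilityMeasure ν] (u : Step d) :
    HW280.E3 ν u 4 (E23168.uc ν u) := by
  intro s H E μ M lam h1 h2 h3 h4
  refine (le_of_eq ?_).trans (E23168.e3c ν u s H E μ M lam h1 h2 h3 h4)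
  refine tsum_congr fun x => ?_
  by_cases hx : lev u x = 0
  · rw [if_pos hx, if_pos hx]
    unfold HW280.PhiY
    congr 1
    refine tsum_congr fun π => tsum_congr fun γ => ?_
    by_cases hc : IsUp u H π ∧ IsDn u H γ ∧ endp 0 γ ∈ E ∧ (∃ k, k ∈ Cm u x π γ) ∧
        (∀ k ∈ Cm u x π γ, k + s ≤ H)
    · rw [if_pos hc, if_pos ⟨hc.1, hc.2.2.1, hc.2.1, hc.2.2.2⟩]
    · rw [if_neg hc, if_neg (fun h => hc ⟨h.1, h.2.2.1, h.2.1, h.2.2.2⟩)]
  · rw [if_neg hx, if_neg hx]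

theorem hWin (ν : Measure (Row d)) [IsProbabilityMeasure ν]
    (hν : ∀ᵐ p ∂ν, ∀ e : Step d, 0 < p.1 e) (u : Step d)
    (hA : annealed (iidEnvironmentLaw ν) 0 (escapeEvent (B2d.dirVec u)) ≠ 0)
    (hB : annealed (iidEnvironmentLaw ν) 0 (escapeEvent (-B2d.dirVec u)) ≠ 0) :
    KB818.HWin ν u := by
  obtain ⟨c, hc, -, h1, h2⟩ := WM286.mass_pos ν hν u hA hB
  have hU : ∀ n, c * c ≤ U (Lam ν u) (ht u) n := fun n => by
    rw [U_eq28]; exact mul_le_mul' (h1 n) (h2 n)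
  have hU1 : ∀ n, U (Lam ν u) (ht u) n ≤ 1 := fun n => by
    rw [U_eq28]
    exact mul_le_one' (sum_if_le_one ν fun l l' h h' hp => NB28.isUp_prefix h h' hp)
      (sum_if_le_one ν fun l l' h h' hp => NB28.isDn_prefix h h' hp)
  have hcc : c * c ≠ 0 := mul_ne_zero hc hc
  have hcc1 : c * c ≤ 1 := (hU 0).trans (hU1 0)
  exact HWinB19.hWin_of' (Lam ν u) (ht u) (dl u) (cd u) one_le_hb (c * c) hcc hU hU1 (hinj u)
    (c * c) hcc hcc1 (fun v η hv hv1 hη => HW280.hW ν u c h1 h2 4 (by norm_num)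
      (E23168.uc ν u) (E23168.uc_tendsto ν u) (e2 ν u) (e3 ν u) v η hv hv1 hη)

/-- **`KAPPA'` for every merely elliptic iid law in `d ≥ 3`** -/
theorem kappaAll : KappaAll :=
  KB818.kappaAll_of fun _ _ ν _ hν u hA hB => hWin ν hν u hA hB

end Crest.Agent.R154.KA168

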