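import Crest.Agent.R154.HW_659
import Crest.Agent.R154.HWinAd_363
import Crest.Agent.R154.KB_818
import Crest.Agent.R154.E23_327

/-! Row 154, ROAD 801, FRAME B (helper175): the last binding, `KappaAll` and `NBProp`. -/

set_option autoImplicit false

namespace Crest.Agent.R154.KA175

open MeasureTheory ProbabilityTheory Crest.ProbabilityR.RandomEnvironment Crest.Agent.R154
open Crest.Agent.R154.B5A Crest.Agent.R154.B5W
open Crest.Agent.R154.NB28 (IsUp IsDn KappaW KappaAll)
open scoped ENNReal Topology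

variable {d : ℕ}

lemma dl_inj {u : Step d} (b : PB u) : Function.Injective (dl u b) := by
  intro x y h
  have h' : (dl u b x).1 = (dl u b y).1 := congrArg Subtype.val h
  simp only [dl, dlp] at h'
  apply Subtype.ext
  simpa using h'

lemma ex2 (ν : Measure (Row d)) [IsProbabilityMeasure ν] (u : Step d) (C : ℝ≥0∞) (us : ℕ → ℝ≥0∞)
    (h : EAd327.E2 ν u C us) : HW659.EX u C us (HW659.XL ν u) := by
  intro s H E μ M lam a1 a2 a3 a4
  refine le_trans ?_ (h s H E μ M lam a1 a2 a3 a4)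
  refine ENNReal.tsum_le_tsum fun x => ?_
  by_cases hx : Flux132.lev u x = 0
  · rw [if_pos hx, if_pos hx]
    refine mul_le_mul_right ?_ _
    refine ENNReal.tsum_le_tsum fun π => ENNReal.tsum_le_tsum fun γ => ?_
    split_ifs with h1 h2
    · exact le_rfl
    · exact absurd ⟨h1.1, h1.2.1, h1.2.2.1, h1.2.2.2.1, fun k hk => (h1.2.2.2.2 k hk).1⟩ h2
    · exact zero_le
    · exact le_rfl
  · rw [if_neg hx, if_neg hx]

lemma ex3 (ν : Measure (Row d)) [IsProbabilityMeasure ν] (u : Step d) (C : ℝ≥0∞) (us : ℕ → ℝ≥0∞)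
    (h : EAd327.E3 ν u C us) : HW659.EX u C us (HW659.YL ν u) := by
  intro s H E μ M lam a1 a2 a3 a4
  refine le_trans ?_ (h s H E μ M lam a1 a2 a3 a4)
  refine ENNReal.tsum_le_tsum fun x => ?_
  by_cases hx : Flux132.lev u x = 0
  · rw [if_pos hx, if_pos hx]
    refine mul_le_mul_right ?_ _
    refine ENNReal.tsum_le_tsum fun π => ENNReal.tsum_le_tsum fun γ => ?_
    split_ifs with h1 h2
    · exact le_rfl
    · exact absurd ⟨h1.1, h1.2.2.1, h1.2.1, h1.2.2.2.1, fun k hk => (h1.2.2.2.2 k hk).2⟩ h2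
    · exact zero_le
    · exact le_rfl
  · rw [if_neg hx, if_neg hx]

theorem kappaAll : KappaAll :=
  KB818.kappaAll_of fun d hd ν _ hν u hA hB => by
    obtain ⟨c, hc, -, h1, h2⟩ := WM286.mass_pos ν hν u hA hB
    have hU : ∀ n, c * c ≤ U (Lam ν u) (ht u) n := fun n => by
      rw [U_eq28]; exact mul_le_mul' (h1 n) (h2 n)
    have s1 : ∀ n, ∑' π : List (Step d), (open Classical in if IsUp u n π then NB28.aw ν π else 0) ≤ 1 :=
      fun n => sum_if_le_one ν fun l l' h h' hp => NB28.isUp_prefix h h' hp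
    have s2 : ∀ n, ∑' γ : List (Step d), (open Classical in if IsDn u n γ then NB28.aw ν γ else 0) ≤ 1 :=
      fun n => sum_if_le_one ν fun l l' h h' hp => NB28.isDn_prefix h h' hp
    have hU1 : ∀ n, U (Lam ν u) (ht u) n ≤ 1 := fun n => by
      rw [U_eq28]
      exact mul_le_one' (s1 n) (s2 n)
    have hΛ : ∑' b, Lam ν u b = 1 :=
      le_antisymm (mass_le_one (Lam ν u) (ht u) one_le_hb hU1)
        (mass_ge_one (Lam ν u) (ht u) (c * c) (mul_ne_zero hc hc) 0 (fun n _ => hU n))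
    obtain ⟨C, hC, us, hus, e2, e3⟩ := EAd327.e23 ν u
    refine HWinAd363.hWin_of_hW (Lam ν u) (ht u) (dl u) (cd u) one_le_hb hΛ hU1 (c * c)
      (mul_ne_zero hc hc) hU dl_inj (c * c) (mul_ne_zero hc hc) ?_
    intro v η hv hv1 hη
    obtain ⟨s, hs⟩ := HW659.hW ν u c hc s1 s2 h1 h2 C hC us hus (ex2 ν u C us e2) (ex3 ν u C us e3)
      v η hv hv1 hη
    exact ⟨s, 0, fun H _ => hs H⟩

theorem nbProp : Spine.NBProp := NB28.nb_of_kappaW kappaAll

end Crest.Agent.R154.KA175
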