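import Crest.Agent.R154.HW_178
import Crest.Agent.R154.JAsm_26
import Crest.Agent.R154.E23_327
import Crest.Agent.R154.HSl_169
import Crest.Agent.R154.NBTop_28

/-! Row 154 (S0219, ROAD 801, frame B), helper178: the final composition, `NB28.KappaAll'`. -/

set_option autoImplicit false

namespace Crest.Agent.R154.KA178

open MeasureTheory ProbabilityTheory Crest.ProbabilityR.RandomEnvironment Crest.Agent.R154
open Crest.Agent.R154.Flux132 (lev opp)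
open Crest.Agent.R154.Flux566 (lw endp sitesL)
open Crest.Agent.R154.B5A
open Crest.Agent.R154.B5W (PB ht Lam dl cd Lat cat hcd hinj U_eq28 Kap1_eq one_le_hb)
open Crest.Agent.R154.NB28 (IsUp IsDn Cm aw)
open scoped ENNReal

variable {d : ℕ}

lemma e2_weak {ν : Measure (Row d)} [IsProbabilityMeasure ν] {u : Step d} {C : ℝ≥0∞}
    {us : ℕ → ℝ≥0∞} (h : EAd327.E2 ν u C us) : HW178.E2 ν u C us := by
  classical
  intro s H E μ M lam h1 h2 h3 h4
  refine le_trans (ENNReal.tsum_le_tsum fun x => ?_) (h s H E μ M lam h1 h2 h3 h4)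
  by_cases hx : lev u x = 0
  · rw [if_pos hx, if_pos hx]
    refine mul_le_mul_right (ENNReal.tsum_le_tsum fun π => ENNReal.tsum_le_tsum fun γ => ?_) _
    by_cases hc : IsUp u H π ∧ endp 0 π ∈ E ∧ IsDn u H γ ∧ (∃ k, k ∈ Cm u x π γ) ∧
        (∀ k ∈ Cm u x π γ, s < k ∧ k + s ≤ H)
    · rw [if_pos hc, if_pos ⟨hc.1, hc.2.1, hc.2.2.1, hc.2.2.2.1, fun k hk => (hc.2.2.2.2 k hk).1⟩]
    · rw [if_neg hc]; exact zero_le
  · rw [if_neg hx, if_neg hx]

lemma e3_weak {ν : Measure (Row d)} [IsProbabilityMeasure ν] {u : Step d} {C : ℝ≥0∞}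
    {us : ℕ → ℝ≥0∞} (h : EAd327.E3 ν u C us) : HW178.E3 ν u C us := by
  classical
  intro s H E μ M lam h1 h2 h3 h4
  refine le_trans (ENNReal.tsum_le_tsum fun x => ?_) (h s H E μ M lam h1 h2 h3 h4)
  by_cases hx : lev u x = 0
  · rw [if_pos hx, if_pos hx]
    refine mul_le_mul_right (ENNReal.tsum_le_tsum fun π => ENNReal.tsum_le_tsum fun γ => ?_) _
    by_cases hc : IsUp u H π ∧ endp 0 γ ∈ E ∧ IsDn u H γ ∧ (∃ k, k ∈ Cm u x π γ) ∧
        (∀ k ∈ Cm u x π γ, s < k ∧ k + s ≤ H)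
    · rw [if_pos hc, if_pos ⟨hc.1, hc.2.1, hc.2.2.1, hc.2.2.2.1, fun k hk => (hc.2.2.2.2 k hk).2⟩]
    · rw [if_neg hc]; exact zero_le
  · rw [if_neg hx, if_neg hx]

/-- **weak `KAPPA'`**, for iid merely elliptic laws both of whose opposite escape events are
charged. -/
theorem kappaAll : NB28.KappaAll' := by
  classical
  intro d hd ν _ hν u hA hB
  obtain ⟨c, hc, hc1, hup, hdn⟩ := WM286.mass_pos ν hν u hA hB
  have h1 : ∀ b, 1 ≤ ht u b := one_le_hb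
  have hU1 : ∀ n, U (Lam ν u) (ht u) n ≤ 1 := fun n => HSl169.U_le_one ν u n
  have hU : ∀ n, c * c ≤ U (Lam ν u) (ht u) n := fun n => by
    rw [U_eq28]; exact mul_le_mul' (hup n) (hdn n)
  have hcc : c * c ≠ 0 := mul_ne_zero hc hc
  have hcc1 : c * c ≤ 1 := mul_le_one' hc1 hc1
  have hcc' : c * c ≠ ⊤ := ne_top_of_le_ne_top ENNReal.one_ne_top hcc1
  have hΛ : ∑' b, Lam ν u b = 1 :=
    le_antisymm (mass_le_one _ _ h1 hU1) (mass_ge_one _ _ (c * c) hcc 0 fun n _ => hU n)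
  have hmean : ∑' b, Lam ν u b * (ht u b : ℝ≥0∞) ≠ ⊤ :=
    ne_top_of_le_ne_top (ENNReal.inv_ne_top.2 hcc)
      (mean_le _ _ h1 hΛ (c * c) hcc hcc' 0 fun n _ => hU n)
  obtain ⟨C, hC, us, hus, h2, h3⟩ := EAd327.e23 ν u
  have hK := JAsm26.kap1_of (Lam ν u) (ht u) (dl u) (cd u) h1
    (fun w b k hk => hcd u w b k hk) (hinj u) hΛ hmean hU1 (c * c) hcc hU (c * c) hcc hcc1
    (HW178.hW ν u hc hc1 hup hdn hC hus (e2_weak h2) (e3_weak h3))
    (HSl169.hSl ν (by omega) hν u hΛ hU1)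
  intro ε hε
  obtain ⟨M, hM⟩ := hK ε hε
  refine ⟨M, fun m hm => ?_⟩
  obtain ⟨n0, hn0⟩ := hM m hm
  refine ⟨n0, fun n hn w hw => ?_⟩
  exact (Kap1_eq ν u n m ⟨w, hw⟩).symm.le.trans (hn0 n hn ⟨w, hw⟩)

/-- **the new theorem behind S0219** -/
theorem nbProp : Spine.NBProp := NB28.nb_of_kappaW' kappaAll

end Crest.Agent.R154.KA178
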