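import Crest.Agent.R154.KB_818
import Crest.Agent.R154.HW_659
import Crest.Agent.R154.HWinAd_363
import Crest.Agent.R154.E23_327
import Crest.Agent.R154.NBTop_28

/-! Row 154, ROAD 801, FRAME B (helper205): the last composition. -/

set_option autoImplicit false

namespace Crest.Agent.R154.KA205

open MeasureTheory ProbabilityTheory Crest.ProbabilityR.RandomEnvironment Crest.Agent.R154
open Crest.Agent.R154.B5A Crest.Agent.R154.B5W Crest.Agent.R154.Comp818
open Crest.Agent.R154.NB28 (IsUp IsDn KappaW KappaAll KappaAll' Cm)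
open Crest.Agent.R154.Flux566 (endp sitesL)
open scoped ENNReal Topology

variable {d : ℕ}

open Classical in
theorem hWin (ν : Measure (Row d)) [IsProbabilityMeasure ν]
    (hν : ∀ᵐ p ∂ν, ∀ e : Step d, 0 < p.1 e) (u : Step d)
    (hA : annealed (iidEnvironmentLaw ν) 0 (escapeEvent (B2d.dirVec u)) ≠ 0)
    (hB : annealed (iidEnvironmentLaw ν) 0 (escapeEvent (-B2d.dirVec u)) ≠ 0) :
    KB818.HWin ν u := by
  obtain ⟨c, hc, -, h1, h2⟩ := WM286.mass_pos ν hν u hA hB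
  have hup1 : ∀ n, ∑' π : List (Step d), (if IsUp u n π then NB28.aw ν π else 0) ≤ 1 :=
    fun n => sum_if_le_one ν fun l l' h h' hp => NB28.isUp_prefix h h' hp
  have hdn1 : ∀ n, ∑' γ : List (Step d), (if IsDn u n γ then NB28.aw ν γ else 0) ≤ 1 :=
    fun n => sum_if_le_one ν fun l l' h h' hp => NB28.isDn_prefix h h' hp
  have hU : ∀ n, c * c ≤ U (Lam ν u) (ht u) n := fun n => by
    rw [U_eq28]; exact mul_le_mul' (h1 n) (h2 n)
  have hU1 : ∀ n, U (Lam ν u) (ht u) n ≤ 1 := fun n => by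
    rw [U_eq28]
    exact mul_le_one' (hup1 n) (hdn1 n)
  have hΛ : ∑' b, Lam ν u b = 1 :=
    le_antisymm (mass_le_one (Lam ν u) (ht u) one_le_hb hU1)
      (mass_ge_one (Lam ν u) (ht u) (c * c) (mul_ne_zero hc hc) 0 (fun n _ => hU n))
  obtain ⟨C, hC, us, hus, e2, e3⟩ := EAd327.e23 ν u
  have hE2 : HW659.EX u C us (HW659.XL ν u) := by
    intro s H E μ M lam a1 a2 a3 a4
    refine le_trans ?_ (e2 s H E μ M lam a1 a2 a3 a4)
    refine ENNReal.tsum_le_tsum fun x => ?_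
    by_cases hx : Flux132.lev u x = 0
    · rw [if_pos hx, if_pos hx]
      refine mul_le_mul_right ?_ _
      unfold HW659.XL
      refine ENNReal.tsum_le_tsum fun π => ENNReal.tsum_le_tsum fun γ => ?_
      by_cases h : IsUp u H π ∧ endp 0 π ∈ E ∧ IsDn u H γ ∧ (∃ k, k ∈ Cm u x π γ) ∧
        (∀ k ∈ Cm u x π γ, s < k ∧ k + s ≤ H)
      · rw [if_pos h]
        obtain ⟨g1, g2, g3, g4, g5⟩ := h
        rw [if_pos ⟨g1, g2, g3, g4, fun k hk => (g5 k hk).1⟩]
      · rw [if_neg h]; exact zero_le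
    · rw [if_neg hx, if_neg hx]
  have hE3 : HW659.EX u C us (HW659.YL ν u) := by
    intro s H E μ M lam a1 a2 a3 a4
    refine le_trans ?_ (e3 s H E μ M lam a1 a2 a3 a4)
    refine ENNReal.tsum_le_tsum fun x => ?_
    by_cases hx : Flux132.lev u x = 0
    · rw [if_pos hx, if_pos hx]
      refine mul_le_mul_right ?_ _
      unfold HW659.YL
      refine ENNReal.tsum_le_tsum fun π => ENNReal.tsum_le_tsum fun γ => ?_
      by_cases h : IsUp u H π ∧ IsDn u H γ ∧ endp 0 γ ∈ E ∧ (∃ k, k ∈ Cm u x π γ) ∧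
        (∀ k ∈ Cm u x π γ, s < k ∧ k + s ≤ H)
      · rw [if_pos h]
        obtain ⟨g1, g2, g3, g4, g5⟩ := h
        rw [if_pos ⟨g1, g3, g2, g4, fun k hk => (g5 k hk).2⟩]
      · rw [if_neg h]; exact zero_le
    · rw [if_neg hx, if_neg hx]
  refine HWinAd363.hWin_of_hW (Lam ν u) (ht u) (dl u) (cd u) one_le_hb hΛ hU1 (c * c)
    (mul_ne_zero hc hc) hU (hinj u) (c * c) (mul_ne_zero hc hc) ?_
  intro v η hv0 hv1 hη
  obtain ⟨s, hs⟩ := HW659.hW ν u c hc hup1 hdn1 h1 h2 C hC us hus hE2 hE3 v η hv0 hv1 hη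
  exact ⟨s, 0, fun H _ => hs H⟩

/-- **the row** -/
theorem kappaAll : KappaAll :=
  KB818.kappaAll_of fun _ _ ν _ hν u hA hB => hWin ν hν u hA hB

theorem kappaAll' : KappaAll' :=
  fun d hd ν _ hν u hA hB => (kappaAll d hd ν hν u hA hB).weak

theorem nb : Spine.NBProp := NB28.nb_of_kappaW kappaAll

end Crest.Agent.R154.KA205
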