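import Crest.Agent.R154.E2_22
import Crest.Agent.R154.E3_934
import Crest.Agent.R154.HW_280
import Crest.Agent.R154.HWinB_19
import Crest.Agent.R154.KB_818

/-! Row 154, ROAD 801, frame B: `KappaAll` (helper22). -/

set_option autoImplicit false

namespace Crest.Agent.R154.KA22

open MeasureTheory ProbabilityTheory Crest.ProbabilityR.RandomEnvironment Crest.Agent.R154
open Crest.Agent.R154.B5A Crest.Agent.R154.B5W
open Crest.Agent.R154.NB28 (IsUp IsDn Cm KappaAll)
open Crest.Agent.R154.Flux132 (opp)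
open Filter
open scoped ENNReal Topology

variable {d : ℕ}

/-- return weights of both directions -/
noncomputable def us2 (ν : Measure (Row d)) [IsProbabilityMeasure ν] (u : Step d) (s : ℕ) :
    ℝ≥0∞ := W22.us ν u s + E934.us ν (opp u) s

lemma us2_tendsto (ν : Measure (Row d)) [IsProbabilityMeasure ν] (u : Step d) :
    Tendsto (us2 ν u) atTop (𝓝 0) := by
  have h1 : Tendsto (W22.us ν u) atTop (𝓝 0) := by
    rw [ENNReal.tendsto_nhds_zero]
    intro ε hε
    obtain ⟨s0, h⟩ := W22.us_small ν u ε hε.ne'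
    exact eventually_atTop.2 ⟨s0, h⟩
  have h2 : Tendsto (E934.us ν (opp u)) atTop (𝓝 0) := by
    rw [ENNReal.tendsto_nhds_zero]
    intro ε hε
    obtain ⟨s0, h⟩ := E934.us_small ν (opp u) ε hε.ne'
    exact eventually_atTop.2 ⟨s0, h⟩
  have := h1.add h2
  rw [add_zero] at this
  exact this

open Classical in
lemma e2 (ν : Measure (Row d)) [IsProbabilityMeasure ν] (u : Step d) :
    HW280.E2 ν u 8 (us2 ν u) := by
  intro s H E μ M lam hμ hM h0 ht
  have key := W22.E2 ν u s H E μ M lam hμ hM h0 ht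
  refine le_trans (le_of_eq ?_) (key.trans ?_)
  · refine tsum_congr fun x => ?_
    unfold HW280.PhiX
    refine if_congr Iff.rfl (congrArg _ (tsum_congr fun π => tsum_congr fun γ => ?_)) rfl
    exact if_congr ⟨fun h => ⟨h.1, h.2.2.1, h.2.1, h.2.2.2⟩,
      fun h => ⟨h.1, h.2.2.1, h.2.1, h.2.2.2⟩⟩ rfl rfl
  · have h1 : W22.us ν u s ≤ us2 ν u s := le_self_add
    have h8 : (1 : ℝ≥0∞) ≤ 8 := by norm_num
    gcongr

open Classical in
lemma e3 (ν : Measure (Row d)) [IsProbabilityMeasure ν] (u : Step d) :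
    HW280.E3 ν u 8 (us2 ν u) := by
  intro s H E μ M lam hμ hM h0 ht
  have key := E934.E3 (ν := ν) (u := u) s H E μ M lam hμ hM h0 ht
  refine le_trans (le_of_eq ?_) (key.trans ?_)
  · refine tsum_congr fun x => ?_
    unfold HW280.PhiY
    refine if_congr Iff.rfl (congrArg _ (tsum_congr fun π => tsum_congr fun γ => ?_)) rfl
    exact if_congr ⟨fun h => ⟨h.1, h.2.2.1, h.2.1, h.2.2.2⟩,
      fun h => ⟨h.1, h.2.2.1, h.2.1, h.2.2.2⟩⟩ rfl rfl
  · have h1 : E934.us ν (opp u) s ≤ us2 ν u s := le_add_self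
    have h8 : (2 : ℝ≥0∞) ≤ 8 := by norm_num
    calc 8 * lam + 2 * (M * (E.card * E934.us ν (opp u) s) / lam)
        ≤ 8 * lam + 8 * (M * (E.card * us2 ν u s) / lam) :=
          add_le_add le_rfl (mul_le_mul' h8 (ENNReal.div_le_div_right
            (mul_le_mul' le_rfl (mul_le_mul' le_rfl h1)) _))
      _ = 8 * (lam + M * E.card * us2 ν u s / lam) := by rw [mul_add, mul_assoc M]
      _ ≤ 8 * (lam + M * E.card * us2 ν u s / lam + us2 ν u s) :=
          mul_le_mul' le_rfl le_self_add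

theorem hwin (ν : Measure (Row d)) [IsProbabilityMeasure ν]
    (hν : ∀ᵐ p ∂ν, ∀ e : Step d, 0 < p.1 e) (u : Step d)
    (hA : annealed (iidEnvironmentLaw ν) 0 (escapeEvent (B2d.dirVec u)) ≠ 0)
    (hB : annealed (iidEnvironmentLaw ν) 0 (escapeEvent (-B2d.dirVec u)) ≠ 0) :
    KB818.HWin ν u := by
  obtain ⟨c, hc, hc1, h1, h2⟩ := WM286.mass_pos ν hν u hA hB
  have hU : ∀ n, c * c ≤ U (Lam ν u) (ht u) n := fun n => by
    rw [U_eq28]; exact mul_le_mul' (h1 n) (h2 n)
  have hU1 : ∀ n, U (Lam ν u) (ht u) n ≤ 1 := fun n => by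
    rw [U_eq28]
    exact mul_le_one' (sum_if_le_one ν fun l l' h h' hp => NB28.isUp_prefix h h' hp)
      (sum_if_le_one ν fun l l' h h' hp => NB28.isDn_prefix h h' hp)
  have hcc1 : c * c ≤ 1 := (hU 0).trans (hU1 0)
  exact HWinB19.hWin_of' (Lam ν u) (ht u) (dl u) (cd u) one_le_hb (c * c) (mul_ne_zero hc hc)
    hU hU1 (hinj u) (c * c) (mul_ne_zero hc hc) hcc1
    (fun v η hv hv1 hη => HW280.hW ν u c h1 h2 8 (by norm_num) (us2 ν u) (us2_tendsto ν u)
      (e2 ν u) (e3 ν u) v η hv hv1 hη)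

/-- **KappaAll** -/
theorem kappaAll : KappaAll :=
  KB818.kappaAll_of fun d _ ν _ hν u hA hB => hwin ν hν u hA hB

end Crest.Agent.R154.KA22
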