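import Crest.Agent.R154.HW_280
import Crest.Agent.R154.HWb_597
import Crest.Agent.R154.E23_327
import Crest.Agent.R154.KB_169

/-! Row 154, ROAD 801, frame B (helper228): `KappaAll`. -/

set_option autoImplicit false

open MeasureTheory ProbabilityTheory Crest.ProbabilityR.RandomEnvironment
open scoped ENNReal Topology
open Filter

namespace Crest.Agent.R154.KA228

open Crest.Agent.R154.B5A Crest.Agent.R154.B5W
open Crest.Agent.R154.NB28 (IsUp IsDn)

variable {d : ℕ}

open Classical in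
theorem hWin (ν : Measure (Row d)) [IsProbabilityMeasure ν] (u : Step d) (c : ℝ≥0∞) (hc : c ≠ 0)
    (hc1 : c ≤ 1)
    (hup : ∀ n : ℕ, c ≤ ∑' π : List (Step d), if IsUp u n π then NB28.aw ν π else 0)
    (hdn : ∀ n : ℕ, c ≤ ∑' γ : List (Step d), if IsDn u n γ then NB28.aw ν γ else 0) :
    KB169.HWinSt (Lam ν u) (ht u) (dl u) (cd u) := by
  have hU : ∀ n, c * c ≤ U (Lam ν u) (ht u) n := fun n => by
    rw [U_eq28]; exact mul_le_mul' (hup n) (hdn n)
  have hU1 := HSl169.U_le_one ν u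
  have hcc : c * c ≠ 0 := mul_ne_zero hc hc
  have hcc1 : c * c ≤ 1 := mul_le_one' hc1 hc1
  have hcct : c * c ≠ ⊤ := ne_top_of_le_ne_top ENNReal.one_ne_top hcc1
  have h1 : ∀ b, 1 ≤ ht u b := one_le_hb
  have hΛ : ∑' b, Lam ν u b = 1 :=
    le_antisymm (mass_le_one _ _ h1 hU1) (mass_ge_one _ _ (c * c) hcc 0 fun n _ => hU n)
  have hmean := mean_le (Lam ν u) (ht u) h1 hΛ (c * c) hcc hcct 0 (fun n _ => hU n)
  rw [sum_tail _ _ hΛ] at hmean
  have htail : ∑' k, tail (Lam ν u) (ht u) k ≠ ⊤ :=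
    ne_top_of_le_ne_top (ENNReal.inv_ne_top.2 hcc) hmean
  have htl : Tendsto (fun H : ℕ => ∑' k, tail (Lam ν u) (ht u) (H + k)) atTop (𝓝 0) := by
    have := ENNReal.tendsto_sum_nat_add (tail (Lam ν u) (ht u)) htail
    refine this.congr fun H => ?_
    refine tsum_congr fun k => ?_
    rw [add_comm]
  obtain ⟨C, hC, us, hus, h2, h3⟩ := EAd327.e23 ν u
  have hE2 : HW280.E2 ν u C us := by
    intro s H E μ M lam a1 a2 a3 a4
    refine le_trans (le_of_eq ?_) (h2 s H E μ M lam a1 a2 a3 a4)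
    refine tsum_congr fun x => ?_
    unfold HW280.PhiX
    congr 2
    refine tsum_congr fun π => tsum_congr fun γ => ?_
    refine if_congr ?_ rfl rfl
    tauto
  have hE3 : HW280.E3 ν u C us := by
    intro s H E μ M lam a1 a2 a3 a4
    refine le_trans (le_of_eq ?_) (h3 s H E μ M lam a1 a2 a3 a4)
    refine tsum_congr fun x => ?_
    unfold HW280.PhiY
    congr 2
    refine tsum_congr fun π => tsum_congr fun γ => ?_
    refine if_congr ?_ rfl rfl
    tauto
  refine HWb597.hWin_of (Lam ν u) (ht u) (dl u) (cd u) h1 hΛ hU1 (hinj u) htl (c * c) hcc hcc1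
    fun v η hv hv1 hη => ?_
  obtain ⟨s, H0, h⟩ := HW280.hW ν u c hup hdn C hC us hus hE2 hE3 v η hv hv1 hη
  exact ⟨s, H0, fun H hH => h H hH⟩

theorem kappaAll : NB28.KappaAll := by
  intro d hd ν _ hν u hA hB
  obtain ⟨c, hc, hc1, hup, hdn⟩ := WM286.mass_pos ν hν u hA hB
  exact KB169.kappaW_of ν (by omega) hν u c hc hup hdn (hWin ν u c hc hc1 hup hdn)

end Crest.Agent.R154.KA228
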