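import Crest.Agent.R154.JAsm_26
import Crest.Agent.R154.HW_725
import Crest.Agent.R154.E23_168
import Crest.Agent.R154.HSl_689
import Crest.Agent.R154.NBTop_28
import Crest.Agent.R154.WMass_286

/-! Row 154 (helper26): `NB28.KappaAll'`, `Spine.NBProp` from the joint-cut assembly (JAsm_26), 725's
window estimate, 168 / 22 / 775's word lemmas and 689's slab. -/

set_option autoImplicit false

namespace Crest.Agent.R154.KA26

open MeasureTheory ProbabilityTheory Crest.ProbabilityR.RandomEnvironment Crest.Agent.R154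
open Crest.Agent.R154.B5A Crest.Agent.R154.B5W
open Crest.Agent.R154.NB28 (IsUp IsDn KappaW' KappaAll')
open scoped ENNReal Topology

variable {d : ℕ}

theorem kappaW' (hd : 2 ≤ d) (ν : Measure (Row d)) [IsProbabilityMeasure ν]
    (hν : ∀ᵐ p ∂ν, ∀ e : Step d, 0 < p.1 e) (u : Step d)
    (hA : annealed (iidEnvironmentLaw ν) 0 (escapeEvent (B2d.dirVec u)) ≠ 0)
    (hB : annealed (iidEnvironmentLaw ν) 0 (escapeEvent (-B2d.dirVec u)) ≠ 0) : KappaW' ν u := by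
  classical
  obtain ⟨c, hc, -, h1, h2⟩ := WM286.mass_pos ν hν u hA hB
  have hA1 : ∀ n, (∑' l, if IsUp u n l then NB28.aw ν l else 0) ≤ 1 := fun n =>
    sum_if_le_one ν fun l l' h h' hp => NB28.isUp_prefix h h' hp
  have hB1 : ∀ n, (∑' l, if IsDn u n l then NB28.aw ν l else 0) ≤ 1 := fun n =>
    sum_if_le_one ν fun l l' h h' hp => NB28.isDn_prefix h h' hp
  have hcc : c * c ≠ 0 := mul_ne_zero hc hc
  have hU : ∀ n, c * c ≤ U (Lam ν u) (ht u) n := fun n => by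
    rw [U_eq28]; exact mul_le_mul' (h1 n) (h2 n)
  have hU1 : ∀ n, U (Lam ν u) (ht u) n ≤ 1 := fun n => by
    rw [U_eq28]
    exact mul_le_one' (hA1 n) (hB1 n)
  have hΛ : ∑' b, Lam ν u b = 1 :=
    le_antisymm (mass_le_one (Lam ν u) (ht u) one_le_hb hU1)
      (mass_ge_one (Lam ν u) (ht u) (c * c) hcc 0 (fun n _ => hU n))
  have hc1 : c ≤ 1 := (h1 0).trans (hA1 0)
  have hcc' : c * c ≤ 1 := mul_le_one' hc1 hc1
  have hct : c * c ≠ ⊤ := ne_top_of_le_ne_top ENNReal.one_ne_top hcc'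
  have hE : ∑' b, Lam ν u b * ((ht u b : ℕ) : ℝ≥0∞) ≠ ⊤ :=
    ne_top_of_le_ne_top (ENNReal.inv_ne_top.2 hcc)
      (mean_le (Lam ν u) (ht u) one_le_hb hΛ (c * c) hcc hct 0 (fun n _ => hU n))
  have hus : ∀ δ : ℝ≥0∞, δ ≠ 0 → ∃ s, E23168.uc ν u s ≤ δ := by
    intro δ hδ
    obtain ⟨s, hs⟩ := ((ENNReal.tendsto_nhds_zero.1 (E23168.uc_tendsto ν u)) δ
      (pos_iff_ne_zero.2 hδ)).exists
    exact ⟨s, hs⟩
  have hW := HW725.hW_of ν u (us := E23168.uc ν u) (C := 4) (c := c) (by norm_num) hus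
    (E23168.e2c ν u) (E23168.e3c ν u) hc h1 h2 hA1 hB1
  have hSl := HSl689.hSl hd ν hν u hΛ
  have key := JAsm26.kap1_of (Lam ν u) (ht u) (dl u) (cd u) one_le_hb
    (fun w b k hk => hcd u w b k hk) (hinj u) hΛ hE hU1 (c * c) hcc hU (c * c) hcc hcc' hW hSl
  intro ε hε
  obtain ⟨M, hM⟩ := key ε hε
  refine ⟨M, fun m hm => ?_⟩
  obtain ⟨n0, hn0⟩ := hM m hm
  refine ⟨n0, fun n hn w hw => ?_⟩
  have h := hn0 n hn (⟨w, hw⟩ : Lat u)
  exact (le_of_eq (Kap1_eq ν u n m (⟨w, hw⟩ : Lat u)).symm).trans h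

/-- **the kappa statement for every elliptic iid law** -/
theorem kappaAll : KappaAll' :=
  fun d hd ν _ hν u hA hB => kappaW' (by omega) ν hν u hA hB

/-- **input 4 of the row** -/
theorem nbProp : Spine.NBProp := NB28.nb_of_kappaW' kappaAll

end Crest.Agent.R154.KA26
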