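import Crest.Agent.R154.KB_169
import Crest.Agent.R154.HWinB_19
import Crest.Agent.R154.HW_334
import Crest.Agent.R154.E2_742
import Crest.Agent.R154.E3_660
import Crest.Agent.R154.E23_272

/-! Row 154, ROAD 801, frame B (helper272): `KappaAll`. -/

set_option autoImplicit false

open MeasureTheory ProbabilityTheory Crest.ProbabilityR.RandomEnvironment
open scoped ENNReal Topology
open Filter

namespace Crest.Agent.R154.KA272

open Crest.Agent.R154.B5A
open Crest.Agent.R154.B5W (PB Lat Lam ht dl dlp cd cat pm tsum_L CD_cat cds_eq U_eq28)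
open Crest.Agent.R154.NB28 (IsUp IsDn Cm)
open Crest.Agent.R154.Flux566 (endp)

variable {d : ℕ}

lemma act_cat (u : Step d) (L : List (PB u)) (w : Lat u) :
    (act (dl u) L w).1 = w.1 + endp 0 (cat L).1 + endp 0 (cat L).2 := by
  induction L generalizing w with
  | nil => simp [act, cat, endp]
  | cons b L ih =>
    rw [act, ih]
    simp only [dl, dlp, cat, pm]
    rw [Flux566.endp_append, Flux566.endp_append, Flux566.endp_eq_add b.1.1 (endp 0 (cat L).1),
      Flux566.endp_eq_add (cat L).2 (endp 0 b.1.2)]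
    abel

/-- extension by zero -/
noncomputable def ex (u : Step d) (μ : Lat u → ℝ≥0∞) (x : Site d) : ℝ≥0∞ :=
  if h : Flux132.lev u x = 0 then μ ⟨x, h⟩ else 0

open Classical in
lemma tsum_ex (u : Step d) (μ : Lat u → ℝ≥0∞) (Φ : Site d → ℝ≥0∞) :
    ∑' w : Lat u, μ w * Φ w.1 = ∑' x : Site d, (if Flux132.lev u x = 0 then ex u μ x * Φ x else 0) := by
  have h := tsum_subtype ({x : Site d | Flux132.lev u x = 0}) (fun x => ex u μ x * Φ x)
  refine Eq.trans ?_ (h.trans ?_)
  · refine tsum_congr (fun w => ?_)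
    have : ex u μ w.1 = μ w := dif_pos w.2
    rw [← this]
  · refine tsum_congr fun x => ?_
    rw [Set.indicator_apply]
    rfl

lemma ex_sum (u : Step d) (μ : Lat u → ℝ≥0∞) : ∑' x, ex u μ x = ∑' w, μ w := by
  classical
  have h := tsum_ex u μ (fun _ => 1)
  simp only [mul_one] at h
  rw [h]
  refine tsum_congr fun x => ?_
  unfold ex
  split_ifs <;> rfl

lemma ex_le (u : Step d) (μ : Lat u → ℝ≥0∞) (M : ℝ≥0∞) (h : ∀ w, μ w ≤ M) (x : Site d) :
    ex u μ x ≤ M := by
  unfold ex
  split_ifs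
  · exact h _
  · exact zero_le

open Classical in
theorem hWin (ν : Measure (Row d)) [IsProbabilityMeasure ν]
    (hν : ∀ᵐ p ∂ν, ∀ e : Step d, 0 < p.1 e) (u : Step d)
    (hA : annealed (iidEnvironmentLaw ν) 0 (escapeEvent (B2d.dirVec u)) ≠ 0)
    (hB : annealed (iidEnvironmentLaw ν) 0 (escapeEvent (-B2d.dirVec u)) ≠ 0) :
    KB169.HWinSt (Lam ν u) (ht u) (dl u) (cd u) := by
  obtain ⟨c, hc, hc1, hup, hdn⟩ := WM286.mass_pos ν hν u hA hB
  have hU : ∀ n, c * c ≤ U (Lam ν u) (ht u) n := fun n => by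
    rw [U_eq28]; exact mul_le_mul' (hup n) (hdn n)
  have hU1 := HSl169.U_le_one ν u
  have hcc : c * c ≠ 0 := mul_ne_zero hc hc
  have h1 : ∀ b, 1 ≤ ht u b := B5W.one_le_hb
  have hdir : annealedProb (iidEnvironmentLaw ν) 0 (escapeEvent (Flux566.dir u)) ≠ 0 := by
    rw [← annealed_apply _ 0 (B2d.measurableSet_escapeEvent _)]
    exact hA
  have hle1 : c * c * 2⁻¹ ≤ 1 := by
    calc c * c * 2⁻¹ ≤ 1 * 1 * 1 := by
          gcongr
          exact ENNReal.inv_le_one.2 (by norm_num)
      _ = 1 := by norm_num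
  refine HWinB19.hWin_of' (Lam ν u) (ht u) (dl u) (cd u) h1 (c * c) hcc hU hU1 (B5W.hinj u)
    (c * c * 2⁻¹) (mul_ne_zero hcc (by simp)) hle1 ?_
  have key := HW334.hW_of (Lam ν u) (ht u) (dl u) (cd u) (fun L => cat L) (fun w : Lat u => w.1)
    (fun π => endp 0 π) (fun γ => endp 0 γ)
    (fun H π => if IsUp u H π then NB28.aw ν π else 0)
    (fun H γ => if IsDn u H γ then NB28.aw ν γ else 0)
    (fun w π γ => Cm u w.1 π γ) ?_ (act_cat u) ?_ c hc hup ?_ hdn ?_
    (Us778.us ν u) ?_ 8 (by norm_num) (by norm_num) ?_ ?_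
  · intro v η hv hv1 hη
    obtain ⟨s, hs⟩ := key v η hv hv1 hη
    exact ⟨s, 0, fun H _ => hs H⟩
  · -- hcat
    intro H F
    have := tsum_L ν u H (fun x => F x.1 x.2)
    refine this.trans ?_
    refine tsum_congr fun π => tsum_congr fun γ => ?_
    by_cases a : IsUp u H π <;> by_cases b : IsDn u H γ <;> simp [a, b]
  · -- hCD
    intro L w
    rw [CD_cat]
    exact cds_eq u (cat L).1 (cat L).2 w.1
  · intro H; exact H2w386.tsum_aw_le_one ν (H2w386.pf_up u H)
  · intro H; exact H2w386.tsum_aw_le_one ν (H2w386.pf_dn u H)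
  · intro ε hε
    obtain ⟨s0, hs0⟩ := Us778.us_eventually ν hν u hdir ε hε
    exact ⟨s0, hs0 s0 le_rfl⟩
  · -- hW2
    intro s H E μ M lam hμ hM hl hl'
    have h2 := W2742.E2 ν u s H E (ex u μ) M lam (by rw [ex_sum]; exact hμ) (ex_le u μ M hM) hl hl'
    refine le_trans (le_of_eq (Eq.trans (tsum_congr fun w => ?_) (tsum_ex u μ (fun x => ∑' π : List (Step d), ∑' γ : List (Step d),
      (if endp 0 π ∈ E ∧ (∃ k, k ∈ Cm u x π γ) ∧ (∀ k ∈ Cm u x π γ, s < k ∧ k + s ≤ H) then
        (if IsUp u H π then NB28.aw ν π else 0) * (if IsDn u H γ then NB28.aw ν γ else 0) else 0))))) ?_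
    · refine congrArg (fun z => μ w * z) (tsum_congr fun π => tsum_congr fun γ => ?_)
      congr 1
    refine le_trans ?_ (h2.trans ?_)
    · refine ENNReal.tsum_le_tsum fun x => ?_
      by_cases hx : Flux132.lev u x = 0
      · rw [if_pos hx, if_pos hx]
        refine mul_le_mul' le_rfl (ENNReal.tsum_le_tsum fun π => ENNReal.tsum_le_tsum fun γ => ?_)
        by_cases a : IsUp u H π
        · by_cases b : IsDn u H γ
          · by_cases h : endp 0 π ∈ E ∧ (∃ k, k ∈ Cm u x π γ) ∧
              (∀ k ∈ Cm u x π γ, s < k ∧ k + s ≤ H)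
            · rw [if_pos h, if_pos a, if_pos b,
                if_pos ⟨a, h.1, b, h.2.1, fun k hk => (h.2.2 k hk).1⟩]
            · rw [if_neg h]; exact zero_le
          · rw [if_neg b, mul_zero, ite_self]; exact zero_le
        · rw [if_neg a, zero_mul, ite_self]; exact zero_le
      · rw [if_neg hx, if_neg hx]
    · have e : annealedProb (iidEnvironmentLaw ν) 0 (Us778.Dip u s) ≤ Us778.us ν u s := by
        rw [← annealed_apply _ 0 (Us778.measurableSet_Dip u s)]
        exact le_self_add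
      calc lam + M * E.card * annealedProb (iidEnvironmentLaw ν) 0 (Us778.Dip u s) / lam
          ≤ 1 * (lam + M * E.card * Us778.us ν u s / lam) := by rw [one_mul]; gcongr
        _ ≤ 8 * (lam + M * E.card * Us778.us ν u s / lam) := by gcongr; norm_num
  · -- hW3
    intro s H E μ M lam hμ hM hl hl'
    have h2 := E660.E3 ν u s H E (ex u μ) M lam (by rw [ex_sum]; exact hμ) (ex_le u μ M hM) hl hl'
    refine le_trans (le_of_eq (Eq.trans (tsum_congr fun w => ?_) (tsum_ex u μ (fun x => ∑' π : List (Step d), ∑' γ : List (Step d),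
      (if endp 0 γ ∈ E ∧ (∃ k, k ∈ Cm u x π γ) ∧ (∀ k ∈ Cm u x π γ, s < k ∧ k + s ≤ H) then
        (if IsUp u H π then NB28.aw ν π else 0) * (if IsDn u H γ then NB28.aw ν γ else 0) else 0))))) ?_
    · refine congrArg (fun z => μ w * z) (tsum_congr fun π => tsum_congr fun γ => ?_)
      congr 1
    refine le_trans ?_ (h2.trans ?_)
    · refine ENNReal.tsum_le_tsum fun x => ?_
      by_cases hx : Flux132.lev u x = 0
      · rw [if_pos hx, if_pos hx]
        refine mul_le_mul' le_rfl (ENNReal.tsum_le_tsum fun π => ENNReal.tsum_le_tsum fun γ => ?_)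
        by_cases a : IsUp u H π
        · by_cases b : IsDn u H γ
          · by_cases h : endp 0 γ ∈ E ∧ (∃ k, k ∈ Cm u x π γ) ∧
              (∀ k ∈ Cm u x π γ, s < k ∧ k + s ≤ H)
            · rw [if_pos h, if_pos a, if_pos b,
                if_pos ⟨a, h.1, b, h.2.1, fun k hk => (h.2.2 k hk).2⟩]
            · rw [if_neg h]; exact zero_le
          · rw [if_neg b, mul_zero, ite_self]; exact zero_le
        · rw [if_neg a, zero_mul, ite_self]; exact zero_le
      · rw [if_neg hx, if_neg hx]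
    · gcongr
      norm_num

/-- **KAPPA' for every elliptic iid law** -/
theorem kappaAll : NB28.KappaAll :=
  KB169.kappaAll_of fun d _ ν _ hν u hA hB => hWin ν hν u hA hB

theorem nb : Spine.NBProp := NB28.nb_of_kappaW kappaAll

end Crest.Agent.R154.KA272
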