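import Crest.Agent.R154.KB_818
import Crest.Agent.R154.HWinAd_363
import Crest.Agent.R154.HW_334
import Crest.Agent.R154.E2_934

/-! Row 154, T0219, ROAD 801, joint cuts (helper311): KAPPA' in words from the landed pieces. -/

set_option autoImplicit false

open MeasureTheory ProbabilityTheory Crest.ProbabilityR.RandomEnvironment
open scoped ENNReal

namespace Crest.Agent.R154.KA311

open Crest.Agent.R154.B5A Crest.Agent.R154.B5W
open Crest.Agent.R154.Flux132 (opp)
open Crest.Agent.R154.Flux566 (endp sitesL endp_eq_add endp_append)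
open Crest.Agent.R154.NB28 (IsUp IsDn Cm KappaW KappaAll KappaAll')

variable {d : ℕ}

lemma endp_cat (u : Step d) (L : List (PB u)) (w : Lat u) :
    (act (dl u) L w).1 = w.1 + endp 0 (cat L).1 + endp 0 (cat L).2 := by
  induction L generalizing w with
  | nil => simp [act, cat, endp]
  | cons b L ih =>
    rw [act, ih]
    have h1 : (cat (b :: L)).1 = (cat L).1 ++ b.1.1 := rfl
    have h2 : (cat (b :: L)).2 = b.1.2 ++ (cat L).2 := rfl
    rw [h1, h2, endp_append, endp_append, endp_eq_add b.1.1 (endp 0 (cat L).1),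
      endp_eq_add (cat L).2 (endp 0 b.1.2)]
    simp only [dl, dlp]
    abel

open Classical in
/-- weights -/
noncomputable def wa (ν : Measure (Row d)) [IsProbabilityMeasure ν] (u : Step d) (H : ℕ)
    (π : List (Step d)) : ℝ≥0∞ := if IsUp u H π then NB28.aw ν π else 0

open Classical in
noncomputable def wb (ν : Measure (Row d)) [IsProbabilityMeasure ν] (u : Step d) (H : ℕ)
    (γ : List (Step d)) : ℝ≥0∞ := if IsDn u H γ then NB28.aw ν γ else 0

noncomputable def usc (ν : Measure (Row d)) [IsProbabilityMeasure ν] (u : Step d) (s : ℕ) : ℝ≥0∞ :=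
  E934.us ν u s + E934.us ν (opp u) s

lemma usc_small (ν : Measure (Row d)) [IsProbabilityMeasure ν] (u : Step d) (ε : ℝ≥0∞)
    (hε : ε ≠ 0) : ∃ s, usc ν u s ≤ ε := by
  have h2 : ε / 2 ≠ 0 := (ENNReal.half_pos hε).ne'
  obtain ⟨s1, h1⟩ := E934.us_small ν u (ε / 2) h2
  obtain ⟨s2, h3⟩ := E934.us_small ν (opp u) (ε / 2) h2
  refine ⟨max s1 s2, ?_⟩
  unfold usc
  calc _ ≤ ε / 2 + ε / 2 := add_le_add (h1 _ (le_max_left _ _)) (h3 _ (le_max_right _ _))
    _ = ε := ENNReal.add_halves ε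

open Classical in
/-- extension of a weight on the lateral lattice -/
noncomputable def ext (u : Step d) (μ : Lat u → ℝ≥0∞) (x : Site d) : ℝ≥0∞ :=
  if h : Flux566.lev u x = 0 then μ ⟨x, h⟩ else 0

lemma tsum_ext (u : Step d) (μ : Lat u → ℝ≥0∞) (F : Site d → ℝ≥0∞) :
    ∑' w : Lat u, μ w * F w.1 = ∑' x : Site d, ext u μ x * F x := by
  classical
  have h := tsum_subtype {x : Site d | Flux566.lev u x = 0} (fun x => ext u μ x * F x)
  have h1 : ∑' x : Site d, ext u μ x * F x
      = ∑' x : Site d, ({x : Site d | Flux566.lev u x = 0}).indicator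
        (fun x => ext u μ x * F x) x := by
    refine tsum_congr fun x => ?_
    by_cases hx : Flux566.lev u x = 0
    · rw [Set.indicator_of_mem (show x ∈ {x : Site d | Flux566.lev u x = 0} from hx)]
    · rw [Set.indicator_of_notMem (show x ∉ {x : Site d | Flux566.lev u x = 0} from hx), ext,
        dif_neg hx, zero_mul]
  rw [h1, ← h]
  refine tsum_congr fun w => ?_
  have hw : Flux566.lev u w.1 = 0 := w.2
  rw [ext, dif_pos hw]
  rfl

lemma tsum_ext_le (u : Step d) (μ : Lat u → ℝ≥0∞) (F' : Lat u → ℝ≥0∞) (F : Site d → ℝ≥0∞)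
    (G : Site d → ℝ≥0∞) (h : ∀ w, F' w ≤ F w.1)
    (hG : ∀ x, Flux566.lev u x = 0 → ext u μ x * F x ≤ G x) :
    ∑' w : Lat u, μ w * F' w ≤ ∑' x : Site d, G x := by
  refine (ENNReal.tsum_le_tsum fun w => mul_le_mul_right (h w) _).trans ?_
  refine (le_of_eq (tsum_ext u μ F)).trans (ENNReal.tsum_le_tsum fun x => ?_)
  by_cases hx : Flux566.lev u x = 0
  · exact hG x hx
  · rw [ext, dif_neg hx, zero_mul]; exact zero_le

lemma ext_le (u : Step d) (μ : Lat u → ℝ≥0∞) (M : ℝ≥0∞) (h : ∀ w, μ w ≤ M) (x : Site d) :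
    ext u μ x ≤ M := by
  unfold ext
  split_ifs
  · exact h _
  · exact zero_le

lemma sum_ext (u : Step d) (μ : Lat u → ℝ≥0∞) : ∑' x, ext u μ x = ∑' w, μ w := by
  have h := tsum_ext u μ (fun _ => 1)
  simp only [mul_one] at h
  exact h.symm

open Classical in
theorem hW (ν : Measure (Row d)) [IsProbabilityMeasure ν]
    (hν : ∀ᵐ p ∂ν, ∀ e : Step d, 0 < p.1 e) (u : Step d) (c : ℝ≥0∞) (hc : c ≠ 0)
    (hup : ∀ n, c ≤ ∑' π : List (Step d), if IsUp u n π then NB28.aw ν π else 0)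
    (hdn : ∀ n, c ≤ ∑' γ : List (Step d), if IsDn u n γ then NB28.aw ν γ else 0) :
    ∀ v η : ℝ≥0∞, v ≠ 0 → v ≤ 1 → η ≠ 0 → ∃ s : ℕ, ∀ H : ℕ, ∃ S1 S2 : Set (Lat u),
      JAsm139.Good (Lam ν u) (ht u) (dl u) (c * c * 2⁻¹ * v) η H S1 ∧
      JAsm139.Good (Lam ν u) (ht u) (dl u) (c * c * 2⁻¹ * v) η H S2 ∧
      ∀ w, w ∉ S1 → w ∉ S2 →
        (∑' L : List (PB u), (if HT (ht u) L = H ∧ CD (ht u) (dl u) (cd u) L w ≠ ∅ ∧
          (∀ k ∈ CD (ht u) (dl u) (cd u) L w, s < k ∧ k + s ≤ H) then LW (Lam ν u) L else 0))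
          ≤ v * v + η := by
  refine HW334.hW_of (Lam ν u) (ht u) (dl u) (cd u) (G := Site d) cat (fun w => w.1)
    (fun π => endp 0 π) (fun γ => endp 0 γ) (wa ν u) (wb ν u) (fun w π γ => Cm u w.1 π γ)
    ?_ (fun L w => endp_cat u L w) (fun L w => by rw [CD_cat, ← cds_eq]) c hc hup ?_ hdn ?_
    (usc ν u) (usc_small ν u) 8 (by norm_num) (by norm_num) ?_ ?_
  · intro H F
    refine (tsum_L ν u H (fun x => F x.1 x.2)).trans ?_
    refine tsum_congr fun π => tsum_congr fun γ => ?_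
    unfold wa wb
    by_cases h1 : IsUp u H π <;> by_cases h2 : IsDn u H γ <;> simp [h1, h2]
  · intro H
    exact sum_if_le_one ν fun l l' h h' hp => NB28.isUp_prefix h h' hp
  · intro H
    exact sum_if_le_one ν fun l l' h h' hp => NB28.isDn_prefix h h' hp
  · intro s H E μ M lam hμ hM hl0 hlt
    have h := E934.E2 (u := u) ν s H E (ext u μ) M lam (by rw [sum_ext]; exact hμ)
      (ext_le u μ M hM) hl0 hlt
    refine le_trans (tsum_ext_le u μ _ (fun x => ∑' π, ∑' γ, (if IsUp u H π ∧ endp 0 π ∈ E ∧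
      IsDn u H γ ∧ (∃ k, k ∈ Cm u x π γ) ∧
        (∀ k ∈ Cm u x π γ, s < k) then NB28.aw ν π * NB28.aw ν γ else 0)) _ (fun w => ?_)
        (fun x hx => ?_)) (h.trans ?_)
    · refine ENNReal.tsum_le_tsum fun π => ENNReal.tsum_le_tsum fun γ => ?_
      by_cases h1 : endp 0 π ∈ E ∧ (∃ k, k ∈ Cm u w.1 π γ) ∧
        (∀ k ∈ Cm u w.1 π γ, s < k ∧ k + s ≤ H)
      · by_cases h2 : IsUp u H π
        · by_cases h3 : IsDn u H γ
          · have h4 : IsUp u H π ∧ endp 0 π ∈ E ∧ IsDn u H γ ∧ (∃ k, k ∈ Cm u w.1 π γ) ∧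
              (∀ k ∈ Cm u w.1 π γ, s < k) := ⟨h2, h1.1, h3, h1.2.1, fun k hk => (h1.2.2 k hk).1⟩
            refine (le_of_eq (if_pos h1)).trans ((le_of_eq ?_).trans (le_of_eq (if_pos h4).symm))
            rw [wa, wb, if_pos h2, if_pos h3]
          · refine (le_of_eq (if_pos h1)).trans ?_
            rw [wb, if_neg h3, mul_zero]; exact zero_le
        · refine (le_of_eq (if_pos h1)).trans ?_
          rw [wa, if_neg h2, zero_mul]; exact zero_le
      · refine (le_of_eq (if_neg h1)).trans zero_le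
    · refine le_trans ?_ (le_of_eq (if_pos hx).symm)
      refine mul_le_mul_right ?_ _
      refine ENNReal.tsum_le_tsum fun π => ENNReal.tsum_le_tsum fun γ => ?_
      split_ifs <;> first | exact le_rfl | contradiction
    · calc lam + M * (E.card * E934.us ν u s) / lam
          ≤ 8 * lam + 8 * (M * (E.card * usc ν u s) / lam) := by
            refine add_le_add ?_ ?_
            · calc lam = 1 * lam := (one_mul _).symm
                _ ≤ 8 * lam := mul_le_mul' (by norm_num) le_rfl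
            · calc M * (E.card * E934.us ν u s) / lam = 1 * (M * (E.card * E934.us ν u s) / lam) :=
                    (one_mul _).symm
                _ ≤ _ := mul_le_mul' (by norm_num) (ENNReal.div_le_div_right
                    (mul_le_mul' le_rfl (mul_le_mul' le_rfl le_self_add)) _)
        _ = _ := by rw [← mul_assoc M, mul_add]
  · intro s H E μ M lam hμ hM hl0 hlt
    have h := E934.E3 (u := u) ν s H E (ext u μ) M lam (by rw [sum_ext]; exact hμ)
      (ext_le u μ M hM) hl0 hlt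
    refine le_trans (tsum_ext_le u μ _ (fun x => ∑' π, ∑' γ, (if IsUp u H π ∧ endp 0 γ ∈ E ∧
      IsDn u H γ ∧ (∃ k, k ∈ Cm u x π γ) ∧
        (∀ k ∈ Cm u x π γ, k + s ≤ H) then NB28.aw ν π * NB28.aw ν γ else 0)) _ (fun w => ?_)
        (fun x hx => ?_)) (h.trans ?_)
    · refine ENNReal.tsum_le_tsum fun π => ENNReal.tsum_le_tsum fun γ => ?_
      by_cases h1 : endp 0 γ ∈ E ∧ (∃ k, k ∈ Cm u w.1 π γ) ∧
        (∀ k ∈ Cm u w.1 π γ, s < k ∧ k + s ≤ H)
      · by_cases h2 : IsUp u H π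
        · by_cases h3 : IsDn u H γ
          · have h4 : IsUp u H π ∧ endp 0 γ ∈ E ∧ IsDn u H γ ∧ (∃ k, k ∈ Cm u w.1 π γ) ∧
              (∀ k ∈ Cm u w.1 π γ, k + s ≤ H) := ⟨h2, h1.1, h3, h1.2.1, fun k hk => (h1.2.2 k hk).2⟩
            refine (le_of_eq (if_pos h1)).trans ((le_of_eq ?_).trans (le_of_eq (if_pos h4).symm))
            rw [wa, wb, if_pos h2, if_pos h3]
          · refine (le_of_eq (if_pos h1)).trans ?_
            rw [wb, if_neg h3, mul_zero]; exact zero_le
        · refine (le_of_eq (if_pos h1)).trans ?_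
          rw [wa, if_neg h2, zero_mul]; exact zero_le
      · refine (le_of_eq (if_neg h1)).trans zero_le
    · refine le_trans ?_ (le_of_eq (if_pos hx).symm)
      refine mul_le_mul_right ?_ _
      refine ENNReal.tsum_le_tsum fun π => ENNReal.tsum_le_tsum fun γ => ?_
      split_ifs <;> first | exact le_rfl | contradiction
    · calc 8 * lam + 2 * (M * (E.card * E934.us ν (opp u) s) / lam)
          ≤ 8 * lam + 8 * (M * (E.card * usc ν u s) / lam) := by
            refine add_le_add le_rfl (mul_le_mul' (by norm_num) (ENNReal.div_le_div_right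
                    (mul_le_mul' le_rfl (mul_le_mul' le_rfl le_add_self)) _))
        _ = _ := by rw [← mul_assoc M, mul_add]

theorem kappaAll0 : KappaAll := by
  refine KB818.kappaAll_of fun d hd ν _ hν u hA hB => ?_
  obtain ⟨c, hc, -, h1, h2⟩ := WM286.mass_pos ν hν u hA hB
  have hU : ∀ n, c * c ≤ U (Lam ν u) (ht u) n := fun n => by
    rw [U_eq28]; exact mul_le_mul' (h1 n) (h2 n)
  have hU1 : ∀ n, U (Lam ν u) (ht u) n ≤ 1 := fun n => by
    rw [U_eq28]
    exact mul_le_one' (sum_if_le_one ν fun l l' h h' hp => NB28.isUp_prefix h h' hp)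
      (sum_if_le_one ν fun l l' h h' hp => NB28.isDn_prefix h h' hp)
  have hΛ : ∑' b, Lam ν u b = 1 :=
    le_antisymm (mass_le_one (Lam ν u) (ht u) one_le_hb hU1)
      (mass_ge_one (Lam ν u) (ht u) (c * c) (mul_ne_zero hc hc) 0 (fun n _ => hU n))
  have hc1 : c * c * 2⁻¹ ≠ 0 := mul_ne_zero (mul_ne_zero hc hc) (by simp)
  exact HWinAd363.hWin_of_hW (Lam ν u) (ht u) (dl u) (cd u) one_le_hb hΛ hU1 (c * c)
    (mul_ne_zero hc hc) hU (hinj u) (c * c * 2⁻¹) hc1
    (fun v η hv hv1 hη => by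
      obtain ⟨s, hs⟩ := hW ν hν u c hc h1 h2 v η hv hv1 hη
      exact ⟨s, 0, fun H _ => hs H⟩)

theorem kappaAll : KappaAll' := fun d hd ν _ hν u hA hB => (kappaAll0 d hd ν hν u hA hB).weak

end Crest.Agent.R154.KA311
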