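import Crest.Agent.R154.KapComp_803
import Crest.Agent.R154.KB_818
import Crest.Agent.R154.E23_272

/-! Row 154, ROAD 801, frame B: the last joint (helper314): 803's `hWin_of` at 657's instance,
window lemmas = 272's `e23`. -/

set_option autoImplicit false

namespace Crest.Agent.R154.KA314

open MeasureTheory ProbabilityTheory Filter Crest.ProbabilityR.RandomEnvironment
  Crest.Agent.R154
open Crest.Agent.R154.B5A Crest.Agent.R154.B5W
open Crest.Agent.R154.Flux566 (endp sitesL endp_append endp_eq_add)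
open Crest.Agent.R154.NB28 (IsUp IsDn Cm KappaAll)
open scoped ENNReal Topology

variable {d : ℕ}

open Classical in
lemma push1 (P : List (Step d) → Prop) (w : List (Step d) → ℝ≥0∞) (e : List (Step d) → Site d)
    (f : Site d → ℝ≥0∞) :
    ∑' x, (∑' π, if P π ∧ e π = x then w π else 0) * f x
      = ∑' π, if P π then w π * f (e π) else 0 := by
  calc ∑' x, (∑' π, if P π ∧ e π = x then w π else 0) * f x
      = ∑' x, ∑' π, (if P π ∧ e π = x then w π * f x else 0) := by
        refine tsum_congr fun x => ?_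
        rw [← ENNReal.tsum_mul_right]
        refine tsum_congr fun π => ?_
        split_ifs <;> simp
    _ = ∑' π, ∑' x, (if P π ∧ e π = x then w π * f x else 0) := ENNReal.tsum_comm
    _ = _ := by
        refine tsum_congr fun π => ?_
        by_cases h : P π
        · rw [tsum_eq_single (e π)]
          · simp [h]
          · intro x hx; rw [if_neg]; rintro ⟨_, h'⟩; exact hx h'.symm
        · simp [h]

lemma act_cat (u : Step d) (L : List (PB u)) (w : Lat u) :
    (act (dl u) L w).1 = w.1 + endp 0 (cat L).1 + endp 0 (cat L).2 := by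
  induction L generalizing w with
  | nil => simp [act, cat, endp]
  | cons b L ih =>
    rw [act, ih, cat]
    simp only [dl, dlp, pm, endp_append]
    rw [endp_eq_add _ (endp 0 (cat L).1), endp_eq_add _ (endp 0 b.1.2)]
    abel

open Classical in
lemma WP_eq (ν : Measure (Row d)) [IsProbabilityMeasure ν] (u : Step d) (H s : ℕ)
    (A : List (Step d) → List (Step d) → Prop) (x : Lat u) :
    KapComp803.WP (Lam ν u) (ht u) (dl u) (cd u) H s (fun L => A (cat L).1 (cat L).2) x
      = ∑' π : List (Step d), ∑' γ : List (Step d), (if IsUp u H π ∧ IsDn u H γ ∧ A π γ ∧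
          Cm u x.1 π γ ≠ ∅ ∧ (∀ k ∈ Cm u x.1 π γ, s < k ∧ k + s ≤ H)
          then NB28.aw ν π * NB28.aw ν γ else 0) := by
  have h := tsum_L ν u H (fun p => if A p.1 p.2 ∧ cds u p x.1 ≠ ∅ ∧
    (∀ k ∈ cds u p x.1, s < k ∧ k + s ≤ H) then 1 else 0)
  unfold KapComp803.WP
  refine Eq.trans ?_ (h.trans ?_)
  · refine tsum_congr fun L => ?_
    rw [CD_cat]
    by_cases h1 : HT (ht u) L = H
    · by_cases h2 : A (cat L).1 (cat L).2 ∧ cds u (cat L) x.1 ≠ ∅ ∧
        (∀ k ∈ cds u (cat L) x.1, s < k ∧ k + s ≤ H)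
      · rw [if_pos ⟨h1, h2⟩, if_pos h1, if_pos h2, mul_one]
      · rw [if_neg (fun h' => h2 h'.2), if_pos h1, if_neg h2, mul_zero]
    · rw [if_neg (fun h' => h1 h'.1), if_neg h1]
  · refine tsum_congr fun π => tsum_congr fun γ => ?_
    rw [cds_eq]
    by_cases h1 : IsUp u H π ∧ IsDn u H γ
    · by_cases h2 : A π γ ∧ Cm u x.1 π γ ≠ ∅ ∧ (∀ k ∈ Cm u x.1 π γ, s < k ∧ k + s ≤ H)
      · rw [if_pos h1, if_pos h2, if_pos ⟨h1.1, h1.2, h2⟩, mul_one]
      · rw [if_pos h1, if_neg h2, if_neg (fun h' => h2 h'.2.2), mul_zero]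
    · rw [if_neg h1, if_neg (fun h' => h1 ⟨h'.1, h'.2.1⟩)]

open Classical in
lemma tsum_Lat (u : Step d) (f : Site d → ℝ≥0∞) :
    ∑' x : Lat u, f x.1 = ∑' y : Site d, (if Flux132.lev u y = 0 then f y else 0) := by
  have := tsum_subtype {w : Site d | Flux566.lev u w = 0} f
  refine Eq.trans this (tsum_congr fun y => ?_)
  rw [Set.indicator_apply]
  rfl

lemma const_small (us : ℕ → ℝ≥0∞) (hus : Tendsto us atTop (𝓝 0)) (Cst η : ℝ≥0∞) (hC : Cst ≠ ⊤)
    (hη : η ≠ 0) : ∃ lam : ℝ≥0∞, lam ≠ 0 ∧ lam ≠ ⊤ ∧ ∃ s0 : ℕ, ∀ s, s0 ≤ s → ∀ M N : ℝ≥0∞,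
      M * N ≤ Cst → 8 * (lam + M * N * us s / lam + us s) ≤ η := by
  set η' := min η 1 with hη'
  have h0 : η' ≠ 0 := (lt_min (pos_iff_ne_zero.2 hη) one_pos).ne'
  have ht : η' ≠ ⊤ := ne_top_of_le_ne_top ENNReal.one_ne_top (min_le_right _ _)
  set lam := η' / 24 with hlam
  have hl0 : lam ≠ 0 := (ENNReal.div_pos h0 (by norm_num)).ne'
  have hlt : lam ≠ ⊤ := (ENNReal.div_lt_top ht (by norm_num)).ne
  set δ := min lam (lam * lam / (Cst + 1)) with hδ
  have hC1 : Cst + 1 ≠ ⊤ := ENNReal.add_ne_top.2 ⟨hC, ENNReal.one_ne_top⟩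
  have hδ0 : δ ≠ 0 := (lt_min (pos_iff_ne_zero.2 hl0)
    (ENNReal.div_pos (mul_ne_zero hl0 hl0) hC1)).ne'
  obtain ⟨s0, hs0⟩ := eventually_atTop.1 (ENNReal.tendsto_nhds_zero.1 hus δ (pos_iff_ne_zero.2 hδ0))
  refine ⟨lam, hl0, hlt, s0, fun s hs M N hMN => ?_⟩
  have hs1 := hs0 s hs
  have h1 : us s ≤ lam := hs1.trans (min_le_left _ _)
  have h2 : M * N * us s / lam ≤ lam := by
    refine ENNReal.div_le_of_le_mul ?_
    calc M * N * us s ≤ (Cst + 1) * (lam * lam / (Cst + 1)) :=
          mul_le_mul' (hMN.trans le_self_add) (hs1.trans (min_le_right _ _))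
      _ ≤ lam * lam := ENNReal.mul_div_le
  calc 8 * (lam + M * N * us s / lam + us s) ≤ 8 * (lam + lam + lam) := by gcongr
    _ = 24 * lam := by ring
    _ = η' := by rw [hlam]; exact ENNReal.mul_div_cancel (by norm_num) (by norm_num)
    _ ≤ η := min_le_left _ _

open Classical in
theorem hWin (ν : Measure (Row d)) [IsProbabilityMeasure ν]
    (hν : ∀ᵐ p ∂ν, ∀ e : Step d, 0 < p.1 e) (u : Step d)
    (hA : annealed (iidEnvironmentLaw ν) 0 (escapeEvent (B2d.dirVec u)) ≠ 0)
    (hB : annealed (iidEnvironmentLaw ν) 0 (escapeEvent (-B2d.dirVec u)) ≠ 0) :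
    KB818.HWin ν u := by
  obtain ⟨c, hc, -, hc1, hc2⟩ := WM286.mass_pos ν hν u hA hB
  have hU : ∀ n, c * c ≤ U (Lam ν u) (ht u) n := fun n => by
    rw [U_eq28]; exact mul_le_mul' (hc1 n) (hc2 n)
  have hU1 : ∀ n, U (Lam ν u) (ht u) n ≤ 1 := fun n => by
    rw [U_eq28]
    exact mul_le_one' (sum_if_le_one ν fun l l' h h' hp => NB28.isUp_prefix h h' hp)
      (sum_if_le_one ν fun l l' h h' hp => NB28.isDn_prefix h h' hp)
  have hcc : c * c ≠ 0 := mul_ne_zero hc hc
  have hcct : c * c ≠ ⊤ := ne_top_of_le_ne_top ENNReal.one_ne_top ((hU 0).trans (hU1 0))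
  have hΛ : ∑' b, Lam ν u b = 1 :=
    le_antisymm (mass_le_one (Lam ν u) (ht u) one_le_hb hU1)
      (mass_ge_one (Lam ν u) (ht u) (c * c) hcc 0 (fun n _ => hU n))
  have hmean : ∑' k, tail (Lam ν u) (ht u) k ≠ ⊤ := by
    rw [← sum_tail (Lam ν u) (ht u) hΛ]
    exact ne_top_of_le_ne_top (ENNReal.inv_ne_top.2 hcc)
      (mean_le (Lam ν u) (ht u) one_le_hb hΛ (c * c) hcc hcct 0 (fun n _ => hU n))
  obtain ⟨us, hus, E2, E3⟩ := E23s272.e23 ν hν u hA
  -- the common part of the two window inputs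
  have hwin : ∀ (A : List (Step d) → List (Step d) → Prop) (H s : ℕ) (μ : Lat u → ℝ≥0∞)
      (M : ℝ≥0∞), ∑' x, μ x ≤ 1 → (∀ x, μ x ≤ M) →
      ∃ μ' : Site d → ℝ≥0∞, ∑' x, μ' x ≤ 1 ∧ (∀ x, μ' x ≤ M) ∧
        ∑' x, μ x * KapComp803.WP (Lam ν u) (ht u) (dl u) (cd u) H s
          (fun L => A (cat L).1 (cat L).2) x
        = ∑' x : Site d, (if Flux132.lev u x = 0 then μ' x * ∑' π : List (Step d),
            ∑' γ : List (Step d), (if IsUp u H π ∧ IsDn u H γ ∧ A π γ ∧
            Cm u x π γ ≠ ∅ ∧ (∀ k ∈ Cm u x π γ, s < k ∧ k + s ≤ H)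
            then NB28.aw ν π * NB28.aw ν γ else 0) else 0) := by
    intro A H s μ M hμ hM
    refine ⟨fun y => if h : Flux566.lev u y = 0 then μ ⟨y, h⟩ else 0, ?_, ?_, ?_⟩
    · have h1 := tsum_Lat u (fun y => if h : Flux566.lev u y = 0 then μ ⟨y, h⟩ else 0)
      have h2 : ∑' x : Lat u, (fun y => if h : Flux566.lev u y = 0 then μ ⟨y, h⟩ else 0) x.1
          = ∑' x, μ x := by
        refine tsum_congr fun x => ?_
        exact dif_pos x.2
      rw [h2] at h1
      refine le_trans (le_of_eq ?_) hμ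
      rw [h1]
      refine tsum_congr fun y => ?_
      by_cases h : Flux566.lev u y = 0
      · rw [if_pos (show Flux132.lev u y = 0 from h)]
      · rw [dif_neg h, if_neg (show ¬ Flux132.lev u y = 0 from h)]
    · intro y
      dsimp only
      split_ifs with h
      · exact hM _
      · exact zero_le
    · rw [← tsum_Lat u (fun x => (if h : Flux566.lev u x = 0 then μ ⟨x, h⟩ else 0) *
          ∑' π : List (Step d), ∑' γ : List (Step d), (if IsUp u H π ∧ IsDn u H γ ∧ A π γ ∧
            Cm u x π γ ≠ ∅ ∧ (∀ k ∈ Cm u x π γ, s < k ∧ k + s ≤ H)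
            then NB28.aw ν π * NB28.aw ν γ else 0))]
      refine tsum_congr fun x => ?_
      rw [WP_eq]
      congr 1
      have hx2 : Flux566.lev u x.1 = 0 := x.2
      rw [dif_pos hx2]
      rfl
  refine KapComp803.hWin_of (Lam ν u) (ht u) (dl u) (G := Site d) (cd u) one_le_hb hΛ.le hmean
    (c * c) hcc hU hU1 (fun L => endp 0 (cat L).1) (fun L => - endp 0 (cat L).2) ?_ ?_ ?_ ?_
  · -- product law
    intro H
    refine ⟨fun x => ∑' π : List (Step d), (if IsUp u H π ∧ endp 0 π = x then NB28.aw ν π else 0),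
      fun y => ∑' γ : List (Step d), (if IsDn u H γ ∧ -endp 0 γ = y then NB28.aw ν γ else 0),
      ?_, ?_, fun F => ?_⟩
    · have h := push1 (fun π => IsUp u H π) (NB28.aw ν) (fun π => endp 0 π) (fun _ => 1)
      simp only [mul_one] at h
      rw [h]
      exact sum_if_le_one ν fun l l' h h' hp => NB28.isUp_prefix h h' hp
    · have h := push1 (fun π => IsDn u H π) (NB28.aw ν) (fun π => -endp 0 π) (fun _ => 1)
      simp only [mul_one] at h
      rw [h]
      exact sum_if_le_one ν fun l l' h h' hp => NB28.isDn_prefix h h' hp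
    · have h := tsum_L ν u H (fun p => F (endp 0 p.1) (-endp 0 p.2))
      refine h.trans ?_
      symm
      calc ∑' x, ∑' y, (∑' π : List (Step d), (if IsUp u H π ∧ endp 0 π = x
            then NB28.aw ν π else 0)) * (∑' γ : List (Step d), (if IsDn u H γ ∧ -endp 0 γ = y
            then NB28.aw ν γ else 0)) * F x y
          = ∑' x, (∑' π : List (Step d), (if IsUp u H π ∧ endp 0 π = x
            then NB28.aw ν π else 0)) * ∑' γ : List (Step d), (if IsDn u H γ then
              NB28.aw ν γ * F x (-endp 0 γ) else 0) := by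
            refine tsum_congr fun x => ?_
            rw [← push1 (fun γ => IsDn u H γ) (NB28.aw ν) (fun γ => -endp 0 γ) (fun y => F x y),
              ← ENNReal.tsum_mul_left]
            refine tsum_congr fun y => ?_
            rw [mul_assoc]
        _ = ∑' π : List (Step d), (if IsUp u H π then NB28.aw ν π *
              ∑' γ : List (Step d), (if IsDn u H γ then NB28.aw ν γ * F (endp 0 π) (-endp 0 γ)
                else 0) else 0) :=
            push1 (fun π => IsUp u H π) (NB28.aw ν) (fun π => endp 0 π) _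
        _ = _ := by
            refine tsum_congr fun π => ?_
            by_cases h1 : IsUp u H π
            · rw [if_pos h1, ← ENNReal.tsum_mul_left]
              refine tsum_congr fun γ => ?_
              by_cases h2 : IsDn u H γ
              · rw [if_pos h2, if_pos ⟨h1, h2⟩, mul_assoc]
              · rw [if_neg h2, if_neg (fun h' => h2 h'.2), mul_zero]
            · rw [if_neg h1]
              refine (ENNReal.tsum_eq_zero.2 fun γ => ?_).symm
              rw [if_neg (fun h' => h1 h'.1)]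
  · -- relation
    intro L' w x
    refine ⟨x.1 - w.1 - endp 0 (cat L').1 - endp 0 (cat L').2, fun A hAx => ?_⟩
    have h := congrArg Subtype.val hAx
    rw [act_append, act_cat, act_cat] at h
    rw [← h]
    abel
  · -- X local
    intro Cst η hC hη
    obtain ⟨lam, hl0, hlt, s0, hs0⟩ := const_small us hus Cst η hC hη
    refine ⟨s0, fun s hs H E μ M hμ hM hME => ?_⟩
    obtain ⟨μ', h1, h2, h3⟩ := hwin (fun π _ => endp 0 π ∈ E) H s μ M hμ hM
    rw [h3]
    refine le_trans ?_ (hs0 s hs M E.card hME)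
    refine le_trans ?_ (E2 s H E μ' M lam h1 h2 hl0 hlt)
    refine ENNReal.tsum_le_tsum fun x => ?_
    by_cases hx : Flux132.lev u x = 0
    · rw [if_pos hx, if_pos hx]
      refine mul_le_mul_right (ENNReal.tsum_le_tsum fun π => ENNReal.tsum_le_tsum fun γ => ?_) _
      by_cases h : IsUp u H π ∧ IsDn u H γ ∧ endp 0 π ∈ E ∧
            Cm u x π γ ≠ ∅ ∧ (∀ k ∈ Cm u x π γ, s < k ∧ k + s ≤ H)
      · rw [if_pos h, if_pos]
        exact ⟨h.1, h.2.2.1, h.2.1, Set.nonempty_iff_ne_empty.2 h.2.2.2.1,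
          fun k hk => (h.2.2.2.2 k hk).1⟩
      · rw [if_neg h]; exact zero_le
    · rw [if_neg hx, if_neg hx]
  · -- Y local
    intro Cst η hC hη
    obtain ⟨lam, hl0, hlt, s0, hs0⟩ := const_small us hus Cst η hC hη
    refine ⟨s0, fun s hs H E μ M hμ hM hME => ?_⟩
    obtain ⟨μ', h1, h2, h3⟩ := hwin (fun _ γ => -endp 0 γ ∈ E) H s μ M hμ hM
    rw [h3]
    have hcard : ((E.image (fun x => -x)).card : ℝ≥0∞) ≤ E.card := by
      exact_mod_cast Finset.card_image_le
    refine le_trans ?_ (hs0 s hs M (E.image (fun x => -x)).card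
      ((mul_le_mul_right hcard M).trans hME))
    refine le_trans ?_ (E3 s H (E.image (fun x => -x)) μ' M lam h1 h2 hl0 hlt)
    refine ENNReal.tsum_le_tsum fun x => ?_
    by_cases hx : Flux132.lev u x = 0
    · rw [if_pos hx, if_pos hx]
      refine mul_le_mul_right (ENNReal.tsum_le_tsum fun π => ENNReal.tsum_le_tsum fun γ => ?_) _
      by_cases h : IsUp u H π ∧ IsDn u H γ ∧ -endp 0 γ ∈ E ∧
            Cm u x π γ ≠ ∅ ∧ (∀ k ∈ Cm u x π γ, s < k ∧ k + s ≤ H)
      · rw [if_pos h, if_pos]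
        exact ⟨h.1, Finset.mem_image.2 ⟨-endp 0 γ, h.2.2.1, neg_neg _⟩, h.2.1,
          Set.nonempty_iff_ne_empty.2 h.2.2.2.1, fun k hk => (h.2.2.2.2 k hk).2⟩
      · rw [if_neg h]; exact zero_le
    · rw [if_neg hx, if_neg hx]

/-- **KAPPA' for every law** -/
theorem kappaAll : KappaAll :=
  KB818.kappaAll_of fun _ _ ν _ hν u hA hB => hWin ν hν u hA hB

theorem nbProp : Spine.NBProp := NB28.nb_of_kappaW kappaAll

end Crest.Agent.R154.KA314
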