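import Crest.Agent.R154.KB_818
import Crest.Agent.R154.HWinB_19
import Crest.Agent.R154.HW_334
import Crest.Agent.R154.E2_742
import Crest.Agent.R154.E3_934

/-! Row 154, ROAD 801, FRAME B (helper329): `hW` of helper139 at helper657's instance from 742's E2 and
934's E3 through 334's `hW_of`, 19's `hWin_of'` and 818's `kappaAll_of`: **`KappaAll`**. -/

set_option autoImplicit false

namespace Crest.Agent.R154.KA329

open MeasureTheory ProbabilityTheory Crest.ProbabilityR.RandomEnvironment Crest.Agent.R154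
open Crest.Agent.R154.B5A Crest.Agent.R154.B5W
open Crest.Agent.R154.Flux566 (lw endp sitesL lev)
open Crest.Agent.R154.NB28 (IsUp IsDn KappaW KappaAll KappaAll' Cm)
open scoped ENNReal Topology

variable {d : ℕ}

lemma act_cat (u : Step d) (L : List (PB u)) (w : Lat u) :
    (act (dl u) L w).1 = w.1 + endp 0 (cat L).1 + endp 0 (cat L).2 := by
  induction L generalizing w with
  | nil => simp [act, cat, endp]
  | cons b L ih =>
    rw [act, ih]
    simp only [dl, dlp, cat, pm]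
    rw [Flux566.endp_append, Flux566.endp_append, Flux566.endp_eq_add b.1.1 (endp 0 (cat L).1),
      Flux566.endp_eq_add (cat L).2 (endp 0 b.1.2)]
    abel

open Classical in
/-- a sum over the lateral sites is a sum over all the sites -/
lemma sum_lat (u : Step d) (μ : Lat u → ℝ≥0∞) (F : Site d → ℝ≥0∞) :
    ∑' w : Lat u, μ w * F w.1
      = ∑' x : Site d, (if lev u x = 0 then
          (if h : lev u x = 0 then μ ⟨x, h⟩ else 0) * F x else 0) := by
  have h1 := tsum_subtype {x : Site d | lev u x = 0}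
    (fun x => (if h : lev u x = 0 then μ ⟨x, h⟩ else 0) * F x)
  have h2 : ∑' w : Lat u, μ w * F w.1
      = ∑' x : {x : Site d | lev u x = 0},
        ((if h : lev u x.1 = 0 then μ ⟨x.1, h⟩ else 0) * F x.1) := by
    refine tsum_congr fun w => ?_
    rw [dif_pos w.2]
    rfl
  rw [h2, h1]
  refine tsum_congr fun x => ?_
  rw [Set.indicator_apply]
  rfl

open Classical in
lemma sum_lat1 (u : Step d) (μ : Lat u → ℝ≥0∞) :
    ∑' x : Site d, (if h : lev u x = 0 then μ ⟨x, h⟩ else 0) = ∑' w : Lat u, μ w := by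
  have := sum_lat u μ (fun _ => 1)
  simp only [mul_one] at this
  rw [this]
  refine tsum_congr fun x => ?_
  by_cases h : lev u x = 0
  · rw [dif_pos h, if_pos h]
  · rw [dif_neg h, if_neg h]


open Classical in
theorem hW (ν : Measure (Row d)) [IsProbabilityMeasure ν]
    (hν : ∀ᵐ p ∂ν, ∀ e : Step d, 0 < p.1 e) (u : Step d)
    (hA : annealed (iidEnvironmentLaw ν) 0 (escapeEvent (B2d.dirVec u)) ≠ 0)
    (hB : annealed (iidEnvironmentLaw ν) 0 (escapeEvent (-B2d.dirVec u)) ≠ 0) :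
    ∃ c1 : ℝ≥0∞, c1 ≠ 0 ∧ c1 ≤ 1 ∧ ∀ v η : ℝ≥0∞, v ≠ 0 → v ≤ 1 → η ≠ 0 → ∃ s : ℕ, ∀ H : ℕ,
      ∃ S1 S2 : Set (Lat u),
      JAsm139.Good (Lam ν u) (ht u) (dl u) (c1 * v) η H S1 ∧
      JAsm139.Good (Lam ν u) (ht u) (dl u) (c1 * v) η H S2 ∧
      ∀ w, w ∉ S1 → w ∉ S2 →
        (∑' L : List (PB u), (if HT (ht u) L = H ∧ CD (ht u) (dl u) (cd u) L w ≠ ∅ ∧
          (∀ k ∈ CD (ht u) (dl u) (cd u) L w, s < k ∧ k + s ≤ H) then LW (Lam ν u) L else 0))
          ≤ v * v + η := by
  obtain ⟨c, hc, hc1, h1, h2⟩ := WM286.mass_pos ν hν u hA hB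
  set us : ℕ → ℝ≥0∞ := fun s => annealedProb (iidEnvironmentLaw ν) 0 (Us778.Dip u s)
    + E934.us ν (Flux132.opp u) s with hus
  have hA' : annealedProb (iidEnvironmentLaw ν) 0 (escapeEvent (Flux566.dir u)) ≠ 0 := by
    have h := annealed_apply_prob (iidEnvironmentLaw ν) 0
      (B2d.measurableSet_escapeEvent (B2d.dirVec u))
    rw [h] at hA
    exact hA
  have husε : ∀ ε : ℝ≥0∞, ε ≠ 0 → ∃ s, us s ≤ ε := by
    intro ε hε
    have hε2 : ε / 2 ≠ 0 := (ENNReal.half_pos hε).ne'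
    obtain ⟨s1, hs1⟩ := Filter.eventually_atTop.1
      ((Us778.us_tendsto ν hν u hA').eventually (Iic_mem_nhds (pos_iff_ne_zero.2 hε2)))
    obtain ⟨s2, hs2⟩ := E934.us_small ν (Flux132.opp u) (ε / 2) hε2
    refine ⟨max s1 s2, ?_⟩
    calc us (max s1 s2) ≤ ε / 2 + ε / 2 :=
          add_le_add (hs1 _ (le_max_left _ _)) (hs2 _ (le_max_right _ _))
      _ = ε := ENNReal.add_halves ε
  refine ⟨c * c * 2⁻¹, mul_ne_zero (mul_ne_zero hc hc) (by simp), ?_, ?_⟩
  · calc c * c * 2⁻¹ ≤ 1 * 1 * 1 :=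
          mul_le_mul' (mul_le_mul' hc1 hc1) (ENNReal.inv_le_one.2 (by norm_num))
      _ = 1 := by simp
  refine HW334.hW_of (Lam ν u) (ht u) (dl u) (cd u) (cat (h := hu u) (h' := hdn u))
    (Subtype.val : Lat u → Site d) (fun π => endp 0 π) (fun γ => endp 0 γ)
    (fun H π => if IsUp u H π then NB28.aw ν π else 0)
    (fun H γ => if IsDn u H γ then NB28.aw ν γ else 0)
    (fun w π γ => Cm u w.1 π γ) ?_ (fun L w => act_cat u L w)
    (fun L w => (CD_cat u L w).trans (cds_eq u _ _ _)) c hc h1 ?_ h2 ?_ us husε 8 (by norm_num)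
    (by norm_num) ?_ ?_
  · intro H F
    have h := tsum_L ν u H (fun x => F x.1 x.2)
    rw [h]
    refine tsum_congr fun π => tsum_congr fun γ => ?_
    by_cases ha : IsUp u H π <;> by_cases hb : IsDn u H γ <;> simp [ha, hb]
  · intro H
    exact sum_if_le_one ν fun l l' h h' hp => NB28.isUp_prefix h h' hp
  · intro H
    exact sum_if_le_one ν fun l l' h h' hp => NB28.isDn_prefix h h' hp
  · intro s H E μ M lam hμ hM hl hl'
    have key := W2742.E2 ν u s H E (fun x => if h : lev u x = 0 then μ ⟨x, h⟩ else 0) M lam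
      (by rw [sum_lat1]; exact hμ)
      (fun x => by by_cases h : lev u x = 0
                   · simp only [dif_pos h]; exact hM _
                   · simp only [dif_neg h]; exact zero_le) hl hl'
    refine le_trans (le_trans (le_trans (ENNReal.tsum_le_tsum fun w => mul_le_mul_right
      (ENNReal.tsum_le_tsum fun π => ENNReal.tsum_le_tsum fun γ => ?_) _)
      (le_of_eq (sum_lat u μ (fun x => ∑' π, ∑' γ, (if IsUp u H π ∧ endp 0 π ∈ E ∧ IsDn u H γ ∧
        (∃ k, k ∈ Cm u x π γ) ∧ (∀ k ∈ Cm u x π γ, s < k) then NB28.aw ν π * NB28.aw ν γ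
        else 0))))) key) ?_
    · by_cases h3 : endp 0 π ∈ E ∧ (∃ k, k ∈ Cm u w.1 π γ) ∧
        (∀ k ∈ Cm u w.1 π γ, s < k ∧ k + s ≤ H)
      · rw [if_pos h3]
        by_cases ha : IsUp u H π
        · by_cases hb : IsDn u H γ
          · rw [if_pos ha, if_pos hb, if_pos ⟨ha, h3.1, hb, h3.2.1, fun k hk => (h3.2.2 k hk).1⟩]
          · rw [if_neg hb, mul_zero]; exact zero_le
        · rw [if_neg ha, zero_mul]; exact zero_le
      · rw [if_neg h3]; exact zero_le
    · calc lam + M * E.card * annealedProb (iidEnvironmentLaw ν) 0 (Us778.Dip u s) / lam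
          ≤ lam + M * E.card * us s / lam := by gcongr; exact le_self_add
        _ ≤ 8 * (lam + M * E.card * us s / lam) := le_mul_of_one_le_left' (by norm_num)
  · intro s H E μ M lam hμ hM hl hl'
    have key := E934.E3 (ν := ν) (u := u) s H E (fun x => if h : lev u x = 0 then μ ⟨x, h⟩ else 0) M lam
      (by rw [sum_lat1]; exact hμ)
      (fun x => by by_cases h : lev u x = 0
                   · simp only [dif_pos h]; exact hM _
                   · simp only [dif_neg h]; exact zero_le) hl hl'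
    refine le_trans (le_trans (le_trans (ENNReal.tsum_le_tsum fun w => mul_le_mul_right
      (ENNReal.tsum_le_tsum fun π => ENNReal.tsum_le_tsum fun γ => ?_) _)
      (le_of_eq (sum_lat u μ (fun x => ∑' π, ∑' γ, (if IsUp u H π ∧ endp 0 γ ∈ E ∧ IsDn u H γ ∧
        (∃ k, k ∈ Cm u x π γ) ∧ (∀ k ∈ Cm u x π γ, k + s ≤ H) then NB28.aw ν π * NB28.aw ν γ
        else 0))))) key) ?_
    · by_cases h3 : endp 0 γ ∈ E ∧ (∃ k, k ∈ Cm u w.1 π γ) ∧
        (∀ k ∈ Cm u w.1 π γ, s < k ∧ k + s ≤ H)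
      · rw [if_pos h3]
        by_cases ha : IsUp u H π
        · by_cases hb : IsDn u H γ
          · rw [if_pos ha, if_pos hb, if_pos ⟨ha, h3.1, hb, h3.2.1, fun k hk => (h3.2.2 k hk).2⟩]
          · rw [if_neg hb, mul_zero]; exact zero_le
        · rw [if_neg ha, zero_mul]; exact zero_le
      · rw [if_neg h3]; exact zero_le
    · calc 8 * lam + 2 * (M * (E.card * E934.us ν (Flux132.opp u) s) / lam)
          ≤ 8 * lam + 8 * (M * (E.card * us s) / lam) := by
            gcongr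
            · norm_num
            · exact le_add_self
        _ = 8 * (lam + M * E.card * us s / lam) := by
            rw [mul_add (8 : ℝ≥0∞) lam _, mul_assoc M _ _]

theorem hWin (ν : Measure (Row d)) [IsProbabilityMeasure ν]
    (hν : ∀ᵐ p ∂ν, ∀ e : Step d, 0 < p.1 e) (u : Step d)
    (hA : annealed (iidEnvironmentLaw ν) 0 (escapeEvent (B2d.dirVec u)) ≠ 0)
    (hB : annealed (iidEnvironmentLaw ν) 0 (escapeEvent (-B2d.dirVec u)) ≠ 0) :
    KB818.HWin ν u := by
  obtain ⟨c, hc, hc1, h1, h2⟩ := WM286.mass_pos ν hν u hA hB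
  have hU : ∀ n, c * c ≤ U (Lam ν u) (ht u) n := fun n => by
    rw [U_eq28]; exact mul_le_mul' (h1 n) (h2 n)
  have hU1 : ∀ n, U (Lam ν u) (ht u) n ≤ 1 := fun n => by
    rw [U_eq28]
    exact mul_le_one' (sum_if_le_one ν fun l l' h h' hp => NB28.isUp_prefix h h' hp)
      (sum_if_le_one ν fun l l' h h' hp => NB28.isDn_prefix h h' hp)
  obtain ⟨c1, hc10, hc11, hw⟩ := hW ν hν u hA hB
  exact HWinB19.hWin_of' (Lam ν u) (ht u) (dl u) (cd u) one_le_hb (c * c) (mul_ne_zero hc hc) hU hU1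
    (hinj u) c1 hc10 hc11 (fun v η hv hv1 hη => by
      obtain ⟨s, hs⟩ := hw v η hv hv1 hη
      exact ⟨s, 0, fun H _ => hs H⟩)

/-- **`KappaAll`** -/
theorem kappaAll_strong : KappaAll :=
  KB818.kappaAll_of fun _ _ ν _ hν u hA hB => hWin ν hν u hA hB

/-- the weak form -/
theorem kappaAll : KappaAll' :=
  fun d hd ν _ hν u hA hB => (kappaAll_strong d hd ν hν u hA hB).weak

end Crest.Agent.R154.KA329
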