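import Crest.Agent.R154.JAsm_26
import Crest.Agent.R154.HW_178
import Crest.Agent.R154.HSl_689
import Crest.Agent.R154.E23_327
import Crest.Agent.R154.NBTop_28

/-! Row 154, ROAD 801, FRAME B: the last joint (helper362).  `NB28.KappaAll'` from 26's `kap1_of`, 178's
`hW`, 689's `hSl`, 327's `e23`. -/

set_option autoImplicit false

namespace Crest.Agent.R154.KA362

open MeasureTheory ProbabilityTheory Crest.ProbabilityR.RandomEnvironment Crest.Agent.R154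
open Crest.Agent.R154.B5A Crest.Agent.R154.B5W
open Crest.Agent.R154.NB28 (IsUp IsDn Cm KW KappaW KappaAll')
open scoped ENNReal Topology

variable {d : ℕ}

lemma E2_conv (ν : Measure (Row d)) [IsProbabilityMeasure ν] (u : Step d) (C : ℝ≥0∞)
    (us : ℕ → ℝ≥0∞) (h : EAd327.E2 ν u C us) : HW178.E2 ν u C us := by
  intro s H E μ M lam h1 h2 h3 h4
  refine le_trans (ENNReal.tsum_le_tsum fun x => ?_) (h s H E μ M lam h1 h2 h3 h4)
  by_cases hx : Flux132.lev u x = 0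
  · rw [if_pos hx, if_pos hx]
    refine mul_le_mul_right (ENNReal.tsum_le_tsum fun π => ENNReal.tsum_le_tsum fun γ => ?_) _
    by_cases hc : IsUp u H π ∧ Flux566.endp 0 π ∈ E ∧ IsDn u H γ ∧ (∃ k, k ∈ Cm u x π γ) ∧
        (∀ k ∈ Cm u x π γ, s < k ∧ k + s ≤ H)
    · rw [if_pos hc, if_pos ⟨hc.1, hc.2.1, hc.2.2.1, hc.2.2.2.1, fun k hk => (hc.2.2.2.2 k hk).1⟩]
    · rw [if_neg hc]; exact zero_le
  · rw [if_neg hx]; exact zero_le

lemma E3_conv (ν : Measure (Row d)) [IsProbabilityMeasure ν] (u : Step d) (C : ℝ≥0∞)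
    (us : ℕ → ℝ≥0∞) (h : EAd327.E3 ν u C us) : HW178.E3 ν u C us := by
  intro s H E μ M lam h1 h2 h3 h4
  refine le_trans (ENNReal.tsum_le_tsum fun x => ?_) (h s H E μ M lam h1 h2 h3 h4)
  by_cases hx : Flux132.lev u x = 0
  · rw [if_pos hx, if_pos hx]
    refine mul_le_mul_right (ENNReal.tsum_le_tsum fun π => ENNReal.tsum_le_tsum fun γ => ?_) _
    by_cases hc : IsUp u H π ∧ Flux566.endp 0 γ ∈ E ∧ IsDn u H γ ∧ (∃ k, k ∈ Cm u x π γ) ∧
        (∀ k ∈ Cm u x π γ, s < k ∧ k + s ≤ H)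
    · rw [if_pos hc, if_pos ⟨hc.1, hc.2.1, hc.2.2.1, hc.2.2.2.1, fun k hk => (hc.2.2.2.2 k hk).2⟩]
    · rw [if_neg hc]; exact zero_le
  · rw [if_neg hx]; exact zero_le

/-- **`KAPPA'` for every elliptic iid law both of whose opposite escape events are charged.** -/
theorem kappaAll : NB28.KappaAll' := by
  intro d hd ν _ hν u hA hB
  obtain ⟨c, hc, hc1, h1, h2⟩ := WM286.mass_pos ν hν u hA hB
  obtain ⟨C, hC, us, hus, e2, e3⟩ := EAd327.e23 ν u
  have hcc : c * c ≠ 0 := mul_ne_zero hc hc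
  have hcc1 : c * c ≤ 1 := mul_le_one' hc1 hc1
  have hcct : c * c ≠ ⊤ := ne_top_of_le_ne_top ENNReal.one_ne_top hcc1
  have hU : ∀ n, c * c ≤ U (Lam ν u) (ht u) n := HSl689.U_ge ν u c h1 h2
  have hU1 : ∀ n, U (Lam ν u) (ht u) n ≤ 1 := HSl689.U_le ν u
  have hΛ : ∑' b, Lam ν u b = 1 := HSl689.mass_one ν u (c * c) hcc hU hU1
  have hE : ∑' b, Lam ν u b * (ht u b : ℝ≥0∞) ≠ ⊤ :=
    ne_top_of_le_ne_top (ENNReal.inv_ne_top.2 hcc)
      (mean_le (Lam ν u) (ht u) one_le_hb hΛ (c * c) hcc hcct 0 fun n _ => hU n)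
  have key := JAsm26.kap1_of (Lam ν u) (ht u) (dl u) (cd u) one_le_hb
    (fun w b k hk => hcd u w b k hk) (hinj u) hΛ hE hU1 (c * c) hcc hU (c * c) hcc hcc1
    (HW178.hW ν u hc hc1 h1 h2 hC hus (E2_conv ν u C us e2) (E3_conv ν u C us e3))
    (HSl689.hSl (by omega) ν hν u hΛ)
  intro ε hε
  obtain ⟨M, hM⟩ := key ε hε
  refine ⟨M, fun m hm => ?_⟩
  obtain ⟨n0, hn0⟩ := hM m hm
  refine ⟨n0, fun n hn w hw => ?_⟩
  have h := hn0 n hn (⟨w, hw⟩ : Lat u)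
  exact (le_of_eq (Kap1_eq ν u n m (⟨w, hw⟩ : Lat u)).symm).trans h

/-- **`T0219`** -/
theorem nb : Spine.NBProp := NB28.nb_of_kappaW' kappaAll

end Crest.Agent.R154.KA362
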