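import Crest.Agent.R154.KB_818
import Crest.Agent.R154.HWinB_19
import Crest.Agent.R154.NBTop_28

/-! Row 154 (S0219), helper391 (captain): frame B closed up to 139's `hW` at 657's instance. -/

set_option autoImplicit false

namespace Crest.Agent.R154.KA391

open MeasureTheory ProbabilityTheory Crest.ProbabilityR.RandomEnvironment Crest.Agent.R154
open Crest.Agent.R154.B5A Crest.Agent.R154.B5W Crest.Agent.R154.JAsm139
open Crest.Agent.R154.NB28 (KW KappaW KappaW' IsUp IsDn)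
open scoped ENNReal

variable {d : ℕ}

open Classical in
/-- 139's `hW` (literal #40703) at 657's instance -/
def HW (ν : Measure (Row d)) [IsProbabilityMeasure ν] (u : Step d) (c1 : ℝ≥0∞) : Prop :=
  ∀ v η : ℝ≥0∞, v ≠ 0 → v ≤ 1 → η ≠ 0 → ∃ s H0 : ℕ, ∀ H, H0 ≤ H → ∃ S1 S2 : Set (Lat u),
    Good (Lam ν u) (B5W.ht u) (B5W.dl u) (c1 * v) η H S1 ∧
    Good (Lam ν u) (B5W.ht u) (B5W.dl u) (c1 * v) η H S2 ∧
    ∀ w, w ∉ S1 → w ∉ S2 →
      (∑' L : List (PB u), if HT (B5W.ht u) L = H ∧ CD (B5W.ht u) (B5W.dl u) (B5W.cd u) L w ≠ ∅ ∧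
        (∀ k ∈ CD (B5W.ht u) (B5W.dl u) (B5W.cd u) L w, s < k ∧ k + s ≤ H)
        then LW (Lam ν u) L else 0) ≤ v * v + η

/-- masses of the joint instance -/
theorem masses (ν : Measure (Row d)) [IsProbabilityMeasure ν]
    (hν : ∀ᵐ p ∂ν, ∀ e : Step d, 0 < p.1 e) (u : Step d)
    (hA : annealed (iidEnvironmentLaw ν) 0 (escapeEvent (B2d.dirVec u)) ≠ 0)
    (hB : annealed (iidEnvironmentLaw ν) 0 (escapeEvent (-B2d.dirVec u)) ≠ 0) :
    ∃ c : ℝ≥0∞, c ≠ 0 ∧ (∀ n, c ≤ U (Lam ν u) (B5W.ht u) n) ∧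
      (∀ n, U (Lam ν u) (B5W.ht u) n ≤ 1) := by
  obtain ⟨c, hc, -, hup, hdn⟩ := WM286.mass_pos ν hν u hA hB
  refine ⟨c * c, mul_ne_zero hc hc, fun n => ?_, fun n => ?_⟩
  · rw [U_eq28]; exact mul_le_mul' (hup n) (hdn n)
  · rw [U_eq28]
    exact mul_le_one' (sum_if_le_one ν fun l l' h h' hp => NB28.isUp_prefix h h' hp)
      (sum_if_le_one ν fun l l' h h' hp => NB28.isDn_prefix h h' hp)

theorem hWin_inst (ν : Measure (Row d)) [IsProbabilityMeasure ν]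
    (hν : ∀ᵐ p ∂ν, ∀ e : Step d, 0 < p.1 e) (u : Step d)
    (hA : annealed (iidEnvironmentLaw ν) 0 (escapeEvent (B2d.dirVec u)) ≠ 0)
    (hB : annealed (iidEnvironmentLaw ν) 0 (escapeEvent (-B2d.dirVec u)) ≠ 0)
    (c1 : ℝ≥0∞) (h1 : c1 ≠ 0) (h1' : c1 ≤ 1) (hW : HW ν u c1) : KB818.HWin ν u := by
  obtain ⟨c, hc, hU, hU1⟩ := masses ν hν u hA hB
  exact HWinB19.hWin_of' (Lam ν u) (B5W.ht u) (B5W.dl u) (B5W.cd u) one_le_hb c hc hU hU1
    (B5W.hinj u) c1 h1 h1' hW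

/-- the hypothesis left: 139's `hW` for all elliptic laws with both escapes -/
def HWAll : Prop :=
  ∀ (d : ℕ) (_ : 3 ≤ d) (ν : Measure (Row d)) [IsProbabilityMeasure ν],
    (∀ᵐ p ∂ν, ∀ e : Step d, 0 < p.1 e) → ∀ u : Step d,
    annealed (iidEnvironmentLaw ν) 0 (escapeEvent (B2d.dirVec u)) ≠ 0 →
    annealed (iidEnvironmentLaw ν) 0 (escapeEvent (-B2d.dirVec u)) ≠ 0 →
    ∃ c1 : ℝ≥0∞, c1 ≠ 0 ∧ c1 ≤ 1 ∧ HW ν u c1

theorem kappaAll_of (h : HWAll) : NB28.KappaAll :=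
  KB818.kappaAll_of fun d hd ν _ hν u hA hB => by
    obtain ⟨c1, h1, h2, h3⟩ := h d hd ν hν u hA hB
    exact hWin_inst ν hν u hA hB c1 h1 h2 h3

theorem nb_of (h : HWAll) : Spine.NBProp := NB28.nb_of_kappaW (kappaAll_of h)

end Crest.Agent.R154.KA391
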