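import Crest.Agent.R154.PointX_926
import Crest.Agent.R154.KB_391

/-! Row 154 (helper926): `KB391.HSlb` and 818's `hSlab` at 657's instance. -/

set_option autoImplicit false

namespace Crest.Agent.R154.SlbX926

open MeasureTheory ProbabilityTheory Crest.ProbabilityR.RandomEnvironment
open Crest.Agent.R154.Flux132 (lev opp)
open Crest.Agent.R154.NB28 (IsUp IsDn aw Cm)
open scoped ENNReal

variable {d : ℕ} (u : Step d) (ν : Measure (Row d)) [IsProbabilityMeasure ν]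

open Classical in
theorem hSlb (hd : 2 ≤ d) (hν : ∀ᵐ p ∂ν, ∀ e : Step d, 0 < p.1 e)
    (hA : annealed (iidEnvironmentLaw ν) 0 (escapeEvent (B2d.dirVec u)) ≠ 0)
    (hB : annealed (iidEnvironmentLaw ν) 0 (escapeEvent (-B2d.dirVec u)) ≠ 0) :
    KB391.HSlb ν u := by
  intro s ε hε
  obtain ⟨D0, hD0⟩ := PointX926.slab_word u ν hd hν hA hB s ε hε
  refine ⟨D0 + s, fun δ hδ w => ?_⟩
  refine le_trans ?_ (hD0 (δ - s) (by omega) δ w.1 w.2)
  rw [Comp818.Slb]
  have h := B5W.tsum_L ν u δ (fun x => if (∃ k ∈ B5W.cds u x w.1, δ < k + s) then 1 else 0)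
  refine le_trans (le_of_eq (Eq.trans ?_ h)) ?_
  · refine tsum_congr fun L => ?_
    rw [B5W.CD_cat]
    by_cases h1 : B5A.HT (B5W.ht u) L = δ
    · by_cases h2 : ∃ k ∈ B5W.cds u (B5W.cat L) w.1, δ < k + s
      · rw [if_pos ⟨h1, h2⟩, if_pos h1, if_pos h2, mul_one]
      · rw [if_neg (fun h' => h2 h'.2), if_pos h1, if_neg h2, mul_zero]
    · rw [if_neg (fun h' => h1 h'.1), if_neg h1]
  · refine ENNReal.tsum_le_tsum fun π => ENNReal.tsum_le_tsum fun γ => ?_
    rw [B5W.cds_eq]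
    by_cases h1 : IsUp u δ π ∧ IsDn u δ γ
    · rw [if_pos h1]
      by_cases h2 : ∃ k ∈ Cm u w.1 π γ, δ < k + s
      · rw [if_pos h2, mul_one]
        obtain ⟨k, hk, hk2⟩ := h2
        have hkle : k ≤ δ := (NB28.cm_pos h1.1 hk).2
        rw [if_pos ⟨h1.1, h1.2, k, hk, by omega, by omega⟩]
      · rw [if_neg h2, mul_zero]; exact zero_le
    · rw [if_neg h1]; exact zero_le

end Crest.Agent.R154.SlbX926
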