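import Crest.Agent.R154.HW_334
import Crest.Agent.R154.HWinB_19
import Crest.Agent.R154.KB_391
import Crest.Agent.R154.SlbX_926
import Crest.Agent.R154.E2_934
import Crest.Agent.R154.E3_934

/-! Row 154 (S0219), helper409: last binding of frame B: 139's `hW` (by 334) at 657's instance from
the window lemmas of helper934, `hWin` by helper19, top by 391 / 28, slab by 926. -/

set_option autoImplicit false

namespace Crest.Agent.R154.KA409

open MeasureTheory ProbabilityTheory Crest.ProbabilityR.RandomEnvironment Crest.Agent.R154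
open Crest.Agent.R154.B5A Crest.Agent.R154.B5W
open Crest.Agent.R154.Flux566 (endp endp_append endp_eq_add)
open Crest.Agent.R154.NB28 (IsUp IsDn Cm)
open scoped ENNReal

variable {d : ℕ} (ν : Measure (Row d)) [IsProbabilityMeasure ν] (u : Step d)

open Classical in
/-- extension by zero of a weight on the lateral sites -/
noncomputable def ext (μ : Lat u → ℝ≥0∞) (x : Site d) : ℝ≥0∞ :=
  if h : Flux566.lev u x = 0 then μ ⟨x, h⟩ else 0

open Classical in
lemma sum_lat (μ : Lat u → ℝ≥0∞) (F : Site d → ℝ≥0∞) :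
    ∑' w : Lat u, μ w * F w.1
      = ∑' x : Site d, (if Flux132.lev u x = 0 then ext u μ x * F x else 0) := by
  have h := tsum_subtype {x : Site d | Flux132.lev u x = 0} (fun x => ext u μ x * F x)
  have h1 : ∑' w : Lat u, μ w * F w.1
      = ∑' x : {x : Site d | Flux132.lev u x = 0}, ext u μ x * F x := by
    refine tsum_congr fun w => ?_
    have : ext u μ w.1 = μ w := dif_pos w.2
    rw [this]
  rw [h1, h]
  refine tsum_congr fun x => ?_
  rw [Set.indicator_apply]
  rfl

lemma ext_sum (μ : Lat u → ℝ≥0∞) (h : ∑' w, μ w ≤ 1) : ∑' x, ext u μ x ≤ 1 := by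
  classical
  have h1 := sum_lat u μ (fun _ => 1)
  simp only [mul_one] at h1
  rw [h1] at h
  refine le_trans (ENNReal.tsum_le_tsum fun x => ?_) h
  by_cases hx : Flux132.lev u x = 0
  · rw [if_pos hx]
  · rw [if_neg hx]
    have hx' : ¬ Flux566.lev u x = 0 := hx
    have : ext u μ x = 0 := dif_neg hx'
    rw [this]

lemma ext_le (μ : Lat u → ℝ≥0∞) (M : ℝ≥0∞) (h : ∀ w, μ w ≤ M) (x : Site d) : ext u μ x ≤ M := by
  unfold ext
  split_ifs with hx
  · exact h _
  · exact zero_le

lemma act_val (L : List (PB u)) (w : Lat u) :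
    (act (B5W.dl u) L w).1 = w.1 + endp 0 (cat L).1 + endp 0 (cat L).2 := by
  induction L generalizing w with
  | nil => simp [act, cat, endp]
  | cons b L ih =>
    have e1 : endp 0 (cat (b :: L)).1 = endp 0 (cat L).1 + endp 0 b.1.1 := by
      change endp 0 ((cat L).1 ++ b.1.1) = _
      rw [endp_append, endp_eq_add]
    have e2 : endp 0 (cat (b :: L)).2 = endp 0 b.1.2 + endp 0 (cat L).2 := by
      change endp 0 (b.1.2 ++ (cat L).2) = _
      rw [endp_append, endp_eq_add]
    have h3 := ih (B5W.dl u b w)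
    refine Eq.trans (show (act (B5W.dl u) (b :: L) w).1
      = (act (B5W.dl u) L (B5W.dl u b w)).1 from rfl) (h3.trans ?_)
    rw [e1, e2]
    change w.1 + endp 0 b.1.1 + endp 0 b.1.2 + _ + _ = _
    abel

lemma num2 (lam M N a b : ℝ≥0∞) :
    lam + M * (N * a) / lam ≤ 8 * (lam + M * N * (a + b) / lam) := by
  have h1 : M * (N * a) ≤ M * N * (a + b) := by
    rw [← mul_assoc]; exact mul_le_mul_right le_self_add _
  calc lam + M * (N * a) / lam ≤ lam + M * N * (a + b) / lam :=
        add_le_add_right (ENNReal.div_le_div_right h1 _) _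
    _ = 1 * (lam + M * N * (a + b) / lam) := (one_mul _).symm
    _ ≤ _ := mul_le_mul_left (by norm_num) _

lemma num3 (lam M N a b : ℝ≥0∞) :
    8 * lam + 2 * (M * (N * b) / lam) ≤ 8 * (lam + M * N * (a + b) / lam) := by
  have h1 : M * (N * b) ≤ M * N * (a + b) := by
    rw [← mul_assoc]; exact mul_le_mul_right le_add_self _
  calc 8 * lam + 2 * (M * (N * b) / lam) ≤ 8 * lam + 8 * (M * N * (a + b) / lam) :=
        add_le_add_right (mul_le_mul' (by norm_num) (ENNReal.div_le_div_right h1 _)) _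
    _ = _ := by ring

open Classical in
theorem hW (hν : ∀ᵐ p ∂ν, ∀ e : Step d, 0 < p.1 e)
    (hA : annealed (iidEnvironmentLaw ν) 0 (escapeEvent (B2d.dirVec u)) ≠ 0)
    (hB : annealed (iidEnvironmentLaw ν) 0 (escapeEvent (-B2d.dirVec u)) ≠ 0) :
    KB391.HWin ν u := by
  obtain ⟨c, hc, -, hup, hdn⟩ := WM286.mass_pos ν hν u hA hB
  obtain ⟨c', hc', hU, hU1⟩ := KB391.masses ν u hν hA hB
  have hup1 : ∀ n, (∑' π : List (Step d), if IsUp u n π then NB28.aw ν π else 0) ≤ 1 := fun n =>
    sum_if_le_one ν fun l l' h h' hp => NB28.isUp_prefix h h' hp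
  have hdn1 : ∀ n, (∑' π : List (Step d), if IsDn u n π then NB28.aw ν π else 0) ≤ 1 := fun n =>
    sum_if_le_one ν fun l l' h h' hp => NB28.isDn_prefix h h' hp
  have hc1 : c ≤ 1 := (hup 0).trans (hup1 0)
  have hk := HW334.hW_of (Lam ν u) (B5W.ht u) (B5W.dl u) (B5W.cd u) (fun L => cat L)
    (fun w : Lat u => w.1) (fun π : List (Step d) => endp 0 π) (fun γ : List (Step d) => endp 0 γ)
    (fun H π => if IsUp u H π then NB28.aw ν π else 0)
    (fun H γ => if IsDn u H γ then NB28.aw ν γ else 0)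
    (fun w π γ => Cm u w.1 π γ)
    (fun H F => by
      have h := tsum_L ν u H (fun x => F x.1 x.2)
      refine h.trans ?_
      refine tsum_congr fun π => tsum_congr fun γ => ?_
      by_cases h1 : IsUp u H π <;> by_cases h2 : IsDn u H γ <;> simp [h1, h2])
    (fun L w => act_val u L w)
    (fun L w => by rw [CD_cat, cds_eq])
    c hc hup hup1 hdn hdn1
    (fun s => E934.us ν u s + E934.us ν (Flux132.opp u) s)
    (fun ε hε => by
      have he2 : ε / 2 ≠ 0 := (ENNReal.div_pos hε (by norm_num)).ne'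
      obtain ⟨s1, h1⟩ := E934.us_small ν u (ε / 2) he2
      obtain ⟨s2, h2⟩ := E934.us_small ν (Flux132.opp u) (ε / 2) he2
      exact ⟨max s1 s2, (add_le_add (h1 _ (le_max_left _ _)) (h2 _ (le_max_right _ _))).trans
        (ENNReal.add_halves ε).le⟩)
    8 (by norm_num) (by norm_num)
    (fun s H E μ M lam h1 hM hl hl' => by
      have h := E934.E2 ν (u := u) s H E (ext u μ) M lam (ext_sum u μ h1) (ext_le u μ M hM) hl hl'
      rw [← sum_lat u μ (fun x => ∑' π : List (Step d), ∑' γ : List (Step d),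
        (if IsUp u H π ∧ endp 0 π ∈ E ∧ IsDn u H γ ∧ (∃ k, k ∈ Cm u x π γ) ∧
        (∀ k ∈ Cm u x π γ, s < k) then NB28.aw ν π * NB28.aw ν γ else 0))] at h
      refine le_trans (ENNReal.tsum_le_tsum fun w => mul_le_mul_right ?_ _) (h.trans ?_)
      · refine ENNReal.tsum_le_tsum fun π => ENNReal.tsum_le_tsum fun γ => ?_
        by_cases h2 : endp 0 π ∈ E ∧ (∃ k, k ∈ Cm u w.1 π γ) ∧
            (∀ k ∈ Cm u w.1 π γ, s < k ∧ k + s ≤ H)
        · rw [if_pos h2]
          by_cases h3 : IsUp u H π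
          · by_cases h4 : IsDn u H γ
            · rw [if_pos h3, if_pos h4, if_pos ⟨h3, h2.1, h4, h2.2.1, fun k hk => (h2.2.2 k hk).1⟩]
            · rw [if_neg h4, mul_zero]; exact zero_le
          · rw [if_neg h3, zero_mul]; exact zero_le
        · rw [if_neg h2]; exact zero_le
      · exact num2 _ _ _ _ _)
    (fun s H E μ M lam h1 hM hl hl' => by
      have h := E934.E3 ν (u := u) s H E (ext u μ) M lam (ext_sum u μ h1) (ext_le u μ M hM) hl hl'
      rw [← sum_lat u μ (fun x => ∑' π : List (Step d), ∑' γ : List (Step d),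
        (if IsUp u H π ∧ endp 0 γ ∈ E ∧ IsDn u H γ ∧ (∃ k, k ∈ Cm u x π γ) ∧
        (∀ k ∈ Cm u x π γ, k + s ≤ H) then NB28.aw ν π * NB28.aw ν γ else 0))] at h
      refine le_trans (ENNReal.tsum_le_tsum fun w => mul_le_mul_right ?_ _) (h.trans ?_)
      · refine ENNReal.tsum_le_tsum fun π => ENNReal.tsum_le_tsum fun γ => ?_
        by_cases h2 : endp 0 γ ∈ E ∧ (∃ k, k ∈ Cm u w.1 π γ) ∧
            (∀ k ∈ Cm u w.1 π γ, s < k ∧ k + s ≤ H)
        · rw [if_pos h2]
          by_cases h3 : IsUp u H π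
          · by_cases h4 : IsDn u H γ
            · rw [if_pos h3, if_pos h4, if_pos ⟨h3, h2.1, h4, h2.2.1, fun k hk => (h2.2.2 k hk).2⟩]
            · rw [if_neg h4, mul_zero]; exact zero_le
          · rw [if_neg h3, zero_mul]; exact zero_le
        · rw [if_neg h2]; exact zero_le
      · exact num3 _ _ _ _ _)
  refine HWinB19.hWin_of' (Lam ν u) (B5W.ht u) (B5W.dl u) (B5W.cd u) one_le_hb c' hc' hU hU1
    (fun b => B5W.hinj u b) (c * c * 2⁻¹) (mul_ne_zero (mul_ne_zero hc hc) (by simp))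
    (mul_le_one' (mul_le_one' hc1 hc1) (ENNReal.inv_le_one.2 (by norm_num))) ?_
  intro v η hv hv1 hη
  obtain ⟨s, hs⟩ := hk v η hv hv1 hη
  exact ⟨s, 0, fun H _ => hs H⟩

theorem kappaAll : NB28.KappaAll :=
  KB391.kappaAll_of
    (fun d hd ν _ hν u hA hB => SlbX926.hSlb u ν (by omega) hν hA hB)
    (fun d hd ν _ hν u hA hB => hW ν u hν hA hB)

theorem nb : Spine.NBProp := NB28.nb_of_kappaW kappaAll

end Crest.Agent.R154.KA409
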