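import Crest.Agent.R154.Point_926
import Crest.Agent.R154.Fact2_346
import Crest.Agent.R154.WMass_286

/-! Row 154 (helper926): POINT in words, 28's letters. -/

set_option autoImplicit false

namespace Crest.Agent.R154.PointW926

open MeasureTheory ProbabilityTheory Crest.ProbabilityR.RandomEnvironment
open Crest.Agent.R154.Flux566 (lw endp sitesL endp_eq_add endp_append)
open Crest.Agent.R154.Flux132 (lev opp)
open Crest.Agent.R154.NB28 (IsUp IsDn aw Cm)
open Crest.Agent.R154.Fact346 (Irr ht ht_pos ht_spec fl flr hang fac_up fac_dn)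
open Crest.Agent.R154.B5A (HT LW U)
open Crest.Agent.R154.Conc926 (St PT)
open scoped ENNReal

variable {d : ℕ} (u : Step d)

/-- displacement of an up block, read from the top -/
def dX (b : Irr (IsUp u)) : Site d := - endp 0 b.1

/-- displacement of a down block -/
def dY (b : Irr (IsDn u)) : Site d := endp 0 b.1

open Classical in
/-- sites at depth `k` of an up block hung at `0` -/
noncomputable def tX (b : Irr (IsUp u)) (k : ℕ) : Finset (Site d) :=
  (sitesL (-endp 0 b.1) b.1).toFinset.filter fun y => lev u y = -(k : ℤ)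

open Classical in
/-- sites at depth `k` of a down block started at `-u` -/
noncomputable def tY (b : Irr (IsDn u)) (k : ℕ) : Finset (Site d) :=
  (sitesL (stepVec (opp u)) b.1).toFinset.filter fun y => lev u y = -(k : ℤ)

lemma lev_self (v : Step d) : lev v (stepVec v) = 1 := by
  unfold lev stepVec
  by_cases h : v.2 = true <;> simp [h]

lemma mem_shift (l : List (Step d)) (x z y : Site d) (h : y ∈ sitesL (x + z) l) :
    y - z ∈ sitesL x l := by
  rw [Fact346.sitesL_add] at h
  obtain ⟨y', hy', rfl⟩ := List.mem_map.1 h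
  simpa using hy'

lemma lev_sub' (x y : Site d) : lev u (x - y) = lev u x - lev u y := by
  have := Fact346.lev_a u (x - y) y
  rw [sub_add_cancel] at this
  omega

lemma mem_StX (L : List (Irr (IsUp u))) : ∀ (k : ℕ) (y : Site d), y ∈ hang 0 (flr L) →
    lev u y = -(k : ℤ) → y ∈ St ht (dX u) (tX u) L k := by
  classical
  induction L with
  | nil =>
    intro k y hy
    simp [hang, sitesL] at hy
  | cons b L ih =>
    intro k y hy hk
    rw [Fact346.hang_flr_cons, List.mem_append] at hy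
    have hb := ht_spec b
    rcases hy with hy | hy
    · have hy' : y - -(endp 0 b.1) ∈ hang 0 (flr L) := by
        unfold hang at hy ⊢
        refine mem_shift _ _ _ _ ?_
        have e : (0 : Site d) - endp 0 (flr L) + -endp 0 b.1
          = 0 - endp 0 b.1 - endp 0 (flr L) := by abel
        rw [e]; exact hy
      rw [sub_neg_eq_add] at hy'
      have hl1 : lev u (y + endp 0 b.1) = -(k : ℤ) + ht b := by
        rw [Fact346.lev_a, hk, hb.2]
      have hneg : lev u (y + endp 0 b.1) < 0 := by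
        have hP := Fact346.P_flr (fac_up u) L
        have h2 := ((Fact346.up_from u _ (flr L) (0 - endp 0 (flr L))).1 hP).1 _ hy'
        have h3 := hP.2
        rw [lev_sub', Fact346.lev_z] at h2
        change lev u (endp 0 (flr L)) = _ at h3
        omega
      have hkb : ¬ k ≤ ht b := by omega
      have h4 := ih (k - ht b) (y + endp 0 b.1) hy' (by rw [hl1]; omega)
      rw [St, if_neg hkb]
      refine ⟨y + endp 0 b.1, h4, ?_⟩
      simp only [dX]
      abel
    · have h2 := ((Fact346.up_from u _ b.1 (0 - endp 0 b.1)).1 hb).1 _ hy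
      have h3 := hb.2
      rw [lev_sub', Fact346.lev_z] at h2
      change lev u (endp 0 b.1) = _ at h3
      have hkb : k ≤ ht b := by omega
      rw [St, if_pos hkb]
      simp only [tX, Finset.coe_filter, List.mem_toFinset]
      refine ⟨?_, hk⟩
      unfold hang at hy
      rwa [zero_sub] at hy

lemma dn_lev {n : ℕ} {l : List (Step d)} (h : IsDn u n l) (y : Site d)
    (hy : y ∈ sitesL (stepVec (opp u)) l) : -(n : ℤ) ≤ lev u y ∧ lev u y ≤ -1 := by
  have h1 := ((Fact346.up_from (opp u) n l (stepVec (opp u))).1 ((Fact346.isDn_iff u n l).1 h)).1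
    y hy
  have h2 : lev (opp u) (stepVec (opp u)) = 1 := lev_self (opp u)
  rw [h2, Fact346.lev_opp] at h1
  omega

lemma mem_StY (L : List (Irr (IsDn u))) : ∀ (k : ℕ) (y : Site d),
    y ∈ sitesL (stepVec (opp u)) (fl L) →
    lev u y = -(k : ℤ) → y ∈ St ht (dY u) (tY u) L k := by
  classical
  induction L with
  | nil =>
    intro k y hy
    simp [fl, sitesL] at hy
  | cons b L ih =>
    intro k y hy hk
    rw [Fact346.sites_fl_cons, List.mem_append] at hy
    have hb := ht_spec b
    rcases hy with hy | hy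
    · have h2 := dn_lev u hb y hy
      have hkb : k ≤ ht b := by omega
      rw [St, if_pos hkb]
      simp only [tY, Finset.coe_filter, List.mem_toFinset]
      exact ⟨hy, hk⟩
    · have hy' := mem_shift _ _ _ _ hy
      have hl1 : lev u (y - endp 0 b.1) = -(k : ℤ) + ht b := by
        rw [lev_sub', hk, hb.2]; ring
      have h2 := dn_lev u (Fact346.P_fl (fac_dn u) L) _ hy'
      have hkb : ¬ k ≤ ht b := by omega
      have h4 := ih (k - ht b) _ hy' (by rw [hl1]; omega)
      rw [St, if_neg hkb]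
      refine ⟨_, h4, ?_⟩
      simp only [dY]
      abel

/-- a crossing of height one is irreducible -/
def irr1 (l : List (Step d)) (h : IsUp u 1 l) : Irr (IsUp u) :=
  ⟨l, 1, le_rfl, h, fun m n a b e ha hb => by
    have := (fac_up u).uniq 1 (m + n) l h (by rw [e]; exact (fac_up u).add m n a b ha hb)
    omega⟩

lemma ht_irr1 (l : List (Step d)) (h : IsUp u 1 l) : ht (irr1 u l h) = 1 :=
  (fac_up u).uniq _ _ l (ht_spec (irr1 u l h)) h

lemma up1 : IsUp u 1 [u] := by
  constructor
  · intro y hy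
    simp only [sitesL, List.mem_singleton] at hy
    subst hy
    have := Fact346.lev_z u
    constructor <;> simp [this]
  · have h1 : lev u (stepVec u) = 1 := lev_self u
    simp only [endp]
    rw [Fact346.lev_a, Fact346.lev_z, h1]; simp

lemma up2 (a : Step d) (ha : lev u (stepVec a) = 0) : IsUp u 1 [a, u] := by
  have h0 := Fact346.lev_z u
  constructor
  · intro y hy
    simp only [sitesL, List.mem_cons, List.not_mem_nil, or_false] at hy
    rcases hy with rfl | rfl
    · constructor <;> simp [h0]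
    · rw [Fact346.lev_a, h0, ha]; simp
  · have h1 : lev u (stepVec u) = 1 := lev_self u
    simp only [endp]
    rw [Fact346.lev_a, Fact346.lev_a, Fact346.lev_z, h1, ha]; simp

lemma exists_lat (hd : 2 ≤ d) : ∃ a : Step d, lev u (stepVec a) = 0 ∧
    ∀ k : ℕ, k ≠ 0 → k • stepVec a ≠ 0 := by
  obtain ⟨i, hi⟩ : ∃ i : Fin d, i ≠ u.1 := by
    by_cases h0 : u.1 = ⟨0, by omega⟩
    · exact ⟨⟨1, by omega⟩, by rw [h0]; simp [Fin.ext_iff]⟩
    · exact ⟨⟨0, by omega⟩, fun h => h0 h.symm⟩
  refine ⟨(i, true), ?_, fun k hk h => ?_⟩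
  · unfold lev stepVec
    simp [Pi.single_apply, hi.symm]
  · have := congrFun h i
    simp [stepVec] at this
    omega

variable (ν : Measure (Row d)) [IsProbabilityMeasure ν]

lemma aw_pos (hν : ∀ᵐ p ∂ν, ∀ e : Step d, 0 < p.1 e) (l : List (Step d))
    (hnd : (sitesL 0 l).Nodup) : aw ν l ≠ 0 := by
  obtain ⟨c, hc0, hc1, hc⟩ := FinE804.exists_c ν hν
  have := Flux566.ann_lw_ge ν (ENNReal.ofReal c) hc l 0 hnd
  intro h0
  unfold NB28.aw at h0
  rw [h0, nonpos_iff_eq_zero] at this
  exact (pow_ne_zero _ (by simpa using hc0)) this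

open Classical in
/-- **POINT IN WORDS** -/
theorem pt_word (hd : 2 ≤ d) (hν : ∀ᵐ p ∂ν, ∀ e : Step d, 0 < p.1 e)
    (hA : annealed (iidEnvironmentLaw ν) 0 (escapeEvent (B2d.dirVec u)) ≠ 0)
    (hB : annealed (iidEnvironmentLaw ν) 0 (escapeEvent (-B2d.dirVec u)) ≠ 0)
    (ε : ℝ≥0∞) (hε : ε ≠ 0) :
    ∃ k0 : ℕ, ∀ k, k0 ≤ k → ∀ (n : ℕ) (w : Site d), lev u w = 0 →
      ∑' π : List (Step d), ∑' γ : List (Step d),
        (if IsUp u n π ∧ IsDn u n γ ∧ k ∈ Cm u w π γ then aw ν π * aw ν γ else 0) ≤ ε := by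
  obtain ⟨c, hc0, hc1, hcU, hcD⟩ := WM286.mass_pos ν hν u hA hB
  have hctop : c ≠ ⊤ := ne_top_of_le_ne_top ENNReal.one_ne_top hc1
  set Λ : Irr (IsUp u) → ℝ≥0∞ := fun b => aw ν b.1 with hΛdef
  set Λ' : Irr (IsDn u) → ℝ≥0∞ := fun b => aw ν b.1 with hΛdef'
  have hU1 : ∀ n, U Λ ht n ≤ 1 := fun n => by
    rw [Fact346.U_up]; exact WM286.sum_up_le_one ν u n
  have hU1' : ∀ n, U Λ' ht n ≤ 1 := fun n => by
    rw [Fact346.U_dn]; exact WM286.sum_dn_le_one ν u n
  have hUc : ∀ n, 0 ≤ n → c ≤ U Λ ht n := fun n _ => by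
    rw [Fact346.U_up]; exact hcU n
  have hUc' : ∀ n, 0 ≤ n → c ≤ U Λ' ht n := fun n _ => by
    rw [Fact346.U_dn]; exact hcD n
  have hΛ : ∑' b, Λ b = 1 := le_antisymm (B5A.mass_le_one Λ ht ht_pos hU1)
    (B5A.mass_ge_one Λ ht c hc0 0 hUc)
  have hΛ' : ∑' b, Λ' b = 1 := le_antisymm (B5A.mass_le_one Λ' ht ht_pos hU1')
    (B5A.mass_ge_one Λ' ht c hc0 0 hUc')
  have hE : ∑' b, Λ b * (ht b : ℝ≥0∞) ≠ ⊤ :=
    ne_top_of_le_ne_top (ENNReal.inv_ne_top.2 hc0)
      (B5A.mean_le Λ ht ht_pos hΛ c hc0 hctop 0 hUc)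
  have hE' : ∑' b, Λ' b * (ht b : ℝ≥0∞) ≠ ⊤ :=
    ne_top_of_le_ne_top (ENNReal.inv_ne_top.2 hc0)
      (B5A.mean_le Λ' ht ht_pos hΛ' c hc0 hctop 0 hUc')
  obtain ⟨a, ha0, hak⟩ := exists_lat u hd
  have hsa : stepVec a ≠ (0 : Site d) := by simpa using hak 1 one_ne_zero
  obtain ⟨k0, hk0⟩ := Conc926.point Λ ht (dX u) (tX u) Λ' ht (dY u) (tY u) ht_pos hΛ hU1 hE
    hΛ' hU1' hE' (b1 := irr1 u [u] (up1 u)) (b2 := irr1 u [a, u] (up2 u a ha0))
    (by rw [ht_irr1, ht_irr1])
    (aw_pos ν hν [u] (by simp [sitesL]))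
    (aw_pos ν hν [a, u] (by
      simp only [sitesL, List.nodup_cons, List.mem_singleton, List.not_mem_nil,
        not_false_eq_true, List.nodup_nil, and_true]
      intro h
      apply hsa
      rw [zero_add] at h
      exact h.symm))
    (by
      intro k hk
      have e : dX u (irr1 u [a, u] (up2 u a ha0)) - dX u (irr1 u [u] (up1 u))
          = - stepVec a := by
        simp only [dX, irr1, endp]
        abel
      rw [e, smul_neg, neg_ne_zero]
      exact hak k hk)
    ε hε
  refine ⟨k0, fun k hk n w hw => ?_⟩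
  refine le_trans ?_ (hk0 k hk n n w)
  set G : List (Step d) → List (Step d) → ℝ≥0∞ := fun π γ =>
    if k ∈ Cm u w π γ then 1 else 0 with hG
  have e1 : ∀ π, ∑' γ : List (Step d),
        (if IsUp u n π ∧ IsDn u n γ ∧ k ∈ Cm u w π γ then aw ν π * aw ν γ else 0)
      = if IsUp u n π then aw ν π * ∑' γ, (if IsDn u n γ then aw ν γ * G π γ else 0) else 0 := by
    intro π
    by_cases hπ : IsUp u n π
    · rw [if_pos hπ, ← ENNReal.tsum_mul_left]
      refine tsum_congr fun γ => ?_
      by_cases hγ : IsDn u n γ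
      · by_cases hm : k ∈ Cm u w π γ
        · simp [hπ, hγ, hm, hG]
        · simp [hγ, hm, hG]
      · simp [hγ]
    · simp [hπ]
  rw [tsum_congr e1, Fact346.tsum_upr ν u n
    (fun π => ∑' γ, (if IsDn u n γ then aw ν γ * G π γ else 0))]
  unfold PT
  refine ENNReal.tsum_le_tsum fun L => ?_
  by_cases hL : HT ht L = n
  · rw [if_pos hL, Fact346.tsum_dn ν u n (fun γ => G (flr L) γ), ← ENNReal.tsum_mul_left]
    refine ENNReal.tsum_le_tsum fun L' => ?_
    by_cases hL' : HT ht L' = n
    · rw [if_pos hL']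
      by_cases hm : k ∈ Cm u w (flr L) (fl L')
      · rw [if_pos]
        · simp [hG, hm, hΛdef, hΛdef']
        · refine ⟨hL, hL', ?_⟩
          obtain ⟨y, hy1, hy2, hy3⟩ := hm
          refine ⟨y, mem_StX u L k y ?_ hy3, y - w, mem_StY u L' k (y - w) ?_ ?_, by abel⟩
          · unfold hang; rwa [zero_sub]
          · exact mem_shift _ _ _ _ (by rwa [add_comm])
          · rw [lev_sub', hw, hy3]; ring
      · simp [hG, hm]
    · rw [if_neg hL', mul_zero]; exact zero_le
  · rw [if_neg hL]; exact zero_le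

end Crest.Agent.R154.PointW926
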