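import Crest.Agent.R154.HW_725
import Crest.Agent.R154.E23_327
import Crest.Agent.R154.Glue_849
import Crest.Agent.R154.KB_391
import Crest.Agent.R154.PointW_926

/-! Row 154, ROAD 801, FRAME B, final glue (helper432): `KappaAll` and `Spine.NBProp`. -/

set_option autoImplicit false

namespace Crest.Agent.R154.KA432

open MeasureTheory ProbabilityTheory Filter Crest.ProbabilityR.RandomEnvironment Crest.Agent.R154
open Crest.Agent.R154.Flux132 (lev opp)
open Crest.Agent.R154.Flux566 (lw endp sitesL)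
open Crest.Agent.R154.NB28 (IsUp IsDn Cm)
open Crest.Agent.R154.B5A
open Crest.Agent.R154.B5W
open scoped ENNReal Topology

variable {d : ℕ} (ν : Measure (Row d)) [IsProbabilityMeasure ν] (u : Step d)

open Classical in
theorem hSlb (hd : 2 ≤ d) (hν : ∀ᵐ p ∂ν, ∀ e : Step d, 0 < p.1 e)
    (hA : annealed (iidEnvironmentLaw ν) 0 (escapeEvent (B2d.dirVec u)) ≠ 0)
    (hB : annealed (iidEnvironmentLaw ν) 0 (escapeEvent (-B2d.dirVec u)) ≠ 0) :
    KB391.HSlb ν u := by
  intro s ε hε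
  have hs0 : ((s : ℝ≥0∞) + 1) ≠ 0 := by simp
  have hst : ((s : ℝ≥0∞) + 1) ≠ ⊤ := by simp
  obtain ⟨k0, hk0⟩ := PointW926.pt_word u ν hd hν hA hB (ε / (s + 1))
    (ENNReal.div_pos hε hst).ne'
  refine ⟨k0 + s, fun δ hδ w => ?_⟩
  have h1 : ∀ k, k0 ≤ k → ∑' L : List (PB u), (if HT (B5W.ht u) L = δ then
      LW (Lam ν u) L * (if k ∈ cds u (cat L) w.1 then (1 : ℝ≥0∞) else 0) else 0) ≤ ε / (s + 1) := by
    intro k hk
    have h2 := tsum_L ν u δ (fun x => if k ∈ cds u x w.1 then (1 : ℝ≥0∞) else 0)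
    refine le_trans (le_of_eq h2) ?_
    refine le_trans (le_of_eq ?_) (hk0 k hk δ w.1 w.2)
    refine tsum_congr fun π => tsum_congr fun γ => ?_
    rw [cds_eq]
    by_cases h3 : IsUp u δ π ∧ IsDn u δ γ
    · by_cases h4 : k ∈ Cm u w.1 π γ
      · rw [if_pos h3, if_pos h4, if_pos ⟨h3.1, h3.2, h4⟩, mul_one]
      · rw [if_pos h3, if_neg h4, if_neg (fun h => h4 h.2.2), mul_zero]
    · rw [if_neg h3, if_neg (fun h => h3 ⟨h.1, h.2.1⟩)]
  calc Comp818.Slb (Lam ν u) (B5W.ht u) (B5W.dl u) (B5W.cd u) δ s w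
      ≤ ∑' L : List (PB u), ∑ i ∈ Finset.range s, (if HT (B5W.ht u) L = δ then
        LW (Lam ν u) L * (if δ - i ∈ cds u (cat L) w.1 then (1 : ℝ≥0∞) else 0) else 0) := by
        unfold Comp818.Slb
        refine ENNReal.tsum_le_tsum fun L => ?_
        by_cases h : HT (B5W.ht u) L = δ ∧ (∃ k ∈ CD (B5W.ht u) (B5W.dl u) (B5W.cd u) L w, δ < k + s)
        · obtain ⟨hL, k, hk, hks⟩ := h
          have hb := CD_pos (B5W.ht u) (B5W.dl u) (B5W.cd u)
            (fun w b k hk => B5W.hcd u w b k hk) L w k hk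
          rw [CD_cat] at hk
          rw [if_pos ⟨hL, k, by rw [CD_cat]; exact hk, hks⟩]
          have hi : δ - k ∈ Finset.range s := by
            rw [Finset.mem_range]; omega
          refine le_trans ?_ (Finset.single_le_sum (f := fun i => (if HT (B5W.ht u) L = δ then
            LW (Lam ν u) L * (if δ - i ∈ cds u (cat L) w.1 then (1 : ℝ≥0∞) else 0) else 0))
            (fun _ _ => zero_le) hi)
          have hkk : δ - (δ - k) = k := by omega
          simp only [hkk]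
          rw [if_pos hL, if_pos hk, mul_one]
        · rw [if_neg h]; exact zero_le
    _ = ∑ i ∈ Finset.range s, ∑' L : List (PB u), (if HT (B5W.ht u) L = δ then
        LW (Lam ν u) L * (if δ - i ∈ cds u (cat L) w.1 then (1 : ℝ≥0∞) else 0) else 0) :=
        Summable.tsum_finsetSum (fun _ _ => ENNReal.summable)
    _ ≤ ∑ i ∈ Finset.range s, ε / (s + 1) := by
        refine Finset.sum_le_sum fun i hi => h1 _ ?_
        have := Finset.mem_range.1 hi
        omega
    _ = s * (ε / (s + 1)) := by rw [Finset.sum_const, Finset.card_range, nsmul_eq_mul]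
    _ ≤ (s + 1) * (ε / (s + 1)) := by gcongr; exact le_self_add
    _ = ε := ENNReal.mul_div_cancel hs0 hst

open Classical in
theorem hWin (hν : ∀ᵐ p ∂ν, ∀ e : Step d, 0 < p.1 e)
    (hA : annealed (iidEnvironmentLaw ν) 0 (escapeEvent (B2d.dirVec u)) ≠ 0)
    (hB : annealed (iidEnvironmentLaw ν) 0 (escapeEvent (-B2d.dirVec u)) ≠ 0) :
    KB391.HWin ν u := by
  obtain ⟨c, hc, hc1, hup, hdn⟩ := WM286.mass_pos ν hν u hA hB
  obtain ⟨C, hC, us, hus, h2, h3⟩ := EAd327.e23 ν u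
  obtain ⟨c', hc', hU, hU1⟩ := KB391.masses ν u hν hA hB
  have hup1 : ∀ n, (∑' l, if IsUp u n l then NB28.aw ν l else 0) ≤ 1 := fun n =>
    sum_if_le_one ν fun l l' h h' hp => NB28.isUp_prefix h h' hp
  have hdn1 : ∀ n, (∑' l, if IsDn u n l then NB28.aw ν l else 0) ≤ 1 := fun n =>
    sum_if_le_one ν fun l l' h h' hp => NB28.isDn_prefix h h' hp
  have hW := HW725.hW_of ν u hC (fun δ hδ => by
    obtain ⟨s, hs⟩ := ((hus.eventually (Iic_mem_nhds (pos_iff_ne_zero.2 hδ)))).exists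
    exact ⟨s, hs⟩) h2 h3 hc hup hdn hup1 hdn1
  exact Glue849.hWin_of (Lam ν u) (B5W.ht u) (B5W.dl u) (B5W.cd u) one_le_hb
    (fun b => B5W.hinj u b) c' hc' hU hU1 (c * c) (mul_ne_zero hc hc) (mul_le_one' hc1 hc1) hW

/-- **KAPPA' for every elliptic iid environment, `d ≥ 3`** -/
theorem kappaAll : NB28.KappaAll :=
  KB391.kappaAll_of (fun d hd ν _ hν u hA hB => hSlb ν u (by omega) hν hA hB)
    (fun d _ ν _ hν u hA hB => hWin ν u hν hA hB)

/-- **NBProp** -/
theorem nbProp : Spine.NBProp := NB28.nb_of_kappaW kappaAll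

end Crest.Agent.R154.KA432
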