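import Crest.Agent.R154.KB_818
import Crest.Agent.R154.HWinB_19
import Crest.Agent.R154.HW_334
import Crest.Agent.R154.E2_934
import Crest.Agent.R154.E3_934

/-! Row 154, ROAD 801, FRAME B (helper453): 818's `HWin` for 657's instance from 334's `hW_of`, 19's
`hWin_of'` and 934's `E2`, `E3`; hence `KappaAll`. -/

set_option autoImplicit false

namespace Crest.Agent.R154.KA453

open MeasureTheory ProbabilityTheory Crest.ProbabilityR.RandomEnvironment Crest.Agent.R154
open Crest.Agent.R154.B5A Crest.Agent.R154.B5W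
open Crest.Agent.R154.Flux566 (lw endp sitesL)
open Crest.Agent.R154.Flux132 (lev)
open Crest.Agent.R154.NB28 (IsUp IsDn Cm KappaW KappaAll)
open scoped ENNReal Topology

variable {d : ℕ}

lemma act_val (u : Step d) (L : List (PB u)) (w : Lat u) :
    (act (dl u) L w).1 = w.1 + endp 0 (cat L).1 + endp 0 (cat L).2 := by
  induction L generalizing w with
  | nil => simp [act, cat, endp]
  | cons b L ih =>
    simp only [act, cat]
    rw [ih]
    simp only [pm, dl, dlp]
    rw [Flux566.endp_append, Flux566.endp_append, Flux566.endp_eq_add b.1.1 (endp 0 (cat L).1),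
      Flux566.endp_eq_add (cat L).2 (endp 0 b.1.2)]
    abel

open Classical in
/-- sums over lateral displacements -/
lemma tsum_lat (u : Step d) (μ : Lat u → ℝ≥0∞) (F : Site d → ℝ≥0∞) :
    ∑' w : Lat u, μ w * F w.1
      = ∑' x : Site d, (if lev u x = 0 then (if h : lev u x = 0 then μ ⟨x, h⟩ else 0) * F x else 0) := by
  have e : ∀ w : Lat u, μ w = if h : lev u w.1 = 0 then μ ⟨w.1, h⟩ else 0 := by
    intro w
    have hx : lev u w.1 = 0 := w.2
    rw [dif_pos hx]
    rfl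
  have h2 : ∑' w : Lat u, μ w * F w.1
      = ∑' w : Lat u, (if h : lev u w.1 = 0 then μ ⟨w.1, h⟩ else 0) * F w.1 :=
    tsum_congr fun w => congrArg (· * F w.1) (e w)
  have h1 := tsum_subtype {w : Site d | lev u w = 0}
    (fun x => (if h : lev u x = 0 then μ ⟨x, h⟩ else 0) * F x)
  refine h2.trans (Eq.trans h1 (tsum_congr fun x => ?_))
  rw [Set.indicator_apply]
  rfl

open Classical in
lemma hW2 (ν : Measure (Row d)) [IsProbabilityMeasure ν] (u : Step d) (s H : ℕ)
    (E : Finset (Site d)) (μ : Lat u → ℝ≥0∞) (M lam : ℝ≥0∞) (hμ1 : ∑' w, μ w ≤ 1)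
    (hμM : ∀ w, μ w ≤ M) (hl0 : lam ≠ 0) (hl : lam ≠ ⊤) :
    ∑' w : Lat u, μ w * ∑' π : List (Step d), ∑' γ : List (Step d),
      (if endp 0 π ∈ E ∧ (∃ k, k ∈ Cm u w.1 π γ) ∧ (∀ k ∈ Cm u w.1 π γ, s < k ∧ k + s ≤ H) then
        (if IsUp u H π then NB28.aw ν π else 0) * (if IsDn u H γ then NB28.aw ν γ else 0) else 0)
      ≤ 8 * (lam + M * E.card * (E934.us ν u s + E934.us ν (Flux132.opp u) s) / lam) := by
  have hl1 := tsum_lat u μ (fun x => ∑' π : List (Step d), ∑' γ : List (Step d),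
      (if endp 0 π ∈ E ∧ (∃ k, k ∈ Cm u x π γ) ∧ (∀ k ∈ Cm u x π γ, s < k ∧ k + s ≤ H) then
        (if IsUp u H π then NB28.aw ν π else 0) * (if IsDn u H γ then NB28.aw ν γ else 0) else 0))
  rw [hl1]
  set μ' : Site d → ℝ≥0∞ := fun x => if h : lev u x = 0 then μ ⟨x, h⟩ else 0 with hμ'
  have h1 : ∑' x, μ' x ≤ 1 := by
    have h2 := tsum_lat u μ (fun _ => 1)
    simp only [mul_one] at h2
    rw [h2] at hμ1
    refine le_trans (ENNReal.tsum_le_tsum fun x => ?_) hμ1
    by_cases h : lev u x = 0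
    · simp only [hμ', h, if_true, le_refl]
    · simp only [hμ', h, dif_neg, not_false_eq_true, zero_le]
  have h3 : ∀ x, μ' x ≤ M := by
    intro x
    by_cases h : lev u x = 0
    · simp only [hμ', h, dif_pos]; exact hμM _
    · simp only [hμ', h, dif_neg, not_false_eq_true, zero_le]
  have key := E934.E2 (ν := ν) (u := u) s H E μ' M lam h1 h3 hl0 hl
  refine le_trans (ENNReal.tsum_le_tsum fun x => ?_) (key.trans ?_)
  · by_cases h : lev u x = 0
    · rw [if_pos h, if_pos h]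
      refine mul_le_mul_right (ENNReal.tsum_le_tsum fun π => ENNReal.tsum_le_tsum fun γ => ?_) _
      by_cases hc : endp 0 π ∈ E ∧ (∃ k, k ∈ Cm u x π γ) ∧ (∀ k ∈ Cm u x π γ, s < k ∧ k + s ≤ H)
      · rw [if_pos hc]
        by_cases hu : IsUp u H π
        · by_cases hd : IsDn u H γ
          · rw [if_pos hu, if_pos hd, if_pos ⟨hu, hc.1, hd, hc.2.1, fun k hk => (hc.2.2 k hk).1⟩]
          · rw [if_neg hd, mul_zero]; exact zero_le
        · rw [if_neg hu, zero_mul]; exact zero_le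
      · rw [if_neg hc]; exact zero_le
    · rw [if_neg h]; exact zero_le
  · rw [mul_add]
    refine add_le_add ?_ ?_
    · calc lam = 1 * lam := (one_mul _).symm
        _ ≤ 8 * lam := mul_le_mul_left (by norm_num) _
    · calc M * (E.card * E934.us ν u s) / lam
          ≤ M * E.card * (E934.us ν u s + E934.us ν (Flux132.opp u) s) / lam := by
            rw [← mul_assoc]
            exact ENNReal.div_le_div_right (mul_le_mul_right le_self_add _) _
        _ = 1 * (M * E.card * (E934.us ν u s + E934.us ν (Flux132.opp u) s) / lam) :=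
            (one_mul _).symm
        _ ≤ _ := mul_le_mul_left (by norm_num) _

open Classical in
lemma hW3 (ν : Measure (Row d)) [IsProbabilityMeasure ν] (u : Step d) (s H : ℕ)
    (E : Finset (Site d)) (μ : Lat u → ℝ≥0∞) (M lam : ℝ≥0∞) (hμ1 : ∑' w, μ w ≤ 1)
    (hμM : ∀ w, μ w ≤ M) (hl0 : lam ≠ 0) (hl : lam ≠ ⊤) :
    ∑' w : Lat u, μ w * ∑' π : List (Step d), ∑' γ : List (Step d),
      (if endp 0 γ ∈ E ∧ (∃ k, k ∈ Cm u w.1 π γ) ∧ (∀ k ∈ Cm u w.1 π γ, s < k ∧ k + s ≤ H) then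
        (if IsUp u H π then NB28.aw ν π else 0) * (if IsDn u H γ then NB28.aw ν γ else 0) else 0)
      ≤ 8 * (lam + M * E.card * (E934.us ν u s + E934.us ν (Flux132.opp u) s) / lam) := by
  have hl1 := tsum_lat u μ (fun x => ∑' π : List (Step d), ∑' γ : List (Step d),
      (if endp 0 γ ∈ E ∧ (∃ k, k ∈ Cm u x π γ) ∧ (∀ k ∈ Cm u x π γ, s < k ∧ k + s ≤ H) then
        (if IsUp u H π then NB28.aw ν π else 0) * (if IsDn u H γ then NB28.aw ν γ else 0) else 0))
  rw [hl1]
  set μ' : Site d → ℝ≥0∞ := fun x => if h : lev u x = 0 then μ ⟨x, h⟩ else 0 with hμ'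
  have h1 : ∑' x, μ' x ≤ 1 := by
    have h2 := tsum_lat u μ (fun _ => 1)
    simp only [mul_one] at h2
    rw [h2] at hμ1
    refine le_trans (ENNReal.tsum_le_tsum fun x => ?_) hμ1
    by_cases h : lev u x = 0
    · simp only [hμ', h, if_true, le_refl]
    · simp only [hμ', h, dif_neg, not_false_eq_true, zero_le]
  have h3 : ∀ x, μ' x ≤ M := by
    intro x
    by_cases h : lev u x = 0
    · simp only [hμ', h, dif_pos]; exact hμM _
    · simp only [hμ', h, dif_neg, not_false_eq_true, zero_le]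
  have key := E934.E3 (ν := ν) (u := u) s H E μ' M lam h1 h3 hl0 hl
  refine le_trans (ENNReal.tsum_le_tsum fun x => ?_) (key.trans ?_)
  · by_cases h : lev u x = 0
    · rw [if_pos h, if_pos h]
      refine mul_le_mul_right (ENNReal.tsum_le_tsum fun π => ENNReal.tsum_le_tsum fun γ => ?_) _
      by_cases hc : endp 0 γ ∈ E ∧ (∃ k, k ∈ Cm u x π γ) ∧ (∀ k ∈ Cm u x π γ, s < k ∧ k + s ≤ H)
      · rw [if_pos hc]
        by_cases hu : IsUp u H π
        · by_cases hd : IsDn u H γ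
          · rw [if_pos hu, if_pos hd, if_pos ⟨hu, hc.1, hd, hc.2.1, fun k hk => (hc.2.2 k hk).2⟩]
          · rw [if_neg hd, mul_zero]; exact zero_le
        · rw [if_neg hu, zero_mul]; exact zero_le
      · rw [if_neg hc]; exact zero_le
    · rw [if_neg h]; exact zero_le
  · rw [mul_add]
    refine add_le_add le_rfl ?_
    have e1 : M * (E.card * E934.us ν (Flux132.opp u) s) / lam
        ≤ M * E.card * (E934.us ν u s + E934.us ν (Flux132.opp u) s) / lam := by
      rw [← mul_assoc]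
      exact ENNReal.div_le_div_right (mul_le_mul_right le_add_self _) _
    exact mul_le_mul' (by norm_num) e1

open Classical in
lemma hcat (ν : Measure (Row d)) [IsProbabilityMeasure ν] (u : Step d) (H : ℕ)
    (F : List (Step d) → List (Step d) → ℝ≥0∞) :
    ∑' L : List (PB u), (if HT (ht u) L = H then LW (Lam ν u) L * F (cat L).1 (cat L).2 else 0)
      = ∑' π : List (Step d), ∑' γ : List (Step d),
        (if IsUp u H π then NB28.aw ν π else 0) * (if IsDn u H γ then NB28.aw ν γ else 0)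
          * F π γ := by
  refine (tsum_L ν u H (fun x => F x.1 x.2)).trans ?_
  refine tsum_congr fun π => tsum_congr fun γ => ?_
  by_cases hu : IsUp u H π
  · by_cases hd : IsDn u H γ
    · rw [if_pos ⟨hu, hd⟩, if_pos hu, if_pos hd]
    · rw [if_neg (fun h => hd h.2), if_neg hd, mul_zero, zero_mul]
  · rw [if_neg (fun h => hu h.1), if_neg hu, zero_mul, zero_mul]

lemma hCD (u : Step d) (L : List (PB u)) (w : Lat u) :
    CD (ht u) (dl u) (cd u) L w = Cm u w.1 (cat L).1 (cat L).2 := by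
  rw [CD_cat]
  exact cds_eq u (cat L).1 (cat L).2 w.1

lemma hus (ν : Measure (Row d)) [IsProbabilityMeasure ν] (u : Step d) (ε : ℝ≥0∞) (hε : ε ≠ 0) :
    ∃ s, E934.us ν u s + E934.us ν (Flux132.opp u) s ≤ ε := by
  have hε2 : ε / 2 ≠ 0 := by
    rw [Ne, ENNReal.div_eq_zero_iff, not_or]; exact ⟨hε, by norm_num⟩
  obtain ⟨s1, hs1⟩ := E934.us_small ν u (ε / 2) hε2
  obtain ⟨s2, hs2⟩ := E934.us_small ν (Flux132.opp u) (ε / 2) hε2
  refine ⟨max s1 s2, ?_⟩
  calc _ ≤ ε / 2 + ε / 2 := add_le_add (hs1 _ (le_max_left _ _)) (hs2 _ (le_max_right _ _))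
    _ = ε := ENNReal.add_halves ε

open Classical in
lemma hWu (ν : Measure (Row d)) [IsProbabilityMeasure ν] (u : Step d) (c : ℝ≥0∞) (hc : c ≠ 0)
    (h1 : ∀ n, c ≤ ∑' l : List (Step d), if IsUp u n l then NB28.aw ν l else 0)
    (h2 : ∀ n, c ≤ ∑' l : List (Step d), if IsDn u n l then NB28.aw ν l else 0)
    (hup1 : ∀ n, ∑' l : List (Step d), (if IsUp u n l then NB28.aw ν l else 0) ≤ 1)
    (hdn1 : ∀ n, ∑' l : List (Step d), (if IsDn u n l then NB28.aw ν l else 0) ≤ 1) :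
    ∀ v η : ℝ≥0∞, v ≠ 0 → v ≤ 1 → η ≠ 0 → ∃ s : ℕ, ∀ H : ℕ, ∃ S1 S2 : Set (Lat u),
      JAsm139.Good (Lam ν u) (ht u) (dl u) (c * c * 2⁻¹ * v) η H S1 ∧
      JAsm139.Good (Lam ν u) (ht u) (dl u) (c * c * 2⁻¹ * v) η H S2 ∧
      ∀ w, w ∉ S1 → w ∉ S2 →
        (∑' L : List (PB u), (if HT (ht u) L = H ∧ CD (ht u) (dl u) (cd u) L w ≠ ∅ ∧
          (∀ k ∈ CD (ht u) (dl u) (cd u) L w, s < k ∧ k + s ≤ H) then LW (Lam ν u) L else 0))
            ≤ v * v + η :=
  HW334.hW_of (W := Lat u) (G := Site d) (Lam ν u) (ht u) (dl u) (cd u)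
    (fun L : List (PB u) => (cat L : List (Step d) × List (Step d))) (fun w : Lat u => (w.1 : Site d))
    (fun π => endp 0 π) (fun γ => endp 0 γ)
    (fun H π => if IsUp u H π then NB28.aw ν π else 0)
    (fun H γ => if IsDn u H γ then NB28.aw ν γ else 0)
    (fun (w : Lat u) π γ => Cm u w.1 π γ)
    (hcat ν u) (act_val u) (hCD u) c hc h1 hup1 h2 hdn1
    (fun s => E934.us ν u s + E934.us ν (Flux132.opp u) s) (hus ν u)
    8 (by norm_num) (by norm_num)
    (fun s H E μ M lam a1 a2 a3 a4 => le_trans (le_of_eq (tsum_congr fun w =>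
      congrArg (μ w * ·) (tsum_congr fun π => tsum_congr fun γ => by congr)))
      (hW2 ν u s H E μ M lam a1 a2 a3 a4))
    (fun s H E μ M lam a1 a2 a3 a4 => le_trans (le_of_eq (tsum_congr fun w =>
      congrArg (μ w * ·) (tsum_congr fun π => tsum_congr fun γ => by congr)))
      (hW3 ν u s H E μ M lam a1 a2 a3 a4))

/-- **818's `HWin`.** -/
theorem hwin (ν : Measure (Row d)) [IsProbabilityMeasure ν]
    (hν : ∀ᵐ p ∂ν, ∀ e : Step d, 0 < p.1 e) (u : Step d)
    (hA : annealed (iidEnvironmentLaw ν) 0 (escapeEvent (B2d.dirVec u)) ≠ 0)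
    (hB : annealed (iidEnvironmentLaw ν) 0 (escapeEvent (-B2d.dirVec u)) ≠ 0) :
    KB818.HWin ν u := by
  classical
  obtain ⟨c, hc, hc1, h1, h2⟩ := WM286.mass_pos ν hν u hA hB
  have hU : ∀ n, c * c ≤ U (Lam ν u) (ht u) n := fun n => by
    rw [U_eq28]; exact mul_le_mul' (h1 n) (h2 n)
  have hup1 : ∀ n, ∑' l : List (Step d), (if IsUp u n l then NB28.aw ν l else 0) ≤ 1 := fun n =>
    sum_if_le_one ν fun l l' h h' hp => NB28.isUp_prefix h h' hp
  have hdn1 : ∀ n, ∑' l : List (Step d), (if IsDn u n l then NB28.aw ν l else 0) ≤ 1 := fun n =>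
    sum_if_le_one ν fun l l' h h' hp => NB28.isDn_prefix h h' hp
  have hU1 : ∀ n, U (Lam ν u) (ht u) n ≤ 1 := fun n => by
    rw [U_eq28]; exact mul_le_one' (hup1 n) (hdn1 n)
  have hW := hWu ν u c hc h1 h2 hup1 hdn1
  have hcc : c * c ≠ 0 := mul_ne_zero hc hc
  have hc2 : c * c * 2⁻¹ ≠ 0 := mul_ne_zero hcc (by simp)
  have hc21 : c * c * 2⁻¹ ≤ 1 := by
    refine mul_le_one' (mul_le_one' hc1 hc1) ?_
    rw [ENNReal.inv_le_one]; norm_num
  exact HWinB19.hWin_of' (Lam ν u) (ht u) (dl u) (cd u) one_le_hb (c * c) hcc hU hU1 (hinj u)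
    (c * c * 2⁻¹) hc2 hc21 (fun v η hv hv1 hη => by
      obtain ⟨s, hs⟩ := hW v η hv hv1 hη
      exact ⟨s, 0, fun H _ => hs H⟩)

/-- **`KappaAll`.** -/
theorem kappaAll : KappaAll :=
  KB818.kappaAll_of fun _ _ ν _ hν u hA hB => hwin ν hν u hA hB

/-- **`NBProp`.** -/
theorem nbProp : Spine.NBProp := NB28.nb_of_kappaW kappaAll

end Crest.Agent.R154.KA453
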