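import Crest.Agent.R154.KB_818
import Crest.Agent.R154.HWinB_19
import Crest.Agent.R154.HW_725
import Crest.Agent.R154.E23_168

/-! Row 154, ROAD 801, FRAME B (helper460): the last binding, `NB28.KappaAll`. -/

set_option autoImplicit false

namespace Crest.Agent.R154.KA460

open MeasureTheory ProbabilityTheory Crest.ProbabilityR.RandomEnvironment Crest.Agent.R154
open Crest.Agent.R154.B5A Crest.Agent.R154.B5W
open Crest.Agent.R154.NB28 (IsUp IsDn KappaW KappaAll)
open scoped ENNReal Topology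

variable {d : ℕ}

theorem hWin (ν : Measure (Row d)) [IsProbabilityMeasure ν]
    (hν : ∀ᵐ p ∂ν, ∀ e : Step d, 0 < p.1 e) (u : Step d)
    (hA : annealed (iidEnvironmentLaw ν) 0 (escapeEvent (B2d.dirVec u)) ≠ 0)
    (hB : annealed (iidEnvironmentLaw ν) 0 (escapeEvent (-B2d.dirVec u)) ≠ 0) :
    KB818.HWin ν u := by
  obtain ⟨c, hc, -, h1, h2⟩ := WM286.mass_pos ν hν u hA hB
  have k1 := fun n => sum_if_le_one ν (P := fun l => IsUp u n l)
    fun l l' h h' hp => NB28.isUp_prefix h h' hp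
  have k2 := fun n => sum_if_le_one ν (P := fun l => IsDn u n l)
    fun l l' h h' hp => NB28.isDn_prefix h h' hp
  have hU : ∀ n, c * c ≤ U (Lam ν u) (ht u) n := fun n => by
    rw [U_eq28]; exact mul_le_mul' (h1 n) (h2 n)
  have hU1 : ∀ n, U (Lam ν u) (ht u) n ≤ 1 := fun n => by
    rw [U_eq28]
    exact mul_le_one' (k1 n) (k2 n)
  have hc1 : c * c ≤ 1 := (hU 0).trans (hU1 0)
  exact HWinB19.hWin_of' (Lam ν u) (ht u) (dl u) (cd u) one_le_hb (c * c) (mul_ne_zero hc hc)
    hU hU1 (hinj u) (c * c) (mul_ne_zero hc hc) hc1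
    (HW725.hW_of ν u (us := E23168.uc ν u) (C := 4) (by norm_num)
      (fun δ hδ => by
        have h := (ENNReal.tendsto_nhds_zero.1 (E23168.uc_tendsto ν u)) δ (pos_iff_ne_zero.2 hδ)
        exact h.exists)
      (E23168.e2c ν u) (E23168.e3c ν u) hc h1 h2 k1 k2)

theorem kappaAll : NB28.KappaAll :=
  KB818.kappaAll_of (fun d hd ν _ hν u hA hB => hWin ν hν u hA hB)

theorem nb : Spine.NBProp := NB28.nb_of_kappaW kappaAll

end Crest.Agent.R154.KA460
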