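import Crest.Agent.R154.HW_280
import Crest.Agent.R154.E23_168
import Crest.Agent.R154.HWinAd_363
import Crest.Agent.R154.KB_818
import Crest.Agent.R154.NBTop_28

/-! Row 154, ROAD 801, frame B (joint cuts): the last binding (helper495). -/

set_option autoImplicit false

namespace Crest.Agent.R154.KA495

open MeasureTheory ProbabilityTheory Crest.ProbabilityR.RandomEnvironment Crest.Agent.R154
open Crest.Agent.R154.B5A Crest.Agent.R154.B5W
open Crest.Agent.R154.NB28 (IsUp IsDn KappaW KappaAll)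
open scoped ENNReal

variable {d : ℕ}

open Classical in
theorem hWin (ν : Measure (Row d)) [IsProbabilityMeasure ν]
    (hν : ∀ᵐ p ∂ν, ∀ e : Step d, 0 < p.1 e) (u : Step d)
    (hA : annealed (iidEnvironmentLaw ν) 0 (escapeEvent (B2d.dirVec u)) ≠ 0)
    (hB : annealed (iidEnvironmentLaw ν) 0 (escapeEvent (-B2d.dirVec u)) ≠ 0) :
    KB818.HWin ν u := by
  obtain ⟨c, hc, -, h1, h2⟩ := WM286.mass_pos ν hν u hA hB
  have hU : ∀ n, c * c ≤ U (Lam ν u) (ht u) n := fun n => by
    rw [U_eq28]; exact mul_le_mul' (h1 n) (h2 n)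
  have hU1 : ∀ n, U (Lam ν u) (ht u) n ≤ 1 := fun n => by
    rw [U_eq28]
    exact mul_le_one' (sum_if_le_one ν fun l l' h h' hp => NB28.isUp_prefix h h' hp)
      (sum_if_le_one ν fun l l' h h' hp => NB28.isDn_prefix h h' hp)
  have hΛ : ∑' b, Lam ν u b = 1 :=
    le_antisymm (mass_le_one (Lam ν u) (ht u) one_le_hb hU1)
      (mass_ge_one (Lam ν u) (ht u) (c * c) (mul_ne_zero hc hc) 0 (fun n _ => hU n))
  exact HWinAd363.hWin_of_hW (Lam ν u) (ht u) (dl u) (cd u) one_le_hb hΛ hU1 (c * c)
    (mul_ne_zero hc hc) hU (hinj u) (c * c) (mul_ne_zero hc hc)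
    (fun v η hv hv1 hη => HW280.hW ν u c h1 h2 4 (by norm_num) (E23168.uc ν u)
      (E23168.uc_tendsto ν u) (fun s H E μ M lam a b c d => by
        refine le_trans (le_of_eq (tsum_congr fun x => if_congr Iff.rfl ?_ rfl))
          (E23168.e2c ν u s H E μ M lam a b c d)
        rw [HW280.PhiX]
        refine congrArg (μ x * ·) (tsum_congr fun π => tsum_congr fun γ =>
          if_congr (by tauto) rfl rfl))
      (fun s H E μ M lam a b c d => by
        refine le_trans (le_of_eq (tsum_congr fun x => if_congr Iff.rfl ?_ rfl))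
          (E23168.e3c ν u s H E μ M lam a b c d)
        rw [HW280.PhiY]
        refine congrArg (μ x * ·) (tsum_congr fun π => tsum_congr fun γ =>
          if_congr (by tauto) rfl rfl)) v η hv hv1 hη)

theorem kappaAll : NB28.KappaAll :=
  KB818.kappaAll_of fun _ _ ν _ hν u hA hB => hWin ν hν u hA hB

theorem nbProp : Spine.NBProp := NB28.nb_of_kappaW kappaAll

end Crest.Agent.R154.KA495
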