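import Crest.Agent.R154.KB_818
import Crest.Agent.R154.HWinB_19
import Crest.Agent.R154.HW_178
import Crest.Agent.R154.E2_660
import Crest.Agent.R154.UsW_778

/-! Row 154, ROAD 801, FRAME B (helper519): the final composition
(178's `hW`, 660's E2 / E3, 19's `hWin_of'`, 818's `kappaAll_of`, 286's masses). -/

set_option autoImplicit false

namespace Crest.Agent.R154.KA519

open MeasureTheory ProbabilityTheory Crest.ProbabilityR.RandomEnvironment Crest.Agent.R154
open Crest.Agent.R154.B5A Crest.Agent.R154.B5W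
open Crest.Agent.R154.NB28 (IsUp IsDn Cm aw)
open scoped ENNReal Topology

variable {d : ℕ}

theorem e2 (ν : Measure (Row d)) [IsProbabilityMeasure ν] (u : Step d) :
    HW178.E2 ν u 4 (Us778.us ν u) := by
  classical
  intro s H E μ M lam hμ hM h0 h1
  refine le_trans (ENNReal.tsum_le_tsum fun x => ?_)
    ((E660.E2 ν u s H E μ M lam hμ hM h0 h1).trans ?_)
  · by_cases hx : Flux132.lev u x = 0
    · rw [if_pos hx, if_pos hx]
      refine mul_le_mul' le_rfl (ENNReal.tsum_le_tsum fun π => ENNReal.tsum_le_tsum fun γ => ?_)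
      by_cases h : IsUp u H π ∧ Flux566.endp 0 π ∈ E ∧ IsDn u H γ ∧ (∃ k, k ∈ Cm u x π γ) ∧
        (∀ k ∈ Cm u x π γ, s < k ∧ k + s ≤ H)
      · rw [if_pos h, if_pos ⟨h.1, h.2.1, h.2.2.1, h.2.2.2.1, fun k hk => (h.2.2.2.2 k hk).1⟩]
      · rw [if_neg h]; exact zero_le
    · rw [if_neg hx, if_neg hx]
  · calc lam + M * E.card * Us778.us ν u s / lam
        ≤ 4 * (lam + M * E.card * Us778.us ν u s / lam) :=
          le_mul_of_one_le_left zero_le (by norm_num)
      _ ≤ _ := mul_le_mul' le_rfl le_self_add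

theorem e3 (ν : Measure (Row d)) [IsProbabilityMeasure ν] (u : Step d) :
    HW178.E3 ν u 4 (Us778.us ν u) := by
  classical
  intro s H E μ M lam hμ hM h0 h1
  refine le_trans (ENNReal.tsum_le_tsum fun x => ?_)
    ((E660.E3 ν u s H E μ M lam hμ hM h0 h1).trans ?_)
  · by_cases hx : Flux132.lev u x = 0
    · rw [if_pos hx, if_pos hx]
      refine mul_le_mul' le_rfl (ENNReal.tsum_le_tsum fun π => ENNReal.tsum_le_tsum fun γ => ?_)
      by_cases h : IsUp u H π ∧ Flux566.endp 0 γ ∈ E ∧ IsDn u H γ ∧ (∃ k, k ∈ Cm u x π γ) ∧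
        (∀ k ∈ Cm u x π γ, s < k ∧ k + s ≤ H)
      · rw [if_pos h, if_pos ⟨h.1, h.2.1, h.2.2.1, h.2.2.2.1, fun k hk => (h.2.2.2.2 k hk).2⟩]
      · rw [if_neg h]; exact zero_le
    · rw [if_neg hx, if_neg hx]
  · exact mul_le_mul' le_rfl le_self_add

theorem hWin (ν : Measure (Row d)) [IsProbabilityMeasure ν]
    (hν : ∀ᵐ p ∂ν, ∀ e : Step d, 0 < p.1 e) (u : Step d)
    (hA : annealed (iidEnvironmentLaw ν) 0 (escapeEvent (B2d.dirVec u)) ≠ 0)
    (hB : annealed (iidEnvironmentLaw ν) 0 (escapeEvent (-B2d.dirVec u)) ≠ 0) :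
    KB818.HWin ν u := by
  obtain ⟨c, hc, hc1, h1, h2⟩ := WM286.mass_pos ν hν u hA hB
  have hU : ∀ n, c * c ≤ U (Lam ν u) (ht u) n := fun n => by
    rw [U_eq28]; exact mul_le_mul' (h1 n) (h2 n)
  have hU1 : ∀ n, U (Lam ν u) (ht u) n ≤ 1 := fun n => by
    rw [U_eq28]
    exact mul_le_one' (sum_if_le_one ν fun l l' h h' hp => NB28.isUp_prefix h h' hp)
      (sum_if_le_one ν fun l l' h h' hp => NB28.isDn_prefix h h' hp)
  have hus : Filter.Tendsto (Us778.us ν u) Filter.atTop (nhds 0) :=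
    Us778.us_tendsto_zero ν hν u (by
      intro h
      apply hA
      have h' : annealedProb (iidEnvironmentLaw ν) 0 (escapeEvent (B2d.dirVec u)) = 0 := h
      rw [annealed_apply_prob]
      · exact h'
      · exact Kal132.measurableSet_escape (B2d.dirVec u))
  exact HWinB19.hWin_of' (Lam ν u) (ht u) (dl u) (cd u) one_le_hb (c * c) (mul_ne_zero hc hc)
    hU hU1 (B5W.hinj u) (c * c) (mul_ne_zero hc hc) (mul_le_one' hc1 hc1)
    (HW178.hW ν u hc hc1 h1 h2 (by norm_num) hus (e2 ν u) (e3 ν u))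

theorem kappaAll : NB28.KappaAll :=
  KB818.kappaAll_of fun _ _ ν _ hν u hA hB => hWin ν hν u hA hB

theorem nb : Spine.NBProp := NB28.nb_of_kappaW kappaAll

end Crest.Agent.R154.KA519
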