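import Crest.Agent.R154.HW_334
import Crest.Agent.R154.HWinAd_363
import Crest.Agent.R154.KB_169
import Crest.Agent.R154.E2_934
import Crest.Agent.R154.E3_934

/-! Row 154, ROAD 801, frame B (helper547): the last binding, `NB28.KappaAll` and `Spine.NBProp`. -/

set_option autoImplicit false

open MeasureTheory ProbabilityTheory Crest.ProbabilityR.RandomEnvironment
open scoped ENNReal

namespace Crest.Agent.R154.KA547

open Crest.Agent.R154.B5A Crest.Agent.R154.B5W
open Crest.Agent.R154.NB28 (IsUp IsDn Cm)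
open Crest.Agent.R154.Flux566 (lev endp)
open Crest.Agent.R154.JAsm139 (Good)

variable {d : ℕ}

lemma act_cat (u : Step d) (L : List (PB u)) (w : Lat u) :
    (act (dl u) L w).1 = w.1 + endp 0 (cat L).1 + endp 0 (cat L).2 := by
  induction L generalizing w with
  | nil => simp [act, cat, endp]
  | cons b L ih =>
    rw [act, ih]
    show dlp b.1 w.1 + _ + _ = w.1 + endp 0 ((cat L).1 ++ b.1.1) + endp 0 (b.1.2 ++ (cat L).2)
    rw [Flux566.endp_append, Flux566.endp_append, Flux566.endp_eq_add b.1.1 (endp 0 (cat L).1),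
      Flux566.endp_eq_add (cat L).2 (endp 0 b.1.2)]
    unfold dlp
    abel

open Classical in
lemma tsum_lat (u : Step d) (μ : Lat u → ℝ≥0∞) (F : Site d → ℝ≥0∞) :
    ∑' x : Site d, (if lev u x = 0 then (if h : lev u x = 0 then μ ⟨x, h⟩ else 0) * F x else 0)
      = ∑' w : Lat u, μ w * F w.1 := by
  have h1 := tsum_subtype {x : Site d | lev u x = 0}
    (fun x => (if h : lev u x = 0 then μ ⟨x, h⟩ else 0) * F x)
  refine Eq.trans ?_ (h1.symm.trans ?_)
  · refine tsum_congr fun x => ?_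
    by_cases hx : lev u x = 0
    · rw [if_pos hx, Set.indicator_of_mem (show x ∈ {x : Site d | lev u x = 0} from hx)]
    · rw [if_neg hx, Set.indicator_of_notMem (show x ∉ {x : Site d | lev u x = 0} from hx)]
  · refine tsum_congr fun (w : {x : Site d // lev u x = 0}) => ?_
    have hw : lev u w.1 = 0 := w.2
    simp only [dif_pos hw]

open Classical in
lemma tsum_lat1 (u : Step d) (μ : Lat u → ℝ≥0∞) :
    ∑' x : Site d, (if h : lev u x = 0 then μ ⟨x, h⟩ else 0) = ∑' w : Lat u, μ w := by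
  have h := tsum_lat u μ (fun _ => 1)
  simp only [mul_one] at h
  rw [← h]
  refine tsum_congr fun x => ?_
  by_cases hx : lev u x = 0
  · rw [if_pos hx]
  · rw [if_neg hx, dif_neg hx]

open Classical in
lemma hcat547 (ν : Measure (Row d)) [IsProbabilityMeasure ν] (u : Step d) (H : ℕ)
    (F : List (Step d) → List (Step d) → ℝ≥0∞) :
    ∑' L : List (PB u), (if HT (ht u) L = H then LW (Lam ν u) L * F (cat L).1 (cat L).2 else 0)
      = ∑' π : List (Step d), ∑' γ : List (Step d),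
        (if IsUp u H π then NB28.aw ν π else 0) * (if IsDn u H γ then NB28.aw ν γ else 0)
          * F π γ := by
  rw [tsum_L ν u H (fun x => F x.1 x.2)]
  refine tsum_congr fun π => tsum_congr fun γ => ?_
  by_cases h1 : IsUp u H π
  · by_cases h2 : IsDn u H γ
    · rw [if_pos ⟨h1, h2⟩, if_pos h1, if_pos h2]
    · rw [if_neg (fun h => h2 h.2), if_neg h2, mul_zero, zero_mul]
  · rw [if_neg (fun h => h1 h.1), if_neg h1, zero_mul, zero_mul]

open Classical in
/-- **139's `hW` at 657's instance** -/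
theorem hW (ν : Measure (Row d)) [IsProbabilityMeasure ν] (u : Step d)
    (c : ℝ≥0∞) (hc : c ≠ 0)
    (hup : ∀ n : ℕ, c ≤ ∑' π : List (Step d), if IsUp u n π then NB28.aw ν π else 0)
    (hdn : ∀ n : ℕ, c ≤ ∑' γ : List (Step d), if IsDn u n γ then NB28.aw ν γ else 0) :
    ∀ υ η : ℝ≥0∞, υ ≠ 0 → υ ≤ 1 → η ≠ 0 → ∃ s : ℕ, ∀ H : ℕ, ∃ S1 S2 : Set (Lat u),
      Good (Lam ν u) (ht u) (dl u) (c * c * 2⁻¹ * υ) η H S1 ∧
      Good (Lam ν u) (ht u) (dl u) (c * c * 2⁻¹ * υ) η H S2 ∧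
      ∀ w, w ∉ S1 → w ∉ S2 →
        (∑' L : List (PB u), (if HT (ht u) L = H ∧ CD (ht u) (dl u) (cd u) L w ≠ ∅ ∧
          (∀ k ∈ CD (ht u) (dl u) (cd u) L w, s < k ∧ k + s ≤ H) then LW (Lam ν u) L else 0))
          ≤ υ * υ + η := by
  refine HW334.hW_of (P := List (Step d)) (Q := List (Step d)) (G := Site d) (Lam ν u) (ht u)
    (dl u) (cd u) cat (fun w => w.1) (fun π => endp 0 π) (fun γ => endp 0 γ)
    (fun H π => if IsUp u H π then NB28.aw ν π else 0)
    (fun H γ => if IsDn u H γ then NB28.aw ν γ else 0)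
    (fun w π γ => Cm u w.1 π γ) (fun H F => hcat547 ν u H F) (fun L w => act_cat u L w)
    (fun L w => ?_) c hc hup (fun H => ?_) hdn (fun H => ?_)
    (fun s => E934.us ν u s + E934.us ν (Flux132.opp u) s) (fun ε hε => ?_) 8 (by norm_num)
    (by norm_num) ?_ ?_
  · rw [CD_cat]
    exact cds_eq u (cat L).1 (cat L).2 w.1
  · exact sum_if_le_one ν fun l l' h h' hp => NB28.isUp_prefix h h' hp
  · exact sum_if_le_one ν fun l l' h h' hp => NB28.isDn_prefix h h' hp
  · have h2 : ε / 2 ≠ 0 := (ENNReal.half_pos hε).ne'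
    obtain ⟨s1, h1⟩ := E934.us_small ν u (ε / 2) h2
    obtain ⟨s2, h2⟩ := E934.us_small ν (Flux132.opp u) (ε / 2) h2
    refine ⟨max s1 s2, ?_⟩
    calc _ ≤ ε / 2 + ε / 2 := add_le_add (h1 _ (le_max_left _ _)) (h2 _ (le_max_right _ _))
      _ = ε := ENNReal.add_halves ε
  · intro s H E μ M lam hμ hM hl hl'
    set μ' : Site d → ℝ≥0∞ := fun x => if h : lev u x = 0 then μ ⟨x, h⟩ else 0 with hμ'
    have k1 : ∑' x, μ' x ≤ 1 := (tsum_lat1 u μ).trans_le hμ
    have k2 : ∀ x, μ' x ≤ M := fun x => by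
      simp only [hμ']; split_ifs with h
      · exact hM _
      · exact zero_le
    have key := E934.E2 ν (u := u) s H E μ' M lam k1 k2 hl hl'
    have e1 := tsum_lat u μ (fun x => ∑' π : List (Step d), ∑' γ : List (Step d),
      (if IsUp u H π ∧ endp 0 π ∈ E ∧ IsDn u H γ ∧ (∃ k, k ∈ Cm u x π γ) ∧
        (∀ k ∈ Cm u x π γ, s < k) then NB28.aw ν π * NB28.aw ν γ else 0))
    have key2 : ∑' w : Lat u, μ w * ∑' π : List (Step d), ∑' γ : List (Step d),
      (if IsUp u H π ∧ endp 0 π ∈ E ∧ IsDn u H γ ∧ (∃ k, k ∈ Cm u w.1 π γ) ∧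
        (∀ k ∈ Cm u w.1 π γ, s < k) then NB28.aw ν π * NB28.aw ν γ else 0)
        ≤ lam + M * (E.card * E934.us ν u s) / lam := by
      rw [← e1]; exact key
    refine le_trans (ENNReal.tsum_le_tsum fun w => mul_le_mul_right
      (ENNReal.tsum_le_tsum fun π => ENNReal.tsum_le_tsum fun γ => ?_) _) (key2.trans ?_)
    · by_cases h : endp 0 π ∈ E ∧ (∃ k, k ∈ Cm u w.1 π γ) ∧ (∀ k ∈ Cm u w.1 π γ, s < k ∧ k + s ≤ H)
      · rw [if_pos h]
        by_cases h1 : IsUp u H π
        · by_cases h2 : IsDn u H γ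
          · rw [if_pos h1, if_pos h2, if_pos ⟨h1, h.1, h2, h.2.1, fun k hk => (h.2.2 k hk).1⟩]
          · rw [if_neg h2, mul_zero]; exact zero_le
        · rw [if_neg h1, zero_mul]; exact zero_le
      · rw [if_neg h]; exact zero_le
    · have h8 : (1 : ℝ≥0∞) ≤ 8 := by norm_num
      calc lam + M * (E.card * E934.us ν u s) / lam
          ≤ lam + M * E.card * (E934.us ν u s + E934.us ν (Flux132.opp u) s) / lam := by
            rw [mul_assoc]
            gcongr
            exact le_self_add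
        _ ≤ 8 * (lam + M * E.card * (E934.us ν u s + E934.us ν (Flux132.opp u) s) / lam) :=
            le_mul_of_one_le_left zero_le h8
  · intro s H E μ M lam hμ hM hl hl'
    set μ' : Site d → ℝ≥0∞ := fun x => if h : lev u x = 0 then μ ⟨x, h⟩ else 0 with hμ'
    have k1 : ∑' x, μ' x ≤ 1 := (tsum_lat1 u μ).trans_le hμ
    have k2 : ∀ x, μ' x ≤ M := fun x => by
      simp only [hμ']; split_ifs with h
      · exact hM _
      · exact zero_le
    have key := E934.E3 ν (u := u) s H E μ' M lam k1 k2 hl hl'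
    have e1 := tsum_lat u μ (fun x => ∑' π : List (Step d), ∑' γ : List (Step d),
      (if IsUp u H π ∧ endp 0 γ ∈ E ∧ IsDn u H γ ∧ (∃ k, k ∈ Cm u x π γ) ∧
        (∀ k ∈ Cm u x π γ, k + s ≤ H) then NB28.aw ν π * NB28.aw ν γ else 0))
    have key2 : ∑' w : Lat u, μ w * ∑' π : List (Step d), ∑' γ : List (Step d),
      (if IsUp u H π ∧ endp 0 γ ∈ E ∧ IsDn u H γ ∧ (∃ k, k ∈ Cm u w.1 π γ) ∧
        (∀ k ∈ Cm u w.1 π γ, k + s ≤ H) then NB28.aw ν π * NB28.aw ν γ else 0)
        ≤ 8 * lam + 2 * (M * (E.card * E934.us ν (Flux132.opp u) s) / lam) := by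
      rw [← e1]; exact key
    refine le_trans (ENNReal.tsum_le_tsum fun w => mul_le_mul_right
      (ENNReal.tsum_le_tsum fun π => ENNReal.tsum_le_tsum fun γ => ?_) _) (key2.trans ?_)
    · by_cases h : endp 0 γ ∈ E ∧ (∃ k, k ∈ Cm u w.1 π γ) ∧ (∀ k ∈ Cm u w.1 π γ, s < k ∧ k + s ≤ H)
      · rw [if_pos h]
        by_cases h1 : IsUp u H π
        · by_cases h2 : IsDn u H γ
          · rw [if_pos h1, if_pos h2, if_pos ⟨h1, h.1, h2, h.2.1, fun k hk => (h.2.2 k hk).2⟩]
          · rw [if_neg h2, mul_zero]; exact zero_le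
        · rw [if_neg h1, zero_mul]; exact zero_le
      · rw [if_neg h]; exact zero_le
    · rw [mul_add]
      refine add_le_add le_rfl ?_
      have h8 : (2 : ℝ≥0∞) ≤ 8 := by norm_num
      refine mul_le_mul' h8 ?_
      rw [mul_assoc]
      gcongr
      exact le_add_self

theorem hWin (ν : Measure (Row d)) [IsProbabilityMeasure ν] (u : Step d)
    (c : ℝ≥0∞) (hc : c ≠ 0)
    (hup : ∀ n : ℕ, c ≤ ∑' π : List (Step d), (open Classical in if IsUp u n π then NB28.aw ν π else 0))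
    (hdn : ∀ n : ℕ, c ≤ ∑' γ : List (Step d), (open Classical in if IsDn u n γ then NB28.aw ν γ else 0)) :
    KB169.HWinSt (Lam ν u) (ht u) (dl u) (cd u) := by
  have hU : ∀ n, c * c ≤ U (Lam ν u) (ht u) n := fun n => by
    rw [U_eq28]; exact mul_le_mul' (hup n) (hdn n)
  have hU1 := HSl169.U_le_one ν u
  have hcc : c * c ≠ 0 := mul_ne_zero hc hc
  have h1 : ∀ b, 1 ≤ ht u b := one_le_hb
  have hΛ : ∑' b, Lam ν u b = 1 :=
    le_antisymm (mass_le_one _ _ h1 hU1) (mass_ge_one _ _ (c * c) hcc 0 fun n _ => hU n)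
  refine HWinAd363.hWin_of_hW (Lam ν u) (ht u) (dl u) (cd u) h1 hΛ hU1 (c * c) hcc hU
    (fun b => hinj u b) (c * c * 2⁻¹) (mul_ne_zero hcc (by norm_num)) ?_
  intro υ η h1 h2 h3
  obtain ⟨s, hs⟩ := hW ν u c hc hup hdn υ η h1 h2 h3
  exact ⟨s, 0, fun H _ => hs H⟩

/-- **KAPPA'** for every law -/
theorem kappaAll : NB28.KappaAll :=
  KB169.kappaAll_of fun d hd ν _ hν u hA hB => by
    obtain ⟨c, hc, _, hup, hdn⟩ := WM286.mass_pos ν hν u hA hB
    exact hWin ν u c hc hup hdn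

/-- **two opposite steps are not both escape directions** -/
theorem nbProp : Spine.NBProp := NB28.nb_of_kappaW kappaAll

end Crest.Agent.R154.KA547
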