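import Crest.Agent.R154.HW_334
import Crest.Agent.R154.HWb_597
import Crest.Agent.R154.KB_169
import Crest.Agent.R154.E23_657

/-! Row 154, ROAD 801, frame B (helper55): the last binding, `KappaAll`. -/

set_option autoImplicit false

open MeasureTheory ProbabilityTheory Crest.ProbabilityR.RandomEnvironment
open scoped ENNReal

namespace Crest.Agent.R154.KA55

open Crest.Agent.R154.B5A Crest.Agent.R154.B5W
open Crest.Agent.R154.JAsm139 (card Good)
open Crest.Agent.R154.NB28 (IsUp IsDn Cm)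
open Crest.Agent.R154.HW334 (half)
open Filter Topology

section abs
variable {B W P Q G : Type*} [AddCommGroup G]

open Classical in
/-- 334's `hW_of` with the extra summand `us s` -/
theorem hW_of' (Λ : B → ℝ≥0∞) (ht : B → ℕ) (dl : B → W → W) (cd : W → B → Set ℕ)
    (cat : List B → P × Q) (v : W → G) (dX : P → G) (dY : Q → G)
    (a : ℕ → P → ℝ≥0∞) (b : ℕ → Q → ℝ≥0∞) (C : W → P → Q → Set ℕ)
    (hcat : ∀ (H : ℕ) (F : P → Q → ℝ≥0∞),
      ∑' L, (if HT ht L = H then LW Λ L * F (cat L).1 (cat L).2 else 0)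
        = ∑' π, ∑' γ, a H π * b H γ * F π γ)
    (hact : ∀ L w, v (act dl L w) = v w + dX (cat L).1 + dY (cat L).2)
    (hCD : ∀ L w, CD ht dl cd L w = C w (cat L).1 (cat L).2)
    (c : ℝ≥0∞) (hc : c ≠ 0) (ha : ∀ H, c ≤ ∑' π, a H π) (ha1 : ∀ H, ∑' π, a H π ≤ 1)
    (hb : ∀ H, c ≤ ∑' γ, b H γ) (hb1 : ∀ H, ∑' γ, b H γ ≤ 1)
    (us : ℕ → ℝ≥0∞) (hus : ∀ ε : ℝ≥0∞, ε ≠ 0 → ∃ s, us s ≤ ε)
    (K : ℝ≥0∞) (hK : K ≠ 0) (hK' : K ≠ ⊤)
    (hW2 : ∀ (s H : ℕ) (E : Finset G) (μ : W → ℝ≥0∞) (M lam : ℝ≥0∞), ∑' w, μ w ≤ 1 →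
      (∀ w, μ w ≤ M) → lam ≠ 0 → lam ≠ ⊤ →
      ∑' w, μ w * ∑' π, ∑' γ, (if dX π ∈ E ∧ (∃ k, k ∈ C w π γ) ∧
        (∀ k ∈ C w π γ, s < k ∧ k + s ≤ H) then a H π * b H γ else 0)
        ≤ K * (lam + M * E.card * us s / lam + us s))
    (hW3 : ∀ (s H : ℕ) (E : Finset G) (μ : W → ℝ≥0∞) (M lam : ℝ≥0∞), ∑' w, μ w ≤ 1 →
      (∀ w, μ w ≤ M) → lam ≠ 0 → lam ≠ ⊤ →
      ∑' w, μ w * ∑' π, ∑' γ, (if dY γ ∈ E ∧ (∃ k, k ∈ C w π γ) ∧
        (∀ k ∈ C w π γ, s < k ∧ k + s ≤ H) then a H π * b H γ else 0)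
        ≤ K * (lam + M * E.card * us s / lam + us s)) :
    ∀ u η : ℝ≥0∞, u ≠ 0 → u ≤ 1 → η ≠ 0 → ∃ s : ℕ, ∀ H : ℕ, ∃ S1 S2 : Set W,
      Good Λ ht dl (c * c * 2⁻¹ * u) η H S1 ∧ Good Λ ht dl (c * c * 2⁻¹ * u) η H S2 ∧
      ∀ w, w ∉ S1 → w ∉ S2 →
        (∑' L : List B, (if HT ht L = H ∧ CD ht dl cd L w ≠ ∅ ∧
          (∀ k ∈ CD ht dl cd L w, s < k ∧ k + s ≤ H) then LW Λ L else 0)) ≤ u * u + η := by
  intro u η hu hu1 hη
  have hut : u ≠ ⊤ := ne_top_of_le_ne_top ENNReal.one_ne_top hu1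
  -- the thresholds
  set K2 : ℝ≥0∞ := 2 * K with hK2
  have hK20 : K2 ≠ 0 := mul_ne_zero (by norm_num) hK
  have hK2t : K2 ≠ ⊤ := ENNReal.mul_ne_top (by norm_num) hK'
  set η' := min η 1 with hη'
  have hη'0 : η' ≠ 0 := by rw [hη']; exact (lt_min (pos_iff_ne_zero.2 hη) one_pos).ne'
  have hη't : η' ≠ ⊤ := ne_top_of_le_ne_top ENNReal.one_ne_top (min_le_right _ _)
  set lam := η' / (4 * K2) with hlam
  have h4K : 4 * K2 ≠ 0 := mul_ne_zero (by norm_num) hK20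
  have h4K' : 4 * K2 ≠ ⊤ := ENNReal.mul_ne_top (by norm_num) hK2t
  have hl0 : lam ≠ 0 := by rw [hlam]; exact (ENNReal.div_pos hη'0 h4K').ne'
  have hlt : lam ≠ ⊤ := by rw [hlam]; exact (ENNReal.div_lt_top hη't h4K).ne
  have hll : 2 * K2 * lam + 2 * K2 * lam ≤ η := by
    calc 2 * K2 * lam + 2 * K2 * lam = (4 * K2) * lam := by ring
      _ = η' := by rw [hlam]; exact ENNReal.mul_div_cancel h4K h4K'
      _ ≤ η := min_le_left _ _
  have hll0 : lam * lam ≠ 0 := mul_ne_zero hl0 hl0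
  have hllt : lam * lam ≠ ⊤ := ENNReal.mul_ne_top hlt hlt
  obtain ⟨s, hs'⟩ := hus (min lam (η' * 2⁻¹ * (lam * lam)))
    (lt_min (pos_iff_ne_zero.2 hl0)
      (pos_iff_ne_zero.2 (mul_ne_zero (mul_ne_zero hη'0 (by simp)) hll0))).ne'
  have hs : us s ≤ η' * 2⁻¹ * (lam * lam) := hs'.trans (min_le_right _ _)
  have hsl : us s ≤ lam := hs'.trans (min_le_left _ _)
  have hbnd : ∀ x : ℝ≥0∞, K * (lam + x + us s) ≤ K2 * (lam + x) := by
    intro x
    calc K * (lam + x + us s) ≤ K * (lam + x + lam) := by gcongr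
      _ ≤ K * (lam + x + (lam + x)) := by gcongr; exact le_self_add
      _ = K2 * (lam + x) := by rw [hK2]; ring
  have hδ : 2 * (us s / (lam * lam)) ≤ η := by
    have h5 : us s / (lam * lam) ≤ η' * 2⁻¹ :=
      (ENNReal.div_le_iff_le_mul (Or.inl hll0) (Or.inl hllt)).2 hs
    calc 2 * (us s / (lam * lam)) ≤ 2 * (η' * 2⁻¹) := mul_le_mul_right h5 _
      _ = (2 * 2⁻¹) * η' := by ring
      _ = η' := by rw [ENNReal.mul_inv_cancel (by norm_num) (by norm_num), one_mul]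
      _ ≤ η := min_le_left _ _
  refine ⟨s, fun H => ?_⟩
  set u2 := u * 2⁻¹ with hu2
  have hu20 : u2 ≠ 0 := mul_ne_zero hu (by simp)
  have hu21 : u2 < 1 := by
    calc u * 2⁻¹ ≤ 1 * 2⁻¹ := mul_le_mul_left hu1 _
      _ < 1 := by rw [one_mul]; exact ENNReal.inv_lt_one.2 (by norm_num)
  have hu2u : u2 ≤ u := by
    calc u * 2⁻¹ ≤ u * 1 := mul_le_mul_right (ENNReal.inv_le_one.2 (by norm_num)) _
      _ = u := mul_one u
  obtain ⟨R, hR⟩ : ∃ R : W → P → Q → Prop, ∀ w π γ, R w π γ ↔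
      ((∃ k, k ∈ C w π γ) ∧ (∀ k ∈ C w π γ, s < k ∧ k + s ≤ H)) := ⟨_, fun _ _ _ => Iff.rfl⟩
  obtain ⟨S1, E, hG1, hS1, hE⟩ := half Λ ht dl cat v dX dY (a H) (b H) H (hcat H) hact c hc
    (ha H) (ha1 H) (hb H) (hb1 H) R K2 lam (us s) hK20 hK2t hl0 hlt
    (fun E μ M h h' => by
      refine le_trans (le_of_eq ?_) ((hW2 s H E μ M lam h h' hl0 hlt).trans (hbnd _))
      refine tsum_congr fun w => ?_
      congr 1
      exact tsum_congr fun π => tsum_congr fun γ => if_congr (by rw [hR]) rfl rfl)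
    u2 hu20 hu21 η hδ
  obtain ⟨S2, E', hG2, hS2, hE'⟩ := half Λ ht dl (fun L => ((cat L).2, (cat L).1)) v dY dX
    (b H) (a H) H
    (fun F => by
      have := hcat H (fun π γ => F γ π)
      rw [show (∑' γ, ∑' π, b H γ * a H π * F γ π) = ∑' π, ∑' γ, a H π * b H γ * F γ π by
        rw [ENNReal.tsum_comm]
        exact tsum_congr fun π => tsum_congr fun γ => by ring]
      exact this)
    (fun L w => by rw [hact]; abel) c hc
    (hb H) (hb1 H) (ha H) (ha1 H) (fun w γ π => R w π γ) K2 lam (us s) hK20 hK2t hl0 hlt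
    (fun E μ M h h' => by
      have := (hW3 s H E μ M lam h h' hl0 hlt).trans (hbnd _)
      refine le_trans (le_of_eq ?_) this
      refine tsum_congr fun w => ?_
      congr 1
      rw [ENNReal.tsum_comm]
      refine tsum_congr fun π => tsum_congr fun γ => ?_
      rw [mul_comm (b H γ)]
      exact if_congr (by rw [hR]) rfl rfl) u2 hu20 hu21 η hδ
  have hq : c * c * 2⁻¹ * u = c * u2 * c := by rw [hu2]; ring
  rw [hq]
  refine ⟨S1, S2, hG1, hG2, fun w hw1 hw2 => ?_⟩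
  have e1 : (∑' L : List B, (if HT ht L = H ∧ CD ht dl cd L w ≠ ∅ ∧
          (∀ k ∈ CD ht dl cd L w, s < k ∧ k + s ≤ H) then LW Λ L else 0))
      ≤ ∑' L, (if HT ht L = H then LW Λ L *
        (fun (π : P) (γ : Q) => if R w π γ then (1 : ℝ≥0∞) else 0) (cat L).1 (cat L).2 else 0) := by
    refine ENNReal.tsum_le_tsum fun L => ?_
    by_cases hh : HT ht L = H ∧ CD ht dl cd L w ≠ ∅ ∧
          (∀ k ∈ CD ht dl cd L w, s < k ∧ k + s ≤ H)
    · have h5 : R w (cat L).1 (cat L).2 := by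
        rw [hCD] at hh
        exact (hR _ _ _).2 ⟨Set.nonempty_iff_ne_empty.2 hh.2.1, hh.2.2⟩
      simp only
      rw [if_pos hh, if_pos hh.1, if_pos h5, mul_one]
    · rw [if_neg hh]; exact zero_le
  refine e1.trans ((hcat H (fun π γ => if R w π γ then (1 : ℝ≥0∞) else 0)).le.trans ?_)
  have h6 : ∀ π γ, a H π * b H γ * (if R w π γ then (1 : ℝ≥0∞) else 0)
      ≤ (if dX π ∈ E ∧ R w π γ then a H π * b H γ else 0)
        + (if dY γ ∈ E' ∧ R w π γ then b H γ * a H π else 0)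
        + (if dX π ∈ E then 0 else a H π) * (if dY γ ∈ E' then 0 else b H γ) := by
    intro π γ
    by_cases h7 : R w π γ
    · rw [if_pos h7, mul_one]
      by_cases h8 : dX π ∈ E
      · rw [if_pos (⟨h8, h7⟩ : dX π ∈ E ∧ R w π γ)]
        exact le_add_right (le_add_right le_rfl)
      · by_cases h9 : dY γ ∈ E'
        · rw [if_pos (⟨h9, h7⟩ : dY γ ∈ E' ∧ R w π γ), mul_comm (b H γ)]
          exact le_add_right (le_add_left le_rfl)
        · rw [if_neg h8, if_neg h9]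
          exact le_add_left le_rfl
    · rw [if_neg h7, mul_zero]; exact zero_le
  calc ∑' π, ∑' γ, a H π * b H γ * (if R w π γ then (1 : ℝ≥0∞) else 0)
      ≤ ∑' π, ∑' γ, ((if dX π ∈ E ∧ R w π γ then a H π * b H γ else 0)
        + (if dY γ ∈ E' ∧ R w π γ then b H γ * a H π else 0)
        + (if dX π ∈ E then 0 else a H π) * (if dY γ ∈ E' then 0 else b H γ)) :=
        ENNReal.tsum_le_tsum fun π => ENNReal.tsum_le_tsum fun γ => h6 π γ
    _ = (∑' π, ∑' γ, (if dX π ∈ E ∧ R w π γ then a H π * b H γ else 0))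
        + (∑' π, ∑' γ, (if dY γ ∈ E' ∧ R w π γ then b H γ * a H π else 0))
        + ∑' π, ∑' γ, (if dX π ∈ E then 0 else a H π) * (if dY γ ∈ E' then 0 else b H γ) := by
        rw [← ENNReal.tsum_add, ← ENNReal.tsum_add]
        refine tsum_congr fun π => ?_
        rw [ENNReal.tsum_add, ENNReal.tsum_add]
    _ ≤ 2 * K2 * lam + 2 * K2 * lam + u * u := by
        refine add_le_add (add_le_add (hS1 w hw1) ?_) ?_
        · rw [ENNReal.tsum_comm]
          exact hS2 w hw2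
        · calc _ = (∑' π, (if dX π ∈ E then 0 else a H π)) *
                ∑' γ, (if dY γ ∈ E' then 0 else b H γ) := by
                rw [← ENNReal.tsum_mul_right]
                exact tsum_congr fun π => ENNReal.tsum_mul_left
            _ ≤ u * u := mul_le_mul' (hE.trans hu2u) (hE'.trans hu2u)
    _ ≤ η + u * u := add_le_add_left hll _
    _ = u * u + η := add_comm _ _

end abs

variable {d : ℕ}

lemma act_endp (u : Step d) (L : List (PB u)) (w : Lat u) :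
    (act (dl u) L w).1 = w.1 + Flux566.endp 0 (cat L).1 + Flux566.endp 0 (cat L).2 := by
  induction L generalizing w with
  | nil => simp [act, cat, Flux566.endp]
  | cons b L ih =>
    rw [act, ih]
    change dlp b.1 w.1 + _ + _ = w.1 + Flux566.endp 0 ((cat L).1 ++ b.1.1)
      + Flux566.endp 0 (b.1.2 ++ (cat L).2)
    rw [Flux566.endp_append, Flux566.endp_append, Flux566.endp_eq_add b.1.1,
      Flux566.endp_eq_add (cat L).2 (Flux566.endp 0 b.1.2)]
    unfold dlp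
    abel

open Classical in
lemma ext_meas (u : Step d) (μ : Lat u → ℝ≥0∞) (M : ℝ≥0∞) (h1 : ∑' w, μ w ≤ 1)
    (hM : ∀ w, μ w ≤ M) :
    ∃ μ' : Site d → ℝ≥0∞, (∀ w : Lat u, μ' w.1 = μ w) ∧ ∑' x, μ' x ≤ 1 ∧ ∀ x, μ' x ≤ M := by
  refine ⟨fun x => if h : Flux566.lev u x = 0 then μ ⟨x, h⟩ else 0, fun w => ?_, ?_, fun x => ?_⟩
  · exact dif_pos w.2
  · refine le_trans (le_of_eq ?_) h1
    have e := (Subtype.val_injective (p := fun w : Site d => Flux566.lev u w = 0)).tsum_eq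
      (f := fun x => if h : Flux566.lev u x = 0 then μ ⟨x, h⟩ else 0) (by
        intro x hx
        by_cases h : Flux566.lev u x = 0
        · exact ⟨⟨x, h⟩, rfl⟩
        · exact absurd (dif_neg h) hx)
    rw [← e]
    exact tsum_congr fun w => dif_pos w.2
  · by_cases h : Flux566.lev u x = 0
    · simp only [dif_pos h]; exact hM _
    · simp only [dif_neg h]; exact zero_le

open Classical in
lemma toSite (u : Step d) (μ : Lat u → ℝ≥0∞) (μ' : Site d → ℝ≥0∞)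
    (hμ : ∀ w : Lat u, μ' w.1 = μ w)
    (Φ : Lat u → ℝ≥0∞) (Ψ : Site d → ℝ≥0∞) (h : ∀ w : Lat u, Φ w ≤ Ψ w.1) :
    ∑' w : Lat u, μ w * Φ w ≤ ∑' x, (if Flux132.lev u x = 0 then μ' x * Ψ x else 0) := by
  set F : Site d → ℝ≥0∞ := fun x => if Flux132.lev u x = 0 then μ' x * Ψ x else 0 with hF
  have h2 : ∑' w : Lat u, F w.1 ≤ ∑' x, F x :=
    ENNReal.tsum_comp_le_tsum_of_injective
      (Subtype.val_injective (p := fun w : Site d => Flux566.lev u w = 0)) F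
  refine le_trans (ENNReal.tsum_le_tsum fun w => ?_) h2
  have h3 : Flux132.lev u w.1 = 0 := w.2
  rw [hF]
  simp only [if_pos h3]
  rw [hμ w]
  exact mul_le_mul_right (h w) _

open Classical in
theorem hwin (ν : Measure (Row d)) [IsProbabilityMeasure ν]
    (hν : ∀ᵐ p ∂ν, ∀ e : Step d, 0 < p.1 e) (u : Step d)
    (hA : annealed (iidEnvironmentLaw ν) 0 (escapeEvent (B2d.dirVec u)) ≠ 0)
    (c : ℝ≥0∞) (hc : c ≠ 0) (hc1 : c ≤ 1)
    (hup : ∀ n : ℕ, c ≤ ∑' π : List (Step d), if IsUp u n π then NB28.aw ν π else 0)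
    (hdn : ∀ n : ℕ, c ≤ ∑' γ : List (Step d), if IsDn u n γ then NB28.aw ν γ else 0) :
    KB169.HWinSt (Lam ν u) (ht u) (dl u) (cd u) := by
  have hU : ∀ n, c * c ≤ U (Lam ν u) (ht u) n := fun n => by
    rw [U_eq28]; exact mul_le_mul' (hup n) (hdn n)
  have hU1 := HSl169.U_le_one ν u
  have hcc : c * c ≠ 0 := mul_ne_zero hc hc
  have h1 : ∀ b, 1 ≤ ht u b := one_le_hb
  have hΛ : ∑' b, Lam ν u b = 1 :=
    le_antisymm (mass_le_one _ _ h1 hU1) (mass_ge_one _ _ (c * c) hcc 0 fun n _ => hU n)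
  have hct : c * c ≠ ⊤ := ne_top_of_le_ne_top ENNReal.one_ne_top (mul_le_one' hc1 hc1)
  have hE : ∑' k, tail (Lam ν u) (ht u) k ≤ (c * c)⁻¹ := by
    rw [← sum_tail (Lam ν u) (ht u) hΛ]
    exact mean_le (Lam ν u) (ht u) h1 hΛ (c * c) hcc hct 0 fun n _ => hU n
  have htl : Tendsto (fun H : ℕ => ∑' k, tail (Lam ν u) (ht u) (H + k)) atTop (𝓝 0) := by
    have h0 := ENNReal.tendsto_sum_nat_add (fun k => tail (Lam ν u) (ht u) k)
      (ne_top_of_le_ne_top (ENNReal.inv_ne_top.2 hcc) hE)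
    refine h0.congr fun i => ?_
    exact tsum_congr fun k => by rw [add_comm]
  have hA' : annealedProb (iidEnvironmentLaw ν) 0 (escapeEvent (Flux566.dir u)) ≠ 0 := by
    rw [annealed_apply _ 0 (B2d.measurableSet_escapeEvent _)] at hA
    exact hA
  have hhalf : (2 : ℝ≥0∞)⁻¹ ≤ 1 := ENNReal.inv_le_one.2 (by norm_num)
  refine HWb597.hWin_of (Lam ν u) (ht u) (dl u) (cd u) h1 hΛ hU1 (hinj u) htl (c * c * 2⁻¹)
    (mul_ne_zero hcc (by simp)) (mul_le_one' (mul_le_one' hc1 hc1) hhalf) ?_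
  have key := hW_of' (Lam ν u) (ht u) (dl u) (cd u) cat (fun w : Lat u => w.1)
    (Flux566.endp 0) (Flux566.endp 0)
    (fun H π => if IsUp u H π then NB28.aw ν π else 0)
    (fun H γ => if IsDn u H γ then NB28.aw ν γ else 0)
    (fun w π γ => Cm u w.1 π γ)
    (fun H F => by
      refine (tsum_L ν u H (fun x => F x.1 x.2)).trans ?_
      refine tsum_congr fun π => tsum_congr fun γ => ?_
      by_cases h2 : IsUp u H π <;> by_cases h3 : IsDn u H γ <;> simp [h2, h3])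
    (fun L w => act_endp u L w)
    (fun L w => by rw [CD_cat]; exact cds_eq u _ _ _)
    c hc hup
    (fun H => sum_if_le_one ν fun l l' h h' hp => NB28.isUp_prefix h h' hp)
    hdn
    (fun H => sum_if_le_one ν fun l l' h h' hp => NB28.isDn_prefix h h' hp)
    (E23W.us ν u)
    (fun ε hε => by
      obtain ⟨s0, hs0⟩ := E23W.us_small ν hν u hA' ε hε
      exact ⟨s0, hs0 s0 le_rfl⟩)
    8 (by norm_num) (by norm_num)
    (fun s H E μ M lam hμ hM hl hl' => by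
      obtain ⟨μ', e1, e2, e3⟩ := ext_meas u μ M hμ hM
      refine le_trans (toSite u μ μ' e1 _ _ fun w => ?_) (E23W.e2 ν u s H E μ' M lam e2 e3 hl hl')
      refine ENNReal.tsum_le_tsum fun π => ENNReal.tsum_le_tsum fun γ => ?_
      by_cases h2 : IsUp u H π
      · by_cases h3 : IsDn u H γ
        · rw [if_pos h2, if_pos h3]
          by_cases h4 : Flux566.endp 0 π ∈ E ∧ (∃ k, k ∈ Cm u w.1 π γ) ∧
            (∀ k ∈ Cm u w.1 π γ, s < k ∧ k + s ≤ H)
          · rw [if_pos h4, if_pos ⟨h2, h4.1, h3, h4.2.1, fun k hk => (h4.2.2 k hk).1⟩]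
          · rw [if_neg h4]; exact zero_le
        · rw [if_neg h3, mul_zero, ite_self]; exact zero_le
      · rw [if_neg h2, zero_mul, ite_self]; exact zero_le)
    (fun s H E μ M lam hμ hM hl hl' => by
      obtain ⟨μ', e1, e2, e3⟩ := ext_meas u μ M hμ hM
      refine le_trans (toSite u μ μ' e1 _ _ fun w => ?_) (E23W.e3 ν u s H E μ' M lam e2 e3 hl hl')
      refine ENNReal.tsum_le_tsum fun π => ENNReal.tsum_le_tsum fun γ => ?_
      by_cases h2 : IsUp u H π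
      · by_cases h3 : IsDn u H γ
        · rw [if_pos h2, if_pos h3]
          by_cases h4 : Flux566.endp 0 γ ∈ E ∧ (∃ k, k ∈ Cm u w.1 π γ) ∧
            (∀ k ∈ Cm u w.1 π γ, s < k ∧ k + s ≤ H)
          · rw [if_pos h4, if_pos ⟨h2, h4.1, h3, h4.2.1, fun k hk => (h4.2.2 k hk).2⟩]
          · rw [if_neg h4]; exact zero_le
        · rw [if_neg h3, mul_zero, ite_self]; exact zero_le
      · rw [if_neg h2, zero_mul, ite_self]; exact zero_le)
  intro v η hv hv1 hη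
  obtain ⟨s, hs⟩ := key v η hv hv1 hη
  exact ⟨s, 0, fun H _ => hs H⟩

theorem kappaAll : NB28.KappaAll := by
  intro d hd ν _ hν u hA hB
  obtain ⟨c, hc, hc1, hup, hdn⟩ := WM286.mass_pos ν hν u hA hB
  exact KB169.kappaW_of ν (by omega) hν u c hc hup hdn (hwin ν hν u hA c hc hc1 hup hdn)

theorem nbProp : Spine.NBProp := NB28.nb_of_kappaW kappaAll

end Crest.Agent.R154.KA55
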