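import Crest.Agent.R154.E23_556
import Crest.Agent.R154.HW_280
import Crest.Agent.R154.HWb_597
import Crest.Agent.R154.KB_818
import Crest.Agent.R154.NBTop_28

/-! Row 154 (helper556): `NB28.KappaAll` and `Spine.NBProp`: binding of frame B (joint cuts):
E2, E3 (386, 775) -> hW (280) -> hWin (139, 597) -> KappaW (818, 657, 169, 583, 286) -> NBProp (28). -/

set_option autoImplicit false

namespace Crest.Agent.R154.KA556

open MeasureTheory ProbabilityTheory Crest.ProbabilityR.RandomEnvironment Crest.Agent.R154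
open Crest.Agent.R154.B5A Crest.Agent.R154.B5W
open Crest.Agent.R154.NB28 (IsUp IsDn KappaW KappaAll)
open Filter
open scoped ENNReal Topology

variable {d : ℕ}

lemma e2 (ν : Measure (Row d)) [IsProbabilityMeasure ν] (u : Step d) :
    HW280.E2 ν u 4 (Us778.us ν u) := by
  classical
  intro s H E μ M lam h1 hM hl hl'
  refine le_trans (le_of_eq ?_) ((E23.E2 ν u s H E μ M lam h1 hM hl hl').trans ?_)
  · refine tsum_congr fun x => if_congr Iff.rfl ?_ rfl
    unfold HW280.PhiX
    congr 1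
    refine tsum_congr fun π => tsum_congr fun γ => if_congr ?_ rfl rfl
    tauto
  · calc _ ≤ 1 * (lam + M * E.card * Us778.us ν u s / lam + Us778.us ν u s) := by rw [one_mul]
      _ ≤ _ := by gcongr; norm_num

lemma e3 (ν : Measure (Row d)) [IsProbabilityMeasure ν] (u : Step d) :
    HW280.E3 ν u 4 (Us778.us ν u) := by
  classical
  intro s H E μ M lam h1 hM hl hl'
  refine le_trans (le_of_eq ?_) ((E23.E3 ν u s H E μ M lam h1 hM hl hl').trans ?_)
  · refine tsum_congr fun x => if_congr Iff.rfl ?_ rfl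
    unfold HW280.PhiY
    congr 1
    refine tsum_congr fun π => tsum_congr fun γ => if_congr ?_ rfl rfl
    tauto
  · calc 4 * lam + M * E.card * Us778.us ν u s / lam
        ≤ 4 * lam + 4 * (M * E.card * Us778.us ν u s / lam) := by
          gcongr
          exact le_mul_of_one_le_left' (by norm_num)
      _ ≤ 4 * lam + 4 * (M * E.card * Us778.us ν u s / lam) + 4 * Us778.us ν u s := le_self_add
      _ = _ := by ring

/-- the window estimate -/
theorem hWin (ν : Measure (Row d)) [IsProbabilityMeasure ν]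
    (hν : ∀ᵐ p ∂ν, ∀ e : Step d, 0 < p.1 e) (u : Step d)
    (hA : annealed (iidEnvironmentLaw ν) 0 (escapeEvent (B2d.dirVec u)) ≠ 0)
    (hB : annealed (iidEnvironmentLaw ν) 0 (escapeEvent (-B2d.dirVec u)) ≠ 0) :
    KB818.HWin ν u := by
  obtain ⟨c, hc, -, h1, h2⟩ := WM286.mass_pos ν hν u hA hB
  have hU : ∀ n, c * c ≤ U (Lam ν u) (ht u) n := fun n => by
    rw [U_eq28]; exact mul_le_mul' (h1 n) (h2 n)
  have hU1 : ∀ n, U (Lam ν u) (ht u) n ≤ 1 := fun n => by
    rw [U_eq28]
    exact mul_le_one' (sum_if_le_one ν fun l l' h h' hp => NB28.isUp_prefix h h' hp)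
      (sum_if_le_one ν fun l l' h h' hp => NB28.isDn_prefix h h' hp)
  have hcc : c * c ≤ 1 := (hU 0).trans (hU1 0)
  have hcc0 : c * c ≠ 0 := mul_ne_zero hc hc
  have hcct : c * c ≠ ⊤ := ne_top_of_le_ne_top ENNReal.one_ne_top hcc
  have hΛ : ∑' b, Lam ν u b = 1 :=
    le_antisymm (mass_le_one (Lam ν u) (ht u) one_le_hb hU1)
      (mass_ge_one (Lam ν u) (ht u) (c * c) hcc0 0 (fun n _ => hU n))
  have hmean : ∑' k, tail (Lam ν u) (ht u) k ≠ ⊤ := by
    rw [← sum_tail (Lam ν u) (ht u) hΛ]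
    exact ne_top_of_le_ne_top (ENNReal.inv_ne_top.2 hcc0)
      (mean_le (Lam ν u) (ht u) one_le_hb hΛ (c * c) hcc0 hcct 0 (fun n _ => hU n))
  have htl : Tendsto (fun H : ℕ => ∑' k, tail (Lam ν u) (ht u) (H + k)) atTop (𝓝 0) := by
    have := ENNReal.tendsto_sum_nat_add (fun k => tail (Lam ν u) (ht u) k) hmean
    refine this.congr fun H => ?_
    exact tsum_congr fun k => by rw [add_comm]
  have hus : Tendsto (Us778.us ν u) atTop (𝓝 0) := by
    refine Us778.us_tendsto_zero ν hν u ?_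
    rw [annealed_apply (iidEnvironmentLaw ν) 0 (B2d.measurableSet_escapeEvent _)] at hA
    exact hA
  exact HWb597.hWin_of (Lam ν u) (ht u) (dl u) (cd u) one_le_hb hΛ hU1 (hinj u) htl (c * c)
    hcc0 hcc fun v η hv hv1 hη =>
      HW280.hW ν u c h1 h2 4 (by norm_num) (Us778.us ν u) hus (e2 ν u) (e3 ν u) v η hv hv1 hη

/-- **`KAPPA'`** -/
theorem kappaAll : NB28.KappaAll :=
  KB818.kappaAll_of fun _ _ ν _ hν u hA hB => hWin ν hν u hA hB

/-- **`NBProp`** -/
theorem nbProp : Spine.NBProp := NB28.nb_of_kappaW kappaAll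

end Crest.Agent.R154.KA556
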