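import Crest.Agent.R154.BindF_557
import Crest.Agent.R154.NBTop_28
import Crest.Agent.R154.Fin2_154_843

/-! Row 154 (helper557): `Spine.NBProp` (spare closure of frame B: 803's window theorem, 657's `e2` / `e3`). -/

set_option autoImplicit false

namespace Crest.Agent.R154.BindF557

open Crest.Agent.R154

theorem kappaAll : NB28.KappaAll :=
  KB818.kappaAll_of fun _ _ ν _ hν u hA hB => hWin ν hν u hA hB

theorem nbProp : Spine.NBProp := NB28.nb_of_kappaW kappaAll

end Crest.Agent.R154.BindF557
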