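import Crest.Agent.R154.E2_934
import Crest.Agent.R154.HW_334
import Crest.Agent.R154.JAsm_139
import Crest.Agent.R154.HSl_689
import Crest.Agent.R154.NBTop_28

/-! Row 154 (helper573), ROAD 801, frame B: the composition. 934's window lemmas E2, E3, 334's `hW_of`,
139's assembly `kap1_of`, 689's slab, 657's bridge: `KappaAll`. -/

set_option autoImplicit false

open MeasureTheory ProbabilityTheory Crest.ProbabilityR.RandomEnvironment
open scoped ENNReal

namespace Crest.Agent.R154.KA573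

open Crest.Agent.R154.B5A Crest.Agent.R154.B5W
open Crest.Agent.R154.NB28 (IsUp IsDn Cm KW KappaW)
open Crest.Agent.R154.Flux566 (endp)

variable {d : ℕ} (ν : Measure (Row d)) [IsProbabilityMeasure ν] (u : Step d)

open Classical in
/-- up masses -/
noncomputable def upm (H : ℕ) (π : List (Step d)) : ℝ≥0∞ := if IsUp u H π then NB28.aw ν π else 0

open Classical in
/-- down masses -/
noncomputable def dnm (H : ℕ) (π : List (Step d)) : ℝ≥0∞ := if IsDn u H π then NB28.aw ν π else 0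

open Classical in
/-- a weight on the lateral sites, extended by zero -/
noncomputable def ext (μ : Lat u → ℝ≥0∞) (x : Site d) : ℝ≥0∞ :=
  if h : Flux566.lev u x = 0 then μ ⟨x, h⟩ else 0

open Classical in
lemma lat_sum (μ : Lat u → ℝ≥0∞) (F : Site d → ℝ≥0∞) :
    ∑' w : Lat u, μ w * F w.1 = ∑' x : Site d, (if Flux132.lev u x = 0 then ext u μ x * F x else 0) := by
  have h1 := tsum_subtype {x : Site d | Flux566.lev u x = 0} (fun x => ext u μ x * F x)
  calc ∑' w : Lat u, μ w * F w.1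
      = ∑' x : {x : Site d | Flux566.lev u x = 0}, ext u μ x.1 * F x.1 := by
        refine tsum_congr fun w => ?_
        have : ext u μ w.1 = μ w := by
          unfold ext
          rw [dif_pos w.2]
          exact congrArg μ (Subtype.ext rfl)
        rw [this]
    _ = _ := h1
    _ = _ := by
        refine tsum_congr fun x => ?_
        rw [Set.indicator_apply]
        rfl

lemma ext_sum (μ : Lat u → ℝ≥0∞) : ∑' x, ext u μ x = ∑' w, μ w := by
  classical
  have h := lat_sum u μ (fun _ => 1)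
  simp only [mul_one] at h
  rw [h]
  refine tsum_congr fun x => ?_
  by_cases hx : Flux132.lev u x = 0
  · rw [if_pos hx]
  · rw [if_neg hx]
    unfold ext
    exact dif_neg hx

lemma ext_le (μ : Lat u → ℝ≥0∞) (M : ℝ≥0∞) (h : ∀ w, μ w ≤ M) (x : Site d) : ext u μ x ≤ M := by
  unfold ext
  split_ifs
  · exact h _
  · exact zero_le

/-- both return masses -/
noncomputable def uu (s : ℕ) : ℝ≥0∞ := E934.us ν u s + E934.us ν (Flux132.opp u) s

lemma uu_small (ε : ℝ≥0∞) (hε : ε ≠ 0) : ∃ s, uu ν u s ≤ ε := by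
  have h2 : ε / 2 ≠ 0 := (ENNReal.half_pos hε).ne'
  obtain ⟨s1, h1⟩ := E934.us_small ν u (ε / 2) h2
  obtain ⟨s2, h3⟩ := E934.us_small ν (Flux132.opp u) (ε / 2) h2
  refine ⟨max s1 s2, ?_⟩
  calc uu ν u (max s1 s2) ≤ ε / 2 + ε / 2 :=
        add_le_add (h1 _ (le_max_left _ _)) (h3 _ (le_max_right _ _))
    _ = ε := ENNReal.add_halves ε

open Classical in
lemma w2 (s H : ℕ) (E : Finset (Site d)) (μ : Lat u → ℝ≥0∞) (M lam : ℝ≥0∞)
    (hμ : ∑' w, μ w ≤ 1) (hM : ∀ w, μ w ≤ M) (hl : lam ≠ 0) (hl' : lam ≠ ⊤) :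
    ∑' w : Lat u, μ w * ∑' π : List (Step d), ∑' γ : List (Step d),
      (if endp 0 π ∈ E ∧ (∃ k, k ∈ Cm u w.1 π γ) ∧
        (∀ k ∈ Cm u w.1 π γ, s < k ∧ k + s ≤ H) then upm ν u H π * dnm ν u H γ else 0)
      ≤ 8 * (lam + M * E.card * uu ν u s / lam) := by
  rw [lat_sum u μ (fun x => ∑' π : List (Step d), ∑' γ : List (Step d),
      (if endp 0 π ∈ E ∧ (∃ k, k ∈ Cm u x π γ) ∧
        (∀ k ∈ Cm u x π γ, s < k ∧ k + s ≤ H) then upm ν u H π * dnm ν u H γ else 0))]
  have key := E934.E2 (ν := ν) (u := u) s H E (ext u μ) M lam (by rw [ext_sum]; exact hμ)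
    (ext_le u μ M hM) hl hl'
  calc _ ≤ ∑' x : Site d, (if Flux132.lev u x = 0 then ext u μ x * ∑' π : List (Step d),
        ∑' γ : List (Step d), (if IsUp u H π ∧ endp 0 π ∈ E ∧ IsDn u H γ ∧
        (∃ k, k ∈ Cm u x π γ) ∧ (∀ k ∈ Cm u x π γ, s < k) then NB28.aw ν π * NB28.aw ν γ else 0)
        else 0) := by
        refine ENNReal.tsum_le_tsum fun x => ?_
        split_ifs with hx
        · refine mul_le_mul_right ?_ _
          refine ENNReal.tsum_le_tsum fun π => ENNReal.tsum_le_tsum fun γ => ?_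
          by_cases h : endp 0 π ∈ E ∧ (∃ k, k ∈ Cm u x π γ) ∧
            (∀ k ∈ Cm u x π γ, s < k ∧ k + s ≤ H)
          · rw [if_pos h]
            unfold upm dnm
            by_cases hp : IsUp u H π
            · by_cases hg : IsDn u H γ
              · rw [if_pos hp, if_pos hg, if_pos ⟨hp, h.1, hg, h.2.1, fun k hk => (h.2.2 k hk).1⟩]
              · rw [if_neg hg, mul_zero]; exact zero_le
            · rw [if_neg hp, zero_mul]; exact zero_le
          · rw [if_neg h]; exact zero_le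
        · exact le_rfl
    _ ≤ lam + M * (E.card * E934.us ν u s) / lam := key
    _ ≤ lam + M * E.card * uu ν u s / lam := by
        refine add_le_add le_rfl ?_
        rw [← mul_assoc]
        exact ENNReal.div_le_div_right (mul_le_mul_right le_self_add _) _
    _ = 1 * (lam + M * E.card * uu ν u s / lam) := (one_mul _).symm
    _ ≤ _ := mul_le_mul_left (by norm_num) _

open Classical in
lemma w3 (s H : ℕ) (E : Finset (Site d)) (μ : Lat u → ℝ≥0∞) (M lam : ℝ≥0∞)
    (hμ : ∑' w, μ w ≤ 1) (hM : ∀ w, μ w ≤ M) (hl : lam ≠ 0) (hl' : lam ≠ ⊤) :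
    ∑' w : Lat u, μ w * ∑' π : List (Step d), ∑' γ : List (Step d),
      (if endp 0 γ ∈ E ∧ (∃ k, k ∈ Cm u w.1 π γ) ∧
        (∀ k ∈ Cm u w.1 π γ, s < k ∧ k + s ≤ H) then upm ν u H π * dnm ν u H γ else 0)
      ≤ 8 * (lam + M * E.card * uu ν u s / lam) := by
  rw [lat_sum u μ (fun x => ∑' π : List (Step d), ∑' γ : List (Step d),
      (if endp 0 γ ∈ E ∧ (∃ k, k ∈ Cm u x π γ) ∧
        (∀ k ∈ Cm u x π γ, s < k ∧ k + s ≤ H) then upm ν u H π * dnm ν u H γ else 0))]
  have key := E934.E3 (ν := ν) (u := u) s H E (ext u μ) M lam (by rw [ext_sum]; exact hμ)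
    (ext_le u μ M hM) hl hl'
  calc _ ≤ ∑' x : Site d, (if Flux132.lev u x = 0 then ext u μ x * ∑' π : List (Step d),
        ∑' γ : List (Step d), (if IsUp u H π ∧ endp 0 γ ∈ E ∧ IsDn u H γ ∧
        (∃ k, k ∈ Cm u x π γ) ∧ (∀ k ∈ Cm u x π γ, k + s ≤ H) then NB28.aw ν π * NB28.aw ν γ else 0)
        else 0) := by
        refine ENNReal.tsum_le_tsum fun x => ?_
        split_ifs with hx
        · refine mul_le_mul_right ?_ _
          refine ENNReal.tsum_le_tsum fun π => ENNReal.tsum_le_tsum fun γ => ?_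
          by_cases h : endp 0 γ ∈ E ∧ (∃ k, k ∈ Cm u x π γ) ∧
            (∀ k ∈ Cm u x π γ, s < k ∧ k + s ≤ H)
          · rw [if_pos h]
            unfold upm dnm
            by_cases hp : IsUp u H π
            · by_cases hg : IsDn u H γ
              · rw [if_pos hp, if_pos hg, if_pos ⟨hp, h.1, hg, h.2.1, fun k hk => (h.2.2 k hk).2⟩]
              · rw [if_neg hg, mul_zero]; exact zero_le
            · rw [if_neg hp, zero_mul]; exact zero_le
          · rw [if_neg h]; exact zero_le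
        · exact le_rfl
    _ ≤ 8 * lam + 2 * (M * (E.card * E934.us ν (Flux132.opp u) s) / lam) := key
    _ ≤ 8 * lam + 8 * (M * E.card * uu ν u s / lam) := by
        refine add_le_add le_rfl (mul_le_mul' (by norm_num) ?_)
        rw [← mul_assoc]
        exact ENNReal.div_le_div_right (mul_le_mul_right le_add_self _) _
    _ = _ := (mul_add _ _ _).symm

lemma endp_pm (a b : List (Step d) × List (Step d)) :
    endp 0 (pm a b).1 + endp 0 (pm a b).2 = (endp 0 a.1 + endp 0 a.2) + (endp 0 b.1 + endp 0 b.2) := by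
  simp only [pm]
  rw [Flux566.endp_append, Flux566.endp_append, Flux566.endp_eq_add a.1, Flux566.endp_eq_add b.2]
  abel

lemma act_cat (L : List (PB u)) (w : Lat u) :
    (act (dl u) L w).1 = w.1 + endp 0 (cat L).1 + endp 0 (cat L).2 := by
  induction L generalizing w with
  | nil => simp [act, cat, endp]
  | cons b L ih =>
    rw [act, ih, add_assoc, show cat (b :: L) = pm b.1 (cat L) from rfl, add_assoc w.1, endp_pm]
    simp only [dl, dlp]
    abel

open Classical in
theorem kappaW (hd : 2 ≤ d) (hν : ∀ᵐ p ∂ν, ∀ e : Step d, 0 < p.1 e)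
    (hA : annealed (iidEnvironmentLaw ν) 0 (escapeEvent (B2d.dirVec u)) ≠ 0)
    (hB : annealed (iidEnvironmentLaw ν) 0 (escapeEvent (-B2d.dirVec u)) ≠ 0) :
    KappaW ν u := by
  obtain ⟨c, hc, hc1, hup, hdn⟩ := WM286.mass_pos ν hν u hA hB
  have hU : ∀ n, c * c ≤ U (Lam ν u) (ht u) n := fun n => by
    rw [U_eq28]; exact mul_le_mul' (hup n) (hdn n)
  have hU1 : ∀ n, U (Lam ν u) (ht u) n ≤ 1 := fun n => by
    rw [U_eq28]
    exact mul_le_one' (WM286.sum_up_le_one ν u n) (WM286.sum_dn_le_one ν u n)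
  have hWW := HW334.hW_of (Lam ν u) (ht u) (dl u) (cd u) cat (fun w : Lat u => w.1)
    (fun π : List (Step d) => endp 0 π) (fun γ : List (Step d) => endp 0 γ)
    (upm ν u) (dnm ν u) (fun w π γ => Cm u w.1 π γ)
    (fun H F => by
      have h := tsum_L ν u H (fun x => F x.1 x.2)
      refine h.trans (tsum_congr fun π => tsum_congr fun γ => ?_)
      unfold upm dnm
      by_cases hp : IsUp u H π <;> by_cases hg : IsDn u H γ <;> simp [hp, hg])
    (act_cat u)
    (fun L w => by rw [CD_cat]; exact cds_eq u (cat L).1 (cat L).2 w.1)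
    c hc (fun H => hup H) (fun H => WM286.sum_up_le_one ν u H) (fun H => hdn H)
    (fun H => WM286.sum_dn_le_one ν u H) (uu ν u) (uu_small ν u) 8 (by norm_num) (by norm_num)
    (by intro s H E μ M lam h1 h2 h3 h4; convert w2 ν u s H E μ M lam h1 h2 h3 h4)
    (by intro s H E μ M lam h1 h2 h3 h4; convert w3 ν u s H E μ M lam h1 h2 h3 h4)
  have hcc : c * c * 2⁻¹ ≤ 1 := by
    calc c * c * 2⁻¹ ≤ 1 * 1 * 1 :=
          mul_le_mul' (mul_le_mul' hc1 hc1) (ENNReal.inv_le_one.2 (by norm_num))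
      _ = 1 := by norm_num
  intro ε hε
  obtain ⟨M, hM⟩ := JAsm139.kap1_of (Lam ν u) (ht u) (dl u) (cd u) one_le_hb
    (fun w b k hk => hcd u w b k hk) (hinj u) (c * c) (mul_ne_zero hc hc) hU hU1
    (c * c * 2⁻¹) (mul_ne_zero (mul_ne_zero hc hc) (by simp)) hcc
    (fun v η hv hv1 hη => by
      obtain ⟨s, hs⟩ := hWW v η hv hv1 hη
      exact ⟨s, 0, fun H _ => hs H⟩)
    (HSl689.hSl' hd ν hν u hA hB) ε hε
  exact ⟨M, fun m hm n hn w hw => by
    have := hM m hm n hn ⟨w, hw⟩
    rwa [Kap1_eq] at this⟩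

theorem kappaAll : NB28.KappaAll := fun d hd ν _ hν u hA hB =>
  kappaW ν u (by omega) hν hA hB

theorem nbProp : Spine.NBProp := NB28.nb_of_kappaW kappaAll

end Crest.Agent.R154.KA573
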