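import Crest.Agent.R154.KB_169
import Crest.Agent.R154.KapComp_803
import Crest.Agent.R154.E23_657

/-! Row 154, ROAD 801 (helper607): glue, `KappaAll` from KB_169 + KapComp_803 + E23_657. -/

set_option autoImplicit false

open MeasureTheory ProbabilityTheory Crest.ProbabilityR.RandomEnvironment
open scoped ENNReal

namespace Crest.Agent.R154.KA607

open Crest.Agent.R154.B5A Crest.Agent.R154.B5W
open Crest.Agent.R154.Flux566 (lw endp sitesL lev lev_add lev_neg lev_zero lev_self endp_append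
  endp_eq_add)
open Crest.Agent.R154.NB28 (IsUp IsDn Cm)

variable {d : ℕ}

/-- displacement of the up word -/
def zX (u : Step d) (L : List (PB u)) : Site d := endp 0 (cat L).1

/-- minus the displacement of the down word -/
def zY (u : Step d) (L : List (PB u)) : Site d := - endp 0 (cat L).2

lemma disp (u : Step d) (L : List (PB u)) :
    endp 0 (cat L).1 + endp 0 (cat L).2 = (L.map (HSl169.dsp u)).sum := by
  induction L with
  | nil => simp [cat, endp]
  | cons b L ih =>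
    rw [List.map_cons, List.sum_cons, ← ih]
    simp only [cat, pm, endp_append, HSl169.dsp]
    rw [endp_eq_add b.1.1 (endp 0 (cat L).1), endp_eq_add (cat L).2 (endp 0 b.1.2)]
    abel

lemma hrel (u : Step d) (L' : List (PB u)) (w x : Lat u) :
    ∃ κ : Site d, ∀ A, act (dl u) (A ++ L') w = x → zX u A = zY u A + κ := by
  refine ⟨x.1 - w.1 - (L'.map (HSl169.dsp u)).sum, fun A h => ?_⟩
  have h1 := congrArg Subtype.val h
  rw [HSl169.act_val, List.map_append, List.sum_append, ← disp u A] at h1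
  rw [zX, zY, ← h1]
  abel

open Classical in
lemma push (P : List (Step d) → Prop) (f : List (Step d) → Site d) (w : List (Step d) → ℝ≥0∞)
    (G : Site d → ℝ≥0∞) :
    ∑' z, (∑' l, if P l ∧ f l = z then w l else 0) * G z
      = ∑' l, if P l then w l * G (f l) else 0 := by
  simp_rw [← ENNReal.tsum_mul_right]
  rw [ENNReal.tsum_comm]
  refine tsum_congr fun l => ?_
  rw [tsum_eq_single (f l)]
  · by_cases h : P l
    · rw [if_pos ⟨h, rfl⟩, if_pos h]
    · rw [if_neg (fun h' => h h'.1), if_neg h, zero_mul]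
  · intro z hz
    rw [if_neg (fun h' => hz h'.2.symm), zero_mul]

variable (ν : Measure (Row d)) [IsProbabilityMeasure ν]

open Classical in
lemma up_le_one (u : Step d) (n : ℕ) :
    ∑' π : List (Step d), (if IsUp u n π then NB28.aw ν π else 0) ≤ 1 :=
  sum_if_le_one ν fun l l' h h' hp => NB28.isUp_prefix h h' hp

open Classical in
lemma dn_le_one (u : Step d) (n : ℕ) :
    ∑' π : List (Step d), (if IsDn u n π then NB28.aw ν π else 0) ≤ 1 :=
  sum_if_le_one ν fun l l' h h' hp => NB28.isDn_prefix h h' hp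

open Classical in
lemma hprod (u : Step d) (H : ℕ) : ∃ a b : Site d → ℝ≥0∞, ∑' z, a z ≤ 1 ∧ ∑' z, b z ≤ 1 ∧
    ∀ F : Site d → Site d → ℝ≥0∞,
      (∑' L : List (PB u), if HT (ht u) L = H then LW (Lam ν u) L * F (zX u L) (zY u L) else 0)
        = ∑' x, ∑' y, a x * b y * F x y := by
  refine ⟨fun z => ∑' l, if IsUp u H l ∧ endp 0 l = z then NB28.aw ν l else 0,
    fun z => ∑' l, if IsDn u H l ∧ - endp 0 l = z then NB28.aw ν l else 0, ?_, ?_, ?_⟩
  · have h := push (IsUp u H) (fun l => endp 0 l) (NB28.aw ν) (fun _ => 1)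
    simp only [mul_one] at h
    exact h.le.trans (up_le_one ν u H)
  · have h := push (IsDn u H) (fun l => - endp 0 l) (NB28.aw ν) (fun _ => 1)
    simp only [mul_one] at h
    exact h.le.trans (dn_le_one ν u H)
  · intro F
    have h0 := tsum_L ν u H (fun c => F (endp 0 c.1) (- endp 0 c.2))
    refine Eq.trans ?_ (h0.trans ?_)
    · rfl
    · symm
      have h1 : ∀ x y, (∑' l, if IsUp u H l ∧ endp 0 l = x then NB28.aw ν l else 0)
          * (∑' l, if IsDn u H l ∧ - endp 0 l = y then NB28.aw ν l else 0) * F x y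
          = (∑' l, if IsUp u H l ∧ endp 0 l = x then NB28.aw ν l else 0)
          * ((∑' l, if IsDn u H l ∧ - endp 0 l = y then NB28.aw ν l else 0) * F x y) :=
        fun x y => mul_assoc _ _ _
      simp_rw [h1, ENNReal.tsum_mul_left]
      rw [push (IsUp u H) (fun l => endp 0 l) (NB28.aw ν)]
      refine tsum_congr fun π => ?_
      by_cases hπ : IsUp u H π
      · rw [if_pos hπ, push (IsDn u H) (fun l => - endp 0 l) (NB28.aw ν), ← ENNReal.tsum_mul_left]
        refine tsum_congr fun γ => ?_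
        by_cases hγ : IsDn u H γ
        · rw [if_pos hγ, if_pos ⟨hπ, hγ⟩, mul_assoc]
        · rw [if_neg hγ, if_neg (fun h => hγ h.2), mul_zero]
      · rw [if_neg hπ]
        symm
        rw [ENNReal.tsum_eq_zero]
        intro γ
        rw [if_neg (fun h => hπ h.1)]

open Classical in
/-- sums over `Lat u` against sums over sites -/
lemma lat_sum (u : Step d) (μ : Lat u → ℝ≥0∞) (M : ℝ≥0∞) (hμ : ∑' x, μ x ≤ 1)
    (hM : ∀ x, μ x ≤ M) : ∃ μ' : Site d → ℝ≥0∞, ∑' z, μ' z ≤ 1 ∧ (∀ z, μ' z ≤ M) ∧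
      ∀ x : Lat u, μ' x.1 = μ x := by
  refine ⟨fun z => if h : lev u z = 0 then μ ⟨z, h⟩ else 0, ?_, ?_, ?_⟩
  · set f : Site d → ℝ≥0∞ := fun z => if h : lev u z = 0 then μ ⟨z, h⟩ else 0 with hf
    have hinj : Function.Injective (fun x : Lat u => (x.1 : Site d)) :=
      fun a b h => Subtype.ext h
    have hsup : Function.support f ⊆ Set.range (fun x : Lat u => (x.1 : Site d)) := by
      intro z hz
      rw [Function.mem_support] at hz
      by_cases h : lev u z = 0
      · exact ⟨⟨z, h⟩, rfl⟩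
      · exfalso; apply hz; rw [hf]; simp only [dif_neg h]
    have h1 : ∑' x : Lat u, f x.1 = ∑' z, f z := hinj.tsum_eq hsup
    rw [← h1]
    refine le_trans (le_of_eq ?_) hμ
    refine tsum_congr fun x => ?_
    rw [hf]
    simp only [dif_pos x.2]
    rfl
  · intro z
    by_cases h : lev u z = 0
    · simp only [dif_pos h]; exact hM _
    · simp only [dif_neg h]; exact bot_le
  · intro x
    simp only [dif_pos x.2]
    rfl

open Classical in
lemma WP_words (u : Step d) (H s : ℕ) (P : List (Step d) × List (Step d) → Prop) (x : Lat u) :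
    KapComp803.WP (Lam ν u) (ht u) (dl u) (cd u) H s (fun L => P (cat L)) x
      = ∑' π, ∑' γ, (if IsUp u H π ∧ IsDn u H γ ∧ P (π, γ) ∧ Cm u x.1 π γ ≠ ∅ ∧
        (∀ k ∈ Cm u x.1 π γ, s < k ∧ k + s ≤ H) then NB28.aw ν π * NB28.aw ν γ else 0) := by
  have h0 := tsum_L ν u H (fun c => if P c ∧ cds u c x.1 ≠ ∅ ∧
    (∀ k ∈ cds u c x.1, s < k ∧ k + s ≤ H) then 1 else 0)
  unfold KapComp803.WP
  refine Eq.trans ?_ (h0.trans ?_)
  · refine tsum_congr fun L => ?_
    rw [CD_cat]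
    by_cases h1 : HT (ht u) L = H
    · by_cases h2 : P (cat L) ∧ cds u (cat L) x.1 ≠ ∅ ∧
        (∀ k ∈ cds u (cat L) x.1, s < k ∧ k + s ≤ H)
      · rw [if_pos ⟨h1, h2⟩, if_pos h1, if_pos h2, mul_one]
      · rw [if_neg (fun h' => h2 h'.2), if_pos h1, if_neg h2, mul_zero]
    · rw [if_neg (fun h' => h1 h'.1), if_neg h1]
  · refine tsum_congr fun π => tsum_congr fun γ => ?_
    rw [cds_eq]
    by_cases h1 : IsUp u H π ∧ IsDn u H γ
    · by_cases h2 : P (π, γ) ∧ Cm u x.1 π γ ≠ ∅ ∧ (∀ k ∈ Cm u x.1 π γ, s < k ∧ k + s ≤ H)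
      · rw [if_pos h1, if_pos h2, if_pos ⟨h1.1, h1.2, h2⟩, mul_one]
      · rw [if_pos h1, if_neg h2, if_neg (fun h' => h2 h'.2.2), mul_zero]
    · rw [if_neg h1, if_neg (fun h' => h1 ⟨h'.1, h'.2.1⟩)]

/-- choice of `lam` -/
lemma numbers (Cst η : ℝ≥0∞) (hC : Cst ≠ ⊤) (hη : η ≠ 0) : ∃ lam ε : ℝ≥0∞, lam ≠ 0 ∧ lam ≠ ⊤ ∧
    ε ≠ 0 ∧ ∀ t a : ℝ≥0∞, t ≤ ε → a ≤ Cst → 8 * (lam + a * t / lam + t) ≤ η := by
  set η' := min η 1 with hη'
  have h0 : η' ≠ 0 := (lt_min (pos_iff_ne_zero.2 hη) one_pos).ne'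
  have ht : η' ≠ ⊤ := ne_top_of_le_ne_top ENNReal.one_ne_top (min_le_right _ _)
  set lam := η' / 24 with hlam
  have hl0 : lam ≠ 0 := by
    rw [hlam, Ne, ENNReal.div_eq_zero_iff, not_or]; exact ⟨h0, by norm_num⟩
  have hlt : lam ≠ ⊤ := ENNReal.div_ne_top ht (by norm_num)
  have hC1 : Cst + 1 ≠ ⊤ := ENNReal.add_ne_top.2 ⟨hC, ENNReal.one_ne_top⟩
  have hC0 : Cst + 1 ≠ 0 := by simp
  refine ⟨lam, min lam (lam * lam / (Cst + 1)), hl0, hlt, ?_, fun t a hta ha => ?_⟩
  · refine (lt_min (pos_iff_ne_zero.2 hl0) (pos_iff_ne_zero.2 ?_)).ne'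
    rw [Ne, ENNReal.div_eq_zero_iff, not_or]
    exact ⟨mul_ne_zero hl0 hl0, hC1⟩
  · have h1 : t ≤ lam := hta.trans (min_le_left _ _)
    have h2 : t ≤ lam * lam / (Cst + 1) := hta.trans (min_le_right _ _)
    have h3 : a * t / lam ≤ lam := by
      refine ENNReal.div_le_of_le_mul ?_
      calc a * t ≤ (Cst + 1) * (lam * lam / (Cst + 1)) :=
            mul_le_mul' (ha.trans le_self_add) h2
        _ = lam * lam := ENNReal.mul_div_cancel hC0 hC1
    calc 8 * (lam + a * t / lam + t) ≤ 8 * (lam + lam + lam) := by gcongr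
      _ = 24 * lam := by ring
      _ = η' := by rw [hlam]; exact ENNReal.mul_div_cancel (by norm_num) (by norm_num)
      _ ≤ η := min_le_left _ _

open Classical in
theorem hWin (hd : 2 ≤ d) (hν : ∀ᵐ p ∂ν, ∀ e : Step d, 0 < p.1 e) (u : Step d)
    (hA : annealed (iidEnvironmentLaw ν) 0 (escapeEvent (B2d.dirVec u)) ≠ 0)
    (hB : annealed (iidEnvironmentLaw ν) 0 (escapeEvent (-B2d.dirVec u)) ≠ 0) :
    KB169.HWinSt (Lam ν u) (ht u) (dl u) (cd u) := by
  obtain ⟨c, hc, _, hup, hdn⟩ := WM286.mass_pos ν hν u hA hB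
  have hU : ∀ n, c * c ≤ U (Lam ν u) (ht u) n := fun n => by
    rw [U_eq28]; exact mul_le_mul' (hup n) (hdn n)
  have hU1 := HSl169.U_le_one ν u
  have hcc : c * c ≠ 0 := mul_ne_zero hc hc
  have h1 : ∀ b, 1 ≤ ht u b := one_le_hb
  have hΛ : ∑' b, Lam ν u b = 1 :=
    le_antisymm (mass_le_one _ _ h1 hU1) (mass_ge_one _ _ (c * c) hcc 0 fun n _ => hU n)
  have hcct : c * c ≠ ⊤ := ne_top_of_le_ne_top ENNReal.one_ne_top ((hU 0).trans (hU1 0))
  have hE : ∑' b, Lam ν u b * (ht u b : ℝ≥0∞) ≠ ⊤ :=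
    ne_top_of_le_ne_top (ENNReal.inv_ne_top.2 hcc)
      (mean_le _ _ h1 hΛ (c * c) hcc hcct 0 fun n _ => hU n)
  have hmean : ∑' k, tail (Lam ν u) (ht u) k ≠ ⊤ := by
    rw [← sum_tail (Lam ν u) (ht u) hΛ]; exact hE
  have hA' : annealedProb (iidEnvironmentLaw ν) 0 (escapeEvent (Flux566.dir u)) ≠ 0 := by
    rw [← annealed_apply _ 0 (B2d.measurableSet_escapeEvent _)]
    exact hA
  refine KapComp803.hWin_of (Lam ν u) (ht u) (dl u) (cd u) h1 hΛ.le hmean (c * c) hcc hU hU1
    (zX u) (zY u) (hprod ν u) (hrel u) ?_ ?_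
  · intro Cst η hC hη
    obtain ⟨lam, ε, hl, hl', hε, hnum⟩ := numbers Cst η hC hη
    obtain ⟨s0, hs0⟩ := E23W.us_small ν hν u hA' ε hε
    refine ⟨s0, fun s hs H E μ M hμ hM hME => ?_⟩
    obtain ⟨μ', hμ', hM', hx⟩ := lat_sum u μ M hμ hM
    refine le_trans ?_ (hnum (E23W.us ν u s) (M * E.card) (hs0 s hs) hME)
    refine le_trans ?_ (E23W.e2 ν u s H E μ' M lam hμ' hM' hl hl')
    have hinj : Function.Injective (fun x : Lat u => (x.1 : Site d)) :=
      fun a b h => Subtype.ext h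
    refine le_trans (ENNReal.tsum_le_tsum fun x => ?_)
      (ENNReal.tsum_comp_le_tsum_of_injective hinj _)
    have hw := WP_words ν u H s (fun c => endp 0 c.1 ∈ E) x
    rw [show KapComp803.WP (Lam ν u) (ht u) (dl u) (cd u) H s (fun L => zX u L ∈ E) x
      = _ from hw]
    have hxl : Flux132.lev u x.1 = 0 := x.2
    simp only [hxl, if_true, hx]
    refine mul_le_mul_right ?_ _
    refine ENNReal.tsum_le_tsum fun π => ENNReal.tsum_le_tsum fun γ => ?_
    split_ifs with a b b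
    · exact le_rfl
    · exfalso
      obtain ⟨a1, a2, a3, a4, a5⟩ := a
      exact b ⟨a1, a3, a2, Set.nonempty_iff_ne_empty.2 a4, fun k hk => (a5 k hk).1⟩
    · exact bot_le
    · exact bot_le
  · intro Cst η hC hη
    obtain ⟨lam, ε, hl, hl', hε, hnum⟩ := numbers Cst η hC hη
    obtain ⟨s0, hs0⟩ := E23W.us_small ν hν u hA' ε hε
    refine ⟨s0, fun s hs H E μ M hμ hM hME => ?_⟩
    obtain ⟨μ', hμ', hM', hx⟩ := lat_sum u μ M hμ hM
    set E' : Finset (Site d) := E.image (fun z => -z) with hE'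
    have hcard : M * (E'.card : ℝ≥0∞) ≤ Cst := by
      refine le_trans (mul_le_mul_right ?_ _) hME
      exact_mod_cast Finset.card_image_le
    refine le_trans ?_ (hnum (E23W.us ν u s) (M * E'.card) (hs0 s hs) hcard)
    refine le_trans ?_ (E23W.e3 ν u s H E' μ' M lam hμ' hM' hl hl')
    have hinj : Function.Injective (fun x : Lat u => (x.1 : Site d)) :=
      fun a b h => Subtype.ext h
    refine le_trans (ENNReal.tsum_le_tsum fun x => ?_)
      (ENNReal.tsum_comp_le_tsum_of_injective hinj _)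
    have hw := WP_words ν u H s (fun c => - endp 0 c.2 ∈ E) x
    rw [show KapComp803.WP (Lam ν u) (ht u) (dl u) (cd u) H s (fun L => zY u L ∈ E) x
      = _ from hw]
    have hxl : Flux132.lev u x.1 = 0 := x.2
    simp only [hxl, if_true, hx]
    refine mul_le_mul_right ?_ _
    refine ENNReal.tsum_le_tsum fun π => ENNReal.tsum_le_tsum fun γ => ?_
    split_ifs with a b b
    · exact le_rfl
    · exfalso
      obtain ⟨a1, a2, a3, a4, a5⟩ := a
      refine b ⟨a1, ?_, a2, Set.nonempty_iff_ne_empty.2 a4, fun k hk => (a5 k hk).2⟩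
      rw [hE', Finset.mem_image]
      exact ⟨- endp 0 γ, a3, neg_neg _⟩
    · exact bot_le
    · exact bot_le

/-- **KAPPA'** for every iid elliptic law with both escapes -/
theorem kappaAll : NB28.KappaAll :=
  KB169.kappaAll_of fun _ hd ν _ hν u hA hB => hWin ν (by omega) hν u hA hB

/-- **B8** -/
theorem nb : Spine.NBProp := NB28.nb_of_kappaW kappaAll

end Crest.Agent.R154.KA607
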