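import Crest.Agent.R154.KapComp_803
import Crest.Agent.R154.KB_169
import Crest.Agent.R154.E23_657

/-! Row 154, frame B, final glue (helper616): 818's `hWin` for 657's instance from 803's `hWin_of` and
657's `E23W.e2`, `E23W.e3`; hence 28's `KappaAll`. -/

set_option autoImplicit false

open MeasureTheory ProbabilityTheory Crest.ProbabilityR.RandomEnvironment
open scoped ENNReal

namespace Crest.Agent.R154.KA616

open Crest.Agent.R154 Crest.Agent.R154.B5A Crest.Agent.R154.B5W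
open Crest.Agent.R154.Flux566 (endp sitesL lev)
open Crest.Agent.R154.NB28 (IsUp IsDn Cm)

variable {d : ℕ}

open Classical in
/-- image weight -/
noncomputable def im {α X : Type*} (A : α → ℝ≥0∞) (f : α → X) (x : X) : ℝ≥0∞ :=
  ∑' p, (if f p = x then A p else 0)

lemma push {α X : Type*} (A : α → ℝ≥0∞) (f : α → X) (G : X → ℝ≥0∞) :
    ∑' x, im A f x * G x = ∑' p, A p * G (f p) := by
  classical
  unfold im
  calc ∑' x, (∑' p, (if f p = x then A p else 0)) * G x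
      = ∑' x, ∑' p, (if f p = x then A p else 0) * G x :=
        tsum_congr fun x => ENNReal.tsum_mul_right.symm
    _ = ∑' p, ∑' x, (if f p = x then A p else 0) * G x := ENNReal.tsum_comm
    _ = ∑' p, A p * G (f p) := by
        refine tsum_congr fun p => ?_
        rw [tsum_eq_single (f p)]
        · rw [if_pos rfl]
        · intro x hx
          rw [if_neg (fun h => hx h.symm), zero_mul]

lemma act_val (u : Step d) (L : List (PB u)) (w : Lat u) :
    (act (dl u) L w).1 = w.1 + endp 0 (cat L).1 + endp 0 (cat L).2 := by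
  induction L generalizing w with
  | nil => simp [act, cat, endp]
  | cons b L ih =>
    rw [act, ih]
    change (w.1 + endp 0 b.1.1 + endp 0 b.1.2) + _ + _ = _
    have e1 : endp 0 (cat (b :: L)).1 = endp 0 (cat L).1 + endp 0 b.1.1 := by
      change endp 0 ((cat L).1 ++ b.1.1) = _
      rw [Flux566.endp_append, Flux566.endp_eq_add]
    have e2 : endp 0 (cat (b :: L)).2 = endp 0 b.1.2 + endp 0 (cat L).2 := by
      change endp 0 (b.1.2 ++ (cat L).2) = _
      rw [Flux566.endp_append, Flux566.endp_eq_add]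
    rw [e1, e2]
    abel

/-- displacement of the up walker -/
def zX (u : Step d) (L : List (PB u)) : Site d := endp 0 (cat L).1

/-- minus the displacement of the down walker -/
def zY (u : Step d) (L : List (PB u)) : Site d := -endp 0 (cat L).2

lemma hrel (u : Step d) (L' : List (PB u)) (w x : Lat u) : ∃ κ : Site d, ∀ A : List (PB u),
    act (dl u) (A ++ L') w = x → zX u A = zY u A + κ := by
  refine ⟨x.1 - w.1 - endp 0 (cat L').1 - endp 0 (cat L').2, fun A hA => ?_⟩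
  have h1 : (act (dl u) (A ++ L') w).1 = x.1 := congrArg Subtype.val hA
  rw [act_append, act_val, act_val] at h1
  unfold zX zY
  rw [← h1]
  abel

variable (ν : Measure (Row d)) [IsProbabilityMeasure ν] (u : Step d)

open Classical in
lemma hprod (H : ℕ) : ∃ a b : Site d → ℝ≥0∞, ∑' z, a z ≤ 1 ∧ ∑' z, b z ≤ 1 ∧
    ∀ F : Site d → Site d → ℝ≥0∞,
      (∑' L : List (PB u), if HT (ht u) L = H then LW (Lam ν u) L * F (zX u L) (zY u L) else 0)
        = ∑' x, ∑' y, a x * b y * F x y := by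
  set A : List (Step d) → ℝ≥0∞ := fun π => if IsUp u H π then NB28.aw ν π else 0 with hA
  set B : List (Step d) → ℝ≥0∞ := fun γ => if IsDn u H γ then NB28.aw ν γ else 0 with hB
  have hA1 : ∑' π, A π ≤ 1 := sum_if_le_one ν fun l l' h h' hp => NB28.isUp_prefix h h' hp
  have hB1 : ∑' γ, B γ ≤ 1 := sum_if_le_one ν fun l l' h h' hp => NB28.isDn_prefix h h' hp
  refine ⟨im A (fun π => endp (0 : Site d) π), im B (fun γ => -endp (0 : Site d) γ),
    ?_, ?_, fun F => ?_⟩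
  · have := push A (fun π => endp (0 : Site d) π) (fun _ => 1)
    simp only [mul_one] at this
    rw [this]; exact hA1
  · have := push B (fun γ => -endp (0 : Site d) γ) (fun _ => 1)
    simp only [mul_one] at this
    rw [this]; exact hB1
  · have h1 := tsum_L ν u H (fun x => F (endp 0 x.1) (-endp 0 x.2))
    refine Eq.trans h1 ?_
    calc ∑' π : List (Step d), ∑' γ : List (Step d), (if IsUp u H π ∧ IsDn u H γ then
          NB28.aw ν π * NB28.aw ν γ * F (endp 0 π) (-endp 0 γ) else 0)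
        = ∑' π, A π * ∑' γ, B γ * F (endp 0 π) (-endp 0 γ) := by
          refine tsum_congr fun π => ?_
          rw [← ENNReal.tsum_mul_left]
          refine tsum_congr fun γ => ?_
          simp only [hA, hB]
          by_cases h2 : IsUp u H π <;> by_cases h3 : IsDn u H γ <;> simp [h2, h3, mul_assoc]
      _ = ∑' x, im A (fun π => endp (0 : Site d) π) x * ∑' γ, B γ * F x (-endp 0 γ) :=
          (push A (fun π => endp (0 : Site d) π) (fun x => ∑' γ, B γ * F x (-endp 0 γ))).symm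
      _ = _ := by
          refine tsum_congr fun x => ?_
          rw [← push B (fun γ => -endp (0 : Site d) γ) (fun y => F x y), ← ENNReal.tsum_mul_left]
          refine tsum_congr fun y => ?_
          ring

open Classical in
lemma WP_eq (H s : ℕ) (P : List (Step d) × List (Step d) → Prop) (x : Lat u) :
    KapComp803.WP (Lam ν u) (ht u) (dl u) (cd u) H s (fun L => P (cat L)) x
      = ∑' π : List (Step d), ∑' γ : List (Step d), (if IsUp u H π ∧ IsDn u H γ ∧ P (π, γ) ∧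
          (∃ k, k ∈ Cm u x.1 π γ) ∧ (∀ k ∈ Cm u x.1 π γ, s < k ∧ k + s ≤ H)
          then NB28.aw ν π * NB28.aw ν γ else 0) := by
  have h := tsum_L ν u H (fun y => if P y ∧ (cds u y x.1 ≠ ∅) ∧
    (∀ k ∈ cds u y x.1, s < k ∧ k + s ≤ H) then 1 else 0)
  unfold KapComp803.WP
  refine Eq.trans ?_ (h.trans ?_)
  · refine tsum_congr fun L => ?_
    rw [CD_cat]
    by_cases h1 : HT (ht u) L = H
    · by_cases h2 : P (cat L) ∧ (cds u (cat L) x.1 ≠ ∅) ∧
          (∀ k ∈ cds u (cat L) x.1, s < k ∧ k + s ≤ H)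
      · rw [if_pos ⟨h1, h2⟩, if_pos h1, if_pos h2, mul_one]
      · rw [if_neg (fun h' => h2 h'.2), if_pos h1, if_neg h2, mul_zero]
    · rw [if_neg (fun h' => h1 h'.1), if_neg h1]
  · refine tsum_congr fun π => tsum_congr fun γ => ?_
    rw [cds_eq]
    by_cases h1 : IsUp u H π ∧ IsDn u H γ
    · by_cases h2 : P (π, γ) ∧ (Cm u x.1 π γ ≠ ∅) ∧ (∀ k ∈ Cm u x.1 π γ, s < k ∧ k + s ≤ H)
      · rw [if_pos h1, if_pos h2, if_pos ⟨h1.1, h1.2, h2.1,
          Set.nonempty_iff_ne_empty.2 h2.2.1, h2.2.2⟩, mul_one]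
      · rw [if_pos h1, if_neg h2, if_neg (fun h' => h2 ⟨h'.2.2.1,
          Set.nonempty_iff_ne_empty.1 h'.2.2.2.1, h'.2.2.2.2⟩), mul_zero]
    · rw [if_neg h1, if_neg (fun h' => h1 ⟨h'.1, h'.2.1⟩)]

open Classical in
lemma lat_sum (g : Lat u → ℝ≥0∞) (G' : Site d → ℝ≥0∞) (h : ∀ x : Lat u, g x = G' x.1) :
    ∑' x : Lat u, g x = ∑' x : Site d, (if lev u x = 0 then G' x else 0) := by
  have h1 := tsum_subtype {w : Site d | lev u w = 0} G'
  have h2 : ∑' x : Lat u, g x = ∑' x : {w : Site d | lev u w = 0}, G' x := by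
    rw [tsum_congr h]; rfl
  rw [h2, h1]
  refine tsum_congr fun x => ?_
  simp [Set.indicator_apply]

lemma numb (Cst η : ℝ≥0∞) (hC : Cst ≠ ⊤) (hη : η ≠ 0) : ∃ lam δ : ℝ≥0∞, lam ≠ 0 ∧ lam ≠ ⊤ ∧
    δ ≠ 0 ∧ ∀ v c : ℝ≥0∞, v ≤ δ → c ≤ Cst → 8 * (lam + c * v / lam + v) ≤ η := by
  have hC1 : Cst + 1 ≠ ⊤ := ENNReal.add_ne_top.2 ⟨hC, ENNReal.one_ne_top⟩
  have hC0 : Cst + 1 ≠ 0 := by simp
  set lam : ℝ≥0∞ := min (η / 24) 1 with hlam
  have hl0 : lam ≠ 0 := by
    have h1 : η / 24 ≠ 0 := by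
      rw [Ne, ENNReal.div_eq_zero_iff, not_or]
      exact ⟨hη, by norm_num⟩
    have h2 : 0 < lam := lt_min (pos_iff_ne_zero.2 h1) one_pos
    exact h2.ne'
  have hlt : lam ≠ ⊤ := ne_top_of_le_ne_top ENNReal.one_ne_top (min_le_right _ _)
  refine ⟨lam, min lam (lam * lam / (Cst + 1)), hl0, hlt, ?_, fun v c hv hc => ?_⟩
  · have h1 : lam * lam / (Cst + 1) ≠ 0 := by
      rw [Ne, ENNReal.div_eq_zero_iff, not_or]
      exact ⟨mul_ne_zero hl0 hl0, hC1⟩
    have h2 : 0 < min lam (lam * lam / (Cst + 1)) :=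
      lt_min (pos_iff_ne_zero.2 hl0) (pos_iff_ne_zero.2 h1)
    exact h2.ne'
  · have h1 : c * v / lam ≤ lam := by
      refine ENNReal.div_le_of_le_mul ?_
      calc c * v ≤ (Cst + 1) * (lam * lam / (Cst + 1)) :=
            mul_le_mul' (hc.trans le_self_add) (hv.trans (min_le_right _ _))
        _ = lam * lam := ENNReal.mul_div_cancel hC0 hC1
    have h2 : v ≤ lam := hv.trans (min_le_left _ _)
    calc 8 * (lam + c * v / lam + v) ≤ 8 * (lam + lam + lam) := by gcongr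
      _ = 24 * lam := by ring
      _ ≤ 24 * (η / 24) := by gcongr; exact min_le_left _ _
      _ ≤ η := ENNReal.mul_div_le

open Classical in
/-- transfer of a word bound (E2 / E3) to `WP` -/
lemma WP_sum (H s : ℕ) (P : List (Step d) × List (Step d) → Prop) (R : ℝ≥0∞)
    (μ : Lat u → ℝ≥0∞) (M : ℝ≥0∞) (hμ : ∑' x, μ x ≤ 1) (hM : ∀ x, μ x ≤ M)
    (h : ∀ μ' : Site d → ℝ≥0∞, ∑' x, μ' x ≤ 1 → (∀ x, μ' x ≤ M) →
      ∑' x : Site d, (if lev u x = 0 then μ' x * ∑' π : List (Step d), ∑' γ : List (Step d),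
        (if IsUp u H π ∧ IsDn u H γ ∧ P (π, γ) ∧ (∃ k, k ∈ Cm u x π γ) ∧
          (∀ k ∈ Cm u x π γ, s < k ∧ k + s ≤ H) then NB28.aw ν π * NB28.aw ν γ else 0) else 0) ≤ R) :
    ∑' x : Lat u, μ x * KapComp803.WP (Lam ν u) (ht u) (dl u) (cd u) H s (fun L => P (cat L)) x
      ≤ R := by
  set μ' : Site d → ℝ≥0∞ := fun x => if hx : lev u x = 0 then μ ⟨x, hx⟩ else 0 with hμ'
  have hval : ∀ x : Lat u, μ x = μ' x.1 := fun x => by
    simp only [hμ']
    rw [dif_pos x.2]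
    rfl
  have h1 : ∑' x, μ' x ≤ 1 := by
    refine le_trans (le_of_eq ?_) hμ
    rw [lat_sum u μ μ' hval]
    refine tsum_congr fun x => ?_
    by_cases hx : lev u x = 0
    · rw [if_pos hx]
    · rw [if_neg hx]; simp only [hμ', hx, dif_neg, not_false_eq_true]
  have h2 : ∀ x, μ' x ≤ M := fun x => by
    simp only [hμ']
    split_ifs with hx
    · exact hM _
    · exact zero_le
  refine le_trans (le_of_eq ?_) (h μ' h1 h2)
  exact lat_sum u _ (fun x => μ' x * ∑' π : List (Step d), ∑' γ : List (Step d),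
        (if IsUp u H π ∧ IsDn u H γ ∧ P (π, γ) ∧ (∃ k, k ∈ Cm u x π γ) ∧
          (∀ k ∈ Cm u x π γ, s < k ∧ k + s ≤ H) then NB28.aw ν π * NB28.aw ν γ else 0))
    fun x => by rw [WP_eq, hval x]

open Classical in
theorem hWX (hν : ∀ᵐ p ∂ν, ∀ e : Step d, 0 < p.1 e)
    (hA : annealedProb (iidEnvironmentLaw ν) 0 (escapeEvent (Flux566.dir u)) ≠ 0) :
    ∀ Cst η : ℝ≥0∞, Cst ≠ ⊤ → η ≠ 0 → ∃ s0 : ℕ, ∀ s, s0 ≤ s → ∀ (H : ℕ) (E : Finset (Site d))
      (μ : Lat u → ℝ≥0∞) (M : ℝ≥0∞), ∑' x, μ x ≤ 1 → (∀ x, μ x ≤ M) → M * E.card ≤ Cst →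
      ∑' x, μ x * KapComp803.WP (Lam ν u) (ht u) (dl u) (cd u) H s (fun L => zX u L ∈ E) x ≤ η := by
  intro Cst η hC hη
  obtain ⟨lam, δ, hl0, hlt, hδ, hb⟩ := numb Cst η hC hη
  obtain ⟨s0, hs0⟩ := E23W.us_small ν hν u hA δ hδ
  refine ⟨s0, fun s hs H E μ M hμ hM hME => ?_⟩
  refine WP_sum ν u H s (fun y => endp 0 y.1 ∈ E) η μ M hμ hM fun μ' h1 h2 => ?_
  refine le_trans ?_ ((E23W.e2 ν u s H E μ' M lam h1 h2 hl0 hlt).trans
    (hb _ _ (hs0 s hs) hME))
  refine ENNReal.tsum_le_tsum fun x => ?_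
  by_cases hx : lev u x = 0
  · rw [if_pos hx]
    refine le_trans ?_ (le_of_eq (if_pos hx).symm)
    refine mul_le_mul_right (ENNReal.tsum_le_tsum fun π => ENNReal.tsum_le_tsum fun γ => ?_) _
    by_cases h3 : IsUp u H π ∧ IsDn u H γ ∧ endp 0 π ∈ E ∧ (∃ k, k ∈ Cm u x π γ) ∧
          (∀ k ∈ Cm u x π γ, s < k ∧ k + s ≤ H)
    · rw [if_pos h3, if_pos ⟨h3.1, h3.2.2.1, h3.2.1, h3.2.2.2.1, fun k hk => (h3.2.2.2.2 k hk).1⟩]
    · rw [if_neg h3]; exact zero_le
  · rw [if_neg hx]; exact zero_le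

open Classical in
theorem hWY (hν : ∀ᵐ p ∂ν, ∀ e : Step d, 0 < p.1 e)
    (hA : annealedProb (iidEnvironmentLaw ν) 0 (escapeEvent (Flux566.dir u)) ≠ 0) :
    ∀ Cst η : ℝ≥0∞, Cst ≠ ⊤ → η ≠ 0 → ∃ s0 : ℕ, ∀ s, s0 ≤ s → ∀ (H : ℕ) (E : Finset (Site d))
      (μ : Lat u → ℝ≥0∞) (M : ℝ≥0∞), ∑' x, μ x ≤ 1 → (∀ x, μ x ≤ M) → M * E.card ≤ Cst →
      ∑' x, μ x * KapComp803.WP (Lam ν u) (ht u) (dl u) (cd u) H s (fun L => zY u L ∈ E) x ≤ η := by
  intro Cst η hC hη
  obtain ⟨lam, δ, hl0, hlt, hδ, hb⟩ := numb Cst η hC hη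
  obtain ⟨s0, hs0⟩ := E23W.us_small ν hν u hA δ hδ
  refine ⟨s0, fun s hs H E μ M hμ hM hME => ?_⟩
  set E' : Finset (Site d) := E.image (fun z => -z) with hE'
  have hcard : M * E'.card ≤ Cst := by
    refine le_trans (mul_le_mul_right ?_ M) hME
    exact_mod_cast Finset.card_image_le
  refine WP_sum ν u H s (fun y => -endp 0 y.2 ∈ E) η μ M hμ hM fun μ' h1 h2 => ?_
  refine le_trans ?_ ((E23W.e3 ν u s H E' μ' M lam h1 h2 hl0 hlt).trans
    (hb _ _ (hs0 s hs) hcard))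
  refine ENNReal.tsum_le_tsum fun x => ?_
  by_cases hx : lev u x = 0
  · rw [if_pos hx]
    refine le_trans ?_ (le_of_eq (if_pos hx).symm)
    refine mul_le_mul_right (ENNReal.tsum_le_tsum fun π => ENNReal.tsum_le_tsum fun γ => ?_) _
    by_cases h3 : IsUp u H π ∧ IsDn u H γ ∧ -endp 0 γ ∈ E ∧ (∃ k, k ∈ Cm u x π γ) ∧
          (∀ k ∈ Cm u x π γ, s < k ∧ k + s ≤ H)
    · have h4 : endp 0 γ ∈ E' := Finset.mem_image.2 ⟨_, h3.2.2.1, by simp⟩
      rw [if_pos h3, if_pos ⟨h3.1, h4, h3.2.1, h3.2.2.2.1, fun k hk => (h3.2.2.2.2 k hk).2⟩]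
    · rw [if_neg h3]; exact zero_le
  · rw [if_neg hx]; exact zero_le

theorem hWinSt (hν : ∀ᵐ p ∂ν, ∀ e : Step d, 0 < p.1 e)
    (hA : annealed (iidEnvironmentLaw ν) 0 (escapeEvent (B2d.dirVec u)) ≠ 0)
    (hB : annealed (iidEnvironmentLaw ν) 0 (escapeEvent (-B2d.dirVec u)) ≠ 0) :
    KB169.HWinSt (Lam ν u) (ht u) (dl u) (cd u) := by
  obtain ⟨c, hc, _, hup, hdn⟩ := WM286.mass_pos ν hν u hA hB
  have hU : ∀ n, c * c ≤ U (Lam ν u) (ht u) n := fun n => by
    rw [U_eq28]; exact mul_le_mul' (hup n) (hdn n)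
  have hU1 := HSl169.U_le_one ν u
  have hcc : c * c ≠ 0 := mul_ne_zero hc hc
  have hcct : c * c ≠ ⊤ := ne_top_of_le_ne_top ENNReal.one_ne_top ((hU 0).trans (hU1 0))
  have h1 : ∀ b, 1 ≤ ht u b := one_le_hb
  have hΛ : ∑' b, Lam ν u b = 1 :=
    le_antisymm (mass_le_one _ _ h1 hU1) (mass_ge_one _ _ (c * c) hcc 0 fun n _ => hU n)
  have hmean : ∑' k, tail (Lam ν u) (ht u) k ≠ ⊤ := by
    rw [← sum_tail _ _ hΛ]
    exact ne_top_of_le_ne_top (ENNReal.inv_ne_top.2 hcc)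
      (mean_le _ _ h1 hΛ (c * c) hcc hcct 0 fun n _ => hU n)
  have hA' : annealedProb (iidEnvironmentLaw ν) 0 (escapeEvent (Flux566.dir u)) ≠ 0 := by
    rw [annealed_apply _ 0 (B2d.measurableSet_escapeEvent _)] at hA
    exact hA
  exact KapComp803.hWin_of (Lam ν u) (ht u) (dl u) (cd u) h1 hΛ.le hmean (c * c) hcc hU hU1
    (zX u) (zY u) (hprod ν u) (hrel u) (hWX ν u hν hA') (hWY ν u hν hA')

/-- **28's `KappaAll`** -/
theorem kappaAll : NB28.KappaAll :=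
  KB169.kappaAll_of fun _ _ ν _ hν u hA hB => hWinSt ν u hν hA hB

/-- **the one open input of row 154** -/
theorem nb : Spine.NBProp := NB28.nb_of_kappaW kappaAll

end Crest.Agent.R154.KA616

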