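import Crest.Agent.R154.Face_504
import Crest.Agent.R154.Bind_761
import Crest.Agent.R154.RetW_458

/-! Row 154, ROAD 801, joint-cut frame (helper74): window lemma (3) for ONE COMMON HEIGHT `H`, in the
words of `NBDefs_28`, from `Face504.face3_one`. -/

set_option autoImplicit false

namespace Crest.Agent.R154.WJ74

open MeasureTheory ProbabilityTheory Crest.ProbabilityR.RandomEnvironment Crest.Agent.R154
open Crest.Agent.R154.Flux132 (lev opp)
open Crest.Agent.R154.Flux566 (lw endp sitesL endp_append endp_eq_add measurable_lw)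
open Crest.Agent.R154.NB28
open Crest.Agent.R154.Face504 (Wd PF tw FHD FH fhd_of_contact an)
open scoped ENNReal
open Classical

variable {d : ℕ}

/-- turned words of a walker started at `0`: stay at level `≥ 0`, visit a level `≥ s`, and end at
the first visit of level `-1` -/
def Turn (v : Step d) (s : ℕ) : Set (Wd d) :=
  {l | (∀ y ∈ sitesL 0 l, 0 ≤ lev v y) ∧ (∃ y ∈ sitesL 0 l, (s : ℤ) ≤ lev v y) ∧
    lev v (endp 0 l) = -1}

/-- total annealed weight of the turned words -/
noncomputable def rt (ν : Measure (Row d)) [IsProbabilityMeasure ν] (v : Step d) (s : ℕ) : ℝ≥0∞ :=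
  ∑' l : Wd d, if l ∈ Turn v s then aw ν l else 0

lemma pf_of_first {S : Set (Wd d)} (P : Site d → Prop) (h1 : ∀ l ∈ S, ∀ y ∈ sitesL 0 l, ¬ P y)
    (h2 : ∀ l ∈ S, P (endp 0 l)) : PF S := by
  rintro l hl l' hl' ⟨t, rfl⟩
  by_cases ht : t = []
  · rw [ht, List.append_nil]
  · exact absurd (h2 l hl) (h1 _ hl' _ (Face504.end_mem_sites 0 l t ht))

/-- up crossings -/
def UpA (u : Step d) (n : ℕ) : Set (Wd d) := {l | IsUp u n l}

/-- local down crossings -/
def DnB (u : Step d) (n : ℕ) (E : Finset (Site d)) : Set (Wd d) :=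
  {l | IsDn u n l ∧ endp 0 l ∈ E}

lemma pf_up (u : Step d) (n : ℕ) : PF (UpA u n) := by
  refine pf_of_first (fun y => lev u y = n) (fun l hl y hy h => ?_) (fun l hl => hl.2)
  have := (hl.1 y hy).2
  omega

lemma pf_dn (u : Step d) (n : ℕ) (E : Finset (Site d)) :
    PF (DnB u n E) := by
  refine pf_of_first (fun y => lev u y = -(n : ℤ)) (fun l hl y hy h => ?_) (fun l hl => hl.1.2)
  have := (hl.1.1 y hy).1
  omega

lemma an_eq (ν : Measure (Row d)) [IsProbabilityMeasure ν] (x : Site d) (l : Wd d) :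
    an ν x l = aw ν l := Bind761.aw_at ν x l

lemma aw_le_one (ν : Measure (Row d)) [IsProbabilityMeasure ν] (l : Wd d) : aw ν l ≤ 1 := by
  rw [← an_eq ν 0 l]; exact Face504.an_le_one ν 0 l

lemma sum_up_le (ν : Measure (Row d)) [IsProbabilityMeasure ν] {A : Set (Wd d)} (hA : PF A) :
    (∑' l : Wd d, if l ∈ A then aw ν l else 0) ≤ 1 := by
  have h : ∀ l : Wd d, (if l ∈ A then aw ν l else 0)
      = ∫⁻ ω, (if l ∈ A then lw ω 0 l else 0) ∂(iidEnvironmentLaw ν) := by
    intro l
    split_ifs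
    · rfl
    · simp
  simp only [h]
  rw [← lintegral_tsum]
  · calc _ ≤ ∫⁻ _, 1 ∂(iidEnvironmentLaw ν) := lintegral_mono fun ω => Face504.tw_le_one ω 0 hA
      _ = 1 := by simp
  · intro l
    split_ifs
    · exact (measurable_lw 0 l).aemeasurable
    · exact aemeasurable_const

/-- the runner `X` from `0`, the local walker `Y` from `x` -/
def Rx (u : Step d) (s : ℕ) (E : Finset (Site d)) (x : Site d) : Set (Wd d) :=
  {l | l ∈ Turn u s ∧ endp 0 l - x ∈ E}

lemma sum_Rx (ν : Measure (Row d)) [IsProbabilityMeasure ν] (u : Step d) (s : ℕ)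
    (E : Finset (Site d)) :
    (∑' x : Site d, ∫⁻ ω, tw ω 0 (Rx u s E x) ∂(iidEnvironmentLaw ν)) ≤ E.card * rt ν u s := by
  have h1 : ∀ x : Site d, ∫⁻ ω, tw ω 0 (Rx u s E x) ∂(iidEnvironmentLaw ν)
      = ∑' l : Wd d, if l ∈ Rx u s E x then aw ν l else 0 := by
    intro x
    unfold tw
    rw [lintegral_tsum]
    · refine tsum_congr fun l => ?_
      split_ifs
      · rfl
      · simp
    · intro l
      split_ifs
      · exact (measurable_lw 0 l).aemeasurable
      · exact aemeasurable_const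
  simp only [h1]
  rw [ENNReal.tsum_comm]
  unfold rt
  rw [← ENNReal.tsum_mul_left]
  refine ENNReal.tsum_le_tsum fun l => ?_
  by_cases hl : l ∈ Turn u s
  · rw [if_pos hl]
    have h2 : ∀ x : Site d, (if l ∈ Rx u s E x then aw ν l else 0)
        = (if endp 0 l - x ∈ E then aw ν l else 0) := by
      intro x
      refine if_congr ?_ rfl rfl
      exact ⟨fun h => h.2, fun h => ⟨hl, h⟩⟩
    simp only [h2]
    have h3 : (∑' x : Site d, if endp 0 l - x ∈ E then aw ν l else 0)
        = ∑' z : Site d, if z ∈ E then aw ν l else 0 :=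
      (Equiv.subLeft (endp 0 l)).tsum_eq (fun z => if z ∈ E then aw ν l else 0)
    rw [h3, tsum_eq_sum (s := E) (fun z hz => if_neg hz)]
    rw [Finset.sum_congr rfl (fun z hz => if_pos hz), Finset.sum_const, nsmul_eq_mul]
  · rw [if_neg hl, mul_zero, ENNReal.tsum_eq_zero.2]
    intro x
    exact if_neg fun h => hl h.1

/-- **window lemma (3), one common height** -/
theorem piece3 (ν : Measure (Row d)) [IsProbabilityMeasure ν] (u : Step d) (H s : ℕ)
    (E : Finset (Site d)) (μ : Site d → ℝ≥0∞) (M lam : ℝ≥0∞) (hμ : ∑' w, μ w ≤ 1)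
    (hM : ∀ w, μ w ≤ M) (hl0 : lam ≠ 0) (hlt : lam ≠ ⊤) :
    ∑' w : Site d, (if lev u w = 0 then μ w * ∑' π : Wd d, ∑' γ : Wd d,
      (if IsUp u H π ∧ IsDn u H γ ∧ endp 0 γ ∈ E ∧ (∃ k, k ∈ Cm u w π γ) ∧
        (∀ k ∈ Cm u w π γ, k + s ≤ H) then aw ν π * aw ν γ else 0) else 0)
      ≤ 4 * lam + M * E.card * rt ν u s / lam := by
  -- reduce to `M ≠ 0`, `M ≠ ⊤`
  by_cases hM0 : M = 0
  · have : ∀ w, μ w = 0 := fun w => by simpa [hM0] using hM w
    simp [this]
  wlog hMt : M ≠ ⊤ generalizing M with hrec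
  · rw [not_not] at hMt
    have h1 : ∀ w, μ w ≤ 1 := fun w => (ENNReal.le_tsum w).trans hμ
    refine (hrec 1 h1 one_ne_zero ENNReal.one_ne_top).trans ?_
    gcongr
    rw [hMt]; exact le_top
  set A : Set (Wd d) := UpA u H with hA
  set B : Set (Wd d) := DnB u H E with hB
  set Dp : Set (Site d) := {v | (s : ℤ) ≤ lev u v} with hDp
  set wt : Site d → Wd d → ℝ≥0∞ := fun x π => μ (x - endp 0 π - stepVec (opp u)) with hwt
  -- step 1: anchor the up walker at `0`
  have key : ∀ (π γ : Wd d), 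
      (∑' w : Site d, (if lev u w = 0 then μ w *
        (if IsUp u H π ∧ IsDn u H γ ∧ endp 0 γ ∈ E ∧ (∃ k, k ∈ Cm u w π γ) ∧
        (∀ k ∈ Cm u w π γ, k + s ≤ H) then aw ν π * aw ν γ else 0) else 0))
      ≤ ∑' x : Site d, (if lev u x = (H : ℤ) - 1 then
        (if π ∈ A ∧ γ ∈ B ∧ FHD 0 x Dp π γ then an ν 0 π * an ν x γ * wt x π else 0) else 0) := by
    intro π γ
    rw [← (Equiv.addRight (endp 0 π + stepVec (opp u))).tsum_eq (fun x : Site d =>
      (if lev u x = (H : ℤ) - 1 then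
        (if π ∈ A ∧ γ ∈ B ∧ FHD 0 x Dp π γ then an ν 0 π * an ν x γ * wt x π else 0) else 0))]
    refine ENNReal.tsum_le_tsum fun w => ?_
    simp only [Equiv.coe_addRight]
    by_cases hw : lev u w = 0
    swap
    · rw [if_neg hw]; exact zero_le
    rw [if_pos hw]
    by_cases hc : IsUp u H π ∧ IsDn u H γ ∧ endp 0 γ ∈ E ∧ (∃ k, k ∈ Cm u w π γ) ∧
        (∀ k ∈ Cm u w π γ, k + s ≤ H)
    swap
    · rw [if_neg hc, mul_zero]; exact zero_le
    obtain ⟨hu, hd, hE, ⟨k0, hk0⟩, hall⟩ := hc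
    have hlx : lev u (w + (endp 0 π + stepVec (opp u))) = (H : ℤ) - 1 := by
      rw [Bind761.lev_add, Bind761.lev_add, hw, hu.2, Bind761.lev_opp]; ring
    have hcon : ∀ y, y ∈ sitesL 0 π → y ∈ sitesL (w + (endp 0 π + stepVec (opp u))) γ →
        ∃ k ∈ Cm u w π γ, lev u y = (H : ℤ) - k := by
      intro y hy hy'
      have h1 := hu.1 y hy
      refine ⟨((H : ℤ) - lev u y).toNat, ⟨y - endp 0 π, ?_, ?_, ?_⟩, ?_⟩
      · rw [Bind761.mem_sitesL_iff]; simpa using hy
      · rw [Bind761.mem_sitesL_iff] at hy' ⊢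
        convert hy' using 1
        abel
      · rw [Bind761.lev_sub, hu.2]; omega
      · omega
    have hF : FHD 0 (w + (endp 0 π + stepVec (opp u))) Dp π γ := by
      refine fhd_of_contact ?_ ?_
      · obtain ⟨y, hy1, hy2, hy3⟩ := hk0
        refine ⟨y + endp 0 π, ?_, ?_⟩
        · rw [Bind761.mem_sitesL_iff] at hy1; simpa using hy1
        · rw [Bind761.mem_sitesL_iff] at hy2 ⊢
          convert hy2 using 1
          abel
      · intro y hy hy'
        obtain ⟨k, hk, hk2⟩ := hcon y hy hy'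
        have := hall k hk
        show (s : ℤ) ≤ lev u y
        omega
    rw [if_pos ⟨hu, hd, hE, ⟨k0, hk0⟩, hall⟩, if_pos hlx, if_pos ⟨hu, ⟨hd, hE⟩, hF⟩]
    rw [an_eq, an_eq]
    have : wt (w + (endp 0 π + stepVec (opp u))) π = μ w := by
      simp only [hwt]; congr 1; abel
    rw [this]
    exact le_of_eq (by ring)
  -- step 2: facing lemma for each `x`
  have hone : ∀ x : Site d, (if lev u x = (H : ℤ) - 1 then
      (∑' π : Wd d, ∑' γ : Wd d, if π ∈ A ∧ γ ∈ B ∧ FHD 0 x Dp π γ then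
        an ν 0 π * an ν x γ * wt x π else 0) else 0)
      ≤ M / lam * (∫⁻ ω, tw ω 0 (Rx u s E x) ∂(iidEnvironmentLaw ν))
        + 4 * lam * ∑' π : Wd d, if π ∈ A then an ν 0 π * wt x π else 0 := by
    intro x
    by_cases hx : lev u x = (H : ℤ) - 1
    swap
    · rw [if_neg hx]; exact zero_le
    rw [if_pos hx]
    refine Face504.face3_one ν 0 x (pf_up u H) (pf_dn u H E)
      (fun v => {τ | (∀ y ∈ sitesL v τ, 0 ≤ lev u y) ∧ lev u (endp v τ) = -1 ∧
        endp v τ - x ∈ E}) ?_ hM0 hMt (wt := wt x) (fun π => hM _) Dp (Rx u s E x) ?_ hl0 hlt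
    · rintro γ₁ γ₂ ⟨hd, hE⟩ -
      refine ⟨fun y hy => ?_, ?_, ?_⟩
      · have hy' : y ∈ sitesL x (γ₁ ++ γ₂) := by
          rw [Face504.sitesL_append]; exact List.mem_append.2 (Or.inr hy)
        have := (Bind761.isDn_sites hd hy').1
        omega
      · rw [← endp_append, endp_eq_add, Bind761.lev_add, hd.2, hx]; ring
      · rw [← endp_append, endp_eq_add]; simpa using hE
    · rintro σ τ ⟨π, hπ, hσ⟩ hDσ ⟨h1, h2, h3⟩
      have hτ : τ ≠ [] := by
        rintro rfl
        simp only [endp] at h2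
        have : (s : ℤ) ≤ lev u (endp 0 σ) := hDσ
        omega
      refine ⟨⟨fun y hy => ?_, ⟨endp 0 σ, Face504.end_mem_sites 0 σ τ hτ, hDσ⟩, ?_⟩, ?_⟩
      · rw [Face504.sitesL_append] at hy
        rcases List.mem_append.1 hy with hy | hy
        · obtain ⟨t, rfl⟩ := hσ
          refine (hπ.1 y ?_).1
          rw [Face504.sitesL_append]; exact List.mem_append.2 (Or.inl hy)
        · exact h1 y hy
      · rw [endp_append]; exact h2
      · rw [endp_append]; exact h3
  -- assembly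
  calc ∑' w : Site d, (if lev u w = 0 then μ w * ∑' π : Wd d, ∑' γ : Wd d,
      (if IsUp u H π ∧ IsDn u H γ ∧ endp 0 γ ∈ E ∧ (∃ k, k ∈ Cm u w π γ) ∧
        (∀ k ∈ Cm u w π γ, k + s ≤ H) then aw ν π * aw ν γ else 0) else 0)
      = ∑' w : Site d, ∑' π : Wd d, ∑' γ : Wd d, (if lev u w = 0 then μ w *
        (if IsUp u H π ∧ IsDn u H γ ∧ endp 0 γ ∈ E ∧ (∃ k, k ∈ Cm u w π γ) ∧
        (∀ k ∈ Cm u w π γ, k + s ≤ H) then aw ν π * aw ν γ else 0) else 0) := by
        refine tsum_congr fun w => ?_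
        split_ifs with hw
        · rw [← ENNReal.tsum_mul_left]
          refine tsum_congr fun π => ?_
          rw [← ENNReal.tsum_mul_left]
        · simp
    _ = ∑' π : Wd d, ∑' γ : Wd d, ∑' w : Site d, (if lev u w = 0 then μ w *
        (if IsUp u H π ∧ IsDn u H γ ∧ endp 0 γ ∈ E ∧ (∃ k, k ∈ Cm u w π γ) ∧
        (∀ k ∈ Cm u w π γ, k + s ≤ H) then aw ν π * aw ν γ else 0) else 0) := by
        rw [ENNReal.tsum_comm]
        refine tsum_congr fun π => ?_
        rw [ENNReal.tsum_comm]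
    _ ≤ ∑' π : Wd d, ∑' γ : Wd d, ∑' x : Site d, (if lev u x = (H : ℤ) - 1 then
        (if π ∈ A ∧ γ ∈ B ∧ FHD 0 x Dp π γ then an ν 0 π * an ν x γ * wt x π else 0) else 0) :=
        ENNReal.tsum_le_tsum fun π => ENNReal.tsum_le_tsum fun γ => key π γ
    _ = ∑' x : Site d, ∑' π : Wd d, ∑' γ : Wd d, (if lev u x = (H : ℤ) - 1 then
        (if π ∈ A ∧ γ ∈ B ∧ FHD 0 x Dp π γ then an ν 0 π * an ν x γ * wt x π else 0) else 0) := by
        symm
        rw [ENNReal.tsum_comm]
        refine tsum_congr fun π => ?_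
        rw [ENNReal.tsum_comm]
    _ = ∑' x : Site d, (if lev u x = (H : ℤ) - 1 then
      (∑' π : Wd d, ∑' γ : Wd d, if π ∈ A ∧ γ ∈ B ∧ FHD 0 x Dp π γ then
        an ν 0 π * an ν x γ * wt x π else 0) else 0) := by
        refine tsum_congr fun x => ?_
        split_ifs with hx
        · rfl
        · simp
    _ ≤ ∑' x : Site d, (M / lam * (∫⁻ ω, tw ω 0 (Rx u s E x) ∂(iidEnvironmentLaw ν))
        + 4 * lam * ∑' π : Wd d, if π ∈ A then an ν 0 π * wt x π else 0) :=
        ENNReal.tsum_le_tsum hone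
    _ = M / lam * (∑' x : Site d, ∫⁻ ω, tw ω 0 (Rx u s E x) ∂(iidEnvironmentLaw ν))
        + 4 * lam * ∑' x : Site d, ∑' π : Wd d, (if π ∈ A then an ν 0 π * wt x π else 0) := by
        rw [ENNReal.tsum_add, ENNReal.tsum_mul_left, ENNReal.tsum_mul_left]
    _ ≤ M / lam * (E.card * rt ν u s) + 4 * lam * 1 := by
        refine add_le_add (mul_le_mul_right (sum_Rx ν u s E) _) (mul_le_mul_right ?_ _)
        rw [ENNReal.tsum_comm]
        calc (∑' π : Wd d, ∑' x : Site d, if π ∈ A then an ν 0 π * wt x π else 0)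
            ≤ ∑' π : Wd d, (if π ∈ A then aw ν π else 0) := by
              refine ENNReal.tsum_le_tsum fun π => ?_
              split_ifs
              · rw [ENNReal.tsum_mul_left, an_eq]
                have h5 : (∑' x, wt x π) = ∑' w, μ w := by
                  have := (Equiv.subRight (endp 0 π + stepVec (opp u))).tsum_eq μ
                  rw [← this]
                  refine tsum_congr fun x => ?_
                  simp only [hwt, Equiv.subRight_apply]
                  congr 1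
                  abel
                calc aw ν π * ∑' x, wt x π ≤ aw ν π * 1 := by
                      rw [h5]; exact mul_le_mul_right hμ _
                  _ = _ := mul_one _
              · simp
          _ ≤ 1 := sum_up_le ν (pf_up u H)
    _ = 4 * lam + M * E.card * rt ν u s / lam := by
        rw [mul_one, add_comm]
        congr 1
        rw [ENNReal.div_eq_inv_mul, ENNReal.div_eq_inv_mul]
        ring

lemma lev_opp' (v : Step d) (x : Site d) : Flux566.lev (opp v) x = - lev v x := by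
  unfold Flux566.lev lev opp
  obtain ⟨i, b⟩ := v
  cases b <;> simp

/-- **`rt → 0`** -/
theorem rt_zero (ν : Measure (Row d)) [IsProbabilityMeasure ν] (v : Step d) (ε : ℝ≥0∞)
    (hε : ε ≠ 0) : ∃ s0 : ℕ, ∀ s, s0 ≤ s → rt ν v s ≤ ε := by
  obtain ⟨s0, h0⟩ := RetW458.ret_small ν (opp v) 1 ε hε
  refine ⟨s0, fun s hs => le_trans ?_ (h0 s hs)⟩
  unfold rt
  refine ENNReal.tsum_le_tsum fun l => ?_
  split_ifs with h1 h2 h2
  · exact le_rfl
  · exact absurd ⟨fun y hy => by rw [lev_opp']; have := h1.1 y hy; omega,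
      by rw [lev_opp', h1.2.2]; rfl,
      by obtain ⟨y, hy, hy2⟩ := h1.2.1
         exact ⟨y, hy, by rw [lev_opp']; omega⟩⟩ h2
  · exact zero_le
  · exact le_rfl

end Crest.Agent.R154.WJ74
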