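import Crest.Agent.R154.JAsm_139
import Crest.Agent.R154.HW_334
import Crest.Agent.R154.E2_742
import Crest.Agent.R154.WJ_74
import Crest.Agent.R154.HSl_689
import Crest.Agent.R154.NBTop_28

/-! Row 154, ROAD 801 (helper689): `KappaAll` from 139's assembly, 334's `hW`, 742's E2, 74's
E3, 689's slab. -/

set_option autoImplicit false

namespace Crest.Agent.R154.KA689

open MeasureTheory ProbabilityTheory Crest.ProbabilityR.RandomEnvironment Filter Topology
open scoped ENNReal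
open Crest.Agent.R154.B5A Crest.Agent.R154.B5W
open Crest.Agent.R154.Flux566 (endp sitesL endp_append endp_eq_add)
open Crest.Agent.R154.NB28 (IsUp IsDn Cm KW KappaW)

variable {d : ℕ}

open Classical in
/-- extension by zero -/
noncomputable def ext (u : Step d) (μ : Lat u → ℝ≥0∞) (x : Site d) : ℝ≥0∞ :=
  if h : Flux566.lev u x = 0 then μ ⟨x, h⟩ else 0

open Classical in
lemma sum_lat (u : Step d) (μ : Lat u → ℝ≥0∞) (F : Site d → ℝ≥0∞) :
    ∑' w : Lat u, μ w * F w.1
      = ∑' x : Site d, (if Flux132.lev u x = 0 then ext u μ x * F x else 0) := by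
  have h := tsum_subtype {x : Site d | Flux566.lev u x = 0} (fun x => ext u μ x * F x)
  have h2 : ∑' w : Lat u, μ w * F w.1
      = ∑' w : {x : Site d | Flux566.lev u x = 0}, ext u μ w.1 * F w.1 := by
    change ∑' w : {x : Site d | Flux566.lev u x = 0}, μ w * F w.1 = _
    refine tsum_congr fun w => ?_
    have hw : Flux566.lev u w.1 = 0 := w.2
    unfold ext
    rw [dif_pos hw]
    rfl
  rw [h2, h]
  refine tsum_congr fun x => ?_
  rw [Set.indicator_apply]
  rfl

lemma sum_ext (u : Step d) (μ : Lat u → ℝ≥0∞) : ∑' x, ext u μ x = ∑' w, μ w := by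
  classical
  have h := sum_lat u μ (fun _ => 1)
  simp only [mul_one] at h
  rw [h]
  refine tsum_congr fun x => ?_
  by_cases hx : Flux566.lev u x = 0
  · rw [if_pos (show Flux132.lev u x = 0 from hx)]
  · rw [if_neg (show ¬ Flux132.lev u x = 0 from hx)]
    unfold ext
    rw [dif_neg hx]

lemma ext_le (u : Step d) (μ : Lat u → ℝ≥0∞) (M : ℝ≥0∞) (hM : ∀ w, μ w ≤ M) (x : Site d) :
    ext u μ x ≤ M := by
  classical
  unfold ext
  by_cases hx : Flux566.lev u x = 0
  · rw [dif_pos hx]; exact hM _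
  · rw [dif_neg hx]; exact zero_le

lemma act_cat (u : Step d) (L : List (PB u)) (w : Lat u) :
    (act (dl u) L w).1 = w.1 + endp 0 (cat L).1 + endp 0 (cat L).2 := by
  induction L generalizing w with
  | nil => simp [act, cat, endp]
  | cons b L ih =>
    have e : cat (b :: L) = pm b.1 (cat L) := rfl
    rw [act, ih, e]
    simp only [dl, dlp, pm, endp_append]
    rw [endp_eq_add b.1.1 (endp 0 (cat L).1), endp_eq_add (cat L).2 (endp 0 b.1.2)]
    abel

open Classical in
lemma hcat (ν : Measure (Row d)) [IsProbabilityMeasure ν] (u : Step d) (H : ℕ)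
    (F : List (Step d) → List (Step d) → ℝ≥0∞) :
    ∑' L : List (PB u), (if HT (ht u) L = H then LW (Lam ν u) L * F (cat L).1 (cat L).2 else 0)
      = ∑' π : List (Step d), ∑' γ : List (Step d),
        (if IsUp u H π then NB28.aw ν π else 0) * (if IsDn u H γ then NB28.aw ν γ else 0)
          * F π γ := by
  rw [tsum_L ν u H (fun x => F x.1 x.2)]
  refine tsum_congr fun π => tsum_congr fun γ => ?_
  by_cases h1 : IsUp u H π <;> by_cases h2 : IsDn u H γ <;> simp [h1, h2]

open Classical in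
/-- **`hW`** for the pair blocks -/
theorem hW (ν : Measure (Row d)) [IsProbabilityMeasure ν]
    (hν : ∀ᵐ p ∂ν, ∀ e : Step d, 0 < p.1 e) (u : Step d)
    (hA : annealed (iidEnvironmentLaw ν) 0 (escapeEvent (B2d.dirVec u)) ≠ 0)
    (c : ℝ≥0∞) (hc : c ≠ 0)
    (hup : ∀ n, c ≤ ∑' π : List (Step d), if IsUp u n π then NB28.aw ν π else 0)
    (hdn : ∀ n, c ≤ ∑' γ : List (Step d), if IsDn u n γ then NB28.aw ν γ else 0) :
    ∀ v η : ℝ≥0∞, v ≠ 0 → v ≤ 1 → η ≠ 0 → ∃ s : ℕ, ∀ H : ℕ, ∃ S1 S2 : Set (Lat u),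
      JAsm139.Good (Lam ν u) (ht u) (dl u) (c * c * 2⁻¹ * v) η H S1 ∧
      JAsm139.Good (Lam ν u) (ht u) (dl u) (c * c * 2⁻¹ * v) η H S2 ∧
      ∀ w, w ∉ S1 → w ∉ S2 →
        (∑' L : List (PB u), (if HT (ht u) L = H ∧ CD (ht u) (dl u) (cd u) L w ≠ ∅ ∧
          (∀ k ∈ CD (ht u) (dl u) (cd u) L w, s < k ∧ k + s ≤ H) then LW (Lam ν u) L else 0))
          ≤ v * v + η := by
  have hA' : annealedProb (iidEnvironmentLaw ν) 0 (escapeEvent (Flux566.dir u)) ≠ 0 := by
    rw [annealed_apply (iidEnvironmentLaw ν) 0 (B2d.measurableSet_escapeEvent _)] at hA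
    exact hA
  set us : ℕ → ℝ≥0∞ := fun s =>
    annealedProb (iidEnvironmentLaw ν) 0 (Us778.Dip u s) + WJ74.rt ν u s with hus
  refine HW334.hW_of (Lam ν u) (ht u) (dl u) (cd u) cat (fun w => w.1) (endp 0) (endp 0)
    (fun H π => if IsUp u H π then NB28.aw ν π else 0)
    (fun H γ => if IsDn u H γ then NB28.aw ν γ else 0)
    (fun w π γ => Cm u w.1 π γ) (fun H F => hcat ν u H F) (fun L w => act_cat u L w)
    (fun L w => by rw [CD_cat, ← cds_eq]) c hc hup
    (fun H => sum_if_le_one ν fun l l' h h' hp => NB28.isUp_prefix h h' hp) hdn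
    (fun H => sum_if_le_one ν fun l l' h h' hp => NB28.isDn_prefix h h' hp)
    us ?_ 4 (by norm_num) (by norm_num) ?_ ?_
  · intro ε hε
    have hε2 : ε / 2 ≠ 0 := (ENNReal.half_pos hε).ne'
    obtain ⟨s1, hs1⟩ := WJ74.rt_zero ν u (ε / 2) hε2
    have ht := Us778.dip_tendsto ν hν u hA'
    obtain ⟨s2, hs2⟩ := (ENNReal.tendsto_atTop_zero.1 ht) (ε / 2) hε2.bot_lt
    refine ⟨max s1 s2, ?_⟩
    have h1 := hs1 (max s1 s2) (le_max_left _ _)
    have h2 := hs2 (max s1 s2) (le_max_right _ _)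
    simp only [annealed_apply (iidEnvironmentLaw ν) 0 (Us778.measurableSet_Dip u _)] at h2
    calc us (max s1 s2) ≤ ε / 2 + ε / 2 := add_le_add h2 h1
      _ = ε := ENNReal.add_halves ε
  · intro s H E μ M lam hμ hM hl hl'
    have h := W2742.E2 ν u s H E (ext u μ) M lam (by rw [sum_ext]; exact hμ)
      (ext_le u μ M hM) hl hl'
    rw [← sum_lat u μ (fun x => ∑' π, ∑' γ, (if IsUp u H π ∧ endp 0 π ∈ E ∧ IsDn u H γ ∧
        (∃ k, k ∈ Cm u x π γ) ∧ (∀ k ∈ Cm u x π γ, s < k) then NB28.aw ν π * NB28.aw ν γ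
          else 0))] at h
    refine (ENNReal.tsum_le_tsum fun w => mul_le_mul_right (ENNReal.tsum_le_tsum fun π =>
      ENNReal.tsum_le_tsum fun γ => ?_) _).trans (h.trans ?_)
    · by_cases h1 : IsUp u H π <;> by_cases h2 : IsDn u H γ
      · by_cases h3 : endp 0 π ∈ E ∧ (∃ k, k ∈ Cm u w.1 π γ) ∧
          (∀ k ∈ Cm u w.1 π γ, s < k ∧ k + s ≤ H)
        · rw [if_pos h3, if_pos h1, if_pos h2,
            if_pos ⟨h1, h3.1, h2, h3.2.1, fun k hk => (h3.2.2 k hk).1⟩]
        · rw [if_neg h3]; exact zero_le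
      · simp [h2]
      · simp [h1]
      · simp [h1]
    · calc lam + M * E.card * annealedProb (iidEnvironmentLaw ν) 0 (Us778.Dip u s) / lam
          ≤ lam + M * E.card * us s / lam := by
            gcongr
            exact le_self_add
        _ ≤ 4 * (lam + M * E.card * us s / lam) := by
            nth_rw 1 [← one_mul (lam + M * E.card * us s / lam)]
            gcongr
            norm_num
  · intro s H E μ M lam hμ hM hl hl'
    have h := WJ74.piece3 ν u H s E (ext u μ) M lam (by rw [sum_ext]; exact hμ)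
      (ext_le u μ M hM) hl hl'
    rw [← sum_lat u μ (fun x => ∑' π, ∑' γ, (if IsUp u H π ∧ IsDn u H γ ∧ endp 0 γ ∈ E ∧
        (∃ k, k ∈ Cm u x π γ) ∧ (∀ k ∈ Cm u x π γ, k + s ≤ H) then NB28.aw ν π * NB28.aw ν γ
          else 0))] at h
    refine (ENNReal.tsum_le_tsum fun w => mul_le_mul_right (ENNReal.tsum_le_tsum fun π =>
      ENNReal.tsum_le_tsum fun γ => ?_) _).trans (h.trans ?_)
    · by_cases h1 : IsUp u H π <;> by_cases h2 : IsDn u H γ
      · by_cases h3 : endp 0 γ ∈ E ∧ (∃ k, k ∈ Cm u w.1 π γ) ∧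
          (∀ k ∈ Cm u w.1 π γ, s < k ∧ k + s ≤ H)
        · rw [if_pos h3, if_pos h1, if_pos h2,
            if_pos ⟨h1, h2, h3.1, h3.2.1, fun k hk => (h3.2.2 k hk).2⟩]
        · rw [if_neg h3]; exact zero_le
      · simp [h2]
      · simp [h1]
      · simp [h1]
    · rw [mul_add]
      refine add_le_add le_rfl ?_
      calc M * E.card * WJ74.rt ν u s / lam ≤ M * E.card * us s / lam := by
            gcongr
            exact le_add_self
        _ ≤ 4 * (M * E.card * us s / lam) := by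
            nth_rw 1 [← one_mul (M * E.card * us s / lam)]
            gcongr
            norm_num

/-- **KappaW** -/
theorem kappaW (hd : 2 ≤ d) (ν : Measure (Row d)) [IsProbabilityMeasure ν]
    (hν : ∀ᵐ p ∂ν, ∀ e : Step d, 0 < p.1 e) (u : Step d)
    (hA : annealed (iidEnvironmentLaw ν) 0 (escapeEvent (B2d.dirVec u)) ≠ 0)
    (hB : annealed (iidEnvironmentLaw ν) 0 (escapeEvent (-B2d.dirVec u)) ≠ 0) :
    NB28.KappaW ν u := by
  classical
  obtain ⟨c, hc, hc1, hup, hdn⟩ := WM286.mass_pos ν hν u hA hB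
  have h := JAsm139.kap1_of (Lam ν u) (ht u) (dl u) (cd u) one_le_hb
    (fun w b k hk => hcd u w b k hk) (hinj u) (c * c) (mul_ne_zero hc hc)
    (HSl689.U_ge ν u c hup hdn) (HSl689.U_le ν u) (c * c * 2⁻¹)
    (mul_ne_zero (mul_ne_zero hc hc) (by simp))
    (mul_le_one' (mul_le_one' hc1 hc1) (by simp))
    (fun v η hv hv1 hη => by
      obtain ⟨s, hs⟩ := hW ν hν u hA c hc hup hdn v η hv hv1 hη
      exact ⟨s, 0, fun H _ => hs H⟩)
    (HSl689.hSl' hd ν hν u hA hB)
  intro ε hε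
  obtain ⟨M, hM⟩ := h ε hε
  refine ⟨M, fun m hm n hn w hw => ?_⟩
  exact (le_of_eq (Kap1_eq ν u n m ⟨w, hw⟩).symm).trans (hM m hm n hn ⟨w, hw⟩)

/-- **KappaAll** -/
theorem kappaAll0 : NB28.KappaAll :=
  fun d hd ν _ hν u hA hB => kappaW (by omega) ν hν u hA hB

theorem kappaAll : NB28.KappaAll' :=
  fun d hd ν _ hν u hA hB => (kappaW (by omega) ν hν u hA hB).weak

theorem nbProp : Spine.NBProp := NB28.nb_of_kappaW kappaAll0

end Crest.Agent.R154.KA689
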