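import Crest.Agent.R154.HPiece2_692
import Crest.Agent.R154.HWin_692
import Crest.Agent.R154.DensJ_947
import Crest.Agent.R154.KB_818

/-! Row 154, FRAME B (helper692): `KappaAll` and `Spine.NBProp`. -/

set_option autoImplicit false

namespace Crest.Agent.R154.KA692

open MeasureTheory ProbabilityTheory Crest.ProbabilityR.RandomEnvironment Crest.Agent.R154
open Crest.Agent.R154.B5A Crest.Agent.R154.B5W
open Crest.Agent.R154.NB28 (IsUp IsDn Cm)
open scoped ENNReal

theorem hWin {d : ℕ} (ν : Measure (Row d)) [IsProbabilityMeasure ν]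
    (hν : ∀ᵐ p ∂ν, ∀ e : Step d, 0 < p.1 e) (u : Step d)
    (hA : annealed (iidEnvironmentLaw ν) 0 (escapeEvent (B2d.dirVec u)) ≠ 0)
    (hB : annealed (iidEnvironmentLaw ν) 0 (escapeEvent (-B2d.dirVec u)) ≠ 0) :
    KB818.HWin ν u := by
  classical
  obtain ⟨c, hc, -, h1, h2⟩ := WM286.mass_pos ν hν u hA hB
  have hU : ∀ n, c * c ≤ U (Lam ν u) (ht u) n := fun n => by
    rw [U_eq28]; exact mul_le_mul' (h1 n) (h2 n)
  have hU1 : ∀ n, U (Lam ν u) (ht u) n ≤ 1 := fun n => by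
    rw [U_eq28]
    exact mul_le_one' (sum_if_le_one ν fun l l' h h' hp => NB28.isUp_prefix h h' hp)
      (sum_if_le_one ν fun l l' h h' hp => NB28.isDn_prefix h h' hp)
  have hc1 : c ≤ 1 := (h1 0).trans (HP692.up_le_one ν u 0)
  intro ε hε
  exact B5A.hwin (Lam ν u) (ht u) (dl u) (cd u) one_le_hb (fun b => hinj u b) (c * c)
    (mul_ne_zero hc hc) hU hU1 (J947.dens_st _ _ _) 8 (by norm_num) (HP692.del ν u)
    (HP692.del_tendsto ν u) (HP692.hpiece ν u c hc1 h1 h2) ε hε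

theorem kappaAll : NB28.KappaAll :=
  KB818.kappaAll_of fun _ _ ν _ hν u hA hB => hWin ν hν u hA hB

theorem nbProp : Spine.NBProp := NB28.nb_of_kappaW kappaAll

end Crest.Agent.R154.KA692
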