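import Crest.Agent.R154.KB_391
import Crest.Agent.R154.SlbX_926
import Crest.Agent.R154.HWinB_19
import Crest.Agent.R154.HW_725
import Crest.Agent.R154.E23_168

/-! Row 154 (S0219), frame B, the last binding (helper755): `KappaAll`, `NBProp`. -/

set_option autoImplicit false

namespace Crest.Agent.R154.KA755

open MeasureTheory ProbabilityTheory Crest.ProbabilityR.RandomEnvironment Crest.Agent.R154
open Crest.Agent.R154.B5A Crest.Agent.R154.B5W
open Crest.Agent.R154.NB28 (IsUp IsDn)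
open scoped ENNReal

variable {d : ℕ} (ν : Measure (Row d)) [IsProbabilityMeasure ν] (u : Step d)

theorem hWin (hν : ∀ᵐ p ∂ν, ∀ e : Step d, 0 < p.1 e)
    (hA : annealed (iidEnvironmentLaw ν) 0 (escapeEvent (B2d.dirVec u)) ≠ 0)
    (hB : annealed (iidEnvironmentLaw ν) 0 (escapeEvent (-B2d.dirVec u)) ≠ 0) :
    KB391.HWin ν u := by
  classical
  obtain ⟨c, hc, -, hup, hdn⟩ := WM286.mass_pos ν hν u hA hB
  obtain ⟨c', hc', hU, hU1⟩ := KB391.masses ν u hν hA hB
  have hA1 : ∀ n, (∑' l, if IsUp u n l then NB28.aw ν l else 0) ≤ 1 := fun n =>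
    sum_if_le_one ν fun l l' h h' hp => NB28.isUp_prefix h h' hp
  have hB1 : ∀ n, (∑' l, if IsDn u n l then NB28.aw ν l else 0) ≤ 1 := fun n =>
    sum_if_le_one ν fun l l' h h' hp => NB28.isDn_prefix h h' hp
  have hc1 : c ≤ 1 := (hup 0).trans (hA1 0)
  have hus : ∀ δ : ℝ≥0∞, δ ≠ 0 → ∃ s, E23168.uc ν u s ≤ δ := fun δ hδ => by
    obtain ⟨s0, h⟩ := (ENNReal.tendsto_atTop_zero.1 (E23168.uc_tendsto ν u)) δ
      (pos_iff_ne_zero.2 hδ)
    exact ⟨s0, h s0 le_rfl⟩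
  have hW := HW725.hW_of ν u (C := 4) (c := c) (by norm_num) hus
    (E23168.e2c ν u) (E23168.e3c ν u) hc hup hdn hA1 hB1
  exact HWinB19.hWin_of' (Lam ν u) (B5W.ht u) (B5W.dl u) (B5W.cd u) one_le_hb c' hc' hU hU1
    (B5W.hinj u) (c * c) (mul_ne_zero hc hc) (mul_le_one' hc1 hc1) hW

theorem kappaAll : NB28.KappaAll :=
  KB391.kappaAll_of
    (fun d hd ν _ hν u hA hB => SlbX926.hSlb u ν (by omega) hν hA hB)
    (fun d _ ν _ hν u hA hB => hWin ν u hν hA hB)

theorem nb : Spine.NBProp := NB28.nb_of_kappaW kappaAll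

end Crest.Agent.R154.KA755
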