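import Crest.Agent.R154.HW_334
import Crest.Agent.R154.E2_934
import Crest.Agent.R154.E3_934
import Crest.Agent.R154.HWinB_19
import Crest.Agent.R154.KB_818

/-! Row 154, ROAD 801, FRAME B (helper76): the last joint: `NB28.KappaAll` from HW_334 (139's `hW`),
934's `E2`, `E3`, 19's `hWin_of'` and 818's `kappaAll_of`. -/

set_option autoImplicit false

namespace Crest.Agent.R154.KA76

open MeasureTheory ProbabilityTheory Crest.ProbabilityR.RandomEnvironment Crest.Agent.R154
open Crest.Agent.R154.B5A Crest.Agent.R154.B5W Crest.Agent.R154.Comp818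
open Crest.Agent.R154.Flux566 (lw endp sitesL)
open Crest.Agent.R154.NB28 (IsUp IsDn KappaW KappaAll Cm)
open scoped ENNReal Topology

variable {d : ℕ}

lemma act_cat (u : Step d) (L : List (PB u)) (w : Lat u) :
    (act (dl u) L w).1 = w.1 + endp 0 (cat L).1 + endp 0 (cat L).2 := by
  induction L generalizing w with
  | nil => simp [act, cat, endp]
  | cons b L ih =>
    rw [act, ih]
    simp only [dl, dlp, cat, pm]
    rw [Flux566.endp_append, Flux566.endp_append,
      Flux566.endp_eq_add b.1.1 (endp 0 (cat L).1),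
      Flux566.endp_eq_add (cat L).2 (endp 0 b.1.2)]
    abel

open Classical in
/-- sum over the lateral lattice -/
lemma sum_lat (u : Step d) (F : Site d → ℝ≥0∞) :
    ∑' w : Lat u, F w.1 = ∑' x : Site d, (if Flux566.lev u x = 0 then F x else 0) := by
  have h := tsum_subtype {x : Site d | Flux566.lev u x = 0} F
  refine Eq.trans h (tsum_congr fun x => ?_)
  simp [Set.indicator_apply]

open Classical in
/-- a measure on the lateral lattice extended by zero -/
noncomputable def ext (u : Step d) (μ : Lat u → ℝ≥0∞) (x : Site d) : ℝ≥0∞ :=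
  if h : Flux566.lev u x = 0 then μ ⟨x, h⟩ else 0

lemma ext_val (u : Step d) (μ : Lat u → ℝ≥0∞) (w : Lat u) : ext u μ w.1 = μ w := by
  unfold ext
  rw [dif_pos w.2]
  rfl

lemma ext_le (u : Step d) (μ : Lat u → ℝ≥0∞) (M : ℝ≥0∞) (hM : ∀ w, μ w ≤ M) (x : Site d) :
    ext u μ x ≤ M := by
  unfold ext
  split_ifs with h
  · exact hM _
  · exact zero_le

lemma ext_sum (u : Step d) (μ : Lat u → ℝ≥0∞) (h : ∑' w, μ w ≤ 1) : ∑' x, ext u μ x ≤ 1 := by
  classical
  have h1 := sum_lat u (ext u μ)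
  simp only [ext_val] at h1
  refine le_trans (le_of_eq ?_) h
  rw [h1]
  refine tsum_congr fun x => ?_
  by_cases hx : Flux566.lev u x = 0
  · rw [if_pos hx]
  · rw [if_neg hx, ext, dif_neg hx]

variable (ν : Measure (Row d)) [IsProbabilityMeasure ν] (u : Step d)

open Classical in
theorem w2 (s H : ℕ) (E : Finset (Site d)) (μ : Lat u → ℝ≥0∞) (M lam : ℝ≥0∞)
    (hμ : ∑' w, μ w ≤ 1) (hM : ∀ w, μ w ≤ M) (hl : lam ≠ 0) (hl' : lam ≠ ⊤) :
    ∑' w : Lat u, μ w * ∑' π : List (Step d), ∑' γ : List (Step d),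
      (if endp 0 π ∈ E ∧ (∃ k, k ∈ Cm u w.1 π γ) ∧ (∀ k ∈ Cm u w.1 π γ, s < k ∧ k + s ≤ H)
        then (if IsUp u H π then NB28.aw ν π else 0) * (if IsDn u H γ then NB28.aw ν γ else 0)
        else 0)
      ≤ lam + M * (E.card * E934.us ν u s) / lam := by
  have h := E934.E2 ν (u := u) s H E (ext u μ) M lam (ext_sum u μ hμ) (ext_le u μ M hM) hl hl'
  refine le_trans ?_ h
  have h2 := sum_lat u (fun x => ext u μ x * ∑' π : List (Step d), ∑' γ : List (Step d),
      (if IsUp u H π ∧ endp 0 π ∈ E ∧ IsDn u H γ ∧ (∃ k, k ∈ Cm u x π γ) ∧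
        (∀ k ∈ Cm u x π γ, s < k) then NB28.aw ν π * NB28.aw ν γ else 0))
  refine le_trans ?_ (le_of_eq h2)
  refine ENNReal.tsum_le_tsum fun w => ?_
  rw [ext_val]
  refine mul_le_mul_right ?_ _
  refine ENNReal.tsum_le_tsum fun π => ENNReal.tsum_le_tsum fun γ => ?_
  by_cases h1 : endp 0 π ∈ E ∧ (∃ k, k ∈ Cm u w.1 π γ) ∧ (∀ k ∈ Cm u w.1 π γ, s < k ∧ k + s ≤ H)
  · rw [if_pos h1]
    by_cases hp : IsUp u H π
    · by_cases hg : IsDn u H γ
      · rw [if_pos hp, if_pos hg, if_pos ⟨hp, h1.1, hg, h1.2.1, fun k hk => (h1.2.2 k hk).1⟩]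
      · simp [hg]
    · simp [hp]
  · rw [if_neg h1]; exact zero_le

open Classical in
theorem w3 (s H : ℕ) (E : Finset (Site d)) (μ : Lat u → ℝ≥0∞) (M lam : ℝ≥0∞)
    (hμ : ∑' w, μ w ≤ 1) (hM : ∀ w, μ w ≤ M) (hl : lam ≠ 0) (hl' : lam ≠ ⊤) :
    ∑' w : Lat u, μ w * ∑' π : List (Step d), ∑' γ : List (Step d),
      (if endp 0 γ ∈ E ∧ (∃ k, k ∈ Cm u w.1 π γ) ∧ (∀ k ∈ Cm u w.1 π γ, s < k ∧ k + s ≤ H)
        then (if IsUp u H π then NB28.aw ν π else 0) * (if IsDn u H γ then NB28.aw ν γ else 0)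
        else 0)
      ≤ 8 * lam + 2 * (M * (E.card * E934.us ν (Flux132.opp u) s) / lam) := by
  have h := E934.E3 ν (u := u) s H E (ext u μ) M lam (ext_sum u μ hμ) (ext_le u μ M hM) hl hl'
  refine le_trans ?_ h
  have h2 := sum_lat u (fun x => ext u μ x * ∑' π : List (Step d), ∑' γ : List (Step d),
      (if IsUp u H π ∧ endp 0 γ ∈ E ∧ IsDn u H γ ∧ (∃ k, k ∈ Cm u x π γ) ∧
        (∀ k ∈ Cm u x π γ, k + s ≤ H) then NB28.aw ν π * NB28.aw ν γ else 0))
  refine le_trans ?_ (le_of_eq h2)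
  refine ENNReal.tsum_le_tsum fun w => ?_
  rw [ext_val]
  refine mul_le_mul_right ?_ _
  refine ENNReal.tsum_le_tsum fun π => ENNReal.tsum_le_tsum fun γ => ?_
  by_cases h1 : endp 0 γ ∈ E ∧ (∃ k, k ∈ Cm u w.1 π γ) ∧ (∀ k ∈ Cm u w.1 π γ, s < k ∧ k + s ≤ H)
  · rw [if_pos h1]
    by_cases hp : IsUp u H π
    · by_cases hg : IsDn u H γ
      · rw [if_pos hp, if_pos hg, if_pos ⟨hp, h1.1, hg, h1.2.1, fun k hk => (h1.2.2 k hk).2⟩]
      · simp [hg]
    · simp [hp]
  · rw [if_neg h1]; exact zero_le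

open Classical in
theorem hcat (H : ℕ) (F : List (Step d) → List (Step d) → ℝ≥0∞) :
    ∑' L : List (PB u), (if HT (ht u) L = H then LW (Lam ν u) L * F (cat L).1 (cat L).2 else 0)
      = ∑' π : List (Step d), ∑' γ : List (Step d),
        (if IsUp u H π then NB28.aw ν π else 0) * (if IsDn u H γ then NB28.aw ν γ else 0)
          * F π γ := by
  refine (tsum_L ν u H (fun x => F x.1 x.2)).trans ?_
  refine tsum_congr fun π => tsum_congr fun γ => ?_
  by_cases h1 : IsUp u H π <;> by_cases h2 : IsDn u H γ <;> simp [h1, h2]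

noncomputable def us (s : ℕ) : ℝ≥0∞ := E934.us ν u s + E934.us ν (Flux132.opp u) s

theorem hus (ε : ℝ≥0∞) (hε : ε ≠ 0) : ∃ s, us ν u s ≤ ε := by
  have h2 : ε / 2 ≠ 0 := by simp [hε]
  obtain ⟨s1, h1⟩ := E934.us_small ν u (ε / 2) h2
  obtain ⟨s2, h2⟩ := E934.us_small ν (Flux132.opp u) (ε / 2) h2
  refine ⟨max s1 s2, ?_⟩
  calc us ν u (max s1 s2) ≤ ε / 2 + ε / 2 :=
        add_le_add (h1 _ (le_max_left _ _)) (h2 _ (le_max_right _ _))
    _ = ε := ENNReal.add_halves ε

/-- **`HWin`** for 657's instance -/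
theorem hWin (hν : ∀ᵐ p ∂ν, ∀ e : Step d, 0 < p.1 e)
    (hA : annealed (iidEnvironmentLaw ν) 0 (escapeEvent (B2d.dirVec u)) ≠ 0)
    (hB : annealed (iidEnvironmentLaw ν) 0 (escapeEvent (-B2d.dirVec u)) ≠ 0) :
    KB818.HWin ν u := by
  classical
  obtain ⟨c, hc, hc1, h1, h2⟩ := WM286.mass_pos ν hν u hA hB
  have hU : ∀ n, c * c ≤ U (Lam ν u) (ht u) n := fun n => by
    rw [U_eq28]; exact mul_le_mul' (h1 n) (h2 n)
  have hp1 : ∀ n : ℕ, (∑' π : List (Step d), if IsUp u n π then NB28.aw ν π else 0) ≤ 1 :=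
    fun n => sum_if_le_one ν fun l l' h h' hp => NB28.isUp_prefix h h' hp
  have hq1 : ∀ n : ℕ, (∑' π : List (Step d), if IsDn u n π then NB28.aw ν π else 0) ≤ 1 :=
    fun n => sum_if_le_one ν fun l l' h h' hp => NB28.isDn_prefix h h' hp
  have hU1 : ∀ n, U (Lam ν u) (ht u) n ≤ 1 := fun n => by
    rw [U_eq28]
    exact mul_le_one' (hp1 n) (hq1 n)
  have hc11 : c * c * 2⁻¹ ≤ 1 := by
    calc c * c * 2⁻¹ ≤ 1 * 1 * 1 := by
          gcongr
          exact ENNReal.inv_le_one.2 one_le_two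
      _ = 1 := by simp
  have hW := HW334.hW_of (Lam ν u) (ht u) (dl u) (cd u) (fun L => cat L)
    (fun w : Lat u => (w.1 : Site d)) (fun π : List (Step d) => endp 0 π)
    (fun γ : List (Step d) => endp 0 γ)
    (fun H π => if IsUp u H π then NB28.aw ν π else 0)
    (fun H γ => if IsDn u H γ then NB28.aw ν γ else 0)
    (fun w π γ => Cm u w.1 π γ)
    (hcat ν u) (act_cat u)
    (fun L w => by rw [CD_cat, ← cds_eq])
    c hc h1 hp1 h2 hq1 (us ν u) (hus ν u) 8 (by norm_num) (by norm_num)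
    (fun s H E μ M lam hμ hM hl hl' => by
      refine le_trans (le_of_eq (tsum_congr fun w => congrArg _ (tsum_congr fun π =>
        tsum_congr fun γ => by congr!)))
        ((w2 ν u s H E μ M lam hμ hM hl hl').trans ?_)
      have e1 : M * (E.card * E934.us ν u s) / lam ≤ M * E.card * us ν u s / lam := by
        rw [← mul_assoc]
        gcongr
        exact le_add_right le_rfl
      calc lam + M * (E.card * E934.us ν u s) / lam
          ≤ lam + M * E.card * us ν u s / lam := by gcongr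
        _ = 1 * (lam + M * E.card * us ν u s / lam) := (one_mul _).symm
        _ ≤ 8 * (lam + M * E.card * us ν u s / lam) := by gcongr; norm_num)
    (fun s H E μ M lam hμ hM hl hl' => by
      refine le_trans (le_of_eq (tsum_congr fun w => congrArg _ (tsum_congr fun π =>
        tsum_congr fun γ => by congr!)))
        ((w3 ν u s H E μ M lam hμ hM hl hl').trans ?_)
      have e1 : M * (E.card * E934.us ν (Flux132.opp u) s) / lam
          ≤ M * E.card * us ν u s / lam := by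
        rw [← mul_assoc]
        gcongr
        exact le_add_left le_rfl
      calc 8 * lam + 2 * (M * (E.card * E934.us ν (Flux132.opp u) s) / lam)
          ≤ 8 * lam + 8 * (M * E.card * us ν u s / lam) := by
            gcongr
            norm_num
        _ = 8 * (lam + M * E.card * us ν u s / lam) := by ring)
  exact HWinB19.hWin_of' (Lam ν u) (ht u) (dl u) (cd u) one_le_hb (c * c) (mul_ne_zero hc hc)
    hU hU1 (hinj u) (c * c * 2⁻¹) (mul_ne_zero (mul_ne_zero hc hc) (by simp)) hc11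
    (fun v η hv hv1 hη => by
      obtain ⟨s, hs⟩ := hW v η hv hv1 hη
      refine ⟨s, 0, fun H _ => ?_⟩
      exact hs H)

theorem kappaAll : KappaAll :=
  KB818.kappaAll_of fun _ _ ν _ hν u hA hB => hWin ν u hν hA hB

theorem nb : Crest.Agent.R154.Spine.NBProp := NB28.nb_of_kappaW kappaAll

end Crest.Agent.R154.KA76
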