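import Crest.Agent.R154.HW_799
import Crest.Agent.R154.HWinB_19
import Crest.Agent.R154.KB_818

/-! Row 154 (helper799): **`Spine.NBProp`** (FRAME B closed): `hW0` (998 + window lemmas of 799) → 19's
`hWin_of'` → 818's `kappaAll_of` → 28's `nb_of_kappaW`. -/

set_option autoImplicit false

open MeasureTheory ProbabilityTheory Crest.ProbabilityR.RandomEnvironment
open scoped ENNReal

namespace Crest.Agent.R154.KA799

open Crest.Agent.R154.B5A Crest.Agent.R154.B5W
open Crest.Agent.R154.NB28 (IsUp IsDn KappaW KappaAll)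

variable {d : ℕ}

open Classical in
theorem hwin (ν : Measure (Row d)) [IsProbabilityMeasure ν]
    (hν : ∀ᵐ p ∂ν, ∀ e : Step d, 0 < p.1 e) (u : Step d)
    (hA : annealed (iidEnvironmentLaw ν) 0 (escapeEvent (B2d.dirVec u)) ≠ 0)
    (hB : annealed (iidEnvironmentLaw ν) 0 (escapeEvent (-B2d.dirVec u)) ≠ 0) :
    KB818.HWin ν u := by
  obtain ⟨c, hc, hc1, h1, h2⟩ := WM286.mass_pos ν hν u hA hB
  have hU : ∀ n, c * c ≤ U (Lam ν u) (ht u) n := fun n => by
    rw [U_eq28]; exact mul_le_mul' (h1 n) (h2 n)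
  have m1 : ∀ n : ℕ, ∑' π : List (Step d), (if IsUp u n π then NB28.aw ν π else 0) ≤ 1 := fun n =>
    sum_if_le_one ν fun l l' h h' hp => NB28.isUp_prefix h h' hp
  have m2 : ∀ n : ℕ, ∑' γ : List (Step d), (if IsDn u n γ then NB28.aw ν γ else 0) ≤ 1 := fun n =>
    sum_if_le_one ν fun l l' h h' hp => NB28.isDn_prefix h h' hp
  have hU1 : ∀ n, U (Lam ν u) (ht u) n ≤ 1 := fun n => by
    rw [U_eq28]
    exact mul_le_one' (m1 n) (m2 n)
  exact HWinB19.hWin_of' (Lam ν u) (ht u) (dl u) (cd u) one_le_hb (c * c) (mul_ne_zero hc hc) hU hU1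
    (hinj u) (c * c) (mul_ne_zero hc hc) (mul_le_one' hc1 hc1)
    (fun v η hv hv1 hη => HW799.hW0 ν u c hc h1 h2 m1 m2 v η hv hv1 hη)

/-- **KAPPA'** -/
theorem kappaAll : KappaAll :=
  KB818.kappaAll_of fun _ _ ν _ hν u hA hB => hwin ν hν u hA hB

/-- **`Spine.NBProp`** -/
theorem nb : Spine.NBProp := NB28.nb_of_kappaW kappaAll

end Crest.Agent.R154.KA799
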