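import Crest.Agent.R154.KapComp_803
import Crest.Agent.R154.KB_169
import Crest.Agent.R154.E2_934
import Crest.Agent.R154.E3_934

/-! Row 154, ROAD 801, frame B (helper815): `KappaAll` (803's composition + 169's outer joint +
934's word lemmas E2, E3). -/

set_option autoImplicit false

open MeasureTheory ProbabilityTheory Crest.ProbabilityR.RandomEnvironment
open scoped ENNReal

namespace Crest.Agent.R154.KA815

open Crest.Agent.R154.B5A Crest.Agent.R154.B5W
open Crest.Agent.R154.Flux566 (endp sitesL lev opp)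
open Crest.Agent.R154.NB28 (IsUp IsDn Cm)

variable {d : ℕ}

lemma act_cat (u : Step d) (L : List (PB u)) (w : Lat u) :
    (act (dl u) L w).1 = w.1 + endp 0 (cat L).1 + endp 0 (cat L).2 := by
  induction L generalizing w with
  | nil => simp [act, cat, endp]
  | cons b L ih =>
    rw [act, ih]
    simp only [dl, dlp, cat, pm, Flux566.endp_append]
    rw [Flux566.endp_eq_add b.1.1 (endp 0 (cat L).1), Flux566.endp_eq_add (cat L).2 (endp 0 b.1.2)]
    abel

variable (ν : Measure (Row d)) [IsProbabilityMeasure ν]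

open Classical in
/-- product law at exact height -/
lemma prod_law (u : Step d) (H : ℕ) : ∃ a b : Site d → ℝ≥0∞, ∑' z, a z ≤ 1 ∧ ∑' z, b z ≤ 1 ∧
    ∀ F : Site d → Site d → ℝ≥0∞,
      (∑' L : List (PB u), if HT (ht u) L = H then
        LW (Lam ν u) L * F (endp 0 (cat L).1) (-endp 0 (cat L).2) else 0)
        = ∑' x, ∑' y, a x * b y * F x y := by
  refine ⟨fun z => ∑' π : List (Step d), if IsUp u H π ∧ endp 0 π = z then NB28.aw ν π else 0,
    fun z => ∑' γ : List (Step d), if IsDn u H γ ∧ -endp 0 γ = z then NB28.aw ν γ else 0, ?_, ?_, ?_⟩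
  · rw [ENNReal.tsum_comm]
    refine (ENNReal.tsum_le_tsum fun π => ?_).trans
      (sum_if_le_one ν (P := fun l => IsUp u H l) fun l l' h h' hp => NB28.isUp_prefix h h' hp)
    rw [tsum_eq_single (endp 0 π)]
    · by_cases h : IsUp u H π <;> simp [h]
    · intro z hz
      rw [if_neg (fun h => hz h.2.symm)]
  · rw [ENNReal.tsum_comm]
    refine (ENNReal.tsum_le_tsum fun π => ?_).trans
      (sum_if_le_one ν (P := fun l => IsDn u H l) fun l l' h h' hp => NB28.isDn_prefix h h' hp)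
    rw [tsum_eq_single (-endp 0 π)]
    · by_cases h : IsDn u H π <;> simp [h]
    · intro z hz
      rw [if_neg (fun h => hz h.2.symm)]
  · intro F
    rw [tsum_L ν u H (fun x => F (endp 0 x.1) (-endp 0 x.2))]
    calc (∑' π : List (Step d), ∑' γ : List (Step d),
          if IsUp u H π ∧ IsDn u H γ then NB28.aw ν π * NB28.aw ν γ * F (endp 0 π) (-endp 0 γ) else 0)
        = ∑' π : List (Step d), ∑' γ : List (Step d), ∑' x : Site d, ∑' y : Site d,
          (if IsUp u H π ∧ endp 0 π = x then NB28.aw ν π else 0)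
            * (if IsDn u H γ ∧ -endp 0 γ = y then NB28.aw ν γ else 0) * F x y := by
          refine tsum_congr fun π => tsum_congr fun γ => ?_
          rw [tsum_eq_single (endp 0 π), tsum_eq_single (-endp 0 γ)]
          · by_cases h1 : IsUp u H π <;> by_cases h2 : IsDn u H γ <;> simp [h1, h2]
          · intro y hy
            rw [if_neg (fun h : IsDn u H γ ∧ -endp 0 γ = y => hy h.2.symm), mul_zero, zero_mul]
          · intro x hx
            simp [if_neg (fun h : IsUp u H π ∧ endp 0 π = x => hx h.2.symm)]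
      _ = ∑' π : List (Step d), ∑' x : Site d, ∑' γ : List (Step d), ∑' y : Site d,
          (if IsUp u H π ∧ endp 0 π = x then NB28.aw ν π else 0)
            * (if IsDn u H γ ∧ -endp 0 γ = y then NB28.aw ν γ else 0) * F x y :=
          tsum_congr fun π => ENNReal.tsum_comm
      _ = ∑' x : Site d, ∑' π : List (Step d), ∑' γ : List (Step d), ∑' y : Site d,
          (if IsUp u H π ∧ endp 0 π = x then NB28.aw ν π else 0)
            * (if IsDn u H γ ∧ -endp 0 γ = y then NB28.aw ν γ else 0) * F x y :=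
          ENNReal.tsum_comm
      _ = ∑' x : Site d, ∑' π : List (Step d), ∑' y : Site d, ∑' γ : List (Step d),
          (if IsUp u H π ∧ endp 0 π = x then NB28.aw ν π else 0)
            * (if IsDn u H γ ∧ -endp 0 γ = y then NB28.aw ν γ else 0) * F x y :=
          tsum_congr fun x => tsum_congr fun π => ENNReal.tsum_comm
      _ = ∑' x : Site d, ∑' y : Site d, ∑' π : List (Step d), ∑' γ : List (Step d),
          (if IsUp u H π ∧ endp 0 π = x then NB28.aw ν π else 0)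
            * (if IsDn u H γ ∧ -endp 0 γ = y then NB28.aw ν γ else 0) * F x y :=
          tsum_congr fun x => ENNReal.tsum_comm
      _ = _ := by
          refine tsum_congr fun x => tsum_congr fun y => ?_
          rw [← ENNReal.tsum_mul_right, ← ENNReal.tsum_mul_right]
          refine tsum_congr fun π => ?_
          rw [← ENNReal.tsum_mul_left, ← ENNReal.tsum_mul_right]

open Classical in
/-- window sums in words -/
lemma WP_words (u : Step d) (H s : ℕ) (P : List (Step d) × List (Step d) → Prop) (x : Lat u) :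
    KapComp803.WP (Lam ν u) (ht u) (dl u) (cd u) H s (fun L => P (cat L)) x
      = ∑' π : List (Step d), ∑' γ : List (Step d),
        if (IsUp u H π ∧ IsDn u H γ) ∧ P (π, γ) ∧ (∃ k, k ∈ Cm u x.1 π γ) ∧
          (∀ k ∈ Cm u x.1 π γ, s < k ∧ k + s ≤ H) then NB28.aw ν π * NB28.aw ν γ else 0 := by
  have h := tsum_L ν u H (fun y => if P y ∧ (∃ k, k ∈ cds u y x.1) ∧
    (∀ k ∈ cds u y x.1, s < k ∧ k + s ≤ H) then 1 else 0)
  unfold KapComp803.WP
  refine Eq.trans ?_ (h.trans ?_)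
  · refine tsum_congr fun L => ?_
    rw [CD_cat]
    by_cases h1 : HT (ht u) L = H
    · by_cases h2 : P (cat L) ∧ (∃ k, k ∈ cds u (cat L) x.1) ∧
        (∀ k ∈ cds u (cat L) x.1, s < k ∧ k + s ≤ H)
      · rw [if_pos ⟨h1, h2.1, Set.nonempty_iff_ne_empty.1 h2.2.1, h2.2.2⟩, if_pos h1, if_pos h2,
          mul_one]
      · rw [if_neg (fun h' => h2 ⟨h'.2.1, Set.nonempty_iff_ne_empty.2 h'.2.2.1, h'.2.2.2⟩),
          if_pos h1, if_neg h2, mul_zero]
    · rw [if_neg (fun h' => h1 h'.1), if_neg h1]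
  · refine tsum_congr fun π => tsum_congr fun γ => ?_
    rw [cds_eq]
    by_cases h1 : IsUp u H π ∧ IsDn u H γ
    · by_cases h2 : P (π, γ) ∧ (∃ k, k ∈ Cm u x.1 π γ) ∧
        (∀ k ∈ Cm u x.1 π γ, s < k ∧ k + s ≤ H)
      · rw [if_pos h1, if_pos h2, if_pos ⟨h1, h2⟩, mul_one]
      · rw [if_pos h1, if_neg h2, if_neg (fun h' => h2 h'.2), mul_zero]
    · rw [if_neg h1, if_neg (fun h' => h1 h'.1)]

/-- extension of a mass on `Lat u` by zero -/
lemma ext_sum (u : Step d) (μ : Lat u → ℝ≥0∞) (G : Site d → ℝ≥0∞) :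
    ∃ μ' : Site d → ℝ≥0∞, (∑' x, μ' x = ∑' x, μ x) ∧ (∀ M, (∀ x, μ x ≤ M) → ∀ x, μ' x ≤ M) ∧
      ∑' x : Lat u, μ x * G x.1 = ∑' x : Site d, (if lev u x = 0 then μ' x * G x else 0) := by
  classical
  refine ⟨fun x => if h : lev u x = 0 then μ ⟨x, h⟩ else 0, ?_, ?_, ?_⟩
  · have h1 := tsum_subtype {w : Site d | lev u w = 0}
      (fun x => if h : lev u x = 0 then μ ⟨x, h⟩ else 0)
    refine Eq.trans (Eq.trans ?_ h1.symm) ?_
    · refine tsum_congr fun x => ?_
      by_cases h : lev u x = 0 <;> simp [h]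
    · refine tsum_congr fun x => ?_
      have hx : lev u x.1 = 0 := x.2
      rw [dif_pos hx]
      rfl
  · intro M hM x
    by_cases h : lev u x = 0
    · simp only [h, dif_pos]; exact hM _
    · simp only [h]; exact zero_le
  · have h1 := tsum_subtype {w : Site d | lev u w = 0}
      (fun x => (if h : lev u x = 0 then μ ⟨x, h⟩ else 0) * G x)
    refine Eq.trans (Eq.trans ?_ h1) ?_
    · refine tsum_congr fun x => ?_
      have hx : lev u x.1 = 0 := x.2
      simp only [hx, dif_pos]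
      rfl
    · refine tsum_congr fun x => ?_
      by_cases h : lev u x = 0 <;> simp [h]

/-- numbers -/
lemma num (Cst η : ℝ≥0∞) (hC : Cst ≠ ⊤) (hη : η ≠ 0) :
    ∃ lam δ : ℝ≥0∞, lam ≠ 0 ∧ lam ≠ ⊤ ∧ δ ≠ 0 ∧ 8 * lam + 2 * (Cst * δ / lam) ≤ η := by
  set η' : ℝ≥0∞ := min η 1 with hη'
  have h0 : η' ≠ 0 := by rw [hη']; simp [hη]
  have ht : η' ≠ ⊤ := ne_top_of_le_ne_top ENNReal.one_ne_top (min_le_right _ _)
  have hle : η' ≤ η := min_le_left _ _
  set lam : ℝ≥0∞ := η' / 16 with hlam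
  have hl0 : lam ≠ 0 := by rw [hlam]; simp [ENNReal.div_eq_zero_iff, h0]
  have hlt : lam ≠ ⊤ := by rw [hlam]; exact ENNReal.div_ne_top ht (by norm_num)
  refine ⟨lam, lam * lam / (Cst + 1), hl0, hlt, ?_, ?_⟩
  · rw [Ne, ENNReal.div_eq_zero_iff, not_or]
    exact ⟨mul_ne_zero hl0 hl0, ENNReal.add_ne_top.2 ⟨hC, ENNReal.one_ne_top⟩⟩
  · have h1 : Cst * (lam * lam / (Cst + 1)) / lam ≤ lam := by
      rw [ENNReal.div_le_iff_le_mul (Or.inl hl0) (Or.inl hlt)]
      calc Cst * (lam * lam / (Cst + 1)) ≤ (Cst + 1) * (lam * lam / (Cst + 1)) :=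
            mul_le_mul_left le_self_add _
        _ ≤ lam * lam := ENNReal.mul_div_le
    calc 8 * lam + 2 * (Cst * (lam * lam / (Cst + 1)) / lam) ≤ 8 * lam + 2 * lam := by gcongr
      _ = 10 * lam := by rw [← add_mul]; norm_num
      _ ≤ 16 * lam := by gcongr; norm_num
      _ = η' := ENNReal.mul_div_cancel (by norm_num) (by norm_num)
      _ ≤ η := hle

open Classical in
theorem hWX (u : Step d) (Cst η : ℝ≥0∞) (hC : Cst ≠ ⊤) (hη : η ≠ 0) :
    ∃ s0 : ℕ, ∀ s, s0 ≤ s → ∀ (H : ℕ) (E : Finset (Site d))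
      (μ : Lat u → ℝ≥0∞) (M : ℝ≥0∞), ∑' x, μ x ≤ 1 → (∀ x, μ x ≤ M) → M * E.card ≤ Cst →
      ∑' x, μ x * KapComp803.WP (Lam ν u) (ht u) (dl u) (cd u) H s
        (fun L => endp 0 (cat L).1 ∈ E) x ≤ η := by
  obtain ⟨lam, δ, hl0, hlt, hδ, hnum⟩ := num Cst η hC hη
  obtain ⟨s0, hs0⟩ := E934.us_small ν u δ hδ
  refine ⟨s0, fun s hs H E μ M hμ1 hμM hME => ?_⟩
  obtain ⟨μ', h1, h2, h3⟩ := ext_sum u μ (fun x => ∑' π : List (Step d), ∑' γ : List (Step d),
      (if IsUp u H π ∧ endp 0 π ∈ E ∧ IsDn u H γ ∧ (∃ k, k ∈ Cm u x π γ) ∧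
        (∀ k ∈ Cm u x π γ, s < k) then NB28.aw ν π * NB28.aw ν γ else 0))
  have key := E934.E2 ν (u := u) s H E μ' M lam (h1 ▸ hμ1) (h2 M hμM) hl0 hlt
  refine le_trans ?_ (le_trans (h3.le.trans key) ?_)
  · refine ENNReal.tsum_le_tsum fun x => mul_le_mul_right ?_ _
    rw [WP_words ν u H s (fun y => endp 0 y.1 ∈ E) x]
    refine ENNReal.tsum_le_tsum fun π => ENNReal.tsum_le_tsum fun γ => ?_
    by_cases h : (IsUp u H π ∧ IsDn u H γ) ∧ endp 0 π ∈ E ∧ (∃ k, k ∈ Cm u x.1 π γ) ∧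
          (∀ k ∈ Cm u x.1 π γ, s < k ∧ k + s ≤ H)
    · rw [if_pos h, if_pos ⟨h.1.1, h.2.1, h.1.2, h.2.2.1, fun k hk => (h.2.2.2 k hk).1⟩]
    · rw [if_neg h]; exact zero_le
  · refine le_trans ?_ hnum
    have h5 : M * (E.card * E934.us ν u s) ≤ Cst * δ := by
      rw [← mul_assoc]
      exact mul_le_mul' hME (hs0 s hs)
    refine add_le_add ?_ ?_
    · calc lam = 1 * lam := (one_mul _).symm
        _ ≤ 8 * lam := by gcongr; norm_num
    · calc M * (E.card * E934.us ν u s) / lam ≤ Cst * δ / lam := ENNReal.div_le_div_right h5 _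
        _ = 1 * (Cst * δ / lam) := (one_mul _).symm
        _ ≤ 2 * (Cst * δ / lam) := by gcongr; norm_num

open Classical in
theorem hWY (u : Step d) (Cst η : ℝ≥0∞) (hC : Cst ≠ ⊤) (hη : η ≠ 0) :
    ∃ s0 : ℕ, ∀ s, s0 ≤ s → ∀ (H : ℕ) (E : Finset (Site d))
      (μ : Lat u → ℝ≥0∞) (M : ℝ≥0∞), ∑' x, μ x ≤ 1 → (∀ x, μ x ≤ M) → M * E.card ≤ Cst →
      ∑' x, μ x * KapComp803.WP (Lam ν u) (ht u) (dl u) (cd u) H s
        (fun L => -endp 0 (cat L).2 ∈ E) x ≤ η := by
  obtain ⟨lam, δ, hl0, hlt, hδ, hnum⟩ := num Cst η hC hη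
  obtain ⟨s0, hs0⟩ := E934.us_small ν (opp u) δ hδ
  refine ⟨s0, fun s hs H E μ M hμ1 hμM hME => ?_⟩
  set E' : Finset (Site d) := E.image (fun z => -z) with hE'
  have hcard : (E'.card : ℝ≥0∞) ≤ E.card := by exact_mod_cast Finset.card_image_le
  obtain ⟨μ', h1, h2, h3⟩ := ext_sum u μ (fun x => ∑' π : List (Step d), ∑' γ : List (Step d),
      (if IsUp u H π ∧ endp 0 γ ∈ E' ∧ IsDn u H γ ∧ (∃ k, k ∈ Cm u x π γ) ∧
        (∀ k ∈ Cm u x π γ, k + s ≤ H) then NB28.aw ν π * NB28.aw ν γ else 0))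
  have key := E934.E3 ν (u := u) s H E' μ' M lam (h1 ▸ hμ1) (h2 M hμM) hl0 hlt
  refine le_trans ?_ (le_trans (h3.le.trans key) ?_)
  · refine ENNReal.tsum_le_tsum fun x => mul_le_mul_right ?_ _
    rw [WP_words ν u H s (fun y => -endp 0 y.2 ∈ E) x]
    refine ENNReal.tsum_le_tsum fun π => ENNReal.tsum_le_tsum fun γ => ?_
    by_cases h : (IsUp u H π ∧ IsDn u H γ) ∧ -endp 0 γ ∈ E ∧ (∃ k, k ∈ Cm u x.1 π γ) ∧
          (∀ k ∈ Cm u x.1 π γ, s < k ∧ k + s ≤ H)
    · rw [if_pos h, if_pos ⟨h.1.1, Finset.mem_image.2 ⟨_, h.2.1, neg_neg _⟩, h.1.2, h.2.2.1,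
        fun k hk => (h.2.2.2 k hk).2⟩]
    · rw [if_neg h]; exact zero_le
  · refine le_trans ?_ hnum
    have h5 : M * (E'.card * E934.us ν (opp u) s) ≤ Cst * δ := by
      rw [← mul_assoc]
      exact mul_le_mul' ((mul_le_mul_right hcard _).trans hME) (hs0 s hs)
    exact add_le_add le_rfl (mul_le_mul_right (ENNReal.div_le_div_right h5 _) _)

theorem hWin (hν : ∀ᵐ p ∂ν, ∀ e : Step d, 0 < p.1 e) (u : Step d)
    (hA : annealed (iidEnvironmentLaw ν) 0 (escapeEvent (B2d.dirVec u)) ≠ 0)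
    (hB : annealed (iidEnvironmentLaw ν) 0 (escapeEvent (-B2d.dirVec u)) ≠ 0) :
    KB169.HWinSt (Lam ν u) (ht u) (dl u) (cd u) := by
  obtain ⟨c, hc, _, hup, hdn⟩ := WM286.mass_pos ν hν u hA hB
  have hU : ∀ n, c * c ≤ U (Lam ν u) (ht u) n := fun n => by
    rw [U_eq28]; exact mul_le_mul' (hup n) (hdn n)
  have hU1 := HSl169.U_le_one ν u
  have hcc : c * c ≠ 0 := mul_ne_zero hc hc
  have h1 : ∀ b, 1 ≤ ht u b := one_le_hb
  have hΛ : ∑' b, Lam ν u b = 1 :=
    le_antisymm (mass_le_one _ _ h1 hU1) (mass_ge_one _ _ (c * c) hcc 0 fun n _ => hU n)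
  have hcct : c * c ≠ ⊤ := ne_top_of_le_ne_top ENNReal.one_ne_top ((hU 0).trans (hU1 0))
  have hmean : ∑' k, tail (Lam ν u) (ht u) k ≠ ⊤ := by
    rw [← sum_tail _ _ hΛ]
    exact ne_top_of_le_ne_top (ENNReal.inv_ne_top.2 hcc)
      (mean_le _ _ h1 hΛ (c * c) hcc hcct 0 fun n _ => hU n)
  exact KapComp803.hWin_of (Lam ν u) (ht u) (dl u) (cd u) h1 hΛ.le hmean (c * c) hcc hU hU1
    (fun L => endp 0 (cat L).1) (fun L => -endp 0 (cat L).2) (prod_law ν u)
    (fun L' w x => ⟨x.1 - w.1 - endp 0 (cat L').1 - endp 0 (cat L').2, fun A hA => by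
      have h := congrArg Subtype.val hA
      rw [act_append, act_cat, act_cat] at h
      rw [← h]; abel⟩)
    (fun Cst η hC hη => hWX ν u Cst η hC hη) (fun Cst η hC hη => hWY ν u Cst η hC hη)

end Crest.Agent.R154.KA815

namespace Crest.Agent.R154.KA815

theorem kappaAll0 : NB28.KappaAll :=
  KB169.kappaAll_of fun _ _ ν _ hν u hA hB => hWin ν hν u hA hB

theorem nbProp : Spine.NBProp := NB28.nb_of_kappaW kappaAll0

theorem kappaAll : NB28.KappaAll' := fun d hd ν _ hν u hA hB => (kappaAll0 d hd ν hν u hA hB).weak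

end Crest.Agent.R154.KA815

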