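import Crest.Agent.R154.KapComp_803
import Crest.Agent.R154.KB_169
import Crest.Agent.R154.E23_168

/-! Row 154, ROAD 801, frame B (helper898): the last binding, `NB28.KappaAll`. -/

set_option autoImplicit false

open MeasureTheory ProbabilityTheory Crest.ProbabilityR.RandomEnvironment
open scoped ENNReal

namespace Crest.Agent.R154.KA898

open Crest.Agent.R154.B5A Crest.Agent.R154.B5W
open Crest.Agent.R154.NB28 (IsUp IsDn Cm)
open Crest.Agent.R154.Flux566 (endp endp_append endp_eq_add)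

variable {d : ℕ}

/-- displacement of the X word of a list, read from its end -/
def zX (u : Step d) (L : List (PB u)) : Site d := -endp 0 (cat L).1

/-- displacement of the Y word of a list -/
def zY (u : Step d) (L : List (PB u)) : Site d := endp 0 (cat L).2

lemma cat_disp (u : Step d) (L : List (PB u)) :
    endp 0 (cat L).1 + endp 0 (cat L).2 = (L.map (HSl169.dsp u)).sum := by
  induction L with
  | nil => simp [cat, endp]
  | cons b L ih =>
    rw [List.map_cons, List.sum_cons, ← ih, cat]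
    simp only [pm, HSl169.dsp]
    rw [endp_append, endp_append, endp_eq_add b.1.1 (endp 0 (cat L).1),
      endp_eq_add (cat L).2 (endp 0 b.1.2)]
    abel

lemma hrel (u : Step d) (L' : List (PB u)) (w x : Lat u) :
    ∃ κ : Site d, ∀ A, act (dl u) (A ++ L') w = x → zX u A = zY u A + κ := by
  refine ⟨w.1 + (L'.map (HSl169.dsp u)).sum - x.1, fun A hA => ?_⟩
  have h := congrArg Subtype.val hA
  rw [HSl169.act_val, List.map_append, List.sum_append, ← cat_disp u A] at h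
  unfold zX zY
  rw [← h]
  abel

section
variable (ν : Measure (Row d)) [IsProbabilityMeasure ν] (u : Step d)

open Classical in
lemma hprod (c : ℕ) : ∃ a b : Site d → ℝ≥0∞, ∑' z, a z ≤ 1 ∧ ∑' z, b z ≤ 1 ∧
    ∀ F : Site d → Site d → ℝ≥0∞,
      (∑' L : List (PB u), if HT (ht u) L = c then LW (Lam ν u) L * F (zX u L) (zY u L) else 0)
        = ∑' x, ∑' y, a x * b y * F x y := by
  have key : ∀ (P : List (Step d) → Prop) (z : List (Step d) → Site d) (G : Site d → ℝ≥0∞),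
      ∑' x, (∑' π, (if P π ∧ z π = x then NB28.aw ν π else 0)) * G x
        = ∑' π, (if P π then NB28.aw ν π * G (z π) else 0) := by
    intro P z G
    simp_rw [← ENNReal.tsum_mul_right]
    rw [ENNReal.tsum_comm]
    refine tsum_congr fun π => ?_
    rw [tsum_eq_single (z π)]
    · by_cases h : P π <;> simp [h]
    · intro x hx
      rw [if_neg (fun h => hx h.2.symm), zero_mul]
  refine ⟨fun x => ∑' π, (if IsUp u c π ∧ -endp 0 π = x then NB28.aw ν π else 0),
    fun y => ∑' γ, (if IsDn u c γ ∧ endp 0 γ = y then NB28.aw ν γ else 0), ?_, ?_, fun F => ?_⟩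
  · have h := key (IsUp u c) (fun π => -endp 0 π) (fun _ => 1)
    simp only [mul_one] at h
    rw [h]
    exact B5W.sum_if_le_one ν fun l l' h h' hp => NB28.isUp_prefix h h' hp
  · have h := key (IsDn u c) (fun π => endp 0 π) (fun _ => 1)
    simp only [mul_one] at h
    rw [h]
    exact B5W.sum_if_le_one ν fun l l' h h' hp => NB28.isDn_prefix h h' hp
  · have h := tsum_L ν u c (fun x => F (-endp 0 x.1) (endp 0 x.2))
    refine Eq.trans h ?_
    symm
    calc ∑' x, ∑' y, (∑' π, (if IsUp u c π ∧ -endp 0 π = x then NB28.aw ν π else 0)) *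
          (∑' γ, (if IsDn u c γ ∧ endp 0 γ = y then NB28.aw ν γ else 0)) * F x y
        = ∑' x, (∑' π, (if IsUp u c π ∧ -endp 0 π = x then NB28.aw ν π else 0)) *
            ∑' y, (∑' γ, (if IsDn u c γ ∧ endp 0 γ = y then NB28.aw ν γ else 0)) * F x y := by
          refine tsum_congr fun x => ?_
          rw [← ENNReal.tsum_mul_left]
          exact tsum_congr fun y => mul_assoc _ _ _
      _ = ∑' π, (if IsUp u c π then NB28.aw ν π *
            ∑' y, (∑' γ, (if IsDn u c γ ∧ endp 0 γ = y then NB28.aw ν γ else 0)) *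
              F (-endp 0 π) y else 0) :=
          key (IsUp u c) (fun π => -endp 0 π) (fun x => ∑' y, (∑' γ,
            (if IsDn u c γ ∧ endp 0 γ = y then NB28.aw ν γ else 0)) * F x y)
      _ = _ := by
          refine tsum_congr fun π => ?_
          rw [key (IsDn u c) (fun π => endp 0 π) (fun y => F (-endp 0 π) y)]
          by_cases h1 : IsUp u c π
          · rw [if_pos h1, ← ENNReal.tsum_mul_left]
            refine tsum_congr fun γ => ?_
            by_cases h2 : IsDn u c γ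
            · rw [if_pos h2, if_pos ⟨h1, h2⟩, mul_assoc]
            · rw [if_neg h2, if_neg (fun h => h2 h.2), mul_zero]
          · rw [if_neg h1]
            exact (ENNReal.tsum_eq_zero.2 fun γ => if_neg (fun h => h1 h.1)).symm
open Classical in
/-- the window sum in words -/
noncomputable def Wd (H s : ℕ) (P : List (Step d) × List (Step d) → Prop) (w : Site d) : ℝ≥0∞ :=
  ∑' π : List (Step d), ∑' γ : List (Step d),
    (if IsUp u H π ∧ IsDn u H γ ∧ P (π, γ) ∧ (∃ k, k ∈ Cm u w π γ) ∧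
      (∀ k ∈ Cm u w π γ, s < k ∧ k + s ≤ H) then NB28.aw ν π * NB28.aw ν γ else 0)

open Classical in
lemma WP_eq (H s : ℕ) (P : List (Step d) × List (Step d) → Prop) (w : Lat u) :
    KapComp803.WP (Lam ν u) (ht u) (dl u) (cd u) H s (fun L => P (cat L)) w
      = Wd ν u H s P w.1 := by
  unfold Wd
  have h := tsum_L ν u H (fun x => if P x ∧ cds u x w.1 ≠ ∅ ∧
    (∀ k ∈ cds u x w.1, s < k ∧ k + s ≤ H) then 1 else 0)
  unfold KapComp803.WP
  refine Eq.trans ?_ (h.trans ?_)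
  · refine tsum_congr fun L => ?_
    rw [CD_cat]
    by_cases h1 : HT (ht u) L = H
    · by_cases h2 : P (cat L) ∧ cds u (cat L) w.1 ≠ ∅ ∧
        (∀ k ∈ cds u (cat L) w.1, s < k ∧ k + s ≤ H)
      · rw [if_pos ⟨h1, h2⟩, if_pos h1, if_pos h2, mul_one]
      · rw [if_neg (fun h' => h2 h'.2), if_pos h1, if_neg h2, mul_zero]
    · rw [if_neg (fun h' => h1 h'.1), if_neg h1]
  · refine tsum_congr fun π => tsum_congr fun γ => ?_
    rw [cds_eq]
    by_cases h1 : IsUp u H π ∧ IsDn u H γ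
    · by_cases h2 : P (π, γ) ∧ Cm u w.1 π γ ≠ ∅ ∧ (∀ k ∈ Cm u w.1 π γ, s < k ∧ k + s ≤ H)
      · rw [if_pos h1, if_pos h2, mul_one,
          if_pos ⟨h1.1, h1.2, h2.1, Set.nonempty_iff_ne_empty.2 h2.2.1, h2.2.2⟩]
      · rw [if_pos h1, if_neg h2, mul_zero, if_neg]
        rintro ⟨_, _, a, b, c⟩
        exact h2 ⟨a, Set.nonempty_iff_ne_empty.1 b, c⟩
    · rw [if_neg h1, if_neg (fun h' => h1 ⟨h'.1, h'.2.1⟩)]

open Classical in
/-- the extension of a weight on the lateral sites -/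
noncomputable def ext (μ : Lat u → ℝ≥0∞) (x : Site d) : ℝ≥0∞ :=
  if h : Flux132.lev u x = 0 then μ ⟨x, h⟩ else 0

lemma ext_le {μ : Lat u → ℝ≥0∞} {M : ℝ≥0∞} (hM : ∀ x, μ x ≤ M) (x : Site d) :
    ext u μ x ≤ M := by
  unfold ext
  split_ifs
  · exact hM _
  · exact bot_le

lemma tsum_ext (μ : Lat u → ℝ≥0∞) (G : Site d → ℝ≥0∞) :
    ∑' x : Lat u, μ x * G x.1
      = ∑' x : Site d, (if Flux132.lev u x = 0 then ext u μ x * G x else 0) := by
  have h := tsum_subtype {x : Site d | Flux132.lev u x = 0} (fun x => ext u μ x * G x)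
  refine Eq.trans ?_ (h.trans ?_)
  · refine tsum_congr fun x => ?_
    show μ x * G x.1 = ext u μ x.1 * G x.1
    unfold ext
    have hx : Flux132.lev u x.1 = 0 := x.2
    rw [dif_pos hx]
    rfl
  · refine tsum_congr fun x => ?_
    by_cases hx : Flux132.lev u x = 0
    · rw [Set.indicator_of_mem (show x ∈ {x : Site d | Flux132.lev u x = 0} from hx), if_pos hx]
    · rw [Set.indicator_of_notMem (show x ∉ {x : Site d | Flux132.lev u x = 0} from hx),
        if_neg hx]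

lemma ext_sum {μ : Lat u → ℝ≥0∞} (hμ : ∑' x, μ x ≤ 1) : ∑' x, ext u μ x ≤ 1 := by
  have h := tsum_ext u μ (fun _ => 1)
  simp only [mul_one] at h
  refine le_trans (le_of_eq ?_) hμ
  rw [h]
  refine tsum_congr fun x => ?_
  split_ifs with hx
  · rfl
  · unfold ext; rw [dif_neg hx]

/-- numbers -/
lemma num (Cst η : ℝ≥0∞) (hC : Cst ≠ ⊤) (hη : η ≠ 0) :
    ∃ (lam : ℝ≥0∞) (s0 : ℕ), lam ≠ 0 ∧ lam ≠ ⊤ ∧ ∀ s, s0 ≤ s →
      4 * (lam + Cst * E23168.uc ν u s / lam + E23168.uc ν u s) ≤ η := by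
  by_cases ht : η = ⊤
  · exact ⟨1, 0, one_ne_zero, ENNReal.one_ne_top, fun s _ => by rw [ht]; exact le_top⟩
  set lam : ℝ≥0∞ := η / 12 with hl
  have hl0 : lam ≠ 0 := by rw [hl]; simp [ENNReal.div_eq_zero_iff, hη]
  have hlt : lam ≠ ⊤ := ENNReal.div_ne_top ht (by norm_num)
  have hT : Filter.Tendsto (fun s => Cst * E23168.uc ν u s / lam + E23168.uc ν u s)
      Filter.atTop (nhds (Cst * 0 / lam + 0)) := by
    refine Filter.Tendsto.add ?_ (E23168.uc_tendsto ν u)
    refine ENNReal.Tendsto.div_const ?_ (Or.inr hl0)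
    exact ENNReal.Tendsto.const_mul (E23168.uc_tendsto ν u) (Or.inr hC)
  rw [mul_zero, ENNReal.zero_div, add_zero] at hT
  obtain ⟨s0, hs0⟩ := Filter.eventually_atTop.1
    (hT.eventually_le_const (pos_iff_ne_zero.2 hl0))
  refine ⟨lam, s0, hl0, hlt, fun s hs => ?_⟩
  have h1 := hs0 s hs
  calc 4 * (lam + Cst * E23168.uc ν u s / lam + E23168.uc ν u s)
      = 4 * (lam + (Cst * E23168.uc ν u s / lam + E23168.uc ν u s)) := by rw [add_assoc]
    _ ≤ 4 * (lam + lam) := by gcongr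
    _ ≤ 12 * lam := by
        rw [← two_mul, ← mul_assoc]
        refine mul_le_mul' (by norm_num) le_rfl
    _ = η := by rw [hl]; exact ENNReal.mul_div_cancel (by norm_num) (by norm_num)

lemma hWX : ∀ Cst η : ℝ≥0∞, Cst ≠ ⊤ → η ≠ 0 → ∃ s0 : ℕ, ∀ s, s0 ≤ s → ∀ (H : ℕ)
    (E : Finset (Site d)) (μ : Lat u → ℝ≥0∞) (M : ℝ≥0∞), ∑' x, μ x ≤ 1 → (∀ x, μ x ≤ M) →
    M * E.card ≤ Cst → ∑' x, μ x * KapComp803.WP (Lam ν u) (ht u) (dl u) (cd u) H s
      (fun L => zX u L ∈ E) x ≤ η := by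
  classical
  intro Cst η hC hη
  obtain ⟨lam, s0, hl0, hlt, hn⟩ := num ν u Cst η hC hη
  refine ⟨s0, fun s hs H E μ M hμ hM hME => ?_⟩
  have h2 := E23168.e2c ν u s H (E.image fun z => -z) (ext u μ) M lam (ext_sum u hμ)
    (ext_le u hM) hl0 hlt
  have hcard : (E.image fun z : Site d => -z).card = E.card :=
    Finset.card_image_of_injective _ neg_injective
  rw [hcard] at h2
  have h3 : 4 * (lam + M * E.card * E23168.uc ν u s / lam + E23168.uc ν u s) ≤ η := by
    refine le_trans ?_ (hn s hs)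
    gcongr
  refine le_trans ?_ (h2.trans h3)
  refine le_trans (le_of_eq ((tsum_congr fun x => congrArg (fun t => μ x * t)
    (WP_eq ν u H s (fun y => -endp 0 y.1 ∈ E) x)).trans
    (tsum_ext u μ (Wd ν u H s (fun y => -endp 0 y.1 ∈ E))))) ?_
  refine ENNReal.tsum_le_tsum fun x => ?_
  split_ifs with hx
  · refine mul_le_mul' le_rfl ?_
    unfold Wd
    refine ENNReal.tsum_le_tsum fun π => ENNReal.tsum_le_tsum fun γ => ?_
    by_cases hc : IsUp u H π ∧ IsDn u H γ ∧ -endp 0 π ∈ E ∧ (∃ k, k ∈ Cm u x π γ) ∧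
          (∀ k ∈ Cm u x π γ, s < k ∧ k + s ≤ H)
    · rw [if_pos hc, if_pos]
      exact ⟨hc.1, Finset.mem_image.2 ⟨_, hc.2.2.1, neg_neg _⟩, hc.2.1, hc.2.2.2.1,
        fun k hk => (hc.2.2.2.2 k hk).1⟩
    · rw [if_neg hc]; exact bot_le
  · exact le_rfl

lemma hWY : ∀ Cst η : ℝ≥0∞, Cst ≠ ⊤ → η ≠ 0 → ∃ s0 : ℕ, ∀ s, s0 ≤ s → ∀ (H : ℕ)
    (E : Finset (Site d)) (μ : Lat u → ℝ≥0∞) (M : ℝ≥0∞), ∑' x, μ x ≤ 1 → (∀ x, μ x ≤ M) →
    M * E.card ≤ Cst → ∑' x, μ x * KapComp803.WP (Lam ν u) (ht u) (dl u) (cd u) H s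
      (fun L => zY u L ∈ E) x ≤ η := by
  classical
  intro Cst η hC hη
  obtain ⟨lam, s0, hl0, hlt, hn⟩ := num ν u Cst η hC hη
  refine ⟨s0, fun s hs H E μ M hμ hM hME => ?_⟩
  have h2 := E23168.e3c ν u s H E (ext u μ) M lam (ext_sum u hμ)
    (ext_le u hM) hl0 hlt
  have h3 : 4 * (lam + M * E.card * E23168.uc ν u s / lam + E23168.uc ν u s) ≤ η := by
    refine le_trans ?_ (hn s hs)
    gcongr
  refine le_trans ?_ (h2.trans h3)
  refine le_trans (le_of_eq ((tsum_congr fun x => congrArg (fun t => μ x * t)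
    (WP_eq ν u H s (fun y => endp 0 y.2 ∈ E) x)).trans
    (tsum_ext u μ (Wd ν u H s (fun y => endp 0 y.2 ∈ E))))) ?_
  refine ENNReal.tsum_le_tsum fun x => ?_
  split_ifs with hx
  · refine mul_le_mul' le_rfl ?_
    unfold Wd
    refine ENNReal.tsum_le_tsum fun π => ENNReal.tsum_le_tsum fun γ => ?_
    by_cases hc : IsUp u H π ∧ IsDn u H γ ∧ endp 0 γ ∈ E ∧ (∃ k, k ∈ Cm u x π γ) ∧
          (∀ k ∈ Cm u x π γ, s < k ∧ k + s ≤ H)
    · rw [if_pos hc, if_pos]
      exact ⟨hc.1, hc.2.2.1, hc.2.1, hc.2.2.2.1, fun k hk => (hc.2.2.2.2 k hk).2⟩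
    · rw [if_neg hc]; exact bot_le
  · exact le_rfl

end

/-- **`KappaAll`** -/
theorem kappaAll : NB28.KappaAll := by
  refine KB169.kappaAll_of fun d hd ν _ hν u hA hB => ?_
  obtain ⟨c, hc, _, hup, hdn⟩ := WM286.mass_pos ν hν u hA hB
  have hU : ∀ n, c * c ≤ U (Lam ν u) (ht u) n := fun n => by
    rw [U_eq28]; exact mul_le_mul' (hup n) (hdn n)
  have hU1 := HSl169.U_le_one ν u
  have hcc : c * c ≠ 0 := mul_ne_zero hc hc
  have h1 : ∀ b, 1 ≤ ht u b := one_le_hb
  have hΛ : ∑' b, Lam ν u b = 1 :=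
    le_antisymm (mass_le_one _ _ h1 hU1) (mass_ge_one _ _ (c * c) hcc 0 fun n _ => hU n)
  have hct : c * c ≠ ⊤ := ne_top_of_le_ne_top ENNReal.one_ne_top ((hU 0).trans (hU1 0))
  have hmean : ∑' k, tail (Lam ν u) (ht u) k ≠ ⊤ := by
    rw [← sum_tail _ _ hΛ]
    exact ne_top_of_le_ne_top (ENNReal.inv_ne_top.2 hcc)
      (mean_le _ _ h1 hΛ (c * c) hcc hct 0 fun n _ => hU n)
  exact KapComp803.hWin_of (Lam ν u) (ht u) (dl u) (cd u) h1 hΛ.le hmean (c * c) hcc hU hU1
    (zX u) (zY u) (hprod ν u) (hrel u) (hWX ν u) (hWY ν u)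

/-- **`Spine.NBProp`** -/
theorem nbProp : Spine.NBProp := NB28.nb_of_kappaW kappaAll

end Crest.Agent.R154.KA898
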