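import Crest.Agent.R154.KB_818
import Crest.Agent.R154.HWinB_19
import Crest.Agent.R154.HW_725
import Crest.Agent.R154.E23_168

/-! Row 154, ROAD 801, frame B (helper902): the last binding (insurance). -/

set_option autoImplicit false

namespace Crest.Agent.R154.KA902

open MeasureTheory ProbabilityTheory Crest.ProbabilityR.RandomEnvironment Crest.Agent.R154
open Crest.Agent.R154.B5A Crest.Agent.R154.B5W Crest.Agent.R154.Comp818
open scoped ENNReal Topology

theorem hWin {d : ℕ} (ν : Measure (Row d)) [IsProbabilityMeasure ν]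
    (hν : ∀ᵐ p ∂ν, ∀ e : Step d, 0 < p.1 e) (u : Step d)
    (hA : annealed (iidEnvironmentLaw ν) 0 (escapeEvent (B2d.dirVec u)) ≠ 0)
    (hB : annealed (iidEnvironmentLaw ν) 0 (escapeEvent (-B2d.dirVec u)) ≠ 0) :
    KB818.HWin ν u := by
  classical
  obtain ⟨c, hc, -, h1, h2⟩ := WM286.mass_pos ν hν u hA hB
  have hX1 := WM286.sum_up_le_one ν u
  have hY1 := WM286.sum_dn_le_one ν u
  have hc1 : c ≤ 1 := (h1 0).trans (hX1 0)
  have hU : ∀ n, c * c ≤ U (Lam ν u) (ht u) n := fun n => by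
    rw [U_eq28]; exact mul_le_mul' (h1 n) (h2 n)
  have hU1 : ∀ n, U (Lam ν u) (ht u) n ≤ 1 := fun n => by
    rw [U_eq28]; exact mul_le_one' (hX1 n) (hY1 n)
  have hus : ∀ δ : ℝ≥0∞, δ ≠ 0 → ∃ s, E23168.uc ν u s ≤ δ := fun δ hδ =>
    ((E23168.uc_tendsto ν u).eventually (ge_mem_nhds (pos_iff_ne_zero.2 hδ))).exists
  have hW := HW725.hW_of ν u (C := 4) (by norm_num) hus (E23168.e2c ν u) (E23168.e3c ν u) hc
    h1 h2 hX1 hY1
  exact HWinB19.hWin_of' (Lam ν u) (ht u) (dl u) (cd u) one_le_hb (c * c) (mul_ne_zero hc hc) hU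
    hU1 (hinj u) (c * c) (mul_ne_zero hc hc) (mul_le_one' hc1 hc1) hW

theorem kappaAll : NB28.KappaAll :=
  KB818.kappaAll_of fun _ _ ν _ hν u hA hB => hWin ν hν u hA hB

theorem nbProp : Spine.NBProp := NB28.nb_of_kappaW kappaAll

end Crest.Agent.R154.KA902
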