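import Crest.Agent.R154.E23b_91
import Crest.Agent.R154.HW_280
import Crest.Agent.R154.HWinB_19
import Crest.Agent.R154.FinB_926

/-! Row 154 (helper91): **`KappaAll` and `Spine.NBProp`**, frame B:
`E2`, `E3` (91) → `hW` (280) → `hWin` (19) → `FinB_926` (926, 391, 818, 657, 28). -/

set_option autoImplicit false

namespace Crest.Agent.R154.KA91

open MeasureTheory ProbabilityTheory Crest.ProbabilityR.RandomEnvironment Crest.Agent.R154
open Crest.Agent.R154.B5A Crest.Agent.R154.B5W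
open scoped ENNReal

theorem hWin {d : ℕ} (ν : Measure (Row d)) [IsProbabilityMeasure ν]
    (hν : ∀ᵐ p ∂ν, ∀ e : Step d, 0 < p.1 e) (u : Step d)
    (hA : annealed (iidEnvironmentLaw ν) 0 (escapeEvent (B2d.dirVec u)) ≠ 0)
    (hB : annealed (iidEnvironmentLaw ν) 0 (escapeEvent (-B2d.dirVec u)) ≠ 0) :
    KB391.HWin ν u := by
  obtain ⟨c, hc, hct, hup, hdn⟩ := WM286.mass_pos ν hν u hA hB
  obtain ⟨c', hc', hU, hU1⟩ := KB391.masses ν u hν hA hB
  have hup1 : c ≤ 1 := (hup 0).trans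
    (sum_if_le_one ν fun l l' h h' hp => NB28.isUp_prefix h h' hp)
  refine HWinB19.hWin_of' (Lam ν u) (B5W.ht u) (B5W.dl u) (B5W.cd u) one_le_hb c' hc' hU hU1
    (fun b => B5W.hinj u b) (c * c) (mul_ne_zero hc hc) (mul_le_one' hup1 hup1) ?_
  intro v η hv hv1 hη
  exact HW280.hW ν u c hup hdn 8 (by norm_num) (Us778.us ν u) (E23.us_zero ν hν u hA)
    (fun s H E μ M lam h1 h2 h3 h4 => E23.E2' ν u s H E μ M lam h1 h2 h3 h4)
    (fun s H E μ M lam h1 h2 h3 h4 => E23.E3 ν u s H E μ M lam h1 h2 h3 h4) v η hv hv1 hη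

/-- **KAPPA'** -/
theorem kappaAll : NB28.KappaAll :=
  FinB926.kappaAll_of fun _ _ ν _ hν u hA hB => hWin ν hν u hA hB

/-- **NBProp** -/
theorem nbProp : Spine.NBProp := NB28.nb_of_kappaW kappaAll

end Crest.Agent.R154.KA91
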