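import Crest.Agent.R154.HWin3_912
import Crest.Agent.R154.KB_818
import Crest.Agent.R154.E2_742
import Crest.Agent.R154.E3_934

/-! Row 154, ROAD 801, joint-cut frame (helper912): the window estimate for every elliptic iid law,
and KAPPA'. -/

set_option autoImplicit false

namespace Crest.Agent.R154.KA912

open MeasureTheory ProbabilityTheory Crest.ProbabilityR.RandomEnvironment Crest.Agent.R154
open scoped ENNReal Topology
open Filter
open Crest.Agent.R154.B5A Crest.Agent.R154.FP178 Crest.Agent.R154.B5W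
open Crest.Agent.R154.NB28 (IsUp IsDn Cm KappaAll KappaAll')

variable {d : ℕ}

lemma small {f : ℕ → ℝ≥0∞} (hf : Tendsto f atTop (𝓝 0)) {A δ : ℝ≥0∞} (hA : A ≠ ⊤) (hδ : δ ≠ 0) :
    ∃ n0, ∀ n, n0 ≤ n → A * f n ≤ δ := by
  have h := ENNReal.Tendsto.const_mul hf (Or.inr hA)
  rw [mul_zero] at h
  exact eventually_atTop.1 ((ENNReal.tendsto_nhds_zero.1 h) δ (pos_iff_ne_zero.2 hδ))

/-- the return mass of both walkers -/
noncomputable def us (ν : Measure (Row d)) [IsProbabilityMeasure ν] (u : Step d) (s : ℕ) : ℝ≥0∞ :=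
  annealedProb (iidEnvironmentLaw ν) 0 (Us778.Dip u s) + E934.us ν (Flux132.opp u) s

lemma us_tend (ν : Measure (Row d)) [IsProbabilityMeasure ν]
    (hν : ∀ᵐ p ∂ν, ∀ e : Step d, 0 < p.1 e) (u : Step d)
    (hA : annealed (iidEnvironmentLaw ν) 0 (escapeEvent (B2d.dirVec u)) ≠ 0) :
    Tendsto (us ν u) atTop (𝓝 0) := by
  have h1 : Tendsto (fun s : ℕ => annealedProb (iidEnvironmentLaw ν) 0 (Us778.Dip u s)) atTop
      (𝓝 0) := by
    refine Us778.us_tendsto ν hν u ?_
    rw [← annealed_apply _ 0 (Kal132.measurableSet_escape (Flux566.dir u))]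
    exact hA
  have h2 : Tendsto (fun s : ℕ => E934.us ν (Flux132.opp u) s) atTop (𝓝 0) := by
    rw [ENNReal.tendsto_nhds_zero]
    intro ε hε
    exact eventually_atTop.2 (E934.us_small ν (Flux132.opp u) ε hε.ne')
  have := h1.add h2
  rwa [add_zero] at this

lemma e2 (ν : Measure (Row d)) [IsProbabilityMeasure ν] (u : Step d) :
    HWin912.E2 ν u 8 (us ν u) := by
  intro s H E μ M lam h1 h2 h3 h4
  refine le_trans (W2742.E2 ν u s H E μ M lam h1 h2 h3 h4) ?_
  have hb : annealedProb (iidEnvironmentLaw ν) 0 (Us778.Dip u s) ≤ us ν u s := le_self_add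
  calc lam + M * E.card * annealedProb (iidEnvironmentLaw ν) 0 (Us778.Dip u s) / lam
      ≤ lam + M * E.card * us ν u s / lam := by gcongr
    _ ≤ lam + M * E.card * us ν u s / lam + us ν u s := le_self_add
    _ = 1 * (lam + M * E.card * us ν u s / lam + us ν u s) := (one_mul _).symm
    _ ≤ 8 * (lam + M * E.card * us ν u s / lam + us ν u s) := by gcongr; norm_num

lemma e3 (ν : Measure (Row d)) [IsProbabilityMeasure ν] (u : Step d) :
    HWin912.E3 ν u 8 (us ν u) := by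
  intro s H E μ M lam h1 h2 h3 h4
  refine le_trans (E934.E3 ν s H E μ M lam h1 h2 h3 h4) ?_
  have hb : E934.us ν (Flux132.opp u) s ≤ us ν u s := le_add_self
  calc 8 * lam + 2 * (M * (E.card * E934.us ν (Flux132.opp u) s) / lam)
      ≤ 8 * lam + 8 * (M * (E.card * us ν u s) / lam) := by gcongr; norm_num
    _ = 8 * (lam + M * E.card * us ν u s / lam) := by rw [mul_add, mul_assoc M]
    _ ≤ _ := mul_le_mul_right le_self_add _

open Classical in
/-- **the window estimate** -/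
theorem hwin (ν : Measure (Row d)) [IsProbabilityMeasure ν]
    (hν : ∀ᵐ p ∂ν, ∀ e : Step d, 0 < p.1 e) (u : Step d)
    (hA : annealed (iidEnvironmentLaw ν) 0 (escapeEvent (B2d.dirVec u)) ≠ 0)
    (hB : annealed (iidEnvironmentLaw ν) 0 (escapeEvent (-B2d.dirVec u)) ≠ 0) :
    KB818.HWin ν u := by
  obtain ⟨c, hc, hc1, h1, h2⟩ := WM286.mass_pos ν hν u hA hB
  have hU : ∀ n, c * c ≤ U (Lam ν u) (ht u) n := fun n => by
    rw [U_eq28]; exact mul_le_mul' (h1 n) (h2 n)
  have hU1 : ∀ n, U (Lam ν u) (ht u) n ≤ 1 := fun n => by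
    rw [U_eq28]
    exact mul_le_one' (sum_if_le_one ν fun l l' h h' hp => NB28.isUp_prefix h h' hp)
      (sum_if_le_one ν fun l l' h h' hp => NB28.isDn_prefix h h' hp)
  have hcc : c * c ≠ 0 := mul_ne_zero hc hc
  have hct : c ≠ ⊤ := ne_top_of_le_ne_top ENNReal.one_ne_top hc1
  have hcct : c * c ≠ ⊤ := ENNReal.mul_ne_top hct hct
  have hΛ : ∑' b, Lam ν u b = 1 :=
    le_antisymm (mass_le_one (Lam ν u) (ht u) one_le_hb hU1)
      (mass_ge_one (Lam ν u) (ht u) (c * c) hcc 0 (fun n _ => hU n))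
  have htl : Tendsto (fun i => ∑' k, tail (Lam ν u) (ht u) (k + i)) atTop (𝓝 0) := by
    refine ENNReal.tendsto_sum_nat_add _ ?_
    rw [← sum_tail (Lam ν u) (ht u) hΛ]
    exact ne_top_of_le_ne_top (ENNReal.inv_ne_top.2 hcc)
      (mean_le (Lam ν u) (ht u) one_le_hb hΛ (c * c) hcc hcct 0 (fun n _ => hU n))
  have sX : ∀ H, ∑' π, HWin912.aX ν u H π ≤ 1 := fun H =>
    sum_if_le_one ν fun l l' h h' hp => NB28.isUp_prefix h h' hp
  have sY : ∀ H, ∑' γ, HWin912.aY ν u H γ ≤ 1 := fun H =>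
    sum_if_le_one ν fun l l' h h' hp => NB28.isDn_prefix h h' hp
  intro ε hε
  have hε2 : ε / 2 ≠ 0 := (ENNReal.div_pos hε (by norm_num)).ne'
  obtain ⟨N, v, hN, hv, hvc, hnum⟩ := Num823.num912 (ε / 2) c hε2 hc hc1
  refine ⟨16 * N, by omega, fun i0 => ?_⟩
  have hK0 : ((16 * N : ℕ) : ℝ≥0∞) ≠ 0 := by
    have : 0 < 16 * N := by omega
    exact_mod_cast this.ne'
  have hKt : ((16 * N : ℕ) : ℝ≥0∞) ≠ ⊤ := ENNReal.natCast_ne_top _
  set δ : ℝ≥0∞ := ε / 2 / (16 * N : ℕ) / 3 with hδ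
  have hδ0 : δ ≠ 0 := by
    rw [hδ]
    exact (ENNReal.div_pos (ENNReal.div_pos hε2 hKt).ne' (by norm_num)).ne'
  have hnum' : v * v + 2 * (1 - v * c) ^ N ≤ ε / 2 / (16 * N : ℕ) := by
    rw [ENNReal.le_div_iff_mul_le (Or.inl hK0) (Or.inl hKt), mul_comm]
    exact hnum
  -- the constants
  set lam : ℝ≥0∞ := min 1 (δ / 16) with hlam
  have hl0 : lam ≠ 0 := by
    rw [hlam]
    exact (lt_min one_pos (ENNReal.div_pos hδ0 (by norm_num))).ne'
  have hlt : lam ≠ ⊤ := ne_top_of_le_ne_top ENNReal.one_ne_top (min_le_left _ _)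
  have hlamδ : 16 * lam ≤ δ := by
    calc 16 * lam ≤ 16 * (δ / 16) := by gcongr; exact min_le_right _ _
      _ = δ := ENNReal.mul_div_cancel (by norm_num) (by norm_num)
  set r : ℝ≥0∞ := (v * c)⁻¹ with hr
  have hrt : r ≠ ⊤ := ENNReal.inv_ne_top.2 (mul_ne_zero hv hc)
  have hAt : 16 * (2 * r / lam + 1) ≠ ⊤ := by
    refine ENNReal.mul_ne_top (by norm_num) (ENNReal.add_ne_top.2 ⟨?_, ENNReal.one_ne_top⟩)
    exact ENNReal.div_ne_top (ENNReal.mul_ne_top (by norm_num) hrt) hl0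
  obtain ⟨s, hs⟩ := small (us_tend ν hν u hA) hAt hδ0
  have hs' := hs s le_rfl
  have h2r : 2 * r ≠ ⊤ := ENNReal.mul_ne_top (by norm_num) hrt
  obtain ⟨H0, hH0⟩ := small htl h2r hδ0
  refine ⟨s, H0, fun H hH a ha w => ?_⟩
  have hH' := hH0 H hH
  set e : ℝ≥0∞ := ∑' k, tail (Lam ν u) (ht u) (k + H) with he
  have hover : ∑' A, (if fp (ht u) H A then LW (Lam ν u) A *
      (if 2 * H < HT (ht u) A then 1 else 0) else 0) ≤ e := by
    have h := overshoot (Lam ν u) (ht u) one_le_hb hU1 H H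
    refine le_trans (le_of_eq ?_) (h.trans (le_of_eq ?_))
    · refine tsum_congr fun A => ?_
      by_cases hA1 : fp (ht u) H A
      · by_cases hA2 : 2 * H < HT (ht u) A
        · rw [if_pos hA1, if_pos hA2, mul_one, if_pos ⟨hA1, by omega⟩]
        · rw [if_pos hA1, if_neg hA2, mul_zero, if_neg (fun h => hA2 (by omega))]
      · rw [if_neg hA1, if_neg (fun h => hA1 h.1)]
    · exact tsum_congr fun k => by rw [add_comm]
  have hwin := HWin912.window ν u (e2 ν u) (e3 ν u) (c := c) H (h1 H) (h2 H) (sX H) (sY H) hΛ.le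
    hv hvc lam hl0 hlt e hover s N a (by nlinarith) w
  calc _ ≤ ∑' L1 : List (PB u), (if fp (ht u) a L1 then
        LW (Lam ν u) L1 * Comp818.WLp (Lam ν u) (ht u) (dl u) (cd u) H s (act (dl u) L1 w)
          else 0) := by
        refine ENNReal.tsum_le_tsum fun L1 => ?_
        by_cases hL : Comp818.att (ht u) a L1 ∧ HT (ht u) L1 ≤ a + i0
        · rw [if_pos hL, if_pos (HWin912.fp_of_att (ht u) L1 a hL.1)]
        · rw [if_neg hL]; exact zero_le
    _ ≤ 2 * (8 * (lam + 2 * (v * c)⁻¹ * us ν u s / lam + us ν u s))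
        + 2 * ((1 - v * c) ^ N + e * (v * c)⁻¹) + v * v := hwin
    _ = (v * v + 2 * (1 - v * c) ^ N) + 16 * lam + 16 * (2 * r / lam + 1) * us ν u s
        + 2 * r * e := by
        rw [← hr]
        simp only [div_eq_mul_inv]
        ring
    _ ≤ ε / 2 / (16 * N : ℕ) + δ + δ + δ := by
        gcongr
    _ = ε / 2 / (16 * N : ℕ) + ε / 2 / (16 * N : ℕ) := by
        rw [add_assoc, add_assoc]
        congr 1
        rw [hδ, ← add_assoc]
        exact ENNReal.add_thirds _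
    _ = ε / (16 * N : ℕ) := by
        rw [← ENNReal.add_div, ENNReal.add_halves]

/-- **KAPPA'** for every elliptic iid law, `d ≥ 3` -/
theorem kappaAll0 : KappaAll :=
  KB818.kappaAll_of fun _ _ ν _ hν u hA hB => hwin ν hν u hA hB

/-- **`KappaAll'`** -/
theorem kappaAll : KappaAll' := fun d hd ν _ hν u hA hB => (kappaAll0 d hd ν hν u hA hB).weak

/-- **the row's open input** -/
theorem nb : Spine.NBProp := NB28.nb_of_kappaW kappaAll0

end Crest.Agent.R154.KA912
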