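import Crest.Agent.R154.KB_169
import Crest.Agent.R154.KapComp_803
import Crest.Agent.R154.E23_272
import Crest.Agent.R154.NBTop_28

/-! Row 154 (S0219, ROAD 801, frame B), helper954: `KappaAll` and `NBProp` from 803's `hWin_of`,
272's `e23`, 169's `kappaAll_of`, 657's instance. -/

set_option autoImplicit false
set_option maxHeartbeats 1000000

namespace Crest.Agent.R154.KA954

open MeasureTheory ProbabilityTheory Crest.ProbabilityR.RandomEnvironment Crest.Agent.R154
open Crest.Agent.R154.Flux566 (lw endp sitesL)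
open Crest.Agent.R154.Flux132 (lev opp)
open Crest.Agent.R154.NB28 (IsUp IsDn Cm)
open Crest.Agent.R154.B5A (LW HT U CD act tail act_append)
open Crest.Agent.R154.B5W
open scoped ENNReal Topology
open Filter

variable {d : ℕ} (ν : Measure (Row d)) [IsProbabilityMeasure ν] (u : Step d)

lemma act_cat (L : List (PB u)) (w : Lat u) :
    (act (dl u) L w).1 = w.1 + endp 0 (cat L).1 + endp 0 (cat L).2 := by
  induction L generalizing w with
  | nil => simp [act, cat, endp]
  | cons b L ih =>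
    rw [act, ih]
    simp only [dl, dlp, cat, pm]
    rw [Flux566.endp_append, Flux566.endp_append, Flux566.endp_eq_add b.1.1 (endp 0 (cat L).1),
      Flux566.endp_eq_add (cat L).2 (endp 0 b.1.2)]
    abel

open Classical in
lemma hprod (H : ℕ) (hup : (∑' π : List (Step d), if IsUp u H π then NB28.aw ν π else 0) ≤ 1)
    (hdn : (∑' γ : List (Step d), if IsDn u H γ then NB28.aw ν γ else 0) ≤ 1) :
    ∃ a b : Site d → ℝ≥0∞, ∑' z, a z ≤ 1 ∧ ∑' z, b z ≤ 1 ∧ ∀ F : Site d → Site d → ℝ≥0∞,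
      (∑' L : List (PB u), if HT (ht u) L = H then
        LW (Lam ν u) L * F (endp 0 (cat L).1) (-endp 0 (cat L).2) else 0)
        = ∑' x, ∑' y, a x * b y * F x y := by
  refine ⟨fun z => ∑' π : List (Step d), if IsUp u H π ∧ endp 0 π = z then NB28.aw ν π else 0,
    fun z => ∑' γ : List (Step d), if IsDn u H γ ∧ -endp 0 γ = z then NB28.aw ν γ else 0, ?_, ?_, ?_⟩
  · refine le_trans (le_of_eq ?_) hup
    rw [ENNReal.tsum_comm]
    refine tsum_congr fun π => ?_
    rw [tsum_eq_single (endp 0 π)]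
    · by_cases h : IsUp u H π <;> simp [h]
    · intro z hz; rw [if_neg (fun h => hz h.2.symm)]
  · refine le_trans (le_of_eq ?_) hdn
    rw [ENNReal.tsum_comm]
    refine tsum_congr fun γ => ?_
    rw [tsum_eq_single (-endp 0 γ)]
    · by_cases h : IsDn u H γ <;> simp [h]
    · intro z hz; rw [if_neg (fun h => hz h.2.symm)]
  · intro F
    rw [tsum_L ν u H (fun x => F (endp 0 x.1) (-endp 0 x.2))]
    have e : ∀ x y : Site d, (∑' π : List (Step d), if IsUp u H π ∧ endp 0 π = x then NB28.aw ν π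
        else 0) * (∑' γ : List (Step d), if IsDn u H γ ∧ -endp 0 γ = y then NB28.aw ν γ else 0)
        * F x y = ∑' π : List (Step d), ∑' γ : List (Step d),
          if (IsUp u H π ∧ IsDn u H γ) ∧ endp 0 π = x ∧ -endp 0 γ = y then
            NB28.aw ν π * NB28.aw ν γ * F x y else 0 := by
      intro x y
      rw [← ENNReal.tsum_mul_right, ← ENNReal.tsum_mul_right]
      refine tsum_congr fun π => ?_
      rw [← ENNReal.tsum_mul_left, ← ENNReal.tsum_mul_right]
      refine tsum_congr fun γ => ?_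
      by_cases h1 : IsUp u H π ∧ endp 0 π = x
      · by_cases h2 : IsDn u H γ ∧ -endp 0 γ = y
        · rw [if_pos h1, if_pos h2, if_pos ⟨⟨h1.1, h2.1⟩, h1.2, h2.2⟩]
        · rw [if_neg h2, mul_zero, zero_mul, if_neg (fun h => h2 ⟨h.1.2, h.2.2⟩)]
      · rw [if_neg h1, zero_mul, zero_mul, if_neg (fun h => h1 ⟨h.1.1, h.2.1⟩)]
    simp_rw [e]
    symm
    calc ∑' x, ∑' y, ∑' π : List (Step d), ∑' γ : List (Step d),
          (if (IsUp u H π ∧ IsDn u H γ) ∧ endp 0 π = x ∧ -endp 0 γ = y then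
            NB28.aw ν π * NB28.aw ν γ * F x y else 0)
        = ∑' π : List (Step d), ∑' γ : List (Step d), ∑' x, ∑' y,
          (if (IsUp u H π ∧ IsDn u H γ) ∧ endp 0 π = x ∧ -endp 0 γ = y then
            NB28.aw ν π * NB28.aw ν γ * F x y else 0) := by
          have h1 : ∀ x : Site d, ∑' y : Site d, ∑' π : List (Step d), ∑' γ : List (Step d),
              (if (IsUp u H π ∧ IsDn u H γ) ∧ endp 0 π = x ∧ -endp 0 γ = y then
                NB28.aw ν π * NB28.aw ν γ * F x y else 0)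
              = ∑' π : List (Step d), ∑' γ : List (Step d), ∑' y : Site d,
              (if (IsUp u H π ∧ IsDn u H γ) ∧ endp 0 π = x ∧ -endp 0 γ = y then
                NB28.aw ν π * NB28.aw ν γ * F x y else 0) := by
            intro x
            rw [ENNReal.tsum_comm]
            refine tsum_congr fun π => ?_
            rw [ENNReal.tsum_comm]
          rw [tsum_congr h1, ENNReal.tsum_comm]
          refine tsum_congr fun π => ?_
          rw [ENNReal.tsum_comm]
      _ = _ := by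
          refine tsum_congr fun π => tsum_congr fun γ => ?_
          rw [tsum_eq_single (endp 0 π)]
          · rw [tsum_eq_single (-endp 0 γ)]
            · by_cases h : IsUp u H π ∧ IsDn u H γ
              · rw [if_pos ⟨h, rfl, rfl⟩, if_pos h]
              · rw [if_neg (fun h' => h h'.1), if_neg h]
            · intro y hy
              rw [if_neg (fun h' => hy h'.2.2.symm)]
          · intro x hx
            refine ENNReal.tsum_eq_zero.2 fun y => ?_
            rw [if_neg (fun h' => hx h'.2.1.symm)]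

open Classical in
/-- extension of a law on `Lat u` by zero -/
noncomputable def ext (μ : Lat u → ℝ≥0∞) (x : Site d) : ℝ≥0∞ :=
  if h : lev u x = 0 then μ ⟨x, h⟩ else 0

open Classical in
lemma tsum_ext (F : Site d → ℝ≥0∞) :
    ∑' x : Lat u, F x.1 = ∑' x : Site d, if lev u x = 0 then F x else 0 := by
  have := tsum_subtype {x : Site d | lev u x = 0} F
  refine Eq.trans this ?_
  refine tsum_congr fun x => ?_
  rw [Set.indicator_apply]
  rfl

open Classical in
lemma win_of (us : ℕ → ℝ≥0∞) (C : ℝ≥0∞) (hC : C ≠ ⊤)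
    (hus : Tendsto us atTop (𝓝 0)) (P : Finset (Site d) → List (Step d) → List (Step d) → Prop)
    (hE : ∀ (s H : ℕ) (E : Finset (Site d)) (μ : Site d → ℝ≥0∞) (M lam : ℝ≥0∞),
      ∑' x, μ x ≤ 1 → (∀ x, μ x ≤ M) → lam ≠ 0 → lam ≠ ⊤ →
      ∑' x : Site d, (if lev u x = 0 then μ x * ∑' π : List (Step d), ∑' γ : List (Step d),
        (if IsUp u H π ∧ IsDn u H γ ∧ P E π γ ∧ (∃ k, k ∈ Cm u x π γ) ∧
          (∀ k ∈ Cm u x π γ, s < k ∧ k + s ≤ H) then NB28.aw ν π * NB28.aw ν γ else 0) else 0)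
        ≤ C * (lam + M * E.card * us s / lam + us s)) :
    ∀ Cst η : ℝ≥0∞, Cst ≠ ⊤ → η ≠ 0 → ∃ s0 : ℕ, ∀ s, s0 ≤ s → ∀ (H : ℕ) (E : Finset (Site d))
      (μ : Lat u → ℝ≥0∞) (M : ℝ≥0∞), ∑' x, μ x ≤ 1 → (∀ x, μ x ≤ M) → M * E.card ≤ Cst →
      ∑' x, μ x * KapComp803.WP (Lam ν u) (ht u) (dl u) (cd u) H s
        (fun L => P E (cat L).1 (cat L).2) x ≤ η := by
  intro Cst η hCst hη
  -- choice of lam
  obtain ⟨lam, hl0, hlt, hlC⟩ : ∃ lam : ℝ≥0∞, lam ≠ 0 ∧ lam ≠ ⊤ ∧ C * lam ≤ η / 2 := by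
    refine ⟨min 1 (η / 2 / (C + 1)), ?_, ?_, ?_⟩
    · have : η / 2 / (C + 1) ≠ 0 := by
        rw [Ne, ENNReal.div_eq_zero_iff, not_or]
        exact ⟨by simp [ENNReal.div_eq_zero_iff, hη], ENNReal.add_ne_top.2 ⟨hC, ENNReal.one_ne_top⟩⟩
      exact (lt_min zero_lt_one (pos_iff_ne_zero.2 this)).ne'
    · exact ne_top_of_le_ne_top ENNReal.one_ne_top (min_le_left _ _)
    · calc C * min 1 (η / 2 / (C + 1)) ≤ (C + 1) * (η / 2 / (C + 1)) :=
            mul_le_mul' le_self_add (min_le_right _ _)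
        _ ≤ η / 2 := ENNReal.mul_div_le
  have ht0 : Tendsto (fun s => C * (Cst * us s / lam + us s)) atTop (𝓝 0) := by
    have h1 : Tendsto (fun s => Cst * us s / lam) atTop (𝓝 0) := by
      have := ENNReal.Tendsto.const_mul (a := Cst / lam) hus
        (Or.inr (ENNReal.div_ne_top hCst hl0))
      rw [mul_zero] at this
      refine this.congr fun s => ?_
      rw [ENNReal.mul_div_right_comm]
    have h2 := h1.add hus
    rw [add_zero] at h2
    have h3 := ENNReal.Tendsto.const_mul (a := C) h2 (Or.inr hC)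
    rwa [mul_zero] at h3
  obtain ⟨s0, hs0⟩ := eventually_atTop.1 (ht0.eventually
    (ge_mem_nhds (show (0 : ℝ≥0∞) < η / 2 by
      rw [pos_iff_ne_zero]; simp [ENNReal.div_eq_zero_iff, hη])))
  refine ⟨s0, fun s hs H E μ M hμ1 hμM hME => ?_⟩
  have key := hE s H E (ext u μ) M lam (by
      have := tsum_ext u (ext u μ)
      have h2 : ∑' x : Lat u, ext u μ x.1 = ∑' x : Lat u, μ x := by
        refine tsum_congr fun x => ?_
        exact dif_pos x.2
      rw [h2] at this
      refine le_trans (le_of_eq ?_) hμ1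
      rw [this]
      refine tsum_congr fun x => ?_
      by_cases h : lev u x = 0
      · rw [if_pos h]
      · rw [if_neg h, ext, dif_neg h]) (fun x => by
      rw [ext]; split_ifs
      · exact hμM _
      · exact zero_le) hl0 hlt
  have e1 : ∑' x, μ x * KapComp803.WP (Lam ν u) (ht u) (dl u) (cd u) H s
        (fun L => P E (cat L).1 (cat L).2) x
      = ∑' x : Site d, (if lev u x = 0 then ext u μ x * ∑' π : List (Step d), ∑' γ : List (Step d),
        (if IsUp u H π ∧ IsDn u H γ ∧ P E π γ ∧ (∃ k, k ∈ Cm u x π γ) ∧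
          (∀ k ∈ Cm u x π γ, s < k ∧ k + s ≤ H) then NB28.aw ν π * NB28.aw ν γ else 0) else 0) := by
    rw [← tsum_ext u (fun x => ext u μ x * ∑' π : List (Step d), ∑' γ : List (Step d),
        (if IsUp u H π ∧ IsDn u H γ ∧ P E π γ ∧ (∃ k, k ∈ Cm u x π γ) ∧
          (∀ k ∈ Cm u x π γ, s < k ∧ k + s ≤ H) then NB28.aw ν π * NB28.aw ν γ else 0))]
    refine tsum_congr fun x => ?_
    have hx : ext u μ x.1 = μ x := dif_pos x.2
    rw [hx]
    congr 1
    have h := tsum_L ν u H (fun y => if P E y.1 y.2 ∧ (∃ k, k ∈ cds u y x.1) ∧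
      (∀ k ∈ cds u y x.1, s < k ∧ k + s ≤ H) then 1 else 0)
    unfold KapComp803.WP
    refine Eq.trans ?_ (h.trans ?_)
    · refine tsum_congr fun L => ?_
      rw [CD_cat]
      by_cases h1 : HT (ht u) L = H
      · by_cases h2 : P E (cat L).1 (cat L).2 ∧ (∃ k, k ∈ cds u (cat L) x.1) ∧
          (∀ k ∈ cds u (cat L) x.1, s < k ∧ k + s ≤ H)
        · rw [if_pos ⟨h1, h2.1, (Set.nonempty_iff_ne_empty.1 h2.2.1), h2.2.2⟩, if_pos h1, if_pos h2,
            mul_one]
        · rw [if_neg (fun h' => h2 ⟨h'.2.1, Set.nonempty_iff_ne_empty.2 h'.2.2.1, h'.2.2.2⟩),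
            if_pos h1, if_neg h2, mul_zero]
      · rw [if_neg (fun h' => h1 h'.1), if_neg h1]
    · refine tsum_congr fun π => tsum_congr fun γ => ?_
      rw [cds_eq]
      by_cases h1 : IsUp u H π ∧ IsDn u H γ
      · by_cases h2 : P E π γ ∧ (∃ k, k ∈ Cm u x.1 π γ) ∧
          (∀ k ∈ Cm u x.1 π γ, s < k ∧ k + s ≤ H)
        · rw [if_pos h1, if_pos h2, if_pos ⟨h1.1, h1.2, h2.1, h2.2.1, h2.2.2⟩, mul_one]
        · rw [if_pos h1, if_neg h2, if_neg (fun h' => h2 h'.2.2), mul_zero]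
      · rw [if_neg h1, if_neg (fun h' => h1 ⟨h'.1, h'.2.1⟩)]
  rw [e1]
  refine key.trans ?_
  calc C * (lam + M * E.card * us s / lam + us s)
      = C * lam + C * (M * E.card * us s / lam + us s) := by rw [add_assoc, mul_add]
    _ ≤ η / 2 + C * (Cst * us s / lam + us s) := by
        refine add_le_add hlC (mul_le_mul_right (add_le_add ?_ le_rfl) _)
        exact ENNReal.div_le_div_right (mul_le_mul_left hME _) _
    _ ≤ η / 2 + η / 2 := add_le_add le_rfl (hs0 s hs)
    _ = η := ENNReal.add_halves η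


theorem hWin (hν : ∀ᵐ p ∂ν, ∀ e : Step d, 0 < p.1 e)
    (hA : annealed (iidEnvironmentLaw ν) 0 (escapeEvent (B2d.dirVec u)) ≠ 0)
    (hB : annealed (iidEnvironmentLaw ν) 0 (escapeEvent (-B2d.dirVec u)) ≠ 0) :
    KB169.HWinSt (Lam ν u) (ht u) (dl u) (cd u) := by
  classical
  obtain ⟨c, hc, hc1, hup, hdn⟩ := WM286.mass_pos ν hν u hA hB
  have hU : ∀ n, c * c ≤ U (Lam ν u) (ht u) n := fun n => by
    rw [U_eq28]; exact mul_le_mul' (hup n) (hdn n)
  have hU1 := HSl169.U_le_one ν u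
  have hcc : c * c ≠ 0 := mul_ne_zero hc hc
  have hcc' : c * c ≠ ⊤ := ne_top_of_le_ne_top ENNReal.one_ne_top (by
    simpa using mul_le_mul' hc1 hc1)
  have h1 : ∀ b, 1 ≤ ht u b := one_le_hb
  have hΛ : ∑' b, Lam ν u b = 1 :=
    le_antisymm (B5A.mass_le_one _ _ h1 hU1) (B5A.mass_ge_one _ _ (c * c) hcc 0 fun n _ => hU n)
  obtain ⟨us, hus, hE2, hE3⟩ := E23s272.e23 ν hν u hA
  refine KapComp803.hWin_of (Lam ν u) (ht u) (dl u) (cd u) h1 hΛ.le ?_ (c * c) hcc hU hU1
    (fun L => endp 0 (cat L).1) (fun L => -endp 0 (cat L).2)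
    (fun H => hprod ν u H (WM286.sum_up_le_one ν u H) (WM286.sum_dn_le_one ν u H)) ?_ ?_ ?_
  · rw [← B5A.sum_tail (Lam ν u) (ht u) hΛ]
    exact ne_top_of_le_ne_top (ENNReal.inv_ne_top.2 hcc)
      (B5A.mean_le (Lam ν u) (ht u) h1 hΛ (c * c) hcc hcc' 0 fun n _ => hU n)
  · intro L' w x
    refine ⟨x.1 - w.1 - endp 0 (cat L').1 - endp 0 (cat L').2, fun A hA => ?_⟩
    have h2 := congrArg Subtype.val hA
    rw [act_append, act_cat, act_cat] at h2
    rw [← h2]
    abel
  · refine win_of ν u us 8 (by norm_num) hus (fun E π _ => endp 0 π ∈ E) ?_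
    intro s H E μ M lam q1 q2 q3 q4
    refine le_trans ?_ (hE2 s H E μ M lam q1 q2 q3 q4)
    refine ENNReal.tsum_le_tsum fun x => ?_
    by_cases hx : lev u x = 0
    · rw [if_pos hx, if_pos hx]
      refine mul_le_mul_right (ENNReal.tsum_le_tsum fun π => ENNReal.tsum_le_tsum fun γ => ?_) _
      by_cases hh : IsUp u H π ∧ IsDn u H γ ∧ endp 0 π ∈ E ∧ (∃ k, k ∈ Cm u x π γ) ∧
          (∀ k ∈ Cm u x π γ, s < k ∧ k + s ≤ H)
      · rw [if_pos hh, if_pos ⟨hh.1, hh.2.2.1, hh.2.1, hh.2.2.2.1, fun k hk => (hh.2.2.2.2 k hk).1⟩]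
      · rw [if_neg hh]; exact zero_le
    · rw [if_neg hx, if_neg hx]
  · refine win_of ν u us 8 (by norm_num) hus (fun E _ γ => -endp 0 γ ∈ E) ?_
    intro s H E μ M lam q1 q2 q3 q4
    have hcard : (E.map (Equiv.neg (Site d)).toEmbedding).card = E.card := Finset.card_map _
    have hmem : ∀ z : Site d, z ∈ E.map (Equiv.neg (Site d)).toEmbedding ↔ -z ∈ E := by
      intro z
      rw [Finset.mem_map]
      constructor
      · rintro ⟨y, hy, rfl⟩; simpa using hy
      · intro h; exact ⟨-z, h, by simp⟩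
    rw [← hcard]
    refine le_trans ?_ (hE3 s H (E.map (Equiv.neg (Site d)).toEmbedding) μ M lam q1 q2 q3 q4)
    refine ENNReal.tsum_le_tsum fun x => ?_
    by_cases hx : lev u x = 0
    · rw [if_pos hx, if_pos hx]
      refine mul_le_mul_right (ENNReal.tsum_le_tsum fun π => ENNReal.tsum_le_tsum fun γ => ?_) _
      by_cases hh : IsUp u H π ∧ IsDn u H γ ∧ -endp 0 γ ∈ E ∧ (∃ k, k ∈ Cm u x π γ) ∧
          (∀ k ∈ Cm u x π γ, s < k ∧ k + s ≤ H)
      · rw [if_pos hh, if_pos ⟨hh.1, (hmem _).2 hh.2.2.1, hh.2.1, hh.2.2.2.1,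
          fun k hk => (hh.2.2.2.2 k hk).2⟩]
      · rw [if_neg hh]; exact zero_le
    · rw [if_neg hx, if_neg hx]

theorem kappaAll : NB28.KappaAll :=
  KB169.kappaAll_of fun _ _ ν _ hν u hA hB => hWin ν u hν hA hB

/-- **T0219's last input** -/
theorem nb : Spine.NBProp := NB28.nb_of_kappaW kappaAll

end Crest.Agent.R154.KA954
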