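import Crest.Agent.R154.KB_169
import Crest.Agent.R154.HW_178
import Crest.Agent.R154.Glue_849
import Crest.Agent.R154.E23_657

/-! Row 154, ROAD 801, frame B (helper956): final glue.  178's `hW` at 657's instance, fed by 657's
`e2`, `e3`, through 849's `hWin_of` and 169's `kappaAll_of`. -/

set_option autoImplicit false

open MeasureTheory ProbabilityTheory Crest.ProbabilityR.RandomEnvironment
open scoped ENNReal

namespace Crest.Agent.R154.KA956

open Crest.Agent.R154.B5A Crest.Agent.R154.B5W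
open Crest.Agent.R154.NB28 (IsUp IsDn)

variable {d : ℕ}

open Classical in
theorem hwinst (ν : Measure (Row d)) [IsProbabilityMeasure ν]
    (hν : ∀ᵐ p ∂ν, ∀ e : Step d, 0 < p.1 e) (u : Step d)
    (hA : annealed (iidEnvironmentLaw ν) 0 (escapeEvent (B2d.dirVec u)) ≠ 0)
    (hB : annealed (iidEnvironmentLaw ν) 0 (escapeEvent (-B2d.dirVec u)) ≠ 0) :
    KB169.HWinSt (Lam ν u) (ht u) (dl u) (cd u) := by
  obtain ⟨c, hc, hc1, hup, hdn⟩ := WM286.mass_pos ν hν u hA hB
  have hU : ∀ n, c * c ≤ U (Lam ν u) (ht u) n := fun n => by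
    rw [U_eq28]; exact mul_le_mul' (hup n) (hdn n)
  have hU1 := HSl169.U_le_one ν u
  have hcc : c * c ≠ 0 := mul_ne_zero hc hc
  have hcc1 : c * c ≤ 1 := mul_le_one' hc1 hc1
  have hus : Filter.Tendsto (E23W.us ν u) Filter.atTop (nhds 0) := by
    rw [ENNReal.tendsto_atTop_zero]
    intro ε hε
    refine E23W.us_small ν hν u ?_ ε hε.ne'
    have hA' := hA
    rw [annealed_apply _ 0 (B2d.measurableSet_escapeEvent _)] at hA'
    exact hA'
  have h2 : HW178.E2 ν u 8 (E23W.us ν u) := by
    intro s H E μ M lam hμ hM hl hl'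
    refine le_trans (ENNReal.tsum_le_tsum fun x => ?_) (E23W.e2 ν u s H E μ M lam hμ hM hl hl')
    split_ifs with hx
    · refine mul_le_mul_right (ENNReal.tsum_le_tsum fun π => ENNReal.tsum_le_tsum fun γ => ?_) _
      split_ifs with a b b
      · exact le_rfl
      · exact absurd ⟨a.1, a.2.1, a.2.2.1, a.2.2.2.1, fun k hk => (a.2.2.2.2 k hk).1⟩ b
      · exact zero_le
      · exact le_rfl
    · exact le_rfl
  have h3 : HW178.E3 ν u 8 (E23W.us ν u) := by
    intro s H E μ M lam hμ hM hl hl'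
    refine le_trans (ENNReal.tsum_le_tsum fun x => ?_) (E23W.e3 ν u s H E μ M lam hμ hM hl hl')
    split_ifs with hx
    · refine mul_le_mul_right (ENNReal.tsum_le_tsum fun π => ENNReal.tsum_le_tsum fun γ => ?_) _
      split_ifs with a b b
      · exact le_rfl
      · exact absurd ⟨a.1, a.2.1, a.2.2.1, a.2.2.2.1, fun k hk => (a.2.2.2.2 k hk).2⟩ b
      · exact zero_le
      · exact le_rfl
    · exact le_rfl
  have hW := HW178.hW ν u hc hc1 hup hdn (by norm_num) hus h2 h3
  exact Glue849.hWin_of (Lam ν u) (ht u) (dl u) (cd u) one_le_hb (hinj u) (c * c) hcc hU hU1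
    (c * c) hcc hcc1 hW

theorem kappaAll : NB28.KappaAll :=
  KB169.kappaAll_of fun _ _ ν _ hν u hA hB => hwinst ν hν u hA hB

theorem nb : Spine.NBProp := NB28.nb_of_kappaW kappaAll

end Crest.Agent.R154.KA956
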