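import Crest.Agent.R154.KBMeas_424

/-! Row 154, B4 (helper424): **KB from the trunk input**. -/

set_option autoImplicit false
set_option linter.unusedVariables false
set_option linter.unusedSectionVars false

open MeasureTheory ProbabilityTheory Filter Set
open scoped ENNReal Topology

namespace Crest.Agent.R154.KB424

open Crest.ProbabilityR.RandomEnvironment Crest.Agent.R154.Q561 Crest.Agent.R154.Ren263
open Crest.Agent.R154.Mk561 Crest.Agent.R154.B6I Crest.Agent.R154.Cont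
open Crest.Agent.R154.Flux132 (lev)
open Crest.Agent.R154.Fin804 (lev_add lev_step_le)

local notation "shf" => Crest.Agent.R154.Ren263.shift

variable {d : ℕ} {u : Step d} {R : ℕ} {κ : ℝ} {Q : Measure (Environment d)}
  [IsProbabilityMeasure Q]

/-! ### the laws -/

lemma bind_smP (hstat : ∀ z : Site d, MeasurePreserving (shiftEnv z) Q Q) (x : Site d) :
    Q.bind (smP κ x) = (mkAnn κ Q 0).map (Prod.mk x) := by
  refine Measure.ext fun A hA => ?_
  have hm : MeasurableSet {M : MPath d | (x, M) ∈ A} := measurable_prodMk_left hA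
  rw [Measure.bind_apply hA (Kernel.measurable _).aemeasurable,
    Measure.map_apply measurable_prodMk_left hA]
  simp only [smP_apply' κ x _ hA]
  rw [← mkAnn_apply κ Q x hm, mkAnn_stat hstat κ x]
  rfl

lemma bind_apply_smP (hstat : ∀ z : Site d, MeasurePreserving (shiftEnv z) Q Q) (x : Site d)
    {A : Set (SMPath d)} (hA : MeasurableSet A) :
    (Q.bind (smP κ x)) A = mkAnn κ Q 0 {M | (x, M) ∈ A} := by
  rw [bind_smP hstat, Measure.map_apply measurable_prodMk_left hA]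
  rfl

lemma ind_apply_smP (hstat : ∀ z : Site d, MeasurePreserving (shiftEnv z) Q Q) (x y : Site d)
    {A : Set (SMPath d × SMPath d)} (hA : MeasurableSet A) :
    WalkSpace.ind Q (smP κ x) (smP κ y) A
      = ((mkAnn κ Q 0).prod (mkAnn κ Q 0)) {p | ((x, p.1), (y, p.2)) ∈ A} := by
  unfold WalkSpace.ind
  rw [bind_smP hstat, bind_smP hstat,
    Measure.map_prod_map _ _ measurable_prodMk_left measurable_prodMk_left,
    Measure.map_apply (measurable_prodMk_left.prodMap measurable_prodMk_left) hA]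
  rfl

/-! ### the grid -/

/-- the grid of levels `R + (k0 + k) t` -/
def gd (u : Step d) (R : ℕ) (l0 : ℤ) (k0 t M : ℕ) (E : Set (Site d)) : GD d :=
  ⟨u, R, l0, fun k => R + (k0 + k) * t, M, E⟩

variable {l0 : ℤ} {k0 t N : ℕ} {E : Set (Site d)}

lemma gd_ok (ht : R ≤ t) (ht1 : 1 ≤ t) : (gd u R l0 k0 t N E).Ok where
  mono i j hij := by
    change R + (k0 + i) * t ≤ R + (k0 + j) * t
    gcongr
  sep j := by
    change R + (k0 + j) * t + R ≤ R + (k0 + (j + 1)) * t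
    nlinarith
  ge := by
    change R ≤ R + (k0 + 0) * t
    omega
  gt := by
    change R < R + (k0 + 1) * t
    have : 0 < (k0 + 1) * t := by positivity
    omega

/-! ### forced start of a path -/

lemma hit_FS {M : MPath d} (h : M ∈ FS u R) : Hit u R M R :=
  ⟨zt_FS h le_rfl, fun k hk => by rw [zt_FS h hk.le]; exact_mod_cast hk⟩

lemma hit_FS_iff {M : MPath d} (h : M ∈ FS u R) (l n : ℕ) :
    Hit u l (shf R M) n ↔ Hit u (R + l) M (R + n) := by
  have := hit_shift_iff (u := u) (i := R) (j := R + l) (by omega) (hit_FS h) n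
  rwa [Nat.add_sub_cancel_left] at this

/-- the forced displacement -/
def vR (u : Step d) (R : ℕ) : Site d := pos 0 (fun _ => ((u, true) : Mark d)) R

lemma pos_eq_up {M : MPath d} (h : M ∈ FS u R) (x : Site d) {l a : ℕ} (ha : Hit u (R + l) M a) :
    pos x M a = x + vR u R + Up u l (shf R M) := by
  have h1 : R ≤ a := (hit_FS h).le_of_le (by omega) ha
  obtain ⟨n, rfl⟩ := Nat.exists_eq_add_of_le h1
  have h2 := (hit_FS_iff h l n).2 ha
  unfold Up vR
  rw [hn_eq h2, ← pos_shift x M R n]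
  have h3 : pos x M R = x + pos 0 (fun _ => ((u, true) : Mark d)) R := by
    have e1 := pos_congr x (M := M) (M' := fun _ => ((u, true) : Mark d)) (n := R)
      (fun i hi => h i hi) le_rfl
    have e2 := pos_add (0 : Site d) x (fun _ => ((u, true) : Mark d)) R
    rw [zero_add] at e2
    rw [e1, e2, add_comm]
  have h4 := pos_add (0 : Site d) (pos x M R) (shf R M) n
  rw [zero_add] at h4
  rw [h4, h3, add_comm]

lemma forced1_le (hstat : ∀ z : Site d, MeasurePreserving (shiftEnv z) Q Q)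
    (hR : IsFiniteRangeDependent Q R) (B : Set (MPath d)) :
    mkAnn κ Q 0 (FS u R ∩ shf R ⁻¹' B) ≤ mkAnn κ Q 0 B := by
  have hm := measurableSet_toMeasurable (mkAnn κ Q 0) B
  calc mkAnn κ Q 0 (FS u R ∩ shf R ⁻¹' B)
      ≤ mkAnn κ Q 0 (FS u R ∩ shf R ⁻¹' toMeasurable (mkAnn κ Q 0) B) :=
        measure_mono fun M hM => ⟨hM.1, subset_toMeasurable _ _ hM.2⟩
    _ = wF d R κ * mkAnn κ Q 0 (toMeasurable (mkAnn κ Q 0) B) := forced1 hstat hR hm
    _ ≤ 1 * mkAnn κ Q 0 (toMeasurable (mkAnn κ Q 0) B) := by gcongr; exact wF_le_one u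
    _ = mkAnn κ Q 0 B := by rw [one_mul, measure_toMeasurable]

/-! ### `NG` and `Bad` -/

lemma ng_le (hstat : ∀ z : Site d, MeasurePreserving (shiftEnv z) Q Q)
    (hR : IsFiniteRangeDependent Q R) (ht : R ≤ t) (ht1 : 1 ≤ t) {x : Site d}
    (hx : lev u x = l0) :
    mkAnn κ Q 0 {M | (gd u R l0 k0 t N E).gr.NG (x, M)} ≤ eta κ Q u R (R + (k0 + 1) * t) +
      ∑ j ∈ Finset.range N, mkAnn κ Q 0 {M | M ∈ NS u ∧ NoCutW u ((k0 + j) * t) t M} := by
  set g := gd u R l0 k0 t N E with hgdef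
  have hg : g.Ok := gd_ok ht ht1
  have hsub : {M | g.gr.NG (x, M)} ⊆ ({M : MPath d | Nt u R 0 (R + (k0 + 1) * t) M} \ NJ u R) ∪
      ⋃ j ∈ Finset.range N, (FS u R ∩ shf R ⁻¹' {M | M ∈ NS u ∧
        NoCutW u ((k0 + j) * t) t M}) := by
    rintro M ⟨h1, h2⟩
    have hN1 : Nt u R 0 (g.L 1) M := (GD.alive_iff (g := g) hg hx 1).1 h1
    by_cases hJ : M ∈ NJ u R
    swap
    · exact Or.inl ⟨hN1, hJ⟩
    refine Or.inr ?_
    have hNI := NJ_subset hJ
    rw [NI_eq] at hNI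
    have hal : g.gr.tau g.gr.M (x, M) < g.gr.D (x, M) :=
      (GD.alive_iff (g := g) hg hx _).2 (hJ _)
    have h3 : ∃ j < g.gr.M, ∃ n : ℕ, g.gr.tau (j + 1) (x, M) ≤ n ∧
        (n : ℕ∞) ≤ g.gr.tau g.gr.M (x, M) ∧ g.gr.lev (g.gr.W.pos (x, M) n) < g.gr.Lv j := by
      by_contra hcon
      push Not at hcon
      exact h2 ⟨hal, hcon⟩
    obtain ⟨j, hj, n, n1, n2, n3⟩ := h3
    refine Set.mem_biUnion (x := j) (Finset.mem_coe.2 (Finset.mem_range.2 hj))
      ⟨hNI.1, hNI.2, fun l n' l1 l2 l3 => ?_⟩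
    rw [hit_FS_iff hNI.1] at l3
    obtain ⟨q, hq⟩ := ENat.ne_top_iff_exists.1 (ne_top_of_le_ne_top (ENat.natCast_ne_top n) n1)
    rw [← hq] at n1
    have hqn : q ≤ n := by exact_mod_cast n1
    have hH := GD.hit_of_tau (g := g) hx hq.symm
    have hle : R + n' ≤ q := l3.le_of_le (by
      change R + l ≤ R + (k0 + (j + 1)) * t
      have : (k0 + (j + 1)) * t = (k0 + j) * t + t := by ring
      omega) hH
    refine ⟨n - R, by omega, ?_⟩
    rw [zt_shift, zt_FS hNI.1 le_rfl, show R + (n - R) = n by omega]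
    have n4 : lev u (pos x M n) < l0 + ((R + (k0 + j) * t : ℕ) : ℤ) := n3
    rw [lev_pos, hx] at n4
    push_cast at n4
    have l4 : (((k0 + j) * t : ℕ) : ℤ) ≤ l := by exact_mod_cast l1
    push_cast at l4
    linarith
  refine (measure_mono hsub).trans ((measure_union_le _ _).trans (add_le_add le_rfl ?_))
  refine (measure_biUnion_finset_le _ _).trans (Finset.sum_le_sum fun j _ => ?_)
  exact forced1_le hstat hR _

lemma bad_le (hstat : ∀ z : Site d, MeasurePreserving (shiftEnv z) Q Q)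
    (hR : IsFiniteRangeDependent Q R) (ht : R ≤ t) (ht1 : 1 ≤ t) (hN : 1 ≤ N) {x : Site d}
    (hx : lev u x = l0) (i : ℕ) :
    mkAnn κ Q 0 {M | (x, M) ∈ (gd u R l0 k0 t N E).gr.Bad i} ≤ eta κ Q u R (R + (k0 + 1) * t) +
      mkAnn κ Q 0 {M | M ∈ NS u ∧ Up u ((k0 + i) * t + 7 * t) M - Up u ((k0 + i) * t) M ∉ E} := by
  set g := gd u R l0 k0 t N E with hgdef
  have hg : g.Ok := gd_ok ht ht1
  have hsub : {M | (x, M) ∈ g.gr.Bad i} ⊆ ({M : MPath d | Nt u R 0 (R + (k0 + 1) * t) M} \ NJ u R) ∪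
      (FS u R ∩ shf R ⁻¹' {M | M ∈ NS u ∧
        Up u ((k0 + i) * t + 7 * t) M - Up u ((k0 + i) * t) M ∉ E}) := by
    rintro M ⟨h1, h2⟩
    have hNM : Nt u R 0 (g.L g.M) M := (GD.alive_iff (g := g) hg hx g.M).1 h1.1
    have hN1 : Nt u R 0 (g.L 1) M := hNM.left (hg.mono hN)
    by_cases hJ : M ∈ NJ u R
    swap
    · exact Or.inl ⟨hN1, hJ⟩
    refine Or.inr ?_
    have hNI := NJ_subset hJ
    rw [NI_eq] at hNI
    refine ⟨hNI.1, hNI.2, fun h3 => h2 ?_⟩
    obtain ⟨a, ha⟩ := (hJ (R + ((k0 + i) * t + 7 * t))).alv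
    obtain ⟨b, hb⟩ := (hJ (R + (k0 + i) * t)).alv
    have ea : g.gr.U (i + 7) (x, M) = pos x M a := by
      have ha' : Hit g.u (g.L (i + 7)) M a := by
        change Hit u (R + (k0 + (i + 7)) * t) M a
        rw [show (k0 + (i + 7)) * t = (k0 + i) * t + 7 * t by ring]
        exact ha
      unfold Grid.U
      rw [GD.tau_of_hit (g := g) hx ha', ENat.toNat_natCast]
      rfl
    have eb : g.gr.U i (x, M) = pos x M b := by
      unfold Grid.U
      rw [GD.tau_of_hit (g := g) hx (show Hit g.u (g.L i) M b from hb), ENat.toNat_natCast]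
      rfl
    change g.gr.U (i + 7) (x, M) - g.gr.U i (x, M) - 0 ∈ E
    rw [ea, eb, pos_eq_up hNI.1 x ha, pos_eq_up hNI.1 x hb]
    convert! h3 using 1
    abel
  refine (measure_mono hsub).trans ((measure_union_le _ _).trans (add_le_add le_rfl ?_))
  exact forced1_le hstat hR _

/-! ### `UE` -/

/-- closeness in window `k` -/
def AC (u : Step d) (R k0 t : ℕ) (E : Set (Site d)) (x y : Site d) (k : ℕ) : Set (PP d) :=
  {p | Nt u R 0 (R + (k0 + k + 7) * t) p.1 ∧ Nt u R 0 (R + (k0 + k) * t) p.2 ∧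
    ∃ a b, Hit u (R + (k0 + k + 7) * t) p.1 a ∧ Hit u (R + (k0 + k) * t) p.2 b ∧
      pos x p.1 a - pos y p.2 b ∈ E}

lemma AC_eqv {x y : Site d} {k : ℕ} {p q : PP d}
    (h1 : Eqv u (R + (k0 + k + 7) * t) p.1 q.1) (h2 : Eqv u (R + (k0 + k) * t) p.2 q.2)
    (hp : p ∈ AC u R k0 t E x y k) : q ∈ AC u R k0 t E x y k := by
  obtain ⟨n1, n2, a, b, ha, hb, hE⟩ := hp
  refine ⟨h1.nt (Nat.zero_le _) n1, h2.nt (Nat.zero_le _) n2, a, b, h1.hit ha, h2.hit hb, ?_⟩
  rw [← pos_congr x (h1.agree ha) le_rfl, ← pos_congr y (h2.agree hb) le_rfl]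
  exact hE

/-- first closeness -/
def AF (u : Step d) (R k0 t : ℕ) (E : Set (Site d)) (x y : Site d) (k : ℕ) : Set (PP d) :=
  {p | p ∈ AC u R k0 t E x y k ∧ ∀ j < k, p ∉ AC u R k0 t E x y j}

lemma AF_eqv {x y : Site d} {k : ℕ} {p q : PP d}
    (h1 : Eqv u (R + (k0 + k + 7) * t) p.1 q.1) (h2 : Eqv u (R + (k0 + k) * t) p.2 q.2)
    (hp : p ∈ AF u R k0 t E x y k) : q ∈ AF u R k0 t E x y k := by
  refine ⟨AC_eqv h1 h2 hp.1, fun j hj hq => hp.2 j hj ?_⟩
  refine AC_eqv ((h1.symm).mono ?_) ((h2.symm).mono ?_) hq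
  · gcongr
  · gcongr

lemma measurableSet_AF {x y : Site d} {k : ℕ} : MeasurableSet (AF u R k0 t E x y k) := by
  refine open2 u _ fun p hp => ?_
  obtain ⟨n1, n2, a, b, ha, hb, hE⟩ := id hp.1
  refine ⟨max a b, fun q h1 h2 => ?_⟩
  refine AF_eqv ((eqv_iff_of_hit ha).2 fun i hi => (h1 i (by omega)).symm)
    ((eqv_iff_of_hit hb).2 fun i hi => (h2 i (by omega)).symm) hp

lemma ni_of_re {l : ℕ} (hl : R ≤ l) {M : MPath d} (h : Nt u R 0 l M) (hRe : M ∈ Re u R l) :
    M ∈ NI u R := by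
  obtain ⟨a, b, ha, hb, H⟩ := h
  obtain rfl : a = 0 := ha.unique (hit_zero M)
  obtain ⟨b', hb', hI⟩ := hRe
  obtain rfl : b' = b := hb'.unique hb
  have hlb : l ≤ b' := by
    have := ha.add_le (Nat.zero_le l) hb
    omega
  refine ⟨fun n hn => (H n (Nat.zero_le _) (by omega)).1 (by omega), fun n hn => ?_⟩
  rcases Nat.lt_or_ge n b' with h1 | h1
  · have := (H n (Nat.zero_le _) h1).2 (by omega)
    push_cast at this
    linarith
  · have h2 : (0 : ℤ) ≤ zt u (shf b' M) (n - b') := by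
      rcases Nat.lt_or_ge (n - b') R with h3 | h3
      · have h4 : shf b' M ∈ FS u R := fun i hi => hI.1 i hi
        rw [zt_FS h4 h3.le]
        exact Int.natCast_nonneg _
      · exact le_trans (Int.natCast_nonneg _) (hI.2 _ h3)
    rw [zt_shift, show b' + (n - b') = n by omega, hb.1] at h2
    have : (R : ℤ) ≤ l := by exact_mod_cast hl
    linarith

/-- **closeness, any walkers, from closeness of natural walkers** -/
lemma close_le (hstat : ∀ z : Site d, MeasurePreserving (shiftEnv z) Q Q)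
    (hR : IsFiniteRangeDependent Q R) (x y : Site d) {n : ℕ} {B : Set (PP d)}
    (hB : ∀ k < n, ∀ q : PP d, q.1 ∈ NS u → q.2 ∈ NS u →
      Up u ((k0 + k + 7) * t) q.1 - Up u ((k0 + k) * t) q.2 - (y - x) ∈ E → q ∈ B) :
    ((mkAnn κ Q 0).prod (mkAnn κ Q 0)) (⋃ k ∈ Finset.range n, AC u R k0 t E x y k)
      * mkAnn κ Q 0 (NI u R) ^ 2 ≤ wF d R κ ^ 2 * ((mkAnn κ Q 0).prod (mkAnn κ Q 0)) B := by
  classical
  set μ := (mkAnn κ Q 0).prod (mkAnn κ Q 0) with hμ
  have hsub1 : (⋃ k ∈ Finset.range n, AC u R k0 t E x y k)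
      ⊆ ⋃ k ∈ Finset.range n, AF u R k0 t E x y k := by
    intro p hp
    rw [Set.mem_iUnion₂] at hp
    obtain ⟨k, hk, hpk⟩ := hp
    have hex : ∃ k, p ∈ AC u R k0 t E x y k := ⟨k, hpk⟩
    refine Set.mem_biUnion (x := Nat.find hex) ?_ ⟨Nat.find_spec hex, fun j hj => Nat.find_min hex hj⟩
    have h1 := Nat.find_min' hex hpk
    rw [Finset.mem_range] at hk
    exact Finset.mem_coe.2 (Finset.mem_range.2 (by omega))
  have hdisj : (↑(Finset.range n) : Set ℕ).PairwiseDisjoint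
      (fun k => AF u R k0 t E x y k ∩ {p : PP d | p.1 ∈ Re u R (R + (k0 + k + 7) * t) ∧
        p.2 ∈ Re u R (R + (k0 + k) * t)}) := by
    intro i _ j _ hij
    rw [Function.onFun, Set.disjoint_left]
    rintro p ⟨h1, _⟩ ⟨h2, _⟩
    rcases lt_or_gt_of_ne hij with h | h
    · exact h2.2 i h h1.1
    · exact h1.2 j h h2.1
  have hres : ∀ k, μ (AF u R k0 t E x y k ∩ {p : PP d | p.1 ∈ Re u R (R + (k0 + k + 7) * t) ∧
        p.2 ∈ Re u R (R + (k0 + k) * t)}) = μ (AF u R k0 t E x y k) * mkAnn κ Q 0 (NI u R) ^ 2 :=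
    fun k => restart2 hstat hR measurableSet_AF
      (fun p hp => ⟨hp.1.1.alv, hp.1.2.1.alv⟩) (fun p q h1 h2 hp => AF_eqv h1 h2 hp)
  have hm : MeasurableSet (toMeasurable μ B) := measurableSet_toMeasurable μ B
  calc μ (⋃ k ∈ Finset.range n, AC u R k0 t E x y k) * mkAnn κ Q 0 (NI u R) ^ 2
      ≤ (∑ k ∈ Finset.range n, μ (AF u R k0 t E x y k)) * mkAnn κ Q 0 (NI u R) ^ 2 := by
        gcongr
        exact (measure_mono hsub1).trans (measure_biUnion_finset_le _ _)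
    _ = ∑ k ∈ Finset.range n, μ (AF u R k0 t E x y k ∩ {p : PP d |
          p.1 ∈ Re u R (R + (k0 + k + 7) * t) ∧ p.2 ∈ Re u R (R + (k0 + k) * t)}) := by
        rw [Finset.sum_mul]
        exact Finset.sum_congr rfl fun k _ => (hres k).symm
    _ = μ (⋃ k ∈ Finset.range n, (AF u R k0 t E x y k ∩ {p : PP d |
          p.1 ∈ Re u R (R + (k0 + k + 7) * t) ∧ p.2 ∈ Re u R (R + (k0 + k) * t)})) := by
        refine (measure_biUnion_finset hdisj fun k _ => ?_).symm
        exact measurableSet_AF.inter ((measurable_fst (measurableSet_re _)).inter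
          (measurable_snd (measurableSet_re _)))
    _ ≤ μ {p | p.1 ∈ FS u R ∧ p.2 ∈ FS u R ∧ (shf R p.1, shf R p.2) ∈ toMeasurable μ B} := by
        refine measure_mono ?_
        intro p hp
        rw [Set.mem_iUnion₂] at hp
        obtain ⟨k, hk, ⟨⟨⟨n1, n2, a, b, ha, hb, hE⟩, -⟩, r1, r2⟩⟩ := hp
        rw [Finset.mem_range] at hk
        have i1 := ni_of_re (by omega) n1 r1
        have i2 := ni_of_re (by omega) n2 r2
        rw [NI_eq] at i1 i2
        refine ⟨i1.1, i2.1, subset_toMeasurable _ _ (hB k hk _ i1.2 i2.2 ?_)⟩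
        simp only
        rw [pos_eq_up i1.1 x ha, pos_eq_up i2.1 y hb] at hE
        convert! hE using 1
        abel
    _ = wF d R κ ^ 2 * μ (toMeasurable μ B) := forced2 hstat hR hm
    _ = wF d R κ ^ 2 * μ B := by rw [measure_toMeasurable]

lemma ue_subset (ht : R ≤ t) (ht1 : 1 ≤ t) {x y : Site d} (hx : lev u x = l0)
    (hy : lev u y = l0) :
    {p : PP d | ((x, p.1), (y, p.2)) ∈ (gd u R l0 k0 t N E).gr.UE}
      ⊆ ⋃ k ∈ Finset.range (N - 6), AC u R k0 t E x y k := by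
  set g := gd u R l0 k0 t N E with hgdef
  have hg : g.Ok := gd_ok ht ht1
  rintro p ⟨k, hk, h1, h2, h3, h4⟩
  have hk' : k + 7 ≤ N := hk
  refine Set.mem_biUnion (x := k) (Finset.mem_coe.2 (Finset.mem_range.2 (by omega))) ?_
  have n1 : Nt u R 0 (g.L (k + 7)) p.1 := (GD.alive_iff (g := g) hg hx (k + 7)).1 h1
  have n2 : Nt u R 0 (g.L k) p.2 := (GD.alive_iff (g := g) hg hy k).1 h2
  obtain ⟨a, ha⟩ := n1.alv
  obtain ⟨b, hb⟩ := n2.alv
  have ea : g.gr.U (k + 7) (x, p.1) = pos x p.1 a := by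
    unfold Grid.U
    rw [GD.tau_of_hit (g := g) hx (show Hit g.u (g.L (k + 7)) p.1 a from ha),
      ENat.toNat_natCast]
    rfl
  have eb : g.gr.U k (y, p.2) = pos y p.2 b := by
    unfold Grid.U
    rw [GD.tau_of_hit (g := g) hy (show Hit g.u (g.L k) p.2 b from hb), ENat.toNat_natCast]
    rfl
  have h5 : g.gr.U (k + 7) (x, p.1) - g.gr.U k (y, p.2) - 0 ∈ E := h4
  rw [ea, eb, sub_zero] at h5
  have hL : g.L (k + 7) = R + (k0 + k + 7) * t := by
    change R + (k0 + (k + 7)) * t = _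
    ring_nf
  rw [hL] at n1 ha
  exact ⟨n1, n2, a, b, ha, hb, h5⟩

end Crest.Agent.R154.KB424
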