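import Crest.Agent.R154.KBGrid_424

/-! Row 154, B4 (helper424): measure side of KB: natural sets, restart at first hits, forced start. -/

set_option autoImplicit false
set_option linter.unusedVariables false
set_option linter.unusedSectionVars false

open MeasureTheory ProbabilityTheory Filter Set
open scoped ENNReal Topology

namespace Crest.Agent.R154.KB424

open Crest.ProbabilityR.RandomEnvironment Crest.Agent.R154.Q561 Crest.Agent.R154.Ren263
open Crest.Agent.R154.Mk561 Crest.Agent.R154.B6I Crest.Agent.R154.Cont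
open Crest.Agent.R154.Flux132 (lev)
open Crest.Agent.R154.Fin804 (lev_add lev_step_le)

local notation "shf" => Crest.Agent.R154.Ren263.shift

variable {d : ℕ} (u : Step d) (R : ℕ)

/-! ### open sets are measurable -/

lemma open1 (A : Set (MPath d)) (hA : ∀ M ∈ A, ∃ n : ℕ, ∀ M' : MPath d, (∀ i < n, M i = M' i) →
    M' ∈ A) : MeasurableSet A := by
  have h : A = ⋃ n : ℕ, {M | ∀ M' : MPath d, (∀ i < n, M i = M' i) → M' ∈ A} := by
    ext M
    simp only [Set.mem_iUnion, Set.mem_ofPred_eq]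
    exact ⟨fun h => hA M h, fun ⟨n, h⟩ => h M fun _ _ => rfl⟩
  rw [h]
  refine MeasurableSet.iUnion fun n => Det.measurableSet (n := n) fun M M' hMM => ?_
  constructor
  · intro h N hN
    exact h N fun i hi => (hMM i hi).trans (hN i hi)
  · intro h N hN
    exact h N fun i hi => (hMM i hi).symm.trans (hN i hi)

include u in
lemma open2 (A : Set (PP d)) (hA : ∀ p ∈ A, ∃ n : ℕ, ∀ q : PP d, (∀ i < n, p.1 i = q.1 i) →
    (∀ i < n, p.2 i = q.2 i) → q ∈ A) : MeasurableSet A := by
  have h := measurableSet_of_open_pair (fWS u) {P : SMPath d × SMPath d | (P.1.2, P.2.2) ∈ A} (by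
    rintro ⟨X, T⟩ hp
    obtain ⟨n, hn⟩ := hA (X.2, T.2) hp
    refine ⟨n, ?_⟩
    rintro ⟨X', T'⟩ h1 h2
    have h1' : fHist n X = fHist n X' := h1
    have h2' : fHist n T = fHist n T' := h2
    rw [fHist_eq_iff] at h1' h2'
    exact hn (X'.2, T'.2) h1'.2.1 h2'.2.1)
  have hm : Measurable fun p : PP d => (((0 : Site d), p.1), ((0 : Site d), p.2)) :=
    (measurable_const.prodMk measurable_fst).prodMk (measurable_const.prodMk measurable_snd)
  exact hm h

/-! ### natural sets -/

/-- natural for ever -/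
def NI : Set (MPath d) := {M | (∀ n < R, M n = (u, true)) ∧ ∀ n, R ≤ n → (R : ℤ) ≤ zt u M n}

/-- natural up to every level -/
def NJ : Set (MPath d) := {M | ∀ n, Nt u R 0 n M}

variable {u R}

lemma nt_open {i j : ℕ} (hij : i ≤ j) {M : MPath d} (h : Nt u R i j M) :
    ∃ n : ℕ, ∀ M' : MPath d, (∀ i < n, M i = M' i) → Nt u R i j M' := by
  obtain ⟨b, hb⟩ := h.alv
  refine ⟨b, fun M' hM => Eqv.nt hij ?_ h⟩
  exact (eqv_iff_of_hit hb).2 fun i hi => (hM i hi).symm

lemma measurableSet_nt {i j : ℕ} (hij : i ≤ j) : MeasurableSet {M : MPath d | Nt u R i j M} :=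
  open1 _ fun M hM => nt_open hij hM

lemma measurableSet_NJ : MeasurableSet (NJ u R) := by
  have : NJ u R = ⋂ n, {M : MPath d | Nt u R 0 n M} := by
    ext M; simp [NJ]
  rw [this]
  exact MeasurableSet.iInter fun n => measurableSet_nt (Nat.zero_le n)

lemma NJ_subset : NJ u R ⊆ NI u R := by
  intro M hM
  constructor
  · intro n hn
    obtain ⟨a, b, ha, hb, H⟩ := hM (n + 1)
    obtain rfl : a = 0 := ha.unique (hit_zero M)
    have := ha.add_le (Nat.zero_le (n + 1)) hb
    exact (H n (Nat.zero_le _) (by omega)).1 (by omega)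
  · intro n hn
    obtain ⟨a, b, ha, hb, H⟩ := hM (n + 1)
    obtain rfl : a = 0 := ha.unique (hit_zero M)
    have := ha.add_le (Nat.zero_le (n + 1)) hb
    have h := (H n (Nat.zero_le _) (by omega)).2 (by omega)
    push_cast at h
    linarith

lemma measurableSet_NS : MeasurableSet (NS u) := by
  have : NS u = ⋂ n, {M : MPath d | 0 ≤ zt u M n} := by
    ext M; simp [NS]
  rw [this]
  refine MeasurableSet.iInter fun n => Det.measurableSet (n := n) fun M M' h => ?_
  change 0 ≤ zt u M n ↔ 0 ≤ zt u M' n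
  rw [zt_congr u h le_rfl]

/-- forced start -/
def FS (u : Step d) (R : ℕ) : Set (MPath d) := Cy (fun _ => (u, true)) R

lemma zt_FS {M : MPath d} (h : M ∈ FS u R) {n : ℕ} (hn : n ≤ R) : zt u M n = n := by
  have := zt_forced (u := u) (M := M) (a := 0) (n := n) (fun m _ h2 => h m (by omega))
  simpa using this

lemma NI_eq : NI u R = FS u R ∩ shf R ⁻¹' (NS u) := by
  ext M
  constructor
  · rintro ⟨h1, h2⟩
    refine ⟨h1, fun n => ?_⟩
    rw [zt_shift, zt_FS (u := u) (R := R) h1 le_rfl]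
    have := h2 (R + n) (by omega)
    linarith
  · rintro ⟨h1, h2⟩
    refine ⟨h1, fun n hn => ?_⟩
    have := h2 (n - R)
    rw [zt_shift, zt_FS (u := u) (R := R) h1 le_rfl, show R + (n - R) = n by omega] at this
    linarith

lemma measurableSet_FS : MeasurableSet (FS u R) := measurableSet_Cy _ _

lemma measurableSet_NI : MeasurableSet (NI u R) := by
  rw [NI_eq]
  exact measurableSet_FS.inter (measurable_shf R measurableSet_NS)

/-- natural up to level `n`, but not for ever -/
noncomputable def eta (κ : ℝ) (Q : Measure (Environment d)) (u : Step d) (R n : ℕ) : ℝ≥0∞ :=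
  mkAnn κ Q 0 ({M | Nt u R 0 n M} \ NJ u R)

lemma eta_anti (κ : ℝ) (Q : Measure (Environment d)) {n m : ℕ} (h : n ≤ m) :
    eta κ Q u R m ≤ eta κ Q u R n :=
  measure_mono fun M hM => ⟨hM.1.left h, hM.2⟩

lemma tendsto_eta (κ : ℝ) (Q : Measure (Environment d)) [IsProbabilityMeasure Q] :
    Tendsto (eta κ Q u R) atTop (𝓝 0) := by
  have h := tendsto_measure_iInter_atTop (μ := mkAnn κ Q 0)
    (s := fun n : ℕ => ({M : MPath d | Nt u R 0 n M} \ NJ u R))
    (fun n => ((measurableSet_nt (Nat.zero_le n)).diff measurableSet_NJ).nullMeasurableSet)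
    (fun n m hnm M hM => ⟨hM.1.left hnm, hM.2⟩) ⟨0, measure_ne_top _ _⟩
  have h0 : (⋂ n : ℕ, ({M : MPath d | Nt u R 0 n M} \ NJ u R)) = ∅ := by
    rw [Set.eq_empty_iff_forall_notMem]
    intro M hM
    rw [Set.mem_iInter] at hM
    exact (hM 0).2 fun n => (hM n).1
  rw [h0, measure_empty] at h
  exact h

/-! ### restart at a first hit -/

/-- natural restart at level `l` -/
def Re (u : Step d) (R l : ℕ) : Set (MPath d) := {M | ∃ n, Hit u l M n ∧ shf n M ∈ NI u R}

lemma hit_det (l n : ℕ) : Det n {M : MPath d | Hit u l M n} := by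
  intro M M' h
  constructor
  · intro hM
    refine ⟨by rw [← zt_congr u h le_rfl]; exact hM.1, fun k hk => ?_⟩
    rw [← zt_congr u h hk.le]; exact hM.2 k hk
  · intro hM
    refine ⟨by rw [zt_congr u h le_rfl]; exact hM.1, fun k hk => ?_⟩
    rw [zt_congr u h hk.le]; exact hM.2 k hk

lemma re_eq (l : ℕ) : Re u R l = ⋃ n, ({M : MPath d | Hit u l M n} ∩ shf n ⁻¹' NI u R) := by
  ext M; simp [Re]

lemma measurableSet_re (l : ℕ) : MeasurableSet (Re u R l) := by
  rw [re_eq]
  exact MeasurableSet.iUnion fun n => (hit_det l n).measurableSet.inter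
    (measurable_shf n measurableSet_NI)

variable {κ : ℝ} {Q : Measure (Environment d)} [IsProbabilityMeasure Q]

/-- one cylinder -/
lemma restart_cy (hstat : ∀ z : Site d, MeasurePreserving (shiftEnv z) Q Q)
    (hR : IsFiniteRangeDependent Q R) {l n : ℕ} {W : MPath d} (hW : Hit u l W n) :
    mkAnn κ Q 0 (Cy W n ∩ shf n ⁻¹' NI u R)
      = mkAnn κ Q 0 (Cy W n) * mkAnn κ Q 0 (NI u R) := by
  refine mkAnn_Cy_shift hstat hR (S := {z | lev u z < lev u (0 : Site d) + l})
    (T := {z | lev u (0 : Site d) + l + R ≤ lev u z}) (sepR_lev le_rfl) κ 0 W n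
    (hit_mem_RdB hW) measurableSet_NI ?_
  intro M hM i hf
  simp only [Set.mem_ofPred_eq]
  rw [lev_pos, lev_pos, hW.1]
  rcases Nat.lt_or_ge i R with h | h
  · have := hM.1 i h
    rw [this] at hf; simp at hf
  · have := hM.2 i h
    linarith

lemma restart1 (hstat : ∀ z : Site d, MeasurePreserving (shiftEnv z) Q Q)
    (hR : IsFiniteRangeDependent Q R) {l : ℕ} {B : Set (MPath d)} (hBa : ∀ M ∈ B, Alv u l M)
    (hB : ∀ M M' : MPath d, Eqv u l M M' → M ∈ B → M' ∈ B) :
    mkAnn κ Q 0 (B ∩ Re u R l) = mkAnn κ Q 0 B * mkAnn κ Q 0 (NI u R) := by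
  set A : ℕ → Set (MPath d) := fun n => B ∩ {M | Hit u l M n} with hA
  have hdet : ∀ n, Det n (A n) := by
    intro n M M' h
    have key : ∀ M M' : MPath d, (∀ i < n, M i = M' i) → M ∈ A n → M' ∈ A n := by
      rintro M M' h ⟨h1, h2⟩
      refine ⟨hB M M' ((eqv_iff_of_hit h2).2 fun i hi => (h i hi).symm) h1, ?_⟩
      exact ((hit_det l n) M M' h).1 h2
    exact ⟨key M M' h, key M' M fun i hi => (h i hi).symm⟩
  have hBu : B = ⋃ n, A n := by
    ext M
    simp only [hA, Set.mem_iUnion, Set.mem_inter_iff, Set.mem_ofPred_eq]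
    exact ⟨fun h => ⟨_, h, (hBa M h).choose_spec⟩, fun ⟨_, h, _⟩ => h⟩
  have hdisj : Pairwise (Function.onFun Disjoint A) := by
    intro n m hnm
    rw [Function.onFun, Set.disjoint_left]
    rintro M ⟨_, h1⟩ ⟨_, h2⟩
    exact hnm (h1.unique h2)
  have hBR : B ∩ Re u R l = ⋃ n, (A n ∩ shf n ⁻¹' NI u R) := by
    ext M
    simp only [hA, Set.mem_iUnion, Set.mem_inter_iff, Set.mem_ofPred_eq, Re, Set.mem_preimage]
    constructor
    · rintro ⟨h, n, h1, h2⟩
      exact ⟨n, ⟨h, h1⟩, h2⟩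
    · rintro ⟨n, ⟨h, h1⟩, h2⟩
      exact ⟨h, n, h1, h2⟩
  rw [hBR, measure_iUnion]
  · conv_rhs => rw [hBu, measure_iUnion hdisj fun n => (hdet n).measurableSet]
    rw [← ENNReal.tsum_mul_right]
    refine tsum_congr fun n => ?_
    have e := det_eq (Φ := (mkAnn κ Q 0).restrict (shf n ⁻¹' NI u R))
      (Ψ := (mkAnn κ Q 0 (NI u R)) • mkAnn κ Q 0) (hdet n) ?_
    · rw [Measure.restrict_apply (hdet n).measurableSet, Measure.smul_apply, smul_eq_mul,
        mul_comm] at e
      exact e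
    · intro W hW
      rw [Measure.restrict_apply (measurableSet_Cy W n), Measure.smul_apply, smul_eq_mul,
        mul_comm]
      exact restart_cy hstat hR hW.2
  · intro n m hnm
    exact (hdisj hnm).mono Set.inter_subset_left Set.inter_subset_left
  · exact fun n => (hdet n).measurableSet.inter (measurable_shf n measurableSet_NI)

/-- **restart of both walkers at different levels, independent environments** -/
lemma restart2 (hstat : ∀ z : Site d, MeasurePreserving (shiftEnv z) Q Q)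
    (hR : IsFiniteRangeDependent Q R) {l l' : ℕ} {D : Set (PP d)} (hDm : MeasurableSet D)
    (hDa : ∀ p ∈ D, Alv u l p.1 ∧ Alv u l' p.2)
    (hD : ∀ p q : PP d, Eqv u l p.1 q.1 → Eqv u l' p.2 q.2 → p ∈ D → q ∈ D) :
    ((mkAnn κ Q 0).prod (mkAnn κ Q 0)) (D ∩ {p | p.1 ∈ Re u R l ∧ p.2 ∈ Re u R l'})
      = ((mkAnn κ Q 0).prod (mkAnn κ Q 0)) D * mkAnn κ Q 0 (NI u R) ^ 2 := by
  have m1 : MeasurableSet {p : PP d | p.1 ∈ Re u R l} := measurable_fst (measurableSet_re l)
  have m2 : MeasurableSet {p : PP d | p.2 ∈ Re u R l'} := measurable_snd (measurableSet_re l')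
  have e1 : ((mkAnn κ Q 0).prod (mkAnn κ Q 0)) (D ∩ {p | p.1 ∈ Re u R l ∧ p.2 ∈ Re u R l'})
      = ((mkAnn κ Q 0).prod (mkAnn κ Q 0)) (D ∩ {p | p.1 ∈ Re u R l})
        * mkAnn κ Q 0 (NI u R) := by
    have hs : D ∩ {p : PP d | p.1 ∈ Re u R l ∧ p.2 ∈ Re u R l'}
        = (D ∩ {p | p.1 ∈ Re u R l}) ∩ {p | p.2 ∈ Re u R l'} := by
      ext p
      simp only [Set.mem_inter_iff, Set.mem_ofPred_eq, and_assoc]
    rw [hs, Measure.prod_apply ((hDm.inter m1).inter m2), Measure.prod_apply (hDm.inter m1),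
      ← lintegral_mul_const']
    · refine lintegral_congr fun X => ?_
      have h1 : Prod.mk X ⁻¹' ((D ∩ {p : PP d | p.1 ∈ Re u R l}) ∩ {p | p.2 ∈ Re u R l'})
          = (Prod.mk X ⁻¹' (D ∩ {p : PP d | p.1 ∈ Re u R l})) ∩ Re u R l' := rfl
      rw [h1]
      refine restart1 hstat hR (fun T hT => (hDa _ hT.1).2) ?_
      rintro T T' hTT ⟨h2, h3⟩
      exact ⟨hD (X, T) (X, T') (Eqv.refl l X) hTT h2, h3⟩
    · exact measure_ne_top _ _
  have e2 : ((mkAnn κ Q 0).prod (mkAnn κ Q 0)) (D ∩ {p | p.1 ∈ Re u R l})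
      = ((mkAnn κ Q 0).prod (mkAnn κ Q 0)) D * mkAnn κ Q 0 (NI u R) := by
    rw [Measure.prod_apply_symm (hDm.inter m1), Measure.prod_apply_symm hDm,
      ← lintegral_mul_const']
    · refine lintegral_congr fun T => ?_
      have h1 : (fun X => (X, T)) ⁻¹' (D ∩ {p : PP d | p.1 ∈ Re u R l})
          = ((fun X => (X, T)) ⁻¹' D) ∩ Re u R l := rfl
      rw [h1]
      refine restart1 hstat hR (fun X hX => (hDa _ hX).1) ?_
      intro X X' hXX h2
      exact hD (X, T) (X', T) hXX (Eqv.refl l' T) h2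
    · exact measure_ne_top _ _
  rw [e1, e2, pow_two, mul_assoc]

/-! ### forced start -/

/-- weight of the forced start -/
noncomputable def wF (d R : ℕ) (κ : ℝ) : ℝ≥0∞ := ENNReal.ofReal (kf d κ) ^ R

lemma forced_map (hstat : ∀ z : Site d, MeasurePreserving (shiftEnv z) Q Q)
    (hR : IsFiniteRangeDependent Q R) :
    ((mkAnn κ Q 0).restrict (FS u R)).map (shf R) = wF d R κ • mkAnn κ Q 0 := by
  refine Measure.ext fun B hB => ?_
  rw [Measure.map_apply (measurable_shf R) hB,
    Measure.restrict_apply (measurable_shf R hB), Set.inter_comm, Measure.smul_apply,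
    smul_eq_mul]
  have h1 := mkAnn_Cy_shift hstat hR (S := ∅) (T := Set.univ)
    (fun a ha => absurd ha (Set.notMem_empty a)) κ 0 (fun _ => ((u, true) : Mark d)) R
    (fun i hi hf => by simp at hf) hB (fun M hM i hf => Set.mem_univ _)
  change mkAnn κ Q 0 (Cy (fun _ => (u, true)) R ∩ shf R ⁻¹' B) = _
  rw [h1, mkAnn_apply κ Q 0 (measurableSet_Cy _ _)]
  congr 1
  simp only [mk_cyl, wgt_forced κ _ (0 : Site d) (F := fun _ => ((u, true) : Mark d)) (G := R)
    (fun i _ => rfl)]
  simp [wF]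

lemma forced1 (hstat : ∀ z : Site d, MeasurePreserving (shiftEnv z) Q Q)
    (hR : IsFiniteRangeDependent Q R) {B : Set (MPath d)} (hB : MeasurableSet B) :
    mkAnn κ Q 0 (FS u R ∩ shf R ⁻¹' B) = wF d R κ * mkAnn κ Q 0 B := by
  have := congrArg (fun μ : Measure (MPath d) => μ B) (forced_map (u := u) (κ := κ) hstat hR)
  simp only [Measure.smul_apply, smul_eq_mul] at this
  rw [Measure.map_apply (measurable_shf R) hB,
    Measure.restrict_apply (measurable_shf R hB), Set.inter_comm] at this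
  exact this

lemma wF_le_one (u : Step d) : wF d R κ ≤ 1 := pow_le_one' (GD.kf_le_one u κ) R

lemma q_eq (hstat : ∀ z : Site d, MeasurePreserving (shiftEnv z) Q Q)
    (hR : IsFiniteRangeDependent Q R) :
    mkAnn κ Q 0 (NI u R) = wF d R κ * mkAnn κ Q 0 (NS u) := by
  rw [NI_eq]
  exact forced1 hstat hR measurableSet_NS

lemma forced2 (hstat : ∀ z : Site d, MeasurePreserving (shiftEnv z) Q Q)
    (hR : IsFiniteRangeDependent Q R) {B : Set (PP d)} (hB : MeasurableSet B) :
    ((mkAnn κ Q 0).prod (mkAnn κ Q 0)) ({p | p.1 ∈ FS u R ∧ p.2 ∈ FS u R ∧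
      (shf R p.1, shf R p.2) ∈ B}) = wF d R κ ^ 2 * ((mkAnn κ Q 0).prod (mkAnn κ Q 0)) B := by
  have hsh : Measurable (Prod.map (shf R) (shf R) : PP d → PP d) :=
    (measurable_shf R).prodMap (measurable_shf R)
  have hset : {p : PP d | p.1 ∈ FS u R ∧ p.2 ∈ FS u R ∧ (shf R p.1, shf R p.2) ∈ B}
      = (Prod.map (shf R) (shf R)) ⁻¹' B ∩ (FS u R ×ˢ FS u R) := by
    ext p
    simp only [Set.mem_ofPred_eq, Set.mem_inter_iff, Set.mem_preimage, Set.mem_prod, Prod.map]
    tauto
  rw [hset, ← Measure.restrict_apply (hsh hB), ← Measure.map_apply hsh hB,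
    ← Measure.prod_restrict, ← Measure.map_prod_map _ _ (measurable_shf R) (measurable_shf R),
    forced_map hstat hR, Measure.prod_smul_left, Measure.prod_smul_right, smul_smul,
    Measure.smul_apply, smul_eq_mul, pow_two]

end Crest.Agent.R154.KB424
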