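import Crest.Agent.R154.Fact2_346
import Crest.Agent.R154.WMass_286
import Crest.Agent.R154.Bind801_12
import Crest.Agent.R154.Conc_865

/-! Row 154, ROAD 801 (helper723): the single-walker data of the crossing words in the letters of
the list assembly (irreducible up / down words). -/

set_option autoImplicit false

namespace Crest.Agent.R154.KD723

open MeasureTheory ProbabilityTheory Crest.ProbabilityR.RandomEnvironment Crest.Agent.R154
open Crest.Agent.R154.Flux132 (lev opp)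
open Crest.Agent.R154.Flux566 (lw endp sitesL)
open Crest.Agent.R154.NB28 (IsUp IsDn aw)
open Crest.Agent.R154.Fact346 (Irr fac_up fac_dn)
open Crest.Agent.R154.B5A (LW HT U)
open scoped ENNReal

variable {d : ℕ}

/-- blocks of the `X` walker -/
abbrev BX (u : Step d) := Irr (IsUp u)

/-- blocks of the `Y` walker -/
abbrev BY (u : Step d) := Irr (IsDn u)

/-- heights -/
noncomputable abbrev hX (u : Step d) : BX u → ℕ := Fact346.ht

noncomputable abbrev hY (u : Step d) : BY u → ℕ := Fact346.ht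

/-- displacements -/
abbrev zX (u : Step d) : BX u → Site d := fun b => - endp 0 b.1

abbrev zY (u : Step d) : BY u → Site d := fun b => endp 0 b.1

/-- sites -/
abbrev sX (u : Step d) : BX u → Set (Site d × ℕ) := Bind12.sX (fun b : BX u => b.1) u

abbrev sY (u : Step d) : BY u → Set (Site d × ℕ) := Bind12.sY (fun b : BY u => b.1) u

/-- weights -/
noncomputable abbrev ΛX (ν : Measure (Row d)) [IsProbabilityMeasure ν] (u : Step d) :
    BX u → ℝ≥0∞ := fun b => aw ν b.1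

noncomputable abbrev ΛY (ν : Measure (Row d)) [IsProbabilityMeasure ν] (u : Step d) :
    BY u → ℝ≥0∞ := fun b => aw ν b.1

lemma h1X (u : Step d) (b : BX u) : 1 ≤ hX u b := Fact346.ht_pos b

lemma h1Y (u : Step d) (b : BY u) : 1 ≤ hY u b := Fact346.ht_pos b

lemma lev_endX (u : Step d) (b : BX u) : lev u (endp 0 b.1) = hX u b := (Fact346.ht_spec b).2

lemma lev_endY (u : Step d) (b : BY u) : lev u (endp 0 b.1) = -(hY u b : ℤ) :=
  (Fact346.ht_spec b).2

lemma sites_X (u : Step d) (b : BX u) :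
    ∀ y ∈ sitesL (- endp 0 b.1) b.1, -(hX u b : ℤ) ≤ lev u y ∧ lev u y < 0 := by
  intro y hy
  have h1 : y + endp 0 b.1 ∈ sitesL 0 b.1 := by
    have := (Bind12.mem_sitesL_shift b.1 0 (-endp 0 b.1) y).1 (by rwa [zero_add])
    simpa using this
  have h2 := (Fact346.ht_spec b).1 _ h1
  rw [Bind12.lev_add, lev_endX] at h2
  have h3 : (Fact346.ht b : ℤ) = (hX u b : ℤ) := rfl
  rw [h3] at h2
  constructor <;> omega

lemma sites_Y (u : Step d) (b : BY u) :
    ∀ y ∈ sitesL (stepVec (opp u)) b.1, -(hY u b : ℤ) ≤ lev u y ∧ lev u y < 0 := by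
  intro y hy
  have h1 : y - stepVec (opp u) ∈ sitesL 0 b.1 :=
    (Bind12.mem_sitesL_shift b.1 0 (stepVec (opp u)) y).1 (by rwa [zero_add])
  have h2 := (Fact346.ht_spec b).1 _ h1
  rw [Bind12.lev_sub, Bind12.lev_opp] at h2
  have h3 : (Fact346.ht b : ℤ) = (hY u b : ℤ) := rfl
  constructor <;> omega

/-- depths of an `X` block lie in `[1, h]` -/
lemma sX_depth (u : Step d) (b : BX u) (p : Site d × ℕ) (hp : p ∈ sX u b) :
    1 ≤ p.2 ∧ p.2 ≤ hX u b := by
  obtain ⟨h1, h2⟩ := hp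
  have := sites_X u b _ h1
  constructor <;> omega

lemma sY_depth (u : Step d) (b : BY u) (p : Site d × ℕ) (hp : p ∈ sY u b) :
    1 ≤ p.2 ∧ p.2 ≤ hY u b := by
  obtain ⟨h1, h2⟩ := hp
  have := sites_Y u b _ h1
  constructor <;> omega

lemma fin_aux (u : Step d) (l : List (Site d)) :
    {p : Site d × ℕ | p.1 ∈ l ∧ lev u p.1 = -(p.2 : ℤ)}.Finite := by
  refine Set.Finite.subset ((l.toFinset.finite_toSet).image
    (fun y => (y, (- lev u y).toNat))) ?_
  rintro ⟨y, k⟩ ⟨h1, h2⟩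
  refine ⟨y, by simpa using h1, ?_⟩
  simp only at h2
  refine Prod.ext rfl ?_
  simp only
  omega

lemma fin_sX (u : Step d) (b : BX u) : (sX u b).Finite := fin_aux u _

lemma fin_sY (u : Step d) (b : BY u) : (sY u b).Finite := fin_aux u _

/-! ### masses -/

section mass

variable (ν : Measure (Row d)) [IsProbabilityMeasure ν]

/-- **single-walker data**, both walkers -/
theorem data (hν : ∀ᵐ p ∂ν, ∀ e : Step d, 0 < p.1 e) (u : Step d)
    (hA : annealed (iidEnvironmentLaw ν) 0 (escapeEvent (B2d.dirVec u)) ≠ 0)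
    (hB : annealed (iidEnvironmentLaw ν) 0 (escapeEvent (-B2d.dirVec u)) ≠ 0) :
    ∃ c : ℝ≥0∞, c ≠ 0 ∧ c ≤ 1 ∧
      (∀ n, c ≤ U (ΛX ν u) (hX u) n) ∧ (∀ n, c ≤ U (ΛY ν u) (hY u) n) ∧
      (∀ n, U (ΛX ν u) (hX u) n ≤ 1) ∧ (∀ n, U (ΛY ν u) (hY u) n ≤ 1) ∧
      (∑' b, ΛX ν u b = 1) ∧ (∑' b, ΛY ν u b = 1) ∧
      (∑' b, ΛX ν u b * (hX u b : ℝ≥0∞) ≤ c⁻¹) ∧ (∑' b, ΛY ν u b * (hY u b : ℝ≥0∞) ≤ c⁻¹) := by
  obtain ⟨c, hc0, hc1, hcX, hcY⟩ := WM286.mass_pos ν hν u hA hB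
  have hctop : c ≠ ⊤ := ne_top_of_le_ne_top ENNReal.one_ne_top hc1
  have X1 : ∀ n, c ≤ U (ΛX ν u) (hX u) n := fun n => by
    have := hcX n
    rw [← Fact346.U_up ν u n] at this
    exact this
  have Y1 : ∀ n, c ≤ U (ΛY ν u) (hY u) n := fun n => by
    have := hcY n
    rw [← Fact346.U_dn ν u n] at this
    exact this
  have X2 : ∀ n, U (ΛX ν u) (hX u) n ≤ 1 := fun n => by
    have := WM286.sum_up_le_one ν u n
    rw [← Fact346.U_up ν u n] at this
    exact this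
  have Y2 : ∀ n, U (ΛY ν u) (hY u) n ≤ 1 := fun n => by
    have := WM286.sum_dn_le_one ν u n
    rw [← Fact346.U_dn ν u n] at this
    exact this
  have X3 : ∑' b, ΛX ν u b = 1 := le_antisymm
    (B5A.mass_le_one _ _ (h1X u) X2) (B5A.mass_ge_one _ _ c hc0 0 fun n _ => X1 n)
  have Y3 : ∑' b, ΛY ν u b = 1 := le_antisymm
    (B5A.mass_le_one _ _ (h1Y u) Y2) (B5A.mass_ge_one _ _ c hc0 0 fun n _ => Y1 n)
  exact ⟨c, hc0, hc1, X1, Y1, X2, Y2, X3, Y3,
    B5A.mean_le _ _ (h1X u) X3 c hc0 hctop 0 fun n _ => X1 n,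
    B5A.mean_le _ _ (h1Y u) Y3 c hc0 hctop 0 fun n _ => Y1 n⟩

end mass

/-! ### two blocks of height one -/

/-- a height-one crossing is irreducible -/
lemma irr_one {α : Type*} {P : ℕ → List α → Prop} (hP : Fact346.Fac P) (l : List α) (h : P 1 l) :
    ∃ h, 1 ≤ h ∧ P h l ∧ ∀ m n a b, l = a ++ b → P m a → P n b → m = 0 ∨ n = 0 := by
  refine ⟨1, le_rfl, h, fun m n a b hl ha hb => ?_⟩
  have h1 : m + n = 1 := hP.uniq _ _ l (hl ▸ hP.add _ _ _ _ ha hb) h
  omega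

lemma ht_one {α : Type*} {P : ℕ → List α → Prop} (hP : Fact346.Fac P) (b : Irr P)
    (h : P 1 b.1) : Fact346.ht b = 1 := hP.uniq _ _ b.1 (Fact346.ht_spec b) h

lemma up_single (u : Step d) : IsUp u 1 [u] := by
  refine ⟨fun y hy => ?_, ?_⟩
  · simp only [sitesL, List.mem_singleton] at hy
    subst hy
    rw [Flux132.lev_zero]; norm_num
  · simp only [endp, zero_add]
    rw [Flux132.lev_step_self]; rfl

lemma up_double (u e : Step d) (he : e.1 ≠ u.1) : IsUp u 1 [e, u] := by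
  have h0 : lev u (stepVec e : Site d) = 0 := Flux132.lev_step_of_ne he
  refine ⟨fun y hy => ?_, ?_⟩
  · simp only [sitesL, List.mem_cons, List.not_mem_nil, or_false, zero_add] at hy
    rcases hy with rfl | rfl
    · rw [Flux132.lev_zero]; norm_num
    · rw [h0]; norm_num
  · simp only [endp, zero_add]
    rw [Flux132.lev_add, h0, Flux132.lev_step_self]; rfl

/-- the weight of a word is positive -/
lemma aw_ne_zero (ν : Measure (Row d)) [IsProbabilityMeasure ν]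
    (hν : ∀ᵐ p ∂ν, ∀ e : Step d, 0 < p.1 e) (l : List (Step d)) : aw ν l ≠ 0 := by
  have hp : IsProbabilityMeasure (iidEnvironmentLaw ν) := by unfold iidEnvironmentLaw; infer_instance
  have hell : ∀ᵐ ω ∂(iidEnvironmentLaw ν), ∀ (x : Site d) (e : Step d), 0 < (ω x).1 e := by
    rw [ae_all_iff]
    intro x
    have hmap : (iidEnvironmentLaw ν).map (fun ω : Environment d => ω x) = ν := by
      rw [iidEnvironmentLaw]
      exact Measure.infinitePi_map_eval _ _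
    have := hν
    rw [← hmap] at this
    exact ae_of_ae_map (measurable_pi_apply x).aemeasurable this
  have hpos : ∀ (ω : Environment d), (∀ (x : Site d) (e : Step d), 0 < (ω x).1 e) →
      ∀ (l : List (Step d)) (x : Site d), lw ω x l ≠ 0 := by
    intro ω hω l
    induction l with
    | nil => intro x; simp [lw]
    | cons e l ih =>
      intro x
      simp only [lw]
      exact mul_ne_zero (ENNReal.ofReal_pos.2 (hω x e)).ne' (ih _)
  unfold NB28.aw
  intro h0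
  rw [lintegral_eq_zero_iff (Flux566.measurable_lw 0 l)] at h0
  obtain ⟨ω, h1, h2⟩ := (h0.and hell).exists
  exact hpos ω h2 l 0 h1

lemma exists_lat (hd : 2 ≤ d) (u : Step d) : ∃ e : Step d, e.1 ≠ u.1 := by
  by_cases h : (u.1 : ℕ) = 0
  · refine ⟨(⟨1, by omega⟩, true), fun h' => ?_⟩
    have := congrArg Fin.val h'
    simp only at this
    omega
  · refine ⟨(⟨0, by omega⟩, true), fun h' => ?_⟩
    have := congrArg Fin.val h'
    simp only at this
    omega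

lemma stepVec_inf (e : Step d) (k : ℤ) (hk : k ≠ 0) : k • (stepVec e : Site d) ≠ 0 := by
  intro h
  have h1 := congrFun h e.1
  unfold stepVec at h1
  simp only [Pi.smul_apply, Pi.single_eq_same, Pi.zero_apply, smul_eq_mul] at h1
  split_ifs at h1 <;> omega

/-- **two blocks of height one, positive weight, displacement difference of infinite order** -/
theorem two_X (hd : 2 ≤ d) (ν : Measure (Row d)) [IsProbabilityMeasure ν]
    (hν : ∀ᵐ p ∂ν, ∀ e : Step d, 0 < p.1 e) (u : Step d) :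
    ∃ b1 b2 : BX u, hX u b1 = 1 ∧ hX u b2 = 1 ∧ ΛX ν u b1 ≠ 0 ∧ ΛX ν u b2 ≠ 0 ∧
      ∀ k : ℤ, k ≠ 0 → k • (zX u b1 - zX u b2) ≠ 0 := by
  obtain ⟨e, he⟩ := exists_lat hd u
  refine ⟨⟨[u], irr_one (fac_up u) _ (up_single u)⟩,
    ⟨[e, u], irr_one (fac_up u) _ (up_double u e he)⟩,
    ht_one (fac_up u) _ (up_single u), ht_one (fac_up u) _ (up_double u e he),
    aw_ne_zero ν hν _, aw_ne_zero ν hν _, ?_⟩
  intro k hk
  have : (- endp 0 [u] - - endp 0 [e, u] : Site d) = stepVec e := by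
    simp only [endp]
    abel
  change k • (- endp 0 [u] - - endp 0 [e, u] : Site d) ≠ 0
  rw [this]
  exact stepVec_inf e k hk

theorem two_Y (hd : 2 ≤ d) (ν : Measure (Row d)) [IsProbabilityMeasure ν]
    (hν : ∀ᵐ p ∂ν, ∀ e : Step d, 0 < p.1 e) (u : Step d) :
    ∃ b1 b2 : BY u, hY u b1 = 1 ∧ hY u b2 = 1 ∧ ΛY ν u b1 ≠ 0 ∧ ΛY ν u b2 ≠ 0 ∧
      ∀ k : ℤ, k ≠ 0 → k • (zY u b1 - zY u b2) ≠ 0 := by
  obtain ⟨e, he⟩ := exists_lat hd (opp u)
  have h1 : IsDn u 1 [opp u] := (Fact346.isDn_iff u 1 _).2 (up_single (opp u))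
  have h2 : IsDn u 1 [e, opp u] := (Fact346.isDn_iff u 1 _).2 (up_double (opp u) e he)
  refine ⟨⟨[opp u], irr_one (fac_dn u) _ h1⟩, ⟨[e, opp u], irr_one (fac_dn u) _ h2⟩,
    ht_one (fac_dn u) _ h1, ht_one (fac_dn u) _ h2,
    aw_ne_zero ν hν _, aw_ne_zero ν hν _, ?_⟩
  intro k hk
  have : (endp 0 [opp u] - endp 0 [e, opp u] : Site d) = - stepVec e := by
    simp only [endp]
    abel
  change k • (endp 0 [opp u] - endp 0 [e, opp u] : Site d) ≠ 0
  rw [this, smul_neg, neg_ne_zero]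
  exact stepVec_inf e k hk

/-- **point concentration**, `X` walker -/
theorem conc_X (hd : 2 ≤ d) (ν : Measure (Row d)) [IsProbabilityMeasure ν]
    (hν : ∀ᵐ p ∂ν, ∀ e : Step d, 0 < p.1 e) (u : Step d)
    (hA : annealed (iidEnvironmentLaw ν) 0 (escapeEvent (B2d.dirVec u)) ≠ 0)
    (hB : annealed (iidEnvironmentLaw ν) 0 (escapeEvent (-B2d.dirVec u)) ≠ 0) :
    ∀ ε : ℝ≥0∞, ε ≠ 0 → ∃ N : ℕ, ∀ n, N ≤ n → ∀ x,
      Conc865.f (ΛX ν u) (hX u) (zX u) n x ≤ ε := by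
  obtain ⟨c, _, _, _, _, _, _, h7, _⟩ := data ν hν u hA hB
  obtain ⟨b1, b2, e1, e2, w1, w2, hz⟩ := two_X hd ν hν u
  exact Conc865.conc _ _ _ (h1X u) h7 (e2.trans e1.symm) w2 w1 hz

theorem conc_Y (hd : 2 ≤ d) (ν : Measure (Row d)) [IsProbabilityMeasure ν]
    (hν : ∀ᵐ p ∂ν, ∀ e : Step d, 0 < p.1 e) (u : Step d)
    (hA : annealed (iidEnvironmentLaw ν) 0 (escapeEvent (B2d.dirVec u)) ≠ 0)
    (hB : annealed (iidEnvironmentLaw ν) 0 (escapeEvent (-B2d.dirVec u)) ≠ 0) :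
    ∀ ε : ℝ≥0∞, ε ≠ 0 → ∃ N : ℕ, ∀ n, N ≤ n → ∀ x,
      Conc865.f (ΛY ν u) (hY u) (zY u) n x ≤ ε := by
  obtain ⟨c, _, _, _, _, _, _, _, h8, _⟩ := data ν hν u hA hB
  obtain ⟨b1, b2, e1, e2, w1, w2, hz⟩ := two_Y hd ν hν u
  exact Conc865.conc _ _ _ (h1Y u) h8 (e2.trans e1.symm) w2 w1 hz

end Crest.Agent.R154.KD723
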