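import Crest.Agent.R154.B5Br_657
import Crest.Agent.R154.Comp_818
import Crest.Agent.R154.Slab_689
import Crest.Agent.R154.Gap_583
import Crest.Agent.R154.KappaData_723
import Crest.Agent.R154.NBTop_28

/-! Row 154, frame B (helper331): `KappaW` from 818's `comp` at 657's instance; only `hWin` open. -/

set_option autoImplicit false

open MeasureTheory ProbabilityTheory Crest.ProbabilityR.RandomEnvironment
open scoped ENNReal

namespace Crest.Agent.R154.KB331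

open Crest.Agent.R154.B5A Crest.Agent.R154.B5W
open Crest.Agent.R154.Flux566 (lw endp sitesL)
open Crest.Agent.R154.NB28 (IsUp IsDn Cm KW KappaW)

variable {d : ℕ}

/-- displacement of a pair block -/
def dsp (u : Step d) (b : PB u) : Site d := endp 0 b.1.1 + endp 0 b.1.2

lemma act_val (u : Step d) (L : List (PB u)) (w : Lat u) :
    (act (dl u) L w).1 = w.1 + (L.map (dsp u)).sum := by
  induction L generalizing w with
  | nil => simp [act]
  | cons b L ih =>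
    rw [act, ih, List.map_cons, List.sum_cons]
    simp only [dl, dlp, dsp]
    abel

variable (ν : Measure (Row d)) [IsProbabilityMeasure ν] (u : Step d)

open Classical in
theorem conc (hd : 2 ≤ d) (hν : ∀ᵐ p ∂ν, ∀ e : Step d, 0 < p.1 e)
    (hΛ : ∑' b, Lam ν u b = 1) :
    ∀ ε : ℝ≥0∞, ε ≠ 0 → ∃ D : ℕ, ∀ n, D ≤ n → ∀ w w' : Lat u,
      ∑' L : List (PB u), (if HT (ht u) L = n ∧ act (dl u) L w = w' then LW (Lam ν u) L else 0)
        ≤ ε := by
  intro ε hε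
  obtain ⟨e, he⟩ := KD723.exists_lat hd u
  have hY1 : [Flux132.opp u] ∈ UpW (hdn u) 1 :=
    (dn_iff u 1 _).2 ((Fact346.isDn_iff u 1 _).2 (KD723.up_single (Flux132.opp u)))
  have hX1 : [u] ∈ UpW (hu u) 1 := (up_iff u 1 _).2 (KD723.up_single u)
  have hX2 : [e, u] ∈ UpW (hu u) 1 := (up_iff u 1 _).2 (KD723.up_double u e he)
  have irr : ∀ b : List (Step d) × List (Step d), b ∈ PC (hu u) (hdn u) 1 →
      B5W.Irr (hu u) (hdn u) b := fun b hb => ⟨1, le_rfl, hb, fun a c k l ha hc hbe => by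
    have := PC_height (pm_mem ha hc) (hbe ▸ hb)
    omega⟩
  set b1 : PB u := ⟨([u], [Flux132.opp u]), irr _ ⟨hX1, hY1⟩⟩ with hb1
  set b2 : PB u := ⟨([e, u], [Flux132.opp u]), irr _ ⟨hX2, hY1⟩⟩ with hb2
  have hh1 : ht u b1 = 1 := hb_eq (b := b1) (n := 1) ⟨hX1, hY1⟩
  have hh2 : ht u b2 = 1 := hb_eq (b := b2) (n := 1) ⟨hX2, hY1⟩
  have hw : ∀ b : PB u, Lam ν u b ≠ 0 := fun b =>
    mul_ne_zero (KD723.aw_ne_zero ν hν _) (KD723.aw_ne_zero ν hν _)
  obtain ⟨N, hN⟩ := Conc865.conc (Lam ν u) (ht u) (dsp u) (fun b => one_le_hb b) hΛ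
    (b1 := b1) (b2 := b2) (hh1.trans hh2.symm) (hw _) (hw _) (fun k hk => by
      have : (dsp u b2 - dsp u b1 : Site d) = stepVec e := by
        simp only [dsp, hb1, hb2, endp]
        abel
      rw [this]
      exact KD723.stepVec_inf e k hk) ε hε
  refine ⟨N, fun n hn w w' => le_trans (ENNReal.tsum_le_tsum fun L => ?_)
    (hN n hn (w'.1 - w.1))⟩
  by_cases h : HT (ht u) L = n ∧ act (dl u) L w = w'
  · rw [if_pos h, if_pos ⟨h.1, by rw [← h.2, act_val]; abel⟩]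
  · rw [if_neg h]; exact zero_le

open Classical in
theorem kappaW_of_hWin (hd : 2 ≤ d) (hν : ∀ᵐ p ∂ν, ∀ e : Step d, 0 < p.1 e) (c : ℝ≥0∞)
    (hc : c ≠ 0)
    (hup : ∀ n, c ≤ ∑' π : List (Step d), if IsUp u n π then NB28.aw ν π else 0)
    (hdn' : ∀ n, c ≤ ∑' γ : List (Step d), if IsDn u n γ then NB28.aw ν γ else 0)
    (hWin : ∀ ε : ℝ≥0∞, ε ≠ 0 → ∃ K : ℕ, 1 ≤ K ∧ ∀ i0 : ℕ, ∃ s H0 : ℕ, ∀ H, H0 ≤ H →
      ∀ a, K * H ≤ 8 * a → ∀ w : Lat u, ∑' L1 : List (PB u),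
        (if Comp818.att (ht u) a L1 ∧ HT (ht u) L1 ≤ a + i0 then
          LW (Lam ν u) L1 * Comp818.WLp (Lam ν u) (ht u) (dl u) (cd u) H s (act (dl u) L1 w)
        else 0) ≤ ε / K) : KappaW ν u := by
  have hU1 : ∀ n, U (Lam ν u) (ht u) n ≤ 1 := fun n => by
    rw [U_eq28]
    exact mul_le_one' (sum_if_le_one ν fun l l' h h' hp => NB28.isUp_prefix h h' hp)
      (sum_if_le_one ν fun l l' h h' hp => NB28.isDn_prefix h h' hp)
  have hU : ∀ n, c * c ≤ U (Lam ν u) (ht u) n := fun n => by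
    rw [U_eq28]; exact mul_le_mul' (hup n) (hdn' n)
  have hcc : c * c ≠ 0 := mul_ne_zero hc hc
  have h1 : ∀ b, 1 ≤ ht u b := fun b => one_le_hb b
  have hΛ : ∑' b, Lam ν u b = 1 :=
    le_antisymm (mass_le_one (Lam ν u) (ht u) h1 hU1)
      (mass_ge_one (Lam ν u) (ht u) (c * c) hcc 0 fun n _ => hU n)
  have hgt := Gap583.gap_tendsto (Lam ν u) (ht u) h1 (c * c) hcc 0 (fun n _ => hU n) hU1
  have key := Comp818.comp (Lam ν u) (ht u) (dl u) (cd u) h1
    (fun w b k hk => hcd u w b k hk) (c * c) hcc hU hU1 ?_ ?_ hWin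
  · intro ε hε
    obtain ⟨M, hM⟩ := key ε hε
    exact ⟨M, fun m hm n hn w hw => by
      have := hM m hm n hn (⟨w, hw⟩ : Lat u)
      rwa [Kap1_eq] at this⟩
  · intro ε hε
    obtain ⟨i0, hi0⟩ := (ENNReal.tendsto_atTop_zero.1 hgt) ε (pos_iff_ne_zero.2 hε)
    refine ⟨i0, fun a n hn => le_trans (ENNReal.tsum_le_tsum fun L => ?_)
      ((Gap583.gap_le (Lam ν u) (ht u) hU1 a i0 n hn).trans (hi0 i0 le_rfl))⟩
    by_cases h : HT (ht u) L = n ∧ ∀ i, ¬ (a ≤ HT (ht u) (L.take i) ∧ HT (ht u) (L.take i) ≤ a + i0)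
    · rw [if_pos h, if_pos ⟨h.1, fun L1 L2 hL => by
        have := h.2 L1.length
        rwa [hL, List.take_left'] at this
        rfl⟩]
    · rw [if_neg h]; exact zero_le
  · intro s ε hε
    exact Slab689.slab (Lam ν u) (ht u) (dl u) (cd u) h1 (fun w b k hk => hcd u w b k hk)
      (hinj u) (hfar u) hΛ hU1 (conc ν u hd hν hΛ) s ε hε

end Crest.Agent.R154.KB331
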