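import Crest.Agent.R154.KBInst_424

/-! Row 154, B4 (helper424): **KB from the trunk input**, final statement. -/

set_option autoImplicit false
set_option linter.unusedVariables false
set_option linter.unusedSectionVars false

open MeasureTheory ProbabilityTheory Filter Set
open scoped ENNReal Topology

namespace Crest.Agent.R154.KB424

open Crest.ProbabilityR.RandomEnvironment Crest.Agent.R154.Q561 Crest.Agent.R154.Ren263
open Crest.Agent.R154.Mk561 Crest.Agent.R154.B6I Crest.Agent.R154.Cont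
open Crest.Agent.R154.Flux132 (lev)

variable {d : ℕ} {u : Step d} {R : ℕ} {κ : ℝ} {Q : Measure (Environment d)}
  [IsProbabilityMeasure Q] {l0 : ℤ} {k0 t N : ℕ} {E : Set (Site d)}

lemma card_pairs (n : ℕ) : ((Finset.range n ×ˢ Finset.range n).filter
    (fun p : ℕ × ℕ => p.1 ≤ p.2 + 2 ∧ p.2 ≤ p.1 + 2)).card ≤ 5 * n := by
  have h : ((Finset.range n ×ˢ Finset.range n).filter
      (fun p : ℕ × ℕ => p.1 ≤ p.2 + 2 ∧ p.2 ≤ p.1 + 2)).card
      ≤ (Finset.range n ×ˢ Finset.range 5).card := by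
    refine Finset.card_le_card_of_injOn (fun p => (p.1, p.2 + 2 - p.1)) ?_ ?_
    · rintro ⟨a, b⟩ hp
      simp only [Finset.coe_filter, Finset.mem_product, Finset.mem_range, Set.mem_ofPred_eq] at hp
      simp only [Finset.coe_product, Finset.coe_range, Set.mem_prod, Set.mem_Iio]
      omega
    · rintro ⟨a, b⟩ hp ⟨a', b'⟩ hp' h
      simp only [Finset.coe_filter, Finset.mem_product, Finset.mem_range, Set.mem_ofPred_eq]
        at hp hp'
      simp only [Prod.mk.injEq] at h ⊢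
      omega
  refine h.trans ?_
  rw [Finset.card_product, Finset.card_range, Finset.card_range, mul_comm]

/-- the contact inequality in the marked frame -/
lemma contact_le (hstat : ∀ z : Site d, MeasurePreserving (shiftEnv z) Q Q)
    (hR : IsFiniteRangeDependent Q R) (hfrc : R = 0 ∨ 0 < kf d κ) {c₀ lam : ℝ≥0∞} (hc : c₀ ≠ 0)
    (hc' : c₀ ≠ ⊤) (hl : lam ≠ 0) (hl' : lam ≠ ⊤)
    (hML : ∀ᵐ ω ∂Q, ∀ (z : Site d) (e : Step d),
      c₀ * ENNReal.ofReal ((reg κ (ω z)).1 e) ≤ mw κ (ω z) (e, false))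
    (ht : R ≤ t) (ht1 : 1 ≤ t) {x y : Site d} (hx : lev u x = l0) (hy : lev u y = l0)
    {ng bd ue : ℝ≥0∞}
    (hng : ∀ x, lev u x = l0 → mkAnn κ Q 0 {M | (gd u R l0 k0 t N E).gr.NG (x, M)} ≤ ng)
    (hbd : ∀ x, lev u x = l0 → ∀ i, mkAnn κ Q 0 {M | (x, M) ∈ (gd u R l0 k0 t N E).gr.Bad i} ≤ bd)
    (hue : ∀ x y, lev u x = l0 → lev u y = l0 → ((mkAnn κ Q 0).prod (mkAnn κ Q 0))
      {p : PP d | ((x, p.1), (y, p.2)) ∈ (gd u R l0 k0 t N E).gr.UE} ≤ ue) :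
    ((mkAnn κ Q 0).prod (mkAnn κ Q 0))
        {p : PP d | ((x, p.1), (y, p.2)) ∈ (gd u R l0 k0 t N E).gr.CC}
      ≤ 2 * (ng + 5 * (cU d κ * lam) + (c₀ * (GD.hK d R κ * lam))⁻¹ * ue)
        + (5 * (N - 6) : ℕ) * bd ^ 2 := by
  set g := gd u R l0 k0 t N E with hgdef
  have hg : g.Ok := gd_ok ht ht1
  have hOk := GD.ok hg
  have key := Grid.contact_inequality hOk (Q := Q) (P₁ := smP κ x) (P₂ := smP κ y)
    (k1p_smP u hR κ x y) (k1p_smP u hR κ y x) (G := Gp κ) (C₀ := cU d κ) (c₀ := c₀)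
    (h₀ := GD.hK d R κ) (lam := lam) hc hc' (GD.hK_ne_zero hfrc) GD.hK_ne_top hl hl'
    (Filter.Eventually.of_forall fun ω => mu_smP u κ x ω)
    (Filter.Eventually.of_forall fun ω => mu_smP u κ y ω)
    (by filter_upwards [hML] with ω hω; exact ml_smP u κ x ω hω)
    (by filter_upwards [hML] with ω hω; exact ml_smP u κ y ω hω)
    (Filter.Eventually.of_forall fun ω k a z h1 h2 h3 y' => GD.harnack hg κ ω k a z h1 h2 h3 y')
  have mCC : MeasurableSet g.gr.CC := by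
    have m1 : MeasurableSet {p : SMPath d × SMPath d | g.gr.Gd p.1} :=
      measurable_fst (Grid.measurableSet_Gd hOk)
    have m2 : MeasurableSet {p : SMPath d × SMPath d | g.gr.Gd p.2} :=
      measurable_snd (Grid.measurableSet_Gd hOk)
    have m3 := Grid.measurableSet_JS hOk 4
    have m4 := Grid.measurableSet_JS hOk (g.gr.M - 2)
    have m5 : MeasurableSet {p : SMPath d × SMPath d | g.gr.JS 4 p.2 p.1} := measurable_swap m3
    have m6 : MeasurableSet {p : SMPath d × SMPath d | g.gr.JS (g.gr.M - 2) p.2 p.1} :=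
      measurable_swap m4
    exact m1.inter (m2.inter (m3.compl.inter (m4.inter (m5.compl.inter m6))))
  have mUE := Grid.measurableSet_UE hOk
  rw [ind_apply_smP hstat x y mCC, ind_apply_smP hstat x y mUE, ind_apply_smP hstat y x mUE,
    bind_apply_smP hstat x (Grid.measurableSet_NG hOk),
    bind_apply_smP hstat y (Grid.measurableSet_NG hOk)] at key
  refine key.trans (add_le_add ?_ ?_)
  · rw [two_mul]
    refine add_le_add (add_le_add (add_le_add (hng x hx) le_rfl) ?_)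
      (add_le_add (add_le_add (hng y hy) le_rfl) ?_)
    · exact mul_le_mul' le_rfl (hue x y hx hy)
    · exact mul_le_mul' le_rfl (hue y x hy hx)
  · have hterm : ∀ p ∈ (Finset.range (g.gr.M - 6) ×ˢ Finset.range (g.gr.M - 6)).filter
          (fun p => p.1 ≤ p.2 + 2 ∧ p.2 ≤ p.1 + 2),
          (Q.bind (smP κ x)) (g.gr.Bad p.1) * (Q.bind (smP κ y)) (g.gr.Bad p.2) ≤ bd ^ 2 := by
      intro p hp
      simp only [Finset.mem_filter, Finset.mem_product, Finset.mem_range] at hp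
      rw [bind_apply_smP hstat x (Grid.measurableSet_Bad hOk (by omega)),
        bind_apply_smP hstat y (Grid.measurableSet_Bad hOk (by omega)), pow_two]
      exact mul_le_mul' (hbd x hx _) (hbd y hy _)
    refine (Finset.sum_le_card_nsmul _ _ _ hterm).trans ?_
    rw [nsmul_eq_mul]
    gcongr
    exact card_pairs (N - 6)

/-! ### the main theorem -/

/-- natural up to `m` without contact -/
def SN (u : Step d) (R m : ℕ) (s : SP u) : Set (PP d) :=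
  {p | (Nt u R 0 m p.1 ∧ Nt u R 0 m p.2) ∧ NoC R 0 m ((s, p) : Om u)}

lemma sn_eq (hstat : ∀ z : Site d, MeasurePreserving (shiftEnv z) Q Q)
    (hR : IsFiniteRangeDependent Q R) (m : ℕ) (s : SP u) :
    PSm κ Q s.1.1 s.1.2 (SN u R m s) = ((mkAnn κ Q 0).prod (mkAnn κ Q 0)) (SN u R m s) := by
  have hdt : Dt u m (SN u R m s) := (dt_nt (Nat.zero_le m)).inter (dt_noC (Nat.zero_le m) s)
  rw [PS_eq_PI_set hR s (j := m) (fun p hp => ⟨hp.1.1.alv, hp.1.2.alv⟩) hdt (fun p hp => hp.2)]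
  unfold PIm
  rw [mkAnn_stat hstat κ s.1.1, mkAnn_stat hstat κ s.1.2]

lemma sn_subset {m : ℕ} (ht : R ≤ t) (ht1 : 1 ≤ t) (h6 : R + (k0 + 6) * t ≤ m) (h6N : 6 ≤ N)
    (hN : 2 * m ≤ R + (k0 + (N - 2)) * t) (s : SP u) :
    SN u R m s ⊆ SN u R (2 * m) s ∪ ({p | p.1 ∈ {M : MPath d | Nt u R 0 m M} \ NJ u R} ∪
      ({p | p.2 ∈ {M : MPath d | Nt u R 0 m M} \ NJ u R} ∪
      ({p : PP d | ((s.1.1, p.1), (s.1.2, p.2)) ∈ (gd u R (lev u s.1.1) k0 t N E).gr.CC} ∪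
      ({p | p.1 ∈ {M | (gd u R (lev u s.1.1) k0 t N E).gr.NG (s.1.1, M)}} ∪
       {p | p.2 ∈ {M | (gd u R (lev u s.1.1) k0 t N E).gr.NG (s.1.2, M)}})))) := by
  rintro p ⟨⟨h1, h2⟩, h3⟩
  by_cases hJ1 : p.1 ∈ NJ u R
  swap
  · exact Or.inr (Or.inl ⟨h1, hJ1⟩)
  by_cases hJ2 : p.2 ∈ NJ u R
  swap
  · exact Or.inr (Or.inr (Or.inl ⟨h2, hJ2⟩))
  by_cases hC : NoC R 0 (2 * m) ((s, p) : Om u)
  · exact Or.inl ⟨⟨hJ1 _, hJ2 _⟩, hC⟩
  rcases GD.incl (g := gd u R (lev u s.1.1) k0 t N E) (gd_ok ht ht1) h6 h6N hN s rfl p (hJ1 _)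
    (hJ2 _) h3 hC with h | h | h
  · exact Or.inr (Or.inr (Or.inr (Or.inl h)))
  · exact Or.inr (Or.inr (Or.inr (Or.inr (Or.inl h))))
  · exact Or.inr (Or.inr (Or.inr (Or.inr (Or.inr h))))


lemma sq_add_le (a b : ℝ≥0∞) : (a + b) ^ 2 ≤ 4 * (a ^ 2 + b ^ 2) := by
  rcases le_total a b with h | h
  · calc (a + b) ^ 2 ≤ (b + b) ^ 2 := by gcongr
      _ = 4 * (0 + b ^ 2) := by ring
      _ ≤ 4 * (a ^ 2 + b ^ 2) := by gcongr; exact zero_le
  · calc (a + b) ^ 2 ≤ (a + a) ^ 2 := by gcongr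
      _ = 4 * (a ^ 2 + 0) := by ring
      _ ≤ 4 * (a ^ 2 + b ^ 2) := by gcongr; exact zero_le

/-- **KB, in `ℝ≥0∞`.** -/
theorem KB_enn (hstat : ∀ z : Site d, MeasurePreserving (shiftEnv z) Q Q)
    (hR : IsFiniteRangeDependent Q R) (hfrc : R = 0 ∨ 0 < kf d κ) {c₀ : ℝ≥0∞} (hc : c₀ ≠ 0)
    (hc' : c₀ ≠ ⊤)
    (hML : ∀ᵐ ω ∂Q, ∀ (z : Site d) (e : Step d),
      c₀ * ENNReal.ofReal ((reg κ (ω z)).1 e) ≤ mw κ (ω z) (e, false))
    (hp : mkAnn κ Q 0 (NS u) ≠ 0) (hT : Trunk u κ Q) (ε : ℝ≥0∞) (hε : ε ≠ 0) :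
    ∃ m₀ : ℕ, ∀ m ≥ m₀, ∀ s : SP u, PSm κ Q s.1.1 s.1.2 (SN u R m s) ≤
      PSm κ Q s.1.1 s.1.2 (SN u R (2 * m) s) + ε := by
  rcases eq_or_ne ε ⊤ with hεt | hεt
  · exact ⟨0, fun m _ s => by rw [hεt]; simp⟩
  set P := mkAnn κ Q 0 (NS u) with hP
  have hPt : P ≠ ⊤ := measure_ne_top _ _
  set C₀ := cU d κ with hC₀
  have hC₀t : C₀ ≠ ⊤ := cU_ne_top κ
  set lam : ℝ≥0∞ := (ε / 20) / (C₀ + 1) with hlam
  have h20 : ε / 20 ≠ 0 := (ENNReal.div_pos hε (by norm_num)).ne'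
  have h20t : ε / 20 ≠ ⊤ := ENNReal.div_ne_top hεt (by norm_num)
  have hC1 : C₀ + 1 ≠ 0 := by simp
  have hC1t : C₀ + 1 ≠ ⊤ := ENNReal.add_ne_top.2 ⟨hC₀t, ENNReal.one_ne_top⟩
  have hl : lam ≠ 0 := (ENNReal.div_pos h20 hC1t).ne'
  have hl' : lam ≠ ⊤ := ENNReal.div_ne_top h20t hC1
  have hClam : C₀ * lam ≤ ε / 20 := by
    calc C₀ * lam ≤ (C₀ + 1) * lam := by gcongr; exact le_self_add
      _ = ε / 20 := ENNReal.mul_div_cancel hC1 hC1t
  set K₁ := (c₀ * (GD.hK d R κ * lam))⁻¹ with hK₁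
  have hK₁t : K₁ ≠ ⊤ := by
    rw [hK₁, ne_eq, ENNReal.inv_eq_top]
    simp only [mul_eq_zero, not_or]
    exact ⟨hc, GD.hK_ne_zero hfrc, hl⟩
  have hP2 : (P ^ 2)⁻¹ ≠ ⊤ := ENNReal.inv_ne_top.2 (pow_ne_zero _ hp)
  set A : ℝ≥0∞ := 134 + 2 * (K₁ * (P ^ 2)⁻¹) with hA
  have hA0 : A ≠ 0 := by
    rw [hA]; simp
  have hAt : A ≠ ⊤ := by
    rw [hA]
    exact ENNReal.add_ne_top.2 ⟨by norm_num, ENNReal.mul_ne_top (by norm_num)
      (ENNReal.mul_ne_top hK₁t hP2)⟩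
  have hε2 : ε / 2 ≠ 0 := (ENNReal.div_pos hε (by norm_num)).ne'
  have hε2t : ε / 2 ≠ ⊤ := ENNReal.div_ne_top hεt (by norm_num)
  set ε₂ : ℝ≥0∞ := (ε / 2) / A with hε₂
  have hε₂0 : ε₂ ≠ 0 := (ENNReal.div_pos hε2 hAt).ne'
  have hAε : A * ε₂ = ε / 2 := ENNReal.mul_div_cancel hA0 hAt
  obtain ⟨K₀, hK₀⟩ := hT ε₂ hε₂0
  set K := max K₀ 12 with hK
  have hK12 : 12 ≤ K := le_max_right _ _
  obtain ⟨T₀, hT₀⟩ := hK₀ K (le_max_left _ _)
  have hK0 : (K : ℝ≥0∞) ≠ 0 := by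
    simp only [ne_eq, Nat.cast_eq_zero]; omega
  have hKt : (K : ℝ≥0∞) ≠ ⊤ := ENNReal.natCast_ne_top K
  set δ : ℝ≥0∞ := min (ε₂ / K) 1 with hδ
  have hδ0 : 0 < δ := lt_min (ENNReal.div_pos hε₂0 hKt) one_pos
  have hKδ : (K : ℝ≥0∞) * δ ≤ ε₂ := by
    calc (K : ℝ≥0∞) * δ ≤ K * (ε₂ / K) := by gcongr; exact min_le_left _ _
      _ = ε₂ := ENNReal.mul_div_cancel hK0 hKt
  have hδε : δ ≤ ε₂ := by
    calc δ = 1 * δ := (one_mul _).symm
      _ ≤ K * δ := by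
        gcongr
        exact_mod_cast (by omega : 1 ≤ K)
      _ ≤ ε₂ := hKδ
  have hδ1 : δ ≤ 1 := min_le_right _ _
  obtain ⟨n₁, hn₁⟩ := Filter.eventually_atTop.1
    ((tendsto_order.1 (tendsto_eta (u := u) (R := R) κ Q)).2 δ hδ0)
  set T₁ := max T₀ (max n₁ (max R K)) with hT₁
  refine ⟨R + K * T₁ + n₁, fun m hm s => ?_⟩
  set t := (m - R) / K with htdef
  have hKpos : 0 < K := by omega
  have htT : T₁ ≤ t := by
    rw [htdef, Nat.le_div_iff_mul_le hKpos, mul_comm]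
    omega
  have ht0 : T₀ ≤ t := (le_max_left _ _).trans htT
  have htn : n₁ ≤ t := ((le_max_left _ _).trans (le_max_right _ _)).trans htT
  have htR : R ≤ t :=
    (((le_max_left _ _).trans (le_max_right _ _)).trans (le_max_right _ _)).trans htT
  have htK : K ≤ t :=
    (((le_max_right _ _).trans (le_max_right _ _)).trans (le_max_right _ _)).trans htT
  have ht1 : 1 ≤ t := by omega
  have hdiv1 : K * t ≤ m - R := Nat.mul_div_le _ _
  have hdiv2 : m - R < K * (t + 1) := Nat.lt_mul_div_succ _ hKpos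
  obtain ⟨E, w, hw, hbad, hpi, hcut⟩ := hT₀ t ht0
  set k0 := K - 6 with hk0
  set N := K + 11 with hN
  have e6 : R + (k0 + 6) * t ≤ m := by
    rw [hk0, show K - 6 + 6 = K by omega]; omega
  have eN : 2 * m ≤ R + (k0 + (N - 2)) * t := by
    rw [hk0, hN, show K - 6 + (K + 11 - 2) = 2 * K + 3 by omega]
    have h1 : (2 * K + 3) * t = 2 * (K * t) + 3 * t := by ring
    have h2 : K * (t + 1) = K * t + K := by ring
    rw [h1]
    rw [h2] at hdiv2
    omega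
  -- the three inputs
  have hL1 : n₁ ≤ R + (k0 + 1) * t := by
    have : 1 * t ≤ (k0 + 1) * t := Nat.mul_le_mul_right _ (by omega)
    omega
  have heta1 : eta κ Q u R (R + (k0 + 1) * t) ≤ δ := (hn₁ _ hL1).le
  have hetam : eta κ Q u R m ≤ ε₂ := ((hn₁ m (by omega)).le).trans hδε
  have hng : ∀ x, lev u x = lev u s.1.1 →
      mkAnn κ Q 0 {M | (gd u R (lev u s.1.1) k0 t N E).gr.NG (x, M)} ≤ 13 * ε₂ := by
    intro x hx
    refine (ng_le hstat hR htR ht1 hx).trans ?_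
    have hsum : ∑ j ∈ Finset.range N, mkAnn κ Q 0 {M | M ∈ NS u ∧ NoCutW u ((k0 + j) * t) t M}
        ≤ 12 * ε₂ := by
      have h1 : (K : ℝ≥0∞) * ∑ j ∈ Finset.range N,
          mkAnn κ Q 0 {M | M ∈ NS u ∧ NoCutW u ((k0 + j) * t) t M} ≤ K * (12 * ε₂) := by
        rw [Finset.mul_sum]
        calc ∑ j ∈ Finset.range N, (K : ℝ≥0∞) *
              mkAnn κ Q 0 {M | M ∈ NS u ∧ NoCutW u ((k0 + j) * t) t M}
            ≤ ∑ _j ∈ Finset.range N, ε₂ := Finset.sum_le_sum fun j _ => hcut _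
          _ = (N : ℝ≥0∞) * ε₂ := by simp
          _ ≤ ((K * 12 : ℕ) : ℝ≥0∞) * ε₂ := by
              gcongr
              omega
          _ = K * (12 * ε₂) := by push_cast; ring
      exact (ENNReal.mul_le_mul_iff_right hK0 hKt).1 h1
    calc eta κ Q u R (R + (k0 + 1) * t) + ∑ j ∈ Finset.range N,
          mkAnn κ Q 0 {M | M ∈ NS u ∧ NoCutW u ((k0 + j) * t) t M}
        ≤ ε₂ + 12 * ε₂ := add_le_add (heta1.trans hδε) hsum
      _ = 13 * ε₂ := by ring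
  have hbd : ∀ x, lev u x = lev u s.1.1 → ∀ i,
      mkAnn κ Q 0 {M | (x, M) ∈ (gd u R (lev u s.1.1) k0 t N E).gr.Bad i} ≤ δ + w := by
    intro x hx i
    exact (bad_le hstat hR htR ht1 (by omega) hx i).trans (add_le_add heta1 (hbad _))
  have hue : ∀ x y, lev u x = lev u s.1.1 → lev u y = lev u s.1.1 →
      ((mkAnn κ Q 0).prod (mkAnn κ Q 0))
        {p : PP d | ((x, p.1), (y, p.2)) ∈ (gd u R (lev u s.1.1) k0 t N E).gr.UE}
        ≤ ε₂ * (P ^ 2)⁻¹ := by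
    intro x y hx hy
    refine (measure_mono (ue_subset htR ht1 hx hy)).trans ?_
    have h1 := close_le (κ := κ) (Q := Q) (k0 := k0) (t := t) (E := E) hstat hR x y (n := N - 6)
      (B := {p | p.1 ∈ NS u ∧ p.2 ∈ NS u ∧ ∃ k, K ≤ 2 * k ∧ k ≤ 3 * K ∧
        Up u ((k + 7) * t) p.1 - Up u (k * t) p.2 - (y - x) ∈ E}) (by
        intro k hk q h1 h2 h3
        exact ⟨h1, h2, k0 + k, by omega, by omega, h3⟩)
    rw [q_eq hstat hR, mul_pow] at h1
    have hwF : wF d R κ ^ 2 ≠ 0 := by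
      refine pow_ne_zero _ ?_
      unfold wF
      rcases hfrc with rfl | h
      · simp
      · exact pow_ne_zero _ (by simpa using h)
    have hwFt : wF d R κ ^ 2 ≠ ⊤ := ENNReal.pow_ne_top
      (ne_top_of_le_ne_top ENNReal.one_ne_top (wF_le_one u))
    have h2 : wF d R κ ^ 2 * (((mkAnn κ Q 0).prod (mkAnn κ Q 0))
        (⋃ k ∈ Finset.range (N - 6), AC u R k0 t E x y k) * P ^ 2) ≤ wF d R κ ^ 2 * ε₂ := by
      calc wF d R κ ^ 2 * (((mkAnn κ Q 0).prod (mkAnn κ Q 0))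
            (⋃ k ∈ Finset.range (N - 6), AC u R k0 t E x y k) * P ^ 2)
          = ((mkAnn κ Q 0).prod (mkAnn κ Q 0))
            (⋃ k ∈ Finset.range (N - 6), AC u R k0 t E x y k) * (wF d R κ ^ 2 * P ^ 2) := by ring
        _ ≤ _ := h1
        _ ≤ wF d R κ ^ 2 * ε₂ := by gcongr; exact hpi (y - x)
    have h3 := (ENNReal.mul_le_mul_iff_right hwF hwFt).1 h2
    rw [← div_eq_mul_inv, ENNReal.le_div_iff_mul_le (Or.inl (pow_ne_zero _ hp))
      (Or.inl (ENNReal.pow_ne_top hPt))]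
    exact h3
  have hCC := contact_le (N := N) (k0 := k0) (E := E) hstat hR hfrc hc hc' hl hl' hML htR ht1
    (rfl : lev u s.1.1 = lev u s.1.1) (s.2.symm : lev u s.1.2 = lev u s.1.1) hng hbd hue
  -- assembly
  rw [sn_eq hstat hR, sn_eq hstat hR]
  set μ := (mkAnn κ Q 0).prod (mkAnn κ Q 0) with hμ
  have f1 : ∀ B : Set (MPath d), μ {p | p.1 ∈ B} = mkAnn κ Q 0 B := by
    intro B
    have : {p : PP d | p.1 ∈ B} = B ×ˢ Set.univ := by ext p; simp
    rw [this, hμ, Measure.prod_prod, measure_univ, mul_one]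
  have f2 : ∀ B : Set (MPath d), μ {p | p.2 ∈ B} = mkAnn κ Q 0 B := by
    intro B
    have : {p : PP d | p.2 ∈ B} = Set.univ ×ˢ B := by ext p; simp
    rw [this, hμ, Measure.prod_prod, measure_univ, one_mul]
  have hbdsq : ((5 * (N - 6) : ℕ) : ℝ≥0∞) * (δ + w) ^ 2 ≤ 80 * ε₂ := by
    calc ((5 * (N - 6) : ℕ) : ℝ≥0∞) * (δ + w) ^ 2
        ≤ ((10 * K : ℕ) : ℝ≥0∞) * (4 * (δ ^ 2 + w ^ 2)) := by
          refine mul_le_mul' ?_ (sq_add_le δ w)
          exact_mod_cast (by omega : 5 * (N - 6) ≤ 10 * K)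
      _ = 40 * (K * δ * δ + K * w ^ 2) := by push_cast; ring
      _ ≤ 40 * (ε₂ * 1 + ε₂) := by gcongr
      _ = 80 * ε₂ := by ring
  calc μ (SN u R m s)
      ≤ μ (SN u R (2 * m) s) + (μ {p | p.1 ∈ {M : MPath d | Nt u R 0 m M} \ NJ u R} +
        (μ {p | p.2 ∈ {M : MPath d | Nt u R 0 m M} \ NJ u R} +
        (μ {p : PP d | ((s.1.1, p.1), (s.1.2, p.2)) ∈ (gd u R (lev u s.1.1) k0 t N E).gr.CC} +
        (μ {p | p.1 ∈ {M | (gd u R (lev u s.1.1) k0 t N E).gr.NG (s.1.1, M)}} +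
         μ {p | p.2 ∈ {M | (gd u R (lev u s.1.1) k0 t N E).gr.NG (s.1.2, M)}})))) := by
        refine (measure_mono (sn_subset (k0 := k0) (N := N) (E := E) htR ht1 e6 (by omega) eN
          s)).trans ?_
        refine (measure_union_le _ _).trans (add_le_add le_rfl ?_)
        refine (measure_union_le _ _).trans (add_le_add le_rfl ?_)
        refine (measure_union_le _ _).trans (add_le_add le_rfl ?_)
        exact (measure_union_le _ _).trans (add_le_add le_rfl (measure_union_le _ _))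
    _ ≤ μ (SN u R (2 * m) s) + (ε₂ + (ε₂ + ((2 * (13 * ε₂ + 5 * (C₀ * lam) + K₁ * (ε₂ * (P ^ 2)⁻¹))
          + 80 * ε₂) + (13 * ε₂ + 13 * ε₂)))) := by
        rw [f1, f2, f1, f2]
        refine add_le_add le_rfl (add_le_add hetam (add_le_add hetam (add_le_add ?_
          (add_le_add (hng _ rfl) (hng _ s.2.symm)))))
        exact hCC.trans (add_le_add le_rfl hbdsq)
    _ = μ (SN u R (2 * m) s) + (A * ε₂ + 10 * (C₀ * lam)) := by
        rw [hA]; ring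
    _ ≤ μ (SN u R (2 * m) s) + (ε / 2 + 10 * (ε / 20)) := by
        rw [hAε]; gcongr
    _ = μ (SN u R (2 * m) s) + ε := by
        congr 1
        have : 10 * (ε / 20) = ε / 2 := by
          rw [ENNReal.div_eq_inv_mul, ENNReal.div_eq_inv_mul, ← mul_assoc]
          congr 1
          rw [show (20 : ℝ≥0∞) = 10 * 2 by norm_num, ENNReal.mul_inv (by norm_num) (by norm_num),
            ← mul_assoc, ENNReal.mul_inv_cancel (by norm_num) (by norm_num), one_mul]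
        rw [this, ENNReal.add_halves]

/-- **KB** (833's field), from the trunk input. -/
theorem KB_real (hstat : ∀ z : Site d, MeasurePreserving (shiftEnv z) Q Q)
    (hR : IsFiniteRangeDependent Q R) (hfrc : R = 0 ∨ 0 < kf d κ)
    (hell : ∀ᵐ ω ∂Q, ∀ (z : Site d) (e : Step d), kf d κ ≤ (ω z).1 e)
    (hc : ∃ c : ℝ, 0 < c ∧ ∀ᵐ ω ∂Q, ∀ (z : Site d) (e : Step d),
      c * (ω z).1 e ≤ (ω z).1 e - kf d κ)
    (hp : mkAnn κ Q 0 (NS u) ≠ 0) (hT : Trunk u κ Q) :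
    ∀ ε > (0 : ℝ), ∃ m₀ : ℕ, ∀ m ≥ m₀, ∀ s : SP u,
      (PSm κ Q s.1.1 s.1.2).real (SN u R m s)
        - (PSm κ Q s.1.1 s.1.2).real (SN u R (2 * m) s) ≤ ε := by
  intro ε hε
  obtain ⟨c, hc0, hc⟩ := hc
  obtain ⟨m₀, h⟩ := KB_enn (u := u) hstat hR hfrc (c₀ := ENNReal.ofReal c)
    (by simpa using hc0) ENNReal.ofReal_ne_top (by
      filter_upwards [hell, hc] with ω h1 h2 z e
      rw [reg_eq (h1 z), ← ENNReal.ofReal_mul hc0.le]
      unfold mw
      refine ENNReal.ofReal_le_ofReal ?_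
      simp only [Bool.false_eq_true, if_false]
      rw [reg_eq (h1 z)]
      exact h2 z e) hp hT (ENNReal.ofReal ε) (by simpa using hε)
  refine ⟨m₀, fun m hm s => ?_⟩
  have h1 := h m hm s
  have h2 := ENNReal.toReal_mono (ENNReal.add_ne_top.2 ⟨measure_ne_top _ _,
    ENNReal.ofReal_ne_top⟩) h1
  rw [ENNReal.toReal_add (measure_ne_top _ _) ENNReal.ofReal_ne_top,
    ENNReal.toReal_ofReal hε.le] at h2
  simp only [measureReal_def]
  linarith

end Crest.Agent.R154.KB424
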