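import Crest.Agent.R154.WJ_74

/-! Row 154, ROAD 801, joint-cut frame (helper74): window lemma (2) for ONE COMMON HEIGHT `H`
(the up walker is local), in the words of `NBDefs_28`. -/

set_option autoImplicit false

namespace Crest.Agent.R154.WK74

open MeasureTheory ProbabilityTheory Crest.ProbabilityR.RandomEnvironment Crest.Agent.R154
open Crest.Agent.R154.Flux132 (lev opp)
open Crest.Agent.R154.Flux566 (lw endp sitesL endp_append endp_eq_add measurable_lw)
open Crest.Agent.R154.NB28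
open Crest.Agent.R154.WJ74
open Crest.Agent.R154.Face504 (Wd PF tw FHD FH fhd_of_contact an tw_le_one measurable_tw visit_le
  guest_b NN_le an_mul fh_unique NN)
open scoped ENNReal
open Classical

variable {d : ℕ}

lemma meas_bad (x : Site d) (γ : Wd d) (T : Site d → Set (Wd d)) (c : ℝ≥0∞) :
    MeasurableSet {ω : Environment d | ∃ y ∈ sitesL x γ, tw ω y (T y) ≤ c} := by
  have : {ω : Environment d | ∃ y ∈ sitesL x γ, tw ω y (T y) ≤ c}
      = ⋃ y ∈ (sitesL x γ).toFinset, {ω : Environment d | tw ω y (T y) ≤ c} := by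
    ext ω; simp
  rw [this]
  exact Finset.measurableSet_biUnion _ fun y _ =>
    measurableSet_le (measurable_tw y (T y)) measurable_const

/-- facing lemma, order (2), one start of the local walker; `wt` = weight on the local word -/
theorem face2_one (ν : Measure (Row d)) [IsProbabilityMeasure ν] (g0 x : Site d)
    {A B : Set (Wd d)} (hA : PF A) (hB : PF B) (T : Site d → Set (Wd d))
    {wt : Wd d → ℝ≥0∞} {M : ℝ≥0∞} (hM : ∀ γ, wt γ ≤ M)
    (Dp : Set (Site d)) (R : Set (Wd d))
    (hR : ∀ σ τ, (∃ π ∈ A, σ <+: π) → endp g0 σ ∈ Dp → τ ∈ T (endp g0 σ) → σ ++ τ ∈ R)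
    {lam : ℝ≥0∞} (hl0 : lam ≠ 0) (hlt : lam ≠ ∞) :
    (∑' π : Wd d, ∑' γ : Wd d, if π ∈ A ∧ γ ∈ B ∧ FHD g0 x Dp π γ then
        an ν g0 π * an ν x γ * wt γ else 0)
      ≤ M / lam * (∫⁻ ω, tw ω g0 R ∂(iidEnvironmentLaw ν))
        + ∑' γ : Wd d, (if γ ∈ B then wt γ *
          ∫⁻ ω, (if ∃ y ∈ sitesL x γ, tw ω y (T y) ≤ lam then lw ω x γ else 0)
            ∂(iidEnvironmentLaw ν) else 0) := by
  set Q := iidEnvironmentLaw ν with hQ
  set P : Wd d → Prop := fun σ => ∃ π ∈ A, σ <+: π with hP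
  -- one local word
  have h1 : ∀ γ : Wd d, (∑' π : Wd d, if π ∈ A ∧ FHD g0 x Dp π γ then an ν g0 π else 0)
      ≤ ∑' σ : Wd d, if FH g0 x Dp σ γ ∧ P σ then an ν g0 σ else 0 := by
    intro γ
    calc (∑' π : Wd d, if π ∈ A ∧ FHD g0 x Dp π γ then an ν g0 π else 0)
        ≤ ∑' π : Wd d, ∑' σ : Wd d, (if FH g0 x Dp σ γ ∧ P σ then
            (if π ∈ A ∧ σ <+: π then an ν g0 π * 1 else 0) else 0) := by
          refine ENNReal.tsum_le_tsum fun π => ?_
          split_ifs with h
          · obtain ⟨hπ, σ, h2, h3⟩ := h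
            refine le_trans ?_ (ENNReal.le_tsum σ)
            rw [if_pos ⟨h3, π, hπ, h2⟩, if_pos ⟨hπ, h2⟩, mul_one]
          · exact zero_le
      _ = ∑' σ : Wd d, ∑' π : Wd d, (if FH g0 x Dp σ γ ∧ P σ then
            (if π ∈ A ∧ σ <+: π then an ν g0 π * 1 else 0) else 0) := ENNReal.tsum_comm
      _ ≤ _ := by
          refine ENNReal.tsum_le_tsum fun σ => ?_
          split_ifs with h
          · have h5 := NN_le ν g0 hA (wt := fun _ => 1) (M := 1) (fun _ => le_rfl) σ
            rw [one_mul] at h5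
            exact h5
          · simp
  have h2 : ∀ γ : Wd d, (∑' σ : Wd d, if FH g0 x Dp σ γ ∧ P σ then an ν g0 σ else 0) * an ν x γ
      ≤ (∫⁻ ω, (if ∃ y ∈ sitesL x γ, tw ω y (T y) ≤ lam then lw ω x γ else 0) ∂Q)
        + ∫⁻ ω, (tw ω g0 R / lam) * lw ω x γ ∂Q := by
    intro γ
    calc (∑' σ : Wd d, if FH g0 x Dp σ γ ∧ P σ then an ν g0 σ else 0) * an ν x γ
        = ∑' σ : Wd d, ∫⁻ ω, (if FH g0 x Dp σ γ ∧ P σ then lw ω g0 σ * lw ω x γ else 0) ∂Q := by
          rw [← ENNReal.tsum_mul_right]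
          refine tsum_congr fun σ => ?_
          split_ifs with h
          · exact an_mul ν g0 x σ γ h.1.1
          · simp
      _ = ∫⁻ ω, (∑' σ : Wd d, if FH g0 x Dp σ γ ∧ P σ then lw ω g0 σ * lw ω x γ else 0) ∂Q := by
          rw [lintegral_tsum]
          intro σ
          split_ifs
          · exact ((measurable_lw g0 σ).mul (measurable_lw x γ)).aemeasurable
          · exact aemeasurable_const
      _ ≤ ∫⁻ ω, ((if ∃ y ∈ sitesL x γ, tw ω y (T y) ≤ lam then lw ω x γ else 0)
            + (tw ω g0 R / lam) * lw ω x γ) ∂Q := by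
          refine lintegral_mono fun ω => ?_
          by_cases hb : ∃ y ∈ sitesL x γ, tw ω y (T y) ≤ lam
          · rw [if_pos hb]
            refine le_add_right ?_
            have h3 : (∑' σ : Wd d, if FH g0 x Dp σ γ ∧ P σ then lw ω g0 σ * lw ω x γ else 0)
                = tw ω g0 {σ | FH g0 x Dp σ γ ∧ P σ} * lw ω x γ := by
              unfold tw
              rw [← ENNReal.tsum_mul_right]
              refine tsum_congr fun σ => ?_
              by_cases hσ : FH g0 x Dp σ γ ∧ P σ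
              · rw [if_pos hσ, if_pos (show σ ∈ {σ | FH g0 x Dp σ γ ∧ P σ} from hσ)]
              · rw [if_neg hσ, if_neg (show ¬ σ ∈ {σ | FH g0 x Dp σ γ ∧ P σ} from hσ), zero_mul]
            rw [h3]
            have h4 : tw ω g0 {σ | FH g0 x Dp σ γ ∧ P σ} ≤ 1 := by
              refine tw_le_one ω g0 ?_
              rintro a ⟨ha, _⟩ b ⟨hb, _⟩ hab
              exact fh_unique ha hb hab List.prefix_rfl
            calc _ ≤ 1 * lw ω x γ := mul_le_mul_left h4 _
              _ = _ := one_mul _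
          · rw [if_neg hb, zero_add]
            push Not at hb
            have h3 : (∑' σ : Wd d, if FH g0 x Dp σ γ ∧ P σ then lw ω g0 σ * lw ω x γ else 0)
                ≤ (∑' σ : Wd d, if FH g0 x Dp σ γ ∧ P σ then
                  lw ω g0 σ * tw ω (endp g0 σ) (T (endp g0 σ)) else 0) * (lam⁻¹ * lw ω x γ) := by
              rw [← ENNReal.tsum_mul_right]
              refine ENNReal.tsum_le_tsum fun σ => ?_
              split_ifs with h
              · have h6 : 1 ≤ tw ω (endp g0 σ) (T (endp g0 σ)) * lam⁻¹ := by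
                  rw [← ENNReal.mul_inv_cancel hl0 hlt]
                  exact mul_le_mul_left (hb _ h.1.2.1).le _
                calc lw ω g0 σ * lw ω x γ = lw ω g0 σ * 1 * lw ω x γ := by rw [mul_one]
                  _ ≤ lw ω g0 σ * (tw ω (endp g0 σ) (T (endp g0 σ)) * lam⁻¹) * lw ω x γ := by
                    gcongr
                  _ = _ := by ring
              · exact zero_le
            refine h3.trans ?_
            calc _ ≤ tw ω g0 R * (lam⁻¹ * lw ω x γ) :=
                  mul_le_mul_left (guest_b ω g0 x Dp γ P T R hR) _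
              _ = _ := by rw [div_eq_mul_inv]; ring
      _ = _ := by
          rw [lintegral_add_left]
          refine Measurable.ite (meas_bad x γ T lam) (measurable_lw x γ) measurable_const
  calc (∑' π : Wd d, ∑' γ : Wd d, if π ∈ A ∧ γ ∈ B ∧ FHD g0 x Dp π γ then
        an ν g0 π * an ν x γ * wt γ else 0)
      = ∑' γ : Wd d, ∑' π : Wd d, (if π ∈ A ∧ γ ∈ B ∧ FHD g0 x Dp π γ then
        an ν g0 π * an ν x γ * wt γ else 0) := ENNReal.tsum_comm
    _ = ∑' γ : Wd d, (if γ ∈ B then wt γ *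
          ((∑' π : Wd d, if π ∈ A ∧ FHD g0 x Dp π γ then an ν g0 π else 0) * an ν x γ) else 0) := by
        refine tsum_congr fun γ => ?_
        by_cases hγ : γ ∈ B
        · rw [if_pos hγ, ← ENNReal.tsum_mul_right, ← ENNReal.tsum_mul_left]
          refine tsum_congr fun π => ?_
          by_cases h : π ∈ A ∧ FHD g0 x Dp π γ
          · rw [if_pos h, if_pos ⟨h.1, hγ, h.2⟩]; ring
          · rw [if_neg h, if_neg fun h' => h ⟨h'.1, h'.2.2⟩]; simp
        · rw [if_neg hγ, ENNReal.tsum_eq_zero.2]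
          intro π
          exact if_neg fun h => hγ h.2.1
    _ ≤ ∑' γ : Wd d, ((if γ ∈ B then wt γ *
          ∫⁻ ω, (if ∃ y ∈ sitesL x γ, tw ω y (T y) ≤ lam then lw ω x γ else 0) ∂Q else 0)
          + M * ∫⁻ ω, (if γ ∈ B then (tw ω g0 R / lam) * lw ω x γ else 0) ∂Q) := by
        refine ENNReal.tsum_le_tsum fun γ => ?_
        by_cases hγ : γ ∈ B
        · simp only [if_pos hγ]
          calc wt γ * ((∑' π : Wd d, if π ∈ A ∧ FHD g0 x Dp π γ then an ν g0 π else 0) * an ν x γ)
              ≤ wt γ * ((∫⁻ ω, (if ∃ y ∈ sitesL x γ, tw ω y (T y) ≤ lam then lw ω x γ else 0) ∂Q)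
                + ∫⁻ ω, (tw ω g0 R / lam) * lw ω x γ ∂Q) :=
                mul_le_mul_right ((mul_le_mul_left (h1 γ) _).trans (h2 γ)) _
            _ ≤ _ := by
                rw [mul_add]
                exact add_le_add le_rfl (mul_le_mul_left (hM γ) _)
        · simp only [if_neg hγ]; exact zero_le
    _ = (∑' γ : Wd d, (if γ ∈ B then wt γ *
          ∫⁻ ω, (if ∃ y ∈ sitesL x γ, tw ω y (T y) ≤ lam then lw ω x γ else 0) ∂Q else 0))
          + M * ∫⁻ ω, (tw ω g0 R / lam) * tw ω x B ∂Q := by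
        rw [ENNReal.tsum_add, ENNReal.tsum_mul_left, ← lintegral_tsum]
        · congr 2
          refine lintegral_congr fun ω => ?_
          unfold tw
          rw [← ENNReal.tsum_mul_left]
          refine tsum_congr fun γ => ?_
          split_ifs <;> simp
        · intro γ
          split_ifs
          · exact (((measurable_tw g0 R).div_const lam).mul (measurable_lw x γ)).aemeasurable
          · exact aemeasurable_const
    _ ≤ _ := by
        rw [add_comm]
        refine add_le_add ?_ le_rfl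
        calc M * ∫⁻ ω, (tw ω g0 R / lam) * tw ω x B ∂Q
            ≤ M * ∫⁻ ω, lam⁻¹ * tw ω g0 R ∂Q := by
              refine mul_le_mul_right (lintegral_mono fun ω => ?_) _
              calc _ ≤ (tw ω g0 R / lam) * 1 := mul_le_mul_right (tw_le_one ω x hB) _
                _ = _ := by rw [mul_one, div_eq_mul_inv, mul_comm]
          _ = M / lam * ∫⁻ ω, tw ω g0 R ∂Q := by
              rw [lintegral_const_mul _ (measurable_tw g0 R), div_eq_mul_inv, mul_assoc]

/-- local up crossings -/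
def UpB (u : Step d) (n : ℕ) (E : Finset (Site d)) : Set (Wd d) :=
  {l | IsUp u n l ∧ endp 0 l ∈ E}

/-- down crossings -/
def DnA (u : Step d) (n : ℕ) : Set (Wd d) := {l | IsDn u n l}

lemma pf_upB (u : Step d) (n : ℕ) (E : Finset (Site d)) : PF (UpB u n E) := by
  refine pf_of_first (fun y => lev u y = n) (fun l hl y hy h => ?_) (fun l hl => hl.1.2)
  have := (hl.1.1 y hy).2
  omega

lemma pf_dnA (u : Step d) (n : ℕ) : PF (DnA u n) := by
  refine pf_of_first (fun y => lev u y = -(n : ℤ)) (fun l hl y hy h => ?_) (fun l hl => hl.2)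
  have := (hl.1 y hy).1
  omega

lemma lo (v : Step d) (x : Site d) : lev (opp v) x = - lev v x := by
  unfold lev opp
  obtain ⟨i, b⟩ := v
  cases b <;> simp

/-- completions of the local walker started at `x`, from `v` -/
def Tx (u : Step d) (n : ℕ) (E : Finset (Site d)) (x v : Site d) : Set (Wd d) :=
  {τ | (∀ y ∈ sitesL v τ, lev u y < lev u x + n) ∧ lev u (endp v τ) = lev u x + n ∧
    endp v τ - x ∈ E}

lemma Tx_shift (u : Step d) (n : ℕ) (E : Finset (Site d)) (x y : Site d) :
    Tx u n E x (y + x) = Tx u n E 0 y := by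
  ext τ
  have h0 : lev u (0 : Site d) = 0 := Bind761.lev_zero u
  have h1 : endp (y + x) τ = endp y τ + x := by
    rw [endp_eq_add, endp_eq_add τ y]; abel
  simp only [Tx, Set.mem_setOf_eq, h1, h0, Bind761.lev_add]
  constructor
  · rintro ⟨a, b, c⟩
    refine ⟨fun z hz => ?_, by omega, by simpa using c⟩
    have := a (z + x) ((Bind761.mem_sitesL_add τ y x z).2 hz)
    rw [Bind761.lev_add] at this
    omega
  · rintro ⟨a, b, c⟩
    refine ⟨fun z hz => ?_, by omega, by simpa using c⟩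
    have hz' : z - x ∈ sitesL y τ := by
      rw [← Bind761.mem_sitesL_add τ y x (z - x)]
      simpa using hz
    have := a _ hz'
    rw [Bind761.lev_sub] at this
    omega

lemma tw_shift (ω : Environment d) (x y : Site d) (S : Set (Wd d)) :
    tw ω (y + x) S = tw (shiftEnv x ω) y S := by
  unfold tw
  refine tsum_congr fun l => ?_
  rw [Bind761.lw_shift]

lemma bad_shift (ν : Measure (Row d)) [IsProbabilityMeasure ν] (u : Step d) (n : ℕ)
    (E : Finset (Site d)) (x : Site d) (l : Wd d) (c : ℝ≥0∞) :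
    (∫⁻ ω, (if ∃ y ∈ sitesL x l, tw ω y (Tx u n E x y) ≤ c then lw ω x l else 0)
      ∂(iidEnvironmentLaw ν))
    = ∫⁻ ω, (if ∃ y ∈ sitesL 0 l, tw ω y (Tx u n E 0 y) ≤ c then lw ω 0 l else 0)
      ∂(iidEnvironmentLaw ν) := by
  have h : ∀ ω : Environment d,
      (if ∃ y ∈ sitesL x l, tw ω y (Tx u n E x y) ≤ c then lw ω x l else 0)
      = (fun ω' : Environment d =>
        (if ∃ y ∈ sitesL 0 l, tw ω' y (Tx u n E 0 y) ≤ c then lw ω' 0 l else 0))
        (shiftEnv x ω) := by
    intro ω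
    have h1 : lw ω x l = lw (shiftEnv x ω) 0 l := by rw [← Bind761.lw_shift, zero_add]
    have h2 : (∃ y ∈ sitesL x l, tw ω y (Tx u n E x y) ≤ c) ↔
        (∃ y ∈ sitesL 0 l, tw (shiftEnv x ω) y (Tx u n E 0 y) ≤ c) := by
      constructor
      · rintro ⟨y, hy, h⟩
        refine ⟨y - x, (Bind761.mem_sitesL_iff l x y).1 hy, ?_⟩
        rw [← tw_shift, ← Tx_shift u n E x (y - x), sub_add_cancel]
        exact h
      · rintro ⟨y, hy, h⟩
        refine ⟨y + x, (Bind761.mem_sitesL_iff l x (y + x)).2 (by simpa using hy), ?_⟩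
        rw [tw_shift, Tx_shift]
        exact h
    simp only [h1, h2]
  simp only [h]
  exact (Q561.iid_shift ν x).lintegral_comp
    (Measurable.ite (meas_bad 0 l (Tx u n E 0) c) (measurable_lw 0 l) measurable_const)

/-- bad sites -/
def BadS (u : Step d) (n : ℕ) (E : Finset (Site d)) (ω : Environment d) (c : ℝ≥0∞) :
    Set (Site d) := {y | tw ω y (Tx u n E 0 y) ≤ c}

lemma bad_sum (ν : Measure (Row d)) [IsProbabilityMeasure ν] (u : Step d) (n : ℕ)
    (E : Finset (Site d)) (c : ℝ≥0∞) :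
    (∑' l : Wd d, if l ∈ UpB u n E then
      ∫⁻ ω, (if ∃ y ∈ sitesL 0 l, tw ω y (Tx u n E 0 y) ≤ c then lw ω 0 l else 0)
        ∂(iidEnvironmentLaw ν) else 0) ≤ c := by
  have h : ∀ l : Wd d, (if l ∈ UpB u n E then
      ∫⁻ ω, (if ∃ y ∈ sitesL 0 l, tw ω y (Tx u n E 0 y) ≤ c then lw ω 0 l else 0)
        ∂(iidEnvironmentLaw ν) else 0)
      = ∫⁻ ω, (if l ∈ UpB u n E ∧ ∃ y ∈ sitesL 0 l, y ∈ BadS u n E ω c
        then lw ω 0 l else 0) ∂(iidEnvironmentLaw ν) := by
    intro l
    by_cases hl : l ∈ UpB u n E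
    · rw [if_pos hl]
      refine lintegral_congr fun ω => ?_
      refine if_congr ?_ rfl rfl
      exact ⟨fun h => ⟨hl, h⟩, fun h => h.2⟩
    · rw [if_neg hl]
      simp [hl]
  simp only [h]
  rw [← lintegral_tsum]
  · calc _ ≤ ∫⁻ _, c ∂(iidEnvironmentLaw ν) := by
          refine lintegral_mono fun ω => ?_
          refine visit_le ω 0 (Tx u n E 0) ?_ (BadS u n E ω c) c (fun v hv => hv)
          rintro γ₁ γ₂ ⟨hu, hE⟩ -
          refine ⟨fun y hy => ?_, ?_, ?_⟩
          · have hy' : y ∈ sitesL 0 (γ₁ ++ γ₂) := by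
              rw [Face504.sitesL_append]; exact List.mem_append.2 (Or.inr hy)
            have := (hu.1 y hy').2
            rw [Bind761.lev_zero]; omega
          · rw [← endp_append, hu.2, Bind761.lev_zero]; ring
          · rw [← endp_append]; simpa using hE
      _ = c := by simp
  · intro l
    by_cases hl : l ∈ UpB u n E
    · have h2 : (fun ω : Environment d => (if l ∈ UpB u n E ∧ ∃ y ∈ sitesL 0 l,
          y ∈ BadS u n E ω c then lw ω 0 l else 0))
          = fun ω => (if ∃ y ∈ sitesL 0 l, tw ω y (Tx u n E 0 y) ≤ c then lw ω 0 l else 0) := by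
        funext ω
        refine if_congr ?_ rfl rfl
        exact ⟨fun h => h.2, fun h => ⟨hl, h⟩⟩
      rw [h2]
      exact (Measurable.ite (meas_bad 0 l (Tx u n E 0) c) (measurable_lw 0 l)
        measurable_const).aemeasurable
    · simp only [hl, false_and, if_false]
      exact aemeasurable_const

/-- **window lemma (2), one common height** -/
theorem piece2 (ν : Measure (Row d)) [IsProbabilityMeasure ν] (u : Step d) (H s : ℕ)
    (E : Finset (Site d)) (μ : Site d → ℝ≥0∞) (M lam : ℝ≥0∞) (hμ : ∑' w, μ w ≤ 1)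
    (hM : ∀ w, μ w ≤ M) (hl0 : lam ≠ 0) (hlt : lam ≠ ⊤) :
    ∑' w : Site d, (if lev u w = 0 then μ w * ∑' π : Wd d, ∑' γ : Wd d,
      (if IsUp u H π ∧ IsDn u H γ ∧ endp 0 π ∈ E ∧ (∃ k, k ∈ Cm u w π γ) ∧
        (∀ k ∈ Cm u w π γ, s < k) then aw ν π * aw ν γ else 0) else 0)
      ≤ lam + M * E.card * rt ν (opp u) s / lam := by
  set A : Set (Wd d) := DnA u H with hA
  set B : Set (Wd d) := UpB u H E with hB
  set Dp : Set (Site d) := {v | lev u v ≤ -(s : ℤ)} with hDp
  set wt : Site d → Wd d → ℝ≥0∞ := fun x π => μ (-endp 0 π - stepVec (opp u) - x) with hwt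
  set a : Wd d → ℝ≥0∞ := fun l =>
    ∫⁻ ω, (if ∃ y ∈ sitesL 0 l, tw ω y (Tx u H E 0 y) ≤ lam then lw ω 0 l else 0)
      ∂(iidEnvironmentLaw ν) with ha
  -- step 1: anchor the down walker at `0`
  have key : ∀ (π γ : Wd d),
      (∑' w : Site d, (if lev u w = 0 then μ w *
        (if IsUp u H π ∧ IsDn u H γ ∧ endp 0 π ∈ E ∧ (∃ k, k ∈ Cm u w π γ) ∧
        (∀ k ∈ Cm u w π γ, s < k) then aw ν π * aw ν γ else 0) else 0))
      ≤ ∑' x : Site d, (if lev u x = 1 - (H : ℤ) then
        (if γ ∈ A ∧ π ∈ B ∧ FHD 0 x Dp γ π then an ν 0 γ * an ν x π * wt x π else 0) else 0) := by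
    intro π γ
    rw [← (Equiv.subLeft (-endp 0 π - stepVec (opp u))).tsum_eq (fun x : Site d =>
      (if lev u x = 1 - (H : ℤ) then
        (if γ ∈ A ∧ π ∈ B ∧ FHD 0 x Dp γ π then an ν 0 γ * an ν x π * wt x π else 0) else 0))]
    refine ENNReal.tsum_le_tsum fun w => ?_
    simp only [Equiv.subLeft_apply]
    by_cases hw : lev u w = 0
    swap
    · rw [if_neg hw]; exact zero_le
    rw [if_pos hw]
    by_cases hc : IsUp u H π ∧ IsDn u H γ ∧ endp 0 π ∈ E ∧ (∃ k, k ∈ Cm u w π γ) ∧
        (∀ k ∈ Cm u w π γ, s < k)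
    swap
    · rw [if_neg hc, mul_zero]; exact zero_le
    obtain ⟨hu, hd, hE, ⟨k0, hk0⟩, hall⟩ := hc
    have hlx : lev u (-endp 0 π - stepVec (opp u) - w) = 1 - (H : ℤ) := by
      rw [Bind761.lev_sub, Bind761.lev_sub, Bind761.lev_neg, hw, hu.2, Bind761.lev_opp]; ring
    have hcon : ∀ y, y ∈ sitesL 0 γ → y ∈ sitesL (-endp 0 π - stepVec (opp u) - w) π →
        ∃ k ∈ Cm u w π γ, lev u y = 1 - (k : ℤ) := by
      intro y hy hy'
      have h1 := hd.1 y hy
      refine ⟨(1 - lev u y).toNat, ⟨y + (w + stepVec (opp u)), ?_, ?_, ?_⟩, ?_⟩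
      · rw [Bind761.mem_sitesL_iff] at hy' ⊢
        convert hy' using 1
        abel
      · rw [Bind761.mem_sitesL_iff]; simpa using hy
      · rw [Bind761.lev_add, Bind761.lev_add, hw, Bind761.lev_opp]; omega
      · omega
    have hF : FHD 0 (-endp 0 π - stepVec (opp u) - w) Dp γ π := by
      refine fhd_of_contact ?_ ?_
      · obtain ⟨y, hy1, hy2, hy3⟩ := hk0
        refine ⟨y - (w + stepVec (opp u)), ?_, ?_⟩
        · rw [Bind761.mem_sitesL_iff] at hy2; simpa using hy2
        · rw [Bind761.mem_sitesL_iff] at hy1 ⊢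
          convert hy1 using 1
          abel
      · intro y hy hy'
        obtain ⟨k, hk, hk2⟩ := hcon y hy hy'
        have := hall k hk
        show lev u y ≤ -(s : ℤ)
        omega
    rw [if_pos ⟨hu, hd, hE, ⟨k0, hk0⟩, hall⟩, if_pos hlx, if_pos ⟨hd, ⟨hu, hE⟩, hF⟩]
    rw [an_eq, an_eq]
    have : wt (-endp 0 π - stepVec (opp u) - w) π = μ w := by
      simp only [hwt]; congr 1; abel
    rw [this]
    exact le_of_eq (by ring)
  -- step 2: facing lemma for each `x`
  have hone : ∀ x : Site d, (if lev u x = 1 - (H : ℤ) then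
      (∑' γ : Wd d, ∑' π : Wd d, if γ ∈ A ∧ π ∈ B ∧ FHD 0 x Dp γ π then
        an ν 0 γ * an ν x π * wt x π else 0) else 0)
      ≤ M / lam * (∫⁻ ω, tw ω 0 (Rx (opp u) s E x) ∂(iidEnvironmentLaw ν))
        + ∑' π : Wd d, if π ∈ B then wt x π * a π else 0 := by
    intro x
    by_cases hx : lev u x = 1 - (H : ℤ)
    swap
    · rw [if_neg hx]; exact zero_le
    rw [if_pos hx]
    have h := face2_one ν 0 x (pf_dnA u H) (pf_upB u H E) (Tx u H E x) (wt := wt x)
      (fun π => hM _) Dp (Rx (opp u) s E x) ?_ hl0 hlt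
    · simp only [bad_shift ν u H E x] at h
      exact h
    · rintro σ τ ⟨π, hπ, hσ⟩ hDσ ⟨h1, h2, h3⟩
      rw [hx] at h1 h2
      have hDσ' : lev u (endp 0 σ) ≤ -(s : ℤ) := hDσ
      have hτ : τ ≠ [] := by
        rintro rfl
        simp only [endp] at h2
        omega
      refine ⟨⟨fun y hy => ?_, ⟨endp 0 σ, Face504.end_mem_sites 0 σ τ hτ, ?_⟩, ?_⟩, ?_⟩
      · rw [lo]
        rw [Face504.sitesL_append] at hy
        rcases List.mem_append.1 hy with hy | hy
        · obtain ⟨t, rfl⟩ := hσ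
          have := (hπ.1 y (by rw [Face504.sitesL_append]; exact List.mem_append.2 (Or.inl hy))).2
          omega
        · have := h1 y hy
          omega
      · rw [lo]; omega
      · rw [lo, endp_append]; omega
      · rw [endp_append]; exact h3
  -- assembly
  calc ∑' w : Site d, (if lev u w = 0 then μ w * ∑' π : Wd d, ∑' γ : Wd d,
      (if IsUp u H π ∧ IsDn u H γ ∧ endp 0 π ∈ E ∧ (∃ k, k ∈ Cm u w π γ) ∧
        (∀ k ∈ Cm u w π γ, s < k) then aw ν π * aw ν γ else 0) else 0)
      = ∑' w : Site d, ∑' π : Wd d, ∑' γ : Wd d, (if lev u w = 0 then μ w *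
        (if IsUp u H π ∧ IsDn u H γ ∧ endp 0 π ∈ E ∧ (∃ k, k ∈ Cm u w π γ) ∧
        (∀ k ∈ Cm u w π γ, s < k) then aw ν π * aw ν γ else 0) else 0) := by
        refine tsum_congr fun w => ?_
        split_ifs with hw
        · rw [← ENNReal.tsum_mul_left]
          refine tsum_congr fun π => ?_
          rw [← ENNReal.tsum_mul_left]
        · simp
    _ = ∑' π : Wd d, ∑' γ : Wd d, ∑' w : Site d, (if lev u w = 0 then μ w *
        (if IsUp u H π ∧ IsDn u H γ ∧ endp 0 π ∈ E ∧ (∃ k, k ∈ Cm u w π γ) ∧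
        (∀ k ∈ Cm u w π γ, s < k) then aw ν π * aw ν γ else 0) else 0) := by
        rw [ENNReal.tsum_comm]
        refine tsum_congr fun π => ?_
        rw [ENNReal.tsum_comm]
    _ ≤ ∑' π : Wd d, ∑' γ : Wd d, ∑' x : Site d, (if lev u x = 1 - (H : ℤ) then
        (if γ ∈ A ∧ π ∈ B ∧ FHD 0 x Dp γ π then an ν 0 γ * an ν x π * wt x π else 0) else 0) :=
        ENNReal.tsum_le_tsum fun π => ENNReal.tsum_le_tsum fun γ => key π γ
    _ = ∑' x : Site d, ∑' γ : Wd d, ∑' π : Wd d, (if lev u x = 1 - (H : ℤ) then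
        (if γ ∈ A ∧ π ∈ B ∧ FHD 0 x Dp γ π then an ν 0 γ * an ν x π * wt x π else 0) else 0) := by
        symm
        calc _ = ∑' x : Site d, ∑' π : Wd d, ∑' γ : Wd d, (if lev u x = 1 - (H : ℤ) then
            (if γ ∈ A ∧ π ∈ B ∧ FHD 0 x Dp γ π then an ν 0 γ * an ν x π * wt x π else 0)
              else 0) := tsum_congr fun x => ENNReal.tsum_comm
          _ = _ := by
            rw [ENNReal.tsum_comm]
            refine tsum_congr fun π => ?_
            rw [ENNReal.tsum_comm]
    _ = ∑' x : Site d, (if lev u x = 1 - (H : ℤ) then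
      (∑' γ : Wd d, ∑' π : Wd d, if γ ∈ A ∧ π ∈ B ∧ FHD 0 x Dp γ π then
        an ν 0 γ * an ν x π * wt x π else 0) else 0) := by
        refine tsum_congr fun x => ?_
        split_ifs with hx
        · rfl
        · simp
    _ ≤ ∑' x : Site d, (M / lam * (∫⁻ ω, tw ω 0 (Rx (opp u) s E x) ∂(iidEnvironmentLaw ν))
        + ∑' π : Wd d, if π ∈ B then wt x π * a π else 0) :=
        ENNReal.tsum_le_tsum hone
    _ = M / lam * (∑' x : Site d, ∫⁻ ω, tw ω 0 (Rx (opp u) s E x) ∂(iidEnvironmentLaw ν))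
        + ∑' x : Site d, ∑' π : Wd d, (if π ∈ B then wt x π * a π else 0) := by
        rw [ENNReal.tsum_add, ENNReal.tsum_mul_left]
    _ ≤ M / lam * (E.card * rt ν (opp u) s) + lam := by
        refine add_le_add (mul_le_mul_right (sum_Rx ν (opp u) s E) _) ?_
        rw [ENNReal.tsum_comm]
        calc (∑' π : Wd d, ∑' x : Site d, if π ∈ B then wt x π * a π else 0)
            ≤ ∑' π : Wd d, (if π ∈ B then a π else 0) := by
              refine ENNReal.tsum_le_tsum fun π => ?_
              split_ifs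
              · rw [ENNReal.tsum_mul_right]
                have h5 : (∑' x, wt x π) = ∑' w, μ w :=
                  (Equiv.subLeft (-endp 0 π - stepVec (opp u))).tsum_eq μ
                calc (∑' x, wt x π) * a π ≤ 1 * a π := by
                      rw [h5]; exact mul_le_mul_left hμ _
                  _ = _ := one_mul _
              · simp
          _ ≤ lam := bad_sum ν u H E lam
    _ = lam + M * E.card * rt ν (opp u) s / lam := by
        rw [add_comm]
        congr 1
        rw [ENNReal.div_eq_inv_mul, ENNReal.div_eq_inv_mul]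
        ring

end Crest.Agent.R154.WK74
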