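import Crest.Agent.R154.KB_169
import Crest.Agent.R154.KapComp_803
import Crest.Agent.R154.WK_74

/-! Row 154, ROAD 801, frame B (helper74): 818's `hWin` for 657's word instance, from 803's
`hWin_of` and the two window lemmas at one common height; `KappaAll`. -/

set_option autoImplicit false

open MeasureTheory ProbabilityTheory Crest.ProbabilityR.RandomEnvironment
open scoped ENNReal

namespace Crest.Agent.R154.KB74

open Crest.Agent.R154.B5A Crest.Agent.R154.B5W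
open Crest.Agent.R154.Flux566 (endp sitesL endp_append endp_eq_add)
open Crest.Agent.R154.NB28 (IsUp IsDn Cm)
open Classical

variable {d : ℕ}

/-- displacement of the up part, from its top to its bottom -/
def zX (u : Step d) (L : List (PB u)) : Site d := -endp 0 (cat L).1

/-- displacement of the down part -/
def zY (u : Step d) (L : List (PB u)) : Site d := endp 0 (cat L).2

lemma act_val (u : Step d) (L : List (PB u)) (w : Lat u) :
    (act (dl u) L w).1 = w.1 - zX u L + zY u L := by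
  induction L generalizing w with
  | nil => simp [act, zX, zY, cat, endp]
  | cons b L ih =>
    simp only [act]
    rw [ih]
    have h1 : (cat (b :: L)).1 = (cat L).1 ++ b.1.1 := rfl
    have h2 : (cat (b :: L)).2 = b.1.2 ++ (cat L).2 := rfl
    unfold zX zY
    rw [h1, h2, endp_append, endp_append, endp_eq_add b.1.1, endp_eq_add (cat L).2 (endp 0 b.1.2)]
    show w.1 + endp 0 b.1.1 + endp 0 b.1.2 - _ + _ = _
    abel

/-- image of a weight -/
noncomputable def Pu {α G : Type*} (f : α → ℝ≥0∞) (g : α → G) (x : G) : ℝ≥0∞ :=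
  ∑' p : α, @ite _ (g p = x) (Classical.propDecidable _) (f p) 0

lemma push {α G : Type*} (f : α → ℝ≥0∞) (g : α → G) (Φ : G → ℝ≥0∞) :
    (∑' x : G, Pu f g x * Φ x) = ∑' p : α, f p * Φ (g p) := by
  unfold Pu
  calc (∑' x : G, (∑' p : α, if g p = x then f p else 0) * Φ x)
      = ∑' x : G, ∑' p : α, (if g p = x then f p * Φ x else 0) := by
        refine tsum_congr fun x => ?_
        rw [← ENNReal.tsum_mul_right]
        refine tsum_congr fun p => ?_
        split_ifs <;> simp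
    _ = ∑' p : α, ∑' x : G, (if g p = x then f p * Φ x else 0) := ENNReal.tsum_comm
    _ = _ := by
        refine tsum_congr fun p => ?_
        rw [tsum_eq_single (g p)]
        · simp
        · intro x hx
          exact if_neg (Ne.symm hx)

variable (ν : Measure (Row d)) [IsProbabilityMeasure ν] (u : Step d)

lemma hprod (H : ℕ) : ∃ a b : Site d → ℝ≥0∞, ∑' z, a z ≤ 1 ∧ ∑' z, b z ≤ 1 ∧
    ∀ F : Site d → Site d → ℝ≥0∞,
      (∑' L : List (PB u), if HT (ht u) L = H then LW (Lam ν u) L * F (zX u L) (zY u L) else 0)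
        = ∑' x, ∑' y, a x * b y * F x y := by
  set f : List (Step d) → ℝ≥0∞ := fun π => if IsUp u H π then NB28.aw ν π else 0 with hf
  set g : List (Step d) → ℝ≥0∞ := fun γ => if IsDn u H γ then NB28.aw ν γ else 0 with hg
  refine ⟨Pu f (fun π => -endp 0 π), Pu g (fun γ => endp 0 γ), ?_, ?_, ?_⟩
  · have h := push f (fun π => -endp 0 π) (fun _ => 1)
    simp only [mul_one] at h
    rw [h]
    exact WJ74.sum_up_le ν (WJ74.pf_up u H)
  · have h := push g (fun γ => endp 0 γ) (fun _ => 1)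
    simp only [mul_one] at h
    rw [h]
    exact WJ74.sum_up_le ν (WK74.pf_dnA u H)
  · intro F
    have h := tsum_L ν u H (fun x => F (-endp 0 x.1) (endp 0 x.2))
    refine h.trans ?_
    calc (∑' π : List (Step d), ∑' γ : List (Step d),
        if IsUp u H π ∧ IsDn u H γ then NB28.aw ν π * NB28.aw ν γ * F (-endp 0 π) (endp 0 γ)
          else 0)
        = ∑' π : List (Step d), f π * ∑' γ : List (Step d), g γ * F (-endp 0 π) (endp 0 γ) := by
          refine tsum_congr fun π => ?_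
          rw [← ENNReal.tsum_mul_left]
          refine tsum_congr fun γ => ?_
          simp only [hf, hg]
          by_cases h1 : IsUp u H π <;> by_cases h2 : IsDn u H γ <;> simp [h1, h2, mul_assoc]
      _ = ∑' x : Site d, Pu f (fun π => -endp 0 π) x *
            ∑' γ : List (Step d), g γ * F x (endp 0 γ) :=
          (push f (fun π => -endp 0 π) (fun x => ∑' γ : List (Step d), g γ * F x (endp 0 γ))).symm
      _ = _ := by
          refine tsum_congr fun x => ?_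
          rw [← push g (fun γ => endp 0 γ) (fun y => F x y), ← ENNReal.tsum_mul_left]
          refine tsum_congr fun y => ?_
          rw [mul_assoc]

lemma hrel (L' : List (PB u)) (w x : Lat u) : ∃ κ : Site d, ∀ A : List (PB u),
    act (dl u) (A ++ L') w = x → zX u A = zY u A + κ := by
  refine ⟨w.1 - zX u L' + zY u L' - x.1, fun A h => ?_⟩
  have h1 := congrArg Subtype.val h
  rw [act_append, act_val, act_val] at h1
  rw [← h1]
  abel

/-- from sites to lateral sites -/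
lemma tsum_lat (Φ : Site d → ℝ≥0∞) :
    (∑' x : Lat u, Φ x.1) = ∑' w : Site d, (if Flux132.lev u w = 0 then Φ w else 0) := by
  have h := tsum_subtype {w : Site d | Flux566.lev u w = 0} Φ
  refine h.trans (tsum_congr fun w => ?_)
  rw [Set.indicator_apply]
  rfl

/-- extension of a function of lateral sites -/
noncomputable def ex (μ : Lat u → ℝ≥0∞) (w : Site d) : ℝ≥0∞ :=
  if h : Flux566.lev u w = 0 then μ ⟨w, h⟩ else 0

lemma ex_val (μ : Lat u → ℝ≥0∞) (x : Lat u) : ex u μ x.1 = μ x := dif_pos x.2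

lemma ex_sum (μ : Lat u → ℝ≥0∞) : ∑' w, ex u μ w = ∑' x, μ x := by
  have h := tsum_lat u (ex u μ)
  have h1 : (∑' x : Lat u, ex u μ x.1) = ∑' x, μ x := tsum_congr fun x => ex_val u μ x
  rw [← h1, h]
  refine tsum_congr fun w => ?_
  split_ifs with h2
  · rfl
  · exact dif_neg h2

lemma ex_le (μ : Lat u → ℝ≥0∞) (M : ℝ≥0∞) (h : ∀ x, μ x ≤ M) (w : Site d) : ex u μ w ≤ M := by
  unfold ex
  split_ifs with h2
  · exact h _
  · exact zero_le

lemma WP_eq (H s : ℕ) (P : Site d → Site d → Prop) (x : Lat u) :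
    KapComp803.WP (Lam ν u) (ht u) (dl u) (cd u) H s (fun L => P (zX u L) (zY u L)) x
      = ∑' π : List (Step d), ∑' γ : List (Step d),
        if IsUp u H π ∧ IsDn u H γ ∧ P (-endp 0 π) (endp 0 γ) ∧ (∃ k, k ∈ Cm u x.1 π γ) ∧
          (∀ k ∈ Cm u x.1 π γ, s < k ∧ k + s ≤ H) then NB28.aw ν π * NB28.aw ν γ else 0 := by
  have h := tsum_L ν u H (fun y => if P (-endp 0 y.1) (endp 0 y.2) ∧ cds u y x.1 ≠ ∅ ∧
    (∀ k ∈ cds u y x.1, s < k ∧ k + s ≤ H) then 1 else 0)
  unfold KapComp803.WP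
  refine Eq.trans ?_ (h.trans ?_)
  · refine tsum_congr fun L => ?_
    rw [CD_cat]
    simp only [zX, zY]
    by_cases h1 : HT (ht u) L = H
    · by_cases h2 : P (-endp 0 (cat L).1) (endp 0 (cat L).2) ∧ cds u (cat L) x.1 ≠ ∅ ∧
        (∀ k ∈ cds u (cat L) x.1, s < k ∧ k + s ≤ H)
      · rw [if_pos ⟨h1, h2⟩, if_pos h1, if_pos h2, mul_one]
      · rw [if_neg (fun h' => h2 h'.2), if_pos h1, if_neg h2, mul_zero]
    · rw [if_neg (fun h' => h1 h'.1), if_neg h1]
  · refine tsum_congr fun π => tsum_congr fun γ => ?_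
    rw [cds_eq]
    by_cases h1 : IsUp u H π ∧ IsDn u H γ
    · by_cases h2 : P (-endp 0 π) (endp 0 γ) ∧ Cm u x.1 π γ ≠ ∅ ∧
        (∀ k ∈ Cm u x.1 π γ, s < k ∧ k + s ≤ H)
      · rw [if_pos h1, if_pos h2, mul_one, if_pos ⟨h1.1, h1.2, h2.1,
          Set.nonempty_iff_ne_empty.2 h2.2.1, h2.2.2⟩]
      · rw [if_pos h1, if_neg h2, mul_zero, if_neg]
        exact fun h' => h2 ⟨h'.2.2.1, Set.nonempty_iff_ne_empty.1 h'.2.2.2.1, h'.2.2.2.2⟩
    · rw [if_neg h1, if_neg (fun h' => h1 ⟨h'.1, h'.2.1⟩)]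

/-- choice of the constants -/
lemma choose_lam (f : ℕ → ℝ≥0∞) (hf : ∀ ε : ℝ≥0∞, ε ≠ 0 → ∃ s0 : ℕ, ∀ s, s0 ≤ s → f s ≤ ε)
    (C η : ℝ≥0∞) (hC : C ≠ ⊤) (hη : η ≠ 0) :
    ∃ lam : ℝ≥0∞, lam ≠ 0 ∧ lam ≠ ⊤ ∧ ∃ s0 : ℕ, ∀ s, s0 ≤ s →
      4 * lam + C * f s / lam ≤ η := by
  set η' : ℝ≥0∞ := min η 1 with hη'
  have h0 : η' ≠ 0 := by rw [hη']; exact (lt_min (pos_iff_ne_zero.2 hη) one_pos).ne'
  have ht : η' ≠ ⊤ := ne_top_of_le_ne_top ENNReal.one_ne_top (min_le_right _ _)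
  set lam : ℝ≥0∞ := η' / 8 with hlam
  have hl0 : lam ≠ 0 := by rw [hlam]; simp [ENNReal.div_eq_zero_iff, h0]
  have hlt : lam ≠ ⊤ := by rw [hlam]; exact ENNReal.div_ne_top ht (by norm_num)
  have hC1 : C + 1 ≠ ⊤ := ENNReal.add_ne_top.2 ⟨hC, ENNReal.one_ne_top⟩
  have hC0 : C + 1 ≠ 0 := by simp
  obtain ⟨s0, hs0⟩ := hf (lam * lam / (C + 1)) (by
    simp [ENNReal.div_eq_zero_iff, hl0, hC])
  refine ⟨lam, hl0, hlt, s0, fun s hs => ?_⟩
  have h1 : C * f s / lam ≤ 4 * lam := by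
    calc C * f s / lam ≤ (C + 1) * (lam * lam / (C + 1)) / lam := by
          gcongr
          · exact le_self_add
          · exact hs0 s hs
      _ = lam := by
          rw [ENNReal.mul_div_cancel hC0 hC1, ENNReal.mul_div_cancel_right hl0 hlt]
      _ ≤ 4 * lam := by
          calc lam = 1 * lam := (one_mul _).symm
            _ ≤ 4 * lam := mul_le_mul_left (by norm_num) _
  calc 4 * lam + C * f s / lam ≤ 4 * lam + 4 * lam := add_le_add le_rfl h1
    _ = 8 * (η' / 8) := by rw [hlam]; ring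
    _ = η' := ENNReal.mul_div_cancel (by norm_num) (by norm_num)
    _ ≤ η := min_le_left _ _

lemma hWX (Cst η : ℝ≥0∞) (hC : Cst ≠ ⊤) (hη : η ≠ 0) :
    ∃ s0 : ℕ, ∀ s, s0 ≤ s → ∀ (H : ℕ) (E : Finset (Site d))
      (μ : Lat u → ℝ≥0∞) (M : ℝ≥0∞), ∑' x, μ x ≤ 1 → (∀ x, μ x ≤ M) → M * E.card ≤ Cst →
      ∑' x, μ x * KapComp803.WP (Lam ν u) (ht u) (dl u) (cd u) H s (fun L => zX u L ∈ E) x
        ≤ η := by
  obtain ⟨lam, hl0, hlt, s0, hs0⟩ := choose_lam (fun s => WJ74.rt ν (Flux132.opp u) s)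
    (fun ε hε => WJ74.rt_zero ν (Flux132.opp u) ε hε) Cst η hC hη
  refine ⟨s0, fun s hs H E μ M hμ hM hME => ?_⟩
  set E' : Finset (Site d) := E.image (fun z => -z) with hE'
  have hcard : (E'.card : ℝ≥0∞) ≤ E.card := by exact_mod_cast Finset.card_image_le
  have hp := WK74.piece2 ν u H s E' (ex u μ) M lam (by rw [ex_sum]; exact hμ) (ex_le u μ M hM)
    hl0 hlt
  refine le_trans ?_ ((hp.trans ?_).trans (hs0 s hs))
  · rw [← tsum_lat u (fun w => ex u μ w * ∑' π : List (Step d), ∑' γ : List (Step d),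
      (if IsUp u H π ∧ IsDn u H γ ∧ endp 0 π ∈ E' ∧ (∃ k, k ∈ Cm u w π γ) ∧
        (∀ k ∈ Cm u w π γ, s < k) then NB28.aw ν π * NB28.aw ν γ else 0))]
    refine ENNReal.tsum_le_tsum fun x => ?_
    rw [ex_val]
    refine mul_le_mul_right ?_ _
    rw [WP_eq ν u H s (fun z _ => z ∈ E) x]
    refine ENNReal.tsum_le_tsum fun π => ENNReal.tsum_le_tsum fun γ => ?_
    split_ifs with h1 h2
    · exact le_rfl
    · exact absurd ⟨h1.1, h1.2.1, Finset.mem_image.2 ⟨_, h1.2.2.1, neg_neg _⟩, h1.2.2.2.1,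
        fun k hk => (h1.2.2.2.2 k hk).1⟩ h2
    · exact zero_le
    · exact le_rfl
  · refine add_le_add ?_ ?_
    · calc lam = 1 * lam := (one_mul _).symm
        _ ≤ 4 * lam := mul_le_mul_left (by norm_num) _
    · gcongr
      exact (mul_le_mul_right hcard M).trans hME

lemma hWY (Cst η : ℝ≥0∞) (hC : Cst ≠ ⊤) (hη : η ≠ 0) :
    ∃ s0 : ℕ, ∀ s, s0 ≤ s → ∀ (H : ℕ) (E : Finset (Site d))
      (μ : Lat u → ℝ≥0∞) (M : ℝ≥0∞), ∑' x, μ x ≤ 1 → (∀ x, μ x ≤ M) → M * E.card ≤ Cst →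
      ∑' x, μ x * KapComp803.WP (Lam ν u) (ht u) (dl u) (cd u) H s (fun L => zY u L ∈ E) x
        ≤ η := by
  obtain ⟨lam, hl0, hlt, s0, hs0⟩ := choose_lam (fun s => WJ74.rt ν u s)
    (fun ε hε => WJ74.rt_zero ν u ε hε) Cst η hC hη
  refine ⟨s0, fun s hs H E μ M hμ hM hME => ?_⟩
  have hp := WJ74.piece3 ν u H s E (ex u μ) M lam (by rw [ex_sum]; exact hμ) (ex_le u μ M hM)
    hl0 hlt
  refine le_trans ?_ ((hp.trans ?_).trans (hs0 s hs))
  · rw [← tsum_lat u (fun w => ex u μ w * ∑' π : List (Step d), ∑' γ : List (Step d),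
      (if IsUp u H π ∧ IsDn u H γ ∧ endp 0 γ ∈ E ∧ (∃ k, k ∈ Cm u w π γ) ∧
        (∀ k ∈ Cm u w π γ, k + s ≤ H) then NB28.aw ν π * NB28.aw ν γ else 0))]
    refine ENNReal.tsum_le_tsum fun x => ?_
    rw [ex_val]
    refine mul_le_mul_right ?_ _
    rw [WP_eq ν u H s (fun _ z => z ∈ E) x]
    refine ENNReal.tsum_le_tsum fun π => ENNReal.tsum_le_tsum fun γ => ?_
    split_ifs with h1 h2
    · exact le_rfl
    · exact absurd ⟨h1.1, h1.2.1, h1.2.2.1, h1.2.2.2.1, fun k hk => (h1.2.2.2.2 k hk).2⟩ h2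
    · exact zero_le
    · exact le_rfl
  · refine add_le_add le_rfl ?_
    gcongr

/-- **818's `hWin` for the word instance** -/
theorem hWin (hν : ∀ᵐ p ∂ν, ∀ e : Step d, 0 < p.1 e)
    (hA : annealed (iidEnvironmentLaw ν) 0 (escapeEvent (B2d.dirVec u)) ≠ 0)
    (hB : annealed (iidEnvironmentLaw ν) 0 (escapeEvent (-B2d.dirVec u)) ≠ 0) :
    KB169.HWinSt (Lam ν u) (ht u) (dl u) (cd u) := by
  obtain ⟨c, hc, hc1, hup, hdn⟩ := WM286.mass_pos ν hν u hA hB
  have hU : ∀ n, c * c ≤ U (Lam ν u) (ht u) n := fun n => by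
    rw [U_eq28]; exact mul_le_mul' (hup n) (hdn n)
  have hU1 := HSl169.U_le_one ν u
  have hcc : c * c ≠ 0 := mul_ne_zero hc hc
  have hcct : c * c ≠ ⊤ := ne_top_of_le_ne_top ENNReal.one_ne_top ((hU 0).trans (hU1 0))
  have h1 : ∀ b, 1 ≤ ht u b := one_le_hb
  have hΛ : ∑' b, Lam ν u b = 1 :=
    le_antisymm (mass_le_one _ _ h1 hU1) (mass_ge_one _ _ (c * c) hcc 0 fun n _ => hU n)
  have hmean : ∑' k, tail (Lam ν u) (ht u) k ≠ ⊤ := by
    rw [← sum_tail _ _ hΛ]
    exact ne_top_of_le_ne_top (ENNReal.inv_ne_top.2 hcc)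
      (mean_le _ _ h1 hΛ (c * c) hcc hcct 0 fun n _ => hU n)
  exact KapComp803.hWin_of (Lam ν u) (ht u) (dl u) (cd u) h1 hΛ.le hmean (c * c) hcc hU hU1
    (zX u) (zY u) (hprod ν u) (hrel u) (hWX ν u) (hWY ν u)

/-- **KAPPA' at every octave** -/
theorem kappaAll : NB28.KappaAll :=
  KB169.kappaAll_of fun _ _ ν _ hν u hA hB => hWin ν u hν hA hB

/-- **the statement of S0219** -/
theorem nbProp : Spine.NBProp := NB28.nb_of_kappaW kappaAll

end Crest.Agent.R154.KB74
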