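import Crest.Agent.R154.KA_391
import Crest.Agent.R154.HW_334
import Crest.Agent.R154.E2_22
import Crest.Agent.R154.E3_934

/-! Row 154 (S0219), helper391 (captain): the last joint of frame B: 139's `hW` at 657's instance
from 22's win2 (order (2)), 934's E3 (order (3)) and 334's `hW_of`.  Ends in `NB28.KappaAll` and
`Spine.NBProp`. -/

set_option autoImplicit false

namespace Crest.Agent.R154.KC391

open MeasureTheory ProbabilityTheory Crest.ProbabilityR.RandomEnvironment Crest.Agent.R154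
open Crest.Agent.R154.Flux132 (lev opp)
open Crest.Agent.R154.Flux566 (lw endp sitesL measurable_lw endp_append)
open Crest.Agent.R154.NB28 (IsUp IsDn aw Cm mem_sitesL_iff mem_sitesL_add lev_opp)
open scoped ENNReal

variable {d : ℕ}

open Classical in
theorem e2s (ν : Measure (Row d)) [IsProbabilityMeasure ν] (u : Step d) :
    ∀ (s H : ℕ) (E : Finset (Site d)) (μ : Site d → ℝ≥0∞) (M lam : ℝ≥0∞),
      ∑' x, μ x ≤ 1 → (∀ x, μ x ≤ M) → lam ≠ 0 → lam ≠ ⊤ →
      ∑' x, (if lev u x = 0 then μ x * ∑' π, ∑' γ, (if IsUp u H π ∧ endp 0 π ∈ E ∧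
        IsDn u H γ ∧ (∃ k, k ∈ Cm u x π γ) ∧ (∀ k ∈ Cm u x π γ, s < k)
        then aw ν π * aw ν γ else 0) else 0)
        ≤ lam + M * E.card * W22.us ν u s / lam := by
  intro s H E μ M lam hμ hM h0 _
  set o : Site d := stepVec (opp u) with ho
  have hlo : lev u o = -1 := lev_opp u
  set μ' : Site d → ℝ≥0∞ := fun y => if lev u (y - o) = 0 then μ (y - o) else 0 with hμ'
  have h1 : ∑' y, μ' y ≤ 1 := by
    calc ∑' y, μ' y = ∑' y, (fun x => if lev u x = 0 then μ x else 0) ((Equiv.subRight o) y) := rfl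
      _ = ∑' x, (if lev u x = 0 then μ x else 0) :=
          (Equiv.subRight o).tsum_eq (fun x => if lev u x = 0 then μ x else 0)
      _ ≤ ∑' x, μ x := ENNReal.tsum_le_tsum fun x => by split_ifs <;> simp
      _ ≤ 1 := hμ
  have h2 : ∀ y, μ' y ≤ M := by
    intro y
    simp only [hμ']
    split_ifs
    · exact hM _
    · exact zero_le
  have h3 : ∀ y, μ' y ≠ 0 → lev u y = -((0 : ℕ) : ℤ) - 1 := by
    intro y hy
    simp only [hμ'] at hy
    have h4 : lev u (y - o) = 0 := by
      by_contra hh; exact hy (if_neg hh)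
    have h5 : lev u y = lev u (y - o) + lev u o := by
      rw [← Flux132.lev_add]; congr 1; abel
    rw [h5, h4, hlo]; norm_num
  have key := W22.win2 ν u H H 0 s (E.image fun x => -x) μ' h1 M h2 h3 lam h0
  have hcard : ((E.image fun x => -x).card : ℝ≥0∞) ≤ E.card := by
    exact_mod_cast Finset.card_image_le
  refine le_trans (le_trans (b := ∑' y, μ' y * ∑' π, ∑' γ,
    (if W22.Cond u H H s (E.image fun x => -x) (endp 0 π + y) π γ then aw ν π * aw ν γ else 0))
    ?_ key) ?_
  · rw [← (Equiv.addRight o).tsum_eq (fun y => μ' y * ∑' π, ∑' γ,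
      (if W22.Cond u H H s (E.image fun x => -x) (endp 0 π + y) π γ then aw ν π * aw ν γ else 0))]
    refine ENNReal.tsum_le_tsum fun x => ?_
    by_cases hx : lev u x = 0
    · rw [if_pos hx]
      have e1 : μ' ((Equiv.addRight o) x) = μ x := by
        simp only [hμ', Equiv.coe_addRight, add_sub_cancel_right, if_pos hx]
      rw [e1]
      refine mul_le_mul_right (ENNReal.tsum_le_tsum fun π => ENNReal.tsum_le_tsum fun γ => ?_) _
      by_cases hh : IsUp u H π ∧ endp 0 π ∈ E ∧
        IsDn u H γ ∧ (∃ k, k ∈ Cm u x π γ) ∧ (∀ k ∈ Cm u x π γ, s < k)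
      · rw [if_pos hh, if_pos]
        obtain ⟨a1, a2, a3, ⟨k, y, b1, b2, b3⟩, a5⟩ := hh
        have ez : endp 0 π + (Equiv.addRight o) x = x + o + endp 0 π := by
          simp only [Equiv.coe_addRight]; abel
        have lz : lev u (endp 0 π + (Equiv.addRight o) x) = H - 1 := by
          rw [ez, Flux132.lev_add, Flux132.lev_add, hx, hlo, a1.2]; ring
        refine ⟨a1, a3, Finset.mem_image.2 ⟨_, a2, rfl⟩, ⟨y + endp 0 π, ?_, ?_⟩, ?_⟩
        · have := (mem_sitesL_add π (-endp 0 π) (endp 0 π) y).2 b1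
          rwa [neg_add_cancel] at this
        · rw [ez]
          exact (mem_sitesL_add γ (x + o) (endp 0 π) y).2 b2
        · intro v hv1 hv2
          have c1 : v - endp 0 π ∈ sitesL (-endp 0 π) π := by
            refine (mem_sitesL_add π (-endp 0 π) (endp 0 π) _).1 ?_
            rwa [neg_add_cancel, sub_add_cancel]
          have c2 : v - endp 0 π ∈ sitesL (x + o) γ := by
            refine (mem_sitesL_add γ (x + o) (endp 0 π) _).1 ?_
            rwa [sub_add_cancel, ← ez]
          have c3 : lev u v = lev u (v - endp 0 π) + lev u (endp 0 π) := by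
            rw [← Flux132.lev_add]; congr 1; abel
          have c4 := (a1.1 v hv1).2
          have c5 := a1.2
          have c6 := a5 (-lev u (v - endp 0 π)).toNat ⟨_, c1, c2, by omega⟩
          rw [lz]
          omega
      · rw [if_neg hh]; exact zero_le
    · rw [if_neg hx]; exact zero_le
  · refine add_le_add le_rfl ?_
    rw [ENNReal.div_eq_inv_mul]
    calc lam⁻¹ * (M * (((E.image fun x => -x).card : ℝ≥0∞) * W22.us ν u s))
        ≤ lam⁻¹ * (M * ((E.card : ℝ≥0∞) * W22.us ν u s)) := by gcongr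
      _ = _ := by ring


section Inst

open Crest.Agent.R154.B5A Crest.Agent.R154.B5W

variable (ν : Measure (Row d)) [IsProbabilityMeasure ν] (u : Step d)

lemma act_val (L : List (PB u)) (w : Lat u) :
    (act (B5W.dl u) L w).1 = w.1 + endp 0 (cat L).1 + endp 0 (cat L).2 := by
  induction L generalizing w with
  | nil => simp [act, cat, endp]
  | cons b L ih =>
    rw [act, ih]
    simp only [B5W.dl, dlp, cat, pm, Flux566.endp_append]
    rw [Flux566.endp_eq_add (cat L).2 (endp 0 b.1.2), Flux566.endp_eq_add b.1.1 (endp 0 (cat L).1)]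
    abel

open Classical in
/-- masses of the two walkers as sums -/
noncomputable def aX (H : ℕ) (π : List (Step d)) : ℝ≥0∞ := if IsUp u H π then aw ν π else 0

open Classical in
noncomputable def bY (H : ℕ) (γ : List (Step d)) : ℝ≥0∞ := if IsDn u H γ then aw ν γ else 0

open Classical in
lemma hcat (H : ℕ) (F : List (Step d) → List (Step d) → ℝ≥0∞) :
    ∑' L : List (PB u), (if HT (B5W.ht u) L = H then LW (Lam ν u) L * F (cat L).1 (cat L).2 else 0)
      = ∑' π, ∑' γ, aX ν u H π * bY ν u H γ * F π γ := by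
  have h := tsum_L ν u H (fun x => F x.1 x.2)
  rw [h]
  refine tsum_congr fun π => tsum_congr fun γ => ?_
  unfold aX bY
  by_cases h1 : IsUp u H π <;> by_cases h2 : IsDn u H γ <;> simp [h1, h2]

open Classical in
/-- transport of a sum over `Lat u` to the sites -/
lemma tsum_lat (f : Lat u → ℝ≥0∞) :
    ∑' w : Lat u, f w = ∑' x : Site d, (if h : Flux566.lev u x = 0 then f ⟨x, h⟩ else 0) := by
  have h1 := tsum_subtype {x : Site d | Flux566.lev u x = 0}
    (fun x => if h : Flux566.lev u x = 0 then f ⟨x, h⟩ else 0)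
  have h2 : ∑' w : Lat u, f w = ∑' w : {x : Site d | Flux566.lev u x = 0},
      (if h : Flux566.lev u w.1 = 0 then f ⟨w.1, h⟩ else 0) := by
    refine tsum_congr fun w => ?_
    rw [dif_pos w.2]
    rfl
  rw [h2, h1]
  refine tsum_congr fun x => ?_
  by_cases h : Flux566.lev u x = 0
  · rw [Set.indicator_of_mem (by exact h)]
  · rw [Set.indicator_of_notMem (by exact h), dif_neg h]

/-- the return quantity -/
noncomputable def us (s : ℕ) : ℝ≥0∞ := W22.us ν u s + E934.us ν (opp u) s

lemma us_small (ε : ℝ≥0∞) (hε : ε ≠ 0) : ∃ s, us ν u s ≤ ε := by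
  have h2 : ε / 2 ≠ 0 := (ENNReal.half_pos hε).ne'
  obtain ⟨s1, h1⟩ := W22.us_small ν u (ε / 2) h2
  obtain ⟨s2, h3⟩ := E934.us_small ν (opp u) (ε / 2) h2
  refine ⟨max s1 s2, ?_⟩
  calc us ν u (max s1 s2) ≤ ε / 2 + ε / 2 :=
        add_le_add (h1 _ (le_max_left _ _)) (h3 _ (le_max_right _ _))
    _ = ε := ENNReal.add_halves ε

open Classical in
theorem hW (hν : ∀ᵐ p ∂ν, ∀ e : Step d, 0 < p.1 e)
    (hA : annealed (iidEnvironmentLaw ν) 0 (escapeEvent (B2d.dirVec u)) ≠ 0)
    (hB : annealed (iidEnvironmentLaw ν) 0 (escapeEvent (-B2d.dirVec u)) ≠ 0) :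
    ∃ c1 : ℝ≥0∞, c1 ≠ 0 ∧ c1 ≤ 1 ∧ KA391.HW ν u c1 := by
  obtain ⟨c, hc, hc1, hmu, hmd⟩ := WM286.mass_pos ν hν u hA hB
  have hX1 : ∀ H, ∑' π, aX ν u H π ≤ 1 := fun H =>
    sum_if_le_one ν fun l l' h h' hp => NB28.isUp_prefix h h' hp
  have hY1 : ∀ H, ∑' γ, bY ν u H γ ≤ 1 := fun H =>
    sum_if_le_one ν fun l l' h h' hp => NB28.isDn_prefix h h' hp
  have hW2 : ∀ (s H : ℕ) (E : Finset (Site d)) (μ : Lat u → ℝ≥0∞) (M lam : ℝ≥0∞),
      ∑' w, μ w ≤ 1 → (∀ w, μ w ≤ M) → lam ≠ 0 → lam ≠ ⊤ →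
      ∑' w, μ w * ∑' π, ∑' γ, (if endp 0 π ∈ E ∧ (∃ k, k ∈ Cm u w.1 π γ) ∧
        (∀ k ∈ Cm u w.1 π γ, s < k ∧ k + s ≤ H) then aX ν u H π * bY ν u H γ else 0)
        ≤ 8 * (lam + M * E.card * us ν u s / lam) := by
    intro s H E μ M lam hμ hM hl hl'
    have h := e2s ν u s H E (fun x => if h : Flux566.lev u x = 0 then μ ⟨x, h⟩ else 0) M lam
      (by rw [← tsum_lat]; exact hμ)
      (fun x => by split_ifs with h; exacts [hM _, zero_le]) hl hl'
    rw [tsum_lat]
    refine le_trans (ENNReal.tsum_le_tsum fun x => ?_) (h.trans ?_)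
    · by_cases hx : Flux566.lev u x = 0
      · rw [dif_pos hx, if_pos (show lev u x = 0 from hx)]
        simp only [dif_pos hx]
        refine mul_le_mul_right (ENNReal.tsum_le_tsum fun π => ENNReal.tsum_le_tsum fun γ => ?_) _
        by_cases hh : endp 0 π ∈ E ∧ (∃ k, k ∈ Cm u x π γ) ∧
          (∀ k ∈ Cm u x π γ, s < k ∧ k + s ≤ H)
        · rw [if_pos hh]
          unfold aX bY
          by_cases h1 : IsUp u H π
          · by_cases h2 : IsDn u H γ
            · rw [if_pos h1, if_pos h2, if_pos ⟨h1, hh.1, h2, hh.2.1, fun k hk => (hh.2.2 k hk).1⟩]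
            · rw [if_neg h2, mul_zero]; exact zero_le
          · rw [if_neg h1, zero_mul]; exact zero_le
        · rw [if_neg hh]; exact zero_le
      · rw [dif_neg hx]; exact zero_le
    · calc lam + M * E.card * W22.us ν u s / lam
          ≤ 1 * (lam + M * E.card * us ν u s / lam) := by
            rw [one_mul]
            have : W22.us ν u s ≤ us ν u s := le_self_add
            gcongr
        _ ≤ 8 * (lam + M * E.card * us ν u s / lam) :=
            mul_le_mul_left (by norm_num) _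
  have hW3 : ∀ (s H : ℕ) (E : Finset (Site d)) (μ : Lat u → ℝ≥0∞) (M lam : ℝ≥0∞),
      ∑' w, μ w ≤ 1 → (∀ w, μ w ≤ M) → lam ≠ 0 → lam ≠ ⊤ →
      ∑' w, μ w * ∑' π, ∑' γ, (if endp 0 γ ∈ E ∧ (∃ k, k ∈ Cm u w.1 π γ) ∧
        (∀ k ∈ Cm u w.1 π γ, s < k ∧ k + s ≤ H) then aX ν u H π * bY ν u H γ else 0)
        ≤ 8 * (lam + M * E.card * us ν u s / lam) := by
    intro s H E μ M lam hμ hM hl hl'
    have h := E934.E3 ν (u := u) s H E (fun x => if h : Flux566.lev u x = 0 then μ ⟨x, h⟩ else 0)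
      M lam (by rw [← tsum_lat]; exact hμ)
      (fun x => by split_ifs with h; exacts [hM _, zero_le]) hl hl'
    rw [tsum_lat]
    refine le_trans (ENNReal.tsum_le_tsum fun x => ?_) (h.trans ?_)
    · by_cases hx : Flux566.lev u x = 0
      · rw [dif_pos hx, if_pos (show lev u x = 0 from hx)]
        simp only [dif_pos hx]
        refine mul_le_mul_right (ENNReal.tsum_le_tsum fun π => ENNReal.tsum_le_tsum fun γ => ?_) _
        by_cases hh : endp 0 γ ∈ E ∧ (∃ k, k ∈ Cm u x π γ) ∧
          (∀ k ∈ Cm u x π γ, s < k ∧ k + s ≤ H)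
        · rw [if_pos hh]
          unfold aX bY
          by_cases h1 : IsUp u H π
          · by_cases h2 : IsDn u H γ
            · rw [if_pos h1, if_pos h2, if_pos ⟨h1, hh.1, h2, hh.2.1, fun k hk => (hh.2.2 k hk).2⟩]
            · rw [if_neg h2, mul_zero]; exact zero_le
          · rw [if_neg h1, zero_mul]; exact zero_le
        · rw [if_neg hh]; exact zero_le
      · rw [dif_neg hx]; exact zero_le
    · have h9 : E934.us ν (opp u) s ≤ us ν u s := le_add_self
      calc 8 * lam + 2 * (M * (E.card * E934.us ν (opp u) s) / lam)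
          ≤ 8 * lam + 8 * (M * (E.card * us ν u s) / lam) := by
            gcongr
            norm_num
        _ = 8 * (lam + M * E.card * us ν u s / lam) := by rw [mul_add, mul_assoc]
  have key := HW334.hW_of (Lam ν u) (B5W.ht u) (B5W.dl u) (B5W.cd u) (cat (h := hu u) (h' := hdn u))
    (fun w : Lat u => w.1) (fun π => endp 0 π) (fun γ => endp 0 γ) (aX ν u) (bY ν u)
    (fun w π γ => Cm u w.1 π γ) (hcat ν u) (fun L w => act_val u L w)
    (fun L w => by rw [CD_cat]; exact cds_eq u _ _ _) c hc hmu hX1 hmd hY1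
    (us ν u) (us_small ν u) 8 (by norm_num) (by norm_num)
    (fun s H E μ M lam h1 h2 h3 h4 => by convert hW2 s H E μ M lam h1 h2 h3 h4)
    (fun s H E μ M lam h1 h2 h3 h4 => by convert hW3 s H E μ M lam h1 h2 h3 h4)
  refine ⟨c * c * 2⁻¹, ?_, ?_, ?_⟩
  · exact mul_ne_zero (mul_ne_zero hc hc) (by simp)
  · calc c * c * 2⁻¹ ≤ 1 * 1 * 1 := by
          gcongr
          exact ENNReal.inv_le_one.2 (by norm_num)
      _ = 1 := by norm_num
  · intro v η hv hv1 hη
    obtain ⟨s, hs⟩ := key v η hv hv1 hη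
    exact ⟨s, 0, fun H _ => hs H⟩

end Inst

theorem hwAll : KA391.HWAll := fun _ _ ν _ hν u hA hB => hW ν u hν hA hB

/-- **KAPPA' for all elliptic laws with both escapes** -/
theorem kappaAll : NB28.KappaAll := KA391.kappaAll_of hwAll

/-- **`Spine.NBProp`** -/
theorem nb : Spine.NBProp := KA391.nb_of hwAll

end Crest.Agent.R154.KC391
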