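import Crest.Agent.R154.KWin_327

/-! Row 154, ROAD 801 (helper327): `KappaW` from its version with room at the bottom
(`n ≥ (R + 2) * m`), by the extension of the words. -/

set_option autoImplicit false

namespace Crest.Agent.R154.KWin327

open MeasureTheory ProbabilityTheory Crest.ProbabilityR.RandomEnvironment Crest.Agent.R154
open Crest.Agent.R154.Flux132 (lev opp)
open Crest.Agent.R154.Flux566 (lw endp sitesL)
open Crest.Agent.R154.NB28
open scoped ENNReal

variable {d : ℕ}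

/-- it is enough to prove KAPPA' for `n ≥ N m`, any function `N` (no incomplete piece at the
bottom) -/
theorem kappaW_of_far (ν : Measure (Row d)) [IsProbabilityMeasure ν] (u : Step d)
    (haU : ∀ a b σ π, IsUp u a σ → IsUp u b π → aw ν (σ ++ π) = aw ν σ * aw ν π)
    (haD : ∀ a b γ τ, IsDn u a γ → IsDn u b τ → aw ν (γ ++ τ) = aw ν γ * aw ν τ)
    {c : ℝ≥0∞} (hc0 : c ≠ 0) (hct : c ≠ ∞)
    (hU : ∀ n, c ≤ ∑' σ : List (Step d), open Classical in if IsUp u n σ then aw ν σ else 0)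
    (hD : ∀ n, c ≤ ∑' σ : List (Step d), open Classical in if IsDn u n σ then aw ν σ else 0)
    (hF : ∀ ε : ℝ≥0∞, ε ≠ 0 → ∃ M : ℕ, ∀ m, M ≤ m → ∃ N : ℕ, ∀ n, N ≤ n → ∀ w : Site d,
      lev u w = 0 → KW ν u n m w ≤ ε) :
    KappaW ν u := by
  intro ε hε
  obtain ⟨M, hM⟩ := hF (c * c * ε) (by simp [hc0, hε])
  refine ⟨M, fun m hm n hn w hw => ?_⟩
  obtain ⟨N, hN⟩ := hM m hm
  have hext := kw_ext ν u haU haD (n := n) (m := m) (q := N) (by omega) hw
  have h5 : KW ν u n m w * c * c ≤ c * c * ε :=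
    (mul_le_mul' (mul_le_mul' le_rfl (hU _)) (hD _)).trans
      (hext.trans (hN (n + N) (by omega) w hw))
  have h6 : c * c * KW ν u n m w ≤ c * c * ε := by
    calc c * c * KW ν u n m w = KW ν u n m w * c * c := by ring
      _ ≤ _ := h5
  exact (ENNReal.mul_le_mul_iff_right (mul_ne_zero hc0 hc0) (ENNReal.mul_ne_top hct hct)).mp h6

end Crest.Agent.R154.KWin327
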