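import Crest.Agent.R154.HW_725
import Crest.Agent.R154.E23_168
import Crest.Agent.R154.JAsm_139
import Crest.Agent.R154.HSl_689
import Crest.Agent.R154.NBTop_28
import Crest.Agent.R154.Split_796

/-! Row 154 (helper979): the last joint, `NB28.KappaAll`, `Spine.NBProp`, `T0219`, from
725 (`hW`), 168 (E2, E3), 139 (assembly at joint cuts), 689 (slab), 28 (top), 796. -/

set_option autoImplicit false

namespace Crest.Agent.R154.KFin979

open MeasureTheory ProbabilityTheory Crest.ProbabilityR.RandomEnvironment Crest.Agent.R154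
open Crest.Agent.R154.B5A Crest.Agent.R154.B5W
open Crest.Agent.R154.NB28 (IsUp IsDn)
open scoped ENNReal

open Classical in
theorem kappaW {d : ℕ} (hd : 2 ≤ d) (ν : Measure (Row d)) [IsProbabilityMeasure ν]
    (hν : ∀ᵐ p ∂ν, ∀ e : Step d, 0 < p.1 e) (u : Step d)
    (hA : annealed (iidEnvironmentLaw ν) 0 (escapeEvent (B2d.dirVec u)) ≠ 0)
    (hB : annealed (iidEnvironmentLaw ν) 0 (escapeEvent (-B2d.dirVec u)) ≠ 0) :
    NB28.KappaW ν u := by
  obtain ⟨c, hc, hc1, h1, h2⟩ := WM286.mass_pos ν hν u hA hB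
  have hA1 : ∀ n, (∑' l : List (Step d), if IsUp u n l then NB28.aw ν l else 0) ≤ 1 := fun n =>
    sum_if_le_one ν fun l l' h h' hp => NB28.isUp_prefix h h' hp
  have hB1 : ∀ n, (∑' l : List (Step d), if IsDn u n l then NB28.aw ν l else 0) ≤ 1 := fun n =>
    sum_if_le_one ν fun l l' h h' hp => NB28.isDn_prefix h h' hp
  have hU : ∀ n, c * c ≤ U (Lam ν u) (ht u) n := fun n => by
    rw [U_eq28]; exact mul_le_mul' (h1 n) (h2 n)
  have hU1 : ∀ n, U (Lam ν u) (ht u) n ≤ 1 := fun n => by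
    rw [U_eq28]; exact mul_le_one' (hA1 n) (hB1 n)
  have hus : ∀ δ : ℝ≥0∞, δ ≠ 0 → ∃ s, E23168.uc ν u s ≤ δ := fun δ hδ =>
    ((ENNReal.tendsto_nhds_zero.1 (E23168.uc_tendsto ν u)) δ (pos_iff_ne_zero.2 hδ)).exists
  have hW := HW725.hW_of ν u (us := E23168.uc ν u) (C := 4) (c := c) (by norm_num) hus
    (E23168.e2c ν u) (E23168.e3c ν u) hc h1 h2 hA1 hB1
  have key := JAsm139.kap1_of (Lam ν u) (ht u) (dl u) (cd u) one_le_hb
    (fun w b k hk => hcd u w b k hk) (hinj u) (c * c) (mul_ne_zero hc hc) hU hU1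
    (c * c) (mul_ne_zero hc hc) (mul_le_one' hc1 hc1) hW (HSl689.hSl' hd ν hν u hA hB)
  intro ε hε
  obtain ⟨M, hM⟩ := key ε hε
  refine ⟨M, fun m hm n hn w hw => ?_⟩
  exact (le_of_eq (Kap1_eq ν u n m (⟨w, hw⟩ : Lat u)).symm).trans (hM m hm n hn ⟨w, hw⟩)

theorem kappaAll : NB28.KappaAll := fun d hd ν _ hν u hA hB =>
  kappaW (by omega) ν hν u hA hB

theorem nbProp : Spine.NBProp := NB28.nb_of_kappaW kappaAll

theorem t0219 : Spine.T0219 := Split796.t0219 nbProp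

end Crest.Agent.R154.KFin979
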