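import Crest.Agent.R154.SlabJ_216
import Crest.Agent.R154.Conc_556
import Crest.Agent.R154.PFDefs_692
import Crest.Agent.R154.B5Br_657
import Crest.Agent.R154.KappaData_723

/-! Row 154 (T0219, joint cut frame, helper216): `HPoint` of 692's pair frame at 657's word
instance, from `SlabJ216.slabJ` and `Conc556.conc`. -/

set_option autoImplicit false

open MeasureTheory ProbabilityTheory Crest.ProbabilityR.RandomEnvironment
open scoped ENNReal

namespace Crest.Agent.R154.PointJ216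

open Crest.Agent.R154.B5A

section abs

variable {B W : Type*} (Λ : B → ℝ≥0∞) (ht : B → ℕ) (dl : B → W → W) (cd : W → B → Set ℕ)

theorem hpoint_of (h1 : ∀ b, 1 ≤ ht b) (hU1 : ∀ n, U Λ ht n ≤ 1)
    (hmean : ∑' b, Λ b * (ht b : ℝ≥0∞) ≠ ⊤)
    (hcd : ∀ w b k, k ∈ cd w b → 1 ≤ k ∧ k ≤ ht b)
    (hfin : ∀ b, {w | cd w b ≠ ∅}.Finite)
    (hconc : ∀ ε : ℝ≥0∞, ε ≠ 0 → ∃ T : ℕ, ∀ n, T ≤ n → ∀ w w',
      (open Classical in
      ∑' L : List B, (if HT ht L = n ∧ act dl L w = w' then LW Λ L else 0)) ≤ ε) :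
    HPoint Λ ht dl cd := by
  classical
  intro ε hε
  obtain ⟨T, hT⟩ := SlabJ216.slabJ Λ ht dl cd h1 hU1 hmean hcd hfin
    (fun ε hε => by
      obtain ⟨T, hT⟩ := hconc ε hε
      exact ⟨T, fun n hn w w' => by convert hT n hn w w'⟩) 1 ε hε
  refine ⟨T, fun k hk n _ w => ?_⟩
  refine le_trans (le_of_eq ?_) (hT k hk n w)
  refine tsum_congr fun L => ?_
  have : (HT ht L = n ∧ k ∈ CD ht dl cd L w) ↔
      (HT ht L = n ∧ ∃ k' ∈ CD ht dl cd L w, k ≤ k' ∧ k' < k + 1) := by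
    refine and_congr_right fun _ => ⟨fun h => ⟨k, h, le_rfl, Nat.lt_succ_self k⟩, ?_⟩
    rintro ⟨k', h, h1, h2⟩
    have : k' = k := by omega
    rwa [this] at h
  by_cases h : HT ht L = n ∧ k ∈ CD ht dl cd L w
  · rw [if_pos h, if_pos (this.1 h)]
  · rw [if_neg h, if_neg (fun h' => h (this.2 h'))]

end abs

open Crest.Agent.R154.B5W
open Crest.Agent.R154.Flux566 (lw endp sitesL)
open Crest.Agent.R154.NB28 (IsUp IsDn)

variable {d : ℕ}

/-- relative displacement of a block -/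
def dsp (u : Step d) (b : PB u) : Site d := endp 0 b.1.1 + endp 0 b.1.2

lemma act_val (u : Step d) (L : List (PB u)) (w : Lat u) :
    (act (dl u) L w).1 = w.1 + (L.map (dsp u)).sum := by
  induction L generalizing w with
  | nil => simp [act]
  | cons b L ih =>
    rw [act, ih, List.map_cons, List.sum_cons]
    simp only [dl, dlp, dsp]
    abel

lemma irr_of_one {u : Step d} {x : List (Step d) × List (Step d)}
    (hx : x ∈ PC (hu u) (hdn u) 1) : B5W.Irr (hu u) (hdn u) x := by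
  refine ⟨1, le_rfl, hx, fun a c k l ha hc he => ?_⟩
  have := PC_height hx (he ▸ pm_mem ha hc)
  omega

lemma mem_one (u : Step d) : (([u], [Flux132.opp u]) : List (Step d) × List (Step d))
    ∈ PC (hu u) (hdn u) 1 :=
  ⟨(up_iff u 1 _).2 (KD723.up_single u),
    (dn_iff u 1 _).2 ((Fact346.isDn_iff u 1 _).2 (KD723.up_single (Flux132.opp u)))⟩

lemma mem_two (u e : Step d) (he : e.1 ≠ u.1) :
    (([e, u], [Flux132.opp u]) : List (Step d) × List (Step d)) ∈ PC (hu u) (hdn u) 1 :=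
  ⟨(up_iff u 1 _).2 (KD723.up_double u e he),
    (dn_iff u 1 _).2 ((Fact346.isDn_iff u 1 _).2 (KD723.up_single (Flux132.opp u)))⟩

open Classical in
/-- **`HPoint`** at the words. -/
theorem hpoint (hd : 2 ≤ d) (ν : Measure (Row d)) [IsProbabilityMeasure ν]
    (hν : ∀ᵐ p ∂ν, ∀ e : Step d, 0 < p.1 e) (u : Step d) (c : ℝ≥0∞) (hc : c ≠ 0)
    (hup : ∀ n : ℕ, c ≤ ∑' π : List (Step d), if IsUp u n π then NB28.aw ν π else 0)
    (hdn : ∀ n : ℕ, c ≤ ∑' γ : List (Step d), if IsDn u n γ then NB28.aw ν γ else 0) :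
    HPoint (Lam ν u) (ht u) (dl u) (cd u) := by
  have h1 : ∀ b, 1 ≤ ht u b := one_le_hb
  have hU1 : ∀ n, U (Lam ν u) (ht u) n ≤ 1 := fun n => by
    rw [U_eq28]
    exact mul_le_one' (sum_if_le_one ν fun l l' h h' hp => NB28.isUp_prefix h h' hp)
      (sum_if_le_one ν fun l l' h h' hp => NB28.isDn_prefix h h' hp)
  have hU : ∀ n, c * c ≤ U (Lam ν u) (ht u) n := fun n => by
    rw [U_eq28]; exact mul_le_mul' (hup n) (hdn n)
  have hcc : c * c ≠ 0 := mul_ne_zero hc hc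
  have hcc' : c * c ≠ ⊤ := ne_top_of_le_ne_top ENNReal.one_ne_top ((hU 0).trans (hU1 0))
  have hΛ : ∑' b, Lam ν u b = 1 :=
    le_antisymm (mass_le_one _ _ h1 hU1) (mass_ge_one _ _ (c * c) hcc 0 fun n _ => hU n)
  have hmean : ∑' b, Lam ν u b * (ht u b : ℝ≥0∞) ≠ ⊤ :=
    ne_top_of_le_ne_top (ENNReal.inv_ne_top.2 hcc)
      (mean_le _ _ h1 hΛ (c * c) hcc hcc' 0 fun n _ => hU n)
  refine hpoint_of _ _ _ _ h1 hU1 hmean (hcd u) (hfar u) ?_
  obtain ⟨e, he⟩ := KD723.exists_lat hd u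
  set b1 : PB u := ⟨([u], [Flux132.opp u]), irr_of_one (mem_one u)⟩ with hb1
  set b2 : PB u := ⟨([e, u], [Flux132.opp u]), irr_of_one (mem_two u e he)⟩ with hb2
  have e1 : ht u b1 = 1 := hb_eq (mem_one u)
  have e2 : ht u b2 = 1 := hb_eq (mem_two u e he)
  have w1 : Lam ν u b1 ≠ 0 := by
    exact mul_ne_zero (KD723.aw_ne_zero ν hν _) (KD723.aw_ne_zero ν hν _)
  have w2 : Lam ν u b2 ≠ 0 := by
    exact mul_ne_zero (KD723.aw_ne_zero ν hν _) (KD723.aw_ne_zero ν hν _)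
  have hz : dsp u b2 - dsp u b1 = stepVec e := by
    simp only [dsp, hb1, hb2, endp]
    abel
  intro ε hε
  obtain ⟨N, hN⟩ := Conc556.conc (Lam ν u) (ht u) (dsp u) h1 hΛ (b1 := b1) (b2 := b2)
    (e1.trans e2.symm) w1 w2 (fun k hk => by
      rw [hz]
      have := KD723.stepVec_inf e (k : ℤ) (by exact_mod_cast hk)
      rwa [natCast_zsmul] at this) ε hε
  refine ⟨N, fun n hn w w' => ?_⟩
  refine le_trans (ENNReal.tsum_le_tsum fun L => ?_) (hN n hn (w'.1 - w.1))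
  by_cases h : HT (ht u) L = n ∧ act (dl u) L w = w'
  · have e3 : (L.map (dsp u)).sum = w'.1 - w.1 := by
      rw [← h.2, act_val, add_sub_cancel_left]
    rw [if_pos h, if_pos ⟨h.1, e3⟩]
  · rw [if_neg h]; exact zero_le

end Crest.Agent.R154.PointJ216
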