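import Crest.Agent.R154.PFDefs_692
import Crest.Agent.R154.Hit_776

/-! Row 154, ROAD 801 in 692's pair frame (helper776): **(S) window decomposition** `SplitSt`. -/

set_option autoImplicit false

namespace Crest.Agent.R154.Split776

open Crest.Agent.R154.B5A
open scoped ENNReal

variable {B : Type*} (Λ : B → ℝ≥0∞) (ht : B → ℕ)

lemma FP_iff (a : ℕ) (L : List B) : Hit776.FP ht a L ↔ FPL ht a L := by
  induction L generalizing a with
  | nil =>
    constructor
    · intro h
      have h' : a = 0 := h
      refine ⟨by omega, fun L' hL' hne => absurd (List.prefix_nil.1 hL') hne⟩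
    · intro h
      have := h.1
      rw [HT_nil] at this
      change a = 0
      omega
  | cons b L ih =>
    constructor
    · intro h
      obtain ⟨h0, h2⟩ : 0 < a ∧ Hit776.FP ht (a - ht b) L := h
      have h3 := (ih _).1 h2
      refine ⟨by rw [HT_cons]; have := h3.1; omega, fun L' hL' hne => ?_⟩
      cases L' with
      | nil => rw [HT_nil]; exact h0
      | cons b' L'' =>
        obtain ⟨rfl, hp⟩ := List.cons_prefix_cons.1 hL'
        have := h3.2 L'' hp (fun e => hne (by rw [e]))
        rw [HT_cons]
        omega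
    · intro h
      have h0 : 0 < a := by
        have := h.2 [] List.nil_prefix (by simp)
        rwa [HT_nil] at this
      refine ⟨h0, (ih _).2 ⟨?_, fun L' hL' hne => ?_⟩⟩
      · have := h.1
        rw [HT_cons] at this
        omega
      · have := h.2 (b :: L') (List.cons_prefix_cons.2 ⟨rfl, hL'⟩) (by
          intro e
          exact hne (List.cons.inj e).2)
        rw [HT_cons] at this
        omega

/-- decomposition at the last cut at depth `≤ g` -/
theorem last_cut (h1 : ∀ b, 1 ≤ ht b) (g : ℕ) (G : List B → ℝ≥0∞) :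
    ∑' L : List B, (if g < HT ht L then G L else 0)
      = ∑' Lp : List B, (if HT ht Lp ≤ g then
          ∑' b, (if g < HT ht Lp + ht b then ∑' R, G (Lp ++ b :: R) else 0) else 0) := by
  induction g using Nat.strong_induction_on generalizing G with
  | _ g ih =>
    rw [tsum_list, tsum_list]
    rw [if_neg (by rw [HT_nil]; omega), if_pos (by rw [HT_nil]; omega), zero_add,
      ← ENNReal.tsum_add]
    refine tsum_congr fun b => ?_
    have hb := h1 b
    simp only [HT_nil, HT_cons, zero_add, List.nil_append, List.cons_append]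
    by_cases hg : g < ht b
    · rw [if_pos hg]
      have e1 : ∀ L : List B, (if g < ht b + HT ht L then G (b :: L) else 0) = G (b :: L) :=
        fun L => if_pos (by omega)
      have e2 : ∀ Lp : List B, (if ht b + HT ht Lp ≤ g then
          ∑' b', (if g < ht b + HT ht Lp + ht b' then ∑' R, G (b :: (Lp ++ b' :: R)) else 0)
          else (0 : ℝ≥0∞)) = 0 := fun Lp => if_neg (by omega)
      simp_rw [e1, e2]
      simp
    · rw [if_neg hg, zero_add]
      have e := ih (g - ht b) (by omega) (fun L => G (b :: L))
      calc ∑' L, (if g < ht b + HT ht L then G (b :: L) else 0)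
          = ∑' L, (if g - ht b < HT ht L then G (b :: L) else 0) := by
            refine tsum_congr fun L => ?_
            by_cases h : g - ht b < HT ht L
            · rw [if_pos h, if_pos (by omega)]
            · rw [if_neg h, if_neg (by omega)]
        _ = _ := e
        _ = _ := by
            refine tsum_congr fun Lp => ?_
            by_cases h : HT ht Lp ≤ g - ht b
            · rw [if_pos h, if_pos (by omega)]
              refine tsum_congr fun b' => ?_
              by_cases h' : g - ht b < HT ht Lp + ht b'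
              · rw [if_pos h', if_pos (by omega)]
              · rw [if_neg h', if_neg (by omega)]
            · rw [if_neg h, if_neg (by omega)]

lemma by_height (N : ℕ) (φ : ℕ → ℝ≥0∞) (ψ : List B → ℝ≥0∞) :
    ∑' L : List B, (if HT ht L < N then LW Λ L * (φ (HT ht L) * ψ L) else 0)
      = ∑ j ∈ Finset.range N, φ j * ∑' L : List B, (if HT ht L = j then LW Λ L * ψ L else 0) := by
  simp_rw [← ENNReal.tsum_mul_left]
  rw [← Summable.tsum_finsetSum (fun _ _ => ENNReal.summable)]
  refine tsum_congr fun L => ?_
  by_cases h : HT ht L < N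
  · rw [if_pos h, Finset.sum_eq_single (HT ht L)]
    · rw [if_pos rfl, mul_left_comm]
    · intro j _ hj
      rw [if_neg (fun e => hj e.symm), mul_zero]
    · intro hh
      exact absurd (Finset.mem_range.2 h) hh
  · rw [if_neg h, Finset.sum_eq_zero]
    intro j hj
    rw [if_neg, mul_zero]
    intro e
    exact h (e ▸ Finset.mem_range.1 hj)

/-- `∑_{j < N} U_j tail (N + i - j) ≤ ∑_{k ≥ i} tail k`. -/
lemma sum_U_tail (hU1 : ∀ n, U Λ ht n ≤ 1) (N i : ℕ) :
    ∑ j ∈ Finset.range N, tail Λ ht (N + i - j) * U Λ ht j ≤ tl Λ ht i := by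
  calc ∑ j ∈ Finset.range N, tail Λ ht (N + i - j) * U Λ ht j
      ≤ ∑ j ∈ Finset.range N, tail Λ ht (N + i - j) :=
        Finset.sum_le_sum fun j _ => by
          calc _ ≤ tail Λ ht (N + i - j) * 1 := mul_le_mul_right (hU1 j) _
            _ = _ := mul_one _
    _ = ∑ j ∈ Finset.range N, tail Λ ht (i + (j + 1)) := by
        rw [← Finset.sum_range_reflect]
        refine Finset.sum_congr rfl fun j hj => ?_
        have := Finset.mem_range.1 hj
        congr 1
        omega
    _ ≤ ∑' k, tail Λ ht (i + (k + 1)) := ENNReal.sum_le_tsum _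
    _ ≤ ∑' k, tail Λ ht (i + k) :=
        ENNReal.tsum_comp_le_tsum_of_injective (add_left_injective 1)
          (fun k => tail Λ ht (i + k))

lemma U_eq (j : ℕ) : U Λ ht j = ∑' L : List B, (if HT ht L = j then LW Λ L * 1 else 0) := by
  simp [U]

open Classical in
/-- overshoot -/
lemma oversh (h1 : ∀ b, 1 ≤ ht b) (hU1 : ∀ n, U Λ ht n ≤ 1) (a i : ℕ) :
    ∑' L : List B, (if FPL ht a L ∧ a + i < HT ht L then LW Λ L else 0) ≤ tl Λ ht i := by
  rcases Nat.eq_zero_or_pos a with rfl | ha
  · refine le_trans (le_of_eq ?_) zero_le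
    rw [ENNReal.tsum_eq_zero]
    intro L
    rw [if_neg]
    rintro ⟨h, h2⟩
    have := (Hit776.FP_zero ht L).1 ((FP_iff ht 0 L).2 h)
    subst this
    rw [HT_nil] at h2
    omega
  · set G : List B → ℝ≥0∞ := fun L => if FPL ht a L ∧ a + i < HT ht L then LW Λ L else 0 with hG
    have e1 : ∑' L, G L = ∑' L, (if a - 1 < HT ht L then G L else 0) := by
      refine tsum_congr fun L => ?_
      by_cases h : a - 1 < HT ht L
      · rw [if_pos h]
      · rw [if_neg h]
        simp only [hG]
        rw [if_neg]
        rintro ⟨_, h2⟩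
        omega
    rw [e1, last_cut ht h1]
    calc ∑' Lp : List B, (if HT ht Lp ≤ a - 1 then
          ∑' b, (if a - 1 < HT ht Lp + ht b then ∑' R, G (Lp ++ b :: R) else 0) else 0)
        ≤ ∑' Lp : List B, (if HT ht Lp < a then LW Λ Lp * (tail Λ ht (a + i - HT ht Lp) * 1) else 0) := by
          refine ENNReal.tsum_le_tsum fun Lp => ?_
          by_cases h : HT ht Lp < a
          · rw [if_pos (by omega), if_pos h, mul_one, tail, ← ENNReal.tsum_mul_left]
            refine ENNReal.tsum_le_tsum fun b => ?_
            by_cases h2 : a - 1 < HT ht Lp + ht b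
            · rw [if_pos h2, tsum_eq_single ([] : List B)]
              · simp only [hG]
                by_cases h3 : a + i - HT ht Lp < ht b
                · rw [if_pos h3]
                  split_ifs
                  · rw [LW_append, LW_cons, LW_nil, mul_one]
                  · exact zero_le
                · rw [if_neg h3, if_neg]
                  · exact zero_le
                  · rintro ⟨_, h4⟩
                    rw [HT_append, HT_cons, HT_nil] at h4
                    omega
              · intro R hR
                simp only [hG]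
                rw [if_neg]
                rintro ⟨h4, _⟩
                have h5 := h4.2 (Lp ++ [b]) (by
                  rw [List.prefix_append_right_inj]
                  exact List.cons_prefix_cons.2 ⟨rfl, List.nil_prefix⟩) (by
                  intro e
                  have := List.append_cancel_left e
                  exact hR (List.cons.inj this).2.symm)
                rw [HT_append, HT_cons, HT_nil] at h5
                omega
            · rw [if_neg h2]; exact zero_le
          · rw [if_neg (by omega)]; exact zero_le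
      _ = ∑ j ∈ Finset.range a, tail Λ ht (a + i - j) * U Λ ht j := by
          rw [by_height Λ ht a (fun j => tail Λ ht (a + i - j)) (fun _ => 1)]
          simp_rw [U_eq]
      _ ≤ _ := sum_U_tail Λ ht hU1 a i

/-- early last cut -/
lemma early (hU1 : ∀ n, U Λ ht n ≤ 1) (g i : ℕ) (hig : i ≤ g) :
    ∑' Lp : List B, (if HT ht Lp < g - i then LW Λ Lp * (tail Λ ht (g - HT ht Lp) * 1) else 0)
      ≤ tl Λ ht i := by
  rw [by_height Λ ht (g - i) (fun j => tail Λ ht (g - j)) (fun _ => 1)]
  refine le_trans (le_of_eq ?_) (sum_U_tail Λ ht hU1 (g - i) i)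
  refine Finset.sum_congr rfl fun j hj => ?_
  rw [← U_eq, show g - i + i = g by omega]

open Classical in
lemma inner (h1 : ∀ b, 1 ≤ ht b) (hU1 : ∀ n, U Λ ht n ≤ 1)
    (n a g : ℕ) (F : List B → ℝ≥0∞) (P : List B → List B → ℝ≥0∞) (i : ℕ) (hn : a + i + g < n)
    (hig : i ≤ g) (hF : ∀ L, F L ≤ 1)
    (hP : ∀ L1 Lp R, FPL ht a L1 → HT ht L1 ≤ a + i → g - i ≤ HT ht Lp → HT ht Lp ≤ g →
      HT ht (L1 ++ (Lp ++ R)) = n → F (L1 ++ (Lp ++ R)) ≤ P L1 Lp)
    (L1 : List B) (hL1 : FPL ht a L1) (hL2 : HT ht L1 ≤ a + i) :
    ∑' L2, (if HT ht (L1 ++ L2) = n then LW Λ (L1 ++ L2) * F (L1 ++ L2) else 0)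
      ≤ LW Λ L1 * (tl Λ ht i + ∑ h ∈ Finset.range (g + 1), tail Λ ht (g - h) *
        ∑' Lp : List B, (if HT ht Lp = h then LW Λ Lp * P L1 Lp else 0)) := by
  set G : List B → ℝ≥0∞ := fun L2 =>
    if HT ht (L1 ++ L2) = n then LW Λ (L1 ++ L2) * F (L1 ++ L2) else 0 with hG
  have e1 : ∑' L, G L = ∑' L, (if g < HT ht L then G L else 0) := by
    refine tsum_congr fun L => ?_
    by_cases h : g < HT ht L
    · rw [if_pos h]
    · rw [if_neg h]
      simp only [hG]
      rw [if_neg]
      rw [HT_append]
      omega
  rw [e1, last_cut ht h1]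
  have key : ∀ Lp : List B, HT ht Lp ≤ g → ∀ X : ℝ≥0∞,
      (∀ R, HT ht (L1 ++ (Lp ++ R)) = n → F (L1 ++ (Lp ++ R)) ≤ X) →
      ∑' b, (if g < HT ht Lp + ht b then ∑' R, G (Lp ++ b :: R) else 0)
        ≤ LW Λ L1 * (LW Λ Lp * (tail Λ ht (g - HT ht Lp) * X)) := by
    intro Lp hLp X hX
    have e2 : LW Λ L1 * (LW Λ Lp * (tail Λ ht (g - HT ht Lp) * X))
        = ∑' b, (if g - HT ht Lp < ht b then LW Λ L1 * LW Λ Lp * Λ b * X else 0) := by
      rw [tail, ← ENNReal.tsum_mul_right, ← ENNReal.tsum_mul_left, ← ENNReal.tsum_mul_left]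
      refine tsum_congr fun b => ?_
      split_ifs
      · ring
      · simp
    rw [e2]
    refine ENNReal.tsum_le_tsum fun b => ?_
    by_cases h : g < HT ht Lp + ht b
    · rw [if_pos h, if_pos (by omega)]
      calc ∑' R, G (Lp ++ b :: R)
          ≤ ∑' R, LW Λ L1 * LW Λ Lp * Λ b * X *
              (if HT ht R = n - HT ht L1 - HT ht Lp - ht b then LW Λ R else 0) := by
            refine ENNReal.tsum_le_tsum fun R => ?_
            simp only [hG]
            by_cases h3 : HT ht (L1 ++ (Lp ++ b :: R)) = n
            · rw [if_pos h3]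
              have h4 : HT ht R = n - HT ht L1 - HT ht Lp - ht b := by
                rw [HT_append, HT_append, HT_cons] at h3
                omega
              rw [if_pos h4, LW_append, LW_append, LW_cons]
              calc LW Λ L1 * (LW Λ Lp * (Λ b * LW Λ R)) * F (L1 ++ (Lp ++ b :: R))
                  ≤ LW Λ L1 * (LW Λ Lp * (Λ b * LW Λ R)) * X :=
                    mul_le_mul_right (hX _ h3) _
                _ = _ := by ring
            · rw [if_neg h3]; exact zero_le
        _ = LW Λ L1 * LW Λ Lp * Λ b * X * U Λ ht (n - HT ht L1 - HT ht Lp - ht b) := by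
            rw [ENNReal.tsum_mul_left, U]
        _ ≤ LW Λ L1 * LW Λ Lp * Λ b * X * 1 := mul_le_mul_right (hU1 _) _
        _ = _ := mul_one _
    · rw [if_neg h]; exact zero_le
  calc ∑' Lp : List B, (if HT ht Lp ≤ g then
          ∑' b, (if g < HT ht Lp + ht b then ∑' R, G (Lp ++ b :: R) else 0) else 0)
      ≤ ∑' Lp : List B, (LW Λ L1 * (if HT ht Lp < g - i then
            LW Λ Lp * (tail Λ ht (g - HT ht Lp) * 1) else 0)
          + LW Λ L1 * (if HT ht Lp < g + 1 then
            LW Λ Lp * (tail Λ ht (g - HT ht Lp) * P L1 Lp) else 0)) := by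
        refine ENNReal.tsum_le_tsum fun Lp => ?_
        by_cases h : HT ht Lp ≤ g
        · rw [if_pos h, if_pos (by omega : HT ht Lp < g + 1)]
          by_cases h2 : HT ht Lp < g - i
          · rw [if_pos h2]
            exact (key Lp h 1 fun R _ => hF _).trans le_self_add
          · exact (key Lp h (P L1 Lp) fun R hR =>
              hP L1 Lp R hL1 hL2 (by omega) h hR).trans le_add_self
        · rw [if_neg h]; exact zero_le
    _ = LW Λ L1 * (∑' Lp : List B, (if HT ht Lp < g - i then
            LW Λ Lp * (tail Λ ht (g - HT ht Lp) * 1) else 0))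
          + LW Λ L1 * (∑' Lp : List B, (if HT ht Lp < g + 1 then
            LW Λ Lp * (tail Λ ht (g - HT ht Lp) * P L1 Lp) else 0)) := by
        rw [ENNReal.tsum_add, ENNReal.tsum_mul_left, ENNReal.tsum_mul_left]
    _ ≤ LW Λ L1 * tl Λ ht i + LW Λ L1 * (∑ h ∈ Finset.range (g + 1), tail Λ ht (g - h) *
        ∑' Lp : List B, (if HT ht Lp = h then LW Λ Lp * P L1 Lp else 0)) := by
        rw [by_height Λ ht (g + 1) (fun j => tail Λ ht (g - j)) (P L1)]
        exact add_le_add (mul_le_mul_right (early Λ ht hU1 g i hig) _) le_rfl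
    _ = _ := by rw [mul_add]

theorem split_st : SplitSt Λ ht := by
  classical
  intro h1 hΛ hU1 n a g F P i hn hig hF hP
  have e1 : ∑' L, (if HT ht L = n then LW Λ L * F L else 0)
      = ∑' L1, (if FPL ht a L1 then
        ∑' L2, (if HT ht (L1 ++ L2) = n then LW Λ (L1 ++ L2) * F (L1 ++ L2) else 0) else 0) := by
    have h := Hit776.split ht h1 a (fun L => if HT ht L = n then LW Λ L * F L else 0)
    have e2 : ∑' L : List B, (if a ≤ HT ht L then (if HT ht L = n then LW Λ L * F L else 0) else 0)
        = ∑' L, (if HT ht L = n then LW Λ L * F L else 0) := by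
      refine tsum_congr fun L => ?_
      by_cases hL : HT ht L = n
      · rw [if_pos hL, if_pos (by omega)]
      · rw [if_neg hL]; simp
    rw [← e2, h]
    refine tsum_congr fun L1 => ?_
    by_cases hL1 : FPL ht a L1
    · rw [if_pos hL1, if_pos ((FP_iff ht a L1).2 hL1)]
    · rw [if_neg hL1, if_neg (fun h => hL1 ((FP_iff ht a L1).1 h))]
  rw [e1]
  set Q : List B → ℝ≥0∞ := fun L1 => ∑ h ∈ Finset.range (g + 1), tail Λ ht (g - h) *
        ∑' Lp : List B, (if HT ht Lp = h then LW Λ Lp * P L1 Lp else 0) with hQ
  calc ∑' L1, (if FPL ht a L1 then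
        ∑' L2, (if HT ht (L1 ++ L2) = n then LW Λ (L1 ++ L2) * F (L1 ++ L2) else 0) else 0)
      ≤ ∑' L1, ((if FPL ht a L1 ∧ a + i < HT ht L1 then LW Λ L1 else 0)
          + (if FPL ht a L1 then LW Λ L1 * (tl Λ ht i + Q L1) else 0)) := by
        refine ENNReal.tsum_le_tsum fun L1 => ?_
        by_cases hL1 : FPL ht a L1
        · rw [if_pos hL1, if_pos hL1]
          by_cases h2 : HT ht L1 ≤ a + i
          · exact (inner Λ ht h1 hU1 n a g F P i hn hig hF hP L1 hL1 h2).trans le_add_self
          · rw [if_pos ⟨hL1, by omega⟩]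
            refine le_trans ?_ le_self_add
            calc ∑' L2, (if HT ht (L1 ++ L2) = n then LW Λ (L1 ++ L2) * F (L1 ++ L2) else 0)
                ≤ ∑' L2, LW Λ L1 * (if HT ht L2 = n - HT ht L1 then LW Λ L2 else 0) := by
                  refine ENNReal.tsum_le_tsum fun L2 => ?_
                  by_cases h3 : HT ht (L1 ++ L2) = n
                  · rw [if_pos h3, if_pos (by rw [HT_append] at h3; omega), LW_append]
                    calc LW Λ L1 * LW Λ L2 * F (L1 ++ L2) ≤ LW Λ L1 * LW Λ L2 * 1 :=
                          mul_le_mul_right (hF _) _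
                      _ = _ := mul_one _
                  · rw [if_neg h3]; exact zero_le
              _ = LW Λ L1 * U Λ ht (n - HT ht L1) := by rw [ENNReal.tsum_mul_left, U]
              _ ≤ LW Λ L1 * 1 := mul_le_mul_right (hU1 _) _
              _ = _ := mul_one _
        · rw [if_neg hL1]; exact zero_le
    _ = ∑' L1, (if FPL ht a L1 ∧ a + i < HT ht L1 then LW Λ L1 else 0)
          + ∑' L1, (if FPL ht a L1 then LW Λ L1 * (tl Λ ht i + Q L1) else 0) :=
        ENNReal.tsum_add
    _ ≤ tl Λ ht i + (tl Λ ht i + ∑' L1, (if FPL ht a L1 then LW Λ L1 * Q L1 else 0)) := by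
        refine add_le_add (oversh Λ ht h1 hU1 a i) ?_
        calc ∑' L1, (if FPL ht a L1 then LW Λ L1 * (tl Λ ht i + Q L1) else 0)
            = ∑' L1, ((if FPL ht a L1 then LW Λ L1 else 0) * tl Λ ht i
                + (if FPL ht a L1 then LW Λ L1 * Q L1 else 0)) := by
              refine tsum_congr fun L1 => ?_
              by_cases h : FPL ht a L1 <;> simp [h, mul_add]
          _ = (∑' L1, (if FPL ht a L1 then LW Λ L1 else 0)) * tl Λ ht i
                + ∑' L1, (if FPL ht a L1 then LW Λ L1 * Q L1 else 0) := by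
              rw [ENNReal.tsum_add, ENNReal.tsum_mul_right]
          _ ≤ 1 * tl Λ ht i + ∑' L1, (if FPL ht a L1 then LW Λ L1 * Q L1 else 0) := by
              refine add_le_add (mul_le_mul_left (le_of_eq ?_) _) le_rfl
              have := Hit776.S_one Λ ht h1 hΛ a
              rw [← this, Hit776.S]
              refine tsum_congr fun L1 => ?_
              by_cases h : FPL ht a L1
              · rw [if_pos h, if_pos ((FP_iff ht a L1).2 h), mul_one]
              · rw [if_neg h, if_neg (fun h' => h ((FP_iff ht a L1).1 h'))]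
          _ = _ := by rw [one_mul]
    _ = 2 * tl Λ ht i + ∑ h ∈ Finset.range (g + 1), tail Λ ht (g - h) *
        ∑' L1 : List B, (if FPL ht a L1 then LW Λ L1 *
          ∑' Lp : List B, (if HT ht Lp = h then LW Λ Lp * P L1 Lp else 0) else 0) := by
        rw [← add_assoc, ← two_mul]
        congr 1
        simp_rw [← ENNReal.tsum_mul_left]
        rw [← Summable.tsum_finsetSum (fun _ _ => ENNReal.summable)]
        refine tsum_congr fun L1 => ?_
        by_cases h : FPL ht a L1
        · simp only [h, if_true, hQ, Finset.mul_sum]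
          refine Finset.sum_congr rfl fun j _ => ?_
          simp only [← ENNReal.tsum_mul_left]
          refine tsum_congr fun Lp => ?_
          ring
        · simp [h]

end Crest.Agent.R154.Split776
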