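import Crest.Agent.R154.WinJ_987
import Crest.Agent.R154.PointJ_216
import Crest.Agent.R154.DensJ_947
import Crest.Agent.R154.Split_776
import Crest.Agent.R154.NBTop_28
import Crest.Agent.R154.B5Br_657

/-! Row 154, ROAD 801, pair frame (helper987): `KappaAll'` from the one-piece input `HPiece` alone. -/

set_option autoImplicit false

open MeasureTheory ProbabilityTheory Crest.ProbabilityR.RandomEnvironment
open scoped ENNReal
open Filter Topology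

namespace Crest.Agent.R154.KJ987

open Crest.Agent.R154.B5A Crest.Agent.R154.B5W
open Crest.Agent.R154.NB28 (IsUp IsDn)

variable {d : ℕ}

open Classical in
/-- weak `KAPPA'` for one law from `HPiece` -/
theorem kappaW'_of (hd : 2 ≤ d) (ν : Measure (Row d)) [IsProbabilityMeasure ν]
    (hν : ∀ᵐ p ∂ν, ∀ e : Step d, 0 < p.1 e) (u : Step d) (c : ℝ≥0∞) (hc : c ≠ 0)
    (hup : ∀ n : ℕ, c ≤ ∑' π : List (Step d), if IsUp u n π then NB28.aw ν π else 0)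
    (hdn : ∀ n : ℕ, c ≤ ∑' γ : List (Step d), if IsDn u n γ then NB28.aw ν γ else 0)
    (c1 A : ℝ≥0∞) (hc1 : c1 ≠ 0) (hc1T : c1 ≠ ⊤) (hA : A ≠ ⊤) (δ : ℕ → ℝ≥0∞)
    (hδ : Tendsto δ atTop (𝓝 0))
    (HP : HPiece (Lam ν u) (ht u) (dl u) (cd u) c1 A δ) : NB28.KappaW' ν u := by
  have h1 : ∀ b, 1 ≤ ht u b := one_le_hb
  have hU1 : ∀ n, U (Lam ν u) (ht u) n ≤ 1 := fun n => by
    rw [U_eq28]
    exact mul_le_one' (sum_if_le_one ν fun l l' h h' hp => NB28.isUp_prefix h h' hp)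
      (sum_if_le_one ν fun l l' h h' hp => NB28.isDn_prefix h h' hp)
  have hU : ∀ n, c * c ≤ U (Lam ν u) (ht u) n := fun n => by
    rw [U_eq28]; exact mul_le_mul' (hup n) (hdn n)
  have hcc : c * c ≠ 0 := mul_ne_zero hc hc
  have hcc' : c * c ≠ ⊤ := ne_top_of_le_ne_top ENNReal.one_ne_top ((hU 0).trans (hU1 0))
  have hΛ : ∑' b, Lam ν u b = 1 :=
    le_antisymm (mass_le_one _ _ h1 hU1) (mass_ge_one _ _ (c * c) hcc 0 fun n _ => hU n)
  have hmean : ∑' b, Lam ν u b * (ht u b : ℝ≥0∞) ≠ ⊤ :=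
    ne_top_of_le_ne_top (ENNReal.inv_ne_top.2 hcc)
      (mean_le _ _ h1 hΛ (c * c) hcc hcc' 0 fun n _ => hU n)
  have hK := J987.hK_of (Lam ν u) (ht u) (dl u) (cd u) h1 hΛ hU1
    (fun w b k hk => hcd u w b k hk) (hinj u) (J947.dens_st _ _ _) (Split776.split_st _ _) hmean c1 A hc1 hc1T hA
    δ hδ HP (PointJ216.hpoint hd ν hν u c hc hup hdn)
  intro ε hε
  obtain ⟨M, hM⟩ := hK ε hε
  refine ⟨M, fun m hm => ?_⟩
  obtain ⟨n0, hn0⟩ := hM m hm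
  refine ⟨n0, fun n hn w hw => ?_⟩
  exact (Kap1_eq ν u n m ⟨w, hw⟩).symm.le.trans (hn0 n hn ⟨w, hw⟩)

/-- **`KappaAll'` from `HPiece`** for every charged pair of opposite directions. -/
theorem kappaAll_of
    (H : ∀ (d : ℕ) (_ : 3 ≤ d) (ν : Measure (Row d)) [IsProbabilityMeasure ν],
      (∀ᵐ p ∂ν, ∀ e : Step d, 0 < p.1 e) → ∀ u : Step d,
      annealed (iidEnvironmentLaw ν) 0 (escapeEvent (B2d.dirVec u)) ≠ 0 →
      annealed (iidEnvironmentLaw ν) 0 (escapeEvent (-B2d.dirVec u)) ≠ 0 →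
      ∃ (c1 A : ℝ≥0∞) (δ : ℕ → ℝ≥0∞), c1 ≠ 0 ∧ c1 ≠ ⊤ ∧ A ≠ ⊤ ∧ Tendsto δ atTop (𝓝 0) ∧
        HPiece (Lam ν u) (ht u) (dl u) (cd u) c1 A δ) : NB28.KappaAll' := by
  intro d hd ν _ hν u hA hB
  obtain ⟨c, hc, -, hup, hdn⟩ := WM286.mass_pos ν hν u hA hB
  obtain ⟨c1, A, δ, hc1, hc1T, hAT, hδ, HP⟩ := H d hd ν hν u hA hB
  exact kappaW'_of (by omega) ν hν u c hc hup hdn c1 A hc1 hc1T hAT δ hδ HP

end Crest.Agent.R154.KJ987
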