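import Crest.Agent.R154.KSTest_480

/-! Row 154, B8, TILE, (KS): contacts of two killed climbs, comparison with the pair energy
(helper480). -/

set_option autoImplicit false
set_option linter.unusedSectionVars false
set_option linter.deprecated false

namespace Crest.Agent.R154.KS480

open MeasureTheory ProbabilityTheory Set Filter Crest.ProbabilityR.RandomEnvironment
open Crest.Agent.R154.Ren263 (Det)
open Crest.Agent.R154.Mk561 Crest.Agent.R154.Q561
open Crest.Agent.R154.Flux132 (lev)
open Crest.Agent.R154.RatioR872 Crest.Agent.R154.Tile872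
open Crest.Agent.R154.Cont (fWS fHist fHist_eq_iff rdM rdSpace_fWS)
open Crest.Agent.R154.B6I (Hit bf Alv Eqv Nt zt SP PP Om NoC tip th Al Dt PSm PIm ct)
open scoped ENNReal

variable {d : ℕ}

/-- contact set with time sets `A`, `B` -/
def ctS (R : ℕ) (x x' : Site d) (A B : ℕ → Set (MPath d)) : Set (MPath d × MPath d) :=
  {p | ∃ i j : ℕ, p.1 ∈ A i ∧ p.2 ∈ B j ∧ (p.1 i).2 = false ∧ (p.2 j).2 = false ∧
    ∀ c, |pos x p.1 i c - pos x' p.2 j c| ≤ (R : ℤ)}

lemma meas_flag (i : ℕ) : MeasurableSet {M : MPath d | (M i).2 = false} := by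
  have : Det (i + 1) {M : MPath d | (M i).2 = false} := by
    intro M M' h
    simp only [mem_setOf_eq]
    rw [h i (Nat.lt_succ_self i)]
  exact this.measurableSet

lemma measurable_pos (x : Site d) (i : ℕ) : Measurable fun M : MPath d => pos x M i := by
  refine measurable_to_countable' fun z => ?_
  have : Det i ((fun M : MPath d => pos x M i) ⁻¹' {z}) := by
    intro M M' h
    simp only [mem_preimage, mem_singleton_iff]
    rw [pos_congr x h le_rfl]
  exact this.measurableSet

lemma meas_ctS (R : ℕ) (x x' : Site d) {A B : ℕ → Set (MPath d)} (hA : ∀ i, MeasurableSet (A i))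
    (hB : ∀ i, MeasurableSet (B i)) : MeasurableSet (ctS R x x' A B) := by
  have : ctS R x x' A B = ⋃ i : ℕ, ⋃ j : ℕ, (((A i ∩ {M | (M i).2 = false}) ×ˢ
      (B j ∩ {M | (M j).2 = false})) ∩
      (fun p : MPath d × MPath d => (pos x p.1 i, pos x' p.2 j)) ⁻¹'
        {q : Site d × Site d | ∀ c, |q.1 c - q.2 c| ≤ (R : ℤ)}) := by
    ext p
    simp only [ctS, mem_setOf_eq, mem_iUnion, mem_inter_iff, mem_prod, mem_preimage]
    constructor
    · rintro ⟨i, j, h1, h2, h3, h4, h5⟩
      exact ⟨i, j, ⟨⟨h1, h3⟩, h2, h4⟩, h5⟩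
    · rintro ⟨i, j, ⟨⟨h1, h3⟩, h2, h4⟩, h5⟩
      exact ⟨i, j, h1, h2, h3, h4, h5⟩
  rw [this]
  refine MeasurableSet.iUnion fun i => MeasurableSet.iUnion fun j => ?_
  refine (((hA i).inter (meas_flag i)).prod ((hB j).inter (meas_flag j))).inter ?_
  have hm : Measurable fun p : MPath d × MPath d => (pos x p.1 i, pos x' p.2 j) :=
    ((measurable_pos x i).comp measurable_fst).prodMk ((measurable_pos x' j).comp measurable_snd)
  exact hm (Set.to_countable _).measurableSet

section ct

variable (u : Step d) (R : ℕ) (κ : ℝ) (Q : Measure (Environment d)) (s : ℝ≥0∞) (b : ℤ)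

lemma meas_lt_tau (T : Set (Site d)) (x : Site d) (i : ℕ) :
    MeasurableSet {M : MPath d | (i : ℕ∞) < tau u R κ Q s b T x M} := by
  have : Det (i + 1) {M : MPath d | (i : ℕ∞) < tau u R κ Q s b T x M} := by
    intro M M' h
    simp only [mem_setOf_eq]
    unfold tau
    rw [lt_fst_iff, lt_fst_iff]
    refine forall₂_congr fun j hj => not_congr (or_congr ?_ ?_)
    · rw [pos_congr x (fun k hk => h k (by omega) : ∀ k < j, M k = M' k) le_rfl]
    · exact dp_congr' u R κ Q s b T (fun k hk => h k (by omega)) (by rw [h j (by omega)])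
  exact this.measurableSet

lemma meas_lt_tb (x : Site d) (i : ℕ) :
    MeasurableSet {M : MPath d | (i : ℕ∞) < tb u b (x, M)} := by
  have : Det (i + 1) {M : MPath d | (i : ℕ∞) < tb u b (x, M)} := by
    intro M M' h
    simp only [mem_setOf_eq]
    unfold tb
    rw [lt_fst_iff, lt_fst_iff]
    refine forall₂_congr fun j hj => not_congr ?_
    rw [pos_congr x (fun k hk => h k (by omega) : ∀ k < j, M k = M' k) le_rfl]
  exact this.measurableSet

/-- contact set of killed walkers -/
def ct0 (T T' : Set (Site d)) (x x' : Site d) : Set (MPath d × MPath d) :=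
  ctS R x x' (fun i => {M | (i : ℕ∞) < tau u R κ Q s b T x M})
    (fun j => {M | (j : ℕ∞) < tau u R κ Q s b T' x' M})

/-- second walker natural with exit in the target, contact before level `b` -/
def ct1 (T T' : Set (Site d)) (x x' : Site d) : Set (MPath d × MPath d) :=
  ctS R x x' (fun i => {M | (i : ℕ∞) < tau u R κ Q s b T x M})
    (fun j => {M | (j : ℕ∞) < tb u b (x', M)} ∩ succ u R b T' x')

/-- both walkers natural with exit in the target, contact before level `b` -/
def ct2 (T T' : Set (Site d)) (x x' : Site d) : Set (MPath d × MPath d) :=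
  ctS R x x' (fun i => {M | (i : ℕ∞) < tb u b (x, M)} ∩ succ u R b T x)
    (fun j => {M | (j : ℕ∞) < tb u b (x', M)} ∩ succ u R b T' x')

lemma mt_eq (T T' : Set (Site d)) (x x' : Site d) :
    mt u R κ Q s b T T' x x'
      = ((mkAnn κ Q x).prod (mkAnn κ Q x')) (ct0 u R κ Q s b T T' x x') := rfl

variable [IsProbabilityMeasure Q]

lemma step1 (T T' : Set (Site d)) (x x' : Site d) :
    s * ((mkAnn κ Q x).prod (mkAnn κ Q x')) (ct0 u R κ Q s b T T' x x')
      ≤ ((mkAnn κ Q x).prod (mkAnn κ Q x')) (ct1 u R κ Q s b T T' x x') := by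
  have hm0 : MeasurableSet (ct0 u R κ Q s b T T' x x') :=
    meas_ctS R x x' (fun i => meas_lt_tau u R κ Q s b T x i)
      (fun i => meas_lt_tau u R κ Q s b T' x' i)
  have hm1 : MeasurableSet (ct1 u R κ Q s b T T' x x') :=
    meas_ctS R x x' (fun i => meas_lt_tau u R κ Q s b T x i)
      (fun i => (meas_lt_tb u b x' i).inter (meas_succ' u R b T' x'))
  rw [Measure.prod_apply hm0, Measure.prod_apply hm1, ← lintegral_const_mul _
    (measurable_measure_prodMk_left hm0)]
  refine lintegral_mono fun M => ?_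
  have h := kap_le u R κ Q s b T' (Cont.rows (fWS u) rdM (x, M) (tau u R κ Q s b T x M)) x'
  refine le_trans (le_of_eq ?_) (h.trans (measure_mono ?_))
  · congr 2
    ext M'
    simp only [mem_preimage, mem_setOf_eq]
    rw [Cont.kap_lt_iff]
    constructor
    · rintro ⟨i, j, h1, h2, h3, h4, h5⟩
      exact ⟨j, h2, h4, pos x M i, ⟨i, h1, h3, rfl⟩, h5⟩
    · rintro ⟨j, h2, h4, a, ⟨i, h1, h3, rfl⟩, h5⟩
      exact ⟨i, j, h1, h2, h3, h4, h5⟩
  · rintro M' ⟨h1, h2⟩
    have h2' := Cont.kap_lt_iff.1 h2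
    obtain ⟨j, h3, h4, a, ⟨i, h5, h6, rfl⟩, h7⟩ := h2'
    exact ⟨i, j, h5, ⟨h3, h1⟩, h6, h4, h7⟩

lemma step2 (T T' : Set (Site d)) (x x' : Site d) :
    s * ((mkAnn κ Q x).prod (mkAnn κ Q x')) (ct1 u R κ Q s b T T' x x')
      ≤ ((mkAnn κ Q x).prod (mkAnn κ Q x')) (ct2 u R b T T' x x') := by
  have hm1 : MeasurableSet (ct1 u R κ Q s b T T' x x') :=
    meas_ctS R x x' (fun i => meas_lt_tau u R κ Q s b T x i)
      (fun i => (meas_lt_tb u b x' i).inter (meas_succ' u R b T' x'))
  have hm2 : MeasurableSet (ct2 u R b T T' x x') :=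
    meas_ctS R x x' (fun i => (meas_lt_tb u b x i).inter (meas_succ' u R b T x))
      (fun i => (meas_lt_tb u b x' i).inter (meas_succ' u R b T' x'))
  rw [Measure.prod_apply_symm hm1, Measure.prod_apply_symm hm2, ← lintegral_const_mul _
    (measurable_measure_prodMk_right hm1)]
  refine lintegral_mono fun M' => ?_
  by_cases hM' : M' ∈ succ u R b T' x'
  swap
  · have : (fun M => (M, M')) ⁻¹' ct1 u R κ Q s b T T' x x' = ∅ := by
      rw [eq_empty_iff_forall_notMem]
      rintro M ⟨i, j, h1, h2, _⟩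
      exact hM' h2.2
    rw [this]
    simp
  have h := kap_le u R κ Q s b T (Cont.rows (fWS u) rdM (x', M') (tb u b (x', M'))) x
  refine le_trans (mul_le_mul' le_rfl (measure_mono ?_)) (h.trans (measure_mono ?_))
  · rintro M ⟨i, j, h1, h2, h3, h4, h5⟩
    refine Cont.kap_lt_iff.2 ⟨i, h1, h3, pos x' M' j, ⟨j, h2.1, h4, rfl⟩, fun c => ?_⟩
    rw [abs_sub_comm]
    exact h5 c
  · rintro M ⟨h1, h2⟩
    have h2' := Cont.kap_lt_iff.1 h2
    obtain ⟨i, h3, h4, a, ⟨j, h5, h6, rfl⟩, h7⟩ := h2'
    refine ⟨i, j, ⟨h3, h1⟩, ⟨h5, hM'⟩, h4, h6, fun c => ?_⟩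
    have := h7 c
    rw [abs_sub_comm] at this
    exact this

/-- **two sided comparison** -/
lemma mt_le (T T' : Set (Site d)) (x x' : Site d) :
    s ^ 2 * mt u R κ Q s b T T' x x'
      ≤ ((mkAnn κ Q x).prod (mkAnn κ Q x')) (ct2 u R b T T' x x') := by
  rw [mt_eq, sq, mul_assoc]
  exact (mul_le_mul' le_rfl (step1 u R κ Q s b T T' x x')).trans (step2 u R κ Q s b T T' x x')

end ct

section nat

variable (u : Step d) (R : ℕ) (κ : ℝ) (Q : Measure (Environment d)) [IsProbabilityMeasure Q]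

lemma bf_of_lt_tb {x : Site d} {n i : ℕ} {M : MPath d}
    (h : (i : ℕ∞) < tb u (lev u x + n) (x, M)) : bf u n M i := by
  intro k hk
  have h1 := (lt_fst_iff.1 h) k hk
  simp only [not_le] at h1
  rw [B6I.lev_pos] at h1
  omega

lemma ct2_sub {x x' : Site d} {n : ℕ} (hs : lev u x = lev u x') (T T' : Set (Site d)) :
    ct2 u R (lev u x + n) T T' x x' ⊆ bc u R 0 n (⟨(x, x'), hs⟩ : SP u) := by
  rintro p ⟨i, j, ⟨h1, h2⟩, ⟨h3, h4⟩, h5, h6, h7⟩
  have hN : Nt u R 0 n p.1 := by
    obtain ⟨m, hm⟩ := mem_iUnion.1 h2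
    exact ((mem_ClM_iff u R).1 hm.1).2
  have hN' : Nt u R 0 n p.2 := by
    obtain ⟨m, hm⟩ := mem_iUnion.1 h4
    have hm1 := hm.1
    rw [hs] at hm1
    exact ((mem_ClM_iff u R).1 hm1).2
  refine ⟨⟨hN, hN'⟩, fun hcon => ?_⟩
  have h3' : bf u n p.2 j := bf_of_lt_tb u (x := x') (by rw [← hs]; exact h3)
  have h8 := hcon i j (bf_of_lt_tb u h1) h3' ⟨h5, h6, h7⟩
  have h9 := h8.1 0 (Nat.zero_le _)
  simp at h9

/-- contacts of natural climbs in independent environments, averaged over `w × w`, are at most the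
energy -/
lemma avg_bc (hstat : ∀ z : Site d, MeasurePreserving (shiftEnv z) Q Q)
    (hR : IsFiniteRangeDependent Q R) {a b : ℕ}
    {w : Site d → ℝ≥0∞} (hw1 : ∑' x, w x = 1) (hw : ∀ x, lev u x ≠ a → w x = 0) :
    ∑' x, ∑' x', w x * w x' * (if h : lev u x = lev u x' then
        PIm κ Q x x' (bc u R 0 (b - a) ⟨(x, x'), h⟩) else 0)
      ≤ en u R κ Q a b w := by
  classical
  set n := b - a with hnd
  -- the common no contact part
  set c : Site d → Site d → ℝ≥0∞ := fun x x' => if h : lev u x = lev u x' then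
    PSm κ Q x x' (both u R n ∩ {p | NoC R 0 n ((⟨(x, x'), h⟩, p) : Om u)}) else 0 with hc
  have hn1 : hn u R κ Q n ≤ 1 := by
    unfold RatioR872.hn
    exact prob_le_one
  have hcle : ∑' x, ∑' x', w x * w x' * c x x' ≤ 1 := by
    calc ∑' x, ∑' x', w x * w x' * c x x' ≤ ∑' x, ∑' x', w x * w x' * 1 := by
          refine ENNReal.tsum_le_tsum fun x => ENNReal.tsum_le_tsum fun x' => ?_
          gcongr
          simp only [hc]
          split_ifs
          · exact prob_le_one
          · exact zero_le_one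
      _ = 1 := by
          simp only [mul_one]
          simp_rw [ENNReal.tsum_mul_left, hw1, mul_one]
          exact hw1
  have key : ∀ x x' (h : lev u x = lev u x'),
      PIm κ Q x x' (bc u R 0 n ⟨(x, x'), h⟩) + c x x' = hn u R κ Q n ^ 2 ∧
      PSm κ Q x x' (bc u R 0 n ⟨(x, x'), h⟩) + c x x' = PSm κ Q x x' (both u R n) := by
    intro x x' h
    set t : SP u := ⟨(x, x'), h⟩ with ht
    have hmN : MeasurableSet (both u R n ∩ {p | NoC R 0 n ((t, p) : Om u)}) :=
      B6I.measurableSet_of_dt (fun p hp => both_al p hp.1)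
        ((dt_both u R n).inter (B6I.dt_noC (Nat.zero_le n) t))
    have e2 : both u R n = bc u R 0 n t ∪ (both u R n ∩ {p | NoC R 0 n ((t, p) : Om u)}) := by
      ext p
      constructor
      · intro hp
        by_cases h : NoC R 0 n ((t, p) : Om u)
        · exact Or.inr ⟨hp, h⟩
        · exact Or.inl ⟨hp, h⟩
      · rintro (hp | hp)
        · exact hp.1
        · exact hp.1
    have hdis : Disjoint (bc u R 0 n t) (both u R n ∩ {p | NoC R 0 n ((t, p) : Om u)}) := by
      rw [Set.disjoint_left]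
      rintro p hp hq
      exact hp.2 hq.2
    have e3 : PSm κ Q x x' (both u R n ∩ {p | NoC R 0 n ((t, p) : Om u)})
        = PIm κ Q x x' (both u R n ∩ {p | NoC R 0 n ((t, p) : Om u)}) :=
      B6I.PS_eq_PI_set (κ := κ) hR t (fun p hp => both_al p hp.1)
        ((dt_both u R n).inter (B6I.dt_noC (Nat.zero_le n) t)) (fun p hp => hp.2)
    have e4 : PIm κ Q x x' (both u R n) = hn u R κ Q n ^ 2 := by
      have : both u R n = {M : MPath d | Nt u R 0 n M} ×ˢ {M : MPath d | Nt u R 0 n M} := rfl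
      rw [this, B6I.PIm, Measure.prod_prod, hn_eq_Nt u R κ Q hstat, hn_eq_Nt u R κ Q hstat, sq]
    have ec : c x x' = PSm κ Q x x' (both u R n ∩ {p | NoC R 0 n ((t, p) : Om u)}) := by
      simp only [hc, dif_pos h]
      rfl
    constructor
    · rw [ec, e3, ← measure_union hdis hmN, ← e2, e4]
    · rw [ec, ← measure_union hdis hmN, ← e2]
  -- Cauchy-Schwarz
  have hCS : hn u R κ Q n ^ 2 ≤ ∑' x, ∑' x', w x * w x' * (if lev u x = lev u x' then
      PSm κ Q x x' (both u R n) else 0) := by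
    set f : Environment d → ℝ≥0∞ := fun ω => ∑' x, w x * mkLaw κ ω x {M | Nt u R 0 n M} with hf
    have hfm : Measurable f := Measurable.ennreal_tsum fun x =>
      (measurable_mk_apply κ x (meas_Nt u R n)).const_mul _
    have h1 : ∫⁻ ω, f ω ∂Q = hn u R κ Q n := by
      simp only [hf]
      rw [lintegral_tsum fun x => ((measurable_mk_apply κ x (meas_Nt u R n)).const_mul _).aemeasurable]
      have : ∀ x, ∫⁻ ω, w x * mkLaw κ ω x {M | Nt u R 0 n M} ∂Q = w x * hn u R κ Q n := by
        intro x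
        rw [lintegral_const_mul _ (measurable_mk_apply κ x (meas_Nt u R n)),
          ← mkAnn_apply κ Q x (meas_Nt u R n), hn_eq_Nt u R κ Q hstat]
      simp_rw [this]
      rw [ENNReal.tsum_mul_right, hw1, one_mul]
    have h2 : ∫⁻ ω, f ω * f ω ∂Q ≤ ∑' x, ∑' x', w x * w x' * (if lev u x = lev u x' then
        PSm κ Q x x' (both u R n) else 0) := by
      have e1 : ∀ ω, f ω * f ω = ∑' x, ∑' x', (w x * w x') *
          (mkLaw κ ω x {M | Nt u R 0 n M} * mkLaw κ ω x' {M | Nt u R 0 n M}) := by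
        intro ω
        simp only [hf]
        rw [← ENNReal.tsum_mul_right]
        refine tsum_congr fun x => ?_
        rw [← ENNReal.tsum_mul_left]
        exact tsum_congr fun x' => by ring
      simp_rw [e1]
      have hm : ∀ x x', Measurable fun ω : Environment d => (w x * w x') *
          (mkLaw κ ω x {M | Nt u R 0 n M} * mkLaw κ ω x' {M | Nt u R 0 n M}) := fun x x' =>
        ((measurable_mk_apply κ x (meas_Nt u R n)).mul
          (measurable_mk_apply κ x' (meas_Nt u R n))).const_mul _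
      rw [lintegral_tsum fun x => (Measurable.ennreal_tsum fun x' => hm x x').aemeasurable]
      refine ENNReal.tsum_le_tsum fun x => ?_
      rw [lintegral_tsum fun x' => (hm x x').aemeasurable]
      refine ENNReal.tsum_le_tsum fun x' => ?_
      by_cases hx : lev u x = a
      · by_cases hx' : lev u x' = a
        · have hk : Measurable fun ω : Environment d =>
              mkLaw κ ω x {M | Nt u R 0 n M} * mkLaw κ ω x' {M | Nt u R 0 n M} :=
            (measurable_mk_apply κ x (meas_Nt u R n)).mul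
              (measurable_mk_apply κ x' (meas_Nt u R n))
          rw [if_pos (hx.trans hx'.symm), lintegral_const_mul _ hk,
            ← B6I.PSm_prod κ Q x x' (meas_Nt u R n) (meas_Nt u R n)]
          rfl
        · simp [hw x' hx']
      · simp [hw x hx]
    refine le_trans ?_ h2
    rw [← h1, sq]
    have := ENNReal.lintegral_mul_le_Lp_mul_Lq Q (p := 2) (q := 2)
      (by constructor <;> norm_num) hfm.aemeasurable (aemeasurable_const (b := (1 : ℝ≥0∞)))
    simp only [Pi.mul_apply, mul_one, ENNReal.one_rpow, lintegral_const, measure_univ] at this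
    have h4 : ∫⁻ ω, f ω ∂Q ≤ (∫⁻ ω, f ω ^ (2 : ℝ) ∂Q) ^ ((1 : ℝ) / 2) := this
    have h5 : (∫⁻ ω, f ω ∂Q) * (∫⁻ ω, f ω ∂Q) ≤ ∫⁻ ω, f ω ^ (2 : ℝ) ∂Q := by
      calc (∫⁻ ω, f ω ∂Q) * (∫⁻ ω, f ω ∂Q)
          ≤ (∫⁻ ω, f ω ^ (2 : ℝ) ∂Q) ^ ((1 : ℝ) / 2) * (∫⁻ ω, f ω ^ (2 : ℝ) ∂Q) ^ ((1 : ℝ) / 2) :=
            mul_le_mul' h4 h4
        _ = ∫⁻ ω, f ω ^ (2 : ℝ) ∂Q := by
            rw [← ENNReal.rpow_add_of_nonneg _ _ (by norm_num) (by norm_num)]
            norm_num
    refine h5.trans (le_of_eq (lintegral_congr fun ω => ?_))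
    rw [ENNReal.rpow_two, sq]
  have hsum1 : (∑' x, ∑' x', w x * w x' * (if h : lev u x = lev u x' then
      PIm κ Q x x' (bc u R 0 n ⟨(x, x'), h⟩) else 0)) + ∑' x, ∑' x', w x * w x' * c x x'
      = hn u R κ Q n ^ 2 := by
    rw [← ENNReal.tsum_add]
    have : ∀ x, (∑' x', w x * w x' * (if h : lev u x = lev u x' then
        PIm κ Q x x' (bc u R 0 n ⟨(x, x'), h⟩) else 0)) + ∑' x', w x * w x' * c x x'
        = w x * hn u R κ Q n ^ 2 := by
      intro x
      rw [← ENNReal.tsum_add]
      have h3 : ∀ x', w x * w x' * (if h : lev u x = lev u x' then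
          PIm κ Q x x' (bc u R 0 n ⟨(x, x'), h⟩) else 0) + w x * w x' * c x x'
          = w x * hn u R κ Q n ^ 2 * w x' := by
        intro x'
        by_cases hx : lev u x = a
        · by_cases hx' : lev u x' = a
          · have h := hx.trans hx'.symm
            rw [dif_pos h, ← mul_add, (key x x' h).1]
            ring
          · simp [hw x' hx']
        · simp [hw x hx]
      simp_rw [h3]
      rw [ENNReal.tsum_mul_left, hw1, mul_one]
    simp_rw [this]
    rw [ENNReal.tsum_mul_right, hw1, one_mul]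
  have hsum2 : en u R κ Q a b w + ∑' x, ∑' x', w x * w x' * c x x'
      = ∑' x, ∑' x', w x * w x' * (if lev u x = lev u x' then
      PSm κ Q x x' (both u R n) else 0) := by
    unfold en
    rw [← ENNReal.tsum_add]
    refine tsum_congr fun x => ?_
    rw [← ENNReal.tsum_add]
    refine tsum_congr fun x' => ?_
    by_cases h : lev u x = lev u x'
    · rw [← mul_add, if_pos h, ← (key x x' h).2]
      unfold Kc
      rw [dif_pos h]
    · unfold Kc
      simp only [hc]
      rw [dif_neg h, dif_neg h, if_neg h]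
      simp
  refine (ENNReal.add_le_add_iff_right (ne_top_of_le_ne_top ENNReal.one_ne_top hcle)).1 ?_
  rw [hsum1, hsum2]
  exact hCS

/-- **self contact**: the average over `w × w` of the contacts of two killed climbs -/
theorem self_le (hstat : ∀ z : Site d, MeasurePreserving (shiftEnv z) Q Q)
    (hR : IsFiniteRangeDependent Q R) (s : ℝ≥0∞) {a b : ℕ} (hab : a ≤ b)
    {w : Site d → ℝ≥0∞} (hw1 : ∑' x, w x = 1) (hw : ∀ x, lev u x ≠ a → w x = 0)
    (T : Set (Site d)) :
    s ^ 2 * ∑' x, ∑' x', w x * w x' * mt u R κ Q s b T T x x' ≤ en u R κ Q a b w := by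
  refine le_trans ?_ (avg_bc u R κ Q hstat hR hw1 hw)
  rw [← ENNReal.tsum_mul_left]
  refine ENNReal.tsum_le_tsum fun x => ?_
  rw [← ENNReal.tsum_mul_left]
  refine ENNReal.tsum_le_tsum fun x' => ?_
  by_cases hx : lev u x = a
  · by_cases hx' : lev u x' = a
    · have h := hx.trans hx'.symm
      rw [dif_pos h]
      calc s ^ 2 * (w x * w x' * mt u R κ Q s b T T x x')
          = w x * w x' * (s ^ 2 * mt u R κ Q s b T T x x') := by ring
        _ ≤ w x * w x' * PIm κ Q x x' (bc u R 0 (b - a) ⟨(x, x'), h⟩) := by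
            gcongr
            refine (mt_le u R κ Q s b T T x x').trans (measure_mono ?_)
            have hb := lev_add_sub u hab hx
            rw [hb]
            exact ct2_sub u R h T T
    · simp [hw x' hx']
  · simp [hw x hx]

end nat

end Crest.Agent.R154.KS480
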