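import Crest.Agent.R154.KSDefs_480

/-! Row 154, B8, TILE, (KS): the statements of the two halves of the K-set bound of the unconfined
tile and its final form (helper480). -/

set_option autoImplicit false
set_option linter.unusedSectionVars false

namespace Crest.Agent.R154.KS480

open MeasureTheory ProbabilityTheory Set Filter Crest.ProbabilityR.RandomEnvironment
open Crest.Agent.R154.Mk561 Crest.Agent.R154.Q561
open Crest.Agent.R154.Flux132 (lev)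
open Crest.Agent.R154.RatioR872 Crest.Agent.R154.Tile872
open scoped ENNReal

variable {d : ℕ}

section defs

variable (u : Step d) (R : ℕ) (κ : ℝ) (Q : Measure (Environment d)) [IsProbabilityMeasure Q]

/-- exit energies of pairs of natural climbs from level `a` to level `b`, horizon `c`, at most
`ε` (SmallEnergy) -/
def ExitE (a b c : ℕ) (ε : ℝ≥0∞) : Prop :=
  ∀ x x' : Site d, lev u x = a → lev u x' = a →
    ∑' z, ∑' z', (∫⁻ ω, gk u R κ b ω x z * gk u R κ b ω x' z' ∂Q) * Kc u R κ Q b c z z' ≤ ε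

/-- good move of the KILLED climb into `T`: mass at least `γ`, exit energy at most `κ₁ γ²` -/
def GoodD (s : ℝ≥0∞) (b c : ℕ) (T : Set (Site d)) (γ κ₁ : ℝ≥0∞) (w : Site d → ℝ≥0∞) :
    Set (Environment d) :=
  {ω | γ ≤ Fd u R κ Q s b T w ω ∧ en u R κ Q b c (outd u R κ Q s b T w ω) ≤ κ₁ * γ ^ 2}

/-- **(KSm)**, mass half, for ONE target family -/
def KSm (g s γ κ₁ κx q : ℝ≥0∞) : Prop :=
  ∀ (a b : ℕ), a ≤ b → ∀ (ι : Type) (S T : ι → Set (Site d)),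
    (∀ l, ∀ x ∈ S l, lev u x = a) →
    (∀ l, ∀ x ∈ S l, g ≤ mkAnn κ Q x (succ u R b (T l) x)) →
    ROW u R κ Q s b S T κx →
    ∀ (w : ι → Site d → ℝ≥0∞) (K : Finset ι), (∀ l ∈ K, w l ∈ Cls u R κ Q (S l) a b κ₁) →
      Q {ω | ∀ l ∈ K, Fd u R κ Q s b (T l) (w l) ω < γ} ≤ q ^ K.card

/-- **(KSe)**, energy half, for ONE target family -/
def KSe (s γ κ₁ κx ε q : ℝ≥0∞) : Prop :=
  ∀ (a b c : ℕ), a ≤ b → b ≤ c → ∀ (ι : Type) (S T : ι → Set (Site d)),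
    (∀ l, ∀ x ∈ S l, lev u x = a) →
    ROW u R κ Q s b S T κx → ExitE u R κ Q a b c ε →
    ∀ (w : ι → Site d → ℝ≥0∞) (K : Finset ι), (∀ l ∈ K, w l ∈ Cls u R κ Q (S l) a b κ₁) →
      Q {ω | ∀ l ∈ K, κ₁ * γ ^ 2 < en u R κ Q b c (outd u R κ Q s b (T l) (w l) ω)} ≤ q ^ K.card

/-- **(KS)**, final form: two target families `T`, `T'` (own / right cell) -/
def KSf (g s γ κ₁ κx ε q : ℝ≥0∞) : Prop :=
  ∀ (a b c : ℕ), a ≤ b → b ≤ c → ∀ (ι : Type) (S T T' : ι → Set (Site d)),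
    (∀ l, ∀ x ∈ S l, lev u x = a) →
    (∀ l, ∀ x ∈ S l, g ≤ mkAnn κ Q x (succ u R b (T l) x)) →
    (∀ l, ∀ x ∈ S l, g ≤ mkAnn κ Q x (succ u R b (T' l) x)) →
    ROW u R κ Q s b S T κx → ROW u R κ Q s b S T' κx → ExitE u R κ Q a b c ε →
    ∀ (w : ι → Site d → ℝ≥0∞) (K : Finset ι), (∀ l ∈ K, w l ∈ Cls u R κ Q (S l) a b κ₁) →
      Q {ω | ∀ l ∈ K, ω ∉ GoodD u R κ Q s b c (T l) γ κ₁ (w l) ∩
        GoodD u R κ Q s b c (T' l) γ κ₁ (w l)} ≤ q ^ K.card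

end defs

end Crest.Agent.R154.KS480
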