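import Crest.Agent.R154.KSCt_480

/-! Row 154, B8, TILE, (KS): the mass half of the K-set bound (helper480), by 402's `K2_le`. -/

set_option autoImplicit false
set_option linter.unusedSectionVars false
set_option linter.deprecated false

namespace Crest.Agent.R154.KS480

open MeasureTheory ProbabilityTheory Set Filter Crest.ProbabilityR.RandomEnvironment
open Crest.Agent.R154.Ren263 (Det)
open Crest.Agent.R154.Mk561 Crest.Agent.R154.Q561
open Crest.Agent.R154.Flux132 (lev)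
open Crest.Agent.R154.RatioR872 Crest.Agent.R154.Tile872
open Crest.Agent.R154.Cont (fWS fHist fHist_eq_iff rdM rdSpace_fWS)
open scoped ENNReal

variable {d : ℕ}

section half

variable (u : Step d) (R : ℕ) (κ : ℝ) (Q : Measure (Environment d)) [IsProbabilityMeasure Q]
variable (s : ℝ≥0∞) (b : ℤ)

/-- the contact rule -/
noncomputable abbrev rdC : Con (fWS u) R := Con.kapCon (rdSpace_fWS u) R

/-- contact probability of two tests -/
lemma meet_eq {ι : Type} [Fintype ι] [DecidableEq ι] [Nonempty ι] (T : ι → Set (Site d)) (w : ι → Site d → ℝ≥0∞) (l l' : ι)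
    (hw' : ∑' x, w l' x = 1) :
    ((Q.bind (smK κ (nu (w l)))).prod (Q.bind (smK κ (nu (w l')))))
        (KExp.meet (rdC u R) (fun l => tauS u R κ Q s b (T l)) l l')
      = ∑' x, ∑' x', w l x * w l' x' * mt u R κ Q s b (T l) (T l') x x' := by
  rw [prod_bind_smK κ Q hw' (KExp.measurableSet_meet (rdC u R) _
    (fun l => isStop_tauS u R κ Q s b (T l) u) l l')]
  refine tsum_congr fun x => tsum_congr fun x' => ?_
  congr 1
  unfold mt
  congr 1
  ext p
  simp only [mem_setOf_eq]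
  rw [mem_meet_kapCon]
  constructor
  · rintro ⟨n, j, h1, h2, h3, h4, h5⟩
    exact ⟨j, n, h2, h1, h4, h3, h5⟩
  · rintro ⟨j, n, h2, h1, h4, h3, h5⟩
    exact ⟨n, j, h1, h2, h3, h4, h5⟩

/-- contacts with the other tests, from (ROW) -/
lemma other_le {ι : Type} {S T : ι → Set (Site d)} {κx : ℝ≥0∞}
    (hrow : ROW u R κ Q s b S T κx) {w : ι → Site d → ℝ≥0∞} {l : ι} (K : Finset ι)
    (hl : l ∉ K) (hw1 : ∑' x, w l x = 1) (hwS : ∀ x, x ∉ S l → w l x = 0)
    (hK1 : ∀ l' ∈ K, ∑' x, w l' x = 1) (hKS : ∀ l' ∈ K, ∀ x, x ∉ S l' → w l' x = 0) :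
    ∑ l' ∈ K, ∑' x, ∑' x', w l x * w l' x' * mt u R κ Q s b (T l) (T l') x x' ≤ κx := by
  have h1 : ∀ l' ∈ K, ∑' x, ∑' x', w l x * w l' x' * mt u R κ Q s b (T l) (T l') x x'
      ≤ ∑' x, w l x * ⨆ x' ∈ S l', mt u R κ Q s b (T l) (T l') x x' := by
    intro l' hl'
    refine ENNReal.tsum_le_tsum fun x => ?_
    calc ∑' x', w l x * w l' x' * mt u R κ Q s b (T l) (T l') x x'
        ≤ ∑' x', w l x * (⨆ y ∈ S l', mt u R κ Q s b (T l) (T l') x y) * w l' x' := by
          refine ENNReal.tsum_le_tsum fun x' => ?_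
          by_cases hx' : x' ∈ S l'
          · calc w l x * w l' x' * mt u R κ Q s b (T l) (T l') x x'
                ≤ w l x * w l' x' * ⨆ y ∈ S l', mt u R κ Q s b (T l) (T l') x y := by
                  gcongr
                  exact le_iSup₂ (f := fun y (_ : y ∈ S l') => mt u R κ Q s b (T l) (T l') x y)
                    x' hx'
              _ = _ := by ring
          · simp [hKS l' hl' x' hx']
      _ = w l x * ⨆ y ∈ S l', mt u R κ Q s b (T l) (T l') x y := by
          rw [ENNReal.tsum_mul_left, hK1 l' hl', mul_one]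
  calc ∑ l' ∈ K, ∑' x, ∑' x', w l x * w l' x' * mt u R κ Q s b (T l) (T l') x x'
      ≤ ∑ l' ∈ K, ∑' x, w l x * ⨆ x' ∈ S l', mt u R κ Q s b (T l) (T l') x x' :=
        Finset.sum_le_sum h1
    _ = ∑' x, w l x * ∑ l' ∈ K, ⨆ x' ∈ S l', mt u R κ Q s b (T l) (T l') x x' := by
        rw [← Summable.tsum_finsetSum fun _ _ => ENNReal.summable]
        exact tsum_congr fun x => (Finset.mul_sum _ _ _).symm
    _ ≤ ∑' x, w l x * κx := by
        refine ENNReal.tsum_le_tsum fun x => ?_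
        by_cases hx : x ∈ S l
        · gcongr
          exact hrow l x hx K hl
        · simp [hwS x hx]
    _ = κx := by rw [ENNReal.tsum_mul_right, hw1, one_mul]

lemma goodS_mass (T : Set (Site d)) (w : Site d → ℝ≥0∞) (ω : Environment d) :
    smK κ (nu w) ω (goodS u R κ Q s b T) = Fd u R κ Q s b T w ω := by
  rw [smK_nu κ w ω (measurable_goodS u R κ Q s b T)]
  rfl

end half

section main

variable (u : Step d) (R : ℕ) (κ : ℝ) (Q : Measure (Environment d)) [IsProbabilityMeasure Q]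

/-- **(KSm)**, explicit form -/
theorem ksm_explicit (hstat : ∀ z : Site d, MeasurePreserving (shiftEnv z) Q Q)
    (hR : IsFiniteRangeDependent Q R) {g q kt : ℝ≥0∞} (hg0 : g ≠ 0) (hg1 : g ≤ 1) {M : ℕ}
    (hM : (1 - g / 8) ^ M ≤ q) (hkt0 : kt ≠ 0) (hktt : kt ≠ ∞) (hkt : 2 * (M * kt) ≤ (g / 16) ^ 2) :
    KSm u R κ Q g (g / 2) (g / 8) ((g / 2) ^ 2 * (kt / 2)) (kt / 2) q := by
  classical
  intro a b hab ι S T hS hgS hrow w K hw
  have hgt : g ≠ ∞ := ne_top_of_le_ne_top ENNReal.one_ne_top hg1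
  set s : ℝ≥0∞ := g / 2 with hs
  have hs0 : s ≠ 0 := (ENNReal.div_pos hg0 (by norm_num)).ne'
  have hst : s ≠ ∞ := ENNReal.div_ne_top hgt (by norm_num)
  set x : ℝ≥0∞ := g / 16 with hx
  have hx0 : x ≠ 0 := (ENNReal.div_pos hg0 (by norm_num)).ne'
  have e8 : 8 * x = s := by
    rw [hx, hs, div_eq_mul_inv, div_eq_mul_inv, mul_left_comm]
    congr 1
    rw [show (16 : ℝ≥0∞) = 8 * 2 by norm_num, ENNReal.mul_inv (Or.inl (by norm_num))
      (Or.inl (by norm_num)), ← mul_assoc, ENNReal.mul_inv_cancel (by norm_num) (by norm_num),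
      one_mul]
  have e2 : 2 * x = g / 8 := by
    rw [hx, div_eq_mul_inv, div_eq_mul_inv, mul_left_comm]
    congr 1
    rw [show (16 : ℝ≥0∞) = 2 * 8 by norm_num, ENNReal.mul_inv (Or.inl (by norm_num))
      (Or.inl (by norm_num)), ← mul_assoc, ENNReal.mul_inv_cancel (by norm_num) (by norm_num),
      one_mul]
  rcases K.eq_empty_or_nonempty with hK | hK
  · subst hK
    simp
  have hne : Nonempty {l // l ∈ K} := ⟨⟨hK.choose, hK.choose_spec⟩⟩
  have hpr : ∀ l : {l // l ∈ K}, IsProbabilityMeasure (nu (w l)) := fun l => nu_prob (hw l l.2).1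
  have hker : ∀ l : {l // l ∈ K}, IsMarkovKernel (smK (d := d) κ (nu (w l))) := fun l => by
    have := hpr l
    infer_instance
  have hwa : ∀ l ∈ K, ∀ y, lev u y ≠ a → w l y = 0 := fun l hl y hy =>
    (hw l hl).2.1 y fun h => hy (hS l y h)
  have key := KExp.K2_le (rdC u R) Q (fun l : {l // l ∈ K} => smK κ (nu (w l)))
    (fun l => tauS u R κ Q s b (T l)) (indepAt_of_finiteRange hR)
    (fun l => isStop_tauS u R κ Q s b (T l) u) (fun l => goodS u R κ Q s b (T l))
    (fun l => detBy_goodS u R κ Q s b (T l) u) (fun l => measurable_goodS u R κ Q s b (T l))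
    (fun l X hX => goodS_tau u R κ Q s b (T l) hX)
    (fun l => readsOnly_smKf u Q κ (nu (w l))) (x := x) (κ := kt) hx0
    (by rw [e8]; exact (ENNReal.half_le_self).trans hg1) ?_ hkt0 hktt ?_ ∅ ?_
    (M * K.card) ?_ (Φ := fun _ => 1) measurable_const
  · -- conclusion
    simp only [lintegral_const, measure_univ, mul_one, one_mul] at key
    rw [Measure.restrict_apply_univ] at key
    refine le_trans (measure_mono ?_) (key.trans ?_)
    · intro ω hω l
      have := hω l l.2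
      rw [goodS_mass u R κ Q s b (T l) (w l) ω, e2]
      exact this.le
    · rw [e2, pow_mul]
      gcongr
  · -- success
    intro l
    rw [bind_smK κ Q (w l) (measurable_goodS u R κ Q s b (T l)), e8]
    calc s = ∑' y, w l y * s := by rw [ENNReal.tsum_mul_right, (hw l l.2).1, one_mul]
      _ ≤ _ := ENNReal.tsum_le_tsum fun y => by
          by_cases hy : y ∈ S l
          · gcongr
            have h1 := (hgS l y hy).trans (succ_le_good u R κ Q s b (T l) y)
            have h2 : s + s ≤ mkAnn κ Q y (good u R κ Q s b (T l) y) + s := by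
              rw [hs, ENNReal.add_halves]
              exact h1
            exact (ENNReal.add_le_add_iff_right hst).1 h2
          · simp [(hw l l.2).2.1 y hy]
  · -- contacts
    intro l
    have e : ∀ l' : {l // l ∈ K}, ((Q.bind (smK κ (nu (w l)))).prod (Q.bind (smK κ (nu (w l')))))
        (KExp.meet (rdC u R) (fun l : {l // l ∈ K} => tauS u R κ Q s b (T l)) l l')
        = ∑' x, ∑' x', w l x * w l' x' * mt u R κ Q s b (T l) (T l') x x' := fun l' =>
      meet_eq u R κ Q s b (fun l : {l // l ∈ K} => T l) (fun l : {l // l ∈ K} => w l) l l'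
        (hw l' l'.2).1
    rw [Finset.sum_congr rfl fun l' _ => e l', ← Finset.add_sum_erase _ _ (Finset.mem_univ l)]
    have hself : ∑' x, ∑' x', w l x * w l x' * mt u R κ Q s b (T l) (T l) x x' ≤ kt / 2 := by
      have h1 := (self_le u R κ Q hstat hR s hab (hw l l.2).1 (hwa l l.2) (T l)).trans
        (hw l l.2).2.2
      exact (ENNReal.mul_le_mul_iff_right (pow_ne_zero 2 hs0) (ENNReal.pow_ne_top hst)).1 h1
    have hoth : ∑ l' ∈ (Finset.univ : Finset {l // l ∈ K}).erase l,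
        ∑' x, ∑' x', w l x * w l' x' * mt u R κ Q s b (T l) (T l') x x' ≤ kt / 2 := by
      have h1 := other_le u R κ Q s b hrow (w := w) (l := (l : ι))
        (((Finset.univ : Finset {l // l ∈ K}).erase l).map (Function.Embedding.subtype _))
        (by simp) (hw l l.2).1 (hw l l.2).2.1
        (fun l' hl' => by
          obtain ⟨y, _, rfl⟩ := Finset.mem_map.1 hl'
          exact (hw y y.2).1)
        (fun l' hl' => by
          obtain ⟨y, _, rfl⟩ := Finset.mem_map.1 hl'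
          exact (hw y y.2).2.1)
      rw [Finset.sum_map] at h1
      exact h1
    calc _ ≤ kt / 2 + kt / 2 := add_le_add hself hoth
      _ = kt := ENNReal.add_halves kt
  · -- no load at the start
    simp only [KExp.cc_empty, Finset.sum_const_zero, mul_zero]
    exact zero_le
  · rw [Fintype.card_coe]
    push_cast
    calc 2 * ((M : ℝ≥0∞) * (K.card : ℝ≥0∞) * kt) = 2 * (M * kt) * K.card := by ring
      _ ≤ (g / 16) ^ 2 * K.card := by gcongr
      _ = x ^ 2 * K.card := by rw [hx]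

/-- **(KSm)**, the mass half of (KS): `s = g/2`, `γ = g/8` -/
theorem ksm (hstat : ∀ z : Site d, MeasurePreserving (shiftEnv z) Q Q)
    (hR : IsFiniteRangeDependent Q R) {g q : ℝ≥0∞} (hg0 : g ≠ 0) (hg1 : g ≤ 1) (hq0 : q ≠ 0) :
    ∃ κ₁ κx : ℝ≥0∞, κ₁ ≠ 0 ∧ κ₁ ≤ 1 ∧ κx ≠ 0 ∧ κx ≤ 1 ∧ KSm u R κ Q g (g / 2) (g / 8) κ₁ κx q := by
  have hgt : g ≠ ∞ := ne_top_of_le_ne_top ENNReal.one_ne_top hg1
  have h1 : 1 - g / 8 < 1 := by
    refine ENNReal.sub_lt_self ENNReal.one_ne_top one_ne_zero ?_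
    exact (ENNReal.div_pos hg0 (by norm_num)).ne'
  obtain ⟨M, hM⟩ : ∃ M : ℕ, (1 - g / 8) ^ M < q :=
    ((ENNReal.tendsto_pow_atTop_nhds_zero_of_lt_one h1).eventually_lt_const
      (pos_iff_ne_zero.2 hq0)).exists
  set kt : ℝ≥0∞ := (g / 16) ^ 2 / (2 * (M + 1)) with hkt
  have hg16 : g / 16 ≠ 0 := (ENNReal.div_pos hg0 (by norm_num)).ne'
  have hg16' : g / 16 ≤ 1 := ENNReal.div_le_of_le_mul (hg1.trans (by norm_num))
  have hM1 : (2 * ((M : ℝ≥0∞) + 1)) ≠ 0 := by positivity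
  have hM2 : (2 * ((M : ℝ≥0∞) + 1)) ≠ ∞ :=
    ENNReal.mul_ne_top (by norm_num) (ENNReal.add_ne_top.2 ⟨ENNReal.natCast_ne_top M, by simp⟩)
  have hkt0 : kt ≠ 0 := (ENNReal.div_pos (pow_ne_zero 2 hg16) hM2).ne'
  have hkt1 : kt ≤ 1 := by
    refine ENNReal.div_le_of_le_mul ?_
    rw [one_mul]
    calc (g / 16) ^ 2 ≤ 1 := pow_le_one' hg16' 2
      _ ≤ 2 * ((M : ℝ≥0∞) + 1) := by
          calc (1 : ℝ≥0∞) = 1 * 1 := by simp
            _ ≤ 2 * ((M : ℝ≥0∞) + 1) := by
                gcongr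
                · norm_num
                · exact le_add_self
  have hktt : kt ≠ ∞ := ne_top_of_le_ne_top ENNReal.one_ne_top hkt1
  have hkt2 : 2 * (M * kt) ≤ (g / 16) ^ 2 := by
    calc 2 * ((M : ℝ≥0∞) * kt) ≤ 2 * ((M + 1) * kt) := by gcongr; exact le_self_add
      _ = (2 * ((M : ℝ≥0∞) + 1)) * kt := by ring
      _ = (g / 16) ^ 2 := by rw [hkt, ENNReal.mul_div_cancel hM1 hM2]
  have hk2 : kt / 2 ≠ 0 := (ENNReal.div_pos hkt0 (by norm_num)).ne'
  have hk21 : kt / 2 ≤ 1 := ENNReal.half_le_self.trans hkt1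
  have hg2 : g / 2 ≠ 0 := (ENNReal.div_pos hg0 (by norm_num)).ne'
  have hg21 : g / 2 ≤ 1 := ENNReal.half_le_self.trans hg1
  refine ⟨(g / 2) ^ 2 * (kt / 2), kt / 2, mul_ne_zero (pow_ne_zero 2 hg2) hk2, ?_, hk2, hk21,
    ksm_explicit u R κ Q hstat hR hg0 hg1 hM.le hkt0 hktt hkt2⟩
  calc (g / 2) ^ 2 * (kt / 2) ≤ 1 * 1 := by
        gcongr
        exact pow_le_one' hg21 2
    _ = 1 := by simp

lemma ROW.mono' {s : ℝ≥0∞} {b : ℤ} {ι : Type} {S T : ι → Set (Site d)} {κx κx' : ℝ≥0∞}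
    (h : κx ≤ κx') (hr : ROW u R κ Q s b S T κx) : ROW u R κ Q s b S T κx' :=
  fun l x hx K hl => (hr l x hx K hl).trans h

lemma Cls_mono {S : Set (Site d)} {a b : ℕ} {κ₁ κ₁' : ℝ≥0∞} (h : κ₁ ≤ κ₁') :
    Cls u R κ Q S a b κ₁ ⊆ Cls u R κ Q S a b κ₁' := fun _ hw => ⟨hw.1, hw.2.1, hw.2.2.trans h⟩

lemma KSm.mono {g s γ κ₁ κ₁' κx κx' q : ℝ≥0∞} (h1 : κ₁ ≤ κ₁') (hx : κx ≤ κx')
    (h : KSm u R κ Q g s γ κ₁' κx' q) : KSm u R κ Q g s γ κ₁ κx q := by
  intro a b hab ι S T hS hg hrow w K hw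
  exact h a b hab ι S T hS hg (ROW.mono' u R κ Q hx hrow) w K fun l hl =>
    Cls_mono u R κ Q h1 (hw l hl)

end main

end Crest.Agent.R154.KS480
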