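import Crest.Agent.R154.ContW_424
import Crest.Agent.R154.KExp_402

/-! Row 154, TILE (helper424): the flagged marked walk space `fWS u₀` of ContW_424 satisfies the
hypotheses of `Con.readCon` of 402 (`hflag`, `h0`). -/

set_option autoImplicit false
set_option linter.unusedVariables false

namespace Crest.Agent.R154

open MeasureTheory ProbabilityTheory Crest.ProbabilityR.RandomEnvironment
open scoped ENNReal

namespace Cont

variable {d : ℕ}

lemma h0_fWS (u₀ : Step d) (X : SMPath d) : (fWS u₀).read X 0 = ∅ := by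
  ext z
  simp [fWS, mkRead]

lemma hflag_fWS (u₀ : Step d) (n : ℕ) (X Y : SMPath d) (h : (fWS u₀).hist n X = (fWS u₀).hist n Y) :
    (fWS u₀).read X (n + 1) = (fWS u₀).read Y (n + 1) := by
  have h' : fHist n X = fHist n Y := h
  obtain ⟨h1, h2, h3⟩ := fHist_eq_iff.1 h'
  have hpos : ∀ i ≤ n, Mk561.pos X.1 X.2 i = Mk561.pos Y.1 Y.2 i := fun i hi =>
    (fWS u₀).pos_det i X Y ((fWS u₀).mono X Y hi h)
  have hfl : ∀ i < n + 1, (X.2 i).2 = (Y.2 i).2 := by
    intro i hi
    rcases Nat.lt_or_ge i n with h4 | h4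
    · rw [h2 i h4]
    · obtain rfl : i = n := by omega
      exact h3
  show mkRead X (n + 1) = mkRead Y (n + 1)
  ext z
  simp only [mkRead]
  constructor
  · rintro ⟨i, hi, h4, h5⟩
    exact ⟨i, hi, by rw [← hfl i hi]; exact h4, by rw [← hpos i (by omega)]; exact h5⟩
  · rintro ⟨i, hi, h4, h5⟩
    exact ⟨i, hi, by rw [hfl i hi]; exact h4, by rw [hpos i (by omega)]; exact h5⟩

/-- contact of read sites on the flagged marked walk space -/
noncomputable def fCon (u₀ : Step d) (R : ℕ) : Con (fWS u₀) R :=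
  Con.readCon (fWS u₀) R (hflag_fWS u₀) (h0_fWS u₀)

end Cont

end Crest.Agent.R154
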