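import Crest.Agent.R154.KSGoal_480
import Crest.Agent.R154.Dip_402
import Crest.Agent.R154.ConKap_402
import Crest.Agent.R154.WSf_424

/-! Row 154, B8, TILE, (KS): the tests as stopped walkers of the flagged walk space (helper480). -/

set_option autoImplicit false
set_option linter.unusedSectionVars false
set_option linter.deprecated false

namespace Crest.Agent.R154.KS480

open MeasureTheory ProbabilityTheory Set Filter Crest.ProbabilityR.RandomEnvironment
open Crest.Agent.R154.Ren263 (Det)
open Crest.Agent.R154.Mk561 Crest.Agent.R154.Q561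
open Crest.Agent.R154.Flux132 (lev)
open Crest.Agent.R154.RatioR872
open Crest.Agent.R154.Cont (fWS fHist fHist_eq_iff rdM rdSpace_fWS)
open scoped ENNReal

variable {d : ℕ}

/-! ### start laws -/

/-- the measure with weights `w` -/
noncomputable def nu (w : Site d → ℝ≥0∞) : Measure (Site d) :=
  Measure.sum fun x => w x • Measure.dirac x

lemma nu_apply (w : Site d → ℝ≥0∞) (x : Site d) : nu w {x} = w x := by
  classical
  unfold nu
  rw [Measure.sum_apply _ (measurableSet_singleton x), tsum_eq_single x]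
  · simp
  · intro y hy
    simp [hy]

lemma nu_univ (w : Site d → ℝ≥0∞) : nu w univ = ∑' x, w x := by
  unfold nu
  rw [Measure.sum_apply _ MeasurableSet.univ]
  simp

lemma nu_prob {w : Site d → ℝ≥0∞} (hw : ∑' x, w x = 1) : IsProbabilityMeasure (nu w) :=
  ⟨by rw [nu_univ, hw]⟩

lemma smK_nu (κ : ℝ) (w : Site d → ℝ≥0∞) (ω : Environment d) {A : Set (SMPath d)}
    (hA : MeasurableSet A) :
    smK κ (nu w) ω A = ∑' x, w x * mkLaw κ ω x {M | (x, M) ∈ A} := by
  rw [smK_apply κ (nu w) ω hA]
  refine tsum_congr fun x => ?_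
  rw [nu_apply, mul_comm]
  rfl

lemma readsOnly_smKf (u₀ : Step d) (Q : Measure (Environment d)) (κ : ℝ)
    (μ : Measure (Site d)) : (fWS u₀).ReadsOnly Q (smK κ μ) := by
  intro γ n
  obtain ⟨f, hf, hfe⟩ := Cont.readsOnly_smP u₀ Q κ γ.1 γ n
  refine ⟨fun ω => f ω * μ {γ.1}, hf.mul_const _, ?_⟩
  filter_upwards [hfe] with ω hω
  rw [← hω]
  have hm := (fWS u₀).measurableSet_cyl γ n
  rw [smK_apply κ μ ω hm, tsum_eq_single γ.1]
  · congr 1
    rw [smP_apply, smLaw, Measure.map_apply measurable_prodMk_left hm]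
  · intro x hx
    have : (fun M : MPath d => (x, M)) ⁻¹' ((fWS u₀).cyl γ n) = ∅ := by
      ext M
      simp only [Set.mem_preimage, Set.mem_empty_iff_false, iff_false]
      intro h
      have h' : fHist n (x, M) = fHist n γ := h
      rw [fHist_eq_iff] at h'
      exact hx h'.1
    rw [this]
    simp

/-- annealed law -/
lemma bind_smK (κ : ℝ) (Q : Measure (Environment d)) (w : Site d → ℝ≥0∞) {A : Set (SMPath d)}
    (hA : MeasurableSet A) :
    (Q.bind (smK κ (nu w))) A = ∑' x, w x * mkAnn κ Q x {M | (x, M) ∈ A} := by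
  rw [Measure.bind_apply hA (Kernel.measurable _).aemeasurable]
  simp only [smK_nu κ w _ hA]
  have hm : ∀ x : Site d, MeasurableSet {M : MPath d | (x, M) ∈ A} := fun x =>
    measurable_prodMk_left hA
  rw [lintegral_tsum fun x => ((measurable_mk_apply κ x (hm x)).const_mul _).aemeasurable]
  refine tsum_congr fun x => ?_
  rw [lintegral_const_mul _ (measurable_mk_apply κ x (hm x)), mkAnn_apply κ Q x (hm x)]

lemma bind_smK_eq (κ : ℝ) (Q : Measure (Environment d)) (w : Site d → ℝ≥0∞) :
    Q.bind (smK κ (nu w)) = Measure.sum fun x => w x • (mkAnn κ Q x).map (Prod.mk x) := by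
  refine Measure.ext fun A hA => ?_
  rw [bind_smK κ Q w hA, Measure.sum_apply _ hA]
  refine tsum_congr fun x => ?_
  rw [Measure.smul_apply, Measure.map_apply measurable_prodMk_left hA]
  rfl

lemma lintegral_bind_smK (κ : ℝ) (Q : Measure (Environment d)) (w : Site d → ℝ≥0∞)
    {f : SMPath d → ℝ≥0∞} (hf : Measurable f) :
    ∫⁻ X, f X ∂(Q.bind (smK κ (nu w))) = ∑' x, w x * ∫⁻ M, f (x, M) ∂(mkAnn κ Q x) := by
  rw [bind_smK_eq, lintegral_sum_measure]
  refine tsum_congr fun x => ?_
  rw [lintegral_smul_measure, lintegral_map hf measurable_prodMk_left]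
  rfl

/-- independent pair of annealed laws -/
lemma prod_bind_smK (κ : ℝ) (Q : Measure (Environment d)) [IsProbabilityMeasure Q]
    {w w' : Site d → ℝ≥0∞} (hw' : ∑' x, w' x = 1)
    {A : Set (SMPath d × SMPath d)} (hA : MeasurableSet A) :
    ((Q.bind (smK κ (nu w))).prod (Q.bind (smK κ (nu w')))) A
      = ∑' x, ∑' x', w x * w' x' * ((mkAnn κ Q x).prod (mkAnn κ Q x'))
          {p | ((x, p.1), (x', p.2)) ∈ A} := by
  have := nu_prob hw'
  have hP : IsProbabilityMeasure (Q.bind (smK κ (nu w'))) := inferInstance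
  rw [Measure.prod_apply hA, lintegral_bind_smK κ Q w (measurable_measure_prodMk_left hA)]
  refine tsum_congr fun x => ?_
  have hm1 : Measurable fun M : MPath d => ((x, M) : SMPath d) := measurable_prodMk_left
  have e1 : ∀ M : MPath d, (Q.bind (smK κ (nu w'))) (Prod.mk ((x, M) : SMPath d) ⁻¹' A)
      = ∑' x', w' x' * mkAnn κ Q x' {M' | ((x, M), (x', M')) ∈ A} := by
    intro M
    rw [bind_smK κ Q w' (measurable_prodMk_left hA)]
    rfl
  have hA2 : ∀ x' : Site d, MeasurableSet {p : MPath d × MPath d | ((x, p.1), (x', p.2)) ∈ A} := by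
    intro x'
    exact ((measurable_prodMk_left.comp measurable_fst).prodMk
      (measurable_prodMk_left.comp measurable_snd)) hA
  simp_rw [e1]
  rw [lintegral_tsum fun x' => Measurable.aemeasurable ?_, ← ENNReal.tsum_mul_left]
  · refine tsum_congr fun x' => ?_
    have hm : Measurable fun M : MPath d => mkAnn κ Q x' {M' | ((x, M), (x', M')) ∈ A} :=
      measurable_measure_prodMk_left (hA2 x')
    rw [lintegral_const_mul _ hm, Measure.prod_apply (hA2 x'), mul_assoc]
    rfl
  · exact (measurable_measure_prodMk_left (hA2 x')).const_mul _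

end Crest.Agent.R154.KS480
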