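import Crest.Agent.R154.KSLaw_480

/-! Row 154, B8, TILE, (KS): the killed climb as a stopped test, its annealed success probability
and its contacts (helper480). -/

set_option autoImplicit false
set_option linter.unusedSectionVars false
set_option linter.deprecated false

namespace Crest.Agent.R154.KS480

open MeasureTheory ProbabilityTheory Set Filter Crest.ProbabilityR.RandomEnvironment
open Crest.Agent.R154.Ren263 (Det)
open Crest.Agent.R154.Mk561 Crest.Agent.R154.Q561
open Crest.Agent.R154.Flux132 (lev)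
open Crest.Agent.R154.RatioR872
open Crest.Agent.R154.Cont (fWS fHist fHist_eq_iff rdM rdSpace_fWS)
open Crest.Agent.R154.B6I (Hit bf Alv Eqv Nt zt SP PP Om NoC tip th Al Dt PSm PIm ct)
open scoped ENNReal

variable {d : ℕ}

/-! ### `fst` -/

lemma fst_eq {p : ℕ → Prop} {m : ℕ} (h : p m) (h' : ∀ i < m, ¬ p i) : KExp.fst p = m := by
  refine le_antisymm (KExp.fst_le h) (le_iInf fun n => ?_)
  have : m ≤ n.1 := by
    by_contra hlt
    exact h' n.1 (by omega) n.2
  exact_mod_cast this

lemma lt_fst_iff {p : ℕ → Prop} {n : ℕ} : (n : ℕ∞) < KExp.fst p ↔ ∀ i ≤ n, ¬ p i := by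
  constructor
  · intro h i hi
    exact KExp.not_of_lt_fst (lt_of_le_of_lt (by exact_mod_cast hi) h)
  · intro h
    have h1 : ((n + 1 : ℕ) : ℕ∞) ≤ KExp.fst p := by
      refine le_iInf fun m => ?_
      have : n + 1 ≤ m.1 := by
        by_contra hlt
        exact h m.1 (by omega) m.2
      exact_mod_cast this
    refine lt_of_lt_of_le ?_ h1
    exact_mod_cast Nat.lt_succ_self n

section test

variable (u : Step d) (R : ℕ) (κ : ℝ) (Q : Measure (Environment d)) (s : ℝ≥0∞) (b : ℤ)
  (T : Set (Site d))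

/-- decision time on marked paths with start -/
noncomputable def tauS (X : SMPath d) : ℕ∞ := tau u R κ Q s b T X.1 X.2

/-- success without dip -/
def goodS : Set (SMPath d) := {X | X.2 ∈ good u R κ Q s b T X.1}

/-- first hit of level `b` -/
noncomputable def tb (X : SMPath d) : ℕ∞ := KExp.fst fun n => b ≤ lev u (pos X.1 X.2 n)

lemma CyF_congr' {M M' : MPath d} {n : ℕ} (h : ∀ i < n, M i = M' i) (hf : (M n).2 = (M' n).2) :
    CyF M n = CyF M' n := by
  ext Y
  simp only [CyF, mem_setOf_eq, hf]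
  refine and_congr ?_ Iff.rfl
  exact forall_congr' fun i => forall_congr' fun hi => by rw [h i hi]

lemma dp_congr' {x : Site d} {M M' : MPath d} {n : ℕ} (h : ∀ i < n, M i = M' i)
    (hf : (M n).2 = (M' n).2) :
    dp u R κ Q s b T x M n ↔ dp u R κ Q s b T x M' n := by
  unfold dp
  rw [CyF_congr' h hf]

lemma isStop_tauS (u₀ : Step d) : (fWS u₀).IsStop (tauS u R κ Q s b T) := by
  intro X Y n h hn
  have h' : fHist n X = fHist n Y := h
  rw [fHist_eq_iff] at h'
  obtain ⟨h1, h2, h3⟩ := h'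
  refine KExp.fst_eq_of (fun i hi => ?_) hn
  rw [h1, pos_congr Y.1 h2 hi]
  refine or_congr Iff.rfl (dp_congr' u R κ Q s b T (fun j hj => h2 j (by omega)) ?_)
  rcases Nat.lt_or_ge i n with h4 | h4
  · rw [h2 i h4]
  · obtain rfl : i = n := by omega
    exact h3

lemma isStop_tb (u₀ : Step d) : (fWS u₀).IsStop (tb u b) := by
  intro X Y n h hn
  have h' : fHist n X = fHist n Y := h
  rw [fHist_eq_iff] at h'
  obtain ⟨h1, h2, h3⟩ := h'
  refine KExp.fst_eq_of (fun i hi => ?_) hn
  rw [h1, pos_congr Y.1 h2 hi]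

lemma det_succM' (x : Site d) (m : ℕ) : Det m (succM u R b T x m) := by
  intro M M' h
  unfold succM
  simp only [mem_setOf_eq]
  rw [det_ClM u R x b m M M' h, pos_congr x h le_rfl]

lemma det_goodM' (x : Site d) (m : ℕ) : Det m (goodM u R κ Q s b T x m) := by
  intro M M' h
  unfold goodM
  simp only [mem_setOf_eq]
  rw [det_succM' u R b T x m M M' h]
  refine and_congr Iff.rfl (forall_congr' fun i => forall_congr' fun hi => not_congr ?_)
  exact dp_congr' u R κ Q s b T (fun j hj => h j (by omega)) (by rw [h i hi])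

lemma meas_succ' (x : Site d) : MeasurableSet (succ u R b T x) :=
  MeasurableSet.iUnion fun m => (det_succM' u R b T x m).measurableSet

lemma meas_good' (x : Site d) : MeasurableSet (good u R κ Q s b T x) :=
  MeasurableSet.iUnion fun m => (det_goodM' u R κ Q s b T x m).measurableSet

lemma tb_of_ClM {x : Site d} {m : ℕ} {M : MPath d} (h : M ∈ ClM u R x b m) :
    tb u b (x, M) = m :=
  fst_eq h.1.ge fun i hi => not_le.2 (h.2.1 i hi)

lemma tau_of_goodM {x : Site d} {m : ℕ} {M : MPath d} (h : M ∈ goodM u R κ Q s b T x m) :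
    tau u R κ Q s b T x M = m :=
  fst_eq (Or.inl h.1.1.1.ge) fun i hi => by
    rintro (h1 | h1)
    · exact absurd (h.1.1.2.1 i hi) (not_lt.2 h1)
    · exact h.2 i hi h1

lemma lt_tau_iff {x : Site d} {M : MPath d} {i : ℕ} : (i : ℕ∞) < tau u R κ Q s b T x M ↔
    (i : ℕ∞) < tb u b (x, M) ∧ ∀ j ≤ i, ¬ dp u R κ Q s b T x M j := by
  unfold tau tb
  rw [lt_fst_iff, lt_fst_iff, ← forall₂_and]
  exact forall₂_congr fun j _ => not_or

lemma goodS_tau {X : SMPath d} (h : X ∈ goodS u R κ Q s b T) :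
    tauS u R κ Q s b T X < ⊤ := by
  obtain ⟨m, hm⟩ := mem_iUnion.1 h
  have := tau_of_goodM u R κ Q s b T hm
  unfold tauS
  rw [this]
  exact ENat.natCast_lt_top m

lemma detBy_goodS (u₀ : Step d) :
    (fWS u₀).DetBy (tauS u R κ Q s b T) (fun X => X ∈ goodS u R κ Q s b T) := by
  have key : ∀ X Y : SMPath d, ∀ n : ℕ, fHist n X = fHist n Y → tauS u R κ Q s b T X = n →
      X ∈ goodS u R κ Q s b T → Y ∈ goodS u R κ Q s b T := by
    intro X Y n h hn hX
    obtain ⟨m, hm⟩ := mem_iUnion.1 hX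
    have h1 := tau_of_goodM u R κ Q s b T hm
    unfold tauS at hn
    rw [h1] at hn
    have hmn : m = n := by exact_mod_cast hn
    subst hmn
    rw [fHist_eq_iff] at h
    refine mem_iUnion.2 ⟨m, ?_⟩
    have h2 := (det_goodM' u R κ Q s b T X.1 m X.2 Y.2 h.2.1).1 hm
    rw [h.1] at h2
    exact h2
  intro X Y n h hn
  have hnY := isStop_tauS u R κ Q s b T u₀ X Y n h hn
  exact propext ⟨key X Y n h hn, key Y X n h.symm hnY⟩

lemma measurable_goodS : MeasurableSet (goodS u R κ Q s b T) := by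
  have : goodS u R κ Q s b T = ⋃ x : Site d, ({x} ×ˢ good u R κ Q s b T x : Set (SMPath d)) := by
    ext X
    simp only [goodS, mem_setOf_eq, mem_iUnion, mem_prod, mem_singleton_iff]
    constructor
    · intro h; exact ⟨X.1, rfl, h⟩
    · rintro ⟨x, hx, h⟩; rw [hx]; exact h
  rw [this]
  exact MeasurableSet.iUnion fun x => (measurableSet_singleton x).prod (meas_good' u R κ Q s b T x)

/-! ### fixed start: comparison with `Dip_402` -/

/-- annealed law with start -/
noncomputable def mu (x : Site d) : Measure (SMPath d) := (mkAnn κ Q x).map (Prod.mk x)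

/-- success on paths with start -/
def succS : Set (SMPath d) := {X | X.2 ∈ succ u R b T X.1}

lemma meas_succS : MeasurableSet (succS u R b T) := by
  have : succS u R b T = ⋃ x : Site d, ({x} ×ˢ succ u R b T x : Set (SMPath d)) := by
    ext X
    simp only [succS, mem_setOf_eq, mem_iUnion, mem_prod, mem_singleton_iff]
    constructor
    · intro h; exact ⟨X.1, rfl, h⟩
    · rintro ⟨x, hx, h⟩; rw [hx]; exact h
  rw [this]
  exact MeasurableSet.iUnion fun x => (measurableSet_singleton x).prod (meas_succ' u R b T x)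

lemma mu_apply (x : Site d) {A : Set (SMPath d)} (hA : MeasurableSet A) :
    mu κ Q x A = mkAnn κ Q x {M | (x, M) ∈ A} := by
  unfold mu
  rw [Measure.map_apply measurable_prodMk_left hA]
  rfl

lemma mem_cyl_iff (u₀ : Step d) {x : Site d} {M M' : MPath d} {n : ℕ} :
    ((x, M') : SMPath d) ∈ (fWS u₀).cyl (x, M) n ↔ M' ∈ CyF M n := by
  change fHist n (x, M') = fHist n (x, M) ↔ _
  rw [fHist_eq_iff]
  simp [CyF]

lemma low_iff (u₀ : Step d) (x : Site d) (M : MPath d) (n : ℕ) :
    Dip.low (fWS u₀) (mu κ Q x) (succS u R b T) s n (x, M) ↔ dp u R κ Q s b T x M n := by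
  unfold Dip.low dp
  have hc := (fWS u₀).measurableSet_cyl ((x, M) : SMPath d) n
  rw [mu_apply κ Q x ((meas_succS u R b T).inter hc), mu_apply κ Q x hc]
  have e1 : {M' | ((x, M') : SMPath d) ∈ succS u R b T ∩ (fWS u₀).cyl (x, M) n}
      = succ u R b T x ∩ CyF M n := by
    ext M'
    simp only [mem_setOf_eq, mem_inter_iff, mem_cyl_iff]
    rfl
  have e2 : {M' | ((x, M') : SMPath d) ∈ (fWS u₀).cyl (x, M) n} = CyF M n := by
    ext M'
    simp only [mem_setOf_eq, mem_cyl_iff]
  rw [e1, e2]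

lemma lt_dip_iff (u₀ : Step d) (x : Site d) (M : MPath d) (n : ℕ) :
    (n : ℕ∞) < Dip.dip (fWS u₀) (mu κ Q x) (succS u R b T) s (x, M)
      ↔ ∀ j ≤ n, ¬ dp u R κ Q s b T x M j := by
  unfold Dip.dip
  rw [lt_fst_iff]
  exact forall₂_congr fun j _ => not_congr (low_iff u R κ Q s b T u₀ x M j)

variable [IsProbabilityMeasure Q]

instance (x : Site d) : IsProbabilityMeasure (mu κ Q x) :=
  Measure.isProbabilityMeasure_map measurable_prodMk_left.aemeasurable

/-- **killing costs at most `s`** -/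
lemma succ_le_good (x : Site d) :
    mkAnn κ Q x (succ u R b T x) ≤ mkAnn κ Q x (good u R κ Q s b T x) + s := by
  have h := Dip.le_sG (fWS u) (mu κ Q x) (succS u R b T) s (τ := tb u b) (by
    intro X hX
    obtain ⟨m, hm⟩ := mem_iUnion.1 hX
    have := tb_of_ClM u R b hm.1
    change tb u b (X.1, X.2) < ⊤
    rw [this]
    exact ENat.natCast_lt_top m)
  have hm2 := Dip.measurableSet_sG (fWS u) (mu κ Q x) (succS u R b T) s
    (isStop_tb u b u) (meas_succS u R b T)
  rw [mu_apply κ Q x (meas_succS u R b T), mu_apply κ Q x hm2] at h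
  refine h.trans (add_le_add (measure_mono ?_) le_rfl)
  rintro M ⟨h1, h2⟩
  obtain ⟨m, hm⟩ := mem_iUnion.1 h1
  have e := tb_of_ClM u R b hm.1
  change tb u b (x, M) ≤ _ at h2
  rw [e] at h2
  refine mem_iUnion.2 ⟨m, hm, fun i hi => ?_⟩
  have h3 : (i : ℕ∞) < Dip.dip (fWS u) (mu κ Q x) (succS u R b T) s (x, M) :=
    lt_of_lt_of_le (by exact_mod_cast hi) h2
  exact (lt_dip_iff u R κ Q s b T u x M i).1 h3 i le_rfl

/-- **one sided comparison**: contact of the killed walker with `V` -/
lemma kap_le (V : Set (Site d)) (x : Site d) :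
    s * mkAnn κ Q x {M | Cont.kap (fWS u) rdM R V (x, M) < tau u R κ Q s b T x M}
      ≤ mkAnn κ Q x (succ u R b T x ∩ {M | Cont.kap (fWS u) rdM R V (x, M) < tb u b (x, M)}) := by
  classical
  set W := fWS (d := d) u with hW
  set k : SMPath d → ℕ∞ := Cont.kap W rdM R V with hk
  have hkS : W.IsStop k := Cont.isStop_kap (rdSpace_fWS u).det V
  have htb : W.IsStop (tb u b) := isStop_tb u b u
  have hdip := Dip.isStop_dip W (mu κ Q x) (succS u R b T) s
  set F : SMPath d → ℝ≥0∞ := fun X => if k X < tb u b X then 1 else 0 with hF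
  have hFd : W.DetBy k F := by
    intro X Y n h hn
    have hnY := hkS X Y n h hn
    have h' : fHist n X = fHist n Y := h
    rw [fHist_eq_iff] at h'
    obtain ⟨h1, h2, h3⟩ := h'
    have : (k X < tb u b X) ↔ (k Y < tb u b Y) := by
      rw [hn, hnY]
      unfold tb
      rw [lt_fst_iff, lt_fst_iff]
      refine forall₂_congr fun i hi => ?_
      rw [h1, pos_congr Y.1 h2 hi]
    simp only [hF, this]
  have hmb : MeasurableSet {X | k X < tb u b X} := W.measurableSet_lt hkS htb
  have hmd : MeasurableSet {X | k X < Dip.dip W (mu κ Q x) (succS u R b T) s X} :=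
    W.measurableSet_lt hkS hdip
  have h := Dip.mass_before_dip W (mu κ Q x) (succS u R b T) s hkS hFd
  have e : ∀ ν : Measure (SMPath d),
      ∫⁻ X in {X | k X < Dip.dip W (mu κ Q x) (succS u R b T) s X}, F X ∂ν
        = ν ({X | k X < tb u b X} ∩ {X | k X < Dip.dip W (mu κ Q x) (succS u R b T) s X}) := by
    intro ν
    have : F = {X | k X < tb u b X}.indicator 1 := by
      funext X
      simp only [hF, indicator, mem_setOf_eq, Pi.one_apply]
    rw [this, lintegral_indicator_one hmb, Measure.restrict_apply hmb]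
  rw [e, e, Measure.restrict_apply (hmb.inter hmd), mu_apply κ Q x (hmb.inter hmd),
    mu_apply κ Q x ((hmb.inter hmd).inter (meas_succS u R b T))] at h
  refine le_trans (mul_le_mul' le_rfl (measure_mono ?_)) (h.trans (measure_mono ?_))
  · intro M hM
    have hM' : k (x, M) < tau u R κ Q s b T x M := hM
    obtain ⟨n, hn⟩ := ENat.ne_top_iff_exists.1 (ne_top_of_lt hM')
    rw [← hn] at hM'
    have h2 := (lt_tau_iff u R κ Q s b T).1 hM'
    refine ⟨?_, ?_⟩
    · show k (x, M) < tb u b (x, M)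
      rw [← hn]; exact h2.1
    · show k (x, M) < Dip.dip W (mu κ Q x) (succS u R b T) s (x, M)
      rw [← hn]
      exact (lt_dip_iff u R κ Q s b T u x M n).2 h2.2
  · rintro M ⟨⟨h1, _⟩, h3⟩
    exact ⟨h3, h1⟩

end test

end Crest.Agent.R154.KS480
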