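import Crest.Agent.R154.KWBind2_419

/-! Row 154 (S0219, ROAD 801), helper843: ONE equality list sum = word sum for every window event. -/

set_option autoImplicit false

namespace Crest.Agent.R154.KWG843

open MeasureTheory ProbabilityTheory Crest.ProbabilityR.RandomEnvironment Crest.Agent.R154
open Crest.Agent.R154.Flux132 (lev opp)
open Crest.Agent.R154.Flux566 (lw endp sitesL endp_append endp_eq_add)
open Crest.Agent.R154.NB28
open Crest.Agent.R154.B5A (LW HT)
open Crest.Agent.R154.KWB419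
open scoped ENNReal

variable {d : ℕ}
variable {BX BY : Type*} (vX : BX → List (Step d)) (hX : BX → ℕ) (vY : BY → List (Step d))
  (hY : BY → ℕ) (u : Step d)
variable (hUp : ∀ b, IsUp u (hX b) (vX b)) (hDn : ∀ b, IsDn u (hY b) (vY b))
variable (tU : ∀ (n : ℕ) (F : List (Step d) → ℝ≥0∞), (∑' l, open Classical in if IsUp u n l then F l else 0)
    = ∑' L : List BX, if HT hX L = n then F (catU vX L) else 0)
  (tD : ∀ (n : ℕ) (F : List (Step d) → ℝ≥0∞), (∑' l, open Classical in if IsDn u n l then F l else 0)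
    = ∑' L : List BY, if HT hY L = n then F (catD vY L) else 0)
variable (ν : Measure (Row d)) [IsProbabilityMeasure ν] (ΛX : BX → ℝ≥0∞) (ΛY : BY → ℝ≥0∞)
variable (wU : ∀ L, aw ν (catU vX L) = LW ΛX L) (wD : ∀ L, aw ν (catD vY L) = LW ΛY L)

open Classical in
include hUp hDn tU tD wU wD in
/-- **every window sum on block lists is a window sum on words** -/
theorem gen (h h' a a' : ℕ) (x : Site d) (A B : Site d → Prop) (R : ℕ → Prop) :
    (∑' L : List BX, ∑' L' : List BY, if HT hX L = h ∧ HT hY L' = h' ∧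
        A (L.map (zU vX hX u)).sum ∧ B (L'.map (zD vY hY u)).sum ∧
        (∃ z k, (z, k) ∈ TT (sU vX u) hX (zU vX hX u) L 0 a ∧
          (z, k) ∈ TT (sD vY u) hY (zD vY hY u) L' x a') ∧
        (∀ z k, (z, k) ∈ TT (sU vX u) hX (zU vX hX u) L 0 a →
          (z, k) ∈ TT (sD vY u) hY (zD vY hY u) L' x a' → R k)
        then LW ΛX L * LW ΛY L' else 0)
      = ∑' π, ∑' γ, if lev u x = 0 ∧ IsUp u h π ∧ IsDn u h' γ ∧
          A (h • stepVec u - endp 0 π) ∧ B (endp 0 γ + h' • stepVec u) ∧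
          (∃ y, Ct u π γ x a a' y) ∧ (∀ y, Ct u π γ x a a' y → R (-lev u y).toNat)
          then aw ν π * aw ν γ else 0 := by
  have hc := conv2 vX hX vY hY u tU tD h h' (fun π γ => if lev u x = 0 ∧
      A (h • stepVec u - endp 0 π) ∧ B (endp 0 γ + h' • stepVec u) ∧
      (∃ y, Ct u π γ x a a' y) ∧
      (∀ y, Ct u π γ x a a' y → R (-lev u y).toNat) then aw ν π * aw ν γ else 0)
  have hl : (∑' π, ∑' γ, if lev u x = 0 ∧ IsUp u h π ∧ IsDn u h' γ ∧
          A (h • stepVec u - endp 0 π) ∧ B (endp 0 γ + h' • stepVec u) ∧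
          (∃ y, Ct u π γ x a a' y) ∧ (∀ y, Ct u π γ x a a' y → R (-lev u y).toNat)
          then aw ν π * aw ν γ else 0)
      = ∑' π, ∑' γ, if IsUp u h π ∧ IsDn u h' γ then (if lev u x = 0 ∧
      A (h • stepVec u - endp 0 π) ∧ B (endp 0 γ + h' • stepVec u) ∧
      (∃ y, Ct u π γ x a a' y) ∧
      (∀ y, Ct u π γ x a a' y → R (-lev u y).toNat) then aw ν π * aw ν γ else 0) else 0 := by
    refine tsum_congr fun π => tsum_congr fun γ => ?_
    rw [← ite_and]
    refine if_congr ?_ rfl rfl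
    tauto
  rw [hl, hc]
  refine tsum_congr fun L => tsum_congr fun L' => ?_
  rw [← ite_and, wU, wD]
  refine if_congr ?_ rfl rfl
  have k1 := ex_iff vX hX vY hY u hUp hDn L L' x a a' (fun _ => True)
  have k2 := all_iff vX hX vY hY u hUp hDn L L' x a a' R
  simp only [and_true] at k1
  rw [k1, k2, Dp_U, Dp_D]
  constructor
  · rintro ⟨e1, e3, e2, e2', ⟨e4, e5⟩, e6⟩
    rw [e1] at e2
    rw [e3] at e2'
    exact ⟨⟨e1, e3⟩, e4, e2, e2', e5, e6 e4⟩
  · rintro ⟨⟨e1, e3⟩, e4, e2, e2', e5, e6⟩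
    refine ⟨e1, e3, ?_, ?_, ⟨e4, e5⟩, fun _ => e6⟩
    · rw [e1]; exact e2
    · rw [e3]; exact e2'

end Crest.Agent.R154.KWG843
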