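import Crest.Agent.R154.WinAbs_346
import Crest.Agent.R154.Fact2_346
import Crest.Agent.R154.WLit_763
import Crest.Agent.R154.WMass_286
import Crest.Agent.R154.Dens_903
import Crest.Agent.R154.Num_869
import Crest.Agent.R154.KExt_327
import Crest.Agent.R154.Flux1_132

/-! Row 154, road 801 (helper346): KAPPA' in words from the window lemmas in words (763's letters),
direct composition on the lists of irreducible words of the single walkers. -/

set_option autoImplicit false
set_option linter.unusedSectionVars false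

namespace Crest.Agent.R154.KWd346

open MeasureTheory ProbabilityTheory Crest.ProbabilityR.RandomEnvironment
open scoped ENNReal
open Crest.Agent.R154.B5A
open Crest.Agent.R154.FP178 (fp mL dL pL)
open Crest.Agent.R154.Flux566 (lw endp sitesL endp_eq_add)
open Crest.Agent.R154.Flux132 (lev opp)
open Crest.Agent.R154.NB28 (IsUp IsDn aw Cm KW KappaW)
open Crest.Agent.R154.Fact346
open Crest.Agent.R154.WinAbs346 (wt wt_le window)

variable {d : ℕ} (ν : Measure (Row d)) [IsProbabilityMeasure ν] (u : Step d)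

/-- weights and displacements of the irreducible words -/
noncomputable def LX (b : Irr (IsUp u)) : ℝ≥0∞ := aw ν b.1
noncomputable def LY (b : Irr (IsDn u)) : ℝ≥0∞ := aw ν b.1
noncomputable def zX (b : Irr (IsUp u)) : Site d := endp 0 b.1
noncomputable def zY (b : Irr (IsDn u)) : Site d := endp 0 b.1

lemma dL_X (L : List (Irr (IsUp u))) : dL (zX u) L = endp 0 (flr L) := by
  induction L with
  | nil => simp [FP178.dL, endp]
  | cons b L ih =>
    rw [flr_cons, endp_app, endp_eq_add b.1 (endp 0 (flr L)), ← ih]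
    simp only [FP178.dL, List.map_cons, List.sum_cons]
    rw [add_comm]; rfl

lemma dL_Y (L : List (Irr (IsDn u))) : dL (zY u) L = endp 0 (fl L) := by
  induction L with
  | nil => simp [FP178.dL, fl, endp]
  | cons b L ih =>
    change _ = endp 0 (b.1 ++ fl L)
    rw [endp_app, endp_eq_add (fl L) (endp 0 b.1), ← ih]
    simp only [FP178.dL, List.map_cons, List.sum_cons]
    rfl

lemma lev_X (L : List (Irr (IsUp u))) : lev u (dL (zX u) L) = HT ht L := by
  rw [dL_X]; exact (P_flr (fac_up u) L).2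

lemma lev_Y (L : List (Irr (IsDn u))) : lev u (dL (zY u) L) = -(HT ht L : ℤ) := by
  rw [dL_Y]; exact (P_fl (fac_dn u) L).2

/-! ### geometry -/

lemma mem_shift (l : List (Step d)) (x t y : Site d) :
    y ∈ sitesL (x + t) l ↔ y - t ∈ sitesL x l := by
  rw [sitesL_add, List.mem_map]
  constructor
  · rintro ⟨a, ha, rfl⟩; simpa using ha
  · intro h; exact ⟨y - t, h, by simp⟩

lemma hang_lev {n : ℕ} {l : List (Step d)} (hl : IsUp u n l) {x y : Site d} (hy : y ∈ hang x l) :
    lev u x - n ≤ lev u y ∧ lev u y < lev u x := by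
  have h1 := ((up_from u n l (x - endp 0 l)).1 hl).1 y hy
  have h2 : lev u (x - endp 0 l) = lev u x - n := by
    have := lev_a u (x - endp 0 l) (endp 0 l)
    rw [sub_add_cancel, hl.2] at this
    omega
  rw [h2] at h1
  omega

lemma dn_lev {n : ℕ} {l : List (Step d)} (hl : IsDn u n l) {x y : Site d} (hy : y ∈ sitesL x l) :
    lev u x - n < lev u y ∧ lev u y ≤ lev u x := by
  rw [show x = 0 + x by rw [zero_add], mem_shift] at hy
  have h1 := hl.1 _ hy
  have h2 := lev_a u (y - x) x
  rw [sub_add_cancel] at h2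
  omega

lemma lev_opp_step : lev u (stepVec (opp u) : Site d) = -1 := by
  have h1 := Flux132.lev_step_self (opp u) (d := d)
  rw [lev_opp] at h1
  omega

/-- the contact of the pieces -/
def Q (s r0 : ℕ) (x : Site d) (A : List (Irr (IsUp u))) (A' : List (Irr (IsDn u))) : Prop :=
  (∃ y, y ∈ sitesL (-endp 0 (flr A)) (flr A) ∧ y ∈ sitesL x (fl A')) ∧
  (∀ y, y ∈ sitesL (-endp 0 (flr A)) (flr A) → y ∈ sitesL x (fl A') → lev u y + s ≤ lev u x) ∧
  (∀ y, y ∈ sitesL (-endp 0 (flr A)) (flr A) → y ∈ sitesL x (fl A') →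
    -(HT ht A : ℤ) + s ≤ lev u y) ∧
  lev u x ≤ -1 ∧ -(r0 : ℤ) ≤ lev u x ∧ (HT ht A : ℤ) < HT ht A' - lev u x ∧
    (HT ht A' : ℤ) - lev u x ≤ HT ht A + r0

/-- the window event -/
def WEv (w : Site d) (D T i0 s : ℕ) (π γ : List (Step d)) : Prop :=
  (∃ k ∈ Cm u w π γ, D + 3 * i0 + s + 1 < k ∧ k + s < D + T) ∧
  (∀ k ∈ Cm u w π γ, ¬ (D ≤ k ∧ k ≤ D + (3 * i0 + s + 1))) ∧
  (∀ k ∈ Cm u w π γ, ¬ (D + T ≤ k + s ∧ k ≤ D + T + 2 * i0))

theorem hEv (w : Site d) (hw : lev u w = 0) (D T i0 s N : ℕ)
    (P A R : List (Irr (IsUp u))) (P' A' R' : List (Irr (IsDn u)))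
    (hP : fp ht D P) (hPi : HT ht P ≤ D + i0) (hA : fp ht T A) (hAi : HT ht A ≤ T + i0)
    (hN : HT ht (P ++ (A ++ R)) = N)
    (hP' : fp ht (D + 2 * i0) P') (hPi' : HT ht P' ≤ D + 2 * i0 + i0) (hA' : fp ht T A')
    (hAi' : HT ht A' ≤ T + i0) (hN' : HT ht (P' ++ (A' ++ R')) = N)
    (hE : WEv u w D T i0 s (flr (P ++ (A ++ R))) (fl (P' ++ (A' ++ R')))) :
    Q u s (4 * i0 + 1) (w + stepVec (opp u) + dL (zY u) P' + dL (zX u) P) A A' := by
  have ha1 := FP178.le_HT_of_fp ht hP
  have ha2 := FP178.le_HT_of_fp ht hA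
  have ha3 := FP178.le_HT_of_fp ht hP'
  have ha4 := FP178.le_HT_of_fp ht hA'
  obtain ⟨⟨k, hk, hk1, hk2⟩, hs1, hs2⟩ := hE
  -- decompositions of the sites
  have eX : sitesL (-endp 0 (flr (P ++ (A ++ R)))) (flr (P ++ (A ++ R)))
      = hang (-endp 0 (flr P) - endp 0 (flr A)) (flr R) ++ hang (-endp 0 (flr P)) (flr A)
        ++ hang 0 (flr P) := by
    have h1 : sitesL (-endp 0 (flr (P ++ (A ++ R)))) (flr (P ++ (A ++ R)))
        = hang 0 (flr (P ++ (A ++ R))) := by unfold hang; rw [zero_sub]
    rw [h1, flr_append, flr_append, hang_append, hang_append, zero_sub]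
  have eY : sitesL (w + stepVec (opp u)) (fl (P' ++ (A' ++ R')))
      = sitesL (w + stepVec (opp u)) (fl P') ++
        (sitesL (w + stepVec (opp u) + endp 0 (fl P')) (fl A') ++
          sitesL (endp (w + stepVec (opp u) + endp 0 (fl P')) (fl A')) (fl R')) := by
    rw [fl_append, fl_append, sitesL_append, endp_eq_add (fl P') (w + stepVec (opp u)),
      sitesL_append]
  have lP := lev_X u P
  have lA := lev_X u A
  have lP' := lev_Y u P'
  have lA' := lev_Y u A'
  rw [dL_X] at lP lA
  rw [dL_Y] at lP' lA'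
  have ln : ∀ x : Site d, lev u (-x) = - lev u x := by
    intro x
    have := lev_a u (-x) x
    rw [neg_add_cancel, lev_z] at this
    omega
  have lop := lev_opp_step (d := d) u
  -- translation of the contacts of the pieces
  set t : Site d := endp 0 (flr P) with ht'
  set x' : Site d := w + stepVec (opp u) + dL (zY u) P' + dL (zX u) P with hx'
  have hx2 : x' = w + stepVec (opp u) + endp 0 (fl P') + t := by rw [hx', dL_Y, dL_X]
  have lx : lev u x' = -1 - HT ht P' + HT ht P := by
    rw [hx2, lev_a, lev_a, lev_a, hw, lop, lP', lP]; ring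
  have cX : ∀ y : Site d, y ∈ sitesL (-endp 0 (flr A)) (flr A) ↔
      y - t ∈ hang (-t) (flr A) := by
    intro y
    unfold hang
    rw [show -t - endp 0 (flr A) = -endp 0 (flr A) + -t by abel, mem_shift,
      sub_neg_eq_add, sub_add_cancel]
  have cY : ∀ y : Site d, y ∈ sitesL x' (fl A') ↔
      y - t ∈ sitesL (w + stepVec (opp u) + endp 0 (fl P')) (fl A') := by
    intro y
    rw [hx2, mem_shift]
  -- a contact of the pieces is a contact of the words
  have c1 : ∀ y : Site d, y ∈ sitesL (-endp 0 (flr A)) (flr A) → y ∈ sitesL x' (fl A') →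
      ∃ k : ℕ, k ∈ Cm u w (flr (P ++ (A ++ R))) (fl (P' ++ (A' ++ R'))) ∧
        lev u y = HT ht P - (k : ℤ) ∧ HT ht P' < k ∧ k ≤ HT ht P + HT ht A := by
    intro y h1 h2
    have h3 := (cX y).1 h1
    have h4 := (cY y).1 h2
    have l1 := hang_lev u (P_flr (fac_up u) A) h3
    have l2 := dn_lev u (P_fl (fac_dn u) A') h4
    have l3 : lev u (y - t) = lev u y - HT ht P := by
      have := lev_a u (y - t) t
      rw [sub_add_cancel, lP] at this
      omega
    rw [ln, lP, l3] at l1
    rw [lev_a, lev_a, hw, lop, lP', l3] at l2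
    refine ⟨(-lev u (y - t)).toNat, ⟨y - t, ?_, ?_, ?_⟩, ?_, ?_, ?_⟩
    · rw [eX, List.mem_append, List.mem_append]; exact Or.inl (Or.inr h3)
    · rw [eY, List.mem_append, List.mem_append]; exact Or.inr (Or.inl h4)
    · rw [l3]; omega
    · rw [l3]; omega
    · rw [l3]; omega
    · rw [l3]; omega
  -- the contact in the window is a contact of the pieces
  have c2 : ∃ y : Site d, y ∈ sitesL (-endp 0 (flr A)) (flr A) ∧ y ∈ sitesL x' (fl A') := by
    obtain ⟨y, hy1, hy2, hy3⟩ := hk
    rw [eX, List.mem_append, List.mem_append] at hy1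
    rw [eY, List.mem_append, List.mem_append] at hy2
    refine ⟨y + t, (cX _).2 ?_, (cY _).2 ?_⟩
    · rw [add_sub_cancel_right]
      rcases hy1 with (h | h) | h
      · exfalso
        have := hang_lev u (P_flr (fac_up u) R) h
        have h5 : lev u (-t - endp 0 (flr A)) = -HT ht P - HT ht A := by
          rw [sub_eq_add_neg, lev_a, ln, ln, lP, lA]; ring
        rw [h5] at this
        omega
      · exact h
      · exfalso
        have := hang_lev u (P_flr (fac_up u) P) h
        rw [lev_z] at this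
        omega
    · rw [add_sub_cancel_right]
      rcases hy2 with h | h | h
      · exfalso
        have := dn_lev u (P_fl (fac_dn u) P') h
        rw [lev_a, hw, lop] at this
        omega
      · exact h
      · exfalso
        have := dn_lev u (P_fl (fac_dn u) R') h
        rw [endp_eq_add (fl A'), lev_a, lev_a, lev_a, hw, lop, lP', lA'] at this
        omega
  refine ⟨c2, ?_, ?_, ?_, ?_, ?_, ?_⟩
  · intro y h1 h2
    obtain ⟨k, hk, e1, e2, e3⟩ := c1 y h1 h2
    have := hs1 k hk
    rw [e1, lx]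
    omega
  · intro y h1 h2
    obtain ⟨k, hk, e1, e2, e3⟩ := c1 y h1 h2
    have := hs2 k hk
    rw [e1]
    omega
  · rw [lx]; omega
  · rw [lx]; push_cast; omega
  · rw [lx]; omega
  · rw [lx]; push_cast; omega

/-! ### walker data -/

open Classical in
lemma UX_eq (n : ℕ) : U (LX ν u) ht n = ∑' l, (if IsUp u n l then aw ν l else 0) := U_up ν u n

open Classical in
lemma UY_eq (n : ℕ) : U (LY ν u) ht n = ∑' l, (if IsDn u n l then aw ν l else 0) := U_dn ν u n

lemma UX_le (n : ℕ) : U (LX ν u) ht n ≤ 1 := by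
  classical
  rw [UX_eq]
  refine le_trans (le_of_eq (tsum_congr fun l => ?_)) (WM286.sum_up_le_one ν u n)
  split_ifs <;> rfl

lemma UY_le (n : ℕ) : U (LY ν u) ht n ≤ 1 := by
  classical
  rw [UY_eq]
  refine le_trans (le_of_eq (tsum_congr fun l => ?_)) (WM286.sum_dn_le_one ν u n)
  split_ifs <;> rfl

section abs1

variable {B : Type*} (Λ : B → ℝ≥0∞) (ht : B → ℕ)

open Classical in
lemma sum_FP_one (h1 : ∀ b, 1 ≤ ht b) (hΛ : ∑' b, Λ b = 1) (a : ℕ) :
    ∑' L, (if fp ht a L then LW Λ L else 0) = 1 := by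
  induction a using Nat.strong_induction_on with
  | _ a ih =>
    rcases Nat.eq_zero_or_pos a with rfl | ha
    · have := FP178.sum_fp_zero Λ ht (fun _ => 1)
      simp only [mul_one] at this
      exact this
    · have := FP178.sum_fp_step Λ ht a ha (fun _ => 1)
      simp only [mul_one] at this
      rw [this, ← hΛ]
      refine tsum_congr fun b => ?_
      rw [ih (a - ht b) (by have := h1 b; omega), mul_one]

variable {G : Type*} [AddCommGroup G] (z : B → G)

open Classical in
/-- quantile, number of local values, smooth attempts: everything for one walker -/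
theorem walker (h1 : ∀ b, 1 ≤ ht b) (hΛ : ∑' b, Λ b = 1) (T i0 : ℕ) (v ε : ℝ≥0∞) (hv0 : v ≠ 0)
    (hv1 : v ≤ 1) (hε : ∑' L, (if fp ht T L ∧ T + i0 < HT ht L then LW Λ L else 0) ≤ ε) (J : ℕ) :
    ∃ (E : Finset G) (M : ℝ≥0∞), M ≠ ⊤ ∧ M * E.card ≤ ((i0 : ℝ≥0∞) + 1) / v ∧
      ∑' A, (if dL z A ∈ (E : Set G) then 0 else WinAbs346.wt Λ ht T i0 A) ≤ v ∧
      ∀ a, J * (T + i0) ≤ a → ∃ g b : G → ℝ≥0∞, (∀ x, mL Λ ht z a x ≤ g x + b x) ∧
        (∀ x, g x ≤ M) ∧ ∑' x, g x ≤ 1 ∧ ∑' x, b x ≤ (1 - v) ^ J + J * ε := by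
  have hp1 : ∑' x, mL Λ ht z T x = 1 := by
    rw [FP178.sum_mL_eq]; exact sum_FP_one Λ ht h1 hΛ T
  obtain ⟨th, hth0, hth1, hq1, hq2⟩ := Dens903.quantile _ hp1 hv0 hv1
  have hfin : {x | th ≤ mL Λ ht z T x}.Finite :=
    ENNReal.finite_const_le_of_tsum_ne_top (by rw [hp1]; exact ENNReal.one_ne_top) hth0
  have hvt : v ≠ ⊤ := ne_top_of_le_ne_top ENNReal.one_ne_top hv1
  have htht : th ≠ ⊤ := ne_top_of_le_ne_top ENNReal.one_ne_top hth1
  refine ⟨hfin.toFinset, th * ((i0 : ℝ≥0∞) + 1) * v⁻¹, ?_, ?_, ?_, ?_⟩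
  · refine ENNReal.mul_ne_top (ENNReal.mul_ne_top htht ?_) (ENNReal.inv_ne_top.2 hv0)
    exact ENNReal.add_ne_top.2 ⟨ENNReal.natCast_ne_top _, ENNReal.one_ne_top⟩
  · have hc : (hfin.toFinset.card : ℝ≥0∞) * th ≤ 1 := by
      calc (hfin.toFinset.card : ℝ≥0∞) * th = ∑ _x ∈ hfin.toFinset, th := by simp
        _ ≤ ∑ x ∈ hfin.toFinset, mL Λ ht z T x :=
            Finset.sum_le_sum fun x hx => by simpa using hx
        _ ≤ ∑' x, mL Λ ht z T x := ENNReal.sum_le_tsum _
        _ = 1 := hp1
    calc th * ((i0 : ℝ≥0∞) + 1) * v⁻¹ * hfin.toFinset.card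
        = (hfin.toFinset.card * th) * (((i0 : ℝ≥0∞) + 1) * v⁻¹) := by ring
      _ ≤ 1 * (((i0 : ℝ≥0∞) + 1) * v⁻¹) := mul_le_mul' hc le_rfl
      _ = _ := by rw [one_mul, div_eq_mul_inv]
  · calc ∑' A, (if dL z A ∈ (hfin.toFinset : Set G) then 0 else WinAbs346.wt Λ ht T i0 A)
        ≤ ∑' A, (if fp ht T A then LW Λ A *
            (if mL Λ ht z T (dL z A) < th then 1 else 0) else 0) := by
          refine ENNReal.tsum_le_tsum fun A => ?_
          by_cases hA : dL z A ∈ (hfin.toFinset : Set G)
          · rw [if_pos hA]; exact bot_le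
          · rw [if_neg hA]
            have h2 : mL Λ ht z T (dL z A) < th := by
              by_contra hcon
              exact hA (by simpa using hcon)
            unfold WinAbs346.wt
            by_cases hf : fp ht T A
            · rw [if_pos hf, if_pos h2, mul_one]
              split_ifs
              · exact le_rfl
              · exact bot_le
            · rw [if_neg hf, if_neg (fun h => hf h.1)]
      _ = ∑' x, mL Λ ht z T x * (if mL Λ ht z T x < th then 1 else 0) :=
          WinAbs346.sum_mL_apply Λ ht z T (fun x => if mL Λ ht z T x < th then 1 else 0)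
      _ = ∑' x, (if mL Λ ht z T x < th then mL Λ ht z T x else 0) := by
          refine tsum_congr fun x => ?_
          split_ifs <;> simp
      _ ≤ v := hq1
  · intro a ha
    -- mass of the high values
    have hr : ∑ i ∈ Finset.range (i0 + 1), ∑' x, (if th < pL Λ ht z T i x then pL Λ ht z T i x
        else 0) ≤ 1 - v := by
      have hpm : ∀ x, ∑' i, pL Λ ht z T i x ≤ mL Λ ht z T x := by
        intro x
        unfold FP178.pL FP178.mL
        rw [ENNReal.tsum_comm]
        refine ENNReal.tsum_le_tsum fun L => ?_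
        by_cases hf : fp ht T L
        · simp only [if_pos hf]
          rw [ENNReal.tsum_mul_left]
          refine mul_le_mul' le_rfl ?_
          by_cases hx : dL z L = x
          · rw [if_pos hx, tsum_eq_single (HT ht L - T)]
            · split_ifs <;> simp
            · intro i hi
              rw [if_neg (fun hh => hi (by omega))]
          · rw [if_neg hx]
            simp [hx]
        · simp [hf]
      have h2 : ∑ i ∈ Finset.range (i0 + 1), ∑' x, (if th < pL Λ ht z T i x then
          pL Λ ht z T i x else 0) ≤ ∑' x, (if th < mL Λ ht z T x then mL Λ ht z T x else 0) := by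
        calc _ ≤ ∑' i, ∑' x, (if th < pL Λ ht z T i x then pL Λ ht z T i x else 0) :=
              ENNReal.sum_le_tsum _
          _ = ∑' x, ∑' i, (if th < pL Λ ht z T i x then pL Λ ht z T i x else 0) :=
              ENNReal.tsum_comm
          _ ≤ _ := by
              refine ENNReal.tsum_le_tsum fun x => ?_
              by_cases hx : th < mL Λ ht z T x
              · rw [if_pos hx]
                refine le_trans (ENNReal.tsum_le_tsum fun i => ?_) (hpm x)
                split_ifs
                · exact le_rfl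
                · exact bot_le
              · rw [if_neg hx]
                refine le_of_eq (ENNReal.tsum_eq_zero.2 fun i => ?_)
                rw [if_neg]
                intro h
                exact hx (lt_of_lt_of_le h ((ENNReal.le_tsum i).trans (hpm x)))
      refine h2.trans ?_
      refine ENNReal.le_sub_of_add_le_right hvt ?_
      rw [← hp1]
      refine le_trans (add_le_add le_rfl hq2) ?_
      rw [← ENNReal.tsum_add]
      refine ENNReal.tsum_le_tsum fun x => ?_
      by_cases hx : th < mL Λ ht z T x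
      · rw [if_pos hx, if_neg (not_le.2 hx), add_zero]
      · rw [if_neg hx, if_pos (not_lt.1 hx), zero_add]
    obtain ⟨g, b, h3, h4, h5⟩ := FP178.smooth Λ ht z h1 hΛ.le T i0 th (1 - v) ε tsub_le_self hr hε
      J a ha
    refine ⟨g, b, fun x => (h3 x).le, fun x => (h4 x).trans ?_, ?_, h5⟩
    · refine mul_le_mul' le_rfl ?_
      calc ∑ j ∈ Finset.range J, (1 - v) ^ j ≤ ∑' j : ℕ, (1 - v) ^ j := ENNReal.sum_le_tsum _
        _ = (1 - (1 - v))⁻¹ := ENNReal.tsum_geometric _
        _ = v⁻¹ := by rw [ENNReal.sub_sub_cancel ENNReal.one_ne_top hv1]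
    · refine le_trans (ENNReal.tsum_le_tsum fun x => ?_) (FP178.sum_mL Λ ht z h1 hΛ.le a)
      rw [h3 x]; exact le_self_add

end abs1

/-! ### lists to words -/

open Classical in
lemma conv (h h' : ℕ) (R : List (Step d) → List (Step d) → Prop) :
    ∑' A : List (Irr (IsUp u)), ∑' A' : List (Irr (IsDn u)),
      (if HT ht A = h ∧ HT ht A' = h' ∧ R (flr A) (fl A') then
        LW (LX ν u) A * LW (LY ν u) A' else 0)
      = ∑' π : List (Step d), ∑' γ : List (Step d),
        (if IsUp u h π ∧ IsDn u h' γ ∧ R π γ then aw ν π * aw ν γ else 0) := by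
  set F : List (Step d) → ℝ≥0∞ := fun π => ∑' γ, (if IsDn u h' γ then
    aw ν γ * (if R π γ then 1 else 0) else 0) with hF
  have e1 : ∑' π : List (Step d), ∑' γ : List (Step d),
        (if IsUp u h π ∧ IsDn u h' γ ∧ R π γ then aw ν π * aw ν γ else 0)
        = ∑' π, (if IsUp u h π then aw ν π * F π else 0) := by
    refine tsum_congr fun π => ?_
    by_cases hπ : IsUp u h π
    · rw [if_pos hπ, hF]
      simp only []
      rw [← ENNReal.tsum_mul_left]
      refine tsum_congr fun γ => ?_
      by_cases h2 : IsDn u h' γ <;> by_cases h3 : R π γ <;> simp [hπ, h2, h3]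
    · rw [if_neg hπ]; simp [hπ]
  rw [e1, tsum_upr ν u h F]
  refine tsum_congr fun A => ?_
  by_cases hA : HT ht A = h
  · rw [if_pos hA, hF]
    simp only []
    rw [tsum_dn ν u h' (fun γ => if R (flr A) γ then 1 else 0), ← ENNReal.tsum_mul_left]
    refine tsum_congr fun A' => ?_
    by_cases h2 : HT ht A' = h' <;> by_cases h3 : R (flr A) (fl A') <;> simp [hA, h2, h3] <;> rfl
  · rw [if_neg hA]; simp [hA]

end Crest.Agent.R154.KWd346
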