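import Crest.Agent.R154.FP_178
import Crest.Agent.R154.Bind801_12

/-! Row 154 (helper318), ROAD 801, assembly, part A: first-passage expectations on lists and the
density of the tie. -/

set_option autoImplicit false

namespace Crest.Agent.R154.KapA318

open Crest.Agent.R154.B5A Crest.Agent.R154.FP178
open Crest.Agent.R154.Bind12 (TT Dp)
open scoped ENNReal

variable {B G : Type*} [AddCommGroup G] (Λ : B → ℝ≥0∞) (ht : B → ℕ) (z : B → G)

open Classical in
/-- sum over the first passages of depth `a` -/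
noncomputable def Ex (a : ℕ) (F : List B → ℝ≥0∞) : ℝ≥0∞ :=
  ∑' L, if fp ht a L then LW Λ L * F L else 0

lemma Ex_mono (a : ℕ) {F F' : List B → ℝ≥0∞} (h : ∀ L, fp ht a L → F L ≤ F' L) :
    Ex Λ ht a F ≤ Ex Λ ht a F' := by
  classical
  refine ENNReal.tsum_le_tsum fun L => ?_
  by_cases hL : fp ht a L
  · simp only [if_pos hL]; exact mul_le_mul_right (h L hL) _
  · simp [hL]

lemma Ex_congr (a : ℕ) {F F' : List B → ℝ≥0∞} (h : ∀ L, fp ht a L → F L = F' L) :
    Ex Λ ht a F = Ex Λ ht a F' :=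
  le_antisymm (Ex_mono Λ ht a fun L hL => (h L hL).le) (Ex_mono Λ ht a fun L hL => (h L hL).ge)

lemma Ex_add (a : ℕ) (F F' : List B → ℝ≥0∞) :
    Ex Λ ht a (fun L => F L + F' L) = Ex Λ ht a F + Ex Λ ht a F' := by
  classical
  rw [Ex, Ex, Ex, ← ENNReal.tsum_add]
  refine tsum_congr fun L => ?_
  by_cases hL : fp ht a L
  · simp [hL, mul_add]
  · simp [hL]

lemma Ex_const_mul (a : ℕ) (c : ℝ≥0∞) (F : List B → ℝ≥0∞) :
    Ex Λ ht a (fun L => c * F L) = c * Ex Λ ht a F := by
  classical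
  rw [Ex, Ex, ← ENNReal.tsum_mul_left]
  refine tsum_congr fun L => ?_
  by_cases hL : fp ht a L
  · simp [hL, mul_left_comm]
  · simp [hL]

lemma Ex_mul_const (a : ℕ) (c : ℝ≥0∞) (F : List B → ℝ≥0∞) :
    Ex Λ ht a (fun L => F L * c) = Ex Λ ht a F * c := by
  simp only [mul_comm _ c]; exact Ex_const_mul Λ ht a c F

lemma Ex_tsum {ι : Type*} (a : ℕ) (F : ι → List B → ℝ≥0∞) :
    Ex Λ ht a (fun L => ∑' i, F i L) = ∑' i, Ex Λ ht a (F i) := by
  classical
  simp only [Ex]
  rw [ENNReal.tsum_comm]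
  refine tsum_congr fun L => ?_
  by_cases hL : fp ht a L
  · simp only [if_pos hL]; rw [ENNReal.tsum_mul_left]
  · simp [hL]

lemma Ex_one (h1 : ∀ b, 1 ≤ ht b) (hΛ : ∑' b, Λ b = 1) (a : ℕ) :
    Ex Λ ht a (fun _ => 1) = 1 := by
  classical
  induction a using Nat.strong_induction_on with
  | _ a ih =>
    rcases Nat.eq_zero_or_pos a with rfl | ha
    · rw [Ex, sum_fp_zero Λ ht (fun _ => 1)]
    · rw [Ex, sum_fp_step Λ ht a ha (fun _ => 1)]
      refine Eq.trans (tsum_congr fun b => ?_) hΛ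
      have := ih (a - ht b) (by have := h1 b; omega)
      rw [Ex] at this
      rw [this, mul_one]

lemma Ex_le (h1 : ∀ b, 1 ≤ ht b) (hΛ : ∑' b, Λ b = 1) (a : ℕ) {F : List B → ℝ≥0∞} {c : ℝ≥0∞}
    (h : ∀ L, fp ht a L → F L ≤ c) : Ex Λ ht a F ≤ c := by
  calc Ex Λ ht a F ≤ Ex Λ ht a (fun _ => c * 1) :=
        Ex_mono Λ ht a fun L hL => by rw [mul_one]; exact h L hL
    _ = c := by rw [Ex_const_mul, Ex_one Λ ht h1 hΛ, mul_one]

lemma Ex_split (h1 : ∀ b, 1 ≤ ht b) (τ a : ℕ) (hτ : τ ≤ a) (F : List B → ℝ≥0∞) :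
    Ex Λ ht a F = Ex Λ ht τ (fun A => Ex Λ ht (a - HT ht A) (fun R => F (A ++ R))) := by
  classical
  exact fp_split Λ ht h1 τ a hτ F

/-- height and displacement -/
def hd (L : List B) : ℕ × G := (HT ht L, Dp z L)

lemma Dp_append (L L' : List B) : Dp z (L ++ L') = Dp z L + Dp z L' := by simp [Dp]

lemma hd_append (L L' : List B) :
    hd ht z (L ++ L') = (HT ht L + HT ht L', Dp z L + Dp z L') := by
  rw [hd, HT_append, Dp_append]

open Classical in
/-- pushforward -/
lemma Ex_push {ι : Type*} (a : ℕ) (f : List B → ι) (Φ : ι → ℝ≥0∞) :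
    Ex Λ ht a (fun L => Φ (f L))
      = ∑' i, Ex Λ ht a (fun L => if f L = i then 1 else 0) * Φ i := by
  have h : ∀ L, Φ (f L) = ∑' i, (if f L = i then (1 : ℝ≥0∞) else 0) * Φ i := by
    intro L
    rw [tsum_eq_single (f L)]
    · simp
    · intro i hi; rw [if_neg (Ne.symm hi), zero_mul]
  simp only [h]
  rw [Ex_tsum]
  refine tsum_congr fun i => ?_
  rw [Ex_mul_const]

open Classical in
/-- law of (height, displacement) of the first passage of `T` -/
noncomputable def pl (T : ℕ) (q : ℕ × G) : ℝ≥0∞ :=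
  Ex Λ ht T (fun L => if hd ht z L = q then 1 else 0)

lemma pl_push (T : ℕ) (Φ : ℕ × G → ℝ≥0∞) :
    Ex Λ ht T (fun L => Φ (hd ht z L)) = ∑' q, pl Λ ht z T q * Φ q := by
  classical
  rw [Ex_push]
  refine tsum_congr fun q => ?_
  congr 1
  rw [pl]
  refine Ex_congr Λ ht T fun L _ => ?_
  by_cases h : hd ht z L = q <;> simp [h]

lemma pl_sum (h1 : ∀ b, 1 ≤ ht b) (hΛ : ∑' b, Λ b = 1) (T : ℕ) : ∑' q, pl Λ ht z T q = 1 := by
  have := pl_push Λ ht z T (fun _ => 1)
  rw [Ex_one Λ ht h1 hΛ] at this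
  simpa using this.symm

lemma pl_zero (T : ℕ) (q : ℕ × G) (hq : q.1 < T) : pl Λ ht z T q = 0 := by
  classical
  rw [pl, Ex]
  refine ENNReal.tsum_eq_zero.2 fun L => ?_
  by_cases h : fp ht T L
  · rw [if_pos h, if_neg, mul_zero]
    rintro rfl
    have := le_HT_of_fp ht h
    simp only [hd] at hq
    omega
  · rw [if_neg h]

open Classical in
theorem DL (h1 : ∀ b, 1 ≤ ht b) (hΛ : ∑' b, Λ b = 1) (T i0 : ℕ) (th r τ : ℝ≥0∞)
    (hr : Ex Λ ht T (fun P => if th < pl Λ ht z T (hd ht z P) then 1 else 0) ≤ r) (hr1 : r ≤ 1)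
    (hτ : Ex Λ ht T (fun P => if T + i0 < HT ht P then 1 else 0) ≤ τ) (V : ℝ≥0∞) :
    ∀ (N a : ℕ) (Ψ : ℕ × G → ℝ≥0∞), N * (T + i0) ≤ a → (∀ q, Ψ q ≤ 1) →
      (∀ α, ∑' x, Ψ (α, x) ≤ V) →
      Ex Λ ht a (fun A => Ψ (hd ht z A))
        ≤ ((i0 : ℝ≥0∞) + 1) * th * (∑ j ∈ Finset.range N, r ^ j) * V + r ^ N + N * τ := by
  intro N
  induction N with
  | zero =>
    intro a Ψ _ hΨ _
    refine (Ex_le Λ ht h1 hΛ a (fun L _ => hΨ _)).trans ?_
    simp
  | succ N ih =>
    intro a Ψ ha hΨ hV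
    have hTa : T ≤ a := by nlinarith
    rw [Ex_split Λ ht h1 T a hTa]
    set Bd : ℝ≥0∞ := ((i0 : ℝ≥0∞) + 1) * th * (∑ j ∈ Finset.range N, r ^ j) * V + r ^ N + N * τ
      with hBd
    set J : ℕ × G → ℝ≥0∞ := fun q =>
      Ex Λ ht (a - q.1) (fun R => Ψ (q.1 + HT ht R, q.2 + Dp z R)) with hJ
    set S : ℕ × G → Prop := fun q => q.1 ≤ T + i0 with hS
    have key : ∀ P, fp ht T P → Ex Λ ht (a - HT ht P) (fun R => Ψ (hd ht z (P ++ R)))
        ≤ (if pl Λ ht z T (hd ht z P) ≤ th ∧ S (hd ht z P) then J (hd ht z P) else 0)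
          + (if T + i0 < HT ht P then 1 else 0)
          + (if th < pl Λ ht z T (hd ht z P) then 1 else 0) * Bd := by
      intro P hP
      simp only [hd_append]
      by_cases ht1 : T + i0 < HT ht P
      · refine (Ex_le Λ ht h1 hΛ _ (fun L _ => hΨ _)).trans ?_
        rw [if_pos ht1]
        calc (1 : ℝ≥0∞) ≤ 0 + 1 + 0 := by simp
          _ ≤ _ := by gcongr <;> exact zero_le
      · by_cases hp : th < pl Λ ht z T (hd ht z P)
        · rw [if_pos hp, one_mul]
          refine le_trans ?_ le_add_self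
          refine ih (a - HT ht P) (fun q => Ψ (HT ht P + q.1, Dp z P + q.2)) ?_
            (fun q => hΨ _) ?_
          · rw [Nat.succ_mul] at ha
            omega
          · intro α
            refine le_trans (le_of_eq ?_) (hV (HT ht P + α))
            exact (Equiv.addLeft (Dp z P)).tsum_eq (fun x => Ψ (HT ht P + α, x))
        · rw [if_pos (⟨not_lt.1 hp, by simp only [hS, hd]; omega⟩ :
            pl Λ ht z T (hd ht z P) ≤ th ∧ S (hd ht z P)), add_assoc]
          exact le_self_add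
    refine (Ex_mono Λ ht T key).trans ?_
    rw [Ex_add, Ex_add, Ex_mul_const]
    have s1 : Ex Λ ht T (fun P => if pl Λ ht z T (hd ht z P) ≤ th ∧ S (hd ht z P)
        then J (hd ht z P) else 0) ≤ ((i0 : ℝ≥0∞) + 1) * th * V := by
      rw [pl_push Λ ht z T (fun q => if pl Λ ht z T q ≤ th ∧ S q then J q else 0)]
      calc _ ≤ ∑' q : ℕ × G, (if T ≤ q.1 ∧ q.1 ≤ T + i0 then th * J q else 0) := by
            refine ENNReal.tsum_le_tsum fun q => ?_
            by_cases hq : q.1 < T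
            · rw [pl_zero Λ ht z T q hq, zero_mul]; exact zero_le
            · by_cases hc : pl Λ ht z T q ≤ th ∧ S q
              · rw [if_pos hc, if_pos ⟨not_lt.1 hq, hc.2⟩]
                exact mul_le_mul_left hc.1 _
              · rw [if_neg hc, mul_zero]; exact zero_le
        _ = ∑' h : ℕ, ∑' x : G, (if T ≤ h ∧ h ≤ T + i0 then th * J (h, x) else 0) :=
            ENNReal.tsum_prod'
        _ ≤ ∑' h : ℕ, (if T ≤ h ∧ h ≤ T + i0 then th * V else 0) := by
            refine ENNReal.tsum_le_tsum fun h => ?_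
            by_cases hh : T ≤ h ∧ h ≤ T + i0
            · simp only [if_pos hh]
              rw [ENNReal.tsum_mul_left]
              refine mul_le_mul_right ?_ _
              simp only [hJ]
              rw [← Ex_tsum]
              refine Ex_le Λ ht h1 hΛ _ fun R _ => ?_
              refine le_trans (le_of_eq ?_) (hV (h + HT ht R))
              exact (Equiv.addRight (Dp z R)).tsum_eq (fun x => Ψ (h + HT ht R, x))
            · simp [hh]
        _ = ∑ h ∈ Finset.Icc T (T + i0), th * V := by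
            rw [tsum_eq_sum (s := Finset.Icc T (T + i0))]
            · refine Finset.sum_congr rfl fun h hh => ?_
              rw [if_pos (Finset.mem_Icc.1 hh)]
            · intro h hh
              rw [if_neg (fun h' => hh (Finset.mem_Icc.2 h'))]
        _ = _ := by
            rw [Finset.sum_const, Nat.card_Icc, nsmul_eq_mul]
            rw [show T + i0 + 1 - T = i0 + 1 by omega]
            push_cast
            ring
    calc _ ≤ ((i0 : ℝ≥0∞) + 1) * th * V + τ + r * Bd := by gcongr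
      _ ≤ _ := by
        rw [hBd, Finset.sum_range_succ']
        have e1 : r * (((i0 : ℝ≥0∞) + 1) * th * (∑ j ∈ Finset.range N, r ^ j) * V + r ^ N + N * τ)
            ≤ ((i0 : ℝ≥0∞) + 1) * th * (∑ j ∈ Finset.range N, r ^ (j + 1)) * V + r ^ (N + 1)
              + N * τ := by
          have e2 : ∑ j ∈ Finset.range N, r ^ (j + 1) = r * ∑ j ∈ Finset.range N, r ^ j := by
            rw [Finset.mul_sum]
            exact Finset.sum_congr rfl fun j _ => by ring
          rw [e2, mul_add, mul_add]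
          refine add_le_add (add_le_add (le_of_eq (by ring)) (le_of_eq (by ring))) ?_
          calc r * (N * τ) ≤ 1 * (N * τ) := mul_le_mul_left hr1 _
            _ = _ := one_mul _
        refine (add_le_add_right e1 _).trans (le_of_eq ?_)
        push_cast
        ring

end Crest.Agent.R154.KapA318
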