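import Crest.Agent.R154.B5Abs_566
import Crest.Agent.R154.Dens_616

/-! Row 154, KAPPA' (road 801): single-walker first passage lists, overshoot, smooth density
(helper506). -/

set_option autoImplicit false

namespace Crest.Agent.R154.Kap506

open Crest.Agent.R154.B5A
open scoped ENNReal
open Classical

variable {B : Type*}

/-- first passage lists above height `a` -/
def FP (ht : B → ℕ) : ℕ → List B → Prop
  | a, [] => a = 0
  | a, b :: L => a ≠ 0 ∧ FP ht (a - ht b) L

variable (Λ : B → ℝ≥0∞) (ht : B → ℕ)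

lemma FP_le {ht : B → ℕ} : ∀ (A : List B) (a : ℕ), FP ht a A → a ≤ HT ht A
  | [], a, h => by simp only [FP] at h; omega
  | b :: L, a, h => by
    have := FP_le L _ h.2
    rw [HT_cons]; omega

lemma FP_uniq {ht : B → ℕ} : ∀ (Q : List B) (a : ℕ) (Q' A A' : List B), FP ht a Q → FP ht a Q' →
    Q ++ A = Q' ++ A' → Q = Q' ∧ A = A'
  | [], a, [], A, A', _, _, h => ⟨rfl, h⟩
  | [], a, b :: Q', A, A', h, h', _ => absurd h h'.1
  | b :: Q, a, [], A, A', h, h', _ => absurd h' h.1
  | b :: Q, a, b' :: Q', A, A', h, h', e => by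
    simp only [List.cons_append, List.cons.injEq] at e
    obtain ⟨rfl, e⟩ := e
    obtain ⟨h1, h2⟩ := FP_uniq Q _ Q' A A' h.2 h'.2 e
    exact ⟨by rw [h1], h2⟩

/-- weighted sum over first passage lists -/
noncomputable def FS (a : ℕ) (F : List B → ℝ≥0∞) : ℝ≥0∞ :=
  ∑' A : List B, if FP ht a A then LW Λ A * F A else 0

lemma FS_zero (F : List B → ℝ≥0∞) : FS Λ ht 0 F = F [] := by
  rw [FS, tsum_list]; simp [FP, LW_nil]

lemma FS_rec (a : ℕ) (ha : a ≠ 0) (F : List B → ℝ≥0∞) :
    FS Λ ht a F = ∑' b, Λ b * FS Λ ht (a - ht b) (fun A => F (b :: A)) := by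
  rw [FS, tsum_list]
  have h0 : ¬ FP ht a ([] : List B) := ha
  rw [if_neg h0, zero_add]
  refine tsum_congr fun b => ?_
  rw [FS, ← ENNReal.tsum_mul_left]
  refine tsum_congr fun L => ?_
  by_cases h : FP ht (a - ht b) L
  · have h' : FP ht a (b :: L) := ⟨ha, h⟩
    rw [if_pos h', if_pos h, LW_cons, mul_assoc]
  · have h' : ¬ FP ht a (b :: L) := fun h' => h h'.2
    rw [if_neg h', if_neg h, mul_zero]

lemma FS_mono (a : ℕ) {F F' : List B → ℝ≥0∞} (h : ∀ A, FP ht a A → F A ≤ F' A) :
    FS Λ ht a F ≤ FS Λ ht a F' := by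
  refine ENNReal.tsum_le_tsum fun A => ?_
  by_cases hA : FP ht a A
  · rw [if_pos hA, if_pos hA]; exact mul_le_mul_right (h A hA) _
  · rw [if_neg hA, if_neg hA]

lemma FS_congr (a : ℕ) {F F' : List B → ℝ≥0∞} (h : ∀ A, FP ht a A → F A = F' A) :
    FS Λ ht a F = FS Λ ht a F' :=
  le_antisymm (FS_mono Λ ht a fun A hA => (h A hA).le) (FS_mono Λ ht a fun A hA => (h A hA).ge)

lemma FS_add (a : ℕ) (F F' : List B → ℝ≥0∞) :
    FS Λ ht a (fun A => F A + F' A) = FS Λ ht a F + FS Λ ht a F' := by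
  rw [FS, FS, FS, ← ENNReal.tsum_add]
  refine tsum_congr fun A => ?_
  by_cases hA : FP ht a A
  · rw [if_pos hA, if_pos hA, if_pos hA, mul_add]
  · rw [if_neg hA, if_neg hA, if_neg hA, add_zero]

lemma FS_mul (a : ℕ) (c : ℝ≥0∞) (F : List B → ℝ≥0∞) :
    FS Λ ht a (fun A => F A * c) = FS Λ ht a F * c := by
  rw [FS, FS, ← ENNReal.tsum_mul_right]
  refine tsum_congr fun A => ?_
  by_cases hA : FP ht a A
  · rw [if_pos hA, if_pos hA, mul_assoc]
  · rw [if_neg hA, if_neg hA, zero_mul]

variable {Λ ht}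

lemma FS_const (h1 : ∀ b, 1 ≤ ht b) (hΛ : ∑' b, Λ b = 1) (a : ℕ) (c : ℝ≥0∞) :
    FS Λ ht a (fun _ => c) = c := by
  induction a using Nat.strong_induction_on with
  | _ a ih =>
    by_cases ha : a = 0
    · subst ha; exact FS_zero Λ ht _
    · rw [FS_rec _ _ _ ha]
      have : ∀ b, FS Λ ht (a - ht b) (fun _ => c) = c := fun b => ih _ (by have := h1 b; omega)
      simp only [this]
      rw [ENNReal.tsum_mul_right, hΛ, one_mul]

lemma FS_markov (h1 : ∀ b, 1 ≤ ht b) (T : ℕ) : ∀ (a : ℕ) (_ : T ≤ a) (F : List B → ℝ≥0∞),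
    FS Λ ht a F = FS Λ ht T (fun Q => FS Λ ht (a - HT ht Q) (fun A => F (Q ++ A))) := by
  induction T using Nat.strong_induction_on with
  | _ T ih =>
    intro a hTa F
    by_cases hT : T = 0
    · subst hT; rw [FS_zero]; simp [HT_nil]
    · rw [FS_rec _ _ _ (by omega), FS_rec _ _ _ hT]
      refine tsum_congr fun b => ?_
      congr 1
      rw [ih (T - ht b) (by have := h1 b; omega) (a - ht b) (by omega)]
      refine FS_congr _ _ _ fun Q _ => ?_
      rw [HT_cons, show a - ht b - HT ht Q = a - (ht b + HT ht Q) by omega]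
      rfl

variable (Λ ht)

/-- weighted sum over lists of height `n` -/
noncomputable def HS (n : ℕ) (F : List B → ℝ≥0∞) : ℝ≥0∞ :=
  ∑' L : List B, if HT ht L = n then LW Λ L * F L else 0

lemma HS_mono (n : ℕ) {F F' : List B → ℝ≥0∞} (h : ∀ A, HT ht A = n → F A ≤ F' A) :
    HS Λ ht n F ≤ HS Λ ht n F' := by
  refine ENNReal.tsum_le_tsum fun A => ?_
  by_cases hA : HT ht A = n
  · rw [if_pos hA, if_pos hA]; exact mul_le_mul_right (h A hA) _
  · rw [if_neg hA, if_neg hA]

lemma HS_add (n : ℕ) (F F' : List B → ℝ≥0∞) :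
    HS Λ ht n (fun A => F A + F' A) = HS Λ ht n F + HS Λ ht n F' := by
  rw [HS, HS, HS, ← ENNReal.tsum_add]
  refine tsum_congr fun A => ?_
  by_cases hA : HT ht A = n
  · rw [if_pos hA, if_pos hA, if_pos hA, mul_add]
  · rw [if_neg hA, if_neg hA, if_neg hA, add_zero]

variable {Λ ht}

lemma HS_rec (n : ℕ) (hn : n ≠ 0) (F : List B → ℝ≥0∞) :
    HS Λ ht n F = ∑' b, if ht b ≤ n then Λ b * HS Λ ht (n - ht b) (fun L => F (b :: L)) else 0 := by
  rw [HS, tsum_list, if_neg (by rw [HT_nil]; omega), zero_add]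
  refine tsum_congr fun b => ?_
  by_cases hb : ht b ≤ n
  · rw [if_pos hb, HS, ← ENNReal.tsum_mul_left]
    refine tsum_congr fun L => ?_
    by_cases h : HT ht L = n - ht b
    · rw [if_pos (by rw [HT_cons]; omega), if_pos h, LW_cons, mul_assoc]
    · rw [if_neg (by rw [HT_cons]; omega), if_neg h, mul_zero]
  · rw [if_neg hb]
    refine (tsum_congr fun L => if_neg ?_).trans tsum_zero
    rw [HT_cons]; omega

lemma HS_FP (h1 : ∀ b, 1 ≤ ht b) (a : ℕ) : ∀ (n : ℕ) (_ : a ≤ n) (F : List B → ℝ≥0∞),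
    HS Λ ht n F = FS Λ ht a
      (fun A => if HT ht A ≤ n then HS Λ ht (n - HT ht A) (fun R => F (A ++ R)) else 0) := by
  induction a using Nat.strong_induction_on with
  | _ a ih =>
    intro n han F
    by_cases ha : a = 0
    · subst ha; rw [FS_zero]; simp [HT_nil]
    · rw [HS_rec _ (by omega), FS_rec _ _ _ ha]
      refine tsum_congr fun b => ?_
      by_cases hb : ht b ≤ n
      · rw [if_pos hb]
        congr 1
        rw [ih (a - ht b) (by have := h1 b; omega) (n - ht b) (by omega)]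
        refine FS_congr _ _ _ fun Q _ => ?_
        rw [HT_cons]
        by_cases hQ : HT ht Q ≤ n - ht b
        · rw [if_pos hQ, if_pos (by omega), show n - ht b - HT ht Q = n - (ht b + HT ht Q) by omega]
          rfl
        · rw [if_neg hQ, if_neg (by omega)]
      · rw [if_neg hb]
        have : ∀ A : List B, ¬ (HT ht (b :: A) ≤ n) := fun A => by rw [HT_cons]; omega
        simp only [if_neg (this _)]
        rw [FS]
        simp

lemma HS_one_le (h1 : ∀ b, 1 ≤ ht b) (hΛ : ∑' b, Λ b = 1) (n : ℕ) :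
    HS Λ ht n (fun _ => 1) ≤ 1 := by
  induction n using Nat.strong_induction_on with
  | _ n ih =>
    by_cases hn : n = 0
    · subst hn
      rw [HS, tsum_list]
      have : ∀ b (L : List B), ¬ HT ht (b :: L) = 0 := fun b L => by
        rw [HT_cons]; have := h1 b; omega
      simp [HT_nil, LW_nil, this]
    · rw [HS_rec _ hn]
      refine le_trans (b := ∑' b, Λ b) (ENNReal.tsum_le_tsum fun b => ?_) hΛ.le
      by_cases hb : ht b ≤ n
      · rw [if_pos hb]
        exact (mul_le_mul_right (ih (n - ht b) (by have := h1 b; omega)) _).trans (mul_one _).le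
      · rw [if_neg hb]; exact zero_le

/-- overshoot -/
lemma over_le (h1 : ∀ b, 1 ≤ ht b) (hΛ : ∑' b, Λ b = 1) (i0 a : ℕ) :
    FS Λ ht a (fun A => if a + i0 < HT ht A then 1 else 0)
      ≤ ∑ j ∈ Finset.range a, tail Λ ht (i0 + 1 + j) := by
  induction a using Nat.strong_induction_on with
  | _ a ih =>
    by_cases ha : a = 0
    · subst ha; rw [FS_zero]; simp [HT_nil]
    · rw [FS_rec _ _ _ ha]
      obtain ⟨a', rfl⟩ : ∃ a', a = a' + 1 := ⟨a - 1, by omega⟩
      rw [Finset.sum_range_succ]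
      have key : ∀ b, Λ b * FS Λ ht (a' + 1 - ht b)
            (fun A => if a' + 1 + i0 < HT ht (b :: A) then 1 else 0)
          ≤ Λ b * (∑ j ∈ Finset.range a', tail Λ ht (i0 + 1 + j))
            + (if i0 + 1 + a' < ht b then Λ b else 0) := by
        intro b
        by_cases hb : ht b ≤ a' + 1
        · refine le_add_right (mul_le_mul_right ?_ _)
          have e : ∀ A, (a' + 1 + i0 < HT ht (b :: A)) = (a' + 1 - ht b + i0 < HT ht A) := by
            intro A; rw [HT_cons]; exact propext (by omega)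
          simp only [e]
          refine (ih (a' + 1 - ht b) (by have := h1 b; omega)).trans ?_
          exact Finset.sum_le_sum_of_subset (fun j hj => by
            have := h1 b
            simp only [Finset.mem_range] at hj ⊢; omega)
        · rw [show a' + 1 - ht b = 0 by omega, FS_zero, HT_cons, HT_nil]
          refine le_add_left ?_
          by_cases h2 : i0 + 1 + a' < ht b
          · rw [if_pos (by omega), if_pos h2, mul_one]
          · rw [if_neg (by omega), mul_zero]; exact zero_le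
      refine (ENNReal.tsum_le_tsum key).trans ?_
      rw [ENNReal.tsum_add, ENNReal.tsum_mul_right, hΛ, one_mul, tail]

end Crest.Agent.R154.Kap506
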