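import Crest.Agent.R154.B5Abs_566

/-! Row 154 (helper57): first passages of lists of blocks, attempts and smooth density. -/

set_option autoImplicit false

namespace Crest.Agent.R154.KA57

open scoped ENNReal
open Crest.Agent.R154.B5A
open Classical

section one

variable {B : Type*} (Λ : B → ℝ≥0∞) (ht : B → ℕ)

/-- first passage of height `a` -/
def SP : List B → ℕ → Prop
  | [], a => a = 0
  | b :: T, a => a ≠ 0 ∧ SP T (a - ht b)

/-- sum over the first passages -/
noncomputable def S (a : ℕ) (F : List B → ℝ≥0∞) : ℝ≥0∞ := ∑' T, if SP ht T a then F T else 0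

lemma SP_le (T : List B) (a : ℕ) (h : SP ht T a) : a ≤ HT ht T := by
  induction T generalizing a with
  | nil => simp [SP] at h; simp [h]
  | cons b T ih =>
    have := ih _ h.2
    rw [HT_cons]; omega

lemma SP_exists (L : List B) (a : ℕ) (h : a ≤ HT ht L) : ∃ T R, T ++ R = L ∧ SP ht T a := by
  induction L generalizing a with
  | nil => exact ⟨[], [], rfl, by simpa [SP, HT_nil] using h⟩
  | cons b L ih =>
    by_cases h0 : a = 0
    · exact ⟨[], b :: L, rfl, h0⟩
    · obtain ⟨T, R, h1, h2⟩ := ih (a - ht b) (by rw [HT_cons] at h; omega)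
      exact ⟨b :: T, R, by rw [List.cons_append, h1], h0, h2⟩

lemma sp_split (a : ℕ) (F : List B → ℝ≥0∞) :
    ∑' L, (if a ≤ HT ht L then F L else 0) ≤ S ht a (fun T => ∑' R, F (T ++ R)) := by
  have h1 : ∀ L, (if a ≤ HT ht L then F L else 0)
      ≤ ∑' T : List B, ∑' R : List B, if L = T ++ R then (if SP ht T a then F L else 0) else 0 := by
    intro L
    by_cases h : a ≤ HT ht L
    · obtain ⟨T, R, hL, hT⟩ := SP_exists ht L a h
      refine le_trans ?_ (ENNReal.le_tsum T)
      refine le_trans ?_ (ENNReal.le_tsum R)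
      simp [h, hL, hT]
    · simp [h]
  refine (ENNReal.tsum_le_tsum h1).trans ?_
  rw [ENNReal.tsum_comm]
  refine ENNReal.tsum_le_tsum fun T => ?_
  rw [ENNReal.tsum_comm]
  by_cases hT : SP ht T a
  · rw [if_pos hT]
    refine ENNReal.tsum_le_tsum fun R => ?_
    rw [tsum_eq_single (T ++ R)]
    · simp [hT]
    · intro L hL; simp [hL]
  · simp [hT]

lemma S_mono (a : ℕ) {F F' : List B → ℝ≥0∞} (h : ∀ T, SP ht T a → F T ≤ F' T) :
    S ht a F ≤ S ht a F' := by
  refine ENNReal.tsum_le_tsum fun T => ?_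
  by_cases hT : SP ht T a
  · simp only [hT, if_true]; exact h T hT
  · simp [hT]

lemma S_zero (F : List B → ℝ≥0∞) : S ht 0 F = F [] := by
  rw [S, tsum_list]
  simp [SP]

lemma S_pos (a : ℕ) (ha : a ≠ 0) (F : List B → ℝ≥0∞) :
    S ht a F = ∑' b, S ht (a - ht b) (fun T => F (b :: T)) := by
  rw [S, tsum_list]
  simp [SP, ha, S]

lemma S_mul (a : ℕ) (c : ℝ≥0∞) (F : List B → ℝ≥0∞) :
    S ht a (fun T => c * F T) = c * S ht a F := by
  rw [S, S, ← ENNReal.tsum_mul_left]
  exact tsum_congr fun T => by by_cases h : SP ht T a <;> simp [h]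

lemma S_add (a : ℕ) (F F' : List B → ℝ≥0∞) :
    S ht a (fun T => F T + F' T) = S ht a F + S ht a F' := by
  rw [S, S, S, ← ENNReal.tsum_add]
  exact tsum_congr fun T => by by_cases h : SP ht T a <;> simp [h]

lemma S_one (h1 : ∀ b, 1 ≤ ht b) (hΛ : ∑' b, Λ b = 1) (a : ℕ) : S ht a (LW Λ) = 1 := by
  induction a using Nat.strong_induction_on with
  | _ a ih =>
    by_cases ha : a = 0
    · subst ha; rw [S_zero, LW_nil]
    · rw [S_pos ht a ha, ← hΛ]
      refine tsum_congr fun b => ?_
      have : (fun T => LW Λ (b :: T)) = fun T => Λ b * LW Λ T := by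
        funext T; rw [LW_cons]
      rw [this, S_mul, ih (a - ht b) (by have := h1 b; omega), mul_one]

lemma S_split (h1 : ∀ b, 1 ≤ ht b) (R a : ℕ) (hR : R ≤ a) (F : List B → ℝ≥0∞) :
    S ht a F = S ht R (fun A => S ht (a - HT ht A) (fun T => F (A ++ T))) := by
  induction R using Nat.strong_induction_on generalizing a F with
  | _ R ih =>
    by_cases h0 : R = 0
    · subst h0
      rw [S_zero]
      simp [HT_nil]
    · rw [S_pos ht R h0, S_pos ht a (by omega)]
      refine tsum_congr fun b => ?_
      rw [ih (R - ht b) (by have := h1 b; omega) (a - ht b) (by omega)]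
      unfold S
      refine tsum_congr fun A => ?_
      have e : a - ht b - HT ht A = a - HT ht (b :: A) := by rw [HT_cons]; omega
      simp only [e, List.cons_append]

/-! ### displacement keys -/

variable {G : Type*} [AddCommGroup G] (z : B → G)

/-- total displacement -/
def Dp (L : List B) : G := (L.map z).sum

lemma Dp_append (L L' : List B) : Dp z (L ++ L') = Dp z L + Dp z L' := by simp [Dp]

/-- height and displacement -/
def key (L : List B) : ℕ × G := (HT ht L, Dp z L)

lemma key_append (L L' : List B) : key ht z (L ++ L') = key ht z L + key ht z L' := by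
  simp [key, HT_append, Dp_append]

/-- law of the first passage -/
noncomputable def V (a : ℕ) (q : ℕ × G) : ℝ≥0∞ :=
  S ht a (fun T => if key ht z T = q then LW Λ T else 0)

/-- translate of a weight -/
noncomputable def sh (c : ℕ × G) (F : ℕ × G → ℝ≥0∞) (q : ℕ × G) : ℝ≥0∞ :=
  ∑' r, if c + r = q then F r else 0

lemma S_key (a : ℕ) (g : ℕ × G → ℝ≥0∞) :
    S ht a (fun T => LW Λ T * g (key ht z T)) = ∑' q, V Λ ht z a q * g q := by
  have : ∀ q, V Λ ht z a q * g q
      = ∑' T, if SP ht T a then (if key ht z T = q then LW Λ T * g q else 0) else 0 := by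
    intro q
    rw [V, S, ← ENNReal.tsum_mul_right]
    refine tsum_congr fun T => ?_
    split_ifs <;> simp
  rw [tsum_congr this, ENNReal.tsum_comm, S]
  refine tsum_congr fun T => ?_
  by_cases h : SP ht T a
  · simp only [h, if_true]
    rw [tsum_eq_single (key ht z T)]
    · simp
    · intro q hq; simp [hq.symm]
  · simp [h]

lemma V_sum (h1 : ∀ b, 1 ≤ ht b) (hΛ : ∑' b, Λ b = 1) (a : ℕ) : ∑' q, V Λ ht z a q = 1 := by
  have := S_key Λ ht z a (fun _ => 1)
  simp only [mul_one] at this
  rw [← this]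
  exact S_one Λ ht h1 hΛ a

lemma V_low (a : ℕ) (q : ℕ × G) (h : q.1 < a) : V Λ ht z a q = 0 := by
  rw [V, S, ENNReal.tsum_eq_zero]
  intro T
  by_cases hT : SP ht T a
  · have := SP_le ht T a hT
    have hk : key ht z T ≠ q := by rintro rfl; simp only [key] at h; omega
    simp [hk]
  · simp [hT]

lemma sh_sum (c : ℕ × G) (F : ℕ × G → ℝ≥0∞) : ∑' q, sh c F q = ∑' r, F r := by
  simp only [sh]
  rw [ENNReal.tsum_comm]
  refine tsum_congr fun r => ?_
  rw [tsum_eq_single (c + r)]
  · simp
  · intro q hq; simp [hq.symm]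

lemma sh_mono (c : ℕ × G) {F F' : ℕ × G → ℝ≥0∞} (h : ∀ r, F r ≤ F' r) (q : ℕ × G) :
    sh c F q ≤ sh c F' q := by
  refine ENNReal.tsum_le_tsum fun r => ?_
  split_ifs
  · exact h r
  · exact le_rfl

lemma sh_add (c : ℕ × G) (F F' : ℕ × G → ℝ≥0∞) (q : ℕ × G) :
    sh c (fun r => F r + F' r) q = sh c F q + sh c F' q := by
  rw [sh, sh, sh, ← ENNReal.tsum_add]
  exact tsum_congr fun r => by split_ifs <;> simp

lemma sh_le (c : ℕ × G) (F : ℕ × G → ℝ≥0∞) (M : ℝ≥0∞) (h : ∀ r, F r ≤ M) (q : ℕ × G) :
    sh c F q ≤ M := by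
  by_cases hr : ∃ r0, c + r0 = q
  · obtain ⟨r0, rfl⟩ := hr
    rw [sh, tsum_eq_single r0]
    · simpa using h r0
    · intro r hr; simp [hr]
  · push Not at hr
    rw [sh]
    simp [hr]

lemma V_rec (h1 : ∀ b, 1 ≤ ht b) (R a : ℕ) (hR : R ≤ a) (q : ℕ × G) :
    V Λ ht z a q = ∑' c, V Λ ht z R c * sh c (V Λ ht z (a - c.1)) q := by
  rw [← S_key Λ ht z R (fun c => sh c (V Λ ht z (a - c.1)) q), V, S_split ht h1 R a hR]
  unfold S
  refine tsum_congr fun A => ?_
  by_cases hA : SP ht A R
  · simp only [hA, if_true]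
    have e : sh (key ht z A) (V Λ ht z (a - (key ht z A).1)) q
        = ∑' T, if SP ht T (a - HT ht A) then (if key ht z A + key ht z T = q then LW Λ T else 0)
            else 0 := by
      have : ∀ r, (if key ht z A + r = q then V Λ ht z (a - (key ht z A).1) r else 0)
          = ∑' T, if SP ht T (a - HT ht A) then
              (if key ht z T = r then (if key ht z A + r = q then LW Λ T else 0) else 0) else 0 := by
        intro r
        by_cases hr : key ht z A + r = q
        · simp only [hr, if_true]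
          rfl
        · simp [hr]
      rw [sh, tsum_congr this, ENNReal.tsum_comm]
      refine tsum_congr fun T => ?_
      by_cases hT : SP ht T (a - HT ht A)
      · simp only [hT, if_true]
        rw [tsum_eq_single (key ht z T)]
        · simp
        · intro r hr; simp [hr.symm]
      · simp [hT]
    rw [e, ← ENNReal.tsum_mul_left]
    refine tsum_congr fun T => ?_
    rw [key_append, LW_append]
    split_ifs <;> simp
  · simp [hA]

end one

end Crest.Agent.R154.KA57
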