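import Crest.Agent.R154.B5Abs_566

/-! Row 154 (helper604): first-passage lists of blocks, overshoot, densities (ROAD 801, list machine). -/

set_option autoImplicit false

namespace Crest.Agent.R154.Kap604

open scoped ENNReal
open Crest.Agent.R154.B5A

variable {B G : Type*}

/-- `A` is a first-passage list at height `T` -/
def fp (h : B → ℕ) : ℕ → List B → Prop
  | T, [] => T = 0
  | T, b :: A => T ≠ 0 ∧ fp h (T - h b) A

/-- displacement of a list -/
def Dp [AddCommMonoid G] (z : B → G) (L : List B) : G := (L.map z).sum

lemma fp_le (h : B → ℕ) (A : List B) : ∀ T, fp h T A → T ≤ HT h A := by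
  induction A with
  | nil => intro T hT; simp only [fp] at hT; subst hT; exact Nat.zero_le _
  | cons b A ih =>
    intro T hT
    have := ih _ hT.2
    rw [HT_cons]
    omega

open Classical in
lemma fp_zero (h : B → ℕ) (F : List B → ℝ≥0∞) :
    ∑' A, (if fp h 0 A then F A else 0) = F [] := by
  rw [tsum_list]
  simp [fp]

open Classical in
lemma fp_succ (h : B → ℕ) (T : ℕ) (hT : T ≠ 0) (F : List B → ℝ≥0∞) :
    ∑' A, (if fp h T A then F A else 0)
      = ∑' b, ∑' A, (if fp h (T - h b) A then F (b :: A) else 0) := by
  rw [tsum_list]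
  simp [fp, hT]

open Classical in
lemma fp_sum (Λ : B → ℝ≥0∞) (h : B → ℕ) (h1 : ∀ b, 1 ≤ h b) (hΛ : ∑' b, Λ b = 1) (T : ℕ) :
    ∑' A, (if fp h T A then LW Λ A else 0) = 1 := by
  induction T using Nat.strong_induction_on with
  | _ T ih =>
    rcases Nat.eq_zero_or_pos T with h0 | h0
    · subst h0; rw [fp_zero, LW_nil]
    · rw [fp_succ h T (by omega)]
      calc ∑' b, ∑' A, (if fp h (T - h b) A then LW Λ (b :: A) else 0)
          = ∑' b, Λ b * ∑' A, (if fp h (T - h b) A then LW Λ A else 0) := by
            refine tsum_congr fun b => ?_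
            rw [← ENNReal.tsum_mul_left]
            refine tsum_congr fun A => ?_
            split_ifs <;> simp [LW_cons]
        _ = ∑' b, Λ b := by
            refine tsum_congr fun b => ?_
            rw [ih _ (by have := h1 b; omega), mul_one]
        _ = 1 := hΛ

open Classical in
/-- split at the first passage of `T` -/
lemma fp_split (h : B → ℕ) (h1 : ∀ b, 1 ≤ h b) (T : ℕ) : ∀ F : List B → ℝ≥0∞,
    ∑' L, (if T ≤ HT h L then F L else 0)
      = ∑' A, ∑' R, (if fp h T A then F (A ++ R) else 0) := by
  induction T using Nat.strong_induction_on with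
  | _ T ih =>
    intro F
    rcases Nat.eq_zero_or_pos T with h0 | h0
    · subst h0
      have := fp_zero h (fun A => ∑' R, F (A ++ R))
      simp only [Nat.zero_le, if_true]
      rw [← show ∑' R, F ([] ++ R) = ∑' L, F L from by simp, ← this]
      refine tsum_congr fun A => ?_
      split_ifs <;> simp
    · rw [tsum_list]
      have e1 : (if T ≤ HT h ([] : List B) then F [] else 0) = 0 := by
        rw [if_neg]; rw [HT_nil]; omega
      rw [e1, zero_add]
      have e2 : ∑' A, ∑' R, (if fp h T A then F (A ++ R) else 0)
          = ∑' A, (if fp h T A then ∑' R, F (A ++ R) else 0) := by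
        refine tsum_congr fun A => ?_
        split_ifs <;> simp
      rw [e2, fp_succ h T (by omega)]
      refine tsum_congr fun b => ?_
      have h3 := ih (T - h b) (by have := h1 b; omega) (fun L => F (b :: L))
      have e3 : ∑' L, (if T ≤ HT h (b :: L) then F (b :: L) else 0)
          = ∑' L, (if T - h b ≤ HT h L then F (b :: L) else 0) := by
        refine tsum_congr fun L => ?_
        rw [HT_cons]
        congr 1
        simp only [eq_iff_iff]
        omega
      rw [e3, h3]
      refine tsum_congr fun A => ?_
      split_ifs <;> simp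

open Classical in
/-- composition of first passages -/
lemma fp_comp (h : B → ℕ) (h1 : ∀ b, 1 ≤ h b) (τ : ℕ) : ∀ (T : ℕ), τ ≤ T → ∀ F : List B → ℝ≥0∞,
    ∑' A, (if fp h T A then F A else 0)
      = ∑' P, ∑' R, (if fp h τ P ∧ fp h (T - HT h P) R then F (P ++ R) else 0) := by
  induction τ using Nat.strong_induction_on with
  | _ τ ih =>
    intro T hT F
    have e0 : ∀ τ : ℕ, ∑' P, ∑' R, (if fp h τ P ∧ fp h (T - HT h P) R then F (P ++ R) else 0)
        = ∑' P, (if fp h τ P then ∑' R, (if fp h (T - HT h P) R then F (P ++ R) else 0) else 0) := by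
      intro τ
      refine tsum_congr fun P => ?_
      by_cases hP : fp h τ P <;> simp [hP]
    rw [e0]
    rcases Nat.eq_zero_or_pos τ with h0 | h0
    · subst h0
      rw [fp_zero]
      simp [HT_nil]
    · rw [fp_succ h τ (by omega), fp_succ h T (by omega)]
      refine tsum_congr fun b => ?_
      have h3 := ih (τ - h b) (by have := h1 b; omega) (T - h b) (by omega) (fun L => F (b :: L))
      rw [h3]
      refine tsum_congr fun P => ?_
      have e4 : T - HT h (b :: P) = T - h b - HT h P := by rw [HT_cons]; omega
      by_cases hP : fp h (τ - h b) P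
      · simp [hP, e4]
      · simp [hP]

open Classical in
lemma U_le (Λ : B → ℝ≥0∞) (h : B → ℕ) (h1 : ∀ b, 1 ≤ h b) (hΛ : ∑' b, Λ b = 1) (k : ℕ) :
    ∑' A, (if HT h A = k then LW Λ A else 0) ≤ 1 := by
  rw [← fp_sum Λ h h1 hΛ k]
  have key : ∀ A : List B, ∀ k, HT h A = k → fp h k A := by
    intro A
    induction A with
    | nil => intro k hk; simp only [fp]; rw [HT_nil] at hk; exact hk.symm
    | cons b A ih =>
      intro k hk
      rw [HT_cons] at hk
      have := h1 b
      exact ⟨by omega, ih _ (by omega)⟩
  refine ENNReal.tsum_le_tsum fun A => ?_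
  by_cases hA : HT h A = k
  · simp [hA, key A k hA]
  · simp [hA]

open Classical in
/-- overshoot -/
lemma ov_le (Λ : B → ℝ≥0∞) (h : B → ℕ) (h1 : ∀ b, 1 ≤ h b) (hΛ : ∑' b, Λ b = 1) (r T : ℕ) :
    ∑' A, (if fp h T A ∧ T + r < HT h A then LW Λ A else 0)
      ≤ ∑' b, Λ b * ((h b - r : ℕ) : ℝ≥0∞) := by
  have step : ∀ T : ℕ, ∑' A, (if fp h T A ∧ T + r < HT h A then LW Λ A else 0)
      ≤ ∑' A, ∑' b, (if HT h A < T ∧ T + r < HT h A + h b then LW Λ A * Λ b else 0) := by
    intro T
    induction T using Nat.strong_induction_on with
    | _ T ih =>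
      rcases Nat.eq_zero_or_pos T with h0 | h0
      · subst h0
        rw [tsum_list]
        simp [fp, HT_nil]
      · rw [tsum_list, tsum_list (fun A => ∑' b, (if HT h A < T ∧ T + r < HT h A + h b
          then LW Λ A * Λ b else 0))]
        have e1 : (if fp h T ([] : List B) ∧ T + r < HT h ([] : List B) then LW Λ [] else 0) = 0 := by
          rw [if_neg]; rintro ⟨h2, -⟩; simp only [fp] at h2; omega
        rw [e1, zero_add, ← ENNReal.tsum_add]
        refine ENNReal.tsum_le_tsum fun b => ?_
        by_cases hb : h b < T
        · refine le_trans ?_ le_add_self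
          have h3 := ih (T - h b) (by have := h1 b; omega)
          calc ∑' A, (if fp h T (b :: A) ∧ T + r < HT h (b :: A) then LW Λ (b :: A) else 0)
              = Λ b * ∑' A, (if fp h (T - h b) A ∧ (T - h b) + r < HT h A then LW Λ A else 0) := by
                rw [← ENNReal.tsum_mul_left]
                refine tsum_congr fun A => ?_
                have : (fp h T (b :: A) ∧ T + r < HT h (b :: A))
                    ↔ (fp h (T - h b) A ∧ (T - h b) + r < HT h A) := by
                  rw [HT_cons]
                  constructor
                  · rintro ⟨⟨-, h4⟩, h5⟩; exact ⟨h4, by omega⟩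
                  · rintro ⟨h4, h5⟩; exact ⟨⟨by omega, h4⟩, by omega⟩
                simp only [this]
                split_ifs <;> simp [LW_cons]
            _ ≤ Λ b * ∑' A, ∑' b', (if HT h A < T - h b ∧ (T - h b) + r < HT h A + h b'
                  then LW Λ A * Λ b' else 0) := mul_le_mul_right h3 _
            _ = ∑' A, ∑' b', (if HT h (b :: A) < T ∧ T + r < HT h (b :: A) + h b'
                  then LW Λ (b :: A) * Λ b' else 0) := by
                rw [← ENNReal.tsum_mul_left]
                refine tsum_congr fun A => ?_
                rw [← ENNReal.tsum_mul_left]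
                refine tsum_congr fun b' => ?_
                have : (HT h (b :: A) < T ∧ T + r < HT h (b :: A) + h b')
                    ↔ (HT h A < T - h b ∧ (T - h b) + r < HT h A + h b') := by
                  rw [HT_cons]; omega
                simp only [this]
                split_ifs <;> simp [LW_cons, mul_assoc]
        · refine le_trans ?_ le_self_add
          have e5 : T - h b = 0 := by omega
          calc ∑' A, (if fp h T (b :: A) ∧ T + r < HT h (b :: A) then LW Λ (b :: A) else 0)
              ≤ ∑' A, (if fp h 0 A then (if T + r < h b + HT h A then LW Λ (b :: A) else 0) else 0) := by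
                refine ENNReal.tsum_le_tsum fun A => ?_
                rw [HT_cons]
                by_cases h4 : fp h T (b :: A)
                · have h5 := h4.2
                  rw [e5] at h5
                  simp [h4, h5]
                · simp [h4]
            _ = (if T + r < h b then Λ b else 0) := by
                rw [fp_zero]; simp [HT_nil, LW_cons, LW_nil]
            _ ≤ _ := by
                simp [HT_nil, LW_nil, h0]
  refine (step T).trans ?_
  rw [ENNReal.tsum_comm]
  refine ENNReal.tsum_le_tsum fun b => ?_
  calc ∑' A, (if HT h A < T ∧ T + r < HT h A + h b then LW Λ A * Λ b else 0)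
      ≤ ∑' A, ∑ k ∈ Finset.Ico (T + r + 1 - h b) T, (if HT h A = k then LW Λ A * Λ b else 0) := by
        refine ENNReal.tsum_le_tsum fun A => ?_
        split_ifs with h2
        · refine le_trans ?_ (Finset.single_le_sum (f := fun k => if HT h A = k then LW Λ A * Λ b else 0)
            (fun _ _ => bot_le) (Finset.mem_Ico.2 ⟨?_, h2.1⟩ : HT h A ∈ Finset.Ico (T + r + 1 - h b) T))
          · simp
          · omega
        · exact bot_le
    _ = ∑ k ∈ Finset.Ico (T + r + 1 - h b) T, Λ b * ∑' A, (if HT h A = k then LW Λ A else 0) := by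
        rw [Summable.tsum_finsetSum (fun _ _ => ENNReal.summable)]
        refine Finset.sum_congr rfl fun k _ => ?_
        rw [← ENNReal.tsum_mul_left]
        refine tsum_congr fun A => ?_
        split_ifs <;> simp [mul_comm]
    _ ≤ ∑ k ∈ Finset.Ico (T + r + 1 - h b) T, Λ b := by
        refine Finset.sum_le_sum fun k _ => ?_
        calc _ ≤ Λ b * 1 := mul_le_mul_right (U_le Λ h h1 hΛ k) _
          _ = _ := mul_one _
    _ ≤ Λ b * ((h b - r : ℕ) : ℝ≥0∞) := by
        rw [Finset.sum_const, Nat.card_Ico, nsmul_eq_mul, mul_comm]
        refine mul_le_mul_right ?_ _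
        have : T - (T + r + 1 - h b) ≤ h b - r := by omega
        exact_mod_cast this

end Crest.Agent.R154.Kap604
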