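import Crest.Agent.R154.KapA_318
import Crest.Agent.R154.Dens_903
import Crest.Agent.R154.Ext_944

/-! Row 154 (helper318), ROAD 801, assembly, part B: one window. -/

set_option autoImplicit false

namespace Crest.Agent.R154.KapB318

open Crest.Agent.R154.B5A Crest.Agent.R154.FP178 Crest.Agent.R154.KapA318
open Crest.Agent.R154.Bind12 (TT Dp)
open scoped ENNReal

lemma excess {ι : Type*} (μ : ι → ℝ≥0∞) (M b : ℝ≥0∞) (hM : M ≠ ⊤)
    (h : ∀ D : Finset ι, ∑ x ∈ D, μ x ≤ M * D.card + b) : ∑' x, (μ x - M) ≤ b := by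
  classical
  rw [ENNReal.tsum_eq_iSup_sum]
  refine iSup_le fun s => ?_
  have h1 : ∑ x ∈ s, (μ x - M) = ∑ x ∈ s.filter (fun x => M < μ x), (μ x - M) := by
    rw [Finset.sum_filter]
    refine Finset.sum_congr rfl fun x _ => ?_
    by_cases hx : M < μ x
    · rw [if_pos hx]
    · rw [if_neg hx, tsub_eq_zero_of_le (not_lt.1 hx)]
  rw [h1]
  set D := s.filter (fun x => M < μ x) with hD
  have h2 : ∑ x ∈ D, (μ x - M) + M * D.card = ∑ x ∈ D, μ x := by
    rw [show M * (D.card : ℝ≥0∞) = ∑ _x ∈ D, M by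
      rw [Finset.sum_const, nsmul_eq_mul, mul_comm], ← Finset.sum_add_distrib]
    refine Finset.sum_congr rfl fun x hx => ?_
    exact tsub_add_cancel_of_le (Finset.mem_filter.1 hx).2.le
  have h3 := h D
  rw [← h2, add_comm (M * _)] at h3
  exact (ENNReal.add_le_add_iff_right
    (ENNReal.mul_ne_top hM (ENNReal.natCast_ne_top _))).1 h3

lemma cnt {ι κ : Type*} (D : Finset ι) [DecidablePred (· ∈ D)] (g : κ → ι)
    (hg : Function.Injective g) :
    ∑' x, (if g x ∈ D then (1 : ℝ≥0∞) else 0) ≤ D.card := by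
  calc ∑' x, (if g x ∈ D then (1 : ℝ≥0∞) else 0)
      ≤ ∑' i, (if i ∈ D then (1 : ℝ≥0∞) else 0) :=
        ENNReal.tsum_comp_le_tsum_of_injective hg (fun i => if i ∈ D then (1 : ℝ≥0∞) else 0)
    _ = ∑ i ∈ D, 1 := by
        rw [tsum_eq_sum (s := D)]
        · exact Finset.sum_congr rfl fun i hi => if_pos hi
        · intro i hi; exact if_neg hi
    _ = D.card := by simp

section one

variable {B G : Type*} [AddCommGroup G] (Λ : B → ℝ≥0∞) (ht : B → ℕ) (z : B → G)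

open Classical in
lemma tail_le (hU1 : ∀ n, U Λ ht n ≤ 1) (A : List B) (n : ℕ) (f : List B → ℝ≥0∞) (c : ℝ≥0∞)
    (hf : ∀ L, HT ht A + HT ht L = n → f L ≤ c) (hf0 : ∀ L, HT ht A + HT ht L ≠ n → f L = 0) :
    ∑' L, LW Λ L * f L ≤ c := by
  calc ∑' L, LW Λ L * f L ≤ ∑' L, c * (if HT ht L = n - HT ht A then LW Λ L else 0) := by
        refine ENNReal.tsum_le_tsum fun L => ?_
        by_cases h : HT ht A + HT ht L = n
        · rw [if_pos (by omega), mul_comm c]
          exact mul_le_mul_right (hf L h) _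
        · rw [hf0 L h, mul_zero]; exact zero_le
    _ = c * U Λ ht (n - HT ht A) := by rw [ENNReal.tsum_mul_left]; rfl
    _ ≤ c * 1 := mul_le_mul_right (hU1 _) _
    _ = c := mul_one c

open Classical in
lemma cut_le (h1 : ∀ b, 1 ≤ ht b) (hΛ : ∑' b, Λ b = 1) (hU1 : ∀ n, U Λ ht n ≤ 1)
    (a0 T i0 n : ℕ) (hn : a0 + i0 + T ≤ n) (τ : ℝ≥0∞)
    (hτ : ∀ a, Ex Λ ht a (fun A => if a + i0 < HT ht A then 1 else 0) ≤ τ)
    (F : List B → ℝ≥0∞) (hF1 : ∀ L, F L ≤ 1) (Fh : List B → List B → ℝ≥0∞)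
    (hF : ∀ A P R, fp ht a0 A → fp ht T P → HT ht A ≤ a0 + i0 → HT ht P ≤ T + i0 →
      HT ht A + (HT ht P + HT ht R) = n → F (A ++ (P ++ R)) ≤ Fh A P) :
    ∑' L, (if HT ht L = n then LW Λ L * F L else 0)
      ≤ τ + (τ + Ex Λ ht a0 (fun A => Ex Λ ht T (fun P =>
          if HT ht A ≤ a0 + i0 ∧ HT ht P ≤ T + i0 then Fh A P else 0))) := by
  set f : List B → ℝ≥0∞ := fun L => if HT ht L = n then F L else 0 with hf
  have e1 : ∑' L, (if HT ht L = n then LW Λ L * F L else 0)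
      = Ex Λ ht a0 (fun A => ∑' L2, LW Λ L2 * f (A ++ L2)) := by
    rw [Ex, ← FP178.split Λ ht h1 a0 f]
    refine tsum_congr fun L => ?_
    by_cases h : HT ht L = n
    · rw [if_pos h, if_pos (by omega)]; simp only [hf]; rw [if_pos h]
    · rw [if_neg h]; simp only [hf]; rw [if_neg h, mul_zero, ite_self]
  rw [e1]
  have key : ∀ A, fp ht a0 A → ∑' L2, LW Λ L2 * f (A ++ L2)
      ≤ (if a0 + i0 < HT ht A then 1 else 0) + (τ + Ex Λ ht T (fun P =>
          if HT ht A ≤ a0 + i0 ∧ HT ht P ≤ T + i0 then Fh A P else 0)) := by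
    intro A hA
    by_cases hA1 : a0 + i0 < HT ht A
    · rw [if_pos hA1]
      refine le_trans ?_ le_self_add
      refine tail_le Λ ht hU1 A n _ 1 (fun L hL => ?_) (fun L hL => ?_)
      · simp only [hf]; rw [HT_append, if_pos hL]; exact hF1 _
      · simp only [hf]; rw [HT_append, if_neg hL]
    · refine le_trans ?_ le_add_self
      have e2 : ∑' L2, LW Λ L2 * f (A ++ L2)
          = Ex Λ ht T (fun P => ∑' R, LW Λ R * f (A ++ (P ++ R))) := by
        rw [Ex, ← FP178.split Λ ht h1 T (fun L2 => f (A ++ L2))]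
        refine tsum_congr fun L => ?_
        by_cases h : T ≤ HT ht L
        · rw [if_pos h]
        · rw [if_neg h]; simp only [hf]; rw [HT_append, if_neg (by omega), mul_zero]
      rw [e2]
      calc Ex Λ ht T (fun P => ∑' R, LW Λ R * f (A ++ (P ++ R)))
          ≤ Ex Λ ht T (fun P => (if T + i0 < HT ht P then 1 else 0) +
              (if HT ht A ≤ a0 + i0 ∧ HT ht P ≤ T + i0 then Fh A P else 0)) := by
            refine Ex_mono Λ ht T fun P hP => ?_
            by_cases hP1 : T + i0 < HT ht P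
            · rw [if_pos hP1]
              refine le_trans ?_ le_self_add
              refine tail_le Λ ht hU1 (A ++ P) n _ 1 (fun L hL => ?_) (fun L hL => ?_)
              · simp only [hf]
                rw [HT_append] at hL
                rw [HT_append, HT_append, if_pos (by omega)]; exact hF1 _
              · simp only [hf]
                rw [HT_append] at hL
                rw [HT_append, HT_append, if_neg (by omega)]
            · rw [if_neg hP1, zero_add, if_pos ⟨by omega, by omega⟩]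
              refine tail_le Λ ht hU1 (A ++ P) n _ _ (fun L hL => ?_) (fun L hL => ?_)
              · simp only [hf]
                rw [HT_append] at hL
                rw [HT_append, HT_append, if_pos (by omega)]
                exact hF A P L hA hP (by omega) (by omega) (by omega)
              · simp only [hf]
                rw [HT_append] at hL
                rw [HT_append, HT_append, if_neg (by omega)]
        _ = _ := Ex_add Λ ht T _ _
        _ ≤ _ := add_le_add_left (hτ T) _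
  calc Ex Λ ht a0 (fun A => ∑' L2, LW Λ L2 * f (A ++ L2))
      ≤ _ := Ex_mono Λ ht a0 key
    _ = _ := by rw [Ex_add, Ex_add]
    _ ≤ _ := by
      refine add_le_add (hτ a0) (add_le_add (Ex_le Λ ht h1 hΛ a0 (fun _ _ => le_rfl)) le_rfl)

end one

section two

variable {BX BY G : Type*} [AddCommGroup G] (ΛX : BX → ℝ≥0∞) (ΛY : BY → ℝ≥0∞)
  (hX : BX → ℕ) (hY : BY → ℕ) (zX : BX → G) (zY : BY → G)
  (sX : BX → Set (G × ℕ)) (sY : BY → Set (G × ℕ))

lemma Ex_swap (a b : ℕ) (F : List BX → List BY → ℝ≥0∞) :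
    Ex ΛX hX a (fun A => Ex ΛY hY b (fun A' => F A A'))
      = Ex ΛY hY b (fun A' => Ex ΛX hX a (fun A => F A A')) := by
  classical
  have h : ∀ A, Ex ΛY hY b (fun A' => F A A')
      = ∑' A', (if fp hY b A' then LW ΛY A' * F A A' else 0) := fun A => rfl
  simp only [h]
  rw [Ex_tsum]
  conv_rhs => rw [Ex]
  refine tsum_congr fun A' => ?_
  by_cases hA : fp hY b A'
  · simp only [if_pos hA]; rw [Ex_const_mul]
  · simp only [if_neg hA]
    rw [Ex]
    simp

/-- heights of the tops and relative position -/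
def tl (w : G) (A : List BX) (A' : List BY) : ℕ × ℕ × G :=
  (HT hX A, HT hY A', w + Dp zY A' - Dp zX A)

open Classical in
/-- law of the tie -/
noncomputable def mu (a0 a1 : ℕ) (w : G) (i : ℕ × ℕ × G) : ℝ≥0∞ :=
  Ex ΛX hX a0 (fun A => Ex ΛY hY a1 (fun A' => if tl hX hY zX zY w A A' = i then 1 else 0))

lemma mu_push (a0 a1 : ℕ) (w : G) (Φ : ℕ × ℕ × G → ℝ≥0∞) :
    Ex ΛX hX a0 (fun A => Ex ΛY hY a1 (fun A' => Φ (tl hX hY zX zY w A A')))
      = ∑' i, mu ΛX ΛY hX hY zX zY a0 a1 w i * Φ i := by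
  classical
  simp only [Ex_push ΛY hY a1 (fun A' => tl hX hY zX zY w _ A') Φ]
  rw [Ex_tsum]
  refine tsum_congr fun i => ?_
  rw [Ex_mul_const, mu]
  congr 1
  refine Ex_congr _ _ _ fun A _ => Ex_congr _ _ _ fun A' _ => ?_
  by_cases h : tl hX hY zX zY w A A' = i <;> simp [h]

lemma mu_sum (h1X : ∀ b, 1 ≤ hX b) (h1Y : ∀ b, 1 ≤ hY b) (hΛX : ∑' b, ΛX b = 1)
    (hΛY : ∑' b, ΛY b = 1) (a0 a1 : ℕ) (w : G) : ∑' i, mu ΛX ΛY hX hY zX zY a0 a1 w i = 1 := by
  have := mu_push ΛX ΛY hX hY zX zY a0 a1 w (fun _ => 1)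
  rw [Ex_one ΛY hY h1Y hΛY, Ex_one ΛX hX h1X hΛX] at this
  simpa using this.symm

lemma mu_sum_D (a0 a1 : ℕ) (w : G) (D : Finset (ℕ × ℕ × G)) [DecidablePred (· ∈ D)] :
    ∑ i ∈ D, mu ΛX ΛY hX hY zX zY a0 a1 w i
      = Ex ΛX hX a0 (fun A => Ex ΛY hY a1 (fun A' =>
          if tl hX hY zX zY w A A' ∈ D then 1 else 0)) := by
  rw [mu_push ΛX ΛY hX hY zX zY a0 a1 w (fun i => if i ∈ D then 1 else 0)]
  rw [tsum_eq_sum (s := D)]
  · exact Finset.sum_congr rfl fun i hi => by rw [if_pos hi, mul_one]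
  · intro i hi; rw [if_neg hi, mul_zero]

open Classical in
lemma densX (h1X : ∀ b, 1 ≤ hX b) (h1Y : ∀ b, 1 ≤ hY b) (hΛX : ∑' b, ΛX b = 1)
    (hΛY : ∑' b, ΛY b = 1) (T i0 : ℕ) (th r τ : ℝ≥0∞)
    (hr : Ex ΛX hX T (fun P => if th < pl ΛX hX zX T (hd hX zX P) then 1 else 0) ≤ r)
    (hr1 : r ≤ 1) (hτ : Ex ΛX hX T (fun P => if T + i0 < HT hX P then 1 else 0) ≤ τ)
    (N a0 a1 : ℕ) (hN : N * (T + i0) ≤ a0) (w : G) (D : Finset (ℕ × ℕ × G)) :
    ∑ i ∈ D, mu ΛX ΛY hX hY zX zY a0 a1 w i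
      ≤ ((i0 : ℝ≥0∞) + 1) * th * (∑ j ∈ Finset.range N, r ^ j) * D.card + (r ^ N + N * τ) := by
  rw [mu_sum_D, Ex_swap]
  refine Ex_le ΛY hY h1Y hΛY a1 fun A' _ => ?_
  have := DL ΛX hX zX h1X hΛX T i0 th r τ hr hr1 hτ D.card N a0
    (fun q => if (q.1, HT hY A', w + Dp zY A' - q.2) ∈ D then 1 else 0) hN
    (fun q => by split_ifs <;> simp) (fun α => by
      refine cnt D (fun x => (α, HT hY A', w + Dp zY A' - x)) ?_
      intro x y hxy
      simpa using hxy)
  rw [add_assoc] at this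
  exact this

open Classical in
lemma densY (h1X : ∀ b, 1 ≤ hX b) (h1Y : ∀ b, 1 ≤ hY b) (hΛX : ∑' b, ΛX b = 1)
    (hΛY : ∑' b, ΛY b = 1) (T i0 : ℕ) (th r τ : ℝ≥0∞)
    (hr : Ex ΛY hY T (fun P => if th < pl ΛY hY zY T (hd hY zY P) then 1 else 0) ≤ r)
    (hr1 : r ≤ 1) (hτ : Ex ΛY hY T (fun P => if T + i0 < HT hY P then 1 else 0) ≤ τ)
    (N a0 a1 : ℕ) (hN : N * (T + i0) ≤ a1) (w : G) (D : Finset (ℕ × ℕ × G)) :
    ∑ i ∈ D, mu ΛX ΛY hX hY zX zY a0 a1 w i
      ≤ ((i0 : ℝ≥0∞) + 1) * th * (∑ j ∈ Finset.range N, r ^ j) * D.card + (r ^ N + N * τ) := by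
  rw [mu_sum_D]
  refine Ex_le ΛX hX h1X hΛX a0 fun A _ => ?_
  have := DL ΛY hY zY h1Y hΛY T i0 th r τ hr hr1 hτ D.card N a1
    (fun q => if (HT hX A, q.1, w + q.2 - Dp zX A) ∈ D then 1 else 0) hN
    (fun q => by split_ifs <;> simp) (fun α => by
      refine cnt D (fun x => (HT hX A, α, w + x - Dp zX A)) ?_
      intro x y hxy
      simpa using hxy)
  rw [add_assoc] at this
  exact this

end two

end Crest.Agent.R154.KapB318
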