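import Crest.Agent.R154.KapA_506

/-! Row 154, KAPPA' (road 801): attempts, smooth density, push-forward (helper506). -/

set_option autoImplicit false

namespace Crest.Agent.R154.Kap506

open Crest.Agent.R154.B5A
open scoped ENNReal
open Classical

variable {B G : Type*} [AddCommGroup G]

/-- displacement -/
def Dp (zz : B → G) (L : List B) : G := (L.map zz).sum

lemma Dp_nil (zz : B → G) : Dp zz [] = 0 := rfl

lemma Dp_cons (zz : B → G) (b : B) (L : List B) : Dp zz (b :: L) = zz b + Dp zz L := by simp [Dp]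

lemma Dp_append (zz : B → G) (L L' : List B) : Dp zz (L ++ L') = Dp zz L + Dp zz L' := by
  simp [Dp]

lemma tsum_le_pairs (F : List B → ℝ≥0∞) (H : List B → List B → ℝ≥0∞)
    (h : ∀ L, F L ≠ 0 → ∃ Q A, L = Q ++ A ∧ F L ≤ H Q A) : ∑' L, F L ≤ ∑' Q, ∑' A, H Q A := by
  rw [← ENNReal.tsum_prod]
  choose f g hfg using h
  have hinj : Function.Injective
      (fun L : Function.support F => ((f L.1 L.2, g L.1 L.2) : List B × List B)) := by
    intro L L' e
    simp only [Prod.mk.injEq] at e
    have h1 := (hfg L.1 L.2).1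
    have h2 := (hfg L'.1 L'.2).1
    rw [← e.1, ← e.2, ← h1] at h2
    exact Subtype.ext h2.symm
  calc ∑' L, F L = ∑' L : Function.support F, F L := (tsum_subtype_support F).symm
    _ ≤ ∑' L : Function.support F, H (f L.1 L.2) (g L.1 L.2) :=
        ENNReal.tsum_le_tsum fun L => (hfg L.1 L.2).2
    _ ≤ ∑' p : List B × List B, H p.1 p.2 :=
        ENNReal.tsum_comp_le_tsum_of_injective hinj (fun p : List B × List B => H p.1 p.2)

variable (Λ : B → ℝ≥0∞) (ht : B → ℕ) (zz : B → G)

/-- law of (height, displacement) of one first passage list -/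
noncomputable def pp (T : ℕ) (x : ℕ × G) : ℝ≥0∞ :=
  FS Λ ht T (fun Q => if (HT ht Q, Dp zz Q) = x then 1 else 0)

lemma pp_push (T : ℕ) (g : ℕ × G → ℝ≥0∞) :
    FS Λ ht T (fun Q => g (HT ht Q, Dp zz Q)) = ∑' x, pp Λ ht zz T x * g x := by
  simp only [pp, FS]
  simp_rw [← ENNReal.tsum_mul_right]
  rw [ENNReal.tsum_comm]
  refine tsum_congr fun Q => ?_
  rw [tsum_eq_single (HT ht Q, Dp zz Q)]
  · by_cases h : FP ht T Q
    · simp [h]
    · simp [h]
  · intro x hx
    by_cases h : FP ht T Q
    · simp [h, hx.symm]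
    · simp [h]

/-- some attempt is smooth, all attempts up to it are short -/
def Sm (T i0 : ℕ) (th : ℝ≥0∞) : ℕ → List B → Prop
  | 0, _ => False
  | J + 1, A => ∃ Q A', A = Q ++ A' ∧ FP ht T Q ∧ HT ht Q ≤ T + i0 ∧
      (pp Λ ht zz T (HT ht Q, Dp zz Q) ≤ th ∨ Sm T i0 th J A')

variable {Λ ht zz}

/-- (S1) smooth lists have a bounded density -/
lemma dens_le (h1 : ∀ b, 1 ≤ ht b) (hΛ : ∑' b, Λ b = 1) (T i0 : ℕ) (th : ℝ≥0∞) (J : ℕ) :
    ∀ (h : ℕ) (z : G), HS Λ ht h (fun A => if Dp zz A = z ∧ Sm Λ ht zz T i0 th J A then 1 else 0)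
      ≤ J * ((i0 + 1 : ℕ) * th) := by
  induction J with
  | zero =>
    intro h z
    simp [HS, Sm]
  | succ J ih =>
    intro h z
    have step : HS Λ ht h (fun A => if Dp zz A = z ∧ Sm Λ ht zz T i0 th (J + 1) A then 1 else 0)
        ≤ ∑' Q, ∑' A,
          ((if FP ht T Q ∧ HT ht Q ≤ T + i0 ∧ HT ht Q + HT ht A = h ∧ Dp zz Q + Dp zz A = z ∧
              pp Λ ht zz T (HT ht Q, Dp zz Q) ≤ th then LW Λ Q * LW Λ A else 0)
          + (if FP ht T Q ∧ HT ht A = h - HT ht Q ∧ Dp zz A = z - Dp zz Q ∧
              Sm Λ ht zz T i0 th J A then LW Λ Q * LW Λ A else 0)) := by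
      rw [HS]
      refine tsum_le_pairs _ _ fun L hL => ?_
      by_cases hh : HT ht L = h
      · rw [if_pos hh] at hL ⊢
        by_cases hc : Dp zz L = z ∧ Sm Λ ht zz T i0 th (J + 1) L
        · obtain ⟨hz, Q, A, rfl, hQ, hQ2, hor⟩ := hc
          refine ⟨Q, A, rfl, ?_⟩
          have hc' : Dp zz (Q ++ A) = z ∧ Sm Λ ht zz T i0 th (J + 1) (Q ++ A) :=
            ⟨hz, Q, A, rfl, hQ, hQ2, hor⟩
          rw [if_pos hc', mul_one, LW_append]
          rw [HT_append] at hh
          rw [Dp_append] at hz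
          rcases hor with hor | hor
          · rw [if_pos ⟨hQ, hQ2, hh, hz, hor⟩]
            exact le_self_add
          · refine le_add_left ?_
            rw [if_pos ⟨hQ, by omega, by rw [← hz]; abel, hor⟩]
        · rw [if_neg hc, mul_zero] at hL
          exact absurd rfl hL
      · rw [if_neg hh] at hL
        exact absurd rfl hL
    refine step.trans ?_
    simp_rw [ENNReal.tsum_add]
    have e : ((J + 1 : ℕ) : ℝ≥0∞) * ((i0 + 1 : ℕ) * th)
        = (i0 + 1 : ℕ) * th + J * ((i0 + 1 : ℕ) * th) := by push_cast; ring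
    rw [e]
    refine add_le_add ?_ ?_
    · rw [ENNReal.tsum_comm]
      have key : ∀ A : List B, (∑' Q, if FP ht T Q ∧ HT ht Q ≤ T + i0 ∧ HT ht Q + HT ht A = h ∧
            Dp zz Q + Dp zz A = z ∧ pp Λ ht zz T (HT ht Q, Dp zz Q) ≤ th
            then LW Λ Q * LW Λ A else 0)
          ≤ ∑ k ∈ Finset.range (i0 + 1), (if HT ht A = h - (T + k) then LW Λ A * 1 else 0) * th := by
        intro A
        by_cases hA : ∃ k ∈ Finset.range (i0 + 1), HT ht A + (T + k) = h
        · obtain ⟨k, hk, hA⟩ := hA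
          refine le_trans ?_ (Finset.single_le_sum (fun _ _ => zero_le) hk)
          rw [if_pos (by omega), mul_one]
          by_cases hp : pp Λ ht zz T (T + k, z - Dp zz A) ≤ th
          · refine le_trans ?_ (mul_le_mul_right hp _)
            rw [pp, FS, ← ENNReal.tsum_mul_left]
            refine ENNReal.tsum_le_tsum fun Q => ?_
            by_cases hc : FP ht T Q ∧ HT ht Q ≤ T + i0 ∧ HT ht Q + HT ht A = h ∧
                Dp zz Q + Dp zz A = z ∧ pp Λ ht zz T (HT ht Q, Dp zz Q) ≤ th
            · rw [if_pos hc, if_pos hc.1]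
              have : (HT ht Q, Dp zz Q) = (T + k, z - Dp zz A) := by
                refine Prod.ext ?_ ?_
                · have := hc.2.2.1; simp only; omega
                · simp only; rw [← hc.2.2.2.1]; abel
              rw [if_pos this, mul_one, mul_comm]
            · rw [if_neg hc]; exact zero_le
          · refine le_trans (le_of_eq ?_) (zero_le)
            refine ENNReal.tsum_eq_zero.2 fun Q => if_neg ?_
            rintro ⟨_, _, h3, h4, h5⟩
            refine hp ?_
            have : (HT ht Q, Dp zz Q) = (T + k, z - Dp zz A) := by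
              refine Prod.ext ?_ ?_
              · simp only; omega
              · simp only; rw [← h4]; abel
            rw [← this]; exact h5
        · refine le_trans (le_of_eq ?_) (zero_le)
          refine ENNReal.tsum_eq_zero.2 fun Q => if_neg ?_
          rintro ⟨h2, h3, h4, _, _⟩
          have := FP_le _ _ h2
          exact hA ⟨HT ht Q - T, Finset.mem_range.2 (by omega), by omega⟩
      refine (ENNReal.tsum_le_tsum key).trans ?_
      rw [Summable.tsum_finsetSum (fun _ _ => ENNReal.summable)]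
      calc _ ≤ ∑ k ∈ Finset.range (i0 + 1), th := by
            refine Finset.sum_le_sum fun k _ => ?_
            rw [ENNReal.tsum_mul_right]
            refine (mul_le_mul_left (HS_one_le (Λ := Λ) h1 hΛ (h - (T + k))) _).trans ?_
            rw [one_mul]
        _ = _ := by simp
    · calc _ ≤ ∑' Q, (if FP ht T Q then LW Λ Q * (J * ((i0 + 1 : ℕ) * th)) else 0) := by
            refine ENNReal.tsum_le_tsum fun Q => ?_
            by_cases hQ : FP ht T Q
            · rw [if_pos hQ]
              refine le_trans ?_ (mul_le_mul_right (ih (h - HT ht Q) (z - Dp zz Q)) _)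
              rw [HS, ← ENNReal.tsum_mul_left]
              refine ENNReal.tsum_le_tsum fun A => ?_
              by_cases hc : FP ht T Q ∧ HT ht A = h - HT ht Q ∧ Dp zz A = z - Dp zz Q ∧
                Sm Λ ht zz T i0 th J A
              · rw [if_pos hc, if_pos hc.2.1, if_pos ⟨hc.2.2.1, hc.2.2.2⟩, mul_one]
              · rw [if_neg hc]; exact zero_le
            · rw [if_neg hQ]
              refine le_of_eq (ENNReal.tsum_eq_zero.2 fun A => if_neg fun hc => hQ hc.1)
        _ = _ := FS_const h1 hΛ T _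

/-- (S2) non-smooth first passage lists are rare -/
lemma nonsm_le (h1 : ∀ b, 1 ≤ ht b) (hΛ : ∑' b, Λ b = 1) (T i0 : ℕ) (th q ov : ℝ≥0∞)
    (hq : FS Λ ht T (fun Q => if pp Λ ht zz T (HT ht Q, Dp zz Q) ≤ th then 0 else 1) ≤ q)
    (hq1 : q ≤ 1) (hov : FS Λ ht T (fun Q => if T + i0 < HT ht Q then 1 else 0) ≤ ov) (J : ℕ) :
    ∀ a : ℕ, J * (T + i0) ≤ a →
      FS Λ ht a (fun A => if Sm Λ ht zz T i0 th J A then 0 else 1) ≤ q ^ J + J * ov := by
  induction J with
  | zero =>
    intro a _
    refine (FS_mono Λ ht a fun A _ => ?_).trans ((FS_const h1 hΛ a 1).le.trans (by simp))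
    split_ifs <;> simp
  | succ J ih =>
    intro a ha
    have hT : T ≤ a := by nlinarith
    rw [FS_markov h1 T a hT]
    refine (FS_mono Λ ht T (F' := fun Q => (if T + i0 < HT ht Q then 1 else 0)
      + (if pp Λ ht zz T (HT ht Q, Dp zz Q) ≤ th then 0 else 1) * (q ^ J + J * ov))
      fun Q hQ => ?_).trans ?_
    · by_cases h2 : T + i0 < HT ht Q
      · rw [if_pos h2]
        refine le_add_right ?_
        refine (FS_mono Λ ht _ (F' := fun _ => 1) fun A _ => ?_).trans (FS_const h1 hΛ _ 1).le
        split_ifs <;> simp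
      · rw [if_neg h2, zero_add]
        by_cases h3 : pp Λ ht zz T (HT ht Q, Dp zz Q) ≤ th
        · rw [if_pos h3, zero_mul]
          refine (FS_mono Λ ht _ (F' := fun _ => 0) fun A _ => ?_).trans (FS_const h1 hΛ _ 0).le
          rw [if_pos ⟨Q, A, rfl, hQ, by omega, Or.inl h3⟩]
        · rw [if_neg h3, one_mul]
          refine (FS_mono Λ ht _ (F' := fun A => if Sm Λ ht zz T i0 th J A then 0 else 1)
            fun A _ => ?_).trans (ih _ ?_)
          · by_cases h4 : Sm Λ ht zz T i0 th J A
            · rw [if_pos h4, if_pos ⟨Q, A, rfl, hQ, by omega, Or.inr h4⟩]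
            · rw [if_neg h4]; split_ifs <;> simp
          · have : (J + 1) * (T + i0) = J * (T + i0) + (T + i0) := by ring
            omega
    · rw [FS_add, FS_mul]
      calc _ ≤ ov + q * (q ^ J + J * ov) := by gcongr
        _ = ov + (q ^ (J + 1) + q * (J * ov)) := by ring
        _ ≤ ov + (q ^ (J + 1) + 1 * (J * ov)) := by gcongr
        _ = _ := by push_cast; ring

end Crest.Agent.R154.Kap506
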