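import Crest.Agent.R154.KapA_57

/-! Row 154 (helper57): smooth density from iid attempts. -/

set_option autoImplicit false

namespace Crest.Agent.R154.KA57

open scoped ENNReal
open Crest.Agent.R154.B5A
open Classical

section dens

variable {B : Type*} (Λ : B → ℝ≥0∞) (ht : B → ℕ) {G : Type*} [AddCommGroup G] (z : B → G)

lemma sh_fiber (α : ℕ) (F : ℕ × G → ℝ≥0∞) (q : ℕ × G) :
    ∑' x : G, sh (α, x) F q ≤ ∑' r, F r := by
  simp only [sh]
  rw [ENNReal.tsum_comm]
  refine ENNReal.tsum_le_tsum fun r => ?_
  calc ∑' x : G, (if ((α, x) : ℕ × G) + r = q then F r else 0)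
      ≤ ∑' x : G, (if x = q.2 - r.2 then F r else 0) := by
        refine ENNReal.tsum_le_tsum fun x => ?_
        by_cases h : ((α, x) : ℕ × G) + r = q
        · have : x = q.2 - r.2 := by rw [← h]; simp
          rw [if_pos h, if_pos this]
        · simp [h]
    _ = F r := by rw [tsum_ite_eq]

/-- **smooth density**: `J` attempts of height `R` below the height `a`. -/
theorem dens (h1 : ∀ b, 1 ≤ ht b) (hΛ : ∑' b, Λ b = 1) (R i0 : ℕ) (th q0 e : ℝ≥0∞)
    (hq : ∑' c, (if th < V Λ ht z R c then V Λ ht z R c else 0) ≤ q0)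
    (hq1 : q0 ≤ 1)
    (he : ∑' c : ℕ × G, (if R + i0 < c.1 then V Λ ht z R c else 0) ≤ e) (J : ℕ) :
    ∀ a, J * (R + i0) ≤ a → ∃ Ag Bb : ℕ × G → ℝ≥0∞,
      (∀ q, V Λ ht z a q ≤ Ag q + Bb q) ∧ (∀ q, Ag q ≤ J * ((i0 + 1) * th)) ∧
      ∑' q, Bb q ≤ q0 ^ J + J * e := by
  induction J with
  | zero =>
    intro a _
    refine ⟨fun _ => 0, V Λ ht z a, fun q => by simp, fun q => by simp, ?_⟩
    rw [V_sum Λ ht z h1 hΛ]; simp
  | succ J ih =>
    intro a ha
    have ha' : J * (R + i0) + (R + i0) ≤ a := by rwa [Nat.succ_mul] at ha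
    choose Ag Bb hV hA hB using ih
    -- Ag, Bb as functions of all heights
    let A' : ℕ → ℕ × G → ℝ≥0∞ := fun a' => if h : J * (R + i0) ≤ a' then Ag a' h else fun _ => 0
    let B' : ℕ → ℕ × G → ℝ≥0∞ := fun a' => if h : J * (R + i0) ≤ a' then Bb a' h else fun _ => 0
    have hV' : ∀ a', J * (R + i0) ≤ a' → ∀ q, V Λ ht z a' q ≤ A' a' q + B' a' q := by
      intro a' h q; simp only [A', B', h, dite_true]; exact hV a' h q
    have hA' : ∀ a' q, A' a' q ≤ J * ((i0 + 1) * th) := by
      intro a' q
      by_cases h : J * (R + i0) ≤ a'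
      · simp only [A', h, dite_true]; exact hA a' h q
      · simp [A', h]
    have hB' : ∀ a', ∑' q, B' a' q ≤ q0 ^ J + J * e := by
      intro a'
      by_cases h : J * (R + i0) ≤ a'
      · simp only [B', h, dite_true]; exact hB a' h
      · simp [B', h]
    set p : ℕ × G → ℝ≥0∞ := V Λ ht z R with hp
    refine ⟨fun q => (∑' c : ℕ × G, if c.1 ≤ R + i0 ∧ p c ≤ th then
          p c * sh c (V Λ ht z (a - c.1)) q else 0)
        + ∑' c : ℕ × G, if c.1 ≤ R + i0 ∧ th < p c then p c * sh c (A' (a - c.1)) q else 0,
      fun q => (∑' c : ℕ × G, if R + i0 < c.1 then p c * sh c (V Λ ht z (a - c.1)) q else 0)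
        + ∑' c : ℕ × G, if c.1 ≤ R + i0 ∧ th < p c then p c * sh c (B' (a - c.1)) q else 0,
      ?_, ?_, ?_⟩
    · intro q
      rw [V_rec Λ ht z h1 R a (by omega) q, ← hp]
      rw [show ∀ x y u v : ℝ≥0∞, x + y + (u + v) = x + (y + (u + v)) by intros; ring]
      rw [← ENNReal.tsum_add, ← ENNReal.tsum_add, ← ENNReal.tsum_add]
      refine ENNReal.tsum_le_tsum fun c => ?_
      by_cases h1' : c.1 ≤ R + i0
      · have h2' : ¬ (R + i0 < c.1) := by omega
        by_cases h3 : p c ≤ th
        · have h4 : ¬ (th < p c) := not_lt.2 h3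
          simp [h1', h2', h3, h4]
        · have h4 : th < p c := not_le.1 h3
          simp only [h1', h2', h3, h4, and_true, and_false, if_true, if_false, true_and, zero_add]
          rw [← mul_add, ← sh_add]
          refine mul_le_mul_right ?_ _
          refine sh_mono c (fun r => hV' _ (by omega) r) q
      · have h2' : R + i0 < c.1 := by omega
        simp [h1', h2']
    · intro q
      have t1 : (∑' c : ℕ × G, if c.1 ≤ R + i0 ∧ p c ≤ th then
          p c * sh c (V Λ ht z (a - c.1)) q else 0) ≤ (i0 + 1) * th := by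
        calc (∑' c : ℕ × G, if c.1 ≤ R + i0 ∧ p c ≤ th then
              p c * sh c (V Λ ht z (a - c.1)) q else 0)
            ≤ ∑' c : ℕ × G, if c.1 ∈ Finset.Icc R (R + i0) then
                th * sh c (V Λ ht z (a - c.1)) q else 0 := by
              refine ENNReal.tsum_le_tsum fun c => ?_
              by_cases h : c.1 ≤ R + i0 ∧ p c ≤ th
              · rw [if_pos h]
                by_cases hc : R ≤ c.1
                · rw [if_pos (Finset.mem_Icc.2 ⟨hc, h.1⟩)]
                  exact mul_le_mul_left h.2 _
                · rw [show p c = 0 from V_low Λ ht z R c (by omega)]; simp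
              · simp [h]
          _ = ∑' α : ℕ, if α ∈ Finset.Icc R (R + i0) then
                ∑' x : G, th * sh (α, x) (V Λ ht z (a - α)) q else 0 := by
              rw [ENNReal.tsum_prod']
              refine tsum_congr fun α => ?_
              by_cases h : α ∈ Finset.Icc R (R + i0)
              · simp only [h, if_true]
              · simp [h]
          _ = ∑ α ∈ Finset.Icc R (R + i0), ∑' x : G, th * sh (α, x) (V Λ ht z (a - α)) q := by
              rw [tsum_eq_sum (s := Finset.Icc R (R + i0)) (fun α hα => if_neg hα)]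
              exact Finset.sum_congr rfl fun α hα => if_pos hα
          _ ≤ ∑ α ∈ Finset.Icc R (R + i0), th := by
              refine Finset.sum_le_sum fun α _ => ?_
              rw [ENNReal.tsum_mul_left]
              calc th * ∑' x : G, sh (α, x) (V Λ ht z (a - α)) q
                  ≤ th * 1 := by
                    refine mul_le_mul_right ?_ _
                    rw [← V_sum Λ ht z h1 hΛ (a - α)]
                    exact sh_fiber α _ q
                _ = th := mul_one _
          _ = (i0 + 1) * th := by
              rw [Finset.sum_const, Nat.card_Icc, nsmul_eq_mul]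
              congr 1
              have : R + i0 + 1 - R = i0 + 1 := by omega
              rw [this]; push_cast; rfl
      have t2 : (∑' c : ℕ × G, if c.1 ≤ R + i0 ∧ th < p c then p c * sh c (A' (a - c.1)) q else 0)
          ≤ J * ((i0 + 1) * th) := by
        calc _ ≤ ∑' c, p c * (J * ((i0 + 1) * th)) := by
              refine ENNReal.tsum_le_tsum fun c => ?_
              split_ifs
              · exact mul_le_mul_right (sh_le c _ _ (hA' _) q) _
              · exact bot_le
          _ = _ := by rw [ENNReal.tsum_mul_right, hp, V_sum Λ ht z h1 hΛ, one_mul]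
      calc _ ≤ (i0 + 1) * th + J * ((i0 + 1) * th) := add_le_add t1 t2
        _ = _ := by push_cast; ring
    · rw [ENNReal.tsum_add]
      have t1 : (∑' q, ∑' c : ℕ × G, if R + i0 < c.1 then
          p c * sh c (V Λ ht z (a - c.1)) q else 0) ≤ e := by
        rw [ENNReal.tsum_comm]
        refine le_trans (ENNReal.tsum_le_tsum fun c => ?_) he
        by_cases h : R + i0 < c.1
        · simp only [h, if_true]
          rw [ENNReal.tsum_mul_left, sh_sum, V_sum Λ ht z h1 hΛ, mul_one]
        · simp [h]
      have t2 : (∑' q, ∑' c : ℕ × G, if c.1 ≤ R + i0 ∧ th < p c then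
          p c * sh c (B' (a - c.1)) q else 0) ≤ q0 * (q0 ^ J + J * e) := by
        rw [ENNReal.tsum_comm]
        calc _ ≤ ∑' c : ℕ × G, (if th < p c then p c else 0) * (q0 ^ J + J * e) := by
              refine ENNReal.tsum_le_tsum fun c => ?_
              by_cases h : c.1 ≤ R + i0 ∧ th < p c
              · simp only [h, and_self, if_true]
                rw [ENNReal.tsum_mul_left, sh_sum]
                exact mul_le_mul_right (hB' _) _
              · simp [h]
          _ ≤ _ := by
              rw [ENNReal.tsum_mul_right]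
              exact mul_le_mul_left hq _
      calc _ ≤ e + q0 * (q0 ^ J + J * e) := add_le_add t1 t2
        _ ≤ e + (q0 ^ (J + 1) + 1 * (J * e)) := by
            rw [mul_add, ← pow_succ']
            gcongr
        _ = _ := by push_cast; ring

end dens

end Crest.Agent.R154.KA57
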