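import Crest.Agent.R154.KapA_604

/-! Row 154 (helper604): smooth densities of first-passage lists (ROAD 801 (1)). -/

set_option autoImplicit false

namespace Crest.Agent.R154.Kap604

open scoped ENNReal
open Crest.Agent.R154.B5A

variable {B G : Type*} [AddCommGroup G]

lemma Dp_nil (z : B → G) : Dp z [] = 0 := by simp [Dp]
lemma Dp_cons (z : B → G) (b : B) (L : List B) : Dp z (b :: L) = z b + Dp z L := by simp [Dp]
lemma Dp_append (z : B → G) (L L' : List B) : Dp z (L ++ L') = Dp z L + Dp z L' := by simp [Dp]

open Classical in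
/-- density of (overshoot, displacement) at the first passage of `T` -/
noncomputable def dens (Λ : B → ℝ≥0∞) (h : B → ℕ) (z : B → G) (T j : ℕ) (x : G) : ℝ≥0∞ :=
  ∑' A, if fp h T A ∧ HT h A = T + j ∧ Dp z A = x then LW Λ A else 0

open Classical in
lemma dens_tsum (Λ : B → ℝ≥0∞) (h : B → ℕ) (z : B → G) (T : ℕ) (S : ℕ → G → ℝ≥0∞) :
    ∑' A, (if fp h T A then LW Λ A * S (HT h A - T) (Dp z A) else 0)
      = ∑' j, ∑' x, dens Λ h z T j x * S j x := by
  have e1 : ∀ j x, dens Λ h z T j x * S j x
      = ∑' A, (if fp h T A ∧ HT h A = T + j ∧ Dp z A = x then LW Λ A * S j x else 0) := by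
    intro j x
    unfold dens
    rw [← ENNReal.tsum_mul_right]
    refine tsum_congr fun A => ?_
    split_ifs <;> simp
  simp_rw [e1]
  have e2 : ∀ j, ∑' x, ∑' A, (if fp h T A ∧ HT h A = T + j ∧ Dp z A = x then LW Λ A * S j x else 0)
      = ∑' A, ∑' x, (if fp h T A ∧ HT h A = T + j ∧ Dp z A = x then LW Λ A * S j x else 0) :=
    fun j => ENNReal.tsum_comm
  simp_rw [e2]
  rw [ENNReal.tsum_comm]
  refine tsum_congr fun A => ?_
  by_cases hA : fp h T A
  · have hT := fp_le h A T hA
    rw [if_pos hA, tsum_eq_single (HT h A - T), tsum_eq_single (Dp z A)]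
    · rw [if_pos]; exact ⟨hA, by omega, rfl⟩
    · intro x hx; rw [if_neg]; rintro ⟨-, -, h3⟩; exact hx h3.symm
    · intro j hj
      rw [ENNReal.tsum_eq_zero]
      intro x
      rw [if_neg]; rintro ⟨-, h2, -⟩; omega
  · simp [hA]

lemma dens_sum (Λ : B → ℝ≥0∞) (h : B → ℕ) (z : B → G) (h1 : ∀ b, 1 ≤ h b)
    (hΛ : ∑' b, Λ b = 1) (T : ℕ) : ∑' j, ∑' x, dens Λ h z T j x = 1 := by
  have := dens_tsum Λ h z T (fun _ _ => 1)
  simp only [mul_one] at this
  rw [← this, fp_sum Λ h h1 hΛ]

lemma tsum_sub_right' (f : G → ℝ≥0∞) (y : G) : ∑' x, f (x - y) = ∑' x, f x :=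
  (Equiv.subRight y).tsum_eq f

lemma tsum_sub_left' (f : G → ℝ≥0∞) (y : G) : ∑' x, f (y - x) = ∑' x, f x :=
  (Equiv.subLeft y).tsum_eq f

lemma dens_row (Λ : B → ℝ≥0∞) (h : B → ℕ) (z : B → G) (h1 : ∀ b, 1 ≤ h b)
    (hΛ : ∑' b, Λ b = 1) (T j : ℕ) : ∑' x, dens Λ h z T j x ≤ 1 := by
  rw [← dens_sum Λ h z h1 hΛ T]
  exact ENNReal.le_tsum j

open Classical in
/-- mass of the pieces with large overshoot -/
noncomputable def ovv (Λ : B → ℝ≥0∞) (h : B → ℕ) (τ i0 : ℕ) : ℝ≥0∞ :=
  ∑' A, if fp h τ A ∧ τ + i0 < HT h A then LW Λ A else 0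

open Classical in
/-- mass of the non-low pieces -/
noncomputable def nsm (Λ : B → ℝ≥0∞) (h : B → ℕ) (z : B → G) (τ i0 : ℕ) (th : ℝ≥0∞) : ℝ≥0∞ :=
  ∑' A, if fp h τ A ∧ HT h A ≤ τ + i0 ∧ ¬ dens Λ h z τ (HT h A - τ) (Dp z A) ≤ th
    then LW Λ A else 0

open Classical in
lemma smooth (Λ : B → ℝ≥0∞) (h : B → ℕ) (z : B → G) (h1 : ∀ b, 1 ≤ h b)
    (hΛ : ∑' b, Λ b = 1) (τ i0 : ℕ) (th : ℝ≥0∞) (hns : nsm Λ h z τ i0 th ≤ 1) (N : ℕ) :
    ∀ T : ℕ, N * (τ + i0) ≤ T → ∃ D1 D2 : ℕ → G → ℝ≥0∞,
      (∀ j x, dens Λ h z T j x ≤ D1 j x + D2 j x) ∧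
      (∀ j x, D1 j x ≤ (i0 + 1 : ℕ) * th * ∑ l ∈ Finset.range N, nsm Λ h z τ i0 th ^ l) ∧
      ∑' j, ∑' x, D2 j x ≤ N * ovv Λ h τ i0 + nsm Λ h z τ i0 th ^ N := by
  induction N with
  | zero =>
    intro T _
    refine ⟨fun _ _ => 0, dens Λ h z T, fun j x => by simp, fun j x => bot_le, ?_⟩
    rw [dens_sum Λ h z h1 hΛ]; simp
  | succ N ih =>
    intro T hT
    set q := nsm Λ h z τ i0 th with hq
    have hT' : ∀ P : List B, fp h τ P → HT h P ≤ τ + i0 → N * (τ + i0) ≤ T - HT h P := by
      intro P _ h3
      have : (N + 1) * (τ + i0) = N * (τ + i0) + (τ + i0) := by ring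
      omega
    have hτT : τ + i0 ≤ T := by
      have : (N + 1) * (τ + i0) = N * (τ + i0) + (τ + i0) := by ring
      omega
    choose D1' D2' hD using ih
    let E1 : ℕ → ℕ → G → ℝ≥0∞ := fun T' j x => if ht : N * (τ + i0) ≤ T' then D1' T' ht j x else 0
    let E2 : ℕ → ℕ → G → ℝ≥0∞ := fun T' j x => if ht : N * (τ + i0) ≤ T' then D2' T' ht j x else 0
    set low : List B → Prop := fun P => fp h τ P ∧ HT h P ≤ τ + i0 ∧
      dens Λ h z τ (HT h P - τ) (Dp z P) ≤ th with hlow
    set mid : List B → Prop := fun P => fp h τ P ∧ HT h P ≤ τ + i0 ∧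
      ¬ dens Λ h z τ (HT h P - τ) (Dp z P) ≤ th with hmid
    let H : ℕ → G → ℝ≥0∞ := fun j x => ∑' P, ∑' R, if (fp h τ P ∧ τ + i0 < HT h P) ∧
      fp h (T - HT h P) R ∧ HT h (P ++ R) = T + j ∧ Dp z (P ++ R) = x then LW Λ (P ++ R) else 0
    let F1 : ℕ → G → ℝ≥0∞ := fun j x =>
      (∑' P, if low P then LW Λ P * dens Λ h z (T - HT h P) j (x - Dp z P) else 0)
      + ∑' P, if mid P then LW Λ P * E1 (T - HT h P) j (x - Dp z P) else 0
    let F2 : ℕ → G → ℝ≥0∞ := fun j x => H j x
      + ∑' P, if mid P then LW Λ P * E2 (T - HT h P) j (x - Dp z P) else 0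
    refine ⟨F1, F2, ?_, ?_, ?_⟩
    · intro j x
      have e1 : dens Λ h z T j x = ∑' P, ∑' R, (if fp h τ P ∧ fp h (T - HT h P) R then
          (if HT h (P ++ R) = T + j ∧ Dp z (P ++ R) = x then LW Λ (P ++ R) else 0) else 0) := by
        rw [← fp_comp h h1 τ T (by omega)
          (fun A => if HT h A = T + j ∧ Dp z A = x then LW Λ A else 0)]
        unfold dens
        refine tsum_congr fun A => ?_
        by_cases hA : fp h T A <;> simp [hA]
      rw [e1]
      have e2 : ∀ P : List B, ∑' R, (if fp h τ P ∧ fp h (T - HT h P) R then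
          (if HT h (P ++ R) = T + j ∧ Dp z (P ++ R) = x then LW Λ (P ++ R) else 0) else 0)
          ≤ (if low P then LW Λ P * dens Λ h z (T - HT h P) j (x - Dp z P) else 0)
            + (if mid P then LW Λ P * E1 (T - HT h P) j (x - Dp z P) else 0)
            + ((∑' R, if (fp h τ P ∧ τ + i0 < HT h P) ∧
                fp h (T - HT h P) R ∧ HT h (P ++ R) = T + j ∧ Dp z (P ++ R) = x
                then LW Λ (P ++ R) else 0)
            + (if mid P then LW Λ P * E2 (T - HT h P) j (x - Dp z P) else 0)) := by
        intro P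
        by_cases hP : fp h τ P
        swap
        · simp [hP]
        by_cases hP2 : HT h P ≤ τ + i0
        · have e3 : ∑' R, (if fp h τ P ∧ fp h (T - HT h P) R then
              (if HT h (P ++ R) = T + j ∧ Dp z (P ++ R) = x then LW Λ (P ++ R) else 0) else 0)
              = LW Λ P * dens Λ h z (T - HT h P) j (x - Dp z P) := by
            unfold dens
            rw [← ENNReal.tsum_mul_left]
            refine tsum_congr fun R => ?_
            have : (fp h (T - HT h P) R ∧ HT h (P ++ R) = T + j ∧ Dp z (P ++ R) = x)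
                ↔ (fp h (T - HT h P) R ∧ HT h R = T - HT h P + j ∧ Dp z R = x - Dp z P) := by
              rw [HT_append, Dp_append]
              constructor
              · rintro ⟨h3, h4, h5⟩; exact ⟨h3, by omega, by rw [← h5]; abel⟩
              · rintro ⟨h3, h4, h5⟩; exact ⟨h3, by omega, by rw [h5]; abel⟩
            by_cases h4 : fp h (T - HT h P) R ∧ HT h (P ++ R) = T + j ∧ Dp z (P ++ R) = x
            · have h5 := this.1 h4
              simp only [hP, h4, h5, and_self, if_true, LW_append]
            · have h5 : ¬ (fp h (T - HT h P) R ∧ HT h R = T - HT h P + j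
                ∧ Dp z R = x - Dp z P) := fun h6 => h4 (this.2 h6)
              rw [if_neg h5, mul_zero]
              by_cases h6 : fp h (T - HT h P) R
              · have h7 : ¬ (HT h (P ++ R) = T + j ∧ Dp z (P ++ R) = x) := fun h8 => h4 ⟨h6, h8⟩
                simp [h7]
              · simp [h6]
          rw [e3]
          by_cases hP3 : dens Λ h z τ (HT h P - τ) (Dp z P) ≤ th
          · have : low P := ⟨hP, hP2, hP3⟩
            rw [if_pos this, add_assoc]
            exact le_self_add
          · have h4 : mid P := ⟨hP, hP2, hP3⟩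
            have h5 : ¬ low P := fun h6 => hP3 h6.2.2
            rw [if_pos h4, if_pos h4, if_neg h5, zero_add]
            have h6 := (hD _ (hT' P hP hP2)).1 j (x - Dp z P)
            calc LW Λ P * dens Λ h z (T - HT h P) j (x - Dp z P)
                ≤ LW Λ P * (E1 (T - HT h P) j (x - Dp z P) + E2 (T - HT h P) j (x - Dp z P)) := by
                  refine mul_le_mul_right ?_ _
                  simp only [E1, E2, dif_pos (hT' P hP hP2)]
                  exact h6
              _ = LW Λ P * E1 (T - HT h P) j (x - Dp z P)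
                  + LW Λ P * E2 (T - HT h P) j (x - Dp z P) := mul_add _ _ _
              _ ≤ _ := by
                  refine add_le_add_right ?_ _
                  exact le_add_self
        · have h4 : ¬ low P := fun h6 => hP2 h6.2.1
          have h5 : ¬ mid P := fun h6 => hP2 h6.2.1
          rw [if_neg h4, if_neg h5, if_neg h5, zero_add, zero_add, add_zero]
          refine ENNReal.tsum_le_tsum fun R => ?_
          by_cases h6 : fp h (T - HT h P) R ∧ HT h (P ++ R) = T + j ∧ Dp z (P ++ R) = x
          · simp only [hP, h6, and_self, if_true]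
            rw [if_pos]
            exact ⟨⟨trivial, by omega⟩, trivial⟩
          · by_cases h7 : fp h (T - HT h P) R
            · have h8 : ¬ (HT h (P ++ R) = T + j ∧ Dp z (P ++ R) = x) := fun h9 => h6 ⟨h7, h9⟩
              simp [h8]
            · simp [h7]
      calc _ ≤ ∑' P, _ := ENNReal.tsum_le_tsum e2
        _ = _ := by
          rw [ENNReal.tsum_add, ENNReal.tsum_add, ENNReal.tsum_add]
    · intro j x
      have g1 : (∑' P, if low P then LW Λ P * dens Λ h z (T - HT h P) j (x - Dp z P) else 0)
          ≤ (i0 + 1 : ℕ) * th := by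
        have := dens_tsum Λ h z τ (fun i y => if i ≤ i0 ∧ dens Λ h z τ i y ≤ th then
          dens Λ h z (T - (τ + i)) j (x - y) else 0)
        calc (∑' P, if low P then LW Λ P * dens Λ h z (T - HT h P) j (x - Dp z P) else 0)
            = ∑' A, (if fp h τ A then LW Λ A * (if HT h A - τ ≤ i0 ∧
                dens Λ h z τ (HT h A - τ) (Dp z A) ≤ th then
                dens Λ h z (T - (τ + (HT h A - τ))) j (x - Dp z A) else 0) else 0) := by
              refine tsum_congr fun A => ?_
              by_cases hA : fp h τ A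
              · have h3 := fp_le h A τ hA
                have e4 : τ + (HT h A - τ) = HT h A := by omega
                rw [if_pos hA, e4]
                by_cases h5 : HT h A ≤ τ + i0 ∧ dens Λ h z τ (HT h A - τ) (Dp z A) ≤ th
                · have h6 : HT h A - τ ≤ i0 ∧ dens Λ h z τ (HT h A - τ) (Dp z A) ≤ th :=
                    ⟨by omega, h5.2⟩
                  rw [if_pos (show low A from ⟨hA, h5⟩), if_pos h6]
                · have h6 : ¬ (HT h A - τ ≤ i0 ∧ dens Λ h z τ (HT h A - τ) (Dp z A) ≤ th) := by
                    rintro ⟨h7, h8⟩; exact h5 ⟨by omega, h8⟩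
                  rw [if_neg (show ¬ low A from fun h7 => h5 h7.2), if_neg h6, mul_zero]
              · rw [if_neg (show ¬ low A from fun h7 => hA h7.1), if_neg hA]
          _ = _ := this
          _ ≤ ∑' i, (if i ≤ i0 then th else 0) := by
              refine ENNReal.tsum_le_tsum fun i => ?_
              by_cases hi : i ≤ i0
              · rw [if_pos hi]
                calc ∑' y, dens Λ h z τ i y * (if i ≤ i0 ∧ dens Λ h z τ i y ≤ th then
                      dens Λ h z (T - (τ + i)) j (x - y) else 0)
                    ≤ ∑' y, th * dens Λ h z (T - (τ + i)) j (x - y) := by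
                      refine ENNReal.tsum_le_tsum fun y => ?_
                      split_ifs with h7
                      · exact mul_le_mul_left h7.2 _
                      · simp
                  _ = th * ∑' y, dens Λ h z (T - (τ + i)) j y := by
                      rw [ENNReal.tsum_mul_left, tsum_sub_left']
                  _ ≤ th * 1 := mul_le_mul_right (dens_row Λ h z h1 hΛ _ _) _
                  _ = th := mul_one _
              · simp [hi]
          _ = (i0 + 1 : ℕ) * th := by
              rw [tsum_eq_sum (s := Finset.range (i0 + 1))]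
              · rw [Finset.sum_congr rfl (g := fun _ => th)]
                · simp
                · intro i hi
                  rw [if_pos]; have := Finset.mem_range.1 hi; omega
              · intro i hi
                rw [if_neg]; intro h8; exact hi (Finset.mem_range.2 (by omega))
      have g2 : (∑' P, if mid P then LW Λ P * E1 (T - HT h P) j (x - Dp z P) else 0)
          ≤ q * ((i0 + 1 : ℕ) * th * ∑ l ∈ Finset.range N, q ^ l) := by
        calc _ ≤ ∑' P, (if mid P then LW Λ P else 0)
              * ((i0 + 1 : ℕ) * th * ∑ l ∈ Finset.range N, q ^ l) := by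
              refine ENNReal.tsum_le_tsum fun P => ?_
              split_ifs with h3
              · refine mul_le_mul_right ?_ _
                simp only [E1, dif_pos (hT' P h3.1 h3.2.1)]
                exact (hD _ (hT' P h3.1 h3.2.1)).2.1 j _
              · simp
          _ = _ := by rw [ENNReal.tsum_mul_right]; rfl
      calc F1 j x ≤ (i0 + 1 : ℕ) * th + q * ((i0 + 1 : ℕ) * th * ∑ l ∈ Finset.range N, q ^ l) :=
            add_le_add g1 g2
        _ = (i0 + 1 : ℕ) * th * ∑ l ∈ Finset.range (N + 1), q ^ l := by
            rw [Finset.sum_range_succ', pow_zero, mul_add, mul_one, add_comm]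
            congr 1
            simp_rw [pow_succ]
            rw [← Finset.sum_mul]
            ring
    · have g1 : ∑' j, ∑' x, H j x ≤ ovv Λ h τ i0 := by
        have e1 : ∀ j, ∑' x, H j x = ∑' P, ∑' R, ∑' x, (if (fp h τ P ∧ τ + i0 < HT h P) ∧
            fp h (T - HT h P) R ∧ HT h (P ++ R) = T + j ∧ Dp z (P ++ R) = x
            then LW Λ (P ++ R) else 0) := by
          intro j
          rw [ENNReal.tsum_comm]
          refine tsum_congr fun P => ?_
          rw [ENNReal.tsum_comm]
        simp_rw [e1]
        rw [ENNReal.tsum_comm]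
        unfold ovv
        refine ENNReal.tsum_le_tsum fun P => ?_
        rw [ENNReal.tsum_comm]
        by_cases hP : fp h τ P ∧ τ + i0 < HT h P
        · rw [if_pos hP]
          calc ∑' R, ∑' j, ∑' x, (if (fp h τ P ∧ τ + i0 < HT h P) ∧
                fp h (T - HT h P) R ∧ HT h (P ++ R) = T + j ∧ Dp z (P ++ R) = x
                then LW Λ (P ++ R) else 0)
              ≤ ∑' R, LW Λ P * (if fp h (T - HT h P) R then LW Λ R else 0) := by
                refine ENNReal.tsum_le_tsum fun R => ?_
                by_cases hR : fp h (T - HT h P) R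
                · rw [if_pos hR]
                  rw [tsum_eq_single (HT h (P ++ R) - T), tsum_eq_single (Dp z (P ++ R))]
                  · split_ifs
                    · rw [LW_append]
                    · exact bot_le
                  · intro x hx; rw [if_neg]; rintro ⟨-, -, -, h9⟩; exact hx h9.symm
                  · intro j hj
                    rw [ENNReal.tsum_eq_zero]
                    intro x
                    rw [if_neg]; rintro ⟨-, -, h9, -⟩; omega
                · simp [hR]
            _ = LW Λ P := by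
                rw [ENNReal.tsum_mul_left, fp_sum Λ h h1 hΛ, mul_one]
        · rw [if_neg hP]
          simp [hP]
      have g2 : ∑' j, ∑' x, (∑' P, if mid P then LW Λ P * E2 (T - HT h P) j (x - Dp z P) else 0)
          ≤ q * (N * ovv Λ h τ i0 + q ^ N) := by
        have e1 : ∀ j, ∑' x, (∑' P, if mid P then LW Λ P * E2 (T - HT h P) j (x - Dp z P) else 0)
            = ∑' P, ∑' x, (if mid P then LW Λ P * E2 (T - HT h P) j (x - Dp z P) else 0) :=
          fun j => ENNReal.tsum_comm
        simp_rw [e1]
        rw [ENNReal.tsum_comm]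
        calc _ ≤ ∑' P, (if mid P then LW Λ P else 0) * (N * ovv Λ h τ i0 + q ^ N) := by
              refine ENNReal.tsum_le_tsum fun P => ?_
              by_cases h3 : mid P
              · simp only [if_pos h3]
                have h4 := (hD _ (hT' P h3.1 h3.2.1)).2.2
                calc ∑' j, ∑' x, LW Λ P * E2 (T - HT h P) j (x - Dp z P)
                    = LW Λ P * ∑' j, ∑' x, E2 (T - HT h P) j x := by
                      rw [← ENNReal.tsum_mul_left]
                      refine tsum_congr fun j => ?_
                      rw [ENNReal.tsum_mul_left, tsum_sub_right' (fun x => E2 (T - HT h P) j x)]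
                  _ ≤ _ := by
                      refine mul_le_mul_right ?_ _
                      simp only [E2, dif_pos (hT' P h3.1 h3.2.1)]
                      exact h4
              · simp [h3]
          _ = _ := by rw [ENNReal.tsum_mul_right]; rfl
      calc ∑' j, ∑' x, F2 j x = ∑' j, ∑' x, H j x
            + ∑' j, ∑' x, (∑' P, if mid P then LW Λ P * E2 (T - HT h P) j (x - Dp z P) else 0) := by
            rw [← ENNReal.tsum_add]
            refine tsum_congr fun j => ?_
            rw [← ENNReal.tsum_add]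
        _ ≤ ovv Λ h τ i0 + q * (N * ovv Λ h τ i0 + q ^ N) := add_le_add g1 g2
        _ ≤ ovv Λ h τ i0 + (N * ovv Λ h τ i0 + q ^ (N + 1)) := by
            refine add_le_add_right ?_ _
            rw [mul_add, pow_succ, mul_comm (q ^ N) q]
            refine add_le_add_left ?_ _
            calc q * (N * ovv Λ h τ i0) ≤ 1 * (N * ovv Λ h τ i0) := mul_le_mul_left hns _
              _ = _ := one_mul _
        _ = _ := by push_cast; ring

end Crest.Agent.R154.Kap604
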