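import Crest.Agent.R154.NBDefs_28
import Crest.Agent.R154.B5Rec_566
import Crest.Agent.R154.Flux1_132

/-! Row 154, ROAD 801 (helper138): the list letters of the assembly (traces `TX`, depths) at the
words of helper28 (`IsUp`, `IsDn`, `Cm`, `KW`). -/

set_option autoImplicit false
set_option linter.unusedSectionVars false

namespace Crest.Agent.R154.KapBind138

open MeasureTheory ProbabilityTheory Crest.ProbabilityR.RandomEnvironment Crest.Agent.R154
open Crest.Agent.R154.Flux132 (lev opp lev_add lev_neg)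
open Crest.Agent.R154.Flux566 (lw endp sitesL endp_append endp_eq_add)
open Crest.Agent.R154.NB28 (IsUp IsDn aw Cm KW KappaW)
open Crest.Agent.R154.B5A (LW HT HT_cons HT_nil)
open scoped ENNReal

/-- trace of a list of blocks, read from the tie down (540's letters) -/
def TR {B G : Type*} [AddCommGroup G] (h : B → ℕ) (z : B → G) (s : B → Set (G × ℕ)) :
    List B → G → ℕ → Set (G × ℕ)
  | [], _, _ => ∅
  | b :: L, x, a => {p | ∃ q ∈ s b, p = (x + q.1, a + q.2)} ∪ TR h z s L (x + z b) (a + h b)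

variable {d : ℕ}

lemma sitesL_append (l l' : List (Step d)) (x : Site d) :
    sitesL x (l ++ l') = sitesL x l ++ sitesL (endp x l) l' := by
  induction l generalizing x with
  | nil => rfl
  | cons e l ih => simp only [List.cons_append, sitesL, endp, ih]

lemma mem_sitesL_add (l : List (Step d)) (x z y : Site d) :
    y ∈ sitesL (x + z) l ↔ y - z ∈ sitesL x l := by
  induction l generalizing x with
  | nil => simp [sitesL]
  | cons e l ih =>
    simp only [sitesL, List.mem_cons]
    rw [show x + z + stepVec e = (x + stepVec e) + z by abel, ih]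
    constructor
    · rintro (h | h)
      · exact Or.inl (by rw [h]; abel)
      · exact Or.inr h
    · rintro (h | h)
      · exact Or.inl (by rw [← h]; abel)
      · exact Or.inr h

lemma lev_zero (u : Step d) : lev u (0 : Site d) = 0 := by unfold lev; simp

lemma lev_opp (u : Step d) : lev u (stepVec (opp u)) = -1 := by
  unfold lev opp
  rcases u with ⟨i, b⟩
  cases b <;> simp [stepVec]

lemma lev_sub (u : Step d) (x y : Site d) : lev u (x - y) = lev u x - lev u y := by
  rw [sub_eq_add_neg, lev_add, lev_neg]; ring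

section lists

variable {B : Type*} (w : B → List (Step d))

/-- up words, top block first in the list -/
def cu : List B → List (Step d)
  | [] => []
  | b :: L => cu L ++ w b

/-- down words, top block first -/
def cd : List B → List (Step d)
  | [] => []
  | b :: L => w b ++ cd L

variable {w} {h : B → ℕ} {u : Step d}

lemma isUp_cu (hw : ∀ b, IsUp u (h b) (w b)) (L : List B) : IsUp u (HT h L) (cu w L) := by
  induction L with
  | nil => exact ⟨by simp [cu, sitesL], by simp [cu, endp, HT_nil, lev_zero]⟩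
  | cons b L ih =>
    obtain ⟨h1, h2⟩ := ih
    obtain ⟨h3, h4⟩ := hw b
    rw [HT_cons]
    refine ⟨fun y hy => ?_, ?_⟩
    · rw [cu, sitesL_append, List.mem_append] at hy
      rcases hy with hy | hy
      · have := h1 y hy; push_cast; omega
      · rw [endp_eq_add, zero_add, ← zero_add (endp 0 (cu w L)), mem_sitesL_add] at hy
        have := h3 _ hy
        rw [lev_sub, h2] at this
        push_cast; omega
    · rw [cu, endp_append, endp_eq_add, lev_add, h2, h4]; push_cast; ring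

lemma isDn_cd (hw : ∀ b, IsDn u (h b) (w b)) (L : List B) : IsDn u (HT h L) (cd w L) := by
  induction L with
  | nil => exact ⟨by simp [cd, sitesL], by simp [cd, endp, HT_nil, lev_zero]⟩
  | cons b L ih =>
    obtain ⟨h1, h2⟩ := ih
    obtain ⟨h3, h4⟩ := hw b
    rw [HT_cons]
    refine ⟨fun y hy => ?_, ?_⟩
    · rw [cd, sitesL_append, List.mem_append] at hy
      rcases hy with hy | hy
      · have := h3 y hy; push_cast; omega
      · rw [endp_eq_add, zero_add, ← zero_add (endp 0 (w b)), mem_sitesL_add] at hy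
        have := h1 _ hy
        rw [lev_sub, h4] at this
        push_cast; omega
    · rw [cd, endp_append, endp_eq_add, lev_add, h2, h4]; push_cast; ring

/-- displacement of a block, downwards (up words) -/
def zU (w : B → List (Step d)) (b : B) : Site d := -endp 0 (w b)

/-- displacement of a block (down words) -/
def zD (w : B → List (Step d)) (b : B) : Site d := endp 0 (w b)

/-- trace of an up block hung at `0` -/
def sU (u : Step d) (w : B → List (Step d)) (b : B) : Set (Site d × ℕ) :=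
  {p | p.1 ∈ sitesL (-endp 0 (w b)) (w b) ∧ lev u p.1 = -(p.2 : ℤ)}

/-- trace of a down block -/
def sD (u : Step d) (w : B → List (Step d)) (b : B) : Set (Site d × ℕ) :=
  {p | p.1 ∈ sitesL (stepVec (opp u)) (w b) ∧ lev u p.1 = -(p.2 : ℤ)}

lemma sum_zU (L : List B) : (L.map (zU w)).sum = -endp 0 (cu w L) := by
  induction L with
  | nil => simp [cu, endp]
  | cons b L ih =>
    rw [List.map_cons, List.sum_cons, ih, cu, endp_append, endp_eq_add (w b) (endp 0 (cu w L)), zU]
    abel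

lemma sum_zD (L : List B) : (L.map (zD w)).sum = endp 0 (cd w L) := by
  induction L with
  | nil => simp [cd, endp]
  | cons b L ih =>
    rw [List.map_cons, List.sum_cons, ih, cd, endp_append, endp_eq_add (cd w L) (endp 0 (w b)), zD]

/-- levels of a hung up crossing -/
lemma lev_hung {n : ℕ} {l : List (Step d)} (hl : IsUp u n l) {y : Site d}
    (hy : y ∈ sitesL (-endp 0 l) l) : -(n : ℤ) ≤ lev u y ∧ lev u y < 0 := by
  rw [← zero_add (-endp 0 l), mem_sitesL_add] at hy
  have := hl.1 _ hy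
  rw [lev_sub, lev_neg, hl.2] at this
  omega

lemma lev_started {n : ℕ} {l : List (Step d)} (hl : IsDn u n l) {y : Site d}
    (hy : y ∈ sitesL (stepVec (opp u)) l) : -(n : ℤ) ≤ lev u y ∧ lev u y < 0 := by
  rw [← zero_add (stepVec (opp u)), mem_sitesL_add] at hy
  have := hl.1 _ hy
  rw [lev_sub, lev_opp] at this
  omega

theorem mem_TU (hw : ∀ b, IsUp u (h b) (w b)) (L : List B) (x z : Site d) (a k : ℕ) :
    (z, k) ∈ TR h (zU w) (sU u w) L x a ↔
      ∃ y, ∃ j : ℕ, y ∈ sitesL (-endp 0 (cu w L)) (cu w L) ∧ lev u y = -(j : ℤ) ∧ z = x + y ∧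
        k = a + j := by
  induction L generalizing x a with
  | nil => simp [TR, cu, sitesL]
  | cons b L ih =>
    rw [TR, Set.mem_union, ih]
    have hb : -endp 0 (cu w (b :: L)) = -endp 0 (cu w L) + zU w b := by
      rw [cu, endp_append, endp_eq_add (w b) (endp 0 (cu w L)), zU]; abel
    have hs : ∀ y, y ∈ sitesL (-endp 0 (cu w (b :: L))) (cu w (b :: L)) ↔
        (y - zU w b ∈ sitesL (-endp 0 (cu w L)) (cu w L)) ∨ y ∈ sitesL (-endp 0 (w b)) (w b) := by
      intro y
      rw [hb, cu, sitesL_append, List.mem_append, mem_sitesL_add,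
        endp_eq_add (cu w L) (-endp 0 (cu w L) + zU w b)]
      rw [show -endp 0 (cu w L) + zU w b + endp 0 (cu w L) = -endp 0 (w b) by rw [zU]; abel]
    constructor
    · rintro (⟨q, hq, he⟩ | ⟨y, j, hy, hj, hz, hk⟩)
      · obtain ⟨e1, e2⟩ := Prod.mk.inj he
        exact ⟨q.1, q.2, (hs _).2 (Or.inr hq.1), hq.2, e1, e2⟩
      · refine ⟨y + zU w b, h b + j, (hs _).2 (Or.inl (by simpa using hy)), ?_, ?_, ?_⟩
        · rw [lev_add, hj, zU, lev_neg, (hw b).2]; push_cast; ring
        · rw [hz]; abel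
        · omega
    · rintro ⟨y, j, hy, hj, hz, hk⟩
      rcases (hs y).1 hy with hy | hy
      · right
        have hl := lev_hung (isUp_cu hw L) hy
        have h1 : lev u (y - zU w b) = -(j : ℤ) + h b := by
          rw [lev_sub, hj, zU, lev_neg, (hw b).2]; ring
        have h2 : h b ≤ j := by omega
        refine ⟨y - zU w b, j - h b, hy, ?_, ?_, ?_⟩
        · rw [h1]; push_cast [h2]; ring
        · rw [hz]; abel
        · omega
      · left
        exact ⟨(y, j), ⟨hy, hj⟩, by rw [hz, hk]⟩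

theorem mem_TD (hw : ∀ b, IsDn u (h b) (w b)) (L : List B) (x z : Site d) (a k : ℕ) :
    (z, k) ∈ TR h (zD w) (sD u w) L x a ↔
      ∃ y, ∃ j : ℕ, y ∈ sitesL (stepVec (opp u)) (cd w L) ∧ lev u y = -(j : ℤ) ∧ z = x + y ∧
        k = a + j := by
  induction L generalizing x a with
  | nil => simp [TR, cd, sitesL]
  | cons b L ih =>
    rw [TR, Set.mem_union, ih]
    have hs : ∀ y, y ∈ sitesL (stepVec (opp u)) (cd w (b :: L)) ↔
        (y ∈ sitesL (stepVec (opp u)) (w b)) ∨ y - zD w b ∈ sitesL (stepVec (opp u)) (cd w L) := by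
      intro y
      rw [cd, sitesL_append, List.mem_append, endp_eq_add (w b) (stepVec (opp u))]
      rw [show stepVec (opp u) + endp 0 (w b) = stepVec (opp u) + zD w b from rfl, mem_sitesL_add]
    constructor
    · rintro (⟨q, hq, he⟩ | ⟨y, j, hy, hj, hz, hk⟩)
      · obtain ⟨e1, e2⟩ := Prod.mk.inj he
        exact ⟨q.1, q.2, (hs _).2 (Or.inl hq.1), hq.2, e1, e2⟩
      · refine ⟨y + zD w b, h b + j, (hs _).2 (Or.inr (by simpa using hy)), ?_, ?_, ?_⟩
        · rw [lev_add, hj, zD, (hw b).2]; push_cast; ring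
        · rw [hz]; abel
        · omega
    · rintro ⟨y, j, hy, hj, hz, hk⟩
      rcases (hs y).1 hy with hy | hy
      · left
        exact ⟨(y, j), ⟨hy, hj⟩, by rw [hz, hk]⟩
      · right
        have hl := lev_started (isDn_cd hw L) hy
        have h1 : lev u (y - zD w b) = -(j : ℤ) + h b := by
          rw [lev_sub, hj, zD, (hw b).2]; ring
        have h2 : h b ≤ j := by omega
        refine ⟨y - zD w b, j - h b, hy, ?_, ?_, ?_⟩
        · rw [h1]; push_cast [h2]; ring
        · rw [hz]; abel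
        · omega

end lists

/-! ### sums -/

section sums

variable {BX BY : Type*} {wX : BX → List (Step d)} {wY : BY → List (Step d)}
  {hX : BX → ℕ} {hY : BY → ℕ} {ΛX : BX → ℝ≥0∞} {ΛY : BY → ℝ≥0∞} {u : Step d}
  {ν : Measure (Row d)} [IsProbabilityMeasure ν]

open Classical in
/-- the word data: single-walker irreducible words (600's Sing) -/
structure WData (ν : Measure (Row d)) [IsProbabilityMeasure ν] (u : Step d)
    (wX : BX → List (Step d)) (wY : BY → List (Step d)) (hX : BX → ℕ) (hY : BY → ℕ)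
    (ΛX : BX → ℝ≥0∞) (ΛY : BY → ℝ≥0∞) : Prop where
  upX : ∀ b, IsUp u (hX b) (wX b)
  dnY : ∀ b, IsDn u (hY b) (wY b)
  sumX : ∀ (n : ℕ) (F : List (Step d) → ℝ≥0∞), ∑' l, (if IsUp u n l then F l else 0)
    = ∑' L, (if HT hX L = n then F (cu wX L) else 0)
  sumY : ∀ (n : ℕ) (F : List (Step d) → ℝ≥0∞), ∑' l, (if IsDn u n l then F l else 0)
    = ∑' L, (if HT hY L = n then F (cd wY L) else 0)
  lwX : ∀ L, aw ν (cu wX L) = LW ΛX L
  lwY : ∀ L, aw ν (cd wY L) = LW ΛY L

open Classical in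
theorem WData.sum2 (D : WData ν u wX wY hX hY ΛX ΛY) (n n' : ℕ)
    (F : List (Step d) → List (Step d) → ℝ≥0∞) :
    ∑' L, ∑' L', (if HT hX L = n ∧ HT hY L' = n' then F (cu wX L) (cd wY L') else 0)
      = ∑' π, ∑' γ, (if IsUp u n π ∧ IsDn u n' γ then F π γ else 0) := by
  have e1 : ∀ π : List (Step d), ∑' γ, (if IsUp u n π ∧ IsDn u n' γ then F π γ else 0)
      = if IsUp u n π then ∑' L', (if HT hY L' = n' then F π (cd wY L') else 0) else 0 := by
    intro π
    by_cases hp : IsUp u n π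
    · simp only [hp, true_and, if_true]; exact D.sumY n' (F π)
    · simp [hp]
  simp_rw [e1]
  rw [D.sumX n (fun π => ∑' L', (if HT hY L' = n' then F π (cd wY L') else 0))]
  refine tsum_congr fun L => ?_
  by_cases hL : HT hX L = n
  · simp [hL]
  · simp [hL]

/-- common points of the two traces, in words: `π` hung at the origin of depth `a`, `γ` from `x`
of depth `a'` -/
def CT (u : Step d) (π γ : List (Step d)) (x : Site d) (a a' : ℕ) : Set (Site d × ℕ) :=
  {p | (∃ y, ∃ j : ℕ, y ∈ sitesL (-endp 0 π) π ∧ lev u y = -(j : ℤ) ∧ p.1 = y ∧ p.2 = a + j) ∧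
    ∃ y, ∃ j : ℕ, y ∈ sitesL (stepVec (opp u)) γ ∧ lev u y = -(j : ℤ) ∧ p.1 = x + y ∧
      p.2 = a' + j}

theorem WData.mem_CT (D : WData ν u wX wY hX hY ΛX ΛY) (L : List BX) (L' : List BY) (x : Site d)
    (a a' : ℕ) (p : Site d × ℕ) :
    (p ∈ TR hX (zU wX) (sU u wX) L 0 a ∧ p ∈ TR hY (zD wY) (sD u wY) L' x a')
      ↔ p ∈ CT u (cu wX L) (cd wY L') x a a' := by
  obtain ⟨z, k⟩ := p
  rw [mem_TU D.upX, mem_TD D.dnY]
  simp only [zero_add, CT, Set.mem_ofPred_eq]

/-- depth form: for `x` of level `a - a'` a common site is a common point -/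
theorem mem_CT_iff {π γ : List (Step d)} {x : Site d} {a a' : ℕ} (hx : lev u x = (a : ℤ) - a')
    {n n' : ℕ} (hπ : IsUp u n π) (hγ : IsDn u n' γ) (z : Site d) (k : ℕ) :
    (z, k) ∈ CT u π γ x a a' ↔ z ∈ sitesL (-endp 0 π) π ∧
      z ∈ sitesL (x + stepVec (opp u)) γ ∧ (k : ℤ) = a - lev u z := by
  constructor
  · rintro ⟨⟨y, j, hy, hj, h1, h2⟩, y', j', hy', hj', h1', h2'⟩
    simp only at h1 h2 h1' h2'
    subst h1
    refine ⟨hy, ?_, by rw [hj, h2]; push_cast; ring⟩
    rw [add_comm x, mem_sitesL_add, h1']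
    simpa using hy'
  · rintro ⟨hz, hz', hk⟩
    have l1 := lev_hung hπ hz
    rw [add_comm x, mem_sitesL_add] at hz'
    have l2 := lev_started hγ hz'
    rw [lev_sub, hx] at l2
    refine ⟨⟨z, (-lev u z).toNat, hz, by omega, rfl, by simp only; omega⟩,
      z - x, (-lev u (z - x)).toNat, hz', ?_, by simp, ?_⟩
    · rw [lev_sub, hx]; omega
    · simp only [lev_sub, hx]; omega

theorem CT_level {π γ : List (Step d)} {x : Site d} {a a' : ℕ} {p : Site d × ℕ}
    (hp : p ∈ CT u π γ x a a') : lev u x = (a : ℤ) - a' := by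
  obtain ⟨⟨y, j, hy, hj, h1, h2⟩, y', j', hy', hj', h1', h2'⟩ := hp
  have : lev u y = lev u x + lev u y' := by rw [← lev_add, ← h1', h1]
  omega

open Classical in
/-- **(B2)**: `kapS` of the assembly at the words gives `KappaW`. -/
theorem kappaW_of_kapS (D : WData ν u wX wY hX hY ΛX ΛY)
    (hS : ∀ ε : ℝ≥0∞, ε ≠ 0 → ∃ M : ℕ, ∀ m, M ≤ m → ∀ n, 2 * m ≤ n → ∀ w : Site d,
      ∑' LX, ∑' LY, (if HT hX LX = n ∧ HT hY LY = n ∧
        (∃ (k : ℕ) (z : Site d), m < k ∧ k ≤ 2 * m ∧ (z, k) ∈ TR hX (zU wX) (sU u wX) LX 0 0 ∧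
          (z, k) ∈ TR hY (zD wY) (sD u wY) LY w 0)
        then LW ΛX LX * LW ΛY LY else 0) ≤ ε) : KappaW ν u := by
  intro ε hε
  obtain ⟨M, hM⟩ := hS ε hε
  refine ⟨M, fun m hm n hn w hw => le_trans ?_ (hM m hm n hn w)⟩
  have h1 := D.sum2 n n (fun π γ => if (∃ (k : ℕ) (z : Site d), m < k ∧ k ≤ 2 * m ∧
    (z, k) ∈ CT u π γ w 0 0) then aw ν π * aw ν γ else 0)
  have h2 : ∑' LX, ∑' LY, (if HT hX LX = n ∧ HT hY LY = n ∧
        (∃ (k : ℕ) (z : Site d), m < k ∧ k ≤ 2 * m ∧ (z, k) ∈ TR hX (zU wX) (sU u wX) LX 0 0 ∧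
          (z, k) ∈ TR hY (zD wY) (sD u wY) LY w 0)
        then LW ΛX LX * LW ΛY LY else 0)
      = ∑' L, ∑' L', (if HT hX L = n ∧ HT hY L' = n then
        (if (∃ (k : ℕ) (z : Site d), m < k ∧ k ≤ 2 * m ∧
    (z, k) ∈ CT u (cu wX L) (cd wY L') w 0 0) then aw ν (cu wX L) * aw ν (cd wY L') else 0)
        else 0) := by
    refine tsum_congr fun L => tsum_congr fun L' => ?_
    rw [D.lwX, D.lwY]
    simp only [← D.mem_CT]
    by_cases hA : HT hX L = n ∧ HT hY L' = n
    · simp [hA.1, hA.2]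
    · rw [if_neg (fun h => hA ⟨h.1, h.2.1⟩), if_neg hA]
  rw [h2, h1, KW]
  refine ENNReal.tsum_le_tsum fun π => ENNReal.tsum_le_tsum fun γ => ?_
  by_cases hc : IsUp u n π ∧ IsDn u n γ ∧ (∀ k ∈ Cm u w π γ, m < k) ∧ (∃ k ∈ Cm u w π γ, k ≤ 2 * m)
  · rw [if_pos hc, if_pos ⟨hc.1, hc.2.1⟩, if_pos]
    obtain ⟨hπ, hγ, hm1, k, hk, hk2⟩ := hc
    obtain ⟨y, hy1, hy2, hy3⟩ := hk
    refine ⟨k, y, hm1 k ⟨y, hy1, hy2, hy3⟩, hk2, ?_⟩
    rw [mem_CT_iff (by rw [hw]; simp) hπ hγ]
    exact ⟨hy1, hy2, by rw [hy3]; simp⟩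
  · rw [if_neg hc]; exact zero_le

end sums

end Crest.Agent.R154.KapBind138
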