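import Crest.Agent.R154.KapComp_803
import Crest.Agent.R154.E23_657
import Crest.Agent.R154.KB_169
import Crest.Agent.R154.HSl_689

/-! Row 154 (helper803), ROAD 801: `hWin` for 657's word instance, `NBProp`. -/

set_option autoImplicit false

open MeasureTheory ProbabilityTheory Crest.ProbabilityR.RandomEnvironment
open scoped ENNReal

namespace Crest.Agent.R154.KapBind803

open Crest.Agent.R154.B5A Crest.Agent.R154.B5W
open Crest.Agent.R154.Flux566 (lw endp sitesL lev endp_append endp_eq_add)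
open Crest.Agent.R154.NB28 (IsUp IsDn Cm)

variable {d : ℕ}

lemma sum_ds (u : Step d) (L : List (PB u)) :
    (L.map (HSl689.ds u)).sum = endp 0 (cat L).1 + endp 0 (cat L).2 := by
  induction L with
  | nil => simp [cat, endp]
  | cons b L ih =>
    rw [List.map_cons, List.sum_cons, ih]
    simp only [cat, pm, HSl689.ds]
    rw [endp_append, endp_append, endp_eq_add b.1.1 (endp 0 (cat L).1),
      endp_eq_add (cat L).2 (endp 0 b.1.2)]
    abel

noncomputable def zX (u : Step d) (L : List (PB u)) : Site d := endp 0 (cat L).1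
noncomputable def zY (u : Step d) (L : List (PB u)) : Site d := - endp 0 (cat L).2

lemma hrel (u : Step d) (L' : List (PB u)) (w x : Lat u) :
    ∃ κ : Site d, ∀ A, act (dl u) (A ++ L') w = x → zX u A = zY u A + κ := by
  refine ⟨x.1 - w.1 - (L'.map (HSl689.ds u)).sum, fun A hA => ?_⟩
  have h := HSl689.act_val u (A ++ L') w
  rw [hA, List.map_append, List.sum_append, sum_ds u A] at h
  rw [zX, zY, h]
  abel

lemma push {α G : Type*} [DecidableEq G] (f : α → ℝ≥0∞) (p : α → G) (K : G → ℝ≥0∞) :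
    ∑' x, (∑' π, if p π = x then f π else 0) * K x = ∑' π, f π * K (p π) := by
  simp_rw [← ENNReal.tsum_mul_right]
  rw [ENNReal.tsum_comm]
  refine tsum_congr fun π => ?_
  rw [tsum_eq_single (p π)]
  · simp
  · intro x hx
    rw [if_neg (Ne.symm hx), zero_mul]

open Classical in
lemma hprod (ν : Measure (Row d)) [IsProbabilityMeasure ν] (u : Step d) (H : ℕ) :
    ∃ a b : Site d → ℝ≥0∞, ∑' z, a z ≤ 1 ∧ ∑' z, b z ≤ 1 ∧ ∀ F : Site d → Site d → ℝ≥0∞,
      (∑' L : List (PB u), if HT (ht u) L = H then LW (Lam ν u) L * F (zX u L) (zY u L) else 0)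
        = ∑' x, ∑' y, a x * b y * F x y := by
  refine ⟨fun x => ∑' π : List (Step d), if endp 0 π = x then (if IsUp u H π then NB28.aw ν π else 0) else 0,
    fun y => ∑' γ : List (Step d), if -endp 0 γ = y then (if IsDn u H γ then NB28.aw ν γ else 0) else 0,
    ?_, ?_, fun F => ?_⟩
  · have := push (fun π : List (Step d) => if IsUp u H π then NB28.aw ν π else 0) (fun π => endp 0 π)
      (fun _ => 1)
    simp only [mul_one] at this
    exact this.le.trans (sum_if_le_one ν fun l l' h h' hp => NB28.isUp_prefix h h' hp)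
  · have := push (fun π : List (Step d) => if IsDn u H π then NB28.aw ν π else 0) (fun π => -endp 0 π)
      (fun _ => 1)
    simp only [mul_one] at this
    exact this.le.trans (sum_if_le_one ν fun l l' h h' hp => NB28.isDn_prefix h h' hp)
  · refine (tsum_L ν u H (fun x => F (endp 0 x.1) (-endp 0 x.2))).trans ?_
    have h1 : ∀ x : Site d, ∑' y, (∑' π : List (Step d), if endp 0 π = x then
        (if IsUp u H π then NB28.aw ν π else 0) else 0) *
        (∑' γ : List (Step d), if -endp 0 γ = y then (if IsDn u H γ then NB28.aw ν γ else 0) else 0)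
        * F x y = (∑' π : List (Step d), if endp 0 π = x then
        (if IsUp u H π then NB28.aw ν π else 0) else 0) *
        ∑' γ : List (Step d), (if IsDn u H γ then NB28.aw ν γ else 0) * F x (-endp 0 γ) := by
      intro x
      rw [← push (fun γ : List (Step d) => if IsDn u H γ then NB28.aw ν γ else 0)
        (fun γ => -endp 0 γ) (fun y => F x y), ← ENNReal.tsum_mul_left]
      exact tsum_congr fun y => mul_assoc _ _ _
    simp_rw [h1]
    rw [push (fun π : List (Step d) => if IsUp u H π then NB28.aw ν π else 0) (fun π => endp 0 π)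
      (fun x => ∑' γ : List (Step d), (if IsDn u H γ then NB28.aw ν γ else 0) * F x (-endp 0 γ))]
    refine tsum_congr fun π => ?_
    rw [← ENNReal.tsum_mul_left]
    refine tsum_congr fun γ => ?_
    by_cases h1 : IsUp u H π <;> by_cases h2 : IsDn u H γ <;> simp [h1, h2, mul_assoc]

open Classical in
/-- `WP` in words -/
lemma WP_eq (ν : Measure (Row d)) [IsProbabilityMeasure ν] (u : Step d) (H s : ℕ)
    (P : List (Step d) × List (Step d) → Prop) (x : Lat u) :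
    KapComp803.WP (Lam ν u) (ht u) (dl u) (cd u) H s (fun L => P (cat L)) x
      = ∑' π : List (Step d), ∑' γ : List (Step d),
        if IsUp u H π ∧ IsDn u H γ ∧ P (π, γ) ∧ Cm u x.1 π γ ≠ ∅ ∧
          (∀ k ∈ Cm u x.1 π γ, s < k ∧ k + s ≤ H) then NB28.aw ν π * NB28.aw ν γ else 0 := by
  have h := tsum_L ν u H (fun y => if P y ∧ cds u y x.1 ≠ ∅ ∧
    (∀ k ∈ cds u y x.1, s < k ∧ k + s ≤ H) then 1 else 0)
  unfold KapComp803.WP
  refine Eq.trans ?_ (h.trans ?_)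
  · refine tsum_congr fun L => ?_
    rw [CD_cat]
    by_cases h1 : HT (ht u) L = H
    · by_cases h2 : P (cat L) ∧ cds u (cat L) x.1 ≠ ∅ ∧
        (∀ k ∈ cds u (cat L) x.1, s < k ∧ k + s ≤ H)
      · rw [if_pos ⟨h1, h2⟩, if_pos h1, if_pos h2, mul_one]
      · rw [if_neg (fun h' => h2 h'.2), if_pos h1, if_neg h2, mul_zero]
    · rw [if_neg (fun h' => h1 h'.1), if_neg h1]
  · refine tsum_congr fun π => tsum_congr fun γ => ?_
    rw [cds_eq]
    by_cases h1 : IsUp u H π ∧ IsDn u H γ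
    · by_cases h2 : P (π, γ) ∧ Cm u x.1 π γ ≠ ∅ ∧ (∀ k ∈ Cm u x.1 π γ, s < k ∧ k + s ≤ H)
      · rw [if_pos h1, if_pos h2, if_pos ⟨h1.1, h1.2, h2⟩, mul_one]
      · rw [if_pos h1, if_neg h2, if_neg (fun h' => h2 h'.2.2), mul_zero]
    · rw [if_neg h1, if_neg (fun h' => h1 ⟨h'.1, h'.2.1⟩)]

/-- extension of a weight from `Lat u` to all sites -/
noncomputable def extμ (u : Step d) (μ : Lat u → ℝ≥0∞) (x : Site d) : ℝ≥0∞ :=
  open Classical in if h : lev u x = 0 then μ ⟨x, h⟩ else 0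

open Classical in
lemma lat_sum (u : Step d) (μ : Lat u → ℝ≥0∞) (f : Site d → ℝ≥0∞) :
    ∑' x : Lat u, μ x * f x.1 = ∑' x : Site d, (if lev u x = 0 then extμ u μ x * f x else 0) := by
  have h1 : ∀ x : Lat u, μ x * f x.1 = extμ u μ x.1 * f x.1 := by
    intro x
    have hx : lev u x.1 = 0 := x.2
    rw [extμ, dif_pos hx]
    rfl
  simp_rw [h1]
  have h2 := tsum_subtype {x : Site d | lev u x = 0} (fun x => extμ u μ x * f x)
  refine Eq.trans ?_ (h2.trans ?_)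
  · rfl
  · refine tsum_congr fun x => ?_
    rw [Set.indicator_apply]
    rfl

lemma ext_sum (u : Step d) (μ : Lat u → ℝ≥0∞) (h : ∑' x, μ x ≤ 1) : ∑' x, extμ u μ x ≤ 1 := by
  classical
  have h1 := lat_sum u μ (fun _ => 1)
  simp only [mul_one] at h1
  refine le_trans (le_of_eq ?_) (h1 ▸ h)
  refine tsum_congr fun x => ?_
  by_cases hx : lev u x = 0
  · rw [if_pos hx]
  · rw [if_neg hx, extμ, dif_neg hx]

lemma ext_le (u : Step d) (μ : Lat u → ℝ≥0∞) (M : ℝ≥0∞) (h : ∀ x, μ x ≤ M) (x : Site d) :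
    extμ u μ x ≤ M := by
  unfold extμ
  split_ifs with hx
  · exact h _
  · exact zero_le

/-- choice of constants -/
lemma consts (Cst η : ℝ≥0∞) (hC : Cst ≠ ⊤) (hη : η ≠ 0) (us : ℕ → ℝ≥0∞)
    (hus : ∀ ε : ℝ≥0∞, ε ≠ 0 → ∃ s0, ∀ s, s0 ≤ s → us s ≤ ε) :
    ∃ lam : ℝ≥0∞, lam ≠ 0 ∧ lam ≠ ⊤ ∧ ∃ s0, ∀ s, s0 ≤ s → ∀ M card : ℝ≥0∞, M * card ≤ Cst →
      8 * (lam + M * card * us s / lam + us s) ≤ η := by
  set e : ℝ≥0∞ := min η 1 with he
  have he0 : e ≠ 0 := by rw [he]; simp [hη]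
  have het : e ≠ ⊤ := ne_top_of_le_ne_top ENNReal.one_ne_top (min_le_right _ _)
  have hee : e ≤ η := min_le_left _ _
  have he1 : e ≤ 1 := min_le_right _ _
  set lam : ℝ≥0∞ := e / 24 with hlam
  have hl0 : lam ≠ 0 := by rw [hlam]; simp [ENNReal.div_eq_zero_iff, he0]
  have hl1 : lam ≤ 1 := by
    rw [hlam]
    exact ENNReal.div_le_of_le_mul (he1.trans (by norm_num))
  have hlt : lam ≠ ⊤ := ne_top_of_le_ne_top ENNReal.one_ne_top hl1
  have hC1 : Cst + 1 ≠ ⊤ := by simp [hC]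
  have hC0 : Cst + 1 ≠ 0 := by simp
  obtain ⟨s0, hs0⟩ := hus (lam * lam / (Cst + 1)) (by
    rw [Ne, ENNReal.div_eq_zero_iff, not_or]
    exact ⟨mul_ne_zero hl0 hl0, hC1⟩)
  refine ⟨lam, hl0, hlt, s0, fun s hs M card hM => ?_⟩
  have h1 : us s * (Cst + 1) ≤ lam * lam :=
    (ENNReal.le_div_iff_mul_le (Or.inl hC0) (Or.inl hC1)).1 (hs0 s hs)
  have h2 : us s ≤ lam := by
    calc us s = us s * 1 := (mul_one _).symm
      _ ≤ us s * (Cst + 1) := mul_le_mul_right le_add_self _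
      _ ≤ lam * lam := h1
      _ ≤ lam * 1 := mul_le_mul_right hl1 _
      _ = lam := mul_one _
  have h3 : M * card * us s / lam ≤ lam := by
    refine ENNReal.div_le_of_le_mul ?_
    calc M * card * us s ≤ Cst * us s := mul_le_mul_left hM _
      _ ≤ (Cst + 1) * us s := mul_le_mul_left le_self_add _
      _ = us s * (Cst + 1) := mul_comm _ _
      _ ≤ lam * lam := h1
  calc 8 * (lam + M * card * us s / lam + us s) ≤ 8 * (lam + lam + lam) := by gcongr
    _ = 24 * lam := by ring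
    _ = e := by rw [hlam]; exact ENNReal.mul_div_cancel (by norm_num) (by norm_num)
    _ ≤ η := hee

variable (ν : Measure (Row d)) [IsProbabilityMeasure ν]

lemma hWX (u : Step d) (hus : ∀ ε : ℝ≥0∞, ε ≠ 0 → ∃ s0, ∀ s, s0 ≤ s → E23W.us ν u s ≤ ε) :
    ∀ Cst η : ℝ≥0∞, Cst ≠ ⊤ → η ≠ 0 → ∃ s0 : ℕ, ∀ s, s0 ≤ s → ∀ (H : ℕ) (E : Finset (Site d))
      (μ : Lat u → ℝ≥0∞) (M : ℝ≥0∞), ∑' x, μ x ≤ 1 → (∀ x, μ x ≤ M) → M * E.card ≤ Cst →
      ∑' x, μ x * KapComp803.WP (Lam ν u) (ht u) (dl u) (cd u) H s (fun L => zX u L ∈ E) x ≤ η := by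
  classical
  intro Cst η hC hη
  obtain ⟨lam, hl0, hlt, s0, hs0⟩ := consts Cst η hC hη _ hus
  refine ⟨s0, fun s hs H E μ M hμ1 hμM hME => ?_⟩
  have h1 := E23W.e2 ν u s H E (extμ u μ) M lam (ext_sum u μ hμ1) (ext_le u μ M hμM) hl0 hlt
  refine le_trans ?_ (h1.trans (hs0 s hs M E.card hME))
  have h2 : ∀ x : Lat u, KapComp803.WP (Lam ν u) (ht u) (dl u) (cd u) H s (fun L => zX u L ∈ E) x
      = ∑' π : List (Step d), ∑' γ : List (Step d),
        if IsUp u H π ∧ IsDn u H γ ∧ endp 0 π ∈ E ∧ Cm u x.1 π γ ≠ ∅ ∧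
          (∀ k ∈ Cm u x.1 π γ, s < k ∧ k + s ≤ H) then NB28.aw ν π * NB28.aw ν γ else 0 :=
    fun x => by
      refine (WP_eq ν u H s (fun y => endp 0 y.1 ∈ E) x).trans
        (tsum_congr fun π => tsum_congr fun γ => ?_)
      by_cases h : (IsUp u H π ∧ IsDn u H γ ∧ endp 0 π ∈ E ∧ Cm u x.1 π γ ≠ ∅ ∧
          (∀ k ∈ Cm u x.1 π γ, s < k ∧ k + s ≤ H))
      · exact (if_pos h).trans (if_pos h).symm
      · exact (if_neg h).trans (if_neg h).symm
  simp_rw [h2]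
  rw [lat_sum u μ (fun x => ∑' π : List (Step d), ∑' γ : List (Step d),
        if IsUp u H π ∧ IsDn u H γ ∧ endp 0 π ∈ E ∧ Cm u x π γ ≠ ∅ ∧
          (∀ k ∈ Cm u x π γ, s < k ∧ k + s ≤ H) then NB28.aw ν π * NB28.aw ν γ else 0)]
  refine ENNReal.tsum_le_tsum fun x => ?_
  by_cases hx : lev u x = 0
  · rw [if_pos hx, if_pos (show Flux132.lev u x = 0 from hx)]
    refine mul_le_mul_right (ENNReal.tsum_le_tsum fun π => ENNReal.tsum_le_tsum fun γ => ?_) _
    by_cases h : IsUp u H π ∧ IsDn u H γ ∧ endp 0 π ∈ E ∧ Cm u x π γ ≠ ∅ ∧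
          (∀ k ∈ Cm u x π γ, s < k ∧ k + s ≤ H)
    · rw [if_pos h, if_pos ⟨h.1, h.2.2.1, h.2.1, Set.nonempty_iff_ne_empty.2 h.2.2.2.1,
        fun k hk => (h.2.2.2.2 k hk).1⟩]
    · rw [if_neg h]; exact zero_le
  · rw [if_neg hx, if_neg (show ¬ Flux132.lev u x = 0 from hx)]

lemma hWY (u : Step d) (hus : ∀ ε : ℝ≥0∞, ε ≠ 0 → ∃ s0, ∀ s, s0 ≤ s → E23W.us ν u s ≤ ε) :
    ∀ Cst η : ℝ≥0∞, Cst ≠ ⊤ → η ≠ 0 → ∃ s0 : ℕ, ∀ s, s0 ≤ s → ∀ (H : ℕ) (E : Finset (Site d))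
      (μ : Lat u → ℝ≥0∞) (M : ℝ≥0∞), ∑' x, μ x ≤ 1 → (∀ x, μ x ≤ M) → M * E.card ≤ Cst →
      ∑' x, μ x * KapComp803.WP (Lam ν u) (ht u) (dl u) (cd u) H s (fun L => zY u L ∈ E) x ≤ η := by
  classical
  intro Cst η hC hη
  obtain ⟨lam, hl0, hlt, s0, hs0⟩ := consts Cst η hC hη _ hus
  refine ⟨s0, fun s hs H E μ M hμ1 hμM hME => ?_⟩
  have hME' : M * (E.image (fun z => -z)).card ≤ Cst := by
    refine le_trans (mul_le_mul_right ?_ _) hME
    exact_mod_cast Finset.card_image_le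
  have h1 := E23W.e3 ν u s H (E.image (fun z => -z)) (extμ u μ) M lam (ext_sum u μ hμ1)
    (ext_le u μ M hμM) hl0 hlt
  refine le_trans ?_ (h1.trans (hs0 s hs M _ hME'))
  have h2 : ∀ x : Lat u, KapComp803.WP (Lam ν u) (ht u) (dl u) (cd u) H s (fun L => zY u L ∈ E) x
      = ∑' π : List (Step d), ∑' γ : List (Step d),
        if IsUp u H π ∧ IsDn u H γ ∧ -endp 0 γ ∈ E ∧ Cm u x.1 π γ ≠ ∅ ∧
          (∀ k ∈ Cm u x.1 π γ, s < k ∧ k + s ≤ H) then NB28.aw ν π * NB28.aw ν γ else 0 :=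
    fun x => by
      refine (WP_eq ν u H s (fun y => -endp 0 y.2 ∈ E) x).trans
        (tsum_congr fun π => tsum_congr fun γ => ?_)
      by_cases h : (IsUp u H π ∧ IsDn u H γ ∧ -endp 0 γ ∈ E ∧ Cm u x.1 π γ ≠ ∅ ∧
          (∀ k ∈ Cm u x.1 π γ, s < k ∧ k + s ≤ H))
      · exact (if_pos h).trans (if_pos h).symm
      · exact (if_neg h).trans (if_neg h).symm
  simp_rw [h2]
  rw [lat_sum u μ (fun x => ∑' π : List (Step d), ∑' γ : List (Step d),
        if IsUp u H π ∧ IsDn u H γ ∧ -endp 0 γ ∈ E ∧ Cm u x π γ ≠ ∅ ∧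
          (∀ k ∈ Cm u x π γ, s < k ∧ k + s ≤ H) then NB28.aw ν π * NB28.aw ν γ else 0)]
  refine ENNReal.tsum_le_tsum fun x => ?_
  by_cases hx : lev u x = 0
  · rw [if_pos hx, if_pos (show Flux132.lev u x = 0 from hx)]
    refine mul_le_mul_right (ENNReal.tsum_le_tsum fun π => ENNReal.tsum_le_tsum fun γ => ?_) _
    by_cases h : IsUp u H π ∧ IsDn u H γ ∧ -endp 0 γ ∈ E ∧ Cm u x π γ ≠ ∅ ∧
          (∀ k ∈ Cm u x π γ, s < k ∧ k + s ≤ H)
    · rw [if_pos h, if_pos ⟨h.1, Finset.mem_image.2 ⟨_, h.2.2.1, neg_neg _⟩, h.2.1,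
        Set.nonempty_iff_ne_empty.2 h.2.2.2.1, fun k hk => (h.2.2.2.2 k hk).2⟩]
    · rw [if_neg h]; exact zero_le
  · rw [if_neg hx, if_neg (show ¬ Flux132.lev u x = 0 from hx)]

/-- **818's hWin for 657's instance.** -/
theorem hwin (hν : ∀ᵐ p ∂ν, ∀ e : Step d, 0 < p.1 e) (u : Step d)
    (hA : annealed (iidEnvironmentLaw ν) 0 (escapeEvent (B2d.dirVec u)) ≠ 0)
    (hB : annealed (iidEnvironmentLaw ν) 0 (escapeEvent (-B2d.dirVec u)) ≠ 0) :
    KB169.HWinSt (Lam ν u) (ht u) (dl u) (cd u) := by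
  obtain ⟨c, hc, _, hup, hdn⟩ := WM286.mass_pos ν hν u hA hB
  have hcc : c * c ≠ 0 := mul_ne_zero hc hc
  have hU := HSl689.U_ge ν u c hup hdn
  have hU1 := HSl689.U_le ν u
  have h1 : ∀ b, 1 ≤ ht u b := one_le_hb
  have hΛ := HSl689.mass_one ν u (c * c) hcc hU hU1
  have hcct : c * c ≠ ⊤ := ne_top_of_le_ne_top ENNReal.one_ne_top ((hU 0).trans (hU1 0))
  have hmean : ∑' k, tail (Lam ν u) (ht u) k ≠ ⊤ := by
    rw [← sum_tail (Lam ν u) (ht u) hΛ]
    exact ne_top_of_le_ne_top (ENNReal.inv_ne_top.2 hcc)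
      (mean_le (Lam ν u) (ht u) h1 hΛ (c * c) hcc hcct 0 fun n _ => hU n)
  have hus : ∀ ε : ℝ≥0∞, ε ≠ 0 → ∃ s0, ∀ s, s0 ≤ s → E23W.us ν u s ≤ ε := by
    refine fun ε hε => E23W.us_small ν hν u ?_ ε hε
    intro h0
    apply hA
    rw [annealed_apply _ _ (B2d.measurableSet_escapeEvent _)]
    exact h0
  exact KapComp803.hWin_of (Lam ν u) (ht u) (dl u) (cd u) h1 hΛ.le hmean (c * c) hcc hU hU1
    (zX u) (zY u) (hprod ν u) (hrel u) (hWX ν u hus) (hWY ν u hus)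

theorem kappaAll : NB28.KappaAll :=
  KB169.kappaAll_of fun _ _ ν _ hν u hA hB => hwin ν hν u hA hB

/-- **NBProp** -/
theorem nbProp : Spine.NBProp := NB28.nb_of_kappaW kappaAll

end Crest.Agent.R154.KapBind803
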