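import Crest.Agent.R154.KapB_318

/-! Row 154 (helper318), ROAD 801, assembly, part C: one window. -/

set_option autoImplicit false

namespace Crest.Agent.R154.KapC318

open Crest.Agent.R154.B5A Crest.Agent.R154.FP178 Crest.Agent.R154.KapA318 Crest.Agent.R154.KapB318
open Crest.Agent.R154.Bind12 (TT Dp)
open scoped ENNReal

variable {BX BY G : Type*} [AddCommGroup G] (ΛX : BX → ℝ≥0∞) (ΛY : BY → ℝ≥0∞)
  (hX : BX → ℕ) (hY : BY → ℕ) (zX : BX → G) (zY : BY → G)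
  (TX : List BX → G → ℕ → Set (G × ℕ)) (TY : List BY → G → ℕ → Set (G × ℕ))

/-- there is a contact, and all contact depths are in `[lo, hi]` -/
def Cn (L : List BX) (L' : List BY) (x : G) (a a' lo hi : ℕ) : Prop :=
  (∃ z k, (z, k) ∈ TX L 0 a ∧ (z, k) ∈ TY L' x a') ∧
    (∀ z k, (z, k) ∈ TX L 0 a → (z, k) ∈ TY L' x a' → lo ≤ k ∧ k ≤ hi)

open Classical in
/-- window input: `loc E L L'` = locality -/
def HW (loc : Finset G → List BX → List BY → Prop) (us : ℕ → ℝ≥0∞) (C : ℝ≥0∞) : Prop :=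
  ∀ (s h h' a a' lo hi : ℕ) (E : Finset G) (μ : G → ℝ≥0∞) (M lam : ℝ≥0∞),
    ∑' x, μ x ≤ 1 → (∀ x, μ x ≤ M) → lam ≠ 0 → lam ≠ ⊤ → a ≤ a' → a + h ≤ a' + h' →
    a + s ≤ lo → a' + s ≤ lo → hi + s ≤ a + h → hi + s ≤ a' + h' →
    ∑' x, μ x * (∑' L, ∑' L', if HT hX L = h ∧ HT hY L' = h' ∧ loc E L L' ∧
      Cn TX TY L L' x a a' lo hi then LW ΛX L * LW ΛY L' else 0)
      ≤ C * (lam + M * E.card * us s / lam + us s)

lemma hEE (T T1 i0 : ℕ) (c : List BX → List BY → Prop) [∀ P P', Decidable (c P P')] :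
    Ex ΛX hX T (fun P => Ex ΛY hY T1 (fun P' =>
        if HT hX P ≤ T + i0 ∧ HT hY P' ≤ T1 + i0 ∧ c P P' then 1 else 0))
      ≤ ∑ h ∈ Finset.Icc T (T + i0), ∑ h' ∈ Finset.Icc T1 (T1 + i0),
        ∑' L, ∑' L', (if HT hX L = h ∧ HT hY L' = h' ∧ c L L' then LW ΛX L * LW ΛY L' else 0) := by
  have e1 : ∑ h ∈ Finset.Icc T (T + i0), ∑ h' ∈ Finset.Icc T1 (T1 + i0),
        ∑' L, ∑' L', (if HT hX L = h ∧ HT hY L' = h' ∧ c L L' then LW ΛX L * LW ΛY L' else 0)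
      = ∑' L, ∑' L', ∑ h ∈ Finset.Icc T (T + i0), ∑ h' ∈ Finset.Icc T1 (T1 + i0),
        (if HT hX L = h ∧ HT hY L' = h' ∧ c L L' then LW ΛX L * LW ΛY L' else 0) := by
    have s1 : ∀ h, ∑ h' ∈ Finset.Icc T1 (T1 + i0),
        ∑' L, ∑' L', (if HT hX L = h ∧ HT hY L' = h' ∧ c L L' then LW ΛX L * LW ΛY L' else 0)
        = ∑' L, ∑' L', ∑ h' ∈ Finset.Icc T1 (T1 + i0),
          (if HT hX L = h ∧ HT hY L' = h' ∧ c L L' then LW ΛX L * LW ΛY L' else 0) := by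
      intro h
      rw [← Summable.tsum_finsetSum (fun _ _ => ENNReal.summable)]
      refine tsum_congr fun L => ?_
      rw [← Summable.tsum_finsetSum (fun _ _ => ENNReal.summable)]
    simp only [s1]
    rw [← Summable.tsum_finsetSum (fun _ _ => ENNReal.summable)]
    refine tsum_congr fun L => ?_
    rw [← Summable.tsum_finsetSum (fun _ _ => ENNReal.summable)]
  classical
  rw [e1, Ex]
  refine ENNReal.tsum_le_tsum fun L => ?_
  by_cases hL : fp hX T L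
  · rw [if_pos hL, Ex, ← ENNReal.tsum_mul_left]
    refine ENNReal.tsum_le_tsum fun L' => ?_
    by_cases hL' : fp hY T1 L'
    · rw [if_pos hL']
      by_cases hc : HT hX L ≤ T + i0 ∧ HT hY L' ≤ T1 + i0 ∧ c L L'
      · rw [if_pos hc, mul_one]
        have m1 : HT hX L ∈ Finset.Icc T (T + i0) :=
          Finset.mem_Icc.2 ⟨le_HT_of_fp hX hL, hc.1⟩
        have m2 : HT hY L' ∈ Finset.Icc T1 (T1 + i0) :=
          Finset.mem_Icc.2 ⟨le_HT_of_fp hY hL', hc.2.1⟩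
        refine le_trans ?_ (Finset.single_le_sum (f := fun h => ∑ h' ∈ Finset.Icc T1 (T1 + i0),
          (if HT hX L = h ∧ HT hY L' = h' ∧ c L L' then LW ΛX L * LW ΛY L' else 0))
          (fun _ _ => zero_le) m1)
        refine le_trans ?_ (Finset.single_le_sum (f := fun h' =>
          (if HT hX L = HT hX L ∧ HT hY L' = h' ∧ c L L' then LW ΛX L * LW ΛY L' else 0))
          (fun _ _ => zero_le) m2)
        rw [if_pos ⟨rfl, rfl, hc.2.2⟩]
      · rw [if_neg hc, mul_zero, mul_zero]; exact zero_le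
    · rw [if_neg hL', mul_zero]; exact zero_le
  · rw [if_neg hL]; exact zero_le

lemma sum_out {ι : Type*} (s s' : Finset ℕ) (ν : ι → ℝ≥0∞) (g : ι → ℕ → ℕ → ℝ≥0∞) :
    ∑' x, ν x * ∑ h ∈ s, ∑ h' ∈ s', g x h h' = ∑ h ∈ s, ∑ h' ∈ s', ∑' x, ν x * g x h h' := by
  simp only [Finset.mul_sum]
  rw [Summable.tsum_finsetSum (fun _ _ => ENNReal.summable)]
  refine Finset.sum_congr rfl fun h _ => ?_
  rw [Summable.tsum_finsetSum (fun _ _ => ENNReal.summable)]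

lemma sum_out_le {ι : Type*} (s s' : Finset ℕ) (ν : ι → ℝ≥0∞) (f : ι → ℝ≥0∞)
    (g : ι → ℕ → ℕ → ℝ≥0∞) (hf : ∀ x, f x ≤ ∑ h ∈ s, ∑ h' ∈ s', g x h h') (b : ℝ≥0∞)
    (hb : ∀ h ∈ s, ∀ h' ∈ s', ∑' x, ν x * g x h h' ≤ b) :
    ∑' x, ν x * f x ≤ s.card * (s'.card * b) := by
  calc ∑' x, ν x * f x ≤ ∑' x, ν x * ∑ h ∈ s, ∑ h' ∈ s', g x h h' :=
        ENNReal.tsum_le_tsum fun x => mul_le_mul_right (hf x) _
    _ = ∑ h ∈ s, ∑ h' ∈ s', ∑' x, ν x * g x h h' := sum_out s s' ν g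
    _ ≤ ∑ _h ∈ s, ∑ _h' ∈ s', b :=
        Finset.sum_le_sum fun h hh => Finset.sum_le_sum fun h' hh' => hb h hh h' hh'
    _ = _ := by rw [Finset.sum_const, Finset.sum_const, nsmul_eq_mul, nsmul_eq_mul]

open Classical in
lemma loc_sum (a0 a1 T T1 i0 lo hi : ℕ) (loc : List BX → List BY → Prop) (b : ℝ≥0∞)
    (ν : ℕ × ℕ × G → ℝ≥0∞)
    (hb : ∀ α α' h h', a0 ≤ α → α ≤ a0 + i0 → a1 ≤ α' → α' ≤ a1 + i0 → T ≤ h → h ≤ T + i0 →
      T1 ≤ h' → h' ≤ T1 + i0 →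
      ∑' x, ν (α, α', x) * (∑' L, ∑' L', if HT hX L = h ∧ HT hY L' = h' ∧ loc L L' ∧
        Cn TX TY L L' x α α' lo hi then LW ΛX L * LW ΛY L' else 0) ≤ b) :
    ∑' i : ℕ × ℕ × G, ν i * (if (a0 ≤ i.1 ∧ i.1 ≤ a0 + i0) ∧ (a1 ≤ i.2.1 ∧ i.2.1 ≤ a1 + i0) then
        Ex ΛX hX T (fun P => Ex ΛY hY T1 (fun P' =>
        if HT hX P ≤ T + i0 ∧ HT hY P' ≤ T1 + i0 ∧ (loc P P' ∧
          Cn TX TY P P' i.2.2 i.1 i.2.1 lo hi) then 1 else 0)) else 0)
      ≤ ((i0 : ℝ≥0∞) + 1) ^ 4 * b := by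
  have hcard : ∀ T : ℕ, ((Finset.Icc T (T + i0)).card : ℝ≥0∞) = (i0 : ℝ≥0∞) + 1 := by
    intro T
    rw [Nat.card_Icc, show T + i0 + 1 - T = i0 + 1 by omega]; push_cast; rfl
  have inner : ∀ α α', a0 ≤ α → α ≤ a0 + i0 → a1 ≤ α' → α' ≤ a1 + i0 →
      ∑' x, ν (α, α', x) * Ex ΛX hX T (fun P => Ex ΛY hY T1 (fun P' =>
        if HT hX P ≤ T + i0 ∧ HT hY P' ≤ T1 + i0 ∧ (loc P P' ∧
          Cn TX TY P P' x α α' lo hi) then 1 else 0)) ≤ ((i0 : ℝ≥0∞) + 1) ^ 2 * b := by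
    intro α α' h1 h2 h3 h4
    have := sum_out_le (Finset.Icc T (T + i0)) (Finset.Icc T1 (T1 + i0))
      (fun x => ν (α, α', x)) _ _ (fun x => hEE ΛX ΛY hX hY T T1 i0
        (fun P P' => loc P P' ∧ Cn TX TY P P' x α α' lo hi)) b (fun h hh h' hh' => by
          rw [Finset.mem_Icc] at hh hh'
          exact hb α α' h h' h1 h2 h3 h4 hh.1 hh.2 hh'.1 hh'.2)
    refine this.trans (le_of_eq ?_)
    rw [hcard, hcard]; ring
  rw [ENNReal.tsum_prod']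
  simp only [ENNReal.tsum_prod']
  calc _ ≤ ∑' α : ℕ, ∑' α' : ℕ, (if (a0 ≤ α ∧ α ≤ a0 + i0) ∧ (a1 ≤ α' ∧ α' ≤ a1 + i0) then
        ((i0 : ℝ≥0∞) + 1) ^ 2 * b else 0) := by
        refine ENNReal.tsum_le_tsum fun α => ENNReal.tsum_le_tsum fun α' => ?_
        by_cases hc : (a0 ≤ α ∧ α ≤ a0 + i0) ∧ (a1 ≤ α' ∧ α' ≤ a1 + i0)
        · simp only [if_pos hc]
          exact inner α α' hc.1.1 hc.1.2 hc.2.1 hc.2.2
        · simp only [if_neg hc, mul_zero, tsum_zero]; exact le_rfl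
    _ = ∑ α ∈ Finset.Icc a0 (a0 + i0), ∑ α' ∈ Finset.Icc a1 (a1 + i0),
        ((i0 : ℝ≥0∞) + 1) ^ 2 * b := by
        rw [tsum_eq_sum (s := Finset.Icc a0 (a0 + i0))]
        · refine Finset.sum_congr rfl fun α hα => ?_
          rw [tsum_eq_sum (s := Finset.Icc a1 (a1 + i0))]
          · refine Finset.sum_congr rfl fun α' hα' => ?_
            rw [if_pos ⟨Finset.mem_Icc.1 hα, Finset.mem_Icc.1 hα'⟩]
          · intro α' hα'
            rw [if_neg (fun h => hα' (Finset.mem_Icc.2 h.2))]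
        · intro α hα
          refine ENNReal.tsum_eq_zero.2 fun α' => ?_
          rw [if_neg (fun h => hα (Finset.mem_Icc.2 h.1))]
    _ = _ := by
        rw [Finset.sum_const, Finset.sum_const, nsmul_eq_mul, nsmul_eq_mul, hcard, hcard]; ring

open Classical in
/-- bound of one local term -/
lemma loc_term (h1X : ∀ b, 1 ≤ hX b) (h1Y : ∀ b, 1 ≤ hY b) (hΛX : ∑' b, ΛX b = 1)
    (hΛY : ∑' b, ΛY b = 1) (a0 a1 T T1 i0 lo hi : ℕ) (w : G)
    (loc : Finset G → List BX → List BY → Prop) (us : ℕ → ℝ≥0∞) (C : ℝ≥0∞)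
    (hW : HW ΛX ΛY hX hY TX TY loc us C) (s : ℕ) (lam : ℝ≥0∞) (hl0 : lam ≠ 0) (hl1 : lam ≠ ⊤)
    (E : ℕ → ℕ → Finset G) (M bad m : ℝ≥0∞) (hM : M ≠ ⊤) (hME : ∀ h h', M * (E h h').card ≤ m)
    (hD : ∀ D : Finset (ℕ × ℕ × G), ∑ i ∈ D, mu ΛX ΛY hX hY zX zY a0 a1 w i ≤ M * D.card + bad)
    (ha : a0 + i0 ≤ a1) (haT : a0 + i0 + (T + i0) ≤ a1 + T1)
    (hlo : a1 + i0 + s ≤ lo) (hhi : hi + s ≤ a0 + T) :
    Ex ΛX hX a0 (fun A => Ex ΛY hY a1 (fun A' => Ex ΛX hX T (fun P => Ex ΛY hY T1 (fun P' =>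
      if (HT hX A ≤ a0 + i0 ∧ HT hY A' ≤ a1 + i0) ∧ HT hX P ≤ T + i0 ∧ HT hY P' ≤ T1 + i0 ∧
        (loc (E (HT hX P) (HT hY P')) P P' ∧
        Cn TX TY P P' (w + Dp zY A' - Dp zX A) (HT hX A) (HT hY A') lo hi) then 1 else 0))))
      ≤ bad + ((i0 : ℝ≥0∞) + 1) ^ 4 * (C * (lam + m * us s / lam + us s)) := by
  set W : ℕ × ℕ × G → ℝ≥0∞ := fun i =>
    (if (a0 ≤ i.1 ∧ i.1 ≤ a0 + i0) ∧ (a1 ≤ i.2.1 ∧ i.2.1 ≤ a1 + i0) then
        Ex ΛX hX T (fun P => Ex ΛY hY T1 (fun P' =>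
        if HT hX P ≤ T + i0 ∧ HT hY P' ≤ T1 + i0 ∧ (loc (E (HT hX P) (HT hY P')) P P' ∧
          Cn TX TY P P' i.2.2 i.1 i.2.1 lo hi) then 1 else 0)) else 0) with hWd
  have hW1 : ∀ i, W i ≤ 1 := by
    intro i
    simp only [hWd]
    split_ifs
    · refine Ex_le ΛX hX h1X hΛX T fun P _ => Ex_le ΛY hY h1Y hΛY T1 fun P' _ => ?_
      split_ifs <;> simp
    · exact zero_le
  calc _ ≤ Ex ΛX hX a0 (fun A => Ex ΛY hY a1 (fun A' => W (tl hX hY zX zY w A A'))) := by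
        refine Ex_mono ΛX hX a0 fun A hA => Ex_mono ΛY hY a1 fun A' hA' => ?_
        have e1 := le_HT_of_fp hX hA
        have e2 := le_HT_of_fp hY hA'
        simp only [hWd, tl]
        by_cases hc : HT hX A ≤ a0 + i0 ∧ HT hY A' ≤ a1 + i0
        · rw [if_pos ⟨⟨e1, hc.1⟩, ⟨e2, hc.2⟩⟩]
          refine Ex_mono ΛX hX T fun P _ => Ex_mono ΛY hY T1 fun P' _ => ?_
          split_ifs with h1 h2 h2
          · exact le_rfl
          · exact absurd h1.2 h2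
          · exact zero_le
          · exact le_rfl
        · have : ∀ P P', (if (HT hX A ≤ a0 + i0 ∧ HT hY A' ≤ a1 + i0) ∧ HT hX P ≤ T + i0 ∧
              HT hY P' ≤ T1 + i0 ∧ (loc (E (HT hX P) (HT hY P')) P P' ∧
              Cn TX TY P P' (w + Dp zY A' - Dp zX A) (HT hX A) (HT hY A') lo hi)
              then (1 : ℝ≥0∞) else 0) = 0 := fun P P' => if_neg fun h => hc h.1
          simp only [this]
          refine le_trans (Ex_le ΛX hX h1X hΛX T fun P _ => Ex_le ΛY hY h1Y hΛY T1 fun P' _ =>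
            le_rfl) zero_le
    _ = ∑' i, mu ΛX ΛY hX hY zX zY a0 a1 w i * W i := mu_push ΛX ΛY hX hY zX zY a0 a1 w W
    _ ≤ ∑' i, ((mu ΛX ΛY hX hY zX zY a0 a1 w i - M)
          + min (mu ΛX ΛY hX hY zX zY a0 a1 w i) M * W i) := by
        refine ENNReal.tsum_le_tsum fun i => ?_
        rcases le_total (mu ΛX ΛY hX hY zX zY a0 a1 w i) M with h | h
        · rw [min_eq_left h]; exact le_add_self
        · rw [min_eq_right h]
          calc mu ΛX ΛY hX hY zX zY a0 a1 w i * W i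
              = ((mu ΛX ΛY hX hY zX zY a0 a1 w i - M) + M) * W i := by rw [tsub_add_cancel_of_le h]
            _ = (mu ΛX ΛY hX hY zX zY a0 a1 w i - M) * W i + M * W i := add_mul _ _ _
            _ ≤ (mu ΛX ΛY hX hY zX zY a0 a1 w i - M) * 1 + M * W i := by gcongr; exact hW1 i
            _ = _ := by rw [mul_one]
    _ = ∑' i, (mu ΛX ΛY hX hY zX zY a0 a1 w i - M)
          + ∑' i, min (mu ΛX ΛY hX hY zX zY a0 a1 w i) M * W i := ENNReal.tsum_add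
    _ ≤ _ := by
        refine add_le_add (excess _ M bad hM hD) ?_
        refine (loc_sum ΛX ΛY hX hY TX TY a0 a1 T T1 i0 lo hi
          (fun P P' => loc (E (HT hX P) (HT hY P')) P P') (C * (lam + m * us s / lam + us s))
          (fun i => min (mu ΛX ΛY hX hY zX zY a0 a1 w i) M) ?_)
        intro α α' h h' q1 q2 q3 q4 q5 q6 q7 q8
        have hsum : ∑' x, min (mu ΛX ΛY hX hY zX zY a0 a1 w (α, α', x)) M ≤ 1 := by
          calc _ ≤ ∑' x, mu ΛX ΛY hX hY zX zY a0 a1 w (α, α', x) :=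
                ENNReal.tsum_le_tsum fun x => min_le_left _ _
            _ ≤ ∑' i, mu ΛX ΛY hX hY zX zY a0 a1 w i :=
                ENNReal.tsum_comp_le_tsum_of_injective (f := fun x : G => (α, α', x))
                  (fun x y hxy => by simpa using hxy) _
            _ = 1 := mu_sum ΛX ΛY hX hY zX zY h1X h1Y hΛX hΛY a0 a1 w
        have := hW s h h' α α' lo hi (E h h')
          (fun x => min (mu ΛX ΛY hX hY zX zY a0 a1 w (α, α', x)) M) M lam hsum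
          (fun x => min_le_right _ _) hl0 hl1 (by omega) (by omega) (by omega) (by omega)
          (by omega) (by omega)
        refine le_trans (le_trans (le_of_eq ?_) this) ?_
        · refine tsum_congr fun x => ?_
          congr 1
          refine tsum_congr fun L => tsum_congr fun L' => ?_
          by_cases hc : HT hX L = h ∧ HT hY L' = h'
          · rw [hc.1, hc.2]
          · rw [if_neg (fun h => hc ⟨h.1, h.2.1⟩), if_neg (fun h => hc ⟨h.1, h.2.1⟩)]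
        · refine mul_le_mul_right ?_ _
          gcongr
          exact hME h h'

end Crest.Agent.R154.KapC318
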