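import Crest.Agent.R154.KapB_506

/-! Row 154, KAPPA' (road 801): two walkers, decomposition and the local term (helper506). -/

set_option autoImplicit false

namespace Crest.Agent.R154.Kap506

open Crest.Agent.R154.B5A
open scoped ENNReal
open Classical

variable {B B' G : Type*} [AddCommGroup G]
variable {Λ : B → ℝ≥0∞} {ht : B → ℕ} {zz : B → G}
variable {Λ' : B' → ℝ≥0∞} {ht' : B' → ℕ} {zz' : B' → G}

lemma HS_const_le (h1 : ∀ b, 1 ≤ ht b) (hΛ : ∑' b, Λ b = 1) (n : ℕ) (c : ℝ≥0∞) :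
    HS Λ ht n (fun _ => c) ≤ c := by
  have : HS Λ ht n (fun _ => c) = HS Λ ht n (fun _ => 1) * c := by
    rw [HS, HS, ← ENNReal.tsum_mul_right]
    refine tsum_congr fun L => ?_
    split_ifs <;> simp
  rw [this]
  exact (mul_le_mul_left (HS_one_le h1 hΛ n) c).trans (one_mul c).le

/-- single walker decomposition -/
lemma HS_le (h1 : ∀ b, 1 ≤ ht b) (hΛ : ∑' b, Λ b = 1) (α T i0 D : ℕ) (hD : α + i0 + T ≤ D)
    (ov : ℝ≥0∞) (hov : ∀ a, FS Λ ht a (fun A => if a + i0 < HT ht A then 1 else 0) ≤ ov)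
    (F : List B → ℝ≥0∞) (hF : ∀ L, F L ≤ 1) (H : List B → List B → ℝ≥0∞)
    (hFH : ∀ A P R, FP ht α A → FP ht T P → HT ht A ≤ α + i0 → HT ht P ≤ T + i0 →
      F (A ++ (P ++ R)) ≤ H A P) :
    HS Λ ht D F ≤ FS Λ ht α (fun A => FS Λ ht T (fun P => H A P)) + 2 * ov := by
  rw [HS_FP h1 α D (by omega)]
  refine (FS_mono Λ ht α (F' := fun A => (if α + i0 < HT ht A then 1 else 0)
    + (FS Λ ht T (fun P => H A P) + ov)) fun A hA => ?_).trans ?_
  · by_cases h2 : α + i0 < HT ht A
    · rw [if_pos h2]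
      refine le_add_right ?_
      split_ifs
      · exact (HS_mono Λ ht _ fun R _ => hF _).trans (HS_one_le h1 hΛ _)
      · exact zero_le
    · rw [if_neg h2, zero_add, if_pos (by omega), HS_FP h1 T (D - HT ht A) (by omega)]
      refine (FS_mono Λ ht T (F' := fun P => H A P + (if T + i0 < HT ht P then 1 else 0))
        fun P hP => ?_).trans ?_
      · by_cases h3 : T + i0 < HT ht P
        · rw [if_pos h3]
          refine le_add_left ?_
          split_ifs
          · exact (HS_mono Λ ht _ fun R _ => hF _).trans (HS_one_le h1 hΛ _)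
          · exact zero_le
        · refine le_add_right ?_
          split_ifs
          · exact (HS_mono Λ ht _ fun R _ => hFH A P R hA hP (by omega) (by omega)).trans
              (HS_const_le h1 hΛ _ _)
          · exact zero_le
      · rw [FS_add]
        exact add_le_add le_rfl (hov T)
  · rw [FS_add, FS_add, FS_const h1 hΛ]
    calc _ ≤ ov + (FS Λ ht α (fun A => FS Λ ht T (fun P => H A P)) + ov) :=
          add_le_add (hov α) le_rfl
      _ = _ := by ring

/-- two walkers -/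
lemma two_le (h1 : ∀ b, 1 ≤ ht b) (hΛ : ∑' b, Λ b = 1) (h1' : ∀ b, 1 ≤ ht' b)
    (hΛ' : ∑' b, Λ' b = 1) (α T i0 D : ℕ) (hD : α + i0 + T ≤ D)
    (ov : ℝ≥0∞) (hov : ∀ a, FS Λ ht a (fun A => if a + i0 < HT ht A then 1 else 0) ≤ ov)
    (hov' : ∀ a, FS Λ' ht' a (fun A => if a + i0 < HT ht' A then 1 else 0) ≤ ov)
    (E : List B → List B' → Prop) (E' : List B → List B → List B' → List B' → Prop)
    (hE : ∀ A P R A' P' R', FP ht α A → FP ht T P → FP ht' α A' → FP ht' T P' →
      HT ht A ≤ α + i0 → HT ht P ≤ T + i0 → HT ht' A' ≤ α + i0 → HT ht' P' ≤ T + i0 →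
      E (A ++ (P ++ R)) (A' ++ (P' ++ R')) → E' A P A' P') :
    HS Λ ht D (fun L => HS Λ' ht' D (fun L' => if E L L' then 1 else 0))
      ≤ FS Λ ht α (fun A => FS Λ ht T (fun P => FS Λ' ht' α (fun A' => FS Λ' ht' T (fun P' =>
          if E' A P A' P' then 1 else 0)))) + 4 * ov := by
  obtain ⟨Q, hQ⟩ : ∃ Q : List B → List B' → List B' → Prop, ∀ L A' P', Q L A' P' ↔
    (FP ht' α A' ∧ FP ht' T P' ∧
    HT ht' A' ≤ α + i0 ∧ HT ht' P' ≤ T + i0 ∧ ∃ R', E L (A' ++ (P' ++ R'))) :=
    ⟨_, fun _ _ _ => Iff.rfl⟩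
  have inner : ∀ L : List B, HS Λ' ht' D (fun L' => if E L L' then 1 else 0)
      ≤ FS Λ' ht' α (fun A' => FS Λ' ht' T (fun P' => if Q L A' P' then 1 else 0)) + 2 * ov := by
    intro L
    refine HS_le h1' hΛ' α T i0 D hD ov hov' _ (fun L' => by split_ifs <;> simp) _ ?_
    intro A P R hA hP hA2 hP2
    by_cases h : E L (A ++ (P ++ R))
    · rw [if_pos h, if_pos ((hQ _ _ _).2 ⟨hA, hP, hA2, hP2, R, h⟩)]
    · rw [if_neg h]; exact zero_le
  have le1 : ∀ (p : List B' → List B' → Prop),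
      FS Λ' ht' α (fun A' => FS Λ' ht' T (fun P' => if p A' P' then (1 : ℝ≥0∞) else 0)) ≤ 1 := by
    intro p
    refine (FS_mono Λ' ht' α (F' := fun _ => 1) fun A' _ => ?_).trans (FS_const h1' hΛ' α 1).le
    refine (FS_mono Λ' ht' T (F' := fun _ => 1) fun P' _ => ?_).trans (FS_const h1' hΛ' T 1).le
    split_ifs <;> simp
  calc _ ≤ HS Λ ht D (fun L => FS Λ' ht' α (fun A' => FS Λ' ht' T (fun P' =>
            if Q L A' P' then 1 else 0)) + 2 * ov) := HS_mono Λ ht D fun L _ => inner L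
    _ = HS Λ ht D (fun L => FS Λ' ht' α (fun A' => FS Λ' ht' T (fun P' =>
            if Q L A' P' then 1 else 0))) + HS Λ ht D (fun _ => 2 * ov) := HS_add Λ ht D _ _
    _ ≤ (FS Λ ht α (fun A => FS Λ ht T (fun P => FS Λ' ht' α (fun A' => FS Λ' ht' T (fun P' =>
          if E' A P A' P' then 1 else 0)))) + 2 * ov) + 2 * ov := by
        refine add_le_add ?_ (HS_const_le h1 hΛ D _)
        refine HS_le h1 hΛ α T i0 D hD ov hov
          (fun L => FS Λ' ht' α (fun A' => FS Λ' ht' T (fun P' => if Q L A' P' then 1 else 0)))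
          (fun L => le1 (Q L))
          (fun A P => FS Λ' ht' α (fun A' => FS Λ' ht' T (fun P' =>
            if E' A P A' P' then 1 else 0))) ?_
        intro A P R hA hP hA2 hP2
        refine FS_mono Λ' ht' α fun A' _ => FS_mono Λ' ht' T fun P' _ => ?_
        by_cases h : Q (A ++ (P ++ R)) A' P'
        · obtain ⟨h3, h4, h5, h6, R', h7⟩ := (hQ _ _ _).1 h
          rw [if_pos h, if_pos (hE A P R A' P' R' hA hP h3 h4 hA2 hP2 h5 h6 h7)]
        · rw [if_neg h]; exact zero_le
    _ = _ := by ring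

lemma FS_comm (a a' : ℕ) (F : List B → List B' → ℝ≥0∞) :
    FS Λ ht a (fun A => FS Λ' ht' a' (fun A' => F A A'))
      = FS Λ' ht' a' (fun A' => FS Λ ht a (fun A => F A A')) := by
  simp only [FS]
  have e1 : ∀ A : List B, (if FP ht a A then LW Λ A * ∑' A', (if FP ht' a' A' then
      LW Λ' A' * F A A' else 0) else 0)
      = ∑' A', if FP ht a A ∧ FP ht' a' A' then LW Λ A * LW Λ' A' * F A A' else 0 := by
    intro A
    by_cases h : FP ht a A
    · rw [if_pos h, ← ENNReal.tsum_mul_left]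
      refine tsum_congr fun A' => ?_
      by_cases h' : FP ht' a' A'
      · rw [if_pos h', if_pos ⟨h, h'⟩, mul_assoc]
      · rw [if_neg h', if_neg (fun c => h' c.2), mul_zero]
    · rw [if_neg h]
      simp [h]
  have e2 : ∀ A' : List B', (if FP ht' a' A' then LW Λ' A' * ∑' A, (if FP ht a A then
      LW Λ A * F A A' else 0) else 0)
      = ∑' A, if FP ht a A ∧ FP ht' a' A' then LW Λ A * LW Λ' A' * F A A' else 0 := by
    intro A'
    by_cases h : FP ht' a' A'
    · rw [if_pos h, ← ENNReal.tsum_mul_left]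
      refine tsum_congr fun A => ?_
      by_cases h' : FP ht a A
      · rw [if_pos h', if_pos ⟨h', h⟩]; ring
      · rw [if_neg h', if_neg (fun c => h' c.1), mul_zero]
    · rw [if_neg h]
      simp [h]
  rw [tsum_congr e1, tsum_congr e2, ENNReal.tsum_comm]

lemma HS_comm (a a' : ℕ) (F : List B → List B' → ℝ≥0∞) :
    HS Λ ht a (fun A => HS Λ' ht' a' (fun A' => F A A'))
      = HS Λ' ht' a' (fun A' => HS Λ ht a (fun A => F A A')) := by
  simp only [HS]
  have e1 : ∀ A : List B, (if HT ht A = a then LW Λ A * ∑' A', (if HT ht' A' = a' then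
      LW Λ' A' * F A A' else 0) else 0)
      = ∑' A', if HT ht A = a ∧ HT ht' A' = a' then LW Λ A * LW Λ' A' * F A A' else 0 := by
    intro A
    by_cases h : HT ht A = a
    · rw [if_pos h, ← ENNReal.tsum_mul_left]
      refine tsum_congr fun A' => ?_
      by_cases h' : HT ht' A' = a'
      · rw [if_pos h', if_pos ⟨h, h'⟩, mul_assoc]
      · rw [if_neg h', if_neg (fun c => h' c.2), mul_zero]
    · rw [if_neg h]
      simp [h]
  have e2 : ∀ A' : List B', (if HT ht' A' = a' then LW Λ' A' * ∑' A, (if HT ht A = a then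
      LW Λ A * F A A' else 0) else 0)
      = ∑' A, if HT ht A = a ∧ HT ht' A' = a' then LW Λ A * LW Λ' A' * F A A' else 0 := by
    intro A'
    by_cases h : HT ht' A' = a'
    · rw [if_pos h, ← ENNReal.tsum_mul_left]
      refine tsum_congr fun A => ?_
      by_cases h' : HT ht A = a
      · rw [if_pos h', if_pos ⟨h', h⟩]; ring
      · rw [if_neg h', if_neg (fun c => h' c.1), mul_zero]
    · rw [if_neg h]
      simp [h]
  rw [tsum_congr e1, tsum_congr e2, ENNReal.tsum_comm]

lemma HS_tsum (a : ℕ) {ι : Type*} (F : ι → List B → ℝ≥0∞) :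
    HS Λ ht a (fun A => ∑' x, F x A) = ∑' x, HS Λ ht a (F x) := by
  simp only [HS]
  rw [ENNReal.tsum_comm]
  refine tsum_congr fun A => ?_
  by_cases h : HT ht A = a
  · simp only [if_pos h]; rw [ENNReal.tsum_mul_left]
  · simp [h]

lemma HS_mul (a : ℕ) (c : ℝ≥0∞) (F : List B → ℝ≥0∞) :
    HS Λ ht a (fun A => F A * c) = HS Λ ht a F * c := by
  simp only [HS]
  rw [← ENNReal.tsum_mul_right]
  refine tsum_congr fun A => ?_
  by_cases h : HT ht A = a
  · rw [if_pos h, if_pos h, mul_assoc]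
  · rw [if_neg h, if_neg h, zero_mul]

lemma FS_le_HS (a i0 : ℕ) (F : List B → ℝ≥0∞) (hF : ∀ A, a + i0 < HT ht A → F A = 0) :
    FS Λ ht a F ≤ ∑ k ∈ Finset.range (i0 + 1), HS Λ ht (a + k) F := by
  simp only [HS]
  rw [← Summable.tsum_finsetSum (fun _ _ => ENNReal.summable)]
  refine ENNReal.tsum_le_tsum fun A => ?_
  by_cases h : FP ht a A
  · rw [if_pos h]
    by_cases h2 : a + i0 < HT ht A
    · rw [hF A h2, mul_zero]; exact zero_le
    · have := FP_le _ _ h
      refine le_trans ?_ (Finset.single_le_sum (fun _ _ => zero_le)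
        (Finset.mem_range.2 (show HT ht A - a < i0 + 1 by omega)))
      rw [if_pos (by omega)]
  · rw [if_neg h]; exact zero_le

end Crest.Agent.R154.Kap506
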