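import Crest.Agent.R154.KapC_318

/-! Row 154 (helper318), ROAD 801, assembly, part D: the window inequality. -/

set_option autoImplicit false

namespace Crest.Agent.R154.KapD318

open Crest.Agent.R154.B5A Crest.Agent.R154.FP178 Crest.Agent.R154.KapA318 Crest.Agent.R154.KapB318
  Crest.Agent.R154.KapC318
open Crest.Agent.R154.Bind12 (Dp)
open scoped ENNReal

variable {BX BY G : Type*} [AddCommGroup G] (ΛX : BX → ℝ≥0∞) (ΛY : BY → ℝ≥0∞)
  (hX : BX → ℕ) (hY : BY → ℕ) (zX : BX → G) (zY : BY → G)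
  (TX : List BX → G → ℕ → Set (G × ℕ)) (TY : List BY → G → ℕ → Set (G × ℕ))

open Classical in
/-- weight of the pairs of height `n` satisfying `R` -/
noncomputable def PW (n : ℕ) (R : List BX → List BY → Prop) : ℝ≥0∞ :=
  ∑' LX, ∑' LY, if HT hX LX = n ∧ HT hY LY = n ∧ R LX LY then LW ΛX LX * LW ΛY LY else 0

lemma PW_mono (n : ℕ) {R R' : List BX → List BY → Prop}
    (h : ∀ LX LY, HT hX LX = n → HT hY LY = n → R LX LY → R' LX LY) :
    PW ΛX ΛY hX hY n R ≤ PW ΛX ΛY hX hY n R' := by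
  classical
  refine ENNReal.tsum_le_tsum fun LX => ENNReal.tsum_le_tsum fun LY => ?_
  by_cases hc : HT hX LX = n ∧ HT hY LY = n ∧ R LX LY
  · rw [if_pos hc, if_pos ⟨hc.1, hc.2.1, h _ _ hc.1 hc.2.1 hc.2.2⟩]
  · rw [if_neg hc]; exact zero_le

lemma PW_or (n : ℕ) (R R' : List BX → List BY → Prop) :
    PW ΛX ΛY hX hY n (fun L L' => R L L' ∨ R' L L')
      ≤ PW ΛX ΛY hX hY n R + PW ΛX ΛY hX hY n R' := by
  classical
  simp only [PW]
  simp only [← ENNReal.tsum_add]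
  refine ENNReal.tsum_le_tsum fun LX => ENNReal.tsum_le_tsum fun LY => ?_
  by_cases h0 : HT hX LX = n ∧ HT hY LY = n
  · by_cases h1 : R LX LY
    · rw [if_pos (⟨h0.1, h0.2, h1⟩ : HT hX LX = n ∧ HT hY LY = n ∧ R LX LY),
        if_pos ⟨h0.1, h0.2, Or.inl h1⟩]
      exact le_self_add
    · by_cases h2 : R' LX LY
      · rw [if_pos (⟨h0.1, h0.2, h2⟩ : HT hX LX = n ∧ HT hY LY = n ∧ R' LX LY),
          if_pos ⟨h0.1, h0.2, Or.inr h2⟩]
        exact le_add_self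
      · rw [if_neg]
        · exact zero_le
        · rintro ⟨_, _, h | h⟩
          · exact h1 h
          · exact h2 h
  · rw [if_neg (fun h => h0 ⟨h.1, h.2.1⟩)]; exact zero_le

lemma PW_finset (n : ℕ) (S : Finset ℕ) (R : ℕ → List BX → List BY → Prop) (η : ℝ≥0∞)
    (h : ∀ k ∈ S, PW ΛX ΛY hX hY n (R k) ≤ η) :
    PW ΛX ΛY hX hY n (fun L L' => ∃ k ∈ S, R k L L') ≤ S.card * η := by
  classical
  induction S using Finset.induction_on with
  | empty =>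
    simp only [Finset.notMem_empty, false_and, exists_false, Finset.card_empty, Nat.cast_zero,
      zero_mul]
    simp [PW]
  | insert k S hk ih =>
    have e : PW ΛX ΛY hX hY n (fun L L' => ∃ k' ∈ insert k S, R k' L L')
        ≤ PW ΛX ΛY hX hY n (fun L L' => R k L L' ∨ ∃ k' ∈ S, R k' L L') := by
      refine PW_mono ΛX ΛY hX hY n fun L L' _ _ hR => ?_
      obtain ⟨k', hk', hR⟩ := hR
      rcases Finset.mem_insert.1 hk' with rfl | hk'
      · exact Or.inl hR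
      · exact Or.inr ⟨k', hk', hR⟩
    refine e.trans ((PW_or ΛX ΛY hX hY n _ _).trans ?_)
    rw [Finset.card_insert_of_notMem hk]
    push_cast
    rw [add_mul, one_mul, add_comm]
    exact add_le_add (ih fun k' hk' => h k' (Finset.mem_insert_of_mem hk'))
      (h k (Finset.mem_insert_self k S))

set_option maxHeartbeats 2000000 in
open Classical in
theorem window
    (h1X : ∀ b, 1 ≤ hX b) (h1Y : ∀ b, 1 ≤ hY b) (hΛX : ∑' b, ΛX b = 1)
    (hΛY : ∑' b, ΛY b = 1) (hUX : ∀ n, U ΛX hX n ≤ 1) (hUY : ∀ n, U ΛY hY n ≤ 1)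
    (aX : ∀ L L' x a, TX (L ++ L') x a = TX L x a ∪ TX L' (x + Dp zX L) (a + HT hX L))
    (aY : ∀ L L' x a, TY (L ++ L') x a = TY L x a ∪ TY L' (x + Dp zY L) (a + HT hY L))
    (tX : ∀ L x y a z k, (z, k) ∈ TX L (x + y) a ↔ (z - y, k) ∈ TX L x a)
    (tY : ∀ L x y a z k, (z, k) ∈ TY L (x + y) a ↔ (z - y, k) ∈ TY L x a)
    (rX : ∀ L x a z k, (z, k) ∈ TX L x a → a < k ∧ k ≤ a + HT hX L)
    (rY : ∀ L x a z k, (z, k) ∈ TY L x a → a < k ∧ k ≤ a + HT hY L)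
    (us : ℕ → ℝ≥0∞) (C : ℝ≥0∞)
    (H2 : HW ΛX ΛY hX hY TX TY (fun E L _ => Dp zX L ∈ E) us C)
    (H3 : HW ΛX ΛY hX hY TX TY (fun E _ L' => Dp zY L' ∈ E) us C)
    (t i0 s N a0 n : ℕ) (w : G) (lam : ℝ≥0∞) (hl0 : lam ≠ 0) (hl1 : lam ≠ ⊤)
    (hit : 2 * i0 ≤ t) (hst : 2 * i0 + s ≤ t) (hN : N * (3 * t + 2 * i0) ≤ a0)
    (hn : a0 + 3 * t + 3 * i0 ≤ n)
    (τ : ℝ≥0∞)
    (hτX : ∀ a, Ex ΛX hX a (fun A => if a + i0 < HT hX A then 1 else 0) ≤ τ)
    (hτY : ∀ a, Ex ΛY hY a (fun A => if a + i0 < HT hY A then 1 else 0) ≤ τ)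
    (u r thX thY : ℝ≥0∞) (hr1 : r ≤ 1) (hthX : thX ≠ ⊤) (hthY : thY ≠ ⊤)
    (qX1 : Ex ΛX hX (3 * t) (fun P => if pl ΛX hX zX (3 * t) (hd hX zX P) < thX then 1 else 0) ≤ u)
    (qX2 : Ex ΛX hX (3 * t) (fun P => if thX < pl ΛX hX zX (3 * t) (hd hX zX P) then 1 else 0) ≤ r)
    (qY1 : Ex ΛY hY (3 * t + i0)
      (fun P => if pl ΛY hY zY (3 * t + i0) (hd hY zY P) < thY then 1 else 0) ≤ u)
    (qY2 : Ex ΛY hY (3 * t + i0)
      (fun P => if thY < pl ΛY hY zY (3 * t + i0) (hd hY zY P) then 1 else 0) ≤ r)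
    (EX EY : ℕ → Finset G) (hEX : ∀ h x, thX ≤ pl ΛX hX zX (3 * t) (h, x) → x ∈ EX h)
    (hEY : ∀ h x, thY ≤ pl ΛY hY zY (3 * t + i0) (h, x) → x ∈ EY h)
    (cX : ∀ h, thX * (EX h).card ≤ 1) (cY : ∀ h, thY * (EY h).card ≤ 1)
    (η : ℝ≥0∞) (hPt : ∀ k, a0 ≤ k → k ≤ n →
      PW ΛX ΛY hX hY n (fun LX LY => ∃ z, (z, k) ∈ TX LX 0 0 ∧ (z, k) ∈ TY LY w 0) ≤ η) :
    PW ΛX ΛY hX hY n (fun LX LY => ∃ z k, (a0 + t < k ∧ k ≤ a0 + 2 * t) ∧
        (z, k) ∈ TX LX 0 0 ∧ (z, k) ∈ TY LY w 0)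
      ≤ ((2 * s + 4 * i0 + 2 : ℕ) : ℝ≥0∞) * η + (4 * τ + (u * u + 2 * ((r ^ N + N * τ) +
        ((i0 : ℝ≥0∞) + 1) ^ 4 * (C * (lam + ((i0 : ℝ≥0∞) + 1) *
          (∑ j ∈ Finset.range N, r ^ j) * us s / lam + us s))))) := by
  set T := 3 * t with hT
  set a1 := a0 + i0 with ha1
  set T1 := T + i0 with hT1
  set S : Finset ℕ := Finset.Icc a0 (a0 + 2 * i0 + s) ∪ Finset.Icc (a0 + T - s) (a0 + T + 2 * i0)
    with hS
  set lo := a0 + 2 * i0 + s with hlo
  set hi := a0 + T - s with hhi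
  set Q : List BX → List BY → Prop := fun LX LY =>
    (∃ z k, (a0 + t < k ∧ k ≤ a0 + 2 * t) ∧ (z, k) ∈ TX LX 0 0 ∧ (z, k) ∈ TY LY w 0) ∧
    (∀ z k, (z, k) ∈ TX LX 0 0 → (z, k) ∈ TY LY w 0 → k ∉ S) with hQ
  set ct : ℕ → List BX → List BY → Prop := fun k LX LY =>
    ∃ z, (z, k) ∈ TX LX 0 0 ∧ (z, k) ∈ TY LY w 0 with hct
  have hScard : S.card ≤ 2 * s + 4 * i0 + 2 := by
    refine (Finset.card_union_le _ _).trans ?_
    rw [Nat.card_Icc, Nat.card_Icc]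
    omega
  have hSbd : ∀ k ∈ S, a0 ≤ k ∧ k ≤ n := by
    intro k hk
    rcases Finset.mem_union.1 hk with hk | hk <;> rw [Finset.mem_Icc] at hk <;>
      constructor <;> omega
  -- split into slab and clean part
  have step1 : PW ΛX ΛY hX hY n (fun LX LY => ∃ z k, (a0 + t < k ∧ k ≤ a0 + 2 * t) ∧
        (z, k) ∈ TX LX 0 0 ∧ (z, k) ∈ TY LY w 0)
      ≤ PW ΛX ΛY hX hY n (fun L L' => ∃ k ∈ S, ct k L L') + PW ΛX ΛY hX hY n Q := by
    refine le_trans (PW_mono ΛX ΛY hX hY n fun LX LY _ _ hR => ?_) (PW_or ΛX ΛY hX hY n _ _)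
    by_cases h : ∃ k ∈ S, ct k LX LY
    · exact Or.inl h
    · refine Or.inr ⟨hR, fun z k h1 h2 hk => h ⟨k, hk, z, h1, h2⟩⟩
  have step2 : PW ΛX ΛY hX hY n (fun L L' => ∃ k ∈ S, ct k L L')
      ≤ ((2 * s + 4 * i0 + 2 : ℕ) : ℝ≥0∞) * η := by
    refine (PW_finset ΛX ΛY hX hY n S ct η fun k hk => hPt k (hSbd k hk).1 (hSbd k hk).2).trans ?_
    gcongr
  refine step1.trans (add_le_add step2 ?_)
  -- the clean part: decomposition of both lists
  set FX : List BX → ℝ≥0∞ := fun LX =>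
    ∑' LY, (if HT hY LY = n then LW ΛY LY * (if Q LX LY then 1 else 0) else 0) with hFX
  set Qh : List BX → List BX → List BY → List BY → Prop := fun A P A' P' =>
    Cn TX TY P P' (w + Dp zY A' - Dp zX A) (HT hX A) (HT hY A') lo hi with hQh
  have e1 : PW ΛX ΛY hX hY n Q = ∑' LX, (if HT hX LX = n then LW ΛX LX * FX LX else 0) := by
    rw [PW]
    refine tsum_congr fun LX => ?_
    by_cases h : HT hX LX = n
    · rw [if_pos h]
      simp only [hFX]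
      rw [← ENNReal.tsum_mul_left]
      refine tsum_congr fun LY => ?_
      by_cases h2 : HT hY LY = n
      · by_cases h3 : Q LX LY
        · rw [if_pos ⟨h, h2, h3⟩, if_pos h2, if_pos h3, mul_one]
        · rw [if_neg (fun h => h3 h.2.2), if_pos h2, if_neg h3, mul_zero, mul_zero]
      · rw [if_neg (fun h => h2 h.2.1), if_neg h2, mul_zero]
    · rw [if_neg h]
      refine ENNReal.tsum_eq_zero.2 fun LY => ?_
      rw [if_neg (fun h' => h h'.1)]
  have hFX1 : ∀ L, FX L ≤ 1 := by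
    intro L
    refine le_trans ?_ (hUY n)
    simp only [hFX, U]
    refine ENNReal.tsum_le_tsum fun LY => ?_
    by_cases h : HT hY LY = n
    · rw [if_pos h, if_pos h]
      split_ifs <;> simp
    · rw [if_neg h, if_neg h]
  have hQQ : ∀ A P R A' P' R', fp hX a0 A → fp hX T P → HT hX A ≤ a0 + i0 →
      HT hX P ≤ T + i0 → fp hY a1 A' → fp hY T1 P' → HT hY A' ≤ a1 + i0 → HT hY P' ≤ T1 + i0 →
      Q (A ++ (P ++ R)) (A' ++ (P' ++ R')) → Qh A P A' P' := by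
    intro A P R A' P' R' f1 f2 f3 f4 f5 f6 f7 f8 hq
    have g1 := le_HT_of_fp hX f1
    have g2 := le_HT_of_fp hX f2
    have g3 := le_HT_of_fp hY f5
    have g4 := le_HT_of_fp hY f6
    obtain ⟨⟨z, k, ⟨k1, k2⟩, z1, z2⟩, hno⟩ := hq
    rw [aX, aX, zero_add, zero_add] at z1
    rw [aY, aY, zero_add] at z2
    have zx : (z, k) ∈ TX P (Dp zX A) (HT hX A) := by
      rcases z1 with h | h | h
      · have := rX _ _ _ _ _ h; omega
      · exact h
      · have := rX _ _ _ _ _ h; omega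
    have zy : (z, k) ∈ TY P' (w + Dp zY A') (HT hY A') := by
      rcases z2 with h | h | h
      · have := rY _ _ _ _ _ h; omega
      · exact h
      · have := rY _ _ _ _ _ h; omega
    have ex : ∀ z k, (z, k) ∈ TX P (Dp zX A) (HT hX A) ↔ (z - Dp zX A, k) ∈ TX P 0 (HT hX A) := by
      intro z k
      have := tX P 0 (Dp zX A) (HT hX A) z k
      rwa [zero_add] at this
    have ey : ∀ z k, (z, k) ∈ TY P' (w + Dp zY A') (HT hY A') ↔
        (z - Dp zX A, k) ∈ TY P' (w + Dp zY A' - Dp zX A) (HT hY A') := by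
      intro z k
      have := tY P' (w + Dp zY A' - Dp zX A) (Dp zX A) (HT hY A') z k
      rwa [sub_add_cancel] at this
    refine ⟨⟨z - Dp zX A, k, (ex z k).1 zx, (ey z k).1 zy⟩, ?_⟩
    intro z' k' h1 h2
    have h1' : (z' + Dp zX A, k') ∈ TX P (Dp zX A) (HT hX A) := by
      rw [ex, add_sub_cancel_right]; exact h1
    have h2' : (z' + Dp zX A, k') ∈ TY P' (w + Dp zY A') (HT hY A') := by
      rw [ey, add_sub_cancel_right]; exact h2
    have b1 := rX _ _ _ _ _ h1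
    have b2 := rY _ _ _ _ _ h2
    have hkS : k' ∉ S := by
      refine hno (z' + Dp zX A) k' ?_ ?_
      · rw [aX, aX, zero_add, zero_add]; exact Or.inr (Or.inl h1')
      · rw [aY, aY, zero_add]; exact Or.inr (Or.inl h2')
    rw [hS, Finset.mem_union, Finset.mem_Icc, Finset.mem_Icc, not_or] at hkS
    obtain ⟨hk1, hk2⟩ := hkS
    constructor
    · by_contra hc
      exact hk1 ⟨by omega, by omega⟩
    · by_contra hc
      exact hk2 ⟨by omega, by omega⟩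
  set Fh : List BX → List BX → ℝ≥0∞ := fun A P =>
    τ + (τ + Ex ΛY hY a1 (fun A' => Ex ΛY hY T1 (fun P' =>
      if HT hY A' ≤ a1 + i0 ∧ HT hY P' ≤ T1 + i0 then (if Qh A P A' P' then 1 else 0) else 0)))
    with hFh
  have hF : ∀ A P R, fp hX a0 A → fp hX T P → HT hX A ≤ a0 + i0 → HT hX P ≤ T + i0 →
      HT hX A + (HT hX P + HT hX R) = n → FX (A ++ (P ++ R)) ≤ Fh A P := by
    intro A P R f1 f2 f3 f4 _
    refine cut_le ΛY hY h1Y hΛY hUY a1 T1 i0 n (by omega) τ hτY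
      (fun LY => if Q (A ++ (P ++ R)) LY then 1 else 0) (fun LY => by split_ifs <;> simp)
      (fun A' P' => if Qh A P A' P' then 1 else 0) ?_
    intro A' P' R' f5 f6 f7 f8 _
    by_cases hq : Q (A ++ (P ++ R)) (A' ++ (P' ++ R'))
    · rw [if_pos hq, if_pos (hQQ A P R A' P' R' f1 f2 f3 f4 f5 f6 f7 f8 hq)]
    · rw [if_neg hq]; exact zero_le
  have step3 := cut_le ΛX hX h1X hΛX hUX a0 T i0 n (by omega) τ hτX FX hFX1 Fh hF
  rw [e1]
  refine step3.trans ?_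
  -- the four-fold expectation
  set Z : List BX → List BY → List BX → List BY → ℝ≥0∞ := fun A A' P P' =>
    if (HT hX A ≤ a0 + i0 ∧ HT hY A' ≤ a1 + i0) ∧ HT hX P ≤ T + i0 ∧ HT hY P' ≤ T1 + i0 ∧
      Qh A P A' P' then 1 else 0 with hZ
  have step4 : Ex ΛX hX a0 (fun A => Ex ΛX hX T (fun P =>
      if HT hX A ≤ a0 + i0 ∧ HT hX P ≤ T + i0 then Fh A P else 0))
      ≤ (τ + τ) + Ex ΛX hX a0 (fun A => Ex ΛY hY a1 (fun A' => Ex ΛX hX T (fun P =>
        Ex ΛY hY T1 (fun P' => Z A A' P P')))) := by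
    calc _ ≤ Ex ΛX hX a0 (fun A => Ex ΛX hX T (fun P => (τ + τ) +
          Ex ΛY hY a1 (fun A' => Ex ΛY hY T1 (fun P' => Z A A' P P')))) := by
          refine Ex_mono ΛX hX a0 fun A _ => Ex_mono ΛX hX T fun P _ => ?_
          by_cases hc : HT hX A ≤ a0 + i0 ∧ HT hX P ≤ T + i0
          · rw [if_pos hc]
            simp only [hFh]
            rw [← add_assoc]
            refine add_le_add_right ?_ _
            refine Ex_mono ΛY hY a1 fun A' _ => Ex_mono ΛY hY T1 fun P' _ => ?_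
            simp only [hZ]
            by_cases hc2 : HT hY A' ≤ a1 + i0 ∧ HT hY P' ≤ T1 + i0
            · rw [if_pos hc2]
              by_cases hq : Qh A P A' P'
              · rw [if_pos hq, if_pos ⟨⟨hc.1, hc2.1⟩, hc.2, hc2.2, hq⟩]
              · rw [if_neg hq]; exact zero_le
            · rw [if_neg hc2]; exact zero_le
          · rw [if_neg hc]; exact zero_le
      _ = Ex ΛX hX a0 (fun A => (τ + τ) + Ex ΛX hX T (fun P =>
          Ex ΛY hY a1 (fun A' => Ex ΛY hY T1 (fun P' => Z A A' P P')))) := by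
          refine Ex_congr ΛX hX a0 fun A _ => ?_
          rw [Ex_add]
          congr 1
          have := Ex_const_mul ΛX hX T (τ + τ) (fun _ => 1)
          rw [Ex_one ΛX hX h1X hΛX, mul_one] at this
          simpa using this
      _ = (τ + τ) + Ex ΛX hX a0 (fun A => Ex ΛX hX T (fun P =>
          Ex ΛY hY a1 (fun A' => Ex ΛY hY T1 (fun P' => Z A A' P P')))) := by
          rw [Ex_add]
          congr 1
          have := Ex_const_mul ΛX hX a0 (τ + τ) (fun _ => 1)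
          rw [Ex_one ΛX hX h1X hΛX, mul_one] at this
          simpa using this
      _ = _ := by
          congr 1
          refine Ex_congr ΛX hX a0 fun A _ => ?_
          exact Ex_swap ΛX ΛY hX hY T a1 (fun P A' => Ex ΛY hY T1 (fun P' => Z A A' P P'))
  -- the three parts
  set ZX : List BX → List BY → List BX → List BY → ℝ≥0∞ := fun A A' P P' =>
    if (HT hX A ≤ a0 + i0 ∧ HT hY A' ≤ a1 + i0) ∧ HT hX P ≤ T + i0 ∧ HT hY P' ≤ T1 + i0 ∧
      (Dp zX P ∈ EX (HT hX P) ∧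
      Cn TX TY P P' (w + Dp zY A' - Dp zX A) (HT hX A) (HT hY A') lo hi) then 1 else 0 with hZX
  set ZY : List BX → List BY → List BX → List BY → ℝ≥0∞ := fun A A' P P' =>
    if (HT hX A ≤ a0 + i0 ∧ HT hY A' ≤ a1 + i0) ∧ HT hX P ≤ T + i0 ∧ HT hY P' ≤ T1 + i0 ∧
      (Dp zY P' ∈ EY (HT hY P') ∧
      Cn TX TY P P' (w + Dp zY A' - Dp zX A) (HT hX A) (HT hY A') lo hi) then 1 else 0 with hZY
  set nX : List BX → ℝ≥0∞ := fun P => if pl ΛX hX zX T (hd hX zX P) < thX then 1 else 0 with hnX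
  set nY : List BY → ℝ≥0∞ := fun P => if pl ΛY hY zY T1 (hd hY zY P) < thY then 1 else 0 with hnY
  have hsplit : ∀ A A' P P', Z A A' P P' ≤ nX P * nY P' + (ZX A A' P P' + ZY A A' P P') := by
    intro A A' P P'
    simp only [hZ]
    by_cases hc : (HT hX A ≤ a0 + i0 ∧ HT hY A' ≤ a1 + i0) ∧ HT hX P ≤ T + i0 ∧
        HT hY P' ≤ T1 + i0 ∧ Qh A P A' P'
    · rw [if_pos hc]
      by_cases l1 : pl ΛX hX zX T (hd hX zX P) < thX
      · by_cases l2 : pl ΛY hY zY T1 (hd hY zY P') < thY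
        · simp only [hnX, hnY]
          rw [if_pos l1, if_pos l2, mul_one]
          exact le_self_add
        · refine le_trans ?_ le_add_self
          refine le_trans ?_ le_add_self
          simp only [hZY]
          rw [if_pos ⟨hc.1, hc.2.1, hc.2.2.1, hEY _ _ (not_lt.1 l2), hc.2.2.2⟩]
      · refine le_trans ?_ le_add_self
        refine le_trans ?_ le_self_add
        simp only [hZX]
        rw [if_pos ⟨hc.1, hc.2.1, hc.2.2.1, hEX _ _ (not_lt.1 l1), hc.2.2.2⟩]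
    · rw [if_neg hc]; exact zero_le
  have hSf : (∑ j ∈ Finset.range N, r ^ j) ≠ ⊤ := by
    refine ne_top_of_le_ne_top (b := (N : ℝ≥0∞)) (ENNReal.natCast_ne_top N) ?_
    calc ∑ j ∈ Finset.range N, r ^ j ≤ ∑ _j ∈ Finset.range N, 1 :=
          Finset.sum_le_sum fun j _ => pow_le_one₀ zero_le hr1
      _ = N := by simp
  have hi1 : ((i0 : ℝ≥0∞) + 1) ≠ ⊤ := by
    exact_mod_cast ENNReal.natCast_ne_top (i0 + 1)
  have partX := loc_term ΛX ΛY hX hY zX zY TX TY h1X h1Y hΛX hΛY a0 a1 T T1 i0 lo hi w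
    (fun E L _ => Dp zX L ∈ E) us C H2 s lam hl0 hl1 (fun h _ => EX h)
    (((i0 : ℝ≥0∞) + 1) * thX * (∑ j ∈ Finset.range N, r ^ j)) (r ^ N + N * τ)
    (((i0 : ℝ≥0∞) + 1) * (∑ j ∈ Finset.range N, r ^ j))
    (ENNReal.mul_ne_top (ENNReal.mul_ne_top hi1 hthX) hSf)
    (fun h _ => by
      calc ((i0 : ℝ≥0∞) + 1) * thX * (∑ j ∈ Finset.range N, r ^ j) * ((EX h).card : ℝ≥0∞)
          = ((i0 : ℝ≥0∞) + 1) * (∑ j ∈ Finset.range N, r ^ j) * (thX * (EX h).card) := by ring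
        _ ≤ ((i0 : ℝ≥0∞) + 1) * (∑ j ∈ Finset.range N, r ^ j) * 1 := by gcongr; exact cX h
        _ = _ := mul_one _)
    (fun D => densX ΛX ΛY hX hY zX zY h1X h1Y hΛX hΛY T i0 thX r τ qX2 hr1 (hτX T) N a0 a1
      (le_trans (Nat.mul_le_mul_left N (by omega)) hN) w D)
    (by omega) (by omega) (by omega) (by omega)
  have partY := loc_term ΛX ΛY hX hY zX zY TX TY h1X h1Y hΛX hΛY a0 a1 T T1 i0 lo hi w
    (fun E _ L' => Dp zY L' ∈ E) us C H3 s lam hl0 hl1 (fun _ h' => EY h')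
    (((i0 : ℝ≥0∞) + 1) * thY * (∑ j ∈ Finset.range N, r ^ j)) (r ^ N + N * τ)
    (((i0 : ℝ≥0∞) + 1) * (∑ j ∈ Finset.range N, r ^ j))
    (ENNReal.mul_ne_top (ENNReal.mul_ne_top hi1 hthY) hSf)
    (fun _ h' => by
      calc ((i0 : ℝ≥0∞) + 1) * thY * (∑ j ∈ Finset.range N, r ^ j) * ((EY h').card : ℝ≥0∞)
          = ((i0 : ℝ≥0∞) + 1) * (∑ j ∈ Finset.range N, r ^ j) * (thY * (EY h').card) := by ring
        _ ≤ ((i0 : ℝ≥0∞) + 1) * (∑ j ∈ Finset.range N, r ^ j) * 1 := by gcongr; exact cY h'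
        _ = _ := mul_one _)
    (fun D => densY ΛX ΛY hX hY zX zY h1X h1Y hΛX hΛY T1 i0 thY r τ qY2 hr1 (hτY T1) N a0 a1
      (le_trans (le_trans (Nat.mul_le_mul_left N (by omega)) hN) (by omega)) w D)
    (by omega) (by omega) (by omega) (by omega)
  have partX' : Ex ΛX hX a0 (fun A => Ex ΛY hY a1 (fun A' => Ex ΛX hX T (fun P =>
        Ex ΛY hY T1 (fun P' => ZX A A' P P')))) ≤ (r ^ N + N * τ) + ((i0 : ℝ≥0∞) + 1) ^ 4 * (C * (lam + ((i0 : ℝ≥0∞) + 1) *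
          (∑ j ∈ Finset.range N, r ^ j) * us s / lam + us s)) := by
    refine le_trans (le_of_eq ?_) partX
    refine Ex_congr _ _ _ fun A _ => Ex_congr _ _ _ fun A' _ => Ex_congr _ _ _ fun P _ =>
      Ex_congr _ _ _ fun P' _ => ?_
    simp only [hZX]
    congr!
  have partY' : Ex ΛX hX a0 (fun A => Ex ΛY hY a1 (fun A' => Ex ΛX hX T (fun P =>
        Ex ΛY hY T1 (fun P' => ZY A A' P P')))) ≤ (r ^ N + N * τ) + ((i0 : ℝ≥0∞) + 1) ^ 4 * (C * (lam + ((i0 : ℝ≥0∞) + 1) *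
          (∑ j ∈ Finset.range N, r ^ j) * us s / lam + us s)) := by
    refine le_trans (le_of_eq ?_) partY
    refine Ex_congr _ _ _ fun A _ => Ex_congr _ _ _ fun A' _ => Ex_congr _ _ _ fun P _ =>
      Ex_congr _ _ _ fun P' _ => ?_
    simp only [hZY]
    congr!
  have part0 : Ex ΛX hX a0 (fun A => Ex ΛY hY a1 (fun A' => Ex ΛX hX T (fun P =>
        Ex ΛY hY T1 (fun P' => nX P * nY P')))) ≤ u * u := by
    refine Ex_le ΛX hX h1X hΛX a0 fun A _ => Ex_le ΛY hY h1Y hΛY a1 fun A' _ => ?_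
    simp only [Ex_const_mul]
    rw [Ex_mul_const]
    exact mul_le_mul' qX1 qY1
  have step5 : Ex ΛX hX a0 (fun A => Ex ΛY hY a1 (fun A' => Ex ΛX hX T (fun P =>
        Ex ΛY hY T1 (fun P' => Z A A' P P'))))
      ≤ Ex ΛX hX a0 (fun A => Ex ΛY hY a1 (fun A' => Ex ΛX hX T (fun P =>
        Ex ΛY hY T1 (fun P' => nX P * nY P')))) +
        (Ex ΛX hX a0 (fun A => Ex ΛY hY a1 (fun A' => Ex ΛX hX T (fun P =>
        Ex ΛY hY T1 (fun P' => ZX A A' P P')))) +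
        Ex ΛX hX a0 (fun A => Ex ΛY hY a1 (fun A' => Ex ΛX hX T (fun P =>
        Ex ΛY hY T1 (fun P' => ZY A A' P P'))))) := by
    calc _ ≤ Ex ΛX hX a0 (fun A => Ex ΛY hY a1 (fun A' => Ex ΛX hX T (fun P =>
        Ex ΛY hY T1 (fun P' => nX P * nY P' + (ZX A A' P P' + ZY A A' P P'))))) :=
          Ex_mono ΛX hX a0 fun A _ => Ex_mono ΛY hY a1 fun A' _ => Ex_mono ΛX hX T fun P _ =>
            Ex_mono ΛY hY T1 fun P' _ => hsplit A A' P P'
      _ = _ := by simp only [Ex_add]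
  calc τ + (τ + Ex ΛX hX a0 (fun A => Ex ΛX hX T (fun P =>
      if HT hX A ≤ a0 + i0 ∧ HT hX P ≤ T + i0 then Fh A P else 0)))
      ≤ τ + (τ + ((τ + τ) + (u * u + (((r ^ N + N * τ) +
        ((i0 : ℝ≥0∞) + 1) ^ 4 * (C * (lam + ((i0 : ℝ≥0∞) + 1) *
          (∑ j ∈ Finset.range N, r ^ j) * us s / lam + us s))) + ((r ^ N + N * τ) +
        ((i0 : ℝ≥0∞) + 1) ^ 4 * (C * (lam + ((i0 : ℝ≥0∞) + 1) *
          (∑ j ∈ Finset.range N, r ^ j) * us s / lam + us s))))))) := by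
        refine add_le_add_right (add_le_add_right (step4.trans (add_le_add_right
          (step5.trans (add_le_add part0 (add_le_add partX' partY'))) _)) _) _
    _ = _ := by ring

end Crest.Agent.R154.KapD318
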