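import Crest.Agent.R154.KapC_506

/-! Row 154, KAPPA' (road 801): the local term (helper506). -/

set_option autoImplicit false

namespace Crest.Agent.R154.Kap506

open Crest.Agent.R154.B5A
open scoped ENNReal
open Classical

variable {B B' G : Type*} [AddCommGroup G]
variable {Λ : B → ℝ≥0∞} {ht : B → ℕ} {zz : B → G}
variable {Λ' : B' → ℝ≥0∞} {ht' : B' → ℕ} {zz' : B' → G}

/-- law of the relative position, walker 1 smooth -/
noncomputable def mu (Λ : B → ℝ≥0∞) (ht : B → ℕ) (zz : B → G) (Λ' : B' → ℝ≥0∞) (ht' : B' → ℕ)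
    (zz' : B' → G) (p : List B → Prop) (a a' : ℕ) (w x : G) : ℝ≥0∞ :=
  HS Λ ht a (fun A => HS Λ' ht' a' (fun A' => if p A ∧ w + Dp zz' A' - Dp zz A = x then 1 else 0))

lemma mu_push (p : List B → Prop) (a a' : ℕ) (w : G) (Ψ : G → ℝ≥0∞) :
    HS Λ ht a (fun A => HS Λ' ht' a' (fun A' =>
      if p A then Ψ (w + Dp zz' A' - Dp zz A) else 0))
      = ∑' x, mu Λ ht zz Λ' ht' zz' p a a' w x * Ψ x := by
  simp only [mu, ← HS_mul]
  rw [← HS_tsum]
  congr 1
  funext A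
  rw [← HS_tsum]
  congr 1
  funext A'
  rw [tsum_eq_single (w + Dp zz' A' - Dp zz A)]
  · by_cases h : p A <;> simp [h]
  · intro x hx
    simp [hx.symm]

lemma mu_mass (h1 : ∀ b, 1 ≤ ht b) (hΛ : ∑' b, Λ b = 1) (h1' : ∀ b, 1 ≤ ht' b)
    (hΛ' : ∑' b, Λ' b = 1) (p : List B → Prop) (a a' : ℕ) (w : G) :
    ∑' x, mu Λ ht zz Λ' ht' zz' p a a' w x ≤ 1 := by
  have := mu_push (Λ := Λ) (ht := ht) (zz := zz) (Λ' := Λ') (ht' := ht') (zz' := zz') p a a' w
    (fun _ => 1)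
  simp only [mul_one] at this
  rw [← this]
  refine (HS_mono Λ ht a (F' := fun _ => 1) fun A _ => ?_).trans (HS_one_le h1 hΛ a)
  refine (HS_mono Λ' ht' a' (F' := fun _ => 1) fun A' _ => ?_).trans (HS_one_le h1' hΛ' a')
  split_ifs <;> simp

lemma mu_sup (h1 : ∀ b, 1 ≤ ht b) (hΛ : ∑' b, Λ b = 1) (h1' : ∀ b, 1 ≤ ht' b)
    (hΛ' : ∑' b, Λ' b = 1) (T i0 : ℕ) (th : ℝ≥0∞) (J : ℕ) (a a' : ℕ) (w x : G) :
    mu Λ ht zz Λ' ht' zz' (Sm Λ ht zz T i0 th J) a a' w x ≤ J * ((i0 + 1 : ℕ) * th) := by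
  rw [mu, HS_comm]
  refine (HS_mono Λ' ht' a' (F' := fun _ => J * ((i0 + 1 : ℕ) * th)) fun A' _ => ?_).trans
    (HS_const_le h1' hΛ' a' _)
  refine le_trans (HS_mono Λ ht a fun A _ => ?_)
    (dens_le (zz := zz) h1 hΛ T i0 th J a (w + Dp zz' A' - x))
  by_cases h : Sm Λ ht zz T i0 th J A ∧ w + Dp zz' A' - Dp zz A = x
  · rw [if_pos h, if_pos ⟨by rw [← h.2]; abel, h.1⟩]
  · rw [if_neg h]; exact zero_le

/-- the local term -/
lemma local_le (h1 : ∀ b, 1 ≤ ht b) (hΛ : ∑' b, Λ b = 1) (h1' : ∀ b, 1 ≤ ht' b)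
    (hΛ' : ∑' b, Λ' b = 1) (α T i0 : ℕ) (th : ℝ≥0∞) (J : ℕ) (w : G)
    (Φ : G → ℕ → ℕ → List B → List B' → Prop) (R : ℝ≥0∞)
    (hH : ∀ a a' h h', α ≤ a → a ≤ α + i0 → α ≤ a' → a' ≤ α + i0 → T ≤ h → h ≤ T + i0 → T ≤ h' →
      h' ≤ T + i0 → ∀ μ : G → ℝ≥0∞, ∑' x, μ x ≤ 1 → (∀ x, μ x ≤ J * ((i0 + 1 : ℕ) * th)) →
      ∑' x, μ x * HS Λ ht h (fun P => HS Λ' ht' h' (fun P' =>
        if th ≤ pp Λ ht zz T (h, Dp zz P) ∧ Φ x a a' P P' then 1 else 0)) ≤ R) :
    FS Λ ht α (fun A => FS Λ ht T (fun P => FS Λ' ht' α (fun A' => FS Λ' ht' T (fun P' =>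
      if HT ht A ≤ α + i0 ∧ HT ht P ≤ T + i0 ∧ HT ht' A' ≤ α + i0 ∧ HT ht' P' ≤ T + i0 ∧
        Sm Λ ht zz T i0 th J A ∧ th ≤ pp Λ ht zz T (HT ht P, Dp zz P) ∧
        Φ (w + Dp zz' A' - Dp zz A) (HT ht A) (HT ht' A') P P' then 1 else 0))))
      ≤ ((i0 + 1 : ℕ) : ℝ≥0∞) ^ 4 * R := by
  -- the inner functional
  set Ψ : ℕ → ℕ → G → ℝ≥0∞ := fun a a' x =>
    ∑ k ∈ Finset.range (i0 + 1), ∑ k' ∈ Finset.range (i0 + 1),
      HS Λ ht (T + k) (fun P => HS Λ' ht' (T + k') (fun P' =>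
        if th ≤ pp Λ ht zz T (T + k, Dp zz P) ∧ Φ x a a' P P' then 1 else 0)) with hΨ
  have step1 : ∀ A A', FS Λ ht T (fun P => FS Λ' ht' T (fun P' =>
      if HT ht A ≤ α + i0 ∧ HT ht P ≤ T + i0 ∧ HT ht' A' ≤ α + i0 ∧ HT ht' P' ≤ T + i0 ∧
        Sm Λ ht zz T i0 th J A ∧ th ≤ pp Λ ht zz T (HT ht P, Dp zz P) ∧
        Φ (w + Dp zz' A' - Dp zz A) (HT ht A) (HT ht' A') P P' then 1 else 0))
      ≤ if HT ht A ≤ α + i0 ∧ HT ht' A' ≤ α + i0 ∧ Sm Λ ht zz T i0 th J A then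
          Ψ (HT ht A) (HT ht' A') (w + Dp zz' A' - Dp zz A) else 0 := by
    intro A A'
    by_cases hc : HT ht A ≤ α + i0 ∧ HT ht' A' ≤ α + i0 ∧ Sm Λ ht zz T i0 th J A
    · rw [if_pos hc]
      refine (FS_le_HS T i0 _ fun P hP => ?_).trans ?_
      · refine (FS_congr Λ' ht' T (F' := fun _ => 0) fun P' _ => if_neg fun h => ?_).trans
          (FS_const h1' hΛ' T 0)
        have := h.2.1; omega
      · refine Finset.sum_le_sum fun k _ => ?_
        have e : (∑ k' ∈ Finset.range (i0 + 1), HS Λ ht (T + k) (fun P => HS Λ' ht' (T + k')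
            (fun P' => if th ≤ pp Λ ht zz T (T + k, Dp zz P) ∧
              Φ (w + Dp zz' A' - Dp zz A) (HT ht A) (HT ht' A') P P' then 1 else 0)))
            = HS Λ ht (T + k) (fun P => ∑ k' ∈ Finset.range (i0 + 1), HS Λ' ht' (T + k')
            (fun P' => if th ≤ pp Λ ht zz T (T + k, Dp zz P) ∧
              Φ (w + Dp zz' A' - Dp zz A) (HT ht A) (HT ht' A') P P' then 1 else 0)) := by
          simp only [HS, Finset.mul_sum]
          rw [← Summable.tsum_finsetSum (fun _ _ => ENNReal.summable)]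
          refine tsum_congr fun P => ?_
          by_cases hP : HT ht P = T + k
          · simp only [if_pos hP]
          · simp only [if_neg hP, Finset.sum_const_zero]
        rw [e]
        refine HS_mono Λ ht (T + k) fun P hP => ?_
        refine (FS_le_HS T i0 _ fun P' hP' => if_neg fun h => ?_).trans ?_
        · have := h.2.2.2.1; omega
        · refine Finset.sum_le_sum fun k' _ => HS_mono Λ' ht' (T + k') fun P' _ => ?_
          rw [hP]
          split_ifs with h3 h4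
          · exact le_rfl
          · exact absurd ⟨h3.2.2.2.2.2.1, h3.2.2.2.2.2.2⟩ h4
          · exact zero_le
          · exact le_rfl
    · rw [if_neg hc]
      refine le_of_eq ((FS_congr Λ ht T (F' := fun _ => 0) fun P _ => ?_).trans
        (FS_const h1 hΛ T 0))
      refine (FS_congr Λ' ht' T (F' := fun _ => 0) fun P' _ => if_neg fun h => ?_).trans
          (FS_const h1' hΛ' T 0)
      exact hc ⟨h.1, h.2.2.1, h.2.2.2.2.1⟩
  have step2 : ∀ k ∈ Finset.range (i0 + 1), ∀ k' ∈ Finset.range (i0 + 1),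
      HS Λ ht (α + k) (fun A => HS Λ' ht' (α + k') (fun A' =>
        if Sm Λ ht zz T i0 th J A then Ψ (α + k) (α + k') (w + Dp zz' A' - Dp zz A) else 0))
      ≤ ((i0 + 1 : ℕ) : ℝ≥0∞) ^ 2 * R := by
    intro k hk k' hk'
    have hk := Finset.mem_range.1 hk
    have hk' := Finset.mem_range.1 hk'
    rw [mu_push]
    simp only [hΨ, Finset.mul_sum]
    rw [Summable.tsum_finsetSum (fun _ _ => ENNReal.summable)]
    calc _ ≤ ∑ _j ∈ Finset.range (i0 + 1), ∑ _j' ∈ Finset.range (i0 + 1), R := by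
          refine Finset.sum_le_sum fun j hj => ?_
          rw [Summable.tsum_finsetSum (fun _ _ => ENNReal.summable)]
          refine Finset.sum_le_sum fun j' hj' => ?_
          have hj := Finset.mem_range.1 hj
          have hj' := Finset.mem_range.1 hj'
          exact hH (α + k) (α + k') (T + j) (T + j') (by omega) (by omega) (by omega) (by omega)
            (by omega) (by omega) (by omega) (by omega) _ (mu_mass h1 hΛ h1' hΛ' _ _ _ _)
            (mu_sup h1 hΛ h1' hΛ' T i0 th J _ _ _)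
      _ = _ := by simp; ring
  calc _ = FS Λ ht α (fun A => FS Λ' ht' α (fun A' => FS Λ ht T (fun P => FS Λ' ht' T (fun P' =>
      if HT ht A ≤ α + i0 ∧ HT ht P ≤ T + i0 ∧ HT ht' A' ≤ α + i0 ∧ HT ht' P' ≤ T + i0 ∧
        Sm Λ ht zz T i0 th J A ∧ th ≤ pp Λ ht zz T (HT ht P, Dp zz P) ∧
        Φ (w + Dp zz' A' - Dp zz A) (HT ht A) (HT ht' A') P P' then 1 else 0)))) :=
        FS_congr _ _ _ fun A _ => FS_comm T α _
    _ ≤ FS Λ ht α (fun A => FS Λ' ht' α (fun A' =>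
        if HT ht A ≤ α + i0 ∧ HT ht' A' ≤ α + i0 ∧ Sm Λ ht zz T i0 th J A then
          Ψ (HT ht A) (HT ht' A') (w + Dp zz' A' - Dp zz A) else 0)) :=
        FS_mono _ _ _ fun A _ => FS_mono _ _ _ fun A' _ => step1 A A'
    _ ≤ ∑ k ∈ Finset.range (i0 + 1), HS Λ ht (α + k) (fun A => FS Λ' ht' α (fun A' =>
        if HT ht A ≤ α + i0 ∧ HT ht' A' ≤ α + i0 ∧ Sm Λ ht zz T i0 th J A then
          Ψ (HT ht A) (HT ht' A') (w + Dp zz' A' - Dp zz A) else 0)) := by
        refine FS_le_HS α i0 _ fun A hA => ?_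
        refine (FS_congr Λ' ht' α (F' := fun _ => 0) fun A' _ => if_neg fun h => ?_).trans
          (FS_const h1' hΛ' α 0)
        have := h.1; omega
    _ ≤ ∑ k ∈ Finset.range (i0 + 1), ∑ k' ∈ Finset.range (i0 + 1),
        HS Λ ht (α + k) (fun A => HS Λ' ht' (α + k') (fun A' =>
        if Sm Λ ht zz T i0 th J A then Ψ (α + k) (α + k') (w + Dp zz' A' - Dp zz A) else 0)) := by
        refine Finset.sum_le_sum fun k _ => ?_
        have e : (∑ k' ∈ Finset.range (i0 + 1),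
            HS Λ ht (α + k) (fun A => HS Λ' ht' (α + k') (fun A' =>
              if Sm Λ ht zz T i0 th J A then Ψ (α + k) (α + k') (w + Dp zz' A' - Dp zz A) else 0)))
            = HS Λ ht (α + k) (fun A => ∑ k' ∈ Finset.range (i0 + 1), HS Λ' ht' (α + k')
              (fun A' => if Sm Λ ht zz T i0 th J A then
                Ψ (α + k) (α + k') (w + Dp zz' A' - Dp zz A) else 0)) := by
          simp only [HS, Finset.mul_sum]
          rw [← Summable.tsum_finsetSum (fun _ _ => ENNReal.summable)]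
          refine tsum_congr fun P => ?_
          by_cases hP : HT ht P = α + k
          · simp only [if_pos hP]
          · simp only [if_neg hP, Finset.sum_const_zero]
        rw [e]
        refine HS_mono Λ ht (α + k) fun A hA => ?_
        refine (FS_le_HS α i0 _ fun A' hA' => if_neg fun h => ?_).trans ?_
        · have := h.2.1; omega
        · refine Finset.sum_le_sum fun k' _ => HS_mono Λ' ht' (α + k') fun A' hA' => ?_
          rw [hA, hA']
          split_ifs with h3 h4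
          · exact le_rfl
          · exact absurd h3.2.2 h4
          · exact zero_le
          · exact le_rfl
    _ ≤ ∑ _k ∈ Finset.range (i0 + 1), ∑ _k' ∈ Finset.range (i0 + 1),
        ((i0 + 1 : ℕ) : ℝ≥0∞) ^ 2 * R :=
        Finset.sum_le_sum fun k hk => Finset.sum_le_sum fun k' hk' => step2 k hk k' hk'
    _ = _ := by simp; ring

end Crest.Agent.R154.Kap506
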