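import Crest.Agent.R154.KapD_318
import Crest.Agent.R154.Sel_300

/-! Row 154 (helper318), ROAD 801, assembly, part E: KAPPA' on lists. -/

set_option autoImplicit false

namespace Crest.Agent.R154.KapE318

open Crest.Agent.R154.B5A Crest.Agent.R154.FP178 Crest.Agent.R154.KapA318 Crest.Agent.R154.KapB318
  Crest.Agent.R154.KapC318 Crest.Agent.R154.KapD318
open Crest.Agent.R154.Bind12 (Dp)
open Filter
open scoped ENNReal Topology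

section one

variable {B G : Type*} [AddCommGroup G] (Λ : B → ℝ≥0∞) (ht : B → ℕ) (z : B → G)

open Classical in
lemma quant (h1 : ∀ b, 1 ≤ ht b) (hΛ : ∑' b, Λ b = 1) (T : ℕ) (u : ℝ≥0∞) (hu0 : u ≠ 0)
    (hu1 : u ≤ 1) :
    ∃ (th : ℝ≥0∞) (E : ℕ → Finset G), th ≠ ⊤ ∧
      Ex Λ ht T (fun P => if pl Λ ht z T (hd ht z P) < th then 1 else 0) ≤ u ∧
      Ex Λ ht T (fun P => if th < pl Λ ht z T (hd ht z P) then 1 else 0) ≤ 1 - u ∧
      (∀ h x, th ≤ pl Λ ht z T (h, x) → x ∈ E h) ∧ (∀ h, th * (E h).card ≤ 1) := by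
  have hp := pl_sum Λ ht z h1 hΛ T
  obtain ⟨th, hth0, hth1, q1, q2⟩ := Dens903.quantile (pl Λ ht z T) hp hu0 hu1
  have hfin : ∀ h : ℕ, {x : G | th ≤ pl Λ ht z T (h, x)}.Finite := by
    intro h
    have := Dens903.finite_level (pl Λ ht z T) (by rw [hp]; exact ENNReal.one_ne_top) hth0
    refine (this.preimage (f := fun x : G => (h, x)) ?_)
    intro x _ y _ hxy
    simpa using hxy
  refine ⟨th, fun h => (hfin h).toFinset, ne_top_of_le_ne_top ENNReal.one_ne_top hth1, ?_, ?_,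
    fun h x hx => by simpa using hx, fun h => ?_⟩
  · rw [pl_push Λ ht z T (fun q => if pl Λ ht z T q < th then 1 else 0)]
    refine le_trans (le_of_eq (tsum_congr fun q => ?_)) q1
    by_cases hq : pl Λ ht z T q < th <;> simp [hq]
  · refine ENNReal.le_sub_of_add_le_right (ne_top_of_le_ne_top ENNReal.one_ne_top hu1) ?_
    calc Ex Λ ht T (fun P => if th < pl Λ ht z T (hd ht z P) then 1 else 0) + u
        ≤ Ex Λ ht T (fun P => if th < pl Λ ht z T (hd ht z P) then 1 else 0)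
          + Ex Λ ht T (fun P => if pl Λ ht z T (hd ht z P) ≤ th then 1 else 0) := by
          refine add_le_add_right ?_ _
          rw [pl_push Λ ht z T (fun q => if pl Λ ht z T q ≤ th then 1 else 0)]
          refine q2.trans (le_of_eq (tsum_congr fun q => ?_))
          by_cases hq : pl Λ ht z T q ≤ th <;> simp [hq]
      _ = 1 := by
          rw [← Ex_add]
          refine Eq.trans (Ex_congr Λ ht T fun P _ => ?_) (Ex_one Λ ht h1 hΛ T)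
          rcases lt_or_ge th (pl Λ ht z T (hd ht z P)) with h | h
          · rw [if_pos h, if_neg (not_le.2 h), add_zero]
          · rw [if_neg (not_lt.2 h), if_pos h, zero_add]
  · calc th * (((hfin h).toFinset).card : ℝ≥0∞) = ∑ _x ∈ (hfin h).toFinset, th := by
          rw [Finset.sum_const, nsmul_eq_mul, mul_comm]
      _ ≤ ∑ x ∈ (hfin h).toFinset, pl Λ ht z T (h, x) :=
          Finset.sum_le_sum fun x hx => by simpa using hx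
      _ ≤ ∑' x, pl Λ ht z T (h, x) := ENNReal.sum_le_tsum _
      _ ≤ ∑' q, pl Λ ht z T q :=
          ENNReal.tsum_comp_le_tsum_of_injective (f := fun x : G => (h, x))
            (fun x y hxy => by simpa using hxy) _
      _ = 1 := hp

/-- overshoot function -/
noncomputable def ov (i : ℕ) : ℝ≥0∞ := ∑' k, tail Λ ht (i + k)

open Classical in
lemma ov_le (h1 : ∀ b, 1 ≤ ht b) (hU1 : ∀ n, U Λ ht n ≤ 1) (i a : ℕ) :
    Ex Λ ht a (fun A => if a + i < HT ht A then 1 else 0) ≤ ov Λ ht i := by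
  refine le_trans (le_of_eq ?_) (overshoot Λ ht h1 hU1 i a)
  rw [Ex]
  refine tsum_congr fun L => ?_
  by_cases h : fp ht a L
  · by_cases h2 : a + i < HT ht L
    · rw [if_pos h, if_pos h2, if_pos ⟨h, h2⟩, mul_one]
    · rw [if_pos h, if_neg h2, if_neg (fun h' => h2 h'.2), mul_zero]
  · rw [if_neg h, if_neg (fun h' => h h'.1)]

lemma ov_tendsto (hs : ∑' k, tail Λ ht k ≠ ⊤) : Tendsto (ov Λ ht) atTop (𝓝 0) := by
  have := ENNReal.tendsto_sum_nat_add (tail Λ ht) hs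
  refine this.congr fun i => ?_
  rw [ov]
  exact tsum_congr fun k => by rw [add_comm]

end one

variable {BX BY G : Type*} [AddCommGroup G] (ΛX : BX → ℝ≥0∞) (ΛY : BY → ℝ≥0∞)
  (hX : BX → ℕ) (hY : BY → ℕ) (zX : BX → G) (zY : BY → G)
  (TX : List BX → G → ℕ → Set (G × ℕ)) (TY : List BY → G → ℕ → Set (G × ℕ))

theorem kapS
    (h1X : ∀ b, 1 ≤ hX b) (h1Y : ∀ b, 1 ≤ hY b)
    (cX cY : ℝ≥0∞) (hcX : cX ≠ 0) (hcY : cY ≠ 0) (R : ℕ)
    (hUX0 : ∀ n, R ≤ n → cX ≤ U ΛX hX n) (hUY0 : ∀ n, R ≤ n → cY ≤ U ΛY hY n)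
    (hUX : ∀ n, U ΛX hX n ≤ 1) (hUY : ∀ n, U ΛY hY n ≤ 1)
    (aX : ∀ L L' x a, TX (L ++ L') x a = TX L x a ∪ TX L' (x + Dp zX L) (a + HT hX L))
    (aY : ∀ L L' x a, TY (L ++ L') x a = TY L x a ∪ TY L' (x + Dp zY L) (a + HT hY L))
    (tX : ∀ L x y a z k, (z, k) ∈ TX L (x + y) a ↔ (z - y, k) ∈ TX L x a)
    (tY : ∀ L x y a z k, (z, k) ∈ TY L (x + y) a ↔ (z - y, k) ∈ TY L x a)
    (rX : ∀ L x a z k, (z, k) ∈ TX L x a → a < k ∧ k ≤ a + HT hX L)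
    (rY : ∀ L x a z k, (z, k) ∈ TY L x a → a < k ∧ k ≤ a + HT hY L)
    (us : ℕ → ℝ≥0∞) (hus : Tendsto us atTop (𝓝 0)) (C : ℝ≥0∞) (hC : C ≠ ⊤)
    (H2 : HW ΛX ΛY hX hY TX TY (fun E L _ => Dp zX L ∈ E) us C)
    (H3 : HW ΛX ΛY hX hY TX TY (fun E _ L' => Dp zY L' ∈ E) us C)
    (hPt : ∀ ε : ℝ≥0∞, ε ≠ 0 → ∃ k0 : ℕ, ∀ k, k0 ≤ k → ∀ n, k ≤ n → ∀ w : G,
      PW ΛX ΛY hX hY n (fun LX LY => ∃ z, (z, k) ∈ TX LX 0 0 ∧ (z, k) ∈ TY LY w 0) ≤ ε) :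
    ∀ ε : ℝ≥0∞, ε ≠ 0 → ∃ M : ℕ, ∀ m, M ≤ m → ∀ n, 2 * m ≤ n → ∀ w : G,
      PW ΛX ΛY hX hY n (fun LX LY => ∃ z k, (m < k ∧ k ≤ 2 * m) ∧
        (z, k) ∈ TX LX 0 0 ∧ (z, k) ∈ TY LY w 0) ≤ ε := by
  classical
  intro ε hε
  have hcXt : cX ≠ ⊤ := ne_top_of_le_ne_top ENNReal.one_ne_top ((hUX0 R le_rfl).trans (hUX R))
  have hcYt : cY ≠ ⊤ := ne_top_of_le_ne_top ENNReal.one_ne_top ((hUY0 R le_rfl).trans (hUY R))
  have hΛX : ∑' b, ΛX b = 1 :=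
    le_antisymm (mass_le_one ΛX hX h1X hUX) (mass_ge_one ΛX hX cX hcX R hUX0)
  have hΛY : ∑' b, ΛY b = 1 :=
    le_antisymm (mass_le_one ΛY hY h1Y hUY) (mass_ge_one ΛY hY cY hcY R hUY0)
  have hsX : ∑' k, tail ΛX hX k ≠ ⊤ := by
    rw [← sum_tail ΛX hX hΛX]
    exact ne_top_of_le_ne_top (ENNReal.inv_ne_top.2 hcX)
      (mean_le ΛX hX h1X hΛX cX hcX hcXt R hUX0)
  have hsY : ∑' k, tail ΛY hY k ≠ ⊤ := by
    rw [← sum_tail ΛY hY hΛY]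
    exact ne_top_of_le_ne_top (ENNReal.inv_ne_top.2 hcY)
      (mean_le ΛY hY h1Y hΛY cY hcY hcYt R hUY0)
  set cc : ℝ≥0∞ := cX⁻¹ * cY⁻¹ with hcc
  have hcct : cc ≠ ⊤ := ENNReal.mul_ne_top (ENNReal.inv_ne_top.2 hcX) (ENNReal.inv_ne_top.2 hcY)
  obtain ⟨C0, hC0⟩ := ENNReal.exists_nat_gt (ENNReal.mul_ne_top (by norm_num) hcct : 4 * cc ≠ ⊤)
  have hε2 : ε / 2 ≠ 0 := (ENNReal.div_pos hε (by norm_num)).ne'
  obtain ⟨u, K, hu0, hu1, hK2, hsel⟩ := Sel300.sel C0 8 2 (by norm_num) hε2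
  set N := K / 8 with hN
  set r : ℝ≥0∞ := 1 - u with hr
  have hr1 : r ≤ 1 := tsub_le_self
  -- the point bound as a function
  set pt : ℕ → ℝ≥0∞ := fun t => ⨆ k, ⨆ (_ : t ≤ k), ⨆ n, ⨆ (_ : k ≤ n), ⨆ w : G,
    PW ΛX ΛY hX hY n (fun LX LY => ∃ z, (z, k) ∈ TX LX 0 0 ∧ (z, k) ∈ TY LY w 0) with hptd
  have hpt : Tendsto pt atTop (𝓝 0) := by
    rw [ENNReal.tendsto_nhds_zero]
    intro δ hδ
    obtain ⟨k0, hk0⟩ := hPt δ hδ.ne'
    filter_upwards [eventually_ge_atTop k0] with t ht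
    simp only [hptd]
    exact iSup_le fun k => iSup_le fun hk => iSup_le fun n => iSup_le fun hn => iSup_le fun w =>
      hk0 k (ht.trans hk) n hn w
  set tl : ℕ → ℝ≥0∞ := fun i => ov ΛX hX i + ov ΛY hY i with htl
  have htl0 : Tendsto tl atTop (𝓝 0) := by
    have := (ov_tendsto ΛX hX hsX).add (ov_tendsto ΛY hY hsY)
    simpa using this
  have hnat : ∀ k : ℕ, ((k : ℕ) : ℝ≥0∞) ≠ ⊤ := ENNReal.natCast_ne_top
  obtain ⟨i0, lam, s, t0, hl0, hl1, hsel2⟩ := Sel300.sel2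
    (c1 := cc * ((K + 1 : ℕ) : ℝ≥0∞) * ((4 + 2 * N : ℕ) : ℝ≥0∞))
    (c2 := cc * ((K + 1 : ℕ) : ℝ≥0∞) * (2 * C))
    (c3 := cc * ((K + 1 : ℕ) : ℝ≥0∞) * (2 * C * ((N + 1 : ℕ) : ℝ≥0∞)))
    (ENNReal.mul_ne_top (ENNReal.mul_ne_top hcct (hnat _)) (hnat _))
    (ENNReal.mul_ne_top (ENNReal.mul_ne_top hcct (hnat _)) (ENNReal.mul_ne_top (by norm_num) hC))
    (ENNReal.mul_ne_top (ENNReal.mul_ne_top hcct (hnat _))
      (ENNReal.mul_ne_top (ENNReal.mul_ne_top (by norm_num) hC) (hnat _)))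
    (fun i s => cc * ((K + 1 : ℕ) : ℝ≥0∞) * ((2 * s + 4 * i + 2 : ℕ) : ℝ≥0∞))
    (fun i s => ENNReal.mul_ne_top (ENNReal.mul_ne_top hcct (hnat _)) (hnat _))
    tl pt (fun _ => us) htl0 hpt (fun _ => hus) 5 hε2
  refine ⟨K * (t0 + 2 * K + 2 * i0 + s + 1), fun m hm n hn w => ?_⟩
  set t := m / K with ht
  have hKpos : 0 < K := by omega
  have hKt : K * t ≤ m := Nat.mul_div_le m K
  have hKt1 : m < K * (t + 1) := by
    have := Nat.lt_mul_div_succ m hKpos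
    simpa [ht] using this
  have htbig : t0 + 2 * K + 2 * i0 + s + 1 ≤ t := by
    rw [ht, Nat.le_div_iff_mul_le hKpos, mul_comm]; exact hm
  -- extension
  have ext : PW ΛX ΛY hX hY n (fun LX LY => ∃ z k, (m < k ∧ k ≤ 2 * m) ∧
        (z, k) ∈ TX LX 0 0 ∧ (z, k) ∈ TY LY w 0)
      ≤ cc * PW ΛX ΛY hX hY (n + (2 * m + R)) (fun LX LY => ∃ z k, (m < k ∧ k ≤ 2 * m) ∧
        (z, k) ∈ TX LX 0 0 ∧ (z, k) ∈ TY LY w 0) := by
    refine Ext944.ext2_le ΛX hX ΛY hY h1X h1Y cX cY hcX hcXt hcY hcYt n (2 * m + R)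
      (hUX0 _ (by omega)) (hUY0 _ (by omega)) _ _ ?_
    intro LX LX' LY LY' _ _ _ _ hc
    obtain ⟨z, k, hk, h1, h2⟩ := hc
    refine ⟨z, k, hk, ?_, ?_⟩
    · rw [aX]; exact Or.inl h1
    · rw [aY]; exact Or.inl h2
  refine ext.trans ?_
  set n' := n + (2 * m + R) with hn'
  -- the bound of one window
  set bw : ℝ≥0∞ := ((2 * s + 4 * i0 + 2 : ℕ) : ℝ≥0∞) * pt t + (4 * tl i0 + (u * u + 2 *
    ((r ^ N + N * tl i0) + ((i0 : ℝ≥0∞) + 1) ^ 4 * (C * (lam + ((i0 : ℝ≥0∞) + 1) *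
      (∑ j ∈ Finset.range N, r ^ j) * us s / lam + us s))))) with hbw
  have hwin : ∀ κ ∈ Finset.Icc K (2 * K),
      PW ΛX ΛY hX hY n' (fun LX LY => ∃ z k, ((κ - 1) * t + t < k ∧ k ≤ (κ - 1) * t + 2 * t) ∧
        (z, k) ∈ TX LX 0 0 ∧ (z, k) ∈ TY LY w 0) ≤ bw := by
    intro κ hκ
    rw [Finset.mem_Icc] at hκ
    obtain ⟨thX, EX, e1, e2, e3, e4, e5⟩ := quant ΛX hX zX h1X hΛX (3 * t) u hu0 hu1
    obtain ⟨thY, EY, f1, f2, f3, f4, f5⟩ := quant ΛY hY zY h1Y hΛY (3 * t + i0) u hu0 hu1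
    have hκ1 : (κ - 1) * t ≤ (2 * K - 1) * t := Nat.mul_le_mul_right _ (by omega)
    have hκ2 : (K - 1) * t ≤ (κ - 1) * t := Nat.mul_le_mul_right _ (by omega)
    have hκ3 : (2 * K - 1) * t + t = 2 * (K * t) := by
      have : (2 * K - 1) * t + t = (2 * K - 1 + 1) * t := by ring
      rw [this, show 2 * K - 1 + 1 = 2 * K by omega]; ring
    have hκ4 : (K - 1) * t + t = K * t := by
      have : (K - 1) * t + t = (K - 1 + 1) * t := by ring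
      rw [this, show K - 1 + 1 = K by omega]
    have hκ5 : 2 * t ≤ K * t := Nat.mul_le_mul_right _ hK2
    have hN8 : N * 8 ≤ K := Nat.div_mul_le_self K 8
    have hNa : N * (3 * t + 2 * i0) ≤ (κ - 1) * t := by
      have g1 : N * (3 * t + 2 * i0) ≤ N * (4 * t) := Nat.mul_le_mul_left _ (by omega)
      have g2 : 2 * (N * (4 * t)) ≤ K * t := by
        have : 2 * (N * (4 * t)) = (N * 8) * t := by ring
        rw [this]; exact Nat.mul_le_mul_right _ hN8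
      omega
    exact window ΛX ΛY hX hY zX zY TX TY h1X h1Y hΛX hΛY hUX hUY aX aY tX tY rX rY us C H2 H3
      t i0 s N ((κ - 1) * t) n' w lam hl0 hl1 (by omega) (by omega) hNa (by omega) (tl i0)
      (fun a => (ov_le ΛX hX h1X hUX i0 a).trans le_self_add)
      (fun a => (ov_le ΛY hY h1Y hUY i0 a).trans le_add_self)
      u r thX thY hr1 e1 f1 e2 e3 f2 f3 EX EY e4 f4 e5 f5 (pt t)
      (fun k hk1 hk2 => by
        simp only [hptd]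
        exact le_iSup_of_le k (le_iSup_of_le (by omega) (le_iSup_of_le n'
          (le_iSup_of_le hk2 (le_iSup_of_le w le_rfl)))))
  have cover : PW ΛX ΛY hX hY n' (fun LX LY => ∃ z k, (m < k ∧ k ≤ 2 * m) ∧
        (z, k) ∈ TX LX 0 0 ∧ (z, k) ∈ TY LY w 0)
      ≤ ((K + 1 : ℕ) : ℝ≥0∞) * bw := by
    have h1 := PW_finset ΛX ΛY hX hY n' (Finset.Icc K (2 * K)) (fun κ LX LY =>
      ∃ z k, ((κ - 1) * t + t < k ∧ k ≤ (κ - 1) * t + 2 * t) ∧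
        (z, k) ∈ TX LX 0 0 ∧ (z, k) ∈ TY LY w 0) bw hwin
    rw [Nat.card_Icc, show 2 * K + 1 - K = K + 1 by omega] at h1
    refine le_trans (PW_mono ΛX ΛY hX hY n' fun LX LY _ _ hR => ?_) h1
    obtain ⟨z, k, ⟨k1, k2⟩, z1, z2⟩ := hR
    have htpos : 0 < t := by omega
    have d1 := Nat.div_add_mod (k - 1) t
    have d2 := Nat.mod_lt (k - 1) htpos
    set κ := (k - 1) / t with hκ
    have b1 : K ≤ κ := by
      rw [hκ, Nat.le_div_iff_mul_le htpos]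
      omega
    have b2 : κ ≤ 2 * K := by
      have : κ < 2 * K + 1 := by
        rw [hκ, Nat.div_lt_iff_lt_mul htpos]
        have e : (2 * K + 1) * t = 2 * (K * t) + t := by ring
        have e' : K * (t + 1) = K * t + K := by ring
        omega
      omega
    have e0 : (κ - 1) * t + t = t * κ := by
      have : (κ - 1) * t + t = (κ - 1 + 1) * t := by ring
      rw [this, show κ - 1 + 1 = κ by omega, mul_comm]
    refine ⟨κ, Finset.mem_Icc.2 ⟨b1, b2⟩, z, k, ⟨by omega, by omega⟩, z1, z2⟩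
  -- numbers
  have hfin := hsel2 t (by omega)
  have hSN : (∑ j ∈ Finset.range N, r ^ j) ≤ ((N + 1 : ℕ) : ℝ≥0∞) := by
    calc ∑ j ∈ Finset.range N, r ^ j ≤ ∑ _j ∈ Finset.range N, 1 :=
          Finset.sum_le_sum fun j _ => pow_le_one₀ zero_le hr1
      _ = N := by simp
      _ ≤ _ := by exact_mod_cast Nat.le_succ N
  have hN1 : (1 : ℝ≥0∞) ≤ ((N + 1 : ℕ) : ℝ≥0∞) := by exact_mod_cast Nat.le_add_left 1 N
  have hi1 : (1 : ℝ≥0∞) ≤ (i0 : ℝ≥0∞) + 1 := le_add_self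
  have main1 : cc * (((K + 1 : ℕ) : ℝ≥0∞) * (u * u + 2 * r ^ N)) ≤ ε / 2 := by
    refine le_trans ?_ hsel
    have hKK : ((K + 1 : ℕ) : ℝ≥0∞) ≤ 2 * K := by
      have : K + 1 ≤ 2 * K := by omega
      exact_mod_cast this
    calc cc * (((K + 1 : ℕ) : ℝ≥0∞) * (u * u + 2 * r ^ N))
        ≤ cc * ((2 * K) * (2 * (u * u) + 2 * r ^ N)) := by
          have h2 : u * u ≤ 2 * (u * u) := by rw [two_mul]; exact le_self_add
          exact mul_le_mul_right (mul_le_mul' hKK (add_le_add h2 le_rfl)) _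
      _ = (4 * cc) * K * (u ^ 2 + (1 - u) ^ (K / 8)) := by rw [hr, hN]; ring
      _ ≤ C0 * K * (u ^ 2 + (1 - u) ^ (K / 8)) := by gcongr
  have main2 : cc * (((K + 1 : ℕ) : ℝ≥0∞) * (((2 * s + 4 * i0 + 2 : ℕ) : ℝ≥0∞) * pt t +
      (4 * tl i0 + 2 * (N * tl i0 + ((i0 : ℝ≥0∞) + 1) ^ 4 * (C * (lam + ((i0 : ℝ≥0∞) + 1) *
      (∑ j ∈ Finset.range N, r ^ j) * us s / lam + us s)))))) ≤ ε / 2 := by
    refine le_trans ?_ hfin
    have k1 : ((i0 : ℝ≥0∞) + 1) ^ 4 * (C * (lam + ((i0 : ℝ≥0∞) + 1) *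
      (∑ j ∈ Finset.range N, r ^ j) * us s / lam + us s))
      ≤ ((i0 : ℝ≥0∞) + 1) ^ 5 * (C * lam) + ((i0 : ℝ≥0∞) + 1) ^ 5 *
        (C * ((N + 1 : ℕ) : ℝ≥0∞)) * (us s / lam + us s) := by
      have j1 : ((i0 : ℝ≥0∞) + 1) ^ 4 * (C * lam) ≤ ((i0 : ℝ≥0∞) + 1) ^ 5 * (C * lam) := by
        gcongr
        · norm_num
      have j2 : ((i0 : ℝ≥0∞) + 1) ^ 4 * (C * (((i0 : ℝ≥0∞) + 1) *
          (∑ j ∈ Finset.range N, r ^ j) * us s / lam))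
          ≤ ((i0 : ℝ≥0∞) + 1) ^ 5 * (C * ((N + 1 : ℕ) : ℝ≥0∞)) * (us s / lam) := by
        calc ((i0 : ℝ≥0∞) + 1) ^ 4 * (C * (((i0 : ℝ≥0∞) + 1) *
            (∑ j ∈ Finset.range N, r ^ j) * us s / lam))
            = ((i0 : ℝ≥0∞) + 1) ^ 5 * (C * (∑ j ∈ Finset.range N, r ^ j)) * (us s / lam) := by
              rw [mul_div_assoc]; ring
          _ ≤ _ := by gcongr
      have j3 : ((i0 : ℝ≥0∞) + 1) ^ 4 * (C * us s)
          ≤ ((i0 : ℝ≥0∞) + 1) ^ 5 * (C * ((N + 1 : ℕ) : ℝ≥0∞)) * us s := by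
        calc ((i0 : ℝ≥0∞) + 1) ^ 4 * (C * us s) ≤ ((i0 : ℝ≥0∞) + 1) ^ 5 * (C * us s) := by
              gcongr
              · norm_num
          _ = ((i0 : ℝ≥0∞) + 1) ^ 5 * (C * 1) * us s := by ring
          _ ≤ _ := by gcongr
      calc ((i0 : ℝ≥0∞) + 1) ^ 4 * (C * (lam + ((i0 : ℝ≥0∞) + 1) *
          (∑ j ∈ Finset.range N, r ^ j) * us s / lam + us s))
          = ((i0 : ℝ≥0∞) + 1) ^ 4 * (C * lam) + (((i0 : ℝ≥0∞) + 1) ^ 4 * (C *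
            (((i0 : ℝ≥0∞) + 1) * (∑ j ∈ Finset.range N, r ^ j) * us s / lam))
            + ((i0 : ℝ≥0∞) + 1) ^ 4 * (C * us s)) := by ring
        _ ≤ ((i0 : ℝ≥0∞) + 1) ^ 5 * (C * lam) + (((i0 : ℝ≥0∞) + 1) ^ 5 *
            (C * ((N + 1 : ℕ) : ℝ≥0∞)) * (us s / lam) + ((i0 : ℝ≥0∞) + 1) ^ 5 *
            (C * ((N + 1 : ℕ) : ℝ≥0∞)) * us s) := add_le_add j1 (add_le_add j2 j3)
        _ = _ := by ring
    calc _ ≤ cc * (((K + 1 : ℕ) : ℝ≥0∞) * (((2 * s + 4 * i0 + 2 : ℕ) : ℝ≥0∞) * pt t +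
      (4 * tl i0 + 2 * (N * tl i0 + (((i0 : ℝ≥0∞) + 1) ^ 5 * (C * lam) +
        ((i0 : ℝ≥0∞) + 1) ^ 5 * (C * ((N + 1 : ℕ) : ℝ≥0∞)) * (us s / lam + us s)))))) := by
          gcongr
      _ = _ := by push_cast; ring
  calc cc * PW ΛX ΛY hX hY n' (fun LX LY => ∃ z k, (m < k ∧ k ≤ 2 * m) ∧
        (z, k) ∈ TX LX 0 0 ∧ (z, k) ∈ TY LY w 0)
      ≤ cc * (((K + 1 : ℕ) : ℝ≥0∞) * bw) := mul_le_mul_right cover _
    _ = cc * (((K + 1 : ℕ) : ℝ≥0∞) * (u * u + 2 * r ^ N)) +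
        cc * (((K + 1 : ℕ) : ℝ≥0∞) * (((2 * s + 4 * i0 + 2 : ℕ) : ℝ≥0∞) * pt t +
      (4 * tl i0 + 2 * (N * tl i0 + ((i0 : ℝ≥0∞) + 1) ^ 4 * (C * (lam + ((i0 : ℝ≥0∞) + 1) *
      (∑ j ∈ Finset.range N, r ^ j) * us s / lam + us s)))))) := by rw [hbw]; ring
    _ ≤ ε / 2 + ε / 2 := add_le_add main1 main2
    _ = ε := ENNReal.add_halves ε

end Crest.Agent.R154.KapE318
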