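import Crest.Agent.R154.KapD_506

/-! Row 154, KAPPA' (road 801): contacts of two lists, one window (helper506). -/

set_option autoImplicit false

namespace Crest.Agent.R154.Kap506

open Crest.Agent.R154.B5A
open scoped ENNReal
open Classical

variable {B B' G : Type*} [AddCommGroup G]

/-- sites (position, depth) of a list -/
def TS (ht : B → ℕ) (zz : B → G) (s : B → Set (G × ℕ)) : List B → G → ℕ → Set (G × ℕ)
  | [], _, _ => ∅
  | b :: L, x, a => {p | ∃ q ∈ s b, p = (x + q.1, a + q.2)} ∪ TS ht zz s L (x + zz b) (a + ht b)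

lemma TS_append (ht : B → ℕ) (zz : B → G) (s : B → Set (G × ℕ)) (L L' : List B) :
    ∀ x a, TS ht zz s (L ++ L') x a
      = TS ht zz s L x a ∪ TS ht zz s L' (x + Dp zz L) (a + HT ht L) := by
  induction L with
  | nil => intro x a; simp [TS, Dp_nil, HT_nil]
  | cons b L ih =>
    intro x a
    simp only [List.cons_append, TS, ih, Dp_cons, HT_cons, Set.union_assoc, add_assoc]

lemma TS_depth (ht : B → ℕ) (zz : B → G) (s : B → Set (G × ℕ))
    (hs : ∀ b q, q ∈ s b → 1 ≤ q.2 ∧ q.2 ≤ ht b) (L : List B) :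
    ∀ x a z k, (z, k) ∈ TS ht zz s L x a → a + 1 ≤ k ∧ k ≤ a + HT ht L := by
  induction L with
  | nil => intro x a z k h; simp [TS] at h
  | cons b L ih =>
    intro x a z k h
    rw [HT_cons]
    rcases h with ⟨q, hq, e⟩ | h
    · have := hs b q hq
      simp only [Prod.mk.injEq] at e
      omega
    · have := ih _ _ _ _ h
      omega

lemma TS_shift (ht : B → ℕ) (zz : B → G) (s : B → Set (G × ℕ)) (L : List B) :
    ∀ x y a z k, (z, k) ∈ TS ht zz s L x a → (z + y, k) ∈ TS ht zz s L (x + y) a := by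
  induction L with
  | nil => intro x y a z k h; simp [TS] at h
  | cons b L ih =>
    intro x y a z k h
    rcases h with ⟨q, hq, e⟩ | h
    · left
      simp only [Prod.mk.injEq] at e
      refine ⟨q, hq, ?_⟩
      simp only [Prod.mk.injEq]
      exact ⟨by rw [e.1]; abel, e.2⟩
    · right
      have := ih _ y _ _ _ h
      rwa [show x + zz b + y = x + y + zz b by abel] at this

variable {Λ : B → ℝ≥0∞} {ht : B → ℕ} {zz : B → G} {st : B → Set (G × ℕ)}
variable {Λ' : B' → ℝ≥0∞} {ht' : B' → ℕ} {zz' : B' → G} {st' : B' → Set (G × ℕ)}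

lemma HSHS (h h' : ℕ) (p : List B → List B' → Prop) :
    HS Λ ht h (fun P => HS Λ' ht' h' (fun P' => if p P P' then 1 else 0))
      = ∑' P, ∑' P', if HT ht P = h ∧ HT ht' P' = h' ∧ p P P' then LW Λ P * LW Λ' P' else 0 := by
  simp only [HS]
  refine tsum_congr fun P => ?_
  by_cases hP : HT ht P = h
  · rw [if_pos hP, ← ENNReal.tsum_mul_left]
    refine tsum_congr fun P' => ?_
    by_cases hP' : HT ht' P' = h'
    · by_cases hp : p P P'
      · simp [hP, hP', hp]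
      · simp [hp]
    · simp [hP']
  · simp [hP]

/-- the pieces meet -/
def Meet (ht : B → ℕ) (zz : B → G) (st : B → Set (G × ℕ)) (ht' : B' → ℕ) (zz' : B' → G)
    (st' : B' → Set (G × ℕ)) (x : G) (a a' : ℕ) (P : List B) (P' : List B') (z : G) (k : ℕ) :
    Prop :=
  (z, k) ∈ TS ht zz st P 0 a ∧ (z, k) ∈ TS ht' zz' st' P' x a'

lemma FS4_comm (α T : ℕ) (F : List B → List B → List B' → List B' → ℝ≥0∞) :
    FS Λ ht α (fun A => FS Λ ht T (fun P => FS Λ' ht' α (fun A' => FS Λ' ht' T (fun P' =>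
      F A P A' P'))))
      = FS Λ' ht' α (fun A' => FS Λ' ht' T (fun P' => FS Λ ht α (fun A => FS Λ ht T (fun P =>
      F A P A' P')))) := by
  calc _ = FS Λ ht α (fun A => FS Λ' ht' α (fun A' => FS Λ ht T (fun P => FS Λ' ht' T (fun P' =>
      F A P A' P')))) := FS_congr _ _ _ fun A _ => FS_comm T α _
    _ = FS Λ' ht' α (fun A' => FS Λ ht α (fun A => FS Λ ht T (fun P => FS Λ' ht' T (fun P' =>
      F A P A' P')))) := FS_comm α α _
    _ = FS Λ' ht' α (fun A' => FS Λ ht α (fun A => FS Λ' ht' T (fun P' => FS Λ ht T (fun P =>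
      F A P A' P')))) := FS_congr _ _ _ fun A' _ => FS_congr _ _ _ fun A _ => FS_comm T T _
    _ = _ := FS_congr _ _ _ fun A' _ => FS_comm α T _

/-- one window -/
lemma window (h1 : ∀ b, 1 ≤ ht b) (hΛ : ∑' b, Λ b = 1) (h1' : ∀ b, 1 ≤ ht' b)
    (hΛ' : ∑' b, Λ' b = 1) (hs : ∀ b q, q ∈ st b → 1 ≤ q.2 ∧ q.2 ≤ ht b)
    (hs' : ∀ b q, q ∈ st' b → 1 ≤ q.2 ∧ q.2 ≤ ht' b)
    (α T i0 D s t lo hi J : ℕ) (hD : α + i0 + T ≤ D) (hlo : α + i0 + s + 1 ≤ lo)
    (hhi : hi + s = α + T) (hlt : lo + t ≤ α + T + 1) (hJ : J * (T + i0) ≤ α)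
    (ov q u th th' R : ℝ≥0∞) (hq1 : q ≤ 1)
    (hov : ∀ a, FS Λ ht a (fun A => if a + i0 < HT ht A then 1 else 0) ≤ ov)
    (hov' : ∀ a, FS Λ' ht' a (fun A => if a + i0 < HT ht' A then 1 else 0) ≤ ov)
    (hq : FS Λ ht T (fun Q => if pp Λ ht zz T (HT ht Q, Dp zz Q) ≤ th then 0 else 1) ≤ q)
    (hq' : FS Λ' ht' T (fun Q => if pp Λ' ht' zz' T (HT ht' Q, Dp zz' Q) ≤ th' then 0 else 1) ≤ q)
    (hu : FS Λ ht T (fun Q => if th ≤ pp Λ ht zz T (HT ht Q, Dp zz Q) then 0 else 1) ≤ u)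
    (hu' : FS Λ' ht' T (fun Q => if th' ≤ pp Λ' ht' zz' T (HT ht' Q, Dp zz' Q) then 0 else 1) ≤ u)
    (Φ2 : G → ℕ → ℕ → List B → List B' → Prop) (hΦ2 : ∀ x a a' P P', Φ2 x a a' P P' ↔
      ((∃ z k, Meet ht zz st ht' zz' st' x a a' P P' z k) ∧
      ∀ z k, Meet ht zz st ht' zz' st' x a a' P P' z k → lo ≤ k))
    (Φ3 : G → ℕ → ℕ → List B' → List B → Prop) (hΦ3 : ∀ x a' a P' P, Φ3 x a' a P' P ↔
      ((∃ z k, Meet ht zz st ht' zz' st' (-x) a a' P P' z k) ∧
      ∀ z k, Meet ht zz st ht' zz' st' (-x) a a' P P' z k → k ≤ hi))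
    (H2 : ∀ a a' h h', α ≤ a → a ≤ α + i0 → α ≤ a' → a' ≤ α + i0 → T ≤ h → h ≤ T + i0 → T ≤ h' →
      h' ≤ T + i0 → ∀ μ : G → ℝ≥0∞, ∑' x, μ x ≤ 1 → (∀ x, μ x ≤ J * ((i0 + 1 : ℕ) * th)) →
      ∑' x, μ x * HS Λ ht h (fun P => HS Λ' ht' h' (fun P' =>
        if th ≤ pp Λ ht zz T (h, Dp zz P) ∧ Φ2 x a a' P P' then 1 else 0)) ≤ R)
    (H3 : ∀ a a' h h', α ≤ a → a ≤ α + i0 → α ≤ a' → a' ≤ α + i0 → T ≤ h → h ≤ T + i0 → T ≤ h' →
      h' ≤ T + i0 → ∀ μ : G → ℝ≥0∞, ∑' x, μ x ≤ 1 → (∀ x, μ x ≤ J * ((i0 + 1 : ℕ) * th')) →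
      ∑' x, μ x * HS Λ' ht' h' (fun P' => HS Λ ht h (fun P =>
        if th' ≤ pp Λ' ht' zz' T (h', Dp zz' P') ∧ Φ3 x a' a P' P then 1 else 0)) ≤ R)
    (w : G) (W : List B → List B' → Prop) (hW : ∀ L L', W L L' →
      (∀ z k, Meet ht zz st ht' zz' st' w 0 0 L L' z k → lo ≤ k) ∧
        (∃ z k, k < lo + t ∧ Meet ht zz st ht' zz' st' w 0 0 L L' z k) ∧
        (∀ z k, Meet ht zz st ht' zz' st' w 0 0 L L' z k → k ≤ hi ∨ α + i0 + T + i0 < k)) :
    HS Λ ht D (fun L => HS Λ' ht' D (fun L' => if W L L' then 1 else 0))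
      ≤ ((q ^ J + J * ov) + (q ^ J + J * ov) + u * u + ((i0 + 1 : ℕ) : ℝ≥0∞) ^ 4 * R
        + ((i0 + 1 : ℕ) : ℝ≥0∞) ^ 4 * R) + 4 * ov := by
  refine (two_le h1 hΛ h1' hΛ' α T i0 D hD ov hov hov' _
    (fun A P A' P' => HT ht A ≤ α + i0 ∧ HT ht P ≤ T + i0 ∧ HT ht' A' ≤ α + i0 ∧
      HT ht' P' ≤ T + i0 ∧ Φ2 (w + Dp zz' A' - Dp zz A) (HT ht A) (HT ht' A') P P' ∧
      Φ3 (-w + Dp zz A - Dp zz' A') (HT ht' A') (HT ht A) P' P) ?_).trans
    (add_le_add ?_ le_rfl)
  · -- the decomposition of the event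
    intro A P R A' P' R' hA hP hA' hP' sA sP sA' sP' hWW
    obtain ⟨hc1, ⟨z, k, hk, hm⟩, hc3⟩ := hW _ _ hWW
    have gA := FP_le _ _ hA
    have gP := FP_le _ _ hP
    have gA' := FP_le _ _ hA'
    have gP' := FP_le _ _ hP'
    have hneg : -(-w + Dp zz A - Dp zz' A') = w + Dp zz' A' - Dp zz A := by abel
    -- a contact of the pieces is a contact of the lists
    have up : ∀ z k, Meet ht zz st ht' zz' st' (w + Dp zz' A' - Dp zz A) (HT ht A) (HT ht' A') P P' z k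
        → Meet ht zz st ht' zz' st' w 0 0 (A ++ (P ++ R)) (A' ++ (P' ++ R')) (z + Dp zz A) k := by
      rintro z k ⟨m1, m2⟩
      refine ⟨?_, ?_⟩
      · rw [TS_append, TS_append]
        right; left
        have := TS_shift ht zz st P _ (Dp zz A) _ _ _ m1
        simpa using this
      · rw [TS_append, TS_append]
        right; left
        have := TS_shift ht' zz' st' P' _ (Dp zz A) _ _ _ m2
        rw [show w + Dp zz' A' - Dp zz A + Dp zz A = w + Dp zz' A' by abel] at this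
        simpa using this
    have hlok := hc1 z k hm
    have mid : Meet ht zz st ht' zz' st' (w + Dp zz' A' - Dp zz A) (HT ht A) (HT ht' A') P P'
        (z - Dp zz A) k := by
      obtain ⟨m1, m2⟩ := hm
      rw [TS_append, TS_append] at m1 m2
      refine ⟨?_, ?_⟩
      · rcases m1 with m1 | m1 | m1
        · have := TS_depth ht zz st hs _ _ _ _ _ m1; omega
        · have := TS_shift ht zz st P _ (-Dp zz A) _ _ _ m1
          simpa [sub_eq_add_neg] using this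
        · have := TS_depth ht zz st hs _ _ _ _ _ m1; omega
      · rcases m2 with m2 | m2 | m2
        · have := TS_depth ht' zz' st' hs' _ _ _ _ _ m2; omega
        · have := TS_shift ht' zz' st' P' _ (-Dp zz A) _ _ _ m2
          simpa [sub_eq_add_neg] using this
        · have := TS_depth ht' zz' st' hs' _ _ _ _ _ m2; omega
    refine ⟨sA, sP, sA', sP', (hΦ2 _ _ _ _ _).2 ⟨⟨_, _, mid⟩, fun z k h => hc1 _ _ (up z k h)⟩,
      (hΦ3 _ _ _ _ _).2 ?_⟩
    rw [hneg]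
    refine ⟨⟨_, _, mid⟩, fun z k h => ?_⟩
    rcases hc3 _ _ (up z k h) with h3 | h3
    · exact h3
    · have := TS_depth ht zz st hs _ _ _ _ _ h.1
      omega
  · -- the five terms
    have one : ∀ (F : List B → ℝ≥0∞), FS Λ ht α (fun A => FS Λ ht T (fun _ => FS Λ' ht' α
        (fun _ => FS Λ' ht' T (fun _ => F A)))) = FS Λ ht α F := by
      intro F
      simp only [FS_const h1 hΛ, FS_const h1' hΛ']
    calc _ ≤ FS Λ ht α (fun A => FS Λ ht T (fun P => FS Λ' ht' α (fun A' => FS Λ' ht' T (fun P' =>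
          ((((if Sm Λ ht zz T i0 th J A then 0 else 1)
            + (if Sm Λ' ht' zz' T i0 th' J A' then 0 else 1))
            + (if th' ≤ pp Λ' ht' zz' T (HT ht' P', Dp zz' P') then 0 else 1)
              * (if th ≤ pp Λ ht zz T (HT ht P, Dp zz P) then 0 else 1))
            + (if HT ht A ≤ α + i0 ∧ HT ht P ≤ T + i0 ∧ HT ht' A' ≤ α + i0 ∧ HT ht' P' ≤ T + i0 ∧
                Sm Λ ht zz T i0 th J A ∧ th ≤ pp Λ ht zz T (HT ht P, Dp zz P) ∧
                Φ2 (w + Dp zz' A' - Dp zz A) (HT ht A) (HT ht' A') P P' then 1 else 0))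
            + (if HT ht' A' ≤ α + i0 ∧ HT ht' P' ≤ T + i0 ∧ HT ht A ≤ α + i0 ∧ HT ht P ≤ T + i0 ∧
                Sm Λ' ht' zz' T i0 th' J A' ∧ th' ≤ pp Λ' ht' zz' T (HT ht' P', Dp zz' P') ∧
                Φ3 (-w + Dp zz A - Dp zz' A') (HT ht' A') (HT ht A) P' P then 1 else 0))))) := by
          refine FS_mono _ _ _ fun A _ => FS_mono _ _ _ fun P _ => FS_mono _ _ _ fun A' _ =>
            FS_mono _ _ _ fun P' _ => ?_
          by_cases hc : HT ht A ≤ α + i0 ∧ HT ht P ≤ T + i0 ∧ HT ht' A' ≤ α + i0 ∧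
            HT ht' P' ≤ T + i0 ∧ Φ2 (w + Dp zz' A' - Dp zz A) (HT ht A) (HT ht' A') P P' ∧
            Φ3 (-w + Dp zz A - Dp zz' A') (HT ht' A') (HT ht A) P' P
          · rw [if_pos hc]
            by_cases s1 : Sm Λ ht zz T i0 th J A
            · by_cases s2 : Sm Λ' ht' zz' T i0 th' J A'
              · by_cases l1 : th ≤ pp Λ ht zz T (HT ht P, Dp zz P)
                · refine le_add_right (le_add_left ?_)
                  rw [if_pos ⟨hc.1, hc.2.1, hc.2.2.1, hc.2.2.2.1, s1, l1, hc.2.2.2.2.1⟩]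
                · by_cases l2 : th' ≤ pp Λ' ht' zz' T (HT ht' P', Dp zz' P')
                  · refine le_add_left ?_
                    rw [if_pos ⟨hc.2.2.1, hc.2.2.2.1, hc.1, hc.2.1, s2, l2, hc.2.2.2.2.2⟩]
                  · refine le_add_right (le_add_right (le_add_left ?_))
                    rw [if_neg l1, if_neg l2, one_mul]
              · refine le_add_right (le_add_right (le_add_right (le_add_left ?_)))
                rw [if_neg s2]
            · refine le_add_right (le_add_right (le_add_right (le_add_right ?_)))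
              rw [if_neg s1]
          · rw [if_neg hc]; exact zero_le
      _ = FS Λ ht α (fun A => if Sm Λ ht zz T i0 th J A then 0 else 1)
          + FS Λ' ht' α (fun A' => if Sm Λ' ht' zz' T i0 th' J A' then 0 else 1)
          + FS Λ' ht' T (fun P' => if th' ≤ pp Λ' ht' zz' T (HT ht' P', Dp zz' P') then 0 else 1)
            * FS Λ ht T (fun P => if th ≤ pp Λ ht zz T (HT ht P, Dp zz P) then 0 else 1)
          + FS Λ ht α (fun A => FS Λ ht T (fun P => FS Λ' ht' α (fun A' => FS Λ' ht' T (fun P' =>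
            if HT ht A ≤ α + i0 ∧ HT ht P ≤ T + i0 ∧ HT ht' A' ≤ α + i0 ∧ HT ht' P' ≤ T + i0 ∧
                Sm Λ ht zz T i0 th J A ∧ th ≤ pp Λ ht zz T (HT ht P, Dp zz P) ∧
                Φ2 (w + Dp zz' A' - Dp zz A) (HT ht A) (HT ht' A') P P' then 1 else 0))))
          + FS Λ ht α (fun A => FS Λ ht T (fun P => FS Λ' ht' α (fun A' => FS Λ' ht' T (fun P' =>
            if HT ht' A' ≤ α + i0 ∧ HT ht' P' ≤ T + i0 ∧ HT ht A ≤ α + i0 ∧ HT ht P ≤ T + i0 ∧
                Sm Λ' ht' zz' T i0 th' J A' ∧ th' ≤ pp Λ' ht' zz' T (HT ht' P', Dp zz' P') ∧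
                Φ3 (-w + Dp zz A - Dp zz' A') (HT ht' A') (HT ht A) P' P then 1 else 0)))) := by
          simp only [FS_add, FS_const h1 hΛ, FS_const h1' hΛ', FS_mul]
          congr 3
          rw [mul_comm (FS Λ' ht' T _), ← FS_mul]
          refine FS_congr _ _ _ fun P _ => ?_
          rw [mul_comm]
      _ ≤ _ := by
          refine add_le_add (add_le_add (add_le_add (add_le_add ?_ ?_) ?_) ?_) ?_
          · exact nonsm_le h1 hΛ T i0 th q ov hq hq1 (hov T) J α hJ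
          · exact nonsm_le h1' hΛ' T i0 th' q ov hq' hq1 (hov' T) J α hJ
          · exact mul_le_mul' hu' hu
          · exact local_le h1 hΛ h1' hΛ' α T i0 th J w Φ2 R
              (fun a a' h h' b1 b2 b3 b4 b5 b6 b7 b8 μ m1 m2 =>
                H2 a a' h h' b1 b2 b3 b4 b5 b6 b7 b8 μ m1 m2)
          · rw [FS4_comm]
            exact local_le h1' hΛ' h1 hΛ α T i0 th' J (-w) Φ3 R
              (fun a' a h' h b1 b2 b3 b4 b5 b6 b7 b8 μ m1 m2 =>
                H3 a a' h h' b3 b4 b1 b2 b7 b8 b5 b6 μ m1 m2)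

end Crest.Agent.R154.Kap506
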