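import Crest.Agent.R154.KapE_318
import Crest.Agent.R154.Inst_843
import Crest.Agent.R154.H23_220
import Crest.Agent.R154.NBTop_28

/-! Row 154 (helper318), ROAD 801: the binding; `kappaAll` and `Spine.NBProp`. -/

set_option autoImplicit false

namespace Crest.Agent.R154.KapF318

open MeasureTheory ProbabilityTheory Crest.ProbabilityR.RandomEnvironment Crest.Agent.R154
open Crest.Agent.R154.Flux132 (lev opp)
open Crest.Agent.R154.NB28
open Crest.Agent.R154.B5A (LW HT HT_nil HT_cons HT_append)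
open Crest.Agent.R154.KWB419
open Crest.Agent.R154.Sing600 (Blk wd htB LamB htB_pos)
open Crest.Agent.R154.Inst843 (sX zX sY zY)
open Crest.Agent.R154.KapC318 Crest.Agent.R154.KapD318
open Filter
open scoped ENNReal Topology

section TT

variable {B G : Type*} [AddCommGroup G] (s : B → Set (G × ℕ)) (h : B → ℕ) (z : B → G)

lemma TT_app (L L' : List B) (x : G) (a : ℕ) :
    TT s h z (L ++ L') x a
      = TT s h z L x a ∪ TT s h z L' (x + Bind12.Dp z L) (a + HT h L) := by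
  induction L generalizing x a with
  | nil => simp [TT, Bind12.Dp, HT_nil]
  | cons b L ih =>
    rw [List.cons_append, TT, TT, ih, Set.union_assoc, HT_cons]
    have e1 : x + z b + Bind12.Dp z L = x + Bind12.Dp z (b :: L) := by
      simp [Bind12.Dp, add_assoc]
    rw [e1, add_assoc a]

lemma TT_tr (L : List B) (x v : G) (a : ℕ) (y : G) (k : ℕ) :
    (y, k) ∈ TT s h z L (x + v) a ↔ (y - v, k) ∈ TT s h z L x a := by
  induction L generalizing x a with
  | nil => simp [TT]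
  | cons b L ih =>
    rw [TT, TT, Set.mem_union, Set.mem_union]
    have e1 : x + v + z b = x + z b + v := by abel
    rw [e1, ih]
    refine or_congr ?_ Iff.rfl
    constructor
    · rintro ⟨q, hq, hp⟩
      obtain ⟨h1, h2⟩ := Prod.mk.inj hp
      refine ⟨q, hq, ?_⟩
      rw [h1, h2]
      congr 1
      abel
    · rintro ⟨q, hq, hp⟩
      obtain ⟨h1, h2⟩ := Prod.mk.inj hp
      refine ⟨q, hq, ?_⟩
      rw [h2]
      congr 1
      rw [sub_eq_iff_eq_add] at h1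
      rw [h1]; abel

lemma TT_rg (hs : ∀ b, ∀ p ∈ s b, 1 ≤ p.2 ∧ p.2 ≤ h b) (L : List B) (x : G) (a : ℕ) (y : G)
    (k : ℕ) (hk : (y, k) ∈ TT s h z L x a) : a < k ∧ k ≤ a + HT h L := by
  induction L generalizing x a with
  | nil => simp [TT] at hk
  | cons b L ih =>
    rw [TT] at hk
    rw [HT_cons]
    rcases hk with ⟨q, hq, hp⟩ | hk
    · obtain ⟨_, h2⟩ := Prod.mk.inj hp
      have := hs b q hq
      omega
    · have := ih _ _ hk
      omega

end TT

variable {d : ℕ}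

theorem kappaW_of (hd : 2 ≤ d) (ν : Measure (Row d)) [IsProbabilityMeasure ν]
    (hν : ∀ᵐ p ∂ν, ∀ e : Step d, 0 < p.1 e) (u : Step d)
    (hA : annealed (iidEnvironmentLaw ν) 0 (escapeEvent (B2d.dirVec u)) ≠ 0)
    (hB : annealed (iidEnvironmentLaw ν) 0 (escapeEvent (-B2d.dirVec u)) ≠ 0) : KappaW ν u := by
  classical
  obtain ⟨c, hc0, hc1, hU, hU'⟩ := KapBind138.renewal ν hν u hA hB
  have hB' : annealed (iidEnvironmentLaw ν) 0 (escapeEvent (B2d.dirVec (opp u))) ≠ 0 := by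
    rw [H23220.dirVec_opp]; exact hB
  have w2 := H2_of_word wd htB wd htB u (Inst843.hUp u) (Inst843.hDn u) (Inst843.tU u)
    (Inst843.tD u) ν (LamB ν) (LamB ν) (Inst843.wU ν u) (Inst843.wD ν u)
    (H23220.h2W ν hν u hB')
  have w3 := H3_of_word wd htB wd htB u (Inst843.hUp u) (Inst843.hDn u) (Inst843.tU u)
    (Inst843.tD u) ν (LamB ν) (LamB ν) (Inst843.wU ν u) (Inst843.wD ν u)
    (H23220.h3W ν hν u hA)
  have H2 : HW (LamB ν) (LamB ν) htB htB (TT (sX u) htB (zX u)) (TT (sY u) htB (zY u))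
      (fun E (L : List (Blk u)) _ => Bind12.Dp (zX u) L ∈ E) (H23220.us ν u) 4 := by
    intro s h h' a a' lo hi E μ M lam q1 q2 q3 q4 _ _ q5 q6 _ _
    refine le_trans (ENNReal.tsum_le_tsum fun x => mul_le_mul_right
      (ENNReal.tsum_le_tsum fun L => ENNReal.tsum_le_tsum fun L' => ?_) _)
      (w2 s h h' a a' lo E μ M lam q1 q2 q3 q4 q5 q6)
    by_cases hc : HT htB L = h ∧ HT htB L' = h' ∧ Bind12.Dp (zX u) L ∈ E ∧
      Cn (TT (sX u) htB (zX u)) (TT (sY u) htB (zY u)) L L' x a a' lo hi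
    · rw [if_pos hc, if_pos]
      exact ⟨hc.1, hc.2.2.1, hc.2.1, hc.2.2.2.1, fun z k z1 z2 => (hc.2.2.2.2 z k z1 z2).1⟩
    · rw [if_neg hc]; exact zero_le
  have H3 : HW (LamB ν) (LamB ν) htB htB (TT (sX u) htB (zX u)) (TT (sY u) htB (zY u))
      (fun E _ (L' : List (Blk (opp u))) => Bind12.Dp (zY u) L' ∈ E) (H23220.us ν u) 4 := by
    intro s h h' a a' lo hi E μ M lam q1 q2 q3 q4 _ _ _ _ q5 q6
    refine le_trans (ENNReal.tsum_le_tsum fun x => mul_le_mul_right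
      (ENNReal.tsum_le_tsum fun L => ENNReal.tsum_le_tsum fun L' => ?_) _)
      (w3 s h h' a a' hi E μ M lam q1 q2 q3 q4 q5 q6)
    by_cases hc : HT htB L = h ∧ HT htB L' = h' ∧ Bind12.Dp (zY u) L' ∈ E ∧
      Cn (TT (sX u) htB (zX u)) (TT (sY u) htB (zY u)) L L' x a a' lo hi
    · rw [if_pos hc, if_pos]
      exact ⟨hc.1, hc.2.1, hc.2.2.1, hc.2.2.2.1, fun z k z1 z2 => (hc.2.2.2.2 z k z1 z2).2⟩
    · rw [if_neg hc]; exact zero_le
  have hPt : ∀ ε : ℝ≥0∞, ε ≠ 0 → ∃ k0 : ℕ, ∀ k, k0 ≤ k → ∀ n, k ≤ n → ∀ w : Site d,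
      PW (LamB ν) (LamB ν) htB htB n (fun (LX : List (Blk u)) (LY : List (Blk (opp u))) =>
        ∃ z, (z, k) ∈ TT (sX u) htB (zX u) LX 0 0 ∧ (z, k) ∈ TT (sY u) htB (zY u) LY w 0) ≤ ε := by
    intro ε hε
    obtain ⟨T, hT⟩ := Inst843.h5 hd ν hν u hA hB 1 ε hε
    refine ⟨T, fun k hk n _ w => le_trans (ENNReal.tsum_le_tsum fun L =>
      ENNReal.tsum_le_tsum fun L' => ?_) (hT k hk n w)⟩
    by_cases hc : HT htB L = n ∧ HT htB L' = n ∧
        ∃ z, (z, k) ∈ TT (sX u) htB (zX u) L 0 0 ∧ (z, k) ∈ TT (sY u) htB (zY u) L' w 0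
    · rw [if_pos hc, if_pos]
      obtain ⟨h1, h2, z, h3, h4⟩ := hc
      exact ⟨h1, h2, z, k, le_rfl, by omega, h3, h4⟩
    · rw [if_neg hc]; exact zero_le
  have K := KapE318.kapS (LamB ν) (LamB ν) htB htB (zX u) (zY u)
    (TT (sX u) htB (zX u)) (TT (sY u) htB (zY u)) (fun b => htB_pos b) (fun b => htB_pos b)
    c c hc0 hc0 0 (fun n _ => hU n) (fun n _ => hU' n) (KapBind138.U_le_one ν u)
    (KapBind138.U_le_one ν (opp u)) (TT_app _ _ _) (TT_app _ _ _) (TT_tr _ _ _) (TT_tr _ _ _)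
    (TT_rg _ _ _ (Inst843.sX_bd u)) (TT_rg _ _ _ (Inst843.sY_bd u)) (H23220.us ν u)
    (H23220.us_tendsto ν hν u hA hB') 4 (by norm_num) H2 H3 hPt
  refine kappaW_of_list wd htB wd htB u (Inst843.hUp u) (Inst843.hDn u) (Inst843.tU u)
    (Inst843.tD u) ν (LamB ν) (LamB ν) (Inst843.wU ν u) (Inst843.wD ν u) ?_
  intro ε hε
  obtain ⟨M, hM⟩ := K ε hε
  refine ⟨M, fun m hm n hn w _ => le_trans (ENNReal.tsum_le_tsum fun L =>
    ENNReal.tsum_le_tsum fun L' => ?_) (hM m hm n hn w)⟩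
  by_cases hc : HT htB L = n ∧ HT htB L' = n ∧
      (∀ z k, (z, k) ∈ TT (sX u) htB (zX u) L 0 0 →
        (z, k) ∈ TT (sY u) htB (zY u) L' w 0 → m < k) ∧
      (∃ z k, (z, k) ∈ TT (sX u) htB (zX u) L 0 0 ∧
        (z, k) ∈ TT (sY u) htB (zY u) L' w 0 ∧ k ≤ 2 * m)
  · rw [if_pos hc, if_pos]
    obtain ⟨h1, h2, h3, z, k, h4, h5, h6⟩ := hc
    exact ⟨h1, h2, z, k, ⟨h3 z k h4 h5, h6⟩, h4, h5⟩
  · rw [if_neg hc]; exact zero_le

/-- **KAPPA' for every merely elliptic iid law.** -/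
theorem kappaAll : NB28.KappaAll := by
  intro d hd ν _ hν u hA hB
  exact kappaW_of (by omega) ν hν u hA hB

theorem kappaAll' : NB28.KappaAll' := by
  intro d hd ν _ hν u hA hB
  exact (kappaAll d hd ν hν u hA hB).weak

/-- the no-bridge proposition -/
theorem nbProp : Spine.NBProp := NB28.nb_of_kappaW kappaAll

end Crest.Agent.R154.KapF318
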