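import Crest.Agent.R154.KapE_506

/-! Row 154, KAPPA' (road 801): the assembly (helper506). -/

set_option autoImplicit false

namespace Crest.Agent.R154.Kap506

open Crest.Agent.R154.B5A
open Filter Topology
open scoped ENNReal
open Classical

variable {B B' G : Type*} [AddCommGroup G]
variable {Λ : B → ℝ≥0∞} {ht : B → ℕ} {zz : B → G} {st : B → Set (G × ℕ)}
variable {Λ' : B' → ℝ≥0∞} {ht' : B' → ℕ} {zz' : B' → G} {st' : B' → Set (G × ℕ)}

/-- extension of the lists -/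
lemma ext_le (h1 : ∀ b, 1 ≤ ht b) (N : ℕ) (F' : List B → ℝ≥0∞) (n : ℕ) :
    ∀ F' : List B → ℝ≥0∞, HS Λ ht n (fun L => HS Λ ht N (fun R => F' (L ++ R))) ≤ HS Λ ht (n + N) F' := by
  induction n using Nat.strong_induction_on with
  | _ n ih =>
    intro F'
    by_cases hn : n = 0
    · subst hn
      have : ∀ b (L : List B), ¬ HT ht (b :: L) = 0 := fun b L => by
        rw [HT_cons]; have := h1 b; omega
      rw [HS, tsum_list]
      simp [HT_nil, LW_nil, this]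
    · rw [HS_rec _ hn, HS_rec (n + N) (by omega)]
      refine ENNReal.tsum_le_tsum fun b => ?_
      by_cases hb : ht b ≤ n
      · rw [if_pos hb, if_pos (by omega)]
        refine mul_le_mul_right ?_ _
        have := ih (n - ht b) (by have := h1 b; omega) (fun L => F' (b :: L))
        rw [show n - ht b + N = n + N - ht b by omega] at this
        exact this
      · rw [if_neg hb]; exact zero_le

lemma HS_one_eq (n : ℕ) : HS Λ ht n (fun _ => 1) = U Λ ht n := by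
  rw [HS, U]; refine tsum_congr fun L => ?_; split_ifs <;> simp

/-- extension of both lists: an event not changed by adding deep blocks -/
lemma ext2_le (h1 : ∀ b, 1 ≤ ht b) (h1' : ∀ b, 1 ≤ ht' b) (c : ℝ≥0∞)
    (hU : ∀ n, c ≤ U Λ ht n) (hU' : ∀ n, c ≤ U Λ' ht' n) (n N : ℕ)
    (E E' : List B → List B' → Prop)
    (hE : ∀ L R L' R', HT ht L = n → HT ht' L' = n → E L L' → E' (L ++ R) (L' ++ R')) :
    HS Λ ht n (fun L => HS Λ' ht' n (fun L' => if E L L' then 1 else 0)) * (c * c)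
      ≤ HS Λ ht (n + N) (fun L => HS Λ' ht' (n + N) (fun L' => if E' L L' then 1 else 0)) := by
  refine le_trans ?_ (ext_le h1 N (fun _ => 0) n _)
  rw [← HS_mul]
  refine HS_mono Λ ht n fun L hL => ?_
  rw [mul_comm c c, ← mul_assoc, ← HS_mul]
  calc _ ≤ HS Λ ht N (fun _ => 1) * HS Λ' ht' n (fun L' => (if E L L' then 1 else 0) * c) := by
        rw [mul_comm]
        exact mul_le_mul_left ((hU N).trans (HS_one_eq N).ge) _
    _ = HS Λ ht N (fun _ => 1 * HS Λ' ht' n (fun L' => (if E L L' then 1 else 0) * c)) := by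
        exact (HS_mul (Λ := Λ) (ht := ht) N _ (fun _ => 1)).symm
    _ ≤ _ := by
        refine HS_mono Λ ht N fun R _ => ?_
        rw [one_mul]
        refine le_trans ?_ (ext_le h1' N (fun _ => 0) n _)
        refine HS_mono Λ' ht' n fun L' hL' => ?_
        by_cases h : E L L'
        · rw [if_pos h, one_mul]
          refine ((hU' N).trans (HS_one_eq N).ge).trans ?_
          refine HS_mono Λ' ht' N fun R' _ => ?_
          rw [if_pos (hE L R L' R' hL hL' h)]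
        · rw [if_neg h, zero_mul]; exact zero_le

/-- overshoot tends to zero -/
lemma exists_over (h1 : ∀ b, 1 ≤ ht b) (hΛ : ∑' b, Λ b = 1)
    (hm : ∑' b, Λ b * (ht b : ℝ≥0∞) ≠ ⊤) (δ : ℝ≥0∞) (hδ : δ ≠ 0) :
    ∃ i1 : ℕ, ∀ i0 ≥ i1, ∀ a, FS Λ ht a (fun A => if a + i0 < HT ht A then 1 else 0) ≤ δ := by
  rw [sum_tail Λ ht hΛ] at hm
  have h := ENNReal.tendsto_nhds_zero.1 (ENNReal.tendsto_sum_nat_add _ hm) δ
    (pos_iff_ne_zero.2 hδ)
  obtain ⟨i1, hi1⟩ := eventually_atTop.1 h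
  refine ⟨i1, fun i0 hi0 a => (over_le h1 hΛ i0 a).trans ?_⟩
  refine le_trans ?_ (hi1 (i0 + 1) (by omega))
  refine le_trans (ENNReal.sum_le_tsum _) ?_
  exact (tsum_congr fun j => by rw [add_comm]).le

/-- the threshold -/
lemma exists_th (h1 : ∀ b, 1 ≤ ht b) (hΛ : ∑' b, Λ b = 1) (zz : B → G) (T : ℕ) (u q : ℝ≥0∞)
    (hu0 : u ≠ 0) (hu1 : u < 1) (hq : 1 - u ≤ q) :
    ∃ th : ℝ≥0∞, th ≠ 0 ∧
      FS Λ ht T (fun Q => if pp Λ ht zz T (HT ht Q, Dp zz Q) ≤ th then 0 else 1) ≤ q ∧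
      FS Λ ht T (fun Q => if th ≤ pp Λ ht zz T (HT ht Q, Dp zz Q) then 0 else 1) ≤ u := by
  have hone : ∑' x, pp Λ ht zz T x = 1 := by
    have := pp_push Λ ht zz T (fun _ => 1)
    simp only [mul_one] at this
    rw [← this, FS_const h1 hΛ]
  obtain ⟨th, hth, -, ha, hb⟩ := Dens616.quantile _ hone hu0 hu1
  refine ⟨th, hth, ?_, ?_⟩
  · rw [pp_push Λ ht zz T (fun x => if pp Λ ht zz T x ≤ th then 0 else 1)]
    refine le_trans ?_ hq
    have e : (∑' x, if pp Λ ht zz T x ≤ th then pp Λ ht zz T x else 0)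
        + ∑' x, pp Λ ht zz T x * (if pp Λ ht zz T x ≤ th then 0 else 1) = 1 := by
      rw [← ENNReal.tsum_add]
      refine Eq.trans (tsum_congr fun x => ?_) hone
      split_ifs <;> simp
    refine ENNReal.le_sub_of_add_le_left (ne_top_of_lt hu1) ?_
    exact (add_le_add hb le_rfl).trans e.le
  · rw [pp_push Λ ht zz T (fun x => if th ≤ pp Λ ht zz T x then 0 else 1)]
    refine le_trans (tsum_congr fun x => ?_).le ha
    by_cases h : th ≤ pp Λ ht zz T x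
    · rw [if_pos h, if_neg (not_lt.2 h), mul_zero]
    · rw [if_neg h, if_pos (not_le.1 h), mul_one]

/-- the local set at one height -/
lemma exists_set (h1 : ∀ b, 1 ≤ ht b) (hΛ : ∑' b, Λ b = 1) (zz : B → G) (T : ℕ) (th : ℝ≥0∞)
    (hth : th ≠ 0) (h : ℕ) : ∃ E : Finset G, (∀ z, z ∈ E ↔ th ≤ pp Λ ht zz T (h, z)) ∧
      (E.card : ℝ≥0∞) * th ≤ 1 := by
  have hone : ∑' z, pp Λ ht zz T (h, z) ≤ 1 := by
    have := pp_push Λ ht zz T (fun _ => 1)
    simp only [mul_one] at this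
    rw [FS_const h1 hΛ] at this
    rw [this]
    exact ENNReal.tsum_comp_le_tsum_of_injective (f := fun z : G => (h, z))
      (fun a b e => by simpa using e) _
  have hfin := Dens616.finite_local (fun z => pp Λ ht zz T (h, z))
    (ne_top_of_le_ne_top ENNReal.one_ne_top hone) hth
  refine ⟨hfin.toFinset, fun z => by simp, ?_⟩
  exact (Dens616.card_mul_le (fun z => pp Λ ht zz T (h, z)) th _
    (fun x hx => by simpa using hx)).trans hone

lemma exists_small (a δ : ℝ≥0∞) (ha : a ≠ ⊤) (hδ : δ ≠ 0) : ∃ x : ℝ≥0∞, x ≠ 0 ∧ x ≠ ⊤ ∧ a * x ≤ δ := by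
  refine ⟨min 1 (δ / (a + 1)), ?_, ne_top_of_le_ne_top ENNReal.one_ne_top (min_le_left _ _), ?_⟩
  · have : δ / (a + 1) ≠ 0 := ENNReal.div_ne_zero.2 ⟨hδ, by simp [ha]⟩
    exact (lt_min one_pos (pos_iff_ne_zero.2 this)).ne'
  · calc a * min 1 (δ / (a + 1)) ≤ (a + 1) * (δ / (a + 1)) :=
        mul_le_mul' le_self_add (min_le_right _ _)
      _ ≤ δ := ENNReal.mul_div_le

/-- numbers: attempts and quantile -/
lemma exists_J (δ : ℝ≥0∞) (hδ : δ ≠ 0) : ∃ (J : ℕ) (u q : ℝ≥0∞), u ≠ 0 ∧ u < 1 ∧ 1 - u ≤ q ∧ q ≤ 1 ∧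
    ((8 * J + 8 : ℕ) : ℝ≥0∞) * ((q ^ J + q ^ J) + u * u) ≤ δ := by
  obtain ⟨r, hr0, hrδ⟩ : ∃ r : ℝ, 0 < r ∧ ENNReal.ofReal r ≤ δ := by
    obtain ⟨x, hx0, hxδ⟩ := ENNReal.lt_iff_exists_nnreal_btwn.1 (pos_iff_ne_zero.2 hδ)
    refine ⟨x, by exact_mod_cast hx0, ?_⟩
    rw [ENNReal.ofReal_coe_nnreal]; exact hxδ.le
  obtain ⟨v, hv⟩ := exists_nat_gt (max 2 (784 / r))
  have hv2 : (2 : ℝ) < v := lt_of_le_of_lt (le_max_left _ _) hv
  have hvr : 784 / r < v := lt_of_le_of_lt (le_max_right _ _) hv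
  have hv0 : (0 : ℝ) < v := by linarith
  have hu1 : (1 : ℝ) / v ^ 2 < 1 := by
    rw [div_lt_one (by positivity)]; nlinarith
  have hq : (1 - 1 / (v : ℝ) ^ 2) ^ (v ^ 3) ≤ 24 / (v : ℝ) ^ 4 := by
    have e1 : (1 - 1 / (v : ℝ) ^ 2) ≤ Real.exp (-(1 / (v : ℝ) ^ 2)) := by
      have := Real.add_one_le_exp (-(1 / (v : ℝ) ^ 2)); linarith
    have e2 : (1 - 1 / (v : ℝ) ^ 2) ^ (v ^ 3) ≤ Real.exp (-(1 / (v : ℝ) ^ 2)) ^ (v ^ 3) :=
      pow_le_pow_left₀ (by linarith) e1 _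
    have e3 : Real.exp (-(1 / (v : ℝ) ^ 2)) ^ (v ^ 3) = Real.exp (-(v : ℝ)) := by
      rw [← Real.exp_nat_mul]; congr 1; push_cast; field_simp
    have e4 : (v : ℝ) ^ 4 / 24 ≤ Real.exp v := by
      have := Real.pow_div_factorial_le_exp (v : ℝ) hv0.le 4
      simpa [Nat.factorial] using this
    rw [e3] at e2
    refine e2.trans ?_
    rw [Real.exp_neg, inv_le_comm₀ (Real.exp_pos _) (by positivity), inv_div]
    exact e4
  refine ⟨v ^ 3, ENNReal.ofReal (1 / (v : ℝ) ^ 2), ENNReal.ofReal (1 - 1 / (v : ℝ) ^ 2), ?_, ?_, ?_, ?_, ?_⟩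
  · simp only [ne_eq, ENNReal.ofReal_eq_zero, not_le]; positivity
  · rw [← ENNReal.ofReal_one]
    exact (ENNReal.ofReal_lt_ofReal_iff one_pos).2 hu1
  · rw [ENNReal.ofReal_sub _ (by positivity), ENNReal.ofReal_one]
  · rw [← ENNReal.ofReal_one]
    have h0 : (0:ℝ) < 1 / (v:ℝ) ^ 2 := by positivity
    exact ENNReal.ofReal_le_ofReal (by linarith)
  · refine le_trans ?_ hrδ
    rw [← ENNReal.ofReal_pow (by linarith), ← ENNReal.ofReal_mul (by positivity),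
      ← ENNReal.ofReal_add (by positivity) (by positivity),
      ← ENNReal.ofReal_add (by positivity) (by positivity),
      ← ENNReal.ofReal_natCast, ← ENNReal.ofReal_mul (by positivity)]
    refine ENNReal.ofReal_le_ofReal ?_
    push_cast
    have hv1 : (1 : ℝ) ≤ (v : ℝ) ^ 3 := one_le_pow₀ (by linarith)
    calc (8 * (v : ℝ) ^ 3 + 8) * ((1 - 1 / (v : ℝ) ^ 2) ^ v ^ 3 + (1 - 1 / (v : ℝ) ^ 2) ^ v ^ 3
          + 1 / (v : ℝ) ^ 2 * (1 / (v : ℝ) ^ 2))
        ≤ (16 * (v : ℝ) ^ 3) * (24 / (v : ℝ) ^ 4 + 24 / (v : ℝ) ^ 4 + 1 / (v : ℝ) ^ 4) := by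
          have e5 : 1 / (v : ℝ) ^ 2 * (1 / (v : ℝ) ^ 2) = 1 / (v : ℝ) ^ 4 := by
            field_simp
          rw [e5]
          gcongr
          linarith
      _ = 784 / (v : ℝ) := by field_simp; ring
      _ ≤ r := by
          rw [div_le_iff₀ hv0]
          rw [div_lt_iff₀ hr0] at hvr
          linarith

end Crest.Agent.R154.Kap506
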