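import Crest.Agent.R154.KB_169
import Crest.Agent.R154.KapComp_803
import Crest.Agent.R154.E2_934
import Crest.Agent.R154.E3_934

/-! Row 154, ROAD 801, frame B (helper443): 803's `hWin_of` for 657's word instance, `KappaAll`. -/

set_option autoImplicit false

open MeasureTheory ProbabilityTheory Crest.ProbabilityR.RandomEnvironment
open scoped ENNReal

namespace Crest.Agent.R154.KapFin443

open Crest.Agent.R154.B5A Crest.Agent.R154.B5W
open Crest.Agent.R154.NB28 (IsUp IsDn Cm)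
open Crest.Agent.R154.Flux566 (lw endp sitesL)

variable {d : ℕ}

/-- displacement of the up word -/
def zX (u : Step d) (L : List (PB u)) : Site d := -endp 0 (cat L).1
/-- displacement of the down word -/
def zY (u : Step d) (L : List (PB u)) : Site d := endp 0 (cat L).2

lemma act_v (u : Step d) (L : List (PB u)) (w : Lat u) :
    (act (dl u) L w).1 = w.1 + endp 0 (cat L).1 + endp 0 (cat L).2 := by
  induction L generalizing w with
  | nil => simp [act, cat, endp]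
  | cons b L ih =>
    rw [act, ih]
    have e1 : endp 0 (cat (b :: L)).1 = endp 0 (cat L).1 + endp 0 b.1.1 := by
      show endp 0 ((cat L).1 ++ b.1.1) = _
      rw [Flux566.endp_append, Flux566.endp_eq_add]
    have e2 : endp 0 (cat (b :: L)).2 = endp 0 b.1.2 + endp 0 (cat L).2 := by
      show endp 0 (b.1.2 ++ (cat L).2) = _
      rw [Flux566.endp_append, Flux566.endp_eq_add]
    rw [e1, e2]
    show w.1 + endp 0 b.1.1 + endp 0 b.1.2 + _ + _ = _
    abel

lemma hrel (u : Step d) (L' : List (PB u)) (w x : Lat u) : ∃ κ : Site d, ∀ A,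
    act (dl u) (A ++ L') w = x → zX u A = zY u A + κ := by
  refine ⟨w.1 + endp 0 (cat L').1 + endp 0 (cat L').2 - x.1, fun A hA => ?_⟩
  have h1 := congrArg Subtype.val hA
  rw [act_append, act_v, act_v] at h1
  unfold zX zY
  rw [← h1]
  abel

open Classical in
/-- image of a weight -/
noncomputable def law {α G : Type*} (f : α → ℝ≥0∞) (p : α → G) (x : G) : ℝ≥0∞ :=
  ∑' π, if p π = x then f π else 0

lemma push {α G : Type*} (f : α → ℝ≥0∞) (p : α → G) (K : G → ℝ≥0∞) :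
    ∑' π, f π * K (p π) = ∑' x, law f p x * K x := by
  unfold law
  simp_rw [← ENNReal.tsum_mul_right]
  rw [ENNReal.tsum_comm]
  refine tsum_congr fun π => ?_
  rw [tsum_eq_single (p π)]
  · rw [if_pos rfl]
  · intro x hx
    rw [if_neg (Ne.symm hx), zero_mul]

lemma push_one {α G : Type*} (f : α → ℝ≥0∞) (p : α → G) : ∑' x, law f p x = ∑' π, f π := by
  have := push f p (fun _ => 1)
  simp only [mul_one] at this
  exact this.symm

variable (ν : Measure (Row d)) [IsProbabilityMeasure ν] (u : Step d)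

open Classical in
lemma up_le (H : ℕ) : ∑' π : List (Step d), (if IsUp u H π then NB28.aw ν π else 0) ≤ 1 :=
  sum_if_le_one ν fun _ _ h h' hp => NB28.isUp_prefix h h' hp

open Classical in
lemma dn_le (H : ℕ) : ∑' π : List (Step d), (if IsDn u H π then NB28.aw ν π else 0) ≤ 1 :=
  sum_if_le_one ν fun _ _ h h' hp => NB28.isDn_prefix h h' hp

open Classical in
lemma hprod (H : ℕ) : ∃ a b : Site d → ℝ≥0∞, ∑' z, a z ≤ 1 ∧ ∑' z, b z ≤ 1 ∧
    ∀ F : Site d → Site d → ℝ≥0∞,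
      (∑' L : List (PB u), if HT (ht u) L = H then LW (Lam ν u) L * F (zX u L) (zY u L) else 0)
        = ∑' x, ∑' y, a x * b y * F x y := by
  set f : List (Step d) → ℝ≥0∞ := fun π => if IsUp u H π then NB28.aw ν π else 0 with hf
  set g : List (Step d) → ℝ≥0∞ := fun π => if IsDn u H π then NB28.aw ν π else 0 with hg
  refine ⟨law f (fun π => -endp 0 π), law g (fun π => endp 0 π), ?_, ?_, fun F => ?_⟩
  · rw [push_one f (fun π => -endp 0 π)]
    exact up_le ν u H
  · rw [push_one g (fun π => endp 0 π)]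
    exact dn_le ν u H
  · have h := tsum_L ν u H (fun p => F (-endp 0 p.1) (endp 0 p.2))
    refine Eq.trans ?_ (h.trans ?_)
    · rfl
    · calc _ = ∑' π, f π * ∑' γ, g γ * F (-endp 0 π) (endp 0 γ) := by
            refine tsum_congr fun π => ?_
            rw [← ENNReal.tsum_mul_left]
            refine tsum_congr fun γ => ?_
            by_cases h1 : IsUp u H π <;> by_cases h2 : IsDn u H γ <;>
              simp [hf, hg, h1, h2, mul_assoc]
        _ = ∑' π, f π * ∑' y, law g (fun π => endp 0 π) y * F (-endp 0 π) y := by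
            refine tsum_congr fun π => ?_
            rw [← push g (fun γ => endp 0 γ) (fun y => F (-endp 0 π) y)]
        _ = ∑' x, law f (fun π => -endp 0 π) x *
              ∑' y, law g (fun π => endp 0 π) y * F x y :=
            push f (fun π => -endp 0 π)
              (fun x => ∑' y, law g (fun π => endp 0 π) y * F x y)
        _ = _ := by
            refine tsum_congr fun x => ?_
            rw [← ENNReal.tsum_mul_left]
            refine tsum_congr fun y => ?_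
            rw [mul_assoc]

lemma num (Cst η : ℝ≥0∞) (hC : Cst ≠ ⊤) (hη : η ≠ 0) : ∃ lam δ : ℝ≥0∞, lam ≠ 0 ∧ lam ≠ ⊤ ∧
    δ ≠ 0 ∧ ∀ M c us : ℝ≥0∞, M * c ≤ Cst → us ≤ δ → 8 * lam + 2 * (M * (c * us) / lam) ≤ η := by
  set lam : ℝ≥0∞ := min (η / 10) 1 with hlam
  have h0 : lam ≠ 0 := by
    rw [hlam]
    refine (lt_min (ENNReal.div_pos hη (by norm_num)) one_pos).ne'
  have h1 : lam ≠ ⊤ := ne_top_of_le_ne_top ENNReal.one_ne_top (min_le_right _ _)
  refine ⟨lam, lam * lam / (Cst + 1), h0, h1, ?_, fun M c us hM hus => ?_⟩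
  · exact (ENNReal.div_pos (mul_ne_zero h0 h0) (ENNReal.add_ne_top.2 ⟨hC, ENNReal.one_ne_top⟩)).ne'
  · have e1 : M * (c * us) / lam ≤ lam := by
      refine ENNReal.div_le_of_le_mul ?_
      calc M * (c * us) = (M * c) * us := by ring
        _ ≤ Cst * (lam * lam / (Cst + 1)) := mul_le_mul' hM hus
        _ ≤ (Cst + 1) * (lam * lam / (Cst + 1)) := mul_le_mul_left le_self_add _
        _ = lam * lam := ENNReal.mul_div_cancel (by simp) (ENNReal.add_ne_top.2 ⟨hC, ENNReal.one_ne_top⟩)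
    calc 8 * lam + 2 * (M * (c * us) / lam) ≤ 8 * lam + 2 * lam := by gcongr
      _ = 10 * lam := by ring
      _ ≤ 10 * (η / 10) := mul_le_mul_right (min_le_left _ _) _
      _ = η := ENNReal.mul_div_cancel (by norm_num) (by norm_num)

open Classical in
lemma tsum_lat (f : Lat u → ℝ≥0∞) :
    ∑' x : Lat u, f x = ∑' x : Site d, if h : Flux566.lev u x = 0 then f ⟨x, h⟩ else 0 := by
  have hi : Function.Injective (fun x : Lat u => x.1) := Subtype.val_injective
  rw [← hi.tsum_eq (f := fun x : Site d => if h : Flux566.lev u x = 0 then f ⟨x, h⟩ else 0)]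
  · refine tsum_congr fun x => ?_
    rw [dif_pos x.2]
    rfl
  · intro x hx
    by_contra h
    refine hx ?_
    have : ¬ Flux566.lev u x = 0 := fun h' => h ⟨⟨x, h'⟩, rfl⟩
    simp only
    rw [dif_neg this]

open Classical in
/-- `WP` in words -/
lemma WP_eq (H s : ℕ) (R : List (Step d) → List (Step d) → Prop) (x : Lat u) :
    KapComp803.WP (Lam ν u) (ht u) (dl u) (cd u) H s (fun L => R (cat L).1 (cat L).2) x
      = ∑' π : List (Step d), ∑' γ : List (Step d), if IsUp u H π ∧ IsDn u H γ ∧ R π γ ∧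
        Cm u x.1 π γ ≠ ∅ ∧ (∀ k ∈ Cm u x.1 π γ, s < k ∧ k + s ≤ H)
        then NB28.aw ν π * NB28.aw ν γ else 0 := by
  have h := tsum_L ν u H (fun p => if R p.1 p.2 ∧ cds u p x.1 ≠ ∅ ∧
    (∀ k ∈ cds u p x.1, s < k ∧ k + s ≤ H) then 1 else 0)
  unfold KapComp803.WP
  refine Eq.trans ?_ (h.trans ?_)
  · refine tsum_congr fun L => ?_
    rw [CD_cat]
    by_cases h1 : HT (ht u) L = H
    · by_cases h2 : R (cat L).1 (cat L).2 ∧ cds u (cat L) x.1 ≠ ∅ ∧
        (∀ k ∈ cds u (cat L) x.1, s < k ∧ k + s ≤ H)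
      · rw [if_pos ⟨h1, h2⟩, if_pos h1, if_pos h2, mul_one]
      · rw [if_neg (fun h' => h2 h'.2), if_pos h1, if_neg h2, mul_zero]
    · rw [if_neg (fun h' => h1 h'.1), if_neg h1]
  · refine tsum_congr fun π => tsum_congr fun γ => ?_
    rw [cds_eq]
    by_cases h1 : IsUp u H π ∧ IsDn u H γ
    · by_cases h2 : R π γ ∧ Cm u x.1 π γ ≠ ∅ ∧ (∀ k ∈ Cm u x.1 π γ, s < k ∧ k + s ≤ H)
      · rw [if_pos h1, if_pos h2, if_pos ⟨h1.1, h1.2, h2⟩, mul_one]
      · rw [if_pos h1, if_neg h2, if_neg (fun h' => h2 h'.2.2), mul_zero]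
    · rw [if_neg h1, if_neg (fun h' => h1 ⟨h'.1, h'.2.1⟩)]

open Classical in
lemma ext_sum (μ : Lat u → ℝ≥0∞) (h : ∑' x, μ x ≤ 1) :
    ∑' x : Site d, (if h : Flux566.lev u x = 0 then μ ⟨x, h⟩ else 0) ≤ 1 := by
  rw [← tsum_lat]; exact h

open Classical in
theorem hWX (Cst η : ℝ≥0∞) (hC : Cst ≠ ⊤) (hη : η ≠ 0) : ∃ s0 : ℕ, ∀ s, s0 ≤ s →
    ∀ (H : ℕ) (E : Finset (Site d)) (μ : Lat u → ℝ≥0∞) (M : ℝ≥0∞), ∑' x, μ x ≤ 1 →
      (∀ x, μ x ≤ M) → M * E.card ≤ Cst →
      ∑' x, μ x * KapComp803.WP (Lam ν u) (ht u) (dl u) (cd u) H s (fun L => zX u L ∈ E) x ≤ η := by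
  obtain ⟨lam, δ, hl0, hl1, hδ, hnum⟩ := num Cst η hC hη
  obtain ⟨s0, hs0⟩ := E934.us_small ν u δ hδ
  refine ⟨s0, fun s hs H E μ M hμ hM hE => ?_⟩
  set E' : Finset (Site d) := E.image (fun z => -z) with hE'
  have hcard : (E'.card : ℝ≥0∞) ≤ E.card := by exact_mod_cast Finset.card_image_le
  set μ' : Site d → ℝ≥0∞ := fun x => if h : Flux566.lev u x = 0 then μ ⟨x, h⟩ else 0 with hμ'
  have hμ'M : ∀ x, μ' x ≤ M := fun x => by
    rw [hμ']; simp only
    split_ifs with h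
    · exact hM _
    · exact zero_le
  have key := E934.E2 ν (u := u) s H E' μ' M lam (ext_sum u μ hμ) hμ'M hl0 hl1
  have h1 : ∑' x, μ x * KapComp803.WP (Lam ν u) (ht u) (dl u) (cd u) H s (fun L => zX u L ∈ E) x
      ≤ ∑' x : Site d, (if Flux132.lev u x = 0 then μ' x * ∑' π : List (Step d),
        ∑' γ : List (Step d), (if IsUp u H π ∧ endp 0 π ∈ E' ∧ IsDn u H γ ∧
          (∃ k, k ∈ Cm u x π γ) ∧ (∀ k ∈ Cm u x π γ, s < k) then
          NB28.aw ν π * NB28.aw ν γ else 0) else 0) := by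
    rw [tsum_lat]
    refine ENNReal.tsum_le_tsum fun x => ?_
    by_cases hx : Flux566.lev u x = 0
    · have hx' : Flux132.lev u x = 0 := hx
      rw [dif_pos hx, if_pos hx']
      have e : μ' x = μ ⟨x, hx⟩ := by rw [hμ']; simp only; rw [dif_pos hx]
      rw [e]
      refine mul_le_mul_right ?_ _
      rw [show (fun L : List (PB u) => zX u L ∈ E)
        = (fun L => (fun π _ => -endp 0 π ∈ E) (cat L).1 (cat L).2) from rfl]
      rw [WP_eq ν u H s (fun π _ => -endp 0 π ∈ E) ⟨x, hx⟩]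
      refine ENNReal.tsum_le_tsum fun π => ENNReal.tsum_le_tsum fun γ => ?_
      by_cases hc : IsUp u H π ∧ IsDn u H γ ∧ -endp 0 π ∈ E ∧
        Cm u x π γ ≠ ∅ ∧ (∀ k ∈ Cm u x π γ, s < k ∧ k + s ≤ H)
      · have hm : endp 0 π ∈ E' := by
          rw [hE', Finset.mem_image]
          exact ⟨_, hc.2.2.1, neg_neg _⟩
        rw [if_pos hc, if_pos ⟨hc.1, hm, hc.2.1, Set.nonempty_iff_ne_empty.2 hc.2.2.2.1,
          fun k hk => (hc.2.2.2.2 k hk).1⟩]
      · rw [if_neg hc]; exact zero_le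
    · rw [dif_neg hx]; exact zero_le
  refine h1.trans (key.trans ?_)
  refine le_trans ?_ (hnum M E'.card (E934.us ν u s)
    ((mul_le_mul_right hcard _).trans hE) (hs0 s hs))
  refine add_le_add ?_ ?_
  · calc lam = 1 * lam := (one_mul _).symm
      _ ≤ 8 * lam := mul_le_mul_left (by norm_num) _
  · calc M * (E'.card * E934.us ν u s) / lam = 1 * (M * (E'.card * E934.us ν u s) / lam) :=
        (one_mul _).symm
      _ ≤ 2 * (M * (E'.card * E934.us ν u s) / lam) := mul_le_mul_left (by norm_num) _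

open Classical in
theorem hWY (Cst η : ℝ≥0∞) (hC : Cst ≠ ⊤) (hη : η ≠ 0) : ∃ s0 : ℕ, ∀ s, s0 ≤ s →
    ∀ (H : ℕ) (E : Finset (Site d)) (μ : Lat u → ℝ≥0∞) (M : ℝ≥0∞), ∑' x, μ x ≤ 1 →
      (∀ x, μ x ≤ M) → M * E.card ≤ Cst →
      ∑' x, μ x * KapComp803.WP (Lam ν u) (ht u) (dl u) (cd u) H s (fun L => zY u L ∈ E) x ≤ η := by
  obtain ⟨lam, δ, hl0, hl1, hδ, hnum⟩ := num Cst η hC hη
  obtain ⟨s0, hs0⟩ := E934.us_small ν (Flux132.opp u) δ hδ
  refine ⟨s0, fun s hs H E μ M hμ hM hE => ?_⟩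
  set μ' : Site d → ℝ≥0∞ := fun x => if h : Flux566.lev u x = 0 then μ ⟨x, h⟩ else 0 with hμ'
  have hμ'M : ∀ x, μ' x ≤ M := fun x => by
    rw [hμ']; simp only
    split_ifs with h
    · exact hM _
    · exact zero_le
  have key := E934.E3 ν (u := u) s H E μ' M lam (ext_sum u μ hμ) hμ'M hl0 hl1
  have h1 : ∑' x, μ x * KapComp803.WP (Lam ν u) (ht u) (dl u) (cd u) H s (fun L => zY u L ∈ E) x
      ≤ ∑' x : Site d, (if Flux132.lev u x = 0 then μ' x * ∑' π : List (Step d),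
        ∑' γ : List (Step d), (if IsUp u H π ∧ endp 0 γ ∈ E ∧ IsDn u H γ ∧
          (∃ k, k ∈ Cm u x π γ) ∧ (∀ k ∈ Cm u x π γ, k + s ≤ H) then
          NB28.aw ν π * NB28.aw ν γ else 0) else 0) := by
    rw [tsum_lat]
    refine ENNReal.tsum_le_tsum fun x => ?_
    by_cases hx : Flux566.lev u x = 0
    · have hx' : Flux132.lev u x = 0 := hx
      rw [dif_pos hx, if_pos hx']
      have e : μ' x = μ ⟨x, hx⟩ := by rw [hμ']; simp only; rw [dif_pos hx]
      rw [e]
      refine mul_le_mul_right ?_ _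
      rw [show (fun L : List (PB u) => zY u L ∈ E)
        = (fun L => (fun _ γ => endp 0 γ ∈ E) (cat L).1 (cat L).2) from rfl]
      rw [WP_eq ν u H s (fun _ γ => endp 0 γ ∈ E) ⟨x, hx⟩]
      refine ENNReal.tsum_le_tsum fun π => ENNReal.tsum_le_tsum fun γ => ?_
      by_cases hc : IsUp u H π ∧ IsDn u H γ ∧ endp 0 γ ∈ E ∧
        Cm u x π γ ≠ ∅ ∧ (∀ k ∈ Cm u x π γ, s < k ∧ k + s ≤ H)
      · rw [if_pos hc, if_pos ⟨hc.1, hc.2.2.1, hc.2.1, Set.nonempty_iff_ne_empty.2 hc.2.2.2.1,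
          fun k hk => (hc.2.2.2.2 k hk).2⟩]
      · rw [if_neg hc]; exact zero_le
    · rw [dif_neg hx]; exact zero_le
  exact h1.trans (key.trans (hnum M E.card (E934.us ν (Flux132.opp u) s) hE (hs0 s hs)))

/-- **818's `hWin` for the word instance.** -/
theorem hWinSt (c : ℝ≥0∞) (hc : c ≠ 0) (hU : ∀ n, c ≤ U (Lam ν u) (ht u) n) :
    KB169.HWinSt (Lam ν u) (ht u) (dl u) (cd u) := by
  have hU1 := HSl169.U_le_one ν u
  have h1 : ∀ b, 1 ≤ ht u b := one_le_hb
  have hΛ : ∑' b, Lam ν u b = 1 :=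
    le_antisymm (mass_le_one _ _ h1 hU1) (mass_ge_one _ _ c hc 0 fun n _ => hU n)
  have hct : c ≠ ⊤ := ne_top_of_le_ne_top ENNReal.one_ne_top ((hU 0).trans (hU1 0))
  have hmean : ∑' k, tail (Lam ν u) (ht u) k ≠ ⊤ := by
    rw [← sum_tail _ _ hΛ]
    exact ne_top_of_le_ne_top (ENNReal.inv_ne_top.2 hc)
      (mean_le _ _ h1 hΛ c hc hct 0 fun n _ => hU n)
  exact KapComp803.hWin_of (Lam ν u) (ht u) (dl u) (cd u) h1 hΛ.le hmean c hc hU hU1
    (zX u) (zY u) (hprod ν u) (hrel u) (hWX ν u) (hWY ν u)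

open Classical in
/-- **`KappaAll`** -/
theorem kappaAll : NB28.KappaAll := by
  refine KB169.kappaAll_of fun d hd ν _ hν u hA hB => ?_
  obtain ⟨c, hc, _, hup, hdn⟩ := WM286.mass_pos ν hν u hA hB
  refine hWinSt ν u (c * c) (mul_ne_zero hc hc) fun n => ?_
  rw [U_eq28]
  exact mul_le_mul' (hup n) (hdn n)

/-- **`Spine.NBProp`** -/
theorem nbProp : Spine.NBProp := NB28.nb_of_kappaW kappaAll

end Crest.Agent.R154.KapFin443
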