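import Crest.Agent.R154.KapF_506

/-! Row 154, KAPPA' (road 801): the final assembly theorem (helper506). -/

set_option autoImplicit false

namespace Crest.Agent.R154.Kap506

open Crest.Agent.R154.B5A
open Filter Topology
open scoped ENNReal
open Classical

variable {B B' G : Type*} [AddCommGroup G]
variable {Λ : B → ℝ≥0∞} {ht : B → ℕ} {zz : B → G} {st : B → Set (G × ℕ)}
variable {Λ' : B' → ℝ≥0∞} {ht' : B' → ℕ} {zz' : B' → G} {st' : B' → Set (G × ℕ)}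

lemma card_bound (J i0 : ℕ) (th : ℝ≥0∞) (E : Finset G) (h : (E.card : ℝ≥0∞) * th ≤ 1) :
    (J * ((i0 + 1 : ℕ) * th) : ℝ≥0∞) * E.card ≤ J * (i0 + 1 : ℕ) := by
  calc (J * ((i0 + 1 : ℕ) * th) : ℝ≥0∞) * E.card = (J * (i0 + 1 : ℕ)) * ((E.card : ℝ≥0∞) * th) := by
        ring
    _ ≤ (J * (i0 + 1 : ℕ)) * 1 := by gcongr
    _ = _ := mul_one _

lemma HSHSd (h h' : ℕ) (p : List B → List B' → Prop) [inst : ∀ P P', Decidable (p P P')] :
    HS Λ ht h (fun P => HS Λ' ht' h' (fun P' => @ite _ (p P P') (inst P P') 1 0))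
      = ∑' P, ∑' P', if HT ht P = h ∧ HT ht' P' = h' ∧ p P P' then LW Λ P * LW Λ' P' else 0 := by
  simp only [HS]
  refine tsum_congr fun P => ?_
  by_cases hP : HT ht P = h
  · rw [if_pos hP, ← ENNReal.tsum_mul_left]
    refine tsum_congr fun P' => ?_
    by_cases hP' : HT ht' P' = h'
    · by_cases hp : p P P'
      · simp [hP, hP', hp]
      · simp [hp]
    · simp [hP']
  · simp [hP]

lemma TS_shift' (ht : B → ℕ) (zz : B → G) (s : B → Set (G × ℕ)) (L : List B) (x y : G) (a : ℕ)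
    (z : G) (k : ℕ) : (z, k) ∈ TS ht zz s L x a ↔ (z + y, k) ∈ TS ht zz s L (x + y) a :=
  ⟨TS_shift ht zz s L x y a z k, fun h => by
    have := TS_shift ht zz s L _ (-y) _ _ _ h
    simpa using this⟩

/-- **the assembly** (540's frozen literals #39752, first contact output) -/
theorem kap_main (h1 : ∀ b, 1 ≤ ht b) (hΛ : ∑' b, Λ b = 1) (h1' : ∀ b, 1 ≤ ht' b)
    (hΛ' : ∑' b, Λ' b = 1) (hs : ∀ b q, q ∈ st b → 1 ≤ q.2 ∧ q.2 ≤ ht b)
    (hs' : ∀ b q, q ∈ st' b → 1 ≤ q.2 ∧ q.2 ≤ ht' b)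
    (hm : ∑' b, Λ b * (ht b : ℝ≥0∞) ≠ ⊤) (hm' : ∑' b, Λ' b * (ht' b : ℝ≥0∞) ≠ ⊤)
    (c : ℝ≥0∞) (hc : c ≠ 0) (hU : ∀ n, c ≤ U Λ ht n) (hU' : ∀ n, c ≤ U Λ' ht' n)
    (us : ℕ → ℝ≥0∞) (hus : Tendsto us atTop (𝓝 0)) (C : ℝ≥0∞) (hC : C ≠ ⊤)
    (H2 : ∀ (s h h' a a' lo : ℕ) (E : Finset G) (μ : G → ℝ≥0∞) (M lam : ℝ≥0∞),
      ∑' x, μ x ≤ 1 → (∀ x, μ x ≤ M) → lam ≠ 0 → lam ≠ ⊤ → a + s ≤ lo → a' + s ≤ lo →
      ∑' x, μ x * ∑' L, ∑' L', (if HT ht L = h ∧ Dp zz L ∈ E ∧ HT ht' L' = h' ∧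
        (∃ z k, (z, k) ∈ TS ht zz st L 0 a ∧ (z, k) ∈ TS ht' zz' st' L' x a') ∧
        (∀ z k, (z, k) ∈ TS ht zz st L 0 a → (z, k) ∈ TS ht' zz' st' L' x a' → lo ≤ k)
        then LW Λ L * LW Λ' L' else 0) ≤ C * (lam + M * E.card * us s / lam + us s))
    (H3 : ∀ (s h h' a a' hi : ℕ) (E : Finset G) (μ : G → ℝ≥0∞) (M lam : ℝ≥0∞),
      ∑' x, μ x ≤ 1 → (∀ x, μ x ≤ M) → lam ≠ 0 → lam ≠ ⊤ → hi + s ≤ a + h → hi + s ≤ a' + h' →
      ∑' x, μ x * ∑' L, ∑' L', (if HT ht L = h ∧ Dp zz' L' ∈ E ∧ HT ht' L' = h' ∧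
        (∃ z k, (z, k) ∈ TS ht zz st L 0 a ∧ (z, k) ∈ TS ht' zz' st' L' x a') ∧
        (∀ z k, (z, k) ∈ TS ht zz st L 0 a → (z, k) ∈ TS ht' zz' st' L' x a' → k ≤ hi)
        then LW Λ L * LW Λ' L' else 0) ≤ C * (lam + M * E.card * us s / lam + us s))
    (H5 : ∀ (s : ℕ) (η : ℝ≥0∞), η ≠ 0 → ∃ T, ∀ a ≥ T, ∀ n, ∀ w : G,
      ∑' L, ∑' L', (if HT ht L = n ∧ HT ht' L' = n ∧
        (∃ z k, a ≤ k ∧ k < a + s ∧ (z, k) ∈ TS ht zz st L 0 0 ∧ (z, k) ∈ TS ht' zz' st' L' w 0)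
        then LW Λ L * LW Λ' L' else 0) ≤ η) :
    ∀ ε : ℝ≥0∞, ε ≠ 0 → ∃ M : ℕ, ∀ m, M ≤ m → ∀ n, 2 * m ≤ n → ∀ w : G,
      ∑' L, ∑' L', (if HT ht L = n ∧ HT ht' L' = n ∧
        (∀ z k, (z, k) ∈ TS ht zz st L 0 0 → (z, k) ∈ TS ht' zz' st' L' w 0 → m < k) ∧
        (∃ z k, k ≤ 2 * m ∧ (z, k) ∈ TS ht zz st L 0 0 ∧ (z, k) ∈ TS ht' zz' st' L' w 0)
        then LW Λ L * LW Λ' L' else 0) ≤ ε := by
  intro ε hε
  -- constants
  have hc1 : c ≤ 1 := (hU 0).trans (by rw [U_zero Λ ht h1])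
  have hct : c ≠ ⊤ := ne_top_of_le_ne_top ENNReal.one_ne_top hc1
  set e1 : ℝ≥0∞ := (c * c) * ε / 6 with he1
  have he1' : e1 ≠ 0 := by
    refine ENNReal.div_ne_zero.2 ⟨?_, by simp⟩
    exact mul_ne_zero (mul_ne_zero hc hc) hε
  obtain ⟨J, u, q, hu0, hu1, hqu, hq1, hJ⟩ := exists_J e1 he1'
  set K : ℕ := 8 * J + 8 with hK
  have hKt : (K : ℝ≥0∞) ≠ ⊤ := ENNReal.natCast_ne_top K
  -- overshoot level
  obtain ⟨ov, hov0, -, hov⟩ := exists_small ((K : ℝ≥0∞) * (J + J + 4)) e1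
    (ENNReal.mul_ne_top hKt (by simp)) he1'
  obtain ⟨i1, hi1⟩ := exists_over h1 hΛ hm ov hov0
  obtain ⟨i2, hi2⟩ := exists_over h1' hΛ' hm' ov hov0
  set i0 := max i1 i2 with hi0
  have ho := hi1 i0 (le_max_left _ _)
  have ho' := hi2 i0 (le_max_right _ _)
  -- lam
  set A : ℝ≥0∞ := K * ((((i0 + 1 : ℕ) : ℝ≥0∞) ^ 4 + ((i0 + 1 : ℕ) : ℝ≥0∞) ^ 4) * C) with hA
  have hAt : A ≠ ⊤ := ENNReal.mul_ne_top hKt (ENNReal.mul_ne_top (by simp) hC)
  obtain ⟨lam, hlam0, hlamt, hlam⟩ := exists_small A e1 hAt he1'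
  -- s
  set A2 : ℝ≥0∞ := A * (J * (i0 + 1 : ℕ) / lam + 1) with hA2
  have hA2t : A2 ≠ ⊤ := by
    refine ENNReal.mul_ne_top hAt (ENNReal.add_ne_top.2 ⟨?_, ENNReal.one_ne_top⟩)
    exact ENNReal.div_ne_top (ENNReal.mul_ne_top (by simp) (by simp)) hlam0
  obtain ⟨x, hx0, -, hx⟩ := exists_small A2 e1 hA2t he1'
  obtain ⟨s, hsx⟩ := eventually_atTop.1 (ENNReal.tendsto_nhds_zero.1 hus x (pos_iff_ne_zero.2 hx0))
  have hss := hsx s le_rfl
  -- slab
  obtain ⟨η, hη0, -, hη⟩ := exists_small (K : ℝ≥0∞) e1 hKt he1'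
  obtain ⟨T0, hT0⟩ := H5 (s + 2 * i0 + 1) η hη0
  refine ⟨K * (T0 + s + i0 + 8) + K, fun m hm n hn w => ?_⟩
  -- windows
  set t := m / K + 1 with hteq
  have hKpos : 0 < K := by omega
  have ht1 : m < K * t := by
    rw [hteq, mul_add, mul_one]
    exact Nat.lt_mul_div_succ m hKpos |>.trans_le (by rw [mul_add, mul_one])
  have ht2 : K * t ≤ m + K := by
    rw [hteq, mul_add, mul_one]
    exact Nat.add_le_add_right (Nat.mul_div_le m K) K
  have htbig : T0 + s + i0 + 8 ≤ t := by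
    by_contra hcon
    push Not at hcon
    have : K * t ≤ K * (T0 + s + i0 + 8) := Nat.mul_le_mul_left K hcon.le
    omega
  have hJt : J * (3 * t + i0) + t ≤ m := by
    have h3 : 3 * t + i0 ≤ 4 * t := by omega
    have h4 : J * (3 * t + i0) ≤ J * (4 * t) := Nat.mul_le_mul_left J h3
    have h5 : K * t = 8 * (J * t) + 8 * t := by rw [hK]; ring
    have h6 : J * (4 * t) = 4 * (J * t) := by ring
    have h7 : K ≤ K * t := Nat.le_mul_of_pos_right K (by omega)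
    have h8 : K * 2 ≤ K * t := Nat.mul_le_mul_left K (by omega)
    omega
  -- the events
  obtain ⟨E, hE⟩ : ∃ E : List B → List B' → Prop, ∀ L L', E L L' ↔
      ((∀ z k, (z, k) ∈ TS ht zz st L 0 0 → (z, k) ∈ TS ht' zz' st' L' w 0 → m < k) ∧
        (∃ z k, k ≤ 2 * m ∧ (z, k) ∈ TS ht zz st L 0 0 ∧ (z, k) ∈ TS ht' zz' st' L' w 0)) :=
    ⟨_, fun _ _ => Iff.rfl⟩
  set D := n + (K * t + 3 * t + i0 + m) with hD
  have start : (∑' L, ∑' L', (if HT ht L = n ∧ HT ht' L' = n ∧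
        (∀ z k, (z, k) ∈ TS ht zz st L 0 0 → (z, k) ∈ TS ht' zz' st' L' w 0 → m < k) ∧
        (∃ z k, k ≤ 2 * m ∧ (z, k) ∈ TS ht zz st L 0 0 ∧ (z, k) ∈ TS ht' zz' st' L' w 0)
        then LW Λ L * LW Λ' L' else 0))
      = HS Λ ht n (fun L => HS Λ' ht' n (fun L' => if E L L' then 1 else 0)) := by
    rw [HSHSd]
    refine tsum_congr fun L => tsum_congr fun L' => if_congr ?_ rfl rfl
    rw [hE]
  rw [start]
  have hext := ext2_le h1 h1' c hU hU' n (K * t + 3 * t + i0 + m) E E (by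
    intro L R L' R' hL hL' hEL
    rw [hE] at hEL ⊢
    obtain ⟨e1, z, k, hk, c1, c2⟩ := hEL
    refine ⟨fun z k m1 m2 => ?_, z, k, hk, ?_, ?_⟩
    · rw [TS_append] at m1 m2
      rcases m1 with m1 | m1
      · rcases m2 with m2 | m2
        · exact e1 z k m1 m2
        · have := TS_depth ht' zz' st' hs' _ _ _ _ _ m2; omega
      · have := TS_depth ht zz st hs _ _ _ _ _ m1; omega
    · rw [TS_append]; exact Or.inl c1
    · rw [TS_append]; exact Or.inl c2)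
  -- windows
  set al : ℕ → ℕ := fun j => m + j * t - t with hal
  set hi : ℕ → ℕ := fun j => al j + 3 * t - s with hhi
  obtain ⟨S, hS⟩ : ∃ S : ℕ → List B → List B' → Prop, ∀ j L L', S j L L' ↔
      (∃ z k, hi j + 1 ≤ k ∧ k < hi j + 1 + (s + 2 * i0 + 1) ∧ (z, k) ∈ TS ht zz st L 0 0 ∧
        (z, k) ∈ TS ht' zz' st' L' w 0) := ⟨_, fun _ _ _ => Iff.rfl⟩
  obtain ⟨W, hW⟩ : ∃ W : ℕ → List B → List B' → Prop, ∀ j L L', W j L L' ↔
      ((∀ z k, Meet ht zz st ht' zz' st' w 0 0 L L' z k → m + j * t + 1 ≤ k) ∧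
        (∃ z k, k < m + j * t + 1 + t ∧ Meet ht zz st ht' zz' st' w 0 0 L L' z k) ∧
        (∀ z k, Meet ht zz st ht' zz' st' w 0 0 L L' z k → k ≤ hi j ∨
          al j + i0 + 3 * t + i0 < k)) := ⟨_, fun _ _ _ => Iff.rfl⟩
  have split : ∀ L L', (if E L L' then (1 : ℝ≥0∞) else 0)
      ≤ ∑ j ∈ Finset.range K, ((if S j L L' then 1 else 0) + (if W j L L' then 1 else 0)) := by
    intro L L'
    by_cases h : E L L'
    · rw [if_pos h]
      rw [hE] at h
      obtain ⟨e1, z0, k0, hk0, c1, c2⟩ := h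
      have hex : ∃ k, ∃ z, Meet ht zz st ht' zz' st' w 0 0 L L' z k := ⟨k0, z0, c1, c2⟩
      obtain ⟨z, hz⟩ := Nat.find_spec hex
      have hmin : ∀ z k, Meet ht zz st ht' zz' st' w 0 0 L L' z k → Nat.find hex ≤ k :=
        fun z k hzk => Nat.find_min' hex ⟨z, hzk⟩
      set k1 := Nat.find hex with hk1
      have hk1m : m < k1 := e1 z k1 hz.1 hz.2
      have hk1m2 : k1 ≤ 2 * m := (hmin z0 k0 ⟨c1, c2⟩).trans hk0
      have htp : 0 < t := by omega
      have hdm := Nat.div_add_mod (k1 - m - 1) t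
      have hml := Nat.mod_lt (k1 - m - 1) htp
      have hjK : (k1 - m - 1) / t < K := by
        rw [Nat.div_lt_iff_lt_mul htp]; omega
      set j := (k1 - m - 1) / t with hj
      have hcomm : t * j = j * t := mul_comm _ _
      refine le_trans ?_ (Finset.single_le_sum (fun _ _ => zero_le) (Finset.mem_range.2 hjK))
      by_cases hSj : S j L L'
      · rw [if_pos hSj]; exact le_self_add
      · refine le_add_left ?_
        rw [if_pos]
        rw [hW]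
        refine ⟨fun z k hzk => ?_, ⟨z, k1, ?_, hz⟩, fun z k hzk => ?_⟩
        · have := hmin z k hzk; omega
        · omega
        · by_contra hcon
          push Not at hcon
          refine hSj ((hS _ _ _).2 ⟨z, k, ?_, ?_, hzk.1, hzk.2⟩)
          · omega
          · have : hi j + s = al j + 3 * t := by simp only [hhi]; omega
            omega
    · rw [if_neg h]; exact zero_le
  set R : ℝ≥0∞ := C * (lam + J * (i0 + 1 : ℕ) * us s / lam + us s) with hR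
  have hwin : ∀ j ∈ Finset.range K,
      HS Λ ht D (fun L => HS Λ' ht' D (fun L' => if W j L L' then 1 else 0))
      ≤ ((q ^ J + J * ov) + (q ^ J + J * ov) + u * u + ((i0 + 1 : ℕ) : ℝ≥0∞) ^ 4 * R
        + ((i0 + 1 : ℕ) : ℝ≥0∞) ^ 4 * R) + 4 * ov := by
    intro j hj
    have hjK := Finset.mem_range.1 hj
    have hjt : j * t + t ≤ K * t := by
      have := Nat.mul_le_mul_right t (show j + 1 ≤ K by omega)
      rw [add_mul, one_mul] at this; exact this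
    obtain ⟨th, hth0, hth1, hth2⟩ := exists_th h1 hΛ zz (3 * t) u q hu0 hu1 hqu
    obtain ⟨th', hth0', hth1', hth2'⟩ := exists_th h1' hΛ' zz' (3 * t) u q hu0 hu1 hqu
    have halj : al j + t = m + j * t := by simp only [hal]; omega
    have hhij : hi j + s = al j + 3 * t := by simp only [hhi]; omega
    obtain ⟨Φ2, hΦ2⟩ : ∃ Φ2 : G → ℕ → ℕ → List B → List B' → Prop, ∀ x a a' P P',
        Φ2 x a a' P P' ↔ ((∃ z k, Meet ht zz st ht' zz' st' x a a' P P' z k) ∧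
        ∀ z k, Meet ht zz st ht' zz' st' x a a' P P' z k → m + j * t + 1 ≤ k) :=
      ⟨_, fun _ _ _ _ _ => Iff.rfl⟩
    obtain ⟨Φ3, hΦ3⟩ : ∃ Φ3 : G → ℕ → ℕ → List B' → List B → Prop, ∀ x a' a P' P,
        Φ3 x a' a P' P ↔ ((∃ z k, Meet ht zz st ht' zz' st' (-x) a a' P P' z k) ∧
        ∀ z k, Meet ht zz st ht' zz' st' (-x) a a' P P' z k → k ≤ hi j) :=
      ⟨_, fun _ _ _ _ _ => Iff.rfl⟩
    refine window (zz := zz) (zz' := zz') (st := st) (st' := st') h1 hΛ h1' hΛ' hs hs' (al j)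
      (3 * t) i0 D s t (m + j * t + 1) (hi j) J
      (by omega) (by omega) hhij (by omega) (by omega) ov q u th th' R hq1 ho ho' hth1 hth1'
      hth2 hth2'
      Φ2 hΦ2 Φ3 hΦ3 ?_ ?_ w (W j) (fun L L' h => (hW _ _ _).1 h)
    · intro a a' h h' ha1 ha2 ha3 ha4 hh1 hh2 hh3 hh4 μ hμ1 hμ2
      obtain ⟨F, hF, hFc⟩ := exists_set h1 hΛ zz (3 * t) th hth0 h
      have key := H2 s h h' a a' (m + j * t + 1) F μ _ lam hμ1 hμ2 hlam0 hlamt (by omega)
        (by omega)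
      refine le_trans (le_of_eq ?_) (key.trans ?_)
      · refine tsum_congr fun x => ?_
        rw [HSHSd h h' (fun P P' => th ≤ pp Λ ht zz (3 * t) (h, Dp zz P) ∧ Φ2 x a a' P P')]
        congr 1
        refine tsum_congr fun P => tsum_congr fun P' => if_congr ?_ rfl rfl
        rw [hF, hΦ2]
        constructor
        · rintro ⟨r1, r2, r3, ⟨z, k, r4⟩, r5⟩
          exact ⟨r1, r3, r2, ⟨z, k, r4.1, r4.2⟩, fun z k q1 q2 => r5 z k ⟨q1, q2⟩⟩
        · rintro ⟨r1, r2, r3, ⟨z, k, r4⟩, r5⟩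
          exact ⟨r1, r3, r2, ⟨z, k, r4.1, r4.2⟩, fun z k q => r5 z k q.1 q.2⟩
      · rw [hR]
        have := card_bound J i0 th F hFc
        gcongr
    · intro a a' h h' ha1 ha2 ha3 ha4 hh1 hh2 hh3 hh4 μ hμ1 hμ2
      obtain ⟨F, hF, hFc⟩ := exists_set h1' hΛ' zz' (3 * t) th' hth0' h'
      have hneg : ∑' x, μ (-x) ≤ 1 := by
        have := (Equiv.neg G).tsum_eq μ
        simp only [Equiv.neg_apply] at this
        rw [this]; exact hμ1
      have key := H3 s h h' a a' (hi j) F (fun x => μ (-x)) _ lam hneg (fun x => hμ2 (-x)) hlam0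
        hlamt (by omega) (by omega)
      refine le_trans (le_of_eq ?_) (key.trans ?_)
      · rw [← (Equiv.neg G).tsum_eq]
        refine tsum_congr fun x => ?_
        simp only [Equiv.neg_apply]
        rw [HS_comm, HSHSd h h' (fun P P' => th' ≤ pp Λ' ht' zz' (3 * t) (h', Dp zz' P') ∧
          Φ3 (-x) a' a P' P)]
        congr 1
        refine tsum_congr fun P => tsum_congr fun P' => if_congr ?_ rfl rfl
        rw [hF, hΦ3, neg_neg]
        constructor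
        · rintro ⟨r1, r2, r3, ⟨z, k, r4⟩, r5⟩
          exact ⟨r1, r3, r2, ⟨z, k, r4.1, r4.2⟩, fun z k q1 q2 => r5 z k ⟨q1, q2⟩⟩
        · rintro ⟨r1, r2, r3, ⟨z, k, r4⟩, r5⟩
          exact ⟨r1, r3, r2, ⟨z, k, r4.1, r4.2⟩, fun z k q => r5 z k q.1 q.2⟩
      · rw [hR]
        have := card_bound J i0 th' F hFc
        gcongr
  have hslab : ∀ j ∈ Finset.range K,
      HS Λ ht D (fun L => HS Λ' ht' D (fun L' => if S j L L' then 1 else 0)) ≤ η := by
    intro j _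
    have : T0 ≤ hi j + 1 := by simp only [hhi, hal]; omega
    refine le_trans (le_of_eq ?_) (hT0 (hi j + 1) this D w)
    rw [HSHSd]
    refine tsum_congr fun L => tsum_congr fun L' => if_congr ?_ rfl rfl
    rw [hS]
  have total : HS Λ ht D (fun L => HS Λ' ht' D (fun L' => if E L L' then 1 else 0))
      ≤ ∑ j ∈ Finset.range K, (η + (((q ^ J + J * ov) + (q ^ J + J * ov) + u * u
        + ((i0 + 1 : ℕ) : ℝ≥0∞) ^ 4 * R + ((i0 + 1 : ℕ) : ℝ≥0∞) ^ 4 * R) + 4 * ov)) := by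
    calc _ ≤ HS Λ ht D (fun L => HS Λ' ht' D (fun L' => ∑ j ∈ Finset.range K,
          ((if S j L L' then 1 else 0) + (if W j L L' then 1 else 0)))) :=
          HS_mono _ _ _ fun L _ => HS_mono _ _ _ fun L' _ => split L L'
      _ = ∑ j ∈ Finset.range K, (HS Λ ht D (fun L => HS Λ' ht' D (fun L' =>
            if S j L L' then 1 else 0)) + HS Λ ht D (fun L => HS Λ' ht' D (fun L' =>
            if W j L L' then 1 else 0))) := by
          have s1 : ∀ (s : Finset ℕ) (F : ℕ → List B' → ℝ≥0∞),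
              HS Λ' ht' D (fun L' => ∑ j ∈ s, F j L') = ∑ j ∈ s, HS Λ' ht' D (F j) := by
            intro s F
            induction s using Finset.induction_on with
            | empty => simp [HS]
            | insert a s ha ih => simp only [Finset.sum_insert ha]; rw [HS_add, ih]
          have s2 : ∀ (s : Finset ℕ) (F : ℕ → List B → ℝ≥0∞),
              HS Λ ht D (fun L' => ∑ j ∈ s, F j L') = ∑ j ∈ s, HS Λ ht D (F j) := by
            intro s F
            induction s using Finset.induction_on with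
            | empty => simp [HS]
            | insert a s ha ih => simp only [Finset.sum_insert ha]; rw [HS_add, ih]
          simp only [s1, s2, HS_add]
      _ ≤ _ := Finset.sum_le_sum fun j hj => add_le_add (hslab j hj) (hwin j hj)
  -- arithmetic
  have arith : ∑ j ∈ Finset.range K, (η + (((q ^ J + J * ov) + (q ^ J + J * ov) + u * u
        + ((i0 + 1 : ℕ) : ℝ≥0∞) ^ 4 * R + ((i0 + 1 : ℕ) : ℝ≥0∞) ^ 4 * R) + 4 * ov))
      ≤ c * c * ε := by
    rw [Finset.sum_const, Finset.card_range, nsmul_eq_mul]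
    have r1 : A * lam + A2 * us s = K * ((((i0 + 1 : ℕ) : ℝ≥0∞) ^ 4
        + ((i0 + 1 : ℕ) : ℝ≥0∞) ^ 4) * R) := by
      rw [hA2, hA, hR, div_eq_mul_inv, div_eq_mul_inv]; ring
    calc _ = K * η + K * ((q ^ J + q ^ J) + u * u) + (K * (J + J + 4)) * ov
          + K * ((((i0 + 1 : ℕ) : ℝ≥0∞) ^ 4 + ((i0 + 1 : ℕ) : ℝ≥0∞) ^ 4) * R) := by ring
      _ = K * η + K * ((q ^ J + q ^ J) + u * u) + (K * (J + J + 4)) * ov
          + (A * lam + A2 * us s) := by rw [r1]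
      _ ≤ e1 + e1 + e1 + (e1 + e1) := by
          refine add_le_add (add_le_add (add_le_add hη hJ) hov) (add_le_add hlam ?_)
          exact (mul_le_mul_right hss _).trans hx
      _ ≤ 6 * e1 := by
          have : (6 : ℝ≥0∞) * e1 = (e1 + e1 + e1 + (e1 + e1)) + e1 := by ring
          rw [this]; exact le_self_add
      _ = c * c * ε := by
          rw [he1]; exact ENNReal.mul_div_cancel (by simp) (by simp)
  have fin := (hext.trans total).trans arith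
  have hcc0 : c * c ≠ 0 := mul_ne_zero hc hc
  have hcct : c * c ≠ ⊤ := ENNReal.mul_ne_top hct hct
  calc HS Λ ht n (fun L => HS Λ' ht' n (fun L' => if E L L' then 1 else 0))
      = (HS Λ ht n (fun L => HS Λ' ht' n (fun L' => if E L L' then 1 else 0)) * (c * c))
        * (c * c)⁻¹ := by rw [mul_assoc, ENNReal.mul_inv_cancel hcc0 hcct, mul_one]
    _ ≤ (c * c * ε) * (c * c)⁻¹ := by gcongr
    _ = ε := by
        rw [mul_comm, ← mul_assoc, ENNReal.inv_mul_cancel hcc0 hcct, one_mul]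

end Crest.Agent.R154.Kap506
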