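import Crest.Agent.R154.Asm_225

/-! Row 154 (helper225), ROAD 801: KAPPA' on lists of blocks from the window lemmas and the one-level
lemma. -/

set_option autoImplicit false

namespace Crest.Agent.R154.Cd225

open scoped ENNReal Topology
open Crest.Agent.R154.B5A
open Crest.Agent.R154.FP178 (fp)

variable {BX BY G : Type*} [AddCommGroup G] (X : Wk BX G) (Y : Wk BY G)

open Classical in
/-- one window, all constants fixed -/
theorem window_le (K T s W i0 : ℕ) (hsT : s ≤ T) (hW : 2 * K * i0 + s ≤ W)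
    (u D : ℝ≥0∞) (hu0 : u ≠ 0) (hu1 : u ≤ 1)
    (hDX : ∀ (lo hi a a' h h' : ℕ) (E : Finset G) (μ : G → ℝ≥0∞) (M : ℝ≥0∞), ∑' x, μ x ≤ 1 →
      (∀ x, μ x ≤ M) → M ≠ ⊤ → M * E.card ≤ (2 * K : ℕ) →
      a ≤ a' + (2 * K * i0 + i0) → a' ≤ a + (2 * K * i0 + i0) →
      a + h ≤ a' + h' + (2 * K * i0 + i0) → a' + h' ≤ a + h + (2 * K * i0 + i0) →
      a + s ≤ lo → a' + s ≤ lo → hi + s ≤ a + h → hi + s ≤ a' + h' →
      ∑' x, μ x * SX X Y lo hi a a' h h' E x ≤ D)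
    (hDY : ∀ (lo hi a a' h h' : ℕ) (E : Finset G) (μ : G → ℝ≥0∞) (M : ℝ≥0∞), ∑' x, μ x ≤ 1 →
      (∀ x, μ x ≤ M) → M ≠ ⊤ → M * E.card ≤ (2 * K : ℕ) →
      a ≤ a' + (2 * K * i0 + i0) → a' ≤ a + (2 * K * i0 + i0) →
      a + h ≤ a' + h' + (2 * K * i0 + i0) → a' + h' ≤ a + h + (2 * K * i0 + i0) →
      a + s ≤ lo → a' + s ≤ lo → hi + s ≤ a + h → hi + s ≤ a' + h' →
      ∑' x, μ x * SY X Y lo hi a a' h h' E x ≤ D)
    (j : ℕ) (hj : j < 2 * K) (w : G) :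
    SL (X.l T i0) j (fun P => SL (Y.l T i0) j (fun P' => ∑' A, ∑' A',
          X.l T i0 A * (Y.l T i0 A' * (if Cc X Y (j * T + W) ((j + 1) * T - s)
            (P.map X.f).sum.1 (P'.map Y.f).sum.1
            (w + (P'.map Y.f).sum.2 - (P.map X.f).sum.2) A A' then 1 else 0))))
      ≤ u * u + 2 * ((1 - u) ^ j + (2 * K * i0 + 1 : ℕ) * ((2 * K * i0 + 1 : ℕ) *
        ((i0 + 1) * ((i0 + 1) * D)))) := by
  obtain ⟨tX, tX0, tX1, tX2, tX3⟩ := X.exists_th T i0 u hu0 hu1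
  obtain ⟨tY, tY0, tY1, tY2, tY3⟩ := Y.exists_th T i0 u hu0 hu1
  choose EX hEX1 hEX2 using tX3
  choose EY hEY1 hEY2 using tY3
  have hq1 : (1 - u) ≤ 1 := tsub_le_self
  have hsum : ∑ l ∈ Finset.range j, (1 - u) ^ l ≤ (2 * K : ℕ) := by
    calc ∑ l ∈ Finset.range j, (1 - u) ^ l ≤ ∑ _l ∈ Finset.range j, (1 : ℝ≥0∞) :=
          Finset.sum_le_sum fun l _ => pow_le_one₀ zero_le hq1
      _ = (j : ℝ≥0∞) := by simp
      _ ≤ _ := by exact_mod_cast hj.le
  have hsumt : ∑ l ∈ Finset.range j, (1 - u) ^ l ≠ ⊤ :=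
    ne_top_of_le_ne_top (ENNReal.natCast_ne_top _) hsum
  set R := Finset.Icc (j * T) (j * T + 2 * K * i0) with hR
  have hRc : R.card = 2 * K * i0 + 1 := by rw [hR, Nat.card_Icc]; omega
  have tfin : ∀ {t : ℝ≥0∞} {n : ℕ}, t ≤ 1 → t * ∑ l ∈ Finset.range j, (1 - u) ^ l ≠ ⊤ :=
    fun ht => ENNReal.mul_ne_top (ne_top_of_le_ne_top ENNReal.one_ne_top ht) hsumt
  -- if the threshold is infinite or larger than one nothing is local
  have hMc : ∀ (t : ℝ≥0∞) (E : Finset G), t * E.card ≤ 1 →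
      (t * ∑ l ∈ Finset.range j, (1 - u) ^ l) * E.card ≤ (2 * K : ℕ) := by
    intro t E h
    calc (t * ∑ l ∈ Finset.range j, (1 - u) ^ l) * E.card
        = (∑ l ∈ Finset.range j, (1 - u) ^ l) * (t * E.card) := by ring
      _ ≤ (2 * K : ℕ) * 1 := mul_le_mul' hsum h
      _ = _ := mul_one _
  have hj1T : (j + 1) * T = j * T + T := by ring
  have main := window (X.l T i0) (Y.l T i0) X.f Y.f (X.l_le T i0) (Y.l_le T i0) j u (1 - u) tX tY
    (fun A => tX ≤ X.p0 T (X.f A)) (fun A => tY ≤ Y.p0 T (Y.f A))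
    (fun a a' x A A' => if Cc X Y (j * T + W) ((j + 1) * T - s) a a' x A A' then 1 else 0)
    (fun a a' x A A' => by split_ifs <;> simp) R
    (fun v hv => X.Pj_supp T i0 j (2 * K) hj.le v hv)
    (fun v hv => Y.Pj_supp T i0 j (2 * K) hj.le v hv) tX1 tY1 tX2 tY2
    ((i0 + 1) * ((i0 + 1) * D))
    (by
      intro a ha a' ha' μ hμ1 hμ2
      rw [hR, Finset.mem_Icc] at ha ha'
      refine locX_bound X Y _ _ a a' T i0 tX D EX hEX1 μ fun h hh h' hh' => ?_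
      rw [Finset.mem_Icc] at hh hh'
      by_cases ht : tX ≤ 1
      · exact hDX _ _ a a' h h' (EX h) μ _ hμ1 hμ2 (tfin (n := 0) ht) (hMc tX _ (hEX2 h))
          (by omega) (by omega) (by omega) (by omega) (by omega) (by omega) (by omega) (by omega)
      · have hE0 : EX h = ∅ := by
          by_contra hne
          have h1 : 1 ≤ (EX h).card := Finset.card_pos.2 (Finset.nonempty_iff_ne_empty.2 hne)
          have : tX * 1 ≤ 1 := le_trans (mul_le_mul_right (by exact_mod_cast h1) _) (hEX2 h)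
          rw [mul_one] at this
          exact ht this
        refine hDX _ _ a a' h h' (EX h) μ 1 hμ1 (fun x => (ENNReal.le_tsum x).trans hμ1)
          ENNReal.one_ne_top (by rw [hE0]; simp)
          (by omega) (by omega) (by omega) (by omega) (by omega) (by omega) (by omega) (by omega))
    (by
      intro a ha a' ha' μ hμ1 hμ2
      rw [hR, Finset.mem_Icc] at ha ha'
      refine locY_bound X Y _ _ a a' T i0 tY D EY hEY1 μ fun h hh h' hh' => ?_
      rw [Finset.mem_Icc] at hh hh'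
      by_cases ht : tY ≤ 1
      · exact hDY _ _ a a' h h' (EY h') μ _ hμ1 hμ2 (tfin (n := 0) ht) (hMc tY _ (hEY2 h'))
          (by omega) (by omega) (by omega) (by omega) (by omega) (by omega) (by omega) (by omega)
      · have hE0 : EY h' = ∅ := by
          by_contra hne
          have h1 : 1 ≤ (EY h').card := Finset.card_pos.2 (Finset.nonempty_iff_ne_empty.2 hne)
          have : tY * 1 ≤ 1 := le_trans (mul_le_mul_right (by exact_mod_cast h1) _) (hEY2 h')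
          rw [mul_one] at this
          exact ht this
        refine hDY _ _ a a' h h' (EY h') μ 1 hμ1 (fun x => (ENNReal.le_tsum x).trans hμ1)
          ENNReal.one_ne_top (by rw [hE0]; simp)
          (by omega) (by omega) (by omega) (by omega) (by omega) (by omega) (by omega) (by omega))
    w
  rw [hRc] at main
  exact main

open Classical in
/-- slabs are split off -/
theorem slab_split (m n K T s W : ℕ) (w : G) (η : ℝ≥0∞) (k0 : ℕ) (hk0 : k0 + s ≤ K * T)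
    (hn : 2 * m ≤ n) (hpt : ∀ k, k0 ≤ k → ∀ n, k ≤ n → ∀ w : G,
      ∑' L, ∑' L', (if HT X.h L = n ∧ HT Y.h L' = n ∧
        (∃ z, (z, k) ∈ X.T L 0 0 ∧ (z, k) ∈ Y.T L' w 0) then LW X.Λ L * LW Y.Λ L' else 0) ≤ η) :
    ∑' L, ∑' L', (if HT X.h L = n ∧ HT Y.h L' = n ∧
        (∃ z k, m < k ∧ k ≤ 2 * m ∧ (z, k) ∈ X.T L 0 0 ∧ (z, k) ∈ Y.T L' w 0) then
        LW X.Λ L * LW Y.Λ L' else 0)
      ≤ ((K + 1 : ℕ) : ℝ≥0∞) * (((W + s + 1 : ℕ) : ℝ≥0∞) * η) +
        ∑' L, ∑' L', (if HT X.h L = n ∧ HT Y.h L' = n ∧ Ev X Y m K T s W w L L' then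
          LW X.Λ L * LW Y.Λ L' else 0) := by
  have key : ∀ L L', (if HT X.h L = n ∧ HT Y.h L' = n ∧
        (∃ z k, m < k ∧ k ≤ 2 * m ∧ (z, k) ∈ X.T L 0 0 ∧ (z, k) ∈ Y.T L' w 0) then
        LW X.Λ L * LW Y.Λ L' else 0)
      ≤ (∑ j ∈ Finset.Icc K (2 * K), ∑ k ∈ Finset.Icc (j * T - s) (j * T + W),
          (if k ≤ 2 * m ∧ HT X.h L = n ∧ HT Y.h L' = n ∧
            (∃ z, (z, k) ∈ X.T L 0 0 ∧ (z, k) ∈ Y.T L' w 0) then LW X.Λ L * LW Y.Λ L' else 0))
        + (if HT X.h L = n ∧ HT Y.h L' = n ∧ Ev X Y m K T s W w L L' then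
          LW X.Λ L * LW Y.Λ L' else 0) := by
    intro L L'
    by_cases h : HT X.h L = n ∧ HT Y.h L' = n ∧
        (∃ z k, m < k ∧ k ≤ 2 * m ∧ (z, k) ∈ X.T L 0 0 ∧ (z, k) ∈ Y.T L' w 0)
    · rw [if_pos h]
      by_cases hE : Ev X Y m K T s W w L L'
      · rw [if_pos (⟨h.1, h.2.1, hE⟩ : HT X.h L = n ∧ HT Y.h L' = n ∧ Ev X Y m K T s W w L L')]
        exact le_add_self
      · refine le_trans ?_ le_self_add
        have : ¬ ∀ z k, k ≤ 2 * m → (z, k) ∈ X.T L 0 0 → (z, k) ∈ Y.T L' w 0 →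
            ¬ Slab K T s W k := fun hh => hE ⟨h.2.2, hh⟩
        push Not at this
        obtain ⟨z, k, g1, g2, g3, j, g4, g5, g6, g7⟩ := this
        refine le_trans ?_ (Finset.single_le_sum (f := fun j =>
          ∑ k ∈ Finset.Icc (j * T - s) (j * T + W),
          (if k ≤ 2 * m ∧ HT X.h L = n ∧ HT Y.h L' = n ∧
            (∃ z, (z, k) ∈ X.T L 0 0 ∧ (z, k) ∈ Y.T L' w 0) then LW X.Λ L * LW Y.Λ L' else 0))
          (fun _ _ => zero_le) (Finset.mem_Icc.2 ⟨g4, g5⟩))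
        refine le_trans ?_ (Finset.single_le_sum (f := fun k =>
          (if k ≤ 2 * m ∧ HT X.h L = n ∧ HT Y.h L' = n ∧
            (∃ z, (z, k) ∈ X.T L 0 0 ∧ (z, k) ∈ Y.T L' w 0) then LW X.Λ L * LW Y.Λ L' else 0))
          (fun _ _ => zero_le) (Finset.mem_Icc.2 (⟨by omega, g7⟩ : j * T - s ≤ k ∧ k ≤ j * T + W)))
        rw [if_pos ⟨g1, h.1, h.2.1, z, g2, g3⟩]
    · rw [if_neg h]; exact zero_le
  refine (ENNReal.tsum_le_tsum fun L => ENNReal.tsum_le_tsum fun L' => key L L').trans ?_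
  simp_rw [ENNReal.tsum_add]
  refine add_le_add ?_ le_rfl
  simp_rw [Summable.tsum_finsetSum (fun _ _ => ENNReal.summable)]
  calc ∑ j ∈ Finset.Icc K (2 * K), ∑ k ∈ Finset.Icc (j * T - s) (j * T + W),
        ∑' L, ∑' L', (if k ≤ 2 * m ∧ HT X.h L = n ∧ HT Y.h L' = n ∧
            (∃ z, (z, k) ∈ X.T L 0 0 ∧ (z, k) ∈ Y.T L' w 0) then LW X.Λ L * LW Y.Λ L' else 0)
      ≤ ∑ j ∈ Finset.Icc K (2 * K), ∑ k ∈ Finset.Icc (j * T - s) (j * T + W), η := by
        refine Finset.sum_le_sum fun j hj => Finset.sum_le_sum fun k hk => ?_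
        rw [Finset.mem_Icc] at hj hk
        by_cases hk2 : k ≤ 2 * m
        · have : K * T ≤ j * T := Nat.mul_le_mul_right _ hj.1
          refine le_trans (le_of_eq ?_) (hpt k (by omega) n (by omega) w)
          refine tsum_congr fun L => tsum_congr fun L' => ?_
          simp only [hk2, true_and]
        · simp [hk2]
    _ ≤ ∑ j ∈ Finset.Icc K (2 * K), ((W + s + 1 : ℕ) : ℝ≥0∞) * η := by
        refine Finset.sum_le_sum fun j _ => ?_
        rw [Finset.sum_const, nsmul_eq_mul, Nat.card_Icc]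
        refine mul_le_mul_left ?_ _
        exact_mod_cast (show j * T + W + 1 - (j * T - s) ≤ W + s + 1 by omega)
    _ = _ := by
        rw [Finset.sum_const, nsmul_eq_mul, Nat.card_Icc, show 2 * K + 1 - K = K + 1 by omega]

lemma Wk.over_small {B : Type*} (W : Wk B G) (c : ℕ) (ε : ℝ≥0∞) (hε : ε ≠ 0) : ∃ i0 : ℕ, ∀ i, i0 ≤ i →
    (c : ℝ≥0∞) * ∑' k, tail W.Λ W.h (i + k) ≤ ε := by
  have h := ENNReal.tendsto_sum_nat_add (fun k => tail W.Λ W.h k) W.hm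
  obtain ⟨i0, hi⟩ := NumK658.chooseNat _ h c (ENNReal.natCast_ne_top c) ε hε
  refine ⟨i0, fun i hii => ?_⟩
  have := hi i hii
  simp only [add_comm] at this ⊢
  exact this

open Classical in
/-- **KAPPA' on lists of blocks.** -/
theorem kapS (H2 : HQ (SX X Y)) (H3 : HQ (SY X Y)) (hPt : HPt X Y) :
    ∀ ε : ℝ≥0∞, ε ≠ 0 → ∃ M : ℕ, ∀ m, M ≤ m → ∀ n, 2 * m ≤ n → ∀ w : G,
    ∑' L, ∑' L', (if HT X.h L = n ∧ HT Y.h L' = n ∧
        (∃ z k, m < k ∧ k ≤ 2 * m ∧ (z, k) ∈ X.T L 0 0 ∧ (z, k) ∈ Y.T L' w 0) then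
        LW X.Λ L * LW Y.Λ L' else 0) ≤ ε := by
  intro ε hε
  set e := ε / 6 with he
  have he0 : e ≠ 0 := by
    rw [he, Ne, ENNReal.div_eq_zero_iff, not_or]
    exact ⟨hε, by norm_num⟩
  obtain ⟨K, u, _, hK1, hu0, hu1, hKu, hKq⟩ := NumK658.chooseK1 2 (by norm_num) e he0 1
  obtain ⟨i1, hi1⟩ := X.over_small (2 * K) e he0
  obtain ⟨i2, hi2⟩ := Y.over_small (2 * K) e he0
  set i0 := max i1 i2 with hi0
  have hiX := hi1 i0 (le_max_left _ _)
  have hiY := hi2 i0 (le_max_right _ _)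
  set N4 : ℝ≥0∞ := (K : ℝ≥0∞) * (2 * ((2 * K * i0 + 1 : ℕ) * ((2 * K * i0 + 1 : ℕ) *
        ((i0 + 1) * (i0 + 1))))) with hN4
  have hN4t : N4 ≠ ⊤ := by
    rw [hN4]
    have h1 : ((i0 : ℝ≥0∞) + 1) ≠ ⊤ := by
      exact_mod_cast ENNReal.natCast_ne_top (i0 + 1)
    exact ENNReal.mul_ne_top (ENNReal.natCast_ne_top _) (ENNReal.mul_ne_top (by norm_num)
      (ENNReal.mul_ne_top (ENNReal.natCast_ne_top _) (ENNReal.mul_ne_top
        (ENNReal.natCast_ne_top _) (ENNReal.mul_ne_top h1 h1))))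
  obtain ⟨D, hD0, hD1⟩ := NumK658.chooseEta N4 hN4t e he0
  obtain ⟨s1, hs1⟩ := H2 (2 * K * i0 + i0) (2 * K : ℕ) (ENNReal.natCast_ne_top _) D hD0
  obtain ⟨s2, hs2⟩ := H3 (2 * K * i0 + i0) (2 * K : ℕ) (ENNReal.natCast_ne_top _) D hD0
  set s := max s1 s2 with hs
  set W := 2 * K * (i0 + 1) + s with hWdef
  obtain ⟨η, hη0, hη1⟩ := NumK658.chooseEta (((K + 1 : ℕ) : ℝ≥0∞) * ((W + s + 1 : ℕ) : ℝ≥0∞))
    (ENNReal.mul_ne_top (ENNReal.natCast_ne_top _) (ENNReal.natCast_ne_top _)) e he0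
  obtain ⟨k0, hk0⟩ := hPt η hη0
  refine ⟨K * (i0 + 1 + s + k0), fun m hm n hn w => ?_⟩
  set T := m / K - i0 with hT
  have hq : i0 + 1 + s + k0 ≤ m / K := by
    rw [Nat.le_div_iff_mul_le (by omega)]; linarith
  have hT1 : 1 + s + k0 ≤ T := by omega
  have hmK1 : K * (m / K) ≤ m := Nat.mul_div_le m K
  have hmK2 : m < K * (m / K) + K := by
    have := Nat.lt_mul_div_succ m (show 0 < K by omega)
    rw [Nat.mul_add, Nat.mul_one] at this
    exact this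
  have hTK : K * (m / K) = K * T + K * i0 := by
    rw [← Nat.mul_add]; congr 1; omega
  have hm1 : K * T ≤ m := by omega
  have e2 : 2 * K * T = 2 * (K * T) := by ring
  have e3 : 2 * K * (i0 + 1) = 2 * (K * i0) + 2 * K := by ring
  have e4 : 2 * K * (T + i0) = 2 * (K * T) + 2 * (K * i0) := by ring
  have e5 : 2 * K * i0 = 2 * (K * i0) := by ring
  have hm2 : 2 * m ≤ 2 * K * T + W := by omega
  have hm3 : 2 * K * (T + i0) ≤ 2 * m := by omega
  have hW1 : 2 * K * i0 ≤ W := by omega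
  have hKT : k0 + s ≤ K * T := by
    have : 1 * T ≤ K * T := Nat.mul_le_mul_right _ hK1
    omega
  refine (slab_split X Y m n K T s W w η k0 hKT hn hk0).trans ?_
  have hev := ev_le X Y m n K T s W i0 (by omega) hm1 hm2 hm3 hW1 hn w _ _
    (FP178.overshoot X.Λ X.h X.h1 X.hU i0 T) (FP178.overshoot Y.Λ Y.h Y.h1 Y.hU i0 T)
  have hwin : ∀ j ∈ Finset.Ico K (2 * K),
      SL (X.l T i0) j (fun P => SL (Y.l T i0) j (fun P' => ∑' A, ∑' A',
          X.l T i0 A * (Y.l T i0 A' * (if Cc X Y (j * T + W) ((j + 1) * T - s)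
            (P.map X.f).sum.1 (P'.map Y.f).sum.1
            (w + (P'.map Y.f).sum.2 - (P.map X.f).sum.2) A A' then 1 else 0))))
      ≤ u * u + 2 * ((1 - u) ^ K + (2 * K * i0 + 1 : ℕ) * ((2 * K * i0 + 1 : ℕ) *
        ((i0 + 1) * ((i0 + 1) * D)))) := by
    intro j hj
    rw [Finset.mem_Ico] at hj
    refine (window_le X Y K T s W i0 (by omega) (by omega) u D hu0 hu1 ?_ ?_ j hj.2 w).trans ?_
    · intro lo hi a a' h h' E μ M
      exact hs1 s (le_max_left _ _) lo hi a a' h h' E μ M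
    · intro lo hi a a' h h' E μ M
      exact hs2 s (le_max_right _ _) lo hi a a' h h' E μ M
    · refine add_le_add le_rfl (mul_le_mul_right (add_le_add ?_ le_rfl) _)
      exact pow_le_pow_of_le_one zero_le tsub_le_self hj.1
  have hsumj := Finset.sum_le_sum hwin
  rw [Finset.sum_const, nsmul_eq_mul, Nat.card_Ico, show 2 * K - K = K by omega] at hsumj
  have t1 : ((K + 1 : ℕ) : ℝ≥0∞) * (((W + s + 1 : ℕ) : ℝ≥0∞) * η) ≤ e := by
    rw [← mul_assoc]; exact hη1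
  have t2 : (K : ℝ≥0∞) * (u * u + 2 * ((1 - u) ^ K + (2 * K * i0 + 1 : ℕ) *
      ((2 * K * i0 + 1 : ℕ) * ((i0 + 1) * ((i0 + 1) * D))))) ≤ e + (e + e) := by
    have a1 : (K : ℝ≥0∞) * (u * u) ≤ e := by
      refine le_trans ?_ hKu
      calc (K : ℝ≥0∞) * (u * u) ≤ (K + 1) * u ^ 2 := by
            rw [pow_two]; exact mul_le_mul_left le_self_add _
        _ = 1 * ((K + 1) * u ^ 2) := (one_mul _).symm
        _ ≤ 2 * ((K + 1) * u ^ 2) := mul_le_mul_left (by norm_num) _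
    have a2 : (K : ℝ≥0∞) * (2 * (1 - u) ^ K) ≤ e := by
      refine le_trans ?_ hKq
      calc (K : ℝ≥0∞) * (2 * (1 - u) ^ K) = 2 * (K * (1 - u) ^ K) := by ring
        _ ≤ 2 * ((K + 1) * (1 - u) ^ K) :=
          mul_le_mul_right (mul_le_mul_left le_self_add _) _
    calc (K : ℝ≥0∞) * (u * u + 2 * ((1 - u) ^ K + (2 * K * i0 + 1 : ℕ) *
      ((2 * K * i0 + 1 : ℕ) * ((i0 + 1) * ((i0 + 1) * D)))))
        = K * (u * u) + (K * (2 * (1 - u) ^ K) + N4 * D) := by rw [hN4]; ring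
      _ ≤ _ := add_le_add a1 (add_le_add a2 hD1)
  calc _ ≤ e + (e + (e + (e + (e + e)))) := by
        refine add_le_add t1 (hev.trans (add_le_add hiX (add_le_add hiY (hsumj.trans t2))))
    _ = 6 * e := by ring
    _ = ε := by rw [he, ENNReal.mul_div_cancel (by norm_num) (by norm_num)]

end Crest.Agent.R154.Cd225
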