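import Crest.Agent.R154.AsmQ_396

/-! Row 154, ROAD 801 (helper396): **THE ABSTRACT ASSEMBLY**, `kapS`: from H2, H3, H5 (slab) to the
octave bound, staggered cuts, `n ≥ n0(m)`. -/

set_option autoImplicit false
set_option linter.unusedVariables false

namespace Crest.Agent.R154.AsmS396

open Crest.Agent.R154.B5A Crest.Agent.R154.Ren396
open Crest.Agent.R154.Asm396 (CP)
open Crest.Agent.R154.Bind12 (TT)
open Filter Topology
open scoped ENNReal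

variable {BX BY : Type*} (ΛX : BX → ℝ≥0∞) (ΛY : BY → ℝ≥0∞) (hX : BX → ℕ) (hY : BY → ℕ)
  {G : Type*} [AddCommGroup G] (zX : BX → G) (zY : BY → G)
  (sX : BX → Set (G × ℕ)) (sY : BY → Set (G × ℕ))

open Classical in
lemma CP_cover (n T J m : ℕ) (w : G) (hT : 0 < T) (h1 : 2 * J * T ≤ m) (h2 : 2 * m < 16 * J * T) :
    CP ΛX ΛY hX hY zX zY sX sY n (m + 1) (2 * m + 1) w ≤
      ∑ j ∈ Finset.Ico (2 * J) (16 * J), CP ΛX ΛY hX hY zX zY sX sY n (j * T) (j * T + T) w := by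
  unfold CP
  rw [← Summable.tsum_finsetSum (fun _ _ => ENNReal.summable)]
  refine ENNReal.tsum_le_tsum fun LX => ?_
  rw [← Summable.tsum_finsetSum (fun _ _ => ENNReal.summable)]
  refine ENNReal.tsum_le_tsum fun LY => ?_
  by_cases h : HT hX LX = n ∧ HT hY LY = n ∧ ∃ z k, m + 1 ≤ k ∧ k < 2 * m + 1 ∧
    (z, k) ∈ TT sX zX hX LX 0 0 ∧ (z, k) ∈ TT sY zY hY LY w 0
  · rw [if_pos h]
    obtain ⟨g1, g2, z, k, g3, g4, g5⟩ := h
    have q1 : k / T * T ≤ k := Nat.div_mul_le_self k T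
    have q2 : k < k / T * T + T := Nat.lt_div_mul_add hT
    have q3 : 2 * J ≤ k / T := (Nat.le_div_iff_mul_le hT).2 (by omega)
    have q4 : k / T < 16 * J := (Nat.div_lt_iff_lt_mul hT).2 (by omega)
    refine le_trans ?_ (Finset.single_le_sum (f := fun j => (if HT hX LX = n ∧ HT hY LY = n ∧
      ∃ z k, j * T ≤ k ∧ k < j * T + T ∧ (z, k) ∈ TT sX zX hX LX 0 0 ∧
      (z, k) ∈ TT sY zY hY LY w 0 then LW ΛX LX * LW ΛY LY else 0))
      (fun _ _ => zero_le) (Finset.mem_Ico.2 ⟨q3, q4⟩))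
    rw [if_pos ⟨g1, g2, z, k, q1, q2, g5⟩]
  · rw [if_neg h]; exact zero_le

/-- **THE ABSTRACT ASSEMBLY.** -/
theorem kapS (hΛX : ∑' b, ΛX b = 1) (h1X : ∀ b, 1 ≤ hX b) (hU1X : ∀ n, U ΛX hX n ≤ 1)
    (hTX : Tendsto (TS ΛX hX) atTop (𝓝 0))
    (hΛY : ∑' b, ΛY b = 1) (h1Y : ∀ b, 1 ≤ hY b) (hU1Y : ∀ n, U ΛY hY n ≤ 1)
    (hTY : Tendsto (TS ΛY hY) atTop (𝓝 0))
    (hsX : ∀ b p, p ∈ sX b → 1 ≤ p.2 ∧ p.2 ≤ hX b)
    (hsY : ∀ b p, p ∈ sY b → 1 ≤ p.2 ∧ p.2 ≤ hY b)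
    (hH : ∀ i1 : ℕ, ∃ (C : ℝ≥0∞) (us : ℕ → ℝ≥0∞), C ≠ ⊤ ∧ Tendsto us atTop (𝓝 0) ∧
      H2At ΛX ΛY hX hY zX zY sX sY i1 C us ∧ H3At ΛX ΛY hX hY zX zY sX sY i1 C us)
    (h5 : ∀ s : ℕ, ∀ η : ℝ≥0∞, η ≠ 0 → ∃ T0 : ℕ, ∀ a, T0 ≤ a → ∀ n, a + s ≤ n → ∀ w : G,
      CP ΛX ΛY hX hY zX zY sX sY n a (a + s) w ≤ η) :
    ∀ ε : ℝ≥0∞, ε ≠ 0 → ∃ M : ℕ, ∀ m, M ≤ m → ∃ n0 : ℕ, ∀ n, n0 ≤ n → ∀ w : G,
      CP ΛX ΛY hX hY zX zY sX sY n (m + 1) (2 * m + 1) w ≤ ε := by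
  classical
  intro ε hε
  -- the finite budget
  set δ : ℝ≥0∞ := min (ε / 8) 1 with hδ
  have hδ0 : δ ≠ 0 := by
    rw [hδ, Ne, min_eq_iff]
    rintro (⟨h, _⟩ | ⟨h, _⟩)
    · rw [ENNReal.div_eq_zero_iff] at h
      rcases h with h | h
      · exact hε h
      · exact absurd h (by norm_num)
    · exact one_ne_zero h
  have hδ1 : δ ≤ 1 := min_le_right _ _
  have hδt : δ ≠ ⊤ := ne_top_of_le_ne_top ENNReal.one_ne_top hδ1
  have hδε : 8 * δ ≤ ε := by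
    calc 8 * δ ≤ 8 * (ε / 8) := mul_le_mul_right (min_le_left _ _) _
      _ = ε := ENNReal.mul_div_cancel (by norm_num) (by norm_num)
  obtain ⟨N, hN1, hN⟩ := Num334.choose_K hδ0
  set J : ℕ := N ^ 3 with hJ
  set v : ℝ≥0∞ := ((N : ℝ≥0∞) ^ 2)⁻¹ with hv
  have hN2 : 2 ≤ N := by
    by_contra hcon
    have h1 : N = 1 := by omega
    have hv' : v = 1 := by rw [hv, h1]; norm_num
    have h2 : (40 : ℝ≥0∞) ≤ 1 := by
      refine le_trans ?_ (hN.trans hδ1)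
      rw [hv', h1]
      calc (40 : ℝ≥0∞) = (32 * ((1 : ℕ) : ℝ≥0∞) ^ 3 + 8) * 1 := by norm_num
        _ ≤ _ := mul_le_mul_right (by rw [one_pow]; exact le_self_add) _
    exact absurd h2 (by norm_num)
  have hv0 : v ≠ 0 := by
    rw [hv]
    exact ENNReal.inv_ne_zero.2 (ENNReal.pow_ne_top (ENNReal.natCast_ne_top N))
  have hv1 : 2 * v ≤ 1 := by
    have h1 : (2 : ℝ≥0∞) ≤ (N : ℝ≥0∞) ^ 2 := by
      have : 2 ≤ N ^ 2 := by nlinarith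
      exact_mod_cast this
    calc 2 * v ≤ (N : ℝ≥0∞) ^ 2 * v := mul_le_mul_left h1 _
      _ = 1 := by
          rw [hv]
          refine ENNReal.mul_inv_cancel ?_ (ENNReal.pow_ne_top (ENNReal.natCast_ne_top N))
          have : (N : ℝ≥0∞) ≠ 0 := by
            have : N ≠ 0 := by omega
            exact_mod_cast this
          exact pow_ne_zero 2 this
  have hvt : v ≠ ⊤ := by
    intro h; rw [h] at hv1; simp at hv1
  have hJ1 : 1 ≤ J := Nat.one_le_pow _ _ (by omega)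
  have hJt : (J : ℝ≥0∞) ≠ ⊤ := ENNReal.natCast_ne_top J
  -- part 1 of the budget
  have P1 : 16 * (J : ℝ≥0∞) * ((2 * v) * (2 * v) + 2 * (1 - v) ^ J) ≤ 2 * δ := by
    calc _ ≤ 2 * ((32 * (N : ℝ≥0∞) ^ 3 + 8) * (v ^ 2 + 2 * (1 - v) ^ (N ^ 3))) := by
          have e1 : (J : ℝ≥0∞) = (N : ℝ≥0∞) ^ 3 := by rw [hJ]; push_cast; rfl
          rw [e1]
          calc _ = 64 * ((N : ℝ≥0∞) ^ 3 * v ^ 2) + 32 * ((N : ℝ≥0∞) ^ 3 * (1 - v) ^ J) := by ring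
            _ ≤ 64 * ((N : ℝ≥0∞) ^ 3 * v ^ 2) + 128 * ((N : ℝ≥0∞) ^ 3 * (1 - v) ^ J)
                + 16 * (v ^ 2 + 2 * (1 - v) ^ J) := by
                refine le_add_right (add_le_add le_rfl (mul_le_mul_left ?_ _))
                norm_num
            _ = _ := by rw [hJ]; ring
      _ ≤ 2 * δ := mul_le_mul_right hN _
  -- overshoot
  obtain ⟨e0, he0, he0t, he0'⟩ := Num334.small_const (c := 16 * (J : ℝ≥0∞) * (4 + 2 * J))
    (by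
      refine ENNReal.mul_ne_top (ENNReal.mul_ne_top (by norm_num) hJt) ?_
      exact ENNReal.add_ne_top.2 ⟨by norm_num, ENNReal.mul_ne_top (by norm_num) hJt⟩) hδ0 hδt
  set e : ℝ≥0∞ := min v e0 with he
  have hepos : e ≠ 0 := by
    rw [he, Ne, min_eq_iff]
    rintro (⟨h, _⟩ | ⟨h, _⟩)
    · exact hv0 h
    · exact he0 h
  have hev : e ≤ v := min_le_left _ _
  have P2 : 16 * (J : ℝ≥0∞) * (4 * e + 2 * (J * e)) ≤ δ := by
    calc _ = 16 * (J : ℝ≥0∞) * (4 + 2 * J) * e := by ring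
      _ ≤ 16 * (J : ℝ≥0∞) * (4 + 2 * J) * e0 := mul_le_mul_right (min_le_right _ _) _
      _ ≤ δ := he0'
  have hev1 : ∀ᶠ i in atTop, TS ΛX hX i ≤ e := hTX.eventually (ge_mem_nhds (pos_iff_ne_zero.2 hepos))
  have hev2 : ∀ᶠ i in atTop, TS ΛY hY i ≤ e := hTY.eventually (ge_mem_nhds (pos_iff_ne_zero.2 hepos))
  obtain ⟨i0, hi1, hi2⟩ := (hev1.and hev2).exists
  have heX : TS ΛX hX (i0 + 1) ≤ e := (TS_anti ΛX hX (Nat.le_succ i0)).trans hi1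
  have heY : TS ΛY hY (i0 + 1) ≤ e := (TS_anti ΛY hY (Nat.le_succ i0)).trans hi2
  obtain ⟨C, us, hC, hus, H2, H3⟩ := hH (4 * i0)
  set κ : ℝ≥0∞ := ((i0 : ℝ≥0∞) + 1) ^ 4 with hκ
  have hκt : κ ≠ ⊤ := ENNReal.pow_ne_top (ENNReal.add_ne_top.2 ⟨ENNReal.natCast_ne_top _,
    ENNReal.one_ne_top⟩)
  set r : ℝ≥0∞ := ((i0 : ℝ≥0∞) + 1) / v with hr
  have hrt : r ≠ ⊤ := ENNReal.div_ne_top (ENNReal.add_ne_top.2 ⟨ENNReal.natCast_ne_top _,
    ENNReal.one_ne_top⟩) hv0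
  have hcoef : 16 * (J : ℝ≥0∞) * (2 * κ * C) ≠ ⊤ :=
    ENNReal.mul_ne_top (ENNReal.mul_ne_top (by norm_num) hJt)
      (ENNReal.mul_ne_top (ENNReal.mul_ne_top (by norm_num) hκt) hC)
  obtain ⟨lam, hlam0, hlamt, hlam⟩ := Num334.small_const hcoef hδ0 hδt
  have hc2 : 16 * (J : ℝ≥0∞) * (2 * κ * C) * (r / lam + 1) ≠ ⊤ :=
    ENNReal.mul_ne_top hcoef (ENNReal.add_ne_top.2 ⟨ENNReal.div_ne_top hrt hlam0,
      ENNReal.one_ne_top⟩)
  obtain ⟨s, hs⟩ := (Num334.small_mul hus hc2 hδ0).exists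
  have P3 : 16 * (J : ℝ≥0∞) * (2 * (κ * (C * (lam + r * us s / lam + us s)))) ≤ 2 * δ := by
    calc _ = 16 * (J : ℝ≥0∞) * (2 * κ * C) * lam
          + 16 * (J : ℝ≥0∞) * (2 * κ * C) * (r / lam + 1) * us s := by
          rw [div_eq_mul_inv, div_eq_mul_inv]; ring
      _ ≤ δ + δ := add_le_add hlam hs
      _ = 2 * δ := by ring
  obtain ⟨η, hη0, hηt, hη⟩ := Num334.small_const (c := 16 * (J : ℝ≥0∞) * 2)
    (ENNReal.mul_ne_top (ENNReal.mul_ne_top (by norm_num) hJt) (by norm_num)) hδ0 hδt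
  set σ : ℕ := 2 * i0 + s + 1 with hσ
  obtain ⟨T0, hT0⟩ := h5 (2 * σ) η hη0
  refine ⟨8 * J * (T0 + 2 * σ) + 4 * J, fun m hm => ?_⟩
  set T : ℕ := m / (8 * J) + 1 with hT
  have hK : 0 < 8 * J := by omega
  have hTbig : T0 + 2 * σ ≤ T := by
    have : T0 + 2 * σ ≤ m / (8 * J) := (Nat.le_div_iff_mul_le hK).2 (by
      calc (T0 + 2 * σ) * (8 * J) = 8 * J * (T0 + 2 * σ) := by ring
        _ ≤ m := by omega)
    omega
  have hT1 : 0 < T := by omega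
  have hm1 : 2 * J * T ≤ m := by
    have h1 : m / (8 * J) * (8 * J) ≤ m := Nat.div_mul_le_self m (8 * J)
    have h2 : 4 * J ≤ m := by omega
    rw [hT]
    nlinarith
  have hm2 : 2 * m < 16 * J * T := by
    have h1 : m < m / (8 * J) * (8 * J) + 8 * J := Nat.lt_div_mul_add hK
    rw [hT]
    nlinarith
  refine ⟨16 * J * T + 4 * i0 + 2 * T + 2 * σ, fun n hn w => ?_⟩
  refine (CP_cover ΛX ΛY hX hY zX zY sX sY n T J m w hT1 hm1 hm2).trans ?_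
  -- the pieces
  have hoX : ∑' P : List BX, (if FR hX P T ∧ T + i0 < HT hX P then LW ΛX P else 0) ≤ e :=
    (over_le ΛX hX hU1X T i0).trans heX
  have hoY : ∑' P : List BY, (if FR hY P (T + i0) ∧ T + i0 + i0 < HT hY P then LW ΛY P else 0)
      ≤ e := (over_le ΛY hY hU1Y (T + i0) i0).trans heY
  obtain ⟨θX, hθX0, hθXt, hX1, hX2⟩ := piece ΛX hX zX hΛX h1X T i0 v e hv0 hv1 hev hoX
  obtain ⟨θY, hθY0, hθYt, hY1, hY2⟩ := piece ΛY hY zY hΛY h1Y (T + i0) i0 v e hv0 hv1 hev hoY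
  have hone : ∀ j ∈ Finset.Ico (2 * J) (16 * J),
      CP ΛX ΛY hX hY zX zY sX sY n (j * T) (j * T + T) w ≤ 2 * η + 4 * e +
      ((2 * v) * (2 * v) + 2 * ((1 - v) ^ J + J * e)
        + 2 * (κ * (C * (lam + r * us s / lam + us s)))) := by
    intro j hj
    rw [Finset.mem_Ico] at hj
    have hjT : 2 * J * T ≤ j * T := Nat.mul_le_mul_right T hj.1
    have hjT2 : j * T + T ≤ 16 * J * T := by
      calc j * T + T = (j + 1) * T := by ring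
        _ ≤ 16 * J * T := Nat.mul_le_mul_right T (by omega)
    have hJT : T ≤ 2 * J * T := by nlinarith
    have hw := window ΛX ΛY hX hY zX zY sX sY hΛX.le h1X hΛY.le h1Y H2 H3 T s (j * T)
      (j * T + σ) (j * T + T - σ) J θX θY (2 * v) v e lam hθX0 hθY0 hlam0 hlamt (by omega)
      (by omega) hv0 (by
        calc J * (T + i0 + i0) ≤ J * (2 * T) := Nat.mul_le_mul_left J (by omega)
          _ = 2 * J * T := by ring
          _ ≤ j * T := hjT) hX2 hY2 hoX hoY hX1 hY1 w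
    refine octw ΛX ΛY hX hY zX zY sX sY hΛX.le h1X hU1X hΛY.le h1Y hU1Y hsX hsY n T i0 (j * T) σ
      (by omega) (by omega) w η e _ (hT0 _ (by omega) n (by omega) w)
      (hT0 _ (by omega) n (by omega) w) heX heY (by omega) (hw.trans (le_of_eq ?_))
    rw [ratio_le i0 θX v hθX0 hθXt, ratio_le i0 θY v hθY0 hθYt]
    ring
  refine (Finset.sum_le_sum hone).trans ?_
  rw [Finset.sum_const, nsmul_eq_mul]
  calc _ ≤ 16 * (J : ℝ≥0∞) * (2 * η + 4 * e +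
      ((2 * v) * (2 * v) + 2 * ((1 - v) ^ J + J * e)
        + 2 * (κ * (C * (lam + r * us s / lam + us s))))) := by
        refine mul_le_mul_left ?_ _
        rw [Nat.card_Ico]
        calc ((16 * J - 2 * J : ℕ) : ℝ≥0∞) ≤ ((16 * J : ℕ) : ℝ≥0∞) := by
              exact_mod_cast Nat.sub_le _ _
          _ = _ := by push_cast; rfl
    _ = 16 * (J : ℝ≥0∞) * 2 * η + 16 * (J : ℝ≥0∞) * (4 * e + 2 * (J * e))
        + 16 * (J : ℝ≥0∞) * ((2 * v) * (2 * v) + 2 * (1 - v) ^ J)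
        + 16 * (J : ℝ≥0∞) * (2 * (κ * (C * (lam + r * us s / lam + us s)))) := by ring
    _ ≤ δ + δ + 2 * δ + 2 * δ := add_le_add (add_le_add (add_le_add hη P2) P1) P3
    _ = 6 * δ := by ring
    _ ≤ 8 * δ := mul_le_mul_left (by norm_num) _
    _ ≤ ε := hδε

end Crest.Agent.R154.AsmS396
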