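import Crest.Agent.R154.GenPair_850
import Crest.Agent.R154.Prod_561
import Crest.Agent.R154.Strong_541

/-! Row 154, B0c: K1 and KEY on a walk space; the unmarked instance; independence at range `R`. -/

set_option autoImplicit false

namespace Crest.Agent.R154

open MeasureTheory ProbabilityTheory Crest.ProbabilityR.RandomEnvironment
open scoped ENNReal

variable {d : ℕ} {Ω : Type} [MeasurableSpace Ω]

namespace WalkSpace

variable (W : WalkSpace d Ω)

/-- no contact. -/
def noContact (R : ℕ) (S : Ω → ℕ∞) : Set (Ω × Ω) :=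
  {p | W.contact R (W.readE p.1 (S p.1)) p.2 = ⊤}

lemma stop_freeze {S : Ω → ℕ∞} (hS : W.IsStop S) (X : Ω) : S (W.freeze (S X) X) = S X := by
  rcases eq_or_ne (S X) ⊤ with h | h
  · rw [h, W.freeze_top, h]
  · obtain ⟨n, hn⟩ := ENat.ne_top_iff_exists.1 h
    rw [← hn]
    exact hS X _ n (W.hist_freeze_self n X) hn.symm

lemma readE_freeze (X : Ω) (t : ℕ∞) : W.readE (W.freeze t X) t = W.readE X t := by
  ext z
  constructor
  · rintro ⟨i, hi, hz⟩
    exact ⟨i, hi, by rwa [W.read_det i _ _ (W.hist_freeze_of_le hi X)] at hz⟩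
  · rintro ⟨i, hi, hz⟩
    exact ⟨i, hi, by rwa [W.read_det i _ _ (W.hist_freeze_of_le hi X)]⟩

lemma contact_stopPair (R : ℕ) {S : Ω → ℕ∞} (hS : W.IsStop S) (p : Ω × Ω) :
    W.contact R (W.readE (W.stopPair R S p).1 (S (W.stopPair R S p).1)) (W.stopPair R S p).2
      = W.contact R (W.readE p.1 (S p.1)) p.2 := by
  simp only [stopPair]
  rw [W.stop_freeze hS, W.readE_freeze]
  exact W.stop_freeze (W.isStop_contact R _) p.2

lemma measurableSet_noContact (R : ℕ) {S : Ω → ℕ∞} (hS : W.IsStop S) :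
    MeasurableSet (W.noContact R S) := by
  have h : W.noContact R S = ⋂ n : ℕ, ⋂ k : ℕ,
      {p : Ω × Ω | W.pos p.2 n ∈ far R (W.readE p.1 (min (S p.1) k))} := by
    ext p
    simp only [noContact, Set.mem_ofPred_eq, contact_eq_top_iff, Set.mem_iInter]
    constructor
    · intro hp n k
      exact far_anti (W.readE_mono _ (min_le_left _ _)) (hp n)
    · intro hp n a ha
      obtain ⟨i, hi, hz⟩ := ha
      exact hp n i a ⟨i, le_min hi le_rfl, hz⟩
  rw [h]
  refine MeasurableSet.iInter fun n => MeasurableSet.iInter fun k => ?_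
  refine W.measurableSet_of_hist_pair (max n k) _ fun p q h1 h2 hp => ?_
  simp only [Set.mem_ofPred_eq] at hp ⊢
  rw [← W.pos_det n p.2 q.2 (W.mono _ _ (le_max_left n k) h2)]
  obtain ⟨j, hj⟩ := ENat.ne_top_iff_exists.1 (min_nat_lt_top (S p.1) k).ne
  have hjk : j ≤ k := by
    have : (j : ℕ∞) ≤ k := hj ▸ min_le_right _ _
    exact_mod_cast this
  have hj1 := W.mono _ _ (hjk.trans (le_max_right n k)) h1
  have hq : min (S q.1) (k : ℕ∞) = j := W.isStop_min_nat hS k p.1 q.1 j hj1 hj.symm
  rw [hq, W.readE_coe, ← W.read_det j _ _ hj1, ← W.readE_coe, hj]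
  exact hp

variable [Nonempty Ω]

/-- **K1**: without contact, same environment = independent environments (X observed up to `S`,
T observed forever). -/
theorem K1 (R : ℕ) {S : Ω → ℕ∞} (hS : W.IsStop S)
    (Q : Measure (Environment d)) [IsProbabilityMeasure Q] (hQ : IndepAt R Q)
    {P₁ P₂ : Kernel (Environment d) Ω} [IsFiniteKernel P₁] [IsFiniteKernel P₂]
    (h₁ : W.ReadsOnly Q P₁) (h₂ : W.ReadsOnly Q P₂)
    {C : Set (Ω × Ω)} (hC : MeasurableSet C)
    (hdet : ∀ X T, (W.freeze (S X) X, T) ∈ C ↔ (X, T) ∈ C) :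
    same Q P₁ P₂ (C ∩ W.noContact R S) = ind Q P₁ P₂ (C ∩ W.noContact R S) := by
  refine W.same_eq_ind R hS Q hQ h₁ h₂ (hC.inter (W.measurableSet_noContact R hS)) fun p => ?_
  have h := W.contact_stopPair R hS p
  have h2 : W.stopPair R S p ∈ W.noContact R S ↔ p ∈ W.noContact R S := by
    simp only [noContact, Set.mem_ofPred_eq]
    rw [h]
  by_cases hp : p ∈ W.noContact R S
  · have e : W.stopPair R S p = (W.freeze (S p.1) p.1, p.2) := by
      have hp' : W.contact R (W.readE p.1 (S p.1)) p.2 = ⊤ := hp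
      simp only [stopPair, hp', W.freeze_top]
    constructor
    · rintro ⟨h3, _⟩
      rw [e] at h3
      exact ⟨(hdet p.1 p.2).1 h3, hp⟩
    · rintro ⟨h3, _⟩
      refine ⟨?_, h2.2 hp⟩
      rw [e]
      exact (hdet p.1 p.2).2 h3
  · constructor
    · rintro ⟨_, h4⟩
      exact absurd (h2.1 h4) hp
    · rintro ⟨_, h4⟩
      exact absurd h4 hp

omit [Nonempty Ω] in
lemma same_snd (Q : Measure (Environment d)) {P₁ P₂ : Kernel (Environment d) Ω}
    [IsMarkovKernel P₁] [IsSFiniteKernel P₂] {A : Set Ω} (hA : MeasurableSet A) :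
    same Q P₁ P₂ {p | p.2 ∈ A} = (Q.bind P₂) A := by
  have hm : MeasurableSet {p : Ω × Ω | p.2 ∈ A} := measurable_snd hA
  have hs : {p : Ω × Ω | p.2 ∈ A} = Set.univ ×ˢ A := by ext p; simp
  rw [same_apply _ _ _ hm, Measure.bind_apply hA (Kernel.measurable _).aemeasurable]
  refine lintegral_congr fun ω => ?_
  rw [hs, Measure.prod_prod, measure_univ, one_mul]

omit [Nonempty Ω] in
lemma same_fst (Q : Measure (Environment d)) {P₁ P₂ : Kernel (Environment d) Ω}
    [IsSFiniteKernel P₁] [IsMarkovKernel P₂] {A : Set Ω} (hA : MeasurableSet A) :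
    same Q P₁ P₂ {p | p.1 ∈ A} = (Q.bind P₁) A := by
  have hm : MeasurableSet {p : Ω × Ω | p.1 ∈ A} := measurable_fst hA
  have hs : {p : Ω × Ω | p.1 ∈ A} = A ×ˢ Set.univ := by ext p; simp
  rw [same_apply _ _ _ hm, Measure.bind_apply hA (Kernel.measurable _).aemeasurable]
  refine lintegral_congr fun ω => ?_
  rw [hs, Measure.prod_prod, measure_univ, mul_one]

omit [Nonempty Ω] in
lemma ind_snd (Q : Measure (Environment d)) [IsProbabilityMeasure Q]
    {P₁ P₂ : Kernel (Environment d) Ω}
    [IsMarkovKernel P₁] [IsFiniteKernel P₂] {A : Set Ω} :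
    ind Q P₁ P₂ {p | p.2 ∈ A} = (Q.bind P₂) A := by
  have hs : {p : Ω × Ω | p.2 ∈ A} = Set.univ ×ˢ A := by ext p; simp
  rw [ind, hs, Measure.prod_prod, measure_univ, one_mul]

omit [Nonempty Ω] in
lemma ind_fst (Q : Measure (Environment d)) [IsProbabilityMeasure Q]
    {P₁ P₂ : Kernel (Environment d) Ω}
    [IsFiniteKernel P₁] [IsMarkovKernel P₂] {A : Set Ω} :
    ind Q P₁ P₂ {p | p.1 ∈ A} = (Q.bind P₁) A := by
  have hs : {p : Ω × Ω | p.1 ∈ A} = A ×ˢ Set.univ := by ext p; simp
  rw [ind, hs, Measure.prod_prod, measure_univ, mul_one]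

/-- **KEY**: for an event `A` of `T` alone, `P_ind(T ∈ A, contact) = P_same(T ∈ A, contact)`. -/
theorem KEY (R : ℕ) {S : Ω → ℕ∞} (hS : W.IsStop S)
    (Q : Measure (Environment d)) [IsProbabilityMeasure Q] (hQ : IndepAt R Q)
    {P₁ P₂ : Kernel (Environment d) Ω} [IsMarkovKernel P₁] [IsMarkovKernel P₂]
    (h₁ : W.ReadsOnly Q P₁) (h₂ : W.ReadsOnly Q P₂) {A : Set Ω} (hA : MeasurableSet A) :
    same Q P₁ P₂ ({p | p.2 ∈ A} \ W.noContact R S)
      = ind Q P₁ P₂ ({p | p.2 ∈ A} \ W.noContact R S) := by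
  have hN := W.measurableSet_noContact R hS
  have hm : MeasurableSet {p : Ω × Ω | p.2 ∈ A} := measurable_snd hA
  have h1 : same Q P₁ P₂ ({p | p.2 ∈ A} ∩ W.noContact R S)
      = ind Q P₁ P₂ ({p | p.2 ∈ A} ∩ W.noContact R S) :=
    W.K1 R hS Q hQ h₁ h₂ hm fun _ _ => Iff.rfl
  have e1 := measure_inter_add_sdiff (μ := same Q P₁ P₂) {p : Ω × Ω | p.2 ∈ A} hN
  have e2 := measure_inter_add_sdiff (μ := ind Q P₁ P₂) {p : Ω × Ω | p.2 ∈ A} hN
  rw [same_snd Q hA] at e1
  rw [ind_snd Q, ← h1, ← e1] at e2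
  exact (ENNReal.add_right_inj (measure_ne_top _ _)).1 e2.symm

end WalkSpace

/-! ### the unmarked instance -/

/-- paths as a walk space. -/
def pathWS (d : ℕ) : WalkSpace d (Path d) where
  H n := Fin (n + 1) → Site d
  countH n := inferInstance
  hist := hist
  ext := ext
  hist_ext := hist_ext
  mono := by
    intro m n X Y hmn h
    funext i
    have := congrFun h ⟨i, by omega⟩
    exact this
  gen := by
    have : {s : Set (Path d) | ∃ (X : Path d) (n : ℕ), s = {Y | hist n Y = hist n X}}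
        = cyls d := by
      ext s
      constructor
      · rintro ⟨X, n, rfl⟩
        refine ⟨X, n, ?_⟩
        ext Y
        constructor
        · intro h i hi
          exact congrFun h ⟨i, by omega⟩
        · intro h
          funext i
          exact h i (by omega)
      · rintro ⟨X, n, rfl⟩
        refine ⟨X, n, ?_⟩
        ext Y
        constructor
        · intro h
          funext i
          exact h i (by omega)
        · intro h i hi
          exact congrFun h ⟨i, by omega⟩
    rw [this]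
    exact generateFrom_cyls
  pos X n := X n
  pos_det n X Y h := congrFun h ⟨n, by omega⟩
  read X n := usedBefore X n
  read_det := by
    intro n X Y h
    refine usedBefore_congr fun i hi => ?_
    exact congrFun h ⟨i, by omega⟩
  read_sub X n := fun _ h => h
  read_mono X := fun h _ ⟨i, hi, hz⟩ => ⟨i, lt_of_lt_of_le hi h, hz⟩

lemma pathWS_cyl (γ : Path d) (n : ℕ) : (pathWS d).cyl γ n = cyl γ n := by
  ext Y
  constructor
  · intro h i hi
    exact congrFun h ⟨i, by omega⟩
  · intro h
    funext i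
    exact h i (by omega)

lemma pathWS_isStop {T : Path d → ℕ∞} (hT : IsStop T) : (pathWS d).IsStop T := by
  intro X Y n h hn
  exact hT X Y n (fun i hi => congrFun h ⟨i, by omega⟩) hn

/-- the unmarked quenched law reads only used rows. -/
lemma readsOnly_qKF (Q : Measure (Environment d)) (μ : Measure (Site d)) :
    (pathWS d).ReadsOnly Q (qKF μ) := by
  intro γ n
  refine ⟨fun ω => μ {γ 0} * wt ω γ n, ?_, ?_⟩
  · exact (measurable_wt_coord (usedBefore γ n) γ n fun i hi => ⟨i, hi, rfl⟩).const_mul _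
  · refine Filter.Eventually.of_forall fun ω => ?_
    rw [pathWS_cyl]
    exact qFrom_cyl ω μ γ n

/-! ### independence at range `R` -/

lemma coordSigmaAlgebra_empty : coordSigmaAlgebra (∅ : Set (Site d)) = ⊥ := by
  apply le_antisymm _ bot_le
  rw [coordSigmaAlgebra]
  rintro s ⟨t, _, rfl⟩
  rw [MeasurableSpace.measurableSet_bot_iff]
  by_cases h : (fun x : (∅ : Set (Site d)) => (x.2.elim : Row d)) ∈ t
  · right
    ext ω
    simp only [Set.mem_preimage, Set.mem_univ, iff_true]
    convert! h using 1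
    funext x
    exact x.2.elim
  · left
    ext ω
    simp only [Set.mem_preimage, Set.mem_empty_iff_false, iff_false]
    intro h'
    apply h
    convert! h' using 1
    funext x
    exact x.2.elim

theorem indepAt_of_finiteRange {Q : Measure (Environment d)} [IsProbabilityMeasure Q] {R : ℕ}
    (h : IsFiniteRangeDependent Q R) : IndepAt R Q := by
  intro U V hUV
  rcases U.eq_empty_or_nonempty with rfl | hU
  · rw [coordSigmaAlgebra_empty]
    exact indep_bot_left _
  rcases V.eq_empty_or_nonempty with rfl | hV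
  · rw [coordSigmaAlgebra_empty]
    exact indep_bot_right _
  exact h U V hU hV hUV

theorem indepAt_iid (ν : Measure (Row d)) [IsProbabilityMeasure ν] (R : ℕ) :
    IndepAt R (iidEnvironmentLaw ν) :=
  indepAt_of_finiteRange (Q561.iid_isFiniteRangeDependent ν R)

end Crest.Agent.R154
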