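import Crest.Agent.R154.Kset_740

set_option autoImplicit false
set_option linter.unusedSectionVars false

/-!
Row 154, block B7: general form of the K-set bound (payoffs `max u bad`).
-/

namespace Crest.Agent.R154.K740

open MeasureTheory ProbabilityTheory
open scoped ENNReal

namespace Expl

variable {S Rw A : Type*} [MeasurableSpace Rw] (E : Expl S Rw A)

lemma valT_le_max [DecidableEq S] {V0 : Finset S} {ok : Finset S → Prop}
    (hok : ∀ R R' : Finset S, R ⊆ R' → ok R' → ok R) (u : List A → ℝ≥0∞) (ω : S → Rw) (n : ℕ)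
    (h : List A) :
    E.valT V0 ok u ω n h ≤ E.val (fun h => max (u h) (E.bad V0 ok h)) ω n h := by
  classical
  induction n generalizing h with
  | zero => exact le_max_left _ _
  | succ n ih =>
    rcases hh : E.site h with _ | z
    · rw [E.valT_none hh, val]
      simp only [E.step_none hh]
      exact ENNReal.tsum_le_tsum fun a => by gcongr; exact ih _
    · by_cases hz : z ∈ V0 ∨ ¬ ok (insert z (E.expl h))
      · rw [E.valT_trim hh hz]
        refine E.le_val_of_ext ω (n + 1) h fun l hl => ?_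
        have hl' : l ≠ [] := by rintro rfl; simp at hl
        have hsub := E.insert_subset_append hh hl'
        refine le_max_of_le_right ?_
        have : ¬ (Disjoint (E.expl (l ++ h)) V0 ∧ ok (E.expl (l ++ h))) := by
          rintro ⟨h1, h2⟩
          rcases hz with hz | hz
          · exact Finset.disjoint_left.1 h1 (hsub (Finset.mem_insert_self _ _)) hz
          · exact hz (hok _ _ hsub h2)
        simp [bad, this]
      · rw [E.valT_some hh hz, val]
        simp only [E.step_some hh]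
        exact ENNReal.tsum_le_tsum fun a => by gcongr; exact ih _

variable [Countable A] (ν : Measure Rw) [IsProbabilityMeasure ν]

local notation "𝐏" => (Measure.infinitePi fun _ : S => ν)

/-- **(K1), general form.** -/
theorem onestep_max {V0 : Finset S} {ok : Finset S → Prop}
    (hok : ∀ R R' : Finset S, R ⊆ R' → ok R' → ok R) (hok0 : ok ∅)
    {u : List A → ℝ≥0∞} (hu : ∀ h, u h ≤ 1)
    {X : (S → Rw) → ℝ≥0∞} (hX : Measurable X) {b : ℝ≥0∞} (hbt : b ≠ ∞)
    (hb : ∀ R : Finset S, Disjoint R V0 → ok R → ∀ ω : S → Rw,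
      ∫⁻ η, X (by classical exact merge (V0 ∪ R) ω η) ∂𝐏 ≤ b) (ω : S → Rw) :
    ∫⁻ η, E.val u (merge V0 ω η) E.T [] * X (merge V0 ω η) ∂𝐏 ≤
      b * E.ann ν (fun h => max (u h) (E.bad V0 ok h)) := by
  classical
  have h1 := E.lintegral_val_mul_le ν (V0 := V0) (ok := ok) hu hX hbt
    (fun R hR hR' ω => by
      have := hb R hR hR' ω
      convert this) E.T [] (by simp [expl]) (by simpa [expl] using hok0) ω
  simp only [expl, Finset.union_empty, merge_empty] at h1
  refine h1.trans ?_
  gcongr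
  exact lintegral_mono fun η => E.valT_le_max hok u η E.T []

lemma ann_mono {u v : List A → ℝ≥0∞} (h : ∀ l, u l ≤ v l) : E.ann ν u ≤ E.ann ν v :=
  lintegral_mono fun η => E.val_mono h η _ _

lemma ann_add (u v : List A → ℝ≥0∞) : E.ann ν (fun l => u l + v l) = E.ann ν u + E.ann ν v := by
  unfold ann
  rw [← lintegral_add_right _ (E.measurable_val _ _ _)]
  exact lintegral_congr fun η => E.val_add u v η _ _

lemma ann_const (c : ℝ≥0∞) : E.ann ν (fun _ => c) = c := by
  unfold ann
  simp [E.val_const]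

lemma ann_const_mul (c : ℝ≥0∞) (u : List A → ℝ≥0∞) :
    E.ann ν (fun l => c * u l) = c * E.ann ν u := by
  unfold ann
  rw [← lintegral_const_mul _ (E.measurable_val _ _ _)]
  exact lintegral_congr fun η => E.val_mul_left c u η _ _

end Expl

section KsetGen

variable {S Rw A : Type*} [MeasurableSpace Rw] [Countable A] (ν : Measure Rw)
  [IsProbabilityMeasure ν]
variable {ι : Type*} (E : ι → Expl S Rw A) (u : ι → List A → ℝ≥0∞)

local notation "𝐏" => (Measure.infinitePi fun _ : S => ν)

/-- total load for general load functions -/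
noncomputable def gload (c : ι → Finset S → ℝ≥0∞) (K : Finset ι) (V : Finset S) : ℝ≥0∞ :=
  ∑ j ∈ K, c j V

lemma gload_mono {c : ι → Finset S → ℝ≥0∞} (hc : ∀ j V V', V ⊆ V' → c j V ≤ c j V')
    {K : Finset ι} {V V' : Finset S} (h : V ⊆ V') : gload c K V ≤ gload c K V' :=
  Finset.sum_le_sum fun j _ => hc j _ _ h

lemma gload_mono_left {c : ι → Finset S → ℝ≥0∞} {K K' : Finset ι} (h : K ⊆ K') (V : Finset S) :
    gload c K V ≤ gload c K' V :=
  Finset.sum_le_sum_of_subset h

lemma gload_union [DecidableEq S] {c : ι → Finset S → ℝ≥0∞}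
    (hc : ∀ j (V V' : Finset S), c j (V ∪ V') ≤ c j V + c j V') (K : Finset ι) (V V' : Finset S) :
    gload c K (V ∪ V') ≤ gload c K V + gload c K V' := by
  unfold gload
  rw [← Finset.sum_add_distrib]
  exact Finset.sum_le_sum fun j _ => hc j V V'

lemma exists_gload_le {c : ι → Finset S → ℝ≥0∞} {K : Finset ι} (hK : K.Nonempty) (V : Finset S)
    {η : ℝ≥0∞} (h : gload c K V ≤ K.card * η) : ∃ i ∈ K, c i V ≤ η := by
  by_contra hcon
  push Not at hcon
  have h1 : ∑ _j ∈ K, η < gload c K V :=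
    ENNReal.sum_lt_sum_of_nonempty hK fun i hi => hcon i hi
  rw [Finset.sum_const, nsmul_eq_mul] at h1
  exact absurd h (not_le.2 h1)

/-- one launch, general form -/
lemma launch_gen {K : Finset ι} {ε : ℝ≥0∞} (hε0 : ε ≠ 0) (hεt : ε ≠ ∞) {i : ι} (hi : i ∈ K)
    (hu : ∀ h, u i h ≤ 1) {ok : Finset S → Prop}
    (hok : ∀ R R' : Finset S, R ⊆ R' → ok R' → ok R) (hok0 : ok ∅)
    {V : Finset S} {b : ℝ≥0∞} (hbt : b ≠ ∞)
    (hb : ∀ R : Finset S, Disjoint R V → ok R → ∀ ω : S → Rw,
      ∫⁻ η, (Bad E u K ε).indicator 1 (by classical exact merge (V ∪ R) ω η) ∂𝐏 ≤ b)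
    (ω : S → Rw) :
    ∫⁻ η, (Bad E u K ε).indicator 1 (merge V ω η) ∂𝐏 ≤
      b * ((E i).ann ν (fun h => max (u i h) ((E i).bad V ok h)) / ε) := by
  have h1 := (E i).onestep_max ν (V0 := V) hok hok0 hu
    (X := (Bad E u K ε).indicator 1) (measurable_one.indicator (measurableSet_Bad E u K ε)) hbt hb ω
  rw [← mul_div_assoc, ENNReal.le_div_iff_mul_le (Or.inl hε0) (Or.inl hεt)]
  refine le_trans ?_ h1
  rw [mul_comm, ← lintegral_const_mul' _ _ hεt]
  refine lintegral_mono fun η => ?_
  by_cases hη : merge V ω η ∈ Bad E u K ε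
  · simp only [Set.indicator_of_mem hη, Pi.one_apply, mul_one]
    exact hη i hi
  · simp [Set.indicator_of_notMem hη]

lemma lintegral_Bad_le_one (K : Finset ι) (ε : ℝ≥0∞) (V : Finset S) (ω : S → Rw) :
    ∫⁻ η, (Bad E u K ε).indicator 1 (merge V ω η) ∂𝐏 ≤ 1 := by
  calc (∫⁻ η, (Bad E u K ε).indicator 1 (merge V ω η) ∂𝐏) ≤ ∫⁻ _, 1 ∂𝐏 := by
        refine lintegral_mono fun η => ?_
        exact Set.indicator_le_self' (fun _ _ => zero_le) _
    _ = 1 := by simp

/-- **(K2), general form**: several walkers per cell. -/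
theorem kset_many_gen {K : Finset ι} (hK : K.Nonempty) {ε θ ζ ρ : ℝ≥0∞} (hε0 : ε ≠ 0)
    (hεt : ε ≠ ∞) (hρ : ρ ≠ ∞)
    {c : ι → Finset S → ℝ≥0∞} (hmono : ∀ j V V', V ⊆ V' → c j V ≤ c j V')
    (hsub : ∀ j (V V' : Finset S), c j (by classical exact V ∪ V') ≤ c j V + c j V')
    (hc0 : ∀ j, c j ∅ = 0)
    (hu : ∀ i ∈ K, ∀ h, u i h ≤ 1)
    (hF : ∀ i ∈ K, ∀ V : Finset S, c i V ≤ ζ →
      (E i).ann ν (fun h => max (u i h) ((E i).bad V (fun R => gload c K R ≤ θ) h)) ≤ ρ)
    (n : ℕ) (V : Finset S) (hV : gload c K V + n * θ ≤ K.card * ζ) (ω : S → Rw) :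
    ∫⁻ η, (Bad E u K ε).indicator 1 (merge V ω η) ∂𝐏 ≤ (ρ / ε) ^ n := by
  classical
  have hr : ρ / ε ≠ ∞ := ENNReal.div_ne_top hρ hε0
  induction n generalizing V ω with
  | zero => rw [pow_zero]; exact lintegral_Bad_le_one ν E u K ε V ω
  | succ n ih =>
    obtain ⟨i, hi, hiV⟩ := exists_gload_le (c := c) hK V (η := ζ) (le_trans le_self_add hV)
    have h1 := launch_gen ν E u hε0 hεt hi (hu i hi) (ok := fun R => gload c K R ≤ θ)
      (fun R R' h h' => (gload_mono hmono h).trans h')
      (by simp [gload, hc0]) (V := V)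
      (b := (ρ / ε) ^ n) (ENNReal.pow_ne_top hr)
      (fun R _ hR ω => by
        have h2 := ih (V ∪ R) (by
          calc gload c K (V ∪ R) + n * θ ≤ (gload c K V + gload c K R) + n * θ := by
                gcongr; exact gload_union (fun j V V' => by convert hsub j V V') K V R
            _ ≤ (gload c K V + θ) + n * θ := by gcongr
            _ = gload c K V + ((n + 1 : ℕ) : ℝ≥0∞) * θ := by push_cast; ring
            _ ≤ _ := hV) ω
        convert h2) ω
    refine h1.trans ?_
    rw [pow_succ]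
    gcongr
    exact hF i hi V hiV

/-- **(K3), general form**: one test per cell; the load of the own cell is not counted. -/
theorem kset_one_gen [DecidableEq ι] {K : Finset ι} {ε θ ζ ρ : ℝ≥0∞} (hε0 : ε ≠ 0)
    (hεt : ε ≠ ∞) (hρ : ρ ≠ ∞)
    {c : ι → Finset S → ℝ≥0∞} (hmono : ∀ j V V', V ⊆ V' → c j V ≤ c j V')
    (hsub : ∀ j (V V' : Finset S), c j (by classical exact V ∪ V') ≤ c j V + c j V')
    (hc0 : ∀ j, c j ∅ = 0)
    (hu : ∀ i ∈ K, ∀ h, u i h ≤ 1)
    (hF : ∀ i ∈ K, ∀ V : Finset S, c i V ≤ ζ →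
      (E i).ann ν (fun h => max (u i h)
        ((E i).bad V (fun R => gload c (K.erase i) R ≤ θ) h)) ≤ ρ)
    (n : ℕ) (K' : Finset ι) (hK' : K' ⊆ K) (hn : n ≤ K'.card) (V : Finset S)
    (hV : gload c K' V + n * θ ≤ (K'.card - n + 1 : ℕ) * ζ) (ω : S → Rw) :
    ∫⁻ η, (Bad E u K ε).indicator 1 (merge V ω η) ∂𝐏 ≤ (ρ / ε) ^ n := by
  classical
  have hr : ρ / ε ≠ ∞ := ENNReal.div_ne_top hρ hε0
  induction n generalizing V ω K' with
  | zero => rw [pow_zero]; exact lintegral_Bad_le_one ν E u K ε V ω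
  | succ n ih =>
    have hne : K'.Nonempty := Finset.card_pos.1 (by omega)
    have hcard : ((K'.card - (n + 1) + 1 : ℕ) : ℝ≥0∞) ≤ (K'.card : ℝ≥0∞) := by
      exact_mod_cast (by omega : K'.card - (n + 1) + 1 ≤ K'.card)
    obtain ⟨i, hi, hiV⟩ := exists_gload_le (c := c) hne V (η := ζ)
      ((le_trans le_self_add hV).trans (by gcongr))
    have hcard' : (K'.erase i).card = K'.card - 1 := Finset.card_erase_of_mem hi
    have h1 := launch_gen ν E u hε0 hεt (hK' hi) (hu i (hK' hi))
      (ok := fun R => gload c (K.erase i) R ≤ θ)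
      (fun R R' h h' => (gload_mono hmono h).trans h')
      (by simp [gload, hc0]) (V := V)
      (b := (ρ / ε) ^ n) (ENNReal.pow_ne_top hr)
      (fun R _ hR ω => by
        have hR' : gload c (K'.erase i) R ≤ θ :=
          (gload_mono_left (Finset.erase_subset_erase i hK') R).trans hR
        have h2 := ih (K'.erase i) ((Finset.erase_subset _ _).trans hK') (by omega) (V ∪ R) (by
          calc gload c (K'.erase i) (V ∪ R) + n * θ
              ≤ (gload c (K'.erase i) V + gload c (K'.erase i) R) + n * θ := by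
                gcongr; exact gload_union (fun j V V' => by convert hsub j V V') _ V R
            _ ≤ (gload c K' V + θ) + n * θ := by
                gcongr; exact gload_mono_left (Finset.erase_subset _ _) V
            _ = gload c K' V + ((n + 1 : ℕ) : ℝ≥0∞) * θ := by push_cast; ring
            _ ≤ (K'.card - (n + 1) + 1 : ℕ) * ζ := hV
            _ = ((K'.erase i).card - n + 1 : ℕ) * ζ := by
                rw [hcard', show K'.card - (n + 1) = K'.card - 1 - n by omega]) ω
        convert h2) ω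
    refine h1.trans ?_
    rw [pow_succ]
    gcongr
    exact hF i (hK' hi) V hiV

end KsetGen

end Crest.Agent.R154.K740
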