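import Mathlib

set_option autoImplicit false
set_option linter.unusedSectionVars false

/-!
Row 154, block B7: the K-set bound.  Abstract randomised explorations of an i.i.d. environment,
trimmed exploration with deterministic capacity bound (helper740).
-/

namespace Crest.Agent.R154.K740

open MeasureTheory ProbabilityTheory
open scoped ENNReal

section merge

variable {S Rw : Type*}

open Classical in
/-- `ω` on `V`, `η` outside. -/
noncomputable def merge (V : Finset S) (ω η : S → Rw) : S → Rw :=
  fun x => if x ∈ V then ω x else η x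

lemma merge_mem {V : Finset S} {ω η : S → Rw} {x : S} (hx : x ∈ V) : merge V ω η x = ω x := by
  simp [merge, hx]

lemma merge_not_mem {V : Finset S} {ω η : S → Rw} {x : S} (hx : x ∉ V) :
    merge V ω η x = η x := by
  simp [merge, hx]

@[simp] lemma merge_empty (ω η : S → Rw) : merge ∅ ω η = η := by
  funext x; simp [merge]

lemma measurable_merge [MeasurableSpace Rw] (V : Finset S) (ω : S → Rw) :
    Measurable (merge V ω) := by
  classical
  refine measurable_pi_lambda _ fun x => ?_
  by_cases hx : x ∈ V
  · simp only [merge, hx, if_true]; exact measurable_const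
  · simp only [merge, hx, if_false]; exact measurable_pi_apply x

lemma merge_update [DecidableEq S] {V : Finset S} {ω η : S → Rw} {z : S} (hz : z ∉ V) (r : Rw) :
    merge V ω (Function.update η z r) = merge (insert z V) (Function.update ω z r) η := by
  classical
  funext x
  by_cases hxz : x = z
  · subst hxz
    simp [merge, hz]
  · by_cases hx : x ∈ V
    · simp [merge, hx, hxz]
    · simp [merge, hx, hxz]

/-- The law of the environment is invariant under resampling one coordinate. -/
lemma infinitePi_update [MeasurableSpace Rw] [DecidableEq S] (ν : Measure Rw)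
    [IsProbabilityMeasure ν] (z : S) :
    (ν.prod (Measure.infinitePi fun _ : S => ν)).map
      (fun p : Rw × (S → Rw) => Function.update p.2 z p.1) = Measure.infinitePi fun _ : S => ν := by
  apply Measure.eq_infinitePi
  intro s t ht
  have hmeas : Measurable (fun p : Rw × (S → Rw) => Function.update p.2 z p.1) := by
    refine measurable_pi_lambda _ fun x => ?_
    by_cases hx : x = z
    · subst hx; simpa using measurable_fst
    · simp only [Function.update_of_ne hx]
      exact (measurable_pi_apply x).comp measurable_snd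
  rw [Measure.map_apply hmeas (MeasurableSet.pi s.countable_toSet fun i _ => ht i)]
  by_cases hz : z ∈ s
  · have : (fun p : Rw × (S → Rw) => Function.update p.2 z p.1) ⁻¹' (Set.pi s t)
        = (t z) ×ˢ (Set.pi (s.erase z) t) := by
      ext p
      simp only [Set.mem_preimage, Set.mem_pi, Finset.mem_coe, Set.mem_prod, Finset.mem_erase]
      constructor
      · intro h
        refine ⟨by simpa using h z hz, fun i hi => ?_⟩
        simpa [Function.update_of_ne hi.1] using h i hi.2
      · rintro ⟨h1, h2⟩ i hi
        by_cases hiz : i = z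
        · subst hiz; simpa using h1
        · simpa [Function.update_of_ne hiz] using h2 i ⟨hiz, hi⟩
    rw [this, Measure.prod_prod, Measure.infinitePi_pi _ (fun i _ => ht i),
      ← Finset.mul_prod_erase s (fun i => ν (t i)) hz]
  · have : (fun p : Rw × (S → Rw) => Function.update p.2 z p.1) ⁻¹' (Set.pi s t)
        = Set.univ ×ˢ (Set.pi s t) := by
      ext p
      simp only [Set.mem_preimage, Set.mem_pi, Finset.mem_coe, Set.mem_prod, Set.mem_univ,
        true_and]
      refine forall₂_congr fun i hi => ?_
      have hiz : i ≠ z := fun h => hz (h ▸ hi)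
      rw [Function.update_of_ne hiz]
    rw [this, Measure.prod_prod, Measure.infinitePi_pi _ (fun i _ => ht i)]
    simp

/-- Integrate one fresh coordinate. -/
lemma lintegral_merge_insert [MeasurableSpace Rw] [DecidableEq S] (ν : Measure Rw)
    [IsProbabilityMeasure ν] {V : Finset S} {z : S} (hz : z ∉ V) (ω : S → Rw)
    {G : (S → Rw) → ℝ≥0∞} (hG : Measurable G) :
    ∫⁻ η, G (merge V ω η) ∂(Measure.infinitePi fun _ : S => ν) =
      ∫⁻ r, ∫⁻ η, G (merge (insert z V) (Function.update ω z r) η)
        ∂(Measure.infinitePi fun _ : S => ν) ∂ν := by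
  have hmeas : Measurable (fun p : Rw × (S → Rw) => Function.update p.2 z p.1) := by
    refine measurable_pi_lambda _ fun x => ?_
    by_cases hx : x = z
    · subst hx; simpa using measurable_fst
    · simp only [Function.update_of_ne hx]
      exact (measurable_pi_apply x).comp measurable_snd
  have hm := hG.comp (measurable_merge V ω)
  conv_lhs => rw [← infinitePi_update ν z]
  rw [lintegral_map (f := fun η => G (merge V ω η)) hm hmeas,
    lintegral_prod (fun p : Rw × (S → Rw) => G (merge V ω (Function.update p.2 z p.1)))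
      (hm.comp hmeas).aemeasurable]
  simp only [merge_update hz]

end merge

/-- A randomised exploration of an environment `S → Rw` with horizon `T`: at the history `h`
(most recent symbol first) it asks for the row of the site `site h` (or of no site) and the next
symbol has law `ker h r` (resp. `free h`). -/
structure Expl (S Rw A : Type*) [MeasurableSpace Rw] where
  site : List A → Option S
  ker : List A → Rw → A → ℝ≥0∞
  free : List A → A → ℝ≥0∞
  ker_sum : ∀ h r, ∑' a, ker h r a = 1
  free_sum : ∀ h, ∑' a, free h a = 1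
  ker_meas : ∀ h a, Measurable fun r => ker h r a
  T : ℕ

namespace Expl

variable {S Rw A : Type*} [MeasurableSpace Rw] (E : Expl S Rw A)

/-- one-step law of the exploration at history `h` in the environment `ω` -/
def step (ω : S → Rw) (h : List A) (a : A) : ℝ≥0∞ :=
  match E.site h with
  | none => E.free h a
  | some z => E.ker h (ω z) a

lemma step_none {ω : S → Rw} {h : List A} (hh : E.site h = none) (a : A) :
    E.step ω h a = E.free h a := by
  simp [step, hh]

lemma step_some {ω : S → Rw} {h : List A} {z : S} (hh : E.site h = some z) (a : A) :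
    E.step ω h a = E.ker h (ω z) a := by
  simp [step, hh]

lemma step_sum (ω : S → Rw) (h : List A) : ∑' a, E.step ω h a = 1 := by
  rcases hh : E.site h with _ | z
  · simp only [E.step_none hh, E.free_sum]
  · simp only [E.step_some hh, E.ker_sum]

/-- expected payoff `u` after `n` further steps from the history `h`, in the environment `ω` -/
noncomputable def val (u : List A → ℝ≥0∞) (ω : S → Rw) : ℕ → List A → ℝ≥0∞
  | 0, h => u h
  | n + 1, h => ∑' a, E.step ω h a * val u ω n (a :: h)

lemma val_mono {u v : List A → ℝ≥0∞} (huv : ∀ h, u h ≤ v h) (ω : S → Rw) (n : ℕ) (h : List A) :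
    E.val u ω n h ≤ E.val v ω n h := by
  induction n generalizing h with
  | zero => exact huv h
  | succ n ih => exact ENNReal.tsum_le_tsum fun a => by gcongr; exact ih _

lemma val_add (u v : List A → ℝ≥0∞) (ω : S → Rw) (n : ℕ) (h : List A) :
    E.val (fun h => u h + v h) ω n h = E.val u ω n h + E.val v ω n h := by
  induction n generalizing h with
  | zero => rfl
  | succ n ih => simp only [val, ih, mul_add, ENNReal.tsum_add]

lemma val_mul_left (c : ℝ≥0∞) (u : List A → ℝ≥0∞) (ω : S → Rw) (n : ℕ) (h : List A) :
    E.val (fun h => c * u h) ω n h = c * E.val u ω n h := by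
  induction n generalizing h with
  | zero => rfl
  | succ n ih =>
    simp only [val, ih, ← ENNReal.tsum_mul_left]
    exact tsum_congr fun a => by ring

lemma val_finset_sum {ι : Type*} (s : Finset ι) (u : ι → List A → ℝ≥0∞) (ω : S → Rw) (n : ℕ)
    (h : List A) :
    E.val (fun h => ∑ i ∈ s, u i h) ω n h = ∑ i ∈ s, E.val (u i) ω n h := by
  classical
  induction s using Finset.induction_on with
  | empty =>
    simp only [Finset.sum_empty]
    have := E.val_mul_left 0 (fun _ => 0) ω n h
    simpa using this
  | insert i s hi ih =>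
    simp only [Finset.sum_insert hi]
    rw [E.val_add (u i) (fun h => ∑ i ∈ s, u i h), ih]

lemma val_const (c : ℝ≥0∞) (ω : S → Rw) (n : ℕ) (h : List A) :
    E.val (fun _ => c) ω n h = c := by
  induction n generalizing h with
  | zero => rfl
  | succ n ih => simp only [val, ih, ENNReal.tsum_mul_right, E.step_sum, one_mul]

lemma val_le_one {u : List A → ℝ≥0∞} (hu : ∀ h, u h ≤ 1) (ω : S → Rw) (n : ℕ) (h : List A) :
    E.val u ω n h ≤ 1 := by
  calc E.val u ω n h ≤ E.val (fun _ => 1) ω n h := E.val_mono hu ω n h
    _ = 1 := E.val_const 1 ω n h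

/-- a lower bound which holds for all completions of `h` -/
lemma le_val_of_ext {u : List A → ℝ≥0∞} {c : ℝ≥0∞} (ω : S → Rw) (n : ℕ) (h : List A)
    (hu : ∀ l : List A, l.length = n → c ≤ u (l ++ h)) : c ≤ E.val u ω n h := by
  induction n generalizing h with
  | zero => simpa [val] using hu [] rfl
  | succ n ih =>
    have h1 : ∀ a, c ≤ E.val u ω n (a :: h) := fun a => ih (a :: h) fun l hl => by
      have := hu (l ++ [a]) (by simp [hl])
      simpa using this
    calc c = (∑' a, E.step ω h a) * c := by rw [E.step_sum, one_mul]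
      _ = ∑' a, E.step ω h a * c := by rw [ENNReal.tsum_mul_right]
      _ ≤ ∑' a, E.step ω h a * E.val u ω n (a :: h) :=
        ENNReal.tsum_le_tsum fun a => by gcongr; exact h1 a

lemma measurable_step (h : List A) (a : A) : Measurable fun ω : S → Rw => E.step ω h a := by
  rcases hh : E.site h with _ | z
  · simp only [E.step_none hh]; exact measurable_const
  · simp only [E.step_some hh]; exact (E.ker_meas h a).comp (measurable_pi_apply z)

lemma measurable_val [Countable A] (u : List A → ℝ≥0∞) (n : ℕ) (h : List A) :
    Measurable fun ω : S → Rw => E.val u ω n h := by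
  induction n generalizing h with
  | zero => exact measurable_const
  | succ n ih =>
    exact Measurable.tsum fun a => (E.measurable_step h a).mul (ih (a :: h))

open Classical in
/-- the set of sites asked before the history `h` -/
noncomputable def expl : List A → Finset S
  | [] => ∅
  | _ :: h => match E.site h with
    | none => expl h
    | some z => insert z (expl h)

lemma expl_cons_none {h : List A} (hh : E.site h = none) (a : A) :
    E.expl (a :: h) = E.expl h := by
  simp [expl, hh]

lemma expl_cons_some [DecidableEq S] {h : List A} {z : S} (hh : E.site h = some z) (a : A) :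
    E.expl (a :: h) = insert z (E.expl h) := by
  simp only [expl, hh]
  congr!

lemma expl_subset_cons (a : A) (h : List A) : E.expl h ⊆ E.expl (a :: h) := by
  classical
  rcases hh : E.site h with _ | z
  · rw [E.expl_cons_none hh]
  · rw [E.expl_cons_some hh]; exact Finset.subset_insert _ _

lemma expl_subset_append (l h : List A) : E.expl h ⊆ E.expl (l ++ h) := by
  induction l with
  | nil => exact Finset.Subset.refl _
  | cons a l ih => exact ih.trans (E.expl_subset_cons a (l ++ h))

lemma insert_subset_append [DecidableEq S] {h : List A} {z : S} (hh : E.site h = some z)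
    {l : List A} (hl : l ≠ []) : insert z (E.expl h) ⊆ E.expl (l ++ h) := by
  obtain ⟨l', a, rfl⟩ : ∃ l' a, l = l' ++ [a] := ⟨l.dropLast, l.getLast hl,
    (List.dropLast_append_getLast hl).symm⟩
  have := E.expl_subset_append l' (a :: h)
  rw [E.expl_cons_some hh] at this
  simpa using this

open Classical in
/-- The trimmed value: payoff `1` as soon as the next asked site lies in `V0` or would make the
own explored set fail `ok`. -/
noncomputable def valT (V0 : Finset S) (ok : Finset S → Prop) (u : List A → ℝ≥0∞) (ω : S → Rw) :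
    ℕ → List A → ℝ≥0∞
  | 0, h => u h
  | n + 1, h =>
    match E.site h with
    | none => ∑' a, E.free h a * valT V0 ok u ω n (a :: h)
    | some z => if z ∈ V0 ∨ ¬ ok (insert z (E.expl h)) then 1
        else ∑' a, E.ker h (ω z) a * valT V0 ok u ω n (a :: h)

lemma valT_none {V0 : Finset S} {ok : Finset S → Prop} {u : List A → ℝ≥0∞} {ω : S → Rw} {n : ℕ}
    {h : List A} (hh : E.site h = none) :
    E.valT V0 ok u ω (n + 1) h = ∑' a, E.free h a * E.valT V0 ok u ω n (a :: h) := by
  simp [valT, hh]

lemma valT_trim [DecidableEq S] {V0 : Finset S} {ok : Finset S → Prop} {u : List A → ℝ≥0∞}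
    {ω : S → Rw} {n : ℕ}
    {h : List A} {z : S} (hh : E.site h = some z) (hz : z ∈ V0 ∨ ¬ ok (insert z (E.expl h))) :
    E.valT V0 ok u ω (n + 1) h = 1 := by
  simp only [valT, hh]
  rw [if_pos]
  convert hz

lemma valT_some [DecidableEq S] {V0 : Finset S} {ok : Finset S → Prop} {u : List A → ℝ≥0∞}
    {ω : S → Rw} {n : ℕ}
    {h : List A} {z : S} (hh : E.site h = some z) (hz : ¬ (z ∈ V0 ∨ ¬ ok (insert z (E.expl h)))) :
    E.valT V0 ok u ω (n + 1) h = ∑' a, E.ker h (ω z) a * E.valT V0 ok u ω n (a :: h) := by
  simp only [valT, hh]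
  rw [if_neg]
  convert hz

lemma measurable_valT [Countable A] (V0 : Finset S) (ok : Finset S → Prop)
    (u : List A → ℝ≥0∞) (n : ℕ) (h : List A) :
    Measurable fun ω : S → Rw => E.valT V0 ok u ω n h := by
  classical
  induction n generalizing h with
  | zero => exact measurable_const
  | succ n ih =>
    rcases hh : E.site h with _ | z
    · simp only [E.valT_none hh]
      exact Measurable.tsum fun a => (ih (a :: h)).const_mul _
    · by_cases hz : z ∈ V0 ∨ ¬ ok (insert z (E.expl h))
      · simp only [E.valT_trim hh hz]; exact measurable_const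
      · simp only [E.valT_some hh hz]
        exact Measurable.tsum fun a =>
          ((E.ker_meas h a).comp (measurable_pi_apply z)).mul (ih (a :: h))

/-- The payoff `1` on the histories which meet `V0` or fail `ok`. -/
noncomputable def bad (V0 : Finset S) (ok : Finset S → Prop) (h : List A) : ℝ≥0∞ := by
  classical
  exact if Disjoint (E.expl h) V0 ∧ ok (E.expl h) then 0 else 1

lemma valT_le [DecidableEq S] {V0 : Finset S} {ok : Finset S → Prop}
    (hok : ∀ R R' : Finset S, R ⊆ R' → ok R' → ok R) (u : List A → ℝ≥0∞) (ω : S → Rw) (n : ℕ)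
    (h : List A) :
    E.valT V0 ok u ω n h ≤ E.val (fun h => u h + E.bad V0 ok h) ω n h := by
  classical
  induction n generalizing h with
  | zero => exact le_self_add
  | succ n ih =>
    rcases hh : E.site h with _ | z
    · rw [E.valT_none hh, val]
      simp only [E.step_none hh]
      exact ENNReal.tsum_le_tsum fun a => by gcongr; exact ih _
    · by_cases hz : z ∈ V0 ∨ ¬ ok (insert z (E.expl h))
      · rw [E.valT_trim hh hz]
        refine E.le_val_of_ext ω (n + 1) h fun l hl => ?_
        have hl' : l ≠ [] := by rintro rfl; simp at hl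
        have hsub := E.insert_subset_append hh hl'
        refine le_add_left ?_
        have : ¬ (Disjoint (E.expl (l ++ h)) V0 ∧ ok (E.expl (l ++ h))) := by
          rintro ⟨h1, h2⟩
          rcases hz with hz | hz
          · exact Finset.disjoint_left.1 h1 (hsub (Finset.mem_insert_self _ _)) hz
          · exact hz (hok _ _ hsub h2)
        simp [bad, this]
      · rw [E.valT_some hh hz, val]
        simp only [E.step_some hh]
        exact ENNReal.tsum_le_tsum fun a => by gcongr; exact ih _

section onestep

variable [Countable A] (ν : Measure Rw) [IsProbabilityMeasure ν]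

local notation "𝐏" => (Measure.infinitePi fun _ : S => ν)

/-- **(K1), raw form.** -/
theorem lintegral_val_mul_le [DecidableEq S] {V0 : Finset S} {ok : Finset S → Prop}
    {u : List A → ℝ≥0∞} (hu : ∀ h, u h ≤ 1)
    {X : (S → Rw) → ℝ≥0∞} (hX : Measurable X) {b : ℝ≥0∞} (hbt : b ≠ ∞)
    (hb : ∀ R : Finset S, Disjoint R V0 → ok R → ∀ ω : S → Rw,
      ∫⁻ η, X (merge (V0 ∪ R) ω η) ∂𝐏 ≤ b)
    (n : ℕ) (h : List A) (hd : Disjoint (E.expl h) V0) (hokh : ok (E.expl h)) (ω : S → Rw) :
    ∫⁻ η, E.val u (merge (V0 ∪ E.expl h) ω η) n h * X (merge (V0 ∪ E.expl h) ω η) ∂𝐏 ≤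
      b * ∫⁻ η, E.valT V0 ok u (merge (E.expl h) ω η) n h ∂𝐏 := by
  classical
  induction n generalizing h ω with
  | zero =>
    have hXm : Measurable fun η => X (merge (V0 ∪ E.expl h) ω η) :=
      hX.comp (measurable_merge _ ω)
    simp only [val, valT, lintegral_const, measure_univ, mul_one]
    rw [lintegral_const_mul _ hXm, mul_comm]
    gcongr
    exact hb _ hd hokh ω
  | succ n ih =>
    have hXm : ∀ V : Finset S, ∀ ω : S → Rw, Measurable fun η => X (merge V ω η) :=
      fun V ω => hX.comp (measurable_merge V ω)
    have hvm : ∀ (h : List A) (V : Finset S) (ω : S → Rw),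
        Measurable fun η => E.val u (merge V ω η) n h :=
      fun h V ω => (E.measurable_val u n h).comp (measurable_merge V ω)
    have hpm : ∀ (h : List A) (V : Finset S) (ω : S → Rw),
        Measurable fun η => E.val u (merge V ω η) n h * X (merge V ω η) :=
      fun h V ω => (hvm h V ω).mul (hXm V ω)
    have hTm : ∀ (h : List A) (V : Finset S) (ω : S → Rw),
        Measurable fun η => E.valT V0 ok u (merge V ω η) n h :=
      fun h V ω => (E.measurable_valT V0 ok u n h).comp (measurable_merge V ω)
    -- the case in which the one-step law is a constant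
    have key : ∀ p : A → ℝ≥0∞, (∀ a, E.expl (a :: h) = E.expl h) →
        (∫⁻ η, (∑' a, p a * E.val u (merge (V0 ∪ E.expl h) ω η) n (a :: h)) *
            X (merge (V0 ∪ E.expl h) ω η) ∂𝐏) ≤
          b * ∫⁻ η, ∑' a, p a * E.valT V0 ok u (merge (E.expl h) ω η) n (a :: h) ∂𝐏 := by
      intro p hp
      calc (∫⁻ η, (∑' a, p a * E.val u (merge (V0 ∪ E.expl h) ω η) n (a :: h)) *
              X (merge (V0 ∪ E.expl h) ω η) ∂𝐏)
          = ∫⁻ η, ∑' a, p a * (E.val u (merge (V0 ∪ E.expl h) ω η) n (a :: h) *
              X (merge (V0 ∪ E.expl h) ω η)) ∂𝐏 := by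
            refine lintegral_congr fun η => ?_
            rw [← ENNReal.tsum_mul_right]
            exact tsum_congr fun a => by ring
        _ = ∑' a, p a * ∫⁻ η, E.val u (merge (V0 ∪ E.expl h) ω η) n (a :: h) *
              X (merge (V0 ∪ E.expl h) ω η) ∂𝐏 := by
            rw [lintegral_tsum fun a => ((hpm _ _ ω).const_mul _).aemeasurable]
            exact tsum_congr fun a => lintegral_const_mul _ (hpm _ _ ω)
        _ ≤ ∑' a, p a * (b * ∫⁻ η, E.valT V0 ok u (merge (E.expl h) ω η) n (a :: h) ∂𝐏) := by
            refine ENNReal.tsum_le_tsum fun a => ?_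
            gcongr
            have := ih (a :: h) (by rw [hp]; exact hd) (by rw [hp]; exact hokh) ω
            rw [hp] at this
            exact this
        _ = b * ∫⁻ η, ∑' a, p a * E.valT V0 ok u (merge (E.expl h) ω η) n (a :: h) ∂𝐏 := by
            rw [lintegral_tsum fun a => ((hTm _ _ ω).const_mul _).aemeasurable,
              ← ENNReal.tsum_mul_left]
            refine tsum_congr fun a => ?_
            rw [lintegral_const_mul _ (hTm _ _ ω)]
            ring
    rcases hh : E.site h with _ | z
    · -- no site is asked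
      simp only [val, E.step_none hh, E.valT_none hh]
      exact key (E.free h) fun a => E.expl_cons_none hh a
    · by_cases hz : z ∈ V0 ∨ ¬ ok (insert z (E.expl h))
      · -- trimmed
        simp only [E.valT_trim hh hz, lintegral_const, measure_univ, mul_one]
        calc (∫⁻ η, E.val u (merge (V0 ∪ E.expl h) ω η) (n + 1) h *
                X (merge (V0 ∪ E.expl h) ω η) ∂𝐏)
            ≤ ∫⁻ η, X (merge (V0 ∪ E.expl h) ω η) ∂𝐏 := by
              refine lintegral_mono fun η => ?_
              exact mul_le_of_le_one_left' (E.val_le_one hu _ _ _)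
          _ ≤ b := hb _ hd hokh ω
      · have hz' := hz
        push Not at hz'
        obtain ⟨hzV, hzok⟩ := hz'
        simp only [val, E.step_some hh, E.valT_some hh hz]
        by_cases hzR : z ∈ E.expl h
        · -- the row is known
          have h1 : ∀ η : S → Rw, merge (V0 ∪ E.expl h) ω η z = ω z := fun η =>
            merge_mem (Finset.mem_union_right _ hzR)
          have h2 : ∀ η : S → Rw, merge (E.expl h) ω η z = ω z := fun η => merge_mem hzR
          simp only [h1, h2]
          exact key (E.ker h (ω z)) fun a => by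
            rw [E.expl_cons_some hh, Finset.insert_eq_of_mem hzR]
        · -- a fresh site
          have hzU : z ∉ V0 ∪ E.expl h := by
            simp only [Finset.mem_union, not_or]; exact ⟨hzV, hzR⟩
          have hG : Measurable fun ω' : S → Rw =>
              (∑' a, E.ker h (ω' z) a * E.val u ω' n (a :: h)) * X ω' :=
            (Measurable.tsum fun a =>
              ((E.ker_meas h a).comp (measurable_pi_apply z)).mul
                (E.measurable_val u n (a :: h))).mul hX
          have hG' : Measurable fun ω' : S → Rw =>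
              ∑' a, E.ker h (ω' z) a * E.valT V0 ok u ω' n (a :: h) :=
            Measurable.tsum fun a =>
              ((E.ker_meas h a).comp (measurable_pi_apply z)).mul
                (E.measurable_valT V0 ok u n (a :: h))
          rw [lintegral_merge_insert ν hzU ω hG, lintegral_merge_insert ν hzR ω hG']
          have e1 : ∀ (r : Rw) (η : S → Rw),
              merge (insert z (V0 ∪ E.expl h)) (Function.update ω z r) η z = r := fun r η => by
            rw [merge_mem (Finset.mem_insert_self _ _)]; simp
          have e2 : ∀ (r : Rw) (η : S → Rw),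
              merge (insert z (E.expl h)) (Function.update ω z r) η z = r := fun r η => by
            rw [merge_mem (Finset.mem_insert_self _ _)]; simp
          simp only [e1, e2]
          have hU : ∀ a, insert z (V0 ∪ E.expl h) = V0 ∪ E.expl (a :: h) := fun a => by
            rw [E.expl_cons_some hh, Finset.union_insert]
          calc (∫⁻ r, ∫⁻ η, (∑' a, E.ker h r a *
                  E.val u (merge (insert z (V0 ∪ E.expl h)) (Function.update ω z r) η) n (a :: h)) *
                  X (merge (insert z (V0 ∪ E.expl h)) (Function.update ω z r) η) ∂𝐏 ∂ν)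
              = ∫⁻ r, ∑' a, E.ker h r a * ∫⁻ η,
                  E.val u (merge (V0 ∪ E.expl (a :: h)) (Function.update ω z r) η) n (a :: h) *
                  X (merge (V0 ∪ E.expl (a :: h)) (Function.update ω z r) η) ∂𝐏 ∂ν := by
                refine lintegral_congr fun r => ?_
                rw [← tsum_congr (fun a => lintegral_const_mul _
                  (hpm (a :: h) (V0 ∪ E.expl (a :: h)) (Function.update ω z r))),
                  ← lintegral_tsum fun a =>
                    ((hpm (a :: h) (V0 ∪ E.expl (a :: h)) (Function.update ω z r)).const_mul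
                      _).aemeasurable]
                refine lintegral_congr fun η => ?_
                rw [← ENNReal.tsum_mul_right]
                refine tsum_congr fun a => ?_
                rw [hU a]
                ring
            _ ≤ ∫⁻ r, ∑' a, E.ker h r a * (b * ∫⁻ η,
                  E.valT V0 ok u (merge (E.expl (a :: h)) (Function.update ω z r) η) n (a :: h)
                    ∂𝐏) ∂ν := by
                refine lintegral_mono fun r => ?_
                refine ENNReal.tsum_le_tsum fun a => ?_
                gcongr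
                refine ih (a :: h) ?_ ?_ _
                · rw [E.expl_cons_some hh]
                  exact Finset.disjoint_insert_left.2 ⟨hzV, hd⟩
                · rw [E.expl_cons_some hh]; exact hzok
            _ = ∫⁻ r, b * ∑' a, E.ker h r a * (∫⁻ η,
                  E.valT V0 ok u (merge (E.expl (a :: h)) (Function.update ω z r) η) n (a :: h)
                    ∂𝐏) ∂ν := by
                refine lintegral_congr fun r => ?_
                rw [← ENNReal.tsum_mul_left]
                exact tsum_congr fun a => by ring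
            _ = ∫⁻ r, b * ∫⁻ η, ∑' a, E.ker h r a *
                  E.valT V0 ok u (merge (insert z (E.expl h)) (Function.update ω z r) η) n (a :: h)
                    ∂𝐏 ∂ν := by
                refine lintegral_congr fun r => ?_
                congr 1
                rw [lintegral_tsum fun a => ((hTm (a :: h) _ _).const_mul _).aemeasurable]
                refine tsum_congr fun a => ?_
                rw [lintegral_const_mul _ (hTm (a :: h) _ _), E.expl_cons_some hh]
            _ = b * ∫⁻ r, ∫⁻ η, ∑' a, E.ker h r a *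
                  E.valT V0 ok u (merge (insert z (E.expl h)) (Function.update ω z r) η) n (a :: h)
                    ∂𝐏 ∂ν := by
                rw [lintegral_const_mul' _ _ hbt]

/-- the annealed probability that the exploration meets `V` -/
noncomputable def hit (V : Finset S) : ℝ≥0∞ := by
  classical
  exact ∫⁻ η, E.val (fun h => if Disjoint (E.expl h) V then 0 else 1) η E.T [] ∂𝐏

/-- annealed expected payoff -/
noncomputable def ann (u : List A → ℝ≥0∞) : ℝ≥0∞ := ∫⁻ η, E.val u η E.T [] ∂𝐏

/-- **(K1)**, one step of the trimmed exploration. -/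
theorem onestep {V0 : Finset S} {c : Finset S → ℝ≥0∞}
    (hc : ∀ R R' : Finset S, R ⊆ R' → c R ≤ c R') {θ : ℝ≥0∞} (hθ0 : θ ≠ 0) (hθ : θ ≠ ∞)
    (hc0 : c ∅ ≤ θ)
    {u : List A → ℝ≥0∞} (hu : ∀ h, u h ≤ 1)
    {X : (S → Rw) → ℝ≥0∞} (hX : Measurable X) {b : ℝ≥0∞} (hbt : b ≠ ∞)
    (hb : ∀ R : Finset S, Disjoint R V0 → c R ≤ θ → ∀ ω : S → Rw,
      ∫⁻ η, X (by classical exact merge (V0 ∪ R) ω η) ∂𝐏 ≤ b) (ω : S → Rw) :
    ∫⁻ η, E.val u (merge V0 ω η) E.T [] * X (merge V0 ω η) ∂𝐏 ≤
      b * (E.ann ν u + E.hit ν V0 + E.ann ν (fun h => c (E.expl h)) / θ) := by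
  classical
  have h1 := E.lintegral_val_mul_le ν (V0 := V0) (ok := fun R => c R ≤ θ) hu hX hbt
    (fun R hR hR' ω => by
      have := hb R hR hR' ω
      convert this) E.T [] (by simp [expl]) (by simpa [expl] using hc0) ω
  simp only [expl, Finset.union_empty, merge_empty] at h1
  refine h1.trans ?_
  gcongr
  have h2 : ∀ η : S → Rw, E.valT V0 (fun R => c R ≤ θ) u η E.T [] ≤
      E.val u η E.T [] + E.val (fun h => if Disjoint (E.expl h) V0 then 0 else 1) η E.T [] +
        θ⁻¹ * E.val (fun h => c (E.expl h)) η E.T [] := by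
    intro η
    rw [← E.val_mul_left, ← E.val_add, ← E.val_add]
    refine (E.valT_le (V0 := V0) (ok := fun R => c R ≤ θ)
      (fun R R' h h' => (hc R R' h).trans h') u η E.T []).trans ?_
    refine E.val_mono (fun h => ?_) η E.T []
    by_cases hd : Disjoint (E.expl h) V0
    · by_cases hk : c (E.expl h) ≤ θ
      · simp [bad, hd, hk]
      · have : 1 ≤ θ⁻¹ * c (E.expl h) := by
          rw [← ENNReal.inv_mul_cancel hθ0 hθ]
          gcongr
          exact (not_le.1 hk).le
        simp only [bad, hd, hk, and_false, if_false, if_true, add_zero]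
        gcongr
    · simp only [bad, hd, false_and, if_false]
      exact le_self_add
  calc (∫⁻ η, E.valT V0 (fun R => c R ≤ θ) u η E.T [] ∂𝐏)
      ≤ ∫⁻ η, (E.val u η E.T [] + E.val (fun h => if Disjoint (E.expl h) V0 then 0 else 1) η E.T [] +
        θ⁻¹ * E.val (fun h => c (E.expl h)) η E.T []) ∂𝐏 := lintegral_mono h2
    _ = E.ann ν u + E.hit ν V0 + E.ann ν (fun h => c (E.expl h)) / θ := by
      rw [lintegral_add_right _ ((E.measurable_val _ _ _).const_mul _),
        lintegral_add_right _ (E.measurable_val _ _ _),
        lintegral_const_mul _ (E.measurable_val _ _ _), ENNReal.div_eq_inv_mul]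
      rfl

end onestep

section capacity

variable [Countable A] (ν : Measure Rw) [IsProbabilityMeasure ν]

local notation "𝐏" => (Measure.infinitePi fun _ : S => ν)

lemma hit_mono {V V' : Finset S} (h : V ⊆ V') : E.hit ν V ≤ E.hit ν V' := by
  classical
  refine lintegral_mono fun η => E.val_mono (fun l => ?_) η _ _
  by_cases h' : Disjoint (E.expl l) V'
  · have : Disjoint (E.expl l) V := Finset.disjoint_of_subset_right h h'
    simp [h', this]
  · simp only [h', if_false]
    split_ifs <;> simp

lemma hit_union [DecidableEq S] (V V' : Finset S) :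
    E.hit ν (V ∪ V') ≤ E.hit ν V + E.hit ν V' := by
  classical
  unfold hit
  rw [← lintegral_add_right _ (E.measurable_val _ _ _)]
  refine lintegral_mono fun η => ?_
  rw [← E.val_add]
  refine E.val_mono (fun l => ?_) η _ _
  by_cases h1 : Disjoint (E.expl l) V
  · by_cases h2 : Disjoint (E.expl l) V'
    · have : Disjoint (E.expl l) (V ∪ V') := Finset.disjoint_union_right.2 ⟨h1, h2⟩
      simp [h1, h2, this]
    · simp only [h1, h2, if_true, if_false, zero_add]
      split_ifs <;> simp
  · simp only [h1, if_false]
    refine le_add_right ?_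
    split_ifs <;> simp

lemma hit_empty : E.hit ν (∅ : Finset S) = 0 := by
  classical
  unfold hit
  have : ∀ η : S → Rw, E.val (fun h => if Disjoint (E.expl h) ∅ then (0:ℝ≥0∞) else 1) η E.T [] = 0 := by
    intro η
    have h0 := E.val_const 0 η E.T []
    simpa using h0
  simp only [this, lintegral_zero]

end capacity

end Expl

section Kset

variable {S Rw A : Type*} [MeasurableSpace Rw] [Countable A] (ν : Measure Rw)
  [IsProbabilityMeasure ν]
variable {ι : Type*} (E : ι → Expl S Rw A) (u : ι → List A → ℝ≥0∞)

local notation "𝐏" => (Measure.infinitePi fun _ : S => ν)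

/-- the quenched value of test `i` -/
noncomputable def F (i : ι) (ω : S → Rw) : ℝ≥0∞ := (E i).val (u i) ω (E i).T []

lemma measurable_F (i : ι) : Measurable (F E u i) := (E i).measurable_val _ _ _

/-- the event that all tests in `K` have quenched value at least `ε` -/
def Bad (K : Finset ι) (ε : ℝ≥0∞) : Set (S → Rw) := {ω | ∀ i ∈ K, ε ≤ F E u i ω}

lemma measurableSet_Bad (K : Finset ι) (ε : ℝ≥0∞) : MeasurableSet (Bad E u K ε) := by
  have : Bad E u K ε = ⋂ i ∈ K, {ω | ε ≤ F E u i ω} := by
    ext ω; simp [Bad]
  rw [this]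
  exact K.measurableSet_biInter fun i _ => measurableSet_le measurable_const (measurable_F E u i)

/-- annealed contact probability of the tests `i`, `j` in independent environments -/
noncomputable def contact (i j : ι) : ℝ≥0∞ := (E i).ann ν fun h => (E j).hit ν ((E i).expl h)

/-- total load of a set of sites on the cells of `K` -/
noncomputable def load (K : Finset ι) (V : Finset S) : ℝ≥0∞ := ∑ j ∈ K, (E j).hit ν V

lemma load_mono {K : Finset ι} {V V' : Finset S} (h : V ⊆ V') : load ν E K V ≤ load ν E K V' :=
  Finset.sum_le_sum fun j _ => (E j).hit_mono ν h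

lemma load_mono_left {K K' : Finset ι} (h : K ⊆ K') (V : Finset S) :
    load ν E K V ≤ load ν E K' V :=
  Finset.sum_le_sum_of_subset h

lemma load_union [DecidableEq S] (K : Finset ι) (V V' : Finset S) :
    load ν E K (V ∪ V') ≤ load ν E K V + load ν E K V' := by
  unfold load
  rw [← Finset.sum_add_distrib]
  exact Finset.sum_le_sum fun j _ => (E j).hit_union ν V V'

lemma load_empty (K : Finset ι) : load ν E K ∅ = 0 := by
  unfold load
  exact Finset.sum_eq_zero fun j _ => (E j).hit_empty ν

lemma ann_load (K : Finset ι) (i : ι) :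
    (E i).ann ν (fun h => load ν E K ((E i).expl h)) = ∑ j ∈ K, contact ν E i j := by
  unfold contact Expl.ann load
  rw [← lintegral_finsetSum _ fun j _ => (E i).measurable_val _ _ _]
  refine lintegral_congr fun η => ?_
  rw [(E i).val_finset_sum]

/-- the least loaded cell -/
lemma exists_hit_le {K : Finset ι} (hK : K.Nonempty) (V : Finset S) {η : ℝ≥0∞}
    (h : load ν E K V ≤ K.card * η) : ∃ i ∈ K, (E i).hit ν V ≤ η := by
  by_contra hcon
  push Not at hcon
  have h1 : ∑ _j ∈ K, η < load ν E K V := by
    refine ENNReal.sum_lt_sum_of_nonempty hK fun i hi => hcon i hi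
  rw [Finset.sum_const, nsmul_eq_mul] at h1
  exact absurd h (not_le.2 h1)

/-- one launch -/
lemma launch {K : Finset ι} {ε : ℝ≥0∞} (hε0 : ε ≠ 0) (hεt : ε ≠ ∞) {i : ι} (hi : i ∈ K)
    (hu : ∀ h, u i h ≤ 1) (K' : Finset ι) {θ : ℝ≥0∞} (hθ0 : θ ≠ 0) (hθ : θ ≠ ∞)
    {V : Finset S} {b : ℝ≥0∞} (hbt : b ≠ ∞)
    (hb : ∀ R : Finset S, Disjoint R V → load ν E K' R ≤ θ → ∀ ω : S → Rw,
      ∫⁻ η, (Bad E u K ε).indicator 1 (by classical exact merge (V ∪ R) ω η) ∂𝐏 ≤ b)
    (ω : S → Rw) :
    ∫⁻ η, (Bad E u K ε).indicator 1 (merge V ω η) ∂𝐏 ≤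
      b * (((E i).ann ν (u i) + (E i).hit ν V + (∑ j ∈ K', contact ν E i j) / θ) / ε) := by
  have h1 := (E i).onestep ν (V0 := V) (c := load ν E K') (fun R R' h => load_mono ν E h) hθ0 hθ
    (by rw [load_empty]; exact zero_le) hu
    (X := (Bad E u K ε).indicator 1) (measurable_one.indicator (measurableSet_Bad E u K ε)) hbt hb ω
  rw [ann_load] at h1
  rw [← mul_div_assoc, ENNReal.le_div_iff_mul_le (Or.inl hε0) (Or.inl hεt)]
  refine le_trans ?_ h1
  rw [mul_comm, ← lintegral_const_mul' _ _ hεt]
  refine lintegral_mono fun η => ?_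
  by_cases hη : merge V ω η ∈ Bad E u K ε
  · simp only [Set.indicator_of_mem hη, Pi.one_apply, mul_one]
    exact hη i hi
  · simp [Set.indicator_of_notMem hη]

/-- **(K2) Blocked cells**: several walkers per cell, self energy included. -/
theorem kset_many {K : Finset ι} (hK : K.Nonempty) {ε θ δ κ ζ : ℝ≥0∞} (hε0 : ε ≠ 0) (hεt : ε ≠ ∞)
    (hθ0 : θ ≠ 0) (hθ : θ ≠ ∞) (hδ : δ ≠ ∞) (hκ : κ ≠ ∞) (hζ : ζ ≠ ∞)
    (hu : ∀ i ∈ K, ∀ h, u i h ≤ 1) (hF : ∀ i ∈ K, (E i).ann ν (u i) ≤ δ)
    (hcontact : ∀ i ∈ K, ∑ j ∈ K, contact ν E i j ≤ κ)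
    (n : ℕ) (V : Finset S) (hV : load ν E K V + n * θ ≤ K.card * ζ) (ω : S → Rw) :
    ∫⁻ η, (Bad E u K ε).indicator 1 (merge V ω η) ∂𝐏 ≤ ((δ + ζ + κ / θ) / ε) ^ n := by
  classical
  have hr : (δ + ζ + κ / θ) / ε ≠ ∞ :=
    ENNReal.div_ne_top (by simp [hδ, hζ, ENNReal.div_ne_top hκ hθ0]) hε0
  induction n generalizing V ω with
  | zero =>
    rw [pow_zero]
    calc (∫⁻ η, (Bad E u K ε).indicator 1 (merge V ω η) ∂𝐏) ≤ ∫⁻ _, 1 ∂𝐏 := by
          refine lintegral_mono fun η => ?_
          exact Set.indicator_le_self' (fun _ _ => zero_le) _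
      _ = 1 := by simp
  | succ n ih =>
    obtain ⟨i, hi, hiV⟩ := exists_hit_le ν E hK V (η := ζ) (le_trans le_self_add hV)
    have h1 := launch ν E u hε0 hεt hi (hu i hi) K hθ0 hθ (V := V)
      (b := ((δ + ζ + κ / θ) / ε) ^ n) (ENNReal.pow_ne_top hr)
      (fun R _ hR ω => by
        have h2 := ih (V ∪ R) (by
          calc load ν E K (V ∪ R) + n * θ ≤ (load ν E K V + load ν E K R) + n * θ := by
                gcongr; exact load_union ν E K V R
            _ ≤ (load ν E K V + θ) + n * θ := by gcongr
            _ = load ν E K V + ((n + 1 : ℕ) : ℝ≥0∞) * θ := by push_cast; ring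
            _ ≤ _ := hV) ω
        convert h2) ω
    refine h1.trans ?_
    rw [pow_succ]
    gcongr
    · exact hF i hi
    · exact hcontact i hi

/-- **(K3) One test per cell**, only off-diagonal contacts. -/
theorem kset_one [DecidableEq ι] {K : Finset ι} {ε θ δ κ ζ : ℝ≥0∞} (hε0 : ε ≠ 0) (hεt : ε ≠ ∞)
    (hθ0 : θ ≠ 0) (hθ : θ ≠ ∞) (hδ : δ ≠ ∞) (hκ : κ ≠ ∞) (hζ : ζ ≠ ∞)
    (hu : ∀ i ∈ K, ∀ h, u i h ≤ 1) (hF : ∀ i ∈ K, (E i).ann ν (u i) ≤ δ)
    (hcontact : ∀ i ∈ K, ∑ j ∈ K.erase i, contact ν E i j ≤ κ)
    (n : ℕ) (K' : Finset ι) (hK' : K' ⊆ K) (hn : n ≤ K'.card) (V : Finset S)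
    (hV : load ν E K' V + n * θ ≤ (K'.card - n + 1 : ℕ) * ζ) (ω : S → Rw) :
    ∫⁻ η, (Bad E u K ε).indicator 1 (merge V ω η) ∂𝐏 ≤ ((δ + ζ + κ / θ) / ε) ^ n := by
  classical
  have hr : (δ + ζ + κ / θ) / ε ≠ ∞ :=
    ENNReal.div_ne_top (by simp [hδ, hζ, ENNReal.div_ne_top hκ hθ0]) hε0
  induction n generalizing V ω K' with
  | zero =>
    rw [pow_zero]
    calc (∫⁻ η, (Bad E u K ε).indicator 1 (merge V ω η) ∂𝐏) ≤ ∫⁻ _, 1 ∂𝐏 := by
          refine lintegral_mono fun η => ?_
          exact Set.indicator_le_self' (fun _ _ => zero_le) _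
      _ = 1 := by simp
  | succ n ih =>
    have hne : K'.Nonempty := Finset.card_pos.1 (by omega)
    have hcard : ((K'.card - (n + 1) + 1 : ℕ) : ℝ≥0∞) ≤ (K'.card : ℝ≥0∞) := by
      exact_mod_cast (by omega : K'.card - (n + 1) + 1 ≤ K'.card)
    obtain ⟨i, hi, hiV⟩ := exists_hit_le ν E hne V (η := ζ)
      ((le_trans le_self_add hV).trans (by gcongr))
    have hcard' : (K'.erase i).card = K'.card - 1 := Finset.card_erase_of_mem hi
    have h1 := launch ν E u hε0 hεt (hK' hi) (hu i (hK' hi)) (K'.erase i) hθ0 hθ (V := V)
      (b := ((δ + ζ + κ / θ) / ε) ^ n) (ENNReal.pow_ne_top hr)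
      (fun R _ hR ω => by
        have h2 := ih (K'.erase i) ((Finset.erase_subset _ _).trans hK') (by omega) (V ∪ R) (by
          calc load ν E (K'.erase i) (V ∪ R) + n * θ
              ≤ (load ν E (K'.erase i) V + load ν E (K'.erase i) R) + n * θ := by
                gcongr; exact load_union ν E _ V R
            _ ≤ (load ν E K' V + θ) + n * θ := by
                gcongr; exact load_mono_left ν E (Finset.erase_subset _ _) V
            _ = load ν E K' V + ((n + 1 : ℕ) : ℝ≥0∞) * θ := by push_cast; ring
            _ ≤ (K'.card - (n + 1) + 1 : ℕ) * ζ := hV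
            _ = ((K'.erase i).card - n + 1 : ℕ) * ζ := by
                rw [hcard', show K'.card - (n + 1) = K'.card - 1 - n by omega]) ω
        convert h2) ω
    refine h1.trans ?_
    rw [pow_succ]
    gcongr
    · exact hF i (hK' hi)
    · refine le_trans ?_ (hcontact i (hK' hi))
      exact Finset.sum_le_sum_of_subset (Finset.erase_subset_erase i hK')

end Kset

end Crest.Agent.R154.K740
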