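import Crest.Agent.R154.LD_654

/-! Row 154, ROAD 801, list machine (helper654), part 3: two walkers, one window. -/

set_option autoImplicit false

namespace Crest.Agent.R154.LP654

open Crest.Agent.R154.B5A
open scoped ENNReal
open Classical

section one

variable {B G : Type*} [AddCommGroup G]
variable (Λ : B → ℝ≥0∞) (h : B → ℕ)

lemma walk_le (h1 : ∀ b, 1 ≤ h b) (hΛ : ∑' b, Λ b = 1) (hU1 : ∀ n, U Λ h n ≤ 1)
    (a T i0 n : ℕ) (hn : a + i0 + T + i0 ≤ n) (f : List B → ℝ≥0∞) (hf : ∀ L, f L ≤ 1)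
    (g : List B → List B → ℝ≥0∞)
    (hg : ∀ L1 L2, FP h a L1 → FP h T L2 → HT h L1 ≤ a + i0 → HT h L2 ≤ T + i0 →
      Cn Λ h (n - HT h L1 - HT h L2) (fun L3 => f (L1 ++ (L2 ++ L3))) ≤ g L1 L2) :
    Cn Λ h n f ≤ ov Λ h a i0 + ov Λ h T i0 +
      S Λ h a (fun L1 => S Λ h T (fun L2 =>
        if HT h L1 ≤ a + i0 ∧ HT h L2 ≤ T + i0 then g L1 L2 else 0)) := by
  rw [Cn_split Λ h h1 a n (by omega)]
  have key : ∀ L1, FP h a L1 → (if HT h L1 ≤ n then
      Cn Λ h (n - HT h L1) (fun L2 => f (L1 ++ L2)) else 0) ≤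
      (if a + i0 < HT h L1 then 1 else 0) + (ov Λ h T i0 + S Λ h T (fun L2 =>
        if HT h L1 ≤ a + i0 ∧ HT h L2 ≤ T + i0 then g L1 L2 else 0)) := by
    intro L1 hL1
    by_cases ho : a + i0 < HT h L1
    · rw [if_pos ho]
      refine le_trans ?_ le_self_add
      split_ifs
      · exact Cn_const_le Λ h hU1 _ 1 fun L => hf _
      · exact zero_le
    · rw [if_neg ho, zero_add, if_pos (by omega), Cn_split Λ h h1 T (n - HT h L1) (by omega),
        ov, ← S_add]
      refine S_mono Λ h T fun L2 hL2 => ?_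
      by_cases ho2 : T + i0 < HT h L2
      · rw [if_pos ho2]
        refine le_trans ?_ le_self_add
        split_ifs
        · exact Cn_const_le Λ h hU1 _ 1 fun L => hf _
        · exact zero_le
      · rw [if_neg ho2, zero_add, if_pos (by omega), if_pos ⟨by omega, by omega⟩]
        exact hg L1 L2 hL1 hL2 (by omega) (by omega)
  refine (S_mono Λ h a key).trans ?_
  rw [S_add, S_add, S_const Λ h h1 hΛ, add_assoc]
  rfl

lemma walk_ge (h1 : ∀ b, 1 ≤ h b) (a T i0 n : ℕ) (hn : a + i0 + T + i0 ≤ n)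
    (f : List B → ℝ≥0∞) :
    S Λ h a (fun L1 => S Λ h T (fun L2 =>
        if HT h L1 ≤ a + i0 ∧ HT h L2 ≤ T + i0 then
          Cn Λ h (n - HT h L1 - HT h L2) (fun L3 => f (L1 ++ (L2 ++ L3))) else 0)) ≤ Cn Λ h n f := by
  rw [Cn_split Λ h h1 a n (by omega)]
  refine S_mono Λ h a fun L1 _ => ?_
  by_cases ho : HT h L1 ≤ a + i0
  · rw [if_pos (by omega), Cn_split Λ h h1 T (n - HT h L1) (by omega)]
    refine S_mono Λ h T fun L2 _ => ?_
    by_cases ho2 : HT h L2 ≤ T + i0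
    · rw [if_pos ⟨ho, ho2⟩, if_pos (by omega)]
    · rw [if_neg (fun hh => ho2 hh.2)]; exact zero_le
  · refine (S_mono Λ h T (g := fun _ => 0) fun L2 _ => ?_).trans ?_
    · rw [if_neg (fun hh => ho hh.1)]
    · have : S Λ h T (fun _ => 0) = 0 := by simp [S]
      rw [this]; exact zero_le

/-- sites with depth -/
def TT (s : B → Set (G × ℕ)) (z : B → G) (h : B → ℕ) : List B → G → ℕ → Set (G × ℕ)
  | [], _, _ => ∅
  | b :: L, x, a => {p | ∃ q ∈ s b, p = (x + q.1, a + q.2)} ∪ TT s z h L (x + z b) (a + h b)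

variable (s : B → Set (G × ℕ)) (z : B → G)

lemma TT_append (L L' : List B) (x : G) (a : ℕ) :
    TT s z h (L ++ L') x a = TT s z h L x a ∪ TT s z h L' (x + Dp z L) (a + HT h L) := by
  induction L generalizing x a with
  | nil => simp [TT, Dp, HT]
  | cons b L ih =>
    simp only [List.cons_append, TT]
    rw [ih, Set.union_assoc, HT_cons]
    congr 2
    simp only [Dp, List.map_cons, List.sum_cons, add_assoc]

lemma TT_depth (hs : ∀ b p, p ∈ s b → 1 ≤ p.2 ∧ p.2 ≤ h b) (L : List B) (x : G) (a : ℕ)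
    (p : G × ℕ) (hp : p ∈ TT s z h L x a) : a < p.2 ∧ p.2 ≤ a + HT h L := by
  induction L generalizing x a with
  | nil => simp [TT] at hp
  | cons b L ih =>
    rw [HT_cons]
    rcases hp with ⟨q, hq, rfl⟩ | hp
    · have := hs b q hq
      simp only
      omega
    · have := ih _ _ hp
      omega

lemma TT_shift (L : List B) (x y : G) (a : ℕ) (p : G × ℕ) :
    p ∈ TT s z h L (x + y) a ↔ (p.1 - y, p.2) ∈ TT s z h L x a := by
  induction L generalizing x a with
  | nil => simp [TT]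
  | cons b L ih =>
    simp only [TT, Set.mem_union, Set.mem_ofPred_eq]
    rw [add_right_comm, ih]
    refine or_congr ⟨?_, ?_⟩ Iff.rfl
    · rintro ⟨q, hq, rfl⟩
      exact ⟨q, hq, by simp only; rw [Prod.mk.injEq]; exact ⟨by abel, rfl⟩⟩
    · rintro ⟨q, hq, hh⟩
      refine ⟨q, hq, ?_⟩
      rw [Prod.mk.injEq] at hh
      refine Prod.ext ?_ hh.2
      have h2 := hh.1
      rw [sub_eq_iff_eq_add] at h2
      simp only
      rw [h2]; abel

end one

section two

variable {BX BY G : Type*} [AddCommGroup G]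
variable (ΛX : BX → ℝ≥0∞) (ΛY : BY → ℝ≥0∞) (hX : BX → ℕ) (hY : BY → ℕ) (zX : BX → G) (zY : BY → G)
variable (sX : BX → Set (G × ℕ)) (sY : BY → Set (G × ℕ))

lemma S_comm (a a' : ℕ) (f : List BX → List BY → ℝ≥0∞) :
    S ΛX hX a (fun L => S ΛY hY a' (fun L' => f L L')) =
      S ΛY hY a' (fun L' => S ΛX hX a (fun L => f L L')) := by
  have e : ∀ L, S ΛY hY a' (fun L' => f L L') =
      ∑' L', (if FP hY a' L' then LW ΛY L' else 0) * f L L' := by
    intro L
    refine tsum_congr fun L' => ?_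
    split_ifs <;> simp
  simp_rw [e]
  rw [S_tsum]
  refine tsum_congr fun L' => ?_
  rw [S_mul_left]
  split_ifs <;> simp

/-- contact event of two pieces -/
def Ev (L : List BX) (L' : List BY) (x : G) (a a' lo hi : ℕ) : Prop :=
  (∃ z k, (z, k) ∈ TT sX zX hX L 0 a ∧ (z, k) ∈ TT sY zY hY L' x a') ∧
    ∀ z k, (z, k) ∈ TT sX zX hX L 0 a → (z, k) ∈ TT sY zY hY L' x a' → lo ≤ k ∧ k ≤ hi

/-- the integrated window sum over all lists of given heights -/
noncomputable def KK (P : G → Prop) (P' : G → Prop) (hh hh' a a' lo hi : ℕ) (x : G) : ℝ≥0∞ :=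
  ∑' L, ∑' L', if HT hX L = hh ∧ P (Dp zX L) ∧ HT hY L' = hh' ∧ P' (Dp zY L') ∧
    Ev hX hY zX zY sX sY L L' x a a' lo hi then LW ΛX L * LW ΛY L' else 0

/-- **core**: sum over the tops and the pieces -/
lemma core (h1X : ∀ b, 1 ≤ hX b) (h1Y : ∀ b, 1 ≤ hY b) (hΛX : ∑' b, ΛX b = 1)
    (hΛY : ∑' b, ΛY b = 1) (a1 a2 T1 T2 i0 lo hi : ℕ) (w : G)
    (P P' : ℕ → G → Prop) (gX bX gY bY : ℕ × G → ℝ≥0∞) (β M Bd : ℝ≥0∞)
    (hVX : ∀ p, V ΛX hX zX a1 p ≤ gX p + bX p) (hVY : ∀ p, V ΛY hY zY a2 p ≤ gY p + bY p)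
    (hgX : ∀ p, gX p ≤ V ΛX hX zX a1 p) (hgY : ∀ p, gY p ≤ V ΛY hY zY a2 p)
    (hβ : ∑' p, bX p + ∑' p, bY p ≤ β) (hM : (∀ p, gX p ≤ M) ∨ (∀ p, gY p ≤ M))
    (hB : ∀ c d hh hh', a1 ≤ c → c ≤ a1 + i0 → a2 ≤ d → d ≤ a2 + i0 → T1 ≤ hh → hh ≤ T1 + i0 →
      T2 ≤ hh' → hh' ≤ T2 + i0 → ∀ μ : G → ℝ≥0∞, ∑' x, μ x ≤ 1 → (∀ x, μ x ≤ M) →
      ∑' x, μ x * KK ΛX ΛY hX hY zX zY sX sY (P hh) (P' hh') hh hh' c d lo hi x ≤ Bd) :
    S ΛX hX a1 (fun L1 => S ΛX hX T1 (fun L2 => S ΛY hY a2 (fun L1' => S ΛY hY T2 (fun L2' =>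
      if (HT hX L1 ≤ a1 + i0 ∧ HT hX L2 ≤ T1 + i0) ∧ (HT hY L1' ≤ a2 + i0 ∧ HT hY L2' ≤ T2 + i0) ∧
        P (HT hX L2) (Dp zX L2) ∧ P' (HT hY L2') (Dp zY L2') ∧
        Ev hX hY zX zY sX sY L2 L2' (w + Dp zY L1' - Dp zX L1) (HT hX L1) (HT hY L1') lo hi
      then 1 else 0)))) ≤ β + ((i0 : ℝ≥0∞) + 1) ^ 4 * Bd := by
  set D : ℕ → ℕ → G → ℝ≥0∞ := fun c d x => S ΛX hX T1 (fun L2 => S ΛY hY T2 (fun L2' =>
    if HT hX L2 ≤ T1 + i0 ∧ HT hY L2' ≤ T2 + i0 ∧ P (HT hX L2) (Dp zX L2) ∧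
      P' (HT hY L2') (Dp zY L2') ∧ Ev hX hY zX zY sX sY L2 L2' x c d lo hi then 1 else 0)) with hD
  have hD1 : ∀ c d x, D c d x ≤ 1 := by
    intro c d x
    refine S_le_one ΛX hX h1X hΛX T1 fun L2 => S_le_one ΛY hY h1Y hΛY T2 fun L2' => ?_
    split_ifs <;> simp
  -- step 1 : rewrite through `V`
  have s1 : S ΛX hX a1 (fun L1 => S ΛX hX T1 (fun L2 => S ΛY hY a2 (fun L1' => S ΛY hY T2 (fun L2' =>
      if (HT hX L1 ≤ a1 + i0 ∧ HT hX L2 ≤ T1 + i0) ∧ (HT hY L1' ≤ a2 + i0 ∧ HT hY L2' ≤ T2 + i0) ∧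
        P (HT hX L2) (Dp zX L2) ∧ P' (HT hY L2') (Dp zY L2') ∧
        Ev hX hY zX zY sX sY L2 L2' (w + Dp zY L1' - Dp zX L1) (HT hX L1) (HT hY L1') lo hi
      then 1 else 0))))
      ≤ ∑' p : ℕ × G, V ΛX hX zX a1 p * ∑' r : ℕ × G, V ΛY hY zY a2 r *
        (if p.1 ≤ a1 + i0 ∧ r.1 ≤ a2 + i0 then D p.1 r.1 (w + r.2 - p.2) else 0) := by
    rw [← VF ΛX hX zX a1 (fun p => ∑' r : ℕ × G, V ΛY hY zY a2 r *
        (if p.1 ≤ a1 + i0 ∧ r.1 ≤ a2 + i0 then D p.1 r.1 (w + r.2 - p.2) else 0))]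
    refine S_mono ΛX hX a1 fun L1 _ => ?_
    rw [S_comm ΛX ΛY hX hY T1 a2]
    rw [← VF ΛY hY zY a2 (fun r => (if (HT hX L1, Dp zX L1).1 ≤ a1 + i0 ∧ r.1 ≤ a2 + i0 then
      D (HT hX L1, Dp zX L1).1 r.1 (w + r.2 - (HT hX L1, Dp zX L1).2) else 0))]
    refine S_mono ΛY hY a2 fun L1' _ => ?_
    simp only
    by_cases hc : HT hX L1 ≤ a1 + i0 ∧ HT hY L1' ≤ a2 + i0
    · rw [if_pos hc]
      refine S_mono ΛX hX T1 fun L2 _ => S_mono ΛY hY T2 fun L2' _ => ?_
      split_ifs with hA hB'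
      · exact le_rfl
      · exact absurd ⟨hA.1.2, hA.2.1.2, hA.2.2.1, hA.2.2.2.1, hA.2.2.2.2⟩ hB'
      · exact zero_le
      · exact le_rfl
    · rw [if_neg hc]
      refine (S_mono ΛX hX T1 (g := fun _ => 0) fun L2 _ => ?_).trans (by simp [S])
      refine (S_mono ΛY hY T2 (g := fun _ => 0) fun L2' _ => ?_).trans (by simp [S])
      rw [if_neg]
      intro hA
      exact hc ⟨hA.1.1, hA.2.1.1⟩
  refine s1.trans ?_
  -- step 2 : good and bad
  set Q : ℕ × G → ℕ × G → ℝ≥0∞ := fun p r =>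
    if p.1 ≤ a1 + i0 ∧ r.1 ≤ a2 + i0 then D p.1 r.1 (w + r.2 - p.2) else 0 with hQ
  have hQ1 : ∀ p r, Q p r ≤ 1 := by
    intro p r
    simp only [hQ]
    split_ifs
    · exact hD1 _ _ _
    · exact zero_le
  have s2 : ∑' p : ℕ × G, V ΛX hX zX a1 p * ∑' r : ℕ × G, V ΛY hY zY a2 r * Q p r
      ≤ (∑' p, bX p + ∑' p, bY p) + ∑' p : ℕ × G, gX p * ∑' r : ℕ × G, gY r * Q p r := by
    have hY1 : ∀ p, ∑' r : ℕ × G, V ΛY hY zY a2 r * Q p r ≤ 1 := by
      intro p
      rw [← V_tsum ΛY hY zY h1Y hΛY a2]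
      refine ENNReal.tsum_le_tsum fun r => ?_
      calc _ ≤ V ΛY hY zY a2 r * 1 := mul_le_mul_right (hQ1 p r) _
        _ = _ := mul_one _
    have hY2 : ∀ p, ∑' r : ℕ × G, V ΛY hY zY a2 r * Q p r ≤
        ∑' r, bY r + ∑' r : ℕ × G, gY r * Q p r := by
      intro p
      rw [← ENNReal.tsum_add]
      refine ENNReal.tsum_le_tsum fun r => ?_
      calc V ΛY hY zY a2 r * Q p r ≤ (gY r + bY r) * Q p r := mul_le_mul_left (hVY r) _
        _ = bY r * Q p r + gY r * Q p r := by ring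
        _ ≤ bY r * 1 + gY r * Q p r := by gcongr; exact hQ1 p r
        _ = _ := by rw [mul_one]
    calc ∑' p : ℕ × G, V ΛX hX zX a1 p * ∑' r : ℕ × G, V ΛY hY zY a2 r * Q p r
        ≤ ∑' p : ℕ × G, (bX p + gX p * ∑' r, bY r + gX p * ∑' r : ℕ × G, gY r * Q p r) := by
          refine ENNReal.tsum_le_tsum fun p => ?_
          calc V ΛX hX zX a1 p * ∑' r : ℕ × G, V ΛY hY zY a2 r * Q p r
              ≤ (gX p + bX p) * ∑' r : ℕ × G, V ΛY hY zY a2 r * Q p r :=
                mul_le_mul_left (hVX p) _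
            _ = bX p * (∑' r : ℕ × G, V ΛY hY zY a2 r * Q p r)
                + gX p * ∑' r : ℕ × G, V ΛY hY zY a2 r * Q p r := by ring
            _ ≤ bX p * 1 + gX p * (∑' r, bY r + ∑' r : ℕ × G, gY r * Q p r) := by
                gcongr
                · exact hY1 p
                · exact hY2 p
            _ = _ := by ring
      _ = ∑' p, bX p + (∑' p, gX p) * (∑' r, bY r)
          + ∑' p : ℕ × G, gX p * ∑' r : ℕ × G, gY r * Q p r := by
          rw [ENNReal.tsum_add, ENNReal.tsum_add, ENNReal.tsum_mul_right]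
      _ ≤ ∑' p, bX p + 1 * (∑' r, bY r)
          + ∑' p : ℕ × G, gX p * ∑' r : ℕ × G, gY r * Q p r := by
          gcongr
          rw [← V_tsum ΛX hX zX h1X hΛX a1]
          exact ENNReal.tsum_le_tsum hgX
      _ = _ := by rw [one_mul]
  refine s2.trans (add_le_add hβ ?_)
  -- step 3 : fixed heights
  have hgX0 : ∀ c y, c < a1 → gX (c, y) = 0 := fun c y hc =>
    le_zero_iff.1 ((hgX (c, y)).trans (V_lt ΛX hX zX a1 (c, y) hc).le)
  have hgY0 : ∀ c y, c < a2 → gY (c, y) = 0 := fun c y hc =>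
    le_zero_iff.1 ((hgY (c, y)).trans (V_lt ΛY hY zY a2 (c, y) hc).le)
  have hrowX : ∀ c, ∑' y, gX (c, y) ≤ 1 := fun c =>
    (ENNReal.tsum_le_tsum fun y => hgX (c, y)).trans (V_row ΛX hX zX h1X hΛX a1 c)
  have hrowY : ∀ c, ∑' y, gY (c, y) ≤ 1 := fun c =>
    (ENNReal.tsum_le_tsum fun y => hgY (c, y)).trans (V_row ΛY hY zY h1Y hΛY a2 c)
  have s3 : ∑' p : ℕ × G, gX p * ∑' r : ℕ × G, gY r * Q p r
      ≤ ∑ c ∈ Finset.Icc a1 (a1 + i0), ∑ d ∈ Finset.Icc a2 (a2 + i0),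
        ∑' x, (∑' y', gY (d, y') * gX (c, w + y' - x)) * D c d x := by
    rw [ENNReal.tsum_prod']
    rw [tsum_eq_sum (s := Finset.Icc a1 (a1 + i0))]
    · refine Finset.sum_le_sum fun c hc => ?_
      have hcI := Finset.mem_Icc.1 hc
      calc ∑' y : G, gX (c, y) * ∑' r : ℕ × G, gY r * Q (c, y) r
          = ∑' y : G, ∑ d ∈ Finset.Icc a2 (a2 + i0), ∑' y' : G,
              gX (c, y) * (gY (d, y') * D c d (w + y' - y)) := by
            refine tsum_congr fun y => ?_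
            rw [ENNReal.tsum_prod', tsum_eq_sum (s := Finset.Icc a2 (a2 + i0)), Finset.mul_sum]
            · refine Finset.sum_congr rfl fun d hd => ?_
              have hdI := Finset.mem_Icc.1 hd
              rw [ENNReal.tsum_mul_left]
              congr 1
              refine tsum_congr fun y' => ?_
              simp only [hQ]
              rw [if_pos ⟨hcI.2, hdI.2⟩]
            · intro d hd
              rw [ENNReal.tsum_eq_zero]
              intro y'
              by_cases hd2 : d < a2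
              · rw [hgY0 d y' hd2, zero_mul]
              · simp only [hQ]
                rw [if_neg (fun hh => hd (Finset.mem_Icc.2 ⟨by omega, hh.2⟩)), mul_zero]
        _ = ∑ d ∈ Finset.Icc a2 (a2 + i0), ∑' y : G, ∑' y' : G,
              gX (c, y) * (gY (d, y') * D c d (w + y' - y)) :=
            Summable.tsum_finsetSum (fun _ _ => ENNReal.summable)
        _ ≤ _ := by
            refine Finset.sum_le_sum fun d hd => le_of_eq ?_
            rw [ENNReal.tsum_comm]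
            have e5 : ∀ x : G, (∑' y', gY (d, y') * gX (c, w + y' - x)) * D c d x
                = ∑' y', gY (d, y') * gX (c, w + y' - x) * D c d x := fun x =>
              ENNReal.tsum_mul_right.symm
            simp_rw [e5]
            rw [ENNReal.tsum_comm (f := fun x y' => gY (d, y') * gX (c, w + y' - x) * D c d x)]
            refine tsum_congr fun y' => ?_
            rw [← (Equiv.subLeft (w + y')).tsum_eq
              (fun x => gY (d, y') * gX (c, w + y' - x) * D c d x)]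
            refine tsum_congr fun y => ?_
            simp only [Equiv.subLeft_apply, sub_sub_cancel]
            ring
    · intro c hc
      rw [ENNReal.tsum_eq_zero]
      intro y
      by_cases hc2 : c < a1
      · rw [hgX0 c y hc2, zero_mul]
      · have : ∀ r, Q (c, y) r = 0 := fun r => by
          simp only [hQ]
          rw [if_neg (fun hh => hc (Finset.mem_Icc.2 ⟨by omega, hh.1⟩))]
        simp [this]
  refine s3.trans ?_
  have hDK : ∀ c d x, D c d x ≤ ∑ hh ∈ Finset.Icc T1 (T1 + i0), ∑ hh' ∈ Finset.Icc T2 (T2 + i0),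
      KK ΛX ΛY hX hY zX zY sX sY (P hh) (P' hh') hh hh' c d lo hi x := by
    intro c d x
    have e : ∑ hh ∈ Finset.Icc T1 (T1 + i0), ∑ hh' ∈ Finset.Icc T2 (T2 + i0),
        KK ΛX ΛY hX hY zX zY sX sY (P hh) (P' hh') hh hh' c d lo hi x
        = ∑' L, ∑' L', ∑ hh ∈ Finset.Icc T1 (T1 + i0), ∑ hh' ∈ Finset.Icc T2 (T2 + i0),
          (if HT hX L = hh ∧ P hh (Dp zX L) ∧ HT hY L' = hh' ∧ P' hh' (Dp zY L') ∧
            Ev hX hY zX zY sX sY L L' x c d lo hi then LW ΛX L * LW ΛY L' else 0) := by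
      simp only [KK]
      have e2 : ∀ hh, ∑ hh' ∈ Finset.Icc T2 (T2 + i0), ∑' L, ∑' L',
          (if HT hX L = hh ∧ P hh (Dp zX L) ∧ HT hY L' = hh' ∧ P' hh' (Dp zY L') ∧
            Ev hX hY zX zY sX sY L L' x c d lo hi then LW ΛX L * LW ΛY L' else 0)
          = ∑' L, ∑' L', ∑ hh' ∈ Finset.Icc T2 (T2 + i0),
          (if HT hX L = hh ∧ P hh (Dp zX L) ∧ HT hY L' = hh' ∧ P' hh' (Dp zY L') ∧
            Ev hX hY zX zY sX sY L L' x c d lo hi then LW ΛX L * LW ΛY L' else 0) := by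
        intro hh
        rw [← Summable.tsum_finsetSum (fun _ _ => ENNReal.summable)]
        refine tsum_congr fun L => ?_
        rw [← Summable.tsum_finsetSum (fun _ _ => ENNReal.summable)]
      simp_rw [e2]
      rw [← Summable.tsum_finsetSum (fun _ _ => ENNReal.summable)]
      refine tsum_congr fun L => ?_
      rw [← Summable.tsum_finsetSum (fun _ _ => ENNReal.summable)]
    rw [e]
    simp only [hD, S]
    refine ENNReal.tsum_le_tsum fun L => ?_
    by_cases hF : FP hX T1 L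
    · rw [if_pos hF, ← ENNReal.tsum_mul_left]
      refine ENNReal.tsum_le_tsum fun L' => ?_
      by_cases hF' : FP hY T2 L'
      · rw [if_pos hF']
        split_ifs with hA
        · have hm1 : HT hX L ∈ Finset.Icc T1 (T1 + i0) :=
            Finset.mem_Icc.2 ⟨FP_le hX T1 L hF, hA.1⟩
          have hm2 : HT hY L' ∈ Finset.Icc T2 (T2 + i0) :=
            Finset.mem_Icc.2 ⟨FP_le hY T2 L' hF', hA.2.1⟩
          refine le_trans ?_ (Finset.single_le_sum (f := fun hh =>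
            ∑ hh' ∈ Finset.Icc T2 (T2 + i0), (if HT hX L = hh ∧ P hh (Dp zX L) ∧ HT hY L' = hh' ∧
              P' hh' (Dp zY L') ∧ Ev hX hY zX zY sX sY L L' x c d lo hi
              then LW ΛX L * LW ΛY L' else 0)) (fun _ _ => zero_le) hm1)
          refine le_trans ?_ (Finset.single_le_sum (f := fun hh' =>
            (if HT hX L = HT hX L ∧ P (HT hX L) (Dp zX L) ∧ HT hY L' = hh' ∧
              P' hh' (Dp zY L') ∧ Ev hX hY zX zY sX sY L L' x c d lo hi
              then LW ΛX L * LW ΛY L' else 0)) (fun _ _ => zero_le) hm2)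
          rw [if_pos ⟨rfl, hA.2.2.1, rfl, hA.2.2.2.1, hA.2.2.2.2⟩, mul_one]
        · rw [mul_zero, mul_zero]; exact zero_le
      · rw [if_neg hF', mul_zero]; exact zero_le
    · rw [if_neg hF]; exact zero_le
  have h4 : ∀ c ∈ Finset.Icc a1 (a1 + i0), ∀ d ∈ Finset.Icc a2 (a2 + i0),
      ∑' x, (∑' y', gY (d, y') * gX (c, w + y' - x)) * D c d x
        ≤ ((i0 : ℝ≥0∞) + 1) * (((i0 : ℝ≥0∞) + 1) * Bd) := by
    intro c hc d hd
    set μ : G → ℝ≥0∞ := fun x => ∑' y', gY (d, y') * gX (c, w + y' - x) with hμ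
    have hμ1 : ∑' x, μ x ≤ 1 := by
      simp only [hμ]
      rw [ENNReal.tsum_comm]
      calc ∑' y', ∑' x, gY (d, y') * gX (c, w + y' - x)
          = ∑' y', gY (d, y') * ∑' x, gX (c, x) := by
            refine tsum_congr fun y' => ?_
            rw [ENNReal.tsum_mul_left]
            congr 1
            exact (Equiv.subLeft (w + y')).tsum_eq (fun x => gX (c, x))
        _ = (∑' y', gY (d, y')) * ∑' x, gX (c, x) := ENNReal.tsum_mul_right
        _ ≤ 1 * 1 := mul_le_mul' (hrowY d) (hrowX c)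
        _ = 1 := one_mul 1
    have hμM : ∀ x, μ x ≤ M := by
      intro x
      simp only [hμ]
      rcases hM with hM | hM
      · calc ∑' y', gY (d, y') * gX (c, w + y' - x) ≤ ∑' y', gY (d, y') * M :=
            ENNReal.tsum_le_tsum fun y' => mul_le_mul_right (hM _) _
          _ = (∑' y', gY (d, y')) * M := ENNReal.tsum_mul_right
          _ ≤ 1 * M := mul_le_mul_left (hrowY d) _
          _ = M := one_mul M
      · calc ∑' y', gY (d, y') * gX (c, w + y' - x) ≤ ∑' y', M * gX (c, w + y' - x) :=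
            ENNReal.tsum_le_tsum fun y' => mul_le_mul_left (hM _) _
          _ = M * ∑' y', gX (c, w + y' - x) := ENNReal.tsum_mul_left
          _ = M * ∑' y', gX (c, y') := by
              congr 1
              rw [← (Equiv.addLeft (w - x)).tsum_eq (fun y => gX (c, y))]
              refine tsum_congr fun y' => ?_
              simp only [Equiv.coe_addLeft]
              congr 2
              abel
          _ ≤ M * 1 := mul_le_mul_right (hrowX c) _
          _ = M := mul_one M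
    have hcI := Finset.mem_Icc.1 hc
    have hdI := Finset.mem_Icc.1 hd
    calc ∑' x, μ x * D c d x
        ≤ ∑' x, μ x * ∑ hh ∈ Finset.Icc T1 (T1 + i0), ∑ hh' ∈ Finset.Icc T2 (T2 + i0),
          KK ΛX ΛY hX hY zX zY sX sY (P hh) (P' hh') hh hh' c d lo hi x :=
          ENNReal.tsum_le_tsum fun x => mul_le_mul_right (hDK c d x) _
      _ = ∑ hh ∈ Finset.Icc T1 (T1 + i0), ∑ hh' ∈ Finset.Icc T2 (T2 + i0),
          ∑' x, μ x * KK ΛX ΛY hX hY zX zY sX sY (P hh) (P' hh') hh hh' c d lo hi x := by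
          simp_rw [Finset.mul_sum]
          rw [Summable.tsum_finsetSum (fun _ _ => ENNReal.summable)]
          refine Finset.sum_congr rfl fun hh _ => ?_
          rw [Summable.tsum_finsetSum (fun _ _ => ENNReal.summable)]
      _ ≤ ∑ hh ∈ Finset.Icc T1 (T1 + i0), ∑ hh' ∈ Finset.Icc T2 (T2 + i0), Bd := by
          refine Finset.sum_le_sum fun hh hhI => Finset.sum_le_sum fun hh' hhI' => ?_
          have e1 := Finset.mem_Icc.1 hhI
          have e2 := Finset.mem_Icc.1 hhI'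
          exact hB c d hh hh' hcI.1 hcI.2 hdI.1 hdI.2 e1.1 e1.2 e2.1 e2.2 μ hμ1 hμM
      _ = _ := by
          simp only [Finset.sum_const, Nat.card_Icc, nsmul_eq_mul]
          rw [show T1 + i0 + 1 - T1 = i0 + 1 by omega, show T2 + i0 + 1 - T2 = i0 + 1 by omega]
          push_cast
          rfl
  calc _ ≤ ∑ c ∈ Finset.Icc a1 (a1 + i0), ∑ d ∈ Finset.Icc a2 (a2 + i0),
        ((i0 : ℝ≥0∞) + 1) * (((i0 : ℝ≥0∞) + 1) * Bd) :=
        Finset.sum_le_sum fun c hc => Finset.sum_le_sum fun d hd => h4 c hc d hd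
    _ = _ := by
        simp only [Finset.sum_const, Nat.card_Icc, nsmul_eq_mul]
        rw [show a1 + i0 + 1 - a1 = i0 + 1 by omega, show a2 + i0 + 1 - a2 = i0 + 1 by omega]
        push_cast
        ring

end two

end Crest.Agent.R154.LP654
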