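import Crest.Agent.R154.B5Weak_865
import Crest.Agent.R154.FP_178
import Crest.Agent.R154.NumK_658

/-! Row 154, ROAD 801: assembly in the joint-cut frame (818 / 139), helper9.
Window = first joint cut above, piece = exact height `H`, price `1/c`. -/

set_option autoImplicit false

namespace Crest.Agent.R154.LAsm9

open scoped ENNReal
open Crest.Agent.R154.B5A Crest.Agent.R154.FP178

variable {B W : Type*} (Λ : B → ℝ≥0∞) (ht : B → ℕ) (dl : B → W → W) (cd : W → B → Set ℕ)

/-- overshoot mass -/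
noncomputable def ov (i : ℕ) : ℝ≥0∞ := ∑' k, tail Λ ht (i + k)

open Classical in
/-- weight of the first passages of depth `a` whose displacement is in `S` -/
noncomputable def GS (S : Finset W) (a : ℕ) (w : W) : ℝ≥0∞ :=
  ∑' L : List B, if fp ht a L then LW Λ L * (if act dl L w ∈ S then 1 else 0) else 0

open Classical in
/-- one side (`X` or `Y`) of the exact height `H` layer -/
structure Side (H s : ℕ) (κ t δ : ℝ≥0∞) (loc good : List B → Prop) (S : Finset W) : Prop where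
  win : ∀ w, w ∉ S → ∑' L : List B, (if HT ht L = H ∧ loc L ∧ (∃ k, k ∈ CD ht dl cd L w) ∧
    (∀ k ∈ CD ht dl cd L w, s < k ∧ k + s ≤ H) then LW Λ L else 0) ≤ δ
  card : t * (S.card : ℝ≥0∞) ≤ δ
  mass : κ ≤ ∑' L : List B, (if HT ht L = H ∧ good L then LW Λ L else 0)
  dens : ∀ w x, ∑' L : List B, (if HT ht L = H ∧ good L ∧ act dl L w = x then LW Λ L else 0) ≤ t

open Classical in
/-- the data of all layers of large exact height -/
def Layer (κ : ℝ≥0∞) : Prop :=
  ∀ u : ℝ≥0∞, u ≠ 0 → u ≤ κ → ∀ δ : ℝ≥0∞, δ ≠ 0 → ∃ s H0 : ℕ, ∀ H, H0 ≤ H →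
    ∃ (lX gX lY gY : List B → Prop) (SX SY : Finset W) (tX tY : ℝ≥0∞),
      Side Λ ht dl cd H s (κ * u) tX δ lX gX SX ∧ Side Λ ht dl cd H s (κ * u) tY δ lY gY SY ∧
      (∑' L : List B, (if HT ht L = H ∧ ¬ lX L ∧ ¬ lY L then LW Λ L else 0)) ≤ u ^ 2 ∧
      ∀ w, ∑' L : List B, (if HT ht L = H ∧ (∃ k ∈ CD ht dl cd L w, H < k + s)
        then LW Λ L else 0) ≤ δ

lemma fp_of_eq (h1 : ∀ b, 1 ≤ ht b) (L : List B) : fp ht (HT ht L) L := by
  induction L with
  | nil => rw [fp_nil, HT_nil]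
  | cons b L ih =>
    rw [fp_cons, HT_cons, Nat.add_sub_cancel_left]
    exact ⟨by have := h1 b; omega, ih⟩

lemma act_inj (hinj : ∀ b, Function.Injective (dl b)) (L : List B) :
    Function.Injective (act dl L) := by
  induction L with
  | nil => intro x y h; exact h
  | cons b L ih => intro x y h; exact hinj b (ih h)

lemma GS_le_one (h1 : ∀ b, 1 ≤ ht b) (hΛ : ∑' b, Λ b ≤ 1) (S : Finset W) (a : ℕ) (w : W) :
    GS Λ ht dl S a w ≤ 1 := by
  classical
  refine le_trans (ENNReal.tsum_le_tsum fun L => ?_) (sum_FP Λ ht h1 hΛ a)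
  split_ifs <;> simp

lemma GS_step (h1 : ∀ b, 1 ≤ ht b) (hinj : ∀ b, Function.Injective (dl b))
    (hU1 : ∀ n, U Λ ht n ≤ 1) {H s : ℕ} {κ t δ : ℝ≥0∞} {loc good : List B → Prop} {S0 : Finset W}
    (hS : Side Λ ht dl cd H s κ t δ loc good S0) (S : Finset W) (a : ℕ) (ha : H ≤ a) (w : W)
    (b : ℝ≥0∞) (hb : ∀ a', a - 2 * H ≤ a' → ∀ w, GS Λ ht dl S a' w ≤ b) :
    GS Λ ht dl S a w ≤ ov Λ ht H + t * S.card + (1 - κ) * b := by
  classical
  have hΛ : ∑' b, Λ b ≤ 1 := mass_le_one Λ ht h1 hU1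
  rw [GS, fp_split Λ ht h1 H a ha]
  -- termwise bound
  have hterm : ∀ A : List B, (if fp ht H A then LW Λ A *
      ∑' L, (if fp ht (a - HT ht A) L then LW Λ L * (if act dl (A ++ L) w ∈ S then 1 else 0)
        else 0) else 0)
      ≤ (if fp ht H A ∧ H + H < HT ht A then LW Λ A else 0)
        + (∑' L, (if fp ht (a - H) L then LW Λ L *
            (if HT ht A = H ∧ good A ∧ act dl L (act dl A w) ∈ S then LW Λ A else 0) else 0))
        + (if fp ht H A ∧ ¬ (HT ht A = H ∧ good A) then LW Λ A else 0) * b := by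
    intro A
    have hin : ∑' L, (if fp ht (a - HT ht A) L then LW Λ L *
        (if act dl (A ++ L) w ∈ S then 1 else 0) else 0)
        = GS Λ ht dl S (a - HT ht A) (act dl A w) := by
      rw [GS]
      refine tsum_congr fun L => ?_
      rw [act_append]
    by_cases hA : fp ht H A
    · rw [if_pos hA]
      by_cases h2 : H + H < HT ht A
      · rw [if_pos ⟨hA, h2⟩, hin]
        refine le_trans ?_ (le_trans le_self_add le_self_add)
        calc LW Λ A * GS Λ ht dl S (a - HT ht A) (act dl A w) ≤ LW Λ A * 1 := by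
              gcongr; exact GS_le_one Λ ht dl h1 hΛ S _ _
          _ = LW Λ A := mul_one _
      · by_cases h3 : HT ht A = H ∧ good A
        · refine le_trans ?_ (le_trans le_add_self le_self_add)
          rw [← ENNReal.tsum_mul_left, h3.1]
          refine le_of_eq (tsum_congr fun L => ?_)
          rw [act_append]
          by_cases hL : fp ht (a - H) L
          · rw [if_pos hL, if_pos hL]
            by_cases hS' : act dl L (act dl A w) ∈ S
            · rw [if_pos hS', if_pos ⟨rfl, h3.2, hS'⟩]; ring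
            · rw [if_neg hS', if_neg (fun h => hS' h.2.2)]; ring
          · rw [if_neg hL, if_neg hL, mul_zero]
        · refine le_trans ?_ le_add_self
          rw [if_pos ⟨hA, h3⟩, hin]
          gcongr
          exact hb _ (by omega) _
    · rw [if_neg hA]; exact zero_le
  refine le_trans (ENNReal.tsum_le_tsum hterm) ?_
  rw [ENNReal.tsum_add, ENNReal.tsum_add, ENNReal.tsum_mul_right]
  refine add_le_add (add_le_add ?_ ?_) ?_
  · exact overshoot Λ ht h1 hU1 H H
  · rw [ENNReal.tsum_comm]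
    have hone : ∀ L : List B, ∑' A : List B, (if fp ht (a - H) L then LW Λ L *
        (if HT ht A = H ∧ good A ∧ act dl L (act dl A w) ∈ S then LW Λ A else 0) else 0)
        ≤ (if fp ht (a - H) L then LW Λ L else 0) * (t * S.card) := by
      intro L
      by_cases hL : fp ht (a - H) L
      · simp only [if_pos hL]
        rw [ENNReal.tsum_mul_left]
        gcongr
        calc ∑' A : List B, (if HT ht A = H ∧ good A ∧ act dl L (act dl A w) ∈ S then LW Λ A else 0)
            ≤ ∑' A : List B, ∑ x ∈ S, (if HT ht A = H ∧ good A ∧ act dl L (act dl A w) = x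
                then LW Λ A else 0) := by
              refine ENNReal.tsum_le_tsum fun A => ?_
              by_cases h : HT ht A = H ∧ good A ∧ act dl L (act dl A w) ∈ S
              · rw [if_pos h]
                refine le_trans ?_ (Finset.single_le_sum (f := fun x => if HT ht A = H ∧ good A ∧
                  act dl L (act dl A w) = x then LW Λ A else 0) (fun _ _ => zero_le) h.2.2)
                simp [h.1, h.2.1]
              · rw [if_neg h]; exact zero_le
          _ = ∑ x ∈ S, ∑' A : List B, (if HT ht A = H ∧ good A ∧ act dl L (act dl A w) = x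
                then LW Λ A else 0) := by
              rw [Summable.tsum_finsetSum (fun _ _ => ENNReal.summable)]
          _ ≤ ∑ _x ∈ S, t := by
              refine Finset.sum_le_sum fun x _ => ?_
              by_cases hx : ∃ y, act dl L y = x
              · obtain ⟨y, rfl⟩ := hx
                refine le_trans (ENNReal.tsum_le_tsum fun A => ?_) (hS.dens w y)
                by_cases h : HT ht A = H ∧ good A ∧ act dl L (act dl A w) = act dl L y
                · rw [if_pos h, if_pos ⟨h.1, h.2.1, act_inj dl hinj L h.2.2⟩]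
                · rw [if_neg h]; exact zero_le
              · refine le_of_eq_of_le ?_ (zero_le (a := t))
                rw [ENNReal.tsum_eq_zero]
                intro A
                rw [if_neg]
                rintro ⟨-, -, h⟩
                exact hx ⟨_, h⟩
          _ = t * S.card := by rw [Finset.sum_const, nsmul_eq_mul, mul_comm]
      · simp [hL]
    refine le_trans (ENNReal.tsum_le_tsum hone) ?_
    rw [ENNReal.tsum_mul_right]
    calc _ ≤ 1 * (t * S.card) := by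
          gcongr; exact sum_FP Λ ht h1 hΛ _
      _ = _ := one_mul _
  · gcongr
    have hsum : (∑' A : List B, (if fp ht H A ∧ ¬ (HT ht A = H ∧ good A) then LW Λ A else 0))
        + κ ≤ 1 := by
      calc (∑' A : List B, (if fp ht H A ∧ ¬ (HT ht A = H ∧ good A) then LW Λ A else 0)) + κ
          ≤ (∑' A : List B, (if fp ht H A ∧ ¬ (HT ht A = H ∧ good A) then LW Λ A else 0))
            + ∑' A : List B, (if HT ht A = H ∧ good A then LW Λ A else 0) := by
            gcongr; exact hS.mass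
        _ = ∑' A : List B, ((if fp ht H A ∧ ¬ (HT ht A = H ∧ good A) then LW Λ A else 0)
            + (if HT ht A = H ∧ good A then LW Λ A else 0)) := ENNReal.tsum_add.symm
        _ ≤ ∑' A : List B, (if fp ht H A then LW Λ A else 0) := by
            refine ENNReal.tsum_le_tsum fun A => ?_
            by_cases h : HT ht A = H ∧ good A
            · have : fp ht H A := by rw [← h.1]; exact fp_of_eq ht h1 A
              simp [h, this]
            · simp [h]
        _ ≤ 1 := sum_FP Λ ht h1 hΛ H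
    have hκ : κ ≠ ⊤ := ne_top_of_le_ne_top ENNReal.one_ne_top (le_trans le_add_self hsum)
    exact ENNReal.le_sub_of_add_le_right hκ hsum

theorem GS_iter (h1 : ∀ b, 1 ≤ ht b) (hinj : ∀ b, Function.Injective (dl b))
    (hU1 : ∀ n, U Λ ht n ≤ 1) {H s : ℕ} {κ t δ : ℝ≥0∞} {loc good : List B → Prop} {S0 : Finset W}
    (hS : Side Λ ht dl cd H s κ t δ loc good S0) (S : Finset W) (J : ℕ) :
    ∀ a, J * (2 * H) ≤ a → ∀ w,
      GS Λ ht dl S a w ≤ (1 - κ) ^ J + J * (ov Λ ht H + t * S.card) := by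
  have hΛ : ∑' b, Λ b ≤ 1 := mass_le_one Λ ht h1 hU1
  induction J with
  | zero => intro a _ w; simpa using GS_le_one Λ ht dl h1 hΛ S a w
  | succ J ih =>
    intro a ha w
    have ha' : J * (2 * H) + 2 * H ≤ a := by nlinarith
    refine le_trans (GS_step Λ ht dl cd h1 hinj hU1 hS S a (by omega) w
      ((1 - κ) ^ J + J * (ov Λ ht H + t * S.card)) (fun a' ha2 w' => ih a' (by omega) w')) ?_
    have h1κ : (1 - κ) ≤ 1 := tsub_le_self
    calc ov Λ ht H + t * S.card + (1 - κ) * ((1 - κ) ^ J + J * (ov Λ ht H + t * S.card))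
        = ov Λ ht H + t * S.card + ((1 - κ) ^ (J + 1)
          + (1 - κ) * (J * (ov Λ ht H + t * S.card))) := by ring
      _ ≤ ov Λ ht H + t * S.card + ((1 - κ) ^ (J + 1)
          + 1 * (J * (ov Λ ht H + t * S.card))) := by gcongr
      _ = (1 - κ) ^ (J + 1) + ((J + 1 : ℕ) : ℝ≥0∞) * (ov Λ ht H + t * S.card) := by
          push_cast; ring

open Classical in
/-- contact weight of the exact height `H` layer, no contact at depth `≤ s` -/
noncomputable def VV (H s : ℕ) (w : W) : ℝ≥0∞ :=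
  ∑' L : List B, if HT ht L = H ∧ (∃ k, k ∈ CD ht dl cd L w) ∧ (∀ k ∈ CD ht dl cd L w, s < k)
    then LW Λ L else 0

lemma sum_rest_le (hU1 : ∀ n, U Λ ht n ≤ 1) (h n : ℕ) (P : List B → Prop)
    (hP : ∀ L, P L → h + HT ht L = n) [DecidablePred P] :
    ∑' L : List B, LW Λ L * (if P L then 1 else 0) ≤ 1 := by
  classical
  by_cases hn : h ≤ n
  · refine le_trans (ENNReal.tsum_le_tsum fun L => ?_) (hU1 (n - h))
    by_cases hL : P L
    · have := hP L hL
      rw [if_pos hL, if_pos (by omega), mul_one]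
    · rw [if_neg hL, mul_zero]; exact zero_le
  · refine le_trans (le_of_eq ?_) (zero_le (a := (1:ℝ≥0∞)))
    rw [ENNReal.tsum_eq_zero]
    intro L
    rw [if_neg (fun hL => hn (by have := hP L hL; omega)), mul_zero]

open Classical in
/-- the part of a window below its top cut -/
lemma low_part (h1 : ∀ b, 1 ≤ ht b) (hU1 : ∀ n, U Λ ht n ≤ 1)
    (hcd : ∀ w b k, k ∈ cd w b → 1 ≤ k ∧ k ≤ ht b) {c : ℝ≥0∞} (hc0 : c ≠ 0)
    (hU : ∀ n, c ≤ U Λ ht n) {s q N : ℕ} (hs : s ≤ q) (hN : 3 * q ≤ N) (w : W) :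
    ∑' L : List B, LW Λ L * (if HT ht L = N ∧ (∃ k ∈ CD ht dl cd L w, k ≤ 3 * q) ∧
      (∀ k ∈ CD ht dl cd L w, s < k) then 1 else 0)
      ≤ ov Λ ht q + c⁻¹ * VV Λ ht dl cd (4 * q) s w := by
  have hΛ : ∑' b, Λ b ≤ 1 := mass_le_one Λ ht h1 hU1
  have hct : c ≠ ⊤ := ne_top_of_le_ne_top ENNReal.one_ne_top ((hU 0).trans (hU1 0))
  have hposd : ∀ (L : List B) (w : W) (k : ℕ), k ∈ CD ht dl cd L w → 1 ≤ k ∧ k ≤ HT ht L :=
    fun L w k hk => CD_pos ht dl cd hcd L w k hk
  set f : List B → ℝ≥0∞ := fun L => (if HT ht L = N ∧ (∃ k ∈ CD ht dl cd L w, k ≤ 3 * q) ∧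
      (∀ k ∈ CD ht dl cd L w, s < k) then 1 else 0) with hf
  have e1 : ∑' L : List B, LW Λ L * f L
      = ∑' L : List B, (if 3 * q ≤ HT ht L then LW Λ L * f L else 0) := by
    refine tsum_congr fun L => ?_
    by_cases h : 3 * q ≤ HT ht L
    · rw [if_pos h]
    · rw [if_neg h, hf]
      simp only
      rw [if_neg (fun hh => h (by omega)), mul_zero]
  rw [e1, split Λ ht h1 (3 * q) f]
  -- event on the first passage piece
  set g : List B → Prop := fun P => (∃ k, k ∈ CD ht dl cd P w) ∧ (∀ k ∈ CD ht dl cd P w, s < k)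
    with hg
  have hsplitV : ∑' L1 : List B, (if 3 * q ≤ HT ht L1 then LW Λ L1 *
      (if HT ht L1 = 4 * q ∧ g L1 then (1 : ℝ≥0∞) else 0) else 0)
      = ∑' P, (if fp ht (3 * q) P then LW Λ P * ∑' R, LW Λ R *
        (if HT ht (P ++ R) = 4 * q ∧ g (P ++ R) then (1 : ℝ≥0∞) else 0) else 0) :=
    split Λ ht h1 (3 * q) (fun L1 => if HT ht L1 = 4 * q ∧ g L1 then (1 : ℝ≥0∞) else 0)
  have hV : ∑' L1 : List B, (if 3 * q ≤ HT ht L1 then LW Λ L1 *
      (if HT ht L1 = 4 * q ∧ g L1 then (1 : ℝ≥0∞) else 0) else 0) ≤ VV Λ ht dl cd (4 * q) s w := by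
    refine ENNReal.tsum_le_tsum fun L => ?_
    by_cases h : HT ht L = 4 * q ∧ g L
    · rw [if_pos (show 3 * q ≤ HT ht L by rw [h.1]; omega), if_pos h,
        if_pos (show HT ht L = 4 * q ∧ (∃ k, k ∈ CD ht dl cd L w) ∧
          (∀ k ∈ CD ht dl cd L w, s < k) from h), mul_one]
    · split_ifs <;> simp
  -- termwise
  have hterm : ∀ P : List B, (if fp ht (3 * q) P then LW Λ P * ∑' R, LW Λ R * f (P ++ R) else 0)
      ≤ (if fp ht (3 * q) P ∧ 3 * q + q < HT ht P then LW Λ P else 0)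
        + c⁻¹ * (if fp ht (3 * q) P then LW Λ P * ∑' R, LW Λ R *
        (if HT ht (P ++ R) = 4 * q ∧ g (P ++ R) then (1 : ℝ≥0∞) else 0) else 0) := by
    intro P
    by_cases hP : fp ht (3 * q) P
    · rw [if_pos hP]
      have h3 : 3 * q ≤ HT ht P := le_HT_of_fp ht hP
      have hin1 : ∑' R, LW Λ R * f (P ++ R) ≤ 1 := by
        rw [hf]
        refine sum_rest_le Λ ht hU1 (HT ht P) N (fun R => HT ht (P ++ R) = N ∧
          (∃ k ∈ CD ht dl cd (P ++ R) w, k ≤ 3 * q) ∧ (∀ k ∈ CD ht dl cd (P ++ R) w, s < k)) ?_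
        intro R hR
        rw [← HT_append]; exact hR.1
      by_cases h4 : 3 * q + q < HT ht P
      · rw [if_pos ⟨hP, h4⟩]
        refine le_trans ?_ le_self_add
        calc LW Λ P * ∑' R, LW Λ R * f (P ++ R) ≤ LW Λ P * 1 := by gcongr
          _ = LW Λ P := mul_one _
      · refine le_trans ?_ le_add_self
        rw [if_pos hP]
        by_cases hgP : g P
        · -- extension at price `1/c`
          have hext : c ≤ ∑' R, LW Λ R *
              (if HT ht (P ++ R) = 4 * q ∧ g (P ++ R) then (1 : ℝ≥0∞) else 0) := by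
            refine le_trans (hU (4 * q - HT ht P)) (ENNReal.tsum_le_tsum fun R => ?_)
            by_cases hR : HT ht R = 4 * q - HT ht P
            · have e2 : HT ht (P ++ R) = 4 * q := by rw [HT_append]; omega
              have e3 : g (P ++ R) := by
                refine ⟨?_, ?_⟩
                · obtain ⟨k, hk⟩ := hgP.1
                  exact ⟨k, by rw [CD_append]; exact Or.inl hk⟩
                · intro k hk
                  rw [CD_append] at hk
                  rcases hk with hk | ⟨k', hk', rfl⟩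
                  · exact hgP.2 k hk
                  · have := (hposd _ _ _ hk').1
                    simp only
                    omega
              rw [if_pos hR, if_pos ⟨e2, e3⟩, mul_one]
            · rw [if_neg hR]; exact zero_le
          calc LW Λ P * ∑' R, LW Λ R * f (P ++ R) ≤ LW Λ P * 1 := by gcongr
            _ = c⁻¹ * (LW Λ P * c) := by
                rw [mul_comm (LW Λ P) c, ← mul_assoc, ENNReal.inv_mul_cancel hc0 hct, one_mul,
                  mul_one]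
            _ ≤ _ := by gcongr
        · refine le_trans (le_of_eq ?_) (zero_le)
          have : ∑' R, LW Λ R * f (P ++ R) = 0 := by
            rw [ENNReal.tsum_eq_zero]
            intro R
            rw [hf]
            simp only
            rw [if_neg, mul_zero]
            rintro ⟨-, ⟨k, hk, hk3⟩, hall⟩
            rw [CD_append] at hk
            rcases hk with hk | ⟨k', hk', rfl⟩
            · refine hgP ⟨⟨k, hk⟩, fun j hj => hall j ?_⟩
              rw [CD_append]; exact Or.inl hj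
            · have := (hposd _ _ _ hk').1
              simp only at hk3
              omega
          rw [this, mul_zero]
    · rw [if_neg hP]; exact zero_le
  refine le_trans (ENNReal.tsum_le_tsum hterm) ?_
  rw [ENNReal.tsum_add, ENNReal.tsum_mul_left, ← hsplitV]
  refine add_le_add (overshoot Λ ht h1 hU1 q (3 * q)) ?_
  gcongr

open Classical in
/-- one window -/
lemma window (h1 : ∀ b, 1 ≤ ht b) (hU1 : ∀ n, U Λ ht n ≤ 1)
    (hcd : ∀ w b k, k ∈ cd w b → 1 ≤ k ∧ k ≤ ht b) {c : ℝ≥0∞} (hc0 : c ≠ 0)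
    (hU : ∀ n, c ≤ U Λ ht n) {s q a n : ℕ} (hs : s ≤ q) (ha : 2 * q ≤ a)
    (hn : a + 3 * q ≤ n) (w : W) :
    ∑' L : List B, (if HT ht L = n ∧ (∀ k ∈ CD ht dl cd L w, a < k) ∧
      (∃ k ∈ CD ht dl cd L w, k ≤ a + q) then LW Λ L else 0)
      ≤ 2 * ov Λ ht q + c⁻¹ * ∑' T : List B, (if fp ht (a - q - s) T then LW Λ T *
        VV Λ ht dl cd (4 * q) s (act dl T w) else 0) := by
  have hΛ : ∑' b, Λ b ≤ 1 := mass_le_one Λ ht h1 hU1
  have hposd : ∀ (L : List B) (w : W) (k : ℕ), k ∈ CD ht dl cd L w → 1 ≤ k ∧ k ≤ HT ht L :=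
    fun L w k hk => CD_pos ht dl cd hcd L w k hk
  set Ev : List B → Prop := fun L => HT ht L = n ∧ (∀ k ∈ CD ht dl cd L w, a < k) ∧
      (∃ k ∈ CD ht dl cd L w, k ≤ a + q) with hEv
  have e1 : ∑' L : List B, (if Ev L then LW Λ L else 0)
      = ∑' L : List B, (if a - q - s ≤ HT ht L then LW Λ L * (if Ev L then 1 else 0) else 0) := by
    refine tsum_congr fun L => ?_
    by_cases h : Ev L
    · have := h.1
      rw [if_pos h, if_pos h, if_pos (show a - q - s ≤ HT ht L by omega), mul_one]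
    · rw [if_neg h, if_neg h, mul_zero, ite_self]
  rw [e1, split Λ ht h1 (a - q - s) (fun L => if Ev L then 1 else 0)]
  have hterm : ∀ T : List B, (if fp ht (a - q - s) T then LW Λ T *
      ∑' L, LW Λ L * (if Ev (T ++ L) then 1 else 0) else 0)
      ≤ (if fp ht (a - q - s) T ∧ a - q - s + q < HT ht T then LW Λ T else 0)
        + ((if fp ht (a - q - s) T then LW Λ T else 0) * ov Λ ht q
        + c⁻¹ * (if fp ht (a - q - s) T then LW Λ T *
          VV Λ ht dl cd (4 * q) s (act dl T w) else 0)) := by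
    intro T
    by_cases hT : fp ht (a - q - s) T
    · rw [if_pos hT]
      have hTle : a - q - s ≤ HT ht T := le_HT_of_fp ht hT
      by_cases h2 : a - q - s + q < HT ht T
      · rw [if_pos ⟨hT, h2⟩]
        refine le_trans ?_ le_self_add
        calc LW Λ T * ∑' L, LW Λ L * (if Ev (T ++ L) then 1 else 0) ≤ LW Λ T * 1 := by
              gcongr
              refine sum_rest_le Λ ht hU1 (HT ht T) n (fun L => Ev (T ++ L)) ?_
              intro L hL
              rw [← HT_append]; exact hL.1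
          _ = LW Λ T := mul_one _
      · refine le_trans ?_ le_add_self
        rw [if_pos hT, if_pos hT]
        have hkey : ∑' L, LW Λ L * (if Ev (T ++ L) then (1:ℝ≥0∞) else 0)
            ≤ ov Λ ht q + c⁻¹ * VV Λ ht dl cd (4 * q) s (act dl T w) := by
          refine le_trans (ENNReal.tsum_le_tsum fun L => ?_)
            (low_part Λ ht dl cd h1 hU1 hcd hc0 hU (N := n - HT ht T) hs (by omega) (act dl T w))
          by_cases hL : Ev (T ++ L)
          · rw [if_pos hL, if_pos]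
            obtain ⟨hh, hall, k, hk, hka⟩ := hL
            rw [HT_append] at hh
            have hallT : ∀ k' ∈ CD ht dl cd L (act dl T w), a < HT ht T + k' := by
              intro k' hk'
              refine hall _ ?_
              rw [CD_append]
              exact Or.inr ⟨k', hk', rfl⟩
            refine ⟨by omega, ?_, fun k' hk' => by have := hallT k' hk'; omega⟩
            have hk0 := hall k hk
            rw [CD_append] at hk
            rcases hk with hk | ⟨k', hk', rfl⟩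
            · have := (hposd _ _ _ hk).2
              omega
            · simp only at hka hk0
              exact ⟨k', hk', by omega⟩
          · rw [if_neg hL, mul_zero]; exact zero_le
        calc LW Λ T * ∑' L, LW Λ L * (if Ev (T ++ L) then (1:ℝ≥0∞) else 0)
            ≤ LW Λ T * (ov Λ ht q + c⁻¹ * VV Λ ht dl cd (4 * q) s (act dl T w)) := by gcongr
          _ = _ := by ring
    · rw [if_neg hT]; exact zero_le
  refine le_trans (ENNReal.tsum_le_tsum hterm) ?_
  rw [ENNReal.tsum_add, ENNReal.tsum_add, ENNReal.tsum_mul_right, ENNReal.tsum_mul_left,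
    ← add_assoc]
  refine add_le_add ?_ le_rfl
  rw [two_mul]
  refine add_le_add (overshoot Λ ht h1 hU1 q (a - q - s)) ?_
  calc _ ≤ 1 * ov Λ ht q := by gcongr; exact sum_FP Λ ht h1 hΛ _
    _ = _ := one_mul _

open Classical in
lemma sideV (hU1 : ∀ n, U Λ ht n ≤ 1) {H s : ℕ} {κ t δ : ℝ≥0∞} {loc good : List B → Prop}
    {S : Finset W} (hS : Side Λ ht dl cd H s κ t δ loc good S) (w : W) :
    ∑' L : List B, (if HT ht L = H ∧ loc L ∧ (∃ k, k ∈ CD ht dl cd L w) ∧
      (∀ k ∈ CD ht dl cd L w, s < k ∧ k + s ≤ H) then LW Λ L else 0)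
      ≤ δ + (if w ∈ S then 1 else 0) := by
  by_cases hw : w ∈ S
  · rw [if_pos hw]
    refine le_trans ?_ le_add_self
    refine le_trans (ENNReal.tsum_le_tsum fun L => ?_) (hU1 H)
    by_cases h : HT ht L = H
    · rw [if_pos h]; split_ifs <;> simp
    · rw [if_neg (fun hh => h hh.1)]; exact zero_le
  · exact (hS.win w hw).trans le_self_add

open Classical in
lemma VV_le (hU1 : ∀ n, U Λ ht n ≤ 1) {H s : ℕ} {κ tX tY δ ν : ℝ≥0∞}
    {lX gX lY gY : List B → Prop} {SX SY : Finset W}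
    (hX : Side Λ ht dl cd H s κ tX δ lX gX SX) (hY : Side Λ ht dl cd H s κ tY δ lY gY SY)
    (hn : (∑' L : List B, (if HT ht L = H ∧ ¬ lX L ∧ ¬ lY L then LW Λ L else 0)) ≤ ν)
    (hs : ∀ w, ∑' L : List B, (if HT ht L = H ∧ (∃ k ∈ CD ht dl cd L w, H < k + s)
        then LW Λ L else 0) ≤ δ) (w : W) :
    VV Λ ht dl cd H s w ≤ (3 * δ + ν) + ((if w ∈ SX then 1 else 0) + (if w ∈ SY then 1 else 0)) := by
  have hterm : ∀ L : List B, (if HT ht L = H ∧ (∃ k, k ∈ CD ht dl cd L w) ∧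
      (∀ k ∈ CD ht dl cd L w, s < k) then LW Λ L else 0)
      ≤ ((if HT ht L = H ∧ (∃ k ∈ CD ht dl cd L w, H < k + s) then LW Λ L else 0)
        + (if HT ht L = H ∧ ¬ lX L ∧ ¬ lY L then LW Λ L else 0))
        + ((if HT ht L = H ∧ lX L ∧ (∃ k, k ∈ CD ht dl cd L w) ∧
            (∀ k ∈ CD ht dl cd L w, s < k ∧ k + s ≤ H) then LW Λ L else 0)
          + (if HT ht L = H ∧ lY L ∧ (∃ k, k ∈ CD ht dl cd L w) ∧
            (∀ k ∈ CD ht dl cd L w, s < k ∧ k + s ≤ H) then LW Λ L else 0)) := by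
    intro L
    by_cases h : HT ht L = H ∧ (∃ k, k ∈ CD ht dl cd L w) ∧ (∀ k ∈ CD ht dl cd L w, s < k)
    · rw [if_pos h]
      obtain ⟨hh, hex, hall⟩ := h
      by_cases h1 : ∃ k ∈ CD ht dl cd L w, H < k + s
      · rw [if_pos (show HT ht L = H ∧ (∃ k ∈ CD ht dl cd L w, H < k + s) from ⟨hh, h1⟩)]
        exact le_trans le_self_add le_self_add
      · push Not at h1
        have hall2 : ∀ k ∈ CD ht dl cd L w, s < k ∧ k + s ≤ H := fun k hk => ⟨hall k hk, h1 k hk⟩
        by_cases hx : lX L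
        · rw [if_pos (show HT ht L = H ∧ lX L ∧ (∃ k, k ∈ CD ht dl cd L w) ∧
            (∀ k ∈ CD ht dl cd L w, s < k ∧ k + s ≤ H) from ⟨hh, hx, hex, hall2⟩)]
          exact le_trans le_self_add le_add_self
        · by_cases hy : lY L
          · rw [if_pos (show HT ht L = H ∧ lY L ∧ (∃ k, k ∈ CD ht dl cd L w) ∧
              (∀ k ∈ CD ht dl cd L w, s < k ∧ k + s ≤ H) from ⟨hh, hy, hex, hall2⟩)]
            exact le_trans le_add_self le_add_self
          · rw [if_pos (show HT ht L = H ∧ ¬ lX L ∧ ¬ lY L from ⟨hh, hx, hy⟩)]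
            exact le_trans le_add_self le_self_add
    · rw [if_neg h]; exact zero_le
  rw [VV]
  refine le_trans (ENNReal.tsum_le_tsum hterm) ?_
  rw [ENNReal.tsum_add, ENNReal.tsum_add, ENNReal.tsum_add]
  calc _ ≤ (δ + ν) + ((δ + (if w ∈ SX then 1 else 0)) + (δ + (if w ∈ SY then 1 else 0))) := by
        refine add_le_add (add_le_add (hs w) hn) (add_le_add ?_ ?_)
        · exact sideV Λ ht dl cd hU1 hX w
        · exact sideV Λ ht dl cd hU1 hY w
    _ = _ := by ring

open Classical in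
/-- one window, total -/
lemma window_total (h1 : ∀ b, 1 ≤ ht b) (hinj : ∀ b, Function.Injective (dl b))
    (hU1 : ∀ n, U Λ ht n ≤ 1)
    (hcd : ∀ w b k, k ∈ cd w b → 1 ≤ k ∧ k ≤ ht b) {c : ℝ≥0∞} (hc0 : c ≠ 0)
    (hU : ∀ n, c ≤ U Λ ht n) {s q a n J : ℕ} (hs : s ≤ q) (ha : 2 * q ≤ a)
    (haJ : J * (8 * q) ≤ a - 2 * q)
    (hn : a + 3 * q ≤ n) {κ tX tY δ ν : ℝ≥0∞}
    {lX gX lY gY : List B → Prop} {SX SY : Finset W}
    (hX : Side Λ ht dl cd (4 * q) s κ tX δ lX gX SX)
    (hY : Side Λ ht dl cd (4 * q) s κ tY δ lY gY SY)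
    (hnn : (∑' L : List B, (if HT ht L = 4 * q ∧ ¬ lX L ∧ ¬ lY L then LW Λ L else 0)) ≤ ν)
    (hsl : ∀ w, ∑' L : List B, (if HT ht L = 4 * q ∧ (∃ k ∈ CD ht dl cd L w, 4 * q < k + s)
        then LW Λ L else 0) ≤ δ) (w : W) :
    ∑' L : List B, (if HT ht L = n ∧ (∀ k ∈ CD ht dl cd L w, a < k) ∧
      (∃ k ∈ CD ht dl cd L w, k ≤ a + q) then LW Λ L else 0)
      ≤ 2 * ov Λ ht q + c⁻¹ * ((3 * δ + ν) +
        2 * ((1 - κ) ^ J + J * (ov Λ ht (4 * q) + δ))) := by
  have hΛ : ∑' b, Λ b ≤ 1 := mass_le_one Λ ht h1 hU1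
  refine le_trans (window Λ ht dl cd h1 hU1 hcd hc0 hU hs ha hn w) ?_
  gcongr
  have hb : ∀ T : List B, (if fp ht (a - q - s) T then LW Λ T *
      VV Λ ht dl cd (4 * q) s (act dl T w) else 0)
      ≤ (if fp ht (a - q - s) T then LW Λ T else 0) * (3 * δ + ν)
        + ((if fp ht (a - q - s) T then LW Λ T * (if act dl T w ∈ SX then 1 else 0) else 0)
        + (if fp ht (a - q - s) T then LW Λ T * (if act dl T w ∈ SY then 1 else 0) else 0)) := by
    intro T
    by_cases hT : fp ht (a - q - s) T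
    · simp only [if_pos hT]
      calc LW Λ T * VV Λ ht dl cd (4 * q) s (act dl T w)
          ≤ LW Λ T * ((3 * δ + ν) + ((if act dl T w ∈ SX then 1 else 0)
            + (if act dl T w ∈ SY then 1 else 0))) := by
            gcongr
            exact VV_le Λ ht dl cd hU1 hX hY hnn hsl _
        _ = _ := by ring
    · simp [hT]
  refine le_trans (ENNReal.tsum_le_tsum hb) ?_
  rw [ENNReal.tsum_add, ENNReal.tsum_add, ENNReal.tsum_mul_right]
  have hq2 : J * (2 * (4 * q)) ≤ a - q - s := by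
    have : J * (2 * (4 * q)) = J * (8 * q) := by ring
    omega
  have gX := GS_iter Λ ht dl cd h1 hinj hU1 hX SX J (a - q - s) hq2 w
  have gY := GS_iter Λ ht dl cd h1 hinj hU1 hY SY J (a - q - s) hq2 w
  rw [GS] at gX gY
  have gX' := gX.trans (show (1 - κ) ^ J + (J : ℝ≥0∞) * (ov Λ ht (4 * q) + tX * SX.card)
      ≤ (1 - κ) ^ J + J * (ov Λ ht (4 * q) + δ) by gcongr; exact hX.card)
  have gY' := gY.trans (show (1 - κ) ^ J + (J : ℝ≥0∞) * (ov Λ ht (4 * q) + tY * SY.card)
      ≤ (1 - κ) ^ J + J * (ov Λ ht (4 * q) + δ) by gcongr; exact hY.card)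
  rw [two_mul]
  refine add_le_add ?_ (add_le_add gX' gY')
  calc _ ≤ 1 * (3 * δ + ν) := by gcongr; exact sum_FP Λ ht h1 hΛ _
    _ = _ := one_mul _

open Classical in
lemma kap_le_windows {m q K n : ℕ} (hq : 1 ≤ q) (hK : m ≤ K * q) (w : W) :
    Kap1 Λ ht dl cd n m w ≤ ∑ j ∈ Finset.range K,
      ∑' L : List B, (if HT ht L = n ∧ (∀ k ∈ CD ht dl cd L w, m + j * q < k) ∧
      (∃ k ∈ CD ht dl cd L w, k ≤ m + j * q + q) then LW Λ L else 0) := by
  rw [Kap1, ← Summable.tsum_finsetSum (fun _ _ => ENNReal.summable)]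
  refine ENNReal.tsum_le_tsum fun L => ?_
  by_cases h : HT ht L = n ∧ (∀ k ∈ CD ht dl cd L w, m < k) ∧ ∃ k ∈ CD ht dl cd L w, k ≤ 2 * m
  · rw [if_pos h]
    obtain ⟨hh, hall, hex⟩ := h
    obtain ⟨k1, hk1, hk1m⟩ := hex
    have hexk : ∃ k, k ∈ CD ht dl cd L w := ⟨k1, hk1⟩
    set k0 := Nat.find hexk with hk0
    have hk0m : k0 ∈ CD ht dl cd L w := Nat.find_spec hexk
    have hk0le : ∀ k ∈ CD ht dl cd L w, k0 ≤ k := fun k hk => Nat.find_min' hexk hk
    have hmk0 := hall k0 hk0m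
    have hk02 : k0 ≤ 2 * m := (hk0le k1 hk1).trans hk1m
    set j := (k0 - m - 1) / q with hj
    have hjq : j * q ≤ k0 - m - 1 := Nat.div_mul_le_self _ _
    have hjq2 : k0 - m - 1 < j * q + q := by
      have := Nat.lt_div_mul_add (a := k0 - m - 1) (b := q) (by omega)
      simpa [hj] using this
    have hjK : j < K := by
      by_contra hcon
      have : K * q ≤ j * q := Nat.mul_le_mul_right q (not_lt.1 hcon)
      omega
    have hle : (if HT ht L = n ∧ (∀ k ∈ CD ht dl cd L w, m + j * q < k) ∧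
        (∃ k ∈ CD ht dl cd L w, k ≤ m + j * q + q) then LW Λ L else 0) = LW Λ L := by
      rw [if_pos]
      refine ⟨hh, fun k hk => ?_, k0, hk0m, by omega⟩
      have := hk0le k hk
      omega
    exact hle.symm.le.trans (Finset.single_le_sum (f := fun j => if HT ht L = n ∧
      (∀ k ∈ CD ht dl cd L w, m + j * q < k) ∧ (∃ k ∈ CD ht dl cd L w, k ≤ m + j * q + q)
      then LW Λ L else 0) (fun _ _ => zero_le) (Finset.mem_range.2 hjK))
  · rw [if_neg h]; exact zero_le

lemma ov_tendsto (hfin : ∑' k, tail Λ ht k ≠ ⊤) :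
    Filter.Tendsto (fun q => ov Λ ht q) Filter.atTop (nhds 0) := by
  have := ENNReal.tendsto_sum_nat_add (fun k => tail Λ ht k) hfin
  refine this.congr fun q => ?_
  rw [ov]
  exact tsum_congr fun k => by rw [add_comm]

/-- numeric choice of the number of windows and of the non local mass -/
lemma chooseJ {κ A ε : ℝ≥0∞} (hκ0 : κ ≠ 0) (hκ1 : κ ≤ 1) (hA : A ≠ ⊤) (hε : ε ≠ 0) :
    ∃ (J : ℕ) (u : ℝ≥0∞), 1 ≤ J ∧ u ≠ 0 ∧ u ≤ κ ∧ A * (J * u ^ 2) ≤ ε ∧
      A * (J * (1 - κ * u) ^ J) ≤ ε := by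
  have hκt : κ ≠ ⊤ := ne_top_of_le_ne_top ENNReal.one_ne_top hκ1
  set C : ℝ≥0∞ := (A + 1) * (κ⁻¹) ^ 2 + 1 with hC
  have hCt : C ≠ ⊤ := by
    rw [hC]
    refine ENNReal.add_ne_top.2 ⟨ENNReal.mul_ne_top (ENNReal.add_ne_top.2 ⟨hA, by simp⟩) ?_,
      by simp⟩
    exact ENNReal.pow_ne_top (ENNReal.inv_ne_top.2 hκ0)
  set ε' : ℝ≥0∞ := min ε ((κ ^ 2) ^ 2) with hε'
  have hε'0 : ε' ≠ 0 := by
    rw [hε', Ne, min_eq_iff]
    push Not
    refine ⟨fun h => absurd h hε, fun h => ?_⟩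
    exact absurd h (pow_ne_zero _ (pow_ne_zero _ hκ0))
  obtain ⟨J, u, -, hJ, hu0, hu1, h1, h2⟩ := NumK658.chooseK1 C hCt ε' hε'0 1
  have hJ1 : (1 : ℝ≥0∞) ≤ J + 1 := le_add_self
  have hu2 : u ^ 2 ≤ (κ ^ 2) ^ 2 := by
    calc u ^ 2 = 1 * (1 * u ^ 2) := by ring
      _ ≤ C * ((J + 1) * u ^ 2) := by
          gcongr
          rw [hC]; exact le_add_self
      _ ≤ ε' := h1
      _ ≤ _ := min_le_right _ _
  have huκ : u ≤ κ ^ 2 := (ENNReal.pow_le_pow_left_iff two_ne_zero).1 hu2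
  have hmul : κ * (κ⁻¹ * u) = u := by
    rw [← mul_assoc, ENNReal.mul_inv_cancel hκ0 hκt, one_mul]
  have hAC : A * κ⁻¹ ^ 2 ≤ C := by
    rw [hC]
    refine le_trans ?_ le_self_add
    gcongr
    exact le_self_add
  have hAC2 : A ≤ C := by
    have h1κ : (1 : ℝ≥0∞) ≤ κ⁻¹ := by rw [ENNReal.one_le_inv]; exact hκ1
    calc A = A * 1 ^ 2 := by ring
      _ ≤ A * κ⁻¹ ^ 2 := by gcongr
      _ ≤ C := hAC
  refine ⟨J, κ⁻¹ * u, hJ, mul_ne_zero (ENNReal.inv_ne_zero.2 hκt) hu0, ?_, ?_, ?_⟩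
  · calc κ⁻¹ * u ≤ κ⁻¹ * κ ^ 2 := by gcongr
      _ = κ := by rw [pow_two, ← mul_assoc, ENNReal.inv_mul_cancel hκ0 hκt, one_mul]
  · calc A * (J * (κ⁻¹ * u) ^ 2) = (A * κ⁻¹ ^ 2) * (J * u ^ 2) := by ring
      _ ≤ C * ((J + 1) * u ^ 2) := by
          gcongr
          exact le_self_add
      _ ≤ ε' := h1
      _ ≤ ε := min_le_left _ _
  · rw [hmul]
    calc A * (J * (1 - u) ^ J) ≤ C * ((J + 1) * (1 - u) ^ J) := by
          gcongr
          exact le_self_add
      _ ≤ ε' := h2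
      _ ≤ ε := min_le_left _ _

/-- **KAPPA' from the exact height layers** (joint-cut frame) -/
theorem kap_of_layer (h1 : ∀ b, 1 ≤ ht b) (hinj : ∀ b, Function.Injective (dl b))
    (hU1 : ∀ n, U Λ ht n ≤ 1)
    (hcd : ∀ w b k, k ∈ cd w b → 1 ≤ k ∧ k ≤ ht b) {c : ℝ≥0∞} (hc0 : c ≠ 0)
    (hU : ∀ n, c ≤ U Λ ht n) {κ : ℝ≥0∞} (hκ0 : κ ≠ 0) (hκ1 : κ ≤ 1)
    (hL : Layer Λ ht dl cd κ) :
    ∀ ε : ℝ≥0∞, ε ≠ 0 → ∃ M : ℕ, ∀ m, M ≤ m → ∃ n0 : ℕ, ∀ n, n0 ≤ n → ∀ w,
      Kap1 Λ ht dl cd n m w ≤ ε := by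
  classical
  intro ε hε
  have hct : c ≠ ⊤ := ne_top_of_le_ne_top ENNReal.one_ne_top ((hU 0).trans (hU1 0))
  have hcit : c⁻¹ ≠ ⊤ := ENNReal.inv_ne_top.2 hc0
  have hΛ : ∑' b, Λ b = 1 :=
    le_antisymm (mass_le_one Λ ht h1 hU1) (mass_ge_one Λ ht c hc0 0 (fun n _ => hU n))
  have hfin : ∑' k, tail Λ ht k ≠ ⊤ := by
    rw [← sum_tail Λ ht hΛ]
    exact ne_top_of_le_ne_top hcit (mean_le Λ ht h1 hΛ c hc0 hct 0 (fun n _ => hU n))
  have hov := ov_tendsto Λ ht hfin
  have hε4 : ε / 4 ≠ 0 := by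
    rw [Ne, ENNReal.div_eq_zero_iff, not_or]
    exact ⟨hε, by norm_num⟩
  -- choice of `J`, `u`
  obtain ⟨J, u, hJ, hu0, huκ, hA1, hA2⟩ := chooseJ (κ := κ) (A := 64 * c⁻¹) (ε := ε / 4) hκ0 hκ1
    (ENNReal.mul_ne_top (by norm_num) hcit) hε4
  set K : ℕ := 32 * J with hK
  -- choice of `δ`
  obtain ⟨δ, hδ0, hδ⟩ := NumK658.chooseEta ((K : ℝ≥0∞) * (c⁻¹ * (3 + 2 * J)))
    (ENNReal.mul_ne_top (ENNReal.natCast_ne_top _) (ENNReal.mul_ne_top hcit
      (ENNReal.add_ne_top.2 ⟨by norm_num, ENNReal.mul_ne_top (by norm_num)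
        (ENNReal.natCast_ne_top _)⟩))) (ε / 4) hε4
  obtain ⟨s, H0, hlay⟩ := hL u hu0 huκ δ hδ0
  -- choice of the overshoot
  obtain ⟨η, hη0, hη⟩ := NumK658.chooseEta ((K : ℝ≥0∞) * (2 + c⁻¹ * (2 * J)))
    (ENNReal.mul_ne_top (ENNReal.natCast_ne_top _) (ENNReal.add_ne_top.2 ⟨by norm_num,
      ENNReal.mul_ne_top hcit (ENNReal.mul_ne_top (by norm_num) (ENNReal.natCast_ne_top _))⟩))
    (ε / 4) hε4
  obtain ⟨Q, hQ⟩ := Filter.eventually_atTop.1 (hov.eventually (gt_mem_nhds (pos_iff_ne_zero.2 hη0)))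
  refine ⟨K * (Q + s + H0 + 16), fun m hm => ?_⟩
  have hKpos : 0 < K := by omega
  set q : ℕ := m / K + 1 with hq
  have hqd : Q + s + H0 + 16 ≤ m / K := by
    rw [Nat.le_div_iff_mul_le hKpos, mul_comm]; exact hm
  have hmK : m ≤ K * q := by
    have := Nat.lt_mul_div_succ m hKpos
    rw [hq]; exact this.le
  have hKm : K * (m / K) ≤ m := Nat.mul_div_le m K
  refine ⟨m + K * q + 4 * q, fun n hn w => ?_⟩
  obtain ⟨lX, gX, lY, gY, SX, SY, tX, tY, hX, hY, hnn, hsl⟩ := hlay (4 * q) (by omega)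
  have hovq : ov Λ ht q ≤ η := (hQ q (by omega)).le
  have hovq4 : ov Λ ht (4 * q) ≤ η := (hQ (4 * q) (by omega)).le
  refine le_trans (kap_le_windows Λ ht dl cd (by omega) hmK w) ?_
  have hwin : ∀ j ∈ Finset.range K, ∑' L : List B, (if HT ht L = n ∧ (∀ k ∈ CD ht dl cd L w,
      m + j * q < k) ∧ (∃ k ∈ CD ht dl cd L w, k ≤ m + j * q + q) then LW Λ L else 0)
      ≤ 2 * η + c⁻¹ * ((3 * δ + u ^ 2) + 2 * ((1 - κ * u) ^ J + J * (η + δ))) := by
    intro j hj
    have hjK : j < K := Finset.mem_range.1 hj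
    have hjq : j * q ≤ K * q := Nat.mul_le_mul_right q hjK.le
    have hJx : 32 * (J * (m / K)) ≤ m := by
      calc 32 * (J * (m / K)) = K * (m / K) := by rw [hK]; ring
        _ ≤ m := hKm
    have hJm : 16 * J ≤ J * (m / K) := by
      rw [mul_comm]; exact Nat.mul_le_mul_left J (by omega)
    have hx1 : m / K ≤ J * (m / K) := Nat.le_mul_of_pos_left _ (by omega)
    have hcond : J * (8 * q) ≤ m + j * q - 2 * q := by
      have e : J * (8 * q) = 8 * (J * (m / K)) + 8 * J := by rw [hq]; ring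
      rw [e]
      omega
    refine le_trans (window_total Λ ht dl cd h1 hinj hU1 hcd hc0 hU (s := s) (q := q)
      (a := m + j * q) (n := n) (J := J) (by omega) (by omega) hcond (by omega)
      hX hY hnn hsl w) ?_
    gcongr
  refine le_trans (Finset.sum_le_sum hwin) ?_
  rw [Finset.sum_const, Finset.card_range, nsmul_eq_mul]
  have eK : (K : ℝ≥0∞) = 32 * J := by rw [hK]; push_cast; ring
  calc (K : ℝ≥0∞) * (2 * η + c⁻¹ * ((3 * δ + u ^ 2) + 2 * ((1 - κ * u) ^ J + J * (η + δ))))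
      = (K : ℝ≥0∞) * (2 + c⁻¹ * (2 * J)) * η + (K : ℝ≥0∞) * (c⁻¹ * (3 + 2 * J)) * δ
        + (K : ℝ≥0∞) * c⁻¹ * u ^ 2 + (K : ℝ≥0∞) * c⁻¹ * 2 * (1 - κ * u) ^ J := by ring
    _ ≤ ε / 4 + ε / 4 + ε / 4 + ε / 4 := by
        refine add_le_add (add_le_add (add_le_add hη hδ) ?_) ?_
        · refine le_trans ?_ hA1
          rw [eK]
          calc 32 * (J : ℝ≥0∞) * c⁻¹ * u ^ 2 = (32 * c⁻¹) * (J * u ^ 2) := by ring
            _ ≤ (64 * c⁻¹) * (J * u ^ 2) := by gcongr; norm_num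
        · refine le_trans (le_of_eq ?_) hA2
          rw [eK]; ring
    _ = ε := by
        have h4 : ε / 4 + ε / 4 = ε / 2 := by
          rw [← ENNReal.add_div, ← two_mul, show (4 : ℝ≥0∞) = 2 * 2 by norm_num,
            ENNReal.mul_div_mul_left _ _ (by norm_num) (by norm_num)]
        rw [add_assoc, h4, ENNReal.add_halves]

end Crest.Agent.R154.LAsm9
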