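import Crest.Agent.R154.LP_654

/-! Row 154, ROAD 801, list machine (helper654), part 2: overshoot and density. -/

set_option autoImplicit false

namespace Crest.Agent.R154.LP654

open Crest.Agent.R154.B5A
open scoped ENNReal
open Classical

variable {B G : Type*} [AddCommGroup G]
variable (Λ : B → ℝ≥0∞) (h : B → ℕ)

lemma U_pos_eq (h1 : ∀ b, 1 ≤ h b) {n : ℕ} (hn : 0 < n) :
    U Λ h n = ∑' b, Λ b * (if h b ≤ n then U Λ h (n - h b) else 0) := by
  have := Cn_pos Λ h h1 hn (fun _ => 1)
  simpa only [Cn, mul_one, U] using this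

lemma ov_le_W (h1 : ∀ b, 1 ≤ h b) (i0 a : ℕ) :
    ov Λ h a i0 ≤ ∑ k ∈ Finset.range a, U Λ h (a - 1 - k) * tail Λ h (k + 1 + i0) := by
  induction a using Nat.strong_induction_on with
  | _ a ih =>
    rcases Nat.eq_zero_or_pos a with rfl | ha
    · rw [ov, S_zero]; simp [HT_nil]
    · obtain ⟨a, rfl⟩ : ∃ a', a = a' + 1 := ⟨a - 1, by omega⟩
      rw [Finset.sum_range_succ, ov, S_pos Λ h ha]
      have e0 : U Λ h (a + 1 - 1 - a) = 1 := by
        rw [show a + 1 - 1 - a = 0 by omega, U_zero Λ h h1]
      rw [e0, one_mul]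
      have hb1 : ∀ b, Λ b * S Λ h (a + 1 - h b) (fun L => if a + 1 + i0 < HT h (b :: L) then 1 else 0)
          ≤ Λ b * (if h b ≤ a then ∑ k ∈ Finset.range (a + 1 - h b),
              U Λ h (a - k - h b) * tail Λ h (k + 1 + i0) else 0)
            + (if a + 1 + i0 < h b then Λ b else 0) := by
        intro b
        by_cases hb : h b ≤ a
        · rw [if_pos hb]
          refine le_trans (mul_le_mul_right ?_ _) le_self_add
          have := ih (a + 1 - h b) (by have := h1 b; omega)
          rw [ov] at this
          refine le_trans (le_of_eq ?_) (this.trans (le_of_eq ?_))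
          · refine S_congr Λ h _ fun L _ => ?_
            rw [HT_cons]
            by_cases hL : a + 1 + i0 < h b + HT h L
            · rw [if_pos hL, if_pos (by omega)]
            · rw [if_neg hL, if_neg (by omega)]
          · refine Finset.sum_congr rfl fun k hk => ?_
            rw [show a + 1 - h b - 1 - k = a - k - h b by omega]
        · rw [if_neg hb, mul_zero, zero_add, show a + 1 - h b = 0 by omega, S_zero, HT_cons,
            HT_nil, add_zero]
          by_cases hL : a + 1 + i0 < h b
          · rw [if_pos hL, if_pos hL, mul_one]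
          · rw [if_neg hL, if_neg hL, mul_zero]
      refine (ENNReal.tsum_le_tsum hb1).trans ?_
      rw [ENNReal.tsum_add]
      refine add_le_add ?_ (le_of_eq ?_)
      · have e1 : ∀ k ∈ Finset.range a, U Λ h (a + 1 - 1 - k) * tail Λ h (k + 1 + i0)
            = ∑' b, Λ b * ((if h b ≤ a - k then U Λ h (a - k - h b) else 0)
              * tail Λ h (k + 1 + i0)) := by
          intro k hk
          have hk' := Finset.mem_range.1 hk
          rw [show a + 1 - 1 - k = a - k by omega, U_pos_eq Λ h h1 (by omega : 0 < a - k),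
            ← ENNReal.tsum_mul_right]
          refine tsum_congr fun b => ?_
          rw [mul_assoc]
        rw [Finset.sum_congr rfl e1, ← Summable.tsum_finsetSum (fun _ _ => ENNReal.summable)]
        refine ENNReal.tsum_le_tsum fun b => ?_
        rw [← Finset.mul_sum]
        refine mul_le_mul_right ?_ _
        by_cases hb : h b ≤ a
        · rw [if_pos hb]
          have hbb := h1 b
          calc ∑ k ∈ Finset.range (a + 1 - h b), U Λ h (a - k - h b) * tail Λ h (k + 1 + i0)
              = ∑ k ∈ Finset.range (a + 1 - h b), (if h b ≤ a - k then U Λ h (a - k - h b) else 0)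
                * tail Λ h (k + 1 + i0) := by
                refine Finset.sum_congr rfl fun k hk => ?_
                have hk' := Finset.mem_range.1 hk
                rw [if_pos (by omega)]
            _ ≤ _ := Finset.sum_le_sum_of_subset (Finset.range_mono (by omega))
        · rw [if_neg hb]; exact zero_le
      · rw [tail]

lemma ov_le (h1 : ∀ b, 1 ≤ h b) (hU1 : ∀ n, U Λ h n ≤ 1) (i0 a : ℕ) :
    ov Λ h a i0 ≤ ∑' k, tail Λ h (k + i0) := by
  refine (ov_le_W Λ h h1 i0 a).trans ?_
  calc ∑ k ∈ Finset.range a, U Λ h (a - 1 - k) * tail Λ h (k + 1 + i0)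
      ≤ ∑ k ∈ Finset.range a, tail Λ h (k + 1 + i0) := by
        refine Finset.sum_le_sum fun k _ => ?_
        calc _ ≤ 1 * tail Λ h (k + 1 + i0) := mul_le_mul_left (hU1 _) _
          _ = _ := one_mul _
    _ ≤ ∑' k, tail Λ h (k + 1 + i0) := ENNReal.sum_le_tsum _
    _ ≤ ∑' k, tail Λ h (k + i0) :=
        ENNReal.tsum_comp_le_tsum_of_injective (f := fun k : ℕ => k + 1) (add_left_injective 1)
          (fun k => tail Λ h (k + i0))

lemma ov_tendsto (hΛ : ∑' b, Λ b = 1) (hE : ∑' b, Λ b * (h b : ℝ≥0∞) ≠ ⊤) :
    Filter.Tendsto (fun i0 => ∑' k, tail Λ h (k + i0)) Filter.atTop (nhds 0) := by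
  refine ENNReal.tendsto_sum_nat_add _ ?_
  rw [← sum_tail Λ h hΛ]
  exact hE

/-! ### displacement -/

/-- displacement of a list -/
def Dp (z : B → G) (L : List B) : G := (L.map z).sum

lemma Dp_append (z : B → G) (L L' : List B) : Dp z (L ++ L') = Dp z L + Dp z L' := by
  simp [Dp]

variable (z : B → G)

/-- law of (height, displacement) at the first passage of `a` -/
noncomputable def V (a : ℕ) (p : ℕ × G) : ℝ≥0∞ :=
  S Λ h a (fun L => if (HT h L, Dp z L) = p then 1 else 0)

lemma VF (a : ℕ) (F : ℕ × G → ℝ≥0∞) :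
    S Λ h a (fun L => F (HT h L, Dp z L)) = ∑' p, V Λ h z a p * F p := by
  have e : ∀ L, F (HT h L, Dp z L) = ∑' p, (if (HT h L, Dp z L) = p then 1 else 0) * F p := by
    intro L
    rw [tsum_eq_single (HT h L, Dp z L)]
    · simp
    · intro p hp; rw [if_neg (fun hh => hp hh.symm), zero_mul]
  simp_rw [e]
  rw [S_tsum]
  refine tsum_congr fun p => ?_
  rw [S_mul_right]
  rfl

/-- shift -/
noncomputable def sh (W : ℕ × G → ℝ≥0∞) (p r : ℕ × G) : ℝ≥0∞ :=
  if p.1 ≤ r.1 then W (r.1 - p.1, r.2 - p.2) else 0

lemma tsum_sh (W : ℕ × G → ℝ≥0∞) (p : ℕ × G) : ∑' r, sh W p r = ∑' s, W s := by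
  have hinj : Function.Injective (fun s : ℕ × G => ((s.1 + p.1, s.2 + p.2) : ℕ × G)) := by
    rintro ⟨a, b⟩ ⟨a', b'⟩ hh
    simp only [Prod.mk.injEq, add_left_inj] at hh
    exact Prod.ext hh.1 hh.2
  have hs : Function.support (sh W p) ⊆ Set.range (fun s : ℕ × G =>
      ((s.1 + p.1, s.2 + p.2) : ℕ × G)) := by
    intro r hr
    by_cases hpr : p.1 ≤ r.1
    · exact ⟨(r.1 - p.1, r.2 - p.2), by
        simp only [sub_add_cancel]
        rw [Nat.sub_add_cancel hpr]⟩
    · exact absurd (by rw [sh, if_neg hpr]) hr
  rw [← hinj.tsum_eq hs]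
  refine tsum_congr fun s => ?_
  rw [sh, if_pos (by simp)]
  simp

lemma V_split (h1 : ∀ b, 1 ≤ h b) (T a : ℕ) (hT : T ≤ a) (r : ℕ × G) :
    V Λ h z a r = ∑' p, V Λ h z T p * sh (V Λ h z (a - p.1)) p r := by
  rw [V, S_split Λ h h1 T a hT, ← VF Λ h z T (fun p => sh (V Λ h z (a - p.1)) p r)]
  refine S_congr Λ h T fun L1 _ => ?_
  simp only [sh, V]
  by_cases hc : HT h L1 ≤ r.1
  · rw [if_pos hc]
    refine S_congr Λ h _ fun L2 _ => ?_
    rw [HT_append, Dp_append]
    by_cases he : (HT h L1 + HT h L2, Dp z L1 + Dp z L2) = r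
    · rw [if_pos he, if_pos]
      rw [← he]; simp
    · rw [if_neg he, if_neg]
      intro hh
      apply he
      have h1' := congrArg Prod.fst hh
      have h2' := congrArg Prod.snd hh
      simp only at h1' h2'
      refine Prod.ext ?_ ?_
      · simp only; omega
      · simp only; rw [h2']; abel
  · rw [if_neg hc, ← le_zero_iff]
    refine (S_mono Λ h _ (g := fun _ => 0) fun L2 _ => ?_).trans ?_
    · rw [HT_append, if_neg]
      intro hh
      have := congrArg Prod.fst hh
      simp only at this
      omega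
    · simp [S]

lemma V_tsum (h1 : ∀ b, 1 ≤ h b) (hΛ : ∑' b, Λ b = 1) (a : ℕ) : ∑' p, V Λ h z a p = 1 := by
  have := VF Λ h z a (fun _ => 1)
  rw [S_one Λ h h1 hΛ] at this
  simpa using this.symm

lemma V_lt (a : ℕ) (p : ℕ × G) (hp : p.1 < a) : V Λ h z a p = 0 := by
  rw [← le_zero_iff, V]
  refine (S_mono Λ h _ (g := fun _ => 0) fun L hL => ?_).trans ?_
  · rw [if_neg]
    intro hh
    have := congrArg Prod.fst hh
    simp only at this
    have := FP_le h a L hL
    omega
  · simp [S]

lemma V_row (h1 : ∀ b, 1 ≤ h b) (hΛ : ∑' b, Λ b = 1) (a c : ℕ) :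
    ∑' y, V Λ h z a (c, y) ≤ 1 := by
  rw [← V_tsum Λ h z h1 hΛ a, ENNReal.tsum_prod']
  exact ENNReal.le_tsum c

/-- **801 (1)**: smooth density -/
lemma dens (h1 : ∀ b, 1 ≤ h b) (hΛ : ∑' b, Λ b = 1) (T i0 : ℕ) (th q e : ℝ≥0∞)
    (hq : ∑' p, (if p.1 ≤ T + i0 ∧ th < V Λ h z T p then V Λ h z T p else 0) ≤ q)
    (he : ∑' p, (if T + i0 < p.1 then V Λ h z T p else 0) ≤ e) (J : ℕ) :
    ∀ a, J * (T + i0) ≤ a → ∃ g b : ℕ × G → ℝ≥0∞, (∀ r, V Λ h z a r ≤ g r + b r) ∧
      (∀ r, g r ≤ (i0 + 1) * th * ∑ j ∈ Finset.range J, q ^ j) ∧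
      ∑' r, b r ≤ q ^ J + e * ∑ j ∈ Finset.range J, q ^ j := by
  induction J with
  | zero =>
    intro a _
    refine ⟨fun _ => 0, V Λ h z a, fun r => by simp, fun r => by simp, ?_⟩
    rw [V_tsum Λ h z h1 hΛ]; simp
  | succ J ih =>
    intro a ha
    have hTa : T ≤ a := by
      have : (J + 1) * (T + i0) = J * (T + i0) + (T + i0) := by ring
      omega
    have hk : ∀ k, k ≤ T + i0 → J * (T + i0) ≤ a - k := by
      intro k hk
      have : (J + 1) * (T + i0) = J * (T + i0) + (T + i0) := by ring
      omega
    have ih' : ∀ k : ℕ, ∃ g b : ℕ × G → ℝ≥0∞, k ≤ T + i0 → (∀ r, V Λ h z (a - k) r ≤ g r + b r) ∧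
      (∀ r, g r ≤ (i0 + 1) * th * ∑ j ∈ Finset.range J, q ^ j) ∧
      ∑' r, b r ≤ q ^ J + e * ∑ j ∈ Finset.range J, q ^ j := by
      intro k
      by_cases hkk : k ≤ T + i0
      · obtain ⟨g, b, hh⟩ := ih (a - k) (hk k hkk)
        exact ⟨g, b, fun _ => hh⟩
      · exact ⟨fun _ => 0, fun _ => 0, fun hh => absurd hh hkk⟩
    choose g b hgb using ih'
    set v := V Λ h z T with hv
    set s := ∑ j ∈ Finset.range J, q ^ j with hs
    have hs' : ∑ j ∈ Finset.range (J + 1), q ^ j = 1 + q * s := by
      rw [Finset.sum_range_succ', hs, Finset.mul_sum, pow_zero, add_comm]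
      congr 1
      exact Finset.sum_congr rfl fun j _ => by rw [pow_succ']
    refine ⟨fun r => (∑' p, if p.1 ≤ T + i0 ∧ v p ≤ th then v p * sh (V Λ h z (a - p.1)) p r else 0)
        + ∑' p, if p.1 ≤ T + i0 ∧ th < v p then v p * sh (g p.1) p r else 0,
      fun r => (∑' p, if T + i0 < p.1 then v p * sh (V Λ h z (a - p.1)) p r else 0)
        + ∑' p, if p.1 ≤ T + i0 ∧ th < v p then v p * sh (b p.1) p r else 0, ?_, ?_, ?_⟩
    · intro r
      rw [V_split Λ h z h1 T a hTa]
      simp only
      rw [add_add_add_comm, ← ENNReal.tsum_add, ← ENNReal.tsum_add, ← ENNReal.tsum_add]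
      refine ENNReal.tsum_le_tsum fun p => ?_
      by_cases h2 : p.1 ≤ T + i0
      · by_cases h3 : v p ≤ th
        · rw [if_pos ⟨h2, h3⟩]
          exact le_add_right (le_add_right le_rfl)
        · have h3' : th < v p := not_le.1 h3
          rw [if_neg (fun hh => h3 hh.2), if_neg (by omega), if_pos ⟨h2, h3'⟩, if_pos ⟨h2, h3'⟩,
            zero_add, zero_add, ← mul_add]
          refine mul_le_mul_right ?_ _
          simp only [sh]
          by_cases h4 : p.1 ≤ r.1
          · rw [if_pos h4, if_pos h4, if_pos h4]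
            exact (hgb p.1 h2).1 _
          · rw [if_neg h4]; exact zero_le
      · rw [if_neg (fun hh => h2 hh.1), if_pos (by omega)]
        exact le_add_right (le_add_left le_rfl)
    · intro r
      simp only
      rw [hs', mul_add, mul_one]
      refine add_le_add ?_ ?_
      · rw [ENNReal.tsum_prod']
        calc ∑' (k : ℕ) (y : G), (if k ≤ T + i0 ∧ v (k, y) ≤ th then
              v (k, y) * sh (V Λ h z (a - k)) (k, y) r else 0)
            ≤ ∑' k : ℕ, (if T ≤ k ∧ k ≤ T + i0 then th else 0) := by
              refine ENNReal.tsum_le_tsum fun k => ?_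
              by_cases hkT : k ≤ T + i0
              · by_cases hk2 : T ≤ k
                · rw [if_pos ⟨hk2, hkT⟩]
                  calc ∑' y : G, (if k ≤ T + i0 ∧ v (k, y) ≤ th then
                        v (k, y) * sh (V Λ h z (a - k)) (k, y) r else 0)
                      ≤ ∑' y : G, th * sh (V Λ h z (a - k)) (k, y) r := by
                        refine ENNReal.tsum_le_tsum fun y => ?_
                        split_ifs with hc
                        · exact mul_le_mul_left hc.2 _
                        · exact zero_le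
                    _ = th * ∑' y : G, sh (V Λ h z (a - k)) (k, y) r := ENNReal.tsum_mul_left
                    _ ≤ th * 1 := by
                        refine mul_le_mul_right ?_ _
                        simp only [sh]
                        by_cases hkr : k ≤ r.1
                        · simp only [if_pos hkr]
                          exact ((Equiv.subLeft r.2).tsum_eq
                            (fun y => V Λ h z (a - k) (r.1 - k, y))).le.trans
                            (V_row Λ h z h1 hΛ _ _)
                        · simp only [if_neg hkr, tsum_zero]; exact zero_le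
                    _ = th := mul_one _
                · rw [if_neg (fun hh => hk2 hh.1)]
                  rw [le_zero_iff, ENNReal.tsum_eq_zero]
                  intro y
                  have : v (k, y) = 0 := V_lt Λ h z T (k, y) (by simp only; omega)
                  rw [this, zero_mul, ite_self]
              · simp only [if_neg (fun hh : k ≤ T + i0 ∧ _ => hkT hh.1), tsum_zero]
                exact zero_le
          _ = ∑ k ∈ Finset.Icc T (T + i0), th := by
              rw [tsum_eq_sum (s := Finset.Icc T (T + i0))]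
              · exact Finset.sum_congr rfl fun k hk => if_pos (Finset.mem_Icc.1 hk)
              · intro k hk; exact if_neg fun hh => hk (Finset.mem_Icc.2 hh)
          _ = (i0 + 1) * th := by
              rw [Finset.sum_const, Nat.card_Icc, nsmul_eq_mul,
                show T + i0 + 1 - T = i0 + 1 by omega]
              push_cast; rfl
      · calc ∑' p : ℕ × G, (if p.1 ≤ T + i0 ∧ th < v p then v p * sh (g p.1) p r else 0)
            ≤ ∑' p : ℕ × G, (if p.1 ≤ T + i0 ∧ th < v p then v p else 0)
              * ((i0 + 1) * th * s) := by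
              refine ENNReal.tsum_le_tsum fun p => ?_
              by_cases hc : p.1 ≤ T + i0 ∧ th < v p
              · rw [if_pos hc, if_pos hc]
                refine mul_le_mul_right ?_ _
                rw [sh]
                split_ifs
                · exact (hgb p.1 hc.1).2.1 _
                · exact zero_le
              · rw [if_neg hc, if_neg hc, zero_mul]
          _ = (∑' p : ℕ × G, (if p.1 ≤ T + i0 ∧ th < v p then v p else 0))
              * ((i0 + 1) * th * s) := ENNReal.tsum_mul_right
          _ ≤ q * ((i0 + 1) * th * s) := mul_le_mul_left hq _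
          _ = (i0 + 1) * th * (q * s) := by ring
    · simp only
      rw [ENNReal.tsum_add, hs', pow_succ', mul_add, mul_one]
      have e1 : ∑' r : ℕ × G, ∑' p : ℕ × G, (if T + i0 < p.1 then
          v p * sh (V Λ h z (a - p.1)) p r else 0) ≤ e := by
        rw [ENNReal.tsum_comm]
        refine le_trans (ENNReal.tsum_le_tsum fun p => ?_) he
        by_cases hc : T + i0 < p.1
        · simp only [if_pos hc]
          rw [ENNReal.tsum_mul_left, tsum_sh, V_tsum Λ h z h1 hΛ, mul_one]
        · simp only [if_neg hc, tsum_zero]; exact le_rfl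
      have e2 : ∑' r : ℕ × G, ∑' p : ℕ × G, (if p.1 ≤ T + i0 ∧ th < v p then
          v p * sh (b p.1) p r else 0) ≤ q * (q ^ J + e * s) := by
        rw [ENNReal.tsum_comm]
        calc ∑' p : ℕ × G, ∑' r : ℕ × G, (if p.1 ≤ T + i0 ∧ th < v p then
              v p * sh (b p.1) p r else 0)
            ≤ ∑' p : ℕ × G, (if p.1 ≤ T + i0 ∧ th < v p then v p else 0)
              * (q ^ J + e * s) := by
              refine ENNReal.tsum_le_tsum fun p => ?_
              by_cases hc : p.1 ≤ T + i0 ∧ th < v p
              · simp only [if_pos hc]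
                rw [ENNReal.tsum_mul_left, tsum_sh]
                exact mul_le_mul_right (hgb p.1 hc.1).2.2 _
              · simp only [if_neg hc, tsum_zero, zero_mul]; exact le_rfl
          _ ≤ _ := by
              rw [ENNReal.tsum_mul_right]; exact mul_le_mul_left hq _
      refine (add_le_add e1 e2).trans (le_of_eq ?_)
      ring

end Crest.Agent.R154.LP654
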