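import Crest.Agent.R154.LW_654
import Crest.Agent.R154.Num_869

/-! Row 154, ROAD 801, list machine (helper654), part 5: **KAPPA' in lists**. -/

set_option autoImplicit false

namespace Crest.Agent.R154.LP654

open Crest.Agent.R154.B5A
open scoped ENNReal
open Classical Filter

variable {BX BY G : Type*} [AddCommGroup G]
variable (ΛX : BX → ℝ≥0∞) (ΛY : BY → ℝ≥0∞) (hX : BX → ℕ) (hY : BY → ℕ) (zX : BX → G) (zY : BY → G)
variable (sX : BX → Set (G × ℕ)) (sY : BY → Set (G × ℕ))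

/-- thin slab -/
def H5 : Prop :=
  ∀ (s : ℕ) (η : ℝ≥0∞), η ≠ 0 → ∃ T, ∀ a, T ≤ a → ∀ n, ∀ w : G,
    ∑' LX : List BX, ∑' LY : List BY,
      (if HT hX LX = n ∧ HT hY LY = n ∧ ∃ y k, a ≤ k ∧ k < a + s ∧
          (y, k) ∈ TT sX zX hX LX 0 0 ∧ (y, k) ∈ TT sY zY hY LY w 0
        then LW ΛX LX * LW ΛY LY else 0) ≤ η

lemma CnCn (n : ℕ) (P : List BX → List BY → Prop) :
    ∑' L : List BX, ∑' L' : List BY, (if HT hX L = n ∧ HT hY L' = n ∧ P L L' then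
      LW ΛX L * LW ΛY L' else 0)
      = Cn ΛX hX n (fun L => Cn ΛY hY n (fun L' => if P L L' then 1 else 0)) := by
  refine tsum_congr fun L => ?_
  by_cases h1 : HT hX L = n
  · change _ = if HT hX L = n then LW ΛX L * (∑' L', if HT hY L' = n then
      LW ΛY L' * (if P L L' then 1 else 0) else 0) else 0
    rw [if_pos h1, ← ENNReal.tsum_mul_left]
    refine tsum_congr fun L' => ?_
    by_cases h2 : HT hY L' = n
    · by_cases h3 : P L L'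
      · rw [if_pos ⟨h1, h2, h3⟩, if_pos h2, if_pos h3, mul_one]
      · rw [if_neg (fun hh => h3 hh.2.2), if_pos h2, if_neg h3, mul_zero, mul_zero]
    · rw [if_neg (fun hh => h2 hh.2.1), if_neg h2, mul_zero]
  · rw [if_neg h1, ENNReal.tsum_eq_zero.2 fun L' => if_neg (fun hh => h1 hh.1)]

/-- the sum over the windows -/
lemma windows (η W : ℝ≥0∞) (t i0 s m n q0 Q : ℕ) (ht : 2 * i0 + s + 1 ≤ t) (hq0 : 1 ≤ q0)
    (hm1 : q0 * t ≤ m) (hm2 : 2 * m < Q * t) (w : G)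
    (hs : ∀ q ∈ Finset.Ico q0 Q, ∑' LX : List BX, ∑' LY : List BY,
      (if HT hX LX = n ∧ HT hY LY = n ∧ ∃ y k, ((q - 1) * t + 3 * t - 2 * i0 - s) ≤ k ∧
          k < ((q - 1) * t + 3 * t - 2 * i0 - s) + (4 * i0 + s + 1) ∧
          (y, k) ∈ TT sX zX hX LX 0 0 ∧ (y, k) ∈ TT sY zY hY LY w 0
        then LW ΛX LX * LW ΛY LY else 0) ≤ η)
    (hW : ∀ q ∈ Finset.Ico q0 Q, Cn ΛX hX n (fun L => Cn ΛY hY n (fun L' =>
      if EvW hX hY zX zY sX sY w ((q - 1) * t + t) ((q - 1) * t + 2 * t)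
      ((q - 1) * t + 3 * t - 2 * i0 - s) ((q - 1) * t + 3 * t + 2 * i0) L L' then 1 else 0)) ≤ W) :
    ∑' L : List BX, ∑' L' : List BY, (if HT hX L = n ∧ HT hY L' = n ∧
        (∀ z k, (z, k) ∈ TT sX zX hX L 0 0 → (z, k) ∈ TT sY zY hY L' w 0 → m < k) ∧
        (∃ z k, (z, k) ∈ TT sX zX hX L 0 0 ∧ (z, k) ∈ TT sY zY hY L' w 0 ∧ k ≤ 2 * m)
        then LW ΛX L * LW ΛY L' else 0) ≤ Q * (η + W) := by
  have pt : ∀ (L : List BX) (L' : List BY), (if HT hX L = n ∧ HT hY L' = n ∧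
        (∀ z k, (z, k) ∈ TT sX zX hX L 0 0 → (z, k) ∈ TT sY zY hY L' w 0 → m < k) ∧
        (∃ z k, (z, k) ∈ TT sX zX hX L 0 0 ∧ (z, k) ∈ TT sY zY hY L' w 0 ∧ k ≤ 2 * m)
        then LW ΛX L * LW ΛY L' else 0)
      ≤ ∑ q ∈ Finset.Ico q0 Q, ((if HT hX L = n ∧ HT hY L' = n ∧
          ∃ y k, ((q - 1) * t + 3 * t - 2 * i0 - s) ≤ k ∧
          k < ((q - 1) * t + 3 * t - 2 * i0 - s) + (4 * i0 + s + 1) ∧
          (y, k) ∈ TT sX zX hX L 0 0 ∧ (y, k) ∈ TT sY zY hY L' w 0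
        then LW ΛX L * LW ΛY L' else 0) +
        (if HT hX L = n ∧ HT hY L' = n ∧ EvW hX hY zX zY sX sY w ((q - 1) * t + t)
          ((q - 1) * t + 2 * t) ((q - 1) * t + 3 * t - 2 * i0 - s)
          ((q - 1) * t + 3 * t + 2 * i0) L L' then LW ΛX L * LW ΛY L' else 0)) := by
    intro L L'
    split_ifs with h
    swap
    · exact zero_le
    obtain ⟨h1, h2, h3, h4⟩ := h
    -- the first contact depth
    have hex : ∃ k, ∃ z, (z, k) ∈ TT sX zX hX L 0 0 ∧ (z, k) ∈ TT sY zY hY L' w 0 := by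
      obtain ⟨z, k, m1, m2, _⟩ := h4
      exact ⟨k, z, m1, m2⟩
    set k0 := Nat.find hex with hk0
    obtain ⟨z0, m1, m2⟩ := Nat.find_spec hex
    have hmin : ∀ z k, (z, k) ∈ TT sX zX hX L 0 0 → (z, k) ∈ TT sY zY hY L' w 0 → k0 ≤ k :=
      fun z k n1 n2 => Nat.find_min' hex ⟨z, n1, n2⟩
    have hk0m : m < k0 := h3 z0 k0 m1 m2
    have hk02 : k0 ≤ 2 * m := by
      obtain ⟨z, k, n1, n2, n3⟩ := h4
      exact (hmin z k n1 n2).trans n3
    have htpos : 0 < t := by omega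
    set q := k0 / t with hq
    have e1 : q * t ≤ k0 := Nat.div_mul_le_self k0 t
    have e2 : k0 < (q + 1) * t := by
      rw [add_mul, one_mul]
      have := Nat.lt_div_mul_add htpos (a := k0)
      exact this
    have hqq0 : q0 ≤ q := by
      rw [hq, Nat.le_div_iff_mul_le htpos]; omega
    have hqQ : q < Q := by
      rw [hq, Nat.div_lt_iff_lt_mul htpos]; omega
    refine le_trans ?_ (Finset.single_le_sum (f := fun q => ((if HT hX L = n ∧ HT hY L' = n ∧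
          ∃ y k, ((q - 1) * t + 3 * t - 2 * i0 - s) ≤ k ∧
          k < ((q - 1) * t + 3 * t - 2 * i0 - s) + (4 * i0 + s + 1) ∧
          (y, k) ∈ TT sX zX hX L 0 0 ∧ (y, k) ∈ TT sY zY hY L' w 0
        then LW ΛX L * LW ΛY L' else 0) +
        (if HT hX L = n ∧ HT hY L' = n ∧ EvW hX hY zX zY sX sY w ((q - 1) * t + t)
          ((q - 1) * t + 2 * t) ((q - 1) * t + 3 * t - 2 * i0 - s)
          ((q - 1) * t + 3 * t + 2 * i0) L L' then LW ΛX L * LW ΛY L' else 0)))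
      (fun _ _ => zero_le) (Finset.mem_Ico.2 ⟨hqq0, hqQ⟩))
    obtain ⟨q', hq'⟩ : ∃ q', q = q' + 1 := ⟨q - 1, by omega⟩
    simp only [hq', Nat.add_sub_cancel]
    rw [hq'] at e1 e2
    have e3 : (q' + 1) * t = q' * t + t := by ring
    have e4 : (q' + 1 + 1) * t = q' * t + 2 * t := by ring
    rw [e3] at e1
    rw [e4] at e2
    by_cases hsl : ∃ y k, (q' * t + 3 * t - 2 * i0 - s) ≤ k ∧
          k < (q' * t + 3 * t - 2 * i0 - s) + (4 * i0 + s + 1) ∧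
          (y, k) ∈ TT sX zX hX L 0 0 ∧ (y, k) ∈ TT sY zY hY L' w 0
    · rw [if_pos ⟨h1, h2, hsl⟩]; exact le_self_add
    · have hE : EvW hX hY zX zY sX sY w (q' * t + t) (q' * t + 2 * t)
          (q' * t + 3 * t - 2 * i0 - s) (q' * t + 3 * t + 2 * i0) L L' := by
        refine ⟨fun z k n1 n2 => ⟨e1.trans (hmin z k n1 n2), fun hh => hsl ?_⟩,
          z0, k0, m1, m2, e2⟩
        exact ⟨z, k, by omega, by omega, n1, n2⟩
      rw [if_pos (⟨h1, h2, hE⟩ : HT hX L = n ∧ HT hY L' = n ∧ EvW hX hY zX zY sX sY w (q' * t + t)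
        (q' * t + 2 * t) (q' * t + 3 * t - 2 * i0 - s) (q' * t + 3 * t + 2 * i0) L L')]
      exact le_add_self
  calc _ ≤ ∑' L : List BX, ∑' L' : List BY, ∑ q ∈ Finset.Ico q0 Q,
        ((if HT hX L = n ∧ HT hY L' = n ∧
          ∃ y k, ((q - 1) * t + 3 * t - 2 * i0 - s) ≤ k ∧
          k < ((q - 1) * t + 3 * t - 2 * i0 - s) + (4 * i0 + s + 1) ∧
          (y, k) ∈ TT sX zX hX L 0 0 ∧ (y, k) ∈ TT sY zY hY L' w 0
        then LW ΛX L * LW ΛY L' else 0) +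
        (if HT hX L = n ∧ HT hY L' = n ∧ EvW hX hY zX zY sX sY w ((q - 1) * t + t)
          ((q - 1) * t + 2 * t) ((q - 1) * t + 3 * t - 2 * i0 - s)
          ((q - 1) * t + 3 * t + 2 * i0) L L' then LW ΛX L * LW ΛY L' else 0)) :=
        ENNReal.tsum_le_tsum fun L => ENNReal.tsum_le_tsum fun L' => pt L L'
    _ = ∑ q ∈ Finset.Ico q0 Q, ((∑' L : List BX, ∑' L' : List BY, (if HT hX L = n ∧ HT hY L' = n ∧
          ∃ y k, ((q - 1) * t + 3 * t - 2 * i0 - s) ≤ k ∧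
          k < ((q - 1) * t + 3 * t - 2 * i0 - s) + (4 * i0 + s + 1) ∧
          (y, k) ∈ TT sX zX hX L 0 0 ∧ (y, k) ∈ TT sY zY hY L' w 0
        then LW ΛX L * LW ΛY L' else 0)) +
        ∑' L : List BX, ∑' L' : List BY,
        (if HT hX L = n ∧ HT hY L' = n ∧ EvW hX hY zX zY sX sY w ((q - 1) * t + t)
          ((q - 1) * t + 2 * t) ((q - 1) * t + 3 * t - 2 * i0 - s)
          ((q - 1) * t + 3 * t + 2 * i0) L L' then LW ΛX L * LW ΛY L' else 0)) := by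
        have e : ∀ F : ℕ → List BX → List BY → ℝ≥0∞, ∑' L, ∑' L', ∑ q ∈ Finset.Ico q0 Q, F q L L' =
            ∑ q ∈ Finset.Ico q0 Q, ∑' L, ∑' L', F q L L' := by
          intro F
          calc _ = ∑' L, ∑ q ∈ Finset.Ico q0 Q, ∑' L', F q L L' :=
                tsum_congr fun L => Summable.tsum_finsetSum (fun _ _ => ENNReal.summable)
            _ = _ := Summable.tsum_finsetSum (fun _ _ => ENNReal.summable)
        rw [e (fun q L L' => _)]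
        refine Finset.sum_congr rfl fun q _ => ?_
        rw [← ENNReal.tsum_add]
        refine tsum_congr fun L => ?_
        rw [← ENNReal.tsum_add]
    _ ≤ ∑ q ∈ Finset.Ico q0 Q, (η + W) := by
        refine Finset.sum_le_sum fun q hq => add_le_add (hs q hq) ?_
        rw [CnCn ΛX ΛY hX hY n (fun L L' => EvW hX hY zX zY sX sY w ((q - 1) * t + t)
          ((q - 1) * t + 2 * t) ((q - 1) * t + 3 * t - 2 * i0 - s)
          ((q - 1) * t + 3 * t + 2 * i0) L L')]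
        exact hW q hq
    _ ≤ Q * (η + W) := by
        rw [Finset.sum_const, nsmul_eq_mul, Nat.card_Ico]
        gcongr
        omega

lemma small (D δ : ℝ≥0∞) (hD : D ≠ ⊤) (hδ : δ ≠ 0) : ∃ x : ℝ≥0∞, x ≠ 0 ∧ x ≠ ⊤ ∧ D * x ≤ δ := by
  have hD1 : D + 1 ≠ ⊤ := ENNReal.add_ne_top.2 ⟨hD, ENNReal.one_ne_top⟩
  have hD0 : D + 1 ≠ 0 := by simp
  refine ⟨min 1 (δ / (D + 1)), ?_, ?_, ?_⟩
  · rw [Ne, ← le_zero_iff, min_le_iff, not_or]
    refine ⟨by simp, ?_⟩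
    rw [le_zero_iff, ENNReal.div_eq_zero_iff, not_or]
    exact ⟨hδ, hD1⟩
  · exact ne_top_of_le_ne_top ENNReal.one_ne_top (min_le_left _ _)
  · calc D * min 1 (δ / (D + 1)) ≤ (D + 1) * (δ / (D + 1)) :=
          mul_le_mul' le_self_add (min_le_right _ _)
      _ = δ := ENNReal.mul_div_cancel hD0 hD1

/-- **KAPPA' for two independent block walks** -/
theorem kapS (h1X : ∀ b, 1 ≤ hX b) (h1Y : ∀ b, 1 ≤ hY b) (hΛX : ∑' b, ΛX b = 1)
    (hΛY : ∑' b, ΛY b = 1) (hUX : ∀ n, U ΛX hX n ≤ 1) (hUY : ∀ n, U ΛY hY n ≤ 1)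
    (hEX : ∑' b, ΛX b * (hX b : ℝ≥0∞) ≠ ⊤) (hEY : ∑' b, ΛY b * (hY b : ℝ≥0∞) ≠ ⊤)
    (hsX : ∀ b p, p ∈ sX b → 1 ≤ p.2 ∧ p.2 ≤ hX b)
    (hsY : ∀ b p, p ∈ sY b → 1 ≤ p.2 ∧ p.2 ≤ hY b)
    (C : ℝ≥0∞) (hC : C ≠ ⊤) (us : ℕ → ℝ≥0∞) (hus : Tendsto us atTop (nhds 0))
    (W2 : H2 ΛX ΛY hX hY zX zY sX sY C us) (W3 : H3 ΛX ΛY hX hY zX zY sX sY C us)
    (W5 : H5 ΛX ΛY hX hY zX zY sX sY) (ε : ℝ≥0∞) (hε : ε ≠ 0) :
    ∃ M : ℕ, ∀ m, M ≤ m → ∃ n0 : ℕ, ∀ n, n0 ≤ n → ∀ w : G,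
    ∑' L : List BX, ∑' L' : List BY, (if HT hX L = n ∧ HT hY L' = n ∧
        (∀ z k, (z, k) ∈ TT sX zX hX L 0 0 → (z, k) ∈ TT sY zY hY L' w 0 → m < k) ∧
        (∃ z k, (z, k) ∈ TT sX zX hX L 0 0 ∧ (z, k) ∈ TT sY zY hY L' w 0 ∧ k ≤ 2 * m)
        then LW ΛX L * LW ΛY L' else 0) ≤ ε := by
  wlog hεt : ε ≠ ⊤ generalizing ε
  · rw [not_not] at hεt
    exact ⟨0, fun m _ => ⟨0, fun n _ w => by rw [hεt]; exact le_top⟩⟩
  obtain ⟨K, u, hK, hu0, hu1, hKu⟩ := Num869.choose_Ku (ε / 4 / 26) (by simp [hε])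
  have hut : u ≠ ⊤ := ne_top_of_le_ne_top ENNReal.one_ne_top hu1
  set Q : ℕ := 6 * K + 7 with hQ
  have hQt : (Q : ℝ≥0∞) ≠ ⊤ := ENNReal.natCast_ne_top Q
  have hQ0 : (Q : ℝ≥0∞) ≠ 0 := by exact_mod_cast (by omega : Q ≠ 0)
  have hδ : ε / 4 ≠ 0 := by simp [hε]
  have hδ8 : ε / 8 ≠ 0 := by simp [hε]
  -- `i0`
  set eX : ℕ → ℝ≥0∞ := fun i0 => ∑' k, tail ΛX hX (k + i0) with heX
  set eY : ℕ → ℝ≥0∞ := fun i0 => ∑' k, tail ΛY hY (k + i0) with heY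
  have hte : Tendsto (fun i0 => ((Q : ℝ≥0∞) * (8 + 2 * K)) * (eX i0 + eY i0)) atTop (nhds 0) := by
    have h1 := (ov_tendsto ΛX hX hΛX hEX).add (ov_tendsto ΛY hY hΛY hEY)
    rw [add_zero] at h1
    have h2 := ENNReal.Tendsto.const_mul (a := (Q : ℝ≥0∞) * (8 + 2 * K)) h1
      (Or.inr (ENNReal.mul_ne_top hQt (by finiteness)))
    rwa [mul_zero] at h2
  obtain ⟨i0, hi0⟩ := (hte.eventually_lt_const (pos_iff_ne_zero.2 hδ)).exists
  set e := eX i0 + eY i0 with he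
  have hovX : ∀ a, ov ΛX hX a i0 ≤ e := fun a => (ov_le ΛX hX h1X hUX i0 a).trans le_self_add
  have hovY : ∀ a, ov ΛY hY a i0 ≤ e := fun a => (ov_le ΛY hY h1Y hUY i0 a).trans le_add_self
  -- `lam`
  set D : ℝ≥0∞ := Q * (2 * (((i0 : ℝ≥0∞) + 1) ^ 4 * C)) with hD
  have hDt : D ≠ ⊤ := by
    rw [hD]
    refine ENNReal.mul_ne_top hQt (ENNReal.mul_ne_top (by norm_num) (ENNReal.mul_ne_top ?_ hC))
    exact ENNReal.pow_ne_top (by finiteness)
  obtain ⟨lam, hl0, hlt, hlam⟩ := small D (ε / 8) hDt hδ8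
  -- `s`
  have hts : Tendsto (fun s => D * (((i0 : ℝ≥0∞) + 1) / u * us s / lam + us s)) atTop (nhds 0) := by
    have hc : ((i0 : ℝ≥0∞) + 1) / u ≠ ⊤ := ENNReal.div_ne_top (by finiteness) hu0
    have h1 := ENNReal.Tendsto.const_mul (a := ((i0 : ℝ≥0∞) + 1) / u) hus (Or.inr hc)
    have h2 := ENNReal.Tendsto.div_const h1 (Or.inr hl0)
    rw [mul_zero, ENNReal.zero_div] at h2
    have h3 := h2.add hus
    rw [add_zero] at h3
    have h4 := ENNReal.Tendsto.const_mul (a := D) h3 (Or.inr hDt)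
    rwa [mul_zero] at h4
  obtain ⟨s, hs⟩ := (hts.eventually_lt_const (pos_iff_ne_zero.2 hδ8)).exists
  -- slab
  obtain ⟨η, hη0, hηt, hη⟩ := small Q (ε / 4) hQt hδ
  obtain ⟨T0, hT0⟩ := W5 (4 * i0 + s + 1) η hη0
  set t0 := K * i0 + 2 * (3 * K + 3) + (2 * i0 + s + 1) + T0 with ht0
  refine ⟨(3 * K + 3) * t0, fun m hm => ?_⟩
  set t := m / (3 * K + 3) with ht
  have htt0 : t0 ≤ t := by
    rw [ht, Nat.le_div_iff_mul_le (by omega)]
    rw [mul_comm]; exact hm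
  have htm : (3 * K + 3) * t ≤ m := by
    rw [ht]; exact Nat.mul_div_le m (3 * K + 3)
  have htm2 : m < (3 * K + 3) * (t + 1) := by
    rw [ht]
    exact Nat.lt_mul_div_succ m (by omega)
  refine ⟨Q * t + 3 * t + 3 * i0, fun n hn w => ?_⟩
  have hKK : K * i0 ≤ t := by omega
  refine (windows ΛX ΛY hX hY zX zY sX sY η
    (8 * e + u ^ 2 + 2 * ((1 - u) ^ K + e * K) + 2 * (((i0 : ℝ≥0∞) + 1) ^ 4 *
        (C * (lam + ((i0 + 1) / u) * us s / lam + us s)))) t i0 s m n (3 * K + 2) Q (by omega)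
    (by omega) ?_ ?_ w ?_ ?_).trans ?_
  · have : (3 * K + 2) * t ≤ (3 * K + 3) * t := Nat.mul_le_mul_right _ (by omega)
    omega
  · have h1 : 2 * ((3 * K + 3) * (t + 1)) = (6 * K + 6) * t + 2 * (3 * K + 3) := by ring
    have h2 : Q * t = (6 * K + 6) * t + t := by rw [hQ]; ring
    omega
  · intro q hq
    have hqI := Finset.mem_Ico.1 hq
    exact hT0 _ (by
      have : t ≤ (q - 1) * t + 3 * t - 2 * i0 - s := by omega
      omega) n w
  · intro q hq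
    have hqI := Finset.mem_Ico.1 hq
    refine window ΛX ΛY hX hY zX zY sX sY h1X h1Y hΛX hΛY hUX hUY hsX hsY C us W2 W3 t i0 s K
      ((q - 1) * t) n u e lam hu0 hu1 hl0 hlt hovX hovY (by omega) ?_ ?_ w
    · have h1 : (3 * K + 1) * t ≤ (q - 1) * t := Nat.mul_le_mul_right _ (by omega)
      have h2 : K * (3 * t + i0) = 3 * K * t + K * i0 := by ring
      have h3 : (3 * K + 1) * t = 3 * K * t + t := by ring
      omega
    · have h1 : (q - 1) * t ≤ Q * t := Nat.mul_le_mul_right _ (by omega)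
      omega
  · -- numbers
    have hQK : (Q : ℝ≥0∞) ≤ 13 * K := by
      have : Q ≤ 13 * K := by omega
      exact_mod_cast this
    have n1 : (Q : ℝ≥0∞) * (u ^ 2 + 2 * (1 - u) ^ K) ≤ ε / 4 := by
      calc (Q : ℝ≥0∞) * (u ^ 2 + 2 * (1 - u) ^ K)
          ≤ (13 * K) * (2 * ((2 * u) ^ 2 + (1 - u / 2) ^ K)) := by
            refine mul_le_mul' hQK ?_
            rw [mul_add]
            refine add_le_add ?_ (mul_le_mul_right (pow_le_pow_left₀ zero_le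
              (tsub_le_tsub_left (ENNReal.half_le_self) 1) K) _)
            calc u ^ 2 = 1 * u ^ 2 := (one_mul _).symm
              _ ≤ 8 * u ^ 2 := mul_le_mul_left (by norm_num) _
              _ = 2 * (2 * u) ^ 2 := by ring
        _ = 26 * (K * ((2 * u) ^ 2 + (1 - u / 2) ^ K)) := by ring
        _ ≤ 26 * (ε / 4 / 26) := mul_le_mul_right hKu _
        _ = ε / 4 := ENNReal.mul_div_cancel (by norm_num) (by norm_num)
    have n2 : (Q : ℝ≥0∞) * (8 * e + 2 * (e * K)) ≤ ε / 4 := by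
      refine le_trans (le_of_eq ?_) hi0.le
      ring
    have n3 : (Q : ℝ≥0∞) * (2 * (((i0 : ℝ≥0∞) + 1) ^ 4 *
        (C * (lam + ((i0 + 1) / u) * us s / lam + us s)))) ≤ ε / 4 := by
      calc (Q : ℝ≥0∞) * (2 * (((i0 : ℝ≥0∞) + 1) ^ 4 *
        (C * (lam + ((i0 + 1) / u) * us s / lam + us s))))
          = D * lam + D * (((i0 : ℝ≥0∞) + 1) / u * us s / lam + us s) := by rw [hD]; ring
        _ ≤ ε / 8 + ε / 8 := add_le_add hlam hs.le
        _ = ε / 4 := by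
            rw [← two_mul, ← mul_div_assoc, show (8 : ℝ≥0∞) = 2 * 4 by norm_num,
              ENNReal.mul_div_mul_left _ _ (by norm_num) (by norm_num)]
    calc (Q : ℝ≥0∞) * (η + (8 * e + u ^ 2 + 2 * ((1 - u) ^ K + e * K) +
          2 * (((i0 : ℝ≥0∞) + 1) ^ 4 * (C * (lam + ((i0 + 1) / u) * us s / lam + us s)))))
        = Q * η + (Q * (u ^ 2 + 2 * (1 - u) ^ K) + (Q * (8 * e + 2 * (e * K)) +
          Q * (2 * (((i0 : ℝ≥0∞) + 1) ^ 4 *
            (C * (lam + ((i0 + 1) / u) * us s / lam + us s)))))) := by ring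
      _ ≤ ε / 4 + (ε / 4 + (ε / 4 + ε / 4)) := add_le_add hη (add_le_add n1 (add_le_add n2 n3))
      _ = ε := by
          rw [show ε / 4 + (ε / 4 + (ε / 4 + ε / 4)) = 4 * (ε / 4) by ring]
          exact ENNReal.mul_div_cancel (by norm_num) (by norm_num)

end Crest.Agent.R154.LP654
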