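import Crest.Agent.R154.B5Abs_566
import Crest.Agent.R154.Dens_616

/-! Row 154, ROAD 801 (helper269): first passage decomposition of lists of blocks (one alphabet). -/

set_option autoImplicit false

namespace Crest.Agent.R154.LP269

open scoped ENNReal
open Crest.Agent.R154.B5A

variable {B : Type*}

/-- first passage split at height `a` -/
def spl (ht : B → ℕ) : ℕ → List B → List B × List B
  | _, [] => ([], [])
  | 0, b :: L => ([], b :: L)
  | (a + 1), b :: L => (b :: (spl ht (a + 1 - ht b) L).1, (spl ht (a + 1 - ht b) L).2)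

/-- `T` is a first passage list of height `a` -/
def SP (ht : B → ℕ) : ℕ → List B → Prop
  | 0, [] => True
  | 0, _ :: _ => False
  | (_ + 1), [] => False
  | (a + 1), b :: L => SP ht (a + 1 - ht b) L

/-- total displacement -/
def Dp {G : Type*} [AddCommGroup G] (z : B → G) (L : List B) : G := (L.map z).sum

section

variable (ht : B → ℕ)

lemma Dp_append {G : Type*} [AddCommGroup G] (z : B → G) (L L' : List B) :
    Dp z (L ++ L') = Dp z L + Dp z L' := by simp [Dp]

lemma spl_append (a : ℕ) (L : List B) : (spl ht a L).1 ++ (spl ht a L).2 = L := by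
  induction L generalizing a with
  | nil => cases a <;> simp [spl]
  | cons b L ih =>
    cases a with
    | zero => simp [spl]
    | succ a => simp [spl, ih]

lemma SP_spl (a : ℕ) (L : List B) (h : a ≤ HT ht L) : SP ht a (spl ht a L).1 := by
  induction L generalizing a with
  | nil =>
    have : a = 0 := by simpa [HT] using h
    subst this; simp [spl, SP]
  | cons b L ih =>
    cases a with
    | zero => simp [spl, SP]
    | succ a =>
      simp only [spl, SP]
      apply ih
      rw [HT_cons] at h
      omega

lemma spl_of_SP (a : ℕ) (T R : List B) (h : SP ht a T) : spl ht a (T ++ R) = (T, R) := by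
  induction T generalizing a with
  | nil =>
    cases a with
    | zero => cases R <;> simp [spl]
    | succ a => simp [SP] at h
  | cons b T ih =>
    cases a with
    | zero => simp [SP] at h
    | succ a =>
      simp only [SP] at h
      simp [spl, ih _ h]

lemma SP_le_HT (a : ℕ) (T : List B) (h : SP ht a T) : a ≤ HT ht T := by
  induction T generalizing a with
  | nil =>
    cases a with
    | zero => simp
    | succ a => simp [SP] at h
  | cons b T ih =>
    cases a with
    | zero => simp
    | succ a =>
      simp only [SP] at h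
      have := ih _ h
      rw [HT_cons]; omega

lemma SP_split (a t : ℕ) (hta : t ≤ a) (T : List B) (h : SP ht a T) :
    SP ht t (spl ht t T).1 ∧ SP ht (a - HT ht (spl ht t T).1) (spl ht t T).2 := by
  induction T generalizing a t with
  | nil =>
    cases a with
    | zero =>
      have : t = 0 := by omega
      subst this; simp [spl, SP, HT]
    | succ a => simp [SP] at h
  | cons b T ih =>
    cases a with
    | zero => simp [SP] at h
    | succ a =>
      cases t with
      | zero => simpa [spl, SP, HT] using h
      | succ t =>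
        simp only [SP] at h
        have := ih (a + 1 - ht b) (t + 1 - ht b) (by omega) h
        simp only [spl, SP]
        refine ⟨this.1, ?_⟩
        rw [HT_cons, ← Nat.sub_sub]
        exact this.2

lemma SP_of_HT (h1 : ∀ b, 1 ≤ ht b) (L : List B) : SP ht (HT ht L) L := by
  induction L with
  | nil => simp [HT, SP]
  | cons b L ih =>
    rw [HT_cons]
    have := h1 b
    obtain ⟨k, hk⟩ : ∃ k, ht b + HT ht L = k + 1 := ⟨ht b + HT ht L - 1, by omega⟩
    rw [hk]
    simp only [SP]
    rw [← hk, Nat.add_sub_cancel_left]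
    exact ih

lemma SP_concat (a : ℕ) (T : List B) (b : B) (h : SP ht a (T ++ [b])) : HT ht T < a := by
  induction T generalizing a with
  | nil =>
    cases a with
    | zero => simp [SP] at h
    | succ a => simp [HT]
  | cons c T ih =>
    cases a with
    | zero => simp [SP] at h
    | succ a =>
      simp only [List.cons_append, SP] at h
      have := ih _ h
      rw [HT_cons]; omega

open Classical in
lemma tsum_split (a : ℕ) (F : List B → ℝ≥0∞) :
    ∑' L, (if a ≤ HT ht L then F L else 0)
      ≤ ∑' T, ∑' R, (if SP ht a T then F (T ++ R) else 0) := by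
  rw [← ENNReal.tsum_prod (f := fun T R => if SP ht a T then F (T ++ R) else 0)]
  have hinj : Function.Injective (spl ht a) := by
    intro L L' h
    rw [← spl_append ht a L, h, spl_append]
  refine le_trans ?_ (ENNReal.tsum_comp_le_tsum_of_injective hinj
    (fun p => if SP ht a p.1 then F (p.1 ++ p.2) else 0))
  refine ENNReal.tsum_le_tsum fun L => ?_
  by_cases h : a ≤ HT ht L
  · rw [if_pos h, if_pos (SP_spl ht a L h), spl_append]
  · simp [h]

open Classical in
lemma tsum_split_SP (a t : ℕ) (hta : t ≤ a) (F : List B → ℝ≥0∞) :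
    ∑' T, (if SP ht a T then F T else 0)
      ≤ ∑' A, ∑' R, (if SP ht t A ∧ SP ht (a - HT ht A) R then F (A ++ R) else 0) := by
  rw [← ENNReal.tsum_prod
    (f := fun A R => if SP ht t A ∧ SP ht (a - HT ht A) R then F (A ++ R) else 0)]
  have hinj : Function.Injective (spl ht t) := by
    intro L L' h
    rw [← spl_append ht t L, h, spl_append]
  refine le_trans ?_ (ENNReal.tsum_comp_le_tsum_of_injective hinj
    (fun p => if SP ht t p.1 ∧ SP ht (a - HT ht p.1) p.2 then F (p.1 ++ p.2) else 0))
  refine ENNReal.tsum_le_tsum fun L => ?_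
  by_cases h : SP ht a L
  · rw [if_pos h, if_pos (SP_split ht a t hta L h), spl_append]
  · simp [h]

end

section mass

variable (Λ : B → ℝ≥0∞) (ht : B → ℕ)

open Classical in
lemma SP_mass (h1 : ∀ b, 1 ≤ ht b) (hΛ : ∑' b, Λ b = 1) (a : ℕ) :
    ∑' T, (if SP ht a T then LW Λ T else 0) = 1 := by
  induction a using Nat.strong_induction_on with
  | _ a ih =>
    rw [tsum_list]
    cases a with
    | zero => simp [SP, LW_nil]
    | succ a =>
      have e0 : ¬ SP ht (a + 1) ([] : List B) := by simp [SP]
      rw [if_neg e0, zero_add]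
      calc ∑' b, ∑' L, (if SP ht (a + 1) (b :: L) then LW Λ (b :: L) else 0)
          = ∑' b, Λ b * 1 := by
            refine tsum_congr fun b => ?_
            rw [← ih (a + 1 - ht b) (by have := h1 b; omega), ← ENNReal.tsum_mul_left]
            refine tsum_congr fun L => ?_
            have e : SP ht (a + 1) (b :: L) = SP ht (a + 1 - ht b) L := by simp [SP]
            by_cases h : SP ht (a + 1 - ht b) L
            · rw [if_pos (e ▸ h), if_pos h, LW_cons]
            · rw [if_neg (e ▸ h), if_neg h, mul_zero]
        _ = 1 := by simp [hΛ]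

open Classical in
lemma U_le_one (h1 : ∀ b, 1 ≤ ht b) (hΛ : ∑' b, Λ b = 1) (n : ℕ) : U Λ ht n ≤ 1 := by
  rw [← SP_mass Λ ht h1 hΛ n, U]
  refine ENNReal.tsum_le_tsum fun L => ?_
  by_cases h : HT ht L = n
  · rw [if_pos h, if_pos (h ▸ SP_of_HT ht h1 L)]
  · simp [h]

lemma tsum_concat (F : List B → ℝ≥0∞) : ∑' L, F L = F [] + ∑' b, ∑' L, F (L ++ [b]) := by
  have h1 : ∑' L, F L = ∑' L : List B, F L.reverse :=
    ((Equiv.mk List.reverse List.reverse List.reverse_reverse List.reverse_reverse).tsum_eq F).symm
  rw [h1, tsum_list]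
  simp only [List.reverse_nil, List.reverse_cons]
  congr 1
  refine tsum_congr fun b => ?_
  exact ((Equiv.mk List.reverse List.reverse List.reverse_reverse
    List.reverse_reverse).tsum_eq (fun L => F (L ++ [b])))

open Classical in
lemma overshoot (h1 : ∀ b, 1 ≤ ht b) (hΛ : ∑' b, Λ b = 1) (a r : ℕ) :
    ∑' T, (if SP ht a T ∧ a + r < HT ht T then LW Λ T else 0) ≤ ∑' j, tail Λ ht (j + r) := by
  rw [tsum_concat]
  have h0 : (if SP ht a ([] : List B) ∧ a + r < HT ht ([] : List B) then LW Λ [] else 0) = 0 := by
    rw [if_neg]; rintro ⟨_, h⟩; simp [HT] at h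
  rw [h0, zero_add, ENNReal.tsum_comm]
  calc ∑' T, ∑' b, (if SP ht a (T ++ [b]) ∧ a + r < HT ht (T ++ [b]) then LW Λ (T ++ [b]) else 0)
      ≤ ∑' T, ∑ k ∈ Finset.range a,
          (if HT ht T = k then LW Λ T else 0) * tail Λ ht (a + r - k) := by
        refine ENNReal.tsum_le_tsum fun T => ?_
        by_cases hT : HT ht T < a
        · refine le_trans ?_ (Finset.single_le_sum (f := fun k =>
            (if HT ht T = k then LW Λ T else 0) * tail Λ ht (a + r - k))
            (fun _ _ => by positivity) (Finset.mem_range.2 hT))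
          simp only [if_true]
          rw [tail, ← ENNReal.tsum_mul_left]
          refine ENNReal.tsum_le_tsum fun b => ?_
          by_cases h : SP ht a (T ++ [b]) ∧ a + r < HT ht (T ++ [b])
          · have hh := h.2
            rw [HT_append, HT_cons, HT_nil, add_zero] at hh
            rw [if_pos h, if_pos (by omega), LW_append, LW_cons, LW_nil, mul_one]
          · simp [h]
        · have : ∀ b, (if SP ht a (T ++ [b]) ∧ a + r < HT ht (T ++ [b])
              then LW Λ (T ++ [b]) else 0) = 0 := by
            intro b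
            rw [if_neg]
            rintro ⟨h, _⟩
            exact hT (SP_concat ht a T b h)
          simp [this]
    _ = ∑ k ∈ Finset.range a, U Λ ht k * tail Λ ht (a + r - k) := by
        rw [Summable.tsum_finsetSum (fun _ _ => ENNReal.summable)]
        refine Finset.sum_congr rfl fun k _ => ?_
        rw [ENNReal.tsum_mul_right]
        rfl
    _ ≤ ∑ k ∈ Finset.range a, tail Λ ht (a + r - k) := by
        refine Finset.sum_le_sum fun k _ => ?_
        calc _ ≤ 1 * tail Λ ht (a + r - k) := by gcongr; exact U_le_one Λ ht h1 hΛ k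
          _ = _ := one_mul _
    _ = ∑ j ∈ Finset.range a, tail Λ ht (j + 1 + r) := by
        rw [← Finset.sum_range_reflect]
        refine Finset.sum_congr rfl fun k hk => ?_
        have := Finset.mem_range.1 hk
        congr 1; omega
    _ ≤ ∑' j, tail Λ ht (j + 1 + r) := ENNReal.sum_le_tsum _
    _ ≤ ∑' j, tail Λ ht (j + r) := by
        have := ENNReal.tsum_comp_le_tsum_of_injective (f := fun j : ℕ => j + 1)
          (fun x y h => by simpa using h) (fun j => tail Λ ht (j + r))
        simpa using this

end mass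

section attempt

variable {G : Type*} [AddCommGroup G]
variable (Λ : B → ℝ≥0∞) (ht : B → ℕ) (zz : B → G)

open Classical in
/-- law of one attempt -/
noncomputable def pr (t : ℕ) (x : ℕ × G) : ℝ≥0∞ :=
  ∑' T, if SP ht t T ∧ HT ht T = x.1 ∧ Dp zz T = x.2 then LW Λ T else 0

open Classical in
lemma pr_push (t : ℕ) (Q : ℕ × G → Prop) :
    ∑' T, (if SP ht t T ∧ Q (HT ht T, Dp zz T) then LW Λ T else 0)
      = ∑' x, (if Q x then pr Λ ht zz t x else 0) := by
  have h1 : ∀ x : ℕ × G, (if Q x then pr Λ ht zz t x else 0)
      = ∑' T, (if SP ht t T ∧ Q (HT ht T, Dp zz T) ∧ (HT ht T, Dp zz T) = x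
          then LW Λ T else 0) := by
    intro x
    by_cases hx : Q x
    · rw [if_pos hx, pr]
      refine tsum_congr fun T => ?_
      by_cases h : HT ht T = x.1 ∧ Dp zz T = x.2
      · have h' : (HT ht T, Dp zz T) = x := Prod.ext h.1 h.2
        rw [h']
        simp [h.1, h.2, hx]
      · have h' : ¬ (HT ht T, Dp zz T) = x := fun e => h ⟨congrArg Prod.fst e, congrArg Prod.snd e⟩
        rw [if_neg (fun e => h e.2), if_neg (fun e => h' e.2.2)]
    · rw [if_neg hx]
      symm
      rw [ENNReal.tsum_eq_zero]
      intro T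
      rw [if_neg]
      rintro ⟨_, h2, h3⟩
      exact hx (h3 ▸ h2)
  rw [tsum_congr h1, ENNReal.tsum_comm]
  refine tsum_congr fun T => ?_
  rw [tsum_eq_single (HT ht T, Dp zz T)]
  · simp
  · intro x hx
    rw [if_neg]
    rintro ⟨_, _, h3⟩
    exact hx h3.symm

lemma pr_sum (h1 : ∀ b, 1 ≤ ht b) (hΛ : ∑' b, Λ b = 1) (t : ℕ) :
    ∑' x, pr Λ ht zz t x = 1 := by
  classical
  have := pr_push Λ ht zz t (fun _ => True)
  simp only [and_true, if_true] at this
  rw [← this, SP_mass Λ ht h1 hΛ t]

/-- `T` contains a special attempt among the first `N` -/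
def Spc (t i0 : ℕ) (th : ℝ≥0∞) : ℕ → List B → Prop
  | 0, _ => False
  | (N + 1), T => HT ht (spl ht t T).1 ≤ t + i0 ∧
      (pr Λ ht zz t (HT ht (spl ht t T).1, Dp zz (spl ht t T).1) ≤ th
        ∨ Spc t i0 th N (spl ht t T).2)

open Classical in
lemma dens (h1 : ∀ b, 1 ≤ ht b) (hΛ : ∑' b, Λ b = 1) (t i0 : ℕ) (th : ℝ≥0∞) (N : ℕ) :
    ∀ a, N * (t + i0) ≤ a → ∀ h z,
    ∑' T, (if SP ht a T ∧ HT ht T = h ∧ Dp zz T = z ∧ Spc Λ ht zz t i0 th N T
      then LW Λ T else 0) ≤ N * ((i0 + 1 : ℕ) * th) := by
  induction N with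
  | zero => intro a _ h z; simp [Spc]
  | succ N ih =>
    intro a ha h z
    have hta : t ≤ a := by
      have : (N + 1) * (t + i0) = N * (t + i0) + t + i0 := by ring
      have h0 := Nat.zero_le (N * (t + i0))
      omega
    have hNa : ∀ k, k ≤ t + i0 → N * (t + i0) ≤ a - k := by
      intro k hk
      have : (N + 1) * (t + i0) = N * (t + i0) + (t + i0) := by ring
      omega
    have key := tsum_split_SP ht a t hta
      (fun T => if HT ht T = h ∧ Dp zz T = z ∧ Spc Λ ht zz t i0 th (N + 1) T then LW Λ T else 0)
    refine le_trans (le_of_eq ?_) (key.trans ?_)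
    · refine tsum_congr fun T => ?_
      by_cases hT : SP ht a T <;> simp [hT]
    have hb : ∀ A R, (if SP ht t A ∧ SP ht (a - HT ht A) R then
        (if HT ht (A ++ R) = h ∧ Dp zz (A ++ R) = z ∧ Spc Λ ht zz t i0 th (N + 1) (A ++ R)
          then LW Λ (A ++ R) else 0) else 0)
        ≤ (∑ i ∈ Finset.range (i0 + 1), (if SP ht (a - (t + i)) R then LW Λ R else 0) *
            (if SP ht t A ∧ HT ht A = t + i ∧ Dp zz A = z - Dp zz R ∧
              pr Λ ht zz t (t + i, z - Dp zz R) ≤ th then LW Λ A else 0))
          + (if SP ht t A then LW Λ A else 0) *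
            (if HT ht A ≤ t + i0 then (if SP ht (a - HT ht A) R ∧ HT ht R = h - HT ht A ∧
              Dp zz R = z - Dp zz A ∧ Spc Λ ht zz t i0 th N R then LW Λ R else 0) else 0) := by
      intro A R
      by_cases hAR : SP ht t A ∧ SP ht (a - HT ht A) R
      swap
      · rw [if_neg hAR]; positivity
      rw [if_pos hAR]
      by_cases hc : HT ht (A ++ R) = h ∧ Dp zz (A ++ R) = z ∧ Spc Λ ht zz t i0 th (N + 1) (A ++ R)
      swap
      · rw [if_neg hc]; positivity
      rw [if_pos hc]
      obtain ⟨hc1, hc2, hc3⟩ := hc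
      rw [HT_append] at hc1
      rw [Dp_append] at hc2
      simp only [Spc, spl_of_SP ht t A R hAR.1] at hc3
      obtain ⟨h3, h4⟩ := hc3
      have hle := SP_le_HT ht t A hAR.1
      rcases h4 with h4 | h4
      · refine le_trans ?_ le_self_add
        refine le_trans ?_ (Finset.single_le_sum (f := fun i =>
          (if SP ht (a - (t + i)) R then LW Λ R else 0) *
            (if SP ht t A ∧ HT ht A = t + i ∧ Dp zz A = z - Dp zz R ∧
              pr Λ ht zz t (t + i, z - Dp zz R) ≤ th then LW Λ A else 0))
          (fun _ _ => by positivity) (Finset.mem_range.2 (show HT ht A - t < i0 + 1 by omega)))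
        have e1 : t + (HT ht A - t) = HT ht A := by omega
        have e2 : Dp zz A = z - Dp zz R := by rw [← hc2]; abel
        rw [e1, if_pos hAR.2, if_pos ⟨hAR.1, rfl, e2, by rw [← e2]; exact h4⟩, LW_append, mul_comm]
      · refine le_trans ?_ le_add_self
        have e2 : Dp zz R = z - Dp zz A := by rw [← hc2]; abel
        rw [if_pos hAR.1, if_pos h3, if_pos ⟨hAR.2, by omega, e2, h4⟩, LW_append]
    refine le_trans (ENNReal.tsum_le_tsum fun A => ENNReal.tsum_le_tsum fun R => hb A R) ?_
    have hsplit : ∀ (f g : List B → List B → ℝ≥0∞), ∑' A, ∑' R, (f A R + g A R)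
        = ∑' A, ∑' R, f A R + ∑' A, ∑' R, g A R := by
      intro f g
      rw [← ENNReal.tsum_add]
      exact tsum_congr fun A => ENNReal.tsum_add
    rw [hsplit]
    have hI1 : ∑' A, ∑' R, (∑ i ∈ Finset.range (i0 + 1),
          (if SP ht (a - (t + i)) R then LW Λ R else 0) *
            (if SP ht t A ∧ HT ht A = t + i ∧ Dp zz A = z - Dp zz R ∧
              pr Λ ht zz t (t + i, z - Dp zz R) ≤ th then LW Λ A else 0))
        ≤ (i0 + 1 : ℕ) * th := by
      rw [ENNReal.tsum_comm]
      have e : ∀ R, ∑' A, (∑ i ∈ Finset.range (i0 + 1),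
          (if SP ht (a - (t + i)) R then LW Λ R else 0) *
            (if SP ht t A ∧ HT ht A = t + i ∧ Dp zz A = z - Dp zz R ∧
              pr Λ ht zz t (t + i, z - Dp zz R) ≤ th then LW Λ A else 0))
          = ∑ i ∈ Finset.range (i0 + 1), (if SP ht (a - (t + i)) R then LW Λ R else 0) *
            ∑' A, (if SP ht t A ∧ HT ht A = t + i ∧ Dp zz A = z - Dp zz R ∧
              pr Λ ht zz t (t + i, z - Dp zz R) ≤ th then LW Λ A else 0) := by
        intro R
        rw [Summable.tsum_finsetSum (fun _ _ => ENNReal.summable)]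
        exact Finset.sum_congr rfl fun i _ => ENNReal.tsum_mul_left
      rw [tsum_congr e, Summable.tsum_finsetSum (fun _ _ => ENNReal.summable)]
      calc _ ≤ ∑ i ∈ Finset.range (i0 + 1), th := by
            refine Finset.sum_le_sum fun i _ => ?_
            calc _ ≤ ∑' R, (if SP ht (a - (t + i)) R then LW Λ R else 0) * th := by
                  refine ENNReal.tsum_le_tsum fun R => ?_
                  gcongr
                  by_cases hp : pr Λ ht zz t (t + i, z - Dp zz R) ≤ th
                  · refine le_trans (le_of_eq ?_) hp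
                    have hpr : pr Λ ht zz t (t + i, z - Dp zz R) = ∑' A, if SP ht t A ∧
                      HT ht A = t + i ∧ Dp zz A = z - Dp zz R then LW Λ A else 0 := rfl
                    simp only [hp, and_true]
                    exact hpr.symm
                  · simp [hp]
              _ = 1 * th := by rw [ENNReal.tsum_mul_right, SP_mass Λ ht h1 hΛ]
              _ = th := one_mul _
        _ = (i0 + 1 : ℕ) * th := by simp
    have hI2 : ∑' A, ∑' R, ((if SP ht t A then LW Λ A else 0) *
            (if HT ht A ≤ t + i0 then (if SP ht (a - HT ht A) R ∧ HT ht R = h - HT ht A ∧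
              Dp zz R = z - Dp zz A ∧ Spc Λ ht zz t i0 th N R then LW Λ R else 0) else 0))
        ≤ N * ((i0 + 1 : ℕ) * th) := by
      calc _ ≤ ∑' A, (if SP ht t A then LW Λ A else 0) * (N * ((i0 + 1 : ℕ) * th)) := by
            refine ENNReal.tsum_le_tsum fun A => ?_
            rw [ENNReal.tsum_mul_left]
            gcongr
            by_cases hA : HT ht A ≤ t + i0
            · simp only [hA, if_true]
              exact ih (a - HT ht A) (hNa _ hA) (h - HT ht A) (z - Dp zz A)
            · simp [hA]
        _ = 1 * (N * ((i0 + 1 : ℕ) * th)) := by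
            rw [ENNReal.tsum_mul_right, SP_mass Λ ht h1 hΛ]
        _ = _ := one_mul _
    calc _ ≤ (i0 + 1 : ℕ) * th + N * ((i0 + 1 : ℕ) * th) := add_le_add hI1 hI2
      _ = ((N + 1 : ℕ) : ℝ≥0∞) * ((i0 + 1 : ℕ) * th) := by push_cast; ring

open Classical in
lemma nospec (h1 : ∀ b, 1 ≤ ht b) (hΛ : ∑' b, Λ b = 1) (t i0 : ℕ) (th q ov : ℝ≥0∞)
    (hq : ∑' x, (if ¬ pr Λ ht zz t x ≤ th then pr Λ ht zz t x else 0) ≤ q) (hq1 : q ≤ 1)
    (hov : ∑' T, (if SP ht t T ∧ t + i0 < HT ht T then LW Λ T else 0) ≤ ov) (N : ℕ) :
    ∀ a, N * (t + i0) ≤ a →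
    ∑' T, (if SP ht a T ∧ ¬ Spc Λ ht zz t i0 th N T then LW Λ T else 0) ≤ q ^ N + N * ov := by
  induction N with
  | zero =>
    intro a _
    simp only [Spc, not_false_eq_true, and_true, pow_zero, Nat.cast_zero, zero_mul, add_zero]
    exact le_of_eq (SP_mass Λ ht h1 hΛ a)
  | succ N ih =>
    intro a ha
    have hta : t ≤ a := by
      have : (N + 1) * (t + i0) = N * (t + i0) + t + i0 := by ring
      have h0 := Nat.zero_le (N * (t + i0))
      omega
    have hNa : ∀ k, k ≤ t + i0 → N * (t + i0) ≤ a - k := by
      intro k hk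
      have : (N + 1) * (t + i0) = N * (t + i0) + (t + i0) := by ring
      omega
    have key := tsum_split_SP ht a t hta
      (fun T => if ¬ Spc Λ ht zz t i0 th (N + 1) T then LW Λ T else 0)
    refine le_trans (le_of_eq ?_) (key.trans ?_)
    · refine tsum_congr fun T => ?_
      by_cases hT : SP ht a T <;> simp [hT]
    have hb : ∀ A, ∑' R, (if SP ht t A ∧ SP ht (a - HT ht A) R then
        (if ¬ Spc Λ ht zz t i0 th (N + 1) (A ++ R) then LW Λ (A ++ R) else 0) else 0)
        ≤ (if SP ht t A ∧ t + i0 < HT ht A then LW Λ A else 0)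
          + (if SP ht t A ∧ ¬ pr Λ ht zz t (HT ht A, Dp zz A) ≤ th then LW Λ A else 0)
            * (q ^ N + N * ov) := by
      intro A
      by_cases hA : SP ht t A
      swap
      · simp [hA]
      by_cases hH : t + i0 < HT ht A
      · refine le_trans ?_ le_self_add
        rw [if_pos ⟨hA, hH⟩]
        calc _ ≤ ∑' R, LW Λ A * (if SP ht (a - HT ht A) R then LW Λ R else 0) := by
              refine ENNReal.tsum_le_tsum fun R => ?_
              by_cases hR : SP ht (a - HT ht A) R
              · rw [if_pos ⟨hA, hR⟩, if_pos hR, LW_append]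
                by_cases hs : Spc Λ ht zz t i0 th (N + 1) (A ++ R)
                · rw [if_neg (not_not.2 hs)]; positivity
                · rw [if_pos hs]
              · simp [hR]
          _ = LW Λ A := by rw [ENNReal.tsum_mul_left, SP_mass Λ ht h1 hΛ, mul_one]
      · refine le_trans ?_ le_add_self
        by_cases hp : pr Λ ht zz t (HT ht A, Dp zz A) ≤ th
        · have : ∀ R, (if SP ht t A ∧ SP ht (a - HT ht A) R then
              (if ¬ Spc Λ ht zz t i0 th (N + 1) (A ++ R) then LW Λ (A ++ R) else 0) else 0) = 0 := by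
            intro R
            by_cases hR : SP ht (a - HT ht A) R
            · have hs : Spc Λ ht zz t i0 th (N + 1) (A ++ R) := by
                simp only [Spc, spl_of_SP ht t A R hA]
                exact ⟨by omega, Or.inl hp⟩
              simp [hs]
            · simp [hR]
          rw [tsum_congr this, tsum_zero]; positivity
        · rw [if_pos (show SP ht t A ∧ ¬ pr Λ ht zz t (HT ht A, Dp zz A) ≤ th from ⟨hA, hp⟩)]
          calc _ ≤ ∑' R, LW Λ A * (if SP ht (a - HT ht A) R ∧ ¬ Spc Λ ht zz t i0 th N R
                then LW Λ R else 0) := by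
                refine ENNReal.tsum_le_tsum fun R => ?_
                by_cases hR : SP ht (a - HT ht A) R
                swap
                · simp [hR]
                rw [if_pos ⟨hA, hR⟩]
                by_cases hs : Spc Λ ht zz t i0 th N R
                · have hs' : Spc Λ ht zz t i0 th (N + 1) (A ++ R) := by
                    simp only [Spc, spl_of_SP ht t A R hA]
                    exact ⟨by omega, Or.inr hs⟩
                  simp [hs']
                · rw [if_pos (show SP ht (a - HT ht A) R ∧ ¬ Spc Λ ht zz t i0 th N R from ⟨hR, hs⟩),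
                    LW_append]
                  by_cases hs' : Spc Λ ht zz t i0 th (N + 1) (A ++ R)
                  · rw [if_neg (not_not.2 hs')]; positivity
                  · rw [if_pos hs']
            _ ≤ LW Λ A * (q ^ N + N * ov) := by
                rw [ENNReal.tsum_mul_left]
                gcongr
                exact ih _ (hNa _ (by omega))
    refine le_trans (ENNReal.tsum_le_tsum hb) ?_
    have e : ∑' T, (if SP ht t T ∧ ¬ pr Λ ht zz t (HT ht T, Dp zz T) ≤ th then LW Λ T else 0)
        = ∑' x, (if ¬ pr Λ ht zz t x ≤ th then pr Λ ht zz t x else 0) := by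
      convert pr_push Λ ht zz t (fun x => ¬ pr Λ ht zz t x ≤ th)
    rw [ENNReal.tsum_add, ENNReal.tsum_mul_right, e]
    calc _ ≤ ov + q * (q ^ N + N * ov) := by gcongr
      _ = q ^ (N + 1) + (ov + q * (N * ov)) := by ring
      _ ≤ q ^ (N + 1) + (ov + 1 * (N * ov)) := by gcongr
      _ = q ^ (N + 1) + ((N + 1 : ℕ) : ℝ≥0∞) * ov := by push_cast; ring

end attempt

end Crest.Agent.R154.LP269
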