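import Crest.Agent.R154.B5Rec_566

/-! Row 154, ROAD 801, list machine (helper654), part 1: first passage sums over lists of blocks. -/

set_option autoImplicit false

namespace Crest.Agent.R154.LP654

open Crest.Agent.R154.B5A
open scoped ENNReal
open Classical

variable {B G : Type*} [AddCommGroup G]

/-- first passage of `a` -/
def FP (h : B → ℕ) : ℕ → List B → Prop
  | a, [] => a = 0
  | a, b :: L => 0 < a ∧ FP h (a - h b) L

/-- sum over the first passage lists of `a` -/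
noncomputable def S (Λ : B → ℝ≥0∞) (h : B → ℕ) (a : ℕ) (f : List B → ℝ≥0∞) : ℝ≥0∞ :=
  ∑' L, if FP h a L then LW Λ L * f L else 0

/-- sum over the lists of height `n` -/
noncomputable def Cn (Λ : B → ℝ≥0∞) (h : B → ℕ) (n : ℕ) (f : List B → ℝ≥0∞) : ℝ≥0∞ :=
  ∑' L, if HT h L = n then LW Λ L * f L else 0

variable (Λ : B → ℝ≥0∞) (h : B → ℕ)

lemma S_zero (f : List B → ℝ≥0∞) : S Λ h 0 f = f [] := by
  rw [S, tsum_list]
  have : ∀ b (L : List B), ¬ FP h 0 (b :: L) := fun b L hh => by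
    simp only [FP] at hh; omega
  simp [this, FP, LW_nil]

lemma S_pos {a : ℕ} (ha : 0 < a) (f : List B → ℝ≥0∞) :
    S Λ h a f = ∑' b, Λ b * S Λ h (a - h b) (fun L => f (b :: L)) := by
  rw [S, tsum_list]
  have h0 : ¬ FP h a [] := by simp only [FP]; omega
  rw [if_neg h0, zero_add]
  refine tsum_congr fun b => ?_
  rw [S, ← ENNReal.tsum_mul_left]
  refine tsum_congr fun L => ?_
  by_cases hL : FP h (a - h b) L
  · have : FP h a (b :: L) := ⟨ha, hL⟩
    rw [if_pos this, if_pos hL, LW_cons, mul_assoc]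
  · have : ¬ FP h a (b :: L) := fun hh => hL hh.2
    rw [if_neg this, if_neg hL, mul_zero]

lemma S_mono (a : ℕ) {f g : List B → ℝ≥0∞} (hfg : ∀ L, FP h a L → f L ≤ g L) :
    S Λ h a f ≤ S Λ h a g := by
  refine ENNReal.tsum_le_tsum fun L => ?_
  by_cases hL : FP h a L
  · rw [if_pos hL, if_pos hL]; exact mul_le_mul_right (hfg L hL) _
  · rw [if_neg hL, if_neg hL]

lemma S_congr (a : ℕ) {f g : List B → ℝ≥0∞} (hfg : ∀ L, FP h a L → f L = g L) :
    S Λ h a f = S Λ h a g :=
  le_antisymm (S_mono Λ h a fun L hL => (hfg L hL).le) (S_mono Λ h a fun L hL => (hfg L hL).ge)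

lemma S_add (a : ℕ) (f g : List B → ℝ≥0∞) :
    S Λ h a (fun L => f L + g L) = S Λ h a f + S Λ h a g := by
  rw [S, S, S, ← ENNReal.tsum_add]
  refine tsum_congr fun L => ?_
  by_cases hL : FP h a L
  · simp [hL, mul_add]
  · simp [hL]

lemma S_mul_left (a : ℕ) (c : ℝ≥0∞) (f : List B → ℝ≥0∞) :
    S Λ h a (fun L => c * f L) = c * S Λ h a f := by
  rw [S, S, ← ENNReal.tsum_mul_left]
  refine tsum_congr fun L => ?_
  by_cases hL : FP h a L
  · simp [hL, mul_left_comm]
  · simp [hL]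

lemma S_mul_right (a : ℕ) (c : ℝ≥0∞) (f : List B → ℝ≥0∞) :
    S Λ h a (fun L => f L * c) = S Λ h a f * c := by
  rw [mul_comm, ← S_mul_left]
  refine S_congr Λ h a fun L _ => mul_comm _ _

lemma S_tsum {ι : Type*} (a : ℕ) (f : ι → List B → ℝ≥0∞) :
    S Λ h a (fun L => ∑' i, f i L) = ∑' i, S Λ h a (f i) := by
  simp only [S]
  rw [ENNReal.tsum_comm]
  refine tsum_congr fun L => ?_
  by_cases hL : FP h a L
  · simp [hL, ENNReal.tsum_mul_left]
  · simp [hL]

lemma FP_le : ∀ (a : ℕ) (L : List B), FP h a L → a ≤ HT h L := by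
  intro a L
  induction L generalizing a with
  | nil => intro hh; simp only [FP] at hh; omega
  | cons b L ih =>
    intro hh
    have := ih _ hh.2
    rw [HT_cons]; omega

variable (h1 : ∀ b, 1 ≤ h b)
include h1

lemma S_one (hΛ : ∑' b, Λ b = 1) (a : ℕ) : S Λ h a (fun _ => 1) = 1 := by
  induction a using Nat.strong_induction_on with
  | _ a ih =>
    rcases Nat.eq_zero_or_pos a with rfl | ha
    · rw [S_zero]
    · rw [S_pos Λ h ha]
      have : ∀ b, S Λ h (a - h b) (fun _ => 1) = 1 := fun b => ih _ (by have := h1 b; omega)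
      simp_rw [this, mul_one]
      exact hΛ

lemma S_le_one (hΛ : ∑' b, Λ b = 1) (a : ℕ) {f : List B → ℝ≥0∞} (hf : ∀ L, f L ≤ 1) :
    S Λ h a f ≤ 1 :=
  (S_mono Λ h a fun L _ => hf L).trans (S_one Λ h h1 hΛ a).le

lemma S_const (hΛ : ∑' b, Λ b = 1) (a : ℕ) (c : ℝ≥0∞) : S Λ h a (fun _ => c) = c := by
  have := S_mul_left Λ h a c (fun _ => 1)
  rw [S_one Λ h h1 hΛ] at this
  simpa using this

/-- first passage of `T`, then of the rest -/
lemma S_split (T : ℕ) : ∀ (a : ℕ) (_ : T ≤ a) (f : List B → ℝ≥0∞),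
    S Λ h a f = S Λ h T (fun L1 => S Λ h (a - HT h L1) (fun L2 => f (L1 ++ L2))) := by
  induction T using Nat.strong_induction_on with
  | _ T ih =>
    intro a hTa f
    rcases Nat.eq_zero_or_pos T with rfl | hT
    · rw [S_zero]; simp [HT_nil]
    · rw [S_pos Λ h (by omega), S_pos Λ h hT]
      refine tsum_congr fun b => ?_
      congr 1
      have hb := h1 b
      rw [ih (T - h b) (by omega) (a - h b) (by omega)]
      refine S_congr Λ h _ fun L1 _ => ?_
      rw [HT_cons, Nat.sub_sub]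
      rfl

lemma Cn_zero (f : List B → ℝ≥0∞) : Cn Λ h 0 f = f [] := by
  rw [Cn, tsum_list]
  have : ∀ b (L : List B), ¬ (HT h (b :: L) = 0) := fun b L => by
    rw [HT_cons]; have := h1 b; omega
  simp [this, HT_nil, LW_nil]

lemma Cn_pos {n : ℕ} (hn : 0 < n) (f : List B → ℝ≥0∞) :
    Cn Λ h n f = ∑' b, Λ b * (if h b ≤ n then Cn Λ h (n - h b) (fun L => f (b :: L)) else 0) := by
  rw [Cn, tsum_list]
  rw [if_neg (by rw [HT_nil]; omega), zero_add]
  refine tsum_congr fun b => ?_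
  by_cases hb : h b ≤ n
  · rw [if_pos hb, Cn, ← ENNReal.tsum_mul_left]
    refine tsum_congr fun L => ?_
    by_cases hL : HT h L = n - h b
    · rw [if_pos hL, if_pos (by rw [HT_cons]; omega), LW_cons, mul_assoc]
    · rw [if_neg hL, if_neg (by rw [HT_cons]; omega), mul_zero]
  · rw [if_neg hb, mul_zero]
    have : ∀ L : List B, ¬ (HT h (b :: L) = n) := fun L => by rw [HT_cons]; omega
    simp [this]

/-- split of a crossing at the first passage of `a` -/
lemma Cn_split (a : ℕ) : ∀ (n : ℕ) (_ : a ≤ n) (f : List B → ℝ≥0∞),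
    Cn Λ h n f = S Λ h a (fun L1 => if HT h L1 ≤ n then
      Cn Λ h (n - HT h L1) (fun L2 => f (L1 ++ L2)) else 0) := by
  induction a using Nat.strong_induction_on with
  | _ a ih =>
    intro n han f
    rcases Nat.eq_zero_or_pos a with rfl | ha
    · rw [S_zero]; simp [HT_nil]
    · rw [S_pos Λ h ha, Cn_pos Λ h h1 (by omega)]
      refine tsum_congr fun b => ?_
      congr 1
      have hb := h1 b
      by_cases hbn : h b ≤ n
      · rw [if_pos hbn, ih (a - h b) (by omega) (n - h b) (by omega)]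
        refine S_congr Λ h _ fun L1 _ => ?_
        rw [HT_cons]
        by_cases hL : HT h L1 ≤ n - h b
        · rw [if_pos hL, if_pos (by omega), Nat.sub_sub]; rfl
        · rw [if_neg hL, if_neg (by omega)]
      · rw [if_neg hbn]
        symm
        rw [← le_zero_iff]
        refine (S_mono Λ h _ (g := fun _ => 0) fun L1 _ => ?_).trans ?_
        · rw [if_neg (by rw [HT_cons]; omega)]
        · simp [S]

omit h1 in
lemma Cn_mono (n : ℕ) {f g : List B → ℝ≥0∞} (hfg : ∀ L, HT h L = n → f L ≤ g L) :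
    Cn Λ h n f ≤ Cn Λ h n g := by
  refine ENNReal.tsum_le_tsum fun L => ?_
  by_cases hL : HT h L = n
  · rw [if_pos hL, if_pos hL]; exact mul_le_mul_right (hfg L hL) _
  · rw [if_neg hL, if_neg hL]

omit h1 in
lemma Cn_const_le (hU1 : ∀ n, U Λ h n ≤ 1) (n : ℕ) {f : List B → ℝ≥0∞} (c : ℝ≥0∞)
    (hf : ∀ L, f L ≤ c) : Cn Λ h n f ≤ c := by
  calc Cn Λ h n f ≤ c * U Λ h n := by
        rw [U, ← ENNReal.tsum_mul_left]
        refine ENNReal.tsum_le_tsum fun L => ?_
        by_cases hL : HT h L = n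
        · rw [if_pos hL, if_pos hL, mul_comm]; exact mul_le_mul_left (hf L) _
        · rw [if_neg hL, if_neg hL, mul_zero]
    _ ≤ c * 1 := mul_le_mul_right (hU1 n) _
    _ = c := mul_one _

omit h1 in
lemma Cn_le_aux (hU1 : ∀ n, U Λ h n ≤ 1) (n : ℕ) {f : List B → ℝ≥0∞} (c : ℝ≥0∞)
    (hf : ∀ L, HT h L = n → f L ≤ c) : Cn Λ h n f ≤ c := by
  calc Cn Λ h n f ≤ c * U Λ h n := by
        rw [U, ← ENNReal.tsum_mul_left]
        refine ENNReal.tsum_le_tsum fun L => ?_
        by_cases hL : HT h L = n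
        · rw [if_pos hL, if_pos hL, mul_comm]; exact mul_le_mul_left (hf L hL) _
        · rw [if_neg hL, if_neg hL, mul_zero]
    _ ≤ c * 1 := mul_le_mul_right (hU1 n) _
    _ = c := mul_one _

/-- overshoot -/
noncomputable def ov (a i0 : ℕ) : ℝ≥0∞ := S Λ h a (fun L => if a + i0 < HT h L then 1 else 0)

/-- two first passages of one walker -/
lemma one_walk (hΛ : ∑' b, Λ b = 1) (hU1 : ∀ n, U Λ h n ≤ 1) (a T i0 n : ℕ)
    (hn : a + i0 + T + i0 ≤ n) (f : List B → ℝ≥0∞) (hf : ∀ L, f L ≤ 1)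
    (g : List B → List B → ℝ≥0∞)
    (hg : ∀ L1 L2 L3, FP h a L1 → FP h T L2 → HT h L1 ≤ a + i0 → HT h L2 ≤ T + i0 →
      HT h (L1 ++ (L2 ++ L3)) = n → f (L1 ++ (L2 ++ L3)) ≤ g L1 L2) :
    Cn Λ h n f ≤ ov Λ h a i0 + ov Λ h T i0 +
      S Λ h a (fun L1 => S Λ h T (fun L2 =>
        if HT h L1 ≤ a + i0 ∧ HT h L2 ≤ T + i0 then g L1 L2 else 0)) := by
  rw [Cn_split Λ h h1 a n (by omega)]
  have key : ∀ L1, FP h a L1 → (if HT h L1 ≤ n then
      Cn Λ h (n - HT h L1) (fun L2 => f (L1 ++ L2)) else 0) ≤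
      (if a + i0 < HT h L1 then 1 else 0) + (ov Λ h T i0 + S Λ h T (fun L2 =>
        if HT h L1 ≤ a + i0 ∧ HT h L2 ≤ T + i0 then g L1 L2 else 0)) := by
    intro L1 hL1
    by_cases ho : a + i0 < HT h L1
    · rw [if_pos ho]
      refine le_trans ?_ le_self_add
      split_ifs
      · exact Cn_const_le Λ h hU1 _ 1 fun L => hf _
      · exact zero_le
    · rw [if_neg ho, zero_add, if_pos (by omega), Cn_split Λ h h1 T (n - HT h L1) (by omega),
        ov, ← S_add]
      refine S_mono Λ h T fun L2 hL2 => ?_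
      by_cases ho2 : T + i0 < HT h L2
      · rw [if_pos ho2]
        refine le_trans ?_ le_self_add
        split_ifs
        · exact Cn_const_le Λ h hU1 _ 1 fun L => hf _
        · exact zero_le
      · rw [if_neg ho2, zero_add, if_pos (by omega), if_pos ⟨by omega, by omega⟩]
        refine Cn_le_aux Λ h hU1 _ (g L1 L2) fun L3 h3 => ?_
        exact hg L1 L2 L3 hL1 hL2 (by omega) (by omega) (by
          rw [HT_append, HT_append]; omega)
  refine (S_mono Λ h a key).trans ?_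
  rw [S_add, S_add, S_const Λ h h1 hΛ, add_assoc]
  rfl

end Crest.Agent.R154.LP654
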