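import Crest.Agent.R154.LP_269

/-! Row 154, ROAD 801 (helper269): the window pieces of two lists. -/

set_option autoImplicit false

namespace Crest.Agent.R154.LP269

open scoped ENNReal
open Crest.Agent.R154.B5A

section one

variable {B G : Type*} [AddCommGroup G]

/-- sites read by a list placed at `x`, top depth `a` -/
def TT (ht : B → ℕ) (zz : B → G) (ss : B → Set (G × ℕ)) : List B → G → ℕ → Set (G × ℕ)
  | [], _, _ => ∅
  | b :: L, x, a => {q | ∃ z k, (z, k) ∈ ss b ∧ q = (x + z, a + k)} ∪ TT ht zz ss L (x + zz b) (a + ht b)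

variable (Λ : B → ℝ≥0∞) (ht : B → ℕ) (zz : B → G) (ss : B → Set (G × ℕ))

lemma TT_append (L L' : List B) (x : G) (a : ℕ) :
    TT ht zz ss (L ++ L') x a = TT ht zz ss L x a ∪ TT ht zz ss L' (x + Dp zz L) (a + HT ht L) := by
  induction L generalizing x a with
  | nil => simp [TT, Dp, HT]
  | cons b L ih =>
    simp only [List.cons_append, TT]
    rw [ih, Set.union_assoc, HT_cons]
    simp only [Dp, List.map_cons, List.sum_cons, add_assoc]

lemma TT_depth (hs : ∀ b z k, (z, k) ∈ ss b → 1 ≤ k ∧ k ≤ ht b) (L : List B) (x : G) (a : ℕ)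
    (z : G) (k : ℕ) (h : (z, k) ∈ TT ht zz ss L x a) : a < k ∧ k ≤ a + HT ht L := by
  induction L generalizing x a with
  | nil => simp [TT] at h
  | cons b L ih =>
    simp only [TT, Set.mem_union, Set.mem_setOf_eq] at h
    rw [HT_cons]
    rcases h with ⟨z', k', h1, h2⟩ | h
    · have := hs b z' k' h1
      have h3 := congrArg Prod.snd h2
      simp only at h3
      omega
    · have := ih _ _ h
      omega

lemma TT_shift (L : List B) (x y : G) (a : ℕ) (z : G) (k : ℕ) :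
    (z, k) ∈ TT ht zz ss L (x + y) a ↔ (z - y, k) ∈ TT ht zz ss L x a := by
  induction L generalizing x a with
  | nil => simp [TT]
  | cons b L ih =>
    simp only [TT, Set.mem_union, Set.mem_setOf_eq]
    rw [show x + y + zz b = (x + zz b) + y by abel, ih]
    apply or_congr_left
    constructor
    · rintro ⟨z', k', h1, h2⟩
      refine ⟨z', k', h1, ?_⟩
      have e1 := congrArg Prod.fst h2
      have e2 := congrArg Prod.snd h2
      simp only at e1 e2
      rw [e1, e2]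
      congr 1
      abel
    · rintro ⟨z', k', h1, h2⟩
      refine ⟨z', k', h1, ?_⟩
      have e1 := congrArg Prod.fst h2
      have e2 := congrArg Prod.snd h2
      simp only at e1 e2
      have e3 : z = x + z' + y := by rw [← e1]; abel
      rw [e3, e2]
      congr 1
      abel

open Classical in
/-- splitting off the first two pieces of a list of total height `n` -/
lemma piece2 (h1 : ∀ b, 1 ≤ ht b) (hΛ : ∑' b, Λ b = 1) (a0 i0 t n : ℕ) (hn : a0 + i0 + t ≤ n)
    (F : List B → ℝ≥0∞) (hF : ∀ L, F L ≤ 1) (F2 : List B → List B → ℝ≥0∞)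
    (hF2 : ∀ L1 L2 L3, SP ht a0 L1 → HT ht L1 ≤ a0 + i0 → SP ht t L2 →
      HT ht (L1 ++ (L2 ++ L3)) = n → F (L1 ++ (L2 ++ L3)) ≤ F2 L1 L2) :
    ∑' L, (if HT ht L = n then LW Λ L * F L else 0)
      ≤ ∑' T, (if SP ht a0 T ∧ a0 + i0 < HT ht T then LW Λ T else 0)
        + ∑' L1, ∑' L2, (if SP ht a0 L1 ∧ HT ht L1 ≤ a0 + i0 ∧ SP ht t L2
            then LW Λ L1 * LW Λ L2 * F2 L1 L2 else 0) := by
  have hU := U_le_one Λ ht h1 hΛ
  have s1 : ∑' L, (if HT ht L = n then LW Λ L * F L else 0)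
      ≤ ∑' L1, ∑' R, (if SP ht a0 L1 then
        (if HT ht (L1 ++ R) = n then LW Λ (L1 ++ R) * F (L1 ++ R) else 0) else 0) := by
    refine le_trans ?_ (tsum_split ht a0 (fun L => if HT ht L = n then LW Λ L * F L else 0))
    refine ENNReal.tsum_le_tsum fun L => ?_
    by_cases h : HT ht L = n
    · rw [if_pos h, if_pos (by omega)]
    · simp [h]
  refine s1.trans ?_
  rw [← ENNReal.tsum_add]
  refine ENNReal.tsum_le_tsum fun L1 => ?_
  by_cases hL1 : SP ht a0 L1
  swap
  · simp [hL1]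
  by_cases hH : a0 + i0 < HT ht L1
  · refine le_trans ?_ le_self_add
    rw [if_pos ⟨hL1, hH⟩]
    calc _ ≤ ∑' R, LW Λ L1 * (if HT ht R = n - HT ht L1 then LW Λ R else 0) := by
          refine ENNReal.tsum_le_tsum fun R => ?_
          rw [if_pos hL1]
          by_cases h : HT ht (L1 ++ R) = n
          · rw [if_pos h]
            rw [HT_append] at h
            rw [if_pos (by omega), LW_append]
            calc _ ≤ LW Λ L1 * LW Λ R * 1 := by gcongr; exact hF _
              _ = _ := mul_one _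
          · simp [h]
      _ ≤ LW Λ L1 * 1 := by rw [ENNReal.tsum_mul_left]; gcongr; exact hU _
      _ = _ := mul_one _
  · refine le_trans ?_ le_add_self
    have hH' : HT ht L1 ≤ a0 + i0 := by omega
    calc _ = ∑' R, (if t ≤ HT ht R then
            (if HT ht (L1 ++ R) = n then LW Λ (L1 ++ R) * F (L1 ++ R) else 0) else 0) := by
          refine tsum_congr fun R => ?_
          rw [if_pos hL1]
          by_cases h : HT ht (L1 ++ R) = n
          · rw [if_pos (show t ≤ HT ht R by rw [HT_append] at h; omega)]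
          · simp [h]
      _ ≤ ∑' L2, ∑' L3, (if SP ht t L2 then (if HT ht (L1 ++ (L2 ++ L3)) = n
            then LW Λ (L1 ++ (L2 ++ L3)) * F (L1 ++ (L2 ++ L3)) else 0) else 0) :=
          tsum_split ht t (fun R => if HT ht (L1 ++ R) = n then LW Λ (L1 ++ R) * F (L1 ++ R) else 0)
      _ ≤ _ := by
          refine ENNReal.tsum_le_tsum fun L2 => ?_
          by_cases hL2 : SP ht t L2
          swap
          · simp [hL2]
          rw [if_pos ⟨hL1, hH', hL2⟩]
          calc _ ≤ ∑' L3, LW Λ L1 * LW Λ L2 * F2 L1 L2 *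
                (if HT ht L3 = n - HT ht L1 - HT ht L2 then LW Λ L3 else 0) := by
                refine ENNReal.tsum_le_tsum fun L3 => ?_
                rw [if_pos hL2]
                by_cases h : HT ht (L1 ++ (L2 ++ L3)) = n
                · rw [if_pos h]
                  have h' := hF2 L1 L2 L3 hL1 hH' hL2 h
                  rw [HT_append, HT_append] at h
                  rw [if_pos (show HT ht L3 = n - HT ht L1 - HT ht L2 by omega),
                    LW_append, LW_append]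
                  calc _ ≤ LW Λ L1 * (LW Λ L2 * LW Λ L3) * F2 L1 L2 := by gcongr
                    _ = _ := by ring
                · simp [h]
            _ ≤ LW Λ L1 * LW Λ L2 * F2 L1 L2 * 1 := by
                rw [ENNReal.tsum_mul_left]; gcongr; exact hU _
            _ = _ := mul_one _

end one

section two

variable {BX BY G : Type*} [AddCommGroup G]
variable (ΛX : BX → ℝ≥0∞) (hX : BX → ℕ) (zX : BX → G) (sX : BX → Set (G × ℕ))
variable (ΛY : BY → ℝ≥0∞) (hY : BY → ℕ) (zY : BY → G) (sY : BY → Set (G × ℕ))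

/-- common sites -/
def Ct (L : List BX) (x : G) (a : ℕ) (L' : List BY) (x' : G) (a' : ℕ) (z : G) (k : ℕ) : Prop :=
  (z, k) ∈ TT hX zX sX L x a ∧ (z, k) ∈ TT hY zY sY L' x' a'

/-- contact of two pieces, all common sites at depths in `[lo, hi]` -/
def PC (L : List BX) (x : G) (a : ℕ) (L' : List BY) (x' : G) (a' lo hi : ℕ) : Prop :=
  (∃ z k, Ct hX zX sX hY zY sY L x a L' x' a' z k) ∧
    ∀ z k, Ct hX zX sX hY zY sY L x a L' x' a' z k → lo ≤ k ∧ k ≤ hi

lemma PC_shift (L : List BX) (x : G) (a : ℕ) (L' : List BY) (x' : G) (a' lo hi : ℕ) :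
    PC hX zX sX hY zY sY L x a L' x' a' lo hi ↔ PC hX zX sX hY zY sY L 0 a L' (x' - x) a' lo hi := by
  have key : ∀ z k, Ct hX zX sX hY zY sY L x a L' x' a' z k
      ↔ Ct hX zX sX hY zY sY L 0 a L' (x' - x) a' (z - x) k := by
    intro z k
    unfold Ct
    have e1 := TT_shift hX zX sX L 0 x a z k
    have e2 := TT_shift hY zY sY L' (x' - x) x a' z k
    rw [zero_add] at e1
    rw [sub_add_cancel] at e2
    rw [e1, e2]
  constructor
  · rintro ⟨⟨z, k, h⟩, h2⟩
    refine ⟨⟨z - x, k, (key z k).1 h⟩, fun z k h => ?_⟩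
    refine h2 (z + x) k ((key _ k).2 ?_)
    rwa [add_sub_cancel_right]
  · rintro ⟨⟨z, k, h⟩, h2⟩
    refine ⟨⟨z + x, k, (key _ k).2 (by rwa [add_sub_cancel_right])⟩, fun z k h => ?_⟩
    exact h2 _ k ((key z k).1 h)

open Classical in
/-- X local -/
def H2 (us : ℕ → ℕ → ℝ≥0∞) (C : ℝ≥0∞) : Prop :=
  ∀ (i0 s h h' a a' lo hi : ℕ) (E : Finset G) (μ : G → ℝ≥0∞) (M lam : ℝ≥0∞),
    ∑' x, μ x ≤ 1 → (∀ x, μ x ≤ M) → lam ≠ 0 → lam ≠ ⊤ → a + s ≤ lo → a' + s ≤ lo →
    hi + s ≤ a + h → hi + s ≤ a' + h' → a ≤ a' + i0 → a' ≤ a + i0 →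
    a + h ≤ a' + h' + i0 → a' + h' ≤ a + h + i0 →
    ∑' x, μ x * ∑' L, ∑' L', (if HT hX L = h ∧ Dp zX L ∈ E ∧ HT hY L' = h' ∧
      PC hX zX sX hY zY sY L 0 a L' x a' lo hi then LW ΛX L * LW ΛY L' else 0)
      ≤ C * (lam + M * E.card * us i0 s / lam + us i0 s)

open Classical in
/-- Y local -/
def H3 (us : ℕ → ℕ → ℝ≥0∞) (C : ℝ≥0∞) : Prop :=
  ∀ (i0 s h h' a a' lo hi : ℕ) (E : Finset G) (μ : G → ℝ≥0∞) (M lam : ℝ≥0∞),
    ∑' x, μ x ≤ 1 → (∀ x, μ x ≤ M) → lam ≠ 0 → lam ≠ ⊤ → a + s ≤ lo → a' + s ≤ lo →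
    hi + s ≤ a + h → hi + s ≤ a' + h' → a ≤ a' + i0 → a' ≤ a + i0 →
    a + h ≤ a' + h' + i0 → a' + h' ≤ a + h + i0 →
    ∑' x, μ x * ∑' L, ∑' L', (if HT hX L = h ∧ HT hY L' = h' ∧ Dp zY L' ∈ E ∧
      PC hX zX sX hY zY sY L 0 a L' x a' lo hi then LW ΛX L * LW ΛY L' else 0)
      ≤ C * (lam + M * E.card * us i0 s / lam + us i0 s)

open Classical in
/-- contact at one depth -/
noncomputable def PT (n k : ℕ) (w : G) : ℝ≥0∞ :=
  ∑' LX, ∑' LY, (if HT hX LX = n ∧ HT hY LY = n ∧ (∃ z, Ct hX zX sX hY zY sY LX 0 0 LY w 0 z k)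
    then LW ΛX LX * LW ΛY LY else 0)

open Classical in
/-- the window sum -/
noncomputable def WS (n lo hi : ℕ) (w : G) : ℝ≥0∞ :=
  ∑' LX, ∑' LY, (if HT hX LX = n ∧ HT hY LY = n ∧
    (∀ z k, Ct hX zX sX hY zY sY LX 0 0 LY w 0 z k → lo < k) ∧
    (∃ z k, Ct hX zX sX hY zY sY LX 0 0 LY w 0 z k ∧ k ≤ hi)
    then LW ΛX LX * LW ΛY LY else 0)

end two

end Crest.Agent.R154.LP269
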