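import Crest.Agent.R154.LQ_269

/-! Row 154, ROAD 801 (helper269): the one-window estimate. -/

set_option autoImplicit false

namespace Crest.Agent.R154.LP269

open scoped ENNReal
open Crest.Agent.R154.B5A

variable {BX BY G : Type*} [AddCommGroup G]
variable (ΛX : BX → ℝ≥0∞) (hX : BX → ℕ) (zX : BX → G) (sX : BX → Set (G × ℕ))
variable (ΛY : BY → ℝ≥0∞) (hY : BY → ℕ) (zY : BY → G) (sY : BY → Set (G × ℕ))

lemma fac {A1 A2 A3 A4 : Type*} (f1 : A1 → ℝ≥0∞) (f2 : A2 → ℝ≥0∞) (g1 : A3 → ℝ≥0∞)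
    (g2 : A4 → ℝ≥0∞) :
    ∑' a, ∑' b, ∑' c, ∑' d, f1 a * f2 b * (g1 c * g2 d)
      = (∑' a, f1 a) * (∑' b, f2 b) * ((∑' c, g1 c) * ∑' d, g2 d) := by
  have e : ∀ a b, ∑' c, ∑' d, f1 a * f2 b * (g1 c * g2 d)
      = f1 a * f2 b * ((∑' c, g1 c) * ∑' d, g2 d) := by
    intro a b
    rw [← ENNReal.tsum_mul_right, ← ENNReal.tsum_mul_left]
    refine tsum_congr fun c => ?_
    rw [← ENNReal.tsum_mul_left, ← ENNReal.tsum_mul_left]
  simp only [e]
  have e2 : ∀ a, ∑' b, f1 a * f2 b * ((∑' c, g1 c) * ∑' d, g2 d)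
      = f1 a * (∑' b, f2 b) * ((∑' c, g1 c) * ∑' d, g2 d) := fun a => by
    rw [ENNReal.tsum_mul_right, ENNReal.tsum_mul_left]
  simp only [e2]
  rw [ENNReal.tsum_mul_right, ENNReal.tsum_mul_right]

open Classical in
lemma push {A1 A3 : Type*} (f : A1 → ℝ≥0∞) (g : A3 → ℝ≥0∞) (r : A1 → A3 → G) (Φ : G → ℝ≥0∞) :
    ∑' a, ∑' c, f a * g c * Φ (r a c)
      = ∑' x, (∑' a, ∑' c, if r a c = x then f a * g c else 0) * Φ x := by
  have e : ∀ x, (∑' a, ∑' c, if r a c = x then f a * g c else 0) * Φ x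
      = ∑' a, ∑' c, if r a c = x then f a * g c * Φ x else 0 := by
    intro x
    rw [← ENNReal.tsum_mul_right]
    refine tsum_congr fun a => ?_
    rw [← ENNReal.tsum_mul_right]
    refine tsum_congr fun c => ?_
    by_cases h : r a c = x <;> simp [h]
  rw [tsum_congr e]
  conv_rhs => rw [ENNReal.tsum_comm]
  refine tsum_congr fun a => ?_
  conv_rhs => rw [ENNReal.tsum_comm]
  refine tsum_congr fun c => ?_
  rw [tsum_eq_single (r a c)]
  · simp
  · intro x hx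
    rw [if_neg (Ne.symm hx)]

open Classical in
lemma push_sum {A1 A3 : Type*} (f : A1 → ℝ≥0∞) (g : A3 → ℝ≥0∞) (r : A1 → A3 → G) :
    ∑' x, (∑' a, ∑' c, if r a c = x then f a * g c else 0) = (∑' a, f a) * ∑' c, g c := by
  have := push f g r (fun _ => 1)
  simp only [mul_one] at this
  rw [← this, ← ENNReal.tsum_mul_right]
  exact tsum_congr fun a => ENNReal.tsum_mul_left

variable {ΛX hX zX sX ΛY hY zY sY}

/-- the local finite set -/
noncomputable def locE {B : Type*} (Λ : B → ℝ≥0∞) (ht : B → ℕ) (zz : B → G) (h1 : ∀ b, 1 ≤ ht b)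
    (hΛ : ∑' b, Λ b = 1) (t h : ℕ) (th : ℝ≥0∞) (hth : th ≠ 0) : Finset G :=
  (ENNReal.finite_const_le_of_tsum_ne_top (a := fun z : G => pr Λ ht zz t (h, z))
    (ne_top_of_le_ne_top ENNReal.one_ne_top (by
      rw [← pr_sum Λ ht zz h1 hΛ t]
      exact ENNReal.tsum_comp_le_tsum_of_injective (f := fun z : G => ((h, z) : ℕ × G))
        (fun x y e => (Prod.mk.inj e).2) (pr Λ ht zz t))) hth).toFinset

lemma mem_locE {B : Type*} (Λ : B → ℝ≥0∞) (ht : B → ℕ) (zz : B → G) (h1 : ∀ b, 1 ≤ ht b)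
    (hΛ : ∑' b, Λ b = 1) (t h : ℕ) (th : ℝ≥0∞) (hth : th ≠ 0) (z : G) :
    z ∈ locE Λ ht zz h1 hΛ t h th hth ↔ th ≤ pr Λ ht zz t (h, z) := by
  simp [locE]

lemma card_locE {B : Type*} (Λ : B → ℝ≥0∞) (ht : B → ℕ) (zz : B → G) (h1 : ∀ b, 1 ≤ ht b)
    (hΛ : ∑' b, Λ b = 1) (t h : ℕ) (th : ℝ≥0∞) (hth : th ≠ 0) :
    ((locE Λ ht zz h1 hΛ t h th hth).card : ℝ≥0∞) * th ≤ 1 := by
  refine (Dens616.card_mul_le (fun z : G => pr Λ ht zz t (h, z)) th _
    (fun z hz => (mem_locE Λ ht zz h1 hΛ t h th hth z).1 hz)).trans ?_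
  rw [← pr_sum Λ ht zz h1 hΛ t]
  exact ENNReal.tsum_comp_le_tsum_of_injective (f := fun z : G => ((h, z) : ℕ × G))
    (fun x y e => (Prod.mk.inj e).2) (pr Λ ht zz t)

/-- the intermediate event on pieces -/
def PD (zX : BX → G) (hX : BX → ℕ) (sX : BX → Set (G × ℕ)) (zY : BY → G) (hY : BY → ℕ)
    (sY : BY → Set (G × ℕ)) (lo hi D1 D2 : ℕ) (w : G) (L1 L2 : List BX) (M1 M2 : List BY) : Prop :=
  (∃ z k, Ct hX zX sX hY zY sY L2 (Dp zX L1) (HT hX L1) M2 (w + Dp zY M1) (HT hY M1) z k) ∧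
    ∀ z k, Ct hX zX sX hY zY sY L2 (Dp zX L1) (HT hX L1) M2 (w + Dp zY M1) (HT hY M1) z k →
      lo ≤ k ∧ ¬ (D1 < k ∧ k ≤ D2)

open Classical in
theorem pieces (h1X : ∀ b, 1 ≤ hX b) (h1Y : ∀ b, 1 ≤ hY b) (hΛX : ∑' b, ΛX b = 1)
    (hΛY : ∑' b, ΛY b = 1) (hsX : ∀ b z k, (z, k) ∈ sX b → 1 ≤ k ∧ k ≤ hX b)
    (hsY : ∀ b z k, (z, k) ∈ sY b → 1 ≤ k ∧ k ≤ hY b)
    (t i0 s a0 n : ℕ) (hst : i0 + s ≤ t) (hn : a0 + 3 * t + 2 * i0 ≤ n) (w : G) (ov e : ℝ≥0∞)
    (hovX : ∑' T, (if SP hX a0 T ∧ a0 + i0 < HT hX T then LW ΛX T else 0) ≤ ov)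
    (hovY : ∑' T, (if SP hY a0 T ∧ a0 + i0 < HT hY T then LW ΛY T else 0) ≤ ov)
    (hPT : ∀ k, a0 + 3 * t - s < k → k ≤ a0 + 3 * t + 2 * i0 → PT ΛX hX zX sX ΛY hY zY sY n k w ≤ e) :
    WS ΛX hX zX sX ΛY hY zY sY n (a0 + t) (a0 + 2 * t) w ≤ ((s + 2 * i0 : ℕ) : ℝ≥0∞) * e + 2 * ov +
      ∑' L1, ∑' L2, ∑' M1, ∑' M2,
        (if SP hX a0 L1 ∧ HT hX L1 ≤ a0 + i0 then LW ΛX L1 else 0)
          * (if SP hX (3 * t) L2 then LW ΛX L2 else 0)
          * ((if SP hY a0 M1 ∧ HT hY M1 ≤ a0 + i0 then LW ΛY M1 else 0)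
            * (if SP hY (3 * t) M2 then LW ΛY M2 else 0))
          * (if PD zX hX sX zY hY sY (a0 + t) (a0 + 2 * t) (a0 + 3 * t - s) (a0 + 3 * t + 2 * i0) w
              L1 L2 M1 M2 then 1 else 0) := by
  set D1 := a0 + 3 * t - s with hD1
  set D2 := a0 + 3 * t + 2 * i0 with hD2
  -- indicator of the event without slab contact
  let EV : List BX → List BY → Prop := fun LX LY =>
    (∀ z k, Ct hX zX sX hY zY sY LX 0 0 LY w 0 z k → a0 + t < k ∧ ¬ (D1 < k ∧ k ≤ D2)) ∧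
    (∃ z k, Ct hX zX sX hY zY sY LX 0 0 LY w 0 z k ∧ k ≤ a0 + 2 * t)
  let EX : List BX → List BX → List BY → Prop := fun L1 L2 LY =>
    (∀ z k, (z, k) ∈ TT hX zX sX L2 (Dp zX L1) (HT hX L1) → (z, k) ∈ TT hY zY sY LY w 0 →
      a0 + t < k ∧ ¬ (D1 < k ∧ k ≤ D2)) ∧
    (∃ z k, (z, k) ∈ TT hX zX sX L2 (Dp zX L1) (HT hX L1) ∧ (z, k) ∈ TT hY zY sY LY w 0
      ∧ k ≤ a0 + 2 * t)
  have hUX := U_le_one ΛX hX h1X hΛX
  have hUY := U_le_one ΛY hY h1Y hΛY
  -- step A: slab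
  have sA : WS ΛX hX zX sX ΛY hY zY sY n (a0 + t) (a0 + 2 * t) w
      ≤ ((s + 2 * i0 : ℕ) : ℝ≥0∞) * e
        + ∑' LX, (if HT hX LX = n then LW ΛX LX *
            ∑' LY, (if HT hY LY = n then LW ΛY LY * (if EV LX LY then 1 else 0) else 0) else 0) := by
    have hk : ∑ k ∈ Finset.Ioc D1 D2, PT ΛX hX zX sX ΛY hY zY sY n k w
        ≤ ((s + 2 * i0 : ℕ) : ℝ≥0∞) * e := by
      calc _ ≤ ∑ k ∈ Finset.Ioc D1 D2, e := by
            refine Finset.sum_le_sum fun k hk => ?_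
            obtain ⟨h1, h2⟩ := Finset.mem_Ioc.1 hk
            exact hPT k h1 h2
        _ = ((D2 - D1 : ℕ) : ℝ≥0∞) * e := by simp
        _ ≤ _ := by
            gcongr
            omega
    refine le_trans ?_ (add_le_add hk le_rfl)
    unfold PT WS
    rw [← Summable.tsum_finsetSum (fun _ _ => ENNReal.summable), ← ENNReal.tsum_add]
    refine ENNReal.tsum_le_tsum fun LX => ?_
    by_cases hLX : HT hX LX = n
    swap
    · simp [hLX]
    rw [if_pos hLX, ← Summable.tsum_finsetSum (fun _ _ => ENNReal.summable),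
      ← ENNReal.tsum_mul_left, ← ENNReal.tsum_add]
    refine ENNReal.tsum_le_tsum fun LY => ?_
    by_cases hE : HT hX LX = n ∧ HT hY LY = n ∧
        (∀ z k, Ct hX zX sX hY zY sY LX 0 0 LY w 0 z k → a0 + t < k) ∧
        (∃ z k, Ct hX zX sX hY zY sY LX 0 0 LY w 0 z k ∧ k ≤ a0 + 2 * t)
    swap
    · rw [if_neg hE]; positivity
    rw [if_pos hE]
    obtain ⟨_, hLY, hE1, hE2⟩ := hE
    by_cases hsl : ∃ z k, Ct hX zX sX hY zY sY LX 0 0 LY w 0 z k ∧ D1 < k ∧ k ≤ D2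
    · obtain ⟨z, k, hc, hk1, hk2⟩ := hsl
      refine le_trans ?_ le_self_add
      refine le_trans ?_ (Finset.single_le_sum (f := fun k => (if HT hX LX = n ∧ HT hY LY = n ∧
        (∃ z, Ct hX zX sX hY zY sY LX 0 0 LY w 0 z k) then LW ΛX LX * LW ΛY LY else 0))
        (fun _ _ => by positivity) (Finset.mem_Ioc.2 ⟨hk1, hk2⟩))
      rw [if_pos ⟨hLX, hLY, z, hc⟩]
    · refine le_trans ?_ le_add_self
      have hEV : EV LX LY := ⟨fun z k hc => ⟨hE1 z k hc, fun h => hsl ⟨z, k, hc, h⟩⟩, hE2⟩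
      rw [if_pos hLY, if_pos hEV, mul_one]
  refine sA.trans ?_
  rw [add_assoc]
  refine add_le_add le_rfl ?_
  -- step X
  have sX' := piece2 ΛX hX h1X hΛX a0 i0 (3 * t) n (by omega)
    (fun LX => ∑' LY, (if HT hY LY = n then LW ΛY LY * (if EV LX LY then 1 else 0) else 0))
    (fun LX => by
      refine le_trans (ENNReal.tsum_le_tsum fun LY => ?_) (hUY n)
      split_ifs
      · rw [mul_one]
      · rw [mul_zero]; positivity
      · exact le_rfl)
    (fun L1 L2 => ∑' LY, (if HT hY LY = n then LW ΛY LY * (if EX L1 L2 LY then 1 else 0) else 0))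
    (by
      intro L1 L2 L3 hL1 hH1 hL2 hH
      refine ENNReal.tsum_le_tsum fun LY => ?_
      by_cases hLY : HT hY LY = n
      swap
      · simp [hLY]
      rw [if_pos hLY, if_pos hLY]
      by_cases hE : EV (L1 ++ (L2 ++ L3)) LY
      swap
      · rw [if_neg hE, mul_zero]; positivity
      have hEX : EX L1 L2 LY := by
        have hsub : ∀ z k, (z, k) ∈ TT hX zX sX L2 (Dp zX L1) (HT hX L1) →
            (z, k) ∈ TT hX zX sX (L1 ++ (L2 ++ L3)) 0 0 := by
          intro z k h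
          rw [TT_append, TT_append]
          right; left
          simpa using h
        refine ⟨fun z k h h' => hE.1 z k ⟨hsub z k h, h'⟩, ?_⟩
        obtain ⟨z, k, ⟨hc, hc'⟩, hk⟩ := hE.2
        refine ⟨z, k, ?_, hc', hk⟩
        have hlow := (hE.1 z k ⟨hc, hc'⟩).1
        rw [TT_append, TT_append] at hc
        have hge := SP_le_HT hX _ _ hL2
        rcases hc with hc | hc | hc
        · have := TT_depth hX zX sX hsX _ _ _ _ _ hc
          omega
        · simpa using hc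
        · have := TT_depth hX zX sX hsX _ _ _ _ _ hc
          have := SP_le_HT hX _ _ hL1
          omega
      rw [if_pos hE, if_pos hEX])
  refine sX'.trans ?_
  -- step Y
  have sY' : ∀ L1 L2 : List BX,
      ∑' LY, (if HT hY LY = n then LW ΛY LY * (if EX L1 L2 LY then 1 else 0) else 0)
      ≤ ov + ∑' M1, ∑' M2, (if SP hY a0 M1 ∧ HT hY M1 ≤ a0 + i0 ∧ SP hY (3 * t) M2
            then LW ΛY M1 * LW ΛY M2 * (if PD zX hX sX zY hY sY (a0 + t) (a0 + 2 * t) D1 D2 w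
              L1 L2 M1 M2 then 1 else 0) else 0) := by
    intro L1 L2
    refine (piece2 ΛY hY h1Y hΛY a0 i0 (3 * t) n (by omega)
      (fun LY => if EX L1 L2 LY then 1 else 0) (fun LY => by split_ifs <;> simp)
      (fun M1 M2 => if PD zX hX sX zY hY sY (a0 + t) (a0 + 2 * t) D1 D2 w L1 L2 M1 M2
        then 1 else 0) ?_).trans (add_le_add hovY le_rfl)
    intro M1 M2 M3 hM1 hH1 hM2 hH
    by_cases hE : EX L1 L2 (M1 ++ (M2 ++ M3))
    swap
    · rw [if_neg hE]; positivity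
    have hPD : PD zX hX sX zY hY sY (a0 + t) (a0 + 2 * t) D1 D2 w L1 L2 M1 M2 := by
      have hsub : ∀ z k, (z, k) ∈ TT hY zY sY M2 (w + Dp zY M1) (HT hY M1) →
          (z, k) ∈ TT hY zY sY (M1 ++ (M2 ++ M3)) w 0 := by
        intro z k h
        rw [TT_append, TT_append]
        right; left
        simpa using h
      refine ⟨?_, fun z k h => ?_⟩
      · obtain ⟨z, k, hc, hc', hk⟩ := hE.2
        refine ⟨z, k, hc, ?_⟩
        have hlow := (hE.1 z k hc hc').1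
        rw [TT_append, TT_append] at hc'
        have hge := SP_le_HT hY _ _ hM2
        rcases hc' with hc' | hc' | hc'
        · have := TT_depth hY zY sY hsY _ _ _ _ _ hc'
          omega
        · simpa using hc'
        · have := TT_depth hY zY sY hsY _ _ _ _ _ hc'
          have := SP_le_HT hY _ _ hM1
          omega
      · have := hE.1 z k h.1 (hsub z k h.2)
        exact ⟨this.1.le, this.2⟩
    rw [if_pos hE, if_pos hPD]
  calc _ ≤ ov + ∑' L1, ∑' L2, ((if SP hX a0 L1 ∧ HT hX L1 ≤ a0 + i0 then LW ΛX L1 else 0)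
          * (if SP hX (3 * t) L2 then LW ΛX L2 else 0) * ov +
        ∑' M1, ∑' M2, (if SP hX a0 L1 ∧ HT hX L1 ≤ a0 + i0 then LW ΛX L1 else 0)
          * (if SP hX (3 * t) L2 then LW ΛX L2 else 0)
          * ((if SP hY a0 M1 ∧ HT hY M1 ≤ a0 + i0 then LW ΛY M1 else 0)
            * (if SP hY (3 * t) M2 then LW ΛY M2 else 0))
          * (if PD zX hX sX zY hY sY (a0 + t) (a0 + 2 * t) D1 D2 w L1 L2 M1 M2 then 1 else 0)) := by
        refine add_le_add hovX ?_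
        refine ENNReal.tsum_le_tsum fun L1 => ENNReal.tsum_le_tsum fun L2 => ?_
        by_cases h : SP hX a0 L1 ∧ HT hX L1 ≤ a0 + i0 ∧ SP hX (3 * t) L2
        swap
        · rw [if_neg h]; positivity
        rw [if_pos h, if_pos ⟨h.1, h.2.1⟩, if_pos h.2.2]
        refine (mul_le_mul_right (sY' L1 L2) _).trans ?_
        rw [mul_add]
        refine add_le_add le_rfl ?_
        rw [← ENNReal.tsum_mul_left]
        refine ENNReal.tsum_le_tsum fun M1 => ?_
        rw [← ENNReal.tsum_mul_left]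
        refine ENNReal.tsum_le_tsum fun M2 => ?_
        by_cases h' : SP hY a0 M1 ∧ HT hY M1 ≤ a0 + i0 ∧ SP hY (3 * t) M2
        · rw [if_pos h', if_pos (show SP hY a0 M1 ∧ HT hY M1 ≤ a0 + i0 from ⟨h'.1, h'.2.1⟩),
            if_pos h'.2.2]
          exact le_of_eq (by ring)
        · rw [if_neg h', mul_zero]; positivity
    _ = ov + (∑' L1, ∑' L2, (if SP hX a0 L1 ∧ HT hX L1 ≤ a0 + i0 then LW ΛX L1 else 0)
          * (if SP hX (3 * t) L2 then LW ΛX L2 else 0) * ov + _) := by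
        congr 1
        rw [← ENNReal.tsum_add]
        exact tsum_congr fun L1 => ENNReal.tsum_add
    _ ≤ ov + (ov + _) := by
        gcongr
        calc _ = (∑' L1, (if SP hX a0 L1 ∧ HT hX L1 ≤ a0 + i0 then LW ΛX L1 else 0))
              * (∑' L2, (if SP hX (3 * t) L2 then LW ΛX L2 else 0)) * ov := by
              rw [← ENNReal.tsum_mul_right, ← ENNReal.tsum_mul_right]
              refine tsum_congr fun L1 => ?_
              rw [ENNReal.tsum_mul_right, ENNReal.tsum_mul_left]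
          _ ≤ 1 * 1 * ov := by
              gcongr
              · rw [← SP_mass ΛX hX h1X hΛX a0]
                refine ENNReal.tsum_le_tsum fun L1 => ?_
                by_cases h : SP hX a0 L1
                · rw [if_pos h]; split_ifs
                  · exact le_rfl
                  · positivity
                · simp [h]
              · exact le_of_eq (SP_mass ΛX hX h1X hΛX _)
          _ = ov := by simp
    _ = _ := by ring

end Crest.Agent.R154.LP269
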