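import Crest.Agent.R154.B6Abs_833

/-! R154, step (L) of T4 = COLL (helper509; the plan is helper12's #35298 / helper269's #35452):
renewal at the first contact after a long gap.  The abstract pair of walkers of helper833
(`PairSys`): if the probability `b` of "natural and no contact" is flat (up to a small constant)
between a level `K` and the horizon `Hz`, and the expected number of close levels of a spread set
`U` BEFORE the first contact is `≤ A'` from every start, then the expected number of close levels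
of `U` is `≤ 2 (K₁ + A' / c₁)` from every start. -/

set_option autoImplicit false
set_option linter.unusedSectionVars false
set_option linter.deprecated false

open MeasureTheory Set Filter Topology
open scoped BigOperators

namespace Crest.Agent.R154.LRen509

open Crest.Agent.R154.B6_833 Crest.Agent.R154.B6_833.PairSys

/-- `U` has at most `K₁` points in every window of length `L` -/
def Spr (U : Finset ℕ) (L K₁ : ℕ) : Prop :=
  ∀ x, (U.filter fun m => x ≤ m ∧ m < x + L).card ≤ K₁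

/-- the shift of a finite set of levels -/
def sh (U : Finset ℕ) (j : ℕ) : Finset ℕ := (U.filter fun m => j ≤ m).image fun m => m - j

lemma sh_sum (U : Finset ℕ) (j : ℕ) (f : ℕ → ℝ) :
    ∑ m ∈ sh U j, f m = ∑ m ∈ U.filter (fun m => j ≤ m), f (m - j) := by
  unfold sh
  rw [Finset.sum_image]
  intro x hx y hy hxy
  simp only [Finset.coe_filter, mem_setOf_eq] at hx hy
  simp only at hxy
  omega

lemma spr_sh {U : Finset ℕ} {L K₁ : ℕ} (h : Spr U L K₁) (j : ℕ) : Spr (sh U j) L K₁ := by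
  intro x
  refine le_trans (Finset.card_le_card_of_injOn (fun m => m + j) ?_ ?_) (h (x + j))
  · intro m hm
    simp only [sh, Finset.coe_filter, Finset.mem_image, Finset.mem_filter, mem_setOf_eq] at hm ⊢
    obtain ⟨⟨m', ⟨h1, h2⟩, h3⟩, h4, h5⟩ := hm
    have : m + j = m' := by omega
    rw [this]
    exact ⟨h1, by omega, by omega⟩
  · intro x _ y _ hxy
    simp only at hxy; omega

lemma mem_sh_le {U : Finset ℕ} {j Hc m : ℕ} (hU : ∀ m ∈ U, m ≤ Hc) (hm : m ∈ sh U j) :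
    m ≤ Hc - j := by
  simp only [sh, Finset.mem_image, Finset.mem_filter] at hm
  obtain ⟨m', ⟨h1, h2⟩, h3⟩ := hm
  have := hU m' h1
  omega

variable {S Ω : Type*} [MeasurableSpace S] [mΩ : MeasurableSpace Ω] [DiscreteMeasurableSpace S]
  {A : PairSys S Ω}
variable {a : ℕ} {c₁ cₑ : ℝ} {β : ℕ → ℝ} {h : ℕ → ℝ} {p : ℝ} {Far : ℕ → Set S} {χ : ℕ → S → ℝ}

/-- summation over disjoint first cuts -/
lemma sum_cut (H : A.Hyp a c₁ cₑ β h p Far χ) (s : S) (t : Finset ℕ) (B : ℕ → Set Ω) (Hc : ℕ)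
    (G : Set Ω) (hB : ∀ j ∈ t, MeasurableSet[A.F j] (B j)) (hBa : ∀ j ∈ t, B j ⊆ A.al j)
    (htH : ∀ j ∈ t, j ≤ Hc) (hG : ∀ j ∈ t, B j ∩ A.N j Hc ⊆ G)
    (hd : ∀ i ∈ t, ∀ j ∈ t, i < j → ∀ ω, ω ∈ B i ∩ A.N i Hc → ω ∉ B j ∩ A.N j Hc) :
    ∑ j ∈ t, (A.P s).real (B j) ≤ (A.P s).real G / c₁ := by
  have := A.prob s
  rw [le_div_iff₀ H.c₁pos, mul_comm, Finset.mul_sum]
  refine (Finset.sum_le_sum fun j hj => lowerN H s j Hc (htH j hj) _ (hB j hj) (hBa j hj)).trans ?_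
  exact sum_disj_le t (fun j => B j ∩ A.N j Hc) G
    (fun j hj => (meas j (hB j hj)).inter (N_measΩ j Hc (htH j hj))) hG hd

/-- exchange of the sums over levels and over cuts -/
lemma swap_sum {s : S} (t U : Finset ℕ) (B : ℕ → Set Ω) (hBm : ∀ j ∈ t, MeasurableSet (B j))
    (f : ℕ → S → ℝ) (hf1 : ∀ m s, |f m s| ≤ 1) (c : ℝ)
    (hc : ∀ j ∈ t, ∀ s', ∑ m ∈ sh U j, f m s' ≤ c) (E : ℕ → Set Ω)
    (hE : ∀ m ∈ U, (A.P s).real (E m) ≤
      ∑ j ∈ t.filter (fun j => j ≤ m), ∫ ω in B j, f (m - j) (A.st j ω) ∂(A.P s)) :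
    ∑ m ∈ U, (A.P s).real (E m) ≤ c * ∑ j ∈ t, (A.P s).real (B j) := by
  have := A.prob s
  have hint : ∀ j m, Integrable (fun ω => f m (A.st j ω)) (A.P s) := fun j m =>
    integ_st s j (f m) 1 (hf1 m)
  calc ∑ m ∈ U, (A.P s).real (E m)
      ≤ ∑ m ∈ U, ∑ j ∈ t.filter (fun j => j ≤ m), ∫ ω in B j, f (m - j) (A.st j ω) ∂(A.P s) :=
        Finset.sum_le_sum hE
    _ = ∑ j ∈ t, ∑ m ∈ U.filter (fun m => j ≤ m),
          ∫ ω in B j, f (m - j) (A.st j ω) ∂(A.P s) := by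
        simp_rw [Finset.sum_filter]
        exact Finset.sum_comm
    _ = ∑ j ∈ t, ∫ ω in B j, ∑ m ∈ U.filter (fun m => j ≤ m), f (m - j) (A.st j ω) ∂(A.P s) := by
        refine Finset.sum_congr rfl fun j _ => ?_
        rw [integral_finset_sum]
        exact fun m _ => (hint j _).integrableOn
    _ ≤ ∑ j ∈ t, c * (A.P s).real (B j) := by
        refine Finset.sum_le_sum fun j hj => ?_
        have h1 : ∫ ω in B j, ∑ m ∈ U.filter (fun m => j ≤ m), f (m - j) (A.st j ω) ∂(A.P s)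
            ≤ ∫ ω in B j, c ∂(A.P s) := by
          refine setIntegral_mono_on ?_ (integrable_const _).integrableOn (hBm j hj) ?_
          · exact (integrable_finset_sum _ fun m _ => hint j _).integrableOn
          · intro ω _
            have := hc j hj (A.st j ω)
            rw [sh_sum] at this
            exact this
        refine h1.trans (le_of_eq ?_)
        rw [setIntegral_const, smul_eq_mul, mul_comm]
    _ = c * ∑ j ∈ t, (A.P s).real (B j) := by rw [Finset.mul_sum]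

/-- first element of a nonempty family of levels -/
lemma first {Q : ℕ → Prop} {x y : ℕ} (hx : x ≤ y) (hy : Q y) :
    ∃ i, x ≤ i ∧ i ≤ y ∧ Q i ∧ ∀ i', x ≤ i' → i' < i → ¬ Q i' := by
  classical
  have hex : ∃ i, x ≤ i ∧ i ≤ y ∧ Q i := ⟨y, hx, le_rfl, hy⟩
  obtain ⟨h1, h2, h3⟩ := Nat.find_spec hex
  refine ⟨Nat.find hex, h1, h2, h3, fun i' hi hi' hQ => ?_⟩
  exact Nat.find_min hex hi' ⟨hi, by omega, hQ⟩

/-- the set of the first cut after `n` -/
def Bn (A : PairSys S Ω) (n i : ℕ) : Set Ω := A.N 0 i ∩ A.killed n i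

lemma Bn_meas (n i : ℕ) : MeasurableSet[A.F i] (Bn A n i) :=
  MeasurableSet.inter (A.N_meas 0 i (Nat.zero_le _)) (killed_meas _ _)

lemma Bn_al (n i : ℕ) : Bn A n i ⊆ A.al i := fun _ hω => A.N_al 0 i (Nat.zero_le _) hω.1

lemma Bn_disj {n Hc : ℕ} (i : ℕ) (hi : n ≤ i) (j : ℕ) (hj : j ≤ Hc) (hij : i < j) (ω : Ω)
    (h1 : ω ∈ Bn A n i ∩ A.N i Hc) : ω ∉ Bn A n j ∩ A.N j Hc := fun h2 =>
  h2.1.2 i hi hij (A.N_left i j Hc hij.le hj ω h1.2)

/-- the set of the first cut after the first contact after `n` -/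
def Bc (A : PairSys S Ω) (n j : ℕ) : Set Ω :=
  A.N 0 j ∩ ⋃ l ∈ {l : ℕ | n < l ∧ l ≤ j}, (A.nocs n (l-1) ∩ A.cs l ∩ A.killed l j)

lemma Bc_meas (n j : ℕ) : MeasurableSet[A.F j] (Bc A n j) := by
  refine MeasurableSet.inter (A.N_meas 0 j (Nat.zero_le _)) ?_
  refine MeasurableSet.biUnion (Set.to_countable _) ?_
  intro l hl
  refine MeasurableSet.inter (MeasurableSet.inter ?_ ?_) (killed_meas _ _)
  · exact A.F_mono (l-1) j (by have := hl.2; omega) _ (nocs_meas _ _)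
  · exact A.F_mono l j hl.2 _ (A.cs_meas l)

lemma Bc_al (n j : ℕ) : Bc A n j ⊆ A.al j := fun _ hω => A.N_al 0 j (Nat.zero_le _) hω.1

lemma Bc_disj {n Hc : ℕ} (i j : ℕ) (hj : j ≤ Hc) (hij : i < j) (ω : Ω)
    (h1 : ω ∈ Bc A n i ∩ A.N i Hc) : ω ∉ Bc A n j ∩ A.N j Hc := by
  intro h2
  obtain ⟨l, ⟨hl1, hl2⟩, ⟨hl3, hl4⟩, hl5⟩ := mem_iUnion₂.mp h1.1.2
  obtain ⟨l', ⟨hl1', hl2'⟩, ⟨hl3', hl4'⟩, hl5'⟩ := mem_iUnion₂.mp h2.1.2
  have e : l = l' := by
    rcases lt_trichotomy l l' with hlt | he | hlt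
    · exact absurd hl4 (hl3' l hl1 (by omega))
    · exact he
    · exact absurd hl4' (hl3 l' hl1' (by omega))
  subst e
  exact hl5' i hl2 hij (A.N_left i j Hc hij.le hj ω h1.2)

/-- **the late contacts**: with `b` flat on `[K, Hz]` a contact after `4K` (and before the horizon)
on a natural pair has probability `≤ c₁ / 2`, from every start. -/
lemma late_small (H : A.Hyp a c₁ cₑ β h p Far χ) :
    ∃ n₀ : ℕ, ∀ K ≥ n₀, ∀ Hc : ℕ, 4 * K ≤ Hc →
      (∀ s ∈ A.Dist, ∀ n, K ≤ n → n ≤ Hc → A.b K s - A.b n s ≤ c₁ ^ 2 / 8) →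
      ∀ s, (A.P s).real (A.N 0 Hc ∩ {ω | ∃ l, 4 * K < l ∧ l ≤ Hc ∧ ω ∈ A.cs l}) ≤ c₁ / 2 := by
  have hc := H.c₁pos
  obtain ⟨n₁, hn₁⟩ := late_lim H (c₁ / 8) (by positivity)
  obtain ⟨k, hk⟩ := delta H (c₁ / 8) (by positivity)
  refine ⟨max (max n₁ k) a, fun K hK Hc hKH hflat s => ?_⟩
  have hKn : n₁ ≤ K := le_trans (le_trans (le_max_left _ _) (le_max_left _ _)) hK
  have hKk : k ≤ K := le_trans (le_trans (le_max_right _ _) (le_max_left _ _)) hK
  have hKa : a ≤ K := le_trans (le_max_right _ _) hK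
  have := A.prob s
  set μ := A.P s with hμ
  set t := Finset.Icc (2*K) (2*K+k) with ht
  set D : ℕ → Set Ω := fun i =>
    (Bn A (2*K) i ∩ (A.N i Hc ∩ A.nocs i (4*K))) \ (Bn A (2*K) i ∩ (A.N i Hc ∩ A.nocs i Hc))
    with hD
  have hcover : A.N 0 Hc ∩ {ω | ∃ l, 4 * K < l ∧ l ≤ Hc ∧ ω ∈ A.cs l} ⊆
      Late A (4*K) ∪ ((A.al (2*K) ∩ (A.none Hc (2*K) (2*K+k) ∩ A.al Hc)) ∪ ⋃ i ∈ t, D i) := by
    rintro ω ⟨hN, l, hl1, hl2, hl3⟩
    by_cases hL : ∃ l', 2*K < l' ∧ l' ≤ 4*K ∧ ω ∈ A.cs l'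
    · left
      obtain ⟨l', h1, h2, h3⟩ := hL
      exact ⟨A.N_left 0 (4*K) Hc (Nat.zero_le _) hKH ω hN, l', by omega, h2, h3⟩
    right
    have hno : ω ∈ A.nocs (2*K) (4*K) := fun l' h1 h2 h3 => hL ⟨l', h1, h2, h3⟩
    by_cases hnone : ω ∈ A.none Hc (2*K) (2*K+k)
    · left
      have hal := A.N_al 0 Hc (Nat.zero_le _) hN
      exact ⟨A.al_anti (2*K) Hc (by omega) hal, hnone, hal⟩
    right
    simp only [PairSys.none, mem_setOf_eq, not_forall] at hnone
    obtain ⟨j, h1, h2, h3⟩ := hnone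
    obtain ⟨i, hi1, hi2, hi3, hi4⟩ := first (Q := fun i => ω ∈ A.N i Hc) h1 (not_not.mp h3)
    refine mem_iUnion₂.mpr ⟨i, Finset.mem_Icc.mpr ⟨hi1, by omega⟩, ?_⟩
    have hB : ω ∈ Bn A (2*K) i := by
      refine ⟨A.N_left 0 i Hc (Nat.zero_le _) (by omega) ω hN, ?_⟩
      intro i' hi' hi'' hNi
      exact hi4 i' hi' hi'' (A.N_trans i' i Hc hi''.le (by omega) ω hNi hi3)
    refine ⟨⟨hB, hi3, nocs_left hi1 hno⟩, fun hbad => ?_⟩
    exact hbad.2.2 l (by omega) hl2 hl3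
  have h1 := measureReal_mono (μ := μ) hcover
  have h2 := measureReal_union_le (μ := μ) (Late A (4*K))
    ((A.al (2*K) ∩ (A.none Hc (2*K) (2*K+k) ∩ A.al Hc)) ∪ ⋃ i ∈ t, D i)
  have h3 := measureReal_union_le (μ := μ) (A.al (2*K) ∩ (A.none Hc (2*K) (2*K+k) ∩ A.al Hc))
    (⋃ i ∈ t, D i)
  have h4 : μ.real (Late A (4*K)) ≤ c₁ / 8 := hn₁ (4*K) (by omega) s
  have h5 : μ.real (A.al (2*K) ∩ (A.none Hc (2*K) (2*K+k) ∩ A.al Hc)) ≤ c₁ / 8 := by
    refine (hk s (2*K) Hc (A.al (2*K)) (by omega) (A.al_meas _) subset_rfl).trans ?_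
    have : (A.P s).real (A.al (2*K)) ≤ 1 := measureReal_le_one
    nlinarith
  have h6 := real_iUnion_le (μ := μ) t D
  have h7 : ∀ i ∈ t, μ.real (D i) ≤ c₁ ^ 2 / 8 * μ.real (Bn A (2*K) i) := by
    intro i hi
    rw [ht, Finset.mem_Icc] at hi
    have hsub : Bn A (2*K) i ∩ (A.N i Hc ∩ A.nocs i Hc) ⊆
        Bn A (2*K) i ∩ (A.N i Hc ∩ A.nocs i (4*K)) :=
      fun ω hω => ⟨hω.1, hω.2.1, nocs_anti (by omega) hω.2.2⟩
    have e0 : μ.real (D i) = μ.real (Bn A (2*K) i ∩ (A.N i Hc ∩ A.nocs i (4*K)))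
        - μ.real (Bn A (2*K) i ∩ (A.N i Hc ∩ A.nocs i Hc)) := by
      rw [hD]
      exact measureReal_diff hsub ((meas i (Bn_meas _ i)).inter
        ((N_measΩ i _ (by omega)).inter (nocs_measΩ i _)))
    rw [e0, hμ, H.FP s i (4*K) Hc (by omega) (by omega) _ (Bn_meas _ i) (Bn_al _ i),
      H.FP s i Hc Hc (by omega) (by omega) _ (Bn_meas _ i) (Bn_al _ i),
      ← integral_sub (integ_φ s i _ _).integrableOn (integ_φ s i _ _).integrableOn]
    calc _ ≤ ∫ ω in Bn A (2*K) i, c₁ ^ 2 / 8 ∂(A.P s) := by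
          refine setIntegral_mono_on ((integ_φ s i _ _).sub (integ_φ s i _ _)).integrableOn
            (integrable_const _).integrableOn (meas i (Bn_meas _ i)) ?_
          intro ω _
          by_cases hd : A.st i ω ∈ A.Dist
          · have f1 : A.φ (Hc-i) (4*K-i) (A.st i ω) ≤ A.b (4*K-i) (A.st i ω) :=
              φ_le_b _ (by omega)
            have f2 : A.b (4*K-i) (A.st i ω) ≤ A.b K (A.st i ω) :=
              b_anti (A := A) (A.st i ω) (show K ≤ 4*K-i by omega)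
            have f3 := hflat _ hd (Hc-i) (by omega) (by omega)
            have f4 : A.φ (Hc-i) (Hc-i) (A.st i ω) = A.b (Hc-i) (A.st i ω) := rfl
            rw [f4]; linarith
          · have f1 := H.eqz _ hd (Hc-i) (4*K-i) (by omega) (by omega)
            have f2 := φ_nonneg (A := A) (Hc-i) (Hc-i) (A.st i ω)
            have f3 : 0 ≤ c₁ ^ 2 / 8 := by positivity
            linarith
      _ = c₁ ^ 2 / 8 * (A.P s).real (Bn A (2*K) i) := by
          rw [setIntegral_const, smul_eq_mul, mul_comm]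
  have h8 : ∑ i ∈ t, μ.real (Bn A (2*K) i) ≤ μ.real (univ : Set Ω) / c₁ := by
    refine sum_cut H s t (Bn A (2*K)) Hc univ (fun i _ => Bn_meas _ i) (fun i _ => Bn_al _ i) ?_
      (fun _ _ => subset_univ _) ?_
    · intro i hi
      rw [ht, Finset.mem_Icc] at hi; omega
    · intro i hi j hj hij ω hω
      rw [ht, Finset.mem_Icc] at hi hj
      exact Bn_disj i hi.1 j (by omega) hij ω hω
  have h9 : ∑ i ∈ t, μ.real (D i) ≤ c₁ ^ 2 / 8 * (1 / c₁) := by
    refine (Finset.sum_le_sum h7).trans ?_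
    rw [← Finset.mul_sum]
    refine mul_le_mul_of_nonneg_left ?_ (by positivity)
    rw [probReal_univ] at h8
    exact h8
  have h10 : c₁ ^ 2 / 8 * (1 / c₁) = c₁ / 8 := by field_simp
  linarith

/-- **(L)** the renewal step. -/
theorem coll (H : A.Hyp a c₁ cₑ β h p Far χ) (hNN : ∀ m, A.al m ⊆ A.N m m)
    (hFC : ∀ s j n L, j ≤ L → L ≤ n → ∀ B, MeasurableSet[A.F j] B → B ⊆ A.al j → ∀ C : Set S,
      (A.P s).real (B ∩ (A.N j n ∩ A.nocs j L ∩ A.st n ⁻¹' C)) =
      ∫ ω in B, (A.P (A.st j ω)).real (A.N 0 (n-j) ∩ A.nocs 0 (L-j) ∩ A.st (n-j) ⁻¹' C)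
        ∂(A.P s)) :
    ∃ (ε : ℝ) (n₀ : ℕ), 0 < ε ∧ ∀ K ≥ n₀, ∀ (Hz K₁ : ℕ) (C : Set S) (A' : ℝ),
      (∀ s ∈ A.Dist, ∀ n, K ≤ n → n ≤ Hz → A.b K s - A.b n s ≤ ε) →
      (∀ s U, Spr U (4*K) K₁ → (∀ m ∈ U, m ≤ Hz) →
        ∑ m ∈ U, (A.P s).real (A.N 0 m ∩ A.nocs 0 m ∩ A.st m ⁻¹' C) ≤ A') →
      ∀ s U, Spr U (4*K) K₁ → (∀ m ∈ U, m ≤ Hz) →
        ∑ m ∈ U, (A.P s).real (A.N 0 m ∩ A.st m ⁻¹' C) ≤ 2 * (K₁ + A' / c₁) := by
  have hc := H.c₁pos
  obtain ⟨n₀, hn₀⟩ := late_small H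
  refine ⟨c₁ ^ 2 / 8, n₀, by positivity, ?_⟩
  intro K hK Hz K₁ C A' HK HA
  -- abbreviations
  set f : ℕ → S → ℝ := fun m s => (A.P s).real (A.N 0 m ∩ A.st m ⁻¹' C) with hf
  set g : ℕ → S → ℝ := fun m s => (A.P s).real (A.N 0 m ∩ A.nocs 0 m ∩ A.st m ⁻¹' C) with hg
  have hf1 : ∀ m s, |f m s| ≤ 1 := fun m s => by
    have := A.prob s
    rw [abs_of_nonneg measureReal_nonneg]; exact measureReal_le_one
  have hg1 : ∀ m s, |g m s| ≤ 1 := fun m s => by
    have := A.prob s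
    rw [abs_of_nonneg measureReal_nonneg]; exact measureReal_le_one
  have hfle : ∀ m s, f m s ≤ 1 := fun m s => (le_abs_self _).trans (hf1 m s)
  have hA0 : ∀ s : S, 0 ≤ A' := fun s => by
    have := HA s ∅ (fun x => by simp) (by simp)
    simpa using this
  set C₀ : ℝ := 2 * (K₁ + A' / c₁) with hC₀
  have hgen : ∀ Hc ≤ Hz, ∀ s U, Spr U (4*K) K₁ → (∀ m ∈ U, m ≤ Hc) →
      ∑ m ∈ U, f m s ≤ C₀ := by
    intro Hc
    induction Hc using Nat.strong_induction_on with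
    | _ Hc ih =>
      intro hHc s U hU hUH
      have hPs := A.prob s
      have hA00 := hA0 s
      have hAc : 0 ≤ A' / c₁ := div_nonneg hA00 hc.le
      have hK₁ : (0:ℝ) ≤ K₁ := Nat.cast_nonneg _
      have hC00 : 0 ≤ C₀ := by rw [hC₀]; positivity
      -- the small levels
      have hsmall : ∑ m ∈ U.filter (fun m => m < 4*K), f m s ≤ K₁ := by
        have h1 : ∑ m ∈ U.filter (fun m => m < 4*K), f m s
            ≤ ∑ m ∈ U.filter (fun m => m < 4*K), (1:ℝ) :=
          Finset.sum_le_sum fun m _ => hfle m s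
        refine h1.trans ?_
        rw [Finset.sum_const, nsmul_eq_mul, mul_one]
        have h2 := hU 0
        have h3 : (U.filter fun m => 0 ≤ m ∧ m < 0 + 4*K) = U.filter (fun m => m < 4*K) := by
          refine Finset.filter_congr fun m _ => ?_
          simp
        rw [h3] at h2
        exact_mod_cast h2
      rcases Nat.lt_or_ge Hc (4*K) with hlt | hge
      · have h1 : U.filter (fun m => m < 4*K) = U := by
          refine Finset.filter_true_of_mem fun m hm => ?_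
          exact lt_of_le_of_lt (hUH m hm) hlt
        rw [h1] at hsmall
        refine hsmall.trans ?_
        rw [hC₀]; linarith
      -- large levels
      set V := U.filter (fun m => ¬ m < 4*K) with hV
      have hsplit : ∑ m ∈ U, f m s = ∑ m ∈ U.filter (fun m => m < 4*K), f m s
          + ∑ m ∈ V, f m s := (Finset.sum_filter_add_sum_filter_not U _ _).symm
      have hVU : ∀ m ∈ V, 4*K ≤ m ∧ m ≤ Hc := by
        intro m hm
        rw [hV, Finset.mem_filter] at hm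
        exact ⟨not_lt.mp hm.2, hUH m hm.1⟩
      have hVS : Spr V (4*K) K₁ := by
        intro x
        refine le_trans (Finset.card_le_card ?_) (hU x)
        intro m hm
        rw [Finset.mem_filter, hV, Finset.mem_filter] at hm
        rw [Finset.mem_filter]
        exact ⟨hm.1.1, hm.2⟩
      have hVH : ∀ m ∈ V, m ≤ Hc := fun m hm => (hVU m hm).2
      -- split by the contacts
      set E2 : ℕ → Set Ω := fun m => A.N 0 m ∩ A.nocs (4*K) m ∩ A.st m ⁻¹' C with hE2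
      set E3 : ℕ → Set Ω := fun m =>
        A.N 0 m ∩ {ω | ∃ l, 4*K < l ∧ l ≤ m ∧ ω ∈ A.cs l} ∩ A.st m ⁻¹' C with hE3
      have hf23 : ∀ m, f m s ≤ (A.P s).real (E2 m) + (A.P s).real (E3 m) := by
        intro m
        refine le_trans (measureReal_mono ?_) (measureReal_union_le _ _)
        rintro ω ⟨h1, h2⟩
        by_cases hL : ∃ l, 4*K < l ∧ l ≤ m ∧ ω ∈ A.cs l
        · exact Or.inr ⟨⟨h1, hL⟩, h2⟩
        · exact Or.inl ⟨⟨h1, fun l h3 h4 h5 => hL ⟨l, h3, h4, h5⟩⟩, h2⟩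
      -- no contact after `4K`
      have hS2 : ∑ m ∈ V, (A.P s).real (E2 m) ≤ A' / c₁ := by
        have h1 := swap_sum (A := A) (s := s) (Finset.Icc (4*K) Hc) V (Bn A (4*K))
          (fun j _ => meas j (Bn_meas _ j)) g hg1 A' ?_ E2 ?_
        · refine h1.trans ?_
          have h2 : ∑ j ∈ Finset.Icc (4*K) Hc, (A.P s).real (Bn A (4*K) j)
              ≤ (A.P s).real (univ : Set Ω) / c₁ := by
            refine sum_cut H s _ (Bn A (4*K)) Hc univ (fun i _ => Bn_meas _ i)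
              (fun i _ => Bn_al _ i) (fun i hi => (Finset.mem_Icc.mp hi).2)
              (fun _ _ => subset_univ _) ?_
            intro i hi j hj hij ω hω
            exact Bn_disj i (Finset.mem_Icc.mp hi).1 j (Finset.mem_Icc.mp hj).2 hij ω hω
          rw [probReal_univ] at h2
          calc A' * ∑ j ∈ Finset.Icc (4*K) Hc, (A.P s).real (Bn A (4*K) j)
              ≤ A' * (1 / c₁) := mul_le_mul_of_nonneg_left h2 hA00
            _ = A' / c₁ := by ring
        · intro j _ s'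
          exact HA s' (sh V j) (spr_sh hVS j) (fun m hm => by
            have := mem_sh_le hVH hm; omega)
        · intro m hm
          obtain ⟨hm1, hm2⟩ := hVU m hm
          have hcov : E2 m ⊆ ⋃ j ∈ (Finset.Icc (4*K) Hc).filter (fun j => j ≤ m),
              (Bn A (4*K) j ∩ (A.N j m ∩ A.nocs j m ∩ A.st m ⁻¹' C)) := by
            rintro ω ⟨⟨h1, h2⟩, h3⟩
            have hNm : ω ∈ A.N m m := hNN m (A.N_al 0 m (Nat.zero_le _) h1)
            obtain ⟨i, hi1, hi2, hi3, hi4⟩ := first (Q := fun i => ω ∈ A.N i m) hm1 hNm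
            refine mem_iUnion₂.mpr ⟨i, Finset.mem_filter.mpr
              ⟨Finset.mem_Icc.mpr ⟨hi1, by omega⟩, hi2⟩, ?_⟩
            refine ⟨⟨A.N_left 0 i m (Nat.zero_le _) hi2 ω h1, ?_⟩, ⟨hi3, nocs_left hi1 h2⟩, h3⟩
            intro i' hi' hi'' hNi
            exact hi4 i' hi' hi'' (A.N_trans i' i m hi''.le hi2 ω hNi hi3)
          refine (measureReal_mono hcov (measure_ne_top _ _)).trans ((real_iUnion_le _ _).trans ?_)
          refine Finset.sum_le_sum fun j hj => le_of_eq ?_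
          rw [Finset.mem_filter] at hj
          exact hFC s j m m hj.2 le_rfl _ (Bn_meas _ j) (Bn_al _ j) C
      -- a contact after `4K`
      have hS3 : ∑ m ∈ V, (A.P s).real (E3 m) ≤ C₀ / 2 := by
        have h1 := swap_sum (A := A) (s := s) (Finset.Ioc (4*K) Hc) V (Bc A (4*K))
          (fun j _ => meas j (Bc_meas _ j)) f hf1 C₀ ?_ E3 ?_
        · refine h1.trans ?_
          have h2 : ∑ j ∈ Finset.Ioc (4*K) Hc, (A.P s).real (Bc A (4*K) j)
              ≤ (A.P s).real (A.N 0 Hc ∩ {ω | ∃ l, 4*K < l ∧ l ≤ Hc ∧ ω ∈ A.cs l}) / c₁ := by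
            refine sum_cut H s _ (Bc A (4*K)) Hc _ (fun i _ => Bc_meas _ i)
              (fun i _ => Bc_al _ i) (fun i hi => (Finset.mem_Ioc.mp hi).2) ?_ ?_
            · intro j hj ω hω
              obtain ⟨hj1, hj2⟩ := Finset.mem_Ioc.mp hj
              obtain ⟨l, ⟨hl1, hl2⟩, ⟨_, hl4⟩, _⟩ := mem_iUnion₂.mp hω.1.2
              exact ⟨A.N_trans 0 j Hc (Nat.zero_le _) hj2 ω hω.1.1 hω.2, l, hl1, by omega, hl4⟩
            · intro i hi j hj hij ω hω
              exact Bc_disj i j (Finset.mem_Ioc.mp hj).2 hij ω hω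
          have h3 := hn₀ K hK Hc hge (fun s' hs' n h4 h5 => HK s' hs' n h4 (h5.trans hHc)) s
          have h4 : ∑ j ∈ Finset.Ioc (4*K) Hc, (A.P s).real (Bc A (4*K) j) ≤ 1/2 := by
            refine h2.trans ?_
            rw [div_le_iff₀ hc]; linarith
          calc C₀ * ∑ j ∈ Finset.Ioc (4*K) Hc, (A.P s).real (Bc A (4*K) j)
              ≤ C₀ * (1/2) := mul_le_mul_of_nonneg_left h4 hC00
            _ = C₀ / 2 := by ring
        · intro j hj s'
          obtain ⟨hj1, hj2⟩ := Finset.mem_Ioc.mp hj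
          exact ih (Hc - j) (by omega) (by omega) s' (sh V j) (spr_sh hVS j)
            (fun m hm => mem_sh_le hVH hm)
        · intro m hm
          obtain ⟨hm1, hm2⟩ := hVU m hm
          have hcov : E3 m ⊆ ⋃ j ∈ (Finset.Ioc (4*K) Hc).filter (fun j => j ≤ m),
              (Bc A (4*K) j ∩ (A.N j m ∩ A.nocs j j ∩ A.st m ⁻¹' C)) := by
            rintro ω ⟨⟨h1, l₀, hl₀1, hl₀2, hl₀3⟩, h3⟩
            have hNm : ω ∈ A.N m m := hNN m (A.N_al 0 m (Nat.zero_le _) h1)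
            obtain ⟨l, hl1, hl2, hl3, hl4⟩ :=
              first (Q := fun l => ω ∈ A.cs l) (x := 4*K+1) (y := l₀) (by omega) hl₀3
            obtain ⟨i, hi1, hi2, hi3, hi4⟩ :=
              first (Q := fun i => ω ∈ A.N i m) (show l ≤ m by omega) hNm
            refine mem_iUnion₂.mpr ⟨i, Finset.mem_filter.mpr
              ⟨Finset.mem_Ioc.mpr ⟨by omega, by omega⟩, hi2⟩, ?_⟩
            refine ⟨⟨A.N_left 0 i m (Nat.zero_le _) hi2 ω h1, mem_iUnion₂.mpr
              ⟨l, ⟨by omega, hi1⟩, ⟨?_, hl3⟩, ?_⟩⟩, ⟨hi3, ?_⟩, h3⟩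
            · intro l' h5 h6
              exact hl4 l' (by omega) (by omega)
            · intro i' hi' hi'' hNi
              exact hi4 i' hi' hi'' (A.N_trans i' i m hi''.le hi2 ω hNi hi3)
            · rw [nocs_self]; exact mem_univ _
          refine (measureReal_mono hcov (measure_ne_top _ _)).trans ((real_iUnion_le _ _).trans ?_)
          refine Finset.sum_le_sum fun j hj => le_of_eq ?_
          rw [Finset.mem_filter] at hj
          have h5 := hFC s j m j le_rfl hj.2 _ (Bc_meas (A := A) (4*K) j) (Bc_al _ j) C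
          rw [Nat.sub_self] at h5
          rw [h5]
          simp only [hf, nocs_self, inter_univ]
      have hS : ∑ m ∈ V, f m s ≤ A' / c₁ + C₀ / 2 := by
        refine (Finset.sum_le_sum fun m _ => hf23 m).trans ?_
        rw [Finset.sum_add_distrib]
        linarith
      rw [hsplit]
      have : C₀ = K₁ + (A' / c₁ + C₀ / 2) := by rw [hC₀]; ring
      rw [this]
      linarith
  intro s U hU hUH
  exact hgen Hz le_rfl s U hU hUH

end Crest.Agent.R154.LRen509
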