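import Crest.Agent.R154.LA_654
import Crest.Agent.R154.Dens_903

/-! Row 154, ROAD 801, list machine (helper654), part 4: one window. -/

set_option autoImplicit false

namespace Crest.Agent.R154.LP654

open Crest.Agent.R154.B5A
open scoped ENNReal
open Classical

variable {BX BY G : Type*} [AddCommGroup G]
variable (ΛX : BX → ℝ≥0∞) (ΛY : BY → ℝ≥0∞) (hX : BX → ℕ) (hY : BY → ℕ) (zX : BX → G) (zY : BY → G)
variable (sX : BX → Set (G × ℕ)) (sY : BY → Set (G × ℕ))

/-- `X` local window lemma -/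
def H2 (C : ℝ≥0∞) (us : ℕ → ℝ≥0∞) : Prop :=
  ∀ (s h h' a a' lo : ℕ) (E : Finset G) (μ : G → ℝ≥0∞) (M lam : ℝ≥0∞), ∑' x, μ x ≤ 1 →
    (∀ x, μ x ≤ M) → lam ≠ 0 → lam ≠ ⊤ → a + s ≤ lo → a' + s ≤ lo → a ≤ a' →
    ∑' x, μ x * (∑' L : List BX, ∑' L' : List BY,
      if HT hX L = h ∧ Dp zX L ∈ E ∧ HT hY L' = h' ∧
          (∃ z k, (z, k) ∈ TT sX zX hX L 0 a ∧ (z, k) ∈ TT sY zY hY L' x a') ∧
          (∀ z k, (z, k) ∈ TT sX zX hX L 0 a → (z, k) ∈ TT sY zY hY L' x a' → lo ≤ k)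
        then LW ΛX L * LW ΛY L' else 0)
      ≤ C * (lam + M * E.card * us s / lam + us s)

/-- `Y` local window lemma -/
def H3 (C : ℝ≥0∞) (us : ℕ → ℝ≥0∞) : Prop :=
  ∀ (s h h' a a' hi : ℕ) (E : Finset G) (μ : G → ℝ≥0∞) (M lam : ℝ≥0∞), ∑' x, μ x ≤ 1 →
    (∀ x, μ x ≤ M) → lam ≠ 0 → lam ≠ ⊤ → hi + s ≤ a + h → hi + s ≤ a' + h' → a + h ≤ a' + h' →
    ∑' x, μ x * (∑' L : List BX, ∑' L' : List BY,
      if HT hX L = h ∧ HT hY L' = h' ∧ Dp zY L' ∈ E ∧
          (∃ z k, (z, k) ∈ TT sX zX hX L 0 a ∧ (z, k) ∈ TT sY zY hY L' x a') ∧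
          (∀ z k, (z, k) ∈ TT sX zX hX L 0 a → (z, k) ∈ TT sY zY hY L' x a' → k ≤ hi)
        then LW ΛX L * LW ΛY L' else 0)
      ≤ C * (lam + M * E.card * us s / lam + us s)

/-- window event: all contacts at depth `≥ lo`, none in `(hi, top]`, one at depth `< b'` -/
def EvW (w : G) (lo b' hi top : ℕ) (L : List BX) (L' : List BY) : Prop :=
  (∀ z k, (z, k) ∈ TT sX zX hX L 0 0 → (z, k) ∈ TT sY zY hY L' w 0 →
    lo ≤ k ∧ ¬ (hi < k ∧ k ≤ top)) ∧
  ∃ z k, (z, k) ∈ TT sX zX hX L 0 0 ∧ (z, k) ∈ TT sY zY hY L' w 0 ∧ k < b'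

lemma red (hsX : ∀ b p, p ∈ sX b → 1 ≤ p.2 ∧ p.2 ≤ hX b)
    (hsY : ∀ b p, p ∈ sY b → 1 ≤ p.2 ∧ p.2 ≤ hY b) (w : G) (lo b' hi top : ℕ)
    (L1 L2 L3 : List BX) (L1' L2' L3' : List BY)
    (e1 : HT hX L1 < lo) (e2 : HT hY L1' < lo) (e3 : b' ≤ HT hX L1 + HT hX L2)
    (e4 : b' ≤ HT hY L1' + HT hY L2')
    (e5 : HT hX L1 + HT hX L2 ≤ top ∨ HT hY L1' + HT hY L2' ≤ top)
    (h : EvW hX hY zX zY sX sY w lo b' hi top (L1 ++ (L2 ++ L3)) (L1' ++ (L2' ++ L3'))) :
    Ev hX hY zX zY sX sY L2 L2' (w + Dp zY L1' - Dp zX L1) (HT hX L1) (HT hY L1') lo hi := by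
  have mX : ∀ z k, (z, k) ∈ TT sX zX hX L2 0 (HT hX L1) →
      (z + Dp zX L1, k) ∈ TT sX zX hX (L1 ++ (L2 ++ L3)) 0 0 := by
    intro z k hz
    rw [TT_append, TT_append]
    refine Or.inr (Or.inl ?_)
    rw [TT_shift]
    simpa using hz
  have mY : ∀ z k, (z, k) ∈ TT sY zY hY L2' (w + Dp zY L1' - Dp zX L1) (HT hY L1') →
      (z + Dp zX L1, k) ∈ TT sY zY hY (L1' ++ (L2' ++ L3')) w 0 := by
    intro z k hz
    rw [TT_append, TT_append]
    refine Or.inr (Or.inl ?_)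
    rw [zero_add]
    have : w + Dp zY L1' = (w + Dp zY L1' - Dp zX L1) + Dp zX L1 := by abel
    rw [this, TT_shift]
    simpa using hz
  constructor
  · obtain ⟨z, k, h1, h2, h3⟩ := h.2
    have hlo := (h.1 z k h1 h2).1
    refine ⟨z - Dp zX L1, k, ?_, ?_⟩
    · rw [TT_append, TT_append] at h1
      rcases h1 with h1 | h1 | h1
      · have := TT_depth hX sX zX hsX _ _ _ _ h1
        simp only at this; omega
      · rw [TT_shift] at h1
        simpa using h1
      · have := TT_depth hX sX zX hsX _ _ _ _ h1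
        simp only at this; omega
    · rw [TT_append, TT_append] at h2
      rcases h2 with h2 | h2 | h2
      · have := TT_depth hY sY zY hsY _ _ _ _ h2
        simp only at this; omega
      · have e : w + Dp zY L1' = (w + Dp zY L1' - Dp zX L1) + Dp zX L1 := by abel
        rw [e, TT_shift] at h2
        simpa using h2
      · have := TT_depth hY sY zY hsY _ _ _ _ h2
        simp only at this; omega
  · intro z k h1 h2
    have hh := h.1 _ _ (mX z k h1) (mY z k h2)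
    refine ⟨hh.1, ?_⟩
    by_contra hc
    apply hh.2
    refine ⟨by omega, ?_⟩
    have d1 := TT_depth hX sX zX hsX _ _ _ _ h1
    have d2 := TT_depth hY sY zY hsY _ _ _ _ h2
    simp only at d1 d2
    rcases e5 with e5 | e5 <;> omega

section one
variable {B : Type*} (Λ : B → ℝ≥0∞) (h : B → ℕ) (z : B → G)

lemma Cn_add_le (hU1 : ∀ n, U Λ h n ≤ 1) (n : ℕ) (c : ℝ≥0∞) (f g : List B → ℝ≥0∞)
    (hfg : ∀ L, HT h L = n → f L ≤ c + g L) : Cn Λ h n f ≤ c + Cn Λ h n g := by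
  calc Cn Λ h n f ≤ Cn Λ h n (fun L => c + g L) := Cn_mono Λ h n hfg
    _ = Cn Λ h n (fun _ => c) + Cn Λ h n g := by
        rw [Cn, Cn, Cn, ← ENNReal.tsum_add]
        refine tsum_congr fun L => ?_
        split_ifs <;> simp [mul_add]
    _ ≤ _ := by
        gcongr
        exact Cn_const_le Λ h hU1 n c fun _ => le_rfl

lemma SS_const (h1 : ∀ b, 1 ≤ h b) (hΛ : ∑' b, Λ b = 1) (a T : ℕ) (c : ℝ≥0∞)
    (f : List B → List B → ℝ≥0∞) :
    S Λ h a (fun L1 => S Λ h T (fun L2 => c + f L1 L2)) =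
      c + S Λ h a (fun L1 => S Λ h T (fun L2 => f L1 L2)) := by
  have e1 : ∀ L1, S Λ h T (fun L2 => c + f L1 L2) = c + S Λ h T (fun L2 => f L1 L2) := fun L1 => by
    rw [S_add Λ h T (fun _ => c) (fun L2 => f L1 L2), S_const Λ h h1 hΛ]
  simp_rw [e1]
  rw [S_add Λ h a (fun _ => c), S_const Λ h h1 hΛ]

lemma far_eq (T i0 : ℕ) : ∑' p : ℕ × G, (if T + i0 < p.1 then V Λ h z T p else 0)
    = ov Λ h T i0 := by
  rw [ov]
  refine (tsum_congr fun p => ?_).trans (VF Λ h z T (fun p => if T + i0 < p.1 then 1 else 0)).symm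
  split_ifs <;> simp

lemma lowmass (T : ℕ) (th : ℝ≥0∞) : S Λ h T (fun L => if V Λ h z T (HT h L, Dp z L) < th then 1 else 0)
    = ∑' p : ℕ × G, (if V Λ h z T p < th then V Λ h z T p else 0) := by
  refine (VF Λ h z T (fun p => if V Λ h z T p < th then 1 else 0)).trans
    (tsum_congr fun p => ?_)
  split_ifs <;> simp

/-- everything about one walker at scale `T` -/
lemma scale (h1 : ∀ b, 1 ≤ h b) (hΛ : ∑' b, Λ b = 1) (T i0 J : ℕ) (u e : ℝ≥0∞) (hu0 : u ≠ 0)
    (hu1 : u ≤ 1) (he : ov Λ h T i0 ≤ e) : ∃ th : ℝ≥0∞, th ≠ 0 ∧ th ≤ 1 ∧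
    S Λ h T (fun L => if V Λ h z T (HT h L, Dp z L) < th then 1 else 0) ≤ u ∧
    (∃ E : ℕ → Finset G, (∀ k y, y ∈ E k ↔ th ≤ V Λ h z T (k, y)) ∧
      ∀ k, th * (E k).card ≤ 1) ∧
    ∀ a, J * (T + i0) ≤ a → ∃ g b : ℕ × G → ℝ≥0∞, (∀ r, V Λ h z a r ≤ g r + b r) ∧
      (∀ r, g r ≤ V Λ h z a r) ∧ (∀ r, g r ≤ (i0 + 1) * th / u) ∧
      ∑' r, b r ≤ (1 - u) ^ J + e * J := by
  have hV1 := V_tsum Λ h z h1 hΛ T
  obtain ⟨th, hth0, hth1, hlow, hup⟩ := Dens903.quantile (V Λ h z T) hV1 hu0 hu1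
  have hut : u ≠ ⊤ := ne_top_of_le_ne_top ENNReal.one_ne_top hu1
  refine ⟨th, hth0, hth1, by rw [lowmass]; exact hlow, ?_, ?_⟩
  · have hfin : ∀ k, {y | th ≤ V Λ h z T (k, y)}.Finite := fun k =>
      ENNReal.finite_const_le_of_tsum_ne_top
        (ne_top_of_le_ne_top ENNReal.one_ne_top (V_row Λ h z h1 hΛ T k)) hth0
    refine ⟨fun k => (hfin k).toFinset, fun k y => by simp, fun k => ?_⟩
    calc th * ((hfin k).toFinset.card : ℝ≥0∞) = ∑ y ∈ (hfin k).toFinset, th := by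
          rw [Finset.sum_const, nsmul_eq_mul, mul_comm]
      _ ≤ ∑ y ∈ (hfin k).toFinset, V Λ h z T (k, y) :=
          Finset.sum_le_sum fun y hy => by simpa using hy
      _ ≤ ∑' y, V Λ h z T (k, y) := ENNReal.sum_le_tsum _
      _ ≤ 1 := V_row Λ h z h1 hΛ T k
  · have hq : ∑' p : ℕ × G, (if p.1 ≤ T + i0 ∧ th < V Λ h z T p then V Λ h z T p else 0) ≤ 1 - u := by
      have hsum : ∑' p, (if V Λ h z T p ≤ th then V Λ h z T p else 0)
          + ∑' p, (if th < V Λ h z T p then V Λ h z T p else 0) = 1 := by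
        rw [← ENNReal.tsum_add, ← hV1]
        refine tsum_congr fun p => ?_
        by_cases hc : V Λ h z T p ≤ th
        · rw [if_pos hc, if_neg (not_lt.2 hc), add_zero]
        · rw [if_neg hc, if_pos (not_le.1 hc), zero_add]
      have h3 : ∑' p, (if th < V Λ h z T p then V Λ h z T p else 0) ≤ 1 - u := by
        refine ENNReal.le_sub_of_add_le_left hut ?_
        rw [← hsum]
        gcongr
      refine le_trans (ENNReal.tsum_le_tsum fun p => ?_) h3
      by_cases hc : p.1 ≤ T + i0 ∧ th < V Λ h z T p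
      · rw [if_pos hc, if_pos hc.2]
      · rw [if_neg hc]; exact zero_le
    have hfar : ∑' p : ℕ × G, (if T + i0 < p.1 then V Λ h z T p else 0) ≤ e := by
      rw [far_eq]; exact he
    intro a ha
    obtain ⟨g, b, h2, h3, h4⟩ := dens Λ h z h1 hΛ T i0 th (1 - u) e hq hfar J a ha
    have hq1 : (1 - u) ≤ 1 := tsub_le_self
    have hgeo : ∑ j ∈ Finset.range J, (1 - u) ^ j ≤ u⁻¹ := by
      calc ∑ j ∈ Finset.range J, (1 - u) ^ j ≤ ∑' j : ℕ, (1 - u) ^ j := ENNReal.sum_le_tsum _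
        _ = (1 - (1 - u))⁻¹ := ENNReal.tsum_geometric _
        _ = u⁻¹ := by rw [ENNReal.sub_sub_cancel ENNReal.one_ne_top hu1]
    have hJ : ∑ j ∈ Finset.range J, (1 - u) ^ j ≤ J := by
      calc ∑ j ∈ Finset.range J, (1 - u) ^ j ≤ ∑ j ∈ Finset.range J, (1 : ℝ≥0∞) :=
            Finset.sum_le_sum fun j _ => pow_le_one' hq1 j
        _ = J := by simp
    refine ⟨fun r => min (g r) (V Λ h z a r), b, fun r => ?_, fun r => min_le_right _ _,
      fun r => ?_, ?_⟩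
    · simp only
      rcases le_total (g r) (V Λ h z a r) with hc | hc
      · rw [min_eq_left hc]; exact h2 r
      · rw [min_eq_right hc]; exact le_self_add
    · refine (min_le_left _ _).trans ((h3 r).trans ?_)
      rw [ENNReal.div_eq_inv_mul, mul_comm (u⁻¹)]
      exact mul_le_mul_right hgeo _
    · refine h4.trans ?_
      gcongr

end one

set_option maxHeartbeats 4000000 in
/-- **one window** -/
theorem window (h1X : ∀ b, 1 ≤ hX b) (h1Y : ∀ b, 1 ≤ hY b) (hΛX : ∑' b, ΛX b = 1)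
    (hΛY : ∑' b, ΛY b = 1) (hUX : ∀ n, U ΛX hX n ≤ 1) (hUY : ∀ n, U ΛY hY n ≤ 1)
    (hsX : ∀ b p, p ∈ sX b → 1 ≤ p.2 ∧ p.2 ≤ hX b)
    (hsY : ∀ b p, p ∈ sY b → 1 ≤ p.2 ∧ p.2 ≤ hY b)
    (C : ℝ≥0∞) (us : ℕ → ℝ≥0∞)
    (W2 : H2 ΛX ΛY hX hY zX zY sX sY C us) (W3 : H3 ΛX ΛY hX hY zX zY sX sY C us)
    (t i0 s J a n : ℕ) (u e lam : ℝ≥0∞) (hu0 : u ≠ 0) (hu1 : u ≤ 1) (hl0 : lam ≠ 0) (hlt : lam ≠ ⊤)
    (heX : ∀ a, ov ΛX hX a i0 ≤ e) (heY : ∀ a, ov ΛY hY a i0 ≤ e)
    (ht : 2 * i0 + s + 1 ≤ t) (hJ : J * (3 * t + i0) ≤ a) (hn : a + 3 * t + 3 * i0 ≤ n) (w : G) :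
    Cn ΛX hX n (fun L => Cn ΛY hY n (fun L' => if EvW hX hY zX zY sX sY w (a + t) (a + 2 * t)
      (a + 3 * t - 2 * i0 - s) (a + 3 * t + 2 * i0) L L' then 1 else 0))
      ≤ 8 * e + u ^ 2 + 2 * ((1 - u) ^ J + e * J) + 2 * (((i0 : ℝ≥0∞) + 1) ^ 4 *
        (C * (lam + ((i0 + 1) / u) * us s / lam + us s))) := by
  set T := 3 * t with hT
  set lo := a + t with hlo
  set b' := a + 2 * t with hb'
  set hi := a + T - 2 * i0 - s with hhi
  set top := a + T + 2 * i0 with htop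
  set Bd := C * (lam + ((i0 + 1) / u) * us s / lam + us s) with hBd
  set β := (1 - u) ^ J + e * J with hβ
  obtain ⟨thX, hthX0, hthX1, hlowX, ⟨EX, hEX, hcX⟩, hdX⟩ :=
    scale ΛX hX zX h1X hΛX T i0 J u e hu0 hu1 (heX T)
  obtain ⟨thY, hthY0, hthY1, hlowY, ⟨EY, hEY, hcY⟩, hdY⟩ :=
    scale ΛY hY zY h1Y hΛY T i0 J u e hu0 hu1 (heY T)
  set F : List BX → List BY → ℝ≥0∞ := fun L L' =>
    if EvW hX hY zX zY sX sY w lo b' hi top L L' then 1 else 0 with hF
  have hF1 : ∀ L L', F L L' ≤ 1 := fun L L' => by simp only [hF]; split_ifs <;> simp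
  set f : List BX → ℝ≥0∞ := fun L => Cn ΛY hY n (fun L' => F L L') with hf
  have hf1 : ∀ L, f L ≤ 1 := fun L => Cn_const_le ΛY hY hUY n 1 fun L' => hF1 L L'
  set lX : List BX → Prop := fun L => thX ≤ V ΛX hX zX T (HT hX L, Dp zX L) with hlX
  set lY : List BY → Prop := fun L => thY ≤ V ΛY hY zY T (HT hY L, Dp zY L) with hlY
  have hlowX' : S ΛX hX T (fun L => if ¬ lX L then 1 else 0) ≤ u := by
    refine le_trans (le_of_eq ?_) hlowX
    refine S_congr ΛX hX T fun L _ => ?_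
    simp only [hlX, not_le]
  have hlowY' : S ΛY hY T (fun L => if ¬ lY L then 1 else 0) ≤ u := by
    refine le_trans (le_of_eq ?_) hlowY
    refine S_congr ΛY hY T fun L _ => ?_
    simp only [hlY, not_le]
  -- the `Y`-local part of `f`
  set fl : List BX → ℝ≥0∞ := fun L => S ΛY hY a (fun L1' => S ΛY hY T (fun L2' =>
    if (HT hY L1' ≤ a + i0 ∧ HT hY L2' ≤ T + i0) ∧ lY L2' then
      Cn ΛY hY (n - HT hY L1' - HT hY L2') (fun L3' => F L (L1' ++ (L2' ++ L3'))) else 0)) with hfl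
  have hfl1 : ∀ L, fl L ≤ 1 := fun L => by
    refine S_le_one ΛY hY h1Y hΛY a fun L1' => S_le_one ΛY hY h1Y hΛY T fun L2' => ?_
    split_ifs
    · exact Cn_const_le ΛY hY hUY _ 1 fun L3' => hF1 _ _
    · exact zero_le
  have hffl : ∀ L, f L ≤ (2 * e + u) + fl L := by
    intro L
    have := walk_le ΛY hY h1Y hΛY hUY a T i0 n (by omega) (fun L' => F L L') (hF1 L)
      (fun L1' L2' => Cn ΛY hY (n - HT hY L1' - HT hY L2') (fun L3' => F L (L1' ++ (L2' ++ L3'))))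
      (fun _ _ _ _ _ _ => le_rfl)
    refine this.trans ?_
    have k1 : S ΛY hY a (fun L1' => S ΛY hY T (fun L2' =>
        if HT hY L1' ≤ a + i0 ∧ HT hY L2' ≤ T + i0 then
          Cn ΛY hY (n - HT hY L1' - HT hY L2') (fun L3' => F L (L1' ++ (L2' ++ L3'))) else 0))
        ≤ u + fl L := by
      calc _ ≤ S ΛY hY a (fun L1' => u + S ΛY hY T (fun L2' =>
            if (HT hY L1' ≤ a + i0 ∧ HT hY L2' ≤ T + i0) ∧ lY L2' then
            Cn ΛY hY (n - HT hY L1' - HT hY L2') (fun L3' => F L (L1' ++ (L2' ++ L3'))) else 0)) := by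
            refine S_mono ΛY hY a fun L1' _ => ?_
            refine le_trans ?_ (add_le_add hlowY' le_rfl)
            rw [← S_add]
            refine S_mono ΛY hY T fun L2' _ => ?_
            by_cases hc : lY L2'
            · by_cases hg : HT hY L1' ≤ a + i0 ∧ HT hY L2' ≤ T + i0
              · rw [if_pos hg, if_neg (not_not.2 hc), if_pos ⟨hg, hc⟩, zero_add]
              · rw [if_neg hg]; exact zero_le
            · rw [if_pos hc]
              refine le_trans ?_ le_self_add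
              split_ifs
              · exact Cn_const_le ΛY hY hUY _ 1 fun L3' => hF1 _ _
              · exact zero_le
        _ = u + fl L := by rw [S_add, S_const ΛY hY h1Y hΛY]
    calc ov ΛY hY a i0 + ov ΛY hY T i0 + _ ≤ e + e + (u + fl L) :=
          add_le_add (add_le_add (heY a) (heY T)) k1
      _ = _ := by ring
  -- `X` decomposition
  have step1 := walk_le ΛX hX h1X hΛX hUX a T i0 n (by omega) f hf1
    (fun L1 L2 => Cn ΛX hX (n - HT hX L1 - HT hX L2) (fun L3 => f (L1 ++ (L2 ++ L3))))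
    (fun _ _ _ _ _ _ => le_rfl)
  refine step1.trans ?_
  have split : S ΛX hX a (fun L1 => S ΛX hX T (fun L2 =>
      if HT hX L1 ≤ a + i0 ∧ HT hX L2 ≤ T + i0 then
        Cn ΛX hX (n - HT hX L1 - HT hX L2) (fun L3 => f (L1 ++ (L2 ++ L3))) else 0))
      ≤ S ΛX hX a (fun L1 => S ΛX hX T (fun L2 =>
      if (HT hX L1 ≤ a + i0 ∧ HT hX L2 ≤ T + i0) ∧ lX L2 then
        Cn ΛX hX (n - HT hX L1 - HT hX L2) (fun L3 => f (L1 ++ (L2 ++ L3))) else 0))
      + ((2 * e + u) * u + Cn ΛX hX n fl) := by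
    calc _ ≤ S ΛX hX a (fun L1 => S ΛX hX T (fun L2 =>
          (if (HT hX L1 ≤ a + i0 ∧ HT hX L2 ≤ T + i0) ∧ lX L2 then
            Cn ΛX hX (n - HT hX L1 - HT hX L2) (fun L3 => f (L1 ++ (L2 ++ L3))) else 0)
          + ((2 * e + u) * (if ¬ lX L2 then 1 else 0)
            + (if HT hX L1 ≤ a + i0 ∧ HT hX L2 ≤ T + i0 then
              Cn ΛX hX (n - HT hX L1 - HT hX L2) (fun L3 => fl (L1 ++ (L2 ++ L3))) else 0)))) := by
          refine S_mono ΛX hX a fun L1 _ => S_mono ΛX hX T fun L2 _ => ?_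
          by_cases hg : HT hX L1 ≤ a + i0 ∧ HT hX L2 ≤ T + i0
          · by_cases hc : lX L2
            · rw [if_pos hg, if_pos ⟨hg, hc⟩]; exact le_self_add
            · rw [if_pos hg, if_neg (fun hh => hc hh.2), if_pos hc, if_pos hg, zero_add, mul_one]
              exact Cn_add_le ΛX hX hUX _ _ _ _ fun L3 _ => hffl _
          · rw [if_neg hg]; exact zero_le
      _ = S ΛX hX a (fun L1 => S ΛX hX T (fun L2 =>
          (if (HT hX L1 ≤ a + i0 ∧ HT hX L2 ≤ T + i0) ∧ lX L2 then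
            Cn ΛX hX (n - HT hX L1 - HT hX L2) (fun L3 => f (L1 ++ (L2 ++ L3))) else 0)))
          + (S ΛX hX a (fun _ => (2 * e + u) * S ΛX hX T (fun L2 => if ¬ lX L2 then 1 else 0))
          + S ΛX hX a (fun L1 => S ΛX hX T (fun L2 =>
            if HT hX L1 ≤ a + i0 ∧ HT hX L2 ≤ T + i0 then
              Cn ΛX hX (n - HT hX L1 - HT hX L2) (fun L3 => fl (L1 ++ (L2 ++ L3))) else 0))) := by
          rw [← S_add, ← S_add]
          refine S_congr ΛX hX a fun L1 _ => ?_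
          rw [← S_mul_left, ← S_add, ← S_add]
      _ ≤ _ := by
          refine add_le_add le_rfl (add_le_add ?_ ?_)
          · rw [S_const ΛX hX h1X hΛX]
            exact mul_le_mul_right hlowX' _
          · exact walk_ge ΛX hX h1X a T i0 n (by omega) fl
  -- part (2)
  have A2 : S ΛX hX a (fun L1 => S ΛX hX T (fun L2 =>
      if (HT hX L1 ≤ a + i0 ∧ HT hX L2 ≤ T + i0) ∧ lX L2 then
        Cn ΛX hX (n - HT hX L1 - HT hX L2) (fun L3 => f (L1 ++ (L2 ++ L3))) else 0))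
      ≤ 2 * e + (β + ((i0 : ℝ≥0∞) + 1) ^ 4 * Bd) := by
    have c1 : ∀ L1 L2, FP hX a L1 → FP hX T L2 →
        (if (HT hX L1 ≤ a + i0 ∧ HT hX L2 ≤ T + i0) ∧ lX L2 then
        Cn ΛX hX (n - HT hX L1 - HT hX L2) (fun L3 => f (L1 ++ (L2 ++ L3))) else 0)
        ≤ 2 * e + S ΛY hY (a + i0) (fun L1' => S ΛY hY T (fun L2' =>
      if ((HT hX L1 ≤ a + i0 ∧ HT hX L2 ≤ T + i0) ∧ (HT hY L1' ≤ (a + i0) + i0 ∧ HT hY L2' ≤ T + i0)) ∧
        lX L2 ∧ Ev hX hY zX zY sX sY L2 L2' (w + Dp zY L1' - Dp zX L1) (HT hX L1) (HT hY L1') lo hi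
      then 1 else 0)) := by
      intro L1 L2 hF1' hF2'
      split_ifs with hg
      · refine Cn_le_aux ΛX hX hUX _ _ fun L3 _ => ?_
        have := walk_le ΛY hY h1Y hΛY hUY (a + i0) T i0 n (by omega)
          (fun L' => F (L1 ++ (L2 ++ L3)) L') (hF1 _)
          (fun L1' L2' => if Ev hX hY zX zY sX sY L2 L2' (w + Dp zY L1' - Dp zX L1)
            (HT hX L1) (HT hY L1') lo hi then 1 else 0) ?_
        · refine this.trans ?_
          refine add_le_add (le_trans (add_le_add (heY _) (heY _)) (le_of_eq (two_mul e).symm)) ?_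
          refine S_mono ΛY hY _ fun L1' _ => S_mono ΛY hY _ fun L2' _ => ?_
          by_cases h5 : HT hY L1' ≤ a + i0 + i0 ∧ HT hY L2' ≤ T + i0
          · rw [if_pos h5]
            split_ifs with h6 h7
            · exact le_rfl
            · exact absurd ⟨⟨hg.1, h5⟩, hg.2, h6⟩ h7
            · exact zero_le
            · exact le_rfl
          · rw [if_neg h5]; exact zero_le
        · intro L1' L2' k1 k2 k3 k4
          refine Cn_le_aux ΛY hY hUY _ _ fun L3' _ => ?_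
          simp only [hF]
          have p1 := FP_le hX a L1 hF1'
          have p2 := FP_le hX T L2 hF2'
          have p3 := FP_le hY _ L1' k1
          have p4 := FP_le hY T L2' k2
          split_ifs with h6 h7
          · exact le_rfl
          · exact absurd (red hX hY zX zY sX sY hsX hsY w lo b' hi top L1 L2 L3 L1' L2' L3'
              (by omega) (by omega) (by omega) (by omega) (Or.inl (by omega)) h6) h7
          · exact zero_le
          · exact le_rfl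
      · exact zero_le
    obtain ⟨g, b, d1, d2, d3, d4⟩ := hdX a hJ
    have co := core ΛX ΛY hX hY zX zY sX sY h1X h1Y hΛX hΛY a (a + i0) T T i0 lo hi w
      (fun k y => thX ≤ V ΛX hX zX T (k, y)) (fun _ _ => True) g b
      (V ΛY hY zY (a + i0)) (fun _ => 0) β ((i0 + 1) * thX / u) Bd d1 (fun p => by simp) d2
      (fun p => le_rfl) (by simpa using d4) (Or.inl d3) ?_
    · refine le_trans (S_mono ΛX hX a fun L1 k1 => S_mono ΛX hX T fun L2 k2 => c1 L1 L2 k1 k2) ?_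
      rw [SS_const ΛX hX h1X hΛX a T (2 * e) (fun L1 L2 => S ΛY hY (a + i0) (fun L1' =>
        S ΛY hY T (fun L2' => if ((HT hX L1 ≤ a + i0 ∧ HT hX L2 ≤ T + i0) ∧
          (HT hY L1' ≤ (a + i0) + i0 ∧ HT hY L2' ≤ T + i0)) ∧
        lX L2 ∧ Ev hX hY zX zY sX sY L2 L2' (w + Dp zY L1' - Dp zX L1) (HT hX L1) (HT hY L1') lo hi
        then 1 else 0)))]
      refine add_le_add le_rfl (le_trans ?_ co)
      refine S_mono ΛX hX _ fun L1 _ => S_mono ΛX hX _ fun L2 _ => ?_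
      refine S_mono ΛY hY _ fun L1' _ => S_mono ΛY hY _ fun L2' _ => ?_
      split_ifs with h6 h7
      · exact le_rfl
      · exact absurd ⟨h6.1.1, h6.1.2, h6.2.1, trivial, h6.2.2⟩ h7
      · exact zero_le
      · exact le_rfl
    · intro c d hh hh' q1 q2 q3 q4 q5 q6 q7 q8 μ hμ1 hμM
      refine le_trans ?_ (le_trans (W2 s hh hh' c d lo (EX hh) μ ((i0 + 1) * thX / u) lam hμ1 hμM hl0
        hlt (by omega) (by omega) (by omega)) ?_)
      · refine ENNReal.tsum_le_tsum fun x => mul_le_mul_right ?_ _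
        rw [KK]
        refine ENNReal.tsum_le_tsum fun L => ENNReal.tsum_le_tsum fun L' => ?_
        split_ifs with v1 v2
        · exact le_rfl
        · exact absurd ⟨v1.1, (hEX hh _).2 v1.2.1, v1.2.2.1, v1.2.2.2.2.1,
            fun z k m1 m2 => (v1.2.2.2.2.2 z k m1 m2).1⟩ v2
        · exact zero_le
        · exact le_rfl
      · rw [hBd]
        gcongr
        calc (i0 + 1) * thX / u * ((EX hh).card : ℝ≥0∞)
            = (i0 + 1) / u * (thX * ((EX hh).card : ℝ≥0∞)) := by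
              rw [div_eq_mul_inv, div_eq_mul_inv]; ring
          _ ≤ (i0 + 1) / u * 1 := mul_le_mul_right (hcX hh) _
          _ = _ := mul_one _
  -- part (3)
  have A3 : Cn ΛX hX n fl ≤ 2 * e + (β + ((i0 : ℝ≥0∞) + 1) ^ 4 * Bd) := by
    have st := walk_le ΛX hX h1X hΛX hUX a (T - 2 * i0) i0 n (by omega) fl hfl1
      (fun L1 L2 => S ΛY hY a (fun L1' => S ΛY hY T (fun L2' =>
        if (HT hY L1' ≤ a + i0 ∧ HT hY L2' ≤ T + i0) ∧ lY L2' ∧
          Ev hX hY zX zY sX sY L2 L2' (w + Dp zY L1' - Dp zX L1) (HT hX L1) (HT hY L1') lo hi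
          then 1 else 0))) ?_
    · obtain ⟨g, b, d1, d2, d3, d4⟩ := hdY a hJ
      have co := core ΛX ΛY hX hY zX zY sX sY h1X h1Y hΛX hΛY a a (T - 2 * i0) T i0 lo hi w
        (fun _ _ => True) (fun k y => thY ≤ V ΛY hY zY T (k, y))
        (V ΛX hX zX a) (fun _ => 0) g b β ((i0 + 1) * thY / u) Bd (fun p => by simp) d1
        (fun p => le_rfl) d2 (by simpa using d4) (Or.inr d3) ?_
      · refine st.trans (add_le_add (le_trans (add_le_add (heX _) (heX _))
          (le_of_eq (two_mul e).symm)) (le_trans ?_ co))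
        refine S_mono ΛX hX _ fun L1 _ => S_mono ΛX hX _ fun L2 _ => ?_
        by_cases h5 : HT hX L1 ≤ a + i0 ∧ HT hX L2 ≤ T - 2 * i0 + i0
        · rw [if_pos h5]
          refine S_mono ΛY hY _ fun L1' _ => S_mono ΛY hY _ fun L2' _ => ?_
          split_ifs with h6 h7
          · exact le_rfl
          · exact absurd ⟨h5, h6.1, trivial, h6.2.1, h6.2.2⟩ h7
          · exact zero_le
          · exact le_rfl
        · rw [if_neg h5]; exact zero_le
      · intro c d hh hh' q1 q2 q3 q4 q5 q6 q7 q8 μ hμ1 hμM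
        refine le_trans ?_ (le_trans (W3 s hh hh' c d hi (EY hh') μ ((i0 + 1) * thY / u) lam hμ1 hμM
          hl0 hlt (by omega) (by omega) (by omega)) ?_)
        · refine ENNReal.tsum_le_tsum fun x => mul_le_mul_right ?_ _
          rw [KK]
          refine ENNReal.tsum_le_tsum fun L => ENNReal.tsum_le_tsum fun L' => ?_
          split_ifs with v1 v2
          · exact le_rfl
          · exact absurd ⟨v1.1, v1.2.2.1, (hEY hh' _).2 v1.2.2.2.1, v1.2.2.2.2.1,
              fun z k m1 m2 => (v1.2.2.2.2.2 z k m1 m2).2⟩ v2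
          · exact zero_le
          · exact le_rfl
        · rw [hBd]
          gcongr
          calc (i0 + 1) * thY / u * ((EY hh').card : ℝ≥0∞)
              = (i0 + 1) / u * (thY * ((EY hh').card : ℝ≥0∞)) := by
                rw [div_eq_mul_inv, div_eq_mul_inv]; ring
            _ ≤ (i0 + 1) / u * 1 := mul_le_mul_right (hcY hh') _
            _ = _ := mul_one _
    · intro L1 L2 k1 k2 k3 k4
      refine Cn_le_aux ΛX hX hUX _ _ fun L3 _ => ?_
      simp only [hfl]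
      refine S_mono ΛY hY _ fun L1' k5 => S_mono ΛY hY _ fun L2' k6 => ?_
      by_cases h6 : (HT hY L1' ≤ a + i0 ∧ HT hY L2' ≤ T + i0) ∧ lY L2'
      · rw [if_pos h6]
        refine Cn_le_aux ΛY hY hUY _ _ fun L3' _ => ?_
        simp only [hF]
        have p1 := FP_le hX a L1 k1
        have p2 := FP_le hX _ L2 k2
        have p3 := FP_le hY _ L1' k5
        have p4 := FP_le hY T L2' k6
        split_ifs with h8 h7
        · exact le_rfl
        · exact absurd ⟨h6.1, h6.2, red hX hY zX zY sX sY hsX hsY w lo b' hi top L1 L2 L3 L1' L2' L3'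
            (by omega) (by omega) (by omega) (by omega) (Or.inl (by omega)) h8⟩ h7
        · exact zero_le
        · exact le_rfl
      · rw [if_neg h6]; exact zero_le
  calc ov ΛX hX a i0 + ov ΛX hX T i0 + _
      ≤ (e + e) + ((2 * e + (β + ((i0 : ℝ≥0∞) + 1) ^ 4 * Bd)) + ((2 * e + u) * u
        + (2 * e + (β + ((i0 : ℝ≥0∞) + 1) ^ 4 * Bd)))) := by
        refine add_le_add (add_le_add (heX a) (heX T)) (split.trans ?_)
        exact add_le_add A2 (add_le_add le_rfl A3)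
    _ ≤ (e + e) + ((2 * e + (β + ((i0 : ℝ≥0∞) + 1) ^ 4 * Bd)) + ((2 * e * 1 + u * u)
        + (2 * e + (β + ((i0 : ℝ≥0∞) + 1) ^ 4 * Bd)))) := by
        rw [add_mul]
        gcongr
    _ = _ := by ring

end Crest.Agent.R154.LP654
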