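import Crest.Agent.R154.LAsm_9
import Crest.Agent.R154.B5Br_657
import Crest.Agent.R154.AsmA_789
import Crest.Agent.R154.WMass_286

/-! Row 154, ROAD 801 (helper9): the exact height layers from the two window lemmas in words
(common height `H`, common cut levels) and the thin slab. -/

set_option autoImplicit false

open MeasureTheory ProbabilityTheory Crest.ProbabilityR.RandomEnvironment
open scoped ENNReal

namespace Crest.Agent.R154.LWord9

open Crest.Agent.R154.B5A Crest.Agent.R154.B5W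
open Crest.Agent.R154.Flux566 (lw endp sitesL)
open Crest.Agent.R154.NB28 (IsUp IsDn Cm KW KappaW)
open Crest.Agent.R154.LAsm9 (Side Layer)

/-! ### abstract lemmas -/

open Classical in
lemma quant2 {ι : Type*} (p : ι → ℝ≥0∞) (hp : ∑' i, p i ≤ 1) {u : ℝ≥0∞} (hu : u ≠ 0)
    (hu1 : u ≤ ∑' i, p i) : ∃ θ : ℝ≥0∞, θ ≠ 0 ∧ θ ≤ 1 ∧ (∑' i, if p i < θ then p i else 0) ≤ u ∧
      u ≤ (∑' i, if p i < 2 * θ then p i else 0) := by
  have hex := AsmA789.exists_small p hp hu
  set P : ℕ → Prop := fun q => (∑' i, if p i < (2 : ℝ≥0∞)⁻¹ ^ q then p i else 0) ≤ u with hP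
  have hex' : ∃ q, P q := hex
  have hq := Nat.find_spec hex'
  refine ⟨(2 : ℝ≥0∞)⁻¹ ^ Nat.find hex', ?_, ?_, hq, ?_⟩
  · exact pow_ne_zero _ (by simp)
  · exact pow_le_one' (by simp) _
  · rcases Nat.eq_zero_or_pos (Nat.find hex') with h0 | hpos
    · rw [h0, pow_zero, mul_one]
      have : ∀ i, p i < 2 := by
        intro i
        calc p i ≤ ∑' i, p i := ENNReal.le_tsum i
          _ ≤ 1 := hp
          _ < 2 := by norm_num
      simp only [this, if_true]
      exact hu1
    · obtain ⟨r, hr⟩ := Nat.exists_eq_succ_of_ne_zero hpos.ne'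
      have hnot : ¬ P r := Nat.find_min hex' (by omega)
      have e : 2 * (2 : ℝ≥0∞)⁻¹ ^ Nat.find hex' = (2 : ℝ≥0∞)⁻¹ ^ r := by
        rw [hr, Nat.succ_eq_add_one, pow_succ, mul_comm ((2 : ℝ≥0∞)⁻¹ ^ r), ← mul_assoc,
          ENNReal.mul_inv_cancel (by norm_num) (by norm_num), one_mul]
      rw [e]
      exact (not_le.1 hnot).le

/-- counting: few points where `Φ` is large -/
lemma count {ι : Type*} (Φ : ι → ℝ≥0∞) {δ b : ℝ≥0∞} (hδ0 : δ ≠ 0) (hδt : δ ≠ ⊤) (hb : b ≠ ⊤)
    (hΦ : ∀ F : Finset ι, F.Nonempty → ∑ x ∈ F, Φ x ≤ F.card * (δ / 2) + b) :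
    ∃ S : Finset ι, (∀ w, w ∉ S → Φ w ≤ δ) ∧ (S.card : ℝ≥0∞) * (δ / 2) ≤ b := by
  set T : Set ι := {x | δ < Φ x} with hT
  have hfinle : ∀ F : Finset ι, (∀ x ∈ F, x ∈ T) → (F.card : ℝ≥0∞) * (δ / 2) ≤ b := by
    intro F hF
    rcases F.eq_empty_or_nonempty with rfl | hne
    · simp
    · have h1 : (F.card : ℝ≥0∞) * δ ≤ ∑ x ∈ F, Φ x := by
        rw [← nsmul_eq_mul, ← Finset.sum_const]
        exact Finset.sum_le_sum fun x hx => (hF x hx).le
      have h2 := h1.trans (hΦ F hne)
      have h3 : (F.card : ℝ≥0∞) * δ = F.card * (δ / 2) + F.card * (δ / 2) := by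
        rw [← mul_add, ENNReal.add_halves]
      rw [h3] at h2
      have hfin : (F.card : ℝ≥0∞) * (δ / 2) ≠ ⊤ :=
        ENNReal.mul_ne_top (ENNReal.natCast_ne_top _) (ENNReal.div_ne_top hδt (by norm_num))
      exact (ENNReal.add_le_add_iff_left hfin).1 h2
  have hδ2 : δ / 2 ≠ 0 := by
    rw [Ne, ENNReal.div_eq_zero_iff, not_or]; exact ⟨hδ0, by norm_num⟩
  have hTfin : T.Finite := by
    by_contra hinf
    have hinf' : T.Infinite := hinf
    obtain ⟨n, hn⟩ := ENNReal.exists_nat_mul_gt hδ2 hb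
    obtain ⟨F, hF, hcard⟩ := hinf'.exists_subset_card_eq n
    have := hfinle F (fun x hx => hF hx)
    rw [hcard] at this
    exact absurd this (not_le.2 hn)
  refine ⟨hTfin.toFinset, fun w hw => ?_, hfinle _ fun x hx => (hTfin.mem_toFinset.1 hx)⟩
  rw [Set.Finite.mem_toFinset] at hw
  exact not_lt.1 hw

open Classical in
/-- regrouping by the value of a function -/
lemma fib {α β : Type*} (A : α → Prop) (f : α → ℝ≥0∞) (e : α → β) (P : β → Prop) :
    ∑' a, (if A a ∧ P (e a) then f a else 0)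
      = ∑' z, (if P z then ∑' a, (if A a ∧ e a = z then f a else 0) else 0) := by
  have h1 : ∀ z, (if P z then ∑' a, (if A a ∧ e a = z then f a else 0) else 0)
      = ∑' a, (if A a ∧ P z ∧ e a = z then f a else 0) := by
    intro z
    by_cases hz : P z
    · simp [hz]
    · simp [hz]
  rw [tsum_congr h1, ENNReal.tsum_comm]
  refine tsum_congr fun a => ?_
  rw [tsum_eq_single (e a)]
  · simp
  · intro z hz
    rw [if_neg]
    rintro ⟨-, -, h⟩
    exact hz h.symm

variable {d : ℕ}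

/-! ### inputs in words -/

open Classical in
/-- one-window sum at offset `x`, `X` local -/
noncomputable def PhiX (ν : Measure (Row d)) [IsProbabilityMeasure ν] (u : Step d) (s H : ℕ)
    (E : Finset (Site d)) (x : Site d) : ℝ≥0∞ :=
  ∑' π : List (Step d), ∑' γ : List (Step d),
    if IsUp u H π ∧ endp 0 π ∈ E ∧ IsDn u H γ ∧ (∃ k, k ∈ Cm u x π γ) ∧
      (∀ k ∈ Cm u x π γ, s < k ∧ k + s ≤ H) then NB28.aw ν π * NB28.aw ν γ else 0

open Classical in
/-- one-window sum at offset `x`, `Y` local -/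
noncomputable def PhiY (ν : Measure (Row d)) [IsProbabilityMeasure ν] (u : Step d) (s H : ℕ)
    (E : Finset (Site d)) (x : Site d) : ℝ≥0∞ :=
  ∑' π : List (Step d), ∑' γ : List (Step d),
    if IsUp u H π ∧ IsDn u H γ ∧ endp 0 γ ∈ E ∧ (∃ k, k ∈ Cm u x π γ) ∧
      (∀ k ∈ Cm u x π γ, s < k ∧ k + s ≤ H) then NB28.aw ν π * NB28.aw ν γ else 0

open Classical in
/-- window lemma, general form -/
def WinL (u : Step d) (Φ : ℕ → ℕ → Finset (Site d) → Site d → ℝ≥0∞) (C : ℝ≥0∞)
    (us : ℕ → ℝ≥0∞) : Prop :=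
  ∀ (s H : ℕ) (E : Finset (Site d)) (μ : Site d → ℝ≥0∞) (M lam : ℝ≥0∞),
    ∑' x, μ x ≤ 1 → (∀ x, μ x ≤ M) → lam ≠ 0 → lam ≠ ⊤ →
    ∑' x : Site d, (if Flux132.lev u x = 0 then μ x * Φ s H E x else 0)
      ≤ C * (lam + M * E.card * us s / lam + us s)

open Classical in
/-- thin slab at the bottom -/
def SlabL (ν : Measure (Row d)) [IsProbabilityMeasure ν] (u : Step d) : Prop :=
  ∀ s : ℕ, ∀ η : ℝ≥0∞, η ≠ 0 → ∃ H0 : ℕ, ∀ H, H0 ≤ H → ∀ w : Site d, Flux132.lev u w = 0 →
    ∑' π : List (Step d), ∑' γ : List (Step d),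
      (if IsUp u H π ∧ IsDn u H γ ∧ (∃ k ∈ Cm u w π γ, H < k + s)
        then NB28.aw ν π * NB28.aw ν γ else 0) ≤ η

/-- the window lemma gives few bad offsets -/
lemma bad_few {u : Step d} {Φ : ℕ → ℕ → Finset (Site d) → Site d → ℝ≥0∞} {C : ℝ≥0∞}
    {us : ℕ → ℝ≥0∞} (hW : WinL u Φ C us) (hC : C ≠ ⊤) {s H : ℕ} (E : Finset (Site d))
    {δ lam θ : ℝ≥0∞} (hδ0 : δ ≠ 0) (hδt : δ ≠ ⊤) (hl0 : lam ≠ 0) (hlt : lam ≠ ⊤)
    (h1 : C * lam ≤ δ / 4) (h2 : C * us s ≤ δ / 4) (hus : us s ≠ ⊤)
    (h3 : 4 * C * us s / lam ≤ δ * δ) (hE : (E.card : ℝ≥0∞) * θ ≤ 1) :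
    ∃ S : Finset (Lat u), (∀ w, w ∉ S → Φ s H E w.1 ≤ δ) ∧ 2 * θ * (S.card : ℝ≥0∞) ≤ δ := by
  classical
  have hb : C * (E.card * us s / lam) ≠ ⊤ :=
    ENNReal.mul_ne_top hC (ENNReal.div_ne_top (ENNReal.mul_ne_top (ENNReal.natCast_ne_top _) hus)
      hl0)
  obtain ⟨S, hS1, hS2⟩ := count (fun w : Lat u => Φ s H E w.1) hδ0 hδt hb (by
    intro F hF
    -- uniform law on `F`
    have hc0 : (F.card : ℝ≥0∞) ≠ 0 := by
      simpa using (Finset.card_pos.2 hF).ne'
    have hct : (F.card : ℝ≥0∞) ≠ ⊤ := ENNReal.natCast_ne_top _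
    set μ : Site d → ℝ≥0∞ := fun x => if ∃ w ∈ F, w.1 = x then (F.card : ℝ≥0∞)⁻¹ else 0 with hμ
    have hsub : ∀ G : Site d → ℝ≥0∞, ∑' x, (if ∃ w ∈ F, w.1 = x then G x else 0)
        = ∑ w ∈ F, G w.1 := by
      intro G
      have hinjv : Set.InjOn (fun w : Lat u => w.1) (F : Set (Lat u)) :=
        fun a _ b _ h => Subtype.ext h
      rw [← Finset.sum_image (f := G) (g := fun w : Lat u => w.1) (s := F)
        (fun a ha b hb h => hinjv ha hb h)]
      rw [tsum_eq_sum (s := F.image fun w : Lat u => w.1)]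
      · refine Finset.sum_congr rfl fun x hx => ?_
        rw [if_pos (by simpa using hx)]
      · intro x hx
        rw [if_neg (by simpa using hx)]
    have hμ1 : ∑' x, μ x ≤ 1 := by
      rw [hμ, hsub (fun _ => (F.card : ℝ≥0∞)⁻¹), Finset.sum_const, nsmul_eq_mul,
        ENNReal.mul_inv_cancel hc0 hct]
    have hμM : ∀ x, μ x ≤ (F.card : ℝ≥0∞)⁻¹ := by
      intro x; rw [hμ]; simp only; split_ifs
      · exact le_rfl
      · exact zero_le
    have hw := hW s H E μ (F.card : ℝ≥0∞)⁻¹ lam hμ1 hμM hl0 hlt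
    have hlhs : ∑' x : Site d, (if Flux132.lev u x = 0 then μ x * Φ s H E x else 0)
        = (F.card : ℝ≥0∞)⁻¹ * ∑ w ∈ F, Φ s H E w.1 := by
      rw [Finset.mul_sum, ← hsub (fun x => (F.card : ℝ≥0∞)⁻¹ * Φ s H E x)]
      refine tsum_congr fun x => ?_
      rw [hμ]
      simp only
      by_cases hx : ∃ w ∈ F, w.1 = x
      · obtain ⟨w, hwF, hwx⟩ := hx
        have hx' : ∃ w ∈ F, w.1 = x := ⟨w, hwF, hwx⟩
        have hl : Flux132.lev u x = 0 := by rw [← hwx]; exact w.2
        rw [if_pos hl, if_pos hx', if_pos hx']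
      · rw [if_neg hx, if_neg hx, zero_mul, ite_self]
    rw [hlhs] at hw
    calc ∑ w ∈ F, Φ s H E w.1
        = F.card * ((F.card : ℝ≥0∞)⁻¹ * ∑ w ∈ F, Φ s H E w.1) := by
          rw [← mul_assoc, ENNReal.mul_inv_cancel hc0 hct, one_mul]
      _ ≤ F.card * (C * (lam + (F.card : ℝ≥0∞)⁻¹ * E.card * us s / lam + us s)) := by gcongr
      _ = F.card * (C * lam + C * us s)
          + C * (((F.card : ℝ≥0∞) * (F.card : ℝ≥0∞)⁻¹) * (E.card * us s / lam)) := by
          simp only [div_eq_mul_inv]; ring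
      _ = F.card * (C * lam + C * us s) + C * (E.card * us s / lam) := by
          rw [ENNReal.mul_inv_cancel hc0 hct, one_mul]
      _ ≤ F.card * (δ / 2) + C * (E.card * us s / lam) := by
          gcongr
          calc C * lam + C * us s ≤ δ / 4 + δ / 4 := add_le_add h1 h2
            _ = δ / 2 := by
                rw [← ENNReal.add_div, ← two_mul, show (4 : ℝ≥0∞) = 2 * 2 by norm_num,
                  ENNReal.mul_div_mul_left _ _ (by norm_num) (by norm_num)])
  refine ⟨S, hS1, ?_⟩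
  -- `2 θ |S| (δ/2) ≤ 2 θ C |E| us / lam ≤ δ (δ/2)`
  have hδ2 : δ / 2 ≠ 0 := by
    rw [Ne, ENNReal.div_eq_zero_iff, not_or]; exact ⟨hδ0, by norm_num⟩
  have hδ2t : δ / 2 ≠ ⊤ := ENNReal.div_ne_top hδt (by norm_num)
  have hfin : 2 * θ * (S.card : ℝ≥0∞) * (δ / 2) ≤ δ * (δ / 2) := by
    calc 2 * θ * (S.card : ℝ≥0∞) * (δ / 2) = 2 * θ * (S.card * (δ / 2)) := by ring
      _ ≤ 2 * θ * (C * (E.card * us s / lam)) := by gcongr
      _ = (E.card * θ) * (2 * C * us s / lam) := by
          simp only [div_eq_mul_inv]; ring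
      _ ≤ 1 * (2 * C * us s / lam) := by gcongr
      _ = (4 * C * us s / lam) / 2 := by
          rw [one_mul]
          simp only [div_eq_mul_inv]
          calc 2 * C * us s * lam⁻¹ = (2 * 2⁻¹) * (2 * C * us s * lam⁻¹) := by
                rw [ENNReal.mul_inv_cancel (by norm_num) (by norm_num), one_mul]
            _ = 4 * C * us s * lam⁻¹ * 2⁻¹ := by ring
      _ ≤ (δ * δ) / 2 := by gcongr
      _ = δ * (δ / 2) := by rw [mul_div_assoc]
  exact (ENNReal.mul_le_mul_iff_left hδ2 hδ2t).1 hfin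

/-! ### the layers -/

lemma act_cat (u : Step d) (L : List (PB u)) (w : Lat u) :
    (act (dl u) L w).1 = dlp (cat L) w.1 := by
  induction L generalizing w with
  | nil => simp [act, cat, dlp, endp]
  | cons b L ih =>
    rw [act, ih]
    simp only [cat, pm, dlp, dl, Flux566.endp_append]
    rw [Flux566.endp_eq_add b.1.1 (endp 0 (cat L).1), Flux566.endp_eq_add (cat L).2 (endp 0 b.1.2)]
    abel

variable (ν : Measure (Row d)) [IsProbabilityMeasure ν] (u : Step d)

lemma ite_c {P Q : Prop} {i1 : Decidable P} {i2 : Decidable Q} {a b : ℝ≥0∞} (h : P ↔ Q) :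
    @ite _ P i1 a b = @ite _ Q i2 a b := by
  by_cases hp : P
  · rw [if_pos hp, if_pos (h.1 hp)]
  · rw [if_neg hp, if_neg (fun q => hp (h.2 q))]

open Classical in
/-- sum over lists of height `H` with a predicate on the pair of words -/
lemma sumP (H : ℕ) (P : List (Step d) → List (Step d) → Prop) :
    ∑' L : List (PB u), (if HT (ht u) L = H ∧ P (cat L).1 (cat L).2 then LW (Lam ν u) L else 0)
      = ∑' π : List (Step d), ∑' γ : List (Step d),
        if IsUp u H π ∧ IsDn u H γ ∧ P π γ then NB28.aw ν π * NB28.aw ν γ else 0 := by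
  have h := tsum_L ν u H (fun x => if P x.1 x.2 then 1 else 0)
  refine Eq.trans ?_ (h.trans ?_)
  · refine tsum_congr fun L => ?_
    by_cases h1 : HT (ht u) L = H <;> by_cases h2 : P (cat L).1 (cat L).2 <;> simp [h1, h2]
  · refine tsum_congr fun π => tsum_congr fun γ => ?_
    by_cases h1 : IsUp u H π <;> by_cases h2 : IsDn u H γ <;> by_cases h3 : P π γ <;>
      simp [h1, h2, h3]

open Classical in
/-- product structure -/
lemma prodP (H : ℕ) (P1 P2 : List (Step d) → Prop) :
    (∑' π : List (Step d), ∑' γ : List (Step d),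
        if IsUp u H π ∧ IsDn u H γ ∧ (P1 π ∧ P2 γ) then NB28.aw ν π * NB28.aw ν γ else 0)
      = (∑' π : List (Step d), if IsUp u H π ∧ P1 π then NB28.aw ν π else 0)
        * ∑' γ : List (Step d), if IsDn u H γ ∧ P2 γ then NB28.aw ν γ else 0 := by
  rw [← ENNReal.tsum_mul_right]
  refine tsum_congr fun π => ?_
  rw [← ENNReal.tsum_mul_left]
  refine tsum_congr fun γ => ?_
  by_cases h1 : IsUp u H π <;> by_cases h2 : IsDn u H γ <;> by_cases h3 : P1 π <;>
    by_cases h4 : P2 γ <;> simp [h1, h2, h3, h4]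

open Classical in
/-- both -/
lemma sumPP (H : ℕ) (P1 P2 : List (Step d) → Prop) :
    ∑' L : List (PB u), (if HT (ht u) L = H ∧ (P1 (cat L).1 ∧ P2 (cat L).2)
        then LW (Lam ν u) L else 0)
      = (∑' π : List (Step d), if IsUp u H π ∧ P1 π then NB28.aw ν π else 0)
        * ∑' γ : List (Step d), if IsDn u H γ ∧ P2 γ then NB28.aw ν γ else 0 := by
  rw [← prodP ν u H P1 P2]
  refine Eq.trans (tsum_congr fun L => ite_c Iff.rfl) ((sumP ν u H (fun π γ => P1 π ∧ P2 γ)).trans
    (tsum_congr fun π => tsum_congr fun γ => ite_c Iff.rfl))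

open Classical in
/-- law of the displacement of an up crossing -/
noncomputable def pX (H : ℕ) (z : Site d) : ℝ≥0∞ :=
  ∑' π : List (Step d), if IsUp u H π ∧ endp 0 π = z then NB28.aw ν π else 0

open Classical in
/-- law of the displacement of a down crossing -/
noncomputable def pY (H : ℕ) (z : Site d) : ℝ≥0∞ :=
  ∑' γ : List (Step d), if IsDn u H γ ∧ endp 0 γ = z then NB28.aw ν γ else 0

open Classical in
lemma sum_pX (H : ℕ) : ∑' z, pX ν u H z
    = ∑' π : List (Step d), if IsUp u H π then NB28.aw ν π else 0 := by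
  unfold pX
  rw [ENNReal.tsum_comm]
  refine tsum_congr fun π => ?_
  rw [tsum_eq_single (endp 0 π)]
  · simp
  · intro z hz
    rw [if_neg (fun h => hz h.2.symm)]

open Classical in
lemma sum_pY (H : ℕ) : ∑' z, pY ν u H z
    = ∑' π : List (Step d), if IsDn u H π then NB28.aw ν π else 0 := by
  unfold pY
  rw [ENNReal.tsum_comm]
  refine tsum_congr fun π => ?_
  rw [tsum_eq_single (endp 0 π)]
  · simp
  · intro z hz
    rw [if_neg (fun h => hz h.2.symm)]

open Classical in
lemma fibX (H : ℕ) (P : Site d → Prop) :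
    (∑' π : List (Step d), if IsUp u H π ∧ P (endp 0 π) then NB28.aw ν π else 0)
      = ∑' z, (if P z then pX ν u H z else 0) := by
  refine Eq.trans (tsum_congr fun π => ite_c Iff.rfl) ((fib (fun π => IsUp u H π) (NB28.aw ν)
    (endp (0 : Site d)) P).trans (tsum_congr fun z => ?_))
  by_cases hz : P z
  · rw [if_pos hz, if_pos hz, pX]
    exact tsum_congr fun π => ite_c Iff.rfl
  · rw [if_neg hz, if_neg hz]

open Classical in
lemma fibY (H : ℕ) (P : Site d → Prop) :
    (∑' π : List (Step d), if IsDn u H π ∧ P (endp 0 π) then NB28.aw ν π else 0)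
      = ∑' z, (if P z then pY ν u H z else 0) := by
  refine Eq.trans (tsum_congr fun π => ite_c Iff.rfl) ((fib (fun π => IsDn u H π) (NB28.aw ν)
    (endp (0 : Site d)) P).trans (tsum_congr fun z => ?_))
  by_cases hz : P z
  · rw [if_pos hz, if_pos hz, pY]
    exact tsum_congr fun π => ite_c Iff.rfl
  · rw [if_neg hz, if_neg hz]

/-- **the layers from the window lemmas** -/
theorem layer_of {C : ℝ≥0∞} {us : ℕ → ℝ≥0∞} (hC : C ≠ ⊤)
    (hus : Filter.Tendsto us Filter.atTop (nhds 0))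
    (hX : WinL u (PhiX ν u) C us) (hY : WinL u (PhiY ν u) C us) (hS : SlabL ν u)
    {κ : ℝ≥0∞} (hκX : ∀ H, κ ≤ ∑' z, pX ν u H z) (hκY : ∀ H, κ ≤ ∑' z, pY ν u H z)
    (h1X : ∀ H, ∑' z, pX ν u H z ≤ 1) (h1Y : ∀ H, ∑' z, pY ν u H z ≤ 1) :
    Layer (Lam ν u) (ht u) (dl u) (cd u) κ := by
  classical
  intro v hv0 hvκ δ' hδ'
  -- a finite tolerance
  set δ : ℝ≥0∞ := min δ' 1 with hδdef
  have hδδ' : δ ≤ δ' := min_le_left _ _
  have hδ0 : δ ≠ 0 := by
    rw [hδdef, Ne, min_eq_iff]; push Not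
    exact ⟨fun h => absurd h hδ', fun h => absurd h one_ne_zero⟩
  have hδt : δ ≠ ⊤ := ne_top_of_le_ne_top ENNReal.one_ne_top (min_le_right _ _)
  have hδ4 : δ / 4 ≠ 0 := by
    rw [Ne, ENNReal.div_eq_zero_iff, not_or]; exact ⟨hδ0, by norm_num⟩
  obtain ⟨lam, hl0, hlt, -, hlam⟩ := NumK658.chooseLam C hC (δ / 4) hδ4
  -- choice of `s`
  have hev1 : ∀ᶠ s in Filter.atTop, C * us s ≤ δ / 4 := by
    obtain ⟨i, hi⟩ := NumK658.chooseNat us hus C hC (δ / 4) hδ4
    exact Filter.eventually_atTop.2 ⟨i, hi⟩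
  have hev2 : ∀ᶠ s in Filter.atTop, (4 * C / lam) * us s ≤ δ * δ := by
    obtain ⟨i, hi⟩ := NumK658.chooseNat us hus (4 * C / lam)
      (ENNReal.div_ne_top (ENNReal.mul_ne_top (by norm_num) hC) hl0) (δ * δ) (mul_ne_zero hδ0 hδ0)
    exact Filter.eventually_atTop.2 ⟨i, hi⟩
  have hev3 : ∀ᶠ s in Filter.atTop, us s < 1 := hus.eventually (gt_mem_nhds one_pos)
  obtain ⟨s, hs1, hs2, hs3⟩ := (hev1.and (hev2.and hev3)).exists
  have hust : us s ≠ ⊤ := ne_top_of_lt hs3
  have hs2' : 4 * C * us s / lam ≤ δ * δ := by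
    refine le_trans (le_of_eq ?_) hs2
    simp only [div_eq_mul_inv]; ring
  obtain ⟨H0, hH0⟩ := hS s δ hδ0
  refine ⟨s, H0, fun H hH => ?_⟩
  -- quantiles
  obtain ⟨θX, hθX0, hθX1, hqX1, hqX2⟩ := quant2 (pX ν u H) (h1X H) hv0 (hvκ.trans (hκX H))
  obtain ⟨θY, hθY0, hθY1, hqY1, hqY2⟩ := quant2 (pY ν u H) (h1Y H) hv0 (hvκ.trans (hκY H))
  obtain ⟨hfX, hcX⟩ := AsmA789.card_le (pX ν u H) (h1X H) hθX0
  obtain ⟨hfY, hcY⟩ := AsmA789.card_le (pY ν u H) (h1Y H) hθY0
  set EX : Finset (Site d) := hfX.toFinset with hEX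
  set EY : Finset (Site d) := hfY.toFinset with hEY
  have hEXm : ∀ z, z ∈ EX ↔ θX ≤ pX ν u H z := fun z => by simp [hEX]
  have hEYm : ∀ z, z ∈ EY ↔ θY ≤ pY ν u H z := fun z => by simp [hEY]
  have hcX' : (EX.card : ℝ≥0∞) * θX ≤ 1 := by
    rwa [Set.ncard_eq_toFinset_card _ hfX] at hcX
  have hcY' : (EY.card : ℝ≥0∞) * θY ≤ 1 := by
    rwa [Set.ncard_eq_toFinset_card _ hfY] at hcY
  obtain ⟨SX, hSX1, hSX2⟩ := bad_few hX hC (s := s) (H := H) EX hδ0 hδt hl0 hlt hlam hs1 hust hs2'
    hcX'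
  obtain ⟨SY, hSY1, hSY2⟩ := bad_few hY hC (s := s) (H := H) EY hδ0 hδt hl0 hlt hlam hs1 hust hs2'
    hcY'
  refine ⟨fun L => endp 0 (cat L).1 ∈ EX, fun L => pX ν u H (endp 0 (cat L).1) < 2 * θX,
    fun L => endp 0 (cat L).2 ∈ EY, fun L => pY ν u H (endp 0 (cat L).2) < 2 * θY,
    SX, SY, 2 * θX, 2 * θY, ?_, ?_, ?_, ?_⟩
  · -- side X
    refine ⟨fun w hw => ?_, hSX2.trans hδδ', ?_, fun w x => ?_⟩
    · refine le_trans (le_of_eq ?_) ((hSX1 w hw).trans hδδ')
      have h := sumP ν u H (fun π γ => endp 0 π ∈ EX ∧ (∃ k, k ∈ cds u (π, γ) w.1) ∧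
        (∀ k ∈ cds u (π, γ) w.1, s < k ∧ k + s ≤ H))
      refine Eq.trans (tsum_congr fun L => ite_c ?_) (h.trans ?_)
      · rw [CD_cat]
      · rw [PhiX]
        refine tsum_congr fun π => tsum_congr fun γ => ite_c ?_
        simp only [cds_eq]
        tauto
    · have h := sumPP ν u H (fun π => pX ν u H (endp 0 π) < 2 * θX) (fun _ => True)
      refine le_trans ?_ (le_of_eq (Eq.trans (tsum_congr fun L => ite_c ?_) h).symm)
      · rw [mul_comm κ v]
        refine mul_le_mul' (hqX2.trans (le_of_eq ?_)) ((hκY H).trans (le_of_eq ?_))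
        · exact Eq.trans (tsum_congr fun z => ite_c Iff.rfl)
            (fibX ν u H (fun z => pX ν u H z < 2 * θX)).symm
        · rw [sum_pY]; exact tsum_congr fun γ => ite_c (by simp)
      · simp
    · have h := sumP ν u H (fun π γ => (pX ν u H (endp 0 π) < 2 * θX) ∧ dlp (π, γ) w.1 = x.1)
      refine le_trans (le_of_eq (Eq.trans (tsum_congr fun L => ite_c ?_) h)) ?_
      · constructor
        · rintro ⟨a, b, c⟩; exact ⟨a, b, by rw [← c]; exact (act_cat u L w).symm⟩
        · rintro ⟨a, b, c⟩; exact ⟨a, b, Subtype.ext ((act_cat u L w).trans c)⟩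
      rw [ENNReal.tsum_comm]
      refine le_trans (ENNReal.tsum_le_tsum (g := fun γ : List (Step d) =>
        (2 * θX) * (if IsDn u H γ then NB28.aw ν γ else 0)) fun γ => ?_) ?_
      · by_cases hγ : IsDn u H γ
        · simp only [if_pos hγ]
          set z : Site d := x.1 - w.1 - endp 0 γ with hz
          by_cases hzp : pX ν u H z < 2 * θX
          · calc _ ≤ ∑' π : List (Step d), (if IsUp u H π ∧ endp 0 π = z then NB28.aw ν π else 0)
                  * NB28.aw ν γ := by
                  refine ENNReal.tsum_le_tsum fun π => ?_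
                  by_cases hc : IsUp u H π ∧ IsDn u H γ ∧
                      ((pX ν u H (endp 0 π) < 2 * θX) ∧ dlp (π, γ) w.1 = x.1)
                  · rw [if_pos hc, if_pos]
                    refine ⟨hc.1, ?_⟩
                    have := hc.2.2.2
                    simp only [dlp] at this
                    rw [hz, ← this]; abel
                  · rw [if_neg hc]; exact zero_le
              _ = pX ν u H z * NB28.aw ν γ := by rw [ENNReal.tsum_mul_right, pX]
              _ ≤ 2 * θX * NB28.aw ν γ := by gcongr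
          · refine le_trans (le_of_eq ?_) (zero_le)
            rw [ENNReal.tsum_eq_zero]
            intro π
            rw [if_neg]
            rintro ⟨-, -, hp, hd⟩
            simp only [dlp] at hd
            refine hzp ?_
            have : endp 0 π = z := by rw [hz, ← hd]; abel
            rw [← this]; exact hp
        · simp only [if_neg hγ, mul_zero]
          refine le_of_eq ?_
          rw [ENNReal.tsum_eq_zero]
          intro π
          rw [if_neg (fun h => hγ h.2.1)]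
      · rw [ENNReal.tsum_mul_left]
        calc _ ≤ 2 * θX * 1 := by
              gcongr
              rw [← sum_pY]; exact h1Y H
          _ = _ := mul_one _
  · -- side Y
    refine ⟨fun w hw => ?_, hSY2.trans hδδ', ?_, fun w x => ?_⟩
    · refine le_trans (le_of_eq ?_) ((hSY1 w hw).trans hδδ')
      have h := sumP ν u H (fun π γ => endp 0 γ ∈ EY ∧ (∃ k, k ∈ cds u (π, γ) w.1) ∧
        (∀ k ∈ cds u (π, γ) w.1, s < k ∧ k + s ≤ H))
      refine Eq.trans (tsum_congr fun L => ite_c ?_) (h.trans ?_)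
      · rw [CD_cat]
      · rw [PhiY]
        refine tsum_congr fun π => tsum_congr fun γ => ite_c ?_
        simp only [cds_eq]
    · have h := sumPP ν u H (fun _ => True) (fun π => pY ν u H (endp 0 π) < 2 * θY)
      refine le_trans ?_ (le_of_eq (Eq.trans (tsum_congr fun L => ite_c ?_) h).symm)
      · refine mul_le_mul' ((hκX H).trans (le_of_eq ?_)) (hqY2.trans (le_of_eq ?_))
        · rw [sum_pX]; exact tsum_congr fun γ => ite_c (by simp)
        · exact Eq.trans (tsum_congr fun z => ite_c Iff.rfl)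
            (fibY ν u H (fun z => pY ν u H z < 2 * θY)).symm
      · simp
    · have h := sumP ν u H (fun π γ => (pY ν u H (endp 0 γ) < 2 * θY) ∧ dlp (π, γ) w.1 = x.1)
      refine le_trans (le_of_eq (Eq.trans (tsum_congr fun L => ite_c ?_) h)) ?_
      · constructor
        · rintro ⟨a, b, c⟩; exact ⟨a, b, by rw [← c]; exact (act_cat u L w).symm⟩
        · rintro ⟨a, b, c⟩; exact ⟨a, b, Subtype.ext ((act_cat u L w).trans c)⟩
      refine le_trans (ENNReal.tsum_le_tsum (g := fun π : List (Step d) =>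
        (if IsUp u H π then NB28.aw ν π else 0) * (2 * θY)) fun π => ?_) ?_
      · by_cases hπ : IsUp u H π
        · simp only [if_pos hπ]
          set z : Site d := x.1 - w.1 - endp 0 π with hz
          by_cases hzp : pY ν u H z < 2 * θY
          · calc _ ≤ ∑' γ : List (Step d), NB28.aw ν π *
                  (if IsDn u H γ ∧ endp 0 γ = z then NB28.aw ν γ else 0) := by
                  refine ENNReal.tsum_le_tsum fun γ => ?_
                  by_cases hc : IsUp u H π ∧ IsDn u H γ ∧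
                      ((pY ν u H (endp 0 γ) < 2 * θY) ∧ dlp (π, γ) w.1 = x.1)
                  · rw [if_pos hc, if_pos]
                    refine ⟨hc.2.1, ?_⟩
                    have := hc.2.2.2
                    simp only [dlp] at this
                    rw [hz, ← this]; abel
                  · rw [if_neg hc]; exact zero_le
              _ = NB28.aw ν π * pY ν u H z := by rw [ENNReal.tsum_mul_left, pY]
              _ ≤ NB28.aw ν π * (2 * θY) := by gcongr
          · refine le_trans (le_of_eq ?_) (zero_le)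
            rw [ENNReal.tsum_eq_zero]
            intro γ
            rw [if_neg]
            rintro ⟨-, -, hp, hd⟩
            simp only [dlp] at hd
            refine hzp ?_
            have : endp 0 γ = z := by rw [hz, ← hd]; abel
            rw [← this]; exact hp
        · simp only [if_neg hπ, zero_mul]
          refine le_of_eq ?_
          rw [ENNReal.tsum_eq_zero]
          intro γ
          rw [if_neg (fun h => hπ h.1)]
      · rw [ENNReal.tsum_mul_right]
        calc _ ≤ 1 * (2 * θY) := by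
              gcongr
              rw [← sum_pX]; exact h1X H
          _ = _ := one_mul _
  · -- both non local
    have h := sumPP ν u H (fun π => endp 0 π ∉ EX) (fun γ => endp 0 γ ∉ EY)
    refine le_trans (le_of_eq (Eq.trans (tsum_congr fun L => ite_c Iff.rfl) h)) ?_
    rw [pow_two]
    refine mul_le_mul' (le_trans (le_of_eq ?_) hqX1) (le_trans (le_of_eq ?_) hqY1)
    · refine (Eq.trans (tsum_congr fun π => ite_c Iff.rfl) (fibX ν u H (fun z => z ∉ EX))).trans
        (tsum_congr fun z => ite_c ?_)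
      rw [hEXm, not_le]
    · refine (Eq.trans (tsum_congr fun π => ite_c Iff.rfl) (fibY ν u H (fun z => z ∉ EY))).trans
        (tsum_congr fun z => ite_c ?_)
      rw [hEYm, not_le]
  · -- slab
    intro w
    refine le_trans (le_of_eq ?_) ((hH0 H hH w.1 w.2).trans hδδ')
    have h := sumP ν u H (fun π γ => ∃ k ∈ cds u (π, γ) w.1, H < k + s)
    refine Eq.trans (tsum_congr fun L => ite_c ?_) (h.trans ?_)
    · rw [CD_cat]
    · refine tsum_congr fun π => tsum_congr fun γ => ite_c ?_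
      simp only [cds_eq]

end Crest.Agent.R154.LWord9
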