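import Crest.Agent.R154.ConKap_402

/-!
Row 154: labelled walk spaces: all the tests of a K-set bound, each with its own stopping time,
on one walk space.
-/

set_option autoImplicit false
set_option linter.unusedSectionVars false

namespace Crest.Agent.R154

open MeasureTheory ProbabilityTheory Crest.ProbabilityR.RandomEnvironment
open scoped ENNReal

variable {d : ℕ} {Ω : Type} [MeasurableSpace Ω]

namespace WalkSpace

variable (W : WalkSpace d Ω) (ι : Type) [Countable ι] [MeasurableSpace ι]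
  [MeasurableSingletonClass ι]

lemma lab_gen : (inferInstance : MeasurableSpace (ι × Ω))
    = MeasurableSpace.generateFrom {s | ∃ (X : ι × Ω) (n : ℕ),
        s = {Y | ((Y.1, W.hist n Y.2) : ι × W.H n) = (X.1, W.hist n X.2)}} := by
  apply le_antisymm
  · set m0 : MeasurableSpace (ι × Ω) := MeasurableSpace.generateFrom
      {s | ∃ (X : ι × Ω) (n : ℕ),
        s = {Y | ((Y.1, W.hist n Y.2) : ι × W.H n) = (X.1, W.hist n X.2)}} with hm0
    have hcyl : ∀ (l : ι) (n : ℕ) (h : W.H n),
        MeasurableSet[m0] {Y : ι × Ω | ((Y.1, W.hist n Y.2) : ι × W.H n) = (l, h)} := by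
      intro l n h
      refine MeasurableSpace.measurableSet_generateFrom ⟨(l, W.ext n h), n, ?_⟩
      simp only [W.hist_ext]
    have hf : @Measurable _ _ m0 _ (Prod.fst : ι × Ω → ι) := by
      refine @measurable_to_countable' _ _ _ _ m0 _ fun l => ?_
      have : (Prod.fst : ι × Ω → ι) ⁻¹' {l}
          = ⋃ h : W.H 0, {Y : ι × Ω | ((Y.1, W.hist 0 Y.2) : ι × W.H 0) = (l, h)} := by
        ext Y
        simp [Prod.ext_iff]
      rw [this]
      exact MeasurableSet.iUnion fun h => hcyl l 0 h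
    have hs : @Measurable _ _ m0 _ (Prod.snd : ι × Ω → Ω) := by
      rw [W.gen]
      refine @measurable_generateFrom _ _ m0 _ _ ?_
      rintro _ ⟨X, n, rfl⟩
      have : (Prod.snd : ι × Ω → Ω) ⁻¹' {Y | W.hist n Y = W.hist n X}
          = ⋃ l : ι, {Y : ι × Ω | ((Y.1, W.hist n Y.2) : ι × W.H n) = (l, W.hist n X)} := by
        ext Y
        simp [Prod.ext_iff]
      rw [this]
      exact MeasurableSet.iUnion fun l => hcyl l n _
    exact sup_le hf.comap_le hs.comap_le
  · refine MeasurableSpace.generateFrom_le ?_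
    rintro _ ⟨X, n, rfl⟩
    have : {Y : ι × Ω | ((Y.1, W.hist n Y.2) : ι × W.H n) = (X.1, W.hist n X.2)}
        = {X.1} ×ˢ W.cyl X.2 n := by
      ext Y
      simp [Prod.ext_iff, cyl]
    rw [this]
    exact (measurableSet_singleton _).prod (W.measurableSet_cyl _ _)

/-- the labelled walk space -/
def lab : WalkSpace d (ι × Ω) where
  H n := ι × W.H n
  countH n := inferInstance
  hist n p := (p.1, W.hist n p.2)
  ext n h := (h.1, W.ext n h.2)
  hist_ext n h := by simp [W.hist_ext]
  mono X Y h e := by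
    obtain ⟨e1, e2⟩ := Prod.ext_iff.1 e
    exact Prod.ext e1 (W.mono _ _ h e2)
  gen := W.lab_gen ι
  pos p n := W.pos p.2 n
  pos_det n X Y e := W.pos_det n _ _ (Prod.ext_iff.1 e).2
  read p n := W.read p.2 n
  read_det n X Y e := W.read_det n _ _ (Prod.ext_iff.1 e).2
  read_sub X n := W.read_sub X.2 n
  read_mono X _ _ h := W.read_mono X.2 h

variable {W ι}

lemma lab_hist {n : ℕ} {p q : ι × Ω} : (W.lab ι).hist n p = (W.lab ι).hist n q ↔
    p.1 = q.1 ∧ W.hist n p.2 = W.hist n q.2 := by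
  show ((p.1, W.hist n p.2) : ι × W.H n) = (q.1, W.hist n q.2) ↔ _
  rw [Prod.ext_iff]

lemma lab_cyl (p : ι × Ω) (n : ℕ) : (W.lab ι).cyl p n = {p.1} ×ˢ W.cyl p.2 n := by
  ext Y
  simp only [cyl, Set.mem_ofPred_eq, lab_hist, Set.mem_prod, Set.mem_singleton_iff]

lemma isStop_lab {S : ι → Ω → ℕ∞} (hS : ∀ l, W.IsStop (S l)) :
    (W.lab ι).IsStop (fun p => S p.1 p.2) := by
  rintro ⟨l, X⟩ ⟨l', Y⟩ n h hn
  obtain ⟨h1, h2⟩ := lab_hist.1 h
  simp only at h1 h2 hn ⊢
  subst h1
  exact hS l X Y n h2 hn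

lemma readsOnly_lab {Q : Measure (Environment d)} {P : Kernel (Environment d) Ω}
    (hP : W.ReadsOnly Q P) (l : ι) : (W.lab ι).ReadsOnly Q (P.map (Prod.mk l)) := by
  classical
  intro γ n
  obtain ⟨f, hf, hfe⟩ := hP γ.2 n
  have hm : Measurable (Prod.mk l : Ω → ι × Ω) := measurable_prodMk_left
  by_cases hl : γ.1 = l
  · refine ⟨f, hf, ?_⟩
    filter_upwards [hfe] with ω hω
    rw [← hω]
    rw [Kernel.map_apply' _ hm _ ((W.lab ι).measurableSet_cyl _ _), lab_cyl]
    congr 1
    ext X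
    simp [hl]
  · refine ⟨0, measurable_const, Filter.Eventually.of_forall fun ω => ?_⟩
    simp only [Pi.zero_apply]
    rw [Kernel.map_apply' _ hm _ ((W.lab ι).measurableSet_cyl _ _), lab_cyl]
    have : (Prod.mk l : Ω → ι × Ω) ⁻¹' ({γ.1} ×ˢ W.cyl γ.2 n) = ∅ := by
      ext X
      simp only [Set.mem_preimage, Set.mem_prod, Set.mem_singleton_iff, Set.mem_empty_iff_false,
        iff_false, not_and]
      intro h
      exact absurd h.symm hl
    rw [this]
    simp

end WalkSpace

/-- reading times of the labelled space -/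
lemma Cont.rdSpace_lab {W : WalkSpace d Ω} {rd : Ω → ℕ → Prop} (hW : Cont.RdSpace W rd)
    (ι : Type) [Countable ι] [MeasurableSpace ι] [MeasurableSingletonClass ι] :
    Cont.RdSpace (W.lab ι) (fun p n => rd p.2 n) where
  det _ _ _ h := hW.det _ _ _ (WalkSpace.lab_hist.1 h).2
  read_iff X n z := hW.read_iff X.2 n z

end Crest.Agent.R154
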