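import Crest.Agent.R154.HW_334
import Crest.Agent.R154.E2_742
import Crest.Agent.R154.E3_934
import Crest.Agent.R154.KB_391
import Crest.Agent.R154.SlbX_926
import Crest.Agent.R154.HWinB_19

/-! Row 154, ROAD 801, frame B (helper19): the last joint. `hW` (334) at 657's instance from E2 (742)
and E3 (934), `hWin` (HWinB_19 on 139's `hit_le`), slab (926), composition (818 / 391): `NBProp`. -/

set_option autoImplicit false
set_option linter.unusedSectionVars false
set_option linter.unusedVariables false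

namespace Crest.Agent.R154.Last19

open MeasureTheory ProbabilityTheory Crest.ProbabilityR.RandomEnvironment Crest.Agent.R154 Filter Topology
open Crest.Agent.R154.Flux132 (lev opp)
open Crest.Agent.R154.Flux566 (lw endp sitesL)
open Crest.Agent.R154.NB28 (IsUp IsDn aw Cm)
open Crest.Agent.R154.B5A Crest.Agent.R154.B5W
open scoped ENNReal

variable {d : ℕ} (ν : Measure (Row d)) [IsProbabilityMeasure ν] (u : Step d)

open Classical in
/-- a sum over lateral sites -/
lemma lat_le (Φ : Site d → ℝ≥0∞) (B M : ℝ≥0∞) (μ : Lat u → ℝ≥0∞) (hμ : ∑' w, μ w ≤ 1)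
    (hM : ∀ w, μ w ≤ M)
    (h : ∀ μ' : Site d → ℝ≥0∞, ∑' x, μ' x ≤ 1 → (∀ x, μ' x ≤ M) →
      ∑' x, (if lev u x = 0 then μ' x * Φ x else 0) ≤ B) :
    ∑' w : Lat u, μ w * Φ w.1 ≤ B := by
  have hinj : Function.Injective (fun w : Lat u => w.1) := Subtype.val_injective
  set μ' : Site d → ℝ≥0∞ := Function.extend (fun w : Lat u => w.1) μ 0 with hμ'
  have h1 : ∑' x, μ' x ≤ 1 := by rw [hμ', tsum_extend_zero hinj]; exact hμ
  have h2 : ∀ x, μ' x ≤ M := by
    intro x
    by_cases hx : ∃ w : Lat u, w.1 = x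
    · obtain ⟨w, rfl⟩ := hx
      rw [hμ', hinj.extend_apply]; exact hM w
    · rw [hμ', Function.extend_apply' _ _ _ hx]; exact zero_le
  refine le_trans ?_ (h μ' h1 h2)
  refine le_trans (le_of_eq ?_)
    (ENNReal.tsum_comp_le_tsum_of_injective hinj
      (fun x => if lev u x = 0 then μ' x * Φ x else 0))
  refine tsum_congr fun w => ?_
  have hw : lev u w.1 = 0 := w.2
  rw [if_pos hw, hμ', hinj.extend_apply]

/-- the two return probabilities -/
noncomputable def us (s : ℕ) : ℝ≥0∞ :=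
  annealedProb (iidEnvironmentLaw ν) 0 (Us778.Dip u s) + E934.us ν (opp u) s

open Classical in
theorem hWin (hν : ∀ᵐ p ∂ν, ∀ e : Step d, 0 < p.1 e)
    (hA : annealed (iidEnvironmentLaw ν) 0 (escapeEvent (B2d.dirVec u)) ≠ 0)
    (hB : annealed (iidEnvironmentLaw ν) 0 (escapeEvent (-B2d.dirVec u)) ≠ 0)
    (hus2 : ∀ ε : ℝ≥0∞, ε ≠ 0 → ∃ s0 : ℕ, ∀ s, s0 ≤ s →
      annealedProb (iidEnvironmentLaw ν) 0 (Us778.Dip u s) ≤ ε) :
    KB391.HWin ν u := by
  obtain ⟨c, hc, -, hup, hdn⟩ := WM286.mass_pos ν hν u hA hB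
  have hup1 : ∀ n, (∑' π : List (Step d), if IsUp u n π then aw ν π else 0) ≤ 1 := fun n =>
    sum_if_le_one ν fun l l' h h' hp => NB28.isUp_prefix h h' hp
  have hdn1 : ∀ n, (∑' π : List (Step d), if IsDn u n π then aw ν π else 0) ≤ 1 := fun n =>
    sum_if_le_one ν fun l l' h h' hp => NB28.isDn_prefix h h' hp
  have hUc : ∀ n, c * c ≤ U (Lam ν u) (B5W.ht u) n := fun n => by
    rw [U_eq28]; exact mul_le_mul' (hup n) (hdn n)
  have hU1 : ∀ n, U (Lam ν u) (B5W.ht u) n ≤ 1 := fun n => by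
    rw [U_eq28]; exact mul_le_one' (hup1 n) (hdn1 n)
  have hc1 : c ≤ 1 := (hup 0).trans (hup1 0)
  have hus : ∀ ε : ℝ≥0∞, ε ≠ 0 → ∃ s, us ν u s ≤ ε := by
    intro ε hε
    have hε2 : ε / 2 ≠ 0 := (ENNReal.half_pos hε).ne'
    obtain ⟨s1, h1⟩ := hus2 (ε / 2) hε2
    obtain ⟨s2, h2⟩ := E934.us_small ν (opp u) (ε / 2) hε2
    refine ⟨max s1 s2, ?_⟩
    calc us ν u (max s1 s2) ≤ ε / 2 + ε / 2 :=
          add_le_add (h1 _ (le_max_left _ _)) (h2 _ (le_max_right _ _))
      _ = ε := ENNReal.add_halves ε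
  have hW := HW334.hW_of (Lam ν u) (B5W.ht u) (B5W.dl u) (B5W.cd u) cat
    (fun w : Lat u => w.1) (fun π : List (Step d) => endp 0 π) (fun γ : List (Step d) => endp 0 γ)
    (fun H π => if IsUp u H π then aw ν π else 0) (fun H γ => if IsDn u H γ then aw ν γ else 0)
    (fun w π γ => Cm u w.1 π γ)
    (fun H F => by
      have h := tsum_L ν u H (fun x => F x.1 x.2)
      refine h.trans ?_
      refine tsum_congr fun π => tsum_congr fun γ => ?_
      by_cases h1 : IsUp u H π <;> by_cases h2 : IsDn u H γ <;> simp [h1, h2])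
    (fun L w => by
      induction L generalizing w with
      | nil => simp [act, cat, endp]
      | cons b L ih =>
        simp only [act]
        rw [ih]
        simp only [cat, pm, dl, dlp]
        rw [Flux566.endp_append, Flux566.endp_append, Flux566.endp_eq_add b.1.1 (endp 0 (cat L).1),
          Flux566.endp_eq_add (cat L).2 (endp 0 b.1.2)]
        abel)
    (fun L w => by rw [CD_cat, cds_eq])
    c hc hup hup1 hdn hdn1 (us ν u) hus 8 (by norm_num) (by norm_num)
    (fun s H E μ M lam hμ hM hl hl' => by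
      refine le_trans ?_ (lat_le u (fun x => ∑' π : List (Step d), ∑' γ : List (Step d),
        (if IsUp u H π ∧ endp 0 π ∈ E ∧ IsDn u H γ ∧ (∃ k, k ∈ Cm u x π γ) ∧
          (∀ k ∈ Cm u x π γ, s < k) then aw ν π * aw ν γ else 0))
        (8 * (lam + M * E.card * us ν u s / lam)) M μ hμ hM (fun μ' h1 h2 => ?_))
      · refine ENNReal.tsum_le_tsum fun w => ?_
        gcongr with π γ
        by_cases h1 : IsUp u H π
        · by_cases h2 : IsDn u H γ
          · simp only [h1, h2, if_true, true_and]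
            by_cases h3 : endp 0 π ∈ E ∧ (∃ k, k ∈ Cm u w.1 π γ) ∧
              (∀ k ∈ Cm u w.1 π γ, s < k ∧ k + s ≤ H)
            · rw [if_pos h3, if_pos ⟨h3.1, h3.2.1, fun k hk => (h3.2.2 k hk).1⟩]
            · rw [if_neg h3]; exact zero_le
          · simp [h2]
        · simp [h1]
      · refine (W2742.E2 ν u s H E μ' M lam h1 h2 hl hl').trans ?_
        rw [mul_add]
        refine add_le_add (le_mul_of_one_le_left zero_le (by norm_num)) ?_
        refine le_trans ?_ (le_mul_of_one_le_left zero_le (by norm_num : (1 : ℝ≥0∞) ≤ 8))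
        gcongr
        exact le_self_add)
    (fun s H E μ M lam hμ hM hl hl' => by
      refine le_trans ?_ (lat_le u (fun x => ∑' π : List (Step d), ∑' γ : List (Step d),
        (if IsUp u H π ∧ endp 0 γ ∈ E ∧ IsDn u H γ ∧ (∃ k, k ∈ Cm u x π γ) ∧
          (∀ k ∈ Cm u x π γ, k + s ≤ H) then aw ν π * aw ν γ else 0))
        (8 * (lam + M * E.card * us ν u s / lam)) M μ hμ hM (fun μ' h1 h2 => ?_))
      · refine ENNReal.tsum_le_tsum fun w => ?_
        gcongr with π γ
        by_cases h1 : IsUp u H π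
        · by_cases h2 : IsDn u H γ
          · simp only [h1, h2, if_true, true_and]
            by_cases h3 : endp 0 γ ∈ E ∧ (∃ k, k ∈ Cm u w.1 π γ) ∧
              (∀ k ∈ Cm u w.1 π γ, s < k ∧ k + s ≤ H)
            · rw [if_pos h3, if_pos ⟨h3.1, h3.2.1, fun k hk => (h3.2.2 k hk).2⟩]
            · rw [if_neg h3]; exact zero_le
          · simp [h2]
        · simp [h1]
      · refine (E934.E3 ν s H E μ' M lam h1 h2 hl hl').trans ?_
        rw [mul_add, ← mul_assoc M]
        refine add_le_add le_rfl ?_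
        gcongr
        · norm_num
        · exact le_add_self)
  refine HWinB19.hWin_of' (Lam ν u) (B5W.ht u) (B5W.dl u) (B5W.cd u) one_le_hb (c * c)
    (mul_ne_zero hc hc) hUc hU1 (fun b => B5W.hinj u b) (c * c * 2⁻¹) ?_ ?_ ?_
  · exact mul_ne_zero (mul_ne_zero hc hc) (by simp)
  · calc c * c * 2⁻¹ ≤ 1 * 1 * 1 := by gcongr; simp
      _ = 1 := by simp
  · intro v η hv hv1 hη
    obtain ⟨s, hs⟩ := hW v η hv hv1 hη
    refine ⟨s, 0, fun H _ => ?_⟩
    exact hs H

/-- 818's `hWin` for every elliptic law with both escapes -/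
theorem hWin' (hν : ∀ᵐ p ∂ν, ∀ e : Step d, 0 < p.1 e)
    (hA : annealed (iidEnvironmentLaw ν) 0 (escapeEvent (B2d.dirVec u)) ≠ 0)
    (hB : annealed (iidEnvironmentLaw ν) 0 (escapeEvent (-B2d.dirVec u)) ≠ 0) :
    KB391.HWin ν u := by
  refine hWin ν u hν hA hB fun ε hε => ?_
  have hA' : annealedProb (iidEnvironmentLaw ν) 0 (escapeEvent (Flux566.dir u)) ≠ 0 := by
    have e := Crest.Agent.R154.annealed_apply (iidEnvironmentLaw ν) 0
      (Kal132.measurableSet_escape (B2d.dirVec u))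
    rw [e] at hA
    exact hA
  have h := (Us778.us_tendsto ν hν u hA').eventually (Iic_mem_nhds (pos_iff_ne_zero.2 hε))
  exact eventually_atTop.1 h

/-- **`NBProp`** -/
theorem nbProp : Spine.NBProp :=
  KB391.nb_of (fun d hd ν _ hν u hA hB => SlbX926.hSlb u ν (by omega) hν hA hB)
    (fun d hd ν _ hν u hA hB => hWin' ν u hν hA hB)

end Crest.Agent.R154.Last19

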