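import Crest.Agent.R154.NumK_658

/-! Row 154 (helper658): all constants of the one-window bound at once (Mathlib only). -/

set_option autoImplicit false

namespace Crest.Agent.R154.NumK658

open Filter Topology
open scoped ENNReal

/-- all constants of the one-window bound (order `ε | K, u | i0 | lam | η`) -/
theorem choose_all (ov : ℕ → ℝ≥0∞) (hov : Tendsto ov atTop (𝓝 0)) (C : ℝ≥0∞) (hC : C ≠ ⊤)
    (ε : ℝ≥0∞) (hε : ε ≠ 0) (N0 : ℕ) :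
    ∃ (K : ℕ) (u : ℝ≥0∞) (i0 : ℕ) (lam η : ℝ≥0∞), N0 ≤ K ∧ 2 ≤ K ∧ u ≠ 0 ∧ u < 1 ∧ 1 ≤ i0 ∧
      lam ≠ 0 ∧ lam ≠ ⊤ ∧ η ≠ 0 ∧
      (4 * ov i0 + η + 2 * ((1 - u) ^ ((K - 1) / 4) + ((K - 1) / 4 : ℕ) * ov i0) + u ^ 2
        + (i0 + 1) ^ 4 * (C * (lam + (2 * (i0 + 1) / u) * η / lam + η))) ≤ ε / (K + 1) := by
  set ε1 : ℝ≥0∞ := min (ε / 6) 1 with hε1
  have hε1' : ε1 ≠ 0 := by
    rw [hε1]
    simp [ENNReal.div_eq_zero_iff, hε]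
  have h11 : ε1 ≤ 1 := min_le_right _ _
  have h16 : 6 * ε1 ≤ ε := by
    calc 6 * ε1 ≤ 6 * (ε / 6) := mul_le_mul_right (min_le_left _ _) _
      _ ≤ ε := ENNReal.mul_div_le
  obtain ⟨K, u, hK0, hK1, hu0, hu1, hA, hB⟩ := chooseK 4 (by norm_num) ε1 hε1' (max N0 2)
  have hK2 : 2 ≤ K := le_trans (le_max_right _ _) hK0
  have hlt : u < 1 := by
    rcases hu1.lt_or_eq with h | h
    · exact h
    · exfalso
      rw [h] at hA
      have h2 : (2 : ℝ≥0∞) ≤ 1 := by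
        calc (2 : ℝ≥0∞) ≤ (K + 1) * 1 ^ 2 := by
              rw [one_pow, mul_one]
              have : (2 : ℝ≥0∞) ≤ K := by exact_mod_cast hK2
              exact this.trans le_self_add
          _ ≤ 1 := hA.trans h11
      exact absurd h2 (by norm_num)
  set J : ℕ := (K - 1) / 4 with hJ
  -- the overshoot
  have hc1 : ((K : ℝ≥0∞) + 1) * (4 + 2 * J) ≠ ⊤ :=
    ENNReal.mul_ne_top (by simp) (ENNReal.add_ne_top.2 ⟨by norm_num,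
      ENNReal.mul_ne_top (by norm_num) (ENNReal.natCast_ne_top _)⟩)
  obtain ⟨i1, hi1⟩ := chooseNat ov hov _ hc1 ε1 hε1'
  set i0 : ℕ := max i1 1 with hi0
  have ho : ((K : ℝ≥0∞) + 1) * (4 + 2 * J) * ov i0 ≤ ε1 := hi1 i0 (le_max_left _ _)
  have hi0t : ((i0 : ℝ≥0∞) + 1) ^ 4 ≠ ⊤ := ENNReal.pow_ne_top (by simp)
  -- lam
  have hc2 : ((K : ℝ≥0∞) + 1) * (((i0 : ℝ≥0∞) + 1) ^ 4 * C) ≠ ⊤ :=
    ENNReal.mul_ne_top (by simp) (ENNReal.mul_ne_top hi0t hC)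
  obtain ⟨lam, hl0, hlt', -, hl⟩ := chooseLam _ hc2 ε1 hε1'
  -- eta
  have hc3 : ((K : ℝ≥0∞) + 1) * (1 + ((i0 : ℝ≥0∞) + 1) ^ 4 * (C * (2 * (i0 + 1) / u / lam + 1)))
      ≠ ⊤ := by
    refine ENNReal.mul_ne_top (by simp) (ENNReal.add_ne_top.2 ⟨by norm_num,
      ENNReal.mul_ne_top hi0t (ENNReal.mul_ne_top hC (ENNReal.add_ne_top.2 ⟨?_, by norm_num⟩))⟩)
    exact ENNReal.div_ne_top (ENNReal.div_ne_top (ENNReal.mul_ne_top (by norm_num) (by simp)) hu0)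
      hl0
  obtain ⟨η, hη0, hη⟩ := chooseEta _ hc3 ε1 hε1'
  refine ⟨K, u, i0, lam, η, le_trans (le_max_left _ _) hK0, hK2, hu0, hlt, le_max_right _ _,
    hl0, hlt', hη0, ?_⟩
  have hK1' : ((K : ℝ≥0∞) + 1) ≠ 0 := by simp
  have hK1t : ((K : ℝ≥0∞) + 1) ≠ ⊤ := by simp
  rw [ENNReal.le_div_iff_mul_le (Or.inl hK1') (Or.inl hK1t), mul_comm]
  have hB' : ((K : ℝ≥0∞) + 1) * (1 - u) ^ J ≤ ε1 := by
    refine le_trans (mul_le_mul_right ?_ _) hB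
    calc (1 - u) ^ J ≤ (1 - u / 2) ^ J :=
          pow_le_pow_left' (tsub_le_tsub_left ENNReal.half_le_self _) J
      _ ≤ (1 - u / 2) ^ (K / 4 - 1) :=
          pow_le_pow_right_of_le_one' tsub_le_self (by omega)
  calc ((K : ℝ≥0∞) + 1) * (4 * ov i0 + η + 2 * ((1 - u) ^ J + J * ov i0) + u ^ 2
        + (i0 + 1) ^ 4 * (C * (lam + (2 * (i0 + 1) / u) * η / lam + η)))
      = (K + 1) * (4 + 2 * J) * ov i0
        + (K + 1) * (1 + ((i0 : ℝ≥0∞) + 1) ^ 4 * (C * (2 * (i0 + 1) / u / lam + 1))) * η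
        + 2 * ((K + 1) * (1 - u) ^ J) + (K + 1) * u ^ 2
        + (K + 1) * (((i0 : ℝ≥0∞) + 1) ^ 4 * C) * lam := by
        simp only [div_eq_mul_inv]; ring
    _ ≤ ε1 + ε1 + 2 * ε1 + ε1 + ε1 :=
        add_le_add (add_le_add (add_le_add (add_le_add ho hη) (mul_le_mul_right hB' _)) hA) hl
    _ = 6 * ε1 := by ring
    _ ≤ ε := h16

end Crest.Agent.R154.NumK658
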