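import Crest.Agent.R154.PointW_926
import Crest.Agent.R154.B5Br_657
import Crest.Agent.R154.PFDefs_692
import Crest.Agent.R154.WLit_763

/-! Row 154 (helper926): POINT, adapters to the literals of helper763 (`PtP`) and helper692
(`HPoint` for the pair blocks). -/

set_option autoImplicit false

namespace Crest.Agent.R154.PointX926

open MeasureTheory ProbabilityTheory Crest.ProbabilityR.RandomEnvironment
open Crest.Agent.R154.Flux132 (lev opp)
open Crest.Agent.R154.NB28 (IsUp IsDn aw Cm)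
open scoped ENNReal

variable {d : ℕ} (u : Step d) (ν : Measure (Row d)) [IsProbabilityMeasure ν]

open Classical in
/-- **thin slab in words** -/
theorem slab_word (hd : 2 ≤ d) (hν : ∀ᵐ p ∂ν, ∀ e : Step d, 0 < p.1 e)
    (hA : annealed (iidEnvironmentLaw ν) 0 (escapeEvent (B2d.dirVec u)) ≠ 0)
    (hB : annealed (iidEnvironmentLaw ν) 0 (escapeEvent (-B2d.dirVec u)) ≠ 0)
    (S : ℕ) (ε : ℝ≥0∞) (hε : ε ≠ 0) :
    ∃ D0 : ℕ, ∀ D, D0 ≤ D → ∀ (n : ℕ) (w : Site d), lev u w = 0 →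
      ∑' π : List (Step d), ∑' γ : List (Step d),
        (if IsUp u n π ∧ IsDn u n γ ∧ (∃ k ∈ Cm u w π γ, D ≤ k ∧ k ≤ D + S)
          then aw ν π * aw ν γ else 0) ≤ ε := by
  have hS0 : ((S + 1 : ℕ) : ℝ≥0∞) ≠ 0 := by exact_mod_cast Nat.succ_ne_zero S
  have hSt : ((S + 1 : ℕ) : ℝ≥0∞) ≠ ⊤ := ENNReal.natCast_ne_top _
  obtain ⟨k0, hk0⟩ := PointW926.pt_word u ν hd hν hA hB (ε / (S + 1 : ℕ))
    (by rw [Ne, ENNReal.div_eq_zero_iff, not_or]; exact ⟨hε, hSt⟩)
  refine ⟨k0, fun D hD n w hw => ?_⟩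
  calc ∑' π : List (Step d), ∑' γ : List (Step d),
        (if IsUp u n π ∧ IsDn u n γ ∧ (∃ k ∈ Cm u w π γ, D ≤ k ∧ k ≤ D + S)
          then aw ν π * aw ν γ else 0)
      ≤ ∑' π : List (Step d), ∑' γ : List (Step d), ∑ j ∈ Finset.range (S + 1),
        (if IsUp u n π ∧ IsDn u n γ ∧ (D + j) ∈ Cm u w π γ
          then aw ν π * aw ν γ else 0) := by
        refine ENNReal.tsum_le_tsum fun π => ENNReal.tsum_le_tsum fun γ => ?_
        split_ifs with h
        · obtain ⟨h1, h2, k, hk, hk1, hk2⟩ := h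
          have hmem : k - D ∈ Finset.range (S + 1) := Finset.mem_range.2 (by omega)
          refine le_trans ?_ (Finset.single_le_sum (f := fun j =>
            (if IsUp u n π ∧ IsDn u n γ ∧ (D + j) ∈ Cm u w π γ
              then aw ν π * aw ν γ else 0)) (fun _ _ => zero_le) hmem)
          have e : D + (k - D) = k := by omega
          simp only [e]
          rw [if_pos ⟨h1, h2, hk⟩]
        · exact zero_le
    _ = ∑ j ∈ Finset.range (S + 1), ∑' π : List (Step d), ∑' γ : List (Step d),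
        (if IsUp u n π ∧ IsDn u n γ ∧ (D + j) ∈ Cm u w π γ
          then aw ν π * aw ν γ else 0) := by
        rw [← Summable.tsum_finsetSum (fun _ _ => ENNReal.summable)]
        refine tsum_congr fun π => ?_
        rw [← Summable.tsum_finsetSum (fun _ _ => ENNReal.summable)]
    _ ≤ ∑ _j ∈ Finset.range (S + 1), ε / (S + 1 : ℕ) :=
        Finset.sum_le_sum fun j _ => hk0 (D + j) (by omega) n w hw
    _ = ε := by
        rw [Finset.sum_const, Finset.card_range, nsmul_eq_mul]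
        exact ENNReal.mul_div_cancel hS0 hSt

/-- 763's literal -/
theorem ptP (hd : 2 ≤ d) (hν : ∀ᵐ p ∂ν, ∀ e : Step d, 0 < p.1 e)
    (hA : annealed (iidEnvironmentLaw ν) 0 (escapeEvent (B2d.dirVec u)) ≠ 0)
    (hB : annealed (iidEnvironmentLaw ν) 0 (escapeEvent (-B2d.dirVec u)) ≠ 0) :
    WL763.PtP ν u := by
  intro S ε hε
  obtain ⟨D0, hD0⟩ := slab_word u ν hd hν hA hB S ε hε
  exact ⟨D0, fun D hD n _ w hw => hD0 D hD n w hw⟩

open Classical in
/-- 692's literal for the pair blocks of 657 -/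
theorem hPoint (hd : 2 ≤ d) (hν : ∀ᵐ p ∂ν, ∀ e : Step d, 0 < p.1 e)
    (hA : annealed (iidEnvironmentLaw ν) 0 (escapeEvent (B2d.dirVec u)) ≠ 0)
    (hB : annealed (iidEnvironmentLaw ν) 0 (escapeEvent (-B2d.dirVec u)) ≠ 0) :
    B5A.HPoint (B5W.Lam ν u) (B5W.ht u) (B5W.dl u) (B5W.cd u) := by
  intro ε hε
  obtain ⟨k0, hk0⟩ := PointW926.pt_word u ν hd hν hA hB ε hε
  refine ⟨k0, fun k hk n _ w => ?_⟩
  refine le_trans (le_of_eq ?_) (hk0 k hk n w.1 w.2)
  have h := B5W.tsum_L ν u n (fun x => if k ∈ B5W.cds u x w.1 then 1 else 0)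
  refine Eq.trans ?_ (h.trans ?_)
  · refine tsum_congr fun L => ?_
    rw [B5W.CD_cat]
    by_cases h1 : B5A.HT (B5W.ht u) L = n
    · by_cases h2 : k ∈ B5W.cds u (B5W.cat L) w.1
      · rw [if_pos ⟨h1, h2⟩, if_pos h1, if_pos h2, mul_one]
      · rw [if_neg (fun h' => h2 h'.2), if_pos h1, if_neg h2, mul_zero]
    · rw [if_neg (fun h' => h1 h'.1), if_neg h1]
  · refine tsum_congr fun π => tsum_congr fun γ => ?_
    rw [B5W.cds_eq]
    by_cases h1 : IsUp u n π ∧ IsDn u n γ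
    · by_cases h2 : k ∈ Cm u w.1 π γ
      · rw [if_pos h1, if_pos h2, if_pos ⟨h1.1, h1.2, h2⟩, mul_one]
      · rw [if_pos h1, if_neg h2, if_neg (fun h' => h2 h'.2.2), mul_zero]
    · rw [if_neg h1, if_neg (fun h' => h1 ⟨h'.1, h'.2.1⟩)]

end Crest.Agent.R154.PointX926
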