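import Crest.Agent.R154.WLit2_763
import Crest.Agent.R154.H2P_546
import Crest.Agent.R154.H3P_125
import Crest.Agent.R154.PointX_926
import Crest.Agent.R154.KappaData_723
import Crest.Agent.R154.NumAll_658
import Crest.Agent.R154.NBTop_28

/-! Row 154, ROAD 801 (helper658): last step of 763's vertical: `OneW ν u` (one window) gives
`KappaW' ν u`, hence `Spine.NBProp`. -/

set_option autoImplicit false

namespace Crest.Agent.R154.Last658

open MeasureTheory ProbabilityTheory Crest.ProbabilityR.RandomEnvironment Crest.Agent.R154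
open Crest.Agent.R154.Flux132 (lev opp)
open Crest.Agent.R154.NB28 Crest.Agent.R154.WL763
open Filter
open scoped ENNReal Topology

variable {d : ℕ}

lemma ov_tendsto {B : Type*} (Λ : B → ℝ≥0∞) (ht : B → ℕ) (hΛ : ∑' b, Λ b = 1)
    (hm : ∑' b, Λ b * (ht b : ℝ≥0∞) ≠ ⊤) : Tendsto (OW763.ov Λ ht) atTop (𝓝 0) := by
  have h2 : ∑' k, B5A.tail Λ ht k ≠ ⊤ := by rw [← B5A.sum_tail Λ ht hΛ]; exact hm
  have h3 := ENNReal.tendsto_sum_nat_add (fun k => B5A.tail Λ ht k) h2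
  refine h3.congr fun i => ?_
  unfold OW763.ov
  exact tsum_congr fun k => by rw [add_comm]

/-- arithmetic of the bracket -/
lemma bracket (oX oY η u0 C X : ℝ≥0∞) (i0 J : ℕ) :
    2 * oX + 2 * oY + u0 * u0
      + ((i0 + 1 : ℕ) * ((i0 + 1 : ℕ) * ((i0 + 1 : ℕ) * (C * X))) + ((1 - u0) ^ J + J * oX))
      + ((i0 + 1 : ℕ) * ((i0 + 1 : ℕ) * ((i0 + 1 : ℕ) * (C * X))) + ((1 - u0) ^ J + J * oY))
      + η
    ≤ 4 * (oX + oY) + η + 2 * ((1 - u0) ^ J + J * (oX + oY)) + u0 ^ 2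
        + (i0 + 1) ^ 4 * (2 * C * X) := by
  have e1 : 2 * oX + 2 * oY + u0 * u0
      + ((i0 + 1 : ℕ) * ((i0 + 1 : ℕ) * ((i0 + 1 : ℕ) * (C * X))) + ((1 - u0) ^ J + J * oX))
      + ((i0 + 1 : ℕ) * ((i0 + 1 : ℕ) * ((i0 + 1 : ℕ) * (C * X))) + ((1 - u0) ^ J + J * oY))
      + η = 2 * (oX + oY) + η + (2 * (1 - u0) ^ J + J * (oX + oY)) + u0 ^ 2
        + ((i0 : ℝ≥0∞) + 1) ^ 3 * (2 * C * X) := by
    push_cast; ring
  have e2 : 4 * (oX + oY) + η + 2 * ((1 - u0) ^ J + J * (oX + oY)) + u0 ^ 2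
        + ((i0 : ℝ≥0∞) + 1) ^ 4 * (2 * C * X)
      = 4 * (oX + oY) + η + (2 * (1 - u0) ^ J + 2 * (J * (oX + oY))) + u0 ^ 2
        + ((i0 : ℝ≥0∞) + 1) ^ 4 * (2 * C * X) := by ring
  rw [e1, e2]
  have h24 : (2 : ℝ≥0∞) ≤ 4 := by norm_num
  have hP : (1 : ℝ≥0∞) ≤ (i0 : ℝ≥0∞) + 1 := le_add_self
  refine add_le_add (add_le_add (add_le_add (add_le_add (mul_le_mul_left h24 _) le_rfl)
    (add_le_add le_rfl ?_)) le_rfl) (mul_le_mul_left (pow_le_pow_right₀ hP (by norm_num)) _)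
  rw [two_mul]
  exact le_self_add

theorem kappaW'_of (ν : Measure (Row d)) [IsProbabilityMeasure ν] (u : Step d)
    (hOne : OneW ν u) (h2 : H2P ν u) (h3 : H3P125.H3Q ν u) (hP : PtP ν u)
    (hX : Tendsto (ovX ν u) atTop (𝓝 0)) (hY : Tendsto (ovY ν u) atTop (𝓝 0)) :
    KappaW' ν u := by
  intro ε hε
  obtain ⟨C2, hC2, h2⟩ := h2
  obtain ⟨C3, hC3, h3⟩ := h3
  have hov : Tendsto (fun i => ovX ν u i + ovY ν u i) atTop (𝓝 0) := by
    simpa using hX.add hY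
  obtain ⟨K, u0, i0, lam, η, -, hK2, hu0, hu1, hi0, hl0, hlt, hη, hbd⟩ :=
    NumK658.choose_all (fun i => ovX ν u i + ovY ν u i) hov (2 * (C2 + C3))
      (ENNReal.mul_ne_top (by norm_num) (ENNReal.add_ne_top.2 ⟨hC2, hC3⟩)) ε hε 0
  obtain ⟨s2, h2⟩ := h2 (4 * i0 + 2) η hη
  obtain ⟨s3, h3⟩ := h3 (4 * i0 + 2) η hη
  set s : ℕ := max s2 s3 with hs
  have H2 : H2at ν u (C2 + C3) (4 * i0 + 2) η s := by
    intro h h' δ E μ M lam a1 a2 a3 a4 a5 a6 a7 a8 a9 a10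
    exact (h2 s (le_max_left _ _) h h' δ E μ M lam a1 a2 a3 a4 a5 a6 a7 a8 a9 a10).trans
      (mul_le_mul_left le_self_add _)
  have H3 : H3at ν u (C2 + C3) (4 * i0 + 2) η s := by
    intro h h' δ E μ M lam a1 a2 a3 a4 a5 a6 a7 a8 a9 a10
    exact (h3 s (le_max_right _ _) h h' δ E μ M lam a1 a2 a3 a4 a5 a6 a7 a8 a9 a10).trans
      (mul_le_mul_left le_add_self _)
  obtain ⟨D0, hD0⟩ := hP (s + 4 * i0 + 4) η hη
  set T0 : ℕ := s + 4 * i0 + 4 + D0 with hT0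
  refine ⟨K * (T0 + 2 * K + 1), fun m hm => ⟨(2 * K + 4) * (m / K), fun n hn w hw => ?_⟩⟩
  set t := m / K with ht
  have hKpos : 0 < K := by omega
  have ht1 : T0 + 2 * K + 1 ≤ t := by
    rw [ht, Nat.le_div_iff_mul_le hKpos, mul_comm]; exact hm
  have h1 : K * t ≤ m := Nat.mul_div_le m K
  have h2' : 2 * m < (2 * K + 1) * t := by
    have h3 := Nat.lt_mul_div_succ m hKpos
    rw [← ht] at h3
    nlinarith
  have hone : ∀ k ∈ Finset.Icc K (2 * K),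
      KWin327.WinW ν u n (k * t) ((k + 1) * t) w ≤ ε / ((K : ℝ≥0∞) + 1) := by
    intro k hk
    rw [Finset.mem_Icc] at hk
    have hJ : (K - 1) / 4 * (3 * t + i0) ≤ (k - 1) * t := by
      calc (K - 1) / 4 * (3 * t + i0) ≤ (K - 1) / 4 * (4 * t) :=
            Nat.mul_le_mul_left _ (by omega)
        _ = ((K - 1) / 4 * 4) * t := by ring
        _ ≤ (k - 1) * t := Nat.mul_le_mul_right _ (by omega)
    have hn' : (k + 4) * t ≤ n := (Nat.mul_le_mul_right _ (by omega)).trans hn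
    have h5 : s + t ≤ (k + 2) * t := by nlinarith [hk.1]
    have hsl : SlabW ν u n ((k + 2) * t - s) (s + 4 * i0 + 4) w ≤ η := by
      refine hD0 _ ?_ n ?_ w hw
      · omega
      · have h6 : (k + 4) * t = (k + 2) * t + 2 * t := by ring
        omega
    have hw1 := hOne u0 (C2 + C3) η lam η i0 ((K - 1) / 4) s t k n w hu0 hu1 hl0 hlt hw H2 H3
      (by omega) hJ hn' (by omega) hsl
    refine hw1.trans (le_trans (le_trans (le_of_eq ?_) (bracket (ovX ν u i0) (ovY ν u i0) η u0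
      (C2 + C3) (lam + (2 * (i0 + 1) / u0) * η / lam + η) i0 ((K - 1) / 4))) hbd)
    push_cast
    ring
  calc KW ν u n m w ≤ ∑ k ∈ Finset.Icc K (2 * K), KWin327.WinW ν u n (k * t) ((k + 1) * t) w :=
        KWin327.kw_windows ν u (by omega) h1 h2' w
    _ ≤ ∑ k ∈ Finset.Icc K (2 * K), ε / ((K : ℝ≥0∞) + 1) := Finset.sum_le_sum hone
    _ = ((K : ℝ≥0∞) + 1) * (ε / ((K : ℝ≥0∞) + 1)) := by
        rw [Finset.sum_const, Nat.card_Icc, nsmul_eq_mul]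
        congr 1
        have : 2 * K + 1 - K = K + 1 := by omega
        rw [this]; push_cast; rfl
    _ ≤ ε := ENNReal.mul_div_le

/-- **everything but the one-window inequality** -/
theorem kappaAll'_of (hOne : ∀ (d : ℕ) (_ : 3 ≤ d) (ν : Measure (Row d)) [IsProbabilityMeasure ν],
    (∀ᵐ p ∂ν, ∀ e : Step d, 0 < p.1 e) → ∀ u : Step d,
    annealed (iidEnvironmentLaw ν) 0 (escapeEvent (B2d.dirVec u)) ≠ 0 →
    annealed (iidEnvironmentLaw ν) 0 (escapeEvent (-B2d.dirVec u)) ≠ 0 → OneW ν u) :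
    NB28.KappaAll' := by
  intro d hd ν _ hν u hA hB
  obtain ⟨c, hc0, hc1, -, -, -, -, hX1, hY1, hXm, hYm⟩ := KD723.data ν hν u hA hB
  have hcinv : c⁻¹ ≠ ⊤ := ENNReal.inv_ne_top.2 hc0
  exact kappaW'_of ν u (hOne d hd ν hν u hA hB) (Win546.h2p ν u) (H3P125.h3Q ν u)
    (PointX926.ptP u ν (by omega) hν hA hB)
    (ov_tendsto _ _ hX1 (ne_top_of_le_ne_top hcinv hXm))
    (ov_tendsto _ _ hY1 (ne_top_of_le_ne_top hcinv hYm))

end Crest.Agent.R154.Last658
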