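import Crest.Agent.R154.FP_178

/-! Row 154 (helper760), ROAD 801: last block decomposition of a first passage, and the split of
the first passage law (overshoot, displacement) into a bounded part and a small part, from a
fixed-height split `U_r z ≤ G0 + b_r z`.  The small mass is paid ONCE (factor `E h`, not `i0+1`). -/

set_option autoImplicit false

namespace Crest.Agent.R154.Last760

open scoped ENNReal
open Crest.Agent.R154.B5A Crest.Agent.R154.FP178

variable {B : Type*} (Λ : B → ℝ≥0∞) (ht : B → ℕ)

open Classical in
/-- decomposition of a first passage by its last block -/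
theorem last_block (h1 : ∀ b, 1 ≤ ht b) (a : ℕ) (ha : 0 < a) (f : List B → ℝ≥0∞) :
    ∑' L, (if fp ht a L then LW Λ L * f L else 0)
      = ∑' Q, (if HT ht Q < a then LW Λ Q *
          ∑' b, (if a ≤ HT ht Q + ht b then Λ b * f (Q ++ [b]) else 0) else 0) := by
  induction a using Nat.strong_induction_on generalizing f with
  | _ a ih =>
    rw [sum_fp_step Λ ht a ha f, tsum_list (fun Q => if HT ht Q < a then LW Λ Q *
          ∑' b, (if a ≤ HT ht Q + ht b then Λ b * f (Q ++ [b]) else 0) else 0)]
    rw [if_pos (by rw [HT_nil]; exact ha), LW_nil, one_mul, HT_nil, ← ENNReal.tsum_add]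
    refine tsum_congr fun b => ?_
    by_cases hb : ht b < a
    · rw [if_neg (by omega), zero_add, ih (a - ht b) (by have := h1 b; omega) (by omega)
        (fun L => f (b :: L)), ← ENNReal.tsum_mul_left]
      refine tsum_congr fun Q => ?_
      rw [HT_cons, LW_cons]
      by_cases h : HT ht Q < a - ht b
      · rw [if_pos h, if_pos (by omega), mul_assoc]
        congr 2
        refine tsum_congr fun c => ?_
        by_cases hc : a - ht b ≤ HT ht Q + ht c
        · rw [if_pos hc, if_pos (by omega)]
          rfl
        · rw [if_neg hc, if_neg (by omega)]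
      · rw [if_neg h, if_neg (by omega), mul_zero]
    · have h0 : a - ht b = 0 := by omega
      rw [h0, sum_fp_zero Λ ht (fun L => f (b :: L)), if_pos (by omega)]
      have e : ∀ Q : List B, (if HT ht (b :: Q) < a then LW Λ (b :: Q) *
          ∑' c, (if a ≤ HT ht (b :: Q) + ht c then Λ c * f (b :: Q ++ [c]) else 0) else 0) = 0 := by
        intro Q
        rw [if_neg (by rw [HT_cons]; omega)]
      rw [tsum_congr e, tsum_zero, add_zero]
      rfl

variable {V : Type*} [AddCommGroup V] (dsp : B → V)

open Classical in
/-- law of the displacement of the lists of height `r` -/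
noncomputable def Ud (r : ℕ) (z : V) : ℝ≥0∞ :=
  ∑' L : List B, if HT ht L = r ∧ (L.map dsp).sum = z then LW Λ L else 0

open Classical in
/-- first passage law of depth `a`: overshoot `i`, displacement `z` -/
noncomputable def Xfp (a i : ℕ) (z : V) : ℝ≥0∞ :=
  ∑' L : List B, if fp ht a L ∧ HT ht L = a + i ∧ (L.map dsp).sum = z then LW Λ L else 0

open Classical in
lemma sum_Ud (r : ℕ) : ∑' z, Ud Λ ht dsp r z = U Λ ht r := by
  simp only [Ud, U]
  rw [ENNReal.tsum_comm]
  refine tsum_congr fun L => ?_
  by_cases h : HT ht L = r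
  · rw [if_pos h, tsum_eq_single ((L.map dsp).sum)]
    · rw [if_pos ⟨h, rfl⟩]
    · intro z hz
      rw [if_neg (fun h' => hz h'.2.symm)]
  · rw [if_neg h]
    simp [h]

open Classical in
/-- the first passage law by the last block -/
theorem Xfp_eq (h1 : ∀ b, 1 ≤ ht b) (a : ℕ) (ha : 0 < a) (i : ℕ) (z : V) :
    Xfp Λ ht dsp a i z
      = ∑ r ∈ Finset.range a, ∑' b, (if r + ht b = a + i then
          Λ b * Ud Λ ht dsp r (z - dsp b) else 0) := by
  have e0 : Xfp Λ ht dsp a i z = ∑' L, (if fp ht a L then LW Λ L *
      (if HT ht L = a + i ∧ (L.map dsp).sum = z then 1 else 0) else 0) := by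
    rw [Xfp]
    refine tsum_congr fun L => ?_
    by_cases h : fp ht a L <;> by_cases h' : HT ht L = a + i ∧ (L.map dsp).sum = z <;>
      simp [h, h']
  rw [e0, last_block Λ ht h1 a ha]
  have e1 : ∀ Q : List B, (if HT ht Q < a then LW Λ Q *
      ∑' b, (if a ≤ HT ht Q + ht b then Λ b *
        (if HT ht (Q ++ [b]) = a + i ∧ ((Q ++ [b]).map dsp).sum = z then 1 else 0) else 0) else 0)
      = ∑ r ∈ Finset.range a, ∑' b, (if r + ht b = a + i then
          Λ b * (if HT ht Q = r ∧ (Q.map dsp).sum = z - dsp b then LW Λ Q else 0) else 0) := by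
    intro Q
    by_cases hQ : HT ht Q < a
    · rw [if_pos hQ, Finset.sum_eq_single (HT ht Q)]
      · rw [← ENNReal.tsum_mul_left]
        refine tsum_congr fun b => ?_
        by_cases hb : HT ht Q + ht b = a + i
        · rw [if_pos hb, if_pos (by omega)]
          by_cases hz : (Q.map dsp).sum = z - dsp b
          · have hz1 : HT ht Q = HT ht Q ∧ (Q.map dsp).sum = z - dsp b := ⟨rfl, hz⟩
            have hz2 : HT ht (Q ++ [b]) = a + i ∧ ((Q ++ [b]).map dsp).sum = z := by
              refine ⟨by rw [HT_append, HT_cons, HT_nil, add_zero]; exact hb, ?_⟩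
              rw [List.map_append, List.sum_append, hz]
              simp
            rw [if_pos hz1, if_pos hz2]
            ring
          · have hz1 : ¬ (HT ht Q = HT ht Q ∧ (Q.map dsp).sum = z - dsp b) := fun h => hz h.2
            have hz2 : ¬ (HT ht (Q ++ [b]) = a + i ∧ ((Q ++ [b]).map dsp).sum = z) := by
              rintro ⟨_, h⟩
              apply hz
              rw [List.map_append, List.sum_append] at h
              simp only [List.map_cons, List.map_nil, List.sum_cons, List.sum_nil, add_zero] at h
              rw [← h]; abel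
            rw [if_neg hz1, if_neg hz2]
            simp
        · rw [if_neg hb]
          by_cases hb' : a ≤ HT ht Q + ht b
          · rw [if_pos hb', if_neg]
            · simp
            · rintro ⟨h, _⟩
              rw [HT_append, HT_cons, HT_nil, add_zero] at h
              exact hb h
          · rw [if_neg hb', mul_zero]
      · intro r _ hr
        have : ∀ b, (if r + ht b = a + i then
          Λ b * (if HT ht Q = r ∧ (Q.map dsp).sum = z - dsp b then LW Λ Q else 0) else 0)
            = 0 := by
          intro b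
          rw [if_neg (c := HT ht Q = r ∧ _) (fun h => hr h.1.symm)]
          simp
        rw [tsum_congr this, tsum_zero]
      · intro h; exact absurd (Finset.mem_range.2 hQ) h
    · rw [if_neg hQ, Finset.sum_eq_zero]
      intro r hr
      have hr' := Finset.mem_range.1 hr
      have : ∀ b, (if r + ht b = a + i then
          Λ b * (if HT ht Q = r ∧ (Q.map dsp).sum = z - dsp b then LW Λ Q else 0) else 0)
            = 0 := by
        intro b
        rw [if_neg (c := HT ht Q = r ∧ _) (fun h => hQ (by omega))]
        simp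
      rw [tsum_congr this, tsum_zero]
  rw [tsum_congr e1, Summable.tsum_finsetSum (fun _ _ => ENNReal.summable)]
  refine Finset.sum_congr rfl fun r _ => ?_
  rw [ENNReal.tsum_comm]
  refine tsum_congr fun b => ?_
  by_cases hb : r + ht b = a + i
  · simp only [if_pos hb]
    rw [ENNReal.tsum_mul_left]
    rfl
  · simp [hb]

lemma tsum_shift (g : V → ℝ≥0∞) (c : V) : ∑' z, g (z - c) = ∑' z, g z :=
  (Equiv.subRight c).tsum_eq g

open Classical in
/-- **split of the first passage law**: bounded part `≤ G0` pointwise, small part of total mass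
`≤ β * E h + ∑_{k} tail (a - r0 + k)`. -/
theorem split_Xfp (h1 : ∀ b, 1 ≤ ht b) (hΛ : ∑' b, Λ b ≤ 1) (hU1 : ∀ n, U Λ ht n ≤ 1)
    (G0 β : ℝ≥0∞) (r0 : ℕ) (bb : ℕ → V → ℝ≥0∞) (hb : ∀ r, r0 ≤ r → ∑' z, bb r z ≤ β)
    (hG : ∀ r, r0 ≤ r → ∀ z, Ud Λ ht dsp r z ≤ G0 + bb r z) (a : ℕ) (ha : 0 < a)
    (har : r0 ≤ a) :
    ∃ Xg Xb : ℕ → V → ℝ≥0∞, (∀ i z, Xfp Λ ht dsp a i z ≤ Xg i z + Xb i z) ∧
      (∀ i z, Xg i z ≤ G0) ∧
      ∑' i, ∑' z, Xb i z ≤ β * ∑' k, tail Λ ht k + ∑' k, tail Λ ht (a - r0 + k) := by
  classical
  -- splitting functions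
  set cc : ℕ → V → ℝ≥0∞ := fun r z => if r0 ≤ r then bb r z else Ud Λ ht dsp r z with hcc
  set Xg : ℕ → V → ℝ≥0∞ := fun i z => ∑ r ∈ Finset.range a, ∑' b,
    (if r + ht b = a + i then Λ b * G0 else 0) with hXg
  set Xb : ℕ → V → ℝ≥0∞ := fun i z => ∑ r ∈ Finset.range a, ∑' b,
    (if r + ht b = a + i then Λ b * cc r (z - dsp b) else 0) with hXb
  refine ⟨Xg, Xb, ?_, ?_, ?_⟩
  · intro i z
    rw [Xfp_eq Λ ht dsp h1 a ha i z, hXg, hXb]
    simp only
    rw [← Finset.sum_add_distrib]
    refine Finset.sum_le_sum fun r _ => ?_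
    rw [← ENNReal.tsum_add]
    refine ENNReal.tsum_le_tsum fun b => ?_
    by_cases h : r + ht b = a + i
    · simp only [if_pos h]
      rw [← mul_add]
      refine mul_le_mul_right ?_ _
      by_cases hr : r0 ≤ r
      · simp only [hcc, if_pos hr]
        exact hG r hr _
      · simp only [hcc, if_neg hr]
        exact le_add_self
    · simp [h]
  · intro i z
    simp only [hXg]
    have : ∀ b, ∑ r ∈ Finset.range a, (if r + ht b = a + i then Λ b * G0 else 0) ≤ Λ b * G0 := by
      intro b
      by_cases h : ∃ r ∈ Finset.range a, r + ht b = a + i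
      · obtain ⟨r, hr, hr2⟩ := h
        rw [Finset.sum_eq_single r]
        · rw [if_pos hr2]
        · intro r' _ hr'
          rw [if_neg (by omega)]
        · intro h; exact absurd hr h
      · push Not at h
        rw [Finset.sum_eq_zero]
        · exact zero_le
        · intro r hr; rw [if_neg (h r hr)]
    calc ∑ r ∈ Finset.range a, ∑' b, (if r + ht b = a + i then Λ b * G0 else 0)
        = ∑' b, ∑ r ∈ Finset.range a, (if r + ht b = a + i then Λ b * G0 else 0) :=
          (Summable.tsum_finsetSum (fun _ _ => ENNReal.summable)).symm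
      _ ≤ ∑' b, Λ b * G0 := ENNReal.tsum_le_tsum this
      _ = (∑' b, Λ b) * G0 := ENNReal.tsum_mul_right
      _ ≤ 1 * G0 := mul_le_mul_left hΛ _
      _ = G0 := one_mul _
  · have hmass : ∀ r, ∑' i, ∑' z, ∑' b, (if r + ht b = a + i then Λ b * cc r (z - dsp b) else 0)
        ≤ (if r < a then tail Λ ht (a - 1 - r) else ∑' b, Λ b) * ∑' z, cc r z := by
      intro r
      have e1 : ∀ i, ∑' z, ∑' b, (if r + ht b = a + i then Λ b * cc r (z - dsp b) else 0)
          = ∑' b, (if r + ht b = a + i then Λ b * ∑' z, cc r z else 0) := by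
        intro i
        rw [ENNReal.tsum_comm]
        refine tsum_congr fun b => ?_
        by_cases h : r + ht b = a + i
        · simp only [if_pos h]
          rw [ENNReal.tsum_mul_left, tsum_shift]
        · simp [h]
      rw [tsum_congr e1, ENNReal.tsum_comm]
      have e2 : ∀ b, ∑' i, (if r + ht b = a + i then Λ b * ∑' z, cc r z else 0)
          ≤ (if a ≤ r + ht b then Λ b else 0) * ∑' z, cc r z := by
        intro b
        by_cases h : a ≤ r + ht b
        · rw [if_pos h, tsum_eq_single (r + ht b - a)]
          · rw [if_pos (by omega)]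
          · intro i hi
            rw [if_neg (by omega)]
        · rw [if_neg h, zero_mul]
          refine le_of_eq ?_
          rw [ENNReal.tsum_eq_zero]
          intro i
          rw [if_neg (by omega)]
      refine (ENNReal.tsum_le_tsum e2).trans ?_
      rw [ENNReal.tsum_mul_right]
      refine mul_le_mul_left ?_ _
      by_cases hr : r < a
      · rw [if_pos hr, tail]
        refine ENNReal.tsum_le_tsum fun b => ?_
        by_cases h : a ≤ r + ht b
        · rw [if_pos h, if_pos (by omega)]
        · rw [if_neg h]; exact zero_le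
      · rw [if_neg hr]
        refine ENNReal.tsum_le_tsum fun b => ?_
        split_ifs
        · exact le_rfl
        · exact zero_le
    have hX : ∑' i, ∑' z, Xb i z = ∑ r ∈ Finset.range a, ∑' i, ∑' z, ∑' b,
        (if r + ht b = a + i then Λ b * cc r (z - dsp b) else 0) := by
      simp only [hXb]
      have e3 : ∀ i, ∑' z, ∑ r ∈ Finset.range a, ∑' b,
          (if r + ht b = a + i then Λ b * cc r (z - dsp b) else 0)
          = ∑ r ∈ Finset.range a, ∑' z, ∑' b,
          (if r + ht b = a + i then Λ b * cc r (z - dsp b) else 0) := fun i =>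
        Summable.tsum_finsetSum (fun _ _ => ENNReal.summable)
      rw [tsum_congr e3]
      exact Summable.tsum_finsetSum (fun _ _ => ENNReal.summable)
    rw [hX]
    have hbound : ∀ r ∈ Finset.range a, ∑' i, ∑' z, ∑' b,
        (if r + ht b = a + i then Λ b * cc r (z - dsp b) else 0)
        ≤ β * tail Λ ht (a - 1 - r) + (if r < r0 then tail Λ ht (a - 1 - r) else 0) := by
      intro r hr
      have hr' := Finset.mem_range.1 hr
      refine (hmass r).trans ?_
      rw [if_pos hr']
      by_cases h : r0 ≤ r
      · rw [if_neg (by omega), add_zero, mul_comm]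
        refine mul_le_mul_left ?_ _
        simp only [hcc, if_pos h]
        exact hb r h
      · rw [if_pos (by omega)]
        refine le_add_left ?_
        simp only [hcc, if_neg h]
        rw [sum_Ud]
        calc tail Λ ht (a - 1 - r) * U Λ ht r ≤ tail Λ ht (a - 1 - r) * 1 :=
              mul_le_mul_right (hU1 r) _
          _ = _ := mul_one _
    refine (Finset.sum_le_sum hbound).trans ?_
    rw [Finset.sum_add_distrib, ← Finset.mul_sum]
    refine add_le_add (mul_le_mul_right ?_ _) ?_
    · rw [Finset.sum_range_reflect (fun k => tail Λ ht k) a]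
      exact ENNReal.sum_le_tsum _
    · have hsub : ∑ r ∈ Finset.range a, (if r < r0 then tail Λ ht (a - 1 - r) else 0)
          = ∑ r ∈ Finset.range r0, tail Λ ht (a - 1 - r) := by
        rw [← Finset.sum_filter]
        congr 1
        ext r
        simp only [Finset.mem_filter, Finset.mem_range]
        omega
      rw [hsub]
      have : ∑ r ∈ Finset.range r0, tail Λ ht (a - 1 - r)
          = ∑ k ∈ Finset.range r0, tail Λ ht (a - r0 + k) := by
        rw [← Finset.sum_range_reflect (fun k => tail Λ ht (a - r0 + k))]
        refine Finset.sum_congr rfl fun r hr => ?_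
        have := Finset.mem_range.1 hr
        congr 1
        omega
      rw [this]
      exact ENNReal.sum_le_tsum _

end Crest.Agent.R154.Last760
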