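import Crest.Agent.R154.B6Same_872

/-! Row 154, TILE_RUN, leaf T4 part (L1) (helper289, racer): no late contact with an arbitrary
horizon, from the no-contact form of (K). Abstract system `B6_833.PairSys`. -/

set_option autoImplicit false
set_option linter.unusedSectionVars false
set_option linter.deprecated false

open MeasureTheory Set Filter Topology
open scoped BigOperators

namespace Crest.Agent.R154.Late289

open Crest.Agent.R154.B6_833 Crest.Agent.R154.B6_833.PairSys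

variable {S Ω : Type*} [MeasurableSpace S] [mΩ : MeasurableSpace Ω] [DiscreteMeasurableSpace S]
variable {A : PairSys S Ω}
variable {a : ℕ} {c₁ cₑ : ℝ} {β : ℕ → ℝ} {h : ℕ → ℝ} {p : ℝ} {Far : ℕ → Set S} {χ : ℕ → S → ℝ}

/-- Step 2 with an arbitrary horizon -/
lemma recursionG (H : A.Hyp a c₁ cₑ β h p Far χ) (q n : ℕ) (hq : a ≤ q) (hn : 4 * q ≤ n) (ζ δ : ℝ)
    (hζ : ∀ s ∈ A.Dist, A.b q s - A.b n s ≤ ζ)
    (hδ : ∀ s : S, ∀ L n : ℕ, ∀ B : Set Ω, L + q ≤ n → MeasurableSet[A.F L] B → B ⊆ A.al L →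
      (A.P s).real (B ∩ (A.none n L (L + q) ∩ A.al n)) ≤ δ * (A.P s).real B)
    (s : S) (hs : s ∈ A.Dist) :
    A.b (4*q) s - A.b n s ≤ (ζ / c₁ + δ) * A.b (2*q) s := by
  have := A.prob s
  have hc := H.c₁pos
  have ha1 := H.a1
  have hζ0 : 0 ≤ ζ := by
    have h1 := hζ s hs
    have h2 := b_anti (A := A) s (show q ≤ n by omega)
    simp only at h2
    linarith
  set μ := A.P s with hμ
  set G := A.N 0 (2*q) ∩ A.nocs 0 (2*q) with hG
  have hGm : MeasurableSet[A.F (2*q)] G :=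
    MeasurableSet.inter (A.N_meas 0 (2*q) (Nat.zero_le _)) (nocs_meas 0 (2*q))
  have hGb : μ.real G = A.b (2*q) s := rfl
  set E1 := A.N 0 (4*q) ∩ A.nocs 0 (4*q) with hE1
  set E2 := A.N 0 n ∩ A.nocs 0 n with hE2
  have hE2m : MeasurableSet E2 := (N_measΩ 0 _ (Nat.zero_le _)).inter (nocs_measΩ 0 _)
  have hsub21 : E2 ⊆ E1 := fun ω hω =>
    ⟨A.N_left 0 (4*q) n (Nat.zero_le _) (by omega) ω hω.1, nocs_anti (by omega) hω.2⟩
  have hdiff : A.b (4*q) s - A.b n s = μ.real (E1 \ E2) := by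
    rw [measureReal_diff hsub21 hE2m]; rfl
  set Bj : ℕ → Set Ω := fun j => (A.N 0 j ∩ A.nocs 0 j) ∩ A.killed (2*q) j with hBj
  have hBjm : ∀ j, MeasurableSet[A.F j] (Bj j) := fun j =>
    MeasurableSet.inter (MeasurableSet.inter (A.N_meas 0 j (Nat.zero_le _)) (nocs_meas 0 j))
      (killed_meas _ _)
  have hBja : ∀ j, Bj j ⊆ A.al j := fun j ω hω => A.N_al 0 j (Nat.zero_le _) hω.1.1
  set t := Finset.Icc (2*q) (3*q) with ht
  set D : ℕ → Set Ω := fun j =>
    (Bj j ∩ (A.N j (4*q) ∩ A.nocs j (4*q))) \ (Bj j ∩ (A.N j n ∩ A.nocs j n)) with hD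
  have hcover : E1 \ E2 ⊆ (G ∩ (A.none (4*q) (2*q) (2*q+q) ∩ A.al (4*q))) ∪ ⋃ j ∈ t, D j := by
    intro ω hω
    obtain ⟨⟨hN, hn'⟩, hnot⟩ := hω
    by_cases hnone : ω ∈ A.none (4*q) (2*q) (2*q+q)
    · left
      exact ⟨⟨A.N_left 0 (2*q) (4*q) (Nat.zero_le _) (by omega) ω hN, nocs_anti (by omega) hn'⟩,
        hnone, A.N_al 0 (4*q) (Nat.zero_le _) hN⟩
    · right
      simp only [PairSys.none, mem_setOf_eq, not_forall] at hnone
      classical
      have hex : ∃ j, 2*q ≤ j ∧ j ≤ 2*q+q ∧ ω ∈ A.N j (4*q) := by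
        obtain ⟨j, h1, h2, h3⟩ := hnone
        exact ⟨j, h1, h2, not_not.mp h3⟩
      obtain ⟨h1, h2, h3⟩ := Nat.find_spec hex
      set j := Nat.find hex with hj
      have hmin : ∀ i, 2*q ≤ i → i < j → ω ∉ A.N i (4*q) := by
        intro i hi hij hNi
        exact Nat.find_min hex hij ⟨hi, by omega, hNi⟩
      refine mem_iUnion₂.mpr ⟨j, Finset.mem_Icc.mpr ⟨h1, by omega⟩, ?_⟩
      have hNj : ω ∈ A.N 0 j := A.N_left 0 j (4*q) (Nat.zero_le _) (by omega) ω hN
      have hB : ω ∈ Bj j := by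
        refine ⟨⟨hNj, nocs_anti (by omega) hn'⟩, ?_⟩
        intro i hi hij hNi
        exact hmin i hi hij (A.N_trans i j (4*q) hij.le (by omega) ω hNi h3)
      refine ⟨⟨hB, h3, nocs_left (Nat.zero_le _) hn'⟩, ?_⟩
      intro hbad
      apply hnot
      refine ⟨A.N_trans 0 j n (Nat.zero_le _) (by omega) ω hNj hbad.2.1, ?_⟩
      intro l hl1 hl2
      by_cases hl : l ≤ 4*q
      · exact hn' l hl1 hl
      · exact hbad.2.2 l (by omega) hl2
  have h1 := measureReal_mono (μ := μ) hcover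
  have h2 := measureReal_union_le (μ := μ)
    (G ∩ (A.none (4*q) (2*q) (2*q+q) ∩ A.al (4*q))) (⋃ j ∈ t, D j)
  have h3 := hδ s (2*q) (4*q) G (by omega) hGm
    (fun ω hω => A.N_al 0 (2*q) (Nat.zero_le _) hω.1)
  have h4 := real_iUnion_le (μ := μ) t D
  have h5 : ∀ j ∈ t, μ.real (D j) ≤ ζ * μ.real (Bj j) := by
    intro j hj
    rw [ht, Finset.mem_Icc] at hj
    have hsub : Bj j ∩ (A.N j n ∩ A.nocs j n) ⊆ Bj j ∩ (A.N j (4*q) ∩ A.nocs j (4*q)) :=
      fun ω hω => ⟨hω.1, A.N_left j (4*q) n (by omega) (by omega) ω hω.2.1,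
        nocs_anti (by omega) hω.2.2⟩
    have e0 : μ.real (D j) = μ.real (Bj j ∩ (A.N j (4*q) ∩ A.nocs j (4*q)))
        - μ.real (Bj j ∩ (A.N j n ∩ A.nocs j n)) := by
      rw [hD]
      exact measureReal_diff hsub ((meas j (hBjm j)).inter
        ((N_measΩ j _ (by omega)).inter (nocs_measΩ j _)))
    rw [e0, hμ, H.FP s j (4*q) (4*q) (by omega) (by omega) _ (hBjm j) (hBja j),
      H.FP s j n n (by omega) (by omega) _ (hBjm j) (hBja j),
      ← integral_sub (integ_φ s j _ _).integrableOn (integ_φ s j _ _).integrableOn]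
    calc _ ≤ ∫ ω in Bj j, ζ ∂(A.P s) := by
          refine setIntegral_mono_on ((integ_φ s j _ _).sub (integ_φ s j _ _)).integrableOn
            (integrable_const _).integrableOn (meas j (hBjm j)) ?_
          intro ω _
          by_cases hd : A.st j ω ∈ A.Dist
          · have f1 : A.φ (4*q-j) (4*q-j) (A.st j ω) ≤ A.b q (A.st j ω) :=
              b_anti (A := A) (A.st j ω) (show q ≤ 4*q-j by omega)
            have f2 : A.b n (A.st j ω) ≤ A.φ (n-j) (n-j) (A.st j ω) :=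
              b_anti (A := A) (A.st j ω) (show n-j ≤ n by omega)
            have f3 := hζ _ hd
            linarith
          · have f1 := H.eqz _ hd (4*q-j) (4*q-j) (by omega) (by omega)
            have f2 := φ_nonneg (A := A) (n-j) (n-j) (A.st j ω)
            linarith
      _ = ζ * (A.P s).real (Bj j) := by rw [setIntegral_const, smul_eq_mul, mul_comm]
  have h6 : ∑ j ∈ t, μ.real (Bj j ∩ A.N j (4*q)) ≤ μ.real G := by
    refine sum_disj_le t _ G ?_ ?_ ?_
    · intro j hj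
      rw [ht, Finset.mem_Icc] at hj
      exact (meas j (hBjm j)).inter (N_measΩ j _ (by omega))
    · intro j hj ω hω
      rw [ht, Finset.mem_Icc] at hj
      exact ⟨A.N_left 0 (2*q) j (Nat.zero_le _) hj.1 ω hω.1.1.1, nocs_anti hj.1 hω.1.1.2⟩
    · intro i hi j hj hij ω hωi hωj
      rw [ht, Finset.mem_Icc] at hi hj
      exact hωj.1.2 i hi.1 hij (A.N_left i j (4*q) hij.le (by omega) ω hωi.2)
  have h7 : ∀ j ∈ t, c₁ * μ.real (Bj j) ≤ μ.real (Bj j ∩ A.N j (4*q)) := by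
    intro j hj
    rw [ht, Finset.mem_Icc] at hj
    exact lowerN H s j (4*q) (by omega) _ (hBjm j) (hBja j)
  have h8 : ∑ j ∈ t, μ.real (Bj j) ≤ μ.real G / c₁ := by
    rw [le_div_iff₀ hc, mul_comm, Finset.mul_sum]
    exact (Finset.sum_le_sum h7).trans h6
  have h9 : ∑ j ∈ t, μ.real (D j) ≤ ζ * (μ.real G / c₁) := by
    refine (Finset.sum_le_sum h5).trans ?_
    rw [← Finset.mul_sum]
    exact mul_le_mul_of_nonneg_left h8 hζ0
  rw [hdiff, ← hGb]
  have : (ζ / c₁ + δ) * μ.real G = ζ * (μ.real G / c₁) + δ * μ.real G := by ring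
  rw [this]
  linarith

/-- one scale: from a bound `b(4q) - b(n) ≤ ρ b(2q)` to late contacts after `M`, `16 q ≤ M < 32 q` -/
lemma late_of (H : A.Hyp a c₁ cₑ β h p Far χ) (q M n k : ℕ) (hqM : 16 * q ≤ M) (hMq : M ≤ 32 * q)
    (hMn : M ≤ n) (ha : a ≤ q) (hk : k ≤ q) (ρ δ ε₁ : ℝ) (hρ : 0 ≤ ρ)
    (hrec : ∀ s ∈ A.Dist, A.b (4*q) s - A.b n s ≤ ρ * A.b (2*q) s)
    (h2 : ∀ s ∈ A.Dist, A.b (2*q) s ≤ 2 * A.b M s)
    (hlate : ∀ s, (A.P s).real (A.Late M) ≤ ε₁)
    (hδ : ∀ s : S, ∀ L n : ℕ, ∀ B : Set Ω, L + k ≤ n → MeasurableSet[A.F L] B → B ⊆ A.al L →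
      (A.P s).real (B ∩ (A.none n L (L + k) ∩ A.al n)) ≤ δ * (A.P s).real B) (hδ0 : 0 ≤ δ)
    (s : S) : (A.P s).real (A.LateG M n) ≤ ε₁ + δ + 2 * ρ := by
  have := A.prob s
  have ha1 := H.a1
  set μ := A.P s with hμ
  set L₀ := M / 2 with hL₀
  set K := L₀ + k with hK
  have hKM : K + 4 * q ≤ M := by omega
  set Dj : ℕ → Set Ω := fun j =>
    (A.Bst j ∩ (A.N j n ∩ A.nocs j M)) \ (A.Bst j ∩ (A.N j n ∩ A.nocs j n)) with hDj
  have hcov : A.LateG M n ⊆ (A.Late M ∪ (A.al L₀ ∩ (A.none n L₀ (L₀ + k) ∩ A.al n))) ∪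
      ⋃ j ∈ Finset.range (K+1), Dj j := by
    rintro ω ⟨hN, l, hl1, hl2, hcs⟩
    by_cases hL : ω ∈ A.Late M
    · exact Or.inl (Or.inl hL)
    by_cases hq : ω ∈ A.al L₀ ∩ (A.none n L₀ (L₀ + k) ∩ A.al n)
    · exact Or.inl (Or.inr hq)
    right
    have hNM : ω ∈ A.N 0 M := A.N_left 0 M n (Nat.zero_le _) hMn ω hN
    have hal := A.N_al 0 n (Nat.zero_le _) hN
    have hj0 : ∃ j, L₀ ≤ j ∧ j ≤ K ∧ ω ∈ A.N j n := by
      by_contra hcon
      apply hq
      refine ⟨A.al_anti _ n (by omega) hal, ?_, hal⟩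
      intro j hj1 hj2 hj3
      exact hcon ⟨j, hj1, hj2, hj3⟩
    obtain ⟨j₀, hj1, hj2, hj3⟩ := hj0
    obtain ⟨j, hj, hjm⟩ := exists_start n M K hMn (by omega) ω hN (by
      intro i hi1 hi2 hi3
      refine ⟨j₀, ?_, hj2, hj3⟩
      by_contra hcon
      apply hL
      exact ⟨hNM, i, by omega, hi2, hi3⟩)
    refine mem_iUnion₂.mpr ⟨j, Finset.mem_range.mpr (by omega), hjm, ?_⟩
    intro hbad
    exact hbad.2.2 l (by omega) hl2 hcs
  have hD : ∀ j ∈ Finset.range (K+1), μ.real (Dj j) ≤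
      2 * ρ * ∫ ω in A.Bst j, A.b (M-j) (A.st j ω) ∂μ := by
    intro j hj
    rw [Finset.mem_range] at hj
    have hsub : A.Bst j ∩ (A.N j n ∩ A.nocs j n) ⊆ A.Bst j ∩ (A.N j n ∩ A.nocs j M) :=
      fun ω hω => ⟨hω.1, hω.2.1, nocs_anti hMn hω.2.2⟩
    rw [hDj]
    simp only
    rw [measureReal_diff hsub ((meas j (Bst_meas j)).inter
      ((N_measΩ j n (by omega)).inter (nocs_measΩ j n))), hμ,
      H.FP s j M n (by omega) hMn _ (Bst_meas j) (Bst_al j),
      H.FP s j n n (by omega) le_rfl _ (Bst_meas j) (Bst_al j),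
      ← integral_sub (integ_φ s j _ _).integrableOn (integ_φ s j _ _).integrableOn,
      ← integral_const_mul]
    refine setIntegral_mono_on ((integ_φ s j _ _).sub (integ_φ s j _ _)).integrableOn
      ((integ_b s j _).const_mul _).integrableOn (meas j (Bst_meas j)) ?_
    intro ω _
    have hb0 := b_nonneg (A := A) (M-j) (A.st j ω)
    by_cases hd : A.st j ω ∈ A.Dist
    · have f1 : A.φ (n-j) (M-j) (A.st j ω) ≤ A.b (M-j) (A.st j ω) :=
        φ_le_b _ (by omega)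
      have f2 : A.b (M-j) (A.st j ω) ≤ A.b (4*q) (A.st j ω) :=
        b_anti (A := A) (A.st j ω) (show 4*q ≤ M-j by omega)
      have f3 : A.b n (A.st j ω) ≤ A.φ (n-j) (n-j) (A.st j ω) :=
        b_anti (A := A) (A.st j ω) (show n-j ≤ n by omega)
      have f4 := hrec _ hd
      have f5 := h2 _ hd
      have f6 : A.b M (A.st j ω) ≤ A.b (M-j) (A.st j ω) :=
        b_anti (A := A) (A.st j ω) (show M-j ≤ M by omega)
      have f7 : ρ * A.b (2*q) (A.st j ω) ≤ ρ * (2 * A.b (M-j) (A.st j ω)) :=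
        mul_le_mul_of_nonneg_left (by linarith) hρ
      linarith
    · have f1 := H.eqz _ hd (n-j) (M-j) (by omega) (by omega)
      have f2 := φ_nonneg (A := A) (n-j) (n-j) (A.st j ω)
      have : 0 ≤ 2 * ρ * A.b (M-j) (A.st j ω) := by positivity
      linarith
  have hS : ∑ j ∈ Finset.range (K+1), μ.real (Dj j) ≤ 2 * ρ := by
    refine (Finset.sum_le_sum hD).trans ?_
    rw [← Finset.mul_sum]
    have h7 : ∑ j ∈ Finset.range (K+1), ∫ ω in A.Bst j, A.b (M-j) (A.st j ω) ∂μ ≤ 1 := by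
      refine le_trans (Finset.sum_le_sum_of_subset_of_nonneg ?_ ?_) (sum_start_b H s M)
      · intro j hj; rw [Finset.mem_range] at hj ⊢; omega
      · intro j _ _
        exact integral_nonneg fun ω => b_nonneg _ _
    have : 0 ≤ 2 * ρ := by positivity
    nlinarith
  have hQ : μ.real (A.al L₀ ∩ (A.none n L₀ (L₀ + k) ∩ A.al n)) ≤ δ := by
    have h5 := hδ s L₀ n (A.al L₀) (by omega) (A.al_meas _) subset_rfl
    have h6 : (A.P s).real (A.al L₀) ≤ 1 := measureReal_le_one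
    refine h5.trans ?_
    nlinarith
  calc μ.real (A.LateG M n) ≤ μ.real ((A.Late M ∪ (A.al L₀ ∩ (A.none n L₀ (L₀ + k) ∩ A.al n))) ∪
      ⋃ j ∈ Finset.range (K+1), Dj j) := measureReal_mono hcov (measure_ne_top _ _)
    _ ≤ (μ.real (A.Late M) + μ.real (A.al L₀ ∩ (A.none n L₀ (L₀ + k) ∩ A.al n))) +
        ∑ j ∈ Finset.range (K+1), μ.real (Dj j) :=
      (measureReal_union_le _ _).trans (add_le_add (measureReal_union_le _ _)
        (real_iUnion_le _ _))
    _ ≤ _ := by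
      have := hlate s
      linarith

/-- **(L1)**: late contacts are rare up to ANY horizon `n` for which the no-contact probabilities
of distinct pairs have (almost) converged at `M`. -/
theorem late_all (H : A.Hyp a c₁ cₑ β h p Far χ) : ∀ ε > (0:ℝ), ∃ ε' > (0:ℝ), ∃ n₀ : ℕ,
    ∀ M ≥ n₀, ∀ n, M ≤ n → (∀ s ∈ A.Dist, A.b M s - A.b n s ≤ ε') →
    ∀ s, (A.P s).real (A.LateG M n) ≤ ε := by
  intro ε hε
  have hc := H.c₁pos
  have HF := svfam H
  obtain ⟨n₁, hn₁⟩ := late_lim H (ε/4) (by positivity)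
  obtain ⟨k, hk⟩ := delta H (ε/16) (by positivity)
  obtain ⟨n₂, hn₂⟩ := HF.sv2 16 (1/2) (by positivity)
  obtain ⟨n₃, hn₃⟩ := H.KB (ε * c₁ / 160) (by positivity)
  refine ⟨ε * c₁ / 32, by positivity, max (max n₁ (32 * (k + 1))) (max (32 * (n₂ + 1))
    (32 * (n₃ + a + 1))), fun M hM n hMn hK s => ?_⟩
  have hM1 : n₁ ≤ M := le_trans (le_trans (le_max_left _ _) (le_max_left _ _)) hM
  have hM2 : 32 * (k + 1) ≤ M := le_trans (le_trans (le_max_right _ _) (le_max_left _ _)) hM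
  have hM3 : 32 * (n₂ + 1) ≤ M := le_trans (le_trans (le_max_left _ _) (le_max_right _ _)) hM
  have hM4 : 32 * (n₃ + a + 1) ≤ M :=
    le_trans (le_trans (le_max_right _ _) (le_max_right _ _)) hM
  set q := M / 16 with hq
  have hqM : 16 * q ≤ M := Nat.mul_div_le M 16
  have hMq : M ≤ 32 * q := by omega
  have hδ' : ∀ s : S, ∀ L n : ℕ, ∀ B : Set Ω, L + q ≤ n → MeasurableSet[A.F L] B → B ⊆ A.al L →
      (A.P s).real (B ∩ (A.none n L (L + q) ∩ A.al n)) ≤ ε/16 * (A.P s).real B := by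
    intro s L n B hL hB hBa
    have hP := A.prob s
    refine le_trans ?_ (hk s L n B (by omega) hB hBa)
    exact measureReal_mono (inter_subset_inter_right _
      (inter_subset_inter_left _ (none_anti (by omega))))
  have hζ : ∀ s ∈ A.Dist, A.b q s - A.b n s ≤ ε * c₁ / 16 := by
    intro s hs
    have h1 := hn₃ q (by omega) s hs
    have h2 := hn₃ (2*q) (by omega) s hs
    have h3 := hn₃ (4*q) (by omega) s hs
    have h4 := hn₃ (8*q) (by omega) s hs
    have h5 := hn₃ (16*q) (by omega) s hs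
    have e2 : 2 * (2*q) = 4*q := by ring
    have e3 : 2 * (4*q) = 8*q := by ring
    have e4 : 2 * (8*q) = 16*q := by ring
    have e5 : 2 * (16*q) = 32*q := by ring
    rw [e2] at h2; rw [e3] at h3; rw [e4] at h4; rw [e5] at h5
    have h6 : A.b (32*q) s ≤ A.b M s := b_anti (A := A) s hMq
    have h7 := hK s hs
    linarith
  have hrec : ∀ s ∈ A.Dist, A.b (4*q) s - A.b n s ≤ (ε/8) * A.b (2*q) s := by
    intro s hs
    have := recursionG H q n (by omega) (by omega) (ε * c₁ / 16) (ε/16) hζ hδ' s hs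
    have e : ε * c₁ / 16 / c₁ + ε / 16 = ε / 8 := by field_simp; ring
    rw [e] at this; exact this
  have h2 : ∀ s ∈ A.Dist, A.b (2*q) s ≤ 2 * A.b M s := by
    intro s hs
    have h1 := hn₂ (2*q) (by omega) _ ⟨s, hs, rfl⟩
    have h3 : A.b (16 * (2*q)) s ≤ A.b M s := b_anti (A := A) s (by omega)
    linarith
  have := late_of H q M n k hqM hMq hMn (by omega) (by omega) (ε/8) (ε/16) (ε/4) (by positivity)
    hrec h2 (fun s => hn₁ M hM1 s) hk (by positivity) s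
  linarith

end Crest.Agent.R154.Late289
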