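import Crest.Agent.R154.Quenched_850

/-! Row 154: Lévy's 0-1 law on path space in the retry form: if at every time `n` with `X ∈ g n`
the event `A` still has conditional probability at least `c > 0`, then `A` holds a.s. on
`{X ∈ g n infinitely often}`. -/

set_option autoImplicit false

namespace Crest.Agent.R154.Kal132

open MeasureTheory ProbabilityTheory Crest.ProbabilityR.RandomEnvironment
open Filter
open scoped ENNReal Topology

variable {d : ℕ}

/-- `G` is determined by the coordinates up to time `n`. -/
def Det (n : ℕ) (G : Set (Path d)) : Prop := ∀ X Y, Agree n X Y → (X ∈ G ↔ Y ∈ G)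

lemma Det.inter {n : ℕ} {G H : Set (Path d)} (hG : Det n G) (hH : Det n H) : Det n (G ∩ H) :=
  fun X Y h => and_congr (hG X Y h) (hH X Y h)

lemma Det.mono {n m : ℕ} (hnm : n ≤ m) {G : Set (Path d)} (hG : Det n G) : Det m G :=
  fun X Y h => hG X Y (h.mono hnm)

lemma Det.measurableSet {n : ℕ} {G : Set (Path d)} (hG : Det n G) : MeasurableSet G :=
  measurableSet_of_agree n G hG

/-- the canonical filtration -/
def filt (d : ℕ) : Filtration ℕ (inferInstance : MeasurableSpace (Path d)) where
  seq n := MeasurableSpace.comap (hist n) inferInstance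
  mono' := by
    intro m n hmn
    change MeasurableSpace.comap (hist m) inferInstance ≤ MeasurableSpace.comap (hist n) inferInstance
    have h : (hist m : Path d → _) = (fun h : Fin (n + 1) → Site d =>
        fun i : Fin (m + 1) => h ⟨i.1, by omega⟩) ∘ hist n := by
      funext X i
      rfl
    rw [h, ← MeasurableSpace.comap_comp]
    exact MeasurableSpace.comap_mono (measurable_of_countable _).comap_le
  le' n := (measurable_hist n).comap_le

lemma Det.filt {n : ℕ} {G : Set (Path d)} (hG : Det n G) : MeasurableSet[filt d n] G := by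
  refine ⟨{h | ext n h ∈ G}, Set.to_countable _ |>.measurableSet, ?_⟩
  ext X
  simp only [Set.mem_preimage, Set.mem_ofPred_eq]
  exact (hG _ _ (ext_hist n X)).symm

lemma det_of_filt {n : ℕ} {G : Set (Path d)} (hG : MeasurableSet[filt d n] G) : Det n G := by
  obtain ⟨S, -, rfl⟩ := hG
  intro X Y h
  have : hist n X = hist n Y := by
    funext i
    exact h i (by omega)
  simp only [Set.mem_preimage, this]

lemma iSup_filt : (⨆ n, filt d n) = (inferInstance : MeasurableSpace (Path d)) := by
  apply le_antisymm
  · exact iSup_le fun n => (filt d).le n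
  · refine le_trans (le_of_eq generateFrom_cyls) ?_
    refine MeasurableSpace.generateFrom_le ?_
    rintro _ ⟨γ, n, rfl⟩
    have h : MeasurableSet[filt d n] (cyl γ n) := by
      apply Det.filt
      intro X Y hXY
      exact ⟨fun hX => hXY.symm.trans hX, fun hY => hXY.trans hY⟩
    exact (le_iSup (fun n => (filt d n : MeasurableSpace (Path d))) n) _ h

lemma det_cyl (γ : Path d) (n : ℕ) : Det n (cyl γ n) := by
  intro X Y hXY
  exact ⟨fun hX => hXY.symm.trans hX, fun hY => hXY.trans hY⟩

/-- decomposition of a determined set into cylinders -/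
lemma Det.eq_iUnion {n : ℕ} {G : Set (Path d)} (hG : Det n G) :
    G = ⋃ h : {h : Fin (n + 1) → Site d // ext n h ∈ G}, cyl (ext n h.1) n := by
  ext X
  simp only [Set.mem_iUnion]
  constructor
  · intro hX
    exact ⟨⟨hist n X, (hG _ _ (ext_hist n X)).1 hX⟩, ext_hist n X⟩
  · rintro ⟨h, hX⟩
    exact (hG _ _ hX).2 h.2

lemma disjoint_cyl_ext (n : ℕ) {h h' : Fin (n + 1) → Site d} (hne : h ≠ h') :
    Disjoint (cyl (ext n h) n) (cyl (ext n h') n) := by
  rw [Set.disjoint_left]
  intro X hX hX'
  rw [mem_cyl_ext_iff] at hX hX'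
  exact hne (hX.symm.trans hX')

/-- measure of `G ∩ A` as a sum over cylinders. -/
lemma measure_det_inter (μ : Measure (Path d)) {n : ℕ} {G : Set (Path d)} (hG : Det n G)
    {A : Set (Path d)} (hA : MeasurableSet A) :
    μ (G ∩ A) = ∑' h : {h : Fin (n + 1) → Site d // ext n h ∈ G}, μ (cyl (ext n h.1) n ∩ A) := by
  conv_lhs => rw [hG.eq_iUnion, Set.iUnion_inter]
  refine measure_iUnion ?_ fun h => (measurableSet_cyl _ _).inter hA
  intro h h' hne
  exact ((disjoint_cyl_ext n fun he => hne (Subtype.ext he)).mono Set.inter_subset_left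
    Set.inter_subset_left)

/-- from cylinders to determined sets. -/
lemma det_le {μ : Measure (Path d)} {n : ℕ} {g : Set (Path d)} {A : Set (Path d)}
    (hA : MeasurableSet A) {c : ℝ≥0∞}
    (h : ∀ γ ∈ g, c * μ (cyl γ n) ≤ μ (cyl γ n ∩ A)) {G : Set (Path d)} (hG : Det n G)
    (hGg : G ⊆ g) : c * μ G ≤ μ (G ∩ A) := by
  have h1 : μ G = ∑' h : {h : Fin (n + 1) → Site d // ext n h ∈ G}, μ (cyl (ext n h.1) n) := by
    have := measure_det_inter μ hG (A := Set.univ) MeasurableSet.univ
    simpa using this
  rw [measure_det_inter μ hG hA, h1, ← ENNReal.tsum_mul_left]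
  exact ENNReal.tsum_le_tsum fun h' => h _ (hGg h'.2)

/-- **Lévy's 0-1 law, retry form.** -/
theorem levy (μ : Measure (Path d)) [IsProbabilityMeasure μ] {A : Set (Path d)}
    (hA : MeasurableSet A) (g : ℕ → Set (Path d)) (hg : ∀ n, Det n (g n)) {c : ℝ≥0∞}
    (hc : c ≠ 0)
    (h : ∀ n, ∀ γ ∈ g n, c * μ (cyl γ n) ≤ μ (cyl γ n ∩ A)) :
    ∀ᵐ X ∂μ, (∃ᶠ n in atTop, X ∈ g n) → X ∈ A := by
  -- wlog `c` is finite
  wlog hct : c ≠ ⊤ generalizing c with H
  · refine H (c := 1) one_ne_zero (fun n γ hγ => le_trans ?_ (h n γ hγ)) ENNReal.one_ne_top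
    have : c = ⊤ := not_not.1 hct
    rw [this]
    gcongr
    exact le_top
  set f : Path d → ℝ := A.indicator (fun _ => (1 : ℝ)) with hf
  have hfi : Integrable f μ := (integrable_const _).indicator hA
  have hlim : ∀ᵐ X ∂μ, Tendsto (fun n => (μ[f | filt d n]) X) atTop (𝓝 (f X)) := by
    refine hfi.tendsto_ae_condExp ?_
    rw [iSup_filt]
    exact stronglyMeasurable_const.indicator hA
  have hcr : 0 < c.toReal := ENNReal.toReal_pos hc hct
  have hlow : ∀ n, ∀ᵐ X ∂μ, X ∈ g n → c.toReal ≤ (μ[f | filt d n]) X := by
    intro n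
    have hm := (filt d).le n
    set M := μ[f | filt d n] with hM
    have hMm : StronglyMeasurable[filt d n] M := stronglyMeasurable_condExp
    set S : Set (Path d) := g n ∩ {X | M X < c.toReal} with hS
    have hSm : MeasurableSet[filt d n] S :=
      (hg n).filt.inter (hMm.measurable measurableSet_Iio)
    have hSd : Det n S := det_of_filt hSm
    have hSm' : MeasurableSet S := hm _ hSm
    have hle : c * μ S ≤ μ (S ∩ A) := det_le hA (h n) hSd Set.inter_subset_left
    have hint : ∫ X in S, M X ∂μ = (μ (S ∩ A)).toReal := by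
      rw [hM, setIntegral_condExp hm hfi hSm, hf, setIntegral_indicator hA, setIntegral_const,
        smul_eq_mul, mul_one]
      rfl
    have hS0 : μ S = 0 := by
      by_contra hne
      have hMi : Integrable M μ := integrable_condExp
      have hpos : 0 < ∫ X in S, (c.toReal - M X) ∂μ := by
        have hI : IntegrableOn (fun X => c.toReal - M X) S μ :=
          ((integrable_const _).sub hMi).integrableOn
        rw [setIntegral_pos_iff_support_of_nonneg_ae ?_ hI]
        · refine lt_of_lt_of_le (pos_iff_ne_zero.2 hne) (measure_mono ?_)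
          intro X hX
          refine ⟨?_, hX⟩
          have : M X < c.toReal := hX.2
          simp only [Function.mem_support]
          linarith
        · rw [EventuallyLE, ae_restrict_iff' hSm']
          refine Eventually.of_forall fun X hX => ?_
          have : M X < c.toReal := hX.2
          simp only [Pi.zero_apply]
          linarith
      rw [integral_sub (integrable_const c.toReal).integrableOn hMi.integrableOn, hint,
        setIntegral_const, smul_eq_mul] at hpos
      have h2 : c.toReal * (μ S).toReal ≤ (μ (S ∩ A)).toReal := by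
        rw [← ENNReal.toReal_mul]
        exact ENNReal.toReal_mono (measure_ne_top _ _) hle
      have h3 : μ.real S = (μ S).toReal := rfl
      rw [h3] at hpos
      nlinarith
    filter_upwards [measure_eq_zero_iff_ae_notMem.1 hS0] with X hX hXg
    by_contra hlt
    exact hX ⟨hXg, not_le.1 hlt⟩
  filter_upwards [hlim, ae_all_iff.2 hlow] with X hX hXl hfr
  by_contra hXA
  have h0 : f X = 0 := by rw [hf]; exact Set.indicator_of_notMem hXA _
  rw [h0] at hX
  have hev : ∀ᶠ n in atTop, (μ[f | filt d n]) X < c.toReal := hX.eventually_lt_const hcr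
  obtain ⟨n, hn1, hn2⟩ := (hfr.and_eventually hev).exists
  exact absurd (hXl n hn1) (not_le.2 hn2)

end Crest.Agent.R154.Kal132
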