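import Crest.Agent.R154.FEk_9
import Crest.Agent.R154.Flux1_132

/-!
# Row 154, helper9, `d = 2`: the mean of `FE` along one slab, `(L)` of the LLN assembly

* `FE_shift`, `int_FE_shift` : shift covariance;
* `V_lip` : `y ↦ ∫ FE L χ η y` is Lipschitz in the slanted coordinate on a level;
* `FE_markov` : insertion of a level;
* `L_of` : the mean at `y` and at `z`, one slab above, differ by little (from `ResidP`, `HitP`,
  stationarity, one slab tail).
-/

set_option autoImplicit false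
set_option linter.unusedVariables false
set_option linter.unusedSectionVars false

namespace Crest.Agent.R154.LipV9

open MeasureTheory ProbabilityTheory Crest.ProbabilityR.RandomEnvironment Crest.Agent.R154
open Crest.Agent.R154.Flux132 (lev)
open Crest.Agent.R154.ExK9 Crest.Agent.R154.Resamp9 Crest.Agent.R154.WChain9
open Crest.Agent.R154.FEk9
open Crest.Agent.R154.P2916 (sl)
open Crest.Agent.R154.River916 (Ev)
open Crest.Agent.R154.Q561 (tr)
open scoped ENNReal

section gen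
variable {d : ℕ}

lemma int_shift {ν : Measure (Row d)} [IsProbabilityMeasure ν] {f : Environment d → ℝ}
    (hf : Measurable f) (s : Site d) :
    ∫ ω, f (shiftEnv s ω) ∂(iidEnvironmentLaw ν) = ∫ ω, f ω ∂(iidEnvironmentLaw ν) := by
  have h := Q561.iid_shift ν s
  conv_rhs => rw [← h.map_eq]
  rw [integral_map h.measurable.aemeasurable hf.aestronglyMeasurable]

lemma exT_tr {A A' : Set (Site d)} {s : Site d} (h : ∀ x, x + s ∈ A ↔ x ∈ A') (X : Path d) :
    exT A (tr s X) = exT A' X := by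
  by_cases h1 : exT A' X = ⊤
  · rw [h1, exT_eq_top_iff]
    intro i
    exact (h _).2 (exT_eq_top_iff.1 h1 i)
  · obtain ⟨n, hn⟩ := ENat.ne_top_iff_exists.1 h1
    rw [← hn, exT_eq_iff]
    obtain ⟨h2, h3⟩ := exT_eq_iff.1 hn.symm
    exact ⟨fun h4 => h2 ((h _).1 h4), fun i hi => (h _).2 (h3 i hi)⟩

lemma prod_diff {ι : Type*} (t : Finset ι) {a b : ι → ℝ} (ha : ∀ j, 0 ≤ a j ∧ a j ≤ 1)
    (hb : ∀ j, 0 ≤ b j ∧ b j ≤ 1) :
    |∏ j ∈ t, a j - ∏ j ∈ t, b j| ≤ ∑ j ∈ t, |a j - b j| := by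
  classical
  induction t using Finset.induction_on with
  | empty => simp
  | insert j t hj ih =>
    rw [Finset.prod_insert hj, Finset.prod_insert hj, Finset.sum_insert hj]
    have e : a j * ∏ i ∈ t, a i - b j * ∏ i ∈ t, b i =
        (a j - b j) * ∏ i ∈ t, a i + b j * (∏ i ∈ t, a i - ∏ i ∈ t, b i) := by ring
    have h0 : 0 ≤ ∏ i ∈ t, a i := Finset.prod_nonneg fun i _ => (ha i).1
    have h1 : ∏ i ∈ t, a i ≤ 1 := Finset.prod_le_one (fun i _ => (ha i).1) fun i _ => (ha i).2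
    rw [e]
    calc _ ≤ |(a j - b j) * ∏ i ∈ t, a i| + |b j * (∏ i ∈ t, a i - ∏ i ∈ t, b i)| :=
          abs_add_le _ _
      _ ≤ |a j - b j| + ∑ i ∈ t, |a i - b i| := by
          rw [abs_mul, abs_mul, abs_of_nonneg h0, abs_of_nonneg (hb j).1]
          have h2 : |a j - b j| * ∏ i ∈ t, a i ≤ |a j - b j| * 1 :=
            mul_le_mul_of_nonneg_left h1 (abs_nonneg _)
          have h3 : b j * |∏ i ∈ t, a i - ∏ i ∈ t, b i| ≤
              1 * |∏ i ∈ t, a i - ∏ i ∈ t, b i| :=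
            mul_le_mul_of_nonneg_right (hb j).2 (abs_nonneg _)
          linarith

end gen

variable {u : Step 2} {i : Fin 2} {θ : ℝ} {m : ℕ} {wd : ℕ → ℕ}

lemma lev_add (x y : Site 2) : lev u (x + y) = lev u x + lev u y := Flux132.lev_add u x y

lemma sl_add (x y : Site 2) : sl u i θ (x + y) = sl u i θ x + sl u i θ y := by
  unfold sl
  rw [lev_add, Pi.add_apply]
  push_cast
  ring

lemma sl_zero : sl u i θ 0 = 0 := by
  have h := sl_add (u := u) (i := i) (θ := θ) 0 0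
  rw [add_zero] at h
  linarith

lemma Sb_shift {s : Site 2} {a l : ℕ} (hs : lev u s = a) (hl : a ≤ l) (x : Site 2) :
    x + s ∈ D2V36.Sb u l ↔ x ∈ D2V36.Sb u (l - a) := by
  show lev u (x + s) < (l : ℤ) ↔ lev u x < ((l - a : ℕ) : ℤ)
  rw [lev_add, hs, Nat.cast_sub hl]
  constructor <;> intro h <;> linarith

lemma xT_tr {s : Site 2} {a l : ℕ} (hs : lev u s = a) (hl : a ≤ l) (X : Path 2) :
    D2V36.xT u l (tr s X) = D2V36.xT u (l - a) X + s := by
  show (tr s X) (exT (D2V36.Sb u l) (tr s X)).toNat = X (exT (D2V36.Sb u (l - a)) X).toNat + s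
  rw [exT_tr (Sb_shift hs hl)]
  rfl

lemma PX_tr {s : Site 2} {a : ℕ} (hs : lev u s = a) {L : Fin m → ℕ} (hL : ∀ j, a ≤ L j)
    (χ : Fin m → Site 2 → ℝ) (X : Path 2) :
    D2V36.PX u L χ (tr s X) = D2V36.PX u (fun j => L j - a) (fun j z => χ j (z + s)) X := by
  unfold D2V36.PX
  exact Finset.prod_congr rfl fun j _ => by rw [xT_tr hs (hL j)]

/-- **shift covariance** -/
theorem FE_shift {s : Site 2} {a : ℕ} (hs : lev u s = a) {L : Fin m → ℕ} (hL : ∀ j, a ≤ L j)
    (χ : Fin m → Site 2 → ℝ) (ω : Environment 2) (y : Site 2) :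
    D2V36.FE u L χ ω (y + s) =
      D2V36.FE u (fun j => L j - a) (fun j z => χ j (z + s)) (shiftEnv s ω) y := by
  unfold D2V36.FE
  rw [← Q561.quenched_shift s ω y, integral_map (Q561.measurable_tr s).aemeasurable
    (meas_PX L χ).aestronglyMeasurable]
  exact integral_congr_ae (ae_of_all _ fun X => PX_tr hs hL χ X)

variable {ν : Measure (Row 2)} [IsProbabilityMeasure ν]

theorem int_FE_shift {s : Site 2} {a : ℕ} (hs : lev u s = a) {L : Fin m → ℕ}
    (hL : ∀ j, a ≤ L j) {χ : Fin m → Site 2 → ℝ} (h : ∀ j z, 0 ≤ χ j z ∧ χ j z ≤ 1)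
    (y : Site 2) :
    ∫ η, D2V36.FE u L χ η (y + s) ∂(iidEnvironmentLaw ν) =
      ∫ η, D2V36.FE u (fun j => L j - a) (fun j z => χ j (z + s)) η y
        ∂(iidEnvironmentLaw ν) := by
  simp_rw [FE_shift hs hL χ]
  exact int_shift (meas_FE (fun j z => h j (z + s)) y) s

lemma FE_diff {L : Fin m → ℕ} {χ χ' : Fin m → Site 2 → ℝ}
    (h : ∀ j z, 0 ≤ χ j z ∧ χ j z ≤ 1) (h' : ∀ j z, 0 ≤ χ' j z ∧ χ' j z ≤ 1) {c : ℝ}
    (hc : ∀ j z, |χ j z - χ' j z| ≤ c) (ω : Environment 2) (y : Site 2) :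
    |D2V36.FE u L χ ω y - D2V36.FE u L χ' ω y| ≤ m * c := by
  have i1 : ∀ {χ : Fin m → Site 2 → ℝ}, (∀ j z, 0 ≤ χ j z ∧ χ j z ≤ 1) →
      Integrable (D2V36.PX u L χ) (quenchedLaw ω y) := fun {χ} hh =>
    Integrable.of_bound (meas_PX L χ).aestronglyMeasurable 1 (ae_of_all _ fun X => by
      rw [Real.norm_eq_abs, abs_of_nonneg (PX_nonneg hh X)]; exact PX_le_one hh X)
  unfold D2V36.FE
  rw [← integral_sub (i1 h) (i1 h')]
  calc _ ≤ ∫ X, |D2V36.PX u L χ X - D2V36.PX u L χ' X| ∂quenchedLaw ω y :=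
        abs_integral_le_integral_abs
    _ ≤ ∫ _, (m * c : ℝ) ∂quenchedLaw ω y := by
        refine integral_mono ((i1 h).sub (i1 h')).abs (integrable_const _) fun X => ?_
        show |D2V36.PX u L χ X - D2V36.PX u L χ' X| ≤ m * c
        unfold D2V36.PX
        calc _ ≤ ∑ j : Fin m, |χ j (D2V36.xT u (L j) X) - χ' j (D2V36.xT u (L j) X)| :=
              prod_diff _ (fun j => h j _) fun j => h' j _
          _ ≤ ∑ _j : Fin m, c := Finset.sum_le_sum fun j _ => hc j _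
          _ = m * c := by simp
    _ = m * c := by simp

/-- **the annealed mean is Lipschitz along a level** -/
theorem V_lip {L : Fin m → ℕ} {χ : Fin m → Site 2 → ℝ} (h : ∀ j z, 0 ≤ χ j z ∧ χ j z ≤ 1)
    {w : ℝ} (hχ : ∀ j z z', |χ j z - χ j z'| ≤ |sl u i θ z - sl u i θ z'| / w)
    {y y' : Site 2} (hy : lev u y = lev u y') :
    |∫ η, D2V36.FE u L χ η y ∂(iidEnvironmentLaw ν) -
      ∫ η, D2V36.FE u L χ η y' ∂(iidEnvironmentLaw ν)| ≤
        m * (|sl u i θ y - sl u i θ y'| / w) := by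
  set s : Site 2 := y - y' with hs
  have hy1 : y = y' + s := by rw [hs]; abel
  have hls : lev u s = ((0 : ℕ) : ℤ) := by
    have h1 := lev_add (u := u) y' s
    rw [← hy1] at h1
    simp only [Nat.cast_zero]
    linarith
  have e1 := int_FE_shift (ν := ν) hls (L := L) (fun j => Nat.zero_le _) h y'
  rw [← hy1] at e1
  have e2 : (fun j => L j - 0) = L := by funext j; exact Nat.sub_zero _
  rw [e1, e2]
  have hsl : sl u i θ y - sl u i θ y' = sl u i θ s := by rw [hy1, sl_add]; ring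
  have h' : ∀ j z, 0 ≤ (fun (j : Fin m) z => χ j (z + s)) j z ∧
      (fun (j : Fin m) z => χ j (z + s)) j z ≤ 1 := fun j z => h j (z + s)
  have h2 : ∀ j z, |χ j (z + s) - χ j z| ≤ |sl u i θ s| / w := by
    intro j z
    have h3 := hχ j (z + s) z
    rwa [sl_add, add_sub_cancel_left] at h3
  rw [← integral_sub (intg (meas_FE h' y') (abs_FE_le h' · y'))
    (intg (meas_FE h y') (abs_FE_le h · y')), hsl]
  calc _ ≤ ∫ η, |D2V36.FE u L (fun j z => χ j (z + s)) η y' - D2V36.FE u L χ η y'|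
          ∂(iidEnvironmentLaw ν) := abs_integral_le_integral_abs
    _ ≤ ∫ _, (m * (|sl u i θ s| / w) : ℝ) ∂(iidEnvironmentLaw ν) := by
        refine integral_mono ?_ (integrable_const _) fun η => FE_diff h' h h2 η y'
        exact ((intg (meas_FE h' y') (abs_FE_le h' · y')).sub
          (intg (meas_FE h y') (abs_FE_le h · y'))).abs
    _ = _ := by simp

/-- **insertion of a level** -/
theorem FE_markov {L : Fin m → ℕ} {l : ℕ} (hL : ∀ j, l ≤ L j) {χ : Fin m → Site 2 → ℝ}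
    (h : ∀ j z, 0 ≤ χ j z ∧ χ j z ≤ 1) {ω : Environment 2}
    (H : ∀ (l : ℕ) (y : Site 2), quenchedLaw ω y {X | exT (D2V36.Sb u l) X = ⊤} = 0)
    (y : Site 2) :
    D2V36.FE u L χ ω y = E1 (EK ω (D2V36.Sb u l) y) fun x => D2V36.FE u L χ ω x := by
  have h1 := markov_real ω (D2V36.Sb u l) y (H l y) (h := fun _ => 1)
    (fun z => zero_le_one) (meas_PX (u := u) L χ) (PX_nonneg h) (PX_le_one h)
  have e : (fun x => D2V36.FE u L χ ω x) =
      fun z => (1 : ℝ) * ∫ X, D2V36.PX u L χ X ∂quenchedLaw ω z := by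
    funext z; rw [one_mul]; rfl
  rw [e, ← h1]
  unfold D2V36.FE
  have hae : ∀ᵐ X ∂quenchedLaw ω y, ∀ j, exT (D2V36.Sb u (L j)) X ≠ ⊤ := by
    rw [ae_all_iff]
    intro j
    exact ae_iff.2 (by simpa using H (L j) y)
  refine integral_congr_ae ?_
  filter_upwards [hae] with X hX
  rw [one_mul]
  unfold D2V36.PX
  refine Finset.prod_congr rfl fun j _ => ?_
  rw [xT_eq, xT_eq, ← xT_shift (Sb_mono (hL j)) (hX j)]

/-! ### one slab -/

lemma lev_step_le (e : Step 2) : |lev u (stepVec e)| ≤ 1 := by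
  by_cases h : e.1 = u.1
  · rcases u with ⟨i, b⟩
    rcases e with ⟨j, c⟩
    simp only at h
    subst h
    cases b <;> cases c <;> simp [lev, stepVec]
  · rw [Flux132.lev_step_of_ne h]; simp

lemma coord_step_le (i : Fin 2) (e : Step 2) : |stepVec e i| ≤ 1 := by
  rcases e with ⟨j, b⟩
  by_cases h : i = j
  · subst h
    cases b <;> simp [stepVec]
  · have : stepVec ((j, b) : Step 2) i = 0 := by
      simp only [stepVec]
      exact Pi.single_eq_of_ne h _
    rw [this]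
    simp

lemma sl_step_le (e : Step 2) : |sl u i θ (stepVec e)| ≤ 1 + |θ| := by
  have h1 : |((stepVec e i : ℤ) : ℝ)| ≤ 1 := by exact_mod_cast coord_step_le i e
  have h2 : |((lev u (stepVec e) : ℤ) : ℝ)| ≤ 1 := by exact_mod_cast lev_step_le (u := u) e
  unfold sl
  calc |((stepVec e i : ℤ) : ℝ) - θ * (lev u (stepVec e) : ℝ)|
      ≤ |((stepVec e i : ℤ) : ℝ)| + |θ * (lev u (stepVec e) : ℝ)| := abs_sub _ _
    _ ≤ 1 + |θ| := by
        rw [abs_mul]
        have : |θ| * |((lev u (stepVec e) : ℤ) : ℝ)| ≤ |θ| * 1 :=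
          mul_le_mul_of_nonneg_left h2 (abs_nonneg _)
        linarith

/-- the first visit of level `g` -/
lemma lev_first {g : ℕ} {X : Path 2} (h0 : X 0 = 0)
    (hnn : ∀ n, ∃ e : Step 2, X (n + 1) = X n + stepVec e)
    (hX : exT (D2V36.Sb u g) X ≠ ⊤) : lev u (D2V36.xT u g X) = (g : ℤ) := by
  obtain ⟨n, hn⟩ := ENat.ne_top_iff_exists.1 hX
  obtain ⟨h1, h2⟩ := exT_eq_iff.1 hn.symm
  have e : D2V36.xT u g X = X n := by
    show X (exT (D2V36.Sb u g) X).toNat = X n
    rw [← hn, ENat.toNat_natCast]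
  rw [e]
  have h1' : (g : ℤ) ≤ lev u (X n) := not_lt.1 h1
  rcases n with _ | n
  · rw [h0, Flux132.lev_zero] at h1' ⊢
    have : (0 : ℤ) ≤ g := Nat.cast_nonneg g
    omega
  · obtain ⟨e', he⟩ := hnn n
    have h3 : lev u (X n) < g := h2 n (Nat.lt_succ_self n)
    have h4 := (abs_le.1 (lev_step_le (u := u) e')).2
    rw [he, lev_add] at h1' ⊢
    omega

lemma EK_lev (ω : Environment 2) (g : ℕ) {x : Site 2} (hx : lev u x ≠ (g : ℤ)) :
    EK ω (D2V36.Sb u g) 0 x = 0 := by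
  unfold EK
  have h : ∀ᵐ X ∂quenchedLaw ω 0, X ∉ ExS (D2V36.Sb u g) x := by
    filter_upwards [quenched_zero_eq ω 0, quenched_nn ω 0] with X h0 hnn hX
    obtain ⟨h1, h2⟩ := mem_ExS_iff.1 hX
    have h3 := lev_first (u := u) h0 hnn h1
    apply hx
    rw [← h3]
    show lev u x = lev u (X (exT (D2V36.Sb u g) X).toNat)
    rw [h2]
  have h2 := ae_iff.1 h
  simpa using h2

/-- the slab tail from `0` -/
noncomputable def wn (u : Step 2) (i : Fin 2) (θ : ℝ) (ν : Measure (Row 2))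
    [IsProbabilityMeasure ν] (g h : ℕ) (ρ : ℝ) : ℝ≥0∞ :=
  ∫⁻ ω, quenchedLaw ω 0 (Ev (D2V36.Col u i θ 0 g h ρ 0) (D2V36.Lvl u (0 + g)))ᶜ
    ∂(iidEnvironmentLaw ν)

lemma meas_EvC (B T : Set (Site 2)) : MeasurableSet (Ev B T) := by
  have e : Ev B T = ⋃ n : ℕ, {X : Path 2 | X n ∈ T ∧ ∀ i < n, X i ∈ B} := by
    ext X; simp [Ev]
  rw [e]
  refine MeasurableSet.iUnion fun n => ?_
  have e2 : {X : Path 2 | X n ∈ T ∧ ∀ i < n, X i ∈ B} =
      {X | X n ∈ T} ∩ ⋂ i ∈ Finset.range n, {X | X i ∈ B} := by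
    ext X; simp
  rw [e2]
  refine ((measurable_pi_apply n) T.to_countable.measurableSet).inter ?_
  exact Finset.measurableSet_biInter _ fun j _ =>
    (measurable_pi_apply j) B.to_countable.measurableSet

lemma wn_le_one (g h : ℕ) (ρ : ℝ) : wn u i θ ν g h ρ ≤ 1 := by
  unfold wn
  calc _ ≤ ∫⁻ _, 1 ∂(iidEnvironmentLaw ν) := lintegral_mono fun ω => prob_le_one
    _ = 1 := by simp

/-- the tail of the exit point -/
lemma tail_le (ω : Environment 2) (g h : ℕ) (ρ : ℝ) (hρ : 0 ≤ ρ) :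
    E1 (EK ω (D2V36.Sb u g) 0)
      (fun x => {x : Site 2 | ρ + (1 + |θ|) < |sl u i θ x|}.indicator (fun _ => (1 : ℝ)) x) ≤
    (quenchedLaw ω 0 (Ev (D2V36.Col u i θ 0 g h ρ 0) (D2V36.Lvl u (0 + g)))ᶜ).toReal := by
  set T : Set (Site 2) := {x : Site 2 | ρ + (1 + |θ|) < |sl u i θ x|} with hT
  have e1 : E1 (EK ω (D2V36.Sb u g) 0) (fun x => T.indicator (fun _ => (1 : ℝ)) x) =
      (∑' x, T.indicator (EK ω (D2V36.Sb u g) 0) x).toReal := by
    rw [ENNReal.tsum_toReal_eq]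
    · unfold E1
      refine tsum_congr fun x => ?_
      beta_reduce
      by_cases hx : x ∈ T
      · rw [Set.indicator_of_mem hx, Set.indicator_of_mem hx, mul_one]
      · rw [Set.indicator_of_notMem hx, Set.indicator_of_notMem hx, mul_zero,
          ENNReal.toReal_zero]
    · intro x
      by_cases hx : x ∈ T
      · rw [Set.indicator_of_mem hx]
        exact ne_top_of_le_ne_top ENNReal.one_ne_top (EK_le_one ω _ 0 x)
      · rw [Set.indicator_of_notMem hx]; exact ENNReal.zero_ne_top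
  rw [e1, tsum_EK]
  refine ENNReal.toReal_mono (measure_ne_top _ _) ?_
  refine measure_mono_ae ?_
  filter_upwards [quenched_zero_eq ω 0, quenched_nn ω 0] with X h0 hnn hX
  obtain ⟨h1, h2⟩ := hX
  show X ∈ (Ev (D2V36.Col u i θ 0 g h ρ 0) (D2V36.Lvl u (0 + g)))ᶜ
  rintro ⟨n, hn1, hn2⟩
  have hn1' : lev u (X n) = ((0 + g : ℕ) : ℤ) := hn1
  have hex : exT (D2V36.Sb u g) X = n := by
    rw [exT_eq_iff]
    constructor
    · show ¬ lev u (X n) < (g : ℤ)
      rw [hn1']; simp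
    · intro j hj
      have h3 := (hn2 j hj).2.1
      show lev u (X j) < (g : ℤ)
      simpa using h3
  have h2' : ρ + (1 + |θ|) < |sl u i θ (X n)| := by
    have h3 : X (exT (D2V36.Sb u g) X).toNat ∈ T := h2
    rw [hex, ENat.toNat_natCast] at h3
    exact h3
  rcases n with _ | n
  · rw [h0, sl_zero, abs_zero] at h2'
    have := abs_nonneg θ
    linarith
  · have h3 := (hn2 n (Nat.lt_succ_self n)).2.2
    rw [sl_zero, sub_zero] at h3
    obtain ⟨e, he⟩ := hnn n
    rw [he, sl_add] at h2'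
    have h4 := abs_add_le (sl u i θ (X n)) (sl u i θ (stepVec e))
    have h5 := sl_step_le (u := u) (i := i) (θ := θ) e
    linarith

/-- **(L), from `0`** -/
theorem L_of0 (HR : D2V36.ResidP u i θ ν) (HP : D2V36.HitP u ν) (m : ℕ) {δ : ℝ} (hδ : 0 < δ) :
    ∃ (g0 : ℕ) (w0 : ℝ), 0 < w0 ∧ ∀ w ≥ w0, ∀ g ≥ g0, ∀ L : Fin m → ℕ, Monotone L →
      (∀ j, g ≤ L j) → ∀ χ : Fin m → Site 2 → ℝ, (∀ j z, 0 ≤ χ j z ∧ χ j z ≤ 1) →
      (∀ j z z', |χ j z - χ j z'| ≤ |sl u i θ z - sl u i θ z'| / w) →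
      ∀ z : Site 2, lev u z = (g : ℤ) → ∀ (h : ℕ) (ρ : ℝ), 0 ≤ ρ →
      |∫ η, D2V36.FE u L χ η 0 ∂(iidEnvironmentLaw ν) -
        ∫ η, D2V36.FE u L χ η z ∂(iidEnvironmentLaw ν)| ≤
        δ + m * ((|sl u i θ z| + (ρ + (1 + |θ|))) / w) + (wn u i θ ν g h ρ).toReal := by
  obtain ⟨g0, w0, hw0, HR'⟩ := HR m δ hδ
  refine ⟨g0, w0, hw0, fun w hw g hg L hLm hL χ h hχ z hz hh ρ hρ => ?_⟩
  have hR := HR' w hw g hg L hLm hL χ h hχ
  have hwp : 0 < w := lt_of_lt_of_le hw0 hw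
  set Q := iidEnvironmentLaw ν with hQ
  set S := D2V36.Sb u g with hS
  set V : Site 2 → ℝ := fun x => ∫ η, D2V36.FE u L χ η x ∂Q with hV
  set C : Site 2 → Environment 2 → ℝ := fun x ω =>
    cndR ν S (fun ω => D2V36.FE u L χ ω x) ω with hC
  set R : ℝ := ρ + (1 + |θ|) with hRd
  set T : Set (Site 2) := {x : Site 2 | R < |sl u i θ x|} with hT
  set c0 : ℝ := m * ((|sl u i θ z| + R) / w) with hc0
  have hR0 : 0 ≤ R := by have := abs_nonneg θ; rw [hRd]; linarith
  have hc00 : 0 ≤ c0 := by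
    rw [hc0]; exact mul_nonneg (Nat.cast_nonneg _) (div_nonneg (by positivity) hwp.le)
  have C1 : ∀ ω x, |C x ω| ≤ 1 := fun ω x =>
    abs_cndR_le S (fun ω => abs_FE_le h ω x) ω
  have V1 : ∀ x, |V x| ≤ 1 := fun x => by
    have := int_FE_le (ν := ν) (u := u) (L := L) h x
    rw [abs_of_nonneg this.1]; exact this.2
  have mC : ∀ x, Measurable (C x) := fun x => meas_cndR S (meas_FE h x)
  have p1 : ∀ ω, ∑' y, EK ω S 0 y ≤ 1 := fun ω => tsum_EK_le ω S 0
  have mE : ∀ {f : Environment 2 → Site 2 → ℝ}, (∀ y, Measurable fun ω => f ω y) →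
      Measurable fun ω => E1 (EK ω S 0) (f ω) := fun {f} hf => meas_E1 (fun y => meas_EK S 0 y) hf
  -- the mean at `0`
  have a1 : V 0 = ∫ ω, E1 (EK ω S 0) (fun x => C x ω) ∂Q := by
    have b1 : V 0 = ∫ ω, E1 (EK ω S 0) (fun x => D2V36.FE u L χ ω x) ∂Q := by
      refine integral_congr_ae ?_
      filter_upwards [HP] with ω H
      exact FE_markov hL h H 0
    rw [b1, ← int_cndR_one (ν := ν) (S := S) (f := fun ω => E1 (EK ω S 0)
      (fun x => D2V36.FE u L χ ω x)) (mE fun x => meas_FE h x) (C := 1)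
      (fun ω => abs_E1_le (p1 ω) zero_le_one fun x => abs_FE_le h ω x)]
    refine integral_congr_ae (ae_of_all _ fun ω => ?_)
    exact cndR_E1 (fun y => locOn_EK S 0 y) p1 (fun y => meas_FE h y)
      (fun ω y => abs_FE_le h ω y) ω
  -- the mass is one
  have a2 : ∀ᵐ ω ∂Q, E1 (EK ω S 0) (fun _ => (1 : ℝ)) = 1 := by
    filter_upwards [HP] with ω H
    have b1 : ∑' y, EK ω S 0 y = 1 := by
      rw [tsum_EK_univ]
      have b2 := H g 0
      have b3 : {X : Path 2 | exT S X ≠ ⊤} = {X | exT S X = ⊤}ᶜ := rfl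
      rw [b3, prob_compl_eq_one_sub (by
        have := (meas_exit S).compl
        convert this using 1
        ext X; simp), b2, tsub_zero]
    unfold E1
    simp_rw [mul_one]
    rw [← ENNReal.tsum_toReal_eq (fun y => ne_top_of_le_ne_top ENNReal.one_ne_top
      (EK_le_one ω S 0 y)), b1, ENNReal.toReal_one]
  have a3 : V z = ∫ ω, E1 (EK ω S 0) (fun _ => V z) ∂Q := by
    have b1 : ∀ᵐ ω ∂Q, E1 (EK ω S 0) (fun _ => V z) = V z := by
      filter_upwards [a2] with ω hω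
      have b2 := E1_mul_left (EK ω S 0) (fun _ => (1 : ℝ)) (V z)
      rw [hω] at b2
      simp only [mul_one] at b2
      exact b2.symm
    rw [integral_congr_ae b1]
    simp
  -- the difference
  have I1 : Integrable (fun ω => E1 (EK ω S 0) (fun x => C x ω)) Q :=
    intg (mE fun x => mC x) (C := 1) fun ω => abs_E1_le (p1 ω) zero_le_one (C1 ω)
  have I2 : Integrable (fun ω => E1 (EK ω S 0) (fun _ => V z)) Q :=
    intg (mE fun x => measurable_const) (C := 1) fun ω =>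
      abs_E1_le (p1 ω) zero_le_one fun _ => V1 z
  have mA : ∀ x, Measurable fun ω => |C x ω - V x| := fun x => ((mC x).sub_const _).abs
  have bA : ∀ ω x, |(|C x ω - V x|)| ≤ 2 := fun ω x => by
    rw [abs_abs]
    have := abs_sub (C x ω) (V x)
    have := C1 ω x
    have := V1 x
    linarith
  have I3 : Integrable (fun ω => E1 (EK ω S 0) (fun x => |C x ω - V x|)) Q :=
    intg (mE mA) (C := 2) fun ω => abs_E1_le (p1 ω) (by norm_num) (bA ω)
  have I4 : Integrable (fun ω => (quenchedLaw ω 0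
      (Ev (D2V36.Col u i θ 0 g hh ρ 0) (D2V36.Lvl u (0 + g)))ᶜ).toReal) Q :=
    intg (Q561.measurable_quenched_apply 0 (meas_EvC _ _).compl).ennreal_toReal (C := 1)
      fun ω => by
        rw [abs_of_nonneg ENNReal.toReal_nonneg]
        exact (ENNReal.toReal_mono ENNReal.one_ne_top prob_le_one).trans (by simp)
  have key : ∀ ω, |E1 (EK ω S 0) (fun x => C x ω) - E1 (EK ω S 0) (fun _ => V z)| ≤
      E1 (EK ω S 0) (fun x => |C x ω - V x|) + c0 + (quenchedLaw ω 0
        (Ev (D2V36.Col u i θ 0 g hh ρ 0) (D2V36.Lvl u (0 + g)))ᶜ).toReal := by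
    intro ω
    have b1 : E1 (EK ω S 0) (fun x => C x ω) - E1 (EK ω S 0) (fun _ => V z) =
        E1 (EK ω S 0) (fun x => C x ω - V z) :=
      E1_sub (p1 ω) (C := 1) (C1 ω) fun _ => V1 z
    have bV : ∀ x, |C x ω - V z| ≤ 2 := fun x => by
      have := abs_sub (C x ω) (V z)
      have := C1 ω x
      have := V1 z
      linarith
    have b2 : |E1 (EK ω S 0) (fun x => C x ω - V z)| ≤
        E1 (EK ω S 0) (fun x => |C x ω - V z|) := abs_E1_le_E1 (p1 ω) bV
    have hT1 : ∀ x, 0 ≤ T.indicator (fun _ => (1 : ℝ)) x ∧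
        T.indicator (fun _ => (1 : ℝ)) x ≤ 1 := fun x => by
      by_cases hx : x ∈ T
      · rw [Set.indicator_of_mem hx]; exact ⟨zero_le_one, le_rfl⟩
      · rw [Set.indicator_of_notMem hx]; exact ⟨le_rfl, zero_le_one⟩
    have b3 : E1 (EK ω S 0) (fun x => |C x ω - V z|) ≤
        E1 (EK ω S 0) (fun x => |C x ω - V x| + (c0 + T.indicator (fun _ => (1 : ℝ)) x)) := by
      refine E1_mono (p1 ω) (C := 3 + c0) (fun x => ?_) (fun x => ?_) fun x hx => ?_
      · rw [abs_abs]; linarith [bV x]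
      · have h1 := hT1 x
        have h2 := bA ω x
        rw [abs_abs] at h2
        rw [abs_of_nonneg (by have := abs_nonneg (C x ω - V x); linarith)]
        linarith
      · have hlx : lev u x = (g : ℤ) := by
          by_contra hne
          exact hx (EK_lev ω g hne)
        have c1 : |C x ω - V z| ≤ |C x ω - V x| + |V x - V z| := abs_sub_le _ _ _
        by_cases hxT : x ∈ T
        · rw [Set.indicator_of_mem hxT]
          have c2 : |V x - V z| ≤ 1 := by
            have d1 := int_FE_le (ν := ν) (u := u) (L := L) h x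
            have d2 := int_FE_le (ν := ν) (u := u) (L := L) h z
            rw [abs_le]
            constructor
            · show -1 ≤ (∫ η, D2V36.FE u L χ η x ∂Q) - ∫ η, D2V36.FE u L χ η z ∂Q
              linarith [d1.1, d2.2]
            · show (∫ η, D2V36.FE u L χ η x ∂Q) - ∫ η, D2V36.FE u L χ η z ∂Q ≤ 1
              linarith [d1.2, d2.1]
          linarith
        · rw [Set.indicator_of_notMem hxT]
          have c2 : |sl u i θ x| ≤ R := not_lt.1 hxT
          have c3 : |V x - V z| ≤ m * (|sl u i θ x - sl u i θ z| / w) :=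
            V_lip h hχ (hlx.trans hz.symm)
          have c4 : (m : ℝ) * (|sl u i θ x - sl u i θ z| / w) ≤ c0 := by
            rw [hc0]
            refine mul_le_mul_of_nonneg_left ?_ (Nat.cast_nonneg _)
            refine div_le_div_of_nonneg_right ?_ hwp.le
            have := abs_sub (sl u i θ x) (sl u i θ z)
            linarith
          linarith
    have b4 : E1 (EK ω S 0) (fun x => |C x ω - V x| + (c0 + T.indicator (fun _ => (1 : ℝ)) x)) =
        E1 (EK ω S 0) (fun x => |C x ω - V x|) +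
          E1 (EK ω S 0) (fun x => c0 + T.indicator (fun _ => (1 : ℝ)) x) := by
      refine (E1_add (p1 ω) (C := 3 + c0) (fun x => ?_) fun x => ?_).symm
      · have := bA ω x; linarith
      · have h1 := hT1 x
        rw [abs_of_nonneg (by linarith)]
        linarith
    have b5 : E1 (EK ω S 0) (fun x => c0 + T.indicator (fun _ => (1 : ℝ)) x) =
        E1 (EK ω S 0) (fun _ => c0) + E1 (EK ω S 0) (fun x => T.indicator (fun _ => (1 : ℝ)) x) := by
      refine (E1_add (p1 ω) (C := 1 + c0) (fun x => ?_) fun x => ?_).symm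
      · rw [abs_of_nonneg hc00]; linarith
      · have h1 := hT1 x
        rw [abs_of_nonneg h1.1]
        linarith
    have b6 : E1 (EK ω S 0) (fun _ => c0) ≤ c0 := by
      have := abs_E1_le (p1 ω) hc00 (h := fun _ : Site 2 => c0) fun _ => (abs_of_nonneg hc00).le
      exact (le_abs_self _).trans this
    have b7 := tail_le (u := u) (i := i) (θ := θ) ω g hh ρ hρ
    rw [b1]
    have b8 : E1 (EK ω S 0) (fun x => T.indicator (fun _ => (1 : ℝ)) x) ≤ (quenchedLaw ω 0
        (Ev (D2V36.Col u i θ 0 g hh ρ 0) (D2V36.Lvl u (0 + g)))ᶜ).toReal := b7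
    linarith
  have e3 : V 0 - V z = ∫ ω, (E1 (EK ω S 0) (fun x => C x ω) - E1 (EK ω S 0) (fun _ => V z)) ∂Q := by
    rw [integral_sub I1 I2, ← a1, ← a3]
  have e4 : (wn u i θ ν g hh ρ).toReal = ∫ ω, (quenchedLaw ω 0
      (Ev (D2V36.Col u i θ 0 g hh ρ 0) (D2V36.Lvl u (0 + g)))ᶜ).toReal ∂Q := by
    unfold wn
    rw [integral_toReal (Q561.measurable_quenched_apply 0 (meas_EvC _ _).compl).aemeasurable
      (ae_of_all _ fun ω => measure_lt_top _ _)]
  show |V 0 - V z| ≤ _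
  rw [e3, e4]
  calc _ ≤ ∫ ω, |E1 (EK ω S 0) (fun x => C x ω) - E1 (EK ω S 0) (fun _ => V z)| ∂Q :=
        abs_integral_le_integral_abs
    _ ≤ ∫ ω, (E1 (EK ω S 0) (fun x => |C x ω - V x|) + c0 + (quenchedLaw ω 0
        (Ev (D2V36.Col u i θ 0 g hh ρ 0) (D2V36.Lvl u (0 + g)))ᶜ).toReal) ∂Q :=
        integral_mono (I1.sub I2).abs ((I3.add (integrable_const _)).add I4) key
    _ = ∫ ω, E1 (EK ω S 0) (fun x => |C x ω - V x|) ∂Q + c0 + ∫ ω, (quenchedLaw ω 0
        (Ev (D2V36.Col u i θ 0 g hh ρ 0) (D2V36.Lvl u (0 + g)))ᶜ).toReal ∂Q := by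
        have j1 : Integrable (fun ω => E1 (EK ω S 0) (fun x => |C x ω - V x|) + c0) Q :=
          I3.add (integrable_const _)
        rw [integral_add j1 I4, integral_add I3 (integrable_const _)]
        simp
    _ ≤ _ := by
        have := hR
        linarith

/-- **(L)** -/
theorem L_of (HR : D2V36.ResidP u i θ ν) (HP : D2V36.HitP u ν) (m : ℕ) {δ : ℝ} (hδ : 0 < δ) :
    ∃ (g0 : ℕ) (w0 : ℝ), 0 < w0 ∧ ∀ w ≥ w0, ∀ g ≥ g0, ∀ a : ℕ, ∀ L : Fin m → ℕ, Monotone L →
      (∀ j, a + g ≤ L j) → ∀ χ : Fin m → Site 2 → ℝ, (∀ j z, 0 ≤ χ j z ∧ χ j z ≤ 1) →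
      (∀ j z z', |χ j z - χ j z'| ≤ |sl u i θ z - sl u i θ z'| / w) →
      ∀ y z : Site 2, lev u y = (a : ℤ) → lev u z = ((a + g : ℕ) : ℤ) → ∀ (h : ℕ) (ρ : ℝ), 0 ≤ ρ →
      |∫ η, D2V36.FE u L χ η y ∂(iidEnvironmentLaw ν) -
        ∫ η, D2V36.FE u L χ η z ∂(iidEnvironmentLaw ν)| ≤
        δ + m * ((|sl u i θ z - sl u i θ y| + (ρ + (1 + |θ|))) / w) +
          (wn u i θ ν g h ρ).toReal := by
  obtain ⟨g0, w0, hw0, H⟩ := L_of0 HR HP m hδ
  refine ⟨g0, w0, hw0, fun w hw g hg a L hLm hL χ h hχ y z hy hz hh ρ hρ => ?_⟩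
  have h' : ∀ j x, 0 ≤ (fun (j : Fin m) x => χ j (x + y)) j x ∧
      (fun (j : Fin m) x => χ j (x + y)) j x ≤ 1 := fun j x => h j (x + y)
  have hLa : ∀ j, a ≤ L j := fun j => (Nat.le_add_right a g).trans (hL j)
  have h1 := H w hw g hg (fun j => L j - a) (fun j k hjk => Nat.sub_le_sub_right (hLm hjk) a)
    (fun j => by have := hL j; omega) (fun j x => χ j (x + y)) h'
    (fun j x x' => by
      have := hχ j (x + y) (x' + y)
      rwa [sl_add, sl_add, add_sub_add_right_eq_sub] at this) (z - y)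
    (by
      have h2 := lev_add (u := u) (z - y) y
      rw [sub_add_cancel, hz, hy] at h2
      push_cast at h2
      linarith) hh ρ hρ
  have e1 := int_FE_shift (ν := ν) hy hLa h 0
  have e2 := int_FE_shift (ν := ν) hy hLa h (z - y)
  rw [zero_add] at e1
  rw [sub_add_cancel] at e2
  rw [e1, e2]
  have e3 : sl u i θ (z - y) = sl u i θ z - sl u i θ y := by
    have := sl_add (u := u) (i := i) (θ := θ) (z - y) y
    rw [sub_add_cancel] at this
    linarith
  rw [e3] at h1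
  exact h1

/-- the slab tail from `0` is an instance of `SlabP` -/
theorem wn_le_of_slab (HS : D2V36.SlabP u i θ ν wd) :
    ∃ C c : ℝ, 0 < C ∧ 0 < c ∧ ∀ A : ℝ, 1 ≤ A → ∀ ε : ℝ, 0 < ε → ∃ h0 : ℕ, ∀ h ≥ h0,
      ∀ g : ℕ, g ≤ h → wn u i θ ν g h (A * wd h) ≤ ENNReal.ofReal (C * Real.exp (-(c * A)) + ε) := by
  obtain ⟨C, c, hC, hc, H⟩ := HS
  refine ⟨C, c, hC, hc, fun A hA ε hε => ?_⟩
  obtain ⟨h0, H0⟩ := H A hA ε hε
  refine ⟨h0, fun h hh g hg => ?_⟩
  refine le_trans (le_of_eq ?_) (H0 h hh 0 g hg)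
  unfold wn
  refine lintegral_congr fun ω => ?_
  have h0S : (0 : Site 2) ∉ D2V36.Sb u 0 := by
    intro h1
    have h2 : lev u (0 : Site 2) < ((0 : ℕ) : ℤ) := h1
    rw [Flux132.lev_zero] at h2
    simp at h2
  rw [tsum_eq_single (0 : Site 2)]
  · rw [EK_notMem ω h0S, Set.indicator_of_mem (Set.mem_singleton _), one_mul]
  · intro y hy
    rw [EK_notMem ω h0S, Set.indicator_of_notMem fun h => hy (Set.mem_singleton_iff.1 h), zero_mul]

end Crest.Agent.R154.LipV9
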