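import Crest.Agent.R154.B5Abs_566

/-! Row 154, ROAD 801 (helper2): first passage lists, splitting, overshoot. -/

set_option autoImplicit false

namespace Crest.Agent.R154.Lst2

open Crest.Agent.R154.B5A
open scoped ENNReal Classical

variable {B G : Type*} [AddCommGroup G]

/-- first passage lists of depth `a` (read from the top) -/
def FP (ht : B → ℕ) : ℕ → List B → Prop
  | a, [] => a = 0
  | a, b :: L => a ≠ 0 ∧ FP ht (a - ht b) L

def spl (ht : B → ℕ) : ℕ → List B → List B × List B
  | _, [] => ([], [])
  | a, b :: L => if a = 0 then ([], b :: L) else (b :: (spl ht (a - ht b) L).1, (spl ht (a - ht b) L).2)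

lemma spl_app (ht : B → ℕ) (a : ℕ) (L : List B) : (spl ht a L).1 ++ (spl ht a L).2 = L := by
  induction L generalizing a with
  | nil => rfl
  | cons b L ih =>
    unfold spl
    by_cases h : a = 0
    · simp [h]
    · simp [h, ih]

lemma spl_FP (ht : B → ℕ) (a : ℕ) (L : List B) (h : a ≤ HT ht L) : FP ht a (spl ht a L).1 := by
  induction L generalizing a with
  | nil => simp [HT] at h; simp [spl, FP, h]
  | cons b L ih =>
    rw [HT_cons] at h
    unfold spl
    by_cases h0 : a = 0
    · simp [h0, FP]
    · simp only [h0, if_false, FP]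
      exact ⟨h0, ih _ (by omega)⟩

lemma FP_le (ht : B → ℕ) (a : ℕ) (L : List B) (h : FP ht a L) : a ≤ HT ht L := by
  induction L generalizing a with
  | nil => simp [FP] at h; simp [h]
  | cons b L ih => rw [HT_cons]; have := ih _ h.2; omega

lemma FP_app (ht : B → ℕ) (S T : ℕ) (hST : S ≤ T) (A L : List B) (hA : FP ht S A) :
    FP ht T (A ++ L) ↔ FP ht (T - HT ht A) L := by
  induction A generalizing S T with
  | nil => simp [HT]
  | cons b A ih =>
    obtain ⟨h0, h1⟩ := hA
    rw [List.cons_append, HT_cons]
    simp only [FP]
    rw [ih (S - ht b) (T - ht b) (by omega) h1]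
    constructor
    · rintro ⟨_, h⟩; rwa [Nat.sub_sub] at h
    · intro h; exact ⟨by omega, by rwa [Nat.sub_sub]⟩

lemma FP_of_HT (ht : B → ℕ) (h1 : ∀ b, 1 ≤ ht b) (n : ℕ) (L : List B) (h : HT ht L = n) :
    FP ht n L := by
  induction L generalizing n with
  | nil => simp only [FP]; simpa [HT] using h.symm
  | cons b L ih =>
    rw [HT_cons] at h
    have := h1 b
    exact ⟨by omega, ih _ (by omega)⟩

variable (Λ : B → ℝ≥0∞) (ht : B → ℕ)

lemma FP_sum (h1 : ∀ b, 1 ≤ ht b) (hΛ : ∑' b, Λ b = 1) (a : ℕ) :
    ∑' L, (if FP ht a L then LW Λ L else 0) = 1 := by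
  induction a using Nat.strong_induction_on with
  | _ a ih =>
    rw [tsum_list]
    by_cases h0 : a = 0
    · simp [FP, h0, LW_nil]
    · have : ∀ b, ∑' L, (if FP ht a (b :: L) then LW Λ (b :: L) else 0) = Λ b := by
        intro b
        have := ih (a - ht b) (by have := h1 b; omega)
        calc _ = ∑' L, Λ b * (if FP ht (a - ht b) L then LW Λ L else 0) := by
              refine tsum_congr fun L => ?_
              simp only [FP, LW_cons]
              by_cases h : FP ht (a - ht b) L <;> simp [h, h0]
          _ = _ := by rw [ENNReal.tsum_mul_left, this, mul_one]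
      simp_rw [this]
      simp [FP, h0, hΛ]

lemma FP_sum_le (h1 : ∀ b, 1 ≤ ht b) (hΛ : ∑' b, Λ b = 1) (a : ℕ) (P : List B → Prop) :
    ∑' L, (if FP ht a L ∧ P L then LW Λ L else 0) ≤ 1 := by
  rw [← FP_sum Λ ht h1 hΛ a]
  refine ENNReal.tsum_le_tsum fun L => ?_
  by_cases h : FP ht a L
  · by_cases h' : P L <;> simp [h, h']
  · simp [h]

lemma U_le (h1 : ∀ b, 1 ≤ ht b) (hΛ : ∑' b, Λ b = 1) (n : ℕ) :
    ∑' L, (if HT ht L = n then LW Λ L else 0) ≤ 1 := by
  rw [← FP_sum Λ ht h1 hΛ n]
  refine ENNReal.tsum_le_tsum fun L => ?_
  by_cases h : HT ht L = n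
  · simp [h, FP_of_HT ht h1 n L h]
  · simp [h]

/-- push: sum over lists of height `n` of a function of the first passage part. -/
lemma push1 (a n : ℕ) (han : a ≤ n)
    (F : List B → ℝ≥0∞) (F2 : List B → List B → ℝ≥0∞)
    (hF : ∀ A R, FP ht a A → HT ht A + HT ht R = n → F (A ++ R) ≤ F2 A R) :
    ∑' L, (if HT ht L = n then LW Λ L * F L else 0)
      ≤ ∑' A, (if FP ht a A then LW Λ A *
          (∑' R, if HT ht A + HT ht R = n then LW Λ R * F2 A R else 0) else 0) := by
  have e : ∑' A, (if FP ht a A then LW Λ A *
          (∑' R, if HT ht A + HT ht R = n then LW Λ R * F2 A R else 0) else 0)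
      = ∑' p : List B × List B, (if FP ht a p.1 then LW Λ p.1 *
          (if HT ht p.1 + HT ht p.2 = n then LW Λ p.2 * F2 p.1 p.2 else 0) else 0) := by
    rw [ENNReal.tsum_prod']
    refine tsum_congr fun A => ?_
    by_cases h : FP ht a A
    · simp only [h, if_true]; rw [ENNReal.tsum_mul_left]
    · simp [h]
  rw [e]
  have hinj : Function.Injective (fun L : List B => spl ht a L) := by
    intro L L' h
    simp only at h
    rw [← spl_app ht a L, ← spl_app ht a L', h]
  refine le_trans (ENNReal.tsum_le_tsum fun L => ?_) (ENNReal.tsum_comp_le_tsum_of_injective hinj _)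
  by_cases h : HT ht L = n
  · have hs := spl_app ht a L
    have hfp := spl_FP ht a L (by omega)
    have hh : HT ht (spl ht a L).1 + HT ht (spl ht a L).2 = n := by
      rw [← HT_append, hs, h]
    simp only [h, if_true, hfp, hh]
    have h3 := hF _ _ hfp hh
    rw [hs] at h3
    calc LW Λ L * F L = LW Λ (spl ht a L).1 * LW Λ (spl ht a L).2 * F L := by
          rw [← LW_append, hs]
      _ = LW Λ (spl ht a L).1 * (LW Λ (spl ht a L).2 * F L) := by rw [mul_assoc]
      _ ≤ _ := by gcongr
  · simp [h]

/-- overshoot -/
lemma overs (h1 : ∀ b, 1 ≤ ht b) (hΛ : ∑' b, Λ b = 1) (i0 a : ℕ) :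
    ∑' L, (if FP ht a L ∧ a + i0 < HT ht L then LW Λ L else 0) ≤ ∑' k, tail Λ ht (k + i0) := by
  have key : ∀ a, ∑' L, (if FP ht a L ∧ a + i0 < HT ht L then LW Λ L else 0)
      ≤ ∑' L : List B, ∑' b, (if HT ht L < a ∧ a + i0 < HT ht L + ht b then LW Λ L * Λ b else 0) := by
    intro a
    induction a using Nat.strong_induction_on with
    | _ a ih =>
      by_cases h0 : a = 0
      · have : ∀ L, ¬ (FP ht a L ∧ a + i0 < HT ht L) := by
          intro L
          cases L with
          | nil => simp [HT]
          | cons b L => simp [FP, h0]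
        simp [this]
      · rw [tsum_list, tsum_list (fun L : List B => ∑' b, _)]
        have e1 : ∀ b, ∑' L, (if FP ht a (b :: L) ∧ a + i0 < HT ht (b :: L) then LW Λ (b :: L) else 0)
            ≤ (if a + i0 < ht b then Λ b else 0) + ∑' L : List B, ∑' b1,
              (if HT ht (b :: L) < a ∧ a + i0 < HT ht (b :: L) + ht b1 then LW Λ (b :: L) * Λ b1 else 0) := by
          intro b
          by_cases hb : ht b < a
          · refine le_trans ?_ le_add_self
            have := ih (a - ht b) (by have := h1 b; omega)
            calc _ = Λ b * ∑' L, (if FP ht (a - ht b) L ∧ a - ht b + i0 < HT ht L then LW Λ L else 0) := by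
                  rw [← ENNReal.tsum_mul_left]
                  refine tsum_congr fun L => ?_
                  simp only [FP, LW_cons, HT_cons]
                  have : (a + i0 < ht b + HT ht L) ↔ (a - ht b + i0 < HT ht L) := by omega
                  simp only [this]
                  by_cases h : FP ht (a - ht b) L <;> by_cases h' : a - ht b + i0 < HT ht L <;>
                    simp [h, h', h0]
              _ ≤ Λ b * _ := mul_le_mul' le_rfl this
              _ = _ := by
                  rw [← ENNReal.tsum_mul_left]
                  refine tsum_congr fun L => ?_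
                  rw [← ENNReal.tsum_mul_left]
                  refine tsum_congr fun b1 => ?_
                  simp only [LW_cons, HT_cons]
                  have : (HT ht L < a - ht b ∧ a - ht b + i0 < HT ht L + ht b1) ↔
                    (ht b + HT ht L < a ∧ a + i0 < ht b + HT ht L + ht b1) := by omega
                  by_cases h : (ht b + HT ht L < a ∧ a + i0 < ht b + HT ht L + ht b1)
                  · rw [if_pos (this.2 h), if_pos h]; ring
                  · rw [if_neg (fun h' => h (this.1 h')), if_neg h]; simp
          · refine le_trans ?_ le_self_add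
            have e2 : a - ht b = 0 := by omega
            calc _ = (if a + i0 < ht b then Λ b else 0) := by
                  rw [tsum_eq_single []]
                  · have hp : (FP ht a [b] ∧ a + i0 < HT ht [b]) ↔ a + i0 < ht b := by
                      simp only [FP, HT_cons, HT_nil, e2, add_zero]; exact ⟨fun h => h.2, fun h => ⟨⟨h0, trivial⟩, h⟩⟩
                    simp only [hp, LW_cons, LW_nil, mul_one]
                  · intro L hL
                    cases L with
                    | nil => exact absurd rfl hL
                    | cons b' L => simp [FP, e2]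
              _ ≤ _ := le_rfl
        calc _ ≤ 0 + ∑' b, ((if a + i0 < ht b then Λ b else 0) + ∑' L : List B, ∑' b1,
              (if HT ht (b :: L) < a ∧ a + i0 < HT ht (b :: L) + ht b1 then LW Λ (b :: L) * Λ b1 else 0)) := by
              gcongr with b
              · simp [FP, HT]
              · exact e1 b
          _ ≤ _ := by
              rw [zero_add, ENNReal.tsum_add]
              gcongr with b
              simp only [HT_nil, LW_nil]
              have : 0 < a := by omega
              simp [this]
  refine (key a).trans ?_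
  have e3 : ∀ L : List B, ∑' b, (if HT ht L < a ∧ a + i0 < HT ht L + ht b then LW Λ L * Λ b else 0)
      = ∑ k ∈ Finset.range a, (if HT ht L = k then LW Λ L else 0) * tail Λ ht (a - k + i0) := by
    intro L
    by_cases h : HT ht L < a
    · rw [Finset.sum_eq_single (HT ht L)]
      · rw [if_pos rfl, tail, ← ENNReal.tsum_mul_left]
        refine tsum_congr fun b => ?_
        by_cases h' : a - HT ht L + i0 < ht b
        · rw [if_pos ⟨h, by omega⟩, if_pos h']
        · rw [if_neg (by rintro ⟨_, h3⟩; omega), if_neg h', mul_zero]
      · intro k _ hk; rw [if_neg (Ne.symm hk), zero_mul]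
      · intro h'; exact absurd (Finset.mem_range.2 h) h'
    · rw [Finset.sum_eq_zero]
      · simp [h]
      · intro k hk
        rw [if_neg (by have := Finset.mem_range.1 hk; omega), zero_mul]
  simp_rw [e3]
  rw [Summable.tsum_finsetSum (fun _ _ => ENNReal.summable)]
  calc _ ≤ ∑ k ∈ Finset.range a, tail Λ ht (a - k + i0) := by
        refine Finset.sum_le_sum fun k _ => ?_
        rw [ENNReal.tsum_mul_right]
        calc _ ≤ 1 * tail Λ ht (a - k + i0) := by gcongr; exact U_le Λ ht h1 hΛ k
          _ = _ := one_mul _
    _ = ∑ j ∈ Finset.range a, tail Λ ht (j + 1 + i0) := by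
        rw [← Finset.sum_range_reflect]
        refine Finset.sum_congr rfl fun j hj => ?_
        have := Finset.mem_range.1 hj
        congr 1; omega
    _ ≤ ∑' j, tail Λ ht (j + 1 + i0) := ENNReal.sum_le_tsum _
    _ ≤ ∑' k, tail Λ ht (k + i0) :=
        ENNReal.tsum_comp_le_tsum_of_injective (f := fun j => j + 1) (add_left_injective 1) (fun k => tail Λ ht (k + i0))

end Crest.Agent.R154.Lst2
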