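import Crest.Agent.R154.LstB_2

/-! Row 154, ROAD 801 (helper2): selection of thresholds; glueing. -/

set_option autoImplicit false

namespace Crest.Agent.R154.Lst2

open Crest.Agent.R154.B5A
open scoped ENNReal Classical

/-- overshoot error -/
noncomputable def dlt {B : Type*} (Λ : B → ℝ≥0∞) (ht : B → ℕ) (i0 : ℕ) : ℝ≥0∞ :=
  ∑' k, tail Λ ht (k + i0)

noncomputable def wA {B : Type*} (Λ : B → ℝ≥0∞) (ht : B → ℕ) (a i0 : ℕ) (A : List B) : ℝ≥0∞ :=
  if FP ht a A ∧ HT ht A ≤ a + i0 then LW Λ A else 0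

noncomputable def wP {B : Type*} (Λ : B → ℝ≥0∞) (ht : B → ℕ) (a : ℕ) (A : List B) : ℝ≥0∞ :=
  if FP ht a A then LW Λ A else 0

section sel

variable {B G : Type*} [AddCommGroup G] (Λ : B → ℝ≥0∞) (ht : B → ℕ) (z : B → G)

theorem select (h1 : ∀ b, 1 ≤ ht b) (hΛ : ∑' b, Λ b = 1) (S i0 : ℕ) (u : ℝ≥0∞) (hu : u ≠ 0)
    (hδ : dlt Λ ht i0 + u < 1) : ∃ (th : ℝ≥0∞) (E : ℕ → Finset G), th ≠ ⊤ ∧
      (∀ h, ((E h).card : ℝ≥0∞) * th ≤ 1) ∧
      (∑' P, (if FP ht S P ∧ HT ht P ≤ S + i0 ∧ DS z P ∉ E (HT ht P) then LW Λ P else 0) ≤ u) ∧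
      ∀ N T, N * (S + i0) ≤ T → ∃ g b : ℤ × G → ℝ≥0∞, (∀ v, q Λ ht z T v ≤ g v + b v) ∧
        (∀ v, g v ≤ (i0 + 1 : ℕ) * th * u⁻¹) ∧
        ∑' v, b v ≤ (1 - u) ^ N + dlt Λ ht i0 * u⁻¹ := by
  have hut : u ≠ ⊤ := ne_top_of_lt (lt_of_le_of_lt le_add_self hδ)
  have hu1 : u ≤ 1 := (lt_of_le_of_lt le_add_self hδ).le
  set qS := q Λ ht z S with hqS
  set p : ℤ × G → ℝ≥0∞ := fun v => if v.1.toNat ≤ S + i0 then qS v else 0 with hp
  have hover : ∑' y, (if S + i0 < y.1.toNat then qS y else 0) ≤ dlt Λ ht i0 := by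
    have := fiber Λ ht z S (fun v => if S + i0 < v.1.toNat then 1 else 0)
    calc _ = ∑' y, qS y * (if S + i0 < y.1.toNat then 1 else 0) :=
          tsum_congr fun y => by split_ifs <;> simp
      _ = ∑' A, (if FP ht S A then LW Λ A * (if S + i0 < (VV ht z A).1.toNat then 1 else 0) else 0) :=
          this.symm
      _ = ∑' L, (if FP ht S L ∧ S + i0 < HT ht L then LW Λ L else 0) := by
          refine tsum_congr fun A => ?_
          have e : (VV ht z A).1.toNat = HT ht A := by simp [VV]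
          rw [e]
          by_cases h : FP ht S A <;> by_cases h' : S + i0 < HT ht A <;> simp [h, h']
      _ ≤ _ := overs Λ ht h1 hΛ i0 S
  have hsum : 1 ≤ ∑' v, p v + dlt Λ ht i0 := by
    calc (1 : ℝ≥0∞) = ∑' v, qS v := (q_sum Λ ht z h1 hΛ S).symm
      _ = ∑' v, (p v + (if S + i0 < v.1.toNat then qS v else 0)) := by
          refine tsum_congr fun v => ?_
          by_cases h : v.1.toNat ≤ S + i0
          · simp [-Int.toNat_le, -Int.lt_toNat, hp, h, not_lt.2 h]
          · simp [-Int.toNat_le, -Int.lt_toNat, hp, h, not_le.1 h]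
      _ ≤ _ := by rw [ENNReal.tsum_add]; gcongr
  have hple : ∑' v, p v ≤ 1 := by
    rw [← q_sum Λ ht z h1 hΛ S]
    refine ENNReal.tsum_le_tsum fun v => ?_
    by_cases h : v.1.toNat ≤ S + i0 <;> simp [-Int.toNat_le, -Int.lt_toNat, hp, h, hqS]
  have hptop : ∑' v, p v ≠ ⊤ := ne_top_of_le_ne_top ENNReal.one_ne_top hple
  have hup : u < ∑' v, p v := by
    by_contra hcon
    rw [not_lt] at hcon
    have : (1 : ℝ≥0∞) ≤ dlt Λ ht i0 + u := by
      calc (1 : ℝ≥0∞) ≤ _ := hsum
        _ ≤ u + dlt Λ ht i0 := by gcongr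
        _ = _ := add_comm _ _
    exact absurd hδ (not_lt.2 this)
  obtain ⟨th, h0, htop, hlow, hhigh⟩ := quantile p hptop u hu hup
  have hfin : ∀ h : ℕ, {y : G | th ≤ qS ((h : ℤ), y)}.Finite ∧
      ∀ F : Finset G, (∀ y ∈ F, th ≤ qS ((h : ℤ), y)) → (F.card : ℝ≥0∞) * th ≤ 1 := by
    intro h
    have hle : ∑' y, qS ((h : ℤ), y) ≤ 1 := by
      rw [← q_sum Λ ht z h1 hΛ S]
      exact ENNReal.tsum_comp_le_tsum_of_injective
        (f := fun y : G => ((h : ℤ), y)) (fun y y' e => by simpa using e) qS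
    refine ⟨ENNReal.finite_const_le_of_tsum_ne_top (ne_top_of_le_ne_top ENNReal.one_ne_top hle) h0,
      fun F hF => ?_⟩
    calc (F.card : ℝ≥0∞) * th = ∑ y ∈ F, th := by simp
      _ ≤ ∑ y ∈ F, qS ((h : ℤ), y) := Finset.sum_le_sum hF
      _ ≤ _ := ENNReal.sum_le_tsum F
      _ ≤ 1 := hle
  refine ⟨th, fun h => (hfin h).1.toFinset, htop, fun h => (hfin h).2 _ (fun y hy => by simpa using hy),
    ?_, fun N T hNT => ?_⟩
  · have := fiber Λ ht z S (fun v => if v.1.toNat ≤ S + i0 ∧ qS v < th then 1 else 0)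
    calc _ = ∑' A, (if FP ht S A then LW Λ A *
            (if (VV ht z A).1.toNat ≤ S + i0 ∧ qS (VV ht z A) < th then 1 else 0) else 0) := by
          refine tsum_congr fun A => ?_
          have e : (VV ht z A).1.toNat = HT ht A := by simp [VV]
          have e' : (DS z A ∉ (hfin (HT ht A)).1.toFinset) ↔ qS (VV ht z A) < th := by
            simp [VV]
          simp only [e, e']
          by_cases h : FP ht S A <;> by_cases h' : HT ht A ≤ S + i0 <;>
            by_cases h'' : qS (VV ht z A) < th <;> simp [h, h', h'']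
      _ = ∑' y, qS y * (if y.1.toNat ≤ S + i0 ∧ qS y < th then 1 else 0) := this
      _ ≤ ∑' y, (if p y < th then p y else 0) := by
          refine ENNReal.tsum_le_tsum fun y => ?_
          by_cases h : y.1.toNat ≤ S + i0
          · by_cases h' : qS y < th <;> simp [-Int.toNat_le, -Int.lt_toNat, hp, h, h']
          · simp [h]
      _ ≤ u := hlow
  · have hr : ∑' y, (if y.1.toNat ≤ S + i0 ∧ th < qS y then qS y else 0) ≤ 1 - u := by
      refine ENNReal.le_sub_of_add_le_right hut ?_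
      calc _ ≤ ∑' y, (if y.1.toNat ≤ S + i0 ∧ th < qS y then qS y else 0)
            + ∑' y, (if p y ≤ th then p y else 0) := by gcongr
        _ ≤ ∑' y, p y := by
            rw [← ENNReal.tsum_add]
            refine ENNReal.tsum_le_tsum fun y => ?_
            by_cases h : y.1.toNat ≤ S + i0
            · by_cases h' : th < qS y
              · simp [-Int.toNat_le, -Int.lt_toNat, hp, h, h', not_le.2 h']
              · simp [-Int.toNat_le, -Int.lt_toNat, hp, h, h', not_lt.1 h']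
            · simp [-Int.toNat_le, -Int.lt_toNat, hp, h]
        _ ≤ 1 := hple
    obtain ⟨g, b, hg1, hg2, hg3⟩ := smooth (fun v : ℤ × G => v.1.toNat) (q Λ ht z) S i0 th (1 - u)
      (dlt Λ ht i0) (fun T => (q_sum Λ ht z h1 hΛ T).le) (fun T hT v => q_ren Λ ht z S T hT v)
      (fun y hy => (q_supp Λ ht z S y hy).1) hr hover N T hNT
    have hgeo : ∑ k ∈ Finset.range N, (1 - u) ^ k ≤ u⁻¹ := by
      calc _ ≤ ∑' k, (1 - u) ^ k := ENNReal.sum_le_tsum _
        _ = (1 - (1 - u))⁻¹ := ENNReal.tsum_geometric _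
        _ = u⁻¹ := by rw [ENNReal.sub_sub_cancel ENNReal.one_ne_top hu1]
    refine ⟨g, b, hg1, fun v => (hg2 v).trans ?_, hg3.trans ?_⟩
    · gcongr
    · gcongr

end sel

lemma supp_sum {G : Type*} (a i0 : ℕ) (f : ℤ × G → ℝ≥0∞)
    (hf : ∀ v, f v ≠ 0 → ∃ c < i0 + 1, v.1 = ((a + c : ℕ) : ℤ)) :
    ∑' v, f v ≤ ∑ c ∈ Finset.range (i0 + 1), ∑' y, f (((a + c : ℕ) : ℤ), y) := by
  calc ∑' v, f v ≤ ∑' v, ∑ c ∈ Finset.range (i0 + 1), (if v.1 = ((a + c : ℕ) : ℤ) then f v else 0) := by
        refine ENNReal.tsum_le_tsum fun v => ?_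
        by_cases h : f v = 0
        · simp [h]
        · obtain ⟨c, hc, hv⟩ := hf v h
          refine le_trans ?_ (Finset.single_le_sum
            (f := fun c => (if v.1 = ((a + c : ℕ) : ℤ) then f v else 0)) (fun _ _ => zero_le)
            (Finset.mem_range.2 hc))
          simp only [hv, if_true]; exact le_rfl
    _ = ∑ c ∈ Finset.range (i0 + 1), ∑' v : ℤ × G, (if v.1 = ((a + c : ℕ) : ℤ) then f v else 0) := by
        rw [Summable.tsum_finsetSum (fun _ _ => ENNReal.summable)]
    _ ≤ _ := by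
        refine Finset.sum_le_sum fun c _ => ?_
        rw [ENNReal.tsum_prod', tsum_eq_single (((a + c : ℕ) : ℤ))]
        · simp
        · intro c' hc'
          rw [ENNReal.tsum_eq_zero]; intro y; rw [if_neg hc']

theorem glue {B1 B2 G : Type*} [AddCommGroup G] (Λ1 : B1 → ℝ≥0∞) (ht1 : B1 → ℕ) (z1 : B1 → G)
    (Λ2 : B2 → ℝ≥0∞) (ht2 : B2 → ℕ) (z2 : B2 → G)
    (h1 : ∀ b, 1 ≤ ht1 b) (hΛ1 : ∑' b, Λ1 b = 1) (h2 : ∀ b, 1 ≤ ht2 b) (hΛ2 : ∑' b, Λ2 b = 1)
    (a1 a2 i0 : ℕ) (w : G) (M β : ℝ≥0∞) (g b : ℤ × G → ℝ≥0∞)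
    (hq : ∀ v, q Λ1 ht1 z1 a1 v ≤ g v + b v) (hg : ∀ v, g v ≤ M) (hb : ∑' v, b v ≤ β)
    (Φ : ℕ → ℕ → G → ℝ≥0∞) (hΦ : ∀ c d x, Φ c d x ≤ 1) (Bd : ℝ≥0∞)
    (hBd : ∀ c0 ≤ i0, ∀ d0 ≤ i0, ∀ μ : G → ℝ≥0∞, ∑' x, μ x ≤ 1 → (∀ x, μ x ≤ M) →
      ∑' x, μ x * Φ (a1 + c0) (a2 + d0) x ≤ Bd) :
    ∑' A, wA Λ1 ht1 a1 i0 A * ∑' A', wA Λ2 ht2 a2 i0 A' *
        Φ (HT ht1 A) (HT ht2 A') (w + DS z2 A' - DS z1 A)
      ≤ (i0 + 1 : ℕ) * ((i0 + 1 : ℕ) * Bd) + β := by
  set F : ℕ → G → ℝ≥0∞ := fun c y => ∑' A', wA Λ2 ht2 a2 i0 A' * Φ c (HT ht2 A') (w + DS z2 A' - y)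
    with hF
  have hfs : ∀ P : List B2 → Prop, ∀ [DecidablePred (fun L => FP ht2 a2 L ∧ P L)],
      ∑' L, (if FP ht2 a2 L ∧ P L then LW Λ2 L else 0) ≤ 1 := by
    intro P _
    refine le_trans (le_of_eq ?_) (FP_sum_le Λ2 ht2 h2 hΛ2 a2 P)
    exact tsum_congr fun A' => by congr
  have hw2 : ∑' A', wA Λ2 ht2 a2 i0 A' ≤ 1 := hfs (fun L => HT ht2 L ≤ a2 + i0)
  have hF1 : ∀ c y, F c y ≤ 1 := by
    intro c y
    refine le_trans (ENNReal.tsum_le_tsum fun A' => ?_) hw2
    calc _ ≤ wA Λ2 ht2 a2 i0 A' * 1 := by gcongr; exact hΦ _ _ _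
      _ = _ := mul_one _
  set F' : ℤ × G → ℝ≥0∞ := fun v => if v.1.toNat ≤ a1 + i0 then F v.1.toNat v.2 else 0 with hF'
  have hF'1 : ∀ v, F' v ≤ 1 := by
    intro v; simp only [hF']; split_ifs
    · exact hF1 _ _
    · exact zero_le
  set g' : ℤ × G → ℝ≥0∞ := fun v => min (g v) (q Λ1 ht1 z1 a1 v) with hg'
  have hq' : ∀ v, q Λ1 ht1 z1 a1 v ≤ g' v + b v := by
    intro v
    simp only [hg']
    rcases le_total (g v) (q Λ1 ht1 z1 a1 v) with h | h
    · rw [min_eq_left h]; exact hq v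
    · rw [min_eq_right h]; exact le_self_add
  have e1 : ∑' A, wA Λ1 ht1 a1 i0 A * F (HT ht1 A) (DS z1 A)
      = ∑' v, q Λ1 ht1 z1 a1 v * F' v := by
    rw [← fiber Λ1 ht1 z1 a1 F']
    refine tsum_congr fun A => ?_
    have e : (VV ht1 z1 A).1.toNat = HT ht1 A := by simp [VV]
    simp only [hF', e, wA]
    have e'' : (VV ht1 z1 A).2 = DS z1 A := rfl
    rw [e'']
    by_cases h : FP ht1 a1 A <;> by_cases h' : HT ht1 A ≤ a1 + i0 <;> simp [h, h']
  have e2 : ∑' v, g' v * F' v ≤ (i0 + 1 : ℕ) * ((i0 + 1 : ℕ) * Bd) := by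
    calc ∑' v, g' v * F' v
        ≤ ∑ c ∈ Finset.range (i0 + 1), ∑' y, g' (((a1 + c : ℕ) : ℤ), y) * F' (((a1 + c : ℕ) : ℤ), y) := by
          refine supp_sum a1 i0 (fun v => g' v * F' v) fun v hv => ?_
          have hv1 : q Λ1 ht1 z1 a1 v ≠ 0 := by
            intro h0; apply hv; simp [hg', h0]
          have hv2 : v.1.toNat ≤ a1 + i0 := by
            by_contra h0; apply hv; simp [-Int.toNat_le, -Int.lt_toNat, hF', h0]
          have := q_supp Λ1 ht1 z1 a1 v hv1
          refine ⟨v.1.toNat - a1, by omega, ?_⟩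
          rw [← this.2]; congr 1; simp only [Int.toNat_natCast]; omega
      _ ≤ ∑ c ∈ Finset.range (i0 + 1), ((i0 + 1 : ℕ) * Bd) := by
          refine Finset.sum_le_sum fun c hc => ?_
          have hc' : c ≤ i0 := by have := Finset.mem_range.1 hc; omega
          calc _ ≤ ∑' y, g' (((a1 + c : ℕ) : ℤ), y) * ∑ d ∈ Finset.range (i0 + 1), ∑' A',
                (if FP ht2 a2 A' ∧ HT ht2 A' = a2 + d then LW Λ2 A' else 0) *
                  Φ (a1 + c) (a2 + d) (w + DS z2 A' - y) := by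
                gcongr with y
                simp only [hF', Int.toNat_natCast]
                rw [if_pos (by omega)]
                rw [← Summable.tsum_finsetSum (fun _ _ => ENNReal.summable)]
                refine ENNReal.tsum_le_tsum fun A' => ?_
                by_cases h : FP ht2 a2 A' ∧ HT ht2 A' ≤ a2 + i0
                · have h3 := FP_le ht2 a2 A' h.1
                  refine le_trans ?_ (Finset.single_le_sum (f := fun d =>
                    (if FP ht2 a2 A' ∧ HT ht2 A' = a2 + d then LW Λ2 A' else 0) *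
                      Φ (a1 + c) (a2 + d) (w + DS z2 A' - y)) (fun _ _ => zero_le)
                    (Finset.mem_range.2 (show HT ht2 A' - a2 < i0 + 1 by omega)))
                  have e5 : a2 + (HT ht2 A' - a2) = HT ht2 A' := by omega
                  simp only [e5, wA, h, h.1, and_self, if_true]; exact le_rfl
                · simp [wA, h]
            _ = ∑ d ∈ Finset.range (i0 + 1), ∑' x, (∑' A',
                (if FP ht2 a2 A' ∧ HT ht2 A' = a2 + d then LW Λ2 A' else 0) *
                  g' (((a1 + c : ℕ) : ℤ), w + DS z2 A' - x)) * Φ (a1 + c) (a2 + d) x := by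
                simp_rw [Finset.mul_sum]
                rw [Summable.tsum_finsetSum (fun _ _ => ENNReal.summable)]
                refine Finset.sum_congr rfl fun d _ => ?_
                simp_rw [← ENNReal.tsum_mul_left, ← ENNReal.tsum_mul_right]
                rw [ENNReal.tsum_comm, ENNReal.tsum_comm (α := G)]
                refine tsum_congr fun A' => ?_
                rw [← (Equiv.subLeft (w + DS z2 A')).tsum_eq (fun y => _)]
                refine tsum_congr fun x => ?_
                simp only [Equiv.subLeft_apply, sub_sub_cancel]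
                ring
            _ ≤ ∑ d ∈ Finset.range (i0 + 1), Bd := by
                refine Finset.sum_le_sum fun d hd => ?_
                have hd' : d ≤ i0 := by have := Finset.mem_range.1 hd; omega
                refine hBd c hc' d hd' _ ?_ ?_
                · rw [ENNReal.tsum_comm]
                  calc _ ≤ ∑' A', (if FP ht2 a2 A' ∧ HT ht2 A' = a2 + d then LW Λ2 A' else 0) * 1 := by
                        refine ENNReal.tsum_le_tsum fun A' => ?_
                        rw [ENNReal.tsum_mul_left]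
                        gcongr
                        calc ∑' x, g' (((a1 + c : ℕ) : ℤ), w + DS z2 A' - x)
                            = ∑' y, g' (((a1 + c : ℕ) : ℤ), y) :=
                              (Equiv.subLeft (w + DS z2 A')).tsum_eq
                                (fun y => g' (((a1 + c : ℕ) : ℤ), y))
                          _ ≤ ∑' y, q Λ1 ht1 z1 a1 (((a1 + c : ℕ) : ℤ), y) :=
                              ENNReal.tsum_le_tsum fun y => min_le_right _ _
                          _ ≤ ∑' v, q Λ1 ht1 z1 a1 v :=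
                              ENNReal.tsum_comp_le_tsum_of_injective
                                (f := fun y : G => (((a1 + c : ℕ) : ℤ), y))
                                (fun y y' e => by simpa using e) _
                          _ = 1 := q_sum Λ1 ht1 z1 h1 hΛ1 a1
                    _ ≤ 1 := by simp only [mul_one]; exact hfs (fun L => HT ht2 L = a2 + d)
                · intro x
                  calc _ ≤ ∑' A', (if FP ht2 a2 A' ∧ HT ht2 A' = a2 + d then LW Λ2 A' else 0) * M := by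
                        gcongr with A'
                        exact (min_le_left _ _).trans (hg _)
                    _ ≤ 1 * M := by
                        rw [ENNReal.tsum_mul_right]; gcongr
                        exact hfs (fun L => HT ht2 L = a2 + d)
                    _ = M := one_mul _
            _ = _ := by simp
      _ = _ := by simp
  calc _ = ∑' A, wA Λ1 ht1 a1 i0 A * F (HT ht1 A) (DS z1 A) := rfl
    _ = _ := e1
    _ ≤ ∑' v, (g' v + b v) * F' v := by gcongr with v; exact hq' v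
    _ = ∑' v, g' v * F' v + ∑' v, b v * F' v := by
        rw [← ENNReal.tsum_add]; exact tsum_congr fun v => by ring
    _ ≤ _ := by
        refine add_le_add e2 (le_trans (ENNReal.tsum_le_tsum fun v => ?_) hb)
        calc b v * F' v ≤ b v * 1 := by gcongr; exact hF'1 v
          _ = b v := mul_one _

end Crest.Agent.R154.Lst2
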