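import Crest.Agent.R154.LstC_2
import Crest.Agent.R154.AsmD_540

/-! Row 154, ROAD 801 (helper2): one window. -/

set_option autoImplicit false

namespace Crest.Agent.R154.Lst2

open Crest.Agent.R154.B5A
open Crest.Agent.R154.Asm540 (TR Cm TR_append TR_depth TR_shift)
open scoped ENNReal Classical

theorem push {B : Type*} (Λ : B → ℝ≥0∞) (ht : B → ℕ) (h1 : ∀ b, 1 ≤ ht b) (hΛ : ∑' b, Λ b = 1)
    (a ℓ i0 n : ℕ) (hn : a + i0 + ℓ ≤ n) (F : List B → ℝ≥0∞) (hF1 : ∀ L, F L ≤ 1)
    (F2 : List B → List B → ℝ≥0∞)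
    (hF : ∀ A P R, FP ht a A → HT ht A ≤ a + i0 → FP ht ℓ P →
      HT ht A + (HT ht P + HT ht R) = n → F (A ++ (P ++ R)) ≤ F2 A P) :
    ∑' L, (if HT ht L = n then LW Λ L * F L else 0)
      ≤ (∑' A, wA Λ ht a i0 A * ∑' P, wP Λ ht ℓ P * F2 A P) + dlt Λ ht i0 := by
  refine (push1 Λ ht a n (by omega) F (fun A R => if HT ht A ≤ a + i0 then F (A ++ R) else 1)
    (fun A R hA hR => ?_)).trans ?_
  · by_cases h : HT ht A ≤ a + i0
    · simp [h]
    · simp only [h, if_false]; exact hF1 _
  have hpt : ∀ A, (if FP ht a A then LW Λ A * (∑' R, if HT ht A + HT ht R = n then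
        LW Λ R * (if HT ht A ≤ a + i0 then F (A ++ R) else 1) else 0) else 0)
      ≤ wA Λ ht a i0 A * (∑' P, wP Λ ht ℓ P * F2 A P)
        + (if FP ht a A ∧ a + i0 < HT ht A then LW Λ A else 0) := by
    intro A
    by_cases hA : FP ht a A
    · by_cases h : HT ht A ≤ a + i0
      · refine le_trans ?_ le_self_add
        simp only [hA, h, wA, and_self, if_true]
        refine mul_le_mul' le_rfl ?_
        calc ∑' R, (if HT ht A + HT ht R = n then LW Λ R * F (A ++ R) else 0)
            = ∑' R, (if HT ht R = n - HT ht A then LW Λ R * F (A ++ R) else 0) := by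
              refine tsum_congr fun R => ?_
              by_cases h' : HT ht A + HT ht R = n
              · rw [if_pos h', if_pos (by omega)]
              · rw [if_neg h', if_neg (by omega)]
          _ ≤ _ := push1 Λ ht ℓ (n - HT ht A) (by omega) (fun R => F (A ++ R)) (fun P _ => F2 A P)
              (fun P R hP hR => hF A P R hA h hP (by omega))
          _ ≤ ∑' P, wP Λ ht ℓ P * F2 A P := by
              refine ENNReal.tsum_le_tsum fun P => ?_
              by_cases hP : FP ht ℓ P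
              · simp only [hP, wP, if_true]
                refine mul_le_mul' le_rfl ?_
                calc _ = ∑' R, (if HT ht R = n - HT ht A - HT ht P then LW Λ R else 0) *
                        (if HT ht P ≤ n - HT ht A then F2 A P else 0) := by
                      refine tsum_congr fun R => ?_
                      by_cases h' : HT ht P + HT ht R = n - HT ht A
                      · rw [if_pos h', if_pos (by omega), if_pos (by omega)]
                      · rw [if_neg h']
                        by_cases h'' : HT ht P ≤ n - HT ht A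
                        · rw [if_neg (by omega), zero_mul]
                        · rw [if_neg h'', mul_zero]
                  _ ≤ 1 * F2 A P := by
                      rw [ENNReal.tsum_mul_right]
                      refine mul_le_mul' (U_le Λ ht h1 hΛ _) ?_
                      split_ifs <;> simp
                  _ = _ := one_mul _
              · simp [hP]
      · refine le_trans ?_ le_add_self
        simp only [hA, h, not_le.1 h, and_self, if_true, if_false, mul_one]
        calc _ ≤ LW Λ A * 1 := by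
              refine mul_le_mul' le_rfl ?_
              refine le_trans (ENNReal.tsum_le_tsum fun R => ?_) (U_le Λ ht h1 hΛ (n - HT ht A))
              by_cases h' : HT ht A + HT ht R = n
              · rw [if_pos h', if_pos (by omega)]
              · rw [if_neg h']; exact zero_le
          _ = _ := mul_one _
    · simp [hA]
  refine (ENNReal.tsum_le_tsum hpt).trans ?_
  rw [ENNReal.tsum_add]
  exact add_le_add le_rfl (overs Λ ht h1 hΛ i0 a)

section S4

variable {BX BY : Type*} (f1 f2 : List BX → ℝ≥0∞) (f3 f4 : List BY → ℝ≥0∞)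

noncomputable def S4 (G : List BX → List BX → List BY → List BY → ℝ≥0∞) : ℝ≥0∞ :=
  ∑' A, f1 A * ∑' P, f2 P * ∑' A', f3 A' * ∑' P', f4 P' * G A P A' P'

lemma S4_add (G G' : List BX → List BX → List BY → List BY → ℝ≥0∞) :
    S4 f1 f2 f3 f4 (fun A P A' P' => G A P A' P' + G' A P A' P')
      = S4 f1 f2 f3 f4 G + S4 f1 f2 f3 f4 G' := by
  simp only [S4, mul_add, ENNReal.tsum_add]

lemma S4_mono {G G' : List BX → List BX → List BY → List BY → ℝ≥0∞}
    (h : ∀ A P A' P', G A P A' P' ≤ G' A P A' P') :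
    S4 f1 f2 f3 f4 G ≤ S4 f1 f2 f3 f4 G' := by
  unfold S4
  gcongr with A P A' P'
  exact h A P A' P'

lemma S4_prod (hf1 : ∑' A, f1 A ≤ 1) (hf3 : ∑' A, f3 A ≤ 1) (f : List BX → ℝ≥0∞)
    (f' : List BY → ℝ≥0∞) :
    S4 f1 f2 f3 f4 (fun _ P _ P' => f P * f' P') ≤ (∑' P, f2 P * f P) * ∑' P', f4 P' * f' P' := by
  unfold S4
  have e1 : ∀ P, ∑' P', f4 P' * (f P * f' P') = f P * ∑' P', f4 P' * f' P' := by
    intro P; rw [← ENNReal.tsum_mul_left]; exact tsum_congr fun P' => by ring
  simp_rw [e1, ENNReal.tsum_mul_right]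
  calc _ ≤ 1 * ∑' P, f2 P * (1 * (f P * ∑' P', f4 P' * f' P')) := by gcongr
    _ = _ := by
        rw [one_mul, ← ENNReal.tsum_mul_right]; exact tsum_congr fun P => by ring

lemma S4_swap (K : List BX → List BY → List BX → List BY → ℝ≥0∞) :
    S4 f1 f2 f3 f4 (fun A P A' P' => K A A' P P')
      = ∑' A, f1 A * ∑' A', f3 A' * ∑' P, f2 P * ∑' P', f4 P' * K A A' P P' := by
  unfold S4
  refine tsum_congr fun A => ?_
  congr 1
  simp_rw [← ENNReal.tsum_mul_left]
  rw [ENNReal.tsum_comm]
  refine tsum_congr fun A' => tsum_congr fun P => tsum_congr fun P' => ?_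
  ring

end S4

lemma fin_split {BX BY : Type*} (ΛX : BX → ℝ≥0∞) (ΛY : BY → ℝ≥0∞) (hX : BX → ℕ) (hY : BY → ℕ)
    (ℓ ℓ' i0 : ℕ) (Q : List BX → List BY → Prop) :
    ∑' P, wP ΛX hX ℓ P * ∑' P', wP ΛY hY ℓ' P' *
        (if HT hX P ≤ ℓ + i0 ∧ HT hY P' ≤ ℓ' + i0 ∧ Q P P' then 1 else 0)
      ≤ ∑ i ∈ Finset.range (i0 + 1), ∑ j ∈ Finset.range (i0 + 1), ∑' P, ∑' P',
        (if HT hX P = ℓ + i ∧ HT hY P' = ℓ' + j ∧ Q P P' then LW ΛX P * LW ΛY P' else 0) := by
  have e0 : ∑ i ∈ Finset.range (i0 + 1), ∑ j ∈ Finset.range (i0 + 1), ∑' P, ∑' P',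
        (if HT hX P = ℓ + i ∧ HT hY P' = ℓ' + j ∧ Q P P' then LW ΛX P * LW ΛY P' else 0)
      = ∑' P, ∑' P', ∑ i ∈ Finset.range (i0 + 1), ∑ j ∈ Finset.range (i0 + 1),
        (if HT hX P = ℓ + i ∧ HT hY P' = ℓ' + j ∧ Q P P' then LW ΛX P * LW ΛY P' else 0) := by
    have e1 : ∀ (f : ℕ → List BX → ℝ≥0∞), ∑' P, ∑ i ∈ Finset.range (i0 + 1), f i P
        = ∑ i ∈ Finset.range (i0 + 1), ∑' P, f i P := fun f =>
      Summable.tsum_finsetSum (fun _ _ => ENNReal.summable)
    have e2 : ∀ (f : ℕ → List BY → ℝ≥0∞), ∑' P, ∑ i ∈ Finset.range (i0 + 1), f i P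
        = ∑ i ∈ Finset.range (i0 + 1), ∑' P, f i P := fun f =>
      Summable.tsum_finsetSum (fun _ _ => ENNReal.summable)
    simp only [e1, e2]
  rw [e0]
  refine ENNReal.tsum_le_tsum fun P => ?_
  rw [← ENNReal.tsum_mul_left]
  refine ENNReal.tsum_le_tsum fun P' => ?_
  by_cases h : HT hX P ≤ ℓ + i0 ∧ HT hY P' ≤ ℓ' + i0 ∧ Q P P'
  · by_cases hP : FP hX ℓ P
    · by_cases hP' : FP hY ℓ' P'
      · have h3 := FP_le hX ℓ P hP
        have h4 := FP_le hY ℓ' P' hP'
        refine le_trans ?_ (Finset.single_le_sum (f := fun i => ∑ j ∈ Finset.range (i0 + 1),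
          (if HT hX P = ℓ + i ∧ HT hY P' = ℓ' + j ∧ Q P P' then LW ΛX P * LW ΛY P' else 0))
          (fun _ _ => zero_le) (Finset.mem_range.2 (show HT hX P - ℓ < i0 + 1 by omega)))
        refine le_trans ?_ (Finset.single_le_sum (f := fun j =>
          (if HT hX P = ℓ + (HT hX P - ℓ) ∧ HT hY P' = ℓ' + j ∧ Q P P' then LW ΛX P * LW ΛY P' else 0))
          (fun _ _ => zero_le) (Finset.mem_range.2 (show HT hY P' - ℓ' < i0 + 1 by omega)))
        rw [if_pos h, if_pos ⟨by omega, by omega, h.2.2⟩]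
        simp [wP, hP, hP']
      · simp [wP, hP']
    · simp [wP, hP]
  · simp [h]

end Crest.Agent.R154.Lst2
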