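import Crest.Agent.R154.LstD_2

/-! Row 154, ROAD 801 (helper2): the window inequality. -/

set_option autoImplicit false

namespace Crest.Agent.R154.Lst2

open Crest.Agent.R154.B5A
open Crest.Agent.R154.Asm540 (TR Cm TR_append TR_depth TR_shift)
open scoped ENNReal Classical

variable {BX BY G : Type*} [AddCommGroup G]
  (ΛX : BX → ℝ≥0∞) (ΛY : BY → ℝ≥0∞) (hX : BX → ℕ) (hY : BY → ℕ) (zX : BX → G) (zY : BY → G)
  (sX : BX → Set (G × ℕ)) (sY : BY → Set (G × ℕ))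

/-- `X` local window lemma, weak form -/
def H2r (i0 : ℕ) (C : ℝ≥0∞) (us : ℕ → ℝ≥0∞) : Prop :=
  ∀ (s h h' a a' lo : ℕ) (E : Finset G) (μ : G → ℝ≥0∞) (M lam : ℝ≥0∞), ∑' x, μ x ≤ 1 →
    (∀ x, μ x ≤ M) → lam ≠ 0 → lam ≠ ⊤ → a ≤ a' → a' ≤ a + 2 * i0 → a + s ≤ lo → a' + s ≤ lo →
    ∑' x, μ x * ∑' L : List BX, ∑' L' : List BY,
      (if HT hX L = h ∧ Asm540.Dp zX L ∈ E ∧ HT hY L' = h' ∧
          (∃ g k, Cm hX hY zX zY sX sY L L' x a a' g k) ∧
          (∀ g k, Cm hX hY zX zY sX sY L L' x a a' g k → lo ≤ k) then LW ΛX L * LW ΛY L' else 0)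
      ≤ C * (lam + M * E.card * us s / lam + us s)

/-- `Y` local window lemma, weak form -/
def H3r (i0 : ℕ) (C : ℝ≥0∞) (us : ℕ → ℝ≥0∞) : Prop :=
  ∀ (s h h' a a' hi : ℕ) (E : Finset G) (μ : G → ℝ≥0∞) (M lam : ℝ≥0∞), ∑' x, μ x ≤ 1 →
    (∀ x, μ x ≤ M) → lam ≠ 0 → lam ≠ ⊤ → a + h ≤ a' + h' → a' + h' ≤ a + h + 4 * i0 →
    hi + s ≤ a + h → hi + s ≤ a' + h' →
    ∑' x, μ x * ∑' L : List BX, ∑' L' : List BY,
      (if HT hX L = h ∧ HT hY L' = h' ∧ Asm540.Dp zY L' ∈ E ∧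
          (∃ g k, Cm hX hY zX zY sX sY L L' x a a' g k) ∧
          (∀ g k, Cm hX hY zX zY sX sY L L' x a a' g k → k ≤ hi) then LW ΛX L * LW ΛY L' else 0)
      ≤ C * (lam + M * E.card * us s / lam + us s)

/-- weight of the pairs with first common site in the window `(W, W + t]` -/
noncomputable def Win (n : ℕ) (w : G) (W t : ℕ) : ℝ≥0∞ :=
  ∑' L : List BX, ∑' L' : List BY, if HT hX L = n ∧ HT hY L' = n ∧
    (∀ g k, Cm hX hY zX zY sX sY L L' w 0 0 g k → W < k) ∧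
    (∃ g k, k ≤ W + t ∧ Cm hX hY zX zY sX sY L L' w 0 0 g k) then LW ΛX L * LW ΛY L' else 0

lemma wA_sum {B : Type*} (Λ : B → ℝ≥0∞) (ht : B → ℕ) (h1 : ∀ b, 1 ≤ ht b) (hΛ : ∑' b, Λ b = 1)
    (a i0 : ℕ) : ∑' A, wA Λ ht a i0 A ≤ 1 := by
  refine le_trans (le_of_eq ?_) (FP_sum_le Λ ht h1 hΛ a (fun L => HT ht L ≤ a + i0))
  exact tsum_congr fun A' => by simp only [wA]; congr

lemma wP_sum {B : Type*} (Λ : B → ℝ≥0∞) (ht : B → ℕ) (h1 : ∀ b, 1 ≤ ht b) (hΛ : ∑' b, Λ b = 1)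
    (a : ℕ) : ∑' A, wP Λ ht a A ≤ 1 := (FP_sum Λ ht h1 hΛ a).le

lemma wP_over {B : Type*} (Λ : B → ℝ≥0∞) (ht : B → ℕ) (h1 : ∀ b, 1 ≤ ht b) (hΛ : ∑' b, Λ b = 1)
    (a i0 : ℕ) : ∑' A, wP Λ ht a A * (if a + i0 < HT ht A then 1 else 0) ≤ dlt Λ ht i0 := by
  refine le_trans (le_of_eq ?_) (overs Λ ht h1 hΛ i0 a)
  refine tsum_congr fun A => ?_
  by_cases h : FP ht a A <;> by_cases h' : a + i0 < HT ht A <;> simp [wP, h, h']

lemma wle {B : Type*} (Λ : B → ℝ≥0∞) (ht : B → ℕ) (h1 : ∀ b, 1 ≤ ht b) (hΛ : ∑' b, Λ b = 1)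
    (a : ℕ) (f : List B → ℝ≥0∞) (hf : ∀ P, f P ≤ 1) : ∑' P, wP Λ ht a P * f P ≤ 1 := by
  refine le_trans (ENNReal.tsum_le_tsum fun P => ?_) (wP_sum Λ ht h1 hΛ a)
  calc _ ≤ wP Λ ht a P * 1 := by gcongr; exact hf P
    _ = _ := mul_one _

theorem win_le (h1X : ∀ b, 1 ≤ hX b) (h1Y : ∀ b, 1 ≤ hY b) (hΛX : ∑' b, ΛX b = 1)
    (hΛY : ∑' b, ΛY b = 1) (hsX : ∀ b, ∀ p ∈ sX b, 1 ≤ p.2 ∧ p.2 ≤ hX b)
    (hsY : ∀ b, ∀ p ∈ sY b, 1 ≤ p.2 ∧ p.2 ≤ hY b)
    (n s t i0 a : ℕ) (w : G) (hn : a + (2 * i0 + s + t + s) + 4 * i0 ≤ n)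
    (C : ℝ≥0∞) (us : ℕ → ℝ≥0∞) (H2 : H2r ΛX ΛY hX hY zX zY sX sY i0 C us)
    (H3 : H3r ΛX ΛY hX hY zX zY sX sY i0 C us)
    (θ : ℝ≥0∞) (hθ : Asm540.KS ΛX ΛY hX hY zX zY sX sY n w
      (Set.Ioc (a + 2 * i0 + s + t) (a + 2 * i0 + s + t + s + 2 * i0)) ≤ θ)
    (u β lam : ℝ≥0∞) (hlam : lam ≠ 0) (hlam' : lam ≠ ⊤)
    (thX : ℝ≥0∞) (EX : ℕ → Finset G) (hEX : ∀ h, ((EX h).card : ℝ≥0∞) * thX ≤ 1)
    (hnX : ∑' P, (if FP hX (2 * i0 + s + t + s) P ∧ HT hX P ≤ (2 * i0 + s + t + s) + i0 ∧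
      DS zX P ∉ EX (HT hX P) then LW ΛX P else 0) ≤ u)
    (gX bX : ℤ × G → ℝ≥0∞) (hqX : ∀ v, q ΛX hX zX a v ≤ gX v + bX v)
    (hgX : ∀ v, gX v ≤ (i0 + 1 : ℕ) * thX * u⁻¹) (hbX : ∑' v, bX v ≤ β)
    (thY : ℝ≥0∞) (EY : ℕ → Finset G) (hEY : ∀ h, ((EY h).card : ℝ≥0∞) * thY ≤ 1)
    (hnY : ∑' P, (if FP hY (2 * i0 + s + t + s + i0) P ∧ HT hY P ≤ (2 * i0 + s + t + s + i0) + i0 ∧
      DS zY P ∉ EY (HT hY P) then LW ΛY P else 0) ≤ u)
    (gY bY : ℤ × G → ℝ≥0∞) (hqY : ∀ v, q ΛY hY zY (a + i0) v ≤ gY v + bY v)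
    (hgY : ∀ v, gY v ≤ (i0 + 1 : ℕ) * thY * u⁻¹) (hbY : ∑' v, bY v ≤ β) :
    Win ΛX ΛY hX hY zX zY sX sY n w (a + 2 * i0 + s) t
      ≤ θ + 2 * dlt ΛX hX i0 + 2 * dlt ΛY hY i0 + u * u
        + 2 * ((i0 + 1 : ℕ) * ((i0 + 1 : ℕ) * ((i0 + 1 : ℕ) * ((i0 + 1 : ℕ) *
          (C * (lam + (i0 + 1 : ℕ) * u⁻¹ * us s / lam + us s))))) + β) := by
  set W := a + 2 * i0 + s with hW
  set ℓ := 2 * i0 + s + t + s with hℓ
  set Bd := C * (lam + (i0 + 1 : ℕ) * u⁻¹ * us s / lam + us s) with hBd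
  set N4 : ℝ≥0∞ := (i0 + 1 : ℕ) * ((i0 + 1 : ℕ) * ((i0 + 1 : ℕ) * ((i0 + 1 : ℕ) * Bd))) with hN4
  -- the good event
  set ev : List BX → List BY → ℝ≥0∞ := fun L L' =>
    if (∀ g k, Cm hX hY zX zY sX sY L L' w 0 0 g k → W < k) ∧
      (∃ g k, k ≤ W + t ∧ Cm hX hY zX zY sX sY L L' w 0 0 g k) ∧
      (∀ g k, Cm hX hY zX zY sX sY L L' w 0 0 g k → ¬ (W + t < k ∧ k ≤ W + t + s + 2 * i0))
    then 1 else 0 with hev
  have hev1 : ∀ L L', ev L L' ≤ 1 := by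
    intro L L'; simp only [hev]; split_ifs <;> simp
  set Q2 : ℕ → ℕ → G → List BX → List BY → Prop := fun c d x P P' =>
    Asm540.Dp zX P ∈ EX (HT hX P) ∧ (∃ g k, Cm hX hY zX zY sX sY P P' x c d g k) ∧
      (∀ g k, Cm hX hY zX zY sX sY P P' x c d g k → W ≤ k) with hQ2
  set Q3 : ℕ → ℕ → G → List BX → List BY → Prop := fun c d x P P' =>
    Asm540.Dp zY P' ∈ EY (HT hY P') ∧ (∃ g k, Cm hX hY zX zY sX sY P P' x c d g k) ∧
      (∀ g k, Cm hX hY zX zY sX sY P P' x c d g k → k ≤ W + t) with hQ3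
  set X2 : ℕ → ℕ → G → List BX → List BY → ℝ≥0∞ := fun c d x P P' =>
    if HT hX P ≤ ℓ + i0 ∧ HT hY P' ≤ (ℓ + i0) + i0 ∧ Q2 c d x P P' then 1 else 0 with hX2
  set X3 : ℕ → ℕ → G → List BX → List BY → ℝ≥0∞ := fun c d x P P' =>
    if HT hX P ≤ ℓ + i0 ∧ HT hY P' ≤ (ℓ + i0) + i0 ∧ Q3 c d x P P' then 1 else 0 with hX3
  set oX : List BX → ℝ≥0∞ := fun P => if ℓ + i0 < HT hX P then 1 else 0 with hoX
  set oY : List BY → ℝ≥0∞ := fun P => if (ℓ + i0) + i0 < HT hY P then 1 else 0 with hoY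
  set nX : List BX → ℝ≥0∞ := fun P =>
    if HT hX P ≤ ℓ + i0 ∧ DS zX P ∉ EX (HT hX P) then 1 else 0 with hnlX
  set nY : List BY → ℝ≥0∞ := fun P =>
    if HT hY P ≤ (ℓ + i0) + i0 ∧ DS zY P ∉ EY (HT hY P) then 1 else 0 with hnlY
  set GG : List BX → List BX → List BY → List BY → ℝ≥0∞ := fun A P A' P' =>
    (oX P * 1 + 1 * oY P' + nX P * nY P')
      + (X2 (HT hX A) (HT hY A') (w + DS zY A' - DS zX A) P P'
      + X3 (HT hX A) (HT hY A') (w + DS zY A' - DS zX A) P P') with hGG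
  -- pointwise
  have hpt : ∀ A P R A' P' R', FP hX a A → HT hX A ≤ a + i0 → FP hX ℓ P →
      FP hY (a + i0) A' → HT hY A' ≤ (a + i0) + i0 → FP hY (ℓ + i0) P' →
      ev (A ++ (P ++ R)) (A' ++ (P' ++ R')) ≤ GG A P A' P' := by
    intro A P R A' P' R' hA hA2 hP hA' hA2' hP'
    by_cases he : (∀ g k, Cm hX hY zX zY sX sY (A ++ (P ++ R)) (A' ++ (P' ++ R')) w 0 0 g k → W < k) ∧
      (∃ g k, k ≤ W + t ∧ Cm hX hY zX zY sX sY (A ++ (P ++ R)) (A' ++ (P' ++ R')) w 0 0 g k) ∧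
      (∀ g k, Cm hX hY zX zY sX sY (A ++ (P ++ R)) (A' ++ (P' ++ R')) w 0 0 g k →
        ¬ (W + t < k ∧ k ≤ W + t + s + 2 * i0))
    swap
    · simp only [hev]; rw [if_neg he]; exact zero_le
    have hevv : ev (A ++ (P ++ R)) (A' ++ (P' ++ R')) = 1 := by
      simp only [hev]; rw [if_pos he]
    rw [hevv]
    obtain ⟨he1, ⟨g, k, hk, hc⟩, he3⟩ := he
    by_cases hPo : ℓ + i0 < HT hX P
    · simp only [hGG, hoX, hPo, if_true]
      rw [one_mul, add_assoc, add_assoc]; exact le_self_add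
    by_cases hPo' : (ℓ + i0) + i0 < HT hY P'
    · simp only [hGG, hoY, hPo', if_true]
      refine le_trans ?_ le_self_add
      refine le_trans ?_ le_self_add
      simp
    rw [not_lt] at hPo hPo'
    have a1 := FP_le hX a A hA
    have a2 := FP_le hX ℓ P hP
    have a3 := FP_le hY _ A' hA'
    have a4 := FP_le hY _ P' hP'
    -- membership in pieces
    have mX : ∀ g k, (g, k) ∈ TR sX zX hX P (DS zX A) (HT hX A) →
        (g, k) ∈ TR sX zX hX (A ++ (P ++ R)) 0 0 := by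
      intro g k h
      rw [TR_append, TR_append]
      refine Or.inr (Or.inl ?_)
      simpa [Asm540.Dp, DS] using h
    have mY : ∀ g k, (g, k) ∈ TR sY zY hY P' (w + DS zY A') (HT hY A') →
        (g, k) ∈ TR sY zY hY (A' ++ (P' ++ R')) w 0 := by
      intro g k h
      rw [TR_append, TR_append]
      refine Or.inr (Or.inl ?_)
      simpa [Asm540.Dp, DS] using h
    set x := w + DS zY A' - DS zX A with hx
    have hcm : ∀ g k, Cm hX hY zX zY sX sY P P' x (HT hX A) (HT hY A') g k →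
        Cm hX hY zX zY sX sY (A ++ (P ++ R)) (A' ++ (P' ++ R')) w 0 0 (g + DS zX A) k := by
      rintro g k ⟨c1, c2⟩
      refine ⟨mX _ _ ?_, mY _ _ ?_⟩
      · have := (TR_shift hX zX sX P 0 (DS zX A) (HT hX A) (g + DS zX A) k).2 (by simpa using c1)
        simpa using this
      · have := (TR_shift hY zY sY P' x (DS zX A) (HT hY A') (g + DS zX A) k).2 (by simpa using c2)
        have e : x + DS zX A = w + DS zY A' := by rw [hx]; abel
        rwa [e] at this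
    have hd1 : ∀ g k, Cm hX hY zX zY sX sY P P' x (HT hX A) (HT hY A') g k → W ≤ k := fun g k h =>
      (he1 _ _ (hcm g k h)).le
    have hd2 : ∀ g k, Cm hX hY zX zY sX sY P P' x (HT hX A) (HT hY A') g k → k ≤ W + t := by
      intro g k h
      have h3 := he3 _ _ (hcm g k h)
      have h4 := TR_depth hX zX sX hsX P 0 (HT hX A) (g, k) h.1
      simp only at h4
      by_contra hcon
      exact h3 ⟨by omega, by omega⟩
    have hex : ∃ g k, Cm hX hY zX zY sX sY P P' x (HT hX A) (HT hY A') g k := by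
      have hk1 := he1 g k hc
      obtain ⟨c1, c2⟩ := hc
      rw [TR_append, TR_append] at c1 c2
      have c1' : (g, k) ∈ TR sX zX hX P (DS zX A) (HT hX A) := by
        rcases c1 with c1 | c1 | c1
        · have := TR_depth hX zX sX hsX _ _ _ _ c1; simp only at this; omega
        · simpa [Asm540.Dp, DS] using c1
        · have := TR_depth hX zX sX hsX _ _ _ _ c1; simp only at this; omega
      have c2' : (g, k) ∈ TR sY zY hY P' (w + DS zY A') (HT hY A') := by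
        rcases c2 with c2 | c2 | c2
        · have := TR_depth hY zY sY hsY _ _ _ _ c2; simp only at this; omega
        · simpa [Asm540.Dp, DS] using c2
        · have := TR_depth hY zY sY hsY _ _ _ _ c2; simp only at this; omega
      refine ⟨g - DS zX A, k, ?_, ?_⟩
      · exact (TR_shift hX zX sX P 0 (DS zX A) (HT hX A) g k).1 (by simpa using c1')
      · have e : x + DS zX A = w + DS zY A' := by rw [hx]; abel
        exact (TR_shift hY zY sY P' x (DS zX A) (HT hY A') g k).1 (by rw [e]; exact c2')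
    by_cases hE : DS zX P ∈ EX (HT hX P)
    · have : X2 (HT hX A) (HT hY A') x P P' = 1 := by
        simp only [hX2]; rw [if_pos ⟨hPo, hPo', hE, hex, hd1⟩]
      simp only [hGG]; rw [this]
      exact le_trans le_self_add le_add_self
    · by_cases hE' : DS zY P' ∈ EY (HT hY P')
      · have : X3 (HT hX A) (HT hY A') x P P' = 1 := by
          simp only [hX3]; rw [if_pos ⟨hPo, hPo', hE', hex, hd2⟩]
        simp only [hGG]; rw [this]
        exact le_trans le_add_self le_add_self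
      · have e1 : nX P = 1 := by simp only [hnlX]; rw [if_pos ⟨hPo, hE⟩]
        have e2 : nY P' = 1 := by simp only [hnlY]; rw [if_pos ⟨hPo', hE'⟩]
        simp only [hGG]; rw [e1, e2]
        refine le_trans ?_ le_self_add
        refine le_trans ?_ le_add_self
        simp
  -- the main sum
  have hmain : ∑' L, (if HT hX L = n then LW ΛX L *
        (∑' L', (if HT hY L' = n then LW ΛY L' * ev L L' else 0)) else 0)
      ≤ S4 (wA ΛX hX a i0) (wP ΛX hX ℓ) (wA ΛY hY (a + i0) i0) (wP ΛY hY (ℓ + i0)) GG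
        + dlt ΛY hY i0 + dlt ΛX hX i0 := by
    refine (push ΛX hX h1X hΛX a ℓ i0 n (by omega)
      (fun L => ∑' L', (if HT hY L' = n then LW ΛY L' * ev L L' else 0)) (fun L => ?_)
      (fun A P => (∑' A', wA ΛY hY (a + i0) i0 A' * ∑' P', wP ΛY hY (ℓ + i0) P' * GG A P A' P')
        + dlt ΛY hY i0) (fun A P R hA hA2 hP _ => ?_)).trans ?_
    · refine le_trans (ENNReal.tsum_le_tsum fun L' => ?_) (U_le ΛY hY h1Y hΛY n)
      split_ifs
      · calc _ ≤ LW ΛY L' * 1 := by gcongr; exact hev1 _ _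
          _ = _ := mul_one _
      · exact le_rfl
    · exact push ΛY hY h1Y hΛY (a + i0) (ℓ + i0) i0 n (by omega)
        (fun L' => ev (A ++ (P ++ R)) L') (fun L' => hev1 _ _) (fun A' P' => GG A P A' P')
        (fun A' P' R' hA' hA2' hP' _ => hpt A P R A' P' R' hA hA2 hP hA' hA2' hP')
    · refine add_le_add ?_ le_rfl
      simp only [mul_add, ENNReal.tsum_add]
      refine add_le_add le_rfl ?_
      simp_rw [ENNReal.tsum_mul_right]
      calc _ ≤ (1 : ℝ≥0∞) * (1 * dlt ΛY hY i0) := by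
            exact mul_le_mul' (wA_sum ΛX hX h1X hΛX a i0)
              (mul_le_mul' (wP_sum ΛX hX h1X hΛX ℓ) le_rfl)
        _ = _ := by rw [one_mul, one_mul]
  -- Win ≤ slab + main
  have hwin : Win ΛX ΛY hX hY zX zY sX sY n w W t ≤ θ + ∑' L, (if HT hX L = n then LW ΛX L *
        (∑' L', (if HT hY L' = n then LW ΛY L' * ev L L' else 0)) else 0) := by
    refine le_trans ?_ (add_le_add hθ le_rfl)
    unfold Win Asm540.KS
    rw [← ENNReal.tsum_add]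
    refine ENNReal.tsum_le_tsum fun L => ?_
    by_cases hL : HT hX L = n
    swap
    · simp [hL]
    simp only [hL, true_and, if_true]
    rw [← ENNReal.tsum_mul_left, ← ENNReal.tsum_add]
    refine ENNReal.tsum_le_tsum fun L' => ?_
    by_cases hL' : HT hY L' = n
    swap
    · simp [hL']
    simp only [hL', true_and, if_true]
    by_cases he : (∀ g k, Cm hX hY zX zY sX sY L L' w 0 0 g k → W < k) ∧
      (∃ g k, k ≤ W + t ∧ Cm hX hY zX zY sX sY L L' w 0 0 g k)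
    · rw [if_pos he]
      by_cases hs : ∃ g k, k ∈ Set.Ioc (W + t) (W + t + s + 2 * i0) ∧
          Cm hX hY zX zY sX sY L L' w 0 0 g k
      · rw [if_pos hs]; exact le_self_add
      · have : ev L L' = 1 := by
          simp only [hev]
          rw [if_pos ⟨he.1, he.2, fun g k h h' => hs ⟨g, k, h', h⟩⟩]
        rw [this, mul_one]; exact le_add_self
    · rw [if_neg he]; exact zero_le
  -- card bounds
  have hcard : ∀ (th : ℝ≥0∞) (c : ℕ), (c : ℝ≥0∞) * th ≤ 1 →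
      C * (lam + (i0 + 1 : ℕ) * th * u⁻¹ * c * us s / lam + us s) ≤ Bd := by
    intro th c hc
    rw [hBd]
    refine mul_le_mul' le_rfl (add_le_add (add_le_add le_rfl
      (ENNReal.div_le_div_right (mul_le_mul' ?_ le_rfl) _)) le_rfl)
    calc (i0 + 1 : ℕ) * th * u⁻¹ * c = (i0 + 1 : ℕ) * u⁻¹ * (c * th) := by ring
      _ ≤ (i0 + 1 : ℕ) * u⁻¹ * 1 := by gcongr
      _ = _ := mul_one _
  -- sums over the grid
  have hgrid : ∀ (μ : G → ℝ≥0∞) (c d : ℕ) (Q : G → List BX → List BY → Prop),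
      (∀ i ≤ i0, ∀ j ≤ i0, ∑' x, μ x * ∑' P, ∑' P',
        (if HT hX P = ℓ + i ∧ HT hY P' = (ℓ + i0) + j ∧ Q x P P' then LW ΛX P * LW ΛY P' else 0) ≤ Bd) →
      ∑' x, μ x * (∑' P, wP ΛX hX ℓ P * ∑' P', wP ΛY hY (ℓ + i0) P' *
        (if HT hX P ≤ ℓ + i0 ∧ HT hY P' ≤ (ℓ + i0) + i0 ∧ Q x P P' then 1 else 0))
      ≤ (i0 + 1 : ℕ) * ((i0 + 1 : ℕ) * Bd) := by
    intro μ c d Q hQ
    calc _ ≤ ∑' x, μ x * ∑ i ∈ Finset.range (i0 + 1), ∑ j ∈ Finset.range (i0 + 1), ∑' P, ∑' P',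
          (if HT hX P = ℓ + i ∧ HT hY P' = (ℓ + i0) + j ∧ Q x P P' then LW ΛX P * LW ΛY P' else 0) := by
          gcongr with x
          exact fin_split ΛX ΛY hX hY ℓ (ℓ + i0) i0 (Q x)
      _ = ∑ i ∈ Finset.range (i0 + 1), ∑ j ∈ Finset.range (i0 + 1), ∑' x, μ x * ∑' P, ∑' P',
          (if HT hX P = ℓ + i ∧ HT hY P' = (ℓ + i0) + j ∧ Q x P P' then LW ΛX P * LW ΛY P' else 0) := by
          simp_rw [Finset.mul_sum]
          have e1 : ∀ (f : ℕ → G → ℝ≥0∞), ∑' P, ∑ i ∈ Finset.range (i0 + 1), f i P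
              = ∑ i ∈ Finset.range (i0 + 1), ∑' P, f i P := fun f =>
            Summable.tsum_finsetSum (fun _ _ => ENNReal.summable)
          simp only [e1]
      _ ≤ ∑ i ∈ Finset.range (i0 + 1), ∑ j ∈ Finset.range (i0 + 1), Bd := by
          refine Finset.sum_le_sum fun i hi => Finset.sum_le_sum fun j hj => ?_
          exact hQ i (by have := Finset.mem_range.1 hi; omega) j (by have := Finset.mem_range.1 hj; omega)
      _ = _ := by simp
  -- X local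
  have hT2 : S4 (wA ΛX hX a i0) (wP ΛX hX ℓ) (wA ΛY hY (a + i0) i0) (wP ΛY hY (ℓ + i0))
      (fun A P A' P' => X2 (HT hX A) (HT hY A') (w + DS zY A' - DS zX A) P P') ≤ N4 + β := by
    rw [S4_swap (K := fun A A' P P' => X2 (HT hX A) (HT hY A') (w + DS zY A' - DS zX A) P P')]
    refine glue ΛX hX zX ΛY hY zY h1X hΛX h1Y hΛY a (a + i0) i0 w _ β gX bX hqX hgX hbX
      (fun c d x => ∑' P, wP ΛX hX ℓ P * ∑' P', wP ΛY hY (ℓ + i0) P' * X2 c d x P P')
      (fun c d x => wle ΛX hX h1X hΛX ℓ _ fun P => wle ΛY hY h1Y hΛY (ℓ + i0) _ fun P' => ?_) _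
      (fun c0 hc0 d0 hd0 μ hμ hμM => ?_)
    · simp only [hX2]; split_ifs <;> simp
    · refine le_trans (le_of_eq ?_) (hgrid μ (a + c0) (a + i0 + d0)
        (fun x => Q2 (a + c0) (a + i0 + d0) x) (fun i hi j hj => ?_))
      · simp only [hX2]
        refine tsum_congr fun x => congrArg (μ x * ·) (tsum_congr fun P =>
          congrArg (wP ΛX hX ℓ P * ·) (tsum_congr fun P' =>
            congrArg (wP ΛY hY (ℓ + i0) P' * ·) ?_))
        congr
      refine le_trans ?_ (hcard thX ((EX (ℓ + i)).card) (hEX _))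
      refine le_trans ?_ (H2 s (ℓ + i) (ℓ + i0 + j) (a + c0) (a + i0 + d0) W (EX (ℓ + i)) μ _ lam hμ hμM
        hlam hlam' (by omega) (by omega) (by omega) (by omega))
      gcongr with x P P'
      by_cases h : HT hX P = ℓ + i ∧ HT hY P' = (ℓ + i0) + j ∧ Q2 (a + c0) (a + i0 + d0) x P P'
      · rw [if_pos h, if_pos]
        refine ⟨h.1, ?_, h.2.1, h.2.2.2.1, h.2.2.2.2⟩
        have := h.2.2.1
        rwa [h.1] at this
      · rw [if_neg h]; exact zero_le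
  -- Y local
  have hT3 : S4 (wA ΛX hX a i0) (wP ΛX hX ℓ) (wA ΛY hY (a + i0) i0) (wP ΛY hY (ℓ + i0))
      (fun A P A' P' => X3 (HT hX A) (HT hY A') (w + DS zY A' - DS zX A) P P') ≤ N4 + β := by
    rw [S4_swap (K := fun A A' P P' => X3 (HT hX A) (HT hY A') (w + DS zY A' - DS zX A) P P')]
    have hsw : (∑' A, wA ΛX hX a i0 A * ∑' A', wA ΛY hY (a + i0) i0 A' * ∑' P, wP ΛX hX ℓ P *
          ∑' P', wP ΛY hY (ℓ + i0) P' * X3 (HT hX A) (HT hY A') (w + DS zY A' - DS zX A) P P')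
        = ∑' A', wA ΛY hY (a + i0) i0 A' * ∑' A, wA ΛX hX a i0 A *
          (fun (c d : ℕ) (x : G) => ∑' P, wP ΛX hX ℓ P * ∑' P', wP ΛY hY (ℓ + i0) P' *
            X3 d c (-x) P P') (HT hY A') (HT hX A) (-w + DS zX A - DS zY A') := by
      simp_rw [← ENNReal.tsum_mul_left]
      rw [ENNReal.tsum_comm]
      refine tsum_congr fun A' => tsum_congr fun A => tsum_congr fun P => tsum_congr fun P' => ?_
      have e : -(-w + DS zX A - DS zY A') = w + DS zY A' - DS zX A := by abel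
      rw [e]; ring
    rw [hsw]
    refine glue ΛY hY zY ΛX hX zX h1Y hΛY h1X hΛX (a + i0) a i0 (-w) _ β gY bY hqY hgY hbY
      (fun (c d : ℕ) (x : G) => ∑' P, wP ΛX hX ℓ P * ∑' P', wP ΛY hY (ℓ + i0) P' *
            X3 d c (-x) P P')
      (fun c d x => wle ΛX hX h1X hΛX ℓ _ fun P => wle ΛY hY h1Y hΛY (ℓ + i0) _ fun P' => ?_) _
      (fun c0 hc0 d0 hd0 μ hμ hμM => ?_)
    · simp only [hX3]; split_ifs <;> simp
    · rw [← (Equiv.neg G).tsum_eq]
      simp only [Equiv.neg_apply, neg_neg]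
      refine le_trans (le_of_eq ?_) (hgrid (fun x => μ (-x)) (a + d0) (a + i0 + c0)
        (fun x => Q3 (a + d0) (a + i0 + c0) x) (fun i hi j hj => ?_))
      · simp only [hX3]
        refine tsum_congr fun x => congrArg (μ (-x) * ·) (tsum_congr fun P =>
          congrArg (wP ΛX hX ℓ P * ·) (tsum_congr fun P' =>
            congrArg (wP ΛY hY (ℓ + i0) P' * ·) ?_))
        congr
      refine le_trans ?_ (hcard thY ((EY (ℓ + i0 + j)).card) (hEY _))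
      refine le_trans ?_ (H3 s (ℓ + i) (ℓ + i0 + j) (a + d0) (a + i0 + c0) (W + t) (EY (ℓ + i0 + j))
        (fun x => μ (-x)) _ lam (((Equiv.neg G).tsum_eq μ).le.trans hμ) (fun x => hμM (-x))
        hlam hlam' (by omega) (by omega) (by omega) (by omega))
      gcongr with x P P'
      by_cases h : HT hX P = ℓ + i ∧ HT hY P' = (ℓ + i0) + j ∧ Q3 (a + d0) (a + i0 + c0) x P P'
      · rw [if_pos h, if_pos]
        refine ⟨h.1, h.2.1, ?_, h.2.2.2.1, h.2.2.2.2⟩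
        have := h.2.2.1
        rwa [h.2.1] at this
      · rw [if_neg h]; exact zero_le
  -- the other terms
  have hw1 := wA_sum ΛX hX h1X hΛX a i0
  have hw3 := wA_sum ΛY hY h1Y hΛY (a + i0) i0
  have hT1 : S4 (wA ΛX hX a i0) (wP ΛX hX ℓ) (wA ΛY hY (a + i0) i0) (wP ΛY hY (ℓ + i0))
      (fun A P A' P' => oX P * 1 + 1 * oY P' + nX P * nY P')
      ≤ dlt ΛX hX i0 + dlt ΛY hY i0 + u * u := by
    rw [S4_add (G := fun A P A' P' => oX P * 1 + 1 * oY P') (G' := fun A P A' P' => nX P * nY P'),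
      S4_add (G := fun A P A' P' => oX P * 1) (G' := fun A P A' P' => 1 * oY P')]
    refine add_le_add (add_le_add ?_ ?_) ?_
    · refine (S4_prod _ _ _ _ hw1 hw3 oX (fun _ => 1)).trans ?_
      calc _ ≤ dlt ΛX hX i0 * 1 :=
            mul_le_mul' (wP_over ΛX hX h1X hΛX ℓ i0) (wle ΛY hY h1Y hΛY _ _ fun _ => le_rfl)
        _ = _ := mul_one _
    · refine (S4_prod _ _ _ _ hw1 hw3 (fun _ => 1) oY).trans ?_
      calc _ ≤ 1 * dlt ΛY hY i0 :=
            mul_le_mul' (wle ΛX hX h1X hΛX _ _ fun _ => le_rfl) (wP_over ΛY hY h1Y hΛY (ℓ + i0) i0)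
        _ = _ := one_mul _
    · refine (S4_prod _ _ _ _ hw1 hw3 nX nY).trans (mul_le_mul' ?_ ?_)
      · refine le_trans (le_of_eq (tsum_congr fun P => ?_)) hnX
        simp only [hnlX, wP]
        by_cases h : FP hX ℓ P <;> by_cases h' : HT hX P ≤ ℓ + i0 <;>
          by_cases h'' : DS zX P ∉ EX (HT hX P) <;> simp [h, h', h'']
      · refine le_trans (le_of_eq (tsum_congr fun P => ?_)) hnY
        simp only [hnlY, wP]
        by_cases h : FP hY (ℓ + i0) P <;> by_cases h' : HT hY P ≤ (ℓ + i0) + i0 <;>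
          by_cases h'' : DS zY P ∉ EY (HT hY P) <;> simp [h, h', h'']
  have hall : S4 (wA ΛX hX a i0) (wP ΛX hX ℓ) (wA ΛY hY (a + i0) i0) (wP ΛY hY (ℓ + i0)) GG
      ≤ (dlt ΛX hX i0 + dlt ΛY hY i0 + u * u) + ((N4 + β) + (N4 + β)) := by
    simp only [hGG]
    rw [S4_add (G := fun A P A' P' => oX P * 1 + 1 * oY P' + nX P * nY P')
      (G' := fun A P A' P' => X2 (HT hX A) (HT hY A') (w + DS zY A' - DS zX A) P P'
        + X3 (HT hX A) (HT hY A') (w + DS zY A' - DS zX A) P P'),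
      S4_add (G := fun A P A' P' => X2 (HT hX A) (HT hY A') (w + DS zY A' - DS zX A) P P')
        (G' := fun A P A' P' => X3 (HT hX A) (HT hY A') (w + DS zY A' - DS zX A) P P')]
    exact add_le_add hT1 (add_le_add hT2 hT3)
  calc _ ≤ _ := hwin
    _ ≤ θ + ((dlt ΛX hX i0 + dlt ΛY hY i0 + u * u) + ((N4 + β) + (N4 + β))
        + dlt ΛY hY i0 + dlt ΛX hX i0) := by
        refine add_le_add le_rfl (hmain.trans ?_)
        gcongr
    _ = _ := by ring

end Crest.Agent.R154.Lst2
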