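import Crest.Agent.R154.Conc_412

/-!
Row 154, block B8 (TILE, irregular runs): the multi-scale concentration bound (75's Lemma MS,
539's [RW1]).

Part 1 (deterministic core): for frequencies `x 0 < x 1 < …` which are lacunary with ratio at least
`16 (1 + m r)`, the integral over an interval of `∏ r, exp (-m r (1 - cos (θ x r)))` is at most
`(length + ∑ 2π / x r) * ∏ 1 / √(m r)`.
-/

open MeasureTheory Set
open scoped BigOperators ENNReal NNReal

namespace Crest.Agent.R154.MS797

/-- One factor. -/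
noncomputable def H (m x θ : ℝ) : ℝ := Real.exp (-(m * (1 - Real.cos (θ * x))))

theorem H_pos (m x θ : ℝ) : 0 < H m x θ := Real.exp_pos _

theorem H_nonneg (m x θ : ℝ) : 0 ≤ H m x θ := (H_pos m x θ).le

theorem H_le_one {m : ℝ} (hm : 0 ≤ m) (x θ : ℝ) : H m x θ ≤ 1 := by
  refine Real.exp_le_one_iff.2 ?_
  have := Real.cos_le_one (θ * x)
  nlinarith

@[fun_prop]
theorem continuous_H {X : Type*} [TopologicalSpace X] {f g : X → ℝ} (m : ℝ)
    (hf : Continuous f) (hg : Continuous g) : Continuous fun z => H m (f z) (g z) := by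
  unfold H; fun_prop

theorem H_shift {m : ℝ} (hm : 0 ≤ m) {x : ℝ} (hx : 0 ≤ x) (θ : ℝ) {t : ℝ} (ht : 0 ≤ t) :
    H m x (θ + t) ≤ Real.exp (m * x * t) * H m x θ := by
  unfold H
  rw [← Real.exp_add]
  refine Real.exp_le_exp.2 ?_
  have h1 := Real.abs_cos_sub_cos_le ((θ + t) * x) (θ * x)
  have h2 : |(θ + t) * x - θ * x| = x * t := by
    rw [show (θ + t) * x - θ * x = x * t by ring, abs_of_nonneg (by positivity)]
  rw [h2] at h1
  have h3 := (abs_le.1 h1).2
  nlinarith [mul_le_mul_of_nonneg_left h3 hm]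

/-- The average of one factor over a period. -/
theorem avg_le {m : ℝ} (hm : 0 < m) {x : ℝ} (hx : 0 < x) (θ : ℝ) :
    ∫ t in (0:ℝ)..(2 * Real.pi / x), H m x (θ + t) ≤ 2 * Real.pi / x * (63 / 100 / √m) := by
  have hpi := Real.pi_pos
  have e1 : ∫ t in (0:ℝ)..(2 * Real.pi / x), H m x (θ + t) =
      x⁻¹ * ∫ u in (-Real.pi)..Real.pi, Real.exp (-(m * (1 - Real.cos u))) := by
    have h1 : ∀ t : ℝ, H m x (θ + t) =
        (fun u => Real.exp (-(m * (1 - Real.cos u)))) (x * t + θ * x) := by
      intro t; simp only [H]; congr 5; ring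
    simp only [h1]
    rw [intervalIntegral.integral_comp_mul_add (fun u => Real.exp (-(m * (1 - Real.cos u))))
      hx.ne' (θ * x)]
    rw [smul_eq_mul]
    congr 1
    have hper : Function.Periodic (fun u : ℝ => Real.exp (-(m * (1 - Real.cos u))))
        (2 * Real.pi) := by
      intro u; simp only [Real.cos_add_two_pi]
    have h2 := hper.intervalIntegral_add_eq (θ * x) (-Real.pi)
    rw [show x * 0 + θ * x = θ * x by ring,
      show x * (2 * Real.pi / x) + θ * x = θ * x + 2 * Real.pi by field_simp; ring, h2]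
    congr 1; ring
  have e2 : ∫ u in (-Real.pi)..Real.pi, Real.exp (-(m * (1 - Real.cos u))) ≤
      ∫ u : ℝ, Real.exp (-(2 * m / Real.pi ^ 2) * u ^ 2) := by
    have hint : Integrable (fun u : ℝ => Real.exp (-(2 * m / Real.pi ^ 2) * u ^ 2)) :=
      integrable_exp_neg_mul_sq (by positivity)
    rw [intervalIntegral.integral_of_le (by linarith)]
    refine le_trans (setIntegral_mono_on ?_ hint.integrableOn measurableSet_Ioc ?_)
      (setIntegral_le_integral hint (ae_of_all _ fun u => (Real.exp_pos _).le))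
    · exact (Continuous.integrableOn_Icc (by fun_prop)).mono_set Ioc_subset_Icc_self
    · intro u hu
      refine Real.exp_le_exp.2 ?_
      have h3 : Real.cos u ≤ 1 - 2 / Real.pi ^ 2 * u ^ 2 :=
        Real.cos_le_one_sub_mul_cos_sq (abs_le.2 ⟨hu.1.le, hu.2⟩)
      have h4 : m * (2 / Real.pi ^ 2 * u ^ 2) ≤ m * (1 - Real.cos u) :=
        mul_le_mul_of_nonneg_left (by linarith) hm.le
      calc -(m * (1 - Real.cos u)) ≤ -(m * (2 / Real.pi ^ 2 * u ^ 2)) := by linarith
        _ = -(2 * m / Real.pi ^ 2) * u ^ 2 := by ring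
  rw [integral_gaussian] at e2
  have e3 : √(Real.pi / (2 * m / Real.pi ^ 2)) = Real.pi * √(Real.pi / 2) / √m := by
    rw [show Real.pi / (2 * m / Real.pi ^ 2) = Real.pi ^ 2 * (Real.pi / 2) / m by field_simp,
      Real.sqrt_div (by positivity), Real.sqrt_mul (by positivity), Real.sqrt_sq hpi.le]
  rw [e3] at e2
  rw [e1]
  have e4 : √(Real.pi / 2) ≤ 126 / 100 := by
    rw [Real.sqrt_le_left (by norm_num)]
    have := Real.pi_lt_d6
    nlinarith
  have hs : 0 < √m := Real.sqrt_pos.2 hm
  calc x⁻¹ * ∫ u in (-Real.pi)..Real.pi, Real.exp (-(m * (1 - Real.cos u)))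
      ≤ x⁻¹ * (Real.pi * √(Real.pi / 2) / √m) :=
        mul_le_mul_of_nonneg_left e2 (by positivity)
    _ ≤ x⁻¹ * (Real.pi * (126 / 100) / √m) := by gcongr
    _ = 2 * Real.pi / x * (63 / 100 / √m) := by field_simp; norm_num

/-- The product of the first `k` factors. -/
noncomputable def B (m x : ℕ → ℝ) (k : ℕ) (θ : ℝ) : ℝ := ∏ r ∈ Finset.range k, H (m r) (x r) θ

theorem B_nonneg (m x : ℕ → ℝ) (k : ℕ) (θ : ℝ) : 0 ≤ B m x k θ :=
  Finset.prod_nonneg fun _ _ => H_nonneg _ _ _

@[fun_prop]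
theorem continuous_B {X : Type*} [TopologicalSpace X] {f : X → ℝ} (m x : ℕ → ℝ) (k : ℕ)
    (hf : Continuous f) : Continuous fun z => B m x k (f z) := by
  unfold B; fun_prop

theorem B_shift {m x : ℕ → ℝ} {k : ℕ} (hm : ∀ r < k, 0 ≤ m r) (hx : ∀ r < k, 0 ≤ x r)
    (θ : ℝ) {t : ℝ} (ht : 0 ≤ t) :
    B m x k (θ + t) ≤ Real.exp ((∑ r ∈ Finset.range k, m r * x r) * t) * B m x k θ := by
  unfold B
  rw [Finset.sum_mul, Real.exp_sum, ← Finset.prod_mul_distrib]
  refine Finset.prod_le_prod (fun _ _ => H_nonneg _ _ _) fun r hr => ?_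
  exact H_shift (hm r (Finset.mem_range.1 hr)) (hx r (Finset.mem_range.1 hr)) θ ht

theorem sum_mx_le {m x : ℕ → ℝ} : ∀ {k : ℕ}, (∀ r ≤ k, 0 < x r) → (∀ r ≤ k, 0 < m r) →
    (∀ r < k, 16 * (1 + m r) * x r ≤ x (r + 1)) →
    ∑ r ∈ Finset.range k, m r * x r ≤ x k / 15 := by
  intro k
  induction k with
  | zero =>
    intro hx _ _
    simp only [Finset.range_zero, Finset.sum_empty]
    have := hx 0 le_rfl
    positivity
  | succ k ih =>
    intro hx hm hs
    rw [Finset.sum_range_succ]
    have h1 := ih (fun r hr => hx r (by omega)) (fun r hr => hm r (by omega))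
      (fun r hr => hs r (by omega))
    have h2 := hs k (by omega)
    have h3 := hx k (by omega)
    have h4 := hm k (by omega)
    have h5 : 0 < m k * x k := by positivity
    nlinarith

theorem exp_err : Real.exp (2 * Real.pi / 15) * (63 / 100) ≤ 1 := by
  have hpi := Real.pi_lt_d2
  have hpi0 := Real.pi_pos
  have h3 : 0 < 1 - 2 * Real.pi / 60 := by linarith
  have h2 : 1 - 2 * Real.pi / 60 ≤ Real.exp (-(2 * Real.pi / 60)) := by
    have := Real.add_one_le_exp (-(2 * Real.pi / 60)); linarith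
  have h5 : Real.exp (-(2 * Real.pi / 15)) = Real.exp (-(2 * Real.pi / 60)) ^ 4 := by
    rw [← Real.exp_nat_mul]; congr 1; push_cast; ring
  have h6 : (63 / 100 : ℝ) ≤ Real.exp (-(2 * Real.pi / 15)) := by
    rw [h5]
    calc (63 / 100 : ℝ) ≤ (895 / 1000) ^ 4 := by norm_num
      _ ≤ Real.exp (-(2 * Real.pi / 60)) ^ 4 :=
        pow_le_pow_left₀ (by norm_num) (by linarith) 4
  calc Real.exp (2 * Real.pi / 15) * (63 / 100)
      ≤ Real.exp (2 * Real.pi / 15) * Real.exp (-(2 * Real.pi / 15)) :=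
        mul_le_mul_of_nonneg_left h6 (Real.exp_pos _).le
    _ = 1 := by rw [← Real.exp_add]; simp

/-- One step: integrating out the factor of highest frequency. -/
theorem step {m x : ℕ → ℝ} {k : ℕ} (hx : ∀ r ≤ k, 0 < x r) (hm : ∀ r ≤ k, 0 < m r)
    (hs : ∀ r < k, 16 * (1 + m r) * x r ≤ x (r + 1)) {a b : ℝ} (hab : a ≤ b) :
    ∫ θ in a..b, B m x (k + 1) θ ≤
      (1 / √(m k)) * ∫ θ in (a - 2 * Real.pi / x k)..b, B m x k θ := by
  have hpi0 := Real.pi_pos
  have hxk := hx k le_rfl
  have hmk := hm k le_rfl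
  set p : ℝ := 2 * Real.pi / x k with hp
  have hp0 : 0 < p := by positivity
  set E : ℝ := Real.exp (2 * Real.pi / 15) with hE
  have hE0 : 0 < E := Real.exp_pos _
  have hB : ∀ θ, B m x (k + 1) θ = B m x k θ * H (m k) (x k) θ := by
    intro θ; unfold B; rw [Finset.prod_range_succ]
  -- for each shift
  have h1 : ∀ t ∈ Set.Icc (0:ℝ) p, ∫ θ in a..b, B m x (k + 1) θ ≤
      E * ∫ θ in (a - p)..b, B m x k θ * H (m k) (x k) (θ + t) := by
    intro t ht
    have h2 : ∫ θ in a..b, B m x (k + 1) θ =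
        ∫ θ in (a - t)..(b - t), B m x (k + 1) (θ + t) := by
      rw [intervalIntegral.integral_comp_add_right (fun θ => B m x (k + 1) θ) t]
      simp
    rw [h2, ← intervalIntegral.integral_const_mul]
    have h3 : ∫ θ in (a - t)..(b - t), B m x (k + 1) (θ + t) ≤
        ∫ θ in (a - t)..(b - t), E * (B m x k θ * H (m k) (x k) (θ + t)) := by
      refine intervalIntegral.integral_mono_on (by linarith) ?_ ?_ fun θ _ => ?_
      · exact Continuous.intervalIntegrable (by fun_prop) _ _
      · exact Continuous.intervalIntegrable (by fun_prop) _ _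
      · rw [hB, ← mul_assoc]
        refine mul_le_mul_of_nonneg_right ?_ (H_nonneg _ _ _)
        refine (B_shift (fun r hr => (hm r hr.le).le) (fun r hr => (hx r hr.le).le) θ
          ht.1).trans ?_
        refine mul_le_mul_of_nonneg_right (Real.exp_le_exp.2 ?_) (B_nonneg _ _ _ _)
        have h4 := sum_mx_le hx hm hs
        calc (∑ r ∈ Finset.range k, m r * x r) * t ≤ x k / 15 * p := by
              refine mul_le_mul h4 ht.2 ht.1 (by positivity)
          _ = 2 * Real.pi / 15 := by rw [hp]; field_simp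
    refine h3.trans ?_
    refine intervalIntegral.integral_mono_interval (by linarith [ht.2]) (by linarith)
      (by linarith [ht.1]) (ae_of_all _ fun θ => ?_) ?_
    · simp only [Pi.zero_apply]
      have := B_nonneg m x k θ
      have := H_nonneg (m k) (x k) (θ + t)
      positivity
    · exact Continuous.intervalIntegrable (by fun_prop) _ _
  -- integrate over the shift
  have h5 : p * ∫ θ in a..b, B m x (k + 1) θ ≤
      E * ∫ t in (0:ℝ)..p, ∫ θ in (a - p)..b, B m x k θ * H (m k) (x k) (θ + t) := by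
    have h6 : ∫ _t in (0:ℝ)..p, (∫ θ in a..b, B m x (k + 1) θ) =
        p * ∫ θ in a..b, B m x (k + 1) θ := by
      rw [intervalIntegral.integral_const]; simp
    rw [← h6, ← intervalIntegral.integral_const_mul]
    refine intervalIntegral.integral_mono_on hp0.le ?_ ?_ fun t ht => h1 t ht
    · simp
    · refine Continuous.intervalIntegrable ?_ _ _
      refine continuous_const.mul ?_
      refine intervalIntegral.continuous_parametric_intervalIntegral_of_continuous' ?_ _ _
      fun_prop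
  have h7 : ∫ t in (0:ℝ)..p, ∫ θ in (a - p)..b, B m x k θ * H (m k) (x k) (θ + t) =
      ∫ θ in (a - p)..b, ∫ t in (0:ℝ)..p, B m x k θ * H (m k) (x k) (θ + t) := by
    refine MeasureTheory.intervalIntegral_intervalIntegral_swap ?_
    refine IntegrableOn.mono_set (t := (Set.uIcc 0 p) ×ˢ (Set.uIcc (a - p) b)) ?_
      (Set.prod_mono uIoc_subset_uIcc uIoc_subset_uIcc)
    refine ContinuousOn.integrableOn_compact (isCompact_uIcc.prod isCompact_uIcc) ?_
    refine Continuous.continuousOn ?_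
    fun_prop
  have h8 : ∫ θ in (a - p)..b, ∫ t in (0:ℝ)..p, B m x k θ * H (m k) (x k) (θ + t) ≤
      ∫ θ in (a - p)..b, B m x k θ * (p * (63 / 100 / √(m k))) := by
    refine intervalIntegral.integral_mono_on (by linarith) ?_ ?_ fun θ _ => ?_
    · refine Continuous.intervalIntegrable ?_ _ _
      refine intervalIntegral.continuous_parametric_intervalIntegral_of_continuous' ?_ _ _
      fun_prop
    · exact Continuous.intervalIntegrable (by fun_prop) _ _
    · rw [intervalIntegral.integral_const_mul]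
      exact mul_le_mul_of_nonneg_left (avg_le hmk hxk θ) (B_nonneg _ _ _ _)
  rw [intervalIntegral.integral_mul_const] at h8
  rw [h7] at h5
  have hs : 0 < √(m k) := Real.sqrt_pos.2 hmk
  have hI : 0 ≤ ∫ θ in (a - p)..b, B m x k θ :=
    intervalIntegral.integral_nonneg (by linarith) fun θ _ => B_nonneg _ _ _ _
  have h9 : p * ∫ θ in a..b, B m x (k + 1) θ ≤
      p * ((1 / √(m k)) * ∫ θ in (a - p)..b, B m x k θ) := by
    calc p * ∫ θ in a..b, B m x (k + 1) θ
        ≤ E * ((∫ θ in (a - p)..b, B m x k θ) * (p * (63 / 100 / √(m k)))) :=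
          h5.trans (mul_le_mul_of_nonneg_left h8 hE0.le)
      _ = (E * (63 / 100)) * (p * ((1 / √(m k)) * ∫ θ in (a - p)..b, B m x k θ)) := by ring
      _ ≤ 1 * (p * ((1 / √(m k)) * ∫ θ in (a - p)..b, B m x k θ)) :=
          mul_le_mul_of_nonneg_right exp_err (by positivity)
      _ = _ := one_mul _
  exact le_of_mul_le_mul_left h9 hp0

/-- **The deterministic core.** -/
theorem core {m x : ℕ → ℝ} : ∀ {k : ℕ}, (∀ r < k, 0 < x r) → (∀ r < k, 0 < m r) →
    (∀ r, r + 1 < k → 16 * (1 + m r) * x r ≤ x (r + 1)) → ∀ {a b : ℝ}, a ≤ b →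
    ∫ θ in a..b, B m x k θ ≤
      (b - a + ∑ r ∈ Finset.range k, 2 * Real.pi / x r) * ∏ r ∈ Finset.range k, (1 / √(m r)) := by
  intro k
  induction k with
  | zero =>
    intro _ _ _ a b _
    simp [B]
  | succ k ih =>
    intro hx hm hs a b hab
    have hpi0 := Real.pi_pos
    have hxk := hx k (by omega)
    have h1 := step (k := k) (fun r hr => hx r (by omega)) (fun r hr => hm r (by omega))
      (fun r hr => hs r (by omega)) hab
    have h0 : 0 < 2 * Real.pi / x k := by positivity
    have h2 := ih (fun r hr => hx r (by omega)) (fun r hr => hm r (by omega))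
      (fun r hr => hs r (by omega)) (a := a - 2 * Real.pi / x k) (b := b) (by linarith)
    refine h1.trans ?_
    rw [Finset.sum_range_succ, Finset.prod_range_succ]
    calc (1 / √(m k)) * ∫ θ in (a - 2 * Real.pi / x k)..b, B m x k θ
        ≤ (1 / √(m k)) * ((b - (a - 2 * Real.pi / x k) + ∑ r ∈ Finset.range k, 2 * Real.pi / x r) *
            ∏ r ∈ Finset.range k, (1 / √(m r))) :=
          mul_le_mul_of_nonneg_left h2 (by positivity)
      _ = _ := by ring

/-! ### Part 2: mixtures of frequencies (Jensen + Fubini) -/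

theorem integrable_H {Y : Type*} [MeasurableSpace Y] (ρ : Measure Y) [IsFiniteMeasure ρ] {m : ℝ}
    (hm : 0 ≤ m) {f g : Y → ℝ} (hf : Measurable f) (hg : Measurable g) :
    Integrable (fun x => H m (f x) (g x)) ρ := by
  refine Integrable.of_bound (C := 1) ?_ (ae_of_all _ fun x => ?_)
  · unfold H; exact Measurable.aestronglyMeasurable (by fun_prop)
  · rw [Real.norm_of_nonneg (H_nonneg _ _ _)]; exact H_le_one hm _ _

theorem integrable_one_sub_cos (ρ : Measure ℝ) [IsFiniteMeasure ρ] (θ : ℝ) :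
    Integrable (fun x => 1 - Real.cos (θ * x)) ρ := by
  refine Integrable.of_bound (C := 2) ?_ (ae_of_all _ fun x => ?_)
  · exact Measurable.aestronglyMeasurable (by fun_prop)
  · have h1 := Real.cos_le_one (θ * x)
    have h2 := Real.neg_one_le_cos (θ * x)
    rw [Real.norm_of_nonneg (by linarith)]; linarith

theorem jensen (ρ : Measure ℝ) [IsProbabilityMeasure ρ] {m : ℝ} (hm : 0 ≤ m) (θ : ℝ) :
    Real.exp (-(m * ∫ x, (1 - Real.cos (θ * x)) ∂ρ)) ≤ ∫ x, H m x θ ∂ρ := by
  have h1 := convexOn_exp.map_integral_le (μ := ρ) (f := fun x => -(m * (1 - Real.cos (θ * x))))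
    Real.continuous_exp.continuousOn isClosed_univ (ae_of_all _ fun _ => mem_univ _)
    ((integrable_one_sub_cos ρ θ).const_mul m).neg
    (integrable_H ρ hm measurable_id measurable_const)
  rw [integral_neg, integral_const_mul] at h1
  exact h1

/-- The core for mixtures: `ρ r` is a probability law carried by `lo r ≤ |x| ≤ hi r`. -/
theorem core_meas {k : ℕ} (ρ : Fin k → Measure ℝ) [∀ r, IsProbabilityMeasure (ρ r)]
    {lo hi m : ℕ → ℝ} (hlo : ∀ r < k, 0 < lo r) (hm : ∀ r < k, 0 < m r)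
    (hsupp : ∀ r : Fin k, ∀ᵐ x ∂(ρ r), lo r ≤ |x| ∧ |x| ≤ hi r)
    (hs : ∀ r, r + 1 < k → 16 * (1 + m r) * hi r ≤ lo (r + 1)) {a b : ℝ} (hab : a ≤ b) :
    ∫ θ in a..b, Real.exp (-∑ r : Fin k, m r * ∫ x, (1 - Real.cos (θ * x)) ∂(ρ r)) ≤
      (b - a + ∑ r ∈ Finset.range k, 2 * Real.pi / lo r) *
        ∏ r ∈ Finset.range k, (1 / √(m r)) := by
  have hpi0 := Real.pi_pos
  set C : ℝ := (b - a + ∑ r ∈ Finset.range k, 2 * Real.pi / lo r) *
        ∏ r ∈ Finset.range k, (1 / √(m r)) with hC
  set π : Measure (Fin k → ℝ) := Measure.pi ρ with hπ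
  have hcos : ∀ (r : Fin k) (θ : ℝ), 0 ≤ ∫ x, (1 - Real.cos (θ * x)) ∂(ρ r) := fun r θ =>
    integral_nonneg fun x => by
      simp only [Pi.zero_apply]; have := Real.cos_le_one (θ * x); linarith
  have hcont : Continuous fun θ : ℝ =>
      Real.exp (-∑ r : Fin k, m r * ∫ x, (1 - Real.cos (θ * x)) ∂(ρ r)) := by
    refine Real.continuous_exp.comp (Continuous.neg (continuous_finsetSum _ fun r _ => ?_))
    refine continuous_const.mul ?_
    refine continuous_of_dominated (bound := fun _ => 2) ?_ ?_ (integrable_const _) ?_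
    · intro θ; exact Measurable.aestronglyMeasurable (by fun_prop)
    · intro θ
      refine ae_of_all _ fun x => ?_
      have h1 := Real.cos_le_one (θ * x)
      have h2 := Real.neg_one_le_cos (θ * x)
      rw [Real.norm_of_nonneg (by linarith)]; linarith
    · exact ae_of_all _ fun x => by fun_prop
  have hjoint : Continuous fun q : (Fin k → ℝ) × ℝ => ∏ r : Fin k, H (m r) (q.1 r) q.2 := by
    fun_prop
  have hnn : ∀ (X : Fin k → ℝ) (θ : ℝ), 0 ≤ ∏ r : Fin k, H (m r) (X r) θ := fun X θ =>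
    Finset.prod_nonneg fun _ _ => H_nonneg _ _ _
  have hle1 : ∀ (X : Fin k → ℝ) (θ : ℝ), ∏ r : Fin k, H (m r) (X r) θ ≤ 1 := fun X θ =>
    Finset.prod_le_one (fun _ _ => H_nonneg _ _ _) fun r _ => H_le_one (hm r r.2).le _ _
  -- pointwise
  have h1 : ∀ θ : ℝ, Real.exp (-∑ r : Fin k, m r * ∫ x, (1 - Real.cos (θ * x)) ∂(ρ r)) ≤
      ∫ X, ∏ r : Fin k, H (m r) (X r) θ ∂π := by
    intro θ
    rw [hπ, integral_fintype_prod_eq_prod (𝕜 := ℝ) (f := fun (r : Fin k) x => H (m r) x θ),
      ← Finset.sum_neg_distrib, Real.exp_sum]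
    exact Finset.prod_le_prod (fun _ _ => (Real.exp_pos _).le) fun r _ =>
      jensen (ρ r) (hm r r.2).le θ
  have hcont2 : Continuous fun θ : ℝ => ∫ X, ∏ r : Fin k, H (m r) (X r) θ ∂π := by
    refine continuous_of_dominated (bound := fun _ => 1) ?_ ?_ (integrable_const _) ?_
    · intro θ
      exact Continuous.aestronglyMeasurable (by fun_prop)
    · intro θ
      exact ae_of_all _ fun X => by rw [Real.norm_of_nonneg (hnn X θ)]; exact hle1 X θ
    · exact ae_of_all _ fun X => by fun_prop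
  have h2 : ∫ θ in a..b, Real.exp (-∑ r : Fin k, m r * ∫ x, (1 - Real.cos (θ * x)) ∂(ρ r)) ≤
      ∫ θ in a..b, ∫ X, ∏ r : Fin k, H (m r) (X r) θ ∂π :=
    intervalIntegral.integral_mono_on hab (hcont.intervalIntegrable _ _)
      (hcont2.intervalIntegrable _ _) fun θ _ => h1 θ
  have h3 : ∫ θ in a..b, ∫ X, ∏ r : Fin k, H (m r) (X r) θ ∂π =
      ∫ X, (∫ θ in a..b, ∏ r : Fin k, H (m r) (X r) θ) ∂π := by
    refine intervalIntegral_integral_swap ?_
    have : IsFiniteMeasure ((volume : Measure ℝ).restrict (uIoc a b)) := by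
      rw [uIoc]; infer_instance
    refine Integrable.of_bound (C := 1) ?_ (ae_of_all _ fun q => ?_)
    · refine Continuous.aestronglyMeasurable ?_
      change Continuous fun q : ℝ × (Fin k → ℝ) => ∏ r : Fin k, H (m r) (q.2 r) q.1
      fun_prop
    · simp only [Function.uncurry]
      rw [Real.norm_of_nonneg (hnn _ _)]; exact hle1 _ _
  -- for almost every choice of frequencies
  have h4 : ∀ᵐ X ∂π, ∀ r : Fin k, lo r ≤ |X r| ∧ |X r| ≤ hi r := by
    rw [ae_all_iff]
    intro r
    exact (Measure.tendsto_eval_ae_ae (μ := ρ) (i := r)).eventually (hsupp r)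
  have h5 : ∀ᵐ X ∂π, (∫ θ in a..b, ∏ r : Fin k, H (m r) (X r) θ) ≤ C := by
    filter_upwards [h4] with X hX
    set x : ℕ → ℝ := fun r => if h : r < k then |X ⟨r, h⟩| else 1 with hx
    have e0 : ∀ r (h : r < k), x r = |X ⟨r, h⟩| := fun r h => by simp [hx, h]
    have e1 : ∀ θ, ∏ r : Fin k, H (m r) (X r) θ = B m x k θ := by
      intro θ
      unfold B
      rw [Finset.prod_range]
      refine Finset.prod_congr rfl fun r _ => ?_
      rw [e0 r r.2]
      have e3 : Real.cos (θ * X r) = Real.cos (θ * |X ⟨r, r.2⟩|) := by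
        rcases abs_choice (X r) with h | h
        · simp only [Fin.eta, h]
        · simp only [Fin.eta, h, mul_neg, Real.cos_neg]
      unfold H
      rw [e3]
    have e2 : ∀ r < k, lo r ≤ x r ∧ x r ≤ hi r := by
      intro r h; rw [e0 r h]; exact hX ⟨r, h⟩
    simp only [e1]
    refine (core (k := k) (fun r h => (hlo r h).trans_le (e2 r h).1) hm (fun r h => ?_) hab).trans ?_
    · refine le_trans ?_ ((hs r h).trans (e2 (r+1) h).1)
      have h6 := hm r (by omega)
      exact mul_le_mul_of_nonneg_left (e2 r (by omega)).2 (by linarith)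
    · rw [hC]
      refine mul_le_mul_of_nonneg_right ?_ (Finset.prod_nonneg fun _ _ => by positivity)
      have h7 : ∑ r ∈ Finset.range k, 2 * Real.pi / x r ≤
          ∑ r ∈ Finset.range k, 2 * Real.pi / lo r := by
        refine Finset.sum_le_sum fun r hr => ?_
        have h8 := Finset.mem_range.1 hr
        exact div_le_div_of_nonneg_left (by positivity) (hlo r h8) (e2 r h8).1
      linarith
  calc ∫ θ in a..b, Real.exp (-∑ r : Fin k, m r * ∫ x, (1 - Real.cos (θ * x)) ∂(ρ r))
      ≤ ∫ X, (∫ θ in a..b, ∏ r : Fin k, H (m r) (X r) θ) ∂π := h2.trans (le_of_eq h3)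
    _ ≤ ∫ _X, C ∂π := by
        refine integral_mono_of_nonneg (ae_of_all _ fun X => ?_) (integrable_const _) h5
        exact intervalIntegral.integral_nonneg hab fun θ _ => hnn X θ
    _ = C := by simp

/-! ### Part 3: finite measures with separated ranges -/

/-- The range `lo ≤ |x| ≤ hi`. -/
def Rg (lo hi : ℝ) : Set ℝ := {x | lo ≤ |x| ∧ |x| ≤ hi}

theorem measurableSet_Rg (lo hi : ℝ) : MeasurableSet (Rg lo hi) := by
  change MeasurableSet ({x : ℝ | lo ≤ |x|} ∩ {x : ℝ | |x| ≤ hi})
  exact (measurableSet_le measurable_const (by fun_prop)).inter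
    (measurableSet_le (by fun_prop) measurable_const)

theorem core_nu (ν : Measure ℝ) [IsFiniteMeasure ν] {k : ℕ} {lo hi m : ℕ → ℝ}
    (hlo : ∀ r < k, 0 < lo r) (hm : ∀ r < k, 0 < m r)
    (hs : ∀ r, r + 1 < k → 16 * (1 + m r) * hi r ≤ lo (r + 1))
    (hmass : ∀ r < k, m r ≤ ν.real (Rg (lo r) (hi r))) {a b : ℝ} (hab : a ≤ b) :
    ∫ θ in a..b, Real.exp (-∫ x, (1 - Real.cos (θ * x)) ∂ν) ≤
      (b - a + ∑ r ∈ Finset.range k, 2 * Real.pi / lo r) *
        ∏ r ∈ Finset.range k, (1 / √(m r)) := by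
  classical
  have hpos : ∀ r < k, 0 < ν.real (Rg (lo r) (hi r)) := fun r h => (hm r h).trans_le (hmass r h)
  have hne : ∀ r < k, ν (Rg (lo r) (hi r)) ≠ 0 := by
    intro r h h0
    have := hpos r h
    rw [measureReal_def, h0] at this
    simp at this
  have hlohi : ∀ r < k, lo r ≤ hi r := by
    intro r h
    obtain ⟨x, hx⟩ := nonempty_of_measure_ne_zero (hne r h)
    exact hx.1.trans hx.2
  have hstep : ∀ r, r + 1 < k → hi r < lo (r + 1) := by
    intro r h
    have h1 := hs r h
    have h2 := hm r (by omega)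
    have h3 := hlo r (by omega)
    have h4 := hlohi r (by omega)
    have h5 : 0 < hi r := h3.trans_le h4
    have h6 : 0 < m r * hi r := by positivity
    nlinarith
  have hsep : ∀ d r, r + (d + 1) < k → hi r < lo (r + (d + 1)) := by
    intro d
    induction d with
    | zero => intro r h; exact hstep r h
    | succ d ih =>
      intro r h
      have h1 := ih r (by omega)
      have h2 := hlohi (r + (d + 1)) (by omega)
      have h3 := hstep (r + (d + 1)) (by omega)
      exact (h1.trans_le h2).trans h3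
  have hdisj : Pairwise (Function.onFun Disjoint fun r : Fin k => Rg (lo r) (hi r)) := by
    intro r r' hrr
    have key : ∀ r r' : Fin k, r < r' → Disjoint (Rg (lo r) (hi r)) (Rg (lo r') (hi r')) := by
      intro r r' h
      have h1 : (r : ℕ) + (((r' : ℕ) - r - 1) + 1) = r' := by
        have : (r : ℕ) < r' := h
        omega
      have h2 := hsep ((r' : ℕ) - r - 1) r (by rw [h1]; exact r'.2)
      rw [h1] at h2
      rw [Set.disjoint_left]
      intro x hx hx'
      exact absurd (hx'.1.trans hx.2) (not_le.2 h2)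
    rcases lt_or_gt_of_ne hrr with h | h
    · exact key r r' h
    · exact (key r' r h).symm
  set ρ : Fin k → Measure ℝ := fun r => ProbabilityTheory.cond ν (Rg (lo r) (hi r)) with hρ
  have hprob : ∀ r, IsProbabilityMeasure (ρ r) := fun r =>
    ProbabilityTheory.cond_isProbabilityMeasure (hne r r.2)
  have hsupp : ∀ r : Fin k, ∀ᵐ x ∂(ρ r), lo r ≤ |x| ∧ |x| ≤ hi r := by
    intro r
    have h1 : ∀ᵐ x ∂(ν.restrict (Rg (lo r) (hi r))), x ∈ Rg (lo r) (hi r) :=
      ae_restrict_mem (measurableSet_Rg _ _)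
    exact Measure.ae_smul_measure h1 _
  have hint : ∀ θ : ℝ, Integrable (fun x => 1 - Real.cos (θ * x)) ν :=
    fun θ => integrable_one_sub_cos ν θ
  have hnn : ∀ θ x : ℝ, 0 ≤ 1 - Real.cos (θ * x) := fun θ x => by
    have := Real.cos_le_one (θ * x); linarith
  have hsum : ∀ θ : ℝ, ∑ r : Fin k, m r * ∫ x, (1 - Real.cos (θ * x)) ∂(ρ r) ≤
      ∫ x, (1 - Real.cos (θ * x)) ∂ν := by
    intro θ
    calc ∑ r : Fin k, m r * ∫ x, (1 - Real.cos (θ * x)) ∂(ρ r)
        ≤ ∑ r : Fin k, ∫ x in Rg (lo r) (hi r), (1 - Real.cos (θ * x)) ∂ν := by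
          refine Finset.sum_le_sum fun r _ => ?_
          have h1 : ∫ x, (1 - Real.cos (θ * x)) ∂(ρ r) =
              (ν.real (Rg (lo r) (hi r)))⁻¹ *
                ∫ x in Rg (lo r) (hi r), (1 - Real.cos (θ * x)) ∂ν := by
            rw [hρ]
            simp only [ProbabilityTheory.cond]
            rw [integral_smul_measure, smul_eq_mul, ENNReal.toReal_inv, measureReal_def]
          rw [h1]
          have h2 : 0 ≤ ∫ x in Rg (lo r) (hi r), (1 - Real.cos (θ * x)) ∂ν :=
            integral_nonneg fun x => hnn θ x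
          have h3 := hpos r r.2
          calc m r * ((ν.real (Rg (lo r) (hi r)))⁻¹ *
                ∫ x in Rg (lo r) (hi r), (1 - Real.cos (θ * x)) ∂ν)
              ≤ ν.real (Rg (lo r) (hi r)) * ((ν.real (Rg (lo r) (hi r)))⁻¹ *
                ∫ x in Rg (lo r) (hi r), (1 - Real.cos (θ * x)) ∂ν) :=
                mul_le_mul_of_nonneg_right (hmass r r.2) (by positivity)
            _ = _ := by rw [← mul_assoc, mul_inv_cancel₀ h3.ne', one_mul]
      _ = ∫ x in ⋃ r : Fin k, Rg (lo r) (hi r), (1 - Real.cos (θ * x)) ∂ν := by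
          rw [integral_iUnion_fintype (fun r => measurableSet_Rg _ _) hdisj
            fun r => (hint θ).integrableOn]
      _ ≤ _ := setIntegral_le_integral (hint θ) (ae_of_all _ fun x => hnn θ x)
  have hcont : ∀ (ρ' : Measure ℝ) [IsFiniteMeasure ρ'],
      Continuous fun θ : ℝ => ∫ x, (1 - Real.cos (θ * x)) ∂ρ' := by
    intro ρ' _
    refine continuous_of_dominated (bound := fun _ => 2) ?_ ?_ (integrable_const _) ?_
    · intro θ; exact Measurable.aestronglyMeasurable (by fun_prop)
    · intro θ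
      refine ae_of_all _ fun x => ?_
      have h1 := Real.cos_le_one (θ * x)
      have h2 := Real.neg_one_le_cos (θ * x)
      rw [Real.norm_of_nonneg (by linarith)]; linarith
    · exact ae_of_all _ fun x => by fun_prop
  refine le_trans ?_ (core_meas ρ hlo hm hsupp hs hab)
  refine intervalIntegral.integral_mono_on hab ?_ ?_ fun θ _ => ?_
  · exact (Real.continuous_exp.comp (hcont ν).neg).intervalIntegrable _ _
  · refine (Real.continuous_exp.comp (Continuous.neg
      (continuous_finsetSum _ fun r _ => ?_))).intervalIntegrable _ _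
    exact continuous_const.mul (hcont (ρ r))
  · exact Real.exp_le_exp.2 (neg_le_neg (hsum θ))

theorem continuous_psi (ρ' : Measure ℝ) [IsFiniteMeasure ρ'] :
    Continuous fun θ : ℝ => ∫ x, (1 - Real.cos (θ * x)) ∂ρ' := by
  refine continuous_of_dominated (bound := fun _ => 2) ?_ ?_ (integrable_const _) ?_
  · intro θ; exact Measurable.aestronglyMeasurable (by fun_prop)
  · intro θ
    refine ae_of_all _ fun x => ?_
    have h1 := Real.cos_le_one (θ * x)
    have h2 := Real.neg_one_le_cos (θ * x)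
    rw [Real.norm_of_nonneg (by linarith)]; linarith
  · exact ae_of_all _ fun x => by fun_prop

/-! ### Part 4: concentration -/

/-- **Esseen's inequality on the line**, with Mathlib's `charFun`. -/
theorem esseen1 (μ : Measure ℝ) [IsProbabilityMeasure μ] {s : ℝ} (hs : 0 < s) (z : ℝ) :
    (49 / 64 : ℝ) * μ.real {x | |x - z| ≤ s} ≤
      ∫ θ in Set.Icc (-1 : ℝ) 1, ‖charFun μ (θ / s)‖ := by
  have hmeas : Measurable fun (x : ℝ) (_ : Unit) => x / s := by fun_prop
  set μ1 : Measure (Unit → ℝ) := μ.map fun x _ => x / s with hμ1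
  have : IsProbabilityMeasure μ1 := Measure.isProbabilityMeasure_map hmeas.aemeasurable
  have h1 := Conc412.esseen μ1 (fun _ => z / s)
  rw [hμ1, map_measureReal_apply hmeas (Conc412.measurableSet_box _ _)] at h1
  have h2 : (fun (x : ℝ) (_ : Unit) => x / s) ⁻¹' Conc412.box (fun _ => z / s) 1 =
      {x | |x - z| ≤ s} := by
    ext x
    simp only [Conc412.box, Set.mem_preimage, Set.mem_ofPred_eq, forall_const]
    rw [← sub_div, abs_div, abs_of_pos hs, div_le_one hs]
  rw [h2] at h1
  have h3 : ∀ θ : Unit → ℝ, Conc412.cf (μ.map fun x _ => x / s) θ = charFun μ (θ () / s) := by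
    intro θ
    rw [Conc412.cf_map μ hmeas, charFun_apply_real]
    refine integral_congr_ae (ae_of_all _ fun x => ?_)
    simp only [Conc412.ch, Conc412.dot, Finset.univ_unique, Finset.sum_singleton]
    congr 2
    push_cast
    have : (s : ℂ) ≠ 0 := by exact_mod_cast hs.ne'
    field_simp
  simp only [h3] at h1
  have h4 : ∫ θ in (Conc412.cube2 : Set (Unit → ℝ)), ‖charFun μ (θ () / s)‖ =
      ∫ θ in Set.Icc (-1 : ℝ) 1, ‖charFun μ (θ / s)‖ := by
    rw [Conc412.restrict_cube2]
    exact (measurePreserving_funUnique ((volume : Measure ℝ).restrict (Set.Icc (-1 : ℝ) 1))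
      Unit).integral_comp' (fun θ => ‖charFun μ (θ / s)‖)
  rw [h4] at h1
  refine le_trans (le_of_eq ?_) h1
  simp
  norm_num

theorem sum_inv_le {s : ℝ} (hs : 0 < s) {lo : ℕ → ℝ} : ∀ {k : ℕ},
    s ≤ lo 0 → (∀ r, r + 1 < k → 16 * lo r ≤ lo (r + 1)) →
    ∑ r ∈ Finset.range k, 2 * Real.pi / lo r ≤ 2 * Real.pi / s * (16 / 15) := by
  intro k h0 hstep
  have hpi0 := Real.pi_pos
  have h1 : ∀ r, r < k → s * 16 ^ r ≤ lo r := by
    intro r
    induction r with
    | zero => intro _; simpa using h0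
    | succ r ih =>
      intro h
      have h2 := ih (by omega)
      have h3 := hstep r h
      calc s * 16 ^ (r + 1) = 16 * (s * 16 ^ r) := by ring
        _ ≤ 16 * lo r := by linarith
        _ ≤ _ := h3
  have h2 : ∀ k : ℕ, ∑ r ∈ Finset.range k, (1 / 16 : ℝ) ^ r ≤ 16 / 15 := by
    intro k
    rw [geom_sum_eq (by norm_num)]
    have : (0:ℝ) ≤ (1 / 16 : ℝ) ^ k := by positivity
    rw [div_le_iff_of_neg (by norm_num)]
    linarith
  calc ∑ r ∈ Finset.range k, 2 * Real.pi / lo r
      ≤ ∑ r ∈ Finset.range k, 2 * Real.pi / s * (1 / 16 : ℝ) ^ r := by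
        refine Finset.sum_le_sum fun r hr => ?_
        have h3 := h1 r (Finset.mem_range.1 hr)
        have h4 : 0 < s * 16 ^ r := by positivity
        calc 2 * Real.pi / lo r ≤ 2 * Real.pi / (s * 16 ^ r) :=
              div_le_div_of_nonneg_left (by positivity) h4 h3
          _ = 2 * Real.pi / s * (1 / 16 : ℝ) ^ r := by
              rw [one_div, inv_pow]; field_simp
    _ = 2 * Real.pi / s * ∑ r ∈ Finset.range k, (1 / 16 : ℝ) ^ r := by rw [Finset.mul_sum]
    _ ≤ _ := mul_le_mul_of_nonneg_left (h2 k) (by positivity)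

/-- **(MS), measure form**: if `|charFun μ θ| ≤ exp (-∫ (1 - cos (θ x)) dν)` for `|θ| ≤ 1/s` and `ν`
charges the separated ranges `lo r ≤ |x| ≤ hi r` (`r < k`) with mass at least `m r > 0`, where
`s ≤ lo 0` and `16 (1 + m r) hi r ≤ lo (r+1)`, then every interval of length `2 s` has `μ`-mass at
most `12 ∏ 1/√(m r)`. -/
theorem conc_of_cf (μ : Measure ℝ) [IsProbabilityMeasure μ] (ν : Measure ℝ) [IsFiniteMeasure ν]
    {s : ℝ} (hs : 0 < s)
    (hcf : ∀ θ : ℝ, |θ| ≤ 1 / s → ‖charFun μ θ‖ ≤ Real.exp (-∫ x, (1 - Real.cos (θ * x)) ∂ν))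
    {k : ℕ} {lo hi m : ℕ → ℝ} (hlo0 : s ≤ lo 0) (hm : ∀ r < k, 0 < m r)
    (hsep : ∀ r, r + 1 < k → 16 * (1 + m r) * hi r ≤ lo (r + 1))
    (hmass : ∀ r < k, m r ≤ ν.real (Rg (lo r) (hi r))) (z : ℝ) :
    μ.real {x | |x - z| ≤ s} ≤ 12 * ∏ r ∈ Finset.range k, (1 / √(m r)) := by
  have hpi0 := Real.pi_pos
  have hlohi : ∀ r < k, lo r ≤ hi r := by
    intro r h
    have h1 : ν (Rg (lo r) (hi r)) ≠ 0 := by
      intro h0
      have := (hm r h).trans_le (hmass r h)
      rw [measureReal_def, h0] at this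
      simp at this
    obtain ⟨x, hx⟩ := nonempty_of_measure_ne_zero h1
    exact hx.1.trans hx.2
  have hlo : ∀ r, r < k → 0 < lo r := by
    intro r
    induction r with
    | zero => intro _; linarith
    | succ r ih =>
      intro h
      have h2 := ih (by omega)
      have h3 := hlohi r (by omega)
      have h4 := hm r (by omega)
      have h5 := hsep r h
      have h6 : 0 < hi r := by linarith
      have h7 : 0 < 16 * (1 + m r) * hi r := by positivity
      linarith
  have h16 : ∀ r, r + 1 < k → 16 * lo r ≤ lo (r + 1) := by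
    intro r h
    have h3 := hlohi r (by omega)
    have h4 := hm r (by omega)
    have h5 := hsep r h
    have h6 := hlo r (by omega)
    have h7 : 0 < m r * hi r := mul_pos h4 (by linarith)
    nlinarith
  set W : ℝ := ∏ r ∈ Finset.range k, (1 / √(m r)) with hW
  have hW0 : 0 ≤ W := Finset.prod_nonneg fun _ _ => by positivity
  have h1 := esseen1 μ hs z
  have hc : Continuous (charFun μ) := continuous_charFun
  have h2 : ∫ θ in Set.Icc (-1 : ℝ) 1, ‖charFun μ (θ / s)‖ ≤
      ∫ θ in Set.Icc (-1 : ℝ) 1, Real.exp (-∫ x, (1 - Real.cos (θ / s * x)) ∂ν) := by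
    refine setIntegral_mono_on ?_ ?_ measurableSet_Icc fun θ hθ => ?_
    · exact (Continuous.continuousOn (by fun_prop)).integrableOn_Icc
    · refine (Continuous.continuousOn ?_).integrableOn_Icc
      exact Real.continuous_exp.comp
        ((continuous_psi ν).comp (continuous_id.div_const s)).neg
    · refine hcf _ ?_
      rw [abs_div, abs_of_pos hs]
      exact div_le_div_of_nonneg_right (abs_le.2 hθ) hs.le
  have h3 : ∫ θ in Set.Icc (-1 : ℝ) 1, Real.exp (-∫ x, (1 - Real.cos (θ / s * x)) ∂ν) =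
      s * ∫ θ in (-1 / s)..(1 / s), Real.exp (-∫ x, (1 - Real.cos (θ * x)) ∂ν) := by
    rw [integral_Icc_eq_integral_Ioc, ← intervalIntegral.integral_of_le (by norm_num),
      intervalIntegral.integral_comp_div
        (fun θ => Real.exp (-∫ x, (1 - Real.cos (θ * x)) ∂ν)) hs.ne', smul_eq_mul]
  have h4 := core_nu ν hlo hm hsep hmass (a := -1 / s) (b := 1 / s) (by
    have : 0 < 1 / s := by positivity
    have h5 : -1 / s = -(1 / s) := by ring
    linarith)
  have h5 := sum_inv_le hs hlo0 h16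
  have h6 : (49 / 64 : ℝ) * μ.real {x | |x - z| ≤ s} ≤ (2 + 2 * Real.pi * (16 / 15)) * W := by
    calc (49 / 64 : ℝ) * μ.real {x | |x - z| ≤ s}
        ≤ s * ∫ θ in (-1 / s)..(1 / s), Real.exp (-∫ x, (1 - Real.cos (θ * x)) ∂ν) :=
          h1.trans (h2.trans (le_of_eq h3))
      _ ≤ s * ((1 / s - -1 / s + ∑ r ∈ Finset.range k, 2 * Real.pi / lo r) * W) :=
          mul_le_mul_of_nonneg_left h4 hs.le
      _ ≤ s * ((1 / s - -1 / s + 2 * Real.pi / s * (16 / 15)) * W) := by
          refine mul_le_mul_of_nonneg_left (mul_le_mul_of_nonneg_right ?_ hW0) hs.le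
          linarith
      _ = (2 + 2 * Real.pi * (16 / 15)) * W := by field_simp; ring
  have h7 : (2 + 2 * Real.pi * (16 / 15)) ≤ 49 / 64 * 12 := by
    have := Real.pi_lt_d2; linarith
  have h8 : (49 / 64 : ℝ) * μ.real {x | |x - z| ≤ s} ≤ (49 / 64) * (12 * W) := by
    calc (49 / 64 : ℝ) * μ.real {x | |x - z| ≤ s} ≤ (2 + 2 * Real.pi * (16 / 15)) * W := h6
      _ ≤ (49 / 64 * 12) * W := mul_le_mul_of_nonneg_right h7 hW0
      _ = _ := by ring
  linarith

/-! ### Part 5: sums of independent variables -/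

/-- The law of `X - X'` for independent `X, X'` of law `μ`. -/
noncomputable def symm (μ : Measure ℝ) : Measure ℝ := (μ.prod μ).map fun p => p.1 - p.2

instance (μ : Measure ℝ) [IsProbabilityMeasure μ] : IsProbabilityMeasure (symm μ) :=
  Measure.isProbabilityMeasure_map (by fun_prop)

theorem normSq_charFun (μ : Measure ℝ) [IsProbabilityMeasure μ] (θ : ℝ) :
    ‖charFun μ θ‖ ^ 2 = ∫ x, Real.cos (θ * x) ∂(symm μ) := by
  have hm : Measurable fun p : ℝ × ℝ => p.1 - p.2 := by fun_prop
  rw [symm, integral_map hm.aemeasurable (Measurable.aestronglyMeasurable (by fun_prop))]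
  have h1 : ((‖charFun μ θ‖ ^ 2 : ℝ) : ℂ) =
      ∫ p : ℝ × ℝ, Complex.exp ((θ * (p.1 - p.2) : ℝ) * Complex.I) ∂(μ.prod μ) := by
    have h2 : ((‖charFun μ θ‖ ^ 2 : ℝ) : ℂ) = charFun μ θ * (starRingEnd ℂ) (charFun μ θ) := by
      rw [Complex.mul_conj, Complex.normSq_eq_norm_sq]
    rw [h2, charFun_apply_real, ← integral_conj, ← integral_prod_mul]
    refine integral_congr_ae (ae_of_all _ fun p => ?_)
    simp only
    rw [← Complex.exp_conj, ← Complex.exp_add]
    congr 1
    simp
    ring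
  have h3 : Integrable (fun p : ℝ × ℝ => Complex.exp ((θ * (p.1 - p.2) : ℝ) * Complex.I))
      (μ.prod μ) := by
    refine Integrable.of_bound (C := 1) (Continuous.aestronglyMeasurable (by fun_prop))
      (ae_of_all _ fun x => ?_)
    rw [Complex.norm_exp_ofReal_mul_I]
  have h4 := integral_re h3
  simp only [RCLike.re_eq_complex_re] at h4
  rw [← h1, Complex.ofReal_re] at h4
  rw [← h4]
  refine integral_congr_ae (ae_of_all _ fun p => ?_)
  exact (Complex.exp_ofReal_mul_I_re _)

theorem norm_charFun_le (μ : Measure ℝ) [IsProbabilityMeasure μ] (θ : ℝ) :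
    ‖charFun μ θ‖ ≤ Real.exp (-((1/2) * ∫ x, (1 - Real.cos (θ * x)) ∂(symm μ))) := by
  have h1 : ∫ x, (1 - Real.cos (θ * x)) ∂(symm μ) = 1 - ‖charFun μ θ‖ ^ 2 := by
    rw [normSq_charFun, integral_sub (integrable_const _)]
    · simp
    · refine Integrable.of_bound (C := 1) (Measurable.aestronglyMeasurable (by fun_prop))
        (ae_of_all _ fun x => ?_)
      exact Real.abs_cos_le_one _
  have h2 := Real.add_one_le_exp (-∫ x, (1 - Real.cos (θ * x)) ∂(symm μ))
  have h3 : Real.exp (-∫ x, (1 - Real.cos (θ * x)) ∂(symm μ)) =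
      Real.exp (-((1/2) * ∫ x, (1 - Real.cos (θ * x)) ∂(symm μ))) ^ 2 := by
    rw [← Real.exp_nat_mul]; congr 1; push_cast; ring
  refine le_of_sq_le_sq (a := ‖charFun μ θ‖) ?_ (Real.exp_pos _).le
  rw [← h3]
  linarith

theorem charFun_sum {Ω κ : Type*} [Fintype κ] [MeasurableSpace Ω] (P : Measure Ω)
    [IsProbabilityMeasure P] {X : κ → Ω → ℝ} (hX : ∀ j, Measurable (X j))
    (hind : ProbabilityTheory.iIndepFun X P) (θ : ℝ) :
    charFun (P.map fun ω => ∑ j, X j ω) θ = ∏ j, charFun (P.map (X j)) θ := by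
  have h1 : ∀ (Y : Ω → ℝ), Measurable Y →
      charFun (P.map Y) θ = ∫ ω, Complex.exp (θ * Y ω * Complex.I) ∂P := by
    intro Y hY
    rw [charFun_apply_real, integral_map hY.aemeasurable]
    exact Continuous.aestronglyMeasurable (by fun_prop)
  rw [h1 _ (by fun_prop)]
  simp only [h1 _ (hX _)]
  have h2 : ∀ ω, Complex.exp (θ * ((∑ j, X j ω : ℝ) : ℂ) * Complex.I) =
      ∏ j, Complex.exp (θ * X j ω * Complex.I) := by
    intro ω
    rw [← Complex.exp_sum]
    congr 1
    push_cast
    rw [Finset.mul_sum, Finset.sum_mul]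
  simp only [h2]
  exact hind.integral_fun_prod_comp (fun j => (hX j).aemeasurable)
    (f := fun _ (x : ℝ) => Complex.exp (θ * (x : ℂ) * Complex.I))
    fun j => Continuous.aestronglyMeasurable (by fun_prop)

/-- The total symmetrised jump measure of a family. -/
noncomputable def nuBar {Ω κ : Type*} [Fintype κ] [MeasurableSpace Ω] (P : Measure Ω)
    (X : κ → Ω → ℝ) : Measure ℝ := ∑ j, symm (P.map (X j))

theorem norm_charFun_sum_le {Ω κ : Type*} [Fintype κ] [MeasurableSpace Ω] (P : Measure Ω)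
    [IsProbabilityMeasure P] {X : κ → Ω → ℝ} (hX : ∀ j, Measurable (X j))
    (hind : ProbabilityTheory.iIndepFun X P) (θ : ℝ) :
    ‖charFun (P.map fun ω => ∑ j, X j ω) θ‖ ≤
      Real.exp (-∑ j, (1/2) * ∫ x, (1 - Real.cos (θ * x)) ∂(symm (P.map (X j)))) := by
  rw [charFun_sum P hX hind, norm_prod, ← Finset.sum_neg_distrib, Real.exp_sum]
  refine Finset.prod_le_prod (fun _ _ => norm_nonneg _) fun j _ => ?_
  have := Measure.isProbabilityMeasure_map (μ := P) (hX j).aemeasurable
  exact norm_charFun_le _ θ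

/-- **(MS), sums of independent variables.** -/
theorem ms {Ω κ : Type*} [Fintype κ] [MeasurableSpace Ω] (P : Measure Ω)
    [IsProbabilityMeasure P] {X : κ → Ω → ℝ} (hX : ∀ j, Measurable (X j))
    (hind : ProbabilityTheory.iIndepFun X P) {s : ℝ} (hs : 0 < s)
    {k : ℕ} {lo hi m : ℕ → ℝ} (hlo0 : s ≤ lo 0) (hm : ∀ r < k, 0 < m r)
    (hsep : ∀ r, r + 1 < k → 16 * (1 + m r) * hi r ≤ lo (r + 1))
    (hmass : ∀ r < k, 2 * m r ≤ ∑ j, (symm (P.map (X j))).real (Rg (lo r) (hi r))) (z : ℝ) :
    P.real {ω | |∑ j, X j ω - z| ≤ s} ≤ 12 * ∏ r ∈ Finset.range k, (1 / √(m r)) := by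
  have hSm : Measurable fun ω => ∑ j, X j ω := by fun_prop
  have := Measure.isProbabilityMeasure_map (μ := P) hSm.aemeasurable
  have hp : ∀ j, IsProbabilityMeasure (P.map (X j)) := fun j =>
    Measure.isProbabilityMeasure_map (μ := P) (hX j).aemeasurable
  set ν : Measure ℝ := ∑ j, (1/2 : ℝ≥0) • symm (P.map (X j)) with hν
  have hfin : IsFiniteMeasure ν := by rw [hν]; infer_instance
  have h1 := conc_of_cf (P.map fun ω => ∑ j, X j ω) ν hs ?_ hlo0 hm hsep ?_ z
  · rw [map_measureReal_apply hSm ?_] at h1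
    · exact h1
    · exact measurableSet_le (by fun_prop) measurable_const
  · intro θ _
    refine (norm_charFun_sum_le P hX hind θ).trans (Real.exp_le_exp.2 (neg_le_neg ?_))
    rw [hν, integral_finsetSum_measure fun j _ => ?_]
    · refine Finset.sum_le_sum fun j _ => ?_
      rw [integral_smul_nnreal_measure]
      exact le_of_eq (by simp [NNReal.smul_def])
    · exact integrable_one_sub_cos _ θ
  · intro r hr
    have h2 := hmass r hr
    rw [hν, measureReal_def, Measure.finsetSum_apply, ENNReal.toReal_sum]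
    · have h3 : ∀ j, ((((1/2 : ℝ≥0) • symm (P.map (X j))) (Rg (lo r) (hi r))).toReal) =
          (1/2) * (symm (P.map (X j))).real (Rg (lo r) (hi r)) := by
        intro j
        rw [Measure.smul_apply, ENNReal.smul_def, smul_eq_mul, ENNReal.toReal_mul]
        simp [measureReal_def]
      simp only [h3]
      rw [← Finset.mul_sum]
      linarith
    · intro j _; exact measure_ne_top _ _

end Crest.Agent.R154.MS797
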