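import Crest.Agent.R154.Ren_263
import Crest.Agent.R154.Prod_561

/-! R154, frame of 247 (F1): the marked walk. Marks = step × Bool (`true` = forced step, which does
not read the environment). -/

set_option autoImplicit false

open MeasureTheory ProbabilityTheory
open scoped ENNReal

namespace Crest.Agent.R154.Mk561

open Crest.ProbabilityR.RandomEnvironment Crest.Agent.R154.Q561 Crest.Agent.R154.Ren263

variable {d : ℕ}

/-- marks: a step and a flag (`true` = forced) -/
abbrev Mark (d : ℕ) : Type := Step d × Bool

/-- sequences of marks -/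
abbrev MPath (d : ℕ) : Type := ℕ → Mark d

/-- displacement of a mark -/
def stp (m : Mark d) : Site d := stepVec m.1

/-- position at time `n` of the walk from `x` with marks `M` -/
def pos (x : Site d) (M : MPath d) (n : ℕ) : Site d := x + ∑ i ∈ Finset.range n, stp (M i)

/-- the path of sites -/
def mpath (x : Site d) (M : MPath d) : Path d := fun n => pos x M n

theorem pos_zero (x : Site d) (M : MPath d) : pos x M 0 = x := by simp [pos]

theorem pos_succ (x : Site d) (M : MPath d) (n : ℕ) :
    pos x M (n + 1) = pos x M n + stp (M n) := by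
  simp [pos, Finset.sum_range_succ, add_assoc]

theorem pos_congr (x : Site d) {M M' : MPath d} {n : ℕ} (h : ∀ i < n, M i = M' i) {k : ℕ}
    (hk : k ≤ n) : pos x M k = pos x M' k := by
  unfold pos
  congr 1
  refine Finset.sum_congr rfl fun i hi => ?_
  rw [h i (lt_of_lt_of_le (Finset.mem_range.1 hi) hk)]

theorem pos_shift (x : Site d) (M : MPath d) (n k : ℕ) :
    pos (pos x M n) (shift n M) k = pos x M (n + k) := by
  simp only [pos, shift, Finset.sum_range_add, add_assoc]

theorem pos_add (x z : Site d) (M : MPath d) (n : ℕ) : pos (x + z) M n = pos x M n + z := by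
  simp only [pos]; abel

/-! ### the weights -/

/-- admissible forcing constant -/
noncomputable def kf (d : ℕ) (κ : ℝ) : ℝ := open Classical in
  if 0 ≤ κ ∧ 2 * (d : ℝ) * κ ≤ 1 then κ else 0

theorem kf_nonneg (κ : ℝ) : 0 ≤ kf d κ := by
  unfold kf; split_ifs with h
  · exact h.1
  · exact le_rfl

theorem kf_le (κ : ℝ) : 2 * (d : ℝ) * kf d κ ≤ 1 := by
  unfold kf; split_ifs with h
  · exact h.2
  · simp

theorem kf_eq {κ : ℝ} (h0 : 0 ≤ κ) (h1 : 2 * (d : ℝ) * κ ≤ 1) : kf d κ = κ := by
  unfold kf; rw [if_pos ⟨h0, h1⟩]

theorem kf_zero : kf d 0 = 0 := kf_eq le_rfl (by simp)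

theorem d_pos (r : Row d) : 0 < d := by
  rcases Nat.eq_zero_or_pos d with h | h
  · subst h
    have := r.2.2
    simp at this
  · exact h

/-- the uniform row -/
noncomputable def uniRow (hd : 0 < d) : Row d :=
  ⟨fun _ => 1 / (2 * (d : ℝ)), fun _ => by positivity, by
    have hd' : (d : ℝ) ≠ 0 := by positivity
    simp only [Finset.sum_const, Finset.card_univ, Fintype.card_prod, Fintype.card_fin,
      Fintype.card_bool, nsmul_eq_mul, Nat.cast_mul, Nat.cast_ofNat]
    field_simp⟩

/-- regularised row: all entries at least `kf d κ` -/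
noncomputable def reg (κ : ℝ) (r : Row d) : Row d := open Classical in
  if ∀ e, kf d κ ≤ r.1 e then r else uniRow (d_pos r)

theorem le_reg (κ : ℝ) (r : Row d) (e : Step d) : kf d κ ≤ (reg κ r).1 e := by
  unfold reg
  split_ifs with h
  · exact h e
  · change kf d κ ≤ 1 / (2 * (d : ℝ))
    have hd : (0 : ℝ) < d := by exact_mod_cast d_pos r
    rw [le_div_iff₀ (by positivity), mul_comm]
    exact kf_le κ

theorem reg_eq {κ : ℝ} {r : Row d} (h : ∀ e, kf d κ ≤ r.1 e) : reg κ r = r := by
  unfold reg; rw [if_pos h]

theorem reg_zero (r : Row d) : reg 0 r = r := reg_eq fun e => by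
  rw [kf_zero]; exact r.2.1 e

/-- weight of the mark `m` at a site with row `r` -/
noncomputable def mw (κ : ℝ) (r : Row d) (m : Mark d) : ℝ≥0∞ :=
  ENNReal.ofReal (if m.2 then kf d κ else (reg κ r).1 m.1 - kf d κ)

/-- a forced mark does not read the row -/
theorem mw_forced (κ : ℝ) (r : Row d) (e : Step d) : mw κ r (e, true) = ENNReal.ofReal (kf d κ) := by
  simp [mw]

theorem mw_add (κ : ℝ) (r : Row d) (e : Step d) :
    mw κ r (e, true) + mw κ r (e, false) = ENNReal.ofReal ((reg κ r).1 e) := by
  simp only [mw, if_true, Bool.false_eq_true, if_false]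
  rw [← ENNReal.ofReal_add (kf_nonneg κ) (sub_nonneg.2 (le_reg κ r e))]
  congr 1; ring

theorem sum_mw (κ : ℝ) (r : Row d) : ∑ m : Mark d, mw κ r m = 1 := by
  rw [Fintype.sum_prod_type]
  have : ∀ e : Step d, ∑ b : Bool, mw κ r (e, b) = ENNReal.ofReal ((reg κ r).1 e) := by
    intro e
    rw [Fintype.sum_bool, mw_add]
  simp only [this]
  rw [← ENNReal.ofReal_sum_of_nonneg (fun e _ => (reg κ r).2.1 e), (reg κ r).2.2,
    ENNReal.ofReal_one]

theorem measurableSet_regGood (κ : ℝ) : MeasurableSet {r : Row d | ∀ e, kf d κ ≤ r.1 e} := by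
  rw [Set.ofPred_forall]
  refine MeasurableSet.iInter fun e => ?_
  exact measurableSet_le measurable_const ((measurable_pi_apply e).comp measurable_subtype_coe)

theorem reg_val (κ : ℝ) (r : Row d) (e : Step d) :
    (reg κ r).1 e = if r ∈ {r : Row d | ∀ e, kf d κ ≤ r.1 e} then r.1 e else 1 / (2 * (d : ℝ)) := by
  by_cases h : ∀ e, kf d κ ≤ r.1 e
  · rw [reg_eq h, if_pos (show r ∈ {r : Row d | ∀ e, kf d κ ≤ r.1 e} from h)]
  · rw [if_neg (show ¬ (r ∈ {r : Row d | ∀ e, kf d κ ≤ r.1 e}) from h)]
    unfold reg
    rw [if_neg h]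
    rfl

theorem measurable_mw (κ : ℝ) (m : Mark d) : Measurable fun r : Row d => mw κ r m := by
  classical
  unfold mw
  refine ENNReal.measurable_ofReal.comp ?_
  by_cases hm : m.2
  · simp only [hm, if_true]; exact measurable_const
  · simp only [hm]
    simp only [Bool.false_eq_true, if_false]
    refine Measurable.sub_const ?_ _
    simp only [reg_val]
    exact Measurable.ite (measurableSet_regGood κ)
      ((measurable_pi_apply m.1).comp measurable_subtype_coe) measurable_const

/-- law of one mark -/
noncomputable def markLaw (κ : ℝ) (r : Row d) : Measure (Mark d) :=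
  ∑ m : Mark d, mw κ r m • Measure.dirac m

theorem markLaw_singleton (κ : ℝ) (r : Row d) (m : Mark d) : markLaw κ r {m} = mw κ r m := by
  unfold markLaw
  simp only [Measure.coe_finsetSum, Measure.coe_smul, Finset.sum_apply, Pi.smul_apply,
    smul_eq_mul]
  rw [Finset.sum_eq_single m]
  · rw [Measure.dirac_apply' _ (measurableSet_singleton m)]; simp
  · intro m' _ hne
    rw [Measure.dirac_apply' _ (measurableSet_singleton m)]; simp [hne]
  · intro h; exact absurd (Finset.mem_univ m) h

instance markLaw_isProb (κ : ℝ) (r : Row d) : IsProbabilityMeasure (markLaw κ r) := by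
  refine ⟨?_⟩
  unfold markLaw
  simp only [Measure.coe_finsetSum, Measure.coe_smul, Finset.sum_apply, Pi.smul_apply,
    smul_eq_mul, measure_univ, mul_one]
  exact sum_mw κ r

/-- kernel at time `n`: reads the marks `0..n`, returns the law of the mark `n+1` -/
noncomputable def mkKer (κ : ℝ) (ω : Environment d) (x : Site d) (n : ℕ) :
    Kernel ((_ : Finset.Iic n) → Mark d) (Mark d) :=
  ⟨fun h => markLaw κ (ω (x + ∑ i : Finset.Iic n, stp (h i))), measurable_of_countable _⟩

instance (κ : ℝ) (ω : Environment d) (x : Site d) (n : ℕ) : IsMarkovKernel (mkKer κ ω x n) :=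
  ⟨fun _ => markLaw_isProb κ _⟩

/-- **the marked quenched law** -/
noncomputable def mkLaw (κ : ℝ) (ω : Environment d) (x : Site d) : Measure (MPath d) :=
  Kernel.trajMeasure (X := fun _ : ℕ => Mark d) (markLaw κ (ω x)) (mkKer κ ω x)

instance mkLaw_isProb (κ : ℝ) (ω : Environment d) (x : Site d) :
    IsProbabilityMeasure (mkLaw κ ω x) := by
  unfold mkLaw; infer_instance

/-- cylinder: the first `n` marks are those of `W` -/
def Cy (W : MPath d) (n : ℕ) : Set (MPath d) := {M | ∀ i < n, M i = W i}

/-- weight of the first `n` marks of `W` -/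
noncomputable def wgt (κ : ℝ) (ω : Environment d) (x : Site d) (W : MPath d) (n : ℕ) : ℝ≥0∞ :=
  ∏ i ∈ Finset.range n, mw κ (ω (pos x W i)) (W i)

theorem det_Cy (W : MPath d) (n : ℕ) : Det n (Cy W n) := by
  intro s s' h
  constructor
  · intro hs i hi; rw [← h i hi]; exact hs i hi
  · intro hs i hi; rw [h i hi]; exact hs i hi

theorem measurableSet_Cy (W : MPath d) (n : ℕ) : MeasurableSet (Cy W n) :=
  (det_Cy W n).measurableSet

theorem mk_map_zero (κ : ℝ) (ω : Environment d) (x : Site d) :
    (mkLaw κ ω x).map (fun M => M 0) = markLaw κ (ω x) := by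
  have h1 : (mkLaw κ ω x).map (Preorder.frestrictLe 0)
      = (markLaw κ (ω x)).map (MeasurableEquiv.piUnique _).symm := by
    unfold mkLaw
    rw [Kernel.trajMeasure, Measure.map_comp _ _ (by fun_prop),
      Kernel.traj_map_frestrictLe, Kernel.partialTraj_self, Measure.id_comp]
  have h2 : (fun M : ℕ → Mark d => M 0)
      = (fun x : (i : Finset.Iic 0) → Mark d => x ⟨0, by simp⟩) ∘ (Preorder.frestrictLe 0) := by
    funext π; rfl
  rw [h2, ← Measure.map_map (measurable_pi_apply _) (by fun_prop), h1,
    Measure.map_map (measurable_pi_apply _) (by fun_prop)]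
  have h3 : (fun x : (i : Finset.Iic 0) → Mark d => x ⟨0, by simp⟩) ∘
      (MeasurableEquiv.piUnique (fun _ : Finset.Iic 0 => Mark d)).symm = id := by
    funext y
    rfl
  exact (congrArg (fun f => Measure.map f (markLaw κ (ω x))) h3).trans Measure.map_id

/-- **cylinder formula** of the marked walk -/
theorem mk_cyl (κ : ℝ) (ω : Environment d) (x : Site d) (W : MPath d) (n : ℕ) :
    mkLaw κ ω x (Cy W n) = wgt κ ω x W n := by
  induction n with
  | zero =>
    have : (Cy W 0 : Set (MPath d)) = Set.univ := by
      ext M; simp [Cy]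
    rw [this, measure_univ]; simp [wgt]
  | succ n ih =>
    cases n with
    | zero =>
      have h : Cy W 1 = (fun M : MPath d => M 0) ⁻¹' {W 0} := by
        ext M; simp [Cy]
      rw [h, ← Measure.map_apply (measurable_pi_apply 0) (measurableSet_singleton _), mk_map_zero,
        markLaw_singleton]
      simp [wgt, pos_zero]
    | succ a =>
      set P := mkLaw κ ω x with hP
      have hmap : P.map (Preorder.frestrictLe a) ⊗ₘ mkKer κ ω x a
          = P.map (fun x => (Preorder.frestrictLe a x, x (a + 1))) :=
        Kernel.map_frestrictLe_trajMeasure_compProd_eq_map_trajMeasure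
      have hfl : Measurable (Preorder.frestrictLe (π := fun _ : ℕ => Mark d) a) := by fun_prop
      have : IsProbabilityMeasure (P.map (Preorder.frestrictLe (π := fun _ : ℕ => Mark d) a)) :=
        Measure.isProbabilityMeasure_map hfl.aemeasurable
      have hset : Cy W (a + 1 + 1)
          = (fun x : MPath d => (Preorder.frestrictLe a x, x (a + 1))) ⁻¹'
          ({Preorder.frestrictLe a W} ×ˢ {W (a + 1)}) := by
        ext X
        simp only [Cy, Set.mem_ofPred_eq, Set.mem_preimage, Set.mem_prod, Set.mem_singleton_iff]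
        constructor
        · intro h
          refine ⟨?_, h _ (Nat.lt_succ_self _)⟩
          funext i
          exact h i.1 (Nat.lt_succ_of_lt (Nat.lt_succ_of_le (Finset.mem_Iic.1 i.2)))
        · rintro ⟨h1, h2⟩ k hk
          rcases Nat.lt_or_ge k (a + 1) with h | h
          · exact congrFun h1 ⟨k, Finset.mem_Iic.2 (Nat.lt_succ_iff.1 h)⟩
          · have : k = a + 1 := le_antisymm (Nat.lt_succ_iff.1 hk) h
            subst this; exact h2
      have hset' : Cy W (a + 1) = (Preorder.frestrictLe (π := fun _ : ℕ => Mark d) a) ⁻¹'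
          {Preorder.frestrictLe a W} := by
        ext X
        simp only [Cy, Set.mem_ofPred_eq, Set.mem_preimage, Set.mem_singleton_iff]
        constructor
        · intro h
          funext i
          exact h i.1 (Nat.lt_succ_of_le (Finset.mem_Iic.1 i.2))
        · intro h1 k hk
          exact congrFun h1 ⟨k, Finset.mem_Iic.2 (Nat.lt_succ_iff.1 hk)⟩
      rw [hset, ← Measure.map_apply (by fun_prop)
        ((measurableSet_singleton _).prod (measurableSet_singleton _)), ← hmap,
        Measure.compProd_apply_prod (measurableSet_singleton _) (measurableSet_singleton _),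
        lintegral_singleton, Measure.map_apply hfl (measurableSet_singleton _), ← hset', ih]
      have hsum : x + ∑ i : Finset.Iic a, stp ((Preorder.frestrictLe a W) i) = pos x W (a + 1) := by
        unfold pos
        congr 1
        have e1 : ∑ i : Finset.Iic a, stp ((Preorder.frestrictLe a W) i)
            = ∑ i ∈ Finset.Iic a, stp (W i) := by
          rw [← Finset.sum_coe_sort (Finset.Iic a) (fun i => stp (W i))]
          rfl
        rw [e1]
        congr 1
        ext i; simp [Nat.lt_succ_iff]
      have hk : mkKer κ ω x a (Preorder.frestrictLe a W) {W (a + 1)}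
          = mw κ (ω (pos x W (a + 1))) (W (a + 1)) := by
        rw [← hsum]
        exact markLaw_singleton κ _ _
      rw [hk]
      conv_rhs => rw [wgt, Finset.prod_range_succ]
      rw [mul_comm]
      rfl

end Crest.Agent.R154.Mk561
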