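import Crest.Agent.R154.Smooth_178
import Crest.Agent.R154.NumK_658
import Crest.Agent.R154.AsmA_789

/-! Row 154 (helper752), ROAD 801: expectation operator on first passage lists. -/

set_option autoImplicit false

namespace Crest.Agent.R154.Mid752

open Crest.Agent.R154.B5A Crest.Agent.R154.FP178
open scoped ENNReal

section single
variable {B G : Type*} [AddCommGroup G] (Λ : B → ℝ≥0∞) (ht : B → ℕ) (dsp : B → G)

open Classical in
/-- weight of a first passage list -/
noncomputable def wt (a : ℕ) (L : List B) : ℝ≥0∞ := if fp ht a L then LW Λ L else 0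

/-- expectation over first passage lists of depth `a` -/
noncomputable def EF (a : ℕ) (f : List B → ℝ≥0∞) : ℝ≥0∞ := ∑' L, wt Λ ht a L * f L

open Classical in
lemma EF_eq (a : ℕ) (f : List B → ℝ≥0∞) :
    EF Λ ht a f = ∑' L, if fp ht a L then LW Λ L * f L else 0 := by
  unfold EF wt
  refine tsum_congr fun L => ?_
  by_cases h : fp ht a L
  · rw [if_pos h, if_pos h]
  · rw [if_neg h, if_neg h, zero_mul]

lemma EF_mono {a : ℕ} {f g : List B → ℝ≥0∞} (h : ∀ L, fp ht a L → f L ≤ g L) :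
    EF Λ ht a f ≤ EF Λ ht a g := by
  classical
  unfold EF wt
  refine ENNReal.tsum_le_tsum fun L => ?_
  by_cases hL : fp ht a L
  · rw [if_pos hL]; exact mul_le_mul_right (h L hL) _
  · rw [if_neg hL, zero_mul, zero_mul]

lemma EF_add (a : ℕ) (f g : List B → ℝ≥0∞) :
    EF Λ ht a (fun L => f L + g L) = EF Λ ht a f + EF Λ ht a g := by
  unfold EF
  rw [← ENNReal.tsum_add]
  exact tsum_congr fun L => mul_add _ _ _

lemma EF_const_le (h1 : ∀ b, 1 ≤ ht b) (hΛ : ∑' b, Λ b ≤ 1) (a : ℕ) (c : ℝ≥0∞) :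
    EF Λ ht a (fun _ => c) ≤ c := by
  classical
  unfold EF
  rw [ENNReal.tsum_mul_right]
  calc (∑' L, wt Λ ht a L) * c ≤ 1 * c := mul_le_mul_left (sum_FP Λ ht h1 hΛ a) _
    _ = c := one_mul c

lemma EF_le (h1 : ∀ b, 1 ≤ ht b) (hΛ : ∑' b, Λ b ≤ 1) (a : ℕ) {c : ℝ≥0∞} {f : List B → ℝ≥0∞}
    (hf : ∀ L, f L ≤ c) : EF Λ ht a f ≤ c :=
  (EF_mono Λ ht fun L _ => hf L).trans (EF_const_le Λ ht h1 hΛ a c)

lemma EF_chain (h1 : ∀ b, 1 ≤ ht b) {T n : ℕ} (hT : T ≤ n) (f : List B → ℝ≥0∞) :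
    EF Λ ht n f = EF Λ ht T (fun A => EF Λ ht (n - HT ht A) (fun R => f (A ++ R))) := by
  classical
  rw [EF_eq, EF_eq, fp_split Λ ht h1 T n hT f]
  refine tsum_congr fun A => ?_
  by_cases h : fp ht T A
  · rw [if_pos h, if_pos h, EF_eq]
  · rw [if_neg h, if_neg h]

/-- overshoot tail -/
noncomputable def ov (i : ℕ) : ℝ≥0∞ := ∑' k, tail Λ ht (i + k)

open Classical in
lemma EF_over (h1 : ∀ b, 1 ≤ ht b) (hU1 : ∀ n, U Λ ht n ≤ 1) (i a : ℕ) :
    EF Λ ht a (fun A => if a + i < HT ht A then 1 else 0) ≤ ov Λ ht i := by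
  rw [EF_eq]
  refine le_trans (le_of_eq ?_) (overshoot Λ ht h1 hU1 i a)
  refine tsum_congr fun L => ?_
  by_cases h : fp ht a L <;> by_cases h' : a + i < HT ht L <;> simp [h, h']

open Classical in
/-- two consecutive first passage pieces; the overshoots are paid. -/
lemma two (h1 : ∀ b, 1 ≤ ht b) (hΛ : ∑' b, Λ b ≤ 1) (hU1 : ∀ n, U Λ ht n ≤ 1)
    {n T t i0 : ℕ} (hn : T + i0 + t ≤ n) (ψ : List B → ℝ≥0∞) (hψ : ∀ L, ψ L ≤ 1)
    (F : List B → List B → ℝ≥0∞)
    (hF : ∀ A P R, fp ht T A → fp ht t P → HT ht A ≤ T + i0 → HT ht P ≤ t + i0 →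
      ψ (A ++ (P ++ R)) ≤ F A P) :
    EF Λ ht n ψ ≤ EF Λ ht T (fun A => if HT ht A ≤ T + i0 then
      EF Λ ht t (fun P => if HT ht P ≤ t + i0 then F A P else 0) else 0)
        + 2 * ov Λ ht i0 := by
  rw [EF_chain Λ ht h1 (T := T) (by omega) ψ]
  have key : ∀ A, fp ht T A → EF Λ ht (n - HT ht A) (fun R => ψ (A ++ R)) ≤
      (if HT ht A ≤ T + i0 then
        EF Λ ht t (fun P => if HT ht P ≤ t + i0 then F A P else 0) else 0)
        + (ov Λ ht i0 + if T + i0 < HT ht A then 1 else 0) := by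
    intro A hA
    by_cases hh : HT ht A ≤ T + i0
    · rw [if_pos hh, if_neg (by omega), add_zero]
      rw [EF_chain Λ ht h1 (T := t) (by omega) (fun R => ψ (A ++ R))]
      calc EF Λ ht t (fun P => EF Λ ht (n - HT ht A - HT ht P) (fun R => ψ (A ++ (P ++ R))))
          ≤ EF Λ ht t (fun P => (if HT ht P ≤ t + i0 then F A P else 0)
              + (if t + i0 < HT ht P then 1 else 0)) := by
            refine EF_mono Λ ht fun P hP => ?_
            by_cases hp : HT ht P ≤ t + i0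
            · rw [if_pos hp, if_neg (by omega), add_zero]
              exact EF_le Λ ht h1 hΛ _ fun R => hF A P R hA hP hh hp
            · rw [if_neg hp, if_pos (by omega), zero_add]
              exact EF_le Λ ht h1 hΛ _ fun R => hψ _
        _ = _ := EF_add Λ ht t _ _
        _ ≤ _ := add_le_add le_rfl (EF_over Λ ht h1 hU1 i0 t)
    · rw [if_neg hh, if_pos (by omega), zero_add]
      exact (EF_le Λ ht h1 hΛ _ fun R => hψ _).trans le_add_self
  calc _ ≤ EF Λ ht T (fun A => (if HT ht A ≤ T + i0 then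
        EF Λ ht t (fun P => if HT ht P ≤ t + i0 then F A P else 0) else 0)
        + (ov Λ ht i0 + if T + i0 < HT ht A then 1 else 0)) := EF_mono Λ ht key
    _ = EF Λ ht T (fun A => if HT ht A ≤ T + i0 then
        EF Λ ht t (fun P => if HT ht P ≤ t + i0 then F A P else 0) else 0)
        + (EF Λ ht T (fun _ => ov Λ ht i0)
          + EF Λ ht T (fun A => if T + i0 < HT ht A then 1 else 0)) := by
        rw [EF_add Λ ht T _ (fun A => ov Λ ht i0 + if T + i0 < HT ht A then 1 else 0),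
          EF_add Λ ht T (fun _ => ov Λ ht i0)]
    _ ≤ _ := by
        refine add_le_add le_rfl ?_
        rw [two_mul]
        exact add_le_add (EF_const_le Λ ht h1 hΛ T _) (EF_over Λ ht h1 hU1 i0 T)

lemma fp_of_HT (h1 : ∀ b, 1 ≤ ht b) (L : List B) : fp ht (HT ht L) L := by
  induction L with
  | nil => rfl
  | cons b L ih =>
    rw [fp_cons, HT_cons]
    have := h1 b
    refine ⟨by omega, ?_⟩
    rw [Nat.add_sub_cancel_left]
    exact ih

open Classical in
lemma sum_le_EF (h1 : ∀ b, 1 ≤ ht b) (n : ℕ) (f : List B → ℝ≥0∞) :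
    ∑' L, (if HT ht L = n then LW Λ L * f L else 0) ≤ EF Λ ht n f := by
  rw [EF_eq]
  refine ENNReal.tsum_le_tsum fun L => ?_
  by_cases h : HT ht L = n
  · rw [if_pos h, if_pos (h ▸ fp_of_HT ht h1 L)]
  · rw [if_neg h]; exact zero_le

open Classical in
/-- regrouping by (overshoot, displacement) -/
lemma EF_regroup (T i0 : ℕ) (F : ℕ → G → ℝ≥0∞) :
    EF Λ ht T (fun A => if HT ht A ≤ T + i0 then F (HT ht A - T) (dL dsp A) else 0)
      = ∑ i ∈ Finset.range (i0 + 1), ∑' z, pL Λ ht dsp T i z * F i z := by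
  rw [EF_eq]
  exact regroup Λ ht dsp T i0 F

open Classical in
lemma sum_pL_le (T i0 : ℕ) (z : G) :
    ∑ i ∈ Finset.range (i0 + 1), pL Λ ht dsp T i z ≤ mL Λ ht dsp T z := by
  simp only [pL, mL]
  rw [← Summable.tsum_finsetSum (fun _ _ => ENNReal.summable)]
  refine ENNReal.tsum_le_tsum fun L => ?_
  by_cases h : fp ht T L
  · simp only [if_pos h]
    rw [← Finset.mul_sum]
    refine mul_le_mul_right ?_ _
    by_cases hz : dL dsp L = z
    · simp only [hz, and_true]
      rw [if_pos trivial]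
      have : ∀ i, (if HT ht L = T + i then (1 : ℝ≥0∞) else 0)
          = if i = HT ht L - T then (if T ≤ HT ht L then 1 else 0) else 0 := by
        intro i
        have hle := le_HT_of_fp ht h
        by_cases hi : HT ht L = T + i
        · rw [if_pos hi, if_pos (by omega), if_pos (by omega)]
        · rw [if_neg hi, if_neg (by omega)]
      simp only [this]
      rw [Finset.sum_ite_eq']
      split_ifs <;> simp
    · simp [hz]
  · simp only [if_neg h, Finset.sum_const_zero]; exact le_rfl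

lemma sum_pL_tsum_le (h1 : ∀ b, 1 ≤ ht b) (hΛ : ∑' b, Λ b ≤ 1) (T i0 : ℕ) :
    ∑ i ∈ Finset.range (i0 + 1), ∑' z, pL Λ ht dsp T i z ≤ 1 := by
  rw [← Summable.tsum_finsetSum (fun _ _ => ENNReal.summable)]
  exact (ENNReal.tsum_le_tsum fun z => sum_pL_le Λ ht dsp T i0 z).trans
    (sum_mL Λ ht dsp h1 hΛ T)

lemma tsum_pL_le (h1 : ∀ b, 1 ≤ ht b) (hΛ : ∑' b, Λ b ≤ 1) (T i : ℕ) :
    ∑' z, pL Λ ht dsp T i z ≤ 1 :=
  (Finset.single_le_sum (f := fun i => ∑' z, pL Λ ht dsp T i z) (fun _ _ => zero_le)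
    (Finset.mem_range.2 (Nat.lt_succ_self i))).trans (sum_pL_tsum_le Λ ht dsp h1 hΛ T i)

/-- split of a family along `g + b` -/
lemma split_fam (N : ℕ) (q : ℕ → G → ℝ≥0∞) (g b : G → ℝ≥0∞) (hfin : ∀ z, g z + b z ≠ ⊤)
    (h : ∀ z, ∑ i ∈ Finset.range N, q i z ≤ g z + b z) :
    ∃ l r : ℕ → G → ℝ≥0∞, (∀ i < N, ∀ z, q i z ≤ l i z + r i z) ∧ (∀ i < N, ∀ z, l i z ≤ q i z) ∧
      (∀ i < N, ∀ z, l i z ≤ g z) ∧ (∀ z, ∑ i ∈ Finset.range N, r i z ≤ b z) := by
  refine ⟨fun i z => q i z * (g z / (g z + b z)), fun i z => q i z * (b z / (g z + b z)),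
    ?_, ?_, ?_, ?_⟩
  · intro i hi z
    rw [← mul_add, ← ENNReal.add_div]
    by_cases h0 : g z + b z = 0
    · have : q i z ≤ 0 := by
        rw [← h0]
        exact (Finset.single_le_sum (f := fun i => q i z) (fun _ _ => zero_le)
          (Finset.mem_range.2 hi)).trans (h z)
      rw [le_zero_iff.1 this]; exact zero_le
    · rw [ENNReal.div_self h0 (hfin z), mul_one]
  · intro i hi z
    calc q i z * (g z / (g z + b z)) ≤ q i z * 1 := by
          refine mul_le_mul_right ?_ _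
          exact ENNReal.div_le_of_le_mul (by rw [one_mul]; exact le_self_add)
      _ = q i z := mul_one _
  · intro i hi z
    have hq : q i z ≤ g z + b z := (Finset.single_le_sum (f := fun i => q i z)
      (fun _ _ => zero_le) (Finset.mem_range.2 hi)).trans (h z)
    calc q i z * (g z / (g z + b z)) ≤ (g z + b z) * (g z / (g z + b z)) :=
          mul_le_mul_left hq _
      _ ≤ g z := ENNReal.mul_div_le
  · intro z
    rw [← Finset.sum_mul]
    calc (∑ i ∈ Finset.range N, q i z) * (b z / (g z + b z))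
        ≤ (g z + b z) * (b z / (g z + b z)) := mul_le_mul_left (h z) _
      _ ≤ b z := ENNReal.mul_div_le

end single

end Crest.Agent.R154.Mid752
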