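import Crest.Agent.R154.MidA_562

/-! Row 154, T0219 (kappa = 0), ROAD 801 (helper562): attempt law, quantile, smooth density. -/

set_option autoImplicit false
set_option linter.unusedSectionVars false
set_option linter.unusedVariables false

namespace Crest.Agent.R154.Mid562

open scoped ENNReal Classical
open Crest.Agent.R154.B5A

section quantile

/-- dyadic quantile -/
lemma quantile {ι : Type*} (p : ι → ℝ≥0∞) (hp : ∑' x, p x = 1) (u : ℝ≥0∞) (hu : u ≠ 0)
    (hu1 : u ≤ 1) : ∃ th : ℝ≥0∞, th ≠ 0 ∧ th ≠ ⊤ ∧ (∑' x, if th ≤ p x then 0 else p x) ≤ u ∧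
      u ≤ ∑' x, if p x ≤ 2 * th then p x else 0 := by
  have hex : ∃ j : ℕ, (∑' x, if (2⁻¹ : ℝ≥0∞) ^ j ≤ p x then 0 else p x) ≤ u := by
    have hlim := ENNReal.tendsto_tsum_compl_atTop_zero (f := p) (by rw [hp]; simp)
    have hev := hlim.eventually (ge_mem_nhds (pos_iff_ne_zero.2 hu))
    obtain ⟨s, hs⟩ := hev.exists
    have hj : ∀ x, ∃ j : ℕ, p x ≠ 0 → (2⁻¹ : ℝ≥0∞) ^ j ≤ p x := by
      intro x
      by_cases hx : p x = 0
      · exact ⟨0, fun h => absurd hx h⟩
      · obtain ⟨j, hj⟩ := ENNReal.exists_inv_two_pow_lt hx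
        exact ⟨j, fun _ => hj.le⟩
    choose jf hjf using hj
    refine ⟨s.sup jf, le_trans ?_ hs⟩
    have es := tsum_subtype {x | x ∉ s} p
    refine le_trans ?_ (le_of_eq es.symm)
    refine ENNReal.tsum_le_tsum fun x => ?_
    by_cases hx : x ∈ s
    · by_cases h0 : p x = 0
      · simp [h0]
      · rw [if_pos]
        · exact zero_le
        · refine le_trans ?_ (hjf x h0)
          exact pow_le_pow_right_of_le_one' (by simp) (Finset.le_sup hx)
    · rw [Set.indicator_of_mem (by exact hx)]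
      split_ifs
      · exact zero_le
      · exact le_rfl
  refine ⟨2⁻¹ ^ Nat.find hex, by simp, by simp, Nat.find_spec hex, ?_⟩
  rcases Nat.eq_zero_or_pos (Nat.find hex) with h0 | h0
  · rw [h0, pow_zero, mul_one]
    refine hu1.trans ?_
    rw [← hp]
    refine ENNReal.tsum_le_tsum fun x => ?_
    rw [if_pos]
    calc p x ≤ ∑' x, p x := ENNReal.le_tsum x
      _ = 1 := hp
      _ ≤ 2 := by norm_num
  · obtain ⟨j, hj⟩ : ∃ j, Nat.find hex = j + 1 := ⟨Nat.find hex - 1, by omega⟩
    have hmin := Nat.find_min hex (m := j) (by omega)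
    rw [not_le] at hmin
    rw [hj]
    refine hmin.le.trans (ENNReal.tsum_le_tsum fun x => ?_)
    have e : (2 : ℝ≥0∞) * 2⁻¹ ^ (j + 1) = 2⁻¹ ^ j := by
      rw [pow_succ, mul_comm (2⁻¹ ^ j), ← mul_assoc, ENNReal.mul_inv_cancel (by norm_num) (by norm_num),
        one_mul]
    rw [e]
    by_cases hx : (2⁻¹ : ℝ≥0∞) ^ j ≤ p x
    · rw [if_pos hx]; exact zero_le
    · rw [if_neg hx, if_pos (not_le.1 hx).le]

end quantile

variable {B G : Type*} [AddCommGroup G]
variable (Λ : B → ℝ≥0∞) (ht : B → ℕ) (g : B → G)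

lemma DG_append (L L' : List B) : DG g (L ++ L') = DG g L + DG g L' := by simp [DG]

lemma DG_nil : DG g ([] : List B) = 0 := by simp [DG]

/-- composition of first passages -/
lemma FS_comp (h1 : ∀ b, 1 ≤ ht b) (t : ℕ) : ∀ (T : ℕ), t ≤ T → ∀ (F : List B → ℝ≥0∞),
    FS Λ ht T F = FS Λ ht t (fun Q => FS Λ ht (T - HT ht Q) (fun A => F (Q ++ A))) := by
  induction t using Nat.strong_induction_on with
  | _ t ih =>
    intro T hT F
    rcases Nat.eq_zero_or_pos t with rfl | ht0
    · rw [FS_zero, HT_nil]; simp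
    · rw [FS_pos Λ ht ht0, FS_pos Λ ht (by omega : 0 < T)]
      refine tsum_congr fun b => ?_
      congr 1
      rw [ih (t - ht b) (by have := h1 b; omega) (T - ht b) (by omega)]
      congr 1
      funext Q
      rw [HT_cons, Nat.sub_add_eq]
      rfl

lemma FS_tsum {ι : Type*} (T : ℕ) (F : ι → List B → ℝ≥0∞) :
    FS Λ ht T (fun A => ∑' x, F x A) = ∑' x, FS Λ ht T (F x) := by
  simp only [FS]
  rw [ENNReal.tsum_comm]
  refine tsum_congr fun A => ?_
  by_cases hA : FR ht T A
  · simp only [if_pos hA]; rw [ENNReal.tsum_mul_left]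
  · simp only [if_neg hA, tsum_zero]

/-- law of (overshoot, displacement) at first passage -/
noncomputable def pl (T : ℕ) (x : ℕ × G) : ℝ≥0∞ :=
  FS Λ ht T (fun P => if HT ht P = T + x.1 ∧ DG g P = x.2 then 1 else 0)

lemma FS_law (h1 : ∀ b, 1 ≤ ht b) (T : ℕ) (Φ : ℕ × G → ℝ≥0∞) :
    FS Λ ht T (fun P => Φ (HT ht P - T, DG g P)) = ∑' x, pl Λ ht g T x * Φ x := by
  have e : ∀ x, pl Λ ht g T x * Φ x
      = FS Λ ht T (fun P => Φ x * (if HT ht P = T + x.1 ∧ DG g P = x.2 then 1 else 0)) := by
    intro x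
    rw [FS_mul_left, pl, mul_comm]
  simp_rw [e]
  rw [← FS_tsum]
  unfold FS
  refine tsum_congr fun P => ?_
  by_cases hP : FR ht T P
  · rw [if_pos hP, if_pos hP]
    congr 1
    have hle := FR_le ht h1 hP
    show Φ (HT ht P - T, DG g P)
      = ∑' x : ℕ × G, Φ x * (if HT ht P = T + x.1 ∧ DG g P = x.2 then 1 else 0)
    rw [tsum_eq_single (HT ht P - T, DG g P)]
    · rw [if_pos ⟨by omega, rfl⟩, mul_one]
    · rintro ⟨i, z⟩ hne
      rw [if_neg, mul_zero]
      rintro ⟨h2, h3⟩
      apply hne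
      ext
      · simp only at h2 ⊢; omega
      · exact h3.symm
  · rw [if_neg hP, if_neg hP]

lemma pl_sum (h1 : ∀ b, 1 ≤ ht b) (hΛ : ∑' b, Λ b = 1) (T : ℕ) : ∑' x, pl Λ ht g T x = 1 := by
  have := FS_law Λ ht g h1 T (fun _ => 1)
  rw [FS_one Λ ht h1 hΛ] at this
  simpa using this.symm

lemma shift (q : G) (f : ℕ × G → ℝ≥0∞) : ∑' x : ℕ × G, f (x.1, x.2 - q) = ∑' x, f x := by
  have := (Equiv.prodCongr (Equiv.refl ℕ) (Equiv.subRight q)).tsum_eq f
  refine Eq.trans (tsum_congr fun x => ?_) this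
  rfl

lemma shift_mul (q : G) (f Φ : ℕ × G → ℝ≥0∞) :
    ∑' x : ℕ × G, f (x.1, x.2 - q) * Φ x = ∑' x : ℕ × G, f x * Φ (x.1, q + x.2) := by
  have := shift q (fun x => f x * Φ (x.1, q + x.2))
  simpa using this

/-- **smooth density** of the first passage position, by induction on the attempts -/
theorem dens (h1 : ∀ b, 1 ≤ ht b) (hΛ : ∑' b, Λ b = 1) (t i0 : ℕ) (th u v : ℝ≥0∞)
    (huv : ∑' x, (if pl Λ ht g t x ≤ 2 * th then 0 else pl Λ ht g t x) ≤ v) (J : ℕ) :
    ∀ T, (t + i0) * J ≤ T → ∃ D : ℕ × G → ℝ≥0∞,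
      (∀ x, D x ≤ (∑ j ∈ Finset.range J, v ^ j) * ((i0 + 1 : ℕ) * (2 * th))) ∧
      (∑' x, D x ≤ 1) ∧
      ∀ Φ : ℕ × G → ℝ≥0∞, (∀ x, Φ x ≤ 1) →
        FS Λ ht T (fun A => Φ (HT ht A - T, DG g A)) ≤
          (v ^ J + (∑ j ∈ Finset.range J, v ^ j) * ep Λ ht i0) + ∑' x, D x * Φ x := by
  induction J with
  | zero =>
    intro T _
    refine ⟨fun _ => 0, by simp, by simp, fun Φ hΦ => ?_⟩
    simp only [pow_zero, Finset.range_zero, Finset.sum_empty, zero_mul, add_zero, tsum_zero]
    exact FS_le_one Λ ht h1 hΛ T fun A => hΦ _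
  | succ J ih =>
    intro T hT
    have hT' : ∀ i, i ≤ i0 → (t + i0) * J ≤ T - (t + i) := by
      intro i hi
      have : (t + i0) * (J + 1) = (t + i0) * J + (t + i0) := by ring
      omega
    have htT : t + i0 ≤ T := by
      have : (t + i0) * (J + 1) = (t + i0) * J + (t + i0) := by ring
      omega
    have hD : ∀ i, ∃ D : ℕ × G → ℝ≥0∞,
      (∀ x, D x ≤ (∑ j ∈ Finset.range J, v ^ j) * ((i0 + 1 : ℕ) * (2 * th))) ∧
      (∑' x, D x ≤ 1) ∧ (i ≤ i0 → 
      ∀ Φ : ℕ × G → ℝ≥0∞, (∀ x, Φ x ≤ 1) →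
        FS Λ ht (T - (t + i)) (fun A => Φ (HT ht A - (T - (t + i)), DG g A)) ≤
          (v ^ J + (∑ j ∈ Finset.range J, v ^ j) * ep Λ ht i0) + ∑' x, D x * Φ x) := by
      intro i
      by_cases hi : i ≤ i0
      · obtain ⟨D, h2, h3, h4⟩ := ih _ (hT' i hi)
        exact ⟨D, h2, h3, fun _ => h4⟩
      · exact ⟨fun _ => 0, by simp, by simp, fun h => absurd h hi⟩
    choose D' hD1 hD2 hD3 using hD
    set MJ := (∑ j ∈ Finset.range J, v ^ j) * ((i0 + 1 : ℕ) * (2 * th)) with hMJ
    set ρ := v ^ J + (∑ j ∈ Finset.range J, v ^ j) * ep Λ ht i0 with hρ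
    -- the kernel
    set k : ℕ × G → ℕ × G → ℝ≥0∞ := fun q =>
      if pl Λ ht g t q ≤ 2 * th then pl Λ ht g (T - (t + q.1)) else D' q.1 with hk
    set a : ℕ × G → ℝ≥0∞ := fun q => if q.1 ≤ i0 then pl Λ ht g t q else 0 with ha
    have hk1 : ∀ q, ∑' x, k q x ≤ 1 := by
      intro q
      simp only [hk]
      split_ifs
      · exact (pl_sum Λ ht g h1 hΛ _).le
      · exact hD2 _
    have hapl : ∀ q, a q ≤ pl Λ ht g t q := by
      intro q; simp only [ha]; split_ifs
      · exact le_rfl
      · exact zero_le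
    refine ⟨fun x => ∑' q : ℕ × G, a q * k q (x.1, x.2 - q.2), ?_, ?_, ?_⟩
    · -- sup bound
      intro x
      have hq : ∀ q : ℕ × G, a q * k q (x.1, x.2 - q.2) ≤
          (if q.1 ≤ i0 then (2 * th) * pl Λ ht g (T - (t + q.1)) (x.1, x.2 - q.2) else 0)
          + (if pl Λ ht g t q ≤ 2 * th then 0 else pl Λ ht g t q) * MJ := by
        intro q
        simp only [ha, hk]
        by_cases hi : q.1 ≤ i0
        · simp only [if_pos hi]
          by_cases hl : pl Λ ht g t q ≤ 2 * th
          · simp only [if_pos hl, zero_mul, add_zero]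
            exact mul_le_mul_left hl _
          · simp only [if_neg hl]
            exact le_add_left (mul_le_mul_right (hD1 _ _) _)
        · simp [if_neg hi]
      calc _ ≤ ∑' q : ℕ × G, ((if q.1 ≤ i0 then (2 * th) * pl Λ ht g (T - (t + q.1)) (x.1, x.2 - q.2) else 0)
          + (if pl Λ ht g t q ≤ 2 * th then 0 else pl Λ ht g t q) * MJ) := ENNReal.tsum_le_tsum hq
        _ = ∑' q : ℕ × G, (if q.1 ≤ i0 then (2 * th) * pl Λ ht g (T - (t + q.1)) (x.1, x.2 - q.2) else 0)
          + (∑' q, (if pl Λ ht g t q ≤ 2 * th then 0 else pl Λ ht g t q)) * MJ := by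
            rw [ENNReal.tsum_add, ENNReal.tsum_mul_right]
        _ ≤ (i0 + 1 : ℕ) * (2 * th) + v * MJ := by
            refine add_le_add ?_ (mul_le_mul_left huv _)
            rw [ENNReal.tsum_prod']
            have hi : ∀ i, (∑' z, if (i, z).1 ≤ i0 then (2 * th) * pl Λ ht g (T - (t + (i, z).1)) (x.1, x.2 - (i, z).2) else 0)
                ≤ if i < i0 + 1 then 2 * th else 0 := by
              intro i
              by_cases hi : i ≤ i0
              · simp only [if_pos hi, if_pos (Nat.lt_succ_of_le hi)]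
                rw [ENNReal.tsum_mul_left]
                refine mul_le_of_le_one_right' ?_
                calc ∑' z, pl Λ ht g (T - (t + i)) (x.1, x.2 - z)
                    = ∑' z, pl Λ ht g (T - (t + i)) (x.1, z) :=
                      (Equiv.subLeft x.2).tsum_eq (fun z => pl Λ ht g (T - (t + i)) (x.1, z))
                  _ ≤ ∑' j, ∑' z, pl Λ ht g (T - (t + i)) (j, z) := ENNReal.le_tsum (f := fun j => ∑' z, pl Λ ht g (T - (t + i)) (j, z)) x.1
                  _ = 1 := by rw [← ENNReal.tsum_prod']; exact pl_sum Λ ht g h1 hΛ _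
              · simp only [if_neg hi, tsum_zero]
                exact zero_le
            refine (ENNReal.tsum_le_tsum hi).trans ?_
            rw [tsum_eq_sum (s := Finset.range (i0 + 1))]
            · rw [Finset.sum_congr rfl (fun i hi => if_pos (Finset.mem_range.1 hi))]
              simp
            · intro i hi
              rw [if_neg (by simpa using hi)]
        _ = (∑ j ∈ Finset.range (J + 1), v ^ j) * ((i0 + 1 : ℕ) * (2 * th)) := by
            rw [Finset.sum_range_succ', pow_zero, hMJ]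
            simp_rw [pow_succ]
            rw [← Finset.sum_mul]
            ring
    · -- mass
      rw [ENNReal.tsum_comm]
      calc _ ≤ ∑' q, pl Λ ht g t q := by
            refine ENNReal.tsum_le_tsum fun q => ?_
            rw [ENNReal.tsum_mul_left, shift q.2 (k q)]
            exact le_trans (mul_le_of_le_one_right' (hk1 q)) (hapl q)
        _ = 1 := pl_sum Λ ht g h1 hΛ _
    · -- main
      intro Φ hΦ
      rw [FS_comp Λ ht h1 t T (by omega)]
      have e1 : FS Λ ht t (fun Q => FS Λ ht (T - HT ht Q) (fun A =>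
            Φ (HT ht (Q ++ A) - T, DG g (Q ++ A))))
          ≤ FS Λ ht t (fun Q => (fun q : ℕ × G => if q.1 ≤ i0 then
              FS Λ ht (T - (t + q.1)) (fun A => Φ (HT ht A - (T - (t + q.1)), q.2 + DG g A)) else 1)
              (HT ht Q - t, DG g Q)) := by
        refine FS_mono Λ ht fun Q hQ => ?_
        have hle := FR_le ht h1 hQ
        by_cases hi : HT ht Q - t ≤ i0
        · simp only [if_pos hi]
          rw [show t + (HT ht Q - t) = HT ht Q by omega]
          refine FS_mono Λ ht fun A hA => ?_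
          rw [HT_append, DG_append, show HT ht Q + HT ht A - T = HT ht A - (T - HT ht Q) by omega]
        · simp only [if_neg hi]
          exact FS_le_one Λ ht h1 hΛ _ fun A => hΦ _
      refine e1.trans ?_
      rw [FS_law Λ ht g h1 t (fun q : ℕ × G => if q.1 ≤ i0 then
              FS Λ ht (T - (t + q.1)) (fun A => Φ (HT ht A - (T - (t + q.1)), q.2 + DG g A)) else 1)]
      have e2 : ∀ q : ℕ × G, pl Λ ht g t q * (if q.1 ≤ i0 then
              FS Λ ht (T - (t + q.1)) (fun A => Φ (HT ht A - (T - (t + q.1)), q.2 + DG g A)) else 1)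
          ≤ (if q.1 ≤ i0 then 0 else pl Λ ht g t q)
            + ((if pl Λ ht g t q ≤ 2 * th then 0 else pl Λ ht g t q) * ρ
            + a q * ∑' x : ℕ × G, k q x * Φ (x.1, q.2 + x.2)) := by
        intro q
        by_cases hi : q.1 ≤ i0
        · simp only [if_pos hi, ha, hk, zero_add]
          by_cases hl : pl Λ ht g t q ≤ 2 * th
          · simp only [if_pos hl, zero_mul, zero_add]
            rw [FS_law Λ ht g h1 (T - (t + q.1)) (fun x => Φ (x.1, q.2 + x.2))]
          · simp only [if_neg hl]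
            rw [← mul_add]
            refine mul_le_mul_right ?_ _
            exact hD3 q.1 hi (fun x => Φ (x.1, q.2 + x.2)) (fun x => hΦ _)
        · simp only [if_neg hi, mul_one]
          exact le_self_add
      refine (ENNReal.tsum_le_tsum e2).trans ?_
      rw [ENNReal.tsum_add, ENNReal.tsum_add, ENNReal.tsum_mul_right]
      have e3 : ∑' q : ℕ × G, (if q.1 ≤ i0 then 0 else pl Λ ht g t q) ≤ ep Λ ht i0 := by
        refine le_trans (le_of_eq ?_) (Ov_le_ep Λ ht h1 hΛ i0 t)
        rw [Ov]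
        have := FS_law Λ ht g h1 t (fun q => if q.1 ≤ i0 then 0 else 1)
        calc _ = ∑' q : ℕ × G, pl Λ ht g t q * (if q.1 ≤ i0 then 0 else 1) := by
              refine tsum_congr fun q => ?_
              split_ifs <;> simp
          _ = _ := by
              rw [← this]
              unfold FS
              refine tsum_congr fun P => ?_
              by_cases hP : FR ht t P
              · rw [if_pos hP, if_pos hP]
                congr 1
                show (if HT ht P - t ≤ i0 then (0 : ℝ≥0∞) else 1)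
                  = (if t + i0 < HT ht P then 1 else 0)
                by_cases h5 : t + i0 < HT ht P
                · rw [if_pos h5, if_neg (by omega)]
                · rw [if_neg h5, if_pos (by omega)]
              · rw [if_neg hP, if_neg hP]
      have e4 : ∑' x : ℕ × G, (∑' q : ℕ × G, a q * k q (x.1, x.2 - q.2)) * Φ x
          = ∑' q : ℕ × G, a q * ∑' x : ℕ × G, k q x * Φ (x.1, q.2 + x.2) := by
        simp_rw [← ENNReal.tsum_mul_right]
        rw [ENNReal.tsum_comm]
        refine tsum_congr fun q => ?_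
        rw [← shift_mul q.2 (k q) Φ, ← ENNReal.tsum_mul_left]
        refine tsum_congr fun x => ?_
        ring
      rw [e4, ← add_assoc]
      refine add_le_add ?_ le_rfl
      calc _ ≤ ep Λ ht i0 + v * ρ := add_le_add e3 (mul_le_mul_left huv _)
        _ = _ := by
          rw [hρ, Finset.sum_range_succ', pow_zero, pow_succ]
          simp_rw [pow_succ]
          rw [← Finset.sum_mul]
          ring

end Crest.Agent.R154.Mid562
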