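import Crest.Agent.R154.MidA_752

/-! Row 154 (helper752), ROAD 801: one window, two walkers. -/

set_option autoImplicit false

namespace Crest.Agent.R154.Mid752

open Crest.Agent.R154.B5A Crest.Agent.R154.FP178
open scoped ENNReal

variable {BX BY G : Type*} [AddCommGroup G]
  (ΛX : BX → ℝ≥0∞) (hX : BX → ℕ) (zX : BX → G)
  (ΛY : BY → ℝ≥0∞) (hY : BY → ℕ) (zY : BY → G)
  (CP : ℕ → ℕ → G → List BX → List BY → Set ℕ)

section conv

lemma conv_eq (l q Φ : G → ℝ≥0∞) (w : G) :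
    ∑' z, l z * ∑' z', q z' * Φ (w + z' - z) = ∑' x, (∑' z, l z * q (x - w + z)) * Φ x := by
  have e1 : ∀ z, l z * ∑' z', q z' * Φ (w + z' - z) = ∑' x, l z * q (x - w + z) * Φ x := by
    intro z
    rw [← ENNReal.tsum_mul_left]
    have hinj := (Equiv.addRight (w - z)).tsum_eq (fun x => l z * q (x - w + z) * Φ x)
    rw [← hinj]
    refine tsum_congr fun z' => ?_
    simp only [Equiv.coe_addRight]
    rw [show z' + (w - z) - w + z = z' by abel, show z' + (w - z) = w + z' - z by abel, mul_assoc]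
  simp only [e1]
  rw [ENNReal.tsum_comm]
  refine tsum_congr fun x => ?_
  rw [ENNReal.tsum_mul_right]

lemma conv_le (l q Φ : G → ℝ≥0∞) (w : G) (M η : ℝ≥0∞) (hl : ∑' z, l z ≤ 1) (hq : ∑' z, q z ≤ 1)
    (hM : (∀ z, l z ≤ M) ∨ (∀ z, q z ≤ M))
    (hΦ : ∀ μ : G → ℝ≥0∞, ∑' x, μ x ≤ 1 → (∀ x, μ x ≤ M) → ∑' x, μ x * Φ x ≤ η) :
    ∑' z, l z * ∑' z', q z' * Φ (w + z' - z) ≤ η := by
  rw [conv_eq]
  apply hΦ
  · rw [ENNReal.tsum_comm]
    calc ∑' z, ∑' x, l z * q (x - w + z) = ∑' z, l z * ∑' y, q y := by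
          refine tsum_congr fun z => ?_
          rw [ENNReal.tsum_mul_left]
          congr 1
          have := (Equiv.addRight (z - w)).tsum_eq q
          rw [← this]
          refine tsum_congr fun x => ?_
          simp only [Equiv.coe_addRight]
          congr 1
          abel
      _ ≤ ∑' z, l z * 1 := ENNReal.tsum_le_tsum fun z => mul_le_mul_right hq _
      _ ≤ 1 := by simpa using hl
  · intro x
    rcases hM with hM | hM
    · calc ∑' z, l z * q (x - w + z) ≤ ∑' z, M * q (x - w + z) :=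
            ENNReal.tsum_le_tsum fun z => mul_le_mul_left (hM z) _
        _ = M * ∑' y, q y := by
            rw [ENNReal.tsum_mul_left]
            congr 1
            exact (Equiv.addLeft (x - w)).tsum_eq q
        _ ≤ M * 1 := mul_le_mul_right hq _
        _ = M := mul_one _
    · calc ∑' z, l z * q (x - w + z) ≤ ∑' z, l z * M :=
            ENNReal.tsum_le_tsum fun z => mul_le_mul_right (hM _) _
        _ = (∑' z, l z) * M := ENNReal.tsum_mul_right
        _ ≤ 1 * M := mul_le_mul_left hl _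
        _ = M := one_mul _

end conv

open Classical in
/-- piece event -/
noncomputable def pe (lo hi a a' : ℕ) (x : G) (P : List BX) (P' : List BY) : ℝ≥0∞ :=
  if (∃ k, k ∈ CP a a' x P P') ∧ (∀ k ∈ CP a a' x P P', lo ≤ k ∧ k ≤ hi) then 1 else 0

lemma pe_le (lo hi a a' : ℕ) (x : G) (P : List BX) (P' : List BY) :
    pe CP lo hi a a' x P P' ≤ 1 := by
  classical
  unfold pe
  split_ifs <;> simp

open Classical in
/-- pieces in one window -/
noncomputable def VV (τ i0 lo hi a a' : ℕ) (x : G) : ℝ≥0∞ :=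
  EF ΛX hX τ (fun P => if HT hX P ≤ τ + i0 then
    EF ΛY hY τ (fun P' => if HT hY P' ≤ τ + i0 then pe CP lo hi a a' x P P' else 0) else 0)

open Classical in
/-- X local -/
noncomputable def Q2 (lo hi h h' a a' : ℕ) (E : Finset G) (x : G) : ℝ≥0∞ :=
  ∑' P : List BX, ∑' P' : List BY, if HT hX P = h ∧ dL zX P ∈ E ∧ HT hY P' = h' ∧
    (∃ k, k ∈ CP a a' x P P') ∧ (∀ k ∈ CP a a' x P P', lo ≤ k ∧ k ≤ hi)
    then LW ΛX P * LW ΛY P' else 0

open Classical in
/-- Y local -/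
noncomputable def Q3 (lo hi h h' a a' : ℕ) (E : Finset G) (x : G) : ℝ≥0∞ :=
  ∑' P : List BX, ∑' P' : List BY, if HT hX P = h ∧ HT hY P' = h' ∧ dL zY P' ∈ E ∧
    (∃ k, k ∈ CP a a' x P P') ∧ (∀ k ∈ CP a a' x P P', lo ≤ k ∧ k ≤ hi)
    then LW ΛX P * LW ΛY P' else 0

lemma VV_le_one (hX1 : ∀ b, 1 ≤ hX b) (hY1 : ∀ b, 1 ≤ hY b) (hΛX : ∑' b, ΛX b ≤ 1)
    (hΛY : ∑' b, ΛY b ≤ 1) (τ i0 lo hi a a' : ℕ) (x : G) :
    VV ΛX hX ΛY hY CP τ i0 lo hi a a' x ≤ 1 := by
  classical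
  unfold VV
  refine EF_le ΛX hX hX1 hΛX _ fun P => ?_
  split_ifs
  · refine EF_le ΛY hY hY1 hΛY _ fun P' => ?_
    split_ifs
    · exact pe_le CP _ _ _ _ _ _ _
    · exact zero_le
  · exact zero_le

open Classical in
lemma VV_split (hX1 : ∀ b, 1 ≤ hX b) (hY1 : ∀ b, 1 ≤ hY b)
    (hΛX : ∑' b, ΛX b ≤ 1) (hΛY : ∑' b, ΛY b ≤ 1)
    (τ i0 lo hi a a' : ℕ) (x : G) (θX θY u : ℝ≥0∞) (EX EY : ℕ → Finset G)
    (hEX : ∀ i ≤ i0, ∀ z, θX ≤ pL ΛX hX zX τ i z → z ∈ EX i)
    (hEY : ∀ i ≤ i0, ∀ z, θY ≤ pL ΛY hY zY τ i z → z ∈ EY i)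
    (hnX : ∑ i ∈ Finset.range (i0 + 1), ∑' z, (if pL ΛX hX zX τ i z < θX then
      pL ΛX hX zX τ i z else 0) ≤ u)
    (hnY : ∑ i ∈ Finset.range (i0 + 1), ∑' z, (if pL ΛY hY zY τ i z < θY then
      pL ΛY hY zY τ i z else 0) ≤ u) :
    VV ΛX hX ΛY hY CP τ i0 lo hi a a' x ≤ u * u +
      (∑ i ∈ Finset.range (i0 + 1), ∑ j ∈ Finset.range (i0 + 1),
        Q2 ΛX hX zX ΛY hY CP lo hi (τ + i) (τ + j) a a' (EX i) x) +
      (∑ i ∈ Finset.range (i0 + 1), ∑ j ∈ Finset.range (i0 + 1),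
        Q3 ΛX hX ΛY hY zY CP lo hi (τ + i) (τ + j) a a' (EY j) x) := by
  set nX : List BX → ℝ≥0∞ := fun P => if HT hX P ≤ τ + i0 then
    (if pL ΛX hX zX τ (HT hX P - τ) (dL zX P) < θX then 1 else 0) else 0 with hnXd
  set nY : List BY → ℝ≥0∞ := fun P => if HT hY P ≤ τ + i0 then
    (if pL ΛY hY zY τ (HT hY P - τ) (dL zY P) < θY then 1 else 0) else 0 with hnYd
  set q2 : List BX → List BY → ℝ≥0∞ := fun P P' => ∑ i ∈ Finset.range (i0 + 1),
    ∑ j ∈ Finset.range (i0 + 1), if HT hX P = τ + i ∧ dL zX P ∈ EX i ∧ HT hY P' = τ + j ∧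
    (∃ k, k ∈ CP a a' x P P') ∧ (∀ k ∈ CP a a' x P P', lo ≤ k ∧ k ≤ hi)
    then LW ΛX P * LW ΛY P' else 0 with hq2
  set q3 : List BX → List BY → ℝ≥0∞ := fun P P' => ∑ i ∈ Finset.range (i0 + 1),
    ∑ j ∈ Finset.range (i0 + 1), if HT hX P = τ + i ∧ HT hY P' = τ + j ∧ dL zY P' ∈ EY j ∧
    (∃ k, k ∈ CP a a' x P P') ∧ (∀ k ∈ CP a a' x P P', lo ≤ k ∧ k ≤ hi)
    then LW ΛX P * LW ΛY P' else 0 with hq3
  have eX : EF ΛX hX τ nX ≤ u := by
    rw [hnXd, EF_regroup ΛX hX zX τ i0 (fun i z => if pL ΛX hX zX τ i z < θX then 1 else 0)]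
    refine le_trans (le_of_eq ?_) hnX
    refine Finset.sum_congr rfl fun i _ => tsum_congr fun z => ?_
    split_ifs <;> simp
  have eY : EF ΛY hY τ nY ≤ u := by
    rw [hnYd, EF_regroup ΛY hY zY τ i0 (fun i z => if pL ΛY hY zY τ i z < θY then 1 else 0)]
    refine le_trans (le_of_eq ?_) hnY
    refine Finset.sum_congr rfl fun i _ => tsum_congr fun z => ?_
    split_ifs <;> simp
  -- pointwise
  have hpt : ∀ P P', wt ΛX hX τ P * (if HT hX P ≤ τ + i0 then
      wt ΛY hY τ P' * (if HT hY P' ≤ τ + i0 then pe CP lo hi a a' x P P' else 0) else 0)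
      ≤ wt ΛX hX τ P * nX P * (wt ΛY hY τ P' * nY P') + q2 P P' + q3 P P' := by
    intro P P'
    by_cases hfX : fp hX τ P
    swap
    · rw [wt, if_neg hfX, zero_mul]; exact zero_le
    by_cases hfY : fp hY τ P'
    swap
    · have : wt ΛY hY τ P' = 0 := by rw [wt, if_neg hfY]
      rw [this, zero_mul]
      split_ifs <;> simp
    by_cases h1 : HT hX P ≤ τ + i0
    swap
    · rw [if_neg h1, mul_zero]; exact zero_le
    by_cases h2 : HT hY P' ≤ τ + i0
    swap
    · rw [if_neg h2, mul_zero]; simp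
    rw [if_pos h1, if_pos h2]
    by_cases hev : (∃ k, k ∈ CP a a' x P P') ∧ (∀ k ∈ CP a a' x P P', lo ≤ k ∧ k ≤ hi)
    swap
    · rw [pe, if_neg hev]; simp
    rw [pe, if_pos hev, mul_one]
    have hwX : wt ΛX hX τ P = LW ΛX P := by rw [wt, if_pos hfX]
    have hwY : wt ΛY hY τ P' = LW ΛY P' := by rw [wt, if_pos hfY]
    have hlX := le_HT_of_fp hX hfX
    have hlY := le_HT_of_fp hY hfY
    by_cases hx : pL ΛX hX zX τ (HT hX P - τ) (dL zX P) < θX
    · by_cases hy : pL ΛY hY zY τ (HT hY P' - τ) (dL zY P') < θY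
      · have e1 : nX P = 1 := by simp only [hnXd]; rw [if_pos h1, if_pos hx]
        have e2 : nY P' = 1 := by simp only [hnYd]; rw [if_pos h2, if_pos hy]
        rw [e1, e2, mul_one, mul_one, add_assoc]
        exact le_self_add
      · -- Y local
        have hE : dL zY P' ∈ EY (HT hY P' - τ) := hEY _ (by omega) _ (not_lt.1 hy)
        refine le_trans ?_ le_add_self
        rw [hwX, hwY]
        simp only [hq3]
        refine le_trans ?_ (Finset.single_le_sum (f := fun i => ∑ j ∈ Finset.range (i0 + 1),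
          if HT hX P = τ + i ∧ HT hY P' = τ + j ∧ dL zY P' ∈ EY j ∧
          (∃ k, k ∈ CP a a' x P P') ∧ (∀ k ∈ CP a a' x P P', lo ≤ k ∧ k ≤ hi)
          then LW ΛX P * LW ΛY P' else 0) (fun _ _ => zero_le)
          (Finset.mem_range.2 (show HT hX P - τ < i0 + 1 by omega)))
        refine le_trans ?_ (Finset.single_le_sum (f := fun j =>
          if HT hX P = τ + (HT hX P - τ) ∧ HT hY P' = τ + j ∧ dL zY P' ∈ EY j ∧
          (∃ k, k ∈ CP a a' x P P') ∧ (∀ k ∈ CP a a' x P P', lo ≤ k ∧ k ≤ hi)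
          then LW ΛX P * LW ΛY P' else 0) (fun _ _ => zero_le)
          (Finset.mem_range.2 (show HT hY P' - τ < i0 + 1 by omega)))
        rw [if_pos ⟨by omega, by omega, hE, hev⟩]
    · -- X local
      have hE : dL zX P ∈ EX (HT hX P - τ) := hEX _ (by omega) _ (not_lt.1 hx)
      refine le_trans ?_ (le_self_add (b := q3 P P'))
      refine le_trans ?_ le_add_self
      rw [hwX, hwY]
      simp only [hq2]
      refine le_trans ?_ (Finset.single_le_sum (f := fun i => ∑ j ∈ Finset.range (i0 + 1),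
        if HT hX P = τ + i ∧ dL zX P ∈ EX i ∧ HT hY P' = τ + j ∧
        (∃ k, k ∈ CP a a' x P P') ∧ (∀ k ∈ CP a a' x P P', lo ≤ k ∧ k ≤ hi)
        then LW ΛX P * LW ΛY P' else 0) (fun _ _ => zero_le)
        (Finset.mem_range.2 (show HT hX P - τ < i0 + 1 by omega)))
      refine le_trans ?_ (Finset.single_le_sum (f := fun j =>
        if HT hX P = τ + (HT hX P - τ) ∧ dL zX P ∈ EX (HT hX P - τ) ∧ HT hY P' = τ + j ∧
        (∃ k, k ∈ CP a a' x P P') ∧ (∀ k ∈ CP a a' x P P', lo ≤ k ∧ k ≤ hi)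
        then LW ΛX P * LW ΛY P' else 0) (fun _ _ => zero_le)
        (Finset.mem_range.2 (show HT hY P' - τ < i0 + 1 by omega)))
      rw [if_pos ⟨by omega, hE, by omega, hev⟩]
  have hV : VV ΛX hX ΛY hY CP τ i0 lo hi a a' x = ∑' P, ∑' P', wt ΛX hX τ P *
      (if HT hX P ≤ τ + i0 then
      wt ΛY hY τ P' * (if HT hY P' ≤ τ + i0 then pe CP lo hi a a' x P P' else 0) else 0) := by
    unfold VV
    rw [EF]
    refine tsum_congr fun P => ?_
    rw [ENNReal.tsum_mul_left]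
    congr 1
    by_cases h1 : HT hX P ≤ τ + i0
    · simp only [if_pos h1]; rfl
    · simp only [if_neg h1, tsum_zero]
  have s1 : ∑' P, ∑' P', wt ΛX hX τ P * nX P * (wt ΛY hY τ P' * nY P') ≤ u * u := by
    calc ∑' P, ∑' P', wt ΛX hX τ P * nX P * (wt ΛY hY τ P' * nY P')
        = EF ΛX hX τ nX * EF ΛY hY τ nY := by
          unfold EF
          rw [← ENNReal.tsum_mul_right]
          exact tsum_congr fun P => ENNReal.tsum_mul_left
      _ ≤ u * u := mul_le_mul' eX eY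
  have s2 : ∑' P, ∑' P', q2 P P' = ∑ i ∈ Finset.range (i0 + 1), ∑ j ∈ Finset.range (i0 + 1),
        Q2 ΛX hX zX ΛY hY CP lo hi (τ + i) (τ + j) a a' (EX i) x := by
    simp only [hq2, Q2]
    simp only [Summable.tsum_finsetSum (fun _ _ => ENNReal.summable)]
  have s3 : ∑' P, ∑' P', q3 P P' = ∑ i ∈ Finset.range (i0 + 1), ∑ j ∈ Finset.range (i0 + 1),
        Q3 ΛX hX ΛY hY zY CP lo hi (τ + i) (τ + j) a a' (EY j) x := by
    simp only [hq3, Q3]
    simp only [Summable.tsum_finsetSum (fun _ _ => ENNReal.summable)]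
  rw [hV]
  calc _ ≤ ∑' P, ∑' P', (wt ΛX hX τ P * nX P * (wt ΛY hY τ P' * nY P') + q2 P P' + q3 P P') :=
        ENNReal.tsum_le_tsum fun P => ENNReal.tsum_le_tsum fun P' => hpt P P'
    _ = (∑' P, ∑' P', wt ΛX hX τ P * nX P * (wt ΛY hY τ P' * nY P'))
        + (∑' P, ∑' P', q2 P P') + (∑' P, ∑' P', q3 P P') := by
        simp only [ENNReal.tsum_add]
    _ ≤ _ := by
        rw [s2, s3]
        exact add_le_add (add_le_add s1 le_rfl) le_rfl

open Classical in
/-- both tops -/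
noncomputable def WW (T T' i0 : ℕ) (w : G) (Φ : ℕ → ℕ → G → ℝ≥0∞) : ℝ≥0∞ :=
  EF ΛX hX T (fun A => if HT hX A ≤ T + i0 then
    EF ΛY hY T' (fun A' => if HT hY A' ≤ T' + i0 then
      Φ (HT hX A) (HT hY A') (w + dL zY A' - dL zX A) else 0) else 0)

lemma WW_eq (T T' i0 : ℕ) (w : G) (Φ : ℕ → ℕ → G → ℝ≥0∞) :
    WW ΛX hX zX ΛY hY zY T T' i0 w Φ = ∑ i ∈ Finset.range (i0 + 1), ∑' z,
      pL ΛX hX zX T i z * ∑ j ∈ Finset.range (i0 + 1), ∑' z',
        pL ΛY hY zY T' j z' * Φ (T + i) (T' + j) (w + z' - z) := by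
  classical
  rw [← EF_regroup ΛX hX zX T i0 (fun i z => ∑ j ∈ Finset.range (i0 + 1), ∑' z',
        pL ΛY hY zY T' j z' * Φ (T + i) (T' + j) (w + z' - z))]
  unfold WW
  apply le_antisymm
  · refine EF_mono ΛX hX fun A hA => ?_
    by_cases h : HT hX A ≤ T + i0
    · rw [if_pos h, if_pos h]
      rw [← EF_regroup ΛY hY zY T' i0
        (fun j z' => Φ (T + (HT hX A - T)) (T' + j) (w + z' - dL zX A))]
      refine EF_mono ΛY hY fun A' hA' => ?_
      have e1 := le_HT_of_fp hX hA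
      have e2 := le_HT_of_fp hY hA'
      rw [show T + (HT hX A - T) = HT hX A by omega, show T' + (HT hY A' - T') = HT hY A' by omega]
    · rw [if_neg h, if_neg h]
  · refine EF_mono ΛX hX fun A hA => ?_
    by_cases h : HT hX A ≤ T + i0
    · rw [if_pos h, if_pos h]
      rw [← EF_regroup ΛY hY zY T' i0
        (fun j z' => Φ (T + (HT hX A - T)) (T' + j) (w + z' - dL zX A))]
      refine EF_mono ΛY hY fun A' hA' => ?_
      have e1 := le_HT_of_fp hX hA
      have e2 := le_HT_of_fp hY hA'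
      rw [show T + (HT hX A - T) = HT hX A by omega, show T' + (HT hY A' - T') = HT hY A' by omega]
    · rw [if_neg h, if_neg h]

lemma WW_mono (T T' i0 : ℕ) (w : G) {Φ Ψ : ℕ → ℕ → G → ℝ≥0∞} (h : ∀ a a' x, Φ a a' x ≤ Ψ a a' x) :
    WW ΛX hX zX ΛY hY zY T T' i0 w Φ ≤ WW ΛX hX zX ΛY hY zY T T' i0 w Ψ := by
  classical
  unfold WW
  refine EF_mono ΛX hX fun A _ => ?_
  split_ifs
  · refine EF_mono ΛY hY fun A' _ => ?_
    split_ifs
    · exact h _ _ _
    · exact le_rfl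
  · exact le_rfl

lemma WW_add (T T' i0 : ℕ) (w : G) (Φ Ψ : ℕ → ℕ → G → ℝ≥0∞) :
    WW ΛX hX zX ΛY hY zY T T' i0 w (fun a a' x => Φ a a' x + Ψ a a' x)
      = WW ΛX hX zX ΛY hY zY T T' i0 w Φ + WW ΛX hX zX ΛY hY zY T T' i0 w Ψ := by
  simp only [WW_eq, mul_add, ENNReal.tsum_add, Finset.sum_add_distrib]

lemma WW_const (hX1 : ∀ b, 1 ≤ hX b) (hY1 : ∀ b, 1 ≤ hY b) (hΛX : ∑' b, ΛX b ≤ 1)
    (hΛY : ∑' b, ΛY b ≤ 1) (T T' i0 : ℕ) (w : G) (c : ℝ≥0∞) :
    WW ΛX hX zX ΛY hY zY T T' i0 w (fun _ _ _ => c) ≤ c := by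
  classical
  unfold WW
  refine EF_le ΛX hX hX1 hΛX _ fun A => ?_
  split_ifs
  · refine EF_le ΛY hY hY1 hΛY _ fun A' => ?_
    split_ifs
    · exact le_rfl
    · exact zero_le
  · exact zero_le

/-- bound of one local part, smoothing by X -/
lemma WW_X (hX1 : ∀ b, 1 ≤ hX b) (hY1 : ∀ b, 1 ≤ hY b) (hΛX : ∑' b, ΛX b ≤ 1)
    (hΛY : ∑' b, ΛY b ≤ 1) (T T' i0 : ℕ) (w : G) (Φ : ℕ → ℕ → G → ℝ≥0∞)
    (hΦ1 : ∀ a a' x, Φ a a' x ≤ 1) (g b : G → ℝ≥0∞) (M ρ η : ℝ≥0∞)
    (hgb : ∀ z, mL ΛX hX zX T z = g z + b z) (hg : ∀ z, g z ≤ M) (hb : ∑' z, b z ≤ ρ)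
    (hΦ : ∀ i ≤ i0, ∀ j ≤ i0, ∀ μ : G → ℝ≥0∞, ∑' x, μ x ≤ 1 → (∀ x, μ x ≤ M) →
      ∑' x, μ x * Φ (T + i) (T' + j) x ≤ η) :
    WW ΛX hX zX ΛY hY zY T T' i0 w Φ ≤ ρ + (i0 + 1) * (i0 + 1) * η := by
  have hm1 : ∀ z, mL ΛX hX zX T z ≤ 1 := fun z =>
    (ENNReal.le_tsum z).trans (sum_mL ΛX hX zX hX1 hΛX T)
  obtain ⟨l, r, hq, hl, hlg, hr⟩ := split_fam (i0 + 1) (fun i z => pL ΛX hX zX T i z) g b
    (fun z => by rw [← hgb z]; exact ne_top_of_le_ne_top ENNReal.one_ne_top (hm1 z))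
    (fun z => by rw [← hgb z]; exact sum_pL_le ΛX hX zX T i0 z)
  rw [WW_eq]
  set I : ℕ → G → ℝ≥0∞ := fun i z => ∑ j ∈ Finset.range (i0 + 1), ∑' z',
        pL ΛY hY zY T' j z' * Φ (T + i) (T' + j) (w + z' - z) with hI
  have hI1 : ∀ i z, I i z ≤ 1 := by
    intro i z
    refine le_trans ?_ (sum_pL_tsum_le ΛY hY zY hY1 hΛY T' i0)
    refine Finset.sum_le_sum fun j _ => ENNReal.tsum_le_tsum fun z' => ?_
    calc _ ≤ pL ΛY hY zY T' j z' * 1 := mul_le_mul_right (hΦ1 _ _ _) _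
      _ = _ := mul_one _
  calc ∑ i ∈ Finset.range (i0 + 1), ∑' z, pL ΛX hX zX T i z * I i z
      ≤ ∑ i ∈ Finset.range (i0 + 1), ∑' z, (r i z * 1 + l i z * I i z) := by
        refine Finset.sum_le_sum fun i hi => ENNReal.tsum_le_tsum fun z => ?_
        have hi' := Finset.mem_range.1 hi
        calc pL ΛX hX zX T i z * I i z ≤ (l i z + r i z) * I i z :=
              mul_le_mul_left (hq i hi' z) _
          _ = r i z * I i z + l i z * I i z := by rw [add_mul, add_comm]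
          _ ≤ _ := add_le_add (mul_le_mul_right (hI1 i z) _) le_rfl
    _ = ∑ i ∈ Finset.range (i0 + 1), ∑' z, r i z
        + ∑ i ∈ Finset.range (i0 + 1), ∑' z, l i z * I i z := by
        simp only [mul_one, ENNReal.tsum_add, Finset.sum_add_distrib]
    _ ≤ ρ + (i0 + 1) * (i0 + 1) * η := by
        refine add_le_add ?_ ?_
        · rw [← Summable.tsum_finsetSum (fun _ _ => ENNReal.summable)]
          exact (ENNReal.tsum_le_tsum hr).trans hb
        · calc ∑ i ∈ Finset.range (i0 + 1), ∑' z, l i z * I i z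
              = ∑ i ∈ Finset.range (i0 + 1), ∑ j ∈ Finset.range (i0 + 1), ∑' z, l i z *
                ∑' z', pL ΛY hY zY T' j z' * Φ (T + i) (T' + j) (w + z' - z) := by
                refine Finset.sum_congr rfl fun i _ => ?_
                rw [← Summable.tsum_finsetSum (fun _ _ => ENNReal.summable)]
                refine tsum_congr fun z => ?_
                simp only [hI]
                rw [Finset.mul_sum]
            _ ≤ ∑ i ∈ Finset.range (i0 + 1), ∑ j ∈ Finset.range (i0 + 1), η := by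
                refine Finset.sum_le_sum fun i hi => Finset.sum_le_sum fun j hj => ?_
                have hi' := Finset.mem_range.1 hi
                have hj' := Finset.mem_range.1 hj
                refine conv_le (l i) (pL ΛY hY zY T' j) (Φ (T + i) (T' + j)) w M η ?_
                  (tsum_pL_le ΛY hY zY hY1 hΛY T' j) (Or.inl fun z => (hlg i hi' z).trans (hg z))
                  (hΦ i (by omega) j (by omega))
                exact (ENNReal.tsum_le_tsum (hl i hi')).trans (tsum_pL_le ΛX hX zX hX1 hΛX T i)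
            _ = _ := by
                simp only [Finset.sum_const, Finset.card_range, nsmul_eq_mul]
                push_cast
                ring

/-- bound of one local part, smoothing by Y -/
lemma WW_Y (hX1 : ∀ b, 1 ≤ hX b) (hY1 : ∀ b, 1 ≤ hY b) (hΛX : ∑' b, ΛX b ≤ 1)
    (hΛY : ∑' b, ΛY b ≤ 1) (T T' i0 : ℕ) (w : G) (Φ : ℕ → ℕ → G → ℝ≥0∞)
    (hΦ1 : ∀ a a' x, Φ a a' x ≤ 1) (g b : G → ℝ≥0∞) (M ρ η : ℝ≥0∞)
    (hgb : ∀ z, mL ΛY hY zY T' z = g z + b z) (hg : ∀ z, g z ≤ M) (hb : ∑' z, b z ≤ ρ)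
    (hΦ : ∀ i ≤ i0, ∀ j ≤ i0, ∀ μ : G → ℝ≥0∞, ∑' x, μ x ≤ 1 → (∀ x, μ x ≤ M) →
      ∑' x, μ x * Φ (T + i) (T' + j) x ≤ η) :
    WW ΛX hX zX ΛY hY zY T T' i0 w Φ ≤ ρ + (i0 + 1) * (i0 + 1) * η := by
  have hm1 : ∀ z, mL ΛY hY zY T' z ≤ 1 := fun z =>
    (ENNReal.le_tsum z).trans (sum_mL ΛY hY zY hY1 hΛY T')
  obtain ⟨l, r, hq, hl, hlg, hr⟩ := split_fam (i0 + 1) (fun i z => pL ΛY hY zY T' i z) g b
    (fun z => by rw [← hgb z]; exact ne_top_of_le_ne_top ENNReal.one_ne_top (hm1 z))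
    (fun z => by rw [← hgb z]; exact sum_pL_le ΛY hY zY T' i0 z)
  rw [WW_eq]
  calc ∑ i ∈ Finset.range (i0 + 1), ∑' z, pL ΛX hX zX T i z *
        ∑ j ∈ Finset.range (i0 + 1), ∑' z',
          pL ΛY hY zY T' j z' * Φ (T + i) (T' + j) (w + z' - z)
      ≤ ∑ i ∈ Finset.range (i0 + 1), ∑' z, (pL ΛX hX zX T i z * ρ + pL ΛX hX zX T i z *
        ∑ j ∈ Finset.range (i0 + 1), ∑' z', l j z' * Φ (T + i) (T' + j) (w + z' - z)) := by
        refine Finset.sum_le_sum fun i hi => ENNReal.tsum_le_tsum fun z => ?_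
        rw [← mul_add]
        refine mul_le_mul_right ?_ _
        calc ∑ j ∈ Finset.range (i0 + 1), ∑' z',
              pL ΛY hY zY T' j z' * Φ (T + i) (T' + j) (w + z' - z)
            ≤ ∑ j ∈ Finset.range (i0 + 1), ∑' z',
              (r j z' + l j z' * Φ (T + i) (T' + j) (w + z' - z)) := by
              refine Finset.sum_le_sum fun j hj => ENNReal.tsum_le_tsum fun z' => ?_
              have hj' := Finset.mem_range.1 hj
              calc _ ≤ (l j z' + r j z') * Φ (T + i) (T' + j) (w + z' - z) :=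
                    mul_le_mul_left (hq j hj' z') _
                _ = r j z' * Φ (T + i) (T' + j) (w + z' - z)
                    + l j z' * Φ (T + i) (T' + j) (w + z' - z) := by rw [add_mul, add_comm]
                _ ≤ r j z' * 1 + _ := add_le_add (mul_le_mul_right (hΦ1 _ _ _) _) le_rfl
                _ = _ := by rw [mul_one]
          _ = ∑ j ∈ Finset.range (i0 + 1), ∑' z', r j z' + _ := by
              simp only [ENNReal.tsum_add, Finset.sum_add_distrib]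
              rfl
          _ ≤ _ := by
              refine add_le_add ?_ le_rfl
              rw [← Summable.tsum_finsetSum (fun _ _ => ENNReal.summable)]
              exact (ENNReal.tsum_le_tsum hr).trans hb
    _ = (∑ i ∈ Finset.range (i0 + 1), ∑' z, pL ΛX hX zX T i z) * ρ
        + ∑ i ∈ Finset.range (i0 + 1), ∑' z, pL ΛX hX zX T i z *
        ∑ j ∈ Finset.range (i0 + 1), ∑' z', l j z' * Φ (T + i) (T' + j) (w + z' - z) := by
        simp only [ENNReal.tsum_add, Finset.sum_add_distrib, ENNReal.tsum_mul_right,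
          Finset.sum_mul]
    _ ≤ ρ + (i0 + 1) * (i0 + 1) * η := by
        refine add_le_add ?_ ?_
        · calc _ ≤ 1 * ρ := mul_le_mul_left (sum_pL_tsum_le ΛX hX zX hX1 hΛX T i0) _
            _ = ρ := one_mul _
        · calc _ = ∑ i ∈ Finset.range (i0 + 1), ∑ j ∈ Finset.range (i0 + 1), ∑' z,
                pL ΛX hX zX T i z *
                ∑' z', l j z' * Φ (T + i) (T' + j) (w + z' - z) := by
                refine Finset.sum_congr rfl fun i _ => ?_
                rw [← Summable.tsum_finsetSum (fun _ _ => ENNReal.summable)]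
                refine tsum_congr fun z => ?_
                rw [Finset.mul_sum]
            _ ≤ ∑ i ∈ Finset.range (i0 + 1), ∑ j ∈ Finset.range (i0 + 1), η := by
                refine Finset.sum_le_sum fun i hi => Finset.sum_le_sum fun j hj => ?_
                have hi' := Finset.mem_range.1 hi
                have hj' := Finset.mem_range.1 hj
                refine conv_le (pL ΛX hX zX T i) (l j) (Φ (T + i) (T' + j)) w M η
                  (tsum_pL_le ΛX hX zX hX1 hΛX T i) ?_ (Or.inr fun z => (hlg j hj' z).trans (hg z))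
                  (hΦ i (by omega) j (by omega))
                exact (ENNReal.tsum_le_tsum (hl j hj')).trans (tsum_pL_le ΛY hY zY hY1 hΛY T' j)
            _ = _ := by
                simp only [Finset.sum_const, Finset.card_range, nsmul_eq_mul]
                push_cast
                ring

end Crest.Agent.R154.Mid752
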