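import Crest.Agent.R154.MidB_562

/-! Row 154, T0219 (kappa = 0), ROAD 801 (helper562): pairs of lists, one window. -/

set_option autoImplicit false
set_option linter.unusedSectionVars false
set_option linter.unusedVariables false

namespace Crest.Agent.R154.Mid562

open scoped ENNReal Classical
open Crest.Agent.R154.B5A

variable {BX BY G : Type*} [AddCommGroup G]
variable (ΛX : BX → ℝ≥0∞) (hX : BX → ℕ) (zX : BX → G)
variable (ΛY : BY → ℝ≥0∞) (hY : BY → ℕ) (zY : BY → G)

/-- the four fold operator -/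
noncomputable def Q4 (T τ T' τ' : ℕ) (F : List BX → List BX → List BY → List BY → ℝ≥0∞) : ℝ≥0∞ :=
  FS ΛX hX T (fun AX => FS ΛX hX τ (fun PX => FS ΛY hY T' (fun AY => FS ΛY hY τ' (fun PY =>
    F AX PX AY PY))))

variable {T τ T' τ' : ℕ}

lemma Q4_mono {F F' : List BX → List BX → List BY → List BY → ℝ≥0∞}
    (h : ∀ AX PX AY PY, FR hX T AX → FR hX τ PX → FR hY T' AY → FR hY τ' PY →
      F AX PX AY PY ≤ F' AX PX AY PY) : Q4 ΛX hX ΛY hY T τ T' τ' F ≤ Q4 ΛX hX ΛY hY T τ T' τ' F' :=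
  FS_mono _ _ fun AX h1 => FS_mono _ _ fun PX h2 => FS_mono _ _ fun AY h3 =>
    FS_mono _ _ fun PY h4 => h AX PX AY PY h1 h2 h3 h4

lemma Q4_add (F F' : List BX → List BX → List BY → List BY → ℝ≥0∞) :
    Q4 ΛX hX ΛY hY T τ T' τ' (fun a b c e => F a b c e + F' a b c e)
      = Q4 ΛX hX ΛY hY T τ T' τ' F + Q4 ΛX hX ΛY hY T τ T' τ' F' := by
  simp only [Q4, FS_add]

lemma NS_three' {B : Type*} (Λ : B → ℝ≥0∞) (ht : B → ℕ) (h1 : ∀ b, 1 ≤ ht b)
    (hΛ : ∑' b, Λ b = 1) {T T' i n : ℕ} (hn : T + i + T' ≤ n)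
    (F : List B → ℝ≥0∞) (hF : ∀ L, F L ≤ 1) (H : List B → List B → ℝ≥0∞)
    (hH : ∀ A P R, FR ht T A → HT ht A ≤ T + i → FR ht T' P → F (A ++ (P ++ R)) ≤ H A P) :
    NS Λ ht n F ≤ FS Λ ht T (fun A => FS Λ ht T' (fun P => if HT ht A ≤ T + i then H A P else 1)) := by
  refine (NS_three Λ ht h1 hΛ hn F hF H hH).trans (FS_mono Λ ht fun A hA => ?_)
  by_cases h : HT ht A ≤ T + i
  · simp only [if_pos h]; exact le_rfl
  · simp only [if_neg h]; rw [FS_one Λ ht h1 hΛ]

/-- pairs of lists of height `n` -/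
lemma pair_three (hX1 : ∀ b, 1 ≤ hX b) (sX : ∑' b, ΛX b = 1) (hY1 : ∀ b, 1 ≤ hY b)
    (sY : ∑' b, ΛY b = 1) {i n : ℕ} (hn : T + i + τ ≤ n) (hn' : T' + i + τ' ≤ n)
    (F : List BX → List BY → ℝ≥0∞) (hF : ∀ L L', F L L' ≤ 1)
    (H : List BX → List BX → List BY → List BY → ℝ≥0∞)
    (hH : ∀ AX PX RX AY PY RY, FR hX T AX → HT hX AX ≤ T + i → FR hX τ PX →
      FR hY T' AY → HT hY AY ≤ T' + i → FR hY τ' PY →
      F (AX ++ (PX ++ RX)) (AY ++ (PY ++ RY)) ≤ H AX PX AY PY) :
    NS ΛX hX n (fun LX => NS ΛY hY n (fun LY => F LX LY)) ≤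
      Q4 ΛX hX ΛY hY T τ T' τ' (fun AX PX AY PY =>
        if HT hX AX ≤ T + i then (if HT hY AY ≤ T' + i then H AX PX AY PY else 1) else 1) := by
  refine (NS_three' ΛX hX hX1 sX hn _ (fun L => NS_le_one ΛY hY hY1 sY n (hF L))
    (fun AX PX => FS ΛY hY T' (fun AY => FS ΛY hY τ' (fun PY =>
      if HT hY AY ≤ T' + i then H AX PX AY PY else 1))) ?_).trans ?_
  · intro AX PX RX h1 h2 h3
    exact NS_three' ΛY hY hY1 sY hn' _ (fun L => hF _ L) (fun AY PY => H AX PX AY PY)
      (fun AY PY RY h4 h5 h6 => hH AX PX RX AY PY RY h1 h2 h3 h4 h5 h6)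
  · refine FS_mono _ _ fun AX hAX => FS_mono _ _ fun PX hPX => ?_
    by_cases h : HT hX AX ≤ T + i
    · simp only [if_pos h]; exact le_rfl
    · simp only [if_neg h]
      rw [FS_one ΛY hY hY1 sY, FS_one ΛY hY hY1 sY]

/-- mass of an event of `FR τ` lists in terms of `Σ'` over all lists -/
lemma FS_le_tsum {B : Type*} (Λ : B → ℝ≥0∞) (ht : B → ℕ) (T : ℕ) (F : List B → ℝ≥0∞) :
    FS Λ ht T F ≤ ∑' L, LW Λ L * F L := by
  refine ENNReal.tsum_le_tsum fun L => ?_
  split_ifs
  · exact le_rfl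
  · exact zero_le

/-- restrict to the heights `T + i`, `i ≤ i0` -/
lemma FS_heights {B : Type*} (Λ : B → ℝ≥0∞) (ht : B → ℕ) (h1 : ∀ b, 1 ≤ ht b) (T i0 : ℕ)
    (F : List B → ℝ≥0∞) :
    FS Λ ht T (fun A => if HT ht A ≤ T + i0 then F A else 0) ≤
      ∑ i ∈ Finset.range (i0 + 1), FS Λ ht T (fun A => if HT ht A = T + i then F A else 0) := by
  rw [show (∑ i ∈ Finset.range (i0 + 1), FS Λ ht T (fun A => if HT ht A = T + i then F A else 0))
    = FS Λ ht T (fun A => ∑ i ∈ Finset.range (i0 + 1), if HT ht A = T + i then F A else 0) from ?_]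
  · refine FS_mono _ _ fun A hA => ?_
    have hle := FR_le ht h1 hA
    by_cases h : HT ht A ≤ T + i0
    · rw [if_pos h]
      refine le_trans ?_ (Finset.single_le_sum (f := fun i => if HT ht A = T + i then F A else 0)
        (fun _ _ => zero_le) (Finset.mem_range.2 (show HT ht A - T < i0 + 1 by omega)))
      rw [if_pos (by omega)]
    · rw [if_neg h]; exact zero_le
  · induction i0 with
    | zero => simp
    | succ k ih =>
      rw [Finset.sum_range_succ, ih, ← FS_add]
      congr 1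
      funext A
      rw [Finset.sum_range_succ _ (k + 1)]

/-- the data of one walker in one window -/
structure LocD {B : Type*} (Λ : B → ℝ≥0∞) (ht : B → ℕ) (z : B → G) (τ i0 : ℕ) (u : ℝ≥0∞)
    (th : ℝ≥0∞) : Prop where
  th0 : th ≠ 0
  nl : (∑' x, if th ≤ pl Λ ht z τ x then 0 else pl Λ ht z τ x) ≤ u

/-- local piece -/
def Loc {B : Type*} (Λ : B → ℝ≥0∞) (ht : B → ℕ) (z : B → G) (τ : ℕ) (th : ℝ≥0∞) (P : List B) :
    Prop := th ≤ pl Λ ht z τ (HT ht P - τ, DG z P)

lemma nonloc {B : Type*} (Λ : B → ℝ≥0∞) (ht : B → ℕ) (z : B → G) (h1 : ∀ b, 1 ≤ ht b) (τ : ℕ)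
    (th u : ℝ≥0∞) (hu : (∑' x, if th ≤ pl Λ ht z τ x then 0 else pl Λ ht z τ x) ≤ u) :
    FS Λ ht τ (fun P => if Loc Λ ht z τ th P then 0 else 1) ≤ u := by
  have := FS_law Λ ht z h1 τ (fun x => if th ≤ pl Λ ht z τ x then 0 else 1)
  have e : FS Λ ht τ (fun P => if Loc Λ ht z τ th P then 0 else 1)
      = ∑' x, pl Λ ht z τ x * (if th ≤ pl Λ ht z τ x then 0 else 1) := by
    rw [← this]
    unfold FS
    refine tsum_congr fun P => ?_
    by_cases h : th ≤ pl Λ ht z τ (HT ht P - τ, DG z P) <;> simp [Loc, h]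
  rw [e]
  refine le_trans (le_of_eq (tsum_congr fun x => ?_)) hu
  split_ifs <;> simp

/-- the finite set of local displacements at height `h` -/
lemma loc_finset {B : Type*} (Λ : B → ℝ≥0∞) (ht : B → ℕ) (z : B → G) (h1 : ∀ b, 1 ≤ ht b)
    (hΛ : ∑' b, Λ b = 1) (τ : ℕ) (th : ℝ≥0∞) (hth : th ≠ 0) (h : ℕ) :
    ∃ E : Finset G, (∀ y, y ∈ E ↔ th ≤ pl Λ ht z τ (h - τ, y)) ∧ (E.card : ℝ≥0∞) ≤ 1 / th := by
  have hs : ∑' y, pl Λ ht z τ (h - τ, y) ≤ 1 := by
    calc _ ≤ ∑' j, ∑' y, pl Λ ht z τ (j, y) :=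
          ENNReal.le_tsum (f := fun j => ∑' y, pl Λ ht z τ (j, y)) (h - τ)
      _ = 1 := by rw [← ENNReal.tsum_prod']; exact pl_sum Λ ht z h1 hΛ _
  obtain ⟨hf, hc⟩ := ENNReal.finset_card_const_le_le_of_tsum_le ENNReal.one_ne_top hs hth
  refine ⟨hf.toFinset, fun y => by simp, hc⟩

/-- **X local** part -/
lemma part_loc (hX1 : ∀ b, 1 ≤ hX b) (sX : ∑' b, ΛX b = 1) (hY1 : ∀ b, 1 ≤ hY b)
    (sY : ∑' b, ΛY b = 1) (i0 : ℕ) (w : G)
    (K4 : ℕ → ℕ → G → List BX → List BY → ℝ≥0∞) (hK1 : ∀ a a' x P P', K4 a a' x P P' ≤ 1)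
    (M ρ η : ℝ≥0∞)
    (D : ℕ × G → ℝ≥0∞) (hDM : ∀ x, D x ≤ M) (hD1 : ∑' x, D x ≤ 1)
    (hD : ∀ Φ : ℕ × G → ℝ≥0∞, (∀ x, Φ x ≤ 1) →
        FS ΛX hX T (fun A => Φ (HT hX A - T, DG zX A)) ≤ ρ + ∑' x, D x * Φ x)
    (hη : ∀ i i' j j', i ≤ i0 → i' ≤ i0 → j ≤ i0 → j' ≤ i0 → ∀ μ : G → ℝ≥0∞, ∑' x, μ x ≤ 1 →
      (∀ x, μ x ≤ M) →
      ∑' x, μ x * ∑' P, ∑' P', (if HT hX P = τ + j ∧ HT hY P' = τ' + j' then
        LW ΛX P * LW ΛY P' * K4 (T + i) (T' + i') x P P' else 0) ≤ η) :
    Q4 ΛX hX ΛY hY T τ T' τ' (fun AX PX AY PY =>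
      if HT hX AX ≤ T + i0 then if HT hX PX ≤ τ + i0 then if HT hY AY ≤ T' + i0 then
        if HT hY PY ≤ τ' + i0 then K4 (HT hX AX) (HT hY AY) (w + DG zY AY - DG zX AX) PX PY
        else 0 else 0 else 0 else 0) ≤ ρ + (i0 + 1 : ℕ) ^ 4 * η := by
  -- the function of the top of X
  set Φ : ℕ × G → ℝ≥0∞ := fun x => if x.1 ≤ i0 then
    FS ΛX hX τ (fun PX => if HT hX PX ≤ τ + i0 then FS ΛY hY T' (fun AY =>
      if HT hY AY ≤ T' + i0 then FS ΛY hY τ' (fun PY => if HT hY PY ≤ τ' + i0 then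
        K4 (T + x.1) (HT hY AY) (w + DG zY AY - x.2) PX PY else 0) else 0) else 0) else 0 with hΦ
  have hΦ1 : ∀ x, Φ x ≤ 1 := by
    intro x
    simp only [hΦ]
    split_ifs
    · refine FS_le_one ΛX hX hX1 sX _ fun PX => ?_
      split_ifs
      · refine FS_le_one ΛY hY hY1 sY _ fun AY => ?_
        split_ifs
        · refine FS_le_one ΛY hY hY1 sY _ fun PY => ?_
          split_ifs
          · exact hK1 _ _ _ _ _
          · exact zero_le
        · exact zero_le
      · exact zero_le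
    · exact zero_le
  have e0 : Q4 ΛX hX ΛY hY T τ T' τ' (fun AX PX AY PY =>
      if HT hX AX ≤ T + i0 then if HT hX PX ≤ τ + i0 then if HT hY AY ≤ T' + i0 then
        if HT hY PY ≤ τ' + i0 then K4 (HT hX AX) (HT hY AY) (w + DG zY AY - DG zX AX) PX PY
        else 0 else 0 else 0 else 0) ≤ FS ΛX hX T (fun A => Φ (HT hX A - T, DG zX A)) := by
    unfold Q4
    refine FS_mono _ _ fun AX hAX => ?_
    have hle := FR_le hX hX1 hAX
    by_cases h1 : HT hX AX ≤ T + i0
    · simp only [hΦ, if_pos h1, if_pos (show HT hX AX - T ≤ i0 by omega)]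
      rw [show T + (HT hX AX - T) = HT hX AX by omega]
      refine FS_mono _ _ fun PX hPX => ?_
      by_cases h2 : HT hX PX ≤ τ + i0
      · simp only [if_pos h2]
        refine FS_mono _ _ fun AY hAY => ?_
        by_cases h3 : HT hY AY ≤ T' + i0
        · simp only [if_pos h3]; exact le_rfl
        · simp only [if_neg h3]
          rw [show FS ΛY hY τ' (fun _ => (0 : ℝ≥0∞)) = 0 by simp [FS]]
      · simp only [if_neg h2]
        simp [FS]
    · simp only [if_neg h1]
      simp [FS]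
  refine e0.trans ((hD Φ hΦ1).trans (add_le_add le_rfl ?_))
  -- expand the good part
  set W : ℕ → ℕ → ℕ → ℕ → G → ℝ≥0∞ := fun j j' a a' y => ∑' P, ∑' P',
    (if HT hX P = τ + j ∧ HT hY P' = τ' + j' then LW ΛX P * LW ΛY P' * K4 a a' y P P' else 0) with hW
  have hR : ∀ a a' y, FS ΛX hX τ (fun PX => if HT hX PX ≤ τ + i0 then
      FS ΛY hY τ' (fun PY => if HT hY PY ≤ τ' + i0 then K4 a a' y PX PY else 0) else 0)
      ≤ ∑ j ∈ Finset.range (i0 + 1), ∑ j' ∈ Finset.range (i0 + 1), W j j' a a' y := by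
    intro a a' y
    refine (FS_heights ΛX hX hX1 τ i0 _).trans (Finset.sum_le_sum fun j _ => ?_)
    refine (FS_le_tsum _ _ _ _).trans ?_
    have e2 : ∀ P, LW ΛX P * (if HT hX P = τ + j then
        FS ΛY hY τ' (fun PY => if HT hY PY ≤ τ' + i0 then K4 a a' y P PY else 0) else 0)
        ≤ ∑ j' ∈ Finset.range (i0 + 1), ∑' P', (if HT hX P = τ + j ∧ HT hY P' = τ' + j' then
          LW ΛX P * LW ΛY P' * K4 a a' y P P' else 0) := by
      intro P
      by_cases hP : HT hX P = τ + j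
      · simp only [if_pos hP]
        refine (mul_le_mul_right (FS_heights ΛY hY hY1 τ' i0 _) _).trans ?_
        rw [Finset.mul_sum]
        refine Finset.sum_le_sum fun j' _ => ?_
        refine (mul_le_mul_right (FS_le_tsum _ _ _ _) _).trans ?_
        rw [← ENNReal.tsum_mul_left]
        refine ENNReal.tsum_le_tsum fun P' => ?_
        by_cases hP' : HT hY P' = τ' + j'
        · rw [if_pos hP', if_pos ⟨hP, hP'⟩, mul_assoc]
        · rw [if_neg hP']; simp
      · simp [if_neg hP]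
    refine (ENNReal.tsum_le_tsum e2).trans ?_
    rw [Summable.tsum_finsetSum (fun _ _ => ENNReal.summable)]
  have hcomm : ∀ F : List BX → List BY → ℝ≥0∞, FS ΛX hX τ (fun P => FS ΛY hY T' (fun A => F P A))
      = FS ΛY hY T' (fun A => FS ΛX hX τ (fun P => F P A)) := by
    intro F
    simp only [FS]
    have l1 : ∀ P, (if FR hX τ P then LW ΛX P * ∑' A, (if FR hY T' A then LW ΛY A * F P A else 0) else 0)
        = ∑' A, (if FR hX τ P ∧ FR hY T' A then LW ΛX P * (LW ΛY A * F P A) else 0) := by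
      intro P
      by_cases h : FR hX τ P
      · simp only [if_pos h, h, true_and]
        rw [← ENNReal.tsum_mul_left]
        refine tsum_congr fun A => ?_
        split_ifs <;> simp
      · simp [h]
    have l2 : ∀ A, (if FR hY T' A then LW ΛY A * ∑' P, (if FR hX τ P then LW ΛX P * F P A else 0) else 0)
        = ∑' P, (if FR hX τ P ∧ FR hY T' A then LW ΛX P * (LW ΛY A * F P A) else 0) := by
      intro A
      by_cases h : FR hY T' A
      · simp only [if_pos h, h, and_true]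
        rw [← ENNReal.tsum_mul_left]
        refine tsum_congr fun P => ?_
        split_ifs
        · ring
        · simp
      · simp [h]
    rw [tsum_congr l1, tsum_congr l2, ENNReal.tsum_comm]
  have hΦ2 : ∀ x : ℕ × G, Φ x ≤ if x.1 < i0 + 1 then ∑ i' ∈ Finset.range (i0 + 1),
      FS ΛY hY T' (fun AY => if HT hY AY = T' + i' then ∑ j ∈ Finset.range (i0 + 1),
        ∑ j' ∈ Finset.range (i0 + 1), W j j' (T + x.1) (T' + i') (w + DG zY AY - x.2) else 0) else 0 := by
    intro x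
    simp only [hΦ]
    by_cases hx : x.1 ≤ i0
    · simp only [if_pos hx, if_pos (Nat.lt_succ_of_le hx)]
      have e3 : FS ΛX hX τ (fun PX => if HT hX PX ≤ τ + i0 then FS ΛY hY T' (fun AY =>
          if HT hY AY ≤ T' + i0 then FS ΛY hY τ' (fun PY => if HT hY PY ≤ τ' + i0 then
          K4 (T + x.1) (HT hY AY) (w + DG zY AY - x.2) PX PY else 0) else 0) else 0)
          = FS ΛY hY T' (fun AY => if HT hY AY ≤ T' + i0 then FS ΛX hX τ (fun PX =>
            if HT hX PX ≤ τ + i0 then FS ΛY hY τ' (fun PY => if HT hY PY ≤ τ' + i0 then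
            K4 (T + x.1) (HT hY AY) (w + DG zY AY - x.2) PX PY else 0) else 0) else 0) := by
        have := hcomm (fun PX AY => if HT hX PX ≤ τ + i0 then if HT hY AY ≤ T' + i0 then
          FS ΛY hY τ' (fun PY => if HT hY PY ≤ τ' + i0 then
          K4 (T + x.1) (HT hY AY) (w + DG zY AY - x.2) PX PY else 0) else 0 else 0)
        calc _ = FS ΛX hX τ (fun PX => FS ΛY hY T' (fun AY => if HT hX PX ≤ τ + i0 then
              if HT hY AY ≤ T' + i0 then FS ΛY hY τ' (fun PY => if HT hY PY ≤ τ' + i0 then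
              K4 (T + x.1) (HT hY AY) (w + DG zY AY - x.2) PX PY else 0) else 0 else 0)) := by
              congr 1
              funext PX
              by_cases h : HT hX PX ≤ τ + i0
              · simp only [if_pos h]
              · simp only [if_neg h]; simp [FS]
          _ = _ := this
          _ = _ := by
              congr 1
              funext AY
              by_cases h : HT hY AY ≤ T' + i0
              · simp only [if_pos h]
              · simp only [if_neg h, ite_self]; simp [FS]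
      rw [e3]
      refine (FS_heights ΛY hY hY1 T' i0 _).trans (Finset.sum_le_sum fun i' _ => ?_)
      refine FS_mono _ _ fun AY _ => ?_
      by_cases h : HT hY AY = T' + i'
      · simp only [if_pos h]
        rw [h]
        exact hR _ _ _
      · simp only [if_neg h]; exact le_rfl
    · simp only [if_neg hx]; exact zero_le
  have hconv : ∀ (i i' : ℕ) (V : G → ℝ≥0∞),
      ∑' y, D (i, y) * FS ΛY hY T' (fun AY => if HT hY AY = T' + i' then V (w + DG zY AY - y) else 0)
      = ∑' y, (FS ΛY hY T' (fun AY => if HT hY AY = T' + i' then D (i, w + DG zY AY - y) else 0))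
        * V y := by
    intro i i' V
    have l1 : ∀ y, D (i, y) * FS ΛY hY T' (fun AY => if HT hY AY = T' + i' then V (w + DG zY AY - y) else 0)
        = FS ΛY hY T' (fun AY => if HT hY AY = T' + i' then D (i, y) * V (w + DG zY AY - y) else 0) := by
      intro y
      rw [← FS_mul_left]
      congr 1
      funext AY
      split_ifs <;> simp
    have l2 : ∀ y, (FS ΛY hY T' (fun AY => if HT hY AY = T' + i' then D (i, w + DG zY AY - y) else 0))
        * V y = FS ΛY hY T' (fun AY => if HT hY AY = T' + i' then D (i, w + DG zY AY - y) * V y else 0) := by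
      intro y
      rw [mul_comm, ← FS_mul_left]
      congr 1
      funext AY
      split_ifs
      · ring
      · simp
    rw [tsum_congr l1, tsum_congr l2, ← FS_tsum, ← FS_tsum]
    congr 1
    funext AY
    by_cases h : HT hY AY = T' + i'
    · simp only [if_pos h]
      rw [← (Equiv.subLeft (w + DG zY AY)).tsum_eq (fun y => D (i, w + DG zY AY - y) * V y)]
      refine tsum_congr fun y => ?_
      simp
    · simp only [if_neg h]
  calc ∑' x, D x * Φ x ≤ ∑' x : ℕ × G, D x * (if x.1 < i0 + 1 then ∑ i' ∈ Finset.range (i0 + 1),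
      FS ΛY hY T' (fun AY => if HT hY AY = T' + i' then ∑ j ∈ Finset.range (i0 + 1),
        ∑ j' ∈ Finset.range (i0 + 1), W j j' (T + x.1) (T' + i') (w + DG zY AY - x.2) else 0) else 0) :=
        ENNReal.tsum_le_tsum fun x => mul_le_mul_right (hΦ2 x) _
    _ = ∑ i ∈ Finset.range (i0 + 1), ∑' y, D (i, y) * ∑ i' ∈ Finset.range (i0 + 1),
      FS ΛY hY T' (fun AY => if HT hY AY = T' + i' then ∑ j ∈ Finset.range (i0 + 1),
        ∑ j' ∈ Finset.range (i0 + 1), W j j' (T + i) (T' + i') (w + DG zY AY - y) else 0) := by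
        rw [ENNReal.tsum_prod', tsum_eq_sum (s := Finset.range (i0 + 1))]
        · refine Finset.sum_congr rfl fun i hi => tsum_congr fun y => ?_
          rw [if_pos (Finset.mem_range.1 hi)]
        · intro i hi
          refine ENNReal.tsum_eq_zero.2 fun y => ?_
          rw [if_neg (by simpa using hi), mul_zero]
    _ ≤ ∑ i ∈ Finset.range (i0 + 1), ∑ i' ∈ Finset.range (i0 + 1), ∑ j ∈ Finset.range (i0 + 1),
        ∑ j' ∈ Finset.range (i0 + 1), η := by
        refine Finset.sum_le_sum fun i hi => ?_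
        have hi' : i ≤ i0 := Nat.lt_succ_iff.1 (Finset.mem_range.1 hi)
        simp_rw [Finset.mul_sum]
        rw [Summable.tsum_finsetSum (fun _ _ => ENNReal.summable)]
        refine Finset.sum_le_sum fun i' hi2 => ?_
        have hi2' : i' ≤ i0 := Nat.lt_succ_iff.1 (Finset.mem_range.1 hi2)
        rw [hconv i i' (fun y => ∑ j ∈ Finset.range (i0 + 1), ∑ j' ∈ Finset.range (i0 + 1),
          W j j' (T + i) (T' + i') y)]
        simp_rw [Finset.mul_sum]
        rw [Summable.tsum_finsetSum (fun _ _ => ENNReal.summable)]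
        refine Finset.sum_le_sum fun j hj => ?_
        rw [Summable.tsum_finsetSum (fun _ _ => ENNReal.summable)]
        refine Finset.sum_le_sum fun j' hj' => ?_
        refine hη i i' j j' hi' hi2' (Nat.lt_succ_iff.1 (Finset.mem_range.1 hj))
          (Nat.lt_succ_iff.1 (Finset.mem_range.1 hj')) _ ?_ ?_
        · rw [← FS_tsum]
          refine FS_le_one ΛY hY hY1 sY _ fun AY => ?_
          split_ifs
          · have e5 : ∑' y, D (i, w + DG zY AY - y) = ∑' y, D (i, y) :=
              (Equiv.subLeft (w + DG zY AY)).tsum_eq (fun y => D (i, y))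
            rw [e5]
            refine le_trans ?_ hD1
            rw [ENNReal.tsum_prod']
            exact ENNReal.le_tsum (f := fun i => ∑' y, D (i, y)) i
          · simp
        · intro y
          refine (FS_mono _ _ fun AY _ => ?_).trans (FS_const ΛY hY hY1 sY T' M).le
          split_ifs
          · exact hDM _
          · exact zero_le
    _ = (i0 + 1 : ℕ) ^ 4 * η := by
        simp only [Finset.sum_const, Finset.card_range, nsmul_eq_mul]
        ring

end Crest.Agent.R154.Mid562
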