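import Crest.Agent.R154.MidB_752
import Crest.Agent.R154.Dens_903

/-! Row 154 (helper752), ROAD 801: data of one walker (threshold, local set, smooth part). -/

set_option autoImplicit false

namespace Crest.Agent.R154.Mid752

open Crest.Agent.R154.B5A Crest.Agent.R154.FP178
open scoped ENNReal

section single
variable {B G : Type*} [AddCommGroup G] (Λ : B → ℝ≥0∞) (ht : B → ℕ) (dsp : B → G)

open Classical in
lemma mass_one (h1 : ∀ b, 1 ≤ ht b) (hΛ : ∑' b, Λ b = 1) (a : ℕ) :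
    ∑' L, (if fp ht a L then LW Λ L else 0) = 1 := by
  induction a using Nat.strong_induction_on with
  | _ a ih =>
    rcases Nat.eq_zero_or_pos a with rfl | ha
    · have := sum_fp_zero Λ ht (fun _ => 1)
      simpa only [mul_one] using this
    · have := sum_fp_step Λ ht a ha (fun _ => 1)
      simp only [mul_one] at this
      rw [this]
      calc ∑' b, Λ b * ∑' L, (if fp ht (a - ht b) L then LW Λ L else 0)
          = ∑' b, Λ b * 1 := by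
            refine tsum_congr fun b => ?_
            rw [ih (a - ht b) (by have := h1 b; omega)]
        _ = 1 := by simpa using hΛ

open Classical in
lemma sum_p (h1 : ∀ b, 1 ≤ ht b) (hΛ : ∑' b, Λ b = 1) (τ : ℕ) :
    ∑' x : ℕ × G, pL Λ ht dsp τ x.1 x.2 = 1 := by
  rw [← mass_one Λ ht h1 hΛ τ]
  simp only [pL]
  rw [ENNReal.tsum_comm]
  refine tsum_congr fun L => ?_
  by_cases h : fp ht τ L
  · simp only [if_pos h]
    rw [ENNReal.tsum_mul_left, tsum_eq_single (HT ht L - τ, dL dsp L)]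
    · have := le_HT_of_fp ht h
      simp only
      rw [if_pos ⟨by omega, trivial⟩, mul_one]
    · intro x hx
      rw [if_neg]
      rintro ⟨h2, h3⟩
      apply hx
      ext
      · simp only; omega
      · exact h3.symm
  · simp only [if_neg h, tsum_zero]

open Classical in
/-- data of one walker -/
lemma single_data (h1 : ∀ b, 1 ≤ ht b) (hΛ : ∑' b, Λ b = 1) (hU1 : ∀ n, U Λ ht n ≤ 1)
    (τ i0 J T : ℕ) (hT : J * (τ + i0) ≤ T) (u : ℝ≥0∞) (hu0 : u ≠ 0) (hu1 : u ≤ 1) :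
    ∃ (θ M : ℝ≥0∞) (E : ℕ → Finset G) (g b : G → ℝ≥0∞),
      (∀ i, ∀ z, θ ≤ pL Λ ht dsp τ i z → z ∈ E i) ∧
      (∑ i ∈ Finset.range (i0 + 1), ∑' z, (if pL Λ ht dsp τ i z < θ then
        pL Λ ht dsp τ i z else 0) ≤ u) ∧
      (∀ z, mL Λ ht dsp T z = g z + b z) ∧ (∀ z, g z ≤ M) ∧
      (∑' z, b z ≤ (1 - u) ^ J + J * ov Λ ht i0) ∧
      (∀ i, M * (E i).card ≤ (i0 + 1) * J) := by
  have hp := sum_p Λ ht dsp h1 hΛ τ
  obtain ⟨θ, hθ0, hθ1, hlow, hhigh⟩ := Dens903.quantile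
    (fun x : ℕ × G => pL Λ ht dsp τ x.1 x.2) hp hu0 hu1
  have hr : ∑ i ∈ Finset.range (i0 + 1), ∑' z, (if θ < pL Λ ht dsp τ i z then
      pL Λ ht dsp τ i z else 0) ≤ 1 - u := by
    have e1 : ∑ i ∈ Finset.range (i0 + 1), ∑' z, (if θ < pL Λ ht dsp τ i z then
        pL Λ ht dsp τ i z else 0)
        ≤ ∑' x : ℕ × G, (if θ < pL Λ ht dsp τ x.1 x.2 then pL Λ ht dsp τ x.1 x.2 else 0) := by
      rw [ENNReal.tsum_prod']
      exact ENNReal.sum_le_tsum _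
    have e2 : ∑' x : ℕ × G, (if θ < pL Λ ht dsp τ x.1 x.2 then pL Λ ht dsp τ x.1 x.2 else 0)
        + ∑' x : ℕ × G, (if pL Λ ht dsp τ x.1 x.2 ≤ θ then pL Λ ht dsp τ x.1 x.2 else 0) = 1 := by
      rw [← ENNReal.tsum_add, ← hp]
      refine tsum_congr fun x => ?_
      by_cases h : θ < pL Λ ht dsp τ x.1 x.2
      · rw [if_pos h, if_neg (not_le.2 h), add_zero]
      · rw [if_neg h, if_pos (not_lt.1 h), zero_add]
    refine ENNReal.le_sub_of_add_le_right (ne_top_of_le_ne_top ENNReal.one_ne_top hu1) ?_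
    calc _ ≤ ∑' x : ℕ × G, (if θ < pL Λ ht dsp τ x.1 x.2 then pL Λ ht dsp τ x.1 x.2 else 0)
        + ∑' x : ℕ × G, (if pL Λ ht dsp τ x.1 x.2 ≤ θ then pL Λ ht dsp τ x.1 x.2 else 0) :=
          add_le_add e1 hhigh
      _ = 1 := e2
  obtain ⟨g, b, hgb, hg, hb⟩ := smooth Λ ht dsp h1 hΛ.le τ i0 θ (1 - u) (ov Λ ht i0)
    tsub_le_self hr (overshoot Λ ht h1 hU1 i0 τ) J T hT
  have hfin : ∀ i, {z | θ ≤ pL Λ ht dsp τ i z}.Finite := fun i =>
    ENNReal.finite_const_le_of_tsum_ne_top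
      (ne_top_of_le_ne_top ENNReal.one_ne_top (tsum_pL_le Λ ht dsp h1 hΛ.le τ i)) hθ0
  refine ⟨θ, θ * (i0 + 1) * ∑ j ∈ Finset.range J, (1 - u) ^ j, fun i => (hfin i).toFinset, g, b,
    ?_, ?_, hgb, hg, hb, ?_⟩
  · intro i z hz
    rw [Set.Finite.mem_toFinset]
    exact hz
  · refine le_trans ?_ hlow
    rw [ENNReal.tsum_prod']
    exact ENNReal.sum_le_tsum _
  · intro i
    have hc : ((hfin i).toFinset.card : ℝ≥0∞) * θ ≤ 1 := by
      calc ((hfin i).toFinset.card : ℝ≥0∞) * θ = ∑ _z ∈ (hfin i).toFinset, θ := by simp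
        _ ≤ ∑ z ∈ (hfin i).toFinset, pL Λ ht dsp τ i z := by
            refine Finset.sum_le_sum fun z hz => ?_
            rw [Set.Finite.mem_toFinset] at hz
            exact hz
        _ ≤ ∑' z, pL Λ ht dsp τ i z := ENNReal.sum_le_tsum _
        _ ≤ 1 := tsum_pL_le Λ ht dsp h1 hΛ.le τ i
    have hs : ∑ j ∈ Finset.range J, (1 - u) ^ j ≤ (J : ℝ≥0∞) := by
      calc ∑ j ∈ Finset.range J, (1 - u) ^ j ≤ ∑ _j ∈ Finset.range J, (1 : ℝ≥0∞) :=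
            Finset.sum_le_sum fun j _ => pow_le_one' tsub_le_self _
        _ = J := by simp
    calc θ * (i0 + 1) * (∑ j ∈ Finset.range J, (1 - u) ^ j) * ((hfin i).toFinset.card : ℝ≥0∞)
        = (((hfin i).toFinset.card : ℝ≥0∞) * θ) * ((i0 + 1) * ∑ j ∈ Finset.range J, (1 - u) ^ j) := by
          ring
      _ ≤ 1 * ((i0 + 1) * J) := mul_le_mul' hc (mul_le_mul_right hs _)
      _ = (i0 + 1) * J := one_mul _

end single

section window

variable {BX BY G : Type*} [AddCommGroup G]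
  (ΛX : BX → ℝ≥0∞) (hX : BX → ℕ) (zX : BX → G)
  (ΛY : BY → ℝ≥0∞) (hY : BY → ℕ) (zY : BY → G)
  (CP : ℕ → ℕ → G → List BX → List BY → Set ℕ)

/-- qualitative window lemma, X local -/
def WinX : Prop :=
  ∀ (Cst : ℝ≥0∞), Cst ≠ ⊤ → ∀ (i0 : ℕ) (η : ℝ≥0∞), η ≠ 0 → ∃ s : ℕ,
    ∀ (h h' a a' lo hi : ℕ) (E : Finset G) (μ : G → ℝ≥0∞) (M : ℝ≥0∞),
      ∑' x, μ x ≤ 1 → (∀ x, μ x ≤ M) → M * E.card ≤ Cst → a ≤ a' → a' ≤ a + i0 →
      a + h ≤ a' + h' → a' + h' ≤ a + h + i0 → a' + s ≤ lo → hi + s ≤ a + h →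
      ∑' x, μ x * Q2 ΛX hX zX ΛY hY CP lo hi h h' a a' E x ≤ η

/-- qualitative window lemma, Y local -/
def WinY : Prop :=
  ∀ (Cst : ℝ≥0∞), Cst ≠ ⊤ → ∀ (i0 : ℕ) (η : ℝ≥0∞), η ≠ 0 → ∃ s : ℕ,
    ∀ (h h' a a' lo hi : ℕ) (E : Finset G) (μ : G → ℝ≥0∞) (M : ℝ≥0∞),
      ∑' x, μ x ≤ 1 → (∀ x, μ x ≤ M) → M * E.card ≤ Cst → a ≤ a' → a' ≤ a + i0 →
      a + h ≤ a' + h' → a' + h' ≤ a + h + i0 → a' + s ≤ lo → hi + s ≤ a + h →
      ∑' x, μ x * Q3 ΛX hX ΛY hY zY CP lo hi h h' a a' E x ≤ η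

open Classical in
/-- one window: two tops and two pieces -/
lemma window (hX1 : ∀ b, 1 ≤ hX b) (hY1 : ∀ b, 1 ≤ hY b) (hΛX : ∑' b, ΛX b = 1)
    (hΛY : ∑' b, ΛY b = 1) (hUX : ∀ n, U ΛX hX n ≤ 1) (hUY : ∀ n, U ΛY hY n ≤ 1)
    (τ i0 J T s : ℕ) (hT : J * (τ + i0) ≤ T) (u : ℝ≥0∞) (hu0 : u ≠ 0) (hu1 : u ≤ 1)
    (η : ℝ≥0∞) (lo hi : ℕ) (hlo : T + 3 * i0 + s ≤ lo) (hhi : hi + s ≤ T + τ)
    (hWX : ∀ (h h' a a' : ℕ) (E : Finset G) (μ : G → ℝ≥0∞) (M : ℝ≥0∞),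
      ∑' x, μ x ≤ 1 → (∀ x, μ x ≤ M) → M * E.card ≤ (i0 + 1) * J → a ≤ a' → a' ≤ a + 4 * i0 →
      a + h ≤ a' + h' → a' + h' ≤ a + h + 4 * i0 → a' + s ≤ lo → hi + s ≤ a + h →
      ∑' x, μ x * Q2 ΛX hX zX ΛY hY CP lo hi h h' a a' E x ≤ η)
    (hWY : ∀ (h h' a a' : ℕ) (E : Finset G) (μ : G → ℝ≥0∞) (M : ℝ≥0∞),
      ∑' x, μ x ≤ 1 → (∀ x, μ x ≤ M) → M * E.card ≤ (i0 + 1) * J → a ≤ a' → a' ≤ a + 4 * i0 →
      a + h ≤ a' + h' → a' + h' ≤ a + h + 4 * i0 → a' + s ≤ lo → hi + s ≤ a + h →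
      ∑' x, μ x * Q3 ΛX hX ΛY hY zY CP lo hi h h' a a' E x ≤ η) (w : G) :
    WW ΛX hX zX ΛY hY zY T (T + 2 * i0) i0 w (VV ΛX hX ΛY hY CP τ i0 lo hi)
      ≤ u * u + ((1 - u) ^ J + J * ov ΛX hX i0 + (i0 + 1) * (i0 + 1) * ((i0 + 1) * (i0 + 1) * η))
        + ((1 - u) ^ J + J * ov ΛY hY i0 + (i0 + 1) * (i0 + 1) * ((i0 + 1) * (i0 + 1) * η)) := by
  obtain ⟨θX, MX, EX, gX, bX, hEX, hnX, hgbX, hgX, hbX, hcX⟩ :=
    single_data ΛX hX zX hX1 hΛX hUX τ i0 J T hT u hu0 hu1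
  obtain ⟨θY, MY, EY, gY, bY, hEY, hnY, hgbY, hgY, hbY, hcY⟩ :=
    single_data ΛY hY zY hY1 hΛY hUY τ i0 J (T + 2 * i0) (by omega) u hu0 hu1
  set V2 : ℕ → ℕ → G → ℝ≥0∞ := fun a a' x => min 1 (∑ i ∈ Finset.range (i0 + 1),
    ∑ j ∈ Finset.range (i0 + 1),
      Q2 ΛX hX zX ΛY hY CP lo hi (τ + i) (τ + j) a a' (EX i) x) with hV2
  set V3 : ℕ → ℕ → G → ℝ≥0∞ := fun a a' x => min 1 (∑ i ∈ Finset.range (i0 + 1),
    ∑ j ∈ Finset.range (i0 + 1),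
      Q3 ΛX hX ΛY hY zY CP lo hi (τ + i) (τ + j) a a' (EY j) x) with hV3
  have hV : ∀ a a' x, VV ΛX hX ΛY hY CP τ i0 lo hi a a' x ≤ u * u + V2 a a' x + V3 a a' x := by
    intro a a' x
    have h1 := VV_le_one ΛX hX ΛY hY CP hX1 hY1 hΛX.le hΛY.le τ i0 lo hi a a' x
    have h2 := VV_split ΛX hX zX ΛY hY zY CP hX1 hY1 hΛX.le hΛY.le τ i0 lo hi a a' x θX θY u EX EY
      (fun i _ z hz => hEX i z hz) (fun i _ z hz => hEY i z hz) hnX hnY
    simp only [hV2, hV3]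
    rcases le_total 1 (∑ i ∈ Finset.range (i0 + 1), ∑ j ∈ Finset.range (i0 + 1),
      Q2 ΛX hX zX ΛY hY CP lo hi (τ + i) (τ + j) a a' (EX i) x) with h3 | h3
    · rw [min_eq_left h3]
      exact h1.trans (le_add_self.trans le_self_add)
    · rcases le_total 1 (∑ i ∈ Finset.range (i0 + 1), ∑ j ∈ Finset.range (i0 + 1),
        Q3 ΛX hX ΛY hY zY CP lo hi (τ + i) (τ + j) a a' (EY j) x) with h4 | h4
      · rw [min_eq_left h4]
        exact h1.trans le_add_self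
      · rw [min_eq_right h3, min_eq_right h4]
        exact h2
  have hX2 : WW ΛX hX zX ΛY hY zY T (T + 2 * i0) i0 w V2
      ≤ ((1 - u) ^ J + J * ov ΛX hX i0)
        + (i0 + 1) * (i0 + 1) * ((i0 + 1) * (i0 + 1) * η) := by
    refine WW_X ΛX hX zX ΛY hY zY hX1 hY1 hΛX.le hΛY.le T (T + 2 * i0) i0 w V2
      (fun a a' x => min_le_left _ _) gX bX MX _ _ hgbX hgX hbX ?_
    intro i hi' j hj' μ hμ1 hμM
    calc ∑' x, μ x * V2 (T + i) (T + 2 * i0 + j) x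
        ≤ ∑' x, μ x * ∑ i' ∈ Finset.range (i0 + 1), ∑ j' ∈ Finset.range (i0 + 1),
          Q2 ΛX hX zX ΛY hY CP lo hi (τ + i') (τ + j') (T + i) (T + 2 * i0 + j) (EX i') x :=
          ENNReal.tsum_le_tsum fun x => mul_le_mul_right (min_le_right _ _) _
      _ = ∑ i' ∈ Finset.range (i0 + 1), ∑ j' ∈ Finset.range (i0 + 1), ∑' x, μ x *
          Q2 ΛX hX zX ΛY hY CP lo hi (τ + i') (τ + j') (T + i) (T + 2 * i0 + j) (EX i') x := by
          simp only [Finset.mul_sum, Summable.tsum_finsetSum (fun _ _ => ENNReal.summable)]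
      _ ≤ ∑ i' ∈ Finset.range (i0 + 1), ∑ j' ∈ Finset.range (i0 + 1), η := by
          refine Finset.sum_le_sum fun i' h1 => Finset.sum_le_sum fun j' h2 => ?_
          have h1' := Finset.mem_range.1 h1
          have h2' := Finset.mem_range.1 h2
          exact hWX _ _ _ _ _ μ MX hμ1 hμM (hcX i') (by omega) (by omega) (by omega) (by omega)
            (by omega) (by omega)
      _ = _ := by
          simp only [Finset.sum_const, Finset.card_range, nsmul_eq_mul]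
          push_cast
          ring
  have hX3 : WW ΛX hX zX ΛY hY zY T (T + 2 * i0) i0 w V3
      ≤ ((1 - u) ^ J + J * ov ΛY hY i0)
        + (i0 + 1) * (i0 + 1) * ((i0 + 1) * (i0 + 1) * η) := by
    refine WW_Y ΛX hX zX ΛY hY zY hX1 hY1 hΛX.le hΛY.le T (T + 2 * i0) i0 w V3
      (fun a a' x => min_le_left _ _) gY bY MY _ _ hgbY hgY hbY ?_
    intro i hi' j hj' μ hμ1 hμM
    calc ∑' x, μ x * V3 (T + i) (T + 2 * i0 + j) x
        ≤ ∑' x, μ x * ∑ i' ∈ Finset.range (i0 + 1), ∑ j' ∈ Finset.range (i0 + 1),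
          Q3 ΛX hX ΛY hY zY CP lo hi (τ + i') (τ + j') (T + i) (T + 2 * i0 + j) (EY j') x :=
          ENNReal.tsum_le_tsum fun x => mul_le_mul_right (min_le_right _ _) _
      _ = ∑ i' ∈ Finset.range (i0 + 1), ∑ j' ∈ Finset.range (i0 + 1), ∑' x, μ x *
          Q3 ΛX hX ΛY hY zY CP lo hi (τ + i') (τ + j') (T + i) (T + 2 * i0 + j) (EY j') x := by
          simp only [Finset.mul_sum, Summable.tsum_finsetSum (fun _ _ => ENNReal.summable)]
      _ ≤ ∑ i' ∈ Finset.range (i0 + 1), ∑ j' ∈ Finset.range (i0 + 1), η := by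
          refine Finset.sum_le_sum fun i' h1 => Finset.sum_le_sum fun j' h2 => ?_
          have h1' := Finset.mem_range.1 h1
          have h2' := Finset.mem_range.1 h2
          exact hWY _ _ _ _ _ μ MY hμ1 hμM (hcY j') (by omega) (by omega) (by omega) (by omega)
            (by omega) (by omega)
      _ = _ := by
          simp only [Finset.sum_const, Finset.card_range, nsmul_eq_mul]
          push_cast
          ring
  calc _ ≤ WW ΛX hX zX ΛY hY zY T (T + 2 * i0) i0 w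
        (fun a a' x => (u * u + V2 a a' x) + V3 a a' x) :=
        WW_mono ΛX hX zX ΛY hY zY T (T + 2 * i0) i0 w hV
    _ = WW ΛX hX zX ΛY hY zY T (T + 2 * i0) i0 w (fun _ _ _ => u * u)
        + WW ΛX hX zX ΛY hY zY T (T + 2 * i0) i0 w V2
        + WW ΛX hX zX ΛY hY zY T (T + 2 * i0) i0 w V3 := by
        rw [WW_add ΛX hX zX ΛY hY zY T (T + 2 * i0) i0 w (fun a a' x => u * u + V2 a a' x) V3,
          WW_add ΛX hX zX ΛY hY zY T (T + 2 * i0) i0 w (fun _ _ _ => u * u) V2]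
    _ ≤ _ := add_le_add (add_le_add (WW_const ΛX hX zX ΛY hY zY hX1 hY1 hΛX.le hΛY.le T
        (T + 2 * i0) i0 w (u * u)) hX2) hX3

end window

end Crest.Agent.R154.Mid752
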