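import Crest.Agent.R154.MidC_562

/-! Row 154, T0219 (kappa = 0), ROAD 801 (helper562): the bound of one window. -/

set_option autoImplicit false
set_option linter.unusedSectionVars false
set_option linter.unusedVariables false

namespace Crest.Agent.R154.Mid562

open scoped ENNReal Classical
open Crest.Agent.R154.B5A

lemma FS_comm {B C : Type*} (Λ : B → ℝ≥0∞) (ht : B → ℕ) (Λ' : C → ℝ≥0∞) (ht' : C → ℕ) (a b : ℕ)
    (F : List B → List C → ℝ≥0∞) :
    FS Λ ht a (fun P => FS Λ' ht' b (fun A => F P A))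
      = FS Λ' ht' b (fun A => FS Λ ht a (fun P => F P A)) := by
  simp only [FS]
  have l1 : ∀ P, (if FR ht a P then LW Λ P * ∑' A, (if FR ht' b A then LW Λ' A * F P A else 0) else 0)
      = ∑' A, (if FR ht a P ∧ FR ht' b A then LW Λ P * (LW Λ' A * F P A) else 0) := by
    intro P
    by_cases h : FR ht a P
    · simp only [if_pos h, h, true_and]
      rw [← ENNReal.tsum_mul_left]
      refine tsum_congr fun A => ?_
      split_ifs <;> simp
    · simp [h]
  have l2 : ∀ A, (if FR ht' b A then LW Λ' A * ∑' P, (if FR ht a P then LW Λ P * F P A else 0) else 0)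
      = ∑' P, (if FR ht a P ∧ FR ht' b A then LW Λ P * (LW Λ' A * F P A) else 0) := by
    intro A
    by_cases h : FR ht' b A
    · simp only [if_pos h, h, and_true]
      rw [← ENNReal.tsum_mul_left]
      refine tsum_congr fun P => ?_
      split_ifs
      · ring
      · simp
    · simp [h]
  rw [tsum_congr l1, tsum_congr l2, ENNReal.tsum_comm]

variable {BX BY G : Type*} [AddCommGroup G]
variable (ΛX : BX → ℝ≥0∞) (hX : BX → ℕ) (zX : BX → G)
variable (ΛY : BY → ℝ≥0∞) (hY : BY → ℕ) (zY : BY → G)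

lemma Q4_comm (T τ T' τ' : ℕ) (F : List BX → List BX → List BY → List BY → ℝ≥0∞) :
    Q4 ΛX hX ΛY hY T τ T' τ' F
      = Q4 ΛY hY ΛX hX T' τ' T τ (fun AY PY AX PX => F AX PX AY PY) := by
  unfold Q4
  calc _ = FS ΛX hX T (fun AX => FS ΛY hY T' (fun AY => FS ΛX hX τ (fun PX => FS ΛY hY τ'
        (fun PY => F AX PX AY PY)))) := by
        congr 1; funext AX
        rw [FS_comm ΛX hX ΛY hY τ T' (fun PX AY => FS ΛY hY τ' (fun PY => F AX PX AY PY))]
    _ = FS ΛY hY T' (fun AY => FS ΛX hX T (fun AX => FS ΛX hX τ (fun PX => FS ΛY hY τ'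
        (fun PY => F AX PX AY PY)))) := by
        rw [FS_comm ΛX hX ΛY hY T T' (fun AX AY => FS ΛX hX τ (fun PX => FS ΛY hY τ'
          (fun PY => F AX PX AY PY)))]
    _ = FS ΛY hY T' (fun AY => FS ΛX hX T (fun AX => FS ΛY hY τ' (fun PY => FS ΛX hX τ
        (fun PX => F AX PX AY PY)))) := by
        congr 1; funext AY; congr 1; funext AX
        rw [FS_comm ΛX hX ΛY hY τ τ' (fun PX PY => F AX PX AY PY)]
    _ = _ := by
        congr 1; funext AY
        rw [FS_comm ΛX hX ΛY hY T τ' (fun AX PY => FS ΛX hX τ (fun PX => F AX PX AY PY))]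

lemma geo_le (u : ℝ≥0∞) (hu : u ≠ 0) (hu1 : u ≤ 1) (J : ℕ) :
    ∑ j ∈ Finset.range J, (1 - u) ^ j ≤ 1 / u := by
  calc _ ≤ ∑' j, (1 - u) ^ j := ENNReal.sum_le_tsum _
    _ = (1 - (1 - u))⁻¹ := ENNReal.tsum_geometric _
    _ = 1 / u := by rw [ENNReal.sub_sub_cancel (by simp) hu1, one_div]

/-- smooth density of one walker from the quantile -/
lemma dens_q {B : Type*} (Λ : B → ℝ≥0∞) (ht : B → ℕ) (z : B → G) (h1 : ∀ b, 1 ≤ ht b)
    (hΛ : ∑' b, Λ b = 1) (τ i0 : ℕ) (th u : ℝ≥0∞) (hu : u ≠ 0) (hu1 : u ≤ 1)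
    (hq : u ≤ ∑' x, if pl Λ ht z τ x ≤ 2 * th then pl Λ ht z τ x else 0) (J T : ℕ)
    (hT : (τ + i0) * J ≤ T) : ∃ D : ℕ × G → ℝ≥0∞,
      (∀ x, D x ≤ 1 / u * ((i0 + 1 : ℕ) * (2 * th))) ∧ (∑' x, D x ≤ 1) ∧
      ∀ Φ : ℕ × G → ℝ≥0∞, (∀ x, Φ x ≤ 1) →
        FS Λ ht T (fun A => Φ (HT ht A - T, DG z A)) ≤
          ((1 - u) ^ J + 1 / u * ep Λ ht i0) + ∑' x, D x * Φ x := by
  have hv : ∑' x, (if pl Λ ht z τ x ≤ 2 * th then 0 else pl Λ ht z τ x) ≤ 1 - u := by
    have hsum : (∑' x, (if pl Λ ht z τ x ≤ 2 * th then 0 else pl Λ ht z τ x))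
        + (∑' x, if pl Λ ht z τ x ≤ 2 * th then pl Λ ht z τ x else 0) = 1 := by
      rw [← ENNReal.tsum_add, ← pl_sum Λ ht z h1 hΛ τ]
      refine tsum_congr fun x => ?_
      split_ifs <;> simp
    refine ENNReal.le_sub_of_add_le_right (ne_top_of_le_ne_top ENNReal.one_ne_top hu1) ?_
    rw [← hsum]
    exact add_le_add le_rfl hq
  obtain ⟨D, h2, h3, h4⟩ := dens Λ ht z h1 hΛ τ i0 th u (1 - u) hv J T hT
  have hg := geo_le u hu hu1 J
  refine ⟨D, fun x => (h2 x).trans (mul_le_mul_left hg _), h3, fun Φ hΦ => (h4 Φ hΦ).trans ?_⟩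
  gcongr

variable {T τ T' τ' : ℕ}

/-- **one window** -/
theorem window (hX1 : ∀ b, 1 ≤ hX b) (sX : ∑' b, ΛX b = 1) (hY1 : ∀ b, 1 ≤ hY b)
    (sY : ∑' b, ΛY b = 1) (i0 : ℕ) (w : G)
    (E5 : ℕ → ℕ → G → List BX → List BY → ℝ≥0∞) (hE5 : ∀ a a' x P P', E5 a a' x P P' ≤ 1)
    (u η : ℝ≥0∞) (hu : u ≠ 0) (hu1 : u ≤ 1) (J : ℕ)
    (hJ : (τ + i0) * J ≤ T) (hJ' : (τ' + i0) * J ≤ T')
    (h2 : ∀ i i' j j', i ≤ i0 → i' ≤ i0 → j ≤ i0 → j' ≤ i0 → ∀ (E : Finset G) (μ : G → ℝ≥0∞)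
      (M : ℝ≥0∞), ∑' x, μ x ≤ 1 → (∀ x, μ x ≤ M) → M * E.card ≤ 1 / u * ((i0 + 1 : ℕ) * 2) →
      ∑' x, μ x * ∑' P, ∑' P', (if HT hX P = τ + j ∧ DG zX P ∈ E ∧ HT hY P' = τ' + j' then
        LW ΛX P * LW ΛY P' * E5 (T + i) (T' + i') x P P' else 0) ≤ η)
    (h3 : ∀ i i' j j', i ≤ i0 → i' ≤ i0 → j ≤ i0 → j' ≤ i0 → ∀ (E : Finset G) (μ : G → ℝ≥0∞)
      (M : ℝ≥0∞), ∑' x, μ x ≤ 1 → (∀ x, μ x ≤ M) → M * E.card ≤ 1 / u * ((i0 + 1 : ℕ) * 2) →
      ∑' x, μ x * ∑' P, ∑' P', (if HT hX P = τ + j ∧ HT hY P' = τ' + j' ∧ DG zY P' ∈ E then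
        LW ΛX P * LW ΛY P' * E5 (T + i) (T' + i') x P P' else 0) ≤ η) :
    Q4 ΛX hX ΛY hY T τ T' τ' (fun AX PX AY PY =>
        if HT hX AX ≤ T + i0 then (if HT hY AY ≤ T' + i0 then
          E5 (HT hX AX) (HT hY AY) (w + DG zY AY - DG zX AX) PX PY else 1) else 1) ≤
      2 * ep ΛX hX i0 + 2 * ep ΛY hY i0 + u * u
        + ((1 - u) ^ J + 1 / u * ep ΛX hX i0 + (i0 + 1 : ℕ) ^ 4 * η)
        + ((1 - u) ^ J + 1 / u * ep ΛY hY i0 + (i0 + 1 : ℕ) ^ 4 * η) := by
  obtain ⟨thX, tX0, tXt, tX1, tX2⟩ := quantile (pl ΛX hX zX τ) (pl_sum ΛX hX zX hX1 sX τ) u hu hu1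
  obtain ⟨thY, tY0, tYt, tY1, tY2⟩ := quantile (pl ΛY hY zY τ') (pl_sum ΛY hY zY hY1 sY τ') u hu hu1
  obtain ⟨DX, dX1, dX2, dX3⟩ := dens_q ΛX hX zX hX1 sX τ i0 thX u hu hu1 tX2 J T hJ
  obtain ⟨DY, dY1, dY2, dY3⟩ := dens_q ΛY hY zY hY1 sY τ' i0 thY u hu hu1 tY2 J T' hJ'
  -- X local
  have pX := part_loc ΛX hX zX ΛY hY zY (T := T) (τ := τ) (T' := T') (τ' := τ') hX1 sX hY1 sY i0 w
    (fun a a' x P P' => if Loc ΛX hX zX τ thX P then E5 a a' x P P' else 0)
    (fun a a' x P P' => by split_ifs; exacts [hE5 _ _ _ _ _, zero_le])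
    _ _ η DX dX1 dX2 dX3 (by
      intro i i' j j' hi hi' hj hj' μ hμ hμM
      obtain ⟨E, hE, hEc⟩ := loc_finset ΛX hX zX hX1 sX τ thX tX0 (τ + j)
      refine le_trans (le_of_eq ?_) (h2 i i' j j' hi hi' hj hj' E μ _ hμ hμM ?_)
      · refine tsum_congr fun x => ?_
        congr 1
        refine tsum_congr fun P => tsum_congr fun P' => ?_
        by_cases hP : HT hX P = τ + j
        · have : Loc ΛX hX zX τ thX P ↔ DG zX P ∈ E := by
            rw [hE, Loc, hP]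
          by_cases hl : DG zX P ∈ E
          · by_cases hP' : HT hY P' = τ' + j' <;> simp [hP, hP', hl, this]
          · by_cases hP' : HT hY P' = τ' + j' <;> simp [hP, hP', hl, this]
        · simp [hP]
      · calc 1 / u * ((i0 + 1 : ℕ) * (2 * thX)) * (E.card : ℝ≥0∞)
            ≤ 1 / u * ((i0 + 1 : ℕ) * (2 * thX)) * (1 / thX) := mul_le_mul_right hEc _
          _ = 1 / u * ((i0 + 1 : ℕ) * 2) * (thX * (1 / thX)) := by ring
          _ = 1 / u * ((i0 + 1 : ℕ) * 2) := by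
              rw [one_div thX, ENNReal.mul_inv_cancel tX0 tXt, mul_one])
  -- Y local
  have pY := part_loc ΛY hY zY ΛX hX zX (T := T') (τ := τ') (T' := T) (τ' := τ) hY1 sY hX1 sX i0
    (-w)
    (fun a a' x P P' => if Loc ΛY hY zY τ' thY P then E5 a' a (-x) P' P else 0)
    (fun a a' x P P' => by split_ifs; exacts [hE5 _ _ _ _ _, zero_le])
    _ _ η DY dY1 dY2 dY3 (by
      intro i i' j j' hi hi' hj hj' μ hμ hμM
      obtain ⟨E, hE, hEc⟩ := loc_finset ΛY hY zY hY1 sY τ' thY tY0 (τ' + j)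
      refine le_trans (le_of_eq ?_) (h3 i' i j' j hi' hi hj' hj E (fun x => μ (-x)) _ ?_
        (fun x => hμM _) ?_)
      · rw [← (Equiv.neg G).tsum_eq]
        refine tsum_congr fun x => ?_
        simp only [Equiv.neg_apply, neg_neg]
        congr 1
        rw [ENNReal.tsum_comm]
        refine tsum_congr fun P => tsum_congr fun P' => ?_
        by_cases hP : HT hY P' = τ' + j
        · have : Loc ΛY hY zY τ' thY P' ↔ DG zY P' ∈ E := by
            rw [hE, Loc, hP]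
          by_cases hl : DG zY P' ∈ E
          · by_cases hP' : HT hX P = τ + j' <;> simp [hP, hP', hl, this, mul_comm]
          · by_cases hP' : HT hX P = τ + j' <;> simp [hP, hP', hl, this]
        · simp [hP]
      · have := (Equiv.neg G).tsum_eq μ
        simp only [Equiv.neg_apply] at this
        rw [this]; exact hμ
      · calc 1 / u * ((i0 + 1 : ℕ) * (2 * thY)) * (E.card : ℝ≥0∞)
            ≤ 1 / u * ((i0 + 1 : ℕ) * (2 * thY)) * (1 / thY) := mul_le_mul_right hEc _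
          _ = 1 / u * ((i0 + 1 : ℕ) * 2) * (thY * (1 / thY)) := by ring
          _ = 1 / u * ((i0 + 1 : ℕ) * 2) := by
              rw [one_div thY, ENNReal.mul_inv_cancel tY0 tYt, mul_one])
  rw [← Q4_comm] at pY
  -- pointwise bound
  have hpt : Q4 ΛX hX ΛY hY T τ T' τ' (fun AX PX AY PY =>
        if HT hX AX ≤ T + i0 then (if HT hY AY ≤ T' + i0 then
          E5 (HT hX AX) (HT hY AY) (w + DG zY AY - DG zX AX) PX PY else 1) else 1) ≤
      Q4 ΛX hX ΛY hY T τ T' τ' (fun AX PX AY PY =>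
        ((((((if T + i0 < HT hX AX then 1 else 0) + (if T' + i0 < HT hY AY then 1 else 0))
        + (if τ + i0 < HT hX PX then 1 else 0)) + (if τ' + i0 < HT hY PY then 1 else 0))
        + (if Loc ΛX hX zX τ thX PX then 0 else 1) * (if Loc ΛY hY zY τ' thY PY then 0 else 1))
        + (if HT hX AX ≤ T + i0 then if HT hX PX ≤ τ + i0 then if HT hY AY ≤ T' + i0 then
            if HT hY PY ≤ τ' + i0 then (if Loc ΛX hX zX τ thX PX then
              E5 (HT hX AX) (HT hY AY) (w + DG zY AY - DG zX AX) PX PY else 0)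
            else 0 else 0 else 0 else 0))
        + (if HT hY AY ≤ T' + i0 then if HT hY PY ≤ τ' + i0 then if HT hX AX ≤ T + i0 then
            if HT hX PX ≤ τ + i0 then (if Loc ΛY hY zY τ' thY PY then
              E5 (HT hX AX) (HT hY AY) (-(-w + DG zX AX - DG zY AY)) PX PY else 0)
            else 0 else 0 else 0 else 0)) := by
    refine Q4_mono _ _ _ _ fun AX PX AY PY _ _ _ _ => ?_
    by_cases a1 : HT hX AX ≤ T + i0
    · by_cases a2 : HT hY AY ≤ T' + i0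
      · by_cases a3 : HT hX PX ≤ τ + i0
        · by_cases a4 : HT hY PY ≤ τ' + i0
          · by_cases a5 : Loc ΛX hX zX τ thX PX
            · simp only [if_pos a1, if_pos a2, if_pos a3, if_pos a4, if_pos a5]
              exact le_add_right le_add_self
            · by_cases a6 : Loc ΛY hY zY τ' thY PY
              · simp only [if_pos a1, if_pos a2, if_pos a3, if_pos a4, if_pos a6]
                rw [show -(-w + DG zX AX - DG zY AY) = w + DG zY AY - DG zX AX by abel]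
                exact le_add_self
              · simp only [if_pos a1, if_pos a2, if_pos a3, if_pos a4, if_neg a5, if_neg a6, mul_one]
                refine (hE5 _ _ _ _ _).trans ?_
                refine le_add_right (le_add_right le_add_self)
          · simp only [if_pos a1, if_pos a2, if_pos (not_le.1 a4)]
            refine (hE5 _ _ _ _ _).trans ?_
            exact le_add_right (le_add_right (le_add_right le_add_self))
        · simp only [if_pos a1, if_pos a2, if_pos (not_le.1 a3)]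
          refine (hE5 _ _ _ _ _).trans ?_
          exact le_add_right (le_add_right (le_add_right (le_add_right le_add_self)))
      · simp only [if_pos a1, if_neg a2, if_pos (not_le.1 a2)]
        exact le_add_right (le_add_right (le_add_right (le_add_right (le_add_right le_add_self))))
    · simp only [if_neg a1, if_pos (not_le.1 a1)]
      exact le_add_right (le_add_right (le_add_right (le_add_right (le_add_right (le_add_right le_rfl)))))
  refine hpt.trans ?_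
  simp only [Q4_add]
  have q1 : Q4 ΛX hX ΛY hY T τ T' τ' (fun AX _ _ _ => if T + i0 < HT hX AX then 1 else 0)
      ≤ ep ΛX hX i0 := by
    unfold Q4
    simp only [FS_const ΛY hY hY1 sY, FS_const ΛX hX hX1 sX]
    exact Ov_le_ep ΛX hX hX1 sX i0 T
  have q2 : Q4 ΛX hX ΛY hY T τ T' τ' (fun _ _ AY _ => if T' + i0 < HT hY AY then 1 else 0)
      ≤ ep ΛY hY i0 := by
    unfold Q4
    simp only [FS_const ΛY hY hY1 sY, FS_const ΛX hX hX1 sX]
    exact Ov_le_ep ΛY hY hY1 sY i0 T'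
  have q3 : Q4 ΛX hX ΛY hY T τ T' τ' (fun _ PX _ _ => if τ + i0 < HT hX PX then 1 else 0)
      ≤ ep ΛX hX i0 := by
    unfold Q4
    simp only [FS_const ΛY hY hY1 sY, FS_const ΛX hX hX1 sX]
    exact Ov_le_ep ΛX hX hX1 sX i0 τ
  have q4 : Q4 ΛX hX ΛY hY T τ T' τ' (fun _ _ _ PY => if τ' + i0 < HT hY PY then 1 else 0)
      ≤ ep ΛY hY i0 := by
    unfold Q4
    simp only [FS_const ΛY hY hY1 sY, FS_const ΛX hX hX1 sX]
    exact Ov_le_ep ΛY hY hY1 sY i0 τ'
  have q5 : Q4 ΛX hX ΛY hY T τ T' τ' (fun _ PX _ PY => (if Loc ΛX hX zX τ thX PX then 0 else 1)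
      * (if Loc ΛY hY zY τ' thY PY then 0 else 1)) ≤ u * u := by
    unfold Q4
    simp only [FS_mul_left, FS_const ΛY hY hY1 sY, FS_const ΛX hX hX1 sX]
    simp_rw [mul_comm _ (FS ΛY hY τ' _)]
    rw [FS_mul_left, mul_comm]
    exact mul_le_mul' (nonloc ΛX hX zX hX1 τ thX u tX1) (nonloc ΛY hY zY hY1 τ' thY u tY1)
  calc _ ≤ ((((((ep ΛX hX i0) + (ep ΛY hY i0)) + (ep ΛX hX i0)) + (ep ΛY hY i0)) + u * u)
        + ((1 - u) ^ J + 1 / u * ep ΛX hX i0 + (i0 + 1 : ℕ) ^ 4 * η))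
        + ((1 - u) ^ J + 1 / u * ep ΛY hY i0 + (i0 + 1 : ℕ) ^ 4 * η) :=
        add_le_add (add_le_add (add_le_add (add_le_add (add_le_add (add_le_add q1 q2) q3) q4) q5)
          pX) pY
    _ = _ := by ring

end Crest.Agent.R154.Mid562
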