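import Crest.Agent.R154.MidC_752

/-! Row 154 (helper752), ROAD 801: sum over the windows. -/

set_option autoImplicit false

namespace Crest.Agent.R154.Mid752

open Crest.Agent.R154.B5A Crest.Agent.R154.FP178
open scoped ENNReal

variable {BX BY G : Type*} [AddCommGroup G]
  (ΛX : BX → ℝ≥0∞) (hX : BX → ℕ) (zX : BX → G)
  (ΛY : BY → ℝ≥0∞) (hY : BY → ℕ) (zY : BY → G)
  (CP : ℕ → ℕ → G → List BX → List BY → Set ℕ) (CC : G → List BX → List BY → Set ℕ)

open Classical in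
/-- pair sum -/
noncomputable def PS (n : ℕ) (w : G) (ev : Set ℕ → Prop) : ℝ≥0∞ :=
  ∑' LX : List BX, ∑' LY : List BY, if HT hX LX = n ∧ HT hY LY = n ∧ ev (CC w LX LY)
    then LW ΛX LX * LW ΛY LY else 0

lemma PS_mono {n : ℕ} {w : G} {ev ev' : Set ℕ → Prop} (h : ∀ S, ev S → ev' S) :
    PS ΛX hX ΛY hY CC n w ev ≤ PS ΛX hX ΛY hY CC n w ev' := by
  classical
  unfold PS
  refine ENNReal.tsum_le_tsum fun LX => ENNReal.tsum_le_tsum fun LY => ?_
  by_cases h1 : HT hX LX = n ∧ HT hY LY = n ∧ ev (CC w LX LY)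
  · rw [if_pos h1, if_pos ⟨h1.1, h1.2.1, h _ h1.2.2⟩]
  · rw [if_neg h1]; exact zero_le

lemma PS_or (n : ℕ) (w : G) (ev ev' : Set ℕ → Prop) :
    PS ΛX hX ΛY hY CC n w (fun S => ev S ∨ ev' S)
      ≤ PS ΛX hX ΛY hY CC n w ev + PS ΛX hX ΛY hY CC n w ev' := by
  classical
  unfold PS
  rw [← ENNReal.tsum_add]
  refine ENNReal.tsum_le_tsum fun LX => ?_
  rw [← ENNReal.tsum_add]
  refine ENNReal.tsum_le_tsum fun LY => ?_
  by_cases h1 : HT hX LX = n ∧ HT hY LY = n ∧ (ev (CC w LX LY) ∨ ev' (CC w LX LY))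
  · rw [if_pos h1]
    rcases h1.2.2 with h | h
    · rw [if_pos (show HT hX LX = n ∧ HT hY LY = n ∧ ev (CC w LX LY) from ⟨h1.1, h1.2.1, h⟩)]
      exact le_self_add
    · rw [if_pos (show HT hX LX = n ∧ HT hY LY = n ∧ ev' (CC w LX LY) from ⟨h1.1, h1.2.1, h⟩)]
      exact le_add_self
  · rw [if_neg h1]; exact zero_le

lemma PS_exists (n : ℕ) (w : G) (N : ℕ) (ev : ℕ → Set ℕ → Prop) :
    PS ΛX hX ΛY hY CC n w (fun S => ∃ q < N, ev q S)
      ≤ ∑ q ∈ Finset.range N, PS ΛX hX ΛY hY CC n w (ev q) := by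
  induction N with
  | zero =>
    simp only [Finset.range_zero, Finset.sum_empty]
    unfold PS
    simp
  | succ N ih =>
    rw [Finset.sum_range_succ]
    refine le_trans ?_ (add_le_add ih le_rfl)
    refine le_trans (PS_mono ΛX hX ΛY hY CC (ev' := fun S => (∃ q < N, ev q S) ∨ ev N S) ?_)
      (PS_or ΛX hX ΛY hY CC n w _ _)
    rintro S ⟨q, hq, h⟩
    rcases Nat.lt_succ_iff_lt_or_eq.1 hq with h2 | rfl
    · exact Or.inl ⟨q, h2, h⟩
    · exact Or.inr h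

lemma EF_swap (a b : ℕ) (p : List BX → Prop) (q : List BY → Prop) [DecidablePred p]
    [DecidablePred q] (J : List BY → List BX → ℝ≥0∞) :
    EF ΛX hX a (fun P => if p P then EF ΛY hY b (fun A' => if q A' then J A' P else 0) else 0)
      = EF ΛY hY b (fun A' => if q A' then EF ΛX hX a (fun P => if p P then J A' P else 0)
        else 0) := by
  have e1 : EF ΛX hX a (fun P => if p P then EF ΛY hY b (fun A' => if q A' then J A' P else 0)
      else 0) = ∑' P, ∑' A', wt ΛX hX a P * (wt ΛY hY b A' * (if p P ∧ q A' then J A' P else 0)) := by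
    unfold EF
    refine tsum_congr fun P => ?_
    rw [ENNReal.tsum_mul_left]
    congr 1
    beta_reduce
    by_cases h : p P
    · rw [if_pos h]
      refine tsum_congr fun A' => ?_
      simp [h]
    · rw [if_neg h]
      simp [h]
  have e2 : EF ΛY hY b (fun A' => if q A' then EF ΛX hX a (fun P => if p P then J A' P else 0)
      else 0) = ∑' A', ∑' P, wt ΛX hX a P * (wt ΛY hY b A' * (if p P ∧ q A' then J A' P else 0)) := by
    unfold EF
    refine tsum_congr fun A' => ?_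
    beta_reduce
    by_cases h : q A'
    · rw [if_pos h, ← ENNReal.tsum_mul_left]
      refine tsum_congr fun P => ?_
      simp only [h, and_true]
      ring
    · rw [if_neg h]
      simp [h]
  rw [e1, e2, ENNReal.tsum_comm]

open Classical in
/-- one window: pair sum ≤ tops and pieces -/
lemma PS_window (hX1 : ∀ b, 1 ≤ hX b) (hY1 : ∀ b, 1 ≤ hY b) (hΛX : ∑' b, ΛX b = 1)
    (hΛY : ∑' b, ΛY b = 1) (hUX : ∀ n, U ΛX hX n ≤ 1) (hUY : ∀ n, U ΛY hY n ≤ 1)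
    (f1 : ∀ w A P R A' P' R', CP (HT hX A) (HT hY A') (w + dL zY A' - dL zX A) P P'
      ⊆ CC w (A ++ (P ++ R)) (A' ++ (P' ++ R')))
    (f2 : ∀ w A P R A' P' R' k, k ∈ CC w (A ++ (P ++ R)) (A' ++ (P' ++ R')) →
      HT hX A < k → k ≤ HT hX A + HT hX P → HT hY A' < k → k ≤ HT hY A' + HT hY P' →
      k ∈ CP (HT hX A) (HT hY A') (w + dL zY A' - dL zX A) P P')
    (f3 : ∀ a a' x P P' k, k ∈ CP a a' x P P' → a < k ∧ k ≤ a + HT hX P ∧ a' < k ∧
      k ≤ a' + HT hY P')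
    (n t i0 T s0 : ℕ) (hit : 3 * i0 ≤ t) (hs0 : 2 * i0 + 1 ≤ s0)
    (hn : T + 3 * i0 + 3 * t ≤ n) (hst : s0 ≤ t) (w : G) :
    PS ΛX hX ΛY hY CC n w (fun S => (∃ k ∈ S, T + t < k ∧ k ≤ T + 2 * t) ∧
        (∀ k ∈ S, ¬ (T ≤ k ∧ k < T + 2 * s0)) ∧
        (∀ k ∈ S, ¬ (T + 3 * t - s0 ≤ k ∧ k < T + 3 * t - s0 + 2 * s0)))
      ≤ 2 * ov ΛX hX i0 + 2 * ov ΛY hY i0 +
        WW ΛX hX zX ΛY hY zY T (T + 2 * i0) i0 w
          (VV ΛX hX ΛY hY CP (3 * t) i0 (T + 2 * s0) (T + 3 * t - s0)) := by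
  set ev : Set ℕ → Prop := fun S => (∃ k ∈ S, T + t < k ∧ k ≤ T + 2 * t) ∧
        (∀ k ∈ S, ¬ (T ≤ k ∧ k < T + 2 * s0)) ∧
        (∀ k ∈ S, ¬ (T + 3 * t - s0 ≤ k ∧ k < T + 3 * t - s0 + 2 * s0)) with hev
  set χ : List BX → List BY → ℝ≥0∞ := fun LX LY => if ev (CC w LX LY) then 1 else 0 with hχ
  have hχ1 : ∀ LX LY, χ LX LY ≤ 1 := by
    intro LX LY
    simp only [hχ]
    split_ifs <;> simp
  -- Step 1: pass to first passage lists
  have step1 : PS ΛX hX ΛY hY CC n w ev ≤ EF ΛX hX n (fun LX => EF ΛY hY n (fun LY => χ LX LY)) := by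
    refine le_trans ?_ (sum_le_EF ΛX hX hX1 n (fun LX => EF ΛY hY n (fun LY => χ LX LY)))
    unfold PS
    refine ENNReal.tsum_le_tsum fun LX => ?_
    by_cases h1 : HT hX LX = n
    · rw [if_pos h1]
      refine le_trans ?_ (mul_le_mul_right (sum_le_EF ΛY hY hY1 n (fun LY => χ LX LY)) (LW ΛX LX))
      rw [← ENNReal.tsum_mul_left]
      refine ENNReal.tsum_le_tsum fun LY => ?_
      by_cases h2 : HT hY LY = n
      · by_cases h3 : ev (CC w LX LY)
        · rw [if_pos ⟨h1, h2, h3⟩, if_pos h2]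
          simp only [hχ, if_pos h3, mul_one]
          exact le_rfl
        · rw [if_neg (fun h => h3 h.2.2)]; exact zero_le
      · rw [if_neg (fun h => h2 h.2.1)]; exact zero_le
    · rw [if_neg h1]
      refine le_trans (le_of_eq (ENNReal.tsum_eq_zero.2 fun LY => ?_)) zero_le
      rw [if_neg (fun h => h1 h.1)]
  refine step1.trans ?_
  -- Step 2: decompose
  set I : List BX → List BX → ℝ≥0∞ := fun A P =>
    EF ΛY hY (T + 2 * i0) (fun A' => if HT hY A' ≤ T + 2 * i0 + i0 then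
      EF ΛY hY (3 * t) (fun P' => if HT hY P' ≤ 3 * t + i0 then
        pe CP (T + 2 * s0) (T + 3 * t - s0) (HT hX A) (HT hY A') (w + dL zY A' - dL zX A) P P'
        else 0) else 0) with hI
  have hF : ∀ A P R, fp hX T A → fp hX (3 * t) P → HT hX A ≤ T + i0 → HT hX P ≤ 3 * t + i0 →
      EF ΛY hY n (fun LY => χ (A ++ (P ++ R)) LY) ≤ I A P + 2 * ov ΛY hY i0 := by
    intro A P R hA hP hAi hPi
    refine two ΛY hY hY1 hΛY.le hUY (T := T + 2 * i0) (t := 3 * t) (i0 := i0) (by omega)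
      (fun LY => χ (A ++ (P ++ R)) LY) (fun LY => hχ1 _ _)
      (fun A' P' => pe CP (T + 2 * s0) (T + 3 * t - s0) (HT hX A) (HT hY A')
        (w + dL zY A' - dL zX A) P P') ?_
    intro A' P' R' hA' hP' hAi' hPi'
    have eA := le_HT_of_fp hX hA
    have eP := le_HT_of_fp hX hP
    have eA' := le_HT_of_fp hY hA'
    have eP' := le_HT_of_fp hY hP'
    by_cases h : ev (CC w (A ++ (P ++ R)) (A' ++ (P' ++ R')))
    swap
    · simp only [hχ, if_neg h]; exact zero_le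
    simp only [hχ, if_pos h]
    rw [pe, if_pos]
    obtain ⟨⟨k, hk, hk1, hk2⟩, h3, h4⟩ := h
    refine ⟨⟨k, f2 w A P R A' P' R' k hk (by omega) (by omega) (by omega) (by omega)⟩, ?_⟩
    intro k' hk'
    have h5 := f3 _ _ _ _ _ _ hk'
    have h6 := f1 w A P R A' P' R' hk'
    have h7 := h3 k' h6
    have h8 := h4 k' h6
    constructor
    · by_contra hc
      exact h7 ⟨by omega, by omega⟩
    · by_contra hc
      exact h8 ⟨by omega, by omega⟩
  have step2 := two ΛX hX hX1 hΛX.le hUX (T := T) (t := 3 * t) (i0 := i0) (n := n) (by omega)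
    (fun LX => EF ΛY hY n (fun LY => χ LX LY))
    (fun LX => EF_le ΛY hY hY1 hΛY.le _ fun LY => hχ1 LX LY)
    (fun A P => I A P + 2 * ov ΛY hY i0) hF
  refine step2.trans ?_
  have step3 : EF ΛX hX T (fun A => if HT hX A ≤ T + i0 then
      EF ΛX hX (3 * t) (fun P => if HT hX P ≤ 3 * t + i0 then I A P + 2 * ov ΛY hY i0 else 0)
        else 0) ≤ EF ΛX hX T (fun A => (if HT hX A ≤ T + i0 then
      EF ΛX hX (3 * t) (fun P => if HT hX P ≤ 3 * t + i0 then I A P else 0) else 0)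
        + 2 * ov ΛY hY i0) := by
    refine EF_mono ΛX hX fun A _ => ?_
    by_cases h : HT hX A ≤ T + i0
    · rw [if_pos h, if_pos h]
      calc EF ΛX hX (3 * t) (fun P => if HT hX P ≤ 3 * t + i0 then I A P + 2 * ov ΛY hY i0 else 0)
          ≤ EF ΛX hX (3 * t) (fun P => (if HT hX P ≤ 3 * t + i0 then I A P else 0)
            + 2 * ov ΛY hY i0) := by
            refine EF_mono ΛX hX fun P _ => ?_
            split_ifs
            · exact le_rfl
            · exact zero_le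
        _ = _ := EF_add ΛX hX _ _ _
        _ ≤ _ := add_le_add le_rfl (EF_const_le ΛX hX hX1 hΛX.le _ _)
    · rw [if_neg h]; exact zero_le
  have step4 : EF ΛX hX T (fun A => (if HT hX A ≤ T + i0 then
      EF ΛX hX (3 * t) (fun P => if HT hX P ≤ 3 * t + i0 then I A P else 0) else 0))
      = WW ΛX hX zX ΛY hY zY T (T + 2 * i0) i0 w
          (VV ΛX hX ΛY hY CP (3 * t) i0 (T + 2 * s0) (T + 3 * t - s0)) := by
    unfold WW VV
    congr 1
    funext A
    by_cases h : HT hX A ≤ T + i0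
    · rw [if_pos h, if_pos h]
      simp only [hI]
      exact EF_swap ΛX hX ΛY hY (3 * t) (T + 2 * i0) (fun P => HT hX P ≤ 3 * t + i0)
        (fun A' => HT hY A' ≤ T + 2 * i0 + i0)
        (fun A' P => EF ΛY hY (3 * t) (fun P' => if HT hY P' ≤ 3 * t + i0 then
          pe CP (T + 2 * s0) (T + 3 * t - s0) (HT hX A) (HT hY A') (w + dL zY A' - dL zX A) P P'
          else 0))
    · rw [if_neg h, if_neg h]
  calc _ ≤ EF ΛX hX T (fun A => (if HT hX A ≤ T + i0 then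
      EF ΛX hX (3 * t) (fun P => if HT hX P ≤ 3 * t + i0 then I A P else 0) else 0)
        + 2 * ov ΛY hY i0) + 2 * ov ΛX hX i0 := add_le_add step3 le_rfl
    _ = (EF ΛX hX T (fun A => (if HT hX A ≤ T + i0 then
      EF ΛX hX (3 * t) (fun P => if HT hX P ≤ 3 * t + i0 then I A P else 0) else 0))
        + EF ΛX hX T (fun _ => 2 * ov ΛY hY i0)) + 2 * ov ΛX hX i0 := by
        rw [EF_add ΛX hX T _ (fun _ => 2 * ov ΛY hY i0)]
    _ ≤ (WW ΛX hX zX ΛY hY zY T (T + 2 * i0) i0 w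
          (VV ΛX hX ΛY hY CP (3 * t) i0 (T + 2 * s0) (T + 3 * t - s0))
        + 2 * ov ΛY hY i0) + 2 * ov ΛX hX i0 := by
        rw [step4]
        exact add_le_add (add_le_add le_rfl (EF_const_le ΛX hX hX1 hΛX.le T _)) le_rfl
    _ = _ := by ring

open Classical in
/-- **KAPPA' on lists**: the sum over the windows. -/
theorem kappa_lists (hX1 : ∀ b, 1 ≤ hX b) (hY1 : ∀ b, 1 ≤ hY b) (hΛX : ∑' b, ΛX b = 1)
    (hΛY : ∑' b, ΛY b = 1) (hUX : ∀ n, U ΛX hX n ≤ 1) (hUY : ∀ n, U ΛY hY n ≤ 1)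
    (hoX : Filter.Tendsto (ov ΛX hX) Filter.atTop (nhds 0))
    (hoY : Filter.Tendsto (ov ΛY hY) Filter.atTop (nhds 0))
    (f1 : ∀ w A P R A' P' R', CP (HT hX A) (HT hY A') (w + dL zY A' - dL zX A) P P'
      ⊆ CC w (A ++ (P ++ R)) (A' ++ (P' ++ R')))
    (f2 : ∀ w A P R A' P' R' k, k ∈ CC w (A ++ (P ++ R)) (A' ++ (P' ++ R')) →
      HT hX A < k → k ≤ HT hX A + HT hX P → HT hY A' < k → k ≤ HT hY A' + HT hY P' →
      k ∈ CP (HT hX A) (HT hY A') (w + dL zY A' - dL zX A) P P')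
    (f3 : ∀ a a' x P P' k, k ∈ CP a a' x P P' → a < k ∧ k ≤ a + HT hX P ∧ a' < k ∧
      k ≤ a' + HT hY P')
    (hWX : WinX ΛX hX zX ΛY hY CP) (hWY : WinY ΛX hX ΛY hY zY CP)
    (h5 : ∀ s : ℕ, ∀ η : ℝ≥0∞, η ≠ 0 → ∃ T : ℕ, ∀ a, T ≤ a → ∀ n w,
      PS ΛX hX ΛY hY CC n w (fun S => ∃ k ∈ S, a ≤ k ∧ k < a + s) ≤ η)
    (ε : ℝ≥0∞) (hε : ε ≠ 0) : ∃ M : ℕ, ∀ m, M ≤ m → ∀ n, 4 * m ≤ n → ∀ w,
      PS ΛX hX ΛY hY CC n w (fun S => ∃ k ∈ S, m < k ∧ k ≤ 2 * m) ≤ ε := by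
  -- K and u
  obtain ⟨ε', hε', hε'2⟩ := NumK658.chooseEta 12 (by norm_num) ε hε
  obtain ⟨K, u, hK4, hK1, hu0, hu1, hKu, hKJ⟩ := NumK658.chooseK 4 (by norm_num) ε' hε' 2
  set J := K / 4 - 1 with hJ
  -- δ
  obtain ⟨δ, hδ, hδ2⟩ := NumK658.chooseEta (2 * ((K + 2 : ℕ) * (8 + 2 * J : ℕ)))
    (by exact_mod_cast ENNReal.natCast_ne_top (2 * ((K + 2) * (8 + 2 * J)))) ε hε
  -- i0
  obtain ⟨i1, hi1⟩ := NumK658.chooseNat (ov ΛX hX) hoX 1 ENNReal.one_ne_top δ hδ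
  obtain ⟨i2, hi2⟩ := NumK658.chooseNat (ov ΛY hY) hoY 1 ENNReal.one_ne_top δ hδ
  set i0 := max i1 i2 with hi0
  have hovX : ov ΛX hX i0 ≤ δ := by simpa using hi1 i0 (le_max_left _ _)
  have hovY : ov ΛY hY i0 ≤ δ := by simpa using hi2 i0 (le_max_right _ _)
  -- η
  obtain ⟨η, hη, hη2⟩ := NumK658.chooseEta ((((i0 + 1) * (i0 + 1)) * ((i0 + 1) * (i0 + 1)) : ℕ))
    (ENNReal.natCast_ne_top _) δ hδ
  have hCst : ((i0 : ℝ≥0∞) + 1) * J ≠ ⊤ := by
    exact_mod_cast ENNReal.natCast_ne_top ((i0 + 1) * J)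
  obtain ⟨s1, hs1⟩ := hWX ((i0 + 1) * J) hCst (4 * i0) η hη
  obtain ⟨s2, hs2⟩ := hWY ((i0 + 1) * J) hCst (4 * i0) η hη
  set s := max s1 s2 with hs
  set s0 := s + 4 * i0 + 1 with hs0
  obtain ⟨T5, hT5⟩ := h5 (2 * s0) δ hδ
  -- threshold
  refine ⟨(K + 1) * (T5 + s0 + 2 * K + 4 * i0 + 4), fun m hm n hn w => ?_⟩
  set t := m / K with ht
  have hKt : K * t ≤ m := Nat.mul_div_le m K
  have hKt' : m < K * t + K := by
    have := Nat.lt_div_mul_add (a := m) (b := K) (by omega)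
    rw [← ht, mul_comm] at this
    exact this
  have htbig : T5 + s0 + 2 * K + 4 * i0 + 4 ≤ t := by
    rw [ht, Nat.le_div_iff_mul_le (by omega)]
    calc (T5 + s0 + 2 * K + 4 * i0 + 4) * K ≤ (T5 + s0 + 2 * K + 4 * i0 + 4) * (K + 1) :=
          Nat.mul_le_mul_left _ (by omega)
      _ = (K + 1) * (T5 + s0 + 2 * K + 4 * i0 + 4) := mul_comm _ _
      _ ≤ m := hm
  -- windows
  set TT : ℕ → ℕ := fun q => (K - 1 + q) * t with hTT
  have hTTn : ∀ q < K + 2, TT q + 3 * i0 + 3 * t ≤ n := by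
    intro q hq
    have h1 : TT q ≤ (2 * K) * t := Nat.mul_le_mul_right _ (by omega)
    have h2 : 2 * (K * t) + 4 * t ≤ 4 * (K * t) := by
      have : 2 * t ≤ K * t := Nat.mul_le_mul_right _ hK4
      omega
    have h3 : (2 * K) * t = 2 * (K * t) := by ring
    omega
  have hTTge : ∀ q, t ≤ TT q := by
    intro q
    calc t = 1 * t := (one_mul t).symm
      _ ≤ (K - 1 + q) * t := Nat.mul_le_mul_right _ (by omega)
  set ev1 : ℕ → Set ℕ → Prop := fun q S => ∃ k ∈ S, TT q ≤ k ∧ k < TT q + 2 * s0 with hev1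
  set ev2 : ℕ → Set ℕ → Prop := fun q S => ∃ k ∈ S, TT q + 3 * t - s0 ≤ k ∧
    k < TT q + 3 * t - s0 + 2 * s0 with hev2
  set ev3 : ℕ → Set ℕ → Prop := fun q S => (∃ k ∈ S, TT q + t < k ∧ k ≤ TT q + 2 * t) ∧
        (∀ k ∈ S, ¬ (TT q ≤ k ∧ k < TT q + 2 * s0)) ∧
        (∀ k ∈ S, ¬ (TT q + 3 * t - s0 ≤ k ∧ k < TT q + 3 * t - s0 + 2 * s0)) with hev3
  have cover : ∀ S : Set ℕ, (∃ k ∈ S, m < k ∧ k ≤ 2 * m) →
      ∃ q < K + 2, (ev1 q S ∨ ev2 q S) ∨ ev3 q S := by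
    rintro S ⟨k, hk, hk1, hk2⟩
    set q := (k - 1) / t - K with hq
    have ht0 : 0 < t := by omega
    have h1 : K ≤ (k - 1) / t := by
      rw [Nat.le_div_iff_mul_le ht0]
      omega
    have h2 : (k - 1) / t * t ≤ k - 1 := Nat.div_mul_le_self _ _
    have h3 : k - 1 < (k - 1) / t * t + t := Nat.lt_div_mul_add ht0
    have hqK : (K - 1 + q) + 1 = (k - 1) / t := by omega
    have h4 : TT q + t = (k - 1) / t * t := by
      simp only [hTT]
      rw [← hqK]; ring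
    have hqlt : q < K + 2 := by
      have h5 : (k - 1) / t < 2 * K + 2 := by
        rw [Nat.div_lt_iff_lt_mul ht0]
        have : (2 * K + 2) * t = 2 * (K * t) + 2 * t := by ring
        omega
      omega
    refine ⟨q, hqlt, ?_⟩
    by_cases c1 : ev1 q S
    · exact Or.inl (Or.inl c1)
    by_cases c2 : ev2 q S
    · exact Or.inl (Or.inr c2)
    refine Or.inr ⟨⟨k, hk, by omega, by omega⟩, ?_, ?_⟩
    · intro k' hk' hc
      exact c1 ⟨k', hk', hc⟩
    · intro k' hk' hc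
      exact c2 ⟨k', hk', hc⟩
  have hwin : ∀ q < K + 2, PS ΛX hX ΛY hY CC n w (fun S => (ev1 q S ∨ ev2 q S) ∨ ev3 q S)
      ≤ (u ^ 2 + 2 * (1 - u) ^ J) + (8 + 2 * J : ℕ) * δ := by
    intro q hq
    have hJT : J * (3 * t + i0) ≤ TT q := by
      calc J * (3 * t + i0) ≤ J * (4 * t) := Nat.mul_le_mul_left _ (by omega)
        _ = (J * 4) * t := by ring
        _ ≤ (K - 1 + q) * t := Nat.mul_le_mul_right _ (by omega)
    have p1 : PS ΛX hX ΛY hY CC n w (ev1 q) ≤ δ := hT5 (TT q) (by have := hTTge q; omega) n w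
    have p2 : PS ΛX hX ΛY hY CC n w (ev2 q) ≤ δ :=
      hT5 (TT q + 3 * t - s0) (by have := hTTge q; omega) n w
    have p3 := PS_window ΛX hX zX ΛY hY zY CP CC hX1 hY1 hΛX hΛY hUX hUY f1 f2 f3 n t i0 (TT q) s0
      (by omega) (by omega) (hTTn q hq) (by omega) w
    have p4 := window ΛX hX zX ΛY hY zY CP hX1 hY1 hΛX hΛY hUX hUY (3 * t) i0 J (TT q) s hJT u
      hu0 hu1 η (TT q + 2 * s0) (TT q + 3 * t - s0) (by omega) (by omega)
      (fun h h' a a' E μ M c1 c2 c3 c4 c5 c6 c7 c8 c9 => hs1 h h' a a' _ _ E μ M c1 c2 c3 c4 c5 c6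
        c7 (by omega) (by omega))
      (fun h h' a a' E μ M c1 c2 c3 c4 c5 c6 c7 c8 c9 => hs2 h h' a a' _ _ E μ M c1 c2 c3 c4 c5 c6
        c7 (by omega) (by omega)) w
    have hη3 : ((i0 : ℝ≥0∞) + 1) * (i0 + 1) * ((i0 + 1) * (i0 + 1) * η) ≤ δ := by
      refine le_trans (le_of_eq ?_) hη2
      push_cast
      ring
    calc PS ΛX hX ΛY hY CC n w (fun S => (ev1 q S ∨ ev2 q S) ∨ ev3 q S)
        ≤ PS ΛX hX ΛY hY CC n w (ev1 q) + PS ΛX hX ΛY hY CC n w (ev2 q)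
          + PS ΛX hX ΛY hY CC n w (ev3 q) :=
          (PS_or ΛX hX ΛY hY CC n w _ _).trans
            (add_le_add (PS_or ΛX hX ΛY hY CC n w _ _) le_rfl)
      _ ≤ δ + δ + (2 * δ + 2 * δ + (u * u + ((1 - u) ^ J + J * δ + δ)
          + ((1 - u) ^ J + J * δ + δ))) := by
          refine add_le_add (add_le_add p1 p2) (p3.trans ?_)
          refine add_le_add (add_le_add (mul_le_mul_right hovX _) (mul_le_mul_right hovY _)) ?_
          refine p4.trans ?_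
          refine add_le_add (add_le_add le_rfl ?_) ?_
          · exact add_le_add (add_le_add le_rfl (mul_le_mul_right hovX _)) hη3
          · exact add_le_add (add_le_add le_rfl (mul_le_mul_right hovY _)) hη3
      _ = _ := by
          push_cast
          ring
  calc PS ΛX hX ΛY hY CC n w (fun S => ∃ k ∈ S, m < k ∧ k ≤ 2 * m)
      ≤ PS ΛX hX ΛY hY CC n w (fun S => ∃ q < K + 2, (ev1 q S ∨ ev2 q S) ∨ ev3 q S) :=
        PS_mono ΛX hX ΛY hY CC cover
    _ ≤ ∑ q ∈ Finset.range (K + 2), PS ΛX hX ΛY hY CC n w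
        (fun S => (ev1 q S ∨ ev2 q S) ∨ ev3 q S) := PS_exists ΛX hX ΛY hY CC n w (K + 2) _
    _ ≤ ∑ q ∈ Finset.range (K + 2), ((u ^ 2 + 2 * (1 - u) ^ J) + (8 + 2 * J : ℕ) * δ) :=
        Finset.sum_le_sum fun q hq => hwin q (Finset.mem_range.1 hq)
    _ = (K + 2 : ℕ) * (u ^ 2 + 2 * (1 - u) ^ J) + (K + 2 : ℕ) * ((8 + 2 * J : ℕ) * δ) := by
        rw [Finset.sum_const, Finset.card_range, nsmul_eq_mul, mul_add]
    _ ≤ ε / 2 + ε / 2 := by
        refine add_le_add ?_ ?_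
        · have e1 : (1 - u) ^ J ≤ (1 - u / 2) ^ (K / 4 - 1) := by
            rw [hJ]
            exact pow_le_pow_left' (tsub_le_tsub_left ENNReal.half_le_self _) _
          rw [ENNReal.le_div_iff_mul_le (Or.inl (by norm_num)) (Or.inl (by norm_num))]
          calc ((K + 2 : ℕ) : ℝ≥0∞) * (u ^ 2 + 2 * (1 - u) ^ J) * 2
              ≤ (2 * (K + 1 : ℕ)) * (u ^ 2 + 2 * (1 - u / 2) ^ (K / 4 - 1)) * 2 := by
                refine mul_le_mul_left (mul_le_mul' ?_ (add_le_add le_rfl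
                  (mul_le_mul_right e1 _))) _
                exact_mod_cast (by omega : K + 2 ≤ 2 * (K + 1))
            _ = 4 * ((K + 1) * u ^ 2) + 8 * ((K + 1) * (1 - u / 2) ^ (K / 4 - 1)) := by
                push_cast
                ring
            _ ≤ 4 * ε' + 8 * ε' := add_le_add (mul_le_mul_right hKu _) (mul_le_mul_right hKJ _)
            _ = 12 * ε' := by ring
            _ ≤ ε := hε'2
        · rw [ENNReal.le_div_iff_mul_le (Or.inl (by norm_num)) (Or.inl (by norm_num))]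
          refine le_trans (le_of_eq ?_) hδ2
          push_cast
          ring
    _ = ε := ENNReal.add_halves ε

end Crest.Agent.R154.Mid752
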