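import Mathlib

/-!
Row 154, TILE: mobility of ALL laws, unprescribed (284's (H4)); Mathlib only.
-/

set_option autoImplicit false
set_option linter.unusedSectionVars false
set_option linter.deprecated false

namespace Crest.Agent.R154.MobAll927

open MeasureTheory ProbabilityTheory Set

section

variable (μ : Measure ℝ) [IsProbabilityMeasure μ] (n : ℕ)

/-- the law of `n` iid pairs -/
noncomputable abbrev PP : Measure (Fin n → ℝ × ℝ) := Measure.pi (fun _ : Fin n => μ.prod μ)

/-- the law of `n` iid reals -/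
noncomputable abbrev P1 : Measure (Fin n → ℝ) := Measure.pi (fun _ : Fin n => μ)

/-- symmetrised variable -/
def η (p : ℝ × ℝ) : ℝ := p.1 - p.2

lemma η_meas : Measurable η := measurable_fst.sub measurable_snd

/-- swap is measure preserving on the power -/
lemma mp_swap : MeasurePreserving (fun (x : Fin n → ℝ × ℝ) i => (x i).swap) (PP μ n) (PP μ n) := by
  refine measurePreserving_pi (fun _ => μ.prod μ) (fun _ => μ.prod μ) (fun i => ?_)
  exact Measure.measurePreserving_swap

lemma indep : iIndepFun (fun (i : Fin n) (x : Fin n → ℝ × ℝ) => x i) (PP μ n) := by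
  have := iIndepFun_pi (μ := fun _ : Fin n => μ.prod μ) (X := fun _ => id)
    (fun i => measurable_id.aemeasurable)
  exact this

lemma mp_eval (i : Fin n) : MeasurePreserving (fun x : Fin n → ℝ × ℝ => x i) (PP μ n)
    (μ.prod μ) := measurePreserving_eval (fun _ : Fin n => μ.prod μ) i

/-- symmetric sums are nonnegative with probability at least 1/2 -/
lemma half_le (J : Finset (Fin n)) :
    1 / 2 ≤ (PP μ n).real {x | 0 ≤ ∑ i ∈ J, η (x i)} := by
  have hm : Measurable fun x : Fin n → ℝ × ℝ => ∑ i ∈ J, η (x i) :=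
    Finset.measurable_sum _ fun i _ => η_meas.comp (measurable_pi_apply i)
  have h1 : (PP μ n).real {x | 0 ≤ ∑ i ∈ J, η (x i)} =
      (PP μ n).real {x | 0 ≤ -∑ i ∈ J, η (x i)} := by
    have := (mp_swap μ n).measure_preimage
      (s := {x | 0 ≤ ∑ i ∈ J, η (x i)}) (measurableSet_le measurable_const hm).nullMeasurableSet
    rw [measureReal_def, measureReal_def, ← this]
    congr 2
    ext x
    simp only [mem_preimage, mem_setOf_eq, ← Finset.sum_neg_distrib]
    rw [Finset.sum_congr rfl (g := fun i => - η (x i))]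
    intro i _
    simp [η]
  have h2 : (1 : ℝ) ≤ (PP μ n).real {x | 0 ≤ ∑ i ∈ J, η (x i)} +
      (PP μ n).real {x | 0 ≤ -∑ i ∈ J, η (x i)} := by
    have h3 : (univ : Set (Fin n → ℝ × ℝ)) ⊆ {x | 0 ≤ ∑ i ∈ J, η (x i)} ∪
        {x | 0 ≤ -∑ i ∈ J, η (x i)} := by
      intro x _
      rcases le_total 0 (∑ i ∈ J, η (x i)) with h | h
      · exact Or.inl h
      · exact Or.inr (by simpa using h)
    calc (1 : ℝ) = (PP μ n).real univ := by simp
      _ ≤ _ := (measureReal_mono h3).trans (measureReal_union_le _ _)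
  linarith

/-- one-sided tail at least half of the two-sided tail -/
lemma one_side (t : ℝ) :
    (μ.prod μ).real {p | t ≤ |η p|} ≤ 2 * (μ.prod μ).real {p | t ≤ η p} := by
  have h1 : (μ.prod μ).real {p | t ≤ -η p} = (μ.prod μ).real {p | t ≤ η p} := by
    have := (Measure.measurePreserving_swap (μ := μ) (ν := μ)).measure_preimage
      (s := {p | t ≤ η p}) (measurableSet_le measurable_const η_meas).nullMeasurableSet
    rw [measureReal_def, measureReal_def, ← this]
    congr 2
    ext p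
    simp [η]
  have h2 : {p | t ≤ |η p|} ⊆ {p | t ≤ η p} ∪ {p | t ≤ -η p} := by
    intro p hp
    simp only [mem_setOf_eq, le_abs] at hp
    exact hp
  calc (μ.prod μ).real {p | t ≤ |η p|} ≤ _ :=
        (measureReal_mono h2).trans (measureReal_union_le _ _)
    _ = _ := by rw [h1]; ring

/-- **large deviations by brute force** -/
lemma brute (I : Finset (Fin n)) (t : ℝ) :
    ((μ.prod μ).real {p | t ≤ |η p|} / 2) ^ I.card * (1 / 2) ≤
      (PP μ n).real {x | I.card * t ≤ ∑ i, η (x i)} := by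
  classical
  set p := (μ.prod μ).real {p | t ≤ η p} with hp
  have hind := indep μ n
  have hI : Disjoint I Iᶜ := disjoint_compl_right
  have h1 := hind.indepFun_finset I Iᶜ hI (fun i => measurable_pi_apply i)
  -- events
  have hA : MeasurableSet {z : ↥I → ℝ × ℝ | ∀ i, t ≤ η (z i)} := by
    have : {z : ↥I → ℝ × ℝ | ∀ i, t ≤ η (z i)} =
        ⋂ i, {z | t ≤ η (z i)} := by ext; simp
    rw [this]
    exact MeasurableSet.iInter fun i =>
      measurableSet_le measurable_const (η_meas.comp (measurable_pi_apply i))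
  have hB : MeasurableSet {z : ↥(Iᶜ : Finset (Fin n)) → ℝ × ℝ | 0 ≤ ∑ i, η (z i)} :=
    measurableSet_le measurable_const
      (Finset.measurable_sum _ fun i _ => η_meas.comp (measurable_pi_apply i))
  have h2 := h1.measure_inter_preimage_eq_mul _ _ hA hB
  have h3 := hind.measure_inter_preimage_eq_mul I (sets := fun _ => {p | t ≤ η p})
    (fun i _ => measurableSet_le measurable_const η_meas)
  have h4 : (fun (a : Fin n → ℝ × ℝ) (i : I) => a i) ⁻¹'
      {z : ↥I → ℝ × ℝ | ∀ i, t ≤ η (z i)} =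
      ⋂ i ∈ I, (fun x : Fin n → ℝ × ℝ => x i) ⁻¹' {p | t ≤ η p} := by
    ext x; simp
  have h5 : (fun (a : Fin n → ℝ × ℝ) (i : (Iᶜ : Finset (Fin n))) => a i) ⁻¹'
      {z : ↥(Iᶜ : Finset (Fin n)) → ℝ × ℝ | 0 ≤ ∑ i, η (z i)} =
      {x | 0 ≤ ∑ i ∈ Iᶜ, η (x i)} := by
    ext x
    simp only [mem_preimage, mem_setOf_eq]
    rw [Finset.sum_coe_sort (Iᶜ) (fun i => η (x i))]
  have h6 : ∀ i ∈ I, (PP μ n) ((fun x : Fin n → ℝ × ℝ => x i) ⁻¹' {p | t ≤ η p}) =
      (μ.prod μ) {p | t ≤ η p} := fun i _ =>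
    (mp_eval μ n i).measure_preimage (measurableSet_le measurable_const η_meas).nullMeasurableSet
  rw [Finset.prod_congr rfl h6, Finset.prod_const] at h3
  rw [h4, h5, h3] at h2
  have h7 : (⋂ i ∈ I, (fun x : Fin n → ℝ × ℝ => x i) ⁻¹' {p | t ≤ η p}) ∩
      {x | 0 ≤ ∑ i ∈ Iᶜ, η (x i)} ⊆ {x | I.card * t ≤ ∑ i, η (x i)} := by
    rintro x ⟨hx1, hx2⟩
    simp only [mem_iInter, mem_preimage, mem_setOf_eq] at hx1 hx2 ⊢
    have := Finset.card_nsmul_le_sum I (fun i => η (x i)) t hx1
    rw [nsmul_eq_mul] at this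
    rw [← Finset.sum_add_sum_compl I]
    linarith
  have h8 : (PP μ n).real ((⋂ i ∈ I, (fun x : Fin n → ℝ × ℝ => x i) ⁻¹' {p | t ≤ η p}) ∩
      {x | 0 ≤ ∑ i ∈ Iᶜ, η (x i)}) = p ^ I.card * (PP μ n).real {x | 0 ≤ ∑ i ∈ Iᶜ, η (x i)} := by
    rw [measureReal_def, h2, ENNReal.toReal_mul, ENNReal.toReal_pow]
    rfl
  have h9 : (μ.prod μ).real {p | t ≤ |η p|} / 2 ≤ p := by
    have := one_side μ t
    linarith
  calc ((μ.prod μ).real {p | t ≤ |η p|} / 2) ^ I.card * (1 / 2)
      ≤ p ^ I.card * (PP μ n).real {x | 0 ≤ ∑ i ∈ Iᶜ, η (x i)} := by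
        apply mul_le_mul (pow_le_pow_left₀ (by positivity) h9 _) (half_le μ n _) (by norm_num)
          (by positivity)
    _ ≤ _ := by rw [← h8]; exact measureReal_mono h7

/-- truncation -/
noncomputable def tr (t : ℝ) (y : ℝ) : ℝ := if |y| < t then y else 0

lemma tr_meas (t : ℝ) : Measurable (tr t) := by
  unfold tr
  exact Measurable.ite (measurableSet_lt measurable_id.abs measurable_const) measurable_id
    measurable_const

lemma tr_abs {t : ℝ} (ht : 0 < t) (y : ℝ) : |tr t y| ≤ t := by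
  unfold tr
  split_ifs with h
  · exact h.le
  · simpa using ht.le

lemma tr_neg (t y : ℝ) : tr t (-y) = - tr t y := by
  unfold tr
  rw [abs_neg]
  split_ifs <;> simp

/-- **Chebyshev for the truncated symmetric sum** -/
lemma cheb {t s : ℝ} (ht : 0 < t) (hs : 0 < s) :
    1 - n * (μ.prod μ).real {p | t ≤ |η p|} - n * t ^ 2 / s ^ 2 ≤
      (PP μ n).real {x | |∑ i, η (x i)| < s} := by
  classical
  have hbd : ∀ (i : Fin n) (x : Fin n → ℝ × ℝ), |tr t (η (x i))| ≤ t := fun i x => tr_abs ht _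
  have hmi : ∀ i : Fin n, Measurable fun x : Fin n → ℝ × ℝ => tr t (η (x i)) := fun i =>
    (tr_meas t).comp (η_meas.comp (measurable_pi_apply i))
  have hL : ∀ i : Fin n, MemLp (fun x : Fin n → ℝ × ℝ => tr t (η (x i))) 2 (PP μ n) := fun i =>
    MemLp.of_bound (hmi i).aestronglyMeasurable t
      (Filter.Eventually.of_forall fun x => by rw [Real.norm_eq_abs]; exact hbd i x)
  have hmean : ∀ i : Fin n, ∫ x, tr t (η (x i)) ∂(PP μ n) = 0 := by
    intro i
    have h1 := (mp_swap μ n).integral_comp' (f := MeasurableEquiv.mk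
      ⟨fun (x : Fin n → ℝ × ℝ) i => (x i).swap, fun (x : Fin n → ℝ × ℝ) i => (x i).swap,
        fun x => by ext <;> simp, fun x => by ext <;> simp⟩
        (by simpa using (mp_swap μ n).measurable) (by simpa using (mp_swap μ n).measurable))
        (fun x => tr t (η (x i)))
    have h2 : ∀ x : Fin n → ℝ × ℝ, tr t (η ((x i).swap)) = - tr t (η (x i)) := by
      intro x
      rw [← tr_neg]
      congr 1
      simp [η]
    simp only [MeasurableEquiv.coe_mk, Equiv.coe_fn_mk, h2, integral_neg] at h1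
    linarith
  have hvar : variance (∑ i : Fin n, fun x : Fin n → ℝ × ℝ => tr t (η (x i))) (PP μ n) ≤
      n * t ^ 2 := by
    rw [IndepFun.variance_sum (fun i _ => hL i)]
    · calc ∑ i : Fin n, variance (fun x : Fin n → ℝ × ℝ => tr t (η (x i))) (PP μ n)
          ≤ ∑ i : Fin n, t ^ 2 := by
            apply Finset.sum_le_sum
            intro i _
            rw [variance_eq_integral (hmi i).aemeasurable, hmean i]
            calc ∫ x, (tr t (η (x i)) - 0) ^ 2 ∂(PP μ n) ≤ ∫ _x, t ^ 2 ∂(PP μ n) := by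
                  apply integral_mono_of_nonneg (Filter.Eventually.of_forall fun x => sq_nonneg _)
                    (integrable_const _) (Filter.Eventually.of_forall fun x => ?_)
                  have := hbd i x
                  simp only [sub_zero]
                  rw [← sq_abs]
                  exact pow_le_pow_left₀ (abs_nonneg _) this 2
              _ = t ^ 2 := by simp
        _ = n * t ^ 2 := by simp
    · intro i _ j _ hij
      exact ((indep μ n).indepFun hij).comp ((tr_meas t).comp η_meas) ((tr_meas t).comp η_meas)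
  have hLs : MemLp (∑ i : Fin n, fun x : Fin n → ℝ × ℝ => tr t (η (x i))) 2 (PP μ n) :=
    memLp_finset_sum' _ fun i _ => hL i
  have hch := meas_ge_le_variance_div_sq (μ := PP μ n) hLs hs
  have hmean' : ∫ x, (∑ i : Fin n, fun x : Fin n → ℝ × ℝ => tr t (η (x i))) x ∂(PP μ n) = 0 := by
    simp only [Finset.sum_apply]
    rw [integral_finset_sum _ fun i _ => (hL i).integrable (by norm_num)]
    simp [hmean]
  rw [hmean'] at hch
  have hch2 : (PP μ n).real {x | s ≤ |∑ i, tr t (η (x i))|} ≤ n * t ^ 2 / s ^ 2 := by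
    have h1 : (PP μ n) {x | s ≤ |∑ i, tr t (η (x i))|} ≤ ENNReal.ofReal (n * t ^ 2 / s ^ 2) := by
      refine le_trans (le_of_eq ?_) (hch.trans (ENNReal.ofReal_le_ofReal
        (div_le_div_of_nonneg_right hvar (by positivity))))
      congr 1
      ext x
      simp only [Finset.sum_apply, sub_zero]
    rw [measureReal_def]
    exact ENNReal.toReal_le_of_le_ofReal (by positivity) h1
  have hun : (PP μ n).real (⋃ i : Fin n, {x | t ≤ |η (x i)|}) ≤
      n * (μ.prod μ).real {p | t ≤ |η p|} := by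
    refine (measureReal_iUnion_fintype_le _).trans (le_of_eq ?_)
    have : ∀ i : Fin n, (PP μ n).real {x | t ≤ |η (x i)|} =
        (μ.prod μ).real {p | t ≤ |η p|} := by
      intro i
      rw [measureReal_def, measureReal_def]
      congr 1
      exact (mp_eval μ n i).measure_preimage
        (measurableSet_le measurable_const η_meas.abs).nullMeasurableSet
    simp [this]
  have hcov : (univ : Set (Fin n → ℝ × ℝ)) ⊆ ({x | |∑ i, η (x i)| < s} ∪
      (⋃ i : Fin n, {x | t ≤ |η (x i)|})) ∪ {x | s ≤ |∑ i, tr t (η (x i))|} := by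
    intro x _
    by_cases h1 : x ∈ ⋃ i : Fin n, {x : Fin n → ℝ × ℝ | t ≤ |η (x i)|}
    · exact Or.inl (Or.inr h1)
    · simp only [mem_iUnion, mem_setOf_eq, not_exists, not_le] at h1
      have h2 : ∑ i, tr t (η (x i)) = ∑ i, η (x i) :=
        Finset.sum_congr rfl fun i _ => by unfold tr; rw [if_pos (h1 i)]
      rcases lt_or_ge |∑ i, η (x i)| s with h3 | h3
      · exact Or.inl (Or.inl h3)
      · refine Or.inr ?_
        simp only [mem_setOf_eq, h2]
        exact h3
  have : (1 : ℝ) ≤ ((PP μ n).real {x | |∑ i, η (x i)| < s} +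
      n * (μ.prod μ).real {p | t ≤ |η p|}) + n * t ^ 2 / s ^ 2 := by
    calc (1 : ℝ) = (PP μ n).real univ := by simp
      _ ≤ _ := measureReal_mono hcov
      _ ≤ _ := (measureReal_union_le _ _)
      _ ≤ _ := add_le_add ((measureReal_union_le _ _).trans (add_le_add le_rfl hun)) hch2
  linarith

/-- first marginal -/
lemma mp_fst : MeasurePreserving (fun (x : Fin n → ℝ × ℝ) i => (x i).1) (PP μ n) (P1 μ n) :=
  measurePreserving_pi (fun _ => μ.prod μ) (fun _ => μ) (fun _ => measurePreserving_fst)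

/-- second marginal -/
lemma mp_snd : MeasurePreserving (fun (x : Fin n → ℝ × ℝ) i => (x i).2) (PP μ n) (P1 μ n) :=
  measurePreserving_pi (fun _ => μ.prod μ) (fun _ => μ) (fun _ => measurePreserving_snd)

lemma S_meas : Measurable fun x : Fin n → ℝ => ∑ i, x i :=
  Finset.measurable_sum _ fun i _ => measurable_pi_apply i

lemma sum_η (x : Fin n → ℝ × ℝ) : ∑ i, η (x i) = ∑ i, (x i).1 - ∑ i, (x i).2 := by
  simp only [η, Finset.sum_sub_distrib]

/-- two-sided tails of the difference against the tails of the sum -/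
lemma diff_tail (v b : ℝ) :
    (PP μ n).real {x | 2 * b ≤ ∑ i, η (x i)} ≤ 2 * (P1 μ n).real {x | b ≤ |∑ i, x i - v|} := by
  have hE : MeasurableSet {x : Fin n → ℝ | b ≤ |∑ i, x i - v|} :=
    measurableSet_le measurable_const ((S_meas n).sub_const v).abs
  have h1 : (PP μ n).real ((fun (x : Fin n → ℝ × ℝ) i => (x i).1) ⁻¹'
      {x : Fin n → ℝ | b ≤ |∑ i, x i - v|}) = (P1 μ n).real {x | b ≤ |∑ i, x i - v|} := by
    rw [measureReal_def, measureReal_def, (mp_fst μ n).measure_preimage hE.nullMeasurableSet]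
  have h2 : (PP μ n).real ((fun (x : Fin n → ℝ × ℝ) i => (x i).2) ⁻¹'
      {x : Fin n → ℝ | b ≤ |∑ i, x i - v|}) = (P1 μ n).real {x | b ≤ |∑ i, x i - v|} := by
    rw [measureReal_def, measureReal_def, (mp_snd μ n).measure_preimage hE.nullMeasurableSet]
  have h3 : {x : Fin n → ℝ × ℝ | 2 * b ≤ ∑ i, η (x i)} ⊆
      ((fun (x : Fin n → ℝ × ℝ) i => (x i).1) ⁻¹' {x : Fin n → ℝ | b ≤ |∑ i, x i - v|}) ∪
      ((fun (x : Fin n → ℝ × ℝ) i => (x i).2) ⁻¹' {x : Fin n → ℝ | b ≤ |∑ i, x i - v|}) := by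
    intro x hx
    simp only [mem_setOf_eq, sum_η] at hx
    by_contra hcon
    simp only [mem_union, mem_preimage, mem_setOf_eq, not_or, not_le] at hcon
    have h4 := le_abs_self (∑ i, (x i).1 - v)
    have h5 := neg_abs_le (∑ i, (x i).2 - v)
    linarith [hcon.1, hcon.2]
  calc (PP μ n).real {x | 2 * b ≤ ∑ i, η (x i)} ≤ _ :=
        (measureReal_mono h3).trans (measureReal_union_le _ _)
    _ = _ := by rw [h1, h2]; ring

/-- concentration of the difference against concentration of the sum -/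
lemma diff_conc {s q : ℝ} (hq : ∀ v, (P1 μ n).real {x | |∑ i, x i - v| ≤ s} ≤ q) :
    (PP μ n).real {x | |∑ i, η (x i)| < s} ≤ q := by
  have hmp := measurePreserving_arrowProdEquivProdArrow ℝ ℝ (Fin n) (fun _ => μ) (fun _ => μ)
  have hq0 : 0 ≤ q := measureReal_nonneg.trans (hq 0)
  set E : Set ((Fin n → ℝ) × (Fin n → ℝ)) := {z | |∑ i, z.1 i - ∑ i, z.2 i| ≤ s} with hE
  have hEm : MeasurableSet E := measurableSet_le
    (((S_meas n).comp measurable_fst).sub ((S_meas n).comp measurable_snd)).abs measurable_const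
  have h1 : (PP μ n).real {x | |∑ i, η (x i)| < s} ≤ ((P1 μ n).prod (P1 μ n)).real E := by
    have h2 := hmp.measure_preimage hEm.nullMeasurableSet
    rw [measureReal_def, measureReal_def, ← h2]
    refine ENNReal.toReal_mono (measure_ne_top _ _) (measure_mono ?_)
    intro x hx
    simp only [mem_setOf_eq, sum_η] at hx
    exact hx.le
  refine h1.trans ?_
  rw [measureReal_def, Measure.prod_apply_symm hEm]
  refine ENNReal.toReal_le_of_le_ofReal hq0 ?_
  calc ∫⁻ y, (P1 μ n) ((fun x => (x, y)) ⁻¹' E) ∂(P1 μ n)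
      ≤ ∫⁻ _y, ENNReal.ofReal q ∂(P1 μ n) := by
        apply lintegral_mono
        intro y
        have h3 := hq (∑ i, y i)
        rw [measureReal_def] at h3
        exact (ENNReal.le_ofReal_iff_toReal_le (measure_ne_top _ _) hq0).2 h3
    _ = ENNReal.ofReal q := by simp

end

/-- growth of powers against logarithms -/
lemma numeric {ε B : ℝ} (hε : 0 < ε) (hB : 1 ≤ B) : ∃ n0 : ℕ, ∀ n : ℕ, n0 ≤ n →
    ∃ k : ℕ, k ≤ n ∧ 8 * B * √n ≤ k ∧ 1 ≤ n ∧
      4 * Real.exp (-(ε * n)) < (1 / (8 * n : ℝ)) ^ k ∧ Real.exp (-(ε * n)) ≤ 1 / 4 := by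
  set T : ℝ := (56 * B + 9) / ε + 9 * B + 1 with hT
  have hT1 : 1 ≤ T := by
    have : 0 < (56 * B + 9) / ε := by positivity
    rw [hT]; nlinarith
  obtain ⟨n0, hn0⟩ := exists_nat_ge (T ^ 4)
  refine ⟨n0, fun n hn => ?_⟩
  have hn1 : T ^ 4 ≤ n := hn0.trans (by exact_mod_cast hn)
  set s : ℝ := √(n : ℝ) with hs
  set t : ℝ := √s with ht
  have hs2 : s ^ 2 = n := Real.sq_sqrt (Nat.cast_nonneg n)
  have hs0 : 0 ≤ s := Real.sqrt_nonneg _
  have ht2 : t ^ 2 = s := Real.sq_sqrt hs0
  have ht0 : 0 ≤ t := Real.sqrt_nonneg _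
  have ht4 : t ^ 4 = n := by rw [← hs2, ← ht2]; ring
  have hTt : T ≤ t := by
    by_contra hcon
    push Not at hcon
    have : t ^ 4 < T ^ 4 := pow_lt_pow_left₀ hcon ht0 (by norm_num)
    linarith
  have ht1 : 1 ≤ t := hT1.trans hTt
  have htB : 9 * B ≤ t := by
    have : 0 < (56 * B + 9) / ε := by positivity
    linarith
  have htε : (56 * B + 9) < ε * t := by
    have h1 : (56 * B + 9) / ε < t := by linarith
    rw [div_lt_iff₀ hε] at h1
    linarith
  refine ⟨⌈8 * B * s⌉₊, ?_, Nat.le_ceil _, ?_, ?_, ?_⟩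
  · apply Nat.ceil_le.2
    rw [← ht4, ← ht2]
    nlinarith [sq_nonneg t, mul_nonneg ht0 ht0, mul_le_mul htB ht1 (by linarith) ht0]
  · have : (1 : ℝ) ≤ n := by rw [← ht4]; exact one_le_pow₀ ht1
    exact_mod_cast this
  · have hn0' : (0 : ℝ) < n := by rw [← ht4]; positivity
    have hk : (⌈8 * B * s⌉₊ : ℝ) ≤ 8 * B * t ^ 2 + 1 := by
      rw [ht2]
      exact (Nat.ceil_lt_add_one (by positivity)).le
    have hlog : Real.log (8 * n) ≤ 3 + 4 * t := by
      rw [← ht4, Real.log_mul (by norm_num) (by positivity), Real.log_pow]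
      have h1 : Real.log t ≤ t := (Real.log_le_sub_one_of_pos (by linarith)).trans (by linarith)
      have h2 : Real.log 8 ≤ 3 := by
        have : (8 : ℝ) = 2 ^ 3 := by norm_num
        rw [this, Real.log_pow]
        have := Real.log_two_lt_d9
        push_cast
        linarith
      push_cast
      linarith
    have hlog4 : Real.log 4 ≤ 2 := by
      have : (4 : ℝ) = 2 ^ 2 := by norm_num
      rw [this, Real.log_pow]
      have := Real.log_two_lt_d9
      push_cast
      linarith
    have hlog0 : 0 ≤ Real.log (8 * n) := Real.log_nonneg (by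
      have : (1 : ℝ) ≤ n := by rw [← ht4]; exact one_le_pow₀ ht1
      linarith)
    rw [← Real.log_lt_log_iff (by positivity) (by positivity), Real.log_mul (by norm_num)
      (Real.exp_ne_zero _), Real.log_exp, Real.log_pow, one_div, Real.log_inv]
    have h1 : (⌈8 * B * s⌉₊ : ℝ) * Real.log (8 * n) ≤ (8 * B * t ^ 2 + 1) * (3 + 4 * t) :=
      mul_le_mul hk hlog hlog0 (by positivity)
    have h2 : (8 * B * t ^ 2 + 1) * (3 + 4 * t) + 2 ≤ (56 * B + 9) * t ^ 3 := by
      have h3 : t ^ 2 ≤ t ^ 3 := by nlinarith [mul_nonneg ht0 ht0, sq_nonneg t]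
      have h4 : t ≤ t ^ 3 := by nlinarith [mul_nonneg ht0 ht0, sq_nonneg t]
      have h5 : 1 ≤ t ^ 3 := one_le_pow₀ ht1
      nlinarith [mul_nonneg (by linarith : (0 : ℝ) ≤ B) (by linarith : (0 : ℝ) ≤ t ^ 3 - t ^ 2)]
    have h6 : (56 * B + 9) * t ^ 3 < ε * n := by
      rw [← ht4]
      have : 0 < t ^ 3 := by positivity
      nlinarith
    linarith
  · have h6 : 2 ≤ ε * n := by
      rw [← ht4]
      have h5 : 1 ≤ t ^ 3 := one_le_pow₀ ht1
      have : (56 * B + 9) * 1 ≤ (ε * t) * t ^ 3 := mul_le_mul htε.le h5 (by norm_num)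
        (by positivity)
      nlinarith
    have h7 : Real.log 4 ≤ 2 := by
      have : (4 : ℝ) = 2 ^ 2 := by norm_num
      rw [this, Real.log_pow]
      have := Real.log_two_lt_d9
      push_cast
      linarith
    rw [one_div, ← Real.exp_log (show (0 : ℝ) < 4 by norm_num), ← Real.exp_neg]
    exact Real.exp_le_exp.2 (by linarith)

/-- **MOBILITY OF ALL LAWS (H4)**: for every `ε > 0`, `B ≥ 1` there is `n₀` such that for every `n ≥ n₀`
and every law on `ℝ` with `μ [x, x + 4] ≤ 1/2` for all `x`, there are `v`, `w ≥ 1` with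
`P(|S_n - v| ≤ w) ≥ e^{-εn}` and `P(|S_n - v| ≥ B w) ≥ e^{-εn}`. -/
theorem mobility_all {ε B : ℝ} (hε : 0 < ε) (hB : 1 ≤ B) : ∃ n0 : ℕ, ∀ n : ℕ, n0 ≤ n →
    ∀ (μ : Measure ℝ) [IsProbabilityMeasure μ], (∀ x, μ.real (Icc x (x + 4)) ≤ 1 / 2) →
    ∃ v w : ℝ, 1 ≤ w ∧ Real.exp (-(ε * n)) ≤ (P1 μ n).real {x | |∑ i, x i - v| ≤ w} ∧
      Real.exp (-(ε * n)) ≤ (P1 μ n).real {x | B * w ≤ |∑ i, x i - v|} := by
  obtain ⟨n0, hn0⟩ := numeric hε hB
  refine ⟨n0, fun n hn μ _ hμ => ?_⟩
  obtain ⟨k, hkn, hk8, hn1, hexp, hexp4⟩ := hn0 n hn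
  set e := Real.exp (-(ε * n)) with he
  have he0 : 0 < e := Real.exp_pos _
  have hnpos : (0 : ℝ) < n := by exact_mod_cast hn1
  -- existence of a dyadic scale
  have hex : ∃ j : ℕ, ∃ v : ℝ, e ≤ (P1 μ n).real {x | |∑ i, x i - v| ≤ 2 ^ j} := by
    by_contra hcon
    push Not at hcon
    have hmono : Monotone fun j : ℕ => {x : Fin n → ℝ | |∑ i, x i - 0| ≤ 2 ^ j} := by
      intro a b hab x hx
      simp only [mem_setOf_eq] at hx ⊢
      exact hx.trans (pow_le_pow_right₀ (by norm_num) hab)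
    have hun : ⋃ j : ℕ, {x : Fin n → ℝ | |∑ i, x i - 0| ≤ 2 ^ j} = univ := by
      ext x
      simp only [mem_iUnion, mem_setOf_eq, mem_univ, iff_true]
      obtain ⟨j, hj⟩ := pow_unbounded_of_one_lt |∑ i, x i - 0| (by norm_num : (1 : ℝ) < 2)
      exact ⟨j, hj.le⟩
    have h1 := tendsto_measure_iUnion_atTop (μ := P1 μ n) hmono
    rw [hun, measure_univ] at h1
    have h2 := (ENNReal.tendsto_toReal ENNReal.one_ne_top).comp h1
    have h3 : (1 : ENNReal).toReal ≤ e := le_of_tendsto h2 (Filter.Eventually.of_forall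
      fun j => (hcon j 0).le)
    simp only [ENNReal.toReal_one] at h3
    linarith
  classical
  set j := Nat.find hex with hj
  obtain ⟨v, hv⟩ := Nat.find_spec hex
  rw [← hj] at hv
  set w : ℝ := 2 ^ j with hw
  have hw1 : 1 ≤ w := one_le_pow₀ (by norm_num)
  refine ⟨v, w, hw1, hv, ?_⟩
  by_contra hcon
  push Not at hcon
  -- the tail of η
  set t : ℝ := w / (4 * √n) with ht
  have hsq : 0 < √(n : ℝ) := Real.sqrt_pos.2 hnpos
  have ht0 : 0 < t := by positivity
  set p := (μ.prod μ).real {p | t ≤ |η p|} with hp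
  obtain ⟨I, hI⟩ : ∃ I : Finset (Fin n), I.card = k := by
    have : k ≤ (Finset.univ : Finset (Fin n)).card := by simpa using hkn
    obtain ⟨I, _, hI⟩ := Finset.exists_subset_card_eq this
    exact ⟨I, hI⟩
  have hbr := brute μ n I t
  rw [hI] at hbr
  have hsub : {x : Fin n → ℝ × ℝ | (k : ℝ) * t ≤ ∑ i, η (x i)} ⊆
      {x | 2 * (B * w) ≤ ∑ i, η (x i)} := by
    intro x hx
    simp only [mem_setOf_eq] at hx ⊢
    refine le_trans ?_ hx
    rw [ht, mul_div_assoc', le_div_iff₀ (by positivity)]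
    nlinarith [hk8, hw1, mul_le_mul_of_nonneg_right hk8 (by linarith : (0 : ℝ) ≤ w)]
  have h1 : (p / 2) ^ k * (1 / 2) ≤ 2 * e := by
    have := (hbr.trans (measureReal_mono hsub)).trans (diff_tail μ n v (B * w))
    linarith
  have hpsmall : n * p ≤ 1 / 4 := by
    by_contra hc
    push Not at hc
    have h2 : 1 / (8 * n : ℝ) ≤ p / 2 := by
      rw [div_le_div_iff₀ (by positivity) (by norm_num)]
      linarith
    have h3 : (1 / (8 * n : ℝ)) ^ k ≤ (p / 2) ^ k := pow_le_pow_left₀ (by positivity) h2 k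
    linarith
  rcases Nat.eq_zero_or_pos j with hj0 | hjpos
  · -- w = 1
    have hw' : w = 1 := by rw [hw, hj0]; norm_num
    -- μ.prod μ {|η| < t} ≤ 1/2
    have ht1 : t ≤ 1 := by
      rw [ht, hw', div_le_one (by positivity)]
      have : 1 ≤ √(n : ℝ) := Real.one_le_sqrt.2 (by exact_mod_cast hn1)
      linarith
    have h2 : (μ.prod μ).real {p | |η p| < t} ≤ 1 / 2 := by
      have hEm : MeasurableSet {p : ℝ × ℝ | |η p| < t} :=
        measurableSet_lt η_meas.abs measurable_const
      rw [measureReal_def, Measure.prod_apply_symm hEm]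
      refine ENNReal.toReal_le_of_le_ofReal (by norm_num) ?_
      calc ∫⁻ y, μ ((fun x => (x, y)) ⁻¹' {p : ℝ × ℝ | |η p| < t}) ∂μ
          ≤ ∫⁻ _y, ENNReal.ofReal (1 / 2) ∂μ := by
            apply lintegral_mono
            intro y
            have h3 := hμ (y - 2)
            rw [measureReal_def] at h3
            refine le_trans (measure_mono ?_)
              ((ENNReal.le_ofReal_iff_toReal_le (measure_ne_top _ _) (by norm_num)).2 h3)
            intro x hx
            simp only [mem_preimage, mem_setOf_eq, η, abs_lt] at hx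
            constructor <;> linarith [hx.1, hx.2]
        _ = ENNReal.ofReal (1 / 2) := by simp
    have h3 : 1 ≤ (μ.prod μ).real {p | |η p| < t} + p := by
      have h4 : (univ : Set (ℝ × ℝ)) ⊆ {p | |η p| < t} ∪ {p | t ≤ |η p|} := by
        intro q _
        rcases lt_or_ge |η q| t with h | h
        · exact Or.inl h
        · exact Or.inr h
      calc (1 : ℝ) = (μ.prod μ).real univ := by simp
        _ ≤ _ := (measureReal_mono h4).trans (measureReal_union_le _ _)
    have h5 : (1 : ℝ) ≤ n := by exact_mod_cast hn1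
    have h6 : 0 ≤ p := measureReal_nonneg
    nlinarith
  · -- w ≥ 2: contradiction with minimality
    have hmin : ∀ v, (P1 μ n).real {x | |∑ i, x i - v| ≤ w / 2} ≤ e := by
      intro v'
      by_contra hc
      push Not at hc
      have hlt : j - 1 < Nat.find hex := by omega
      refine Nat.find_min hex hlt ⟨v', ?_⟩
      have : (2 : ℝ) ^ (j - 1) = w / 2 := by
        rw [hw, pow_sub₀ _ (by norm_num) hjpos]
        norm_num
        ring
      rw [this]
      exact hc.le
    have h2 := diff_conc μ n hmin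
    have h3 := cheb μ n ht0 (show (0 : ℝ) < w / 2 by positivity)
    have h4 : n * t ^ 2 / (w / 2) ^ 2 = 1 / 4 := by
      rw [ht, div_pow, mul_pow, Real.sq_sqrt hnpos.le]
      field_simp
      norm_num
    rw [h4] at h3
    linarith

end Crest.Agent.R154.MobAll927
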