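import Crest.Agent.R154.RatioA_872

/-!
# R154, d = 2 (916 #30678 (2)(a)), helper9: prescribed moves through `J` slabs

`A : KerSys S P` natural climbs as random kernels; `lv` levels, `T j x` the sites which are allowed
at level `lv (j+1)` after `x`.  If every single step has quenched mass `≥ g` off probability `≤ ε`,
then `J` prescribed steps have quenched mass `≥ (g/2)^J` off probability `≤ ∑_{j<J} 2 (2/g)^j ε`,
from any random start law and given any event of the past.
-/

set_option autoImplicit false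
set_option linter.deprecated false
set_option linter.unusedVariables false
set_option linter.unusedSectionVars false

open MeasureTheory ENNReal Crest.Agent.R154.RatioR872

namespace Crest.Agent.R154.MobFar9

variable {S : Type*} {Ω : Type*} {m0 : MeasurableSpace Ω} {P : Measure Ω}

/-- quenched mass of the natural climb from `x` into the set `T` -/
noncomputable def mass (A : KerSys S P) (a b : ℕ) (ω : Ω) (x : S) (T : Set S) : ℝ≥0∞ :=
  ∑' y, T.indicator (A.G a b ω x) y

/-- one restricted step -/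
noncomputable def stp (A : KerSys S P) (a b : ℕ) (T : S → Set S) (w : Ω → S → ℝ≥0∞) (ω : Ω)
    (y : S) : ℝ≥0∞ := ∑' x, w ω x * (T x).indicator (A.G a b ω x) y

/-- restricted sub-laws -/
noncomputable def nu (A : KerSys S P) (lv : ℕ → ℕ) (T : ℕ → S → Set S) (w : Ω → S → ℝ≥0∞) :
    ℕ → Ω → S → ℝ≥0∞
  | 0 => w
  | j + 1 => stp A (lv j) (lv (j + 1)) (T j) (nu A lv T w j)

/-- reachable by admissible steps -/
def Reach (T : ℕ → S → Set S) : ℕ → S → Set S
  | 0, z => {z}
  | j + 1, z => {y | ∃ x ∈ Reach T j z, y ∈ T j x}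

/-- restricted kernels -/
noncomputable def GR (A : KerSys S P) (lv : ℕ → ℕ) (T : ℕ → S → Set S) :
    ℕ → Ω → S → S → ℝ≥0∞
  | 0, _, z => fun y => Set.indicator {z} (fun _ => 1) y
  | j + 1, ω, z => fun y =>
      ∑' x, GR A lv T j ω z x * (T j x).indicator (A.G (lv j) (lv (j + 1)) ω x) y

variable [Countable S] {A : KerSys S P} {lv : ℕ → ℕ} {T : ℕ → S → Set S}

lemma nu_eq (w : Ω → S → ℝ≥0∞) (j : ℕ) (ω : Ω) (y : S) :
    nu A lv T w j ω y = ∑' z, w ω z * GR A lv T j ω z y := by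
  induction j generalizing y with
  | zero =>
    show w ω y = ∑' z, w ω z * Set.indicator {z} (fun _ => (1 : ℝ≥0∞)) y
    rw [tsum_eq_single y]
    · simp
    · intro z hz
      have : y ∉ ({z} : Set S) := fun h => hz (Set.mem_singleton_iff.1 h).symm
      simp [Set.indicator_of_notMem this]
  | succ j ih =>
    show ∑' x, nu A lv T w j ω x * (T j x).indicator (A.G (lv j) (lv (j + 1)) ω x) y =
      ∑' z, w ω z * ∑' x, GR A lv T j ω z x * (T j x).indicator (A.G (lv j) (lv (j + 1)) ω x) y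
    simp_rw [ih, ← ENNReal.tsum_mul_left, ← ENNReal.tsum_mul_right]
    rw [ENNReal.tsum_comm]
    exact tsum_congr fun z => tsum_congr fun x => by ring

/-- the restricted kernels are below the natural climb, on the reachable sites -/
lemma GR_le (hlv : Monotone lv) (J : ℕ) : ∀ᵐ ω ∂P, ∀ z y,
    GR A lv T (J + 1) ω z y ≤ (Reach T (J + 1) z).indicator (A.G (lv 0) (lv (J + 1)) ω z) y := by
  induction J with
  | zero =>
    refine Filter.Eventually.of_forall fun ω z y => ?_
    show ∑' x, Set.indicator {z} (fun _ => (1 : ℝ≥0∞)) x *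
      (T 0 x).indicator (A.G (lv 0) (lv 1) ω x) y ≤ _
    rw [tsum_eq_single z]
    · by_cases h : y ∈ T 0 z
      · have h2 : y ∈ Reach T (0 + 1) z := ⟨z, rfl, h⟩
        rw [Set.indicator_of_mem h2, Set.indicator_of_mem h]
        simp
      · rw [Set.indicator_of_notMem h]
        simp
    · intro x hx
      have : x ∉ ({z} : Set S) := fun h => hx (Set.mem_singleton_iff.1 h)
      simp [Set.indicator_of_notMem this]
  | succ J ih =>
    filter_upwards [ih, A.comp (lv 0) (lv (J + 1)) (lv (J + 1 + 1)) (hlv (Nat.zero_le _))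
      (hlv (Nat.le_succ _))] with ω h1 h2 z y
    show ∑' x, GR A lv T (J + 1) ω z x *
      (T (J + 1) x).indicator (A.G (lv (J + 1)) (lv (J + 1 + 1)) ω x) y ≤ _
    by_cases hy : y ∈ Reach T (J + 1 + 1) z
    · rw [Set.indicator_of_mem hy]
      refine le_trans (ENNReal.tsum_le_tsum fun x => ?_) (h2 z y)
      gcongr
      · exact (h1 z x).trans (Set.indicator_le_self _ _ _)
      · exact Set.indicator_le_self _ _ _
    · rw [Set.indicator_of_notMem hy]
      refine le_of_eq (ENNReal.tsum_eq_zero.2 fun x => ?_)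
      by_cases hx : x ∈ Reach T (J + 1) z
      · have : y ∉ T (J + 1) x := fun h => hy ⟨x, hx, h⟩
        rw [Set.indicator_of_notMem this, mul_zero]
      · have := h1 z x
        rw [Set.indicator_of_notMem hx] at this
        rw [le_antisymm this zero_le, zero_mul]

lemma meas_mass_H {a b : ℕ} (h : a ≤ b) (x : S) (T : Set S) :
    Measurable[A.H a] (fun ω => mass A a b ω x T) := by
  unfold mass
  refine Measurable.ennreal_tsum fun y => ?_
  by_cases hy : y ∈ T
  · simp only [Set.indicator_of_mem hy]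
    exact A.measH a b x y h
  · simp only [Set.indicator_of_notMem hy]
    exact measurable_const

lemma wt_stp {a b : ℕ} (hab : a ≤ b) (T : S → Set S) {w : Ω → S → ℝ≥0∞} (hw : A.Wt a w) :
    A.Wt b (stp A a b T w) where
  meas y := by
    unfold stp
    refine Measurable.ennreal_tsum fun x => ?_
    refine ((hw.meas x).mono (A.F.mono hab) le_rfl).mul ?_
    by_cases hy : y ∈ T x
    · simp only [Set.indicator_of_mem hy]
      exact A.measF a b x y hab
    · simp only [Set.indicator_of_notMem hy]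
      exact measurable_const
  supp ω y hy := by
    unfold stp
    refine ENNReal.tsum_eq_zero.2 fun x => ?_
    have : (T x).indicator (A.G a b ω x) y = 0 := by
      by_cases h : y ∈ T x
      · rw [Set.indicator_of_mem h]; exact A.supp a b ω x y hy
      · rw [Set.indicator_of_notMem h]
    rw [this, mul_zero]

lemma tot_stp (a b : ℕ) (T : S → Set S) (w : Ω → S → ℝ≥0∞) (ω : Ω) :
    KerSys.tot (stp A a b T w) ω = ∑' x, w ω x * mass A a b ω x (T x) := by
  unfold KerSys.tot stp mass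
  rw [ENNReal.tsum_comm]
  exact tsum_congr fun x => ENNReal.tsum_mul_left

lemma mass_le_one {a b : ℕ} (h : a ≤ b) (ω : Ω) (x : S) (T : Set S) : mass A a b ω x T ≤ 1 :=
  le_trans (ENNReal.tsum_le_tsum fun y => Set.indicator_le_self _ _ _) (A.mass a b ω x h)

lemma tot_stp_le {a b : ℕ} (h : a ≤ b) (T : S → Set S) (w : Ω → S → ℝ≥0∞) (ω : Ω) :
    KerSys.tot (stp A a b T w) ω ≤ KerSys.tot w ω := by
  rw [tot_stp]
  refine ENNReal.tsum_le_tsum fun x => ?_
  calc w ω x * mass A a b ω x (T x) ≤ w ω x * 1 := by gcongr; exact mass_le_one h ω x _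
    _ = w ω x := mul_one _

lemma wt_nu (hlv : Monotone lv) {w : Ω → S → ℝ≥0∞} (hw : A.Wt (lv 0) w) (j : ℕ) :
    A.Wt (lv j) (nu A lv T w j) := by
  induction j with
  | zero => exact hw
  | succ j ih => exact wt_stp (hlv (Nat.le_succ j)) _ ih

lemma tot_nu_le (hlv : Monotone lv) (w : Ω → S → ℝ≥0∞) (j : ℕ) (ω : Ω) :
    KerSys.tot (nu A lv T w j) ω ≤ KerSys.tot w ω := by
  induction j with
  | zero => exact le_rfl
  | succ j ih => exact (tot_stp_le (hlv (Nat.le_succ j)) _ _ ω).trans ih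

/-- mass on the bad sites -/
noncomputable def bad (A : KerSys S P) (lv : ℕ → ℕ) (T : ℕ → S → Set S) (g : ℝ≥0∞)
    (w : Ω → S → ℝ≥0∞) (j : ℕ) (ω : Ω) : ℝ≥0∞ :=
  ∑' x, nu A lv T w j ω x *
    Set.indicator {ω | mass A (lv j) (lv (j + 1)) ω x (T j x) < g} (fun _ => 1) ω

lemma meas_bad_H (hlv : Monotone lv) (g : ℝ≥0∞) (j : ℕ) (x : S) : Measurable[A.H (lv j)]
    (Set.indicator {ω | mass A (lv j) (lv (j + 1)) ω x (T j x) < g} (fun _ => (1 : ℝ≥0∞))) := by
  have h := meas_mass_H (A := A) (hlv (Nat.le_succ j)) x (T j x)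
  have h2 : MeasurableSet[A.H (lv j)] {ω | mass A (lv j) (lv (j + 1)) ω x (T j x) < g} :=
    h measurableSet_Iio
  exact Measurable.indicator (m := A.H (lv j)) measurable_const h2

/-- first moment of the bad mass -/
lemma lint_bad (hlv : Monotone lv) {g ε : ℝ≥0∞} {j : ℕ}
    (hmob : ∀ x ∈ A.L (lv j), P {ω | mass A (lv j) (lv (j + 1)) ω x (T j x) < g} ≤ ε)
    {w : Ω → S → ℝ≥0∞} (hw : A.Wt (lv 0) w) (hw1 : ∀ ω, KerSys.tot w ω ≤ 1)
    {B : Set Ω} (hB : MeasurableSet[A.F (lv 0)] B) :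
    ∫⁻ ω in B, bad A lv T g w j ω ∂P ≤ ε * P B := by
  classical
  have hB0 : MeasurableSet B := A.F.le _ _ hB
  have hwj := wt_nu (T := T) hlv hw j
  have hm1 : ∀ x, Measurable[A.F (lv j)] fun ω =>
      B.indicator (fun _ => (1 : ℝ≥0∞)) ω * nu A lv T w j ω x := fun x => by
    have h1 : Measurable[A.F (lv j)] (B.indicator (fun _ => (1 : ℝ≥0∞))) :=
      Measurable.indicator (m := A.F (lv j)) measurable_const
        (A.F.mono (hlv (Nat.zero_le j)) _ hB)
    exact h1.mul (hwj.meas x)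
  have e1 : ∫⁻ ω in B, bad A lv T g w j ω ∂P = ∑' x, ∫⁻ ω,
      (B.indicator (fun _ => (1 : ℝ≥0∞)) ω * nu A lv T w j ω x) *
      Set.indicator {ω | mass A (lv j) (lv (j + 1)) ω x (T j x) < g} (fun _ => 1) ω ∂P := by
    rw [← lintegral_indicator hB0, ← lintegral_tsum]
    · refine lintegral_congr fun ω => ?_
      by_cases h : ω ∈ B
      · rw [Set.indicator_of_mem h, Set.indicator_of_mem h]
        exact tsum_congr fun x => by rw [one_mul]
      · rw [Set.indicator_of_notMem h, Set.indicator_of_notMem h]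
        simp
    · intro x
      exact (((hm1 x).mono (A.F.le _) le_rfl).mul
        ((meas_bad_H hlv g j x).mono (A.H_le _) le_rfl)).aemeasurable
  rw [e1]
  have e2 : ∀ x, ∫⁻ ω, (B.indicator (fun _ => (1 : ℝ≥0∞)) ω * nu A lv T w j ω x) *
      Set.indicator {ω | mass A (lv j) (lv (j + 1)) ω x (T j x) < g} (fun _ => 1) ω ∂P ≤
      ε * ∫⁻ ω, B.indicator (fun _ => (1 : ℝ≥0∞)) ω * nu A lv T w j ω x ∂P := by
    intro x
    rw [A.indep_mul (hm1 x) (meas_bad_H hlv g j x)]
    by_cases hx : x ∈ A.L (lv j)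
    · rw [mul_comm]
      gcongr
      have hms : MeasurableSet {ω | mass A (lv j) (lv (j + 1)) ω x (T j x) < g} :=
        A.H_le _ _ ((meas_mass_H (A := A) (hlv (Nat.le_succ j)) x (T j x)) measurableSet_Iio)
      rw [lintegral_indicator hms]
      simp only [lintegral_const, Measure.restrict_apply MeasurableSet.univ, Set.univ_inter,
        one_mul]
      exact hmob x hx
    · have : (fun ω => B.indicator (fun _ => (1 : ℝ≥0∞)) ω * nu A lv T w j ω x) = fun _ => 0 := by
        funext ω; rw [hwj.supp ω x hx, mul_zero]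
      rw [this]
      simp
  refine (ENNReal.tsum_le_tsum e2).trans ?_
  rw [ENNReal.tsum_mul_left]
  gcongr
  rw [← lintegral_tsum fun x => ((hm1 x).mono (A.F.le _) le_rfl).aemeasurable]
  calc ∫⁻ ω, ∑' x, B.indicator (fun _ => (1 : ℝ≥0∞)) ω * nu A lv T w j ω x ∂P
      ≤ ∫⁻ ω, B.indicator (fun _ => (1 : ℝ≥0∞)) ω ∂P := by
        refine lintegral_mono fun ω => ?_
        show ∑' x, B.indicator (fun _ => (1 : ℝ≥0∞)) ω * nu A lv T w j ω x ≤
          B.indicator (fun _ => (1 : ℝ≥0∞)) ω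
        rw [ENNReal.tsum_mul_left]
        calc B.indicator (fun _ => (1 : ℝ≥0∞)) ω * ∑' x, nu A lv T w j ω x
            ≤ B.indicator (fun _ => (1 : ℝ≥0∞)) ω * 1 := by
              gcongr
              exact (tot_nu_le (T := T) hlv w j ω).trans (hw1 ω)
          _ = _ := mul_one _
    _ = P B := by
        rw [lintegral_indicator hB0]; simp

/-- deterministic induction -/
lemma tot_nu_ge {w : Ω → S → ℝ≥0∞} {g : ℝ≥0∞} (hg1 : g ≤ 1) (ω : Ω)
    (hw1 : KerSys.tot w ω = 1) {J : ℕ}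
    (hbad : ∀ j < J, bad A lv T g w j ω ≤ (g / 2) ^ j / 2) : ∀ j ≤ J,
    (g / 2) ^ j ≤ KerSys.tot (nu A lv T w j) ω := by
  intro j
  induction j with
  | zero => intro _; rw [pow_zero]; exact hw1.ge
  | succ j ih =>
    intro hj
    have h1 := ih (by omega)
    have h2 := hbad j (by omega)
    show _ ≤ KerSys.tot (stp A (lv j) (lv (j + 1)) (T j) (nu A lv T w j)) ω
    rw [tot_stp]
    -- split
    have h3 : g * KerSys.tot (nu A lv T w j) ω ≤
        ∑' x, nu A lv T w j ω x * mass A (lv j) (lv (j + 1)) ω x (T j x) +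
        g * bad A lv T g w j ω := by
      unfold bad KerSys.tot
      rw [← ENNReal.tsum_mul_left, ← ENNReal.tsum_mul_left, ← ENNReal.tsum_add]
      refine ENNReal.tsum_le_tsum fun x => ?_
      by_cases hx : mass A (lv j) (lv (j + 1)) ω x (T j x) < g
      · have : ω ∈ {ω | mass A (lv j) (lv (j + 1)) ω x (T j x) < g} := hx
        rw [Set.indicator_of_mem this, mul_one]
        exact le_add_self
      · have : ω ∉ {ω | mass A (lv j) (lv (j + 1)) ω x (T j x) < g} := hx
        rw [Set.indicator_of_notMem this, mul_zero, mul_zero, add_zero, mul_comm]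
        gcongr
        exact not_lt.1 hx
    have hgt : g ≠ ∞ := ne_top_of_le_ne_top one_ne_top hg1
    have h4 : (g / 2) ^ j ≠ ∞ := by
      refine pow_ne_top ?_
      exact ENNReal.div_ne_top hgt (by norm_num)
    have h5 : g * ((g / 2) ^ j / 2) ≠ ∞ := ENNReal.mul_ne_top hgt (ENNReal.div_ne_top h4 (by norm_num))
    have h6 : (g / 2) ^ (j + 1) + g * ((g / 2) ^ j / 2) = g * (g / 2) ^ j := by
      have e : (g / 2) ^ (j + 1) = g * ((g / 2) ^ j / 2) := by
        rw [pow_succ, ENNReal.div_eq_inv_mul, ENNReal.div_eq_inv_mul]; ring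
      rw [e, ← mul_add, ENNReal.add_halves]
    have h7 : (g / 2) ^ (j + 1) + g * ((g / 2) ^ j / 2) ≤
        ∑' x, nu A lv T w j ω x * mass A (lv j) (lv (j + 1)) ω x (T j x) +
          g * ((g / 2) ^ j / 2) := by
      rw [h6]
      calc g * (g / 2) ^ j ≤ g * KerSys.tot (nu A lv T w j) ω := by gcongr
        _ ≤ _ := h3
        _ ≤ _ := by gcongr
    exact (ENNReal.add_le_add_iff_right h5).1 h7

/-- **`J` prescribed steps** from a random start law, given the past. -/
theorem mobFar (hlv : Monotone lv) {g ε : ℝ≥0∞} (hg0 : g ≠ 0) (hg1 : g ≤ 1) (J : ℕ)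
    (hmob : ∀ j ≤ J, ∀ x ∈ A.L (lv j),
      P {ω | mass A (lv j) (lv (j + 1)) ω x (T j x) < g} ≤ ε)
    {w : Ω → S → ℝ≥0∞} (hw : A.Wt (lv 0) w) (hw1 : ∀ ω, KerSys.tot w ω ≤ 1)
    {B : Set Ω} (hB : MeasurableSet[A.F (lv 0)] B) :
    P (B ∩ {ω | KerSys.tot w ω = 1 ∧ ∑' z, w ω z * mass A (lv 0) (lv (J + 1)) ω z
      (Reach T (J + 1) z) < (g / 2) ^ (J + 1)}) ≤
      (∑ j ∈ Finset.range (J + 1), 2 * ((g / 2) ^ j)⁻¹) * (ε * P B) := by
  classical
  have hgt : g ≠ ∞ := ne_top_of_le_ne_top one_ne_top hg1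
  have hB0 : MeasurableSet B := A.F.le _ _ hB
  -- a.e. inclusion
  have hsub : (B ∩ {ω | KerSys.tot w ω = 1 ∧ ∑' z, w ω z * mass A (lv 0) (lv (J + 1)) ω z
      (Reach T (J + 1) z) < (g / 2) ^ (J + 1)} : Set Ω) ≤ᵐ[P]
      ⋃ j ∈ Finset.range (J + 1), B ∩ {ω | (g / 2) ^ j / 2 < bad A lv T g w j ω} := by
    filter_upwards [GR_le (A := A) (T := T) hlv J] with ω h1
    rintro ⟨hωB, hω1, hω2⟩
    by_contra hcon
    have hb : ∀ j < J + 1, bad A lv T g w j ω ≤ (g / 2) ^ j / 2 := by
      intro j hj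
      by_contra hlt
      refine hcon (Set.mem_iUnion₂.2 ⟨j, Finset.mem_range.2 hj, hωB, not_le.1 hlt⟩)
    have h2 := tot_nu_ge (A := A) (lv := lv) (T := T) (w := w) hg1 ω hω1 hb (J + 1) le_rfl
    refine absurd hω2 (not_lt.2 (h2.trans ?_))
    unfold KerSys.tot
    simp_rw [nu_eq w (J + 1) ω]
    rw [ENNReal.tsum_comm]
    refine ENNReal.tsum_le_tsum fun z => ?_
    rw [ENNReal.tsum_mul_left]
    gcongr
    exact ENNReal.tsum_le_tsum fun y => h1 z y
  refine (measure_mono_ae hsub).trans ((measure_biUnion_finset_le _ _).trans ?_)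
  rw [Finset.sum_mul]
  refine Finset.sum_le_sum fun j hj => ?_
  have hj' : j ≤ J := Nat.lt_succ_iff.1 (Finset.mem_range.1 hj)
  -- Markov
  have hc0 : (g / 2) ^ j / 2 ≠ 0 := by
    refine ENNReal.div_ne_zero.2 ⟨pow_ne_zero _ (ENNReal.div_ne_zero.2 ⟨hg0, by norm_num⟩), by norm_num⟩
  have hct : (g / 2) ^ j / 2 ≠ ∞ :=
    ENNReal.div_ne_top (pow_ne_top (ENNReal.div_ne_top hgt (by norm_num))) (by norm_num)
  have hmb : Measurable (bad A lv T g w j) := by
    unfold bad
    refine Measurable.ennreal_tsum fun x => ?_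
    exact (((wt_nu (T := T) hlv hw j).meas x).mono (A.F.le _) le_rfl).mul
      ((meas_bad_H hlv g j x).mono (A.H_le _) le_rfl)
  have h1 : P (B ∩ {ω | (g / 2) ^ j / 2 < bad A lv T g w j ω}) ≤
      (∫⁻ ω in B, bad A lv T g w j ω ∂P) / ((g / 2) ^ j / 2) := by
    have h2 := meas_ge_le_lintegral_div (μ := P.restrict B) hmb.aemeasurable hc0 hct
    refine le_trans ?_ h2
    rw [Measure.restrict_apply (measurableSet_le measurable_const hmb)]
    refine measure_mono fun ω hω => ⟨?_, hω.1⟩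
    have h3 : (g / 2) ^ j / 2 < bad A lv T g w j ω := hω.2
    exact h3.le
  refine h1.trans ?_
  have h2 := lint_bad (T := T) hlv (hmob j hj') hw hw1 hB
  calc (∫⁻ ω in B, bad A lv T g w j ω ∂P) / ((g / 2) ^ j / 2) ≤ (ε * P B) / ((g / 2) ^ j / 2) := by
        gcongr
    _ = 2 * ((g / 2) ^ j)⁻¹ * (ε * P B) := by
        rw [ENNReal.div_eq_inv_mul, ENNReal.div_eq_inv_mul]
        rw [ENNReal.mul_inv (Or.inl (by norm_num)) (Or.inl (by norm_num)), inv_inv]

/-- from a fixed site -/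
theorem mobFar_site (hlv : Monotone lv) [IsProbabilityMeasure P] {g ε : ℝ≥0∞} (hg0 : g ≠ 0)
    (hg1 : g ≤ 1) (J : ℕ)
    (hmob : ∀ j ≤ J, ∀ x ∈ A.L (lv j),
      P {ω | mass A (lv j) (lv (j + 1)) ω x (T j x) < g} ≤ ε) {z : S} (hz : z ∈ A.L (lv 0)) :
    P {ω | mass A (lv 0) (lv (J + 1)) ω z (Reach T (J + 1) z) < (g / 2) ^ (J + 1)} ≤
      (∑ j ∈ Finset.range (J + 1), 2 * ((g / 2) ^ j)⁻¹) * ε := by
  classical
  have hw : A.Wt (lv 0) (fun _ x => if x = z then (1 : ℝ≥0∞) else 0) :=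
    { meas := fun x => measurable_const
      supp := fun ω x hx => if_neg fun h => hx (by rw [h]; exact hz) }
  have ht : ∀ ω, KerSys.tot (fun (_ : Ω) x => if x = z then (1 : ℝ≥0∞) else 0) ω = 1 := by
    intro ω
    unfold KerSys.tot
    rw [tsum_eq_single z fun x hx => if_neg hx, if_pos rfl]
  have h := mobFar (T := T) hlv hg0 hg1 J hmob hw (fun ω => (ht ω).le)
    (B := Set.univ) MeasurableSet.univ
  rw [measure_univ, mul_one] at h
  refine le_trans (measure_mono fun ω hω => ?_) h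
  refine ⟨Set.mem_univ _, ht ω, ?_⟩
  rw [tsum_eq_single z fun x hx => by rw [if_neg hx, zero_mul], if_pos rfl, one_mul]
  exact hω

/-- reachability of a height function: `J` steps to the right -/
lemma reach_right (φ : S → ℝ) (r : ℕ → ℝ) (hT : ∀ j x y, y ∈ T j x → φ x + r j ≤ φ y) :
    ∀ (J : ℕ) (z y : S), y ∈ Reach T J z → φ z + ∑ j ∈ Finset.range J, r j ≤ φ y := by
  intro J
  induction J with
  | zero =>
    intro z y hy
    rw [show y = z from hy]; simp
  | succ J ih =>
    rintro z y ⟨x, hx, hy⟩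
    have h1 := ih z x hx
    have h2 := hT J x y hy
    rw [Finset.sum_range_succ]
    linarith

end Crest.Agent.R154.MobFar9
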