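import Crest.Agent.R154.B4LP_573

/-!
Row 154, TILE: mobility of the level process (573's `LP`): if the displacement over `n` levels has
mass `≥ p₀` on both sides at distance in `[a, A]` from its centre `c`, then from every start `y` the
walk is steered to `[-A, A]` (in coordinates moving with `c`), ending at a cut level, at cost
`(p p₀)^k`.
-/

set_option autoImplicit false
set_option linter.unusedSectionVars false
set_option linter.deprecated false

namespace Crest.Agent.R154.MobLP927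

open MeasureTheory ProbabilityTheory Filter Crest.Agent.R154.B4
open scoped ENNReal Topology

variable {Ω : Type*} [mΩ : MeasurableSpace Ω] {P : Measure Ω}

/-- a step of size in `[a, A]` towards the origin -/
def good (a A x d : ℝ) : Prop := (x ≤ 0 ∧ a ≤ d ∧ d ≤ A) ∨ (0 < x ∧ a ≤ -d ∧ -d ≤ A)

/-- position after `j` pieces, in the moving frame -/
noncomputable def TT (L : LP P) (φ : V → ℝ) (c y : ℝ) (n j : ℕ) (ω : Ω) : ℝ :=
  y + φ (L.U (j * n) ω) - j * c

/-- the steering event -/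
def EE (L : LP P) (φ : V → ℝ) (a A c y : ℝ) (n k : ℕ) : Set Ω :=
  {ω | ∀ j < k, good a A (TT L φ c y n j ω) (TT L φ c y n (j + 1) ω - TT L φ c y n j ω)}

lemma bound_of_EE {L : LP P} {φ : V → ℝ} {a A c y : ℝ} (ha : 0 < a)
    (h0 : φ 0 = 0) {n k : ℕ} {ω : Ω}
    (h : ω ∈ EE L φ a A c y n k) :
    ∀ j ≤ k, |TT L φ c y n j ω| ≤ max (|y| - j * a) A := by
  intro j
  induction j with
  | zero => intro _; simp [TT, L.U_zero, h0]
  | succ j ih =>
    intro hj
    have h1 := ih (by omega)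
    have h2 := h j (by omega)
    set x := TT L φ c y n j ω
    set x' := TT L φ c y n (j + 1) ω
    push_cast
    rcases h2 with ⟨h2, h3, h4⟩ | ⟨h2, h3, h4⟩
    · rcases le_total x' 0 with h5 | h5
      · rw [abs_of_nonpos h5]
        rw [abs_of_nonpos h2] at h1
        rcases le_max_iff.1 h1 with h6 | h6
        · refine le_max_of_le_left ?_; linarith
        · refine le_max_of_le_right ?_; linarith
      · rw [abs_of_nonneg h5]
        refine le_max_of_le_right ?_; linarith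
    · rcases le_total x' 0 with h5 | h5
      · rw [abs_of_nonpos h5]
        refine le_max_of_le_right ?_; linarith
      · rw [abs_of_nonneg h5]
        rw [abs_of_pos h2] at h1
        rcases le_max_iff.1 h1 with h6 | h6
        · refine le_max_of_le_left ?_; linarith
        · refine le_max_of_le_right ?_; linarith

section gen
variable {α : Type*} {m : MeasurableSpace α} {f g : α → ℝ}
lemma m_le (hf : Measurable[m] f) (t : ℝ) : MeasurableSet[m] {x | f x ≤ t} :=
  measurableSet_le hf measurable_const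
lemma m_lt (hf : Measurable[m] f) (t : ℝ) : MeasurableSet[m] {x | t < f x} :=
  measurableSet_lt measurable_const hf
lemma m_Icc (hf : Measurable[m] f) (a A : ℝ) : MeasurableSet[m] {x | a ≤ f x ∧ f x ≤ A} :=
  (measurableSet_le measurable_const hf).inter (measurableSet_le hf measurable_const)
lemma m_sub_const (hf : Measurable[m] f) (c : ℝ) : Measurable[m] fun x => f x - c :=
  hf.sub_const c
lemma m_neg (hf : Measurable[m] f) : Measurable[m] fun x => -f x := hf.neg
lemma m_affine (hf : Measurable[m] f) (y c : ℝ) : Measurable[m] fun x => y + f x - c :=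
  (hf.const_add y).sub_const c
lemma m_sub (hf : Measurable[m] f) (hg : Measurable[m] g) : Measurable[m] fun x => f x - g x :=
  hf.sub hg
lemma m_inter {s t : Set α} (hs : MeasurableSet[m] s) (ht : MeasurableSet[m] t) :
    MeasurableSet[m] (s ∩ t) := hs.inter ht
lemma m_iInter {ι : Sort*} [Countable ι] {s : ι → Set α} (hs : ∀ i, MeasurableSet[m] (s i)) :
    MeasurableSet[m] (⋂ i, s i) := MeasurableSet.iInter hs
end gen

lemma measurable_TT (L : LP P) {φ : V → ℝ} (hφ : Measurable φ) (c y : ℝ) {n j k : ℕ}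
    (hj : j ≤ k) : Measurable[L.F (k * n)] (TT L φ c y n j) := by
  have h1 : Measurable[L.F (k * n)] (L.U (j * n)) :=
    (L.U_meas (j * n)).mono (L.F_mono (Nat.mul_le_mul_right n hj)) le_rfl
  have h2 : Measurable[L.F (k * n)] fun ω => φ (L.U (j * n) ω) := hφ.comp h1
  exact m_affine h2 y _

lemma measurableSet_good {α : Type*} {m : MeasurableSpace α} {a A : ℝ} {f g : α → ℝ}
    (hf : Measurable[m] f) (hg : Measurable[m] g) :
    MeasurableSet[m] {t | good a A (f t) (g t)} := by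
  unfold good
  exact (((measurableSet_le hf measurable_const).inter
    ((measurableSet_le measurable_const hg).inter (measurableSet_le hg measurable_const))).union
    ((measurableSet_lt measurable_const hf).inter
    ((measurableSet_le measurable_const hg.neg).inter (measurableSet_le hg.neg measurable_const))))

lemma measurableSet_EE (L : LP P) {φ : V → ℝ} (hφ : Measurable φ) (a A c y : ℝ) (n k : ℕ) :
    MeasurableSet[L.F (k * n)] (EE L φ a A c y n k) := by
  have : EE L φ a A c y n k = ⋂ j, ⋂ _ : j < k,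
      {ω | good a A (TT L φ c y n j ω) (TT L φ c y n (j + 1) ω - TT L φ c y n j ω)} := by
    ext ω; simp [EE]
  rw [this]
  refine m_iInter fun j => m_iInter fun hj => ?_
  have h1 := measurable_TT L hφ c y (n := n) hj.le
  have h2 := measurable_TT L hφ c y (n := n) (j := j + 1) (k := k) hj
  exact measurableSet_good h1 (m_sub h2 h1)

/-- **steering of the level process** -/
theorem steer [IsProbabilityMeasure P] (L : LP P) {φ : V → ℝ} (hφ : Measurable φ)
    (hadd : ∀ x y, φ (x + y) = φ x + φ y) {a A c p₀ : ℝ} (n : ℕ) (hp₀ : 0 ≤ p₀)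
    (h₁ : ENNReal.ofReal p₀ ≤ P {ω | a ≤ φ (L.U n ω) - c ∧ φ (L.U n ω) - c ≤ A})
    (h₂ : ENNReal.ofReal p₀ ≤ P {ω | a ≤ -(φ (L.U n ω) - c) ∧ -(φ (L.U n ω) - c) ≤ A})
    (y : ℝ) (k : ℕ) :
    ENNReal.ofReal ((L.p * p₀) ^ k) ≤ P (EE L φ a A c y n k ∩ L.C (k * n)) := by
  induction k with
  | zero =>
    have h : P (L.C 0) = 1 := (prob_compl_eq_zero_iff (L.C_meas 0)).1 L.C_zero
    have e : EE L φ a A c y n 0 = Set.univ := by ext ω; simp [EE]
    simp only [pow_zero, zero_mul, ENNReal.ofReal_one, e, Set.univ_inter]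
    exact h.ge
  | succ k ih =>
    set l := k * n with hl
    have hT := measurable_TT L hφ c y (n := n) (le_refl k)
    have hE := measurableSet_EE L hφ a A c y n k
    set A₁ := EE L φ a A c y n k ∩ {ω | TT L φ c y n k ω ≤ 0} with hA₁
    set A₂ := EE L φ a A c y n k ∩ {ω | 0 < TT L φ c y n k ω} with hA₂
    have hA₁m : MeasurableSet[L.F l] A₁ := m_inter hE (m_le hT 0)
    have hA₂m : MeasurableSet[L.F l] A₂ := m_inter hE (m_lt hT 0)
    have hUn0 : Measurable[L.F n] fun ω => φ (L.U n ω) := hφ.comp (L.U_meas n)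
    have hUn : Measurable[L.F n] fun ω => φ (L.U n ω) - c := m_sub_const hUn0 c
    set B₁ := {ω | a ≤ φ (L.U n ω) - c ∧ φ (L.U n ω) - c ≤ A} with hB₁
    set B₂ := {ω | a ≤ -(φ (L.U n ω) - c) ∧ -(φ (L.U n ω) - c) ≤ A} with hB₂
    have hB₁m : MeasurableSet[L.F n] B₁ := m_Icc hUn a A
    have hB₂m : MeasurableSet[L.F n] B₂ := m_Icc (m_neg hUn) a A
    have hq₁ : ENNReal.ofReal (L.p * p₀) ≤ P (B₁ ∩ L.C n) := by
      rw [ENNReal.ofReal_mul L.p_pos.le]
      exact (mul_le_mul_right h₁ _).trans (L.cut n B₁ hB₁m)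
    have hq₂ : ENNReal.ofReal (L.p * p₀) ≤ P (B₂ ∩ L.C n) := by
      rw [ENNReal.ofReal_mul L.p_pos.le]
      exact (mul_le_mul_right h₂ _).trans (L.cut n B₂ hB₂m)
    have hB₁m' : MeasurableSet (B₁ ∩ L.C n) := (L.F_le n _ hB₁m).inter (L.C_meas n)
    have hB₂m' : MeasurableSet (B₂ ∩ L.C n) := (L.F_le n _ hB₂m).inter (L.C_meas n)
    have r₁ := L.ren l A₁ (B₁ ∩ L.C n) hA₁m hB₁m'
    have r₂ := L.ren l A₂ (B₂ ∩ L.C n) hA₂m hB₂m'
    have hkl : (k + 1) * n = l + n := by rw [hl]; ring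
    have hstep : ∀ ω, TT L φ c y n (k + 1) ω - TT L φ c y n k ω = φ (L.U n (L.θ l ω)) - c := by
      intro ω
      unfold TT
      rw [hkl, L.U_add, hadd]
      push_cast
      ring
    have hsub : (A₁ ∩ L.C l ∩ L.θ l ⁻¹' (B₁ ∩ L.C n)) ∪ (A₂ ∩ L.C l ∩ L.θ l ⁻¹' (B₂ ∩ L.C n)) ⊆
        EE L φ a A c y n (k + 1) ∩ L.C ((k + 1) * n) := by
      rintro ω (⟨⟨⟨h3, h4⟩, h5⟩, h6, h7⟩ | ⟨⟨⟨h3, h4⟩, h5⟩, h6, h7⟩)
      · refine ⟨fun j hj => ?_, ?_⟩
        · rcases Nat.lt_succ_iff_lt_or_eq.1 hj with hj | rfl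
          · exact h3 j hj
          · left
            rw [hstep]
            exact ⟨h4, h6⟩
        · rw [hkl, L.C_add]; exact h7
      · refine ⟨fun j hj => ?_, ?_⟩
        · rcases Nat.lt_succ_iff_lt_or_eq.1 hj with hj | rfl
          · exact h3 j hj
          · right
            rw [hstep]
            exact ⟨h4, h6⟩
        · rw [hkl, L.C_add]; exact h7
    have hm₂ : MeasurableSet (A₂ ∩ L.C l ∩ L.θ l ⁻¹' (B₂ ∩ L.C n)) :=
      (((L.F_le l) _ hA₂m).inter (L.C_meas l)).inter (L.θ_meas l hB₂m')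
    have hdisj : Disjoint (A₁ ∩ L.C l ∩ L.θ l ⁻¹' (B₁ ∩ L.C n))
        (A₂ ∩ L.C l ∩ L.θ l ⁻¹' (B₂ ∩ L.C n)) := by
      rw [Set.disjoint_left]
      intro ω h h'
      have g1 : TT L φ c y n k ω ≤ 0 := h.1.1.2
      have g2 : 0 < TT L φ c y n k ω := h'.1.1.2
      exact absurd g1 (not_le.2 g2)
    have hsplit : P (EE L φ a A c y n k ∩ L.C l) ≤ P (A₁ ∩ L.C l) + P (A₂ ∩ L.C l) := by
      refine (measure_mono ?_).trans (measure_union_le _ _)
      rintro ω ⟨h3, h4⟩
      rcases le_or_gt (TT L φ c y n k ω) 0 with h5 | h5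
      · exact Or.inl ⟨⟨h3, h5⟩, h4⟩
      · exact Or.inr ⟨⟨h3, h5⟩, h4⟩
    calc ENNReal.ofReal ((L.p * p₀) ^ (k + 1))
        = ENNReal.ofReal ((L.p * p₀) ^ k) * ENNReal.ofReal (L.p * p₀) := by
          rw [pow_succ, ENNReal.ofReal_mul (pow_nonneg (mul_nonneg L.p_pos.le hp₀) k)]
      _ ≤ P (EE L φ a A c y n k ∩ L.C l) * ENNReal.ofReal (L.p * p₀) := mul_le_mul_left ih _
      _ ≤ (P (A₁ ∩ L.C l) + P (A₂ ∩ L.C l)) * ENNReal.ofReal (L.p * p₀) :=
          mul_le_mul_left hsplit _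
      _ = P (A₁ ∩ L.C l) * ENNReal.ofReal (L.p * p₀) +
          P (A₂ ∩ L.C l) * ENNReal.ofReal (L.p * p₀) := add_mul _ _ _
      _ ≤ P (A₁ ∩ L.C l) * P (B₁ ∩ L.C n) + P (A₂ ∩ L.C l) * P (B₂ ∩ L.C n) :=
          add_le_add (mul_le_mul_right hq₁ _) (mul_le_mul_right hq₂ _)
      _ = P ((A₁ ∩ L.C l ∩ L.θ l ⁻¹' (B₁ ∩ L.C n)) ∪ (A₂ ∩ L.C l ∩ L.θ l ⁻¹' (B₂ ∩ L.C n))) := by
          rw [measure_union hdisj hm₂, r₁, r₂]
      _ ≤ _ := measure_mono hsub

/-- **mobility**: from every start `y` with `|y| ≤ A + k a` the walk ends in `[-A, A]` (moving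
frame) at a cut level, with mass at least `(p p₀)^k`. -/
theorem mobility [IsProbabilityMeasure P] (L : LP P) {φ : V → ℝ} (hφ : Measurable φ)
    (hadd : ∀ x y, φ (x + y) = φ x + φ y) {a A c p₀ : ℝ} (ha : 0 < a) (n : ℕ)
    (hp₀ : 0 ≤ p₀)
    (h₁ : ENNReal.ofReal p₀ ≤ P {ω | a ≤ φ (L.U n ω) - c ∧ φ (L.U n ω) - c ≤ A})
    (h₂ : ENNReal.ofReal p₀ ≤ P {ω | a ≤ -(φ (L.U n ω) - c) ∧ -(φ (L.U n ω) - c) ≤ A})
    (y : ℝ) (k : ℕ) (hk : |y| ≤ A + k * a) :
    ENNReal.ofReal ((L.p * p₀) ^ k) ≤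
      P ({ω | |y + φ (L.U (k * n) ω) - k * c| ≤ A} ∩ L.C (k * n)) := by
  have h0 : φ 0 = 0 := by
    have := hadd 0 0
    simpa using this
  refine (steer L hφ hadd n hp₀ h₁ h₂ y k).trans (measure_mono ?_)
  rintro ω ⟨h, h'⟩
  refine ⟨?_, h'⟩
  have := bound_of_EE ha h0 h k le_rfl
  unfold TT at this
  refine this.trans (max_le ?_ le_rfl)
  linarith

end Crest.Agent.R154.MobLP927
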