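import Crest.Agent.R154.MobX_437
import Crest.Agent.R154.B4Soft2_23
import Crest.Agent.R154.B4Ann_23

/-!
Row 154, TILE, mobility of the unconfined tile, Part C: the level process `LP` of 573.
`tl L i l` = edge of `{1 - |chf|² ≤ 1/100}` for the coordinate `i` of `U l`, `wl = 1 / tl` = width,
`Sl L i l` = number of dyadic shells between `wl l` and `wl (128 l)`.
Every level `l ≥ l₀` is mobile: own cell with probability `≥ 1/1400`, right cell with probability
`≥ 1/(51200 Sl)`; tails `P(|Y - c₁| > 9 wl (n l)) ≤ 6/(100 n)`; `Σ_{k<J} Sl (2^k) = O(J)` (helper437).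
-/

set_option autoImplicit false
set_option linter.unusedSectionVars false
set_option linter.unusedVariables false

namespace Crest.Agent.R154.MobW437

open MeasureTheory Filter Set Crest.Agent.R154.B4
open scoped ENNReal Topology ComplexConjugate

variable {Ω : Type*} [mΩ : MeasurableSpace Ω] {P : Measure Ω}

/-- admissible edges -/
def edgeSet (L : LP P) (i : Fin 2) (l : ℕ) : Set ℝ :=
  {t | 0 ≤ t ∧ t ≤ 1 ∧ ∀ s, |s| ≤ t → gg P (L.U l) i s ≤ 1 / 100}

/-- the edge -/
noncomputable def tl (L : LP P) (i : Fin 2) (l : ℕ) : ℝ := sSup (edgeSet L i l)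

/-- the width -/
noncomputable def wl (L : LP P) (i : Fin 2) (l : ℕ) : ℝ := 1 / tl L i l

/-- number of dyadic shells -/
noncomputable def Sl (L : LP P) (i : Fin 2) (l : ℕ) : ℕ :=
  ⌈Real.logb 2 (180 * (wl L i (128 * l) / wl L i l))⌉₊

variable [IsProbabilityMeasure P]

lemma meas_U (L : LP P) (l : ℕ) : Measurable (L.U l) := (L.U_meas l).mono (L.F_le l) le_rfl

lemma edge_bdd (L : LP P) (i : Fin 2) (l : ℕ) : BddAbove (edgeSet L i l) := ⟨1, fun _ h => h.2.1⟩

lemma zero_mem_edge (L : LP P) (i : Fin 2) (l : ℕ) : (0 : ℝ) ∈ edgeSet L i l := by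
  refine ⟨le_rfl, zero_le_one, fun s hs => ?_⟩
  have : s = 0 := abs_eq_zero.1 (le_antisymm hs (abs_nonneg _))
  rw [this, gg_zero]; norm_num

lemma tl_nonneg (L : LP P) (i : Fin 2) (l : ℕ) : 0 ≤ tl L i l :=
  le_csSup (edge_bdd L i l) (zero_mem_edge L i l)

lemma tl_le_one (L : LP P) (i : Fin 2) (l : ℕ) : tl L i l ≤ 1 :=
  csSup_le ⟨0, zero_mem_edge L i l⟩ fun _ h => h.2.1

lemma tl_pos (L : LP P) (i : Fin 2) (l : ℕ) : 0 < tl L i l := by
  have hc := (continuous_gg (P := P) (meas_U L l) i).continuousAt (x := 0)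
  have h1 : ∀ᶠ s in 𝓝 (0 : ℝ), gg P (L.U l) i s < 1 / 100 := by
    refine hc.eventually_lt continuousAt_const ?_
    rw [gg_zero]; norm_num
  obtain ⟨δ, hδ, hδ'⟩ := Metric.eventually_nhds_iff.1 h1
  have hmem : min (δ / 2) 1 ∈ edgeSet L i l := by
    refine ⟨by positivity, min_le_right _ _, fun s hs => (hδ' ?_).le⟩
    rw [Real.dist_eq, sub_zero]
    exact lt_of_le_of_lt (hs.trans (min_le_left _ _)) (by linarith)
  exact lt_of_lt_of_le (by positivity) (le_csSup (edge_bdd L i l) hmem)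

lemma gg_le_of_abs_le (L : LP P) (i : Fin 2) (l : ℕ) (s : ℝ) (hs : |s| ≤ tl L i l) :
    gg P (L.U l) i s ≤ 1 / 100 := by
  have hpos := tl_pos L i l
  have hcl : IsClosed {s | gg P (L.U l) i s ≤ 1 / 100} :=
    isClosed_le (continuous_gg (P := P) (meas_U L l) i) continuous_const
  have hsub : Ioo (-tl L i l) (tl L i l) ⊆ {s | gg P (L.U l) i s ≤ 1 / 100} := by
    intro x hx
    have hx' : |x| < tl L i l := abs_lt.2 hx
    obtain ⟨t, ht, hxt⟩ := exists_lt_of_lt_csSup ⟨0, zero_mem_edge L i l⟩ hx'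
    exact ht.2.2 x hxt.le
  have h2 := hcl.closure_subset_iff.2 hsub
  rw [closure_Ioo (by linarith)] at h2
  exact h2 (abs_le.1 hs)

lemma le_tl {L : LP P} {i : Fin 2} {l : ℕ} {t : ℝ} (h0 : 0 ≤ t) (h1 : t ≤ 1)
    (h : ∀ s, |s| ≤ t → gg P (L.U l) i s ≤ 1 / 100) : t ≤ tl L i l :=
  le_csSup (edge_bdd L i l) ⟨h0, h1, h⟩

lemma edge_eq (L : LP P) (i : Fin 2) (l : ℕ) (h1 : tl L i l < 1) :
    1 / 100 ≤ gg P (L.U l) i (tl L i l) := by
  by_contra hlt
  push Not at hlt
  have hc := (continuous_gg (P := P) (meas_U L l) i).continuousAt (x := tl L i l)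
  have h2 : ∀ᶠ s in 𝓝 (tl L i l), gg P (L.U l) i s < 1 / 100 :=
    hc.eventually_lt continuousAt_const hlt
  obtain ⟨δ, hδ, hδ'⟩ := Metric.eventually_nhds_iff.1 h2
  have hpos := tl_pos L i l
  have h3 : min (tl L i l + δ / 2) 1 ≤ tl L i l := by
    refine le_tl (by positivity) (min_le_right _ _) fun s hs => ?_
    rcases le_or_gt |s| (tl L i l) with h4 | h4
    · exact gg_le_of_abs_le L i l s h4
    · rw [← gg_abs]
      refine (hδ' ?_).le
      have h5 := hs.trans (min_le_left _ _)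
      rw [Real.dist_eq, abs_of_pos (by linarith)]
      linarith
  rcases min_le_iff.1 h3 with h4 | h4 <;> linarith

lemma chi_cfr (L : LP P) (l : ℕ) (θ : V) : L.chi l θ = cfr P (L.U l) θ := rfl

lemma tl_small (L : LP P) (i : Fin 2) {δ : ℝ} (hδ : 0 < δ) (hδ1 : δ ≤ 1) :
    ∃ l0, ∀ l, l0 ≤ l → tl L i l < δ := by
  obtain ⟨l0, h0⟩ := L.ann δ hδ hδ1 (1 / 2) (by norm_num)
  refine ⟨l0, fun l hl => ?_⟩
  by_contra hcon
  push Not at hcon
  have h1 := h0 l hl (δ • ev i) (by rw [norm_ev, abs_of_pos hδ]; linarith)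
    (by rw [norm_ev, abs_of_pos hδ])
  have h2 := gg_le_of_abs_le L i l δ (by rw [abs_of_pos hδ]; exact hcon)
  unfold gg psi at h2
  rw [← chi_cfr] at h2
  have h3 := norm_nonneg (L.chi l (δ • ev i))
  nlinarith

/-- `1 - |chf|²` of the displacement over `l` levels is `≤ 3/(100 n)` up to the edge of `n l` -/
def Nf (L : LP P) (i : Fin 2) (n l : ℕ) : Prop :=
  ∀ u, |u| ≤ tl L i (n * l) → gg P (L.U l) i u ≤ 3 / (100 * n)

lemma norm_cfr_le_one (L : LP P) (l : ℕ) (θ : V) : ‖L.chi l θ‖ ≤ 1 := by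
  rw [chi_cfr]; exact norm_cfr_le _ _

lemma nfold (L : LP P) (i : Fin 2) (n : ℕ) (hn : 1 ≤ n) : ∃ l0, ∀ l, l0 ≤ l → Nf L i n l := by
  have hnr : (1 : ℝ) ≤ n := by exact_mod_cast hn
  obtain ⟨δ, hδ, hδ'⟩ := L.t1 (1 / (400 * n)) (by positivity)
  obtain ⟨l0, hl0⟩ := tl_small L i (δ := min δ 1) (by positivity) (min_le_right _ _)
  refine ⟨l0, fun l hl u hu => ?_⟩
  have hl' : l0 ≤ n * l := hl.trans (Nat.le_mul_of_pos_left l hn)
  have huδ : ‖u • ev i‖ ≤ δ := by
    rw [norm_ev]
    exact hu.trans ((hl0 _ hl').le.trans (min_le_left _ _))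
  have hind : ∀ k : ℕ, ‖L.chi (k * l) (u • ev i) - L.chi l (u • ev i) ^ k‖ ≤ k * (1 / (400 * n)) := by
    intro k
    induction k with
    | zero =>
      have : L.chi (0 * l) (u • ev i) = 1 := by
        rw [zero_mul, chi_cfr]
        unfold cfr
        simp [L.U_zero, dt]
      rw [this]; simp
    | succ k ih =>
      have e1 : (k + 1) * l = k * l + l := by ring
      rw [e1, pow_succ]
      have h1 := (hδ' (k * l) l (u • ev i) huδ).1
      have h2 : L.chi (k * l + l) (u • ev i) - L.chi l (u • ev i) ^ k * L.chi l (u • ev i) =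
          (L.chi (k * l + l) (u • ev i) - L.chi (k * l) (u • ev i) * L.chi l (u • ev i)) +
          (L.chi (k * l) (u • ev i) - L.chi l (u • ev i) ^ k) * L.chi l (u • ev i) := by ring
      rw [h2]
      refine (norm_add_le _ _).trans ?_
      rw [norm_mul]
      have h3 := norm_cfr_le_one L l (u • ev i)
      have h4 : ‖L.chi (k * l) (u • ev i) - L.chi l (u • ev i) ^ k‖ * ‖L.chi l (u • ev i)‖ ≤
          (k * (1 / (400 * n))) * 1 := by
        gcongr
      push_cast
      linarith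
  have h1 := hind n
  have e2 : (n : ℝ) * (1 / (400 * n)) = 1 / 400 := by field_simp
  rw [e2] at h1
  have h2 := gg_le_of_abs_le L i (n * l) u hu
  unfold gg psi at h2
  rw [← chi_cfr] at h2
  set y := ‖L.chi (n * l) (u • ev i)‖ with hy
  have hy1 : y ≤ 1 := norm_cfr_le_one L _ _
  have hy0 : 0 ≤ y := norm_nonneg _
  have hy2 : 99 / 100 ≤ y := by nlinarith
  set x := ‖L.chi l (u • ev i)‖ with hx
  have hx1 : x ≤ 1 := norm_cfr_le_one L _ _
  have hx0 : 0 ≤ x := norm_nonneg _
  have h3 : y - 1 / 400 ≤ x ^ n := by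
    have h4 : y ≤ ‖L.chi (n * l) (u • ev i) - L.chi l (u • ev i) ^ n‖ +
        ‖L.chi l (u • ev i) ^ n‖ := by
      rw [hy]
      have := norm_add_le (L.chi (n * l) (u • ev i) - L.chi l (u • ev i) ^ n)
        (L.chi l (u • ev i) ^ n)
      rwa [sub_add_cancel] at this
    rw [norm_pow] at h4
    linarith
  have hs : gg P (L.U l) i u = 1 - x ^ 2 := by
    unfold gg psi
    rw [← chi_cfr]
  rw [hs]
  set s := 1 - x ^ 2 with hsdef
  have hs0 : 0 ≤ s := by nlinarith
  have hs1 : s ≤ 1 := by nlinarith [sq_nonneg x]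
  have h5 : (975 / 1000 : ℝ) ≤ (1 - s) ^ n := by
    have e : (1 - s) ^ n = (x ^ n) ^ 2 := by rw [hsdef]; ring
    rw [e]
    have h6 : (98775 / 100000 : ℝ) ≤ x ^ n := by
      have h7 : (395 / 400 : ℝ) ≤ x ^ n := by linarith
      nlinarith
    nlinarith
  have h6 : (1 - s) ^ n * (1 + s) ^ n ≤ 1 := by
    rw [← mul_pow]
    refine pow_le_one₀ ?_ ?_
    · nlinarith
    · nlinarith
  have h7 : 1 + (n : ℝ) * s ≤ (1 + s) ^ n := one_add_mul_le_pow (by linarith) n
  have h8 : (975 / 1000 : ℝ) * (1 + n * s) ≤ 1 := by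
    calc (975 / 1000 : ℝ) * (1 + n * s) ≤ (1 - s) ^ n * (1 + s) ^ n := by
          gcongr
      _ ≤ 1 := h6
  rw [le_div_iff₀ (by positivity)]
  nlinarith

lemma tl_mono_of_Nf {L : LP P} {i : Fin 2} {n l : ℕ} (hn : 3 ≤ n) (h : Nf L i n l) :
    tl L i (n * l) ≤ tl L i l := by
  refine le_tl (tl_nonneg _ _ _) (tl_le_one _ _ _) fun s hs => (h s hs).trans ?_
  have : (3 : ℝ) ≤ n := by exact_mod_cast hn
  rw [div_le_div_iff₀ (by positivity) (by norm_num)]
  linarith

lemma wl_pos (L : LP P) (i : Fin 2) (l : ℕ) : 0 < wl L i l := by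
  have := tl_pos L i l
  unfold wl; positivity

lemma one_le_wl (L : LP P) (i : Fin 2) (l : ℕ) : 1 ≤ wl L i l := by
  unfold wl
  rw [le_div_iff₀ (tl_pos L i l), one_mul]
  exact tl_le_one L i l

/-- the widths grow by a factor at least `4` over seven octaves -/
lemma four_wl_le (L : LP P) (i : Fin 2) : ∃ l0, ∀ l, l0 ≤ l → 4 * wl L i l ≤ wl L i (128 * l) := by
  obtain ⟨l1, h1⟩ := nfold L i 128 (by norm_num)
  obtain ⟨l2, h2⟩ := tl_small L i (δ := 1 / 4) (by norm_num) (by norm_num)
  refine ⟨max l1 l2, fun l hl => ?_⟩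
  have hN := h1 l ((le_max_left _ _).trans hl)
  have hl2 : l2 ≤ 128 * l := by
    have := (le_max_right l1 l2).trans hl
    omega
  have h3 := h2 _ hl2
  have h4 : 4 * tl L i (128 * l) ≤ tl L i l := by
    refine le_tl (by have := tl_nonneg L i (128 * l); positivity) (by linarith) fun s hs => ?_
    have h5 := hN (s / 4) (by
      rw [abs_div, abs_of_pos (by norm_num : (0 : ℝ) < 4)]
      linarith)
    have h6 := gg_two (P := P) (meas_U L l) i (s / 4)
    have h7 := gg_two (P := P) (meas_U L l) i (2 * (s / 4))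
    have e : 2 * (2 * (s / 4)) = s := by ring
    rw [e] at h7
    push_cast at h5
    norm_num at h5
    linarith
  unfold wl
  have hp1 := tl_pos L i l
  have hp2 := tl_pos L i (128 * l)
  rw [mul_one_div, div_le_div_iff₀ hp1 hp2]
  linarith

/-- **Mobility of every level `l ≥ l₀`**, with tails up to multiple `n`. -/
theorem mob (L : LP P) (i : Fin 2) (n : ℕ) : ∃ l0, ∀ l, l0 ≤ l →
    1 ≤ Sl L i l ∧ wl L i l ≤ wl L i (128 * l) ∧
    ∃ c1 c2 a : ℝ, wl L i l / 80 ≤ a ∧ a ≤ 9 / 4 * wl L i (128 * l) ∧ 4 * a ≤ |c2 - c1| ∧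
      |c2 - c1| ≤ 8 * a ∧
      (∀ α z, z ∈ Ico α (α + a) → 1 / 1400 ≤ P.real {ω | z + L.U l ω i - c1 ∈ Ico α (α + a)}) ∧
      (∀ α z, z ∈ Ico α (α + a) →
        1 / (51200 * (Sl L i l : ℝ)) ≤ P.real {ω | z + L.U l ω i - c2 ∈ Ico α (α + a)}) ∧
      (∀ m : ℕ, 3 ≤ m → m ≤ n →
        P.real {ω | 9 * wl L i (m * l) < |L.U l ω i - c1|} ≤ 6 / (100 * m)) := by
  -- common threshold
  have hex : ∀ N : ℕ, ∃ l0, ∀ l, l0 ≤ l → ∀ m, 1 ≤ m → m ≤ N → Nf L i m l := by
    intro N
    induction N with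
    | zero => exact ⟨0, fun l _ m h1 h2 => by omega⟩
    | succ N ih =>
      obtain ⟨l1, h1⟩ := ih
      obtain ⟨l2, h2⟩ := nfold L i (N + 1) (by omega)
      refine ⟨max l1 l2, fun l hl m hm1 hm2 => ?_⟩
      rcases Nat.lt_or_ge N m with h3 | h3
      · have : m = N + 1 := by omega
        rw [this]; exact h2 l ((le_max_right _ _).trans hl)
      · exact h1 l ((le_max_left _ _).trans hl) m hm1 h3
  obtain ⟨l1, h1⟩ := hex (max n 128)
  obtain ⟨l2, h2⟩ := tl_small L i (δ := 1) (by norm_num) le_rfl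
  refine ⟨max l1 l2, fun l hl => ?_⟩
  have hN : ∀ m, 1 ≤ m → m ≤ max n 128 → Nf L i m l := h1 l ((le_max_left _ _).trans hl)
  have h128 := hN 128 (by norm_num) (le_max_right _ _)
  have hedge := edge_eq L i l (h2 l ((le_max_right _ _).trans hl))
  have hp := tl_pos L i l
  have hp' := tl_pos L i (128 * l)
  have hmono := tl_mono_of_Nf (by norm_num) h128
  have hratio : (1 : ℝ) ≤ wl L i (128 * l) / wl L i l := by
    rw [one_le_div (wl_pos L i l)]
    unfold wl
    exact one_div_le_one_div_of_le hp' hmono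
  have hR0 : (0 : ℝ) < 180 * (wl L i (128 * l) / wl L i l) := by positivity
  have hR : (180 : ℝ) ≤ 180 * (wl L i (128 * l) / wl L i l) := by linarith
  set R : ℝ := 180 * (wl L i (128 * l) / wl L i l) with hRdef
  have hlog : 0 < Real.logb 2 R := Real.logb_pos (by norm_num) (by linarith)
  have hS1 : 1 ≤ Sl L i l := Nat.one_le_iff_ne_zero.2 (Nat.ceil_pos.2 hlog).ne'
  have hS2 : R ≤ 2 ^ Sl L i l := by
    have h3 : Real.logb 2 R ≤ (Sl L i l : ℝ) := Nat.le_ceil _
    rw [Real.logb_le_iff_le_rpow (by norm_num) hR0, Real.rpow_natCast] at h3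
    exact h3
  have hS3 : (2 : ℝ) ^ Sl L i l ≤ 2 * R := by
    have h3 : (Sl L i l : ℝ) < Real.logb 2 R + 1 := Nat.ceil_lt_add_one hlog.le
    have h4 : (Sl L i l : ℝ) - 1 < Real.logb 2 R := by linarith
    rw [Real.lt_logb_iff_rpow_lt (by norm_num) hR0, Real.rpow_sub (by norm_num),
      Real.rpow_natCast, Real.rpow_one] at h4
    rw [div_lt_iff₀ (by norm_num)] at h4
    linarith
  have hRR : R = 180 * (tl L i l / tl L i (128 * l)) := by
    rw [hRdef]; unfold wl; field_simp
  have hS : 9 * (1 / tl L i (128 * l)) ≤ 2 ^ Sl L i l * (1 / tl L i l / 20) := by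
    calc 9 * (1 / tl L i (128 * l)) = R * (1 / tl L i l / 20) := by
          rw [hRR]; field_simp; norm_num
      _ ≤ 2 ^ Sl L i l * (1 / tl L i l / 20) := by gcongr
  have hS' : 2 ^ Sl L i l * (1 / tl L i l / 20) ≤ 18 * (1 / tl L i (128 * l)) := by
    calc 2 ^ Sl L i l * (1 / tl L i l / 20) ≤ (2 * R) * (1 / tl L i l / 20) := by gcongr
      _ = 18 * (1 / tl L i (128 * l)) := by
          rw [hRR]; field_simp; norm_num
  obtain ⟨c1, c2, a, g1, g2, g3, g4, g5, g6, g7⟩ := mob_law (P := P) (meas_U L l) i hp' hmono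
    (gg_le_of_abs_le L i l) hedge (fun s hs => (h128 s hs).trans (by norm_num)) (Sl L i l)
    (by omega) hS hS'
  refine ⟨hS1, ?_, c1, c2, a, g1, g2, g3, g4, g5, g6, ?_⟩
  · unfold wl
    exact one_div_le_one_div_of_le hp' hmono
  · intro m hm3 hmn
    have hm := hN m (by omega) (hmn.trans (le_max_left _ _))
    have hm3' : (3 : ℝ) ≤ m := by exact_mod_cast hm3
    have h3 := g7 (tl L i (m * l)) (3 / (100 * m)) (tl_pos _ _ _) (tl_mono_of_Nf hm3 hm)
      (by positivity) (by rw [div_le_div_iff₀ (by positivity) (by norm_num)]; linarith) hm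
    unfold wl
    refine h3.trans (le_of_eq ?_)
    ring

/-- ratios of widths over finitely many octaves: telescoping -/
lemma telescope (f : ℕ → ℝ) (m J : ℕ) :
    ∑ k ∈ Finset.range J, (f (k + m) - f k) =
      ∑ j ∈ Finset.range m, f (J + j) - ∑ j ∈ Finset.range m, f j := by
  induction J with
  | zero => simp
  | succ J ih =>
    rw [Finset.sum_range_succ, ih]
    have h1 : ∑ j ∈ Finset.range m, f (J + 1 + j) = ∑ j ∈ Finset.range m, f (J + j) +
        (f (J + m) - f J) := by
      have h2 := Finset.sum_range_succ (fun j => f (J + j)) m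
      have h3 := Finset.sum_range_succ' (fun j => f (J + j)) m
      simp only [add_zero] at h3
      have h4 : ∑ j ∈ Finset.range m, f (J + 1 + j) = ∑ j ∈ Finset.range m, f (J + (j + 1)) := by
        refine Finset.sum_congr rfl fun j _ => ?_
        congr 1; omega
      rw [h4]
      linarith
    rw [h1]
    ring

/-- **Sum over octaves**: `Sl` (given polynomial growth of the widths). -/
theorem sum_Sl (L : LP P) (i : Fin 2) {C : ℝ} (hC : 0 ≤ C)
    (hg : ∀ k : ℕ, Real.logb 2 (wl L i (2 ^ k)) ≤ C * (k + 1)) :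
    ∃ C' : ℝ, ∀ J : ℕ, ∑ k ∈ Finset.range J, (Sl L i (2 ^ k) : ℝ) ≤ C' * (J + 1) := by
  set f : ℕ → ℝ := fun k => Real.logb 2 (wl L i (2 ^ k)) with hf
  have hf0 : ∀ k, 0 ≤ f k := fun k => Real.logb_nonneg (by norm_num) (one_le_wl L i _)
  obtain ⟨l0, hl0⟩ := mob L i 0
  obtain ⟨B, hB⟩ : ∃ B : ℝ, 0 ≤ B ∧ ∀ k < l0, (Sl L i (2 ^ k) : ℝ) ≤ B := by
    refine ⟨∑ k ∈ Finset.range l0, (Sl L i (2 ^ k) : ℝ), by positivity, fun k hk => ?_⟩
    exact Finset.single_le_sum (f := fun k => (Sl L i (2 ^ k) : ℝ)) (fun _ _ => by positivity)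
      (Finset.mem_range.2 hk)
  have h180 : Real.logb 2 180 ≤ 8 := by
    rw [Real.logb_le_iff_le_rpow (by norm_num) (by norm_num)]
    norm_num
  have hS : ∀ k, (Sl L i (2 ^ k) : ℝ) ≤ 9 + (f (k + 7) - f k) + if k < l0 then B + f k else 0 := by
    intro k
    split_ifs with hk
    · have := hB.2 k hk
      have h1 := hf0 (k + 7)
      linarith
    · have hlk : l0 ≤ 2 ^ k := (not_lt.1 hk).trans (Nat.lt_two_pow_self (n := k)).le
      obtain ⟨-, hmono, -⟩ := hl0 (2 ^ k) hlk
      have e : 128 * 2 ^ k = 2 ^ (k + 7) := by rw [pow_add]; norm_num; ring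
      rw [e] at hmono
      unfold Sl
      rw [e]
      have hr : 1 ≤ wl L i (2 ^ (k + 7)) / wl L i (2 ^ k) := by
        rw [one_le_div (wl_pos L i _)]; exact hmono
      have h1 : 0 ≤ Real.logb 2 (180 * (wl L i (2 ^ (k + 7)) / wl L i (2 ^ k))) :=
        Real.logb_nonneg (by norm_num) (by linarith)
      refine (Nat.ceil_lt_add_one h1).le.trans ?_
      rw [Real.logb_mul (by norm_num) (by positivity),
        Real.logb_div (wl_pos L i _).ne' (wl_pos L i _).ne']
      simp only [hf]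
      linarith
  refine ⟨9 + 7 * C * 8 + (B + C * (l0 + 1)) * (l0 + 1), fun J => ?_⟩
  have h1 : ∑ k ∈ Finset.range J, (Sl L i (2 ^ k) : ℝ) ≤
      9 * J + ∑ k ∈ Finset.range J, (f (k + 7) - f k) +
        ∑ k ∈ Finset.range J, (if k < l0 then B + f k else 0) := by
    refine (Finset.sum_le_sum fun k _ => hS k).trans (le_of_eq ?_)
    rw [Finset.sum_add_distrib, Finset.sum_add_distrib]
    simp only [Finset.sum_const, Finset.card_range, nsmul_eq_mul]
    ring
  rw [telescope] at h1
  have h2 : ∑ j ∈ Finset.range 7, f (J + j) ≤ 7 * (C * (J + 8)) := by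
    have : ∀ j ∈ Finset.range 7, f (J + j) ≤ C * (J + 8) := by
      intro j hj
      have h3 := hg (J + j)
      have h4 : (j : ℝ) ≤ 7 := by exact_mod_cast (Finset.mem_range.1 hj).le
      refine h3.trans (mul_le_mul_of_nonneg_left ?_ hC)
      push_cast
      linarith
    refine (Finset.sum_le_sum this).trans (le_of_eq ?_)
    simp
  have h3 : 0 ≤ ∑ j ∈ Finset.range 7, f j := Finset.sum_nonneg fun j _ => hf0 j
  have h4 : ∑ k ∈ Finset.range J, (if k < l0 then B + f k else 0) ≤
      (B + C * (l0 + 1)) * (l0 + 1) := by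
    calc ∑ k ∈ Finset.range J, (if k < l0 then B + f k else 0)
        ≤ ∑ k ∈ Finset.range (max J l0), (if k < l0 then B + f k else 0) := by
          refine Finset.sum_le_sum_of_subset_of_nonneg
            (Finset.range_subset_range.2 (le_max_left _ _)) fun k _ _ => ?_
          split_ifs
          · have := hf0 k
            have := hB.1
            positivity
          · exact le_rfl
      _ = ∑ k ∈ Finset.range l0, (B + f k) := by
          rw [← Finset.sum_filter]
          congr 1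
          ext k
          simp only [Finset.mem_filter, Finset.mem_range]
          constructor
          · exact fun h => h.2
          · exact fun h => ⟨lt_of_lt_of_le h (le_max_right _ _), h⟩
      _ ≤ ∑ k ∈ Finset.range l0, (B + C * (l0 + 1)) := by
          refine Finset.sum_le_sum fun k hk => ?_
          have h5 := hg k
          have h6 : (k : ℝ) ≤ l0 := by exact_mod_cast (Finset.mem_range.1 hk).le
          have h7 : C * ((k : ℝ) + 1) ≤ C * (l0 + 1) := by gcongr
          simp only [hf]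
          linarith
      _ = (B + C * (l0 + 1)) * l0 := by
          rw [Finset.sum_const, Finset.card_range, nsmul_eq_mul]; ring
      _ ≤ (B + C * (l0 + 1)) * (l0 + 1) := by
          have : 0 ≤ B + C * ((l0 : ℝ) + 1) := by
            have := hB.1
            positivity
          nlinarith
  have hBC : 0 ≤ (B + C * ((l0 : ℝ) + 1)) * (l0 + 1) := by
    have := hB.1
    positivity
  have hJ : (0 : ℝ) ≤ J := Nat.cast_nonneg J
  nlinarith [mul_nonneg hBC hJ, mul_nonneg hC hJ]

/-- growth of the widths from a linear tail bound of the symmetrised displacement -/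
lemma wl_le_of_tail (L : LP P) (i : Fin 2) (l : ℕ) {K : ℝ} (hK : 0 < K)
    (h : (P.prod P).real {q | K < |Z (L.U l) i q|} ≤ 1 / 400) :
    wl L i l ≤ max 1 (10 * K) := by
  have hΔ := meas_U L l
  have h1 : min 1 (1 / (10 * K)) ≤ tl L i l := by
    refine le_tl (by positivity) (min_le_left _ _) fun s hs => ?_
    have hs' : |s| ≤ 1 / (10 * K) := hs.trans (min_le_right _ _)
    set A : Set (Ω × Ω) := {q | K < |Z (L.U l) i q|} with hA
    have hAm : MeasurableSet A := measurableSet_lt measurable_const (measurable_Z hΔ i).abs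
    have h1 : ∀ q, 1 - Real.cos (s * Z (L.U l) i q) ≤ 1 / 200 + A.indicator (fun _ => (2 : ℝ)) q := by
      intro q
      by_cases hq : q ∈ A
      · rw [indicator_of_mem hq]
        have := Real.neg_one_le_cos (s * Z (L.U l) i q)
        linarith
      · rw [indicator_of_notMem hq]
        have h2 : |Z (L.U l) i q| ≤ K := not_lt.1 hq
        have h3 : |s * Z (L.U l) i q| ≤ 1 / 10 := by
          rw [abs_mul]
          calc |s| * |Z (L.U l) i q| ≤ 1 / (10 * K) * K := by gcongr
            _ = 1 / 10 := by field_simp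
        have h4 := Real.one_sub_sq_div_two_le_cos (x := s * Z (L.U l) i q)
        have h5 : (s * Z (L.U l) i q) ^ 2 ≤ (1 / 10) ^ 2 := by
          rw [← sq_abs]
          gcongr
        linarith
    have hm : Measurable fun q : Ω × Ω => Real.cos (s * Z (L.U l) i q) := by
      have := measurable_Z hΔ i
      fun_prop
    have hi : Integrable (fun q : Ω × Ω => 1 - Real.cos (s * Z (L.U l) i q)) (P.prod P) := by
      refine (integrable_const (1 : ℝ)).sub ((integrable_const (1 : ℝ)).mono' hm.aestronglyMeasurable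
        (Eventually.of_forall fun q => by rw [Real.norm_eq_abs]; exact Real.abs_cos_le_one _))
    have hi2 : Integrable (fun q : Ω × Ω => 1 / 200 + A.indicator (fun _ => (2 : ℝ)) q) (P.prod P) :=
      (integrable_const _).add ((integrable_const _).indicator hAm)
    have h2 : gg P (L.U l) i s ≤ 1 / 200 + 2 * (P.prod P).real A := by
      rw [gg_eq hΔ]
      refine (integral_mono hi hi2 h1).trans ?_
      rw [integral_add (integrable_const _) ((integrable_const _).indicator hAm),
        integral_indicator_const _ hAm]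
      simp only [integral_const, smul_eq_mul, measureReal_def, measure_univ, ENNReal.toReal_one]
      linarith
    linarith
  unfold wl
  rcases min_choice (1 : ℝ) (1 / (10 * K)) with h2 | h2
  · rw [h2] at h1
    refine le_max_of_le_left ?_
    rw [div_le_iff₀ (tl_pos L i l)]
    linarith
  · rw [h2] at h1
    refine le_max_of_le_right ?_
    rw [div_le_iff₀ (tl_pos L i l)]
    rw [div_le_iff₀ (by positivity)] at h1
    linarith

end Crest.Agent.R154.MobW437
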