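import Crest.Agent.R154.TileB_872
import Crest.Agent.R154.B6Fin_833
import Crest.Agent.R154.MobLP_927

/-!
Row 154, TILE: binding of the natural law (797's level process) to the annealed natural climbs of
872 (`gT`, `gk`): the annealed mass of the natural `n`-climb from ANY site `x` into a target `T` is at
least `P(Nat0)` times the mass of the displacement event under the natural law.
-/

set_option autoImplicit false
set_option linter.unusedSectionVars false
set_option linter.deprecated false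

namespace Crest.Agent.R154.MobNat927

open MeasureTheory ProbabilityTheory Set Filter Crest.ProbabilityR.RandomEnvironment
open Crest.Agent.R154.Mk561 Crest.Agent.R154.Q561
open Crest.Agent.R154.Flux132 (lev)
open Crest.Agent.R154.RatioR872 Crest.Agent.R154.Tile872
open Crest.Agent.R154.B4Inst797 (Nat0 natLaw UU lat natLaw_apply)
open scoped ENNReal

variable {d : ℕ} {Q : Measure (Environment d)} [IsProbabilityMeasure Q] {κ : ℝ} {R : ℕ}

/-- the unconfined `gc` is `gk` -/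
lemma Cf_univ (u : Step d) (x : Site d) (b : ℤ) (y : Site d) :
    Cf u R univ x b y = Cl u R x b y := by
  unfold Cf Cl CfY ClY CfM
  simp

lemma gc_univ (u : Step d) (b : ℤ) (ω : Environment d) (x y : Site d) :
    gc u R κ univ b ω x y = gk u R κ b ω x y := by
  unfold gc gk
  rw [Cf_univ]

/-- mass into `T` in the letters of `gk` -/
lemma gT_univ_eq (u : Step d) (b : ℤ) (T : Set (Site d)) (ω : Environment d) (x : Site d) :
    gT u R κ univ b T ω x = ∑' y, T.indicator (gk u R κ b ω x) y := by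
  rw [gT_eq]
  refine tsum_congr fun y => ?_
  by_cases hy : y ∈ T
  · rw [indicator_of_mem hy, indicator_of_mem hy, gc_univ]
  · rw [indicator_of_notMem hy, indicator_of_notMem hy]

/-- annealed mass as a path probability started from `0` -/
lemma lint_gT (F : Bind263.Frame Q κ R) (u : Step d) (x : Site d) (b : ℤ) (T : Set (Site d)) :
    ∫⁻ ω, gT u R κ univ b T ω x ∂Q = mkAnn κ Q 0 (CfT u R univ x b T) := by
  rw [← mkAnn_stat F.stat κ x, mkAnn_apply κ Q x (meas_CfT u R univ x b T)]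
  rfl

/-- **binding, exit sites**: if on the event `E` the first hit of level `n` is at a site of `T - x` -/
theorem mass_ge (F : Bind263.Frame Q κ R) (u : Step d) (x : Site d) (n : ℕ) (T : Set (Site d))
    (E : Set (MPath d))
    (hE : ∀ s ∈ Nat0 u R ∩ E, ∀ m, B4Inst797.Hit u n m s → x + pos 0 s m ∈ T)
    (hc : mkAnn κ Q 0 (Nat0 u R) ≠ 0) :
    mkAnn κ Q 0 (Nat0 u R) * natLaw κ Q u R E ≤ ∫⁻ ω, gT u R κ univ (lev u x + n) T ω x ∂Q := by
  rw [lint_gT F u x, natLaw_apply, ← mul_assoc, ENNReal.mul_inv_cancel hc (measure_ne_top _ _),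
    one_mul]
  calc mkAnn κ Q 0 (Nat0 u R ∩ E)
      ≤ mkAnn κ Q 0 (CfT u R univ x (lev u x + n) T ∪
          (Nat0 u R ∩ {s | ∀ m, ¬ B4Inst797.Hit u n m s})) := by
        refine measure_mono ?_
        intro s hs
        by_cases hex : ∃ m, B4Inst797.Hit u n m s
        · obtain ⟨m, hm⟩ := hex
          refine Or.inl (mem_iUnion.2 ⟨m, ⟨?_, fun i _ => mem_univ _⟩, ?_⟩)
          · rw [mem_ClM_iff]
            have h1 := (B6I.hit_iff_797 u s n m).1 hm
            exact ⟨h1, B6I.nt_of_nat0 hs.1 h1⟩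
          · have := hE s hs m hm
            rwa [← B4Inst797.pos_start] at this
        · exact Or.inr ⟨hs.1, fun m hm => hex ⟨m, hm⟩⟩
    _ ≤ _ := (measure_union_le _ _).trans (by rw [B4Inst797.nat_hit F u n, add_zero])

/-- **binding, lateral coordinates** -/
theorem mass_lat (F : Bind263.Frame Q κ R) (u : Step d) (i1 i2 : Fin d) (x : Site d) (n : ℕ)
    (W : Set B4.V) (T : Set (Site d))
    (hT : ∀ y, lev u y = lev u x + n → lat i1 i2 y ∈ W → y ∈ T)
    (hc : mkAnn κ Q 0 (Nat0 u R) ≠ 0) :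
    mkAnn κ Q 0 (Nat0 u R) * natLaw κ Q u R {s | lat i1 i2 x + UU u i1 i2 n s ∈ W}
      ≤ ∫⁻ ω, gT u R κ univ (lev u x + n) T ω x ∂Q := by
  refine mass_ge F u x n T _ ?_ hc
  rintro s ⟨_, hs⟩ m hm
  refine hT _ ?_ ?_
  · have h1 := (B6I.hit_iff_797 u s n m).1 hm
    have h2 : lev u (pos x s m) = lev u x + B6I.zt u s m := B6I.lev_pos u x s m
    rw [h1.1, B4Inst797.pos_start] at h2
    exact h2
  · simp only [mem_setOf_eq] at hs
    rw [(B4Inst797.hit_eq i1 i2 hm).2] at hs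
    rw [B4Inst797.lat_add]
    exact hs

/-- **MOBILITY OF THE ANNEALED NATURAL CLIMB** (any site `x`, any target strip of the layer
`lev x + k n`, in drifting coordinates): cost `(p p₀)^k`. -/
theorem strip_mass (F : Bind263.Frame Q κ R) (u : Step d) {i1 i2 : Fin d} (h1 : i1 ≠ u.1)
    (h2 : i2 ≠ u.1) (h12 : i1 ≠ i2) (hc : mkAnn κ Q 0 (Nat0 u R) ≠ 0)
    {φ : B4.V → ℝ} (hφ : Measurable φ) (hadd : ∀ x y, φ (x + y) = φ x + φ y)
    {a A c : ℝ} (ha : 0 < a) {n : ℕ} {p₀ : ℝ} (hp₀ : 0 ≤ p₀)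
    (hr : ENNReal.ofReal p₀ ≤ natLaw κ Q u R
      {ω | a ≤ φ (UU u i1 i2 n ω) - c ∧ φ (UU u i1 i2 n ω) - c ≤ A})
    (hl : ENNReal.ofReal p₀ ≤ natLaw κ Q u R
      {ω | a ≤ -(φ (UU u i1 i2 n ω) - c) ∧ -(φ (UU u i1 i2 n ω) - c) ≤ A})
    (x : Site d) (z : ℝ) (k : ℕ) (hz : |φ (lat i1 i2 x) + k * c - z| ≤ A + k * a)
    (T : Set (Site d))
    (hT : ∀ y, lev u y = lev u x + (k * n : ℕ) → |φ (lat i1 i2 y) - z| ≤ A → y ∈ T) :
    mkAnn κ Q 0 (Nat0 u R) *
        ENNReal.ofReal (((B4Inst797.lp F u h1 h2 h12 hc).p * p₀) ^ k)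
      ≤ ∫⁻ ω, gT u R κ univ (lev u x + (k * n : ℕ)) T ω x ∂Q := by
  have : IsProbabilityMeasure (natLaw κ Q u R) := B4Inst797.natLaw_isProb hc
  have hm := MobLP927.mobility (B4Inst797.lp F u h1 h2 h12 hc) hφ hadd (a := a) (A := A) (c := c)
    ha (n := n) hp₀ hr hl (φ (lat i1 i2 x) + k * c - z) k hz
  refine le_trans ?_ (mass_lat F u i1 i2 x (k * n) {v | |φ v - z| ≤ A} T (fun y hy hy2 => hT y hy hy2)
    hc)
  gcongr
  refine hm.trans (measure_mono ?_)
  rintro ω ⟨h3, _⟩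
  simp only [mem_setOf_eq] at h3 ⊢
  rw [hadd]
  have e : (B4Inst797.lp F u h1 h2 h12 hc).U (k * n) ω = UU u i1 i2 (k * n) ω := rfl
  rw [e] at h3
  have e2 : φ (lat i1 i2 x) + k * c - z + φ (UU u i1 i2 (k * n) ω) - k * c
      = φ (lat i1 i2 x) + φ (UU u i1 i2 (k * n) ω) - z := by ring
  rw [e2] at h3
  exact h3

end Crest.Agent.R154.MobNat927
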