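import Mathlib

/-!
Row 154, TILE, mobility of the unconfined tile, Part A (Mathlib only): from a law `μ` on `ℝ` with
core width `w`, spread at scale `w` and tail width `W` to two windows with conditional medians
`c₁, c₂`: from every point of an interval of length `a` the displacement leads to the own interval
(shifted by `c₁`) and to the neighbour interval (shifted by `c₂`), with explicit probabilities
(helper437).
-/

set_option autoImplicit false
set_option linter.unusedSectionVars false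
set_option linter.unusedVariables false

namespace Crest.Agent.R154.MobW437

open MeasureTheory Filter Set
open scoped ENNReal Topology

variable {μ : Measure ℝ} [IsProbabilityMeasure μ]

/-- conditional median -/
lemma exists_median (W : Set ℝ) (hW : MeasurableSet W) {lo hi : ℝ} (hsub : W ⊆ Icc lo hi)
    (hpos : 0 < μ.real W) :
    ∃ c : ℝ, lo ≤ c ∧ c ≤ hi ∧ μ.real W / 2 ≤ μ.real (W ∩ Iic c) ∧
      μ.real W / 2 ≤ μ.real (W ∩ Ici c) := by
  set S : Set ℝ := {x | μ.real W / 2 ≤ μ.real (W ∩ Iic x)} with hS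
  have hhi : hi ∈ S := by
    have : W ∩ Iic hi = W := inter_eq_left.2 fun y hy => (hsub hy).2
    simp only [hS, mem_ofPred_eq, this]
    linarith
  have hbdd : ∀ x ∈ S, lo ≤ x := by
    intro x hx
    by_contra hlt
    push Not at hlt
    have : W ∩ Iic x = ∅ := by
      ext y
      simp only [mem_inter_iff, mem_Iic, mem_empty_iff_false, iff_false, not_and, not_le]
      intro hy
      exact hlt.trans_le (hsub hy).1
    simp only [hS, mem_ofPred_eq, this, measureReal_empty] at hx
    linarith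
  have hne : S.Nonempty := ⟨hi, hhi⟩
  have hbb : BddBelow S := ⟨lo, hbdd⟩
  have hup : ∀ x ∈ S, ∀ y, x ≤ y → y ∈ S := by
    intro x hx y hxy
    refine le_trans (show μ.real W / 2 ≤ _ from hx) (measureReal_mono ?_)
    exact inter_subset_inter_right _ (Iic_subset_Iic.2 hxy)
  set c := sInf S with hc
  have hclo : lo ≤ c := le_csInf hne hbdd
  have hchi : c ≤ hi := csInf_le hbb hhi
  refine ⟨c, hclo, hchi, ?_, ?_⟩
  · -- right continuity
    have hlim : Tendsto (fun k : ℕ => μ (W ∩ Iic (c + 1 / ((k : ℝ) + 1)))) atTop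
        (𝓝 (μ (⋂ k : ℕ, (W ∩ Iic (c + 1 / ((k : ℝ) + 1)))))) := by
      refine tendsto_measure_iInter_atTop (fun k => (hW.inter measurableSet_Iic).nullMeasurableSet)
        ?_ ⟨0, measure_ne_top _ _⟩
      intro a b hab
      refine inter_subset_inter_right _ (Iic_subset_Iic.2 ?_)
      have : (1 : ℝ) / ((b : ℝ) + 1) ≤ 1 / ((a : ℝ) + 1) := by
        apply one_div_le_one_div_of_le (by positivity)
        have : (a : ℝ) ≤ b := by exact_mod_cast hab
        linarith
      linarith
    have hI : (⋂ k : ℕ, (W ∩ Iic (c + 1 / ((k : ℝ) + 1)))) = W ∩ Iic c := by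
      ext y
      simp only [mem_iInter, mem_inter_iff, mem_Iic]
      constructor
      · intro h
        refine ⟨(h 0).1, ?_⟩
        by_contra hlt
        push Not at hlt
        obtain ⟨k, hk⟩ := exists_nat_one_div_lt (sub_pos.2 hlt)
        have := (h k).2
        linarith
      · rintro ⟨h1, h2⟩ k
        refine ⟨h1, h2.trans ?_⟩
        have : (0 : ℝ) < 1 / ((k : ℝ) + 1) := by positivity
        linarith
    rw [hI] at hlim
    have hlim' : Tendsto (fun k : ℕ => μ.real (W ∩ Iic (c + 1 / ((k : ℝ) + 1)))) atTop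
        (𝓝 (μ.real (W ∩ Iic c))) := by
      simp only [measureReal_def]
      exact (ENNReal.tendsto_toReal (measure_ne_top _ _)).comp hlim
    refine ge_of_tendsto' hlim' fun k => ?_
    have hpos' : (0 : ℝ) < 1 / ((k : ℝ) + 1) := by positivity
    obtain ⟨x, hx, hxc⟩ := exists_lt_of_csInf_lt hne (show sInf S < c + 1 / ((k : ℝ) + 1) by
      rw [← hc]; linarith)
    exact hup x hx _ hxc.le
  · have hlim : Tendsto (fun k : ℕ => μ (W ∩ Iic (c - 1 / ((k : ℝ) + 1)))) atTop
        (𝓝 (μ (⋃ k : ℕ, (W ∩ Iic (c - 1 / ((k : ℝ) + 1)))))) := by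
      refine tendsto_measure_iUnion_atTop ?_
      intro a b hab
      refine inter_subset_inter_right _ (Iic_subset_Iic.2 ?_)
      have : (1 : ℝ) / ((b : ℝ) + 1) ≤ 1 / ((a : ℝ) + 1) := by
        apply one_div_le_one_div_of_le (by positivity)
        have : (a : ℝ) ≤ b := by exact_mod_cast hab
        linarith
      linarith
    have hU : (⋃ k : ℕ, (W ∩ Iic (c - 1 / ((k : ℝ) + 1)))) = W ∩ Iio c := by
      ext y
      simp only [mem_iUnion, mem_inter_iff, mem_Iic, mem_Iio]
      constructor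
      · rintro ⟨k, h1, h2⟩
        refine ⟨h1, lt_of_le_of_lt h2 ?_⟩
        have : (0 : ℝ) < 1 / ((k : ℝ) + 1) := by positivity
        linarith
      · rintro ⟨h1, h2⟩
        obtain ⟨k, hk⟩ := exists_nat_one_div_lt (sub_pos.2 h2)
        exact ⟨k, h1, by linarith⟩
    rw [hU] at hlim
    have hlim' : Tendsto (fun k : ℕ => μ.real (W ∩ Iic (c - 1 / ((k : ℝ) + 1)))) atTop
        (𝓝 (μ.real (W ∩ Iio c))) := by
      simp only [measureReal_def]
      exact (ENNReal.tendsto_toReal (measure_ne_top _ _)).comp hlim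
    have hle : μ.real (W ∩ Iio c) ≤ μ.real W / 2 := by
      refine le_of_tendsto' hlim' fun k => ?_
      have hpos' : (0 : ℝ) < 1 / ((k : ℝ) + 1) := by positivity
      by_contra hlt
      push Not at hlt
      have hmem : c - 1 / ((k : ℝ) + 1) ∈ S := hlt.le
      have := csInf_le hbb hmem
      rw [← hc] at this
      linarith
    have hsplit : μ.real W = μ.real (W ∩ Iio c) + μ.real (W ∩ Ici c) := by
      have h1 : W = (W ∩ Iio c) ∪ (W ∩ Ici c) := by
        rw [← inter_union_distrib_left, Iio_union_Ici, inter_univ]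
      have h2 : Disjoint (W ∩ Iio c) (W ∩ Ici c) := by
        rw [Set.disjoint_left]
        rintro y ⟨_, hy⟩ ⟨_, hy'⟩
        exact absurd (show y < c from hy) (not_lt.2 hy')
      conv_lhs => rw [h1]
      rw [measureReal_union h2 (hW.inter measurableSet_Ici)]
    linarith

/-- **Landing in a prescribed interval from every point of an interval**: a window of length at
most `a / 2`, drift = conditional median. -/
lemma land_of_window (W : Set ℝ) (hW : MeasurableSet W) {lo a c : ℝ} (ha : 0 < a)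
    (hsub : W ⊆ Icc lo (lo + a / 2)) (hlo : lo ≤ c) (hhi : c ≤ lo + a / 2) {p : ℝ}
    (h1 : p ≤ μ.real (W ∩ Iic c)) (h2 : p ≤ μ.real (W ∩ Ici c)) (α z : ℝ)
    (hz : z ∈ Ico α (α + a)) : p ≤ μ.real {y | z + y - c ∈ Ico α (α + a)} := by
  rcases lt_or_ge z (α + a / 2) with hlt | hge
  · refine h2.trans (measureReal_mono ?_)
    rintro y ⟨hyW, hyc⟩
    have h3 := hsub hyW
    have h4 : c ≤ y := hyc
    simp only [mem_ofPred_eq, mem_Ico]
    constructor
    · linarith [hz.1]
    · linarith [h3.2]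
  · refine h1.trans (measureReal_mono ?_)
    rintro y ⟨hyW, hyc⟩
    have h3 := hsub hyW
    have h4 : y ≤ c := hyc
    simp only [mem_ofPred_eq, mem_Ico]
    constructor
    · linarith [h3.1]
    · linarith [hz.2]

/-- pigeonhole over `m` consecutive windows of length `h` -/
lemma exists_window (x h : ℝ) (hh : 0 ≤ h) (m : ℕ) (hm : 0 < m) {p : ℝ}
    (hp : p ≤ μ.real (Ioc x (x + m * h))) :
    ∃ i : ℕ, i < m ∧ p / m ≤ μ.real (Ioc (x + i * h) (x + (i + 1) * h)) := by
  by_contra hcon
  push Not at hcon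
  have hcov : Ioc x (x + m * h) ⊆ ⋃ i ∈ Finset.range m, Ioc (x + i * h) (x + (i + 1) * h) := by
    clear hp hcon hm
    induction m with
    | zero => simp
    | succ m ih =>
      intro y hy
      rcases le_or_gt y (x + m * h) with h1 | h1
      · have := ih ⟨hy.1, h1⟩
        simp only [mem_iUnion, Finset.mem_range] at this ⊢
        obtain ⟨i, hi, hi'⟩ := this
        exact ⟨i, by omega, hi'⟩
      · simp only [mem_iUnion, Finset.mem_range]
        refine ⟨m, by omega, h1, ?_⟩
        have := hy.2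
        push_cast at this
        exact this
  have h1 : μ.real (Ioc x (x + m * h)) ≤
      ∑ i ∈ Finset.range m, μ.real (Ioc (x + i * h) (x + (i + 1) * h)) :=
    (measureReal_mono hcov (measure_ne_top _ _)).trans (measureReal_biUnion_finset_le _ _)
  have h2 : ∑ i ∈ Finset.range m, μ.real (Ioc (x + i * h) (x + (i + 1) * h)) <
      ∑ i ∈ Finset.range m, p / m := by
    refine Finset.sum_lt_sum_of_nonempty (Finset.nonempty_range_iff.2 hm.ne') fun i hi => ?_
    exact hcon i (Finset.mem_range.1 hi)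
  rw [Finset.sum_const, Finset.card_range, nsmul_eq_mul, mul_div_cancel₀ _
    (by exact_mod_cast hm.ne')] at h2
  linarith

/-- pigeonhole over `m` consecutive windows of length `h`, left closed windows -/
lemma exists_window' (x h : ℝ) (hh : 0 ≤ h) (m : ℕ) (hm : 0 < m) {p : ℝ}
    (hp : p ≤ μ.real (Ico x (x + m * h))) :
    ∃ i : ℕ, i < m ∧ p / m ≤ μ.real (Ico (x + i * h) (x + (i + 1) * h)) := by
  by_contra hcon
  push Not at hcon
  have hcov : Ico x (x + m * h) ⊆ ⋃ i ∈ Finset.range m, Ico (x + i * h) (x + (i + 1) * h) := by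
    clear hp hcon hm
    induction m with
    | zero => simp
    | succ m ih =>
      intro y hy
      rcases lt_or_ge y (x + m * h) with h1 | h1
      · have := ih ⟨hy.1, h1⟩
        simp only [mem_iUnion, Finset.mem_range] at this ⊢
        obtain ⟨i, hi, hi'⟩ := this
        exact ⟨i, by omega, hi'⟩
      · simp only [mem_iUnion, Finset.mem_range]
        refine ⟨m, by omega, h1, ?_⟩
        have := hy.2
        push_cast at this
        exact this
  have h1 : μ.real (Ico x (x + m * h)) ≤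
      ∑ i ∈ Finset.range m, μ.real (Ico (x + i * h) (x + (i + 1) * h)) :=
    (measureReal_mono hcov (measure_ne_top _ _)).trans (measureReal_biUnion_finset_le _ _)
  have h2 : ∑ i ∈ Finset.range m, μ.real (Ico (x + i * h) (x + (i + 1) * h)) <
      ∑ i ∈ Finset.range m, p / m := by
    refine Finset.sum_lt_sum_of_nonempty (Finset.nonempty_range_iff.2 hm.ne') fun i hi => ?_
    exact hcon i (Finset.mem_range.1 hi)
  rw [Finset.sum_const, Finset.card_range, nsmul_eq_mul, mul_div_cancel₀ _
    (by exact_mod_cast hm.ne')] at h2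
  linarith

/-- a point of the core window is not far from the centre of the tail window -/
lemma center_dist {y0 y1 r s : ℝ} (h0 : 1 / 2 < μ.real {y | |y - y0| ≤ r})
    (h1 : μ.real {y | s < |y - y1|} ≤ 1 / 2) : |y0 - y1| ≤ r + s := by
  have hne : ({y | |y - y0| ≤ r} \ {y | s < |y - y1|}).Nonempty := by
    rw [Set.nonempty_iff_ne_empty]
    intro he
    have hsub : {y | |y - y0| ≤ r} ⊆ {y | s < |y - y1|} := sdiff_eq_empty.1 he
    have := measureReal_mono hsub (measure_ne_top μ _)
    linarith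
  obtain ⟨y, hy0, hy1⟩ := hne
  simp only [mem_ofPred_eq, not_lt] at hy0 hy1
  have : y0 - y1 = -(y - y0) + (y - y1) := by ring
  rw [this]
  refine (abs_add_le _ _).trans ?_
  rw [abs_neg]
  linarith

set_option maxHeartbeats 1600000 in
/-- **Two windows.** Core width `w` (centre `y0`), spread at scale `w` around every point, tail
width `W'` (centre `y1`). -/
theorem windows {w W' : ℝ} (hw : 0 < w) (hwW : w ≤ W') (S : ℕ) (hS0 : 0 < S)
    (hS : 9 * W' ≤ 2 ^ S * (w / 20)) (hS' : 2 ^ S * (w / 20) ≤ 18 * W')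
    {y0 y1 : ℝ} (core : 49 / 50 ≤ μ.real {y | |y - y0| ≤ 2 * w})
    (spread : ∀ y, 1 / 800 ≤ μ.real {x | w / 20 < |x - y|})
    (far : μ.real {x | 2 * W' < |x - y1|} ≤ 1 / 1600) :
    ∃ c1 c2 a : ℝ, w / 80 ≤ a ∧ a ≤ 9 / 4 * W' ∧ 4 * a ≤ |c2 - c1| ∧ |c2 - c1| ≤ 8 * a ∧
      |c1 - y0| ≤ 3 * w ∧
      (∀ α z, z ∈ Ico α (α + a) → 1 / 1400 ≤ μ.real {y | z + y - c1 ∈ Ico α (α + a)}) ∧
      (∀ α z, z ∈ Ico α (α + a) →
        1 / (51200 * S) ≤ μ.real {y | z + y - c2 ∈ Ico α (α + a)}) := by
  have hSr : (0 : ℝ) < S := by exact_mod_cast hS0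
  -- own window
  have h1 : (49 / 50 : ℝ) ≤ μ.real (Ioc (y0 - 2 * w - w / 160)
      (y0 - 2 * w - w / 160 + (641 : ℕ) * (w / 160))) := by
    refine core.trans (measureReal_mono ?_ (measure_ne_top _ _))
    intro y hy
    have hy' := abs_le.1 (show |y - y0| ≤ 2 * w from hy)
    constructor
    · linarith [hy'.1]
    · push_cast
      linarith [hy'.2]
  obtain ⟨i, hi, hW1⟩ := exists_window (μ := μ) _ _ (by positivity) 641 (by norm_num) h1
  set lo : ℝ := y0 - 2 * w - w / 160 + i * (w / 160) with hlo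
  set W1 : Set ℝ := Ioc lo (y0 - 2 * w - w / 160 + (i + 1) * (w / 160)) with hW1def
  have hi' : (i : ℝ) + 1 ≤ 641 := by exact_mod_cast hi
  have hi0 : (0 : ℝ) ≤ i := Nat.cast_nonneg i
  have hend : y0 - 2 * w - w / 160 + (i + 1) * (w / 160) = lo + w / 160 := by rw [hlo]; ring
  have hW1p : (1 : ℝ) / 700 ≤ μ.real W1 := by
    refine le_trans ?_ hW1
    norm_num
  have hW1sub : W1 ⊆ Icc lo (lo + w / 160) := by
    rw [hW1def, hend]; exact Ioc_subset_Icc_self
  obtain ⟨c1, hc1lo, hc1hi, hc1a, hc1b⟩ := exists_median (μ := μ) W1 measurableSet_Ioc hW1sub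
    (by linarith)
  have hm3 : 0 ≤ (i : ℝ) * (w / 160) := mul_nonneg hi0 (by linarith)
  have hm4 : ((i : ℝ) + 1) * (w / 160) ≤ 641 * (w / 160) :=
    mul_le_mul_of_nonneg_right hi' (by linarith)
  have hlo1 : y0 - 2 * w - w / 160 ≤ lo := by rw [hlo]; linarith
  have hlo2 : lo + w / 160 ≤ y0 + 2 * w := by rw [← hend]; linarith
  have hc1y : |c1 - y0| ≤ 2 * w + w / 160 := by
    rw [abs_le]; constructor <;> linarith
  have hcd : |y0 - y1| ≤ 2 * w + 2 * W' :=
    center_dist (μ := μ) (by linarith) (by linarith)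
  -- annulus around `c1`
  have hfar : μ.real {x | 9 * W' < |x - c1|} ≤ 1 / 1600 := by
    refine le_trans (measureReal_mono ?_ (measure_ne_top _ _)) far
    intro x hx
    simp only [mem_ofPred_eq] at hx ⊢
    have e : x - c1 = (x - y1) + -(c1 - y0) + -(y0 - y1) := by ring
    have h2 : |x - c1| ≤ |x - y1| + |c1 - y0| + |y0 - y1| := by
      rw [e]
      refine (abs_add_three _ _ _).trans ?_
      rw [abs_neg, abs_neg]
    linarith
  set ρ : ℕ → ℝ := fun j => 2 ^ j * (w / 20) with hρ
  have hρpos : ∀ j, 0 < ρ j := fun j => by simp only [hρ]; positivity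
  have hρs : ∀ j, ρ (j + 1) = 2 * ρ j := fun j => by simp only [hρ]; ring
  have hcover : ∀ m : ℕ, {x | w / 20 < |x - c1|} ⊆
      {x | ρ m < |x - c1|} ∪ ⋃ j ∈ Finset.range m, {x | ρ j < |x - c1| ∧ |x - c1| ≤ 2 * ρ j} := by
    intro m
    induction m with
    | zero =>
      intro x hx
      left
      simpa [hρ] using hx
    | succ m ih =>
      intro x hx
      rcases ih hx with h2 | h2
      · rcases lt_or_ge (ρ (m + 1)) |x - c1| with h3 | h3
        · exact Or.inl h3
        · right
          simp only [mem_iUnion, Finset.mem_range]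
          exact ⟨m, by omega, h2, by rw [← hρs]; exact h3⟩
      · right
        simp only [mem_iUnion, Finset.mem_range] at h2 ⊢
        obtain ⟨j, hj, hj'⟩ := h2
        exact ⟨j, by omega, hj'⟩
  have hann : (1 : ℝ) / 1600 ≤ ∑ j ∈ Finset.range S,
      μ.real {x | ρ j < |x - c1| ∧ |x - c1| ≤ 2 * ρ j} := by
    have h2 := spread c1
    have h3 : μ.real {x | w / 20 < |x - c1|} ≤ μ.real {x | ρ S < |x - c1|} +
        ∑ j ∈ Finset.range S, μ.real {x | ρ j < |x - c1| ∧ |x - c1| ≤ 2 * ρ j} := by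
      refine (measureReal_mono (hcover S) (measure_ne_top _ _)).trans ?_
      refine (measureReal_union_le _ _).trans ?_
      gcongr
      exact measureReal_biUnion_finset_le _ _
    have h4 : μ.real {x | ρ S < |x - c1|} ≤ 1 / 1600 := by
      refine le_trans (measureReal_mono ?_ (measure_ne_top _ _)) hfar
      intro x hx
      simp only [mem_ofPred_eq] at hx ⊢
      exact lt_of_le_of_lt hS hx
    linarith
  obtain ⟨j, hj, hj'⟩ : ∃ j, j < S ∧
      1 / (1600 * S) ≤ μ.real {x | ρ j < |x - c1| ∧ |x - c1| ≤ 2 * ρ j} := by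
    by_contra hcon
    push Not at hcon
    have h2 : ∑ j ∈ Finset.range S, μ.real {x | ρ j < |x - c1| ∧ |x - c1| ≤ 2 * ρ j} <
        ∑ j ∈ Finset.range S, (1 : ℝ) / (1600 * S) :=
      Finset.sum_lt_sum_of_nonempty (Finset.nonempty_range_iff.2 hS0.ne') fun i hi =>
        hcon i (Finset.mem_range.1 hi)
    rw [Finset.sum_const, Finset.card_range, nsmul_eq_mul] at h2
    have h3 : (S : ℝ) * (1 / (1600 * S)) = 1 / 1600 := by field_simp
    rw [h3] at h2
    linarith
  have hρj : ρ j ≤ 9 * W' := by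
    have h2 : ρ (j + 1) ≤ 2 ^ S * (w / 20) := by
      simp only [hρ]
      gcongr
      · norm_num
      · omega
    rw [hρs] at h2
    linarith
  have hρj0 : w / 20 ≤ ρ j := by
    simp only [hρ]
    have : (1 : ℝ) ≤ 2 ^ j := one_le_pow₀ (by norm_num)
    exact le_mul_of_one_le_left (by positivity) this
  set r : ℝ := ρ j with hr
  have hrpos : 0 < r := hρpos j
  -- right window
  obtain ⟨lo2, W2, hW2m, hW2sub, hW2p, hside⟩ : ∃ (lo2 : ℝ) (W2 : Set ℝ), MeasurableSet W2 ∧
      W2 ⊆ Icc lo2 (lo2 + r / 8) ∧ 1 / (25600 * S) ≤ μ.real W2 ∧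
      ((c1 + r ≤ lo2 ∧ lo2 + r / 8 ≤ c1 + 2 * r) ∨
        (c1 - 2 * r ≤ lo2 ∧ lo2 + r / 8 ≤ c1 - r)) := by
    have hsplit : {x | r < |x - c1| ∧ |x - c1| ≤ 2 * r} ⊆
        Ioc (c1 + r) (c1 + r + (8 : ℕ) * (r / 8)) ∪
          Ico (c1 - 2 * r) (c1 - 2 * r + (8 : ℕ) * (r / 8)) := by
      rintro x ⟨hx1, hx2⟩
      push_cast
      rcases le_total 0 (x - c1) with h2 | h2
      · rw [abs_of_nonneg h2] at hx1 hx2
        left
        constructor <;> linarith
      · rw [abs_of_nonpos h2] at hx1 hx2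
        right
        constructor <;> linarith
    have h2 := hj'.trans ((measureReal_mono hsplit (measure_ne_top _ _)).trans
      (measureReal_union_le _ _))
    have e1 : (1 : ℝ) / (1600 * S) = 1 / (3200 * S) + 1 / (3200 * S) := by
      field_simp; norm_num
    have e2 : (1 : ℝ) / (3200 * S) / (8 : ℕ) = 1 / (25600 * S) := by
      push_cast; field_simp; norm_num
    rcases le_or_gt (1 / (3200 * (S : ℝ)))
        (μ.real (Ioc (c1 + r) (c1 + r + (8 : ℕ) * (r / 8)))) with h3 | h3
    · obtain ⟨k, hk, hk'⟩ := exists_window (μ := μ) _ _ (by positivity) 8 (by norm_num) h3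
      rw [e2] at hk'
      have hk1 : (k : ℝ) + 1 ≤ 8 := by exact_mod_cast hk
      have hk0 : (0 : ℝ) ≤ k := Nat.cast_nonneg k
      have he : c1 + r + (k + 1) * (r / 8) = c1 + r + k * (r / 8) + r / 8 := by ring
      have hm1 : 0 ≤ (k : ℝ) * (r / 8) := mul_nonneg hk0 (by linarith)
      have hm2 : ((k : ℝ) + 1) * (r / 8) ≤ 8 * (r / 8) :=
        mul_le_mul_of_nonneg_right hk1 (by linarith)
      refine ⟨c1 + r + k * (r / 8), _, measurableSet_Ioc, ?_, hk', Or.inl ⟨by linarith, by
        rw [← he]; linarith⟩⟩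
      rw [he]; exact Ioc_subset_Icc_self
    · have h4 : 1 / (3200 * (S : ℝ)) ≤ μ.real (Ico (c1 - 2 * r) (c1 - 2 * r + (8 : ℕ) * (r / 8))) := by
        linarith
      obtain ⟨k, hk, hk'⟩ := exists_window' (μ := μ) _ _ (by positivity) 8 (by norm_num) h4
      rw [e2] at hk'
      have hk1 : (k : ℝ) + 1 ≤ 8 := by exact_mod_cast hk
      have hk0 : (0 : ℝ) ≤ k := Nat.cast_nonneg k
      have he : c1 - 2 * r + (k + 1) * (r / 8) = c1 - 2 * r + k * (r / 8) + r / 8 := by ring
      have hm1 : 0 ≤ (k : ℝ) * (r / 8) := mul_nonneg hk0 (by linarith)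
      have hm2 : ((k : ℝ) + 1) * (r / 8) ≤ 8 * (r / 8) :=
        mul_le_mul_of_nonneg_right hk1 (by linarith)
      refine ⟨c1 - 2 * r + k * (r / 8), _, measurableSet_Ico, ?_, hk', Or.inr ⟨by linarith, by
        rw [← he]; linarith⟩⟩
      rw [he]; exact Ico_subset_Icc_self
  have hW2pos : 0 < μ.real W2 := lt_of_lt_of_le (by positivity) hW2p
  obtain ⟨c2, hc2lo, hc2hi, hc2a, hc2b⟩ := exists_median (μ := μ) W2 hW2m hW2sub hW2pos
  have ha2 : r / 4 / 2 = r / 8 := by ring
  have hdist : 4 * (r / 4) ≤ |c2 - c1| ∧ |c2 - c1| ≤ 8 * (r / 4) := by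
    rcases hside with ⟨h2, h3⟩ | ⟨h2, h3⟩
    · rw [abs_of_nonneg (by linarith)]
      constructor <;> linarith
    · rw [abs_of_nonpos (by linarith)]
      constructor <;> linarith
  refine ⟨c1, c2, r / 4, by linarith, by linarith, hdist.1, hdist.2, by linarith, ?_, ?_⟩
  · intro α z hz
    have hsub' : W1 ⊆ Icc lo (lo + r / 4 / 2) := by
      refine hW1sub.trans (Icc_subset_Icc_right ?_)
      rw [ha2]; linarith
    refine land_of_window (μ := μ) W1 measurableSet_Ioc (by linarith) hsub' hc1lo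
      (by rw [ha2]; linarith) ?_ ?_ α z hz
    · linarith
    · linarith
  · intro α z hz
    have e3 : (1 : ℝ) / (51200 * S) = 1 / (25600 * S) / 2 := by field_simp; norm_num
    refine land_of_window (μ := μ) W2 hW2m (by linarith) (by rw [ha2]; exact hW2sub) hc2lo
      (by rw [ha2]; linarith) ?_ ?_ α z hz
    · rw [e3]; linarith
    · rw [e3]; linarith

/-- far cells: tail around `c1` at any larger scale -/
lemma far_of {w W' : ℝ} (hw : 0 < w) (hwW : w ≤ W') {y0 y1 c1 η : ℝ}
    (core : 49 / 50 ≤ μ.real {y | |y - y0| ≤ 2 * w}) (hc : |c1 - y0| ≤ 3 * w)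
    (hη : η ≤ 1 / 2) (far : μ.real {x | 2 * W' < |x - y1|} ≤ η) :
    μ.real {x | 9 * W' < |x - c1|} ≤ η := by
  have hcd : |y0 - y1| ≤ 2 * w + 2 * W' :=
    center_dist (μ := μ) (by linarith) (by linarith)
  refine le_trans (measureReal_mono ?_ (measure_ne_top _ _)) far
  intro x hx
  simp only [mem_ofPred_eq] at hx ⊢
  have e : x - c1 = (x - y1) + -(c1 - y0) + -(y0 - y1) := by ring
  have h2 : |x - c1| ≤ |x - y1| + |c1 - y0| + |y0 - y1| := by
    rw [e]
    refine (abs_add_three _ _ _).trans ?_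
    rw [abs_neg, abs_neg]
  linarith

end Crest.Agent.R154.MobW437
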