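import Crest.Agent.R154.MobW_437
import Crest.Agent.R154.B4Psi_573

/-!
Row 154, TILE, mobility of the unconfined tile, Part B: one coordinate of a random vector, its
symmetrisation and `1 - |characteristic function|^2` (helper437).
-/

set_option autoImplicit false
set_option linter.unusedSectionVars false
set_option linter.unusedVariables false

namespace Crest.Agent.R154.MobW437

open MeasureTheory Filter Set Crest.Agent.R154.B4
open scoped ENNReal Topology ComplexConjugate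

variable {Ω : Type*} [MeasurableSpace Ω] {P : Measure Ω} [IsProbabilityMeasure P]

/-- coordinate direction -/
noncomputable def ev (i : Fin 2) : V := Pi.single i 1

lemma dt_ev (i : Fin 2) (t : ℝ) (z : V) : dt (t • ev i) z = t * z i := by
  fin_cases i <;> simp [dt, ev]

lemma norm_ev (i : Fin 2) (t : ℝ) : ‖t • ev i‖ = |t| := by
  rw [norm_smul, Real.norm_eq_abs]
  have : ‖ev i‖ = 1 := by
    unfold ev
    rw [Pi.norm_single]; simp
  rw [this, mul_one]

/-- `1 - |chf|^2` along the coordinate `i` -/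
noncomputable def gg (P : Measure Ω) (Δ : Ω → V) (i : Fin 2) (t : ℝ) : ℝ := psi P Δ (t • ev i)

lemma gg_nonneg (Δ : Ω → V) (i : Fin 2) (t : ℝ) : 0 ≤ gg P Δ i t := psi_nonneg _ _
lemma gg_le_one (Δ : Ω → V) (i : Fin 2) (t : ℝ) : gg P Δ i t ≤ 1 := psi_le_one _ _
lemma gg_zero (Δ : Ω → V) (i : Fin 2) : gg P Δ i 0 = 0 := by
  unfold gg; rw [zero_smul]; exact psi_zero _
lemma gg_neg (Δ : Ω → V) (i : Fin 2) (t : ℝ) : gg P Δ i (-t) = gg P Δ i t := by
  unfold gg; rw [neg_smul]; exact psi_neg _ _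
lemma gg_abs (Δ : Ω → V) (i : Fin 2) (t : ℝ) : gg P Δ i |t| = gg P Δ i t := by
  rcases abs_choice t with h | h <;> rw [h]
  exact gg_neg _ _ _
lemma continuous_gg {Δ : Ω → V} (hΔ : Measurable Δ) (i : Fin 2) : Continuous (gg P Δ i) := by
  unfold gg
  exact (continuous_psi hΔ).comp (continuous_id.smul continuous_const)

lemma gg_two {Δ : Ω → V} (hΔ : Measurable Δ) (i : Fin 2) (t : ℝ) :
    gg P Δ i (2 * t) ≤ 4 * gg P Δ i t := by
  have h := sqrt_psi_add (P := P) hΔ (t • ev i) (t • ev i)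
  have e : t • ev i + t • ev i = (2 * t) • ev i := by rw [← add_smul]; ring_nf
  rw [e] at h
  change Real.sqrt (gg P Δ i (2 * t)) ≤ Real.sqrt (gg P Δ i t) + Real.sqrt (gg P Δ i t) at h
  have h1 := Real.sq_sqrt (gg_nonneg (P := P) Δ i (2 * t))
  have h2 := Real.sq_sqrt (gg_nonneg (P := P) Δ i t)
  have h3 := Real.sqrt_nonneg (gg P Δ i (2 * t))
  have h4 := Real.sqrt_nonneg (gg P Δ i t)
  nlinarith

/-- the symmetrised coordinate -/
def Z (Δ : Ω → V) (i : Fin 2) (q : Ω × Ω) : ℝ := Δ q.1 i - Δ q.2 i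

lemma measurable_coord {Δ : Ω → V} (hΔ : Measurable Δ) (i : Fin 2) :
    Measurable fun ω => Δ ω i := (measurable_pi_apply i).comp hΔ

lemma measurable_Z {Δ : Ω → V} (hΔ : Measurable Δ) (i : Fin 2) : Measurable (Z Δ i) :=
  ((measurable_coord hΔ i).comp measurable_fst).sub ((measurable_coord hΔ i).comp measurable_snd)

lemma gg_eq {Δ : Ω → V} (hΔ : Measurable Δ) (i : Fin 2) (t : ℝ) :
    gg P Δ i t = ∫ q, (1 - Real.cos (t * Z Δ i q)) ∂(P.prod P) := by
  unfold gg
  rw [psi_eq hΔ]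
  refine integral_congr_ae (Eventually.of_forall fun q => ?_)
  simp only [dt_ev, Z, Pi.sub_apply]

lemma charFun_Z {Δ : Ω → V} (hΔ : Measurable Δ) (i : Fin 2) (t : ℝ) :
    1 - charFun ((P.prod P).map (Z Δ i)) t = (gg P Δ i t : ℂ) := by
  rw [charFun_apply_real, integral_map (measurable_Z hΔ i).aemeasurable (by fun_prop)]
  have h1 : (fun q : Ω × Ω => Complex.exp (t * (Z Δ i q : ℝ) * Complex.I)) = fun q =>
      Complex.exp ((dt (t • ev i) (Δ q.1) : ℝ) * Complex.I) *
        Complex.exp ((dt (-(t • ev i)) (Δ q.2) : ℝ) * Complex.I) := by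
    funext q
    rw [← Complex.exp_add]
    congr 1
    rw [dt_neg_left, dt_ev, dt_ev]
    simp only [Z]
    push_cast
    ring
  rw [h1, integral_prod_mul (fun ω => Complex.exp ((dt (t • ev i) (Δ ω) : ℝ) * Complex.I))
    (fun ω => Complex.exp ((dt (-(t • ev i)) (Δ ω) : ℝ) * Complex.I))]
  change 1 - cfr P Δ (t • ev i) * cfr P Δ (-(t • ev i)) = _
  rw [cfr_neg, Complex.mul_conj, Complex.normSq_eq_norm_sq]
  unfold gg psi
  push_cast
  ring

/-- tail bound of the symmetrised coordinate -/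
lemma tail_Z {Δ : Ω → V} (hΔ : Measurable Δ) (i : Fin 2) {r ε : ℝ} (hr : 0 < r)
    (h : ∀ t, |t| ≤ 2 / r → gg P Δ i t ≤ ε) :
    (P.prod P).real {q | r < |Z Δ i q|} ≤ 2 * ε := by
  have hp : IsProbabilityMeasure ((P.prod P).map (Z Δ i)) :=
    Measure.isProbabilityMeasure_map (measurable_Z hΔ i).aemeasurable
  have h1 := measureReal_abs_gt_le_integral_charFun (μ := (P.prod P).map (Z Δ i)) hr
  have h2 : ((P.prod P).map (Z Δ i)).real {x | r < |x|} = (P.prod P).real {q | r < |Z Δ i q|} := by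
    rw [measureReal_def, measureReal_def, Measure.map_apply (measurable_Z hΔ i)
      (measurableSet_lt measurable_const measurable_abs)]
    rfl
  rw [h2] at h1
  refine h1.trans ?_
  have hrr : 0 < 2 * r⁻¹ := by positivity
  have h3 : ‖∫ t in (-2 * r⁻¹)..(2 * r⁻¹), 1 - charFun ((P.prod P).map (Z Δ i)) t‖ ≤
      ε * |2 * r⁻¹ - (-2 * r⁻¹)| := by
    refine intervalIntegral.norm_integral_le_of_norm_le_const fun t ht => ?_
    rw [charFun_Z hΔ, Complex.norm_real, Real.norm_eq_abs, abs_of_nonneg (gg_nonneg _ _ _)]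
    refine h t ?_
    rw [uIoc_of_le (by linarith)] at ht
    rw [abs_le, div_eq_mul_inv]
    constructor
    · linarith [ht.1]
    · exact ht.2
  have h4 : |2 * r⁻¹ - (-2 * r⁻¹)| = 4 * r⁻¹ := by
    rw [abs_of_nonneg (by linarith)]; ring
  rw [h4] at h3
  calc 2⁻¹ * r * ‖∫ t in (-2 * r⁻¹)..(2 * r⁻¹), 1 - charFun ((P.prod P).map (Z Δ i)) t‖
      ≤ 2⁻¹ * r * (ε * (4 * r⁻¹)) := by gcongr
    _ = 2 * ε * (r * r⁻¹) := by ring
    _ = 2 * ε := by rw [mul_inv_cancel₀ hr.ne', mul_one]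

/-- spread of the symmetrised coordinate -/
lemma spread_Z {Δ : Ω → V} (hΔ : Measurable Δ) (i : Fin 2) {t : ℝ} (ht : 0 < t)
    (h : 1 / 100 ≤ gg P Δ i t) :
    1 / 400 ≤ (P.prod P).real {q | 1 / t / 10 < |Z Δ i q|} := by
  set A : Set (Ω × Ω) := {q | 1 / t / 10 < |Z Δ i q|} with hA
  have hAm : MeasurableSet A := measurableSet_lt measurable_const (measurable_Z hΔ i).abs
  have h1 : ∀ q, 1 - Real.cos (t * Z Δ i q) ≤ 1 / 200 + A.indicator (fun _ => (2 : ℝ)) q := by
    intro q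
    by_cases hq : q ∈ A
    · rw [indicator_of_mem hq]
      have := Real.neg_one_le_cos (t * Z Δ i q)
      linarith
    · rw [indicator_of_notMem hq]
      have h2 : |Z Δ i q| ≤ 1 / t / 10 := not_lt.1 hq
      have h3 : |t * Z Δ i q| ≤ 1 / 10 := by
        rw [abs_mul, abs_of_pos ht]
        calc t * |Z Δ i q| ≤ t * (1 / t / 10) := by gcongr
          _ = 1 / 10 := by field_simp
      have h4 := Real.one_sub_sq_div_two_le_cos (x := t * Z Δ i q)
      have h5 : (t * Z Δ i q) ^ 2 ≤ (1 / 10) ^ 2 := by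
        rw [← sq_abs]
        gcongr
      linarith
  have hm : Measurable fun q : Ω × Ω => Real.cos (t * Z Δ i q) := by
    have := measurable_Z hΔ i
    fun_prop
  have hi : Integrable (fun q : Ω × Ω => 1 - Real.cos (t * Z Δ i q)) (P.prod P) := by
    refine (integrable_const (1 : ℝ)).sub ((integrable_const (1 : ℝ)).mono' hm.aestronglyMeasurable
      (Eventually.of_forall fun q => by rw [Real.norm_eq_abs]; exact Real.abs_cos_le_one _))
  have hi2 : Integrable (fun q : Ω × Ω => 1 / 200 + A.indicator (fun _ => (2 : ℝ)) q) (P.prod P) :=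
    (integrable_const _).add ((integrable_const _).indicator hAm)
  have h2 : gg P Δ i t ≤ 1 / 200 + 2 * (P.prod P).real A := by
    rw [gg_eq hΔ]
    refine (integral_mono hi hi2 h1).trans ?_
    rw [integral_add (integrable_const _) ((integrable_const _).indicator hAm),
      integral_indicator_const _ hAm]
    simp only [integral_const, smul_eq_mul, measureReal_def, measure_univ, ENNReal.toReal_one]
    linarith
  linarith

/-- a good centre -/
lemma exists_center {Δ : Ω → V} (hΔ : Measurable Δ) (i : Fin 2) (r : ℝ) {ε : ℝ}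
    (h : (P.prod P).real {q | r < |Z Δ i q|} ≤ ε) :
    ∃ y, P.real {ω | r < |Δ ω i - y|} ≤ ε := by
  have hm : MeasurableSet {q | r < |Z Δ i q|} :=
    measurableSet_lt measurable_const (measurable_Z hΔ i).abs
  have e : (P.prod P) {q | r < |Z Δ i q|} = ∫⁻ ω', P {ω | r < |Δ ω i - Δ ω' i|} ∂P := by
    rw [Measure.prod_apply_symm hm]
    rfl
  have hmeas : Measurable fun ω' => P {ω | r < |Δ ω i - Δ ω' i|} := measurable_measure_prodMk_right hm
  obtain ⟨ω', hω'⟩ := exists_le_lintegral (μ := P) hmeas.aemeasurable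
  refine ⟨Δ ω' i, ?_⟩
  rw [← e] at hω'
  refine le_trans ?_ h
  exact ENNReal.toReal_mono (measure_ne_top _ _) hω'

/-- spread around every point -/
lemma spread_point {Δ : Ω → V} (hΔ : Measurable Δ) (i : Fin 2) (r : ℝ) {ε : ℝ}
    (h : ε ≤ (P.prod P).real {q | 2 * r < |Z Δ i q|}) (y : ℝ) :
    ε / 2 ≤ P.real {ω | r < |Δ ω i - y|} := by
  set B : Set Ω := {ω | r < |Δ ω i - y|} with hB
  have hBm : MeasurableSet B :=
    measurableSet_lt measurable_const ((measurable_coord hΔ i).sub_const y).abs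
  have hsub : {q : Ω × Ω | 2 * r < |Z Δ i q|} ⊆ (B ×ˢ univ) ∪ (univ ×ˢ B) := by
    intro q hq
    by_contra hcon
    simp only [mem_union, mem_prod, mem_univ, and_true, true_and, not_or] at hcon
    have h1 : |Δ q.1 i - y| ≤ r := not_lt.1 hcon.1
    have h2 : |Δ q.2 i - y| ≤ r := not_lt.1 hcon.2
    have h3 : Z Δ i q = (Δ q.1 i - y) - (Δ q.2 i - y) := by simp only [Z]; ring
    have h4 : |Z Δ i q| ≤ 2 * r := by
      rw [h3]
      refine (abs_sub _ _).trans ?_
      linarith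
    exact absurd (show 2 * r < |Z Δ i q| from hq) (not_lt.2 h4)
  have h1 := (measureReal_mono hsub (measure_ne_top _ _)).trans
    (measureReal_union_le (μ := P.prod P) (B ×ˢ univ) (univ ×ˢ B))
  have h2 : (P.prod P).real (B ×ˢ (univ : Set Ω)) = P.real B := by
    rw [measureReal_def, Measure.prod_prod, measure_univ, mul_one, measureReal_def]
  have h3 : (P.prod P).real ((univ : Set Ω) ×ˢ B) = P.real B := by
    rw [measureReal_def, Measure.prod_prod, measure_univ, one_mul, measureReal_def]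
  rw [h2, h3] at h1
  linarith

/-- **Mobility of one law** (width `w = 1/t`, `t` = edge of `{g ≤ 1/100}`, tail width `W'`). -/
theorem mob_law {Δ : Ω → V} (hΔ : Measurable Δ) (i : Fin 2) {t t' : ℝ} (ht' : 0 < t')
    (htt : t' ≤ t) (hcore : ∀ s, |s| ≤ t → gg P Δ i s ≤ 1 / 100) (hedge : 1 / 100 ≤ gg P Δ i t)
    (htail : ∀ s, |s| ≤ t' → gg P Δ i s ≤ 1 / 3200) (S : ℕ) (hS0 : 0 < S)
    (hS : 9 * (1 / t') ≤ 2 ^ S * (1 / t / 20)) (hS' : 2 ^ S * (1 / t / 20) ≤ 18 * (1 / t')) :
    ∃ c1 c2 a : ℝ, 1 / t / 80 ≤ a ∧ a ≤ 9 / 4 * (1 / t') ∧ 4 * a ≤ |c2 - c1| ∧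
      |c2 - c1| ≤ 8 * a ∧
      (∀ α z, z ∈ Ico α (α + a) → 1 / 1400 ≤ P.real {ω | z + Δ ω i - c1 ∈ Ico α (α + a)}) ∧
      (∀ α z, z ∈ Ico α (α + a) →
        1 / (51200 * S) ≤ P.real {ω | z + Δ ω i - c2 ∈ Ico α (α + a)}) ∧
      (∀ s η : ℝ, 0 < s → s ≤ t → 0 ≤ η → η ≤ 1 / 4 → (∀ u, |u| ≤ s → gg P Δ i u ≤ η) →
        P.real {ω | 9 * (1 / s) < |Δ ω i - c1|} ≤ 2 * η) := by
  have ht : 0 < t := lt_of_lt_of_le ht' htt
  have hY := measurable_coord hΔ i
  set μ : Measure ℝ := P.map (fun ω => Δ ω i) with hμ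
  haveI : IsProbabilityMeasure μ := Measure.isProbabilityMeasure_map hY.aemeasurable
  have hreal : ∀ B : Set ℝ, MeasurableSet B → μ.real B = P.real {ω | Δ ω i ∈ B} := by
    intro B hB
    rw [measureReal_def, measureReal_def, hμ, Measure.map_apply hY hB]
    rfl
  have hmabs : ∀ (r y : ℝ), MeasurableSet {x : ℝ | r < |x - y|} := fun r y =>
    measurableSet_lt measurable_const (measurable_id.sub_const y).abs
  have hmabs' : ∀ (r y : ℝ), MeasurableSet {x : ℝ | |x - y| ≤ r} := fun r y =>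
    measurableSet_le (measurable_id.sub_const y).abs measurable_const
  -- centres
  have hcen : ∀ (s η : ℝ), 0 < s → (∀ u, |u| ≤ s → gg P Δ i u ≤ η) →
      ∃ y, μ.real {x | 2 * (1 / s) < |x - y|} ≤ 2 * η := by
    intro s η hs h
    have h1 := tail_Z (P := P) hΔ i (r := 2 * (1 / s)) (ε := η) (by positivity) (by
      intro u hu
      refine h u (hu.trans (le_of_eq ?_))
      field_simp)
    obtain ⟨y, hy⟩ := exists_center hΔ i _ h1
    exact ⟨y, by rw [hreal _ (hmabs _ _)]; exact hy⟩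
  obtain ⟨y0, hy0⟩ := hcen t (1 / 100) ht hcore
  obtain ⟨y1, hy1⟩ := hcen t' (1 / 3200) ht' htail
  have hcompl : ∀ (r y : ℝ), μ.real {x | |x - y| ≤ r} = 1 - μ.real {x | r < |x - y|} := by
    intro r y
    have e : {x : ℝ | |x - y| ≤ r} = {x | r < |x - y|}ᶜ := by
      ext x; simp
    rw [e, probReal_compl_eq_one_sub (hmabs r y)]
  have core : 49 / 50 ≤ μ.real {y | |y - y0| ≤ 2 * (1 / t)} := by
    rw [hcompl]; linarith
  have spread : ∀ y, 1 / 800 ≤ μ.real {x | 1 / t / 20 < |x - y|} := by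
    intro y
    rw [hreal _ (hmabs _ _)]
    have h1 := spread_Z (P := P) hΔ i ht hedge
    have h2 : (1 : ℝ) / 400 ≤ (P.prod P).real {q | 2 * (1 / t / 20) < |Z Δ i q|} := by
      have e : 2 * (1 / t / 20) = 1 / t / 10 := by ring
      rw [e]; exact h1
    have h3 := spread_point hΔ i (1 / t / 20) h2 y
    have e : (1 : ℝ) / 400 / 2 = 1 / 800 := by norm_num
    rw [e] at h3
    exact h3
  have hwW : 1 / t ≤ 1 / t' := one_div_le_one_div_of_le ht' htt
  have hwp : 0 < 1 / t := by positivity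
  obtain ⟨c1, c2, a, h1, h2, h3, h4, h5, h6, h7⟩ := windows (μ := μ) hwp hwW S hS0 hS hS' core
    spread (hy1.trans (by norm_num))
  have hmz : ∀ (α z c : ℝ), MeasurableSet {y : ℝ | z + y - c ∈ Ico α (α + a)} := by
    intro α z c
    exact measurableSet_Ico.preimage ((measurable_const.add measurable_id).sub_const c)
  refine ⟨c1, c2, a, h1, h2, h3, h4, ?_, ?_, ?_⟩
  · intro α z hz
    have := h6 α z hz
    rw [hreal _ (hmz _ _ _)] at this
    exact this
  · intro α z hz
    have := h7 α z hz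
    rw [hreal _ (hmz _ _ _)] at this
    exact this
  · intro s η hs hst hη0 hη h
    obtain ⟨y2, hy2⟩ := hcen s η hs h
    have := far_of (μ := μ) hwp (one_div_le_one_div_of_le hs hst) core h5 (by linarith) hy2
    rw [hreal _ (hmabs _ _)] at this
    exact this

end Crest.Agent.R154.MobW437
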