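import Mathlib

/-!
Row 154, TILE: mobility of random walks (pure probability, Mathlib only).
-/

set_option autoImplicit false
set_option linter.unusedSectionVars false
set_option linter.deprecated false

namespace Crest.Agent.R154.Mob927

open MeasureTheory ProbabilityTheory Finset

section PZ

variable {Ω : Type*} [MeasurableSpace Ω] {P : Measure Ω} [IsProbabilityMeasure P]

/-- bounded measurable functions are integrable -/
lemma integrable_of_bdd {X : Ω → ℝ} (hm : Measurable X) {M : ℝ} (hb : ∀ ω, |X ω| ≤ M) :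
    Integrable X P :=
  Integrable.of_bound hm.aestronglyMeasurable M (Filter.Eventually.of_forall fun ω => by
    rw [Real.norm_eq_abs]; exact hb ω)

lemma integrable_pow_of_bdd {X : Ω → ℝ} (hm : Measurable X) {M : ℝ} (hb : ∀ ω, |X ω| ≤ M)
    (n : ℕ) : Integrable (fun ω => X ω ^ n) P :=
  integrable_of_bdd (hm.pow_const n) (M := M ^ n) fun ω => by
    rw [abs_pow]; exact pow_le_pow_left₀ (abs_nonneg _) (hb ω) n

/-- pointwise inequality behind the one-sided Paley-Zygmund bound -/
lemma pz_pt {x lam t c : ℝ} (hl : 0 < lam) (ht : 0 < t) (hc : 0 < c) (P : Prop) [Decidable P]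
    (hP : ¬ P → x < t) :
    lam * x ^ 2 - lam ^ 3 * x ^ 4 + x ≤ 2 * t + x ^ 2 / c + c * (if P then 1 else 0) := by
  have h1 : lam * x ^ 2 - lam ^ 3 * x ^ 4 ≤ |x| := by
    have hy : 0 ≤ lam * |x| := by positivity
    set y := lam * |x| with hy'
    have h2 : y ^ 2 - y ^ 4 ≤ y := by
      nlinarith [mul_nonneg hy (sq_nonneg (y - 1)), mul_nonneg hy (sq_nonneg (y - 1/2)), sq_nonneg y,
        mul_nonneg hy hy, mul_nonneg (mul_nonneg hy hy) hy, mul_nonneg hy (sq_nonneg (2*y-1))]
    have h3 : lam * (lam * x ^ 2 - lam ^ 3 * x ^ 4) = y ^ 2 - y ^ 4 := by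
      rw [hy', mul_pow, mul_pow, sq_abs, show |x| ^ 4 = x ^ 4 by
        rw [show (4 : ℕ) = 2 * 2 from rfl, pow_mul, pow_mul, sq_abs]]
      ring
    have h4 : lam * (lam * x ^ 2 - lam ^ 3 * x ^ 4) ≤ lam * |x| := by rw [h3]; exact h2
    exact le_of_mul_le_mul_left h4 hl
  have h5 : 0 ≤ x ^ 2 / c := by positivity
  by_cases hp : P
  · rw [if_pos hp, mul_one]
    have h6 : 2 * |x| ≤ x ^ 2 / c + c := by
      rw [div_add' _ _ _ hc.ne', le_div_iff₀ hc]
      nlinarith [sq_nonneg (|x| - c), sq_abs x]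
    have h7 : x ≤ |x| := le_abs_self x
    linarith
  · rw [if_neg hp, mul_zero, add_zero]
    have h6 := hP hp
    rcases le_total 0 x with h | h
    · rw [abs_of_nonneg h] at h1
      linarith
    · rw [abs_of_nonpos h] at h1
      linarith

/-- **one-sided Paley-Zygmund**: centered, second moment `s²`, fourth moment `≤ (r s)⁴ / r² ..` -/
theorem pz {X : Ω → ℝ} (hm : Measurable X) {M : ℝ} (hb : ∀ ω, |X ω| ≤ M)
    (h1 : ∫ ω, X ω ∂P = 0) {s r : ℝ} (hs : 0 < s) (hr : 0 < r)
    (h2 : ∫ ω, X ω ^ 2 ∂P = s ^ 2) (h4 : ∫ ω, X ω ^ 4 ∂P ≤ r ^ 2 * s ^ 4) :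
    3 / (256 * r ^ 2) ≤ P.real {ω | s / (16 * r) ≤ X ω} := by
  classical
  set t := s / (16 * r) with ht
  set lam := 1 / (2 * s * r) with hlam
  have htp : 0 < t := by positivity
  have hlp : 0 < lam := by positivity
  set c := s ^ 2 / t with hc
  have hcp : 0 < c := by positivity
  set E : Set Ω := {ω | t ≤ X ω} with hE
  have hEm : MeasurableSet E := measurableSet_le measurable_const hm
  have i2 := integrable_pow_of_bdd (P := P) hm hb 2
  have i4 := integrable_pow_of_bdd (P := P) hm hb 4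
  have i1 := integrable_of_bdd (P := P) hm hb
  have iE : Integrable (E.indicator (fun _ => (1 : ℝ))) P :=
    (integrable_const 1).indicator hEm
  have hle : ∫ ω, (lam * X ω ^ 2 - lam ^ 3 * X ω ^ 4 + X ω) ∂P ≤
      ∫ ω, (2 * t + X ω ^ 2 / c + c * E.indicator (fun _ => (1 : ℝ)) ω) ∂P := by
    refine integral_mono (((i2.const_mul lam).sub (i4.const_mul (lam ^ 3))).add i1)
      (((integrable_const _).add (i2.div_const c)).add (iE.const_mul c)) fun ω => ?_
    have h := pz_pt (x := X ω) hlp htp hcp (ω ∈ E) (fun h => not_le.1 h)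
    simp only [Set.indicator_apply]
    convert h using 2
  have e1 : ∫ ω, (lam * X ω ^ 2 - lam ^ 3 * X ω ^ 4 + X ω) ∂P =
      lam * s ^ 2 - lam ^ 3 * ∫ ω, X ω ^ 4 ∂P := by
    have a1 : ∫ ω, (lam * X ω ^ 2 - lam ^ 3 * X ω ^ 4 + X ω) ∂P =
        (∫ ω, (lam * X ω ^ 2 - lam ^ 3 * X ω ^ 4) ∂P) + ∫ ω, X ω ∂P :=
      integral_add ((i2.const_mul lam).sub (i4.const_mul (lam ^ 3))) i1
    have a2 : ∫ ω, (lam * X ω ^ 2 - lam ^ 3 * X ω ^ 4) ∂P =
        (∫ ω, lam * X ω ^ 2 ∂P) - ∫ ω, lam ^ 3 * X ω ^ 4 ∂P :=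
      integral_sub (i2.const_mul lam) (i4.const_mul (lam ^ 3))
    rw [a1, a2, integral_const_mul, integral_const_mul, h1, h2, add_zero]
  have e2 : ∫ ω, (2 * t + X ω ^ 2 / c + c * E.indicator (fun _ => (1 : ℝ)) ω) ∂P =
      2 * t + s ^ 2 / c + c * P.real E := by
    have a1 : ∫ ω, (2 * t + X ω ^ 2 / c + c * E.indicator (fun _ => (1 : ℝ)) ω) ∂P =
        (∫ ω, (2 * t + X ω ^ 2 / c) ∂P) + ∫ ω, c * E.indicator (fun _ => (1 : ℝ)) ω ∂P :=
      integral_add ((integrable_const _).add (i2.div_const c)) (iE.const_mul c)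
    have a2 : ∫ ω, (2 * t + X ω ^ 2 / c) ∂P = (∫ _ω, 2 * t ∂P) + ∫ ω, X ω ^ 2 / c ∂P :=
      integral_add (integrable_const _) (i2.div_const c)
    have a3 : ∫ ω, c * E.indicator (fun _ => (1 : ℝ)) ω ∂P = c * P.real E := by
      rw [integral_const_mul, integral_indicator_const _ hEm]
      simp
    rw [a1, a2, a3, integral_div, h2]
    simp
  rw [e1, e2] at hle
  have h5 : lam ^ 3 * ∫ ω, X ω ^ 4 ∂P ≤ lam ^ 3 * (r ^ 2 * s ^ 4) :=
    mul_le_mul_of_nonneg_left h4 (by positivity)
  have e3 : lam * s ^ 2 = s / (2 * r) := by rw [hlam]; field_simp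
  have e4 : lam ^ 3 * (r ^ 2 * s ^ 4) = s / (8 * r) := by rw [hlam]; field_simp; ring
  have e5 : s ^ 2 / c = t := by rw [hc]; field_simp
  have e6 : s / r = 16 * t := by rw [ht]; field_simp
  have e7 : s / (2 * r) = 8 * t := by rw [ht]; field_simp; ring
  have e8 : s / (8 * r) = 2 * t := by rw [ht]; field_simp; ring
  rw [e3, e5, e7] at hle
  rw [e4, e8] at h5
  have h6 : 3 * t ≤ c * P.real E := by linarith
  have h7 : c * (3 / (256 * r ^ 2)) = 3 * t := by
    rw [hc, ht]; field_simp; ring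
  rw [← h7] at h6
  exact le_of_mul_le_mul_left h6 hcp

end PZ

section Sum

variable {Ω : Type*} [MeasurableSpace Ω] {P : Measure Ω} [IsProbabilityMeasure P]

/-- sums over a finite index set -/
noncomputable def SS (X : ℕ → Ω → ℝ) (I : Finset ℕ) (ω : Ω) : ℝ := ∑ i ∈ I, X i ω

variable {X : ℕ → Ω → ℝ}

lemma measurable_SS (hm : ∀ i, Measurable (X i)) (I : Finset ℕ) : Measurable (SS X I) :=
  Finset.measurable_sum I fun i _ => hm i

lemma SS_bdd {b : ℝ} (hb : ∀ i ω, |X i ω| ≤ b) (I : Finset ℕ) (ω : Ω) :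
    |SS X I ω| ≤ #I * b := by
  unfold SS
  calc |∑ i ∈ I, X i ω| ≤ ∑ i ∈ I, |X i ω| := Finset.abs_sum_le_sum_abs _ _
    _ ≤ ∑ _i ∈ I, b := Finset.sum_le_sum fun i _ => hb i ω
    _ = #I * b := by simp

lemma SS_insert {I : Finset ℕ} {i : ℕ} (hi : i ∉ I) (ω : Ω) :
    SS X (insert i I) ω = SS X I ω + X i ω := by
  unfold SS
  rw [Finset.sum_insert hi, add_comm]

lemma indep_SS (hind : iIndepFun X P) (hm : ∀ i, Measurable (X i)) {I : Finset ℕ} {i : ℕ}
    (hi : i ∉ I) : IndepFun (SS X I) (X i) P := by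
  have h := hind.indepFun_finsetSum_of_notMem hm hi
  have e : SS X I = ∑ j ∈ I, X j := by
    funext ω; simp [SS, Finset.sum_apply]
  rw [e]
  exact h

lemma integral_mul_pow {U V : Ω → ℝ} (h : IndepFun U V P) (hU : Measurable U) (hV : Measurable V)
    (m n : ℕ) : ∫ ω, U ω ^ m * V ω ^ n ∂P = (∫ ω, U ω ^ m ∂P) * ∫ ω, V ω ^ n ∂P :=
  IndepFun.integral_fun_comp_mul_comp (f := fun x : ℝ => x ^ m) (g := fun x : ℝ => x ^ n) h
    hU.aemeasurable hV.aemeasurable (by fun_prop) (by fun_prop)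

/-- first, second and fourth moment of sums of independent centered variables bounded by `b`. -/
theorem moments (hind : iIndepFun X P) (hm : ∀ i, Measurable (X i)) {b v : ℝ}
    (hb : ∀ i ω, |X i ω| ≤ b) (h1 : ∀ i, ∫ ω, X i ω ∂P = 0)
    (h2 : ∀ i, ∫ ω, X i ω ^ 2 ∂P = v) (I : Finset ℕ) :
    ∫ ω, SS X I ω ∂P = 0 ∧ ∫ ω, SS X I ω ^ 2 ∂P = #I * v ∧
      ∫ ω, SS X I ω ^ 4 ∂P ≤ 3 * (#I * v) ^ 2 + #I * (b ^ 2 * v) := by
  classical
  have hv : 0 ≤ v := by rw [← h2 0]; exact integral_nonneg fun ω => sq_nonneg _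
  induction I using Finset.induction_on with
  | empty => simp [SS]
  | insert i I hi ih =>
    obtain ⟨j1, j2, j4⟩ := ih
    have hS := measurable_SS hm I
    have hSb := SS_bdd hb I
    have hXb := hb i
    have hI := indep_SS hind hm hi
    have iS := integrable_of_bdd (P := P) hS hSb
    have iX := integrable_of_bdd (P := P) (hm i) hXb
    have iS2 := integrable_pow_of_bdd (P := P) hS hSb 2
    have iX2 := integrable_pow_of_bdd (P := P) (hm i) hXb 2
    have iS4 := integrable_pow_of_bdd (P := P) hS hSb 4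
    have iX4 := integrable_pow_of_bdd (P := P) (hm i) hXb 4
    have hmix : ∀ m n : ℕ, Integrable (fun ω => SS X I ω ^ m * X i ω ^ n) P := fun m n =>
      integrable_of_bdd ((hS.pow_const m).mul ((hm i).pow_const n))
        (M := (#I * b) ^ m * b ^ n) fun ω => by
          rw [abs_mul, abs_pow, abs_pow]
          exact mul_le_mul (pow_le_pow_left₀ (abs_nonneg _) (hSb ω) m)
            (pow_le_pow_left₀ (abs_nonneg _) (hXb ω) n) (by positivity)
            (pow_nonneg ((abs_nonneg _).trans (hSb ω)) m)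
    have hc : (#(insert i I) : ℝ) = #I + 1 := by
      rw [Finset.card_insert_of_notMem hi]; push_cast; ring
    refine ⟨?_, ?_, ?_⟩
    · simp_rw [SS_insert hi]
      rw [integral_add iS iX, j1, h1, add_zero]
    · simp_rw [SS_insert hi]
      have e : ∀ ω, (SS X I ω + X i ω) ^ 2 =
          SS X I ω ^ 2 + (2 * (SS X I ω ^ 1 * X i ω ^ 1) + X i ω ^ 2) := fun ω => by ring
      simp_rw [e]
      have k1 : Integrable (fun ω => 2 * (SS X I ω ^ 1 * X i ω ^ 1) + X i ω ^ 2) P :=
        ((hmix 1 1).const_mul 2).add iX2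
      rw [integral_add iS2 k1, integral_add ((hmix 1 1).const_mul 2) iX2, integral_const_mul,
        integral_mul_pow hI hS (hm i), j2, h2, hc]
      simp only [pow_one]
      rw [j1]
      ring
    · simp_rw [SS_insert hi]
      have e : ∀ ω, (SS X I ω + X i ω) ^ 4 =
          SS X I ω ^ 4 + (4 * (SS X I ω ^ 3 * X i ω ^ 1) + (6 * (SS X I ω ^ 2 * X i ω ^ 2) +
            (4 * (SS X I ω ^ 1 * X i ω ^ 3) + X i ω ^ 4))) := fun ω => by ring
      simp_rw [e]
      have k1 := (hmix 1 3).const_mul 4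
      have k2 := (hmix 2 2).const_mul 6
      have k3 := (hmix 3 1).const_mul 4
      have l1 : Integrable (fun ω => 4 * (SS X I ω ^ 1 * X i ω ^ 3) + X i ω ^ 4) P := k1.add iX4
      have l2 : Integrable (fun ω => 6 * (SS X I ω ^ 2 * X i ω ^ 2) +
        (4 * (SS X I ω ^ 1 * X i ω ^ 3) + X i ω ^ 4)) P := k2.add l1
      have l3 : Integrable (fun ω => 4 * (SS X I ω ^ 3 * X i ω ^ 1) +
        (6 * (SS X I ω ^ 2 * X i ω ^ 2) + (4 * (SS X I ω ^ 1 * X i ω ^ 3) + X i ω ^ 4))) P :=
        k3.add l2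
      rw [integral_add iS4 l3, integral_add k3 l2,
        integral_add k2 l1, integral_add k1 iX4, integral_const_mul, integral_const_mul,
        integral_const_mul, integral_mul_pow hI hS (hm i), integral_mul_pow hI hS (hm i),
        integral_mul_pow hI hS (hm i), j2, h2, hc]
      simp only [pow_one]
      rw [j1, h1]
      have hX4 : ∫ ω, X i ω ^ 4 ∂P ≤ b ^ 2 * v := by
        rw [← h2 i, ← integral_const_mul]
        refine integral_mono iX4 (iX2.const_mul _) fun ω => ?_
        have h5 : X i ω ^ 2 ≤ b ^ 2 := sq_le_sq' (by have := abs_le.1 (hXb ω); linarith [this.1])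
          (abs_le.1 (hXb ω)).2
        nlinarith [sq_nonneg (X i ω)]
      nlinarith [sq_nonneg v]

/-- **one piece**: if `b² ≤ s² = n v` then the sum over `n` indices moves by at least `s/32` to the
right (left) and by at most `27 s` with probability `≥ 1/1024`. -/
theorem piece (hind : iIndepFun X P) (hm : ∀ i, Measurable (X i)) {b v : ℝ}
    (hb : ∀ i ω, |X i ω| ≤ b) (h1 : ∀ i, ∫ ω, X i ω ∂P = 0)
    (h2 : ∀ i, ∫ ω, X i ω ^ 2 ∂P = v) (I : Finset ℕ) {s : ℝ} (hs : 0 < s)
    (hsI : s ^ 2 = #I * v) (hbs : b ^ 2 ≤ s ^ 2) :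
    1 / 1024 ≤ P.real {ω | s / 32 ≤ SS X I ω ∧ SS X I ω ≤ 27 * s} := by
  have hv : 0 ≤ v := by rw [← h2 0]; exact integral_nonneg fun ω => sq_nonneg _
  obtain ⟨j1, j2, j4⟩ := moments hind hm hb h1 h2 I
  have hS := measurable_SS hm I
  have hSb := SS_bdd hb I
  have iS2 := integrable_pow_of_bdd (P := P) hS hSb 2
  have hk : ∫ ω, SS X I ω ^ 4 ∂P ≤ (2 : ℝ) ^ 2 * s ^ 4 := by
    refine j4.trans ?_
    rw [← hsI]
    have : (#I : ℝ) * (b ^ 2 * v) = b ^ 2 * s ^ 2 := by rw [hsI]; ring
    rw [this]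
    nlinarith [mul_le_mul_of_nonneg_right hbs (sq_nonneg s)]
  have h3 := pz hS hSb j1 hs (by norm_num : (0 : ℝ) < 2) (by rw [j2, hsI]) hk
  norm_num at h3
  -- Chebyshev
  have h4 : P.real {ω | 27 * s < SS X I ω} ≤ 1 / 729 := by
    have h5 := mul_meas_ge_le_integral_of_nonneg (μ := P) (f := fun ω => SS X I ω ^ 2)
      (Filter.Eventually.of_forall fun ω => sq_nonneg _) iS2 ((27 * s) ^ 2)
    rw [j2, ← hsI] at h5
    have h6 : P.real {ω | 27 * s < SS X I ω} ≤ P.real {ω | (27 * s) ^ 2 ≤ SS X I ω ^ 2} := by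
      refine measureReal_mono ?_
      intro ω hω
      simp only [Set.mem_setOf_eq] at hω ⊢
      nlinarith
    have h7 : (27 * s) ^ 2 * P.real {ω | 27 * s < SS X I ω} ≤ s ^ 2 :=
      (mul_le_mul_of_nonneg_left h6 (by positivity)).trans h5
    have h8 : 0 < s ^ 2 := by positivity
    nlinarith
  have h5 : P.real {ω | s / 32 ≤ SS X I ω} ≤
      P.real {ω | s / 32 ≤ SS X I ω ∧ SS X I ω ≤ 27 * s} + P.real {ω | 27 * s < SS X I ω} := by
    refine (measureReal_mono ?_).trans (measureReal_union_le _ _)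
    intro ω hω
    simp only [Set.mem_setOf_eq, Set.mem_union] at hω ⊢
    rcases le_or_gt (SS X I ω) (27 * s) with h | h
    · exact Or.inl ⟨hω, h⟩
    · exact Or.inr h
  have h6 : (3 / 1024 : ℝ) ≤ P.real {ω | s / 32 ≤ SS X I ω} := by
    have e : ∀ ω, (s / (16 * 2) ≤ SS X I ω) ↔ (s / 32 ≤ SS X I ω) := fun ω => by norm_num
    convert h3 using 2
  linarith

end Sum

section Steer

variable {Ω : Type*} [MeasurableSpace Ω] {P : Measure Ω} [IsProbabilityMeasure P]
  {X : ℕ → Ω → ℝ}

/-- a step towards the origin -/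
def good (s a d : ℝ) : Prop :=
  (a ≤ 0 ∧ s / 32 ≤ d ∧ d ≤ 27 * s) ∨ (0 < a ∧ s / 32 ≤ -d ∧ -d ≤ 27 * s)

/-- position after `j` pieces of length `n` -/
noncomputable def TT (X : ℕ → Ω → ℝ) (y : ℝ) (n j : ℕ) (ω : Ω) : ℝ := y + SS X (range (j * n)) ω

/-- the steering event -/
def EE (X : ℕ → Ω → ℝ) (s y : ℝ) (n k : ℕ) : Set Ω :=
  {ω | ∀ j < k, good s (TT X y n j ω) (TT X y n (j + 1) ω - TT X y n j ω)}

/-- on the steering event the walk approaches the origin -/
lemma bound_of_EE {s y : ℝ} (hs : 0 < s) {n k : ℕ} {ω : Ω} (h : ω ∈ EE X s y n k) :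
    ∀ j ≤ k, |TT X y n j ω| ≤ max (|y| - j * (s / 32)) (27 * s) := by
  intro j
  induction j with
  | zero => intro _; simp [TT, SS]
  | succ j ih =>
    intro hj
    have h1 := ih (by omega)
    have h2 := h j (by omega)
    set a := TT X y n j ω
    set c := TT X y n (j + 1) ω
    push_cast
    rcases h2 with ⟨h2, h3, h4⟩ | ⟨h2, h3, h4⟩
    · rcases le_total c 0 with h5 | h5
      · rw [abs_of_nonpos h5]
        rw [abs_of_nonpos h2] at h1
        rcases le_max_iff.1 h1 with h6 | h6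
        · refine le_max_of_le_left ?_; linarith
        · refine le_max_of_le_right ?_; linarith
      · rw [abs_of_nonneg h5]
        refine le_max_of_le_right ?_; linarith
    · rcases le_total c 0 with h5 | h5
      · rw [abs_of_nonpos h5]
        refine le_max_of_le_right ?_; linarith
      · rw [abs_of_nonneg h5]
        rw [abs_of_pos h2] at h1
        rcases le_max_iff.1 h1 with h6 | h6
        · refine le_max_of_le_left ?_; linarith
        · refine le_max_of_le_right ?_; linarith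

lemma measurable_TT (hm : ∀ i, Measurable (X i)) (y : ℝ) (n j : ℕ) : Measurable (TT X y n j) :=
  measurable_const.add (measurable_SS hm _)

/-- partial sums as functions of a tuple -/
noncomputable def ww (y : ℝ) (n m j : ℕ) (t : ↥(range m) → ℝ) : ℝ :=
  y + ∑ i : ↥(range m), if (i : ℕ) < j * n then t i else 0

lemma measurable_ww (y : ℝ) (n m j : ℕ) : Measurable (ww y n m j) := by
  unfold ww
  refine measurable_const.add (Finset.measurable_sum _ fun i _ => ?_)
  by_cases h : (i : ℕ) < j * n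
  · simp only [h, if_true]; exact measurable_pi_apply i
  · simp only [h, if_false]; exact measurable_const

lemma ww_eq (y : ℝ) (n k j : ℕ) (hj : j ≤ k) (ω : Ω) :
    ww y n (k * n) j (fun i : ↥(range (k * n)) => X i ω) = TT X y n j ω := by
  unfold ww TT SS
  congr 1
  rw [Finset.sum_coe_sort (range (k * n)) (fun i => if i < j * n then X i ω else 0),
    ← Finset.sum_filter]
  congr 1
  ext i
  simp only [mem_filter, mem_range]
  have : j * n ≤ k * n := Nat.mul_le_mul_right n hj
  omega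

lemma measurableSet_good {α : Type*} [MeasurableSpace α] {s : ℝ} {f g : α → ℝ} (hf : Measurable f)
    (hg : Measurable g) : MeasurableSet {t | good s (f t) (g t)} := by
  unfold good
  exact (((measurableSet_le hf measurable_const).inter
    ((measurableSet_le measurable_const hg).inter (measurableSet_le hg measurable_const))).union
    ((measurableSet_lt measurable_const hf).inter
    ((measurableSet_le measurable_const hg.neg).inter (measurableSet_le hg.neg measurable_const))))

/-- **steering**: `k` pieces of `n` steps, `s² = n v ≥ b²`. -/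
theorem steer (hind : iIndepFun X P) (hm : ∀ i, Measurable (X i)) {b v : ℝ}
    (hb : ∀ i ω, |X i ω| ≤ b) (h1 : ∀ i, ∫ ω, X i ω ∂P = 0)
    (h2 : ∀ i, ∫ ω, X i ω ^ 2 ∂P = v) (n : ℕ) {s : ℝ} (hs : 0 < s)
    (hsn : s ^ 2 = n * v) (hbs : b ^ 2 ≤ s ^ 2) (y : ℝ) (k : ℕ) :
    (1 / 1024) ^ k ≤ P.real (EE X s y n k) := by
  induction k with
  | zero => simp [EE]
  | succ k ih =>
    set I := Ico (k * n) ((k + 1) * n) with hI
    have hcard : #I = n := by rw [hI, Nat.card_Ico, add_mul, one_mul]; omega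
    have hZ : ∀ ω, TT X y n (k + 1) ω - TT X y n k ω = SS X I ω := by
      intro ω
      unfold TT SS
      rw [hI, add_sub_add_left_eq_sub, Finset.sum_Ico_eq_sub _ (Nat.mul_le_mul_right n k.le_succ)]
    have hdis : Disjoint (range (k * n)) I := by
      rw [hI, Finset.disjoint_left]
      intro i hi hi'
      rw [mem_range] at hi
      rw [mem_Ico] at hi'
      omega
    have hindF := hind.indepFun_finset (range (k * n)) I hdis hm
    -- the two halves of the past
    have hpm : ∀ j, Measurable (ww y n (k * n) j) := fun j => measurable_ww y n (k * n) j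
    set C : Set (↥(range (k * n)) → ℝ) :=
      {t | ∀ j < k, good s (ww y n (k * n) j t) (ww y n (k * n) (j + 1) t - ww y n (k * n) j t)}
      with hC
    have hCm : MeasurableSet C := by
      have : C = ⋂ j, ⋂ _ : j < k, {t | good s (ww y n (k * n) j t)
          (ww y n (k * n) (j + 1) t - ww y n (k * n) j t)} := by
        ext t; simp [hC]
      rw [this]
      exact MeasurableSet.iInter fun j => MeasurableSet.iInter fun _ =>
        measurableSet_good (hpm j) ((hpm (j + 1)).sub (hpm j))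
    have hCE : ∀ ω, ((fun i : ↥(range (k * n)) => X i ω) ∈ C) ↔ ω ∈ EE X s y n k := by
      intro ω
      simp only [hC, EE, Set.mem_setOf_eq]
      refine forall_congr' fun j => ⟨fun h hj => ?_, fun h hj => ?_⟩
      · have := h hj
        rwa [ww_eq y n k j hj.le, ww_eq y n k (j + 1) hj] at this
      · rw [ww_eq y n k j hj.le, ww_eq y n k (j + 1) hj]
        exact h hj
    set A₁ := C ∩ {t | ww y n (k * n) k t ≤ 0} with hA₁
    set A₂ := C ∩ {t | 0 < ww y n (k * n) k t} with hA₂
    have hA₁m : MeasurableSet A₁ := hCm.inter (measurableSet_le (hpm k) measurable_const)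
    have hA₂m : MeasurableSet A₂ := hCm.inter (measurableSet_lt measurable_const (hpm k))
    set sm : (I → ℝ) → ℝ := fun t => ∑ i, t i with hsm
    have hsmm : Measurable sm := Finset.measurable_sum _ fun i _ => measurable_pi_apply i
    have hsme : ∀ ω, sm (fun i : I => X i ω) = SS X I ω := by
      intro ω
      rw [hsm]
      exact Finset.sum_coe_sort I (fun i => X i ω)
    set B₁ : Set (I → ℝ) := {t | s / 32 ≤ sm t ∧ sm t ≤ 27 * s} with hB₁
    set B₂ : Set (I → ℝ) := {t | s / 32 ≤ -sm t ∧ -sm t ≤ 27 * s} with hB₂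
    have hB₁m : MeasurableSet B₁ :=
      (measurableSet_le measurable_const hsmm).inter (measurableSet_le hsmm measurable_const)
    have hB₂m : MeasurableSet B₂ :=
      (measurableSet_le measurable_const hsmm.neg).inter
        (measurableSet_le hsmm.neg measurable_const)
    set F : Ω → ↥(range (k * n)) → ℝ := fun ω i => X i ω with hF
    set G : Ω → I → ℝ := fun ω i => X i ω with hG
    have hFm : Measurable F := measurable_pi_lambda _ fun i => hm i
    have hGm : Measurable G := measurable_pi_lambda _ fun i => hm i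
    have hi₁ : P.real (F ⁻¹' A₁ ∩ G ⁻¹' B₁) = P.real (F ⁻¹' A₁) * P.real (G ⁻¹' B₁) := by
      rw [measureReal_def, measureReal_def, measureReal_def,
        hindF.measure_inter_preimage_eq_mul A₁ B₁ hA₁m hB₁m, ENNReal.toReal_mul]
    have hi₂ : P.real (F ⁻¹' A₂ ∩ G ⁻¹' B₂) = P.real (F ⁻¹' A₂) * P.real (G ⁻¹' B₂) := by
      rw [measureReal_def, measureReal_def, measureReal_def,
        hindF.measure_inter_preimage_eq_mul A₂ B₂ hA₂m hB₂m, ENNReal.toReal_mul]
    have hp₁ : 1 / 1024 ≤ P.real (G ⁻¹' B₁) := by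
      have h := piece hind hm hb h1 h2 I hs (by rw [hcard, hsn]) hbs
      refine h.trans (le_of_eq ?_)
      congr 1
      ext ω
      simp only [Set.mem_setOf_eq, Set.mem_preimage, hB₁, hG, hsme]
    have hp₂ : 1 / 1024 ≤ P.real (G ⁻¹' B₂) := by
      have hind' : iIndepFun (fun i ω => -X i ω) P :=
        hind.comp (fun _ x => -x) fun _ => measurable_neg
      have h := piece (X := fun i ω => -X i ω) hind' (fun i => (hm i).neg)
        (fun i ω => by rw [abs_neg]; exact hb i ω) (fun i => by rw [integral_neg, h1, neg_zero])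
        (fun i => by simp only [neg_sq]; exact h2 i) I hs (by rw [hcard, hsn]) hbs
      refine h.trans (le_of_eq ?_)
      congr 1
      ext ω
      have e : SS (fun i ω => -X i ω) I ω = -SS X I ω := by
        unfold SS; rw [Finset.sum_neg_distrib]
      simp only [Set.mem_setOf_eq, Set.mem_preimage, hB₂, hG, hsme, e]
    have hsplit : P.real (EE X s y n k) = P.real (F ⁻¹' A₁) + P.real (F ⁻¹' A₂) := by
      rw [← measureReal_union]
      · congr 1
        ext ω
        simp only [Set.mem_union, Set.mem_preimage, hA₁, hA₂, Set.mem_inter_iff, Set.mem_setOf_eq]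
        have h3 := hCE ω
        rw [← h3]
        constructor
        · intro h
          rcases le_or_gt (ww y n (k * n) k (F ω)) 0 with h4 | h4
          · exact Or.inl ⟨h, h4⟩
          · exact Or.inr ⟨h, h4⟩
        · rintro (⟨h, _⟩ | ⟨h, _⟩) <;> exact h
      · rw [Set.disjoint_left]
        intro ω h h'
        have g1 : ww y n (k * n) k (F ω) ≤ 0 := h.2
        have g2 : 0 < ww y n (k * n) k (F ω) := h'.2
        exact absurd g1 (not_le.2 g2)
      · exact hFm hA₂m
    have hsub : (F ⁻¹' A₁ ∩ G ⁻¹' B₁) ∪ (F ⁻¹' A₂ ∩ G ⁻¹' B₂) ⊆ EE X s y n (k + 1) := by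
      rintro ω (⟨⟨h3, h4⟩, h5⟩ | ⟨⟨h3, h4⟩, h5⟩)
      · intro j hj
        rcases Nat.lt_succ_iff_lt_or_eq.1 hj with hj | rfl
        · exact (hCE ω).1 h3 j hj
        · left
          simp only [Set.mem_setOf_eq] at h4
          simp only [hB₁, hG, Set.mem_preimage, Set.mem_setOf_eq, hsme] at h5
          rw [hZ]
          rw [show ww y n (j * n) j (F ω) = TT X y n j ω from ww_eq y n j j le_rfl ω] at h4
          exact ⟨h4, h5⟩
      · intro j hj
        rcases Nat.lt_succ_iff_lt_or_eq.1 hj with hj | rfl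
        · exact (hCE ω).1 h3 j hj
        · right
          simp only [Set.mem_setOf_eq] at h4
          simp only [hB₂, hG, Set.mem_preimage, Set.mem_setOf_eq, hsme] at h5
          rw [hZ]
          rw [show ww y n (j * n) j (F ω) = TT X y n j ω from ww_eq y n j j le_rfl ω] at h4
          exact ⟨h4, h5⟩
    have hun : P.real (F ⁻¹' A₁ ∩ G ⁻¹' B₁) + P.real (F ⁻¹' A₂ ∩ G ⁻¹' B₂) ≤
        P.real (EE X s y n (k + 1)) := by
      rw [← measureReal_union]
      · exact measureReal_mono hsub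
      · rw [Set.disjoint_left]
        intro ω h h'
        have g1 : ww y n (k * n) k (F ω) ≤ 0 := h.1.2
        have g2 : 0 < ww y n (k * n) k (F ω) := h'.1.2
        exact absurd g1 (not_le.2 g2)
      · exact (hFm hA₂m).inter (hGm hB₂m)
    calc (1 / 1024 : ℝ) ^ (k + 1) = (1 / 1024) ^ k * (1 / 1024) := pow_succ _ _
      _ ≤ P.real (EE X s y n k) * (1 / 1024) := by
          exact mul_le_mul_of_nonneg_right ih (by norm_num)
      _ = P.real (F ⁻¹' A₁) * (1 / 1024) + P.real (F ⁻¹' A₂) * (1 / 1024) := by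
          rw [hsplit, add_mul]
      _ ≤ P.real (F ⁻¹' A₁) * P.real (G ⁻¹' B₁) + P.real (F ⁻¹' A₂) * P.real (G ⁻¹' B₂) :=
          add_le_add (mul_le_mul_of_nonneg_left hp₁ measureReal_nonneg)
            (mul_le_mul_of_nonneg_left hp₂ measureReal_nonneg)
      _ = P.real (F ⁻¹' A₁ ∩ G ⁻¹' B₁) + P.real (F ⁻¹' A₂ ∩ G ⁻¹' B₂) := by rw [hi₁, hi₂]
      _ ≤ _ := hun

end Steer

end Crest.Agent.R154.Mob927
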