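import Crest.Agent.R154.LateBind_872

/-! Row 154, B8, TILE (748 #29593): confined natural climbs of the marked walk and the single tile.
Part A: the confined kernel. -/

set_option autoImplicit false
set_option linter.unusedSectionVars false
set_option linter.deprecated false

namespace Crest.Agent.R154.Tile872

open MeasureTheory ProbabilityTheory Set Filter Crest.ProbabilityR.RandomEnvironment
open Crest.Agent.R154.Ren263 (Det)
open Crest.Agent.R154.Mk561 Crest.Agent.R154.Q561
open Crest.Agent.R154.Flux132 (lev)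
open Crest.Agent.R154.B6I (Hit bf Alv Eqv Nt zt SP PP Om NoC tip th Al Dt PSm PIm ct)
open Crest.Agent.R154.RatioR872
open scoped ENNReal

variable {d : ℕ}

/-- **confined natural climb** from `x` to the level `b`, level `b` hit first at time `m`, all the
positions before time `m` in the corridor `C` -/
def CfM (u : Step d) (R : ℕ) (C : Set (Site d)) (x : Site d) (b : ℤ) (m : ℕ) : Set (MPath d) :=
  {M | M ∈ ClM u R x b m ∧ ∀ i < m, pos x M i ∈ C}

/-- ... with exit site `y` -/
def CfY (u : Step d) (R : ℕ) (C : Set (Site d)) (x : Site d) (b : ℤ) (m : ℕ) (y : Site d) :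
    Set (MPath d) := {M | M ∈ CfM u R C x b m ∧ pos x M m = y}

def Cf (u : Step d) (R : ℕ) (C : Set (Site d)) (x : Site d) (b : ℤ) (y : Site d) :
    Set (MPath d) := ⋃ m, CfY u R C x b m y

/-- ... with exit site in the target `T` -/
def CfT (u : Step d) (R : ℕ) (C : Set (Site d)) (x : Site d) (b : ℤ) (T : Set (Site d)) :
    Set (MPath d) := ⋃ m, {M | M ∈ CfM u R C x b m ∧ pos x M m ∈ T}

section sets

variable (u : Step d) (R : ℕ) (C : Set (Site d))

lemma det_CfM (x : Site d) (b : ℤ) (m : ℕ) : Det m (CfM u R C x b m) := by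
  intro s s' h
  have hp : ∀ i ≤ m, pos x s i = pos x s' i := fun i hi => pos_congr x h hi
  unfold CfM
  simp only [mem_setOf_eq]
  rw [det_ClM u R x b m s s' h]
  refine and_congr Iff.rfl ?_
  refine forall_congr' fun i => forall_congr' fun hi => ?_
  rw [hp i hi.le]

lemma det_CfY (x : Site d) (b : ℤ) (m : ℕ) (y : Site d) : Det m (CfY u R C x b m y) := by
  intro s s' h
  have hp : pos x s m = pos x s' m := pos_congr x h le_rfl
  unfold CfY
  simp only [mem_setOf_eq]
  rw [det_CfM u R C x b m s s' h, hp]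

lemma meas_CfY (x : Site d) (b : ℤ) (m : ℕ) (y : Site d) : MeasurableSet (CfY u R C x b m y) :=
  (det_CfY u R C x b m y).measurableSet

lemma meas_Cf (x : Site d) (b : ℤ) (y : Site d) : MeasurableSet (Cf u R C x b y) :=
  MeasurableSet.iUnion fun m => meas_CfY u R C x b m y

lemma CfT_eq (x : Site d) (b : ℤ) (T : Set (Site d)) :
    CfT u R C x b T = ⋃ y : T, Cf u R C x b y := by
  ext M
  simp only [CfT, Cf, CfY, mem_iUnion, mem_setOf_eq, Subtype.exists, exists_prop]
  constructor
  · rintro ⟨m, h1, h2⟩; exact ⟨_, h2, m, h1, rfl⟩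
  · rintro ⟨y, hy, m, h1, h2⟩; exact ⟨m, h1, h2 ▸ hy⟩

lemma meas_CfT (x : Site d) (b : ℤ) (T : Set (Site d)) : MeasurableSet (CfT u R C x b T) := by
  rw [CfT_eq]
  exact MeasurableSet.iUnion fun y => meas_Cf u R C x b y

lemma Cf_subset (x : Site d) (b : ℤ) (y : Site d) : Cf u R C x b y ⊆ Cl u R x b y :=
  iUnion_subset fun m M hM => mem_iUnion.2 ⟨m, hM.1.1, hM.2⟩

lemma CfT_subset (x : Site d) (b : ℤ) (T : Set (Site d)) : CfT u R C x b T ⊆ ClA u R x b :=
  iUnion_subset fun m M hM => mem_iUnion.2 ⟨m, hM.1.1⟩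

lemma disj_CfY (x : Site d) (b : ℤ) (y : Site d) :
    Pairwise (Function.onFun Disjoint fun m => CfY u R C x b m y) := by
  intro m m' hne
  rw [Function.onFun, Set.disjoint_left]
  intro M h h'
  exact hne (ClM_unique u R h.1.1 h'.1.1)

lemma disj_Cf (x : Site d) (b : ℤ) :
    Pairwise (Function.onFun Disjoint fun y => Cf u R C x b y) := by
  intro y y' hne
  exact (disj_Cl u R x b hne).mono (Cf_subset u R C x b y) (Cf_subset u R C x b y')

lemma CfM_read (x : Site d) (b : ℤ) (m : ℕ) :
    CfM u R C x b m ⊆ RdB {z | z ∈ C ∧ lev u x + R ≤ lev u z ∧ lev u z < b} x m := by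
  rintro M ⟨hM, hC⟩ i hi hf
  exact ⟨hC i hi, ClM_read u R x b m hM i hi hf⟩

/-- confined climbs are decided before the first hit of level `n` -/
lemma CfT_eqv {x : Site d} {n : ℕ} {T : Set (Site d)} {M M' : MPath d} (h : Eqv u n M M')
    (hM : M ∈ CfT u R C x (lev u x + n) T) : M' ∈ CfT u R C x (lev u x + n) T := by
  obtain ⟨m, ⟨h1, h2⟩, h3⟩ := mem_iUnion.1 hM
  obtain ⟨g1, g2⟩ := (mem_ClM_iff u R).1 h1
  have hag := h.agree g1
  have hp : ∀ i ≤ m, pos x M i = pos x M' i := fun i hi => pos_congr x hag hi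
  refine mem_iUnion.2 ⟨m, ⟨(mem_ClM_iff u R).2 ⟨h.hit g1, h.nt (Nat.zero_le _) g2⟩, ?_⟩, ?_⟩
  · intro i hi
    rw [← hp i hi.le]; exact h2 i hi
  · rw [← hp m le_rfl]; exact h3

lemma CfT_nt {x : Site d} {n : ℕ} {T : Set (Site d)} {M : MPath d}
    (hM : M ∈ CfT u R C x (lev u x + n) T) : Nt u R 0 n M := by
  have := CfT_subset u R C x _ T hM
  rw [ClA_eq] at this
  exact this

end sets

section kernel

variable (u : Step d) (R : ℕ) (κ : ℝ) (C : Set (Site d))

/-- quenched mass of the confined natural climb from `x` to level `b` with exit site `y` -/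
noncomputable def gc (b : ℤ) (ω : Environment d) (x y : Site d) : ℝ≥0∞ :=
  mkLaw κ ω x (Cf u R C x b y)

/-- quenched mass of the confined natural climb from `x` to level `b` with exit in `T` -/
noncomputable def gT (b : ℤ) (T : Set (Site d)) (ω : Environment d) (x : Site d) : ℝ≥0∞ :=
  mkLaw κ ω x (CfT u R C x b T)

lemma gc_le_gk (b : ℤ) (ω : Environment d) (x y : Site d) :
    gc u R κ C b ω x y ≤ gk u R κ b ω x y := measure_mono (Cf_subset u R C x b y)

lemma gT_le_one (b : ℤ) (T : Set (Site d)) (ω : Environment d) (x : Site d) :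
    gT u R κ C b T ω x ≤ 1 := prob_le_one

lemma gT_eq (b : ℤ) (T : Set (Site d)) (ω : Environment d) (x : Site d) :
    gT u R κ C b T ω x = ∑' y, T.indicator (gc u R κ C b ω x) y := by
  unfold gT
  rw [CfT_eq, measure_iUnion (f := fun y : T => Cf u R C x b (y : Site d))
    (fun y y' hne => disj_Cf u R C x b (fun h => hne (Subtype.ext h)))
    (fun y => meas_Cf u R C x b y), ← tsum_subtype T (gc u R κ C b ω x)]
  rfl

lemma gc_eq_tsum (b : ℤ) (ω : Environment d) (x y : Site d) :
    gc u R κ C b ω x y = ∑' m, mkLaw κ ω x (CfY u R C x b m y) :=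
  measure_iUnion (disj_CfY u R C x b y) fun m => meas_CfY u R C x b m y

lemma measurable_gc (b : ℤ) (x y : Site d) : Measurable fun ω => gc u R κ C b ω x y :=
  measurable_mk_apply κ x (meas_Cf u R C x b y)

lemma locOn_gc (b : ℤ) (x y : Site d) :
    LocOn {z | z ∈ C ∧ lev u x + R ≤ lev u z ∧ lev u z < b} fun ω => gc u R κ C b ω x y := by
  intro ω ω' h
  simp only [gc_eq_tsum]
  refine tsum_congr fun m => ?_
  exact mk_local_det κ h x (det_CfY u R C x b m y) fun M hM => CfM_read u R C x b m hM.1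

/-- the slab of the corridor -/
def slab (u : Step d) (R : ℕ) (C : Set (Site d)) (a b : ℤ) : Set (Site d) :=
  {z | z ∈ C ∧ a + R ≤ lev u z ∧ lev u z < b}

lemma meas_gc {a : ℤ} (b : ℤ) (x y : Site d) (hx : lev u x = a) :
    Measurable[coordSigmaAlgebra (slab u R C a b)] fun ω => gc u R κ C b ω x y := by
  refine measurable_coord (measurable_gc u R κ C b x y) ?_
  have := locOn_gc u R κ C b x y
  rw [hx] at this
  exact this

end kernel

end Crest.Agent.R154.Tile872
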