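import Crest.Agent.R154.ColsA_220
import Crest.Agent.R154.TileA_872

/-! Row 154, d ≥ 3, HM2 of 263's HOME MASS route: the negative moment of the confined mass of a
point, uniformly in the height of the early phase. -/

set_option autoImplicit false
set_option linter.unusedSectionVars false
set_option linter.deprecated false

namespace Crest.Agent.R154.Mom220

open MeasureTheory ProbabilityTheory Set Filter Crest.ProbabilityR.RandomEnvironment
open Crest.Agent.R154.Ren263 hiding lev
open Crest.Agent.R154.Mk561 Crest.Agent.R154.Q561 Crest.Agent.R154.RatioR872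
open Crest.Agent.R154.Cols220
open Crest.Agent.R154.Flux132 (lev lev_add lev_neg lev_zero)
open scoped ENNReal

variable {d : ℕ}

/-- box of radius `D` -/
def bl (D : ℕ) (x : Site d) : Set (Site d) := {z | ∀ i, |z i - x i| ≤ (D : ℤ)}

/-- confined mass, box form (872's confined kernel) -/
noncomputable def Nc (u : Step d) (R : ℕ) (κ : ℝ) (D : ℕ) (b : ℤ) (ω : Environment d)
    (x : Site d) : ℝ≥0∞ := ∑' y, Tile872.gc u R κ (bl D x) b ω x y

lemma ClM_low (u : Step d) (R : ℕ) {x : Site d} {b : ℤ} {m : ℕ} {M : MPath d}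
    (h : M ∈ ClM u R x b m) {i : ℕ} (hi : i ≤ m) : lev u x ≤ lev u (pos x M i) := by
  obtain ⟨_, _, h3, h4⟩ := h
  by_cases hR : R ≤ i
  · have := h4 i hR hi
    omega
  · have hup : ∀ k, k ≤ i → lev u (pos x M k) = lev u x + k := by
      intro k
      induction k with
      | zero => intro _; simp [pos_zero]
      | succ k ih =>
        intro hk
        have e1 := ih (by omega)
        have e2 : M k = (u, true) := h3 k (by omega) (by omega)
        rw [pos_succ, lev_add, e1, e2]
        have : lev u (stp ((u, true) : Mark d)) = 1 := Flux132.lev_step_self u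
        rw [this]
        push_cast
        ring
    rw [hup i le_rfl]
    omega

lemma ClMr_sub_CfM (u : Step d) (R r D : ℕ) (x : Site d) (n m : ℕ) (hr : r ≤ D) (hn : n ≤ D) :
    ClMr u R r x (lev u x + n) m ⊆ Tile872.CfM u R (bl D x) x (lev u x + n) m := by
  rintro M ⟨h1, h2⟩
  refine ⟨h1, fun i hi j => ?_⟩
  by_cases hj : j = u.1
  · have hl := ClM_low u R h1 hi.le
    have hu := h1.2.1 i hi
    subst hj
    unfold lev at hl hu
    split_ifs at hl hu <;> rw [abs_le] <;> constructor <;> omega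
  · exact (h2 i hi.le j hj).trans (by exact_mod_cast hr)

lemma nc_le_Nc (u : Step d) (R r D : ℕ) (κ : ℝ) (x : Site d) (n : ℕ) (hr : r ≤ D) (hn : n ≤ D)
    (ω : Environment d) :
    nc u R r κ (lev u x + n) ω x ≤ Nc u R κ D (lev u x + n) ω x := by
  unfold nc Nc Tile872.gc
  rw [← measure_iUnion (Tile872.disj_Cf u R (bl D x) x _) fun y => Tile872.meas_Cf u R _ x _ y]
  refine measure_mono ?_
  refine iUnion_subset fun m M hM => ?_
  exact mem_iUnion.2 ⟨pos x M m, mem_iUnion.2 ⟨m, ClMr_sub_CfM u R r D x n m hr hn hM, rfl⟩⟩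

section tail

variable (u : Step d) (R : ℕ) (κ : ℝ) (Q : Measure (Environment d)) [IsProbabilityMeasure Q]

/-- the rate of a point (582) -/
def Rate (lam0 C : ℝ) : Prop := ∀ (x : Site d) (n : ℕ) (t : ℝ), 0 ≤ t →
  Q {ω | ∑' y, gk u R κ (lev u x + n) ω x y ≤ ENNReal.ofReal (Real.exp (-t))}
    ≤ ENNReal.ofReal (C * Real.exp (-(lam0 * t)))

/-- **confined tail** -/
lemma tail (hstat : ∀ z : Site d, MeasurePreserving (shiftEnv z) Q Q) (hk : 0 < kf d κ)
    {lam0 C : ℝ} (hl : 0 < lam0) (hC : 1 ≤ C) (hrate : Rate u R κ Q lam0 C) (n : ℕ) :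
    ∃ r0, ∀ r, r0 ≤ r → ∀ (x : Site d) (t : ℝ), 0 ≤ t →
      Q {ω | nc u R r κ (lev u x + n) ω x ≤ ENNReal.ofReal (Real.exp (-t))}
        ≤ ENNReal.ofReal ((C * 2 ^ lam0 + 1) * Real.exp (-(lam0 * t))) := by
  set c0 : ℝ := kf d κ ^ n with hc0
  have hc0p : 0 < c0 := pow_pos hk n
  have hε : ENNReal.ofReal (c0 ^ (1 + lam0)) ≠ 0 := by
    rw [Ne, ENNReal.ofReal_eq_zero, not_le]
    exact Real.rpow_pos_of_pos hc0p _
  obtain ⟨r0, hr0⟩ := range u R κ Q hstat n hε
  refine ⟨r0, fun r hr x t ht => ?_⟩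
  by_cases hsm : Real.exp (-t) < c0
  · have : {ω | nc u R r κ (lev u x + n) ω x ≤ ENNReal.ofReal (Real.exp (-t))} = ∅ := by
      rw [Set.eq_empty_iff_forall_notMem]
      intro ω hω
      have h1 := floor u R r κ x n ω
      have h2 := h1.trans hω
      rw [← ENNReal.ofReal_pow (kf_nonneg κ)] at h2
      have h3 := (ENNReal.ofReal_le_ofReal_iff (Real.exp_pos _).le).1 h2
      exact absurd hsm (not_lt.2 h3)
    rw [this, measure_empty]
    exact zero_le
  · rw [not_lt] at hsm
    have hex : 0 < Real.exp (-t) := Real.exp_pos _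
    -- split
    have hsub : {ω | nc u R r κ (lev u x + n) ω x ≤ ENNReal.ofReal (Real.exp (-t))}
        ⊆ {ω | ∑' y, gk u R κ (lev u x + n) ω x y ≤ ENNReal.ofReal (Real.exp (-(t - Real.log 2)))}
          ∪ {ω | ENNReal.ofReal (Real.exp (-t)) ≤
              (∑' y, gk u R κ (lev u x + n) ω x y) - nc u R r κ (lev u x + n) ω x} := by
      intro ω hω
      by_cases h : ∑' y, gk u R κ (lev u x + n) ω x y
          ≤ ENNReal.ofReal (Real.exp (-(t - Real.log 2)))
      · exact Or.inl h
      · refine Or.inr ?_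
        rw [not_le] at h
        have e : ENNReal.ofReal (Real.exp (-(t - Real.log 2)))
            = ENNReal.ofReal (Real.exp (-t)) + ENNReal.ofReal (Real.exp (-t)) := by
          rw [← ENNReal.ofReal_add hex.le hex.le]
          congr 1
          rw [neg_sub, sub_eq_add_neg, Real.exp_add, Real.exp_log (by norm_num)]
          ring
        rw [e] at h
        change ENNReal.ofReal (Real.exp (-t)) ≤ _
        have h5 : nc u R r κ (lev u x + n) ω x ≤ ENNReal.ofReal (Real.exp (-t)) := hω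
        refine ENNReal.le_sub_of_add_le_right ?_ ?_
        · exact ne_top_of_le_ne_top ENNReal.ofReal_ne_top h5
        · exact (add_le_add le_rfl h5).trans h.le
    refine (measure_mono hsub).trans ((measure_union_le _ _).trans ?_)
    have hA : Q {ω | ∑' y, gk u R κ (lev u x + n) ω x y
        ≤ ENNReal.ofReal (Real.exp (-(t - Real.log 2)))}
        ≤ ENNReal.ofReal (C * 2 ^ lam0 * Real.exp (-(lam0 * t))) := by
      by_cases ht2 : Real.log 2 ≤ t
      · refine (hrate x n (t - Real.log 2) (by linarith)).trans ?_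
        refine ENNReal.ofReal_le_ofReal (le_of_eq ?_)
        have e2 : (2 : ℝ) ^ lam0 = Real.exp (lam0 * Real.log 2) := by
          rw [Real.rpow_def_of_pos (by norm_num), mul_comm]
        rw [e2, mul_assoc, ← Real.exp_add]
        congr 2
        ring
      · refine prob_le_one.trans ?_
        rw [← ENNReal.ofReal_one]
        refine ENNReal.ofReal_le_ofReal ?_
        have e2 : (2 : ℝ) ^ lam0 = Real.exp (lam0 * Real.log 2) := by
          rw [Real.rpow_def_of_pos (by norm_num), mul_comm]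
        rw [e2, mul_assoc, ← Real.exp_add]
        have : 1 ≤ Real.exp (lam0 * Real.log 2 + -(lam0 * t)) := by
          rw [← Real.exp_zero]
          refine Real.exp_le_exp.2 ?_
          nlinarith [not_le.1 ht2]
        nlinarith
    have hB : Q {ω | ENNReal.ofReal (Real.exp (-t)) ≤
              (∑' y, gk u R κ (lev u x + n) ω x y) - nc u R r κ (lev u x + n) ω x}
        ≤ ENNReal.ofReal (Real.exp (-(lam0 * t))) := by
      have hm : Measurable fun ω => (∑' y, gk u R κ (lev u x + n) ω x y)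
          - nc u R r κ (lev u x + n) ω x := by
        refine Measurable.sub ?_ (measurable_nc u R r κ _ x)
        exact Measurable.ennreal_tsum fun y => measurable_gk u R κ _ x y
      refine (meas_ge_le_lintegral_div hm.aemeasurable ?_ ENNReal.ofReal_ne_top).trans ?_
      · rw [Ne, ENNReal.ofReal_eq_zero, not_le]; exact hex
      refine (ENNReal.div_le_div_right (hr0 r hr x) _).trans ?_
      rw [← ENNReal.ofReal_div_of_pos hex]
      refine ENNReal.ofReal_le_ofReal ?_
      rw [div_le_iff₀ hex, ← Real.exp_add]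
      calc c0 ^ (1 + lam0) ≤ (Real.exp (-t)) ^ (1 + lam0) :=
            Real.rpow_le_rpow hc0p.le hsm (by linarith)
        _ = Real.exp (-(lam0 * t) + -t) := by
            rw [← Real.exp_mul]
            congr 1
            ring
    refine (add_le_add hA hB).trans ?_
    rw [← ENNReal.ofReal_add (by positivity) (Real.exp_pos _).le]
    refine ENNReal.ofReal_le_ofReal (le_of_eq ?_)
    ring

/-- layer cake -/
lemma layer {Ω : Type*} {m0 : MeasurableSpace Ω} {P : Measure Ω} {f : Ω → ℝ≥0∞}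
    (hf : Measurable f) (hf0 : ∀ ω, f ω ≠ 0) (hf1 : ∀ ω, f ω ≤ 1) {lam0 C q : ℝ} (hC : 0 ≤ C)
    (hq : 0 ≤ q)
    (hT : ∀ t : ℝ, 0 ≤ t → P {ω | f ω ≤ ENNReal.ofReal (Real.exp (-t))}
      ≤ ENNReal.ofReal (C * Real.exp (-(lam0 * t)))) :
    ∫⁻ ω, f ω ^ (-q) ∂P
      ≤ ENNReal.ofReal (C * Real.exp q) * (1 - ENNReal.ofReal (Real.exp (-(lam0 - q))))⁻¹ := by
  set E : ℕ → Set Ω := fun n => {ω | f ω ≤ ENNReal.ofReal (Real.exp (-(n : ℝ)))} with hE
  have hEm : ∀ n, MeasurableSet (E n) := fun n => measurableSet_le hf measurable_const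
  have hpt : ∀ ω, f ω ^ (-q) ≤ ∑' n : ℕ,
      (E n).indicator (fun _ => ENNReal.ofReal (Real.exp (q * (n + 1)))) ω := by
    intro ω
    have hft : f ω ≠ ⊤ := ne_top_of_le_ne_top ENNReal.one_ne_top (hf1 ω)
    set y : ℝ := (f ω).toReal with hy
    have hy0 : 0 < y := ENNReal.toReal_pos (hf0 ω) hft
    have hy1 : y ≤ 1 := by
      have := ENNReal.toReal_mono ENNReal.one_ne_top (hf1 ω)
      simpa using this
    have hfy : f ω = ENNReal.ofReal y := (ENNReal.ofReal_toReal hft).symm
    set n : ℕ := ⌊-Real.log y⌋₊ with hn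
    have hlog : 0 ≤ -Real.log y := by
      have := Real.log_nonpos hy0.le hy1
      linarith
    have h1 : (n : ℝ) ≤ -Real.log y := Nat.floor_le hlog
    have h2 : -Real.log y < n + 1 := Nat.lt_floor_add_one _
    have hmem : ω ∈ E n := by
      change f ω ≤ _
      rw [hfy]
      refine ENNReal.ofReal_le_ofReal ?_
      calc y = Real.exp (Real.log y) := (Real.exp_log hy0).symm
        _ ≤ Real.exp (-(n : ℝ)) := Real.exp_le_exp.2 (by linarith)
    have h3 : f ω ^ (-q) ≤ ENNReal.ofReal (Real.exp (q * (n + 1))) := by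
      rw [hfy, ENNReal.ofReal_rpow_of_pos hy0]
      refine ENNReal.ofReal_le_ofReal ?_
      rw [Real.rpow_def_of_pos hy0]
      refine Real.exp_le_exp.2 ?_
      nlinarith
    calc f ω ^ (-q) ≤ (E n).indicator (fun _ => ENNReal.ofReal (Real.exp (q * (n + 1)))) ω := by
          rw [Set.indicator_of_mem hmem]; exact h3
      _ ≤ _ := ENNReal.le_tsum n
  calc ∫⁻ ω, f ω ^ (-q) ∂P
      ≤ ∫⁻ ω, ∑' n : ℕ,
          (E n).indicator (fun _ => ENNReal.ofReal (Real.exp (q * (n + 1)))) ω ∂P :=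
        lintegral_mono hpt
    _ = ∑' n : ℕ, ENNReal.ofReal (Real.exp (q * (n + 1))) * P (E n) := by
        rw [lintegral_tsum fun n => (measurable_const.indicator (hEm n)).aemeasurable]
        refine tsum_congr fun n => ?_
        rw [lintegral_indicator_const (hEm n)]
    _ ≤ ∑' n : ℕ, ENNReal.ofReal (C * Real.exp q) *
          ENNReal.ofReal (Real.exp (-(lam0 - q))) ^ n := by
        refine ENNReal.tsum_le_tsum fun n => ?_
        refine (mul_le_mul_right (hT n (Nat.cast_nonneg n)) _).trans (le_of_eq ?_)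
        rw [← ENNReal.ofReal_mul (Real.exp_pos _).le, ← ENNReal.ofReal_pow (Real.exp_pos _).le,
          ← ENNReal.ofReal_mul (by positivity)]
        congr 1
        rw [← Real.exp_nat_mul, ← mul_assoc, mul_comm (Real.exp (q * (n + 1))) C, mul_assoc,
          ← Real.exp_add, mul_assoc, ← Real.exp_add]
        congr 2
        ring
    _ = _ := by
        rw [ENNReal.tsum_mul_left, ENNReal.tsum_geometric]

/-- **the moment of the confined mass of a point** (letters of `ColsA_220`) -/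
theorem moment_nc (hstat : ∀ z : Site d, MeasurePreserving (shiftEnv z) Q Q) (hk : 0 < kf d κ)
    {lam0 C : ℝ} (hl : 0 < lam0) (hC : 1 ≤ C) (hrate : Rate u R κ Q lam0 C) :
    ∃ K : ℝ≥0∞, K ≠ ⊤ ∧ ∀ n : ℕ, ∃ r0, ∀ r, r0 ≤ r → ∀ x : Site d,
      ∫⁻ ω, nc u R r κ (lev u x + n) ω x ^ (-(lam0 / 2)) ∂Q ≤ K := by
  refine ⟨ENNReal.ofReal ((C * 2 ^ lam0 + 1) * Real.exp (lam0 / 2)) *
    (1 - ENNReal.ofReal (Real.exp (-(lam0 - lam0 / 2))))⁻¹, ?_, fun n => ?_⟩
  · refine ENNReal.mul_ne_top ENNReal.ofReal_ne_top (ENNReal.inv_ne_top.2 ?_)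
    have h1 : Real.exp (-(lam0 - lam0 / 2)) < 1 := by
      rw [Real.exp_lt_one_iff]
      linarith
    have h2 : ENNReal.ofReal (Real.exp (-(lam0 - lam0 / 2))) < 1 := by
      rw [← ENNReal.ofReal_one]
      exact (ENNReal.ofReal_lt_ofReal_iff one_pos).2 h1
    exact (tsub_pos_of_lt h2).ne'
  · obtain ⟨r0, hr0⟩ := tail u R κ Q hstat hk hl hC hrate n
    refine ⟨r0, fun r hr x => ?_⟩
    refine layer (measurable_nc u R r κ _ x) (fun ω h0 => ?_) (fun ω => nc_le_one u R r κ _ ω x)
      (by positivity) (by linarith) (hr0 r hr x)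
    have h1 := floor u R r κ x n ω
    rw [h0] at h1
    have h2 : (0 : ℝ≥0∞) < ENNReal.ofReal (kf d κ) ^ n :=
      pos_iff_ne_zero.2 (pow_ne_zero n (by rw [Ne, ENNReal.ofReal_eq_zero, not_le]; exact hk))
    exact absurd h1 (not_le.2 h2)

/-- **the moment of the confined mass of a point** (letters of `Tile872.gc`, boxes) -/
theorem moment (hstat : ∀ z : Site d, MeasurePreserving (shiftEnv z) Q Q) (hk : 0 < kf d κ)
    {lam0 C : ℝ} (hl : 0 < lam0) (hC : 1 ≤ C) (hrate : Rate u R κ Q lam0 C) :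
    ∃ θ : ℝ, 0 < θ ∧ ∃ K : ℝ≥0∞, K ≠ ⊤ ∧ ∀ s1 : ℕ, ∃ D0 : ℕ, ∀ D, D0 ≤ D →
      ∀ (a : ℤ) (x : Site d), lev u x = a →
        ∫⁻ ω, Nc u R κ D (a + s1) ω x ^ (-(2 * θ)) ∂Q ≤ K := by
  obtain ⟨K, hK, h⟩ := moment_nc u R κ Q hstat hk hl hC hrate
  refine ⟨lam0 / 4, by linarith, K, hK, fun s1 => ?_⟩
  obtain ⟨r0, hr0⟩ := h s1
  refine ⟨max r0 s1, fun D hD a x hx => ?_⟩
  subst hx
  refine le_trans (lintegral_mono fun ω => ?_) (hr0 D ((le_max_left _ _).trans hD) x)
  have e : -(2 * (lam0 / 4)) = -(lam0 / 2) := by ring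
  change Nc u R κ D (lev u x + s1) ω x ^ (-(2 * (lam0 / 4))) ≤ _
  rw [e, ENNReal.rpow_neg, ENNReal.rpow_neg]
  refine ENNReal.inv_le_inv.2 (ENNReal.rpow_le_rpow ?_ (by linarith))
  exact nc_le_Nc u R D D κ x s1 le_rfl ((le_max_right _ _).trans hD) ω

end tail

end Crest.Agent.R154.Mom220
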