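import Crest.Agent.R154.MobL_437

/-!
Row 154, HOME MASS (HM6 / HM8): the widths `wl` of 437 are monotone up to a factor `3` in the level
(no divisibility), and the growth contained in "octave not regular" (helper797).
-/

set_option autoImplicit false
set_option linter.unusedSectionVars false
set_option linter.unusedVariables false

namespace Crest.Agent.R154.Mono797

open MeasureTheory Filter Set Crest.Agent.R154.B4 Crest.Agent.R154.MobW437
open scoped ENNReal Topology ComplexConjugate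

variable {Ω : Type*} [mΩ : MeasurableSpace Ω] {P : Measure Ω} [IsProbabilityMeasure P]

/-- **Monotonicity of the edge**: `tl l' ≤ tl l` for every `l' ≥ 3 l`, `l ≥ l₀`. -/
theorem tl_anti (L : LP P) (i : Fin 2) : ∃ l0, ∀ l, l0 ≤ l → ∀ l', 3 * l ≤ l' → tl L i l' ≤ tl L i l := by
  obtain ⟨δ, hδ, hδ'⟩ := L.t1 (1 / 3000) (by norm_num)
  obtain ⟨l0, hl0⟩ := tl_small L i (δ := min δ 1) (by positivity) (min_le_right _ _)
  refine ⟨l0, fun l hl l' hl' => ?_⟩
  have hll : l0 ≤ l' := by omega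
  refine le_tl (tl_nonneg _ _ _) (tl_le_one _ _ _) fun s hs => ?_
  have hsδ : ‖s • ev i‖ ≤ δ := by
    rw [norm_ev]
    exact hs.trans ((hl0 _ hll).le.trans (min_le_left _ _))
  set θ := s • ev i with hθ
  obtain ⟨m, rfl⟩ : ∃ m, l' = l + (l + (l + m)) := ⟨l' - 3 * l, by omega⟩
  have h1 := (hδ' l (l + (l + m)) θ hsδ).1
  have h2 := (hδ' l (l + m) θ hsδ).1
  have h3 := (hδ' l m θ hsδ).1
  set x := L.chi l θ with hx
  have hx1 : ‖x‖ ≤ 1 := norm_cfr_le_one L _ _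
  have hm1 : ‖L.chi m θ‖ ≤ 1 := norm_cfr_le_one L _ _
  have hx0 : 0 ≤ ‖x‖ := norm_nonneg _
  have a3 : ‖L.chi (l + m) θ‖ ≤ ‖x‖ + 1 / 3000 := by
    have e : L.chi (l + m) θ = (L.chi (l + m) θ - x * L.chi m θ) + x * L.chi m θ := by ring
    rw [e]
    refine (norm_add_le _ _).trans ?_
    rw [norm_mul]
    have : ‖x‖ * ‖L.chi m θ‖ ≤ ‖x‖ * 1 := mul_le_mul_of_nonneg_left hm1 hx0
    linarith
  have a2 : ‖L.chi (l + (l + m)) θ‖ ≤ ‖x‖ ^ 2 + 2 / 3000 := by
    have e : L.chi (l + (l + m)) θ = (L.chi (l + (l + m)) θ - x * L.chi (l + m) θ) +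
      x * L.chi (l + m) θ := by ring
    rw [e]
    refine (norm_add_le _ _).trans ?_
    rw [norm_mul]
    have : ‖x‖ * ‖L.chi (l + m) θ‖ ≤ ‖x‖ * (‖x‖ + 1 / 3000) := mul_le_mul_of_nonneg_left a3 hx0
    nlinarith
  have a1 : ‖L.chi (l + (l + (l + m))) θ‖ ≤ ‖x‖ ^ 3 + 3 / 3000 := by
    have e : L.chi (l + (l + (l + m))) θ = (L.chi (l + (l + (l + m))) θ - x * L.chi (l + (l + m)) θ) +
      x * L.chi (l + (l + m)) θ := by ring
    rw [e]
    refine (norm_add_le _ _).trans ?_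
    rw [norm_mul]
    have : ‖x‖ * ‖L.chi (l + (l + m)) θ‖ ≤ ‖x‖ * (‖x‖ ^ 2 + 2 / 3000) :=
      mul_le_mul_of_nonneg_left a2 hx0
    nlinarith
  have h4 := gg_le_of_abs_le L i _ s hs
  unfold gg psi at h4 ⊢
  rw [← chi_cfr, ← hθ] at h4 ⊢
  set y := ‖L.chi (l + (l + (l + m))) θ‖ with hy
  have hy0 : 0 ≤ y := norm_nonneg _
  have hy1 : y ≤ 1 := norm_cfr_le_one L _ _
  -- y² ≥ 99/100, y ≤ x³ + 1/1000
  have hyl : 994 / 1000 ≤ y := by nlinarith
  have hxl : 993 / 1000 ≤ ‖x‖ ^ 3 := by linarith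
  -- x ≥ 0.9976
  have hxx : 997 / 1000 ≤ ‖x‖ := by
    by_contra hc
    push Not at hc
    have : ‖x‖ ^ 3 < (997 / 1000) ^ 3 := by gcongr
    norm_num at this
    linarith
  change 1 - ‖x‖ ^ 2 ≤ 1 / 100
  nlinarith

/-- **Monotonicity of the width**, no divisibility. -/
theorem wl_mono (L : LP P) (i : Fin 2) : ∃ l0, ∀ l, l0 ≤ l → ∀ l', 3 * l ≤ l' → wl L i l ≤ wl L i l' := by
  obtain ⟨l0, h⟩ := tl_anti L i
  refine ⟨l0, fun l hl l' hl' => ?_⟩
  unfold wl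
  exact one_div_le_one_div_of_le (tl_pos L i l') (h l hl l' hl')

/-- Spread of `U l` at scale `wl l / 20` around EVERY point, with the universal constant `1/800`. -/
theorem spread (L : LP P) (i : Fin 2) : ∃ l0, ∀ l, l0 ≤ l → ∀ y : ℝ,
    1 / 800 ≤ P.real {ω | wl L i l / 20 < |L.U l ω i - y|} := by
  obtain ⟨l0, h⟩ := tl_small L i (δ := 1) one_pos le_rfl
  refine ⟨l0, fun l hl y => ?_⟩
  have h1 := edge_eq L i l (h l hl)
  have h2 := spread_Z (P := P) (meas_U L l) i (tl_pos L i l) h1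
  have e : 1 / tl L i l / 10 = 2 * (wl L i l / 20) := by unfold wl; ring
  rw [e] at h2
  have h3 := spread_point (P := P) (meas_U L l) i (wl L i l / 20) h2 y
  linarith

/-- The growth contained in `A0 < Sl`. -/
theorem growth_of_Sl (L : LP P) (i : Fin 2) {A0 l : ℕ} (h : A0 < Sl L i l) :
    2 ^ A0 / 180 * wl L i l < wl L i (128 * l) := by
  unfold Sl at h
  have h1 : (A0 : ℝ) < Real.logb 2 (180 * (wl L i (128 * l) / wl L i l)) := Nat.lt_ceil.1 h
  have hp := wl_pos L i l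
  have hp' := wl_pos L i (128 * l)
  rw [Real.lt_logb_iff_rpow_lt (by norm_num) (by positivity), Real.rpow_natCast] at h1
  have h2 : 2 ^ A0 / 180 < wl L i (128 * l) / wl L i l := by
    rw [div_lt_iff₀ (by norm_num)]; linarith
  rwa [lt_div_iff₀ hp] at h2

/-- **Irregular octave ⇒ jump, at every centre, probability `1/800`.** -/
theorem jump_of_irr (L : LP P) (i : Fin 2) : ∃ l0, ∀ l, l0 ≤ l → ∀ (A0 M : ℕ) (B' : ℝ), 1 ≤ M →
    ¬ (Sl L i l ≤ A0 ∧ wl L i (M * l) ≤ B' * wl L i l) →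
    ∃ M0 : ℕ, (M0 = 128 ∨ M0 = M) ∧ min (2 ^ A0 / 180) B' * wl L i l ≤ wl L i (M0 * l) ∧
      ∀ y : ℝ, 1 / 800 ≤ P.real {ω | min (2 ^ A0 / 180) B' * wl L i l / 20 < |L.U (M0 * l) ω i - y|} := by
  obtain ⟨l0, h⟩ := spread L i
  refine ⟨l0, fun l hl A0 M B' hM hirr => ?_⟩
  have hp := wl_pos L i l
  have key : ∀ M0 : ℕ, 1 ≤ M0 → min (2 ^ A0 / 180) B' * wl L i l ≤ wl L i (M0 * l) →
      ∀ y : ℝ, 1 / 800 ≤
        P.real {ω | min (2 ^ A0 / 180) B' * wl L i l / 20 < |L.U (M0 * l) ω i - y|} := by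
    intro M0 hM0 hw y
    have hle : l ≤ M0 * l := Nat.le_mul_of_pos_left l hM0
    refine (h (M0 * l) (hl.trans hle) y).trans (measureReal_mono ?_)
    intro ω hω
    have hω' : wl L i (M0 * l) / 20 < |L.U (M0 * l) ω i - y| := hω
    have : min (2 ^ A0 / 180) B' * wl L i l / 20 < |L.U (M0 * l) ω i - y| :=
      lt_of_le_of_lt (by linarith) hω'
    exact this
  by_cases hS : Sl L i l ≤ A0
  · have hw : B' * wl L i l < wl L i (M * l) := not_le.1 fun hc => hirr ⟨hS, hc⟩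
    have hw' : min (2 ^ A0 / 180) B' * wl L i l ≤ wl L i (M * l) :=
      (mul_le_mul_of_nonneg_right (min_le_right _ _) hp.le).trans hw.le
    exact ⟨M, Or.inr rfl, hw', key M hM hw'⟩
  · have hw := growth_of_Sl L i (not_le.1 hS)
    have hw' : min (2 ^ A0 / 180) B' * wl L i l ≤ wl L i (128 * l) :=
      (mul_le_mul_of_nonneg_right (min_le_left _ _) hp.le).trans hw.le
    exact ⟨128, Or.inl rfl, hw', key 128 (by norm_num) hw'⟩

end Crest.Agent.R154.Mono797
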