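import Crest.Agent.R154.Sun_95

/-!
# Row 154: many octaves without a tile (the multi-scale lemma)

`c m` = cost (`-log Sh`) at level `m * N`, nondecreasing, adapted.  Hypotheses:
* (F) free range: for ALL `a < b`, given the past one unit below `a`,
  `P (c b - c a ≥ v0) ≤ exp (-D)`;
* (P) slope `s` per unit, `n ≥ n0` units, given the past `n` units below:
  `P (c e - c (e - n) ≥ n s) ≤ exp (-lam n s)`.
Conclusion: `P (c (2k) - c k ≥ u) ≤ exp (-(lam/16) u)` although the slope `u / k` may be much smaller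
than `s`: `k ≤ r 2^l`, `r ≈ u / v0`, `l ≈ D / v0`.
-/

set_option autoImplicit false
set_option linter.unusedVariables false
set_option linter.deprecated false

open MeasureTheory ENNReal Crest.Agent.R154.Sun95

namespace Crest.Agent.R154.Mult441

variable {Ω : Type*} {m0 : MeasurableSpace Ω} {P : Measure Ω}

/-! ### the regular part -/

/-- truncated increments of the units `2h+p`, `i ≤ h < i'` -/
noncomputable def W (c : ℕ → Ω → ℝ) (R : ℝ) (p i i' : ℕ) (ω : Ω) : ℝ :=
  ∑ h ∈ Finset.Ico i i', zz c R (2 * h + p) ω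

theorem W_nonneg {c : ℕ → Ω → ℝ} (hmono : ∀ ω, Monotone fun m => c m ω) (R : ℝ) (p i i' : ℕ)
    (ω : Ω) : 0 ≤ W c R p i i' ω := Finset.sum_nonneg fun m _ => zz_nonneg hmono R _ ω

theorem zz_le {c : ℕ → Ω → ℝ} (hmono : ∀ ω, Monotone fun m => c m ω) (R : ℝ) (m : ℕ)
    (ω : Ω) : zz c R m ω ≤ c (m + 1) ω - c m ω := by
  unfold zz
  split_ifs
  · exact le_rfl
  · have := hmono ω (Nat.le_succ m)
    simp only at this
    linarith

theorem W_succ (c : ℕ → Ω → ℝ) (R : ℝ) (p : ℕ) {i i' : ℕ} (h : i ≤ i') (ω : Ω) :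
    W c R p i (i' + 1) ω = W c R p i i' ω + zz c R (2 * i' + p) ω :=
  Finset.sum_Ico_succ_top h _

theorem W_add (c : ℕ → Ω → ℝ) (R : ℝ) (p : ℕ) {i i' i'' : ℕ} (h : i ≤ i') (h' : i' ≤ i'') (ω : Ω) :
    W c R p i i'' ω = W c R p i i' ω + W c R p i' i'' ω :=
  (Finset.sum_Ico_consecutive _ h h').symm

theorem W_le {c : ℕ → Ω → ℝ} (hmono : ∀ ω, Monotone fun m => c m ω) (R : ℝ) (p i d : ℕ)
    (ω : Ω) : W c R p i (i + (d + 1)) ω ≤ c (2 * (i + (d + 1)) + p - 1) ω - c (2 * i + p) ω := by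
  induction d with
  | zero =>
    have h1 : W c R p i (i + (0 + 1)) ω = zz c R (2 * i + p) ω := by
      show W c R p i (i + 1) ω = _
      rw [W_succ c R p le_rfl]
      simp [W]
    have h2 : 2 * (i + (0 + 1)) + p - 1 = 2 * i + p + 1 := by omega
    rw [h1, h2]
    exact zz_le hmono R _ ω
  | succ d ih =>
    have h1 : W c R p i (i + (d + 1 + 1)) ω =
        W c R p i (i + (d + 1)) ω + zz c R (2 * (i + (d + 1)) + p) ω := by
      show W c R p i (i + (d + 1) + 1) ω = _
      exact W_succ c R p (by omega) ω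
    have h2 : 2 * (i + (d + 1 + 1)) + p - 1 = 2 * (i + (d + 1)) + p + 1 := by omega
    have h3 := zz_le hmono R (2 * (i + (d + 1)) + p) ω
    have h4 := hmono ω (show 2 * (i + (d + 1)) + p - 1 ≤ 2 * (i + (d + 1)) + p by omega)
    simp only at h4
    rw [h1, h2]
    linarith

theorem W_meas {F : Filtration ℕ m0} {c : ℕ → Ω → ℝ} (hcm : ∀ m, Measurable[F m] (c m))
    (R : ℝ) (p i i' : ℕ) : Measurable[F (2 * i' + p - 1)] (W c R p i i') := by
  unfold W
  refine Finset.measurable_sum _ fun h hh => ?_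
  rw [Finset.mem_Ico] at hh
  exact (zz_meas hcm R (2 * h + p)).mono (F.mono (by omega)) le_rfl

/-- exponential of the truncated sum -/
noncomputable def Xe (c : ℕ → Ω → ℝ) (R θ : ℝ) (p i i' : ℕ) (ω : Ω) : ℝ≥0∞ :=
  ENNReal.ofReal (Real.exp (θ * W c R p i i' ω))

/-- its part above `v0` -/
noncomputable def Ie (c : ℕ → Ω → ℝ) (R θ v0 : ℝ) (p i i' : ℕ) (ω : Ω) : ℝ≥0∞ :=
  {ω' | v0 < W c R p i i' ω'}.indicator (Xe c R θ p i i') ω

theorem Xe_meas {F : Filtration ℕ m0} {c : ℕ → Ω → ℝ} (hcm : ∀ m, Measurable[F m] (c m))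
    (R θ : ℝ) (p i i' : ℕ) : Measurable[F (2 * i' + p - 1)] (Xe c R θ p i i') :=
  (Real.measurable_exp.comp (Measurable.const_mul (W_meas hcm R p i i') _)).ennreal_ofReal

theorem Ie_meas {F : Filtration ℕ m0} {c : ℕ → Ω → ℝ} (hcm : ∀ m, Measurable[F m] (c m))
    (R θ v0 : ℝ) (p i i' : ℕ) : Measurable[F (2 * i' + p - 1)] (Ie c R θ v0 p i i') :=
  Measurable.indicator (Xe_meas hcm R θ p i i')
    (measurableSet_lt measurable_const (W_meas hcm R p i i'))

theorem Xe_le {c : ℕ → Ω → ℝ} {R θ v0 : ℝ} (hθ : 0 ≤ θ) (p i i' : ℕ) (ω : Ω) :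
    Xe c R θ p i i' ω ≤ ENNReal.ofReal (Real.exp (θ * v0)) + Ie c R θ v0 p i i' ω := by
  unfold Ie
  by_cases h : v0 < W c R p i i' ω
  · rw [Set.indicator_of_mem (show ω ∈ {ω' | v0 < W c R p i i' ω'} from h)]
    exact le_add_self
  · push Not at h
    exact le_add_right (ENNReal.ofReal_le_ofReal (Real.exp_le_exp.2
      (mul_le_mul_of_nonneg_left h hθ)))

theorem Xe_add (c : ℕ → Ω → ℝ) (R θ : ℝ) (p : ℕ) {i i' i'' : ℕ} (h : i ≤ i') (h' : i' ≤ i'')
    (ω : Ω) : Xe c R θ p i i'' ω = Xe c R θ p i i' ω * Xe c R θ p i' i'' ω := by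
  unfold Xe
  rw [W_add c R p h h', mul_add, Real.exp_add, ENNReal.ofReal_mul (Real.exp_pos _).le]

theorem four_le_exp : (4 : ℝ) ≤ Real.exp 2 := by
  have h7 : (2 : ℝ) ≤ Real.exp 1 := by have := Real.add_one_le_exp (1 : ℝ); linarith
  calc (4 : ℝ) = 2 * 2 := by norm_num
    _ ≤ Real.exp 1 * Real.exp 1 := by gcongr
    _ = Real.exp 2 := by rw [← Real.exp_add]; norm_num

/-- **dyadic induction**: all octaves at once, no loss. -/
theorem dy {F : Filtration ℕ m0} {c : ℕ → Ω → ℝ} (hcm : ∀ m, Measurable[F m] (c m))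
    (hmono : ∀ ω, Monotone fun m => c m ω) {R θ v0 D : ℝ} (hθ : 0 ≤ θ) (hv0 : 0 ≤ v0)
    (hR : 0 ≤ R)
    (hF : ∀ a b : ℕ, 1 ≤ a → a < b → ∀ B, MeasurableSet[F (a - 1)] B →
      P (B ∩ {ω | v0 ≤ c b ω - c a ω}) ≤ ENNReal.ofReal (Real.exp (-D)) * P B)
    {l : ℕ} (hl : ((l : ℝ) + 1) * (2 * θ * v0 + 2) + θ * R ≤ D) (p : ℕ) :
    ∀ j, j ≤ l → ∀ i, 1 ≤ 2 * i + p → ∀ f : Ω → ℝ≥0∞, Measurable[F (2 * i + p - 1)] f →
      ∫⁻ ω, f ω * Ie c R θ v0 p i (i + 2 ^ j) ω ∂P ≤
        ENNReal.ofReal (Real.exp (((j : ℝ) + 1) * (2 * θ * v0 + 2) + θ * R - D)) *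
          ∫⁻ ω, f ω ∂P := by
  have hpos : 0 ≤ 2 * θ * v0 + 2 := by positivity
  -- (F) for functions
  have hFf : ∀ i d : ℕ, 1 ≤ 2 * i + p → ∀ f : Ω → ℝ≥0∞, Measurable[F (2 * i + p - 1)] f →
      ∫⁻ ω, {ω' | v0 < W c R p i (i + (d + 1)) ω'}.indicator f ω ∂P ≤
        ENNReal.ofReal (Real.exp (-D)) * ∫⁻ ω, f ω ∂P := by
    intro i d hi f hf
    have hm : MeasurableSet {ω | v0 ≤ c (2 * (i + (d + 1)) + p - 1) ω - c (2 * i + p) ω} :=
      measurableSet_le measurable_const
        (Measurable.sub ((hcm _).mono (F.le _) le_rfl) ((hcm _).mono (F.le _) le_rfl))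
    refine le_trans (lintegral_mono ?_) (lint_ind_le (P := P) (F.le (2 * i + p - 1)) hm
      (hF (2 * i + p) (2 * (i + (d + 1)) + p - 1) hi (by omega)) hf)
    intro ω
    refine Set.indicator_le_indicator_of_subset ?_ (fun _ => zero_le) ω
    intro ω' h
    have h1 := W_le hmono R p i d ω'
    simp only [Set.mem_setOf_eq] at h ⊢
    linarith
  intro j
  induction j with
  | zero =>
    intro _ i hi f hf
    have h1 := hFf i 0 hi f hf
    have h2 : ∀ ω, f ω * Ie c R θ v0 p i (i + 2 ^ 0) ω ≤ ENNReal.ofReal (Real.exp (θ * R)) *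
        {ω' | v0 < W c R p i (i + (0 + 1)) ω'}.indicator f ω := by
      intro ω
      show f ω * Ie c R θ v0 p i (i + 1) ω ≤ ENNReal.ofReal (Real.exp (θ * R)) *
        {ω' | v0 < W c R p i (i + 1) ω'}.indicator f ω
      unfold Ie
      by_cases h : v0 < W c R p i (i + 1) ω
      · rw [Set.indicator_of_mem (show ω ∈ {ω' | v0 < W c R p i (i + 1) ω'} from h),
          Set.indicator_of_mem (show ω ∈ {ω' | v0 < W c R p i (i + 1) ω'} from h), mul_comm]
        refine mul_le_mul_left (ENNReal.ofReal_le_ofReal (Real.exp_le_exp.2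
          (mul_le_mul_of_nonneg_left ?_ hθ))) _
        have h3 : W c R p i (i + 1) ω = zz c R (2 * i + p) ω := by
          rw [W_succ c R p le_rfl]; simp [W]
        rw [h3]
        unfold zz
        split_ifs with h4
        · exact h4.le
        · exact hR
      · rw [Set.indicator_of_notMem (show ω ∉ {ω' | v0 < W c R p i (i + 1) ω'} from h),
          Set.indicator_of_notMem (show ω ∉ {ω' | v0 < W c R p i (i + 1) ω'} from h), mul_zero,
          mul_zero]
    have hfm : Measurable f := hf.mono (F.le _) le_rfl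
    have hWm : MeasurableSet {ω' | v0 < W c R p i (i + (0 + 1)) ω'} :=
      measurableSet_lt measurable_const ((W_meas hcm R p i (i + (0 + 1))).mono (F.le _) le_rfl)
    calc ∫⁻ ω, f ω * Ie c R θ v0 p i (i + 2 ^ 0) ω ∂P
        ≤ ∫⁻ ω, ENNReal.ofReal (Real.exp (θ * R)) *
          {ω' | v0 < W c R p i (i + (0 + 1)) ω'}.indicator f ω ∂P := lintegral_mono h2
      _ = ENNReal.ofReal (Real.exp (θ * R)) *
          ∫⁻ ω, {ω' | v0 < W c R p i (i + (0 + 1)) ω'}.indicator f ω ∂P :=
          lintegral_const_mul _ (hfm.indicator hWm)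
      _ ≤ ENNReal.ofReal (Real.exp (θ * R)) * (ENNReal.ofReal (Real.exp (-D)) *
          ∫⁻ ω, f ω ∂P) := mul_le_mul_right h1 _
      _ = ENNReal.ofReal (Real.exp (θ * R - D)) * ∫⁻ ω, f ω ∂P := by
          rw [← mul_assoc, ← ENNReal.ofReal_mul (Real.exp_pos _).le, ← Real.exp_add]
          congr 3
      _ ≤ _ := by
          refine mul_le_mul_left (ENNReal.ofReal_le_ofReal (Real.exp_le_exp.2 ?_)) _
          push_cast
          linarith
  | succ j ih =>
    intro hj i hi f hf
    have ih' := ih (by omega)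
    set G : ℝ := Real.exp (((j : ℝ) + 1) * (2 * θ * v0 + 2) + θ * R - D) with hG
    have hG1 : G ≤ 1 := by
      rw [hG, Real.exp_le_one_iff]
      have h1 : ((j : ℝ) + 1) * (2 * θ * v0 + 2) ≤ ((l : ℝ) + 1) * (2 * θ * v0 + 2) := by
        apply mul_le_mul_of_nonneg_right _ hpos
        have : (j : ℝ) ≤ l := by exact_mod_cast (by omega : j ≤ l)
        linarith
      linarith
    have hG0 : 0 < G := Real.exp_pos _
    set A : ℝ := Real.exp (θ * v0) with hA
    have hA0 : 0 < A := Real.exp_pos _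
    have hA1 : 1 ≤ A := by rw [hA]; exact Real.one_le_exp (mul_nonneg hθ hv0)
    set i' := i + 2 ^ j with hi'
    have hi'' : i + 2 ^ (j + 1) = i' + 2 ^ j := by rw [hi', pow_succ]; ring
    rw [hi'']
    have h2j : 1 ≤ 2 ^ j := Nat.one_le_two_pow
    have hdec : ∀ ω, f ω * Ie c R θ v0 p i (i' + 2 ^ j) ω ≤
        ENNReal.ofReal (A * A) * {ω' | v0 < W c R p i (i' + 2 ^ j) ω'}.indicator f ω +
        (f ω * Ie c R θ v0 p i i' ω * Xe c R θ p i' (i' + 2 ^ j) ω +
        ENNReal.ofReal A * (f ω * Ie c R θ v0 p i' (i' + 2 ^ j) ω)) := by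
      intro ω
      by_cases h : v0 < W c R p i (i' + 2 ^ j) ω
      · have e1 : Ie c R θ v0 p i (i' + 2 ^ j) ω =
            Xe c R θ p i i' ω * Xe c R θ p i' (i' + 2 ^ j) ω := by
          unfold Ie
          rw [Set.indicator_of_mem (show ω ∈ {ω' | v0 < W c R p i (i' + 2 ^ j) ω'} from h),
            Xe_add c R θ p (show i ≤ i' by omega) (show i' ≤ i' + 2 ^ j by omega)]
        rw [e1]
        by_cases h1 : v0 < W c R p i i' ω
        · have e2 : Ie c R θ v0 p i i' ω = Xe c R θ p i i' ω := by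
            unfold Ie
            rw [Set.indicator_of_mem (show ω ∈ {ω' | v0 < W c R p i i' ω'} from h1)]
          rw [e2, ← mul_assoc]
          exact le_add_left (le_add_right le_rfl)
        · push Not at h1
          have e3 : Xe c R θ p i i' ω ≤ ENNReal.ofReal A :=
            ENNReal.ofReal_le_ofReal (Real.exp_le_exp.2 (mul_le_mul_of_nonneg_left h1 hθ))
          by_cases h2 : v0 < W c R p i' (i' + 2 ^ j) ω
          · have e4 : Ie c R θ v0 p i' (i' + 2 ^ j) ω = Xe c R θ p i' (i' + 2 ^ j) ω := by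
              unfold Ie
              rw [Set.indicator_of_mem (show ω ∈ {ω' | v0 < W c R p i' (i' + 2 ^ j) ω'} from h2)]
            rw [e4]
            refine le_add_left (le_add_left ?_)
            calc f ω * (Xe c R θ p i i' ω * Xe c R θ p i' (i' + 2 ^ j) ω)
                ≤ f ω * (ENNReal.ofReal A * Xe c R θ p i' (i' + 2 ^ j) ω) := by gcongr
              _ = _ := by ring
          · push Not at h2
            have e5 : Xe c R θ p i' (i' + 2 ^ j) ω ≤ ENNReal.ofReal A :=
              ENNReal.ofReal_le_ofReal (Real.exp_le_exp.2 (mul_le_mul_of_nonneg_left h2 hθ))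
            rw [Set.indicator_of_mem (show ω ∈ {ω' | v0 < W c R p i (i' + 2 ^ j) ω'} from h)]
            refine le_add_right ?_
            rw [ENNReal.ofReal_mul hA0.le]
            calc f ω * (Xe c R θ p i i' ω * Xe c R θ p i' (i' + 2 ^ j) ω)
                ≤ f ω * (ENNReal.ofReal A * ENNReal.ofReal A) := by gcongr
              _ = _ := by ring
      · have e1 : Ie c R θ v0 p i (i' + 2 ^ j) ω = 0 := by
          unfold Ie
          rw [Set.indicator_of_notMem (show ω ∉ {ω' | v0 < W c R p i (i' + 2 ^ j) ω'} from h)]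
        rw [e1, mul_zero]
        exact zero_le
    have hfm : Measurable f := hf.mono (F.le _) le_rfl
    have hWm : MeasurableSet {ω' | v0 < W c R p i (i' + 2 ^ j) ω'} :=
      measurableSet_lt measurable_const ((W_meas hcm R p i (i' + 2 ^ j)).mono (F.le _) le_rfl)
    have hI1 : Measurable[F (2 * i' + p - 1)] (fun ω => f ω * Ie c R θ v0 p i i' ω) :=
      Measurable.mul (hf.mono (F.mono (by omega)) le_rfl) (Ie_meas hcm R θ v0 p i i')
    have hI1m : Measurable (fun ω => f ω * Ie c R θ v0 p i i' ω) := hI1.mono (F.le _) le_rfl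
    have hX2m : Measurable (Xe c R θ p i' (i' + 2 ^ j)) :=
      (Xe_meas hcm R θ p i' (i' + 2 ^ j)).mono (F.le _) le_rfl
    have hI2m : Measurable (Ie c R θ v0 p i' (i' + 2 ^ j)) :=
      (Ie_meas hcm R θ v0 p i' (i' + 2 ^ j)).mono (F.le _) le_rfl
    set J := ∫⁻ ω, f ω ∂P with hJ
    -- the three terms
    have t1 : ∫⁻ ω, {ω' | v0 < W c R p i (i' + 2 ^ j) ω'}.indicator f ω ∂P ≤
        ENNReal.ofReal (Real.exp (-D)) * J := by
      have h := hFf i (i' + 2 ^ j - i - 1) hi f hf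
      have e : i + (i' + 2 ^ j - i - 1 + 1) = i' + 2 ^ j := by omega
      rw [e] at h
      exact h
    have t2a : ∫⁻ ω, f ω * Ie c R θ v0 p i i' ω ∂P ≤ ENNReal.ofReal G * J := ih' i hi f hf
    have t2b : ∫⁻ ω, f ω * Ie c R θ v0 p i i' ω * Ie c R θ v0 p i' (i' + 2 ^ j) ω ∂P ≤
        ENNReal.ofReal G * ∫⁻ ω, f ω * Ie c R θ v0 p i i' ω ∂P :=
      ih' i' (by omega) _ hI1
    have t2 : ∫⁻ ω, f ω * Ie c R θ v0 p i i' ω * Xe c R θ p i' (i' + 2 ^ j) ω ∂P ≤
        ENNReal.ofReal (A + G) * (ENNReal.ofReal G * J) := by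
      calc ∫⁻ ω, f ω * Ie c R θ v0 p i i' ω * Xe c R θ p i' (i' + 2 ^ j) ω ∂P
          ≤ ∫⁻ ω, (ENNReal.ofReal A * (f ω * Ie c R θ v0 p i i' ω) +
            f ω * Ie c R θ v0 p i i' ω * Ie c R θ v0 p i' (i' + 2 ^ j) ω) ∂P := by
            refine lintegral_mono fun ω => ?_
            have h := Xe_le (c := c) (R := R) (v0 := v0) hθ p i' (i' + 2 ^ j) ω
            calc f ω * Ie c R θ v0 p i i' ω * Xe c R θ p i' (i' + 2 ^ j) ω
                ≤ f ω * Ie c R θ v0 p i i' ω *
                  (ENNReal.ofReal A + Ie c R θ v0 p i' (i' + 2 ^ j) ω) := mul_le_mul_right h _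
              _ = _ := by ring
        _ = ENNReal.ofReal A * ∫⁻ ω, f ω * Ie c R θ v0 p i i' ω ∂P +
            ∫⁻ ω, f ω * Ie c R θ v0 p i i' ω * Ie c R θ v0 p i' (i' + 2 ^ j) ω ∂P := by
            rw [lintegral_add_left (Measurable.const_mul hI1m _), lintegral_const_mul _ hI1m]
        _ ≤ ENNReal.ofReal A * ∫⁻ ω, f ω * Ie c R θ v0 p i i' ω ∂P +
            ENNReal.ofReal G * ∫⁻ ω, f ω * Ie c R θ v0 p i i' ω ∂P := add_le_add le_rfl t2b
        _ = ENNReal.ofReal (A + G) * ∫⁻ ω, f ω * Ie c R θ v0 p i i' ω ∂P := by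
            rw [← add_mul, ENNReal.ofReal_add hA0.le hG0.le]
        _ ≤ _ := mul_le_mul_right t2a _
    have t3 : ∫⁻ ω, f ω * Ie c R θ v0 p i' (i' + 2 ^ j) ω ∂P ≤ ENNReal.ofReal G * J :=
      ih' i' (by omega) f (hf.mono (F.mono (by omega)) le_rfl)
    calc ∫⁻ ω, f ω * Ie c R θ v0 p i (i' + 2 ^ j) ω ∂P
        ≤ ∫⁻ ω, (ENNReal.ofReal (A * A) * {ω' | v0 < W c R p i (i' + 2 ^ j) ω'}.indicator f ω +
        (f ω * Ie c R θ v0 p i i' ω * Xe c R θ p i' (i' + 2 ^ j) ω +
        ENNReal.ofReal A * (f ω * Ie c R θ v0 p i' (i' + 2 ^ j) ω))) ∂P := lintegral_mono hdec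
      _ = ENNReal.ofReal (A * A) *
            ∫⁻ ω, {ω' | v0 < W c R p i (i' + 2 ^ j) ω'}.indicator f ω ∂P +
          (∫⁻ ω, f ω * Ie c R θ v0 p i i' ω * Xe c R θ p i' (i' + 2 ^ j) ω ∂P +
          ENNReal.ofReal A * ∫⁻ ω, f ω * Ie c R θ v0 p i' (i' + 2 ^ j) ω ∂P) := by
          have hIX : Measurable (fun ω => f ω * Ie c R θ v0 p i i' ω *
              Xe c R θ p i' (i' + 2 ^ j) ω) := hI1m.mul hX2m
          have hfI : Measurable (fun ω => f ω * Ie c R θ v0 p i' (i' + 2 ^ j) ω) := hfm.mul hI2m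
          rw [lintegral_add_left (Measurable.const_mul (hfm.indicator hWm) _),
            lintegral_const_mul _ (hfm.indicator hWm),
            lintegral_add_left hIX, lintegral_const_mul _ hfI]
      _ ≤ ENNReal.ofReal (A * A) * (ENNReal.ofReal (Real.exp (-D)) * J) +
          (ENNReal.ofReal (A + G) * (ENNReal.ofReal G * J) +
          ENNReal.ofReal A * (ENNReal.ofReal G * J)) := by gcongr
      _ = ENNReal.ofReal (A * A * Real.exp (-D) + ((A + G) * G + A * G)) * J := by
          rw [← mul_assoc, ← mul_assoc, ← mul_assoc, ← ENNReal.ofReal_mul (by positivity),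
            ← ENNReal.ofReal_mul (by positivity), ← ENNReal.ofReal_mul (by positivity),
            ← add_mul, ← add_mul, ← ENNReal.ofReal_add (by positivity) (by positivity),
            ← ENNReal.ofReal_add (by positivity) (by positivity)]
      _ ≤ _ := by
          refine mul_le_mul_left (ENNReal.ofReal_le_ofReal ?_) _
          have e1 : Real.exp ((((j + 1 : ℕ) : ℝ) + 1) * (2 * θ * v0 + 2) + θ * R - D) =
              Real.exp 2 * (A * A) * G := by
            rw [hA, hG, ← Real.exp_add, ← Real.exp_add, ← Real.exp_add]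
            congr 1
            push_cast
            ring
          rw [e1]
          have hD : Real.exp (-D) ≤ G := by
            rw [hG]
            apply Real.exp_le_exp.2
            have : 0 ≤ ((j : ℝ) + 1) * (2 * θ * v0 + 2) := mul_nonneg (by positivity) hpos
            have : 0 ≤ θ * R := mul_nonneg hθ hR
            linarith
          have hAA : A ≤ A * A := by nlinarith
          have hAA1 : 1 ≤ A * A := by nlinarith
          have h4 := four_le_exp
          have h5 : A * A * Real.exp (-D) ≤ A * A * G := mul_le_mul_of_nonneg_left hD (by positivity)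
          have h6 : (A + G) * G + A * G ≤ 3 * (A * A) * G := by
            have : (A + G) + A ≤ 3 * (A * A) := by linarith
            calc (A + G) * G + A * G = ((A + G) + A) * G := by ring
              _ ≤ _ := mul_le_mul_of_nonneg_right this hG0.le
          have h7 : 4 * (A * A) * G ≤ Real.exp 2 * (A * A) * G := by
            apply mul_le_mul_of_nonneg_right _ hG0.le
            exact mul_le_mul_of_nonneg_right h4 (by positivity)
          linarith

/-- chains of blocks -/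
theorem blocks {F : Filtration ℕ m0} {c : ℕ → Ω → ℝ} (hcm : ∀ m, Measurable[F m] (c m))
    (hmono : ∀ ω, Monotone fun m => c m ω) {R θ v0 D : ℝ} (hθ : 0 ≤ θ) (hv0 : 0 ≤ v0)
    (hR : 0 ≤ R)
    (hF : ∀ a b : ℕ, 1 ≤ a → a < b → ∀ B, MeasurableSet[F (a - 1)] B →
      P (B ∩ {ω | v0 ≤ c b ω - c a ω}) ≤ ENNReal.ofReal (Real.exp (-D)) * P B)
    {l : ℕ} (hl : ((l : ℝ) + 1) * (2 * θ * v0 + 2) + θ * R ≤ D) (p i : ℕ) (hi : 1 ≤ 2 * i + p)
    (r : ℕ) :
    ∫⁻ ω, Xe c R θ p i (i + r * 2 ^ l) ω ∂P ≤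
      ENNReal.ofReal (Real.exp (r * (θ * v0 + 1))) * P Set.univ := by
  induction r with
  | zero => simp [Xe, W]
  | succ r ih =>
    set i' := i + r * 2 ^ l with hi'
    have e1 : i + (r + 1) * 2 ^ l = i' + 2 ^ l := by rw [hi']; ring
    rw [e1]
    have hX1 : Measurable[F (2 * i' + p - 1)] (Xe c R θ p i i') := Xe_meas hcm R θ p i i'
    have hX1m : Measurable (Xe c R θ p i i') := hX1.mono (F.le _) le_rfl
    have hii : i ≤ i' := Nat.le_add_right _ _
    have h1 := dy hcm hmono hθ hv0 hR hF hl p l le_rfl i' (by omega) _ hX1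
    calc ∫⁻ ω, Xe c R θ p i (i' + 2 ^ l) ω ∂P
        ≤ ∫⁻ ω, (ENNReal.ofReal (Real.exp (θ * v0)) * Xe c R θ p i i' ω +
          Xe c R θ p i i' ω * Ie c R θ v0 p i' (i' + 2 ^ l) ω) ∂P := by
          refine lintegral_mono fun ω => ?_
          rw [Xe_add c R θ p (show i ≤ i' from Nat.le_add_right _ _)
            (show i' ≤ i' + 2 ^ l from Nat.le_add_right _ _)]
          calc Xe c R θ p i i' ω * Xe c R θ p i' (i' + 2 ^ l) ω
              ≤ Xe c R θ p i i' ω * (ENNReal.ofReal (Real.exp (θ * v0)) +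
                Ie c R θ v0 p i' (i' + 2 ^ l) ω) := mul_le_mul_right (Xe_le hθ p i' _ ω) _
            _ = _ := by ring
      _ = ENNReal.ofReal (Real.exp (θ * v0)) * ∫⁻ ω, Xe c R θ p i i' ω ∂P +
          ∫⁻ ω, Xe c R θ p i i' ω * Ie c R θ v0 p i' (i' + 2 ^ l) ω ∂P := by
          rw [lintegral_add_left (Measurable.const_mul hX1m _), lintegral_const_mul _ hX1m]
      _ ≤ ENNReal.ofReal (Real.exp (θ * v0)) * ∫⁻ ω, Xe c R θ p i i' ω ∂P +
          1 * ∫⁻ ω, Xe c R θ p i i' ω ∂P := by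
          refine add_le_add le_rfl (h1.trans (mul_le_mul_left ?_ _))
          rw [ENNReal.ofReal_le_one, Real.exp_le_one_iff]
          linarith
      _ = ENNReal.ofReal (Real.exp (θ * v0) + 1) * ∫⁻ ω, Xe c R θ p i i' ω ∂P := by
          rw [← add_mul, ENNReal.ofReal_add (Real.exp_pos _).le zero_le_one, ENNReal.ofReal_one]
      _ ≤ ENNReal.ofReal (Real.exp (θ * v0 + 1)) *
          (ENNReal.ofReal (Real.exp (r * (θ * v0 + 1))) * P Set.univ) := by
          refine mul_le_mul' (ENNReal.ofReal_le_ofReal ?_) ih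
          rw [Real.exp_add]
          have h2 : (2 : ℝ) ≤ Real.exp 1 := by have := Real.add_one_le_exp (1 : ℝ); linarith
          have h3 : 1 ≤ Real.exp (θ * v0) := Real.one_le_exp (mul_nonneg hθ hv0)
          nlinarith
      _ = _ := by
          rw [← mul_assoc, ← ENNReal.ofReal_mul (Real.exp_pos _).le, ← Real.exp_add]
          congr 3
          push_cast
          ring

theorem Tp_le_W {c : ℕ → Ω → ℝ} (hmono : ∀ ω, Monotone fun m => c m ω) (R : ℝ) {k p i M : ℕ}
    (hp : p < 2) (hi : 2 * i + p ≤ k + 1) (hM : k ≤ M) (ω : Ω) :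
    Tp c R k p (2 * k) ω ≤ W c R p i (i + M) ω := by
  have h1 : W c R p i (i + M) ω =
      ∑ m ∈ (Finset.Ico i (i + M)).image (fun h => 2 * h + p), zz c R m ω := by
    unfold W
    rw [Finset.sum_image]
    intro a _ b _ hab
    simp only at hab
    omega
  rw [h1]
  unfold Tp
  refine Finset.sum_le_sum_of_subset_of_nonneg ?_ fun m _ _ => zz_nonneg hmono R m ω
  intro m hm
  rw [Finset.mem_filter, Finset.mem_Ico] at hm
  rw [Finset.mem_image]
  refine ⟨m / 2, ?_, by omega⟩
  rw [Finset.mem_Ico]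
  omega

/-! ### the steep part -/

/-- upper bound of `exp (θ * (cost of the steep part))` (fuel `j`) -/
noncomputable def V (c : ℕ → Ω → ℝ) (s θ : ℝ) (n0 k : ℕ) : ℕ → ℕ → Ω → ℝ≥0∞
  | 0, _ => fun _ => 1
  | j + 1, e => fun ω => if e ≤ k then 1 else
      V c s θ n0 k j (e - 1) ω + ∑ n ∈ Finset.Icc n0 (e / 2),
        {ω' | (n : ℝ) * s ≤ c e ω' - c (e - n) ω'}.indicator
          (fun ω' => ENNReal.ofReal (Real.exp (2 * θ * (n * s))) * V c s θ n0 k j (e - 2 * n) ω') ω

/-- **the deterministic decomposition** (units below `R` are regular) -/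
theorem det {c : ℕ → Ω → ℝ} (hmono : ∀ ω, Monotone fun m => c m ω) {R s θ : ℝ}
    (hθ : 0 ≤ θ) (hs : 0 < s) {n0 : ℕ} (hsR : 2 * s * n0 ≤ R) (hsR1 : s ≤ R)
    {k : ℕ} (hk : 3 ≤ k) (ω : Ω)
    (hno : ∀ e n : ℕ, k < e → e ≤ 2 * k → e < 4 * n → 2 * n ≤ e →
      c e ω - c (e - n) ω < n * s) :
    ∀ j e, e ≤ k + j → e ≤ 2 * k →
      ENNReal.ofReal (Real.exp (θ * (c e ω - c k ω - T c R k e ω))) ≤ V c s θ n0 k j e ω := by
  have hsmall : ∀ e, e ≤ k →
      ENNReal.ofReal (Real.exp (θ * (c e ω - c k ω - T c R k e ω))) ≤ 1 := by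
    intro e he
    rw [ENNReal.ofReal_le_one, Real.exp_le_one_iff]
    have h1 := hmono ω he
    simp only at h1
    have h2 := T_nonneg hmono R k e ω
    exact mul_nonpos_of_nonneg_of_nonpos hθ (by linarith)
  intro j
  induction j with
  | zero =>
    intro e he _
    exact hsmall e (by omega)
  | succ j ih =>
    intro e he he2
    simp only [V]
    split_ifs with hek
    · exact hsmall e hek
    push Not at hek
    obtain ⟨e', rfl⟩ : ∃ e', e = e' + 1 := ⟨e - 1, by omega⟩
    by_cases hZ : c (e' + 1) ω - c e' ω < R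
    · refine le_trans ?_ (le_add_right (ih e' (by omega) (by omega)))
      rw [T_succ c R (by omega) ω]
      have : zz c R e' ω = c (e' + 1) ω - c e' ω := if_pos hZ
      rw [this]
      apply le_of_eq
      congr 3
      ring
    · push Not at hZ
      set e := e' + 1 with he'
      -- the maximal steep interval
      let Q : ℕ → Prop := fun n => (n : ℝ) * s ≤ c e ω - c (e - n) ω
      have : DecidablePred Q := fun _ => Classical.propDecidable _
      set n := Nat.findGreatest Q (e / 4) with hn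
      have he4 : 1 ≤ e / 4 := by omega
      have hQ1 : Q 1 := by
        show ((1 : ℕ) : ℝ) * s ≤ c e ω - c (e - 1) ω
        rw [he', Nat.add_sub_cancel]; push_cast; linarith
      have hn1 : 1 ≤ n := Nat.le_findGreatest he4 hQ1
      have hQn : Q n := Nat.findGreatest_spec he4 hQ1
      have hnle : n ≤ e / 4 := Nat.findGreatest_le _
      have h4n : 4 * n ≤ e := by omega
      have hcost : c e ω - c (e - 2 * n) ω < 2 * (n * s) := by
        by_cases h2n : 2 * n ≤ e / 4
        · have : ¬ Q (2 * n) := Nat.findGreatest_is_greatest (by omega) h2n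
          simp only [Q, not_le] at this
          push_cast at this
          linarith
        · have := hno e (2 * n) (by omega) he2 (by omega) (by omega)
          push_cast at this
          linarith
      have hn0 : n0 ≤ n := by
        have h1 := hmono ω (show e - 2 * n ≤ e' by omega)
        simp only at h1
        have h2 : R < 2 * (n * s) := by linarith
        have h3 : 2 * s * n0 < 2 * s * n := by linarith
        have h4 : (n0 : ℝ) < n := lt_of_mul_lt_mul_left h3 (by linarith)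
        exact_mod_cast h4.le
      have hmem : n ∈ Finset.Icc n0 (e / 2) := Finset.mem_Icc.2 ⟨hn0, by omega⟩
      refine le_trans ?_ (le_add_left (Finset.single_le_sum
        (f := fun n : ℕ => {ω' | (n : ℝ) * s ≤ c e ω' - c (e - n) ω'}.indicator
          (fun ω' => ENNReal.ofReal (Real.exp (2 * θ * (n * s))) *
            V c s θ n0 k j (e - 2 * n) ω') ω) (fun _ _ => zero_le) hmem))
      have hind : ω ∈ {ω' | (n : ℝ) * s ≤ c e ω' - c (e - n) ω'} := hQn
      simp only [Set.indicator_of_mem hind]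
      refine le_trans ?_ (mul_le_mul_right (ih (e - 2 * n) (by omega) (by omega)) _)
      rw [← ENNReal.ofReal_mul (Real.exp_pos _).le, ← Real.exp_add]
      refine ENNReal.ofReal_le_ofReal (Real.exp_le_exp.2 ?_)
      have hT := T_mono hmono R k (show e - 2 * n ≤ e by omega) ω
      have : θ * (c e ω - c k ω - T c R k e ω) ≤
          θ * (2 * (n * s) + (c (e - 2 * n) ω - c k ω - T c R k (e - 2 * n) ω)) :=
        mul_le_mul_of_nonneg_left (by linarith) hθ
      calc _ ≤ _ := this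
        _ = _ := by ring

theorem V_meas {F : Filtration ℕ m0} {c : ℕ → Ω → ℝ} (hcm : ∀ m, Measurable[F m] (c m))
    (s θ : ℝ) (n0 k : ℕ) : ∀ j e, Measurable[F e] (V c s θ n0 k j e) := by
  intro j
  induction j with
  | zero => intro e; exact measurable_const
  | succ j ih =>
    intro e
    simp only [V]
    by_cases hek : e ≤ k
    · simp only [hek, if_true]; exact measurable_const
    · simp only [hek, if_false]
      refine Measurable.add ((ih (e - 1)).mono (F.mono (Nat.sub_le e 1)) le_rfl) ?_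
      refine Finset.measurable_sum _ fun n _ => ?_
      refine Measurable.indicator ?_ ?_
      · exact Measurable.const_mul ((ih (e - 2 * n)).mono (F.mono (Nat.sub_le _ _)) le_rfl) _
      · exact measurableSet_le measurable_const
          (Measurable.sub (hcm e) ((hcm (e - n)).mono (F.mono (Nat.sub_le _ _)) le_rfl))

/-- tail of a geometric series -/
theorem geo {t : ℝ} (ht : 1 ≤ t) {n0 : ℕ} (hn0 : 1 ≤ n0) (d : ℕ) :
    ∑ n ∈ Finset.Ico n0 (n0 + d), Real.exp (-(t * n)) + Real.exp (-(t * ((n0 : ℝ) + d - 1))) ≤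
      Real.exp (-(t * ((n0 : ℝ) - 1))) := by
  have h1 : Real.exp (-t) ≤ 1 / 2 := by
    rw [Real.exp_neg, one_div]
    apply inv_anti₀ (by norm_num)
    have := Real.add_one_le_exp t
    linarith
  induction d with
  | zero => simp
  | succ d ih =>
    rw [← add_assoc, Finset.sum_Ico_succ_top (by omega)]
    have e1 : Real.exp (-(t * ((n0 + d : ℕ) : ℝ))) =
        Real.exp (-t) * Real.exp (-(t * ((n0 : ℝ) + d - 1))) := by
      rw [← Real.exp_add]; congr 1; push_cast; ring
    have e2 : Real.exp (-(t * ((n0 : ℝ) + ((d + 1 : ℕ) : ℝ) - 1))) =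
        Real.exp (-t) * Real.exp (-(t * ((n0 : ℝ) + d - 1))) := by
      rw [← Real.exp_add]; congr 1; push_cast; ring
    rw [e1, e2]
    have h2 : 0 < Real.exp (-(t * ((n0 : ℝ) + d - 1))) := Real.exp_pos _
    nlinarith

/-- steep part, exponential moment -/
theorem V_int {F : Filtration ℕ m0} {c : ℕ → Ω → ℝ} (hcm : ∀ m, Measurable[F m] (c m))
    {s lam : ℝ} (hls : 2 ≤ lam * s) {n0 : ℕ} (hn0 : 1 ≤ n0) {k : ℕ}
    (hb : ∀ e n : ℕ, n0 ≤ n → 2 * n ≤ e → e ≤ 2 * k → ∀ B, MeasurableSet[F (e - 2 * n)] B →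
      P (B ∩ {ω | (n : ℝ) * s ≤ c e ω - c (e - n) ω}) ≤
        ENNReal.ofReal (Real.exp (-(lam * (n * s)))) * P B) :
    ∀ j e, e ≤ 2 * k → ∫⁻ ω, V c s (lam / 4) n0 k j e ω ∂P ≤
      ENNReal.ofReal (Real.exp (Real.exp (-(lam * s / 2 * ((n0 : ℝ) - 1))) * ((e - k : ℕ) : ℝ))) *
        P Set.univ := by
  set ρ : ℝ := Real.exp (-(lam * s / 2 * ((n0 : ℝ) - 1))) with hρ
  have hρ0 : 0 < ρ := Real.exp_pos _
  have hone : ∀ a : ℕ, P Set.univ ≤ ENNReal.ofReal (Real.exp (ρ * (a : ℝ))) * P Set.univ := by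
    intro a
    calc P Set.univ = 1 * P Set.univ := (one_mul _).symm
      _ ≤ _ := by
        refine mul_le_mul_left ?_ _
        rw [← ENNReal.ofReal_one]
        exact ENNReal.ofReal_le_ofReal (Real.one_le_exp (by positivity))
  intro j
  induction j with
  | zero => intro e _; simp only [V]; rw [lintegral_one]; exact hone _
  | succ j ih =>
    intro e he2
    simp only [V]
    by_cases hek : e ≤ k
    · simp only [hek, if_true]; rw [lintegral_one]; exact hone _
    · simp only [hek, if_false]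
      have hmE : ∀ n : ℕ, MeasurableSet {ω' | (n : ℝ) * s ≤ c e ω' - c (e - n) ω'} := fun n =>
        measurableSet_le measurable_const
          (Measurable.sub ((hcm e).mono (F.le _) le_rfl) ((hcm (e - n)).mono (F.le _) le_rfl))
      rw [lintegral_add_left ((V_meas hcm s (lam / 4) n0 k j (e - 1)).mono (F.le _) le_rfl),
        lintegral_finset_sum _ fun n _ => Measurable.indicator
          (Measurable.const_mul ((V_meas hcm s (lam / 4) n0 k j (e - 2 * n)).mono (F.le _) le_rfl) _)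
          (hmE n)]
      have h1 := ih (e - 1) (by omega)
      set M0 : ℝ≥0∞ := ENNReal.ofReal (Real.exp (ρ * ((e - 1 - k : ℕ) : ℝ))) * P Set.univ with hM0
      have h2 : ∀ n ∈ Finset.Icc n0 (e / 2),
          ∫⁻ ω, {ω' | (n : ℝ) * s ≤ c e ω' - c (e - n) ω'}.indicator
            (fun ω' => ENNReal.ofReal (Real.exp (2 * (lam / 4) * (n * s))) *
              V c s (lam / 4) n0 k j (e - 2 * n) ω') ω ∂P ≤
            ENNReal.ofReal (Real.exp (-(lam * s / 2 * n))) * M0 := by
        intro n hn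
        rw [Finset.mem_Icc] at hn
        have h3 := lint_ind_le (P := P) (F.le (e - 2 * n)) (hmE n)
          (hb e n hn.1 (by omega) he2)
          (f := fun ω' => ENNReal.ofReal (Real.exp (2 * (lam / 4) * (n * s))) *
              V c s (lam / 4) n0 k j (e - 2 * n) ω')
          (Measurable.const_mul (V_meas hcm s (lam / 4) n0 k j (e - 2 * n)) _)
        refine h3.trans ?_
        rw [lintegral_const_mul _ ((V_meas hcm s (lam / 4) n0 k j (e - 2 * n)).mono (F.le _) le_rfl),
          ← mul_assoc, ← ENNReal.ofReal_mul (Real.exp_pos _).le, ← Real.exp_add]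
        refine mul_le_mul' ?_ ((ih (e - 2 * n) (by omega)).trans ?_)
        · apply le_of_eq
          congr 2
          ring
        · refine mul_le_mul_left (ENNReal.ofReal_le_ofReal (Real.exp_le_exp.2
            (mul_le_mul_of_nonneg_left ?_ hρ0.le))) _
          exact_mod_cast (by omega : e - 2 * n - k ≤ e - 1 - k)
      have h4 : ∑ n ∈ Finset.Icc n0 (e / 2), Real.exp (-(lam * s / 2 * n)) ≤ ρ := by
        by_cases hne : n0 ≤ e / 2
        · have e3 : Finset.Icc n0 (e / 2) = Finset.Ico n0 (n0 + (e / 2 + 1 - n0)) := by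
            ext m; rw [Finset.mem_Icc, Finset.mem_Ico]; omega
          rw [e3]
          have := geo (t := lam * s / 2) (by linarith) hn0 (e / 2 + 1 - n0)
          have h5 : 0 < Real.exp (-(lam * s / 2 * ((n0 : ℝ) + ((e / 2 + 1 - n0 : ℕ) : ℝ) - 1))) :=
            Real.exp_pos _
          linarith
        · rw [Finset.Icc_eq_empty hne, Finset.sum_empty]
          exact hρ0.le
      calc _ ≤ M0 + ∑ n ∈ Finset.Icc n0 (e / 2),
            ENNReal.ofReal (Real.exp (-(lam * s / 2 * n))) * M0 :=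
            add_le_add h1 (Finset.sum_le_sum h2)
        _ = ENNReal.ofReal (1 + ∑ n ∈ Finset.Icc n0 (e / 2), Real.exp (-(lam * s / 2 * n))) *
            M0 := by
            rw [← Finset.sum_mul, ENNReal.ofReal_add zero_le_one
              (Finset.sum_nonneg fun _ _ => (Real.exp_pos _).le), ENNReal.ofReal_one, add_mul,
              one_mul, ENNReal.ofReal_sum_of_nonneg fun _ _ => (Real.exp_pos _).le]
        _ ≤ ENNReal.ofReal (Real.exp ρ) * M0 := by
            refine mul_le_mul_left (ENNReal.ofReal_le_ofReal ?_) _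
            have := Real.add_one_le_exp ρ
            linarith
        _ = _ := by
            rw [hM0, ← mul_assoc, ← ENNReal.ofReal_mul (Real.exp_pos _).le, ← Real.exp_add]
            congr 3
            have e4 : ((e - k : ℕ) : ℝ) = ((e - 1 - k : ℕ) : ℝ) + 1 := by
              have : e - k = (e - 1 - k) + 1 := by omega
              rw [this]; push_cast; ring
            rw [e4]; ring

/-! ### the conclusion for a real cost process -/

/-- **multi-scale lemma, real cost process.** -/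
theorem multi_real {F : Filtration ℕ m0} {c : ℕ → Ω → ℝ} (hcm : ∀ m, Measurable[F m] (c m))
    (hmono : ∀ ω, Monotone fun m => c m ω) {R s lam v0 D u : ℝ} {k l r n0 : ℕ}
    (hlam : 0 < lam) (hv0 : 0 ≤ v0) (hs : 0 < s) (hls : 2 ≤ lam * s)
    (hn0 : 1 ≤ n0) (hsR : 2 * s * n0 ≤ R) (hk : 3 ≤ k) (hk4 : 4 * n0 ≤ k)
    (hF : ∀ a b : ℕ, 1 ≤ a → a < b → ∀ B, MeasurableSet[F (a - 1)] B →
      P (B ∩ {ω | v0 ≤ c b ω - c a ω}) ≤ ENNReal.ofReal (Real.exp (-D)) * P B)
    (hb : ∀ e n : ℕ, n0 ≤ n → 2 * n ≤ e → e ≤ 2 * k → ∀ B, MeasurableSet[F (e - 2 * n)] B →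
      P (B ∩ {ω | (n : ℝ) * s ≤ c e ω - c (e - n) ω}) ≤
        ENNReal.ofReal (Real.exp (-(lam * (n * s)))) * P B)
    (hl : ((l : ℝ) + 1) * (lam * v0 + 2) + lam / 2 * R ≤ D)
    (hr : k ≤ r * 2 ^ l) (hru : r * (lam / 2 * v0 + 1) + 2 ≤ lam * u / 16)
    (hρ : k * Real.exp (-(lam * s / 2 * ((n0 : ℝ) - 1))) + 2 ≤ lam * u / 16)
    (hcard : (2 * (k : ℝ) + 1) * (2 * (k : ℝ) + 1) ≤ Real.exp (lam * u / 8))
    (hu : u ≤ k * s) :
    P {ω | u ≤ c (2 * k) ω - c k ω} ≤ ENNReal.ofReal (Real.exp (-(lam / 16 * u))) * P Set.univ := by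
  have hk0 : (3 : ℝ) ≤ k := by exact_mod_cast hk
  have hlu : 32 ≤ lam * u := by
    have : 0 ≤ (k : ℝ) * Real.exp (-(lam * s / 2 * ((n0 : ℝ) - 1))) := by positivity
    linarith
  have hn0' : (1 : ℝ) ≤ n0 := by exact_mod_cast hn0
  have hsR1 : s ≤ R := by nlinarith
  have hR : 0 ≤ R := by linarith
  -- long steep intervals
  set Ix := ((Finset.range (2 * k + 1)) ×ˢ (Finset.range (2 * k + 1))).filter
    (fun q : ℕ × ℕ => k < q.1 ∧ q.1 ≤ 2 * k ∧ q.1 < 4 * q.2 ∧ 2 * q.2 ≤ q.1) with hIx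
  set Lg : Set Ω := ⋃ q ∈ Ix, {ω | (q.2 : ℝ) * s ≤ c q.1 ω - c (q.1 - q.2) ω} with hLg
  have hLgP : P Lg ≤ ENNReal.ofReal (1 / 4 * Real.exp (-(lam / 16 * u))) * P Set.univ := by
    have h1 : ∀ q ∈ Ix, P {ω | (q.2 : ℝ) * s ≤ c q.1 ω - c (q.1 - q.2) ω} ≤
        ENNReal.ofReal (Real.exp (-(lam * (u / 4)))) * P Set.univ := by
      intro q hq
      rw [hIx, Finset.mem_filter] at hq
      obtain ⟨_, h2, h3, h4, h5⟩ := hq
      have h6 := hb q.1 q.2 (by omega) h5 h3 Set.univ MeasurableSet.univ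
      rw [Set.univ_inter] at h6
      refine h6.trans (mul_le_mul_left (ENNReal.ofReal_le_ofReal (Real.exp_le_exp.2 ?_)) _)
      have h7 : (k : ℝ) ≤ 4 * q.2 := by exact_mod_cast (by omega : k ≤ 4 * q.2)
      have h8 : u / 4 ≤ q.2 * s := by nlinarith
      have : lam * (u / 4) ≤ lam * (q.2 * s) := mul_le_mul_of_nonneg_left h8 hlam.le
      linarith
    have hcard' : (Ix.card : ℝ) ≤ Real.exp (lam * u / 8) := by
      have h9 : Ix.card ≤ (2 * k + 1) * (2 * k + 1) := by
        refine (Finset.card_filter_le _ _).trans ?_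
        rw [Finset.card_product, Finset.card_range]
      have h10 : ((Ix.card : ℕ) : ℝ) ≤ (2 * k + 1) * (2 * k + 1) := by exact_mod_cast h9
      exact h10.trans hcard
    calc P Lg ≤ ∑ q ∈ Ix, P {ω | (q.2 : ℝ) * s ≤ c q.1 ω - c (q.1 - q.2) ω} :=
          measure_biUnion_finset_le _ _
      _ ≤ ∑ _q ∈ Ix, ENNReal.ofReal (Real.exp (-(lam * (u / 4)))) * P Set.univ :=
          Finset.sum_le_sum h1
      _ = ENNReal.ofReal ((Ix.card : ℝ) * Real.exp (-(lam * (u / 4)))) * P Set.univ := by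
          rw [Finset.sum_const, nsmul_eq_mul, ← mul_assoc,
            ENNReal.ofReal_mul (Nat.cast_nonneg _), ENNReal.ofReal_natCast]
      _ ≤ _ := by
          refine mul_le_mul_left (ENNReal.ofReal_le_ofReal ?_) _
          calc (Ix.card : ℝ) * Real.exp (-(lam * (u / 4)))
              ≤ Real.exp (lam * u / 8) * Real.exp (-(lam * (u / 4))) := by gcongr
            _ = Real.exp (lam * u / 8 - lam * (u / 4)) := by rw [← Real.exp_add]; congr 1
            _ ≤ _ := by
                apply quarter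
                linarith
  -- steep part
  have hVm : Measurable (V c s (lam / 4) n0 k k (2 * k)) :=
    (V_meas hcm s (lam / 4) n0 k k (2 * k)).mono (F.le _) le_rfl
  have hV : P {ω | ENNReal.ofReal (Real.exp (lam * u / 8)) ≤ V c s (lam / 4) n0 k k (2 * k) ω} ≤
      ENNReal.ofReal (1 / 4 * Real.exp (-(lam / 16 * u))) * P Set.univ := by
    have h1 := V_int (P := P) hcm hls hn0 hb k (2 * k) le_rfl
    refine (markov_exp hVm h1).trans (mul_le_mul_left (ENNReal.ofReal_le_ofReal ?_) _)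
    apply quarter
    have e1 : 2 * k - k = k := by omega
    rw [e1, mul_comm]
    linarith
  -- regular part
  have hT : ∀ p, p < 2 → P {ω | ENNReal.ofReal (Real.exp (lam * u / 8)) ≤
      ENNReal.ofReal (Real.exp (lam / 2 * Tp c R k p (2 * k) ω))} ≤
      ENNReal.ofReal (1 / 4 * Real.exp (-(lam / 16 * u))) * P Set.univ := by
    intro p hp
    set i := (k + 1 - p) / 2 with hi
    have hi1 : 1 ≤ 2 * i + p := by omega
    have hi2 : 2 * i + p ≤ k + 1 := by omega
    have h1 := blocks (P := P) hcm hmono (θ := lam / 2) (by linarith) hv0 hR hF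
      (l := l) (by
        have : 2 * (lam / 2) * v0 + 2 = lam * v0 + 2 := by ring
        rw [this]; exact hl) p i hi1 r
    have hm : Measurable (Xe c R (lam / 2) p i (i + r * 2 ^ l)) :=
      (Xe_meas hcm R (lam / 2) p i (i + r * 2 ^ l)).mono (F.le _) le_rfl
    refine le_trans (measure_mono ?_) ((markov_exp hm h1 (a := lam * u / 8)).trans
      (mul_le_mul_left (ENNReal.ofReal_le_ofReal ?_) _))
    · intro ω hω
      simp only [Set.mem_setOf_eq] at hω ⊢
      refine hω.trans (ENNReal.ofReal_le_ofReal (Real.exp_le_exp.2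
        (mul_le_mul_of_nonneg_left ?_ (by linarith))))
      exact Tp_le_W hmono R hp hi2 hr ω
    · apply quarter
      linarith
  -- combination
  have hsub : {ω | u ≤ c (2 * k) ω - c k ω} ⊆ Lg ∪
      ({ω | ENNReal.ofReal (Real.exp (lam * u / 8)) ≤ V c s (lam / 4) n0 k k (2 * k) ω} ∪
      ({ω | ENNReal.ofReal (Real.exp (lam * u / 8)) ≤
        ENNReal.ofReal (Real.exp (lam / 2 * Tp c R k 0 (2 * k) ω))} ∪
      {ω | ENNReal.ofReal (Real.exp (lam * u / 8)) ≤
        ENNReal.ofReal (Real.exp (lam / 2 * Tp c R k 1 (2 * k) ω))})) := by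
    intro ω hω
    by_cases hL : ω ∈ Lg
    · exact Or.inl hL
    right
    have hno : ∀ e n : ℕ, k < e → e ≤ 2 * k → e < 4 * n → 2 * n ≤ e →
        c e ω - c (e - n) ω < n * s := by
      intro e n h1 h2 h3 h4
      by_contra hcon
      push Not at hcon
      apply hL
      rw [hLg, Set.mem_iUnion₂]
      refine ⟨(e, n), ?_, hcon⟩
      rw [hIx, Finset.mem_filter, Finset.mem_product, Finset.mem_range, Finset.mem_range]
      exact ⟨⟨by simp only; omega, by simp only; omega⟩, h1, h2, h3, h4⟩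
    have hdet := det hmono (θ := lam / 4) (by linarith) hs hsR hsR1 hk ω hno k (2 * k)
      (by omega) le_rfl
    have hTT := T_eq c R k (2 * k) ω
    have hω' : u ≤ c (2 * k) ω - c k ω := hω
    by_cases h1 : u / 2 ≤ T c R k (2 * k) ω
    · right
      by_cases h2 : u / 4 ≤ Tp c R k 0 (2 * k) ω
      · left
        exact ENNReal.ofReal_le_ofReal (Real.exp_le_exp.2 (by nlinarith))
      · right
        push Not at h2
        have h3 : u / 4 ≤ Tp c R k 1 (2 * k) ω := by linarith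
        exact ENNReal.ofReal_le_ofReal (Real.exp_le_exp.2 (by nlinarith))
    · left
      push Not at h1
      refine le_trans (ENNReal.ofReal_le_ofReal (Real.exp_le_exp.2 ?_)) hdet
      nlinarith
  refine (measure_mono hsub).trans ?_
  refine (measure_union_le _ _).trans ((add_le_add le_rfl ((measure_union_le _ _).trans
    (add_le_add le_rfl (measure_union_le _ _)))).trans ?_)
  refine (add_le_add hLgP (add_le_add hV (add_le_add (hT 0 (by norm_num)) (hT 1 (by norm_num))))).trans ?_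
  rw [← add_mul, ← add_mul, ← add_mul, ← ENNReal.ofReal_add (by positivity) (by positivity),
    ← ENNReal.ofReal_add (by positivity) (by positivity),
    ← ENNReal.ofReal_add (by positivity) (by positivity)]
  refine mul_le_mul_left (ENNReal.ofReal_le_ofReal (le_of_eq ?_)) _
  ring

/-! ### survival form -/

/-- **multi-scale lemma**, for a nonincreasing survival process `s`. -/
theorem multi {F : Filtration ℕ m0} {s : ℕ → Ω → ℝ≥0∞} (hsm : ∀ m, Measurable[F m] (s m))
    (hanti : ∀ m ω, s (m + 1) ω ≤ s m ω) (hfin : ∀ m ω, s m ω ≠ ∞)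
    {R σ lam v0 D u : ℝ} {k l r n0 : ℕ}
    (hlam : 0 < lam) (hv0 : 0 < v0) (hσ : 0 < σ) (hls : 2 ≤ lam * σ)
    (hn0 : 1 ≤ n0) (hsR : 2 * σ * n0 ≤ R) (hk : 3 ≤ k) (hk4 : 4 * n0 ≤ k)
    {B : Set Ω} (hB : MeasurableSet[F 0] B)
    (hF : ∀ a b : ℕ, 1 ≤ a → a < b → ∀ B', MeasurableSet[F (a - 1)] B' →
      P (B' ∩ {ω | s a ω ≠ 0 ∧ s b ω ≤ ENNReal.ofReal (Real.exp (-v0)) * s a ω}) ≤
        ENNReal.ofReal (Real.exp (-D)) * P B')
    (hb : ∀ e n : ℕ, n0 ≤ n → 2 * n ≤ e → e ≤ 2 * k → ∀ B', MeasurableSet[F (e - 2 * n)] B' →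
      P (B' ∩ {ω | s (e - n) ω ≠ 0 ∧ s e ω ≤
        ENNReal.ofReal (Real.exp (-(n * σ))) * s (e - n) ω}) ≤
        ENNReal.ofReal (Real.exp (-(lam * (n * σ)))) * P B')
    (hl : ((l : ℝ) + 1) * (lam * v0 + 2) + lam / 2 * R ≤ D)
    (hr : k ≤ r * 2 ^ l) (hru : r * (lam / 2 * v0 + 1) + 2 ≤ lam * u / 16)
    (hρ : k * Real.exp (-(lam * σ / 2 * ((n0 : ℝ) - 1))) + 2 ≤ lam * u / 16)
    (hcard : (2 * (k : ℝ) + 1) * (2 * (k : ℝ) + 1) ≤ Real.exp (lam * u / 8))
    (hu : u ≤ k * σ) :
    P (B ∩ {ω | s k ω ≠ 0 ∧ s (2 * k) ω ≤ ENNReal.ofReal (Real.exp (-u)) * s k ω}) ≤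
      ENNReal.ofReal (Real.exp (-(lam / 16 * u))) * P B := by
  have hk0 : (3 : ℝ) ≤ k := by exact_mod_cast hk
  have hlu : 32 ≤ lam * u := by
    have : 0 ≤ (k : ℝ) * Real.exp (-(lam * σ / 2 * ((n0 : ℝ) - 1))) := by positivity
    linarith
  have hupos : 0 < u := by
    by_contra hcon
    push Not at hcon
    nlinarith
  have hBm : MeasurableSet[m0] B := F.le 0 _ hB
  have hanti' : ∀ ω, Antitone fun m => s m ω := fun ω => antitone_nat_of_succ_le fun m => hanti m ω
  -- the event in real form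
  have hev : ∀ (ε : ℝ) (_ : 0 < ε) (x : ℝ) (_ : 0 < x) (a b : ℕ) (ω : Ω),
      x ≤ ce s ε b ω - ce s ε a ω →
        s a ω ≠ 0 ∧ s b ω ≤ ENNReal.ofReal (Real.exp (-x)) * s a ω := by
    intro ε hε x hx a b ω h
    obtain ⟨h1, h2⟩ := (ce_iff hε hx a b ω).1 h
    constructor
    · intro h0
      rw [h0] at h1
      simp at h1
      linarith
    · rw [← ENNReal.ofReal_toReal (hfin b ω), ← ENNReal.ofReal_toReal (hfin a ω),
        ← ENNReal.ofReal_mul (Real.exp_pos _).le]
      exact ENNReal.ofReal_le_ofReal h2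
  -- real version for every truncation
  have hmain : ∀ ε : ℝ, 0 < ε →
      P (B ∩ {ω | u ≤ ce s ε (2 * k) ω - ce s ε k ω}) ≤
        ENNReal.ofReal (Real.exp (-(lam / 16 * u))) * P B := by
    intro ε hε
    have hcm : ∀ m, Measurable[F m] (ce s ε m) := by
      intro m
      unfold ce
      exact (Real.measurable_log.comp
        ((ENNReal.measurable_toReal.comp (hsm m)).max measurable_const)).neg
    have hmono : ∀ ω, Monotone fun m => ce s ε m ω := by
      intro ω
      refine monotone_nat_of_le_succ fun m => ?_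
      unfold ce
      have h1 : max (s (m + 1) ω).toReal ε ≤ max (s m ω).toReal ε :=
        max_le_max (ENNReal.toReal_mono (hfin m ω) (hanti m ω)) le_rfl
      have h2 := Real.log_le_log (lt_max_of_lt_right hε) h1
      linarith
    have hmE : ∀ (x : ℝ) (a b : ℕ), MeasurableSet {ω | x ≤ ce s ε b ω - ce s ε a ω} :=
      fun x a b => measurableSet_le measurable_const
        (Measurable.sub ((hcm b).mono (F.le _) le_rfl) ((hcm a).mono (F.le _) le_rfl))
    have h1 := multi_real (P := P.restrict B) hcm hmono (u := u) hlam hv0.le hσ hls hn0 hsR hk hk4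
      (by
        intro a b ha hab B' hB'
        rw [Measure.restrict_apply' hBm, Measure.restrict_apply' hBm]
        refine le_trans (measure_mono ?_) (hF a b ha hab (B' ∩ B)
          (hB'.inter (F.mono (Nat.zero_le _) _ hB)))
        rintro ω ⟨⟨h2, h3⟩, h4⟩
        exact ⟨⟨h2, h4⟩, hev ε hε v0 hv0 a b ω h3⟩)
      (by
        intro e n hn1 hn2 hn3 B' hB'
        rw [Measure.restrict_apply' hBm, Measure.restrict_apply' hBm]
        refine le_trans (measure_mono ?_) (hb e n hn1 hn2 hn3 (B' ∩ B)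
          (hB'.inter (F.mono (Nat.zero_le _) _ hB)))
        rintro ω ⟨⟨h2, h3⟩, h4⟩
        have hn0 : (0 : ℝ) < n := by exact_mod_cast (by omega : 0 < n)
        exact ⟨⟨h2, h4⟩, hev ε hε (n * σ) (by positivity) (e - n) e ω h3⟩)
      hl hr hru hρ hcard hu
    rw [Measure.restrict_apply' hBm, Measure.restrict_apply' hBm, Set.univ_inter,
      Set.inter_comm] at h1
    exact h1
  -- exhaustion
  set Dn : ℕ → Set Ω := fun n => B ∩ {ω | u ≤ ce s ((n : ℝ) + 1)⁻¹ (2 * k) ω -
    ce s ((n : ℝ) + 1)⁻¹ k ω} with hD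
  have hDmono : Monotone Dn := by
    refine monotone_nat_of_le_succ fun n => ?_
    rintro ω ⟨h1, h2⟩
    refine ⟨h1, ?_⟩
    have hp1 : (0 : ℝ) < ((n : ℝ) + 1)⁻¹ := by positivity
    have hp2 : (0 : ℝ) < (((n + 1 : ℕ) : ℝ) + 1)⁻¹ := by positivity
    obtain ⟨h3, h4⟩ := (ce_iff hp1 hupos k (2 * k) ω).1 h2
    refine (ce_iff hp2 hupos k (2 * k) ω).2 ⟨le_trans ?_ h3, h4⟩
    apply inv_anti₀ (by positivity)
    push_cast
    linarith
  have hsub : B ∩ {ω | s k ω ≠ 0 ∧ s (2 * k) ω ≤ ENNReal.ofReal (Real.exp (-u)) * s k ω} ⊆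
      ⋃ n, Dn n := by
    rintro ω ⟨h1, h2, h3⟩
    have hA : 0 < (s k ω).toReal := ENNReal.toReal_pos h2 (hfin k ω)
    have hA' : 0 < Real.exp (-u) * (s k ω).toReal := mul_pos (Real.exp_pos _) hA
    obtain ⟨n, hn⟩ := exists_nat_one_div_lt hA'
    rw [Set.mem_iUnion]
    refine ⟨n, h1, (ce_iff (by positivity) hupos k (2 * k) ω).2 ⟨?_, ?_⟩⟩
    · rw [← one_div]; exact hn.le
    · have h4 := ENNReal.toReal_mono (ENNReal.mul_ne_top ENNReal.ofReal_ne_top (hfin k ω)) h3
      rw [ENNReal.toReal_mul, ENNReal.toReal_ofReal (Real.exp_pos _).le] at h4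
      exact h4
  refine (measure_mono hsub).trans ?_
  rw [hDmono.measure_iUnion]
  exact iSup_le fun n => hmain _ (by positivity)

end Crest.Agent.R154.Mult441
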