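import Crest.Agent.R154.Sun_95

/-!
# Row 154: long gaps between good octaves (MULTI lemma)

`c m` = cost (`-log Sh`) at level `h_0 + m y`, nondecreasing, adapted (`y` = a good octave).
Hypotheses, with `r = n0 * X`:
(a) one strength `r`, every window, given the past one unit below the window: probability `≤ η`;
(b) one slope `X` per unit, windows of `n ≥ n0` units, given the past `n` units below.
Conclusion: `P (c (2k) - c k ≥ u) ≤ exp (-(lam/16) u)` as soon as `16 r ≤ u ≤ k X` and
`k` is not larger than `u / η^c`: the window may be much longer than the strength.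
-/

set_option autoImplicit false
set_option linter.unusedVariables false
set_option linter.deprecated false

open MeasureTheory ENNReal Crest.Agent.R154.Sun95

namespace Crest.Agent.R154.Multi993

variable {Ω : Type*} {m0 : MeasurableSpace Ω} {P : Measure Ω}

/-! ### the steep part -/

/-- upper bound of `exp (θ * (cost of the steep part))` (fuel `j`), intervals of `n ≥ n0` units -/
noncomputable def V (c : ℕ → Ω → ℝ) (X θ : ℝ) (n0 k : ℕ) : ℕ → ℕ → Ω → ℝ≥0∞
  | 0, _ => fun _ => 1
  | j + 1, e => fun ω => if e ≤ k then 1 else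
      V c X θ n0 k j (e - 1) ω + ∑ n ∈ Finset.Icc n0 (e / 2),
        {ω' | (n : ℝ) * X ≤ c e ω' - c (e - n) ω'}.indicator
          (fun ω' => ENNReal.ofReal (Real.exp (2 * θ * (n * X))) * V c X θ n0 k j (e - 2 * n) ω') ω

/-- **the deterministic decomposition** -/
theorem det {c : ℕ → Ω → ℝ} (hmono : ∀ ω, Monotone fun m => c m ω) {X θ : ℝ}
    (hθ : 0 ≤ θ) {k n0 : ℕ} (hn0 : 1 ≤ n0) (hk : 4 * n0 ≤ k) (ω : Ω)
    (hno : ∀ e n : ℕ, k < e → e ≤ 2 * k → e < 4 * n → 2 * n ≤ e →
      c e ω - c (e - n) ω < n * X) :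
    ∀ j e, e ≤ k + j → e ≤ 2 * k →
      ENNReal.ofReal (Real.exp (θ * (c e ω - c k ω - T c (n0 * X) k e ω))) ≤
        V c X θ n0 k j e ω := by
  have hsmall : ∀ e, e ≤ k →
      ENNReal.ofReal (Real.exp (θ * (c e ω - c k ω - T c (n0 * X) k e ω))) ≤ 1 := by
    intro e he
    rw [ENNReal.ofReal_le_one, Real.exp_le_one_iff]
    have h1 := hmono ω he
    simp only at h1
    have h2 := T_nonneg hmono (n0 * X) k e ω
    exact mul_nonpos_of_nonneg_of_nonpos hθ (by linarith)
  intro j
  induction j with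
  | zero =>
    intro e he _
    exact hsmall e (by omega)
  | succ j ih =>
    intro e he he2
    simp only [V]
    split_ifs with hek
    · exact hsmall e hek
    push Not at hek
    obtain ⟨e', rfl⟩ : ∃ e', e = e' + 1 := ⟨e - 1, by omega⟩
    by_cases hZ : c (e' + 1) ω - c e' ω < n0 * X
    · refine le_trans ?_ (le_add_right (ih e' (by omega) (by omega)))
      rw [T_succ c (n0 * X) (by omega) ω]
      have : zz c (n0 * X) e' ω = c (e' + 1) ω - c e' ω := if_pos hZ
      rw [this]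
      apply le_of_eq
      congr 3
      ring
    · push Not at hZ
      set e := e' + 1 with he'
      -- the maximal steep interval
      let Q : ℕ → Prop := fun n => (n : ℝ) * X ≤ c e ω - c (e - n) ω
      have : DecidablePred Q := fun _ => Classical.propDecidable _
      set n := Nat.findGreatest Q (e / 4) with hn
      have he4 : n0 ≤ e / 4 := by omega
      have hQ1 : Q n0 := by
        show (n0 : ℝ) * X ≤ c e ω - c (e - n0) ω
        have h1 : c (e - n0) ω ≤ c e' ω := hmono ω (show e - n0 ≤ e' by omega)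
        linarith
      have hn1 : n0 ≤ n := Nat.le_findGreatest he4 hQ1
      have hQn : Q n := Nat.findGreatest_spec he4 hQ1
      have hnle : n ≤ e / 4 := Nat.findGreatest_le _
      have h4n : 4 * n ≤ e := by omega
      have hcost : c e ω - c (e - 2 * n) ω < 2 * (n * X) := by
        by_cases h2n : 2 * n ≤ e / 4
        · have : ¬ Q (2 * n) := Nat.findGreatest_is_greatest (by omega) h2n
          simp only [Q, not_le] at this
          push_cast at this
          linarith
        · have := hno e (2 * n) (by omega) he2 (by omega) (by omega)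
          push_cast at this
          linarith
      have hmem : n ∈ Finset.Icc n0 (e / 2) := Finset.mem_Icc.2 ⟨hn1, by omega⟩
      refine le_trans ?_ (le_add_left (Finset.single_le_sum
        (f := fun n : ℕ => {ω' | (n : ℝ) * X ≤ c e ω' - c (e - n) ω'}.indicator
          (fun ω' => ENNReal.ofReal (Real.exp (2 * θ * (n * X))) *
            V c X θ n0 k j (e - 2 * n) ω') ω) (fun _ _ => zero_le) hmem))
      have hind : ω ∈ {ω' | (n : ℝ) * X ≤ c e ω' - c (e - n) ω'} := hQn
      simp only [Set.indicator_of_mem hind]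
      refine le_trans ?_ (mul_le_mul_right (ih (e - 2 * n) (by omega) (by omega)) _)
      rw [← ENNReal.ofReal_mul (Real.exp_pos _).le, ← Real.exp_add]
      refine ENNReal.ofReal_le_ofReal (Real.exp_le_exp.2 ?_)
      have hT := T_mono hmono (n0 * X) k (show e - 2 * n ≤ e by omega) ω
      have : θ * (c e ω - c k ω - T c (n0 * X) k e ω) ≤
          θ * (2 * (n * X) + (c (e - 2 * n) ω - c k ω - T c (n0 * X) k (e - 2 * n) ω)) :=
        mul_le_mul_of_nonneg_left (by linarith) hθ
      calc _ ≤ _ := this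
        _ = _ := by ring

theorem V_meas {F : Filtration ℕ m0} {c : ℕ → Ω → ℝ} (hcm : ∀ m, Measurable[F m] (c m))
    (X θ : ℝ) (n0 k : ℕ) : ∀ j e, Measurable[F e] (V c X θ n0 k j e) := by
  intro j
  induction j with
  | zero => intro e; exact measurable_const
  | succ j ih =>
    intro e
    simp only [V]
    by_cases hek : e ≤ k
    · simp only [hek, if_true]; exact measurable_const
    · simp only [hek, if_false]
      refine Measurable.add ((ih (e - 1)).mono (F.mono (Nat.sub_le e 1)) le_rfl) ?_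
      refine Finset.measurable_sum _ fun n _ => ?_
      refine Measurable.indicator ?_ ?_
      · exact Measurable.const_mul ((ih (e - 2 * n)).mono (F.mono (Nat.sub_le _ _)) le_rfl) _
      · exact measurableSet_le measurable_const
          (Measurable.sub (hcm e) ((hcm (e - n)).mono (F.mono (Nat.sub_le _ _)) le_rfl))

/-- tail of the geometric series -/
theorem sum_half_tail (n0 M : ℕ) :
    ∑ n ∈ Finset.Icc n0 M, (2⁻¹ : ℝ≥0∞) ^ (n - n0) ≤ 2 := by
  have h1 : ∀ K, ∑ n ∈ Finset.range K, (2⁻¹ : ℝ≥0∞) ^ n ≤ 2 := by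
    intro K
    calc ∑ n ∈ Finset.range K, (2⁻¹ : ℝ≥0∞) ^ n ≤ ∑' n, (2⁻¹ : ℝ≥0∞) ^ n :=
          ENNReal.sum_le_tsum _
      _ = 2 := by
          rw [ENNReal.tsum_geometric, ENNReal.one_sub_inv_two, inv_inv]
  calc ∑ n ∈ Finset.Icc n0 M, (2⁻¹ : ℝ≥0∞) ^ (n - n0)
      = ∑ n ∈ Finset.Ico n0 (M + 1), (2⁻¹ : ℝ≥0∞) ^ (n - n0) := by
        congr 1
    _ = ∑ n ∈ Finset.range (M + 1 - n0), (2⁻¹ : ℝ≥0∞) ^ n := by
        rw [Finset.sum_Ico_eq_sum_range]
        refine Finset.sum_congr rfl fun n _ => ?_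
        congr 1
        omega
    _ ≤ 2 := h1 _

/-- steep part, exponential moment -/
theorem V_int {F : Filtration ℕ m0} {c : ℕ → Ω → ℝ} (hcm : ∀ m, Measurable[F m] (c m))
    {X lam : ℝ} (hlX : 2 ≤ lam * X) {n0 k : ℕ} (hn01 : 1 ≤ n0)
    (hb : ∀ e n : ℕ, n0 ≤ n → 2 * n ≤ e → e ≤ 2 * k → ∀ B, MeasurableSet[F (e - 2 * n)] B →
      P (B ∩ {ω | (n : ℝ) * X ≤ c e ω - c (e - n) ω}) ≤
        ENNReal.ofReal (Real.exp (-(lam * (n * X)))) * P B) :
    ∀ j e, e ≤ 2 * k → ∫⁻ ω, V c X (lam / 4) n0 k j e ω ∂P ≤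
      (1 + 2 * ENNReal.ofReal (Real.exp (-(lam / 2 * (n0 * X))))) ^ (e - k) * P Set.univ := by
  set M : ℝ≥0∞ := 1 + 2 * ENNReal.ofReal (Real.exp (-(lam / 2 * (n0 * X)))) with hM
  have hM1 : 1 ≤ M := le_self_add
  have hone : ∀ a : ℕ, P Set.univ ≤ M ^ a * P Set.univ := by
    intro a
    calc P Set.univ = 1 * P Set.univ := (one_mul _).symm
      _ ≤ _ := mul_le_mul_left (one_le_pow₀ hM1) _
  intro j
  induction j with
  | zero => intro e _; simp only [V]; rw [lintegral_one]; exact hone _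
  | succ j ih =>
    intro e he2
    simp only [V]
    by_cases hek : e ≤ k
    · simp only [hek, if_true]; rw [lintegral_one]; exact hone _
    · simp only [hek, if_false]
      have hmE : ∀ n : ℕ, MeasurableSet {ω' | (n : ℝ) * X ≤ c e ω' - c (e - n) ω'} := fun n =>
        measurableSet_le measurable_const
          (Measurable.sub ((hcm e).mono (F.le _) le_rfl) ((hcm (e - n)).mono (F.le _) le_rfl))
      rw [lintegral_add_left ((V_meas hcm X (lam / 4) n0 k j (e - 1)).mono (F.le _) le_rfl),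
        lintegral_finset_sum _ fun n _ => Measurable.indicator
          (Measurable.const_mul ((V_meas hcm X (lam / 4) n0 k j (e - 2 * n)).mono (F.le _) le_rfl) _)
          (hmE n)]
      have h1 := ih (e - 1) (by omega)
      have h2 : ∀ n ∈ Finset.Icc n0 (e / 2),
          ∫⁻ ω, {ω' | (n : ℝ) * X ≤ c e ω' - c (e - n) ω'}.indicator
            (fun ω' => ENNReal.ofReal (Real.exp (2 * (lam / 4) * (n * X))) *
              V c X (lam / 4) n0 k j (e - 2 * n) ω') ω ∂P ≤
            (2⁻¹ : ℝ≥0∞) ^ (n - n0) * (ENNReal.ofReal (Real.exp (-(lam / 2 * (n0 * X)))) *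
              (M ^ (e - 1 - k) * P Set.univ)) := by
        intro n hn
        rw [Finset.mem_Icc] at hn
        have h3 := lint_ind_le (P := P) (F.le (e - 2 * n)) (hmE n)
          (hb e n hn.1 (by omega) he2)
          (f := fun ω' => ENNReal.ofReal (Real.exp (2 * (lam / 4) * (n * X))) *
              V c X (lam / 4) n0 k j (e - 2 * n) ω')
          (Measurable.const_mul (V_meas hcm X (lam / 4) n0 k j (e - 2 * n)) _)
        refine h3.trans ?_
        rw [lintegral_const_mul _ ((V_meas hcm X (lam / 4) n0 k j (e - 2 * n)).mono (F.le _) le_rfl),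
          ← mul_assoc, ← ENNReal.ofReal_mul (Real.exp_pos _).le, ← Real.exp_add]
        have h4 := half_pow (t := lam * X / 2) (by linarith) (n - n0)
        have h5 : ENNReal.ofReal (Real.exp (-(lam * X / 2 * ((n - n0 : ℕ) : ℝ)))) *
            ENNReal.ofReal (Real.exp (-(lam / 2 * (n0 * X)))) ≤
            (2⁻¹ : ℝ≥0∞) ^ (n - n0) * ENNReal.ofReal (Real.exp (-(lam / 2 * (n0 * X)))) :=
          mul_le_mul_left h4 _
        have h6 : ENNReal.ofReal (Real.exp (-(lam * (n * X)) + 2 * (lam / 4) * (n * X))) ≤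
            (2⁻¹ : ℝ≥0∞) ^ (n - n0) * ENNReal.ofReal (Real.exp (-(lam / 2 * (n0 * X)))) := by
          refine le_trans (le_of_eq ?_) h5
          rw [← ENNReal.ofReal_mul (Real.exp_pos _).le, ← Real.exp_add]
          congr 2
          rw [Nat.cast_sub hn.1]
          ring
        have h7 : ∫⁻ ω, V c X (lam / 4) n0 k j (e - 2 * n) ω ∂P ≤ M ^ (e - 1 - k) * P Set.univ :=
          (ih (e - 2 * n) (by omega)).trans
            (mul_le_mul_left (pow_le_pow_right₀ hM1 (by omega)) _)
        calc _ ≤ ((2⁻¹ : ℝ≥0∞) ^ (n - n0) * ENNReal.ofReal (Real.exp (-(lam / 2 * (n0 * X))))) *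
              (M ^ (e - 1 - k) * P Set.univ) := mul_le_mul' h6 h7
          _ = _ := mul_assoc _ _ _
      calc _ ≤ M ^ (e - 1 - k) * P Set.univ + ∑ n ∈ Finset.Icc n0 (e / 2),
            (2⁻¹ : ℝ≥0∞) ^ (n - n0) * (ENNReal.ofReal (Real.exp (-(lam / 2 * (n0 * X)))) *
              (M ^ (e - 1 - k) * P Set.univ)) :=
            add_le_add h1 (Finset.sum_le_sum h2)
        _ = M ^ (e - 1 - k) * P Set.univ + (∑ n ∈ Finset.Icc n0 (e / 2), (2⁻¹ : ℝ≥0∞) ^ (n - n0)) *
            (ENNReal.ofReal (Real.exp (-(lam / 2 * (n0 * X)))) *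
              (M ^ (e - 1 - k) * P Set.univ)) := by rw [← Finset.sum_mul]
        _ ≤ M ^ (e - 1 - k) * P Set.univ + 2 *
            (ENNReal.ofReal (Real.exp (-(lam / 2 * (n0 * X)))) *
              (M ^ (e - 1 - k) * P Set.univ)) := by
            gcongr
            exact sum_half_tail _ _
        _ = M * (M ^ (e - 1 - k) * P Set.univ) := by
            rw [hM]; ring
        _ = M ^ (e - k) * P Set.univ := by
            rw [← mul_assoc, ← pow_succ']
            congr 2
            omega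

/-! ### the regular part -/

/-- `b` is the first level where the regular part from `e` reaches `r` -/
def fb (c : ℕ → Ω → ℝ) (r : ℝ) (e b : ℕ) : Set Ω :=
  {ω | r ≤ T c r e b ω ∧ T c r e (b - 1) ω < r}

/-- upper bound of `exp (θ * (regular part))`, blocks of strength `r`, weight `a` per block -/
noncomputable def Phi (c : ℕ → Ω → ℝ) (r : ℝ) (a : ℝ≥0∞) (K : ℕ) : ℕ → ℕ → Ω → ℝ≥0∞
  | 0, _ => fun _ => 1
  | j + 1, e => fun ω => if K ≤ e then 1 else
      Phi c r a K j (e + 1) ω + ∑ b ∈ Finset.Ioc e K,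
        (fb c r e b).indicator (fun ω' => a * Phi c r a K j (b + 1) ω') ω

theorem one_le_Phi (c : ℕ → Ω → ℝ) (r : ℝ) (a : ℝ≥0∞) (K : ℕ) (ω : Ω) :
    ∀ j e, 1 ≤ Phi c r a K j e ω := by
  intro j
  induction j with
  | zero => intro e; exact le_rfl
  | succ j ih =>
    intro e
    simp only [Phi]
    split_ifs with h
    · exact le_rfl
    · exact le_add_right (ih (e + 1))

theorem zz_le {c : ℕ → Ω → ℝ} {r : ℝ} (hr : 0 < r) (m : ℕ) (ω : Ω) : zz c r m ω ≤ r := by
  unfold zz
  split_ifs with h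
  · exact h.le
  · exact hr.le

theorem T_self (c : ℕ → Ω → ℝ) (r : ℝ) {a b : ℕ} (h : b ≤ a) (ω : Ω) : T c r a b ω = 0 := by
  unfold T
  rw [Finset.Ico_eq_empty_of_le h, Finset.sum_empty]

theorem T_split (c : ℕ → Ω → ℝ) (r : ℝ) {e b K : ℕ} (h1 : e ≤ b) (h2 : b ≤ K) (ω : Ω) :
    T c r e K ω = T c r e b ω + T c r b K ω := (Finset.sum_Ico_consecutive _ h1 h2).symm

theorem T_first (c : ℕ → Ω → ℝ) (r : ℝ) {b K : ℕ} (h : b < K) (ω : Ω) :
    T c r b K ω = zz c r b ω + T c r (b + 1) K ω := by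
  rw [T_split c r (Nat.le_succ b) (Nat.succ_le_of_lt h)]
  congr 1
  rw [T_succ c r le_rfl, T_self c r le_rfl, zero_add]

/-- **the deterministic part** -/
theorem detR {c : ℕ → Ω → ℝ} (hmono : ∀ ω, Monotone fun m => c m ω) {r θ : ℝ} (hr : 0 < r)
    (hθ : 0 ≤ θ) (K : ℕ) (ω : Ω) : ∀ j e, K ≤ e + j →
      ENNReal.ofReal (Real.exp (θ * T c r e K ω)) ≤
        ENNReal.ofReal (Real.exp (θ * r)) *
          Phi c r (ENNReal.ofReal (Real.exp (3 * (θ * r)))) K j e ω := by
  have hbase : ∀ e j, T c r e K ω ≤ r → ENNReal.ofReal (Real.exp (θ * T c r e K ω)) ≤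
        ENNReal.ofReal (Real.exp (θ * r)) *
          Phi c r (ENNReal.ofReal (Real.exp (3 * (θ * r)))) K j e ω := by
    intro e j h
    calc ENNReal.ofReal (Real.exp (θ * T c r e K ω)) ≤ ENNReal.ofReal (Real.exp (θ * r)) :=
          ENNReal.ofReal_le_ofReal (Real.exp_le_exp.2 (mul_le_mul_of_nonneg_left h hθ))
      _ = ENNReal.ofReal (Real.exp (θ * r)) * 1 := (mul_one _).symm
      _ ≤ _ := mul_le_mul_right (one_le_Phi _ _ _ _ _ _ _) _
  intro j
  induction j with
  | zero =>
    intro e he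
    exact hbase e 0 (by rw [T_self c r (by omega)]; exact hr.le)
  | succ j ih =>
    intro e he
    by_cases hTr : T c r e K ω < r
    · exact hbase e (j + 1) hTr.le
    push Not at hTr
    have heK : e < K := by
      by_contra hcon
      push Not at hcon
      rw [T_self c r hcon] at hTr
      linarith
    classical
    have hex : ∃ b, r ≤ T c r e b ω := ⟨K, hTr⟩
    set b := Nat.find hex with hb
    have hb1 : r ≤ T c r e b ω := Nat.find_spec hex
    have hbK : b ≤ K := Nat.find_min' hex hTr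
    have heb : e < b := by
      by_contra hcon
      push Not at hcon
      rw [T_self c r hcon] at hb1
      linarith
    have hb2 : T c r e (b - 1) ω < r := by
      have := Nat.find_min hex (m := b - 1) (by omega)
      push Not at this
      exact this
    have hmem : b ∈ Finset.Ioc e K := Finset.mem_Ioc.2 ⟨heb, hbK⟩
    have hT1 : T c r e b ω ≤ 2 * r := by
      obtain ⟨b', hb'⟩ : ∃ b', b = b' + 1 := ⟨b - 1, by omega⟩
      rw [hb'] at hb2 ⊢
      rw [Nat.add_sub_cancel] at hb2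
      rw [T_succ c r (by omega)]
      have := zz_le (c := c) hr b' ω
      linarith
    have hT2 : T c r b K ω ≤ r + T c r (b + 1) K ω := by
      rcases hbK.lt_or_eq with h | h
      · rw [T_first c r h]
        have := zz_le (c := c) hr b ω
        linarith
      · rw [T_self c r h.ge, T_self c r (by omega)]
        linarith
    have hT3 : T c r e K ω ≤ 3 * r + T c r (b + 1) K ω := by
      rw [T_split c r heb.le hbK]
      linarith
    have hphi : ENNReal.ofReal (Real.exp (3 * (θ * r))) *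
        Phi c r (ENNReal.ofReal (Real.exp (3 * (θ * r)))) K j (b + 1) ω ≤
          Phi c r (ENNReal.ofReal (Real.exp (3 * (θ * r)))) K (j + 1) e ω := by
      simp only [Phi]
      rw [if_neg (by omega)]
      refine le_trans ?_ (le_add_left (Finset.single_le_sum
        (f := fun b : ℕ => (fb c r e b).indicator (fun ω' =>
          ENNReal.ofReal (Real.exp (3 * (θ * r))) *
            Phi c r (ENNReal.ofReal (Real.exp (3 * (θ * r)))) K j (b + 1) ω') ω)
          (fun _ _ => zero_le) hmem))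
      have hind : ω ∈ fb c r e b := ⟨hb1, hb2⟩
      simp only [Set.indicator_of_mem hind]
      exact le_rfl
    calc ENNReal.ofReal (Real.exp (θ * T c r e K ω))
        ≤ ENNReal.ofReal (Real.exp (3 * (θ * r))) *
          ENNReal.ofReal (Real.exp (θ * T c r (b + 1) K ω)) := by
          rw [← ENNReal.ofReal_mul (Real.exp_pos _).le, ← Real.exp_add]
          refine ENNReal.ofReal_le_ofReal (Real.exp_le_exp.2 ?_)
          have := mul_le_mul_of_nonneg_left hT3 hθ
          linarith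
      _ ≤ ENNReal.ofReal (Real.exp (3 * (θ * r))) * (ENNReal.ofReal (Real.exp (θ * r)) *
          Phi c r (ENNReal.ofReal (Real.exp (3 * (θ * r)))) K j (b + 1) ω) :=
          mul_le_mul_right (ih (b + 1) (by omega)) _
      _ = ENNReal.ofReal (Real.exp (θ * r)) * (ENNReal.ofReal (Real.exp (3 * (θ * r))) *
          Phi c r (ENNReal.ofReal (Real.exp (3 * (θ * r)))) K j (b + 1) ω) := by ring
      _ ≤ _ := mul_le_mul_right hphi _

theorem T_meas {F : Filtration ℕ m0} {c : ℕ → Ω → ℝ} (hcm : ∀ m, Measurable[F m] (c m))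
    (r : ℝ) (e b : ℕ) : Measurable[F b] (T c r e b) := by
  unfold T
  refine Finset.measurable_sum _ fun i hi => ?_
  rw [Finset.mem_Ico] at hi
  exact (zz_meas hcm r i).mono (F.mono (by omega)) le_rfl

theorem fb_meas {F : Filtration ℕ m0} {c : ℕ → Ω → ℝ} (hcm : ∀ m, Measurable[F m] (c m))
    (r : ℝ) (e b : ℕ) : MeasurableSet[F b] (fb c r e b) := by
  unfold fb
  exact (measurableSet_le measurable_const (T_meas hcm r e b)).inter
    (measurableSet_lt ((T_meas hcm r e (b - 1)).mono (F.mono (Nat.sub_le b 1)) le_rfl)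
      measurable_const)

theorem Phi_meas {F : Filtration ℕ m0} {c : ℕ → Ω → ℝ} (hcm : ∀ m, Measurable[F m] (c m))
    (r : ℝ) (a : ℝ≥0∞) (K : ℕ) : ∀ j e, Measurable (Phi c r a K j e) := by
  intro j
  induction j with
  | zero => intro e; exact measurable_const
  | succ j ih =>
    intro e
    simp only [Phi]
    by_cases hek : K ≤ e
    · simp only [hek, if_true]; exact measurable_const
    · simp only [hek, if_false]
      refine Measurable.add (ih (e + 1)) ?_
      refine Finset.measurable_sum _ fun b _ => ?_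
      exact Measurable.indicator (Measurable.const_mul (ih (b + 1)) _) (F.le _ _ (fb_meas hcm r e b))

/-- regular part, exponential moment -/
theorem Phi_int {F : Filtration ℕ m0} {c : ℕ → Ω → ℝ} (hcm : ∀ m, Measurable[F m] (c m))
    (hmono : ∀ ω, Monotone fun m => c m ω) {r : ℝ} {a η : ℝ≥0∞} {k K : ℕ}
    (ha : ∀ e, k ≤ e → e < K → ∀ B, MeasurableSet[F (e - 1)] B →
      P (B ∩ {ω | r ≤ c K ω - c e ω}) ≤ η * P B) :
    ∀ j e, k ≤ e → ∀ B, MeasurableSet[F (e - 1)] B →
      ∫⁻ ω in B, Phi c r a K j e ω ∂P ≤ (1 + a * η) ^ (K - e) * P B := by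
  have hM1 : 1 ≤ 1 + a * η := le_self_add
  have hone : ∀ (n : ℕ) (B : Set Ω), P B ≤ (1 + a * η) ^ n * P B := by
    intro n B
    calc P B = 1 * P B := (one_mul _).symm
      _ ≤ _ := mul_le_mul_left (one_le_pow₀ hM1) _
  intro j
  induction j with
  | zero => intro e _ B _; simp only [Phi]; rw [lintegral_one, Measure.restrict_apply_univ]
            exact hone _ _
  | succ j ih =>
    intro e hke B hB
    simp only [Phi]
    by_cases hek : K ≤ e
    · simp only [hek, if_true]; rw [lintegral_one, Measure.restrict_apply_univ]; exact hone _ _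
    · simp only [hek, if_false]
      push Not at hek
      rw [lintegral_add_left (Phi_meas hcm r a K j (e + 1)),
        lintegral_finset_sum _ fun b _ => Measurable.indicator
          (Measurable.const_mul (Phi_meas hcm r a K j (b + 1)) _) (F.le _ _ (fb_meas hcm r e b))]
      have hB1 : MeasurableSet[F (e + 1 - 1)] B := F.mono (by omega) _ hB
      have h1 := ih (e + 1) (by omega) B hB1
      have h2 : ∀ b ∈ Finset.Ioc e K,
          ∫⁻ ω in B, (fb c r e b).indicator (fun ω' => a * Phi c r a K j (b + 1) ω') ω ∂P ≤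
            a * ((1 + a * η) ^ (K - (e + 1)) * P (B ∩ fb c r e b)) := by
        intro b hb
        rw [Finset.mem_Ioc] at hb
        have hfm : MeasurableSet (fb c r e b) := F.le _ _ (fb_meas hcm r e b)
        rw [lintegral_indicator hfm, Measure.restrict_restrict hfm,
          lintegral_const_mul _ (Phi_meas hcm r a K j (b + 1)), Set.inter_comm]
        have hB2 : MeasurableSet[F (b + 1 - 1)] (B ∩ fb c r e b) := by
          rw [Nat.add_sub_cancel]
          exact (F.mono (by omega) _ hB : MeasurableSet[F b] B).inter (fb_meas hcm r e b)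
        refine mul_le_mul_right ((ih (b + 1) (by omega) _ hB2).trans
          (mul_le_mul_left (pow_le_pow_right₀ hM1 (by omega)) _)) _
      have h3 : ∑ b ∈ Finset.Ioc e K, P (B ∩ fb c r e b) ≤ η * P B := by
        refine le_trans ?_ (ha e hke hek B hB)
        rw [← measure_biUnion_finset]
        · refine measure_mono ?_
          intro ω hω
          rw [Set.mem_iUnion₂] at hω
          obtain ⟨b, hb, hωB, hωb⟩ := hω
          rw [Finset.mem_Ioc] at hb
          refine ⟨hωB, ?_⟩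
          have h4 : T c r e b ω ≤ c b ω - c e ω := by
            have : ∀ n, T c r e (e + n) ω ≤ c (e + n) ω - c e ω := by
              intro n
              induction n with
              | zero => rw [Nat.add_zero, T_self c r le_rfl]; simp
              | succ n ih2 =>
                rw [← Nat.add_assoc, T_succ c r (by omega)]
                have h5 : zz c r (e + n) ω ≤ c (e + n + 1) ω - c (e + n) ω := by
                  unfold zz
                  split_ifs
                  · exact le_rfl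
                  · have := hmono ω (Nat.le_succ (e + n))
                    simp only at this
                    linarith
                linarith
            have h6 := this (b - e)
            rwa [Nat.add_sub_cancel' hb.1.le] at h6
          have h7 : c b ω ≤ c K ω := hmono ω hb.2
          have h8 := hωb.1
          show r ≤ c K ω - c e ω
          linarith
        · intro b hb b' hb' hne
          have hdis : ∀ b b' : ℕ, b < b' → Disjoint (B ∩ fb c r e b) (B ∩ fb c r e b') := by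
            intro b b' hlt
            rw [Set.disjoint_left]
            rintro ω ⟨_, h5, _⟩ ⟨_, _, h6⟩
            have := T_mono hmono r e (show b ≤ b' - 1 by omega) ω
            linarith
          rcases lt_or_gt_of_ne hne with h | h
          · exact hdis b b' h
          · exact (hdis b' b h).symm
        · intro b _
          exact (F.le _ _ hB).inter (F.le _ _ (fb_meas hcm r e b))
      calc _ ≤ (1 + a * η) ^ (K - (e + 1)) * P B +
            ∑ b ∈ Finset.Ioc e K, a * ((1 + a * η) ^ (K - (e + 1)) * P (B ∩ fb c r e b)) :=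
            add_le_add h1 (Finset.sum_le_sum h2)
        _ = (1 + a * η) ^ (K - (e + 1)) * P B +
            a * ((1 + a * η) ^ (K - (e + 1)) * ∑ b ∈ Finset.Ioc e K, P (B ∩ fb c r e b)) := by
            rw [← Finset.mul_sum, ← Finset.mul_sum]
        _ ≤ (1 + a * η) ^ (K - (e + 1)) * P B +
            a * ((1 + a * η) ^ (K - (e + 1)) * (η * P B)) := by gcongr
        _ = (1 + a * η) ^ (K - (e + 1)) * (1 + a * η) * P B := by ring
        _ = (1 + a * η) ^ (K - e) * P B := by
            rw [← pow_succ]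
            congr 2
            omega

/-! ### the regular part, unit form -/

/-- upper bound of `exp (θ * (regular part))`, one unit of strength `≥ ε`, weight `a` per unit -/
noncomputable def Psi (c : ℕ → Ω → ℝ) (ε : ℝ) (a : ℝ≥0∞) (K : ℕ) : ℕ → ℕ → Ω → ℝ≥0∞
  | 0, _ => fun _ => 1
  | j + 1, e => fun ω => if K ≤ e then 1 else
      Psi c ε a K j (e + 1) ω +
        {ω' | ε ≤ c (e + 1) ω' - c e ω'}.indicator (fun ω' => a * Psi c ε a K j (e + 2) ω') ω

theorem one_le_Psi (c : ℕ → Ω → ℝ) (ε : ℝ) (a : ℝ≥0∞) (K : ℕ) (ω : Ω) :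
    ∀ j e, 1 ≤ Psi c ε a K j e ω := by
  intro j
  induction j with
  | zero => intro e; exact le_rfl
  | succ j ih =>
    intro e
    simp only [Psi]
    split_ifs with h
    · exact le_rfl
    · exact le_add_right (ih (e + 1))

/-- **the deterministic part** -/
theorem detT {c : ℕ → Ω → ℝ} (hmono : ∀ ω, Monotone fun m => c m ω) {r θ ε : ℝ} (hr : 0 < r)
    (hε : 0 ≤ ε) (hθ : 0 ≤ θ) (K : ℕ) (ω : Ω) : ∀ j e, K ≤ e + j →
      ENNReal.ofReal (Real.exp (θ * T c r e K ω)) ≤
        ENNReal.ofReal (Real.exp (θ * (ε * ((K - e : ℕ) : ℝ)))) *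
          Psi c ε (ENNReal.ofReal (Real.exp (2 * (θ * r)))) K j e ω := by
  have hbase : ∀ e j, K ≤ e → ENNReal.ofReal (Real.exp (θ * T c r e K ω)) ≤
        ENNReal.ofReal (Real.exp (θ * (ε * ((K - e : ℕ) : ℝ)))) *
          Psi c ε (ENNReal.ofReal (Real.exp (2 * (θ * r)))) K j e ω := by
    intro e j h
    have h0 : K - e = 0 := by omega
    rw [T_self c r h, h0]
    simp only [mul_zero, Real.exp_zero, ENNReal.ofReal_one, Nat.cast_zero, one_mul]
    exact one_le_Psi _ _ _ _ _ _ _
  intro j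
  induction j with
  | zero =>
    intro e he
    exact hbase e 0 (by omega)
  | succ j ih =>
    intro e he
    by_cases heK : K ≤ e
    · exact hbase e (j + 1) heK
    push Not at heK
    have hK1 : ((K - e : ℕ) : ℝ) = ((K - (e + 1) : ℕ) : ℝ) + 1 := by
      have : K - e = (K - (e + 1)) + 1 := by omega
      rw [this]; push_cast; ring
    by_cases hz : ε ≤ c (e + 1) ω - c e ω
    · -- a bad unit
      have hT1 : T c r e K ω ≤ 2 * r + T c r (e + 2) K ω := by
        rw [T_first c r heK]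
        have h1 := zz_le (c := c) hr e ω
        rcases (Nat.succ_le_of_lt heK).lt_or_eq with h | h
        · have h2 : T c r (e + 1) K ω = zz c r (e + 1) ω + T c r (e + 2) K ω :=
            T_first c r h ω
          have h3 := zz_le (c := c) hr (e + 1) ω
          linarith
        · have h2 : T c r (e + 1) K ω = 0 := T_self c r h.ge ω
          have h3 : T c r (e + 2) K ω = 0 := T_self c r (by omega) ω
          linarith
      have hpsi : ENNReal.ofReal (Real.exp (2 * (θ * r))) *
          Psi c ε (ENNReal.ofReal (Real.exp (2 * (θ * r)))) K j (e + 2) ω ≤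
            Psi c ε (ENNReal.ofReal (Real.exp (2 * (θ * r)))) K (j + 1) e ω := by
        simp only [Psi]
        rw [if_neg (by omega)]
        have hind : ω ∈ {ω' | ε ≤ c (e + 1) ω' - c e ω'} := hz
        rw [Set.indicator_of_mem hind]
        exact le_add_left le_rfl
      have hε2 : ENNReal.ofReal (Real.exp (θ * (ε * ((K - (e + 2) : ℕ) : ℝ)))) ≤
          ENNReal.ofReal (Real.exp (θ * (ε * ((K - e : ℕ) : ℝ)))) := by
        refine ENNReal.ofReal_le_ofReal (Real.exp_le_exp.2 ?_)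
        refine mul_le_mul_of_nonneg_left (mul_le_mul_of_nonneg_left ?_ hε) hθ
        exact_mod_cast (by omega : K - (e + 2) ≤ K - e)
      calc ENNReal.ofReal (Real.exp (θ * T c r e K ω))
          ≤ ENNReal.ofReal (Real.exp (2 * (θ * r))) *
            ENNReal.ofReal (Real.exp (θ * T c r (e + 2) K ω)) := by
            rw [← ENNReal.ofReal_mul (Real.exp_pos _).le, ← Real.exp_add]
            refine ENNReal.ofReal_le_ofReal (Real.exp_le_exp.2 ?_)
            have := mul_le_mul_of_nonneg_left hT1 hθ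
            linarith
        _ ≤ ENNReal.ofReal (Real.exp (2 * (θ * r))) *
            (ENNReal.ofReal (Real.exp (θ * (ε * ((K - (e + 2) : ℕ) : ℝ)))) *
              Psi c ε (ENNReal.ofReal (Real.exp (2 * (θ * r)))) K j (e + 2) ω) :=
            mul_le_mul_right (ih (e + 2) (by omega)) _
        _ = ENNReal.ofReal (Real.exp (θ * (ε * ((K - (e + 2) : ℕ) : ℝ)))) *
            (ENNReal.ofReal (Real.exp (2 * (θ * r))) *
              Psi c ε (ENNReal.ofReal (Real.exp (2 * (θ * r)))) K j (e + 2) ω) := by ring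
        _ ≤ _ := mul_le_mul' hε2 hpsi
    · -- a good unit
      push Not at hz
      have hz1 : zz c r e ω ≤ ε := by
        unfold zz
        split_ifs
        · exact hz.le
        · exact hε
      have hpsi : Psi c ε (ENNReal.ofReal (Real.exp (2 * (θ * r)))) K j (e + 1) ω ≤
            Psi c ε (ENNReal.ofReal (Real.exp (2 * (θ * r)))) K (j + 1) e ω := by
        simp only [Psi]
        rw [if_neg (by omega)]
        exact le_add_right le_rfl
      calc ENNReal.ofReal (Real.exp (θ * T c r e K ω))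
          ≤ ENNReal.ofReal (Real.exp (θ * ε)) *
            ENNReal.ofReal (Real.exp (θ * T c r (e + 1) K ω)) := by
            rw [← ENNReal.ofReal_mul (Real.exp_pos _).le, ← Real.exp_add, T_first c r heK]
            refine ENNReal.ofReal_le_ofReal (Real.exp_le_exp.2 ?_)
            have := mul_le_mul_of_nonneg_left hz1 hθ
            linarith
        _ ≤ ENNReal.ofReal (Real.exp (θ * ε)) *
            (ENNReal.ofReal (Real.exp (θ * (ε * ((K - (e + 1) : ℕ) : ℝ)))) *
              Psi c ε (ENNReal.ofReal (Real.exp (2 * (θ * r)))) K j (e + 1) ω) :=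
            mul_le_mul_right (ih (e + 1) (by omega)) _
        _ = ENNReal.ofReal (Real.exp (θ * (ε * ((K - e : ℕ) : ℝ)))) *
              Psi c ε (ENNReal.ofReal (Real.exp (2 * (θ * r)))) K j (e + 1) ω := by
            rw [← mul_assoc, ← ENNReal.ofReal_mul (Real.exp_pos _).le, ← Real.exp_add, hK1]
            congr 3
            ring
        _ ≤ _ := mul_le_mul_right hpsi _

theorem Psi_meas {F : Filtration ℕ m0} {c : ℕ → Ω → ℝ} (hcm : ∀ m, Measurable[F m] (c m))
    (ε : ℝ) (a : ℝ≥0∞) (K : ℕ) : ∀ j e, Measurable (Psi c ε a K j e) := by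
  intro j
  induction j with
  | zero => intro e; exact measurable_const
  | succ j ih =>
    intro e
    simp only [Psi]
    by_cases hek : K ≤ e
    · simp only [hek, if_true]; exact measurable_const
    · simp only [hek, if_false]
      refine Measurable.add (ih (e + 1)) ?_
      exact Measurable.indicator (Measurable.const_mul (ih (e + 2)) _)
        (measurableSet_le measurable_const
          (Measurable.sub ((hcm (e + 1)).mono (F.le _) le_rfl) ((hcm e).mono (F.le _) le_rfl)))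

/-- regular part in unit form, exponential moment -/
theorem Psi_int {F : Filtration ℕ m0} {c : ℕ → Ω → ℝ} (hcm : ∀ m, Measurable[F m] (c m))
    {ε : ℝ} {a η : ℝ≥0∞} {k K : ℕ}
    (ht : ∀ e, k ≤ e → e < K → ∀ B, MeasurableSet[F (e - 1)] B →
      P (B ∩ {ω | ε ≤ c (e + 1) ω - c e ω}) ≤ η * P B) :
    ∀ j e, k ≤ e → ∀ B, MeasurableSet[F (e - 1)] B →
      ∫⁻ ω in B, Psi c ε a K j e ω ∂P ≤ (1 + a * η) ^ (K - e) * P B := by
  have hM1 : 1 ≤ 1 + a * η := le_self_add
  have hone : ∀ (n : ℕ) (B : Set Ω), P B ≤ (1 + a * η) ^ n * P B := by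
    intro n B
    calc P B = 1 * P B := (one_mul _).symm
      _ ≤ _ := mul_le_mul_left (one_le_pow₀ hM1) _
  intro j
  induction j with
  | zero => intro e _ B _; simp only [Psi]; rw [lintegral_one, Measure.restrict_apply_univ]
            exact hone _ _
  | succ j ih =>
    intro e hke B hB
    simp only [Psi]
    by_cases hek : K ≤ e
    · simp only [hek, if_true]; rw [lintegral_one, Measure.restrict_apply_univ]; exact hone _ _
    · simp only [hek, if_false]
      push Not at hek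
      have hEm1 : MeasurableSet[F (e + 1)] {ω' | ε ≤ c (e + 1) ω' - c e ω'} :=
        measurableSet_le measurable_const
          (Measurable.sub (hcm (e + 1)) ((hcm e).mono (F.mono (Nat.le_succ e)) le_rfl))
      have hEm : MeasurableSet {ω' | ε ≤ c (e + 1) ω' - c e ω'} := F.le _ _ hEm1
      rw [lintegral_add_left (Psi_meas hcm ε a K j (e + 1))]
      have hB1 : MeasurableSet[F (e + 1 - 1)] B := F.mono (by omega) _ hB
      have h1 := ih (e + 1) (by omega) B hB1
      have h2 : ∫⁻ ω in B, {ω' | ε ≤ c (e + 1) ω' - c e ω'}.indicator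
            (fun ω' => a * Psi c ε a K j (e + 2) ω') ω ∂P ≤
            a * ((1 + a * η) ^ (K - (e + 1)) * (η * P B)) := by
        rw [lintegral_indicator hEm, Measure.restrict_restrict hEm,
          lintegral_const_mul _ (Psi_meas hcm ε a K j (e + 2)), Set.inter_comm]
        have hB2 : MeasurableSet[F (e + 2 - 1)] (B ∩ {ω' | ε ≤ c (e + 1) ω' - c e ω'}) := by
          show MeasurableSet[F (e + 1)] _
          exact (F.mono (by omega) _ hB : MeasurableSet[F (e + 1)] B).inter hEm1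
        refine mul_le_mul_right ((ih (e + 2) (by omega) _ hB2).trans
          (mul_le_mul' (pow_le_pow_right₀ hM1 (by omega)) (ht e hke hek B hB))) _
      calc _ ≤ (1 + a * η) ^ (K - (e + 1)) * P B +
            a * ((1 + a * η) ^ (K - (e + 1)) * (η * P B)) := add_le_add h1 h2
        _ = (1 + a * η) ^ (K - (e + 1)) * (1 + a * η) * P B := by ring
        _ = (1 + a * η) ^ (K - e) * P B := by
            rw [← pow_succ]
            congr 2
            omega

theorem one_add_pow_le {b : ℝ} (hb : 0 ≤ b) (k : ℕ) :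
    (1 + ENNReal.ofReal b) ^ k ≤ ENNReal.ofReal (Real.exp (k * b)) := by
  have h1 : (1 : ℝ≥0∞) + ENNReal.ofReal b = ENNReal.ofReal (1 + b) := by
    rw [ENNReal.ofReal_add zero_le_one hb, ENNReal.ofReal_one]
  rw [h1, ← ENNReal.ofReal_pow (by positivity)]
  refine ENNReal.ofReal_le_ofReal ?_
  calc (1 + b) ^ k ≤ Real.exp b ^ k :=
        pow_le_pow_left₀ (by positivity) (by have := Real.add_one_le_exp b; linarith) k
    _ = Real.exp (k * b) := by rw [← Real.exp_nat_mul]

/-! ### the core -/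

/-- long and steep intervals; the regular part is a hypothesis -/
theorem core {F : Filtration ℕ m0} {c : ℕ → Ω → ℝ} (hcm : ∀ m, Measurable[F m] (c m))
    (hmono : ∀ ω, Monotone fun m => c m ω) {X lam u : ℝ} {n0 k : ℕ} (hn0 : 1 ≤ n0)
    (hlam : 0 < lam) (hlX : 32 ≤ lam * X) (hlu : 128 ≤ lam * u)
    (hb : ∀ e n : ℕ, n0 ≤ n → 2 * n ≤ e → e ≤ 2 * k → ∀ B, MeasurableSet[F (e - 2 * n)] B →
      P (B ∩ {ω | (n : ℝ) * X ≤ c e ω - c (e - n) ω}) ≤
        ENNReal.ofReal (Real.exp (-(lam * (n * X)))) * P B)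
    (hu1 : 16 * (n0 * X) ≤ u) (hu2 : u ≤ k * X)
    (hk2 : 2 * k * Real.exp (-(lam / 2 * (n0 * X))) ≤ lam / 64 * u)
    (hreg : P {ω | ENNReal.ofReal (Real.exp (lam * u / 8)) ≤
      ENNReal.ofReal (Real.exp (lam / 4 * T c (n0 * X) k (2 * k) ω))} ≤
        ENNReal.ofReal (1 / 4 * Real.exp (-(lam / 16 * u))) * P Set.univ) :
    P {ω | u ≤ c (2 * k) ω - c k ω} ≤ ENNReal.ofReal (Real.exp (-(lam / 16 * u))) * P Set.univ := by
  have hX : 0 < X := by
    by_contra hcon
    push Not at hcon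
    nlinarith
  have hn0' : (1 : ℝ) ≤ n0 := by exact_mod_cast hn0
  have hk16 : 16 * n0 ≤ k := by
    have h1 : 16 * ((n0 : ℝ) * X) ≤ k * X := hu1.trans hu2
    have h2 : 16 * (n0 : ℝ) ≤ k := by
      by_contra hcon
      push Not at hcon
      nlinarith
    exact_mod_cast h2
  have hk4 : 4 * n0 ≤ k := by omega
  have hk0 : (1 : ℝ) ≤ k := by exact_mod_cast (by omega : 1 ≤ k)
  -- long steep intervals
  set Ix := ((Finset.range (2 * k + 1)) ×ˢ (Finset.range (2 * k + 1))).filter
    (fun q : ℕ × ℕ => k < q.1 ∧ q.1 ≤ 2 * k ∧ q.1 < 4 * q.2 ∧ 2 * q.2 ≤ q.1) with hIx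
  set Lg : Set Ω := ⋃ q ∈ Ix, {ω | (q.2 : ℝ) * X ≤ c q.1 ω - c (q.1 - q.2) ω} with hLg
  have hLgP : P Lg ≤ ENNReal.ofReal (1 / 4 * Real.exp (-(lam / 16 * u))) * P Set.univ := by
    have h1 : ∀ q ∈ Ix, P {ω | (q.2 : ℝ) * X ≤ c q.1 ω - c (q.1 - q.2) ω} ≤
        ENNReal.ofReal (Real.exp (-(lam * (k * X / 4)))) * P Set.univ := by
      intro q hq
      rw [hIx, Finset.mem_filter] at hq
      obtain ⟨_, h2, h3, h4, h5⟩ := hq
      have h6 := hb q.1 q.2 (by omega) h5 h3 Set.univ MeasurableSet.univ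
      rw [Set.univ_inter] at h6
      refine h6.trans (mul_le_mul_left (ENNReal.ofReal_le_ofReal (Real.exp_le_exp.2 ?_)) _)
      have h7 : (k : ℝ) ≤ 4 * q.2 := by exact_mod_cast (by omega : k ≤ 4 * q.2)
      have h8 : k * X / 4 ≤ q.2 * X := by nlinarith
      have : lam * (k * X / 4) ≤ lam * (q.2 * X) := mul_le_mul_of_nonneg_left h8 hlam.le
      linarith
    have hcard : (Ix.card : ℝ) ≤ Real.exp (4 * k) := by
      have h9 : Ix.card ≤ (2 * k + 1) * (2 * k + 1) := by
        refine (Finset.card_filter_le _ _).trans ?_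
        rw [Finset.card_product, Finset.card_range]
      have h10 : ((Ix.card : ℕ) : ℝ) ≤ (2 * k + 1) * (2 * k + 1) := by exact_mod_cast h9
      have h11 : (2 * (k : ℝ) + 1) ≤ Real.exp (2 * k) := Real.add_one_le_exp _
      calc (Ix.card : ℝ) ≤ (2 * k + 1) * (2 * k + 1) := h10
        _ ≤ Real.exp (2 * k) * Real.exp (2 * k) := by gcongr
        _ = Real.exp (4 * k) := by rw [← Real.exp_add]; congr 1; ring
    calc P Lg ≤ ∑ q ∈ Ix, P {ω | (q.2 : ℝ) * X ≤ c q.1 ω - c (q.1 - q.2) ω} :=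
          measure_biUnion_finset_le _ _
      _ ≤ ∑ _q ∈ Ix, ENNReal.ofReal (Real.exp (-(lam * (k * X / 4)))) * P Set.univ :=
          Finset.sum_le_sum h1
      _ = ENNReal.ofReal ((Ix.card : ℝ) * Real.exp (-(lam * (k * X / 4)))) * P Set.univ := by
          rw [Finset.sum_const, nsmul_eq_mul, ← mul_assoc,
            ENNReal.ofReal_mul (Nat.cast_nonneg _), ENNReal.ofReal_natCast]
      _ ≤ _ := by
          refine mul_le_mul_left (ENNReal.ofReal_le_ofReal ?_) _
          calc (Ix.card : ℝ) * Real.exp (-(lam * (k * X / 4)))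
              ≤ Real.exp (4 * k) * Real.exp (-(lam * (k * X / 4))) := by gcongr
            _ = Real.exp (4 * k - lam * (k * X / 4)) := by rw [← Real.exp_add]; congr 1
            _ ≤ _ := by
                apply quarter
                have h12 : lam * u ≤ lam * (k * X) := mul_le_mul_of_nonneg_left hu2 hlam.le
                have h13 : 32 * (k : ℝ) ≤ k * (lam * X) := by nlinarith
                nlinarith
  -- steep part
  have hVm : Measurable (V c X (lam / 4) n0 k k (2 * k)) :=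
    (V_meas hcm X (lam / 4) n0 k k (2 * k)).mono (F.le _) le_rfl
  have hV : P {ω | ENNReal.ofReal (Real.exp (lam * u / 8)) ≤ V c X (lam / 4) n0 k k (2 * k) ω} ≤
      ENNReal.ofReal (1 / 4 * Real.exp (-(lam / 16 * u))) * P Set.univ := by
    have h1 : ∫⁻ ω, V c X (lam / 4) n0 k k (2 * k) ω ∂P ≤
        ENNReal.ofReal (Real.exp (lam / 64 * u)) * P Set.univ := by
      refine (V_int hcm (by linarith) hn0 hb k (2 * k) le_rfl).trans (mul_le_mul_left ?_ _)
      have e1 : 2 * k - k = k := by omega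
      have e2 : (2 : ℝ≥0∞) * ENNReal.ofReal (Real.exp (-(lam / 2 * (n0 * X)))) =
          ENNReal.ofReal (2 * Real.exp (-(lam / 2 * (n0 * X)))) := by
        rw [ENNReal.ofReal_mul (by norm_num)]; norm_num
      rw [e1, e2]
      refine (one_add_pow_le (by positivity) k).trans
        (ENNReal.ofReal_le_ofReal (Real.exp_le_exp.2 ?_))
      calc (k : ℝ) * (2 * Real.exp (-(lam / 2 * (n0 * X))))
          = 2 * k * Real.exp (-(lam / 2 * (n0 * X))) := by ring
        _ ≤ _ := hk2
    refine (markov_exp hVm h1).trans (mul_le_mul_left (ENNReal.ofReal_le_ofReal ?_) _)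
    apply quarter
    nlinarith
  -- combination
  have hsub : {ω | u ≤ c (2 * k) ω - c k ω} ⊆ Lg ∪
      ({ω | ENNReal.ofReal (Real.exp (lam * u / 8)) ≤ V c X (lam / 4) n0 k k (2 * k) ω} ∪
      {ω | ENNReal.ofReal (Real.exp (lam * u / 8)) ≤
        ENNReal.ofReal (Real.exp (lam / 4 * T c (n0 * X) k (2 * k) ω))}) := by
    intro ω hω
    by_cases hL : ω ∈ Lg
    · exact Or.inl hL
    right
    have hno : ∀ e n : ℕ, k < e → e ≤ 2 * k → e < 4 * n → 2 * n ≤ e →
        c e ω - c (e - n) ω < n * X := by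
      intro e n h1 h2 h3 h4
      by_contra hcon
      push Not at hcon
      apply hL
      rw [hLg, Set.mem_iUnion₂]
      refine ⟨(e, n), ?_, hcon⟩
      rw [hIx, Finset.mem_filter, Finset.mem_product, Finset.mem_range, Finset.mem_range]
      exact ⟨⟨by simp only; omega, by simp only; omega⟩, h1, h2, h3, h4⟩
    have hdet := det hmono (θ := lam / 4) (by linarith) hn0 hk4 ω hno k (2 * k) (by omega) le_rfl
    have hω' : u ≤ c (2 * k) ω - c k ω := hω
    by_cases h1 : u / 2 ≤ T c (n0 * X) k (2 * k) ω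
    · right
      exact ENNReal.ofReal_le_ofReal (Real.exp_le_exp.2 (by nlinarith))
    · left
      push Not at h1
      refine le_trans (ENNReal.ofReal_le_ofReal (Real.exp_le_exp.2 ?_)) hdet
      nlinarith
  refine (measure_mono hsub).trans ?_
  refine (measure_union_le _ _).trans ((add_le_add le_rfl (measure_union_le _ _)).trans ?_)
  refine (add_le_add hLgP (add_le_add hV hreg)).trans ?_
  rw [← add_mul, ← add_mul, ← ENNReal.ofReal_add (by positivity) (by positivity),
    ← ENNReal.ofReal_add (by positivity) (by positivity)]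
  refine mul_le_mul_left (ENNReal.ofReal_le_ofReal ?_) _
  have := Real.exp_pos (-(lam / 16 * u))
  linarith

theorem T_measG {F : Filtration ℕ m0} {c : ℕ → Ω → ℝ} (hcm : ∀ m, Measurable[F m] (c m))
    (lam r : ℝ) (k K : ℕ) : Measurable (fun ω => ENNReal.ofReal (Real.exp (lam * T c r k K ω))) :=
  (Real.measurable_exp.comp (Measurable.const_mul
    ((T_meas hcm r k K).mono (F.le _) le_rfl) _)).ennreal_ofReal

/-- **SUN+ (unit form), real cost process.** -/
theorem sunT_real {F : Filtration ℕ m0} {c : ℕ → Ω → ℝ} (hcm : ∀ m, Measurable[F m] (c m))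
    (hmono : ∀ ω, Monotone fun m => c m ω) {X lam u ε η : ℝ} {n0 k : ℕ} (hn0 : 1 ≤ n0)
    (hlam : 0 < lam) (hlX : 32 ≤ lam * X) (hlu : 128 ≤ lam * u) (hε : 0 ≤ ε) (hη : 0 ≤ η)
    (ht : ∀ e, k ≤ e → e < 2 * k → ∀ B, MeasurableSet[F (e - 1)] B →
      P (B ∩ {ω | ε ≤ c (e + 1) ω - c e ω}) ≤ ENNReal.ofReal η * P B)
    (hb : ∀ e n : ℕ, n0 ≤ n → 2 * n ≤ e → e ≤ 2 * k → ∀ B, MeasurableSet[F (e - 2 * n)] B →
      P (B ∩ {ω | (n : ℝ) * X ≤ c e ω - c (e - n) ω}) ≤
        ENNReal.ofReal (Real.exp (-(lam * (n * X)))) * P B)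
    (hu1 : 16 * (n0 * X) ≤ u) (hu2 : u ≤ k * X) (hk1 : 8 * (k * ε) ≤ u)
    (hk2 : 2 * k * Real.exp (-(lam / 2 * (n0 * X))) ≤ lam / 64 * u)
    (hk3 : k * (Real.exp (lam / 2 * (n0 * X)) * η) ≤ lam / 64 * u) :
    P {ω | u ≤ c (2 * k) ω - c k ω} ≤ ENNReal.ofReal (Real.exp (-(lam / 16 * u))) * P Set.univ := by
  have hX : 0 < X := by
    by_contra hcon
    push Not at hcon
    nlinarith
  have hn0' : (1 : ℝ) ≤ n0 := by exact_mod_cast hn0
  have hr : 0 < (n0 : ℝ) * X := by positivity
  refine core hcm hmono hn0 hlam hlX hlu hb hu1 hu2 hk2 ?_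
  have e1 : 2 * k - k = k := by omega
  have h1 : ∫⁻ ω, ENNReal.ofReal (Real.exp (lam / 4 * T c (n0 * X) k (2 * k) ω)) ∂P ≤
      ENNReal.ofReal (Real.exp (lam / 32 * u + lam / 64 * u)) * P Set.univ := by
    have h2 := fun ω => detT hmono (θ := lam / 4) (ε := ε) hr hε (by linarith) (2 * k) ω k k
      (by omega)
    rw [e1] at h2
    have h3 := Psi_int (P := P) hcm (a := ENNReal.ofReal (Real.exp (2 * (lam / 4 * (n0 * X)))))
      (η := ENNReal.ofReal η) ht k k le_rfl Set.univ MeasurableSet.univ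
    rw [Measure.restrict_univ, e1, ← ENNReal.ofReal_mul (Real.exp_pos _).le] at h3
    calc ∫⁻ ω, ENNReal.ofReal (Real.exp (lam / 4 * T c (n0 * X) k (2 * k) ω)) ∂P
        ≤ ∫⁻ ω, ENNReal.ofReal (Real.exp (lam / 4 * (ε * (k : ℝ)))) *
          Psi c ε (ENNReal.ofReal (Real.exp (2 * (lam / 4 * (n0 * X))))) (2 * k) k k ω ∂P :=
          lintegral_mono h2
      _ = ENNReal.ofReal (Real.exp (lam / 4 * (ε * (k : ℝ)))) *
          ∫⁻ ω, Psi c ε (ENNReal.ofReal (Real.exp (2 * (lam / 4 * (n0 * X))))) (2 * k) k k ω ∂P :=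
          lintegral_const_mul _ (Psi_meas hcm _ _ _ _ _)
      _ ≤ ENNReal.ofReal (Real.exp (lam / 32 * u)) *
          (ENNReal.ofReal (Real.exp (lam / 64 * u)) * P Set.univ) := by
          refine mul_le_mul' (ENNReal.ofReal_le_ofReal (Real.exp_le_exp.2 (by nlinarith)))
            (h3.trans (mul_le_mul_left ?_ _))
          refine (one_add_pow_le (by positivity) k).trans
            (ENNReal.ofReal_le_ofReal (Real.exp_le_exp.2 ?_))
          have e3 : 2 * (lam / 4 * ((n0 : ℝ) * X)) = lam / 2 * (n0 * X) := by ring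
          rw [e3]
          exact hk3
      _ = _ := by
          rw [← mul_assoc, ← ENNReal.ofReal_mul (Real.exp_pos _).le, ← Real.exp_add]
  refine (markov_exp (T_measG hcm (lam / 4) (n0 * X) k (2 * k)) h1).trans
    (mul_le_mul_left (ENNReal.ofReal_le_ofReal ?_) _)
  apply quarter
  nlinarith

/-- **block form, real cost process**: one strength `r = n0 * X`, windows ending at the top. -/
theorem multi_real {F : Filtration ℕ m0} {c : ℕ → Ω → ℝ} (hcm : ∀ m, Measurable[F m] (c m))
    (hmono : ∀ ω, Monotone fun m => c m ω) {X lam u η : ℝ} {n0 k : ℕ} (hn0 : 1 ≤ n0)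
    (hlam : 0 < lam) (hlX : 32 ≤ lam * X) (hlu : 128 ≤ lam * u) (hη : 0 ≤ η)
    (ha : ∀ e, k ≤ e → e < 2 * k → ∀ B, MeasurableSet[F (e - 1)] B →
      P (B ∩ {ω | n0 * X ≤ c (2 * k) ω - c e ω}) ≤ ENNReal.ofReal η * P B)
    (hb : ∀ e n : ℕ, n0 ≤ n → 2 * n ≤ e → e ≤ 2 * k → ∀ B, MeasurableSet[F (e - 2 * n)] B →
      P (B ∩ {ω | (n : ℝ) * X ≤ c e ω - c (e - n) ω}) ≤
        ENNReal.ofReal (Real.exp (-(lam * (n * X)))) * P B)
    (hu1 : 16 * (n0 * X) ≤ u) (hu2 : u ≤ k * X)
    (hk2 : 2 * k * Real.exp (-(lam / 2 * (n0 * X))) ≤ lam / 64 * u)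
    (hk3 : k * (Real.exp (3 * (lam / 4 * (n0 * X))) * η) ≤ lam / 64 * u) :
    P {ω | u ≤ c (2 * k) ω - c k ω} ≤ ENNReal.ofReal (Real.exp (-(lam / 16 * u))) * P Set.univ := by
  have hX : 0 < X := by
    by_contra hcon
    push Not at hcon
    nlinarith
  have hn0' : (1 : ℝ) ≤ n0 := by exact_mod_cast hn0
  have hr : 0 < (n0 : ℝ) * X := by positivity
  refine core hcm hmono hn0 hlam hlX hlu hb hu1 hu2 hk2 ?_
  have e1 : 2 * k - k = k := by omega
  have h1 : ∫⁻ ω, ENNReal.ofReal (Real.exp (lam / 4 * T c (n0 * X) k (2 * k) ω)) ∂P ≤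
      ENNReal.ofReal (Real.exp (lam / 64 * u + lam / 64 * u)) * P Set.univ := by
    have h2 := fun ω => detR hmono (θ := lam / 4) hr (by linarith) (2 * k) ω k k (by omega)
    have h3 := Phi_int (P := P) hcm hmono
      (a := ENNReal.ofReal (Real.exp (3 * (lam / 4 * (n0 * X)))))
      (η := ENNReal.ofReal η) ha k k le_rfl Set.univ MeasurableSet.univ
    rw [Measure.restrict_univ, e1, ← ENNReal.ofReal_mul (Real.exp_pos _).le] at h3
    calc ∫⁻ ω, ENNReal.ofReal (Real.exp (lam / 4 * T c (n0 * X) k (2 * k) ω)) ∂P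
        ≤ ∫⁻ ω, ENNReal.ofReal (Real.exp (lam / 4 * (n0 * X))) *
          Phi c (n0 * X) (ENNReal.ofReal (Real.exp (3 * (lam / 4 * (n0 * X))))) (2 * k) k k ω ∂P :=
          lintegral_mono h2
      _ = ENNReal.ofReal (Real.exp (lam / 4 * (n0 * X))) *
          ∫⁻ ω, Phi c (n0 * X) (ENNReal.ofReal (Real.exp (3 * (lam / 4 * (n0 * X)))))
            (2 * k) k k ω ∂P := lintegral_const_mul _ (Phi_meas hcm _ _ _ _ _)
      _ ≤ ENNReal.ofReal (Real.exp (lam / 64 * u)) *
          (ENNReal.ofReal (Real.exp (lam / 64 * u)) * P Set.univ) := by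
          refine mul_le_mul' (ENNReal.ofReal_le_ofReal (Real.exp_le_exp.2 (by nlinarith)))
            (h3.trans (mul_le_mul_left ?_ _))
          exact (one_add_pow_le (by positivity) k).trans
            (ENNReal.ofReal_le_ofReal (Real.exp_le_exp.2 hk3))
      _ = _ := by
          rw [← mul_assoc, ← ENNReal.ofReal_mul (Real.exp_pos _).le, ← Real.exp_add]
  refine (markov_exp (T_measG hcm (lam / 4) (n0 * X) k (2 * k)) h1).trans
    (mul_le_mul_left (ENNReal.ofReal_le_ofReal ?_) _)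
  apply quarter
  nlinarith

/-! ### survival form -/

/-- transfer from the real form to a nonincreasing survival process `s` -/
theorem surv {F : Filtration ℕ m0} {s : ℕ → Ω → ℝ≥0∞} (hsm : ∀ m, Measurable[F m] (s m))
    (hanti : ∀ m ω, s (m + 1) ω ≤ s m ω) (hfin : ∀ m ω, s m ω ≠ ∞) {u lam : ℝ} (hu : 0 < u) {k : ℕ}
    {B : Set Ω} (hB : MeasurableSet[F 0] B)
    (hreal : ∀ c : ℕ → Ω → ℝ, (∀ m, Measurable[F m] (c m)) → (∀ ω, Monotone fun m => c m ω) →
      (∀ (x : ℝ) (_ : 0 < x) (a b : ℕ) (ω : Ω), x ≤ c b ω - c a ω →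
        s a ω ≠ 0 ∧ s b ω ≤ ENNReal.ofReal (Real.exp (-x)) * s a ω) →
      P.restrict B {ω | u ≤ c (2 * k) ω - c k ω} ≤
        ENNReal.ofReal (Real.exp (-(lam / 16 * u))) * P.restrict B Set.univ) :
    P (B ∩ {ω | s k ω ≠ 0 ∧ s (2 * k) ω ≤ ENNReal.ofReal (Real.exp (-u)) * s k ω}) ≤
      ENNReal.ofReal (Real.exp (-(lam / 16 * u))) * P B := by
  have hBm : MeasurableSet[m0] B := F.le 0 _ hB
  -- the event in real form
  have hev : ∀ (ε : ℝ) (_ : 0 < ε) (x : ℝ) (_ : 0 < x) (a b : ℕ) (ω : Ω),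
      x ≤ ce s ε b ω - ce s ε a ω →
        s a ω ≠ 0 ∧ s b ω ≤ ENNReal.ofReal (Real.exp (-x)) * s a ω := by
    intro ε hε x hx a b ω h
    obtain ⟨h1, h2⟩ := (ce_iff hε hx a b ω).1 h
    constructor
    · intro h0
      rw [h0] at h1
      simp at h1
      linarith
    · rw [← ENNReal.ofReal_toReal (hfin b ω), ← ENNReal.ofReal_toReal (hfin a ω),
        ← ENNReal.ofReal_mul (Real.exp_pos _).le]
      exact ENNReal.ofReal_le_ofReal h2
  have hmain : ∀ ε : ℝ, 0 < ε →
      P (B ∩ {ω | u ≤ ce s ε (2 * k) ω - ce s ε k ω}) ≤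
        ENNReal.ofReal (Real.exp (-(lam / 16 * u))) * P B := by
    intro ε hε
    have hcm : ∀ m, Measurable[F m] (ce s ε m) := by
      intro m
      unfold ce
      exact (Real.measurable_log.comp
        ((ENNReal.measurable_toReal.comp (hsm m)).max measurable_const)).neg
    have hmono : ∀ ω, Monotone fun m => ce s ε m ω := by
      intro ω
      refine monotone_nat_of_le_succ fun m => ?_
      unfold ce
      have h1 : max (s (m + 1) ω).toReal ε ≤ max (s m ω).toReal ε :=
        max_le_max (ENNReal.toReal_mono (hfin m ω) (hanti m ω)) le_rfl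
      have h2 := Real.log_le_log (lt_max_of_lt_right hε) h1
      linarith
    have h1 := hreal (ce s ε) hcm hmono (hev ε hε)
    rw [Measure.restrict_apply' hBm, Measure.restrict_apply' hBm, Set.univ_inter,
      Set.inter_comm] at h1
    exact h1
  -- exhaustion
  set D : ℕ → Set Ω := fun n => B ∩ {ω | u ≤ ce s ((n : ℝ) + 1)⁻¹ (2 * k) ω -
    ce s ((n : ℝ) + 1)⁻¹ k ω} with hD
  have hDmono : Monotone D := by
    refine monotone_nat_of_le_succ fun n => ?_
    rintro ω ⟨h1, h2⟩
    refine ⟨h1, ?_⟩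
    have hp1 : (0 : ℝ) < ((n : ℝ) + 1)⁻¹ := by positivity
    have hp2 : (0 : ℝ) < (((n + 1 : ℕ) : ℝ) + 1)⁻¹ := by positivity
    obtain ⟨h3, h4⟩ := (ce_iff hp1 hu k (2 * k) ω).1 h2
    refine (ce_iff hp2 hu k (2 * k) ω).2 ⟨le_trans ?_ h3, h4⟩
    apply inv_anti₀ (by positivity)
    push_cast
    linarith
  have hsub : B ∩ {ω | s k ω ≠ 0 ∧ s (2 * k) ω ≤ ENNReal.ofReal (Real.exp (-u)) * s k ω} ⊆
      ⋃ n, D n := by
    rintro ω ⟨h1, h2, h3⟩
    have hA : 0 < (s k ω).toReal := ENNReal.toReal_pos h2 (hfin k ω)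
    have hA' : 0 < Real.exp (-u) * (s k ω).toReal := mul_pos (Real.exp_pos _) hA
    obtain ⟨n, hn⟩ := exists_nat_one_div_lt hA'
    rw [Set.mem_iUnion]
    refine ⟨n, h1, (ce_iff (by positivity) hu k (2 * k) ω).2 ⟨?_, ?_⟩⟩
    · rw [← one_div]; exact hn.le
    · have h4 := ENNReal.toReal_mono (ENNReal.mul_ne_top ENNReal.ofReal_ne_top (hfin k ω)) h3
      rw [ENNReal.toReal_mul, ENNReal.toReal_ofReal (Real.exp_pos _).le] at h4
      exact h4
  refine (measure_mono hsub).trans ?_
  rw [hDmono.measure_iUnion]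
  exact iSup_le fun n => hmain _ (by positivity)

/-- steep windows, restricted measure -/
theorem hb_restrict {F : Filtration ℕ m0} {s : ℕ → Ω → ℝ≥0∞} {X lam : ℝ} (hX : 0 < X)
    {n0 k : ℕ} (hn0 : 1 ≤ n0) {B : Set Ω} (hB : MeasurableSet[F 0] B)
    (hb : ∀ e n : ℕ, n0 ≤ n → 2 * n ≤ e → e ≤ 2 * k → ∀ B, MeasurableSet[F (e - 2 * n)] B →
      P (B ∩ {ω | s (e - n) ω ≠ 0 ∧ s e ω ≤
        ENNReal.ofReal (Real.exp (-(n * X))) * s (e - n) ω}) ≤
        ENNReal.ofReal (Real.exp (-(lam * (n * X)))) * P B)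
    {c : ℕ → Ω → ℝ}
    (hev : ∀ (x : ℝ) (_ : 0 < x) (a b : ℕ) (ω : Ω), x ≤ c b ω - c a ω →
        s a ω ≠ 0 ∧ s b ω ≤ ENNReal.ofReal (Real.exp (-x)) * s a ω) :
    ∀ e n : ℕ, n0 ≤ n → 2 * n ≤ e → e ≤ 2 * k → ∀ B', MeasurableSet[F (e - 2 * n)] B' →
      P.restrict B (B' ∩ {ω | (n : ℝ) * X ≤ c e ω - c (e - n) ω}) ≤
        ENNReal.ofReal (Real.exp (-(lam * (n * X)))) * P.restrict B B' := by
  intro e n hn1 hn2 hn3 B' hB'
  have hBm : MeasurableSet[m0] B := F.le 0 _ hB
  rw [Measure.restrict_apply' hBm, Measure.restrict_apply' hBm]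
  refine le_trans (measure_mono ?_) (hb e n hn1 hn2 hn3 (B' ∩ B)
    (hB'.inter (F.mono (Nat.zero_le _) _ hB)))
  rintro ω ⟨⟨h2, h3⟩, h4⟩
  have hn0' : (0 : ℝ) < n := by exact_mod_cast (by omega : 0 < n)
  exact ⟨⟨h2, h4⟩, hev (n * X) (by positivity) (e - n) e ω h3⟩

/-- **SUN+ (unit form)**, for a nonincreasing survival process `s`. -/
theorem sunT {F : Filtration ℕ m0} {s : ℕ → Ω → ℝ≥0∞} (hsm : ∀ m, Measurable[F m] (s m))
    (hanti : ∀ m ω, s (m + 1) ω ≤ s m ω) (hfin : ∀ m ω, s m ω ≠ ∞)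
    {X lam u ε η : ℝ} {n0 k : ℕ} (hn0 : 1 ≤ n0)
    (hlam : 0 < lam) (hlX : 32 ≤ lam * X) (hlu : 128 ≤ lam * u) (hε : 0 < ε) (hη : 0 ≤ η)
    (ht : ∀ e, k ≤ e → e < 2 * k → ∀ B, MeasurableSet[F (e - 1)] B →
      P (B ∩ {ω | s e ω ≠ 0 ∧ s (e + 1) ω ≤ ENNReal.ofReal (Real.exp (-ε)) * s e ω}) ≤
        ENNReal.ofReal η * P B)
    (hb : ∀ e n : ℕ, n0 ≤ n → 2 * n ≤ e → e ≤ 2 * k → ∀ B, MeasurableSet[F (e - 2 * n)] B →
      P (B ∩ {ω | s (e - n) ω ≠ 0 ∧ s e ω ≤
        ENNReal.ofReal (Real.exp (-(n * X))) * s (e - n) ω}) ≤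
        ENNReal.ofReal (Real.exp (-(lam * (n * X)))) * P B)
    (hu1 : 16 * (n0 * X) ≤ u) (hu2 : u ≤ k * X) (hk1 : 8 * (k * ε) ≤ u)
    (hk2 : 2 * k * Real.exp (-(lam / 2 * (n0 * X))) ≤ lam / 64 * u)
    (hk3 : k * (Real.exp (lam / 2 * (n0 * X)) * η) ≤ lam / 64 * u)
    {B : Set Ω} (hB : MeasurableSet[F 0] B) :
    P (B ∩ {ω | s k ω ≠ 0 ∧ s (2 * k) ω ≤ ENNReal.ofReal (Real.exp (-u)) * s k ω}) ≤
      ENNReal.ofReal (Real.exp (-(lam / 16 * u))) * P B := by
  have hX : 0 < X := by
    by_contra hcon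
    push Not at hcon
    nlinarith
  have hu : 0 < u := by
    by_contra hcon
    push Not at hcon
    nlinarith
  have hBm : MeasurableSet[m0] B := F.le 0 _ hB
  refine surv hsm hanti hfin hu hB fun c hcm hmono hev => ?_
  refine sunT_real hcm hmono hn0 hlam hlX hlu hε.le hη ?_
    (hb_restrict hX hn0 hB hb hev) hu1 hu2 hk1 hk2 hk3
  intro e he1 he2 B' hB'
  rw [Measure.restrict_apply' hBm, Measure.restrict_apply' hBm]
  refine le_trans (measure_mono ?_) (ht e he1 he2 (B' ∩ B)
    (hB'.inter (F.mono (Nat.zero_le _) _ hB)))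
  rintro ω ⟨⟨h2, h3⟩, h4⟩
  exact ⟨⟨h2, h4⟩, hev ε hε e (e + 1) ω h3⟩

/-- **block form**, for a nonincreasing survival process `s`. -/
theorem multi {F : Filtration ℕ m0} {s : ℕ → Ω → ℝ≥0∞} (hsm : ∀ m, Measurable[F m] (s m))
    (hanti : ∀ m ω, s (m + 1) ω ≤ s m ω) (hfin : ∀ m ω, s m ω ≠ ∞)
    {X lam u η : ℝ} {n0 k : ℕ} (hn0 : 1 ≤ n0)
    (hlam : 0 < lam) (hlX : 32 ≤ lam * X) (hlu : 128 ≤ lam * u) (hη : 0 ≤ η)
    (ha : ∀ e, k ≤ e → e < 2 * k → ∀ B, MeasurableSet[F (e - 1)] B →
      P (B ∩ {ω | s e ω ≠ 0 ∧ s (2 * k) ω ≤ ENNReal.ofReal (Real.exp (-(n0 * X))) * s e ω}) ≤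
        ENNReal.ofReal η * P B)
    (hb : ∀ e n : ℕ, n0 ≤ n → 2 * n ≤ e → e ≤ 2 * k → ∀ B, MeasurableSet[F (e - 2 * n)] B →
      P (B ∩ {ω | s (e - n) ω ≠ 0 ∧ s e ω ≤
        ENNReal.ofReal (Real.exp (-(n * X))) * s (e - n) ω}) ≤
        ENNReal.ofReal (Real.exp (-(lam * (n * X)))) * P B)
    (hu1 : 16 * (n0 * X) ≤ u) (hu2 : u ≤ k * X)
    (hk2 : 2 * k * Real.exp (-(lam / 2 * (n0 * X))) ≤ lam / 64 * u)
    (hk3 : k * (Real.exp (3 * (lam / 4 * (n0 * X))) * η) ≤ lam / 64 * u)
    {B : Set Ω} (hB : MeasurableSet[F 0] B) :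
    P (B ∩ {ω | s k ω ≠ 0 ∧ s (2 * k) ω ≤ ENNReal.ofReal (Real.exp (-u)) * s k ω}) ≤
      ENNReal.ofReal (Real.exp (-(lam / 16 * u))) * P B := by
  have hX : 0 < X := by
    by_contra hcon
    push Not at hcon
    nlinarith
  have hu : 0 < u := by
    by_contra hcon
    push Not at hcon
    nlinarith
  have hn0' : (1 : ℝ) ≤ n0 := by exact_mod_cast hn0
  have hBm : MeasurableSet[m0] B := F.le 0 _ hB
  refine surv hsm hanti hfin hu hB fun c hcm hmono hev => ?_
  refine multi_real hcm hmono hn0 hlam hlX hlu hη ?_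
    (hb_restrict hX hn0 hB hb hev) hu1 hu2 hk2 hk3
  intro e he1 he2 B' hB'
  rw [Measure.restrict_apply' hBm, Measure.restrict_apply' hBm]
  refine le_trans (measure_mono ?_) (ha e he1 he2 (B' ∩ B)
    (hB'.inter (F.mono (Nat.zero_le _) _ hB)))
  rintro ω ⟨⟨h2, h3⟩, h4⟩
  exact ⟨⟨h2, h4⟩, hev (n0 * X) (by positivity) e (2 * k) ω h3⟩

end Crest.Agent.R154.Multi993
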