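import Crest.Agent.R154.NBDefs_28
import Crest.Agent.R154.B5First_181

/-! Row 154, ROAD 801: binding of `abs_main1` to words (helper367, second of helper28). -/

set_option autoImplicit false

namespace Crest.Agent.R154.Bind367

open MeasureTheory ProbabilityTheory Crest.ProbabilityR.RandomEnvironment Crest.Agent.R154
open Crest.Agent.R154.Flux132 (lev opp)
open Crest.Agent.R154.Flux566 (lw endp sitesL endp_append endp_eq_add)
open Crest.Agent.R154.NB28 Crest.Agent.R154.B5A
open scoped ENNReal

variable {d : ℕ}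

lemma lev_add (u : Step d) (x y : Site d) : lev u (x + y) = lev u x + lev u y := by
  unfold lev
  split
  · simp
  · simp; ring

lemma lev_neg (u : Step d) (x : Site d) : lev u (-x) = - lev u x := by
  unfold lev
  split <;> simp

lemma lev_sub (u : Step d) (x y : Site d) : lev u (x - y) = lev u x - lev u y := by
  rw [sub_eq_add_neg, lev_add, lev_neg]; ring

lemma lev_zero (u : Step d) : lev u (0 : Site d) = 0 := by
  unfold lev
  split <;> simp

lemma lev_opp (u : Step d) : lev u (stepVec (opp u)) = -1 := by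
  unfold lev opp stepVec
  rcases u with ⟨i, b⟩
  cases b <;> simp

lemma sitesL_append (l l' : List (Step d)) (x : Site d) :
    sitesL x (l ++ l') = sitesL x l ++ sitesL (endp x l) l' := by
  induction l generalizing x with
  | nil => rfl
  | cons e l ih => simp only [List.cons_append, sitesL, endp, ih]

lemma mem_sitesL_shift (l : List (Step d)) (x z y : Site d) :
    y ∈ sitesL (x + z) l ↔ y - z ∈ sitesL x l := by
  induction l generalizing x with
  | nil => simp [sitesL]
  | cons e l ih =>
    simp only [sitesL, List.mem_cons]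
    rw [show x + z + stepVec e = (x + stepVec e) + z by abel, ih]
    constructor
    · rintro (h | h)
      · left; rw [h]; abel
      · right; exact h
    · rintro (h | h)
      · left; rw [← h]; abel
      · right; exact h

lemma mem_sitesL_zero (l : List (Step d)) (x y : Site d) :
    y ∈ sitesL x l ↔ y - x ∈ sitesL 0 l := by
  have := mem_sitesL_shift l 0 x y
  rwa [zero_add] at this

lemma isUp_append (u : Step d) {n m : ℕ} {l l' : List (Step d)} (h : IsUp u n l)
    (h' : IsUp u m l') : IsUp u (n + m) (l ++ l') := by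
  refine ⟨fun y hy => ?_, ?_⟩
  · rw [sitesL_append, List.mem_append] at hy
    rcases hy with hy | hy
    · have := h.1 y hy
      refine ⟨this.1, ?_⟩
      push_cast
      have := this.2
      omega
    · rw [mem_sitesL_zero] at hy
      have := h'.1 _ hy
      rw [lev_sub, h.2] at this
      push_cast
      constructor
      · have := this.1; omega
      · have := this.2; omega
  · rw [endp_append, endp_eq_add, lev_add, h.2, h'.2]
    push_cast; ring

lemma isDn_append (u : Step d) {n m : ℕ} {l l' : List (Step d)} (h : IsDn u n l)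
    (h' : IsDn u m l') : IsDn u (n + m) (l ++ l') := by
  refine ⟨fun y hy => ?_, ?_⟩
  · rw [sitesL_append, List.mem_append] at hy
    rcases hy with hy | hy
    · have := h.1 y hy
      refine ⟨?_, this.2⟩
      push_cast
      have := this.1
      omega
    · rw [mem_sitesL_zero] at hy
      have := h'.1 _ hy
      rw [lev_sub, h.2] at this
      push_cast
      constructor
      · have := this.1; omega
      · have := this.2; omega
  · rw [endp_append, endp_eq_add, lev_add, h.2, h'.2]
    push_cast; ring

lemma isUp_nil (u : Step d) : IsUp u 0 [] := ⟨by simp [sitesL], by simp [endp, lev_zero]⟩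

lemma isDn_nil (u : Step d) : IsDn u 0 [] := ⟨by simp [sitesL], by simp [endp, lev_zero]⟩

/-- pair blocks -/
structure Blk (u : Step d) (B : Type) where
  π : B → List (Step d)
  γ : B → List (Step d)
  ht : B → ℕ
  h1 : ∀ b, 1 ≤ ht b
  up : ∀ b, IsUp u (ht b) (π b)
  dn : ∀ b, IsDn u (ht b) (γ b)

variable {u : Step d} {B : Type} (D : Blk u B)

def catX : List B → List (Step d)
  | [] => []
  | b :: L => catX L ++ D.π b

def catY : List B → List (Step d)
  | [] => []
  | b :: L => D.γ b ++ catY L

lemma isUp_cat (L : List B) : IsUp u (HT D.ht L) (catX D L) := by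
  induction L with
  | nil => simpa [HT, catX] using isUp_nil u
  | cons b L ih =>
    have := isUp_append u ih (D.up b)
    rw [HT_cons, add_comm]
    exact this

lemma isDn_cat (L : List B) : IsDn u (HT D.ht L) (catY D L) := by
  induction L with
  | nil => simpa [HT, catY] using isDn_nil u
  | cons b L ih =>
    have := isDn_append u (D.dn b) ih
    rw [HT_cons]
    exact this

/-- the level hyperplane -/
def W (u : Step d) : Type := {w : Site d // lev u w = 0}

def dl (b : B) (w : W u) : W u :=
  ⟨w.1 + (endp 0 (D.π b) + endp 0 (D.γ b)), by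
    rw [lev_add, lev_add, w.2, (D.up b).2, (D.dn b).2]; ring⟩

def cd (w : W u) (b : B) : Set ℕ := Cm u w.1 (D.π b) (D.γ b)

lemma lev_hung {n : ℕ} {π : List (Step d)} (h : IsUp u n π) {y : Site d}
    (hy : y ∈ sitesL (-endp 0 π) π) : -(n : ℤ) ≤ lev u y ∧ lev u y ≤ -1 := by
  rw [mem_sitesL_zero, sub_neg_eq_add] at hy
  have := h.1 _ hy
  rw [lev_add, h.2] at this
  constructor
  · linarith [this.1]
  · have := this.2; omega

lemma lev_start {n : ℕ} {γ : List (Step d)} (h : IsDn u n γ) {w : Site d} (hw : lev u w = 0)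
    {y : Site d} (hy : y ∈ sitesL (w + stepVec (opp u)) γ) :
    -(n : ℤ) ≤ lev u y ∧ lev u y ≤ -1 := by
  rw [mem_sitesL_zero] at hy
  have := h.1 _ hy
  rw [lev_sub, lev_add, hw, lev_opp] at this
  constructor
  · have := this.1; omega
  · have := this.2; omega

lemma CD_eq (L : List B) (w : W u) :
    CD D.ht (dl D) (cd D) L w = Cm u w.1 (catX D L) (catY D L) := by
  induction L generalizing w with
  | nil =>
    ext k
    simp [CD, Cm, catX, catY, sitesL]
  | cons b L ih =>
    simp only [CD]
    rw [ih]
    have hX : IsUp u (HT D.ht L) (catX D L) := isUp_cat D L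
    have hY : IsDn u (HT D.ht L) (catY D L) := isDn_cat D L
    set p := endp 0 (catX D L) with hp
    set q := endp 0 (D.π b) with hq
    set r := endp 0 (D.γ b) with hr
    have hql : lev u q = D.ht b := (D.up b).2
    have hrl : lev u r = -(D.ht b : ℤ) := (D.dn b).2
    have e1 : ∀ y, y ∈ sitesL (-endp 0 (catX D (b :: L))) (catX D (b :: L)) ↔
        y + q ∈ sitesL (-p) (catX D L) ∨ y ∈ sitesL (-q) (D.π b) := by
      intro y
      have : endp 0 (catX D (b :: L)) = p + q := by
        simp only [catX]
        rw [endp_append, endp_eq_add]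
      rw [this]
      simp only [catX]
      rw [sitesL_append, List.mem_append]
      have e2 : endp (-(p + q)) (catX D L) = -q := by
        rw [endp_eq_add, ← hp]; abel
      rw [e2]
      refine or_congr ?_ Iff.rfl
      rw [show -(p + q) = -p + -q by abel, mem_sitesL_shift, sub_neg_eq_add]
    have e3 : ∀ y, y ∈ sitesL (w.1 + stepVec (opp u)) (catY D (b :: L)) ↔
        y ∈ sitesL (w.1 + stepVec (opp u)) (D.γ b) ∨
        y + q ∈ sitesL ((dl D b w).1 + stepVec (opp u)) (catY D L) := by
      intro y
      simp only [catY]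
      rw [sitesL_append, List.mem_append]
      refine or_congr Iff.rfl ?_
      rw [endp_eq_add, ← hr]
      rw [mem_sitesL_zero, mem_sitesL_zero _ ((dl D b w).1 + stepVec (opp u))]
      have : y - (w.1 + stepVec (opp u) + r) = y + q - ((dl D b w).1 + stepVec (opp u)) := by
        simp only [dl]
        rw [← hq, ← hr]; abel
      rw [this]
    ext k
    constructor
    · rintro (hk | ⟨k', ⟨y, hy1, hy2, hyk⟩, rfl⟩)
      · obtain ⟨y, hy1, hy2, hyk⟩ := hk
        exact ⟨y, (e1 y).2 (Or.inr hy1), (e3 y).2 (Or.inl hy2), hyk⟩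
      · refine ⟨y - q, (e1 _).2 (Or.inl ?_), (e3 _).2 (Or.inr ?_), ?_⟩
        · rwa [sub_add_cancel]
        · rwa [sub_add_cancel]
        · rw [lev_sub, hyk, hql]; push_cast; ring
    · rintro ⟨y, hy1, hy2, hyk⟩
      rcases (e1 y).1 hy1 with h1 | h1 <;> rcases (e3 y).1 hy2 with h2 | h2
      · exfalso
        have a1 := lev_hung hX h1
        rw [lev_add, hql] at a1
        have a2 := lev_start (D.dn b) w.2 h2
        omega
      · right
        have a1 := lev_hung hX h1
        rw [lev_add, hql, hyk] at a1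
        refine ⟨k - D.ht b, ⟨y + q, h1, h2, ?_⟩, ?_⟩
        · rw [lev_add, hql, hyk]
          have : D.ht b ≤ k := by omega
          push_cast [this]; ring
        · have : D.ht b ≤ k := by omega
          simp only
          omega
      · left
        exact ⟨y, h1, h2, hyk⟩
      · exfalso
        have a1 := lev_hung (D.up b) h1
        have a2 := lev_start hY (dl D b w).2 h2
        rw [lev_add, hql] at a2
        omega

lemma cd_le (w : W u) (b : B) (k : ℕ) (hk : k ∈ cd D w b) : 1 ≤ k ∧ k ≤ D.ht b := by
  obtain ⟨y, hy1, _, hyk⟩ := hk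
  have := lev_hung (D.up b) hy1
  omega

lemma dl_inj (b : B) : Function.Injective (dl D b) := by
  intro w w' h
  have := congrArg Subtype.val h
  simp only [dl] at this
  exact Subtype.ext (add_right_cancel this)

lemma far (b : B) : {w : W u | cd D w b ≠ ∅}.Finite := by
  have hfin : (((sitesL (-endp 0 (D.π b)) (D.π b)).toFinset : Set (Site d)) ×ˢ
      ((sitesL 0 (D.γ b)).toFinset : Set (Site d))).Finite :=
    (Finset.finite_toSet _).prod (Finset.finite_toSet _)
  have h2 := hfin.image (fun p : Site d × Site d => p.1 - p.2 - stepVec (opp u))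
  have h3 : (Subtype.val ⁻¹' ((fun p : Site d × Site d => p.1 - p.2 - stepVec (opp u)) ''
      (((sitesL (-endp 0 (D.π b)) (D.π b)).toFinset : Set (Site d)) ×ˢ
      ((sitesL 0 (D.γ b)).toFinset : Set (Site d)))) : Set {w : Site d // lev u w = 0}).Finite :=
    h2.preimage Subtype.val_injective.injOn
  refine Set.Finite.subset h3 ?_
  intro w hw
  obtain ⟨k, y, hy1, hy2, _⟩ := Set.nonempty_iff_ne_empty.2 hw
  refine ⟨(y, y - (w.1 + stepVec (opp u))), ⟨?_, ?_⟩, ?_⟩
  · simpa using hy1
  · have := (mem_sitesL_zero _ _ _).1 hy2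
    simpa using this
  · change y - (y - (w.1 + stepVec (opp u))) - stepVec (opp u) = w.1
    abel


open Classical in
/-- sums over lists = sums over pairs of crossings -/
lemma sum_cat (hinj : Function.Injective fun L : List B => (catX D L, catY D L))
    (hsurj : ∀ n π γ, IsUp u n π → IsDn u n γ → ∃ L, catX D L = π ∧ catY D L = γ) (n : ℕ)
    (F : List (Step d) → List (Step d) → ℝ≥0∞) :
    ∑' L, (if HT D.ht L = n then F (catX D L) (catY D L) else 0)
      = ∑' π : List (Step d), ∑' γ : List (Step d),
        if IsUp u n π ∧ IsDn u n γ then F π γ else 0 := by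
  set G : List (Step d) × List (Step d) → ℝ≥0∞ := fun p =>
    if IsUp u n p.1 ∧ IsDn u n p.2 then F p.1 p.2 else 0 with hG
  have h1 : ∑' π : List (Step d), ∑' γ : List (Step d),
      (if IsUp u n π ∧ IsDn u n γ then F π γ else 0) = ∑' p, G p := by
    rw [ENNReal.tsum_prod']
  have h2 : Function.support G ⊆ Set.range fun L : List B => (catX D L, catY D L) := by
    intro p hp
    have : IsUp u n p.1 ∧ IsDn u n p.2 := by
      by_contra hne
      exact hp (by simp only [hG]; rw [if_neg hne])
    obtain ⟨L, e1, e2⟩ := hsurj n p.1 p.2 this.1 this.2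
    exact ⟨L, Prod.ext e1 e2⟩
  rw [h1, ← hinj.tsum_eq h2]
  refine tsum_congr fun L => ?_
  simp only [hG]
  by_cases h : HT D.ht L = n
  · rw [if_pos h, if_pos ⟨h ▸ isUp_cat D L, h ▸ isDn_cat D L⟩]
  · rw [if_neg h, if_neg]
    rintro ⟨h3, _⟩
    have := (isUp_cat D L).2
    rw [h3.2] at this
    exact h (by exact_mod_cast this.symm)

/-- the zero offset -/
def w0 (u : Step d) : W u := ⟨0, lev_zero u⟩

lemma infinite_W (hd : 2 ≤ d) : Infinite (W u) := by
  obtain ⟨i, hi⟩ : ∃ i : Fin d, i ≠ u.1 := by
    have : Nontrivial (Fin d) := Fin.nontrivial_iff_two_le.2 hd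
    exact exists_ne _
  refine Infinite.of_injective
    (fun n : ℤ => (⟨Pi.single i n, ?_⟩ : {w : Site d // lev u w = 0})) ?_
  · unfold lev
    rw [Pi.single_eq_of_ne hi.symm]
    simp
  · intro a b h
    have := congrFun (congrArg Subtype.val h) i
    simpa using this

open Classical in
/-- **the binding** -/
theorem bind (hd : 2 ≤ d) (ν : Measure (Row d)) [IsProbabilityMeasure ν]
    (hinj : Function.Injective fun L : List B => (catX D L, catY D L))
    (hsurj : ∀ n π γ, IsUp u n π → IsDn u n γ → ∃ L, catX D L = π ∧ catY D L = γ)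
    (Λ : B → ℝ≥0∞) (hLW : ∀ L : List B, LW Λ L = aw ν (catX D L) * aw ν (catY D L))
    (c : ℝ≥0∞) (hc : c ≠ 0)
    (hcU : ∀ n, c ≤ ∑' π : List (Step d), (if IsUp u n π then aw ν π else 0))
    (hcD : ∀ n, c ≤ ∑' γ : List (Step d), (if IsDn u n γ then aw ν γ else 0))
    (h1U : ∀ n, ∑' π : List (Step d), (if IsUp u n π then aw ν π else 0) ≤ 1)
    (h1D : ∀ n, ∑' γ : List (Step d), (if IsDn u n γ then aw ν γ else 0) ≤ 1)
    (hs : ∀ w : Site d, lev u w = 0 → w ≠ 0 →
      ∑' n : ℕ, ∑' π : List (Step d), ∑' γ : List (Step d),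
        (if IsUp u n π ∧ IsDn u n γ ∧ Cm u w π γ = ∅ then aw ν π * aw ν γ else 0) ≠ ⊤)
    (hK : KappaW ν u) : False := by
  have := infinite_W (u := u) hd
  have hU : ∀ n, U Λ D.ht n = (∑' π : List (Step d), (if IsUp u n π then aw ν π else 0)) *
      ∑' γ : List (Step d), (if IsDn u n γ then aw ν γ else 0) := by
    intro n
    have h := sum_cat D hinj hsurj n (fun π γ => aw ν π * aw ν γ)
    rw [U]
    simp_rw [hLW]
    rw [h, ← ENNReal.tsum_mul_right]
    refine tsum_congr fun π => ?_
    rw [← ENNReal.tsum_mul_left]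
    refine tsum_congr fun γ => ?_
    by_cases h1 : IsUp u n π <;> by_cases h2 : IsDn u n γ <;> simp [h1, h2]
  obtain ⟨w, hw, htop⟩ := abs_main1 Λ D.ht (dl D) (cd D) D.h1
    (fun w b k hk => cd_le D w b k hk) (dl_inj D) (far D) (c * c) (mul_ne_zero hc hc) 0
    (fun n _ => by rw [hU]; exact mul_le_mul' (hcU n) (hcD n))
    (fun n => by rw [hU]; exact mul_le_one' (h1U n) (h1D n))
    (by
      intro ε hε
      obtain ⟨M, hM⟩ := hK ε hε
      refine ⟨M, fun m hm n hn w => ?_⟩
      refine le_trans (le_of_eq ?_) (hM m hm n hn w.1 w.2)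
      have h := sum_cat D hinj hsurj n (fun π γ =>
        if (∀ k ∈ Cm u w.1 π γ, m < k) ∧ (∃ k ∈ Cm u w.1 π γ, k ≤ 2 * m)
          then aw ν π * aw ν γ else 0)
      rw [Kap1, KW]
      refine Eq.trans ?_ (h.trans ?_)
      · refine tsum_congr fun L => ?_
        rw [CD_eq, hLW]
        by_cases h1 : HT D.ht L = n <;> simp [h1]
      · refine tsum_congr fun π => tsum_congr fun γ => ?_
        by_cases h1 : IsUp u n π <;> by_cases h2 : IsDn u n γ <;> simp [h1, h2])
    {w0 u} (Set.finite_singleton _)
  have hw0 : w.1 ≠ 0 := by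
    intro h0
    exact hw (Set.mem_singleton_iff.2 (Subtype.ext h0))
  refine hs w.1 w.2 hw0 ?_
  rw [← top_le_iff, ← htop]
  have h3 : ∑' L : List B, (if CD D.ht (dl D) (cd D) L w = ∅ then LW Λ L else 0)
      = ∑' n : ℕ, ∑' L : List B, (if HT D.ht L = n then
        (if Cm u w.1 (catX D L) (catY D L) = ∅ then aw ν (catX D L) * aw ν (catY D L) else 0)
          else 0) := by
    rw [ENNReal.tsum_comm]
    refine tsum_congr fun L => ?_
    rw [tsum_eq_single (HT D.ht L) (fun n hn => by rw [if_neg (Ne.symm hn)])]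
    rw [if_pos rfl, CD_eq, hLW]
  rw [h3]
  refine ENNReal.tsum_le_tsum fun n => ?_
  have h := sum_cat D hinj hsurj n (fun π γ =>
    if Cm u w.1 π γ = ∅ then aw ν π * aw ν γ else 0)
  rw [h]
  refine ENNReal.tsum_le_tsum fun π => ENNReal.tsum_le_tsum fun γ => ?_
  by_cases h1 : IsUp u n π <;> by_cases h2 : IsDn u n γ <;> simp [h1, h2]

end Crest.Agent.R154.Bind367
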