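import Crest.Agent.R154.B5Inst_657
import Crest.Agent.R154.B5Weak_865
import Crest.Agent.R154.WMass_286
import Crest.Agent.R154.NBSurg_28
import Crest.Agent.R154.Spine_796

/-! Row 154 (helper240): `Spine.NBProp` from KAPPA' in words (first-contact form). -/

set_option autoImplicit false

namespace Crest.Agent.R154.NB240

open MeasureTheory ProbabilityTheory Crest.ProbabilityR.RandomEnvironment Crest.Agent.R154
open Crest.Agent.R154.Flux132 (lev opp)
open Crest.Agent.R154.Flux566 (lw endp sitesL)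
open Crest.Agent.R154.NB28 (IsUp IsDn aw Cm KW KappaW)
open Crest.Agent.R154.B5A (LW HT CD U Kap1)
open scoped ENNReal

variable {d : ℕ}

lemma endp_mem_sitesL {l p : List (Step d)} (x : Site d) (hp : p <+: l) (hne : p ≠ l) :
    endp x p ∈ sitesL x l := by
  induction l generalizing x p with
  | nil => exact absurd (List.prefix_nil.1 hp) hne
  | cons e l ih =>
    cases p with
    | nil => simp [sitesL, endp]
    | cons a p =>
      obtain ⟨rfl, h2⟩ := List.cons_prefix_cons.1 hp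
      simp only [sitesL, endp, List.mem_cons]
      exact Or.inr (ih _ h2 (fun h => hne (by rw [h])))

lemma isUp_iff' (u : Step d) (n : ℕ) (l : List (Step d)) :
    l ∈ B5W.UpW (B5W.hu u) n ↔ IsUp u n l := by
  constructor
  · intro h
    refine ⟨fun y hy => ?_, ?_⟩
    · have := B5W.lev_mem_up h hy
      rw [Flux566.lev_zero, zero_add] at this
      exact this
    · have := B5W.lev_endp_up h 0
      rw [Flux566.lev_zero, zero_add] at this
      exact this
  · intro h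
    have hl : ∀ p : List (Step d), B5W.lv (B5W.hu u) p = Flux566.lev u (endp 0 p) := fun p => by
      rw [B5W.lev_endp, Flux566.lev_zero, zero_add]
    refine ⟨by rw [hl]; exact h.2, fun p hp hne => ?_⟩
    rw [hl]
    exact h.1 _ (endp_mem_sitesL 0 hp hne)

lemma isDn_iff' (u : Step d) (n : ℕ) (l : List (Step d)) :
    l ∈ B5W.UpW (B5W.hdn u) n ↔ IsDn u n l := by
  constructor
  · intro h
    refine ⟨fun y hy => ?_, ?_⟩
    · have := B5W.lev_mem_dn h hy
      rw [Flux566.lev_zero, zero_sub] at this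
      exact ⟨this.2, this.1⟩
    · have := B5W.lev_endp_dn h 0
      rw [Flux566.lev_zero, zero_sub] at this
      exact this
  · intro h
    have hl : ∀ p : List (Step d), B5W.lv (B5W.hdn u) p = - Flux566.lev u (endp 0 p) := fun p => by
      rw [B5W.lv_hdn, B5W.lev_endp, Flux566.lev_zero, zero_add]
    refine ⟨?_, fun p hp hne => ?_⟩
    · rw [hl]
      have : Flux566.lev u (endp 0 l) = -(n : ℤ) := h.2
      rw [this, neg_neg]
    · rw [hl]
      have : -(n : ℤ) < Flux566.lev u (endp 0 p) ∧ Flux566.lev u (endp 0 p) ≤ 0 :=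
        h.1 _ (endp_mem_sitesL 0 hp hne)
      exact ⟨by linarith [this.2], by linarith [this.1]⟩

lemma stepVec_opp (u : Step d) : stepVec (opp u) = - stepVec u := by
  rcases u with ⟨i, b⟩
  cases b
  · simp only [opp, stepVec, Bool.not_false]
    simp [← Pi.single_neg]
  · simp only [opp, stepVec, Bool.not_true]
    simp [← Pi.single_neg]

lemma cds_eq (u : Step d) (x : List (Step d) × List (Step d)) (w : Site d) {n : ℕ}
    (hx : IsUp u n x.1) : B5W.cds u x w = Cm u w x.1 x.2 := by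
  have hn : Flux566.lev u (endp 0 x.1) = n := hx.2
  ext k
  simp only [B5W.cds, Cm, Set.mem_ofPred_eq]
  constructor
  · rintro ⟨s, h1, h2, hk⟩
    refine ⟨-endp 0 x.1 + s, ?_, ?_, ?_⟩
    · have := (B5W.mem_sitesL_add (-endp 0 x.1) 0 s x.1).2 h1
      rwa [add_zero] at this
    · have := (B5W.mem_sitesL_add (-endp 0 x.1) (endp 0 x.1 + w - stepVec u) s x.2).2 h2
      rwa [show -endp 0 x.1 + (endp 0 x.1 + w - stepVec u) = w + stepVec (opp u) by
        rw [stepVec_opp]; abel] at this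
    · change Flux566.lev u (-endp 0 x.1 + s) = _
      rw [Flux566.lev_add, Flux566.lev_neg]
      linarith
  · rintro ⟨y, h1, h2, hk⟩
    refine ⟨endp 0 x.1 + y, ?_, ?_, ?_⟩
    · have := (B5W.mem_sitesL_add (endp 0 x.1) (-endp 0 x.1) y x.1).2 h1
      rwa [add_neg_cancel] at this
    · have := (B5W.mem_sitesL_add (endp 0 x.1) (w + stepVec (opp u)) y x.2).2 h2
      rwa [show endp 0 x.1 + (w + stepVec (opp u)) = endp 0 x.1 + w - stepVec u by
        rw [stepVec_opp]; abel] at this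
    · have hk' : Flux566.lev u y = -(k : ℤ) := hk
      rw [Flux566.lev_add, hk']
      ring

variable (ν : Measure (Row d)) [IsProbabilityMeasure ν]

lemma hn1 : B5W.aw (iidEnvironmentLaw ν) [] = 1 := by
  have : IsProbabilityMeasure (iidEnvironmentLaw ν) := by unfold iidEnvironmentLaw; infer_instance
  exact B5W.aw_nil _

open Classical in
lemma tsum_pairs (u : Step d) (n : ℕ) (F : List (Step d) × List (Step d) → ℝ≥0∞) :
    ∑' L : List (B5W.PB u), (if HT (B5W.ht u) L = n then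
      LW (B5W.Lam ν u) L * F (B5W.cat L) else 0)
      = ∑' π : List (Step d), ∑' γ : List (Step d),
        (if IsUp u n π ∧ IsDn u n γ then aw ν π * aw ν γ * F (π, γ) else 0) := by
  have h1 := B5W.tsum_lists (hn1 ν) (hn1 ν) (B5W.aw_up ν u) (B5W.aw_dn ν u) n F
  refine Eq.trans ?_ (h1.trans ?_)
  · rfl
  have h2 := tsum_subtype (B5W.PC (B5W.hu u) (B5W.hdn u) n)
    (fun x : List (Step d) × List (Step d) =>
      B5W.aw (iidEnvironmentLaw ν) x.1 * B5W.aw (iidEnvironmentLaw ν) x.2 * F x)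
  refine h2.trans ?_
  rw [ENNReal.tsum_prod']
  refine tsum_congr fun π => tsum_congr fun γ => ?_
  rw [Set.indicator_apply]
  have hiff : ((π, γ) ∈ B5W.PC (B5W.hu u) (B5W.hdn u) n) ↔ (IsUp u n π ∧ IsDn u n γ) := by
    rw [← isUp_iff', ← isDn_iff']
    rfl
  by_cases h : IsUp u n π ∧ IsDn u n γ
  · rw [if_pos h, if_pos (hiff.2 h)]
    rfl
  · rw [if_neg h, if_neg (fun h' => h (hiff.1 h'))]

open Classical in
lemma kap_eq (u : Step d) (n m : ℕ) (w : B5W.Lat u) :
    Kap1 (B5W.Lam ν u) (B5W.ht u) (B5W.dl u) (B5W.cd u) n m w = KW ν u n m w.1 := by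
  have h1 := tsum_pairs ν u n (fun x => if (∀ k ∈ B5W.cds u x w.1, m < k) ∧
    (∃ k ∈ B5W.cds u x w.1, k ≤ 2 * m) then 1 else 0)
  rw [Kap1, KW]
  refine Eq.trans ?_ (h1.trans ?_)
  · refine tsum_congr fun L => ?_
    rw [B5W.CD_cat]
    by_cases hH : HT (B5W.ht u) L = n
    · rw [if_pos hH]
      by_cases hc : (∀ k ∈ B5W.cds u (B5W.cat L) w.1, m < k) ∧
        (∃ k ∈ B5W.cds u (B5W.cat L) w.1, k ≤ 2 * m)
      · rw [if_pos ⟨hH, hc⟩, if_pos hc, mul_one]
      · rw [if_neg (fun h => hc h.2), if_neg hc, mul_zero]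
    · rw [if_neg (fun h => hH h.1), if_neg hH]
  · refine tsum_congr fun π => tsum_congr fun γ => ?_
    by_cases hUD : IsUp u n π ∧ IsDn u n γ
    · rw [if_pos hUD, cds_eq u (π, γ) w.1 hUD.1]
      by_cases hc : (∀ k ∈ Cm u w.1 π γ, m < k) ∧ (∃ k ∈ Cm u w.1 π γ, k ≤ 2 * m)
      · rw [if_pos hc, if_pos ⟨hUD.1, hUD.2, hc.1, hc.2⟩, mul_one]
      · rw [if_neg hc, if_neg (fun h => hc ⟨h.2.2.1, h.2.2.2⟩), mul_zero]
    · rw [if_neg hUD, if_neg (fun h => hUD ⟨h.1, h.2.1⟩)]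

open Classical in
lemma U_eq' (u : Step d) (n : ℕ) :
    U (B5W.Lam ν u) (B5W.ht u) n = ∑' π : List (Step d), ∑' γ : List (Step d),
        (if IsUp u n π ∧ IsDn u n γ then aw ν π * aw ν γ else 0) := by
  have h1 := tsum_pairs ν u n (fun _ => 1)
  simp only [mul_one] at h1
  exact h1

lemma infinite_lat (hd : 2 ≤ d) (u : Step d) : Infinite (B5W.Lat u) := by
  have : Nontrivial (Fin d) := Fin.nontrivial_iff_two_le.2 hd
  obtain ⟨j, hj⟩ := exists_ne u.1
  refine Infinite.of_injective (fun k : ℕ => (⟨fun i => if i = j then (k : ℤ) else 0, by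
    unfold Flux566.lev
    simp [hj.symm]⟩ : B5W.Lat u)) fun a b h => ?_
  have h2 := congrFun (congrArg Subtype.val h) j
  simpa using h2

instance (u : Step d) : Countable (B5W.PB u) :=
  inferInstanceAs (Countable {b : List (Step d) × List (Step d) //
    B5W.Irr (B5W.hu u) (B5W.hdn u) b})

/-- weak form of KAPPA' in words -/
def KappaW' (u : Step d) : Prop :=
  ∀ ε : ℝ≥0∞, ε ≠ 0 → ∃ M : ℕ, ∀ m, M ≤ m → ∃ n0 : ℕ, ∀ n, n0 ≤ n → ∀ w : Site d,
    lev u w = 0 → KW ν u n m w ≤ ε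

lemma KappaW'.of {u : Step d} (h : KappaW ν u) : KappaW' ν u := by
  intro ε hε
  obtain ⟨M, hM⟩ := h ε hε
  exact ⟨M, fun m hm => ⟨2 * m, fun n hn w hw => hM m hm n hn w hw⟩⟩

/-- **contradiction of two-sided escape with KAPPA'.** -/
theorem false_of_kappa (hd : 2 ≤ d) (hν : ∀ᵐ p ∂ν, ∀ e : Step d, 0 < p.1 e) (u : Step d)
    (hA : annealed (iidEnvironmentLaw ν) 0 (escapeEvent (B2d.dirVec u)) ≠ 0)
    (hB : annealed (iidEnvironmentLaw ν) 0 (escapeEvent (-B2d.dirVec u)) ≠ 0)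
    (hK : KappaW' ν u) : False := by
  classical
  have := infinite_lat hd u
  obtain ⟨c, hc0, hc1, hc⟩ := WM286.mass_pairs ν hν u hA hB
  obtain ⟨w, -, hw⟩ := B5A.abs_main2 (B5W.Lam ν u) (B5W.ht u) (B5W.dl u) (B5W.cd u)
    (fun b => B5W.one_le_hb b) (B5W.hcd u) (B5W.hinj u) (B5W.hfar u) c hc0 0
    (fun n _ => by rw [U_eq']; exact hc n) (fun n => by rw [U_eq']; exact WM286.mass_pairs_le ν u n)
    (fun ε hε => by
      obtain ⟨M, hM⟩ := hK ε hε
      refine ⟨M, fun m hm => ?_⟩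
      obtain ⟨n0, h0⟩ := hM m hm
      exact ⟨n0, fun n hn w => by rw [kap_eq]; exact h0 n hn w.1 w.2⟩) ∅ Set.finite_empty
  have hup : ∀ L : List (B5W.PB u), IsUp u (HT (B5W.ht u) L) (B5W.cat L).1 := fun L =>
    (isUp_iff' u _ _).1 (B5W.cat_mem L).1
  have hdn : ∀ L : List (B5W.PB u), IsDn u (HT (B5W.ht u) L) (B5W.cat L).2 := fun L =>
    (isDn_iff' u _ _).1 (B5W.cat_mem L).2
  refine NB28.surgery ν hν u w.1 w.2
    (ι := {L : List (B5W.PB u) // CD (B5W.ht u) (B5W.dl u) (B5W.cd u) L w = ∅})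
    (fun L => HT (B5W.ht u) L.1) (fun L => (B5W.cat L.1).1) (fun L => (B5W.cat L.1).2)
    (fun L => hup L.1) (fun L => hdn L.1) ?_ ?_ ?_
  · intro L y hy hy'
    have h1 : B5W.cds u (B5W.cat L.1) w.1 = ∅ := by rw [← B5W.CD_cat]; exact L.2
    rw [cds_eq u _ _ (hup L.1)] at h1
    have hlev : lev u y < 0 := by
      rw [NB28.mem_sitesL_iff] at hy
      have h2 := (hup L.1).1 _ hy
      have h3 := (hup L.1).2
      rw [sub_neg_eq_add, Flux132.lev_add, h3] at h2
      omega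
    have : (-lev u y).toNat ∈ Cm u w.1 (B5W.cat L.1).1 (B5W.cat L.1).2 :=
      ⟨y, hy, hy', by omega⟩
    rw [h1] at this
    exact this
  · intro L L' h1 h2
    exact Subtype.ext (B5W.cat_inj (Prod.ext h1 h2))
  · rw [← hw]
    have h2 := tsum_subtype {L : List (B5W.PB u) | CD (B5W.ht u) (B5W.dl u) (B5W.cd u) L w = ∅}
      (fun L => aw ν (B5W.cat L).1 * aw ν (B5W.cat L).2)
    refine Eq.trans h2 ?_
    refine tsum_congr fun L => ?_
    rw [Set.indicator_apply]
    have h3 : LW (B5W.Lam ν u) L = aw ν (B5W.cat L).1 * aw ν (B5W.cat L).2 :=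
      B5W.LW_wt (hn1 ν) (hn1 ν) (B5W.aw_up ν u) (B5W.aw_dn ν u) L
    by_cases h : CD (B5W.ht u) (B5W.dl u) (B5W.cd u) L w = ∅
    · rw [if_pos h, if_pos (show L ∈ {L : List (B5W.PB u) |
        CD (B5W.ht u) (B5W.dl u) (B5W.cd u) L w = ∅} from h), h3]
    · rw [if_neg h, if_neg (show L ∉ {L : List (B5W.PB u) |
        CD (B5W.ht u) (B5W.dl u) (B5W.cd u) L w = ∅} from h)]

/-- **`Spine.NBProp` from KAPPA' (weak form).** -/
theorem nb_of_kappaW' (hK : ∀ (d : ℕ) (_ : 3 ≤ d) (ν : Measure (Row d)) [IsProbabilityMeasure ν],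
    (∀ᵐ p ∂ν, ∀ e : Step d, 0 < p.1 e) → ∀ u : Step d,
    annealed (iidEnvironmentLaw ν) 0 (escapeEvent (B2d.dirVec u)) ≠ 0 →
    annealed (iidEnvironmentLaw ν) 0 (escapeEvent (-B2d.dirVec u)) ≠ 0 → KappaW' ν u) :
    Spine.NBProp := by
  intro d hd ν _ hν e he
  by_contra hB
  exact false_of_kappa ν (by omega) hν e he hB (hK d hd ν hν e he hB)

/-- **`Spine.NBProp` from KAPPA'.** -/
theorem nb_of_kappaW (hK : ∀ (d : ℕ) (_ : 3 ≤ d) (ν : Measure (Row d)) [IsProbabilityMeasure ν],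
    (∀ᵐ p ∂ν, ∀ e : Step d, 0 < p.1 e) → ∀ u : Step d,
    annealed (iidEnvironmentLaw ν) 0 (escapeEvent (B2d.dirVec u)) ≠ 0 →
    annealed (iidEnvironmentLaw ν) 0 (escapeEvent (-B2d.dirVec u)) ≠ 0 → KappaW ν u) :
    Spine.NBProp :=
  nb_of_kappaW' fun d hd ν _ hν u h1 h2 => KappaW'.of ν (hK d hd ν hν u h1 h2)

end Crest.Agent.R154.NB240
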