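import Crest.Agent.R154.FinB_926
import Crest.Agent.R154.HWb_597
import Crest.Agent.R154.HW_280
import Crest.Agent.R154.E23_168

/-! Row 154 (S0219), helper802: `Spine.NBProp`, frame B closed. -/

set_option autoImplicit false

namespace Crest.Agent.R154.NBFin802

open MeasureTheory ProbabilityTheory Crest.ProbabilityR.RandomEnvironment
open Crest.Agent.R154.B5A Crest.Agent.R154.B5W
open scoped ENNReal Topology
open Filter

variable {d : ℕ} (ν : Measure (Row d)) [IsProbabilityMeasure ν] (u : Step d)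

theorem htl {B : Type*} (Λ : B → ℝ≥0∞) (ht : B → ℕ) (h1 : ∀ b, 1 ≤ ht b) (hΛ : ∑' b, Λ b = 1)
    (c : ℝ≥0∞) (hc : c ≠ 0) (hc' : c ≠ ⊤) (hU : ∀ n, c ≤ U Λ ht n) :
    Tendsto (fun H : ℕ => ∑' k, tail Λ ht (H + k)) atTop (𝓝 0) := by
  have hE := mean_le Λ ht h1 hΛ c hc hc' 0 (fun n _ => hU n)
  rw [sum_tail Λ ht hΛ] at hE
  have h : ∑' k, tail Λ ht k ≠ ⊤ := ne_top_of_le_ne_top (ENNReal.inv_ne_top.2 hc) hE
  have h2 := ENNReal.tendsto_sum_nat_add (fun k => tail Λ ht k) h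
  refine h2.congr fun H => tsum_congr fun k => ?_
  rw [add_comm]

open Classical in
lemma e2' : HW280.E2 ν u 4 (E23168.uc ν u) := by
  intro s H E μ M lam h1 h2 h3 h4
  refine le_trans (le_of_eq ?_) (E23168.e2c ν u s H E μ M lam h1 h2 h3 h4)
  refine tsum_congr fun x => ?_
  by_cases hx : Flux132.lev u x = 0
  · rw [if_pos hx, if_pos hx]
    refine congrArg _ ?_
    unfold HW280.PhiX
    refine tsum_congr fun π => tsum_congr fun γ => ?_
    split_ifs with h1 h2 h2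
    · rfl
    · exact absurd (by tauto) h2
    · exact absurd (by tauto) h1
    · rfl
  · rw [if_neg hx, if_neg hx]

open Classical in
lemma e3' : HW280.E3 ν u 4 (E23168.uc ν u) := by
  intro s H E μ M lam h1 h2 h3 h4
  refine le_trans (le_of_eq ?_) (E23168.e3c ν u s H E μ M lam h1 h2 h3 h4)
  refine tsum_congr fun x => ?_
  by_cases hx : Flux132.lev u x = 0
  · rw [if_pos hx, if_pos hx]
    refine congrArg _ ?_
    unfold HW280.PhiY
    refine tsum_congr fun π => tsum_congr fun γ => ?_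
    split_ifs with h1 h2 h2
    · rfl
    · exact absurd (by tauto) h2
    · exact absurd (by tauto) h1
    · rfl
  · rw [if_neg hx, if_neg hx]

theorem hWin (hν : ∀ᵐ p ∂ν, ∀ e : Step d, 0 < p.1 e)
    (hA : annealed (iidEnvironmentLaw ν) 0 (escapeEvent (B2d.dirVec u)) ≠ 0)
    (hB : annealed (iidEnvironmentLaw ν) 0 (escapeEvent (-B2d.dirVec u)) ≠ 0) :
    KB391.HWin ν u := by
  obtain ⟨c, hc, hc1, hup, hdn⟩ := WM286.mass_pos ν hν u hA hB
  obtain ⟨c0, hc0, hU, hU1⟩ := KB391.masses ν u hν hA hB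
  have hc01 : c0 ≤ 1 := (hU 0).trans (hU1 0)
  have hΛ : ∑' b, Lam ν u b = 1 :=
    le_antisymm (mass_le_one _ _ one_le_hb hU1) (mass_ge_one _ _ c0 hc0 0 (fun n _ => hU n))
  exact HWb597.hWin_of (Lam ν u) (B5W.ht u) (B5W.dl u) (B5W.cd u) one_le_hb hΛ hU1
    (B5W.hinj u) (htl _ _ one_le_hb hΛ c0 hc0 (ne_top_of_le_ne_top ENNReal.one_ne_top hc01) hU)
    (c * c) (mul_ne_zero hc hc) (mul_le_one' hc1 hc1)
    (fun v η hv hv1 hη => HW280.hW ν u c hup hdn 4 (by norm_num) (E23168.uc ν u)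
      (E23168.uc_tendsto ν u) (e2' ν u) (e3' ν u) v η hv hv1 hη)

theorem nb : Spine.NBProp :=
  FinB926.nb_of fun d _ ν _ hν u hA hB => hWin ν u hν hA hB

end Crest.Agent.R154.NBFin802
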