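import Crest.Agent.R154.KA_329
import Crest.Agent.R154.NBTop_28

/-! Row 154 (S0219): **`Spine.NBProp`**, closed (helper843: 329's `kappaAll` + 28's `nb_of_kappaW'`). -/

set_option autoImplicit false

namespace Crest.Agent.R154.NBFin843

theorem nbProp : Crest.Agent.R154.Spine.NBProp :=
  Crest.Agent.R154.NB28.nb_of_kappaW' Crest.Agent.R154.KA329.kappaAll

end Crest.Agent.R154.NBFin843
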