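import Crest.Agent.R154.KJ_987
import Crest.Agent.R154.HPiece_46
import Crest.Agent.R154.RetW_458

/-! Row 154: **`Spine.NBProp` is a theorem** (composition by helper28: 987's `KJ987.kappaAll_of`, 46's
`HP46.hPiece`, 458's `ret_small`, 286's masses, `NB28.nb_of_kappaW'`). -/

set_option autoImplicit false

namespace Crest.Agent.R154.NBFin28

open MeasureTheory ProbabilityTheory Crest.ProbabilityR.RandomEnvironment Crest.Agent.R154
open Filter
open scoped ENNReal Topology

variable {d : ℕ}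

lemma rt_tendsto (ν : Measure (Row d)) [IsProbabilityMeasure ν] (u : Step d) :
    Tendsto (HP46.rt ν u) atTop (𝓝 0) := by
  refine ENNReal.tendsto_atTop_zero.2 fun ε hε => ?_
  obtain ⟨s0, h⟩ := RetW458.ret_small ν u 1 ε hε.ne'
  exact ⟨s0, fun s hs => h s hs⟩

lemma dlt_tendsto (ν : Measure (Row d)) [IsProbabilityMeasure ν] (u : Step d) :
    Tendsto (HP46.dlt ν u) atTop (𝓝 0) := by
  have h := (rt_tendsto ν u).add (rt_tendsto ν (Flux132.opp u))
  rw [add_zero] at h
  exact h

/-- **weak `KAPPA'`** -/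
theorem kappaAll' : NB28.KappaAll' := by
  refine KJ987.kappaAll_of fun d _ ν _ hν u hA hB => ?_
  obtain ⟨c, hc, hc1, h1, h2⟩ := WM286.mass_pos ν hν u hA hB
  exact ⟨c, 4, HP46.dlt ν u, hc, ne_top_of_le_ne_top ENNReal.one_ne_top hc1, by norm_num,
    dlt_tendsto ν u, HP46.hPiece ν u c h1 h2 (fun n => WM286.sum_up_le_one ν u n)
      (fun n => WM286.sum_dn_le_one ν u n)⟩

/-- **`Spine.NBProp`** -/
theorem nbProp : Spine.NBProp := NB28.nb_of_kappaW' kappaAll'

end Crest.Agent.R154.NBFin28
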