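import Crest.Agent.R154.NBDefs_28
import Crest.Agent.R154.NBSurg_28
import Crest.Agent.R154.B5Inst_657
import Crest.Agent.R154.B5First_181
import Crest.Agent.R154.WMass_286
import Crest.Agent.R154.Spine_796

/-! Row 154, T0219 (helper774): `KappaW` (28) implies `Spine.NBProp`, by 181's `abs_main1` at 657's
pair words, 286's masses and 28's surgery. -/

set_option autoImplicit false

open MeasureTheory ProbabilityTheory Crest.ProbabilityR.RandomEnvironment
open scoped ENNReal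

namespace Crest.Agent.R154.NBTop774

open Crest.Agent.R154.B5A Crest.Agent.R154.B5W
open Crest.Agent.R154.NB28 (IsUp IsDn Cm KW KappaW NC)
open Crest.Agent.R154.Flux566 (lw endp sitesL endp_append endp_eq_add)

variable {d : ℕ}

lemma lev_eq (u : Step d) (x : Site d) : Flux132.lev u x = Flux566.lev u x := rfl

lemma opp_vec (u : Step d) : stepVec (Flux132.opp u) = - stepVec u := by
  unfold Flux132.opp stepVec
  cases u.2 <;> simp [← Pi.single_neg]

/-- a proper prefix ends at a site of the word -/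
lemma endp_mem_sitesL {x : Site d} {p l : List (Step d)} (hp : p <+: l) (hne : p ≠ l) :
    endp x p ∈ sitesL x l := by
  obtain ⟨q, rfl⟩ := hp
  rw [B5W.sitesL_append, List.mem_append]
  cases q with
  | nil => exact absurd (List.append_nil p).symm hne
  | cons e q => right; simp [sitesL]

lemma isUp_iff (u : Step d) (n : ℕ) (l : List (Step d)) :
    IsUp u n l ↔ l ∈ UpW (hu u) n := by
  unfold NB28.IsUp
  simp only [lev_eq]
  have hz : Flux566.lev u (0 : Site d) = 0 := Flux566.lev_zero u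
  constructor
  · rintro ⟨h1, h2⟩
    refine ⟨by rw [B5W.lev_endp, hz, zero_add] at h2; exact h2, fun p hp hne => ?_⟩
    have := h1 _ (endp_mem_sitesL (x := 0) hp hne)
    rw [B5W.lev_endp, hz, zero_add] at this
    exact this
  · rintro h
    refine ⟨fun y hy => ?_, ?_⟩
    · have := B5W.lev_mem_up h hy
      rw [hz] at this
      exact ⟨this.1, by linarith [this.2]⟩
    · rw [B5W.lev_endp_up h, hz, zero_add]

lemma isDn_iff (u : Step d) (n : ℕ) (l : List (Step d)) :
    IsDn u n l ↔ l ∈ UpW (hdn u) n := by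
  unfold NB28.IsDn
  simp only [lev_eq]
  have hz : Flux566.lev u (0 : Site d) = 0 := Flux566.lev_zero u
  constructor
  · rintro ⟨h1, h2⟩
    refine ⟨?_, fun p hp hne => ?_⟩
    · rw [B5W.lev_endp, hz, zero_add] at h2
      rw [B5W.lv_hdn, h2]; ring
    · have := h1 _ (endp_mem_sitesL (x := 0) hp hne)
      rw [B5W.lev_endp, hz, zero_add] at this
      rw [B5W.lv_hdn]
      constructor <;> linarith [this.1, this.2]
  · rintro h
    refine ⟨fun y hy => ?_, ?_⟩
    · have := B5W.lev_mem_dn h hy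
      rw [hz] at this
      exact ⟨by linarith [this.2], this.1⟩
    · rw [B5W.lev_endp_dn h, hz]; ring

/-- the two sets of contact depths agree -/
lemma cds_eq (u : Step d) (x : List (Step d) × List (Step d)) (w : Site d) :
    cds u x w = Cm u w x.1 x.2 := by
  ext k
  unfold cds NB28.Cm
  simp only [Set.mem_ofPred_eq, lev_eq]
  constructor
  · rintro ⟨s, h1, h2, hk⟩
    refine ⟨-endp 0 x.1 + s, ?_, ?_, ?_⟩
    · have := (B5W.mem_sitesL_add (-endp 0 x.1) 0 s x.1).2 h1
      rwa [add_zero] at this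
    · have := (B5W.mem_sitesL_add (-endp 0 x.1) (endp 0 x.1 + w - stepVec u) s x.2).2 h2
      rwa [show -endp 0 x.1 + (endp 0 x.1 + w - stepVec u) = w + stepVec (Flux132.opp u) by
        rw [opp_vec]; abel] at this
    · rw [Flux566.lev_add, Flux566.lev_neg]; omega
  · rintro ⟨y, h1, h2, hk⟩
    refine ⟨endp 0 x.1 + y, ?_, ?_, ?_⟩
    · have := (B5W.mem_sitesL_add (endp 0 x.1) (-endp 0 x.1) y x.1).2 h1
      rwa [add_neg_cancel] at this
    · have := (B5W.mem_sitesL_add (endp 0 x.1) (w + stepVec (Flux132.opp u)) y x.2).2 h2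
      rwa [show endp 0 x.1 + (w + stepVec (Flux132.opp u)) = endp 0 x.1 + w - stepVec u by
        rw [opp_vec]; abel] at this
    · rw [Flux566.lev_add]; omega

lemma nc_of_empty {u : Step d} {n : ℕ} {w : Site d} {π γ : List (Step d)} (hπ : IsUp u n π)
    (h : Cm u w π γ = ∅) : NC u w π γ := by
  intro y hy hy'
  have h1 := (isUp_iff u n π).1 hπ
  have h2 := B5W.lev_mem_up h1 hy
  rw [Flux566.lev_neg, B5W.lev_endp_up h1, Flux566.lev_zero] at h2
  have : (-(Flux566.lev u y)).toNat ∈ Cm u w π γ := by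
    refine ⟨y, hy, hy', ?_⟩
    rw [lev_eq]
    omega
  rw [h] at this
  exact this

instance (u : Step d) : Countable (PB u) :=
  Function.Injective.countable (f := fun b : PB u => b.1) Subtype.val_injective

lemma aw_eq (ν : Measure (Row d)) [IsProbabilityMeasure ν] (l : List (Step d)) :
    B5W.aw (iidEnvironmentLaw ν) l = NB28.aw ν l := rfl

open Classical in
/-- sums over a subtype of crossings -/
lemma tsum_up (ν : Measure (Row d)) [IsProbabilityMeasure ν] (u : Step d) (n : ℕ) :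
    ∑' π : UpW (hu u) n, B5W.aw (iidEnvironmentLaw ν) π.1
      = ∑' l : List (Step d), if IsUp u n l then NB28.aw ν l else 0 := by
  rw [tsum_subtype (UpW (hu u) n) (fun l => B5W.aw (iidEnvironmentLaw ν) l)]
  refine tsum_congr fun l => ?_
  by_cases h : l ∈ UpW (hu u) n
  · rw [Set.indicator_of_mem h, if_pos ((isUp_iff u n l).2 h), aw_eq]
  · rw [Set.indicator_of_notMem h, if_neg (fun h' => h ((isUp_iff u n l).1 h'))]

open Classical in
lemma tsum_dn (ν : Measure (Row d)) [IsProbabilityMeasure ν] (u : Step d) (n : ℕ) :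
    ∑' π : UpW (hdn u) n, B5W.aw (iidEnvironmentLaw ν) π.1
      = ∑' l : List (Step d), if IsDn u n l then NB28.aw ν l else 0 := by
  rw [tsum_subtype (UpW (hdn u) n) (fun l => B5W.aw (iidEnvironmentLaw ν) l)]
  refine tsum_congr fun l => ?_
  by_cases h : l ∈ UpW (hdn u) n
  · rw [Set.indicator_of_mem h, if_pos ((isDn_iff u n l).2 h), aw_eq]
  · rw [Set.indicator_of_notMem h, if_neg (fun h' => h ((isDn_iff u n l).1 h'))]

lemma prob_iid (ν : Measure (Row d)) [IsProbabilityMeasure ν] :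
    IsProbabilityMeasure (iidEnvironmentLaw ν) := by
  unfold iidEnvironmentLaw; infer_instance

lemma U_eq' (ν : Measure (Row d)) [IsProbabilityMeasure ν] (u : Step d) (n : ℕ) :
    U (Lam ν u) (ht u) n = (∑' π : UpW (hu u) n, B5W.aw (iidEnvironmentLaw ν) π.1)
      * ∑' ρ : UpW (hdn u) n, B5W.aw (iidEnvironmentLaw ν) ρ.1 := by
  have := prob_iid ν
  exact U_eq (h := hu u) (h' := hdn u) (B5W.aw_nil _) (B5W.aw_nil _)
    (B5W.aw_up ν u) (B5W.aw_dn ν u) n

open Classical in
/-- `Kap1` of the word instance is `KW` -/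
lemma kap1_le (ν : Measure (Row d)) [IsProbabilityMeasure ν] (u : Step d) (n m : ℕ) (w : Lat u) :
    Kap1 (Lam ν u) (ht u) (dl u) (cd u) n m w ≤ KW ν u n m w.1 := by
  have := prob_iid ν
  set F : List (Step d) × List (Step d) → ℝ≥0∞ := fun x =>
    if (∀ k ∈ cds u x w.1, m < k) ∧ ∃ k ∈ cds u x w.1, k ≤ 2 * m then 1 else 0 with hF
  have e1 : Kap1 (Lam ν u) (ht u) (dl u) (cd u) n m w
      = ∑' L : List (PB u), (if HT (hb (hu u) (hdn u)) L = n then
          LW (B5W.wt (B5W.aw (iidEnvironmentLaw ν)) (B5W.aw (iidEnvironmentLaw ν))) L * F (cat L)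
          else 0) := by
    unfold Kap1
    refine tsum_congr fun L => ?_
    rw [CD_cat]
    simp only [hF]
    by_cases h1 : HT (ht u) L = n
    · by_cases h2 : (∀ k ∈ cds u (cat L) w.1, m < k) ∧ ∃ k ∈ cds u (cat L) w.1, k ≤ 2 * m
      · rw [if_pos ⟨h1, h2⟩, if_pos (show HT (hb (hu u) (hdn u)) L = n from h1), if_pos h2,
          mul_one]; rfl
      · rw [if_neg (fun h => h2 h.2), if_neg h2, mul_zero]; simp
    · rw [if_neg (fun h => h1 h.1)]
      rw [if_neg (fun h : HT (hb (hu u) (hdn u)) L = n => h1 h)]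
  rw [e1, tsum_lists (h := hu u) (h' := hdn u) (B5W.aw_nil _) (B5W.aw_nil _)
    (B5W.aw_up ν u) (B5W.aw_dn ν u) n F]
  rw [← (pcEquiv (h := hu u) (h' := hdn u) n).tsum_eq]
  change ∑' c : UpW (hu u) n × UpW (hdn u) n,
    B5W.aw (iidEnvironmentLaw ν) c.1.1 * B5W.aw (iidEnvironmentLaw ν) c.2.1 * F (c.1.1, c.2.1) ≤ _
  rw [ENNReal.tsum_prod (f := fun (π : UpW (hu u) n) (ρ : UpW (hdn u) n) =>
    B5W.aw (iidEnvironmentLaw ν) π.1 * B5W.aw (iidEnvironmentLaw ν) ρ.1 * F (π.1, ρ.1))]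
  unfold NB28.KW
  have hinner : ∀ π : UpW (hu u) n, ∑' ρ : UpW (hdn u) n,
      B5W.aw (iidEnvironmentLaw ν) π.1 * B5W.aw (iidEnvironmentLaw ν) ρ.1 * F (π.1, ρ.1)
      ≤ ∑' γ : List (Step d), if IsUp u n π.1 ∧ IsDn u n γ ∧ (∀ k ∈ Cm u w.1 π.1 γ, m < k) ∧
        (∃ k ∈ Cm u w.1 π.1 γ, k ≤ 2 * m) then NB28.aw ν π.1 * NB28.aw ν γ else 0 := by
    intro π
    refine le_trans ?_ (ENNReal.tsum_comp_le_tsum_of_injective
      (f := fun ρ : UpW (hdn u) n => ρ.1) Subtype.val_injective _)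
    refine ENNReal.tsum_le_tsum fun ρ => ?_
    have hu' := (isUp_iff u n π.1).2 π.2
    have hd' := (isDn_iff u n ρ.1).2 ρ.2
    simp only [hF, cds_eq]
    by_cases h2 : (∀ k ∈ Cm u w.1 π.1 ρ.1, m < k) ∧ ∃ k ∈ Cm u w.1 π.1 ρ.1, k ≤ 2 * m
    · rw [if_pos h2, if_pos ⟨hu', hd', h2⟩, mul_one]; rfl
    · rw [if_neg h2, mul_zero]; exact zero_le
  refine (ENNReal.tsum_le_tsum hinner).trans ?_
  exact ENNReal.tsum_comp_le_tsum_of_injective
    (f := fun π : UpW (hu u) n => π.1) Subtype.val_injective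
    (fun π : List (Step d) => ∑' γ : List (Step d),
      if IsUp u n π ∧ IsDn u n γ ∧ (∀ k ∈ Cm u w.1 π γ, m < k) ∧
        (∃ k ∈ Cm u w.1 π γ, k ≤ 2 * m) then NB28.aw ν π * NB28.aw ν γ else 0)

lemma infinite_lat (hd : 2 ≤ d) (u : Step d) : Infinite (Lat u) := by
  obtain ⟨i, hi⟩ : ∃ i : Fin d, i ≠ u.1 := by
    have : Nontrivial (Fin d) := Fin.nontrivial_iff_two_le.2 hd
    exact exists_ne u.1
  refine Infinite.of_injective (fun k : ℕ => (⟨Pi.single i (k : ℤ), ?_⟩ : Lat u)) ?_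
  · unfold Flux566.lev
    rw [Pi.single_eq_of_ne (Ne.symm hi)]
    simp
  · intro a b h
    have h1 := congrArg (fun w : Lat u => w.1 i) h
    simpa using h1

open Classical in
/-- **KAPPA' implies that two opposite steps are not both escape directions.** -/
theorem nb_one (hd : 2 ≤ d) (ν : Measure (Row d)) [IsProbabilityMeasure ν]
    (hν : ∀ᵐ p ∂ν, ∀ e : Step d, 0 < p.1 e) (u : Step d)
    (hA : annealed (iidEnvironmentLaw ν) 0 (escapeEvent (B2d.dirVec u)) ≠ 0)
    (hB : annealed (iidEnvironmentLaw ν) 0 (escapeEvent (-B2d.dirVec u)) ≠ 0)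
    (hK : KappaW ν u) : False := by
  have := prob_iid ν
  have := infinite_lat hd u
  obtain ⟨c, hc0, hc1, hup, hdn'⟩ := WM286.mass_pos ν hν u hA hB
  obtain ⟨w, -, hw⟩ := abs_main1 (Lam ν u) (ht u) (dl u) (cd u) (fun b => one_le_hb b)
    (fun w b k hk => hcd u w b k hk) (hinj u) (hfar u) (c * c) (mul_ne_zero hc0 hc0) 0
    (fun n _ => by
      rw [U_eq', tsum_up, tsum_dn]
      exact mul_le_mul' (hup n) (hdn' n))
    (fun n => by
      rw [U_eq', tsum_up, tsum_dn]
      have := mul_le_mul' (WM286.sum_up_le_one ν u n) (WM286.sum_dn_le_one ν u n)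
      rwa [mul_one] at this)
    (fun ε hε => by
      obtain ⟨M, hM⟩ := hK ε hε
      exact ⟨M, fun m hm n hn w => (kap1_le ν u n m w).trans (hM m hm n hn w.1 w.2)⟩)
    ∅ Set.finite_empty
  -- surgery
  set ι := {L : List (PB u) // CD (ht u) (dl u) (cd u) L w = ∅} with hι
  have : Countable (List (PB u)) := inferInstance
  have hs := NB28.surgery ν hν u w.1 w.2 (ι := ι) (fun L => HT (hb (hu u) (hdn u)) L.1)
    (fun L => (cat L.1).1) (fun L => (cat L.1).2)
    (fun L => (isUp_iff _ _ _).2 (cat_mem L.1).1) (fun L => (isDn_iff _ _ _).2 (cat_mem L.1).2)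
    (fun L => nc_of_empty ((isUp_iff _ _ _).2 (cat_mem L.1).1) (by
      rw [← cds_eq u (cat L.1) w.1, ← CD_cat]
      exact L.2))
    (fun L L' h1 h2 => Subtype.ext (cat_inj (Prod.ext h1 h2)))
  apply hs
  rw [← hw]
  have h2 := tsum_subtype {L : List (PB u) | CD (ht u) (dl u) (cd u) L w = ∅} (fun L => LW (Lam ν u) L)
  rw [show (∑' L : List (PB u), if CD (ht u) (dl u) (cd u) L w = ∅ then LW (Lam ν u) L else 0)
    = ∑' L : {L : List (PB u) | CD (ht u) (dl u) (cd u) L w = ∅}, LW (Lam ν u) L.1 from by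
      rw [h2]
      refine tsum_congr fun L => ?_
      simp [Set.indicator_apply]]
  refine tsum_congr fun L => ?_
  rw [show LW (Lam ν u) L.1
    = B5W.aw (iidEnvironmentLaw ν) (cat L.1).1 * B5W.aw (iidEnvironmentLaw ν) (cat L.1).2 from
      LW_wt (h := hu u) (h' := hdn u) (B5W.aw_nil _) (B5W.aw_nil _)
        (B5W.aw_up ν u) (B5W.aw_dn ν u) L.1]
  rfl

/-- **`NBProp` from KAPPA'.** -/
theorem nb_of_kappaW (hK : ∀ (d : ℕ) (_ : 3 ≤ d) (ν : Measure (Row d)) [IsProbabilityMeasure ν],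
    (∀ᵐ p ∂ν, ∀ e : Step d, 0 < p.1 e) → ∀ u : Step d,
    annealed (iidEnvironmentLaw ν) 0 (escapeEvent (B2d.dirVec u)) ≠ 0 →
    annealed (iidEnvironmentLaw ν) 0 (escapeEvent (-B2d.dirVec u)) ≠ 0 → KappaW ν u) :
    Spine.NBProp := by
  intro d hd ν _ hν u hA
  by_contra hB
  exact nb_one (by omega) ν hν u hA hB (hK d hd ν hν u hA hB)

end Crest.Agent.R154.NBTop774
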