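import Crest.Agent.R154.Surg_799
import Crest.Agent.R154.NBDefs_28

/-! Row 154, T0219, ROAD 801 (helper799): the surgery in the letters of NBDefs_28. -/

set_option autoImplicit false

open MeasureTheory ProbabilityTheory Crest.ProbabilityR.RandomEnvironment
open scoped ENNReal

namespace Crest.Agent.R154.Surg799

open Crest.Agent.R154.Flux566 (lw endp sitesL)
open Crest.Agent.R154.Flux132 (lev opp)
open Crest.Agent.R154.NB28 (IsUp IsDn Cm)

variable {d : ℕ}

lemma lvadd (u : Step d) (x y : Site d) : lev u (x + y) = lev u x + lev u y :=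
  Flux566.lev_add u x y

lemma lvneg (u : Step d) (x : Site d) : lev u (-x) = - lev u x := Flux566.lev_neg u x

lemma lvself (u : Step d) : lev u (stepVec u) = 1 := Flux566.lev_self u

lemma mem_sitesL_add (l : List (Step d)) (x z y : Site d) :
    y ∈ sitesL (x + z) l ↔ y - z ∈ sitesL x l := by
  induction l generalizing x with
  | nil => simp [sitesL]
  | cons e l ih =>
    simp only [sitesL, List.mem_cons]
    rw [add_right_comm, ih, sub_eq_iff_eq_add]

lemma Wk_of {u : Step d} {lo hi t : ℤ} (l : List (Step d)) (x : Site d)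
    (h : ∀ y ∈ sitesL x l, lo ≤ lev u y ∧ lev u y < hi) (ht : lev u (endp x l) = t) :
    Wk u lo hi t x l := by
  induction l generalizing x with
  | nil => exact ht
  | cons e l ih =>
    exact ⟨h x (by simp [sitesL]), ih _ (fun y hy => h y (by simp [sitesL, hy])) ht⟩

lemma nc_of {u : Step d} {w : Site d} (hw : lev u w = 0) {n : ℕ} {π γ : List (Step d)}
    (h1 : IsUp u n π) (h2 : IsDn u n γ) (h3 : Cm u w π γ = ∅) : NC u w (n, π, γ) := by
  have hlev : lev u (endp 0 π + w - stepVec u) = n - 1 := by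
    rw [sub_eq_add_neg, lvadd, lvadd, h1.2, hw, lvneg,
      lvself]
    ring
  have hstep : stepVec (opp u) = - stepVec u := Flux566.stepVec_opp u
  refine ⟨Wk_of _ _ h1.1 h1.2, Wk_of _ _ ?_ ?_, ?_⟩
  · intro y hy
    simp only at hy
    have e : endp 0 π + w - stepVec u = 0 + (endp 0 π + w - stepVec u) := by rw [zero_add]
    rw [e, mem_sitesL_add] at hy
    have g := h2.1 _ hy
    rw [sub_eq_add_neg, lvadd, lvneg, hlev] at g
    simp only
    omega
  · simp only
    rw [Flux566.endp_eq_add, lvadd, hlev, h2.2]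
    ring
  · intro z hz hz'
    simp only at hz hz'
    have hl := h1.1 z hz
    have : (n - lev u z).toNat ∈ Cm u w π γ := by
      refine ⟨z - endp 0 π, ?_, ?_, ?_⟩
      · have e : (-endp 0 π : Site d) = 0 + (-endp 0 π) := by rw [zero_add]
        rw [e, mem_sitesL_add]
        simpa using hz
      · have e : endp 0 π + w - stepVec u = w + stepVec (opp u) + endp 0 π := by
          rw [hstep]; abel
        rw [e, mem_sitesL_add] at hz'
        exact hz'
      · rw [sub_eq_add_neg, lvadd, lvneg, h1.2]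
        omega
    rw [h3] at this
    exact this

open Classical in
/-- **THE SURGERY** in the letters of `NBDefs_28`. -/
theorem surgery28 (ν : Measure (Row d)) [IsProbabilityMeasure ν]
    (hν : ∀ᵐ p ∂ν, ∀ e : Step d, 0 < p.1 e) (u : Step d) {w : Site d} (hw : lev u w = 0) :
    ∃ c : ℝ≥0∞, c ≠ 0 ∧ c * ∑' n : ℕ, ∑' π : List (Step d), ∑' γ : List (Step d),
      (if IsUp u n π ∧ IsDn u n γ ∧ Cm u w π γ = ∅ then NB28.aw ν π * NB28.aw ν γ else 0) ≤ 1 := by
  obtain ⟨c, hc, h⟩ := surgery ν hν u w hw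
  refine ⟨c, hc, le_trans (mul_le_mul_right ?_ c) h⟩
  rw [ENNReal.tsum_prod']
  refine ENNReal.tsum_le_tsum fun n => ?_
  rw [ENNReal.tsum_prod']
  refine ENNReal.tsum_le_tsum fun π => ENNReal.tsum_le_tsum fun γ => ?_
  split_ifs with h1 h2 h2
  · exact le_rfl
  · exact absurd (nc_of hw h1.1 h1.2.1 h1.2.2) h2
  · exact zero_le
  · exact le_rfl

/-- the same bound, contact-free pairs have finite total weight -/
theorem surgery28_ne_top (ν : Measure (Row d)) [IsProbabilityMeasure ν]
    (hν : ∀ᵐ p ∂ν, ∀ e : Step d, 0 < p.1 e) (u : Step d) {w : Site d} (hw : lev u w = 0) :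
    open Classical in
    ∑' n : ℕ, ∑' π : List (Step d), ∑' γ : List (Step d),
      (if IsUp u n π ∧ IsDn u n γ ∧ Cm u w π γ = ∅ then NB28.aw ν π * NB28.aw ν γ else 0) ≠ ⊤ := by
  obtain ⟨c, hc, h⟩ := surgery28 ν hν u hw
  intro htop
  rw [htop, ENNReal.mul_top hc] at h
  exact absurd h (by simp)

end Crest.Agent.R154.Surg799
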