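import Crest.Agent.R154.B5Inst_657
import Crest.Agent.R154.B5Weak_865
import Crest.Agent.R154.WMass_286
import Crest.Agent.R154.Surg2_799
import Crest.Agent.R154.Spine_796

/-! Row 154, ROAD 801 (helper997): `Spine.NBProp` from KAPPA' in single-walker words
(`NB28.KW`), weak form (`n` large depending on `m`). -/

set_option autoImplicit false

namespace Crest.Agent.R154.NBW997

open MeasureTheory ProbabilityTheory Crest.ProbabilityR.RandomEnvironment Crest.Agent.R154
open Crest.Agent.R154.Flux132 (lev opp)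
open Crest.Agent.R154.Flux566 (lw endp sitesL)
open Crest.Agent.R154.NB28 (IsUp IsDn Cm KW KappaW)
open Crest.Agent.R154.B5W (UpW hu hdn lv PC Blk hb cat cds Lat PB)
open scoped ENNReal

variable {d : ℕ}

/-- KAPPA', weak form -/
def KappaW' (ν : Measure (Row d)) [IsProbabilityMeasure ν] (u : Step d) : Prop :=
  ∀ ε : ℝ≥0∞, ε ≠ 0 → ∃ M : ℕ, ∀ m, M ≤ m → ∃ n0 : ℕ, ∀ n, n0 ≤ n → ∀ w : Site d, lev u w = 0 →
    KW ν u n m w ≤ ε

lemma kappaW'_of (ν : Measure (Row d)) [IsProbabilityMeasure ν] (u : Step d)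
    (h : KappaW ν u) : KappaW' ν u := by
  intro ε hε
  obtain ⟨M, hM⟩ := h ε hε
  exact ⟨M, fun m hm => ⟨2 * m, fun n hn w hw => hM m hm n hn w hw⟩⟩

lemma lev_eq (u : Step d) (x : Site d) : Flux566.lev u x = lev u x := rfl

lemma lev_add (u : Step d) (x y : Site d) : lev u (x + y) = lev u x + lev u y :=
  Flux566.lev_add u x y

lemma lev_neg (u : Step d) (x : Site d) : lev u (-x) = - lev u x := Flux566.lev_neg u x

lemma lev_zero (u : Step d) : lev u (0 : Site d) = 0 := Flux566.lev_zero u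

lemma prefix_mem (x : Site d) {p l : List (Step d)} (hp : p <+: l) (hne : p ≠ l) :
    endp x p ∈ sitesL x l := by
  obtain ⟨t, rfl⟩ := hp
  cases t with
  | nil => simp at hne
  | cons e t =>
    rw [B5W.sitesL_append]
    simp [sitesL]

lemma up_iff (u : Step d) (n : ℕ) (l : List (Step d)) : l ∈ UpW (hu u) n ↔ IsUp u n l := by
  have hl0 : ∀ p : List (Step d), lev u (endp 0 p) = lv (hu u) p := by
    intro p
    have := B5W.lev_endp u 0 p
    rw [lev_eq, lev_eq] at this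
    rw [this, lev_zero, zero_add]
  constructor
  · intro h
    refine ⟨fun y hy => ?_, by rw [hl0]; exact h.1⟩
    obtain ⟨p, hp, hne, rfl⟩ := B5W.mem_sitesL hy
    rw [hl0]
    exact h.2 p hp hne
  · intro h
    refine ⟨by rw [← hl0]; exact h.2, fun p hp hne => ?_⟩
    rw [← hl0]
    exact h.1 _ (prefix_mem 0 hp hne)

lemma dn_iff (u : Step d) (n : ℕ) (l : List (Step d)) : l ∈ UpW (hdn u) n ↔ IsDn u n l := by
  have hl0 : ∀ p : List (Step d), lev u (endp 0 p) = - lv (hdn u) p := by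
    intro p
    have := B5W.lev_endp u 0 p
    rw [lev_eq, lev_eq] at this
    rw [this, lev_zero, zero_add, B5W.lv_hdn, neg_neg]
  constructor
  · intro h
    refine ⟨fun y hy => ?_, by rw [hl0, h.1]⟩
    obtain ⟨p, hp, hne, rfl⟩ := B5W.mem_sitesL hy
    rw [hl0]
    have := h.2 p hp hne
    omega
  · intro h
    refine ⟨by have := h.2; rw [hl0] at this; omega, fun p hp hne => ?_⟩
    have := h.1 _ (prefix_mem 0 hp hne)
    rw [hl0] at this
    omega

lemma aw_eq (ν : Measure (Row d)) [IsProbabilityMeasure ν] (l : List (Step d)) :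
    B5W.aw (iidEnvironmentLaw ν) l = NB28.aw ν l := rfl

/-- contact depths: 657 = 28 -/
lemma cds_eq (u : Step d) {n : ℕ} {π γ : List (Step d)} (hπ : IsUp u n π) (w : Site d) :
    cds u (π, γ) w = Cm u w π γ := by
  have hstep : (stepVec (opp u) : Site d) = - stepVec u := by
    unfold opp stepVec
    rcases u with ⟨i, b⟩
    cases b <;> simp [← Pi.single_neg]
  ext k
  simp only [cds, Cm, Set.mem_ofPred_eq]
  constructor
  · rintro ⟨s, h1, h2, hk⟩
    refine ⟨-endp 0 π + s, ?_, ?_, ?_⟩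
    · have := (B5W.mem_sitesL_add (-endp 0 π) 0 s π).2 h1
      simpa using this
    · have h3 := (B5W.mem_sitesL_add (-endp 0 π) (endp 0 π + w - stepVec u) s γ).2 h2
      rw [hstep]
      rwa [show -endp 0 π + (endp 0 π + w - stepVec u) = w + -stepVec u by abel] at h3
    · rw [lev_add, lev_neg]
      rw [lev_eq, lev_eq] at hk
      omega
  · rintro ⟨y, h1, h2, hk⟩
    refine ⟨endp 0 π + y, ?_, ?_, ?_⟩
    · have := (B5W.mem_sitesL_add (endp 0 π) (-endp 0 π) y π).2 h1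
      simpa using this
    · have h3 := (B5W.mem_sitesL_add (endp 0 π) (w + stepVec (opp u)) y γ).2 h2
      rwa [hstep, show endp 0 π + (w + -stepVec u) = endp 0 π + w - stepVec u by abel] at h3
    · rw [lev_eq, lev_eq, lev_add, hk]
      omega

open Classical in
/-- sums over pair crossings = double sums over words -/
lemma tsum_PC (ν : Measure (Row d)) [IsProbabilityMeasure ν] (u : Step d) (n : ℕ)
    (F : List (Step d) × List (Step d) → ℝ≥0∞) :
    ∑' x : PC (hu u) (hdn u) n, B5W.aw (iidEnvironmentLaw ν) x.1.1 *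
        B5W.aw (iidEnvironmentLaw ν) x.1.2 * F x.1
      = ∑' π : List (Step d), ∑' γ : List (Step d),
        if IsUp u n π ∧ IsDn u n γ then NB28.aw ν π * NB28.aw ν γ * F (π, γ) else 0 := by
  have h1 := tsum_subtype (PC (hu u) (hdn u) n) (fun x : List (Step d) × List (Step d) =>
    B5W.aw (iidEnvironmentLaw ν) x.1 * B5W.aw (iidEnvironmentLaw ν) x.2 * F x)
  rw [show (∑' x : PC (hu u) (hdn u) n, B5W.aw (iidEnvironmentLaw ν) x.1.1 *
        B5W.aw (iidEnvironmentLaw ν) x.1.2 * F x.1) = ∑' x : ↑(PC (hu u) (hdn u) n),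
        (fun x : List (Step d) × List (Step d) =>
    B5W.aw (iidEnvironmentLaw ν) x.1 * B5W.aw (iidEnvironmentLaw ν) x.2 * F x) x from rfl, h1,
    ENNReal.tsum_prod']
  refine tsum_congr fun π => tsum_congr fun γ => ?_
  rw [Set.indicator_apply]
  have : ((π, γ) ∈ PC (hu u) (hdn u) n) ↔ (IsUp u n π ∧ IsDn u n γ) := by
    simp only [PC, Set.mem_ofPred_eq]
    rw [up_iff, dn_iff]
  simp only [this]
  rfl

open Classical in
/-- sums over lists of blocks of height `n` -/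
lemma tsum_L (ν : Measure (Row d)) [IsProbabilityMeasure ν] (u : Step d) (n : ℕ)
    (F : List (Step d) × List (Step d) → ℝ≥0∞) :
    ∑' L : List (PB u), (if B5A.HT (B5W.ht u) L = n then B5A.LW (B5W.Lam ν u) L * F (cat L) else 0)
      = ∑' π : List (Step d), ∑' γ : List (Step d),
        if IsUp u n π ∧ IsDn u n γ then NB28.aw ν π * NB28.aw ν γ * F (π, γ) else 0 := by
  have : IsProbabilityMeasure (iidEnvironmentLaw ν) := by unfold iidEnvironmentLaw; infer_instance
  rw [← tsum_PC ν u n F]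
  exact B5W.tsum_lists (B5W.aw_nil _) (B5W.aw_nil _) (B5W.aw_up ν u) (B5W.aw_dn ν u) n F

open Classical in
lemma kap_eq (ν : Measure (Row d)) [IsProbabilityMeasure ν] (u : Step d) (n m : ℕ) (w : Lat u) :
    B5A.Kap1 (B5W.Lam ν u) (B5W.ht u) (B5W.dl u) (B5W.cd u) n m w = KW ν u n m w.1 := by
  unfold B5A.Kap1 KW
  have h := tsum_L ν u n (fun x => if (∀ k ∈ cds u x w.1, m < k) ∧ ∃ k ∈ cds u x w.1, k ≤ 2 * m
    then 1 else 0)
  refine Eq.trans (tsum_congr fun L => ?_) (h.trans (tsum_congr fun π => tsum_congr fun γ => ?_))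
  · rw [B5W.CD_cat]
    by_cases h1 : B5A.HT (B5W.ht u) L = n
    · simp only [h1, true_and, if_true]
      split_ifs <;> simp
    · simp [h1]
  · by_cases h1 : IsUp u n π ∧ IsDn u n γ
    · rw [if_pos h1]
      simp only [cds_eq u h1.1]
      by_cases h2 : (∀ k ∈ Cm u w.1 π γ, m < k) ∧ ∃ k ∈ Cm u w.1 π γ, k ≤ 2 * m
      · rw [if_pos h2, if_pos ⟨h1.1, h1.2, h2.1, h2.2⟩, mul_one]
      · rw [if_neg h2, if_neg (fun h3 => h2 ⟨h3.2.2.1, h3.2.2.2⟩), mul_zero]
    · rw [if_neg h1, if_neg (fun h3 => h1 ⟨h3.1, h3.2.1⟩)]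

open Classical in
lemma free_le (ν : Measure (Row d)) [IsProbabilityMeasure ν] (u : Step d) (w : Lat u) :
    ∑' L : List (PB u), (if B5A.CD (B5W.ht u) (B5W.dl u) (B5W.cd u) L w = ∅
        then B5A.LW (B5W.Lam ν u) L else 0)
      = ∑' n : ℕ, ∑' π : List (Step d), ∑' γ : List (Step d),
        (if IsUp u n π ∧ IsDn u n γ ∧ Cm u w.1 π γ = ∅ then NB28.aw ν π * NB28.aw ν γ else 0) := by
  have h0 : ∀ L : List (PB u), (if B5A.CD (B5W.ht u) (B5W.dl u) (B5W.cd u) L w = ∅
        then B5A.LW (B5W.Lam ν u) L else 0)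
      = ∑' n : ℕ, (if B5A.HT (B5W.ht u) L = n then B5A.LW (B5W.Lam ν u) L *
        (if cds u (cat L) w.1 = ∅ then 1 else 0) else 0) := by
    intro L
    rw [tsum_eq_single (B5A.HT (B5W.ht u) L) (fun n hn => if_neg (fun h => hn h.symm)), if_pos rfl,
      B5W.CD_cat]
    split_ifs <;> simp
  rw [tsum_congr h0, ENNReal.tsum_comm]
  refine tsum_congr fun n => ?_
  rw [tsum_L ν u n (fun x => if cds u x w.1 = ∅ then 1 else 0)]
  refine tsum_congr fun π => tsum_congr fun γ => ?_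
  by_cases h1 : IsUp u n π ∧ IsDn u n γ
  · rw [if_pos h1]
    simp only [cds_eq u h1.1]
    by_cases h2 : Cm u w.1 π γ = ∅
    · rw [if_pos h2, if_pos ⟨h1.1, h1.2, h2⟩, mul_one]
    · rw [if_neg h2, if_neg (fun h3 => h2 h3.2.2), mul_zero]
  · rw [if_neg h1, if_neg (fun h3 => h1 ⟨h3.1, h3.2.1⟩)]

open Classical in
lemma U_eq' (ν : Measure (Row d)) [IsProbabilityMeasure ν] (u : Step d) (n : ℕ) :
    B5A.U (B5W.Lam ν u) (B5W.ht u) n = ∑' π : List (Step d), ∑' γ : List (Step d),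
        if IsUp u n π ∧ IsDn u n γ then NB28.aw ν π * NB28.aw ν γ else 0 := by
  have h := tsum_L ν u n (fun _ => 1)
  simp only [mul_one] at h
  exact h

lemma lat_infinite (hd : 2 ≤ d) (u : Step d) : Infinite (Lat u) := by
  obtain ⟨j, hj⟩ : ∃ j : Fin d, j ≠ u.1 := by
    by_cases h : u.1 = ⟨0, by omega⟩
    · refine ⟨⟨1, by omega⟩, ?_⟩
      rw [h]
      intro h'
      have := congrArg Fin.val h'
      simp at this
    · exact ⟨⟨0, by omega⟩, fun h' => h h'.symm⟩
  have hlev : ∀ k : ℤ, lev u (Pi.single j k : Site d) = 0 := by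
    intro k
    unfold lev
    rw [Pi.single_eq_of_ne (Ne.symm hj)]
    simp
  refine Infinite.of_injective (fun k : ℤ => (⟨Pi.single j k, hlev k⟩ : Lat u)) ?_
  intro a b h
  have := congrArg Subtype.val h
  exact Pi.single_injective j this

theorem nb_of_kappaW'
    (hK : ∀ (d : ℕ) (_ : 3 ≤ d) (ν : Measure (Row d)) [IsProbabilityMeasure ν],
      (∀ᵐ p ∂ν, ∀ e : Step d, 0 < p.1 e) → ∀ u : Step d,
      annealed (iidEnvironmentLaw ν) 0 (escapeEvent (B2d.dirVec u)) ≠ 0 →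
      annealed (iidEnvironmentLaw ν) 0 (escapeEvent (-B2d.dirVec u)) ≠ 0 → KappaW' ν u) :
    Spine.NBProp := by
  intro d hd ν _ hν u hA
  by_contra hB
  obtain ⟨c, hc0, hc1, hc⟩ := WM286.mass_pairs ν hν u hA hB
  have hk := hK d hd ν hν u hA hB
  have hinf : Infinite (Lat u) := lat_infinite (by omega) u
  obtain ⟨w, _, hw⟩ := B5A.abs_main2 (B5W.Lam ν u) (B5W.ht u) (B5W.dl u) (B5W.cd u)
    (fun b => B5W.one_le_hb b) (B5W.hcd u) (B5W.hinj u) (B5W.hfar u) c hc0 0
    (fun n _ => by rw [U_eq']; exact hc n)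
    (fun n => by rw [U_eq']; exact WM286.mass_pairs_le ν u n)
    (fun ε hε => by
      obtain ⟨M, hM⟩ := hk ε hε
      refine ⟨M, fun m hm => ?_⟩
      obtain ⟨n0, hn0⟩ := hM m hm
      exact ⟨n0, fun n hn w => by rw [kap_eq]; exact hn0 n hn w.1 w.2⟩)
    ∅ Set.finite_empty
  rw [free_le] at hw
  exact Surg799.surgery28_ne_top ν hν u w.2 hw

theorem nb_of_kappaW
    (hK : ∀ (d : ℕ) (_ : 3 ≤ d) (ν : Measure (Row d)) [IsProbabilityMeasure ν],
      (∀ᵐ p ∂ν, ∀ e : Step d, 0 < p.1 e) → ∀ u : Step d,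
      annealed (iidEnvironmentLaw ν) 0 (escapeEvent (B2d.dirVec u)) ≠ 0 →
      annealed (iidEnvironmentLaw ν) 0 (escapeEvent (-B2d.dirVec u)) ≠ 0 → KappaW ν u) :
    Spine.NBProp :=
  nb_of_kappaW' fun d hd ν _ hν u hA hB => kappaW'_of ν u (hK d hd ν hν u hA hB)

end Crest.Agent.R154.NBW997
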