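import Mathlib

/-!
# Row 154, `d = 2`: the real analysis of D2/NDA

Letters of `r154_doc` 'D2/NDA': `w k` = natural width (`≥ 1`), `Wd w N = sup_{1 ≤ k ≤ N} √(N/k) w k`,
`U r = E[V²; B ≤ r]`, `T r = P(B > r)`.

* `hyers_ulam` : quasi-additive on `{0..N}` is linear up to `3 d`;
* `nda_four` = (N4), `nda_six` = (N6), `nda_seven` = (N7), with corollaries.
-/

set_option autoImplicit false

namespace Crest.Agent.R154.NDAx450

open Filter Topology

/-! ## (HU) -/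

theorem hyers_ulam {N : ℕ} {c : ℕ → ℝ} {d : ℝ}
    (h : ∀ m m', m + m' ≤ N → |c (m + m') - c m - c m'| ≤ d) :
    ∀ m ≤ N, |c m - (m / N : ℝ) * c N| ≤ 3 * d := by
  have hd : 0 ≤ d := (abs_nonneg _).trans (h 0 0 (Nat.zero_le _))
  rcases Nat.eq_zero_or_pos N with hN | hN
  · subst hN
    intro m hm
    have hm0 : m = 0 := Nat.le_zero.mp hm
    subst hm0
    have h0 := h 0 0 (le_refl _)
    simp only [Nat.add_zero, sub_self, zero_sub, abs_neg] at h0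
    simp only [Nat.cast_zero, div_zero, zero_mul, sub_zero]
    linarith
  · have hN' : (N : ℝ) ≠ 0 := by positivity
    set g : ℕ → ℝ := fun m => c m - (m / N : ℝ) * c N with hg
    have hgN : g N = 0 := by simp only [hg]; field_simp; ring
    have hgq : ∀ m m', m + m' ≤ N → |g (m + m') - g m - g m'| ≤ d := by
      intro m m' hm
      have : g (m + m') - g m - g m' = c (m + m') - c m - c m' := by
        simp only [hg]; push_cast; ring
      rw [this]; exact h m m' hm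
    obtain ⟨a, ha, hmax⟩ := Finset.exists_max_image (Finset.range (N + 1)) (fun m => |g m|)
      ⟨0, Finset.mem_range.2 (Nat.succ_pos _)⟩
    have haN : a ≤ N := Nat.lt_succ_iff.mp (Finset.mem_range.1 ha)
    have hM : |g a| ≤ 3 * d := by
      by_cases h2 : a + a ≤ N
      · have h1 := hgq a a h2
        have h3 : |g (a + a)| ≤ |g a| := hmax (a + a) (Finset.mem_range.2 (by omega))
        have h1' := abs_le.1 h1
        rcases abs_cases (g a) with ⟨e1, _⟩ | ⟨e1, _⟩ <;>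
          rcases abs_cases (g (a + a)) with ⟨e2, _⟩ | ⟨e2, _⟩ <;>
          rw [e1] at h3 ⊢ <;> rw [e2] at h3 <;> linarith [h1'.1, h1'.2]
      · set b := N - a with hb
        have hba : b + a = N := by omega
        have hbb : b + b ≤ N := by omega
        have h1 := abs_le.1 (hgq b a (by omega))
        rw [hba, hgN] at h1
        have h2' := abs_le.1 (hgq b b hbb)
        have h3 : |g (b + b)| ≤ |g a| := hmax (b + b) (Finset.mem_range.2 (by omega))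
        rcases abs_cases (g a) with ⟨e1, _⟩ | ⟨e1, _⟩ <;>
          rcases abs_cases (g (b + b)) with ⟨e2, _⟩ | ⟨e2, _⟩ <;>
          rw [e1] at h3 ⊢ <;> rw [e2] at h3 <;> linarith [h1.1, h1.2, h2'.1, h2'.2]
    intro m hm
    exact (hmax m (Finset.mem_range.2 (by omega))).trans hM

/-! ## The width profile -/

/-- `sup_{1 ≤ k ≤ N} w k / √k` (the index `k = 0` gives `0`). -/
noncomputable def Vd (w : ℕ → ℝ) (N : ℕ) : ℝ :=
  (Finset.range (N + 1)).sup' ⟨0, Finset.mem_range.2 (Nat.succ_pos _)⟩ (fun k => w k / √(k : ℝ))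

/-- `W_N = sup_{1 ≤ k ≤ N} √(N/k) w k`. -/
noncomputable def Wd (w : ℕ → ℝ) (N : ℕ) : ℝ := √(N : ℝ) * Vd w N

theorem le_Vd (w : ℕ → ℝ) {k N : ℕ} (hk : k ≤ N) : w k / √(k : ℝ) ≤ Vd w N :=
  Finset.le_sup' (fun k => w k / √(k : ℝ)) (Finset.mem_range.2 (by omega))

theorem Vd_exists (w : ℕ → ℝ) (N : ℕ) : ∃ k ≤ N, Vd w N = w k / √(k : ℝ) := by
  obtain ⟨k, hk, h⟩ := Finset.exists_mem_eq_sup' (s := Finset.range (N + 1))
    ⟨0, Finset.mem_range.2 (Nat.succ_pos _)⟩ (fun k => w k / √(k : ℝ))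
  exact ⟨k, by have := Finset.mem_range.1 hk; omega, h⟩

theorem Vd_nonneg (w : ℕ → ℝ) (N : ℕ) : 0 ≤ Vd w N := by
  have := le_Vd w (Nat.zero_le N)
  simpa using this

theorem Vd_mono (w : ℕ → ℝ) : Monotone (Vd w) := by
  intro M N hMN
  obtain ⟨k, hk, h⟩ := Vd_exists w M
  rw [h]; exact le_Vd w (hk.trans hMN)

theorem Wd_nonneg (w : ℕ → ℝ) (N : ℕ) : 0 ≤ Wd w N :=
  mul_nonneg (Real.sqrt_nonneg _) (Vd_nonneg w N)

theorem Wd_mono (w : ℕ → ℝ) : Monotone (Wd w) := by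
  intro M N hMN
  unfold Wd
  have h1 : √(M : ℝ) ≤ √(N : ℝ) := Real.sqrt_le_sqrt (by exact_mod_cast hMN)
  exact mul_le_mul h1 (Vd_mono w hMN) (Vd_nonneg w M) (Real.sqrt_nonneg _)

/-- `√(N/k) w k ≤ W_N`. -/
theorem sqrt_mul_le_Wd (w : ℕ → ℝ) {k N : ℕ} (hk : k ≤ N) :
    √((N : ℝ) / k) * w k ≤ Wd w N := by
  rw [Real.sqrt_div (by positivity), div_mul_eq_mul_div, mul_div_assoc]
  exact mul_le_mul_of_nonneg_left (le_Vd w hk) (Real.sqrt_nonneg _)

theorem le_Wd (w : ℕ → ℝ) {N : ℕ} (hN : 1 ≤ N) : w N ≤ Wd w N := by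
  have h := sqrt_mul_le_Wd w (le_refl N)
  have hN' : (N : ℝ) ≠ 0 := by positivity
  rwa [div_self hN', Real.sqrt_one, one_mul] at h

theorem Vd_ge_one {w : ℕ → ℝ} (hw : ∀ k, 1 ≤ k → 1 ≤ w k) {N : ℕ} (hN : 1 ≤ N) : 1 ≤ Vd w N := by
  have h := le_Vd w hN
  simp only [Nat.cast_one, Real.sqrt_one, div_one] at h
  exact (hw 1 (le_refl _)).trans h

theorem sqrt_le_Wd {w : ℕ → ℝ} (hw : ∀ k, 1 ≤ k → 1 ≤ w k) (N : ℕ) : √(N : ℝ) ≤ Wd w N := by
  rcases Nat.eq_zero_or_pos N with hN | hN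
  · subst hN; simp [Wd]
  · unfold Wd
    have := Vd_ge_one hw hN
    nlinarith [Real.sqrt_nonneg (N : ℝ)]

theorem Wd_tendsto {w : ℕ → ℝ} (hw : ∀ k, 1 ≤ k → 1 ≤ w k) : Tendsto (Wd w) atTop atTop := by
  refine tendsto_atTop_mono (sqrt_le_Wd hw) ?_
  exact (Real.tendsto_sqrt_atTop).comp tendsto_natCast_atTop_atTop

/-! ## (N6) -/

/-- **(N6)**. -/
theorem nda_six {w : ℕ → ℝ} (hw : ∀ k, 1 ≤ k → 1 ≤ w k) {U : ℝ → ℝ} (hU : Monotone U)
    {r1 : ℝ} (hr1 : 0 < U r1) {C : ℝ} (hC : 0 < C)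
    (h5 : ∀ ε > 0, ∃ N0 : ℕ, ∀ N ≥ N0, w N ≤ C * √(N * U (Wd w N)) + C * ε * Wd w N + 1) :
    ∃ C' > 0, ∃ N1 : ℕ, ∀ N ≥ N1, Wd w N ≤ C' * √(N * U (Wd w N)) := by
  obtain ⟨N0, hN0⟩ := h5 (1 / (2 * C)) (by positivity)
  have hlarge : ∀ᶠ N in atTop, r1 ≤ Wd w N := (Wd_tendsto hw).eventually_ge_atTop r1
  obtain ⟨N2, hN2⟩ := eventually_atTop.1 hlarge
  set K0 := Vd w (N0 + 1) with hK0
  have hK0n : 0 ≤ K0 := Vd_nonneg _ _
  have hs1 : 0 < √(U r1) := Real.sqrt_pos.2 hr1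
  refine ⟨2 * C + (2 + K0) / √(U r1), by positivity, max N0 N2 + 1, ?_⟩
  intro N hN
  have hNN0 : N0 ≤ N := by omega
  have hNN2 : N2 ≤ N := by omega
  have hWr : r1 ≤ Wd w N := hN2 N hNN2
  have hUW : √(U r1) ≤ √(U (Wd w N)) := Real.sqrt_le_sqrt (hU hWr)
  have key : Vd w N ≤ 2 * C * √(U (Wd w N)) + (2 + K0) := by
    obtain ⟨k, hk, hkV⟩ := Vd_exists w N
    by_cases hk0 : k < N0 + 1
    · have : Vd w N ≤ K0 := by rw [hkV]; exact le_Vd w (by omega)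
      have h2 : 0 ≤ 2 * C * √(U (Wd w N)) := by positivity
      linarith
    · have hk1 : 1 ≤ k := by omega
      have hk' : (1 : ℝ) ≤ k := by exact_mod_cast hk1
      have h := hN0 k (by omega)
      have hsk : 0 < √(k : ℝ) := Real.sqrt_pos.2 (by linarith)
      have hsk1 : 1 ≤ √(k : ℝ) := by
        rw [show (1 : ℝ) = √1 by simp]; exact Real.sqrt_le_sqrt hk'
      have e1 : √(k * U (Wd w k)) = √(k : ℝ) * √(U (Wd w k)) := Real.sqrt_mul (by positivity) _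
      have e2 : C * (1 / (2 * C)) * Wd w k = √(k : ℝ) * (Vd w k / 2) := by
        unfold Wd; field_simp
      rw [e1, e2] at h
      have hb : w k / √(k : ℝ) ≤ C * √(U (Wd w k)) + Vd w k / 2 + 1 := by
        rw [div_le_iff₀ hsk]
        nlinarith
      have hm1 : √(U (Wd w k)) ≤ √(U (Wd w N)) := Real.sqrt_le_sqrt (hU (Wd_mono w hk))
      have hm2 : Vd w k ≤ Vd w N := Vd_mono w hk
      have hb2 : Vd w N ≤ C * √(U (Wd w N)) + Vd w N / 2 + 1 := by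
        calc Vd w N = w k / √(k : ℝ) := hkV
          _ ≤ _ := hb
          _ ≤ _ := by nlinarith
      linarith
  have e1 : √(N * U (Wd w N)) = √(N : ℝ) * √(U (Wd w N)) := Real.sqrt_mul (by positivity) _
  rw [e1]
  have hfin : Vd w N ≤ (2 * C + (2 + K0) / √(U r1)) * √(U (Wd w N)) := by
    have : (2 + K0) ≤ (2 + K0) / √(U r1) * √(U (Wd w N)) := by
      rw [div_mul_eq_mul_div, le_div_iff₀ hs1]
      exact mul_le_mul_of_nonneg_left hUW (by linarith)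
    nlinarith
  calc Wd w N = √(N : ℝ) * Vd w N := rfl
    _ ≤ √(N : ℝ) * ((2 * C + (2 + K0) / √(U r1)) * √(U (Wd w N))) :=
        mul_le_mul_of_nonneg_left hfin (Real.sqrt_nonneg _)
    _ = _ := by ring

/-! ## (N7) -/

/-- **(N7)**, from (N6) and (N4) at `ε = 1`. -/
theorem nda_seven {w : ℕ → ℝ} (hw : ∀ k, 1 ≤ k → 1 ≤ w k) {U T : ℝ → ℝ} (hU : Monotone U)
    (hU0 : ∀ x, 0 ≤ U x) {r1 : ℝ} (hr1 : 0 < U r1) (hT : Antitone T) (hT0 : ∀ x, 0 ≤ T x)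
    {c0 : ℝ} (hc0 : 0 < c0) (hUT : ∀ x y, 0 ≤ y → y ≤ x → U x ≤ U y + c0 * x ^ 2 * T y)
    (h4 : Tendsto (fun N : ℕ => (N : ℝ) * T (Wd w N)) atTop (𝓝 0))
    {C' : ℝ} (hC' : 0 < C') {N1 : ℕ} (h6 : ∀ N ≥ N1, Wd w N ≤ C' * √(N * U (Wd w N))) :
    Tendsto (fun x : ℝ => x ^ 2 * T x / U x) atTop (𝓝 0) := by
  -- `(N+1) T(W_N) → 0`
  have h4' : Tendsto (fun N : ℕ => ((N : ℝ) + 1) * T (Wd w N)) atTop (𝓝 0) := by
    have hb : ∀ᶠ N : ℕ in atTop, ((N : ℝ) + 1) * T (Wd w N) ≤ 2 * ((N : ℝ) * T (Wd w N)) := by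
      filter_upwards [eventually_ge_atTop 1] with N hN
      have : (1 : ℝ) ≤ N := by exact_mod_cast hN
      nlinarith [hT0 (Wd w N)]
    have h0 : ∀ᶠ N : ℕ in atTop, 0 ≤ ((N : ℝ) + 1) * T (Wd w N) :=
      Eventually.of_forall fun N => mul_nonneg (by positivity) (hT0 _)
    have h2 : Tendsto (fun N : ℕ => 2 * ((N : ℝ) * T (Wd w N))) atTop (𝓝 0) := by
      simpa using h4.const_mul 2
    exact tendsto_of_tendsto_of_tendsto_of_le_of_le' tendsto_const_nhds h2 h0 hb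
  rw [Metric.tendsto_atTop]
  intro ε hε
  have hq : 0 < min (1 / (2 * c0 * C' ^ 2)) (ε / (4 * C' ^ 2)) := by positivity
  have hev : ∀ᶠ N : ℕ in atTop, ((N : ℝ) + 1) * T (Wd w N) <
      min (1 / (2 * c0 * C' ^ 2)) (ε / (4 * C' ^ 2)) := h4'.eventually (gt_mem_nhds hq)
  have hev2 : ∀ᶠ N in atTop, r1 ≤ Wd w N := (Wd_tendsto hw).eventually_ge_atTop r1
  obtain ⟨M, hM⟩ := eventually_atTop.1 ((hev.and hev2).and (eventually_ge_atTop (N1 + 1)))
  refine ⟨Wd w M, ?_⟩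
  intro x hx
  -- find `N ≥ M` with `W_N ≤ x < W_{N+1}`
  have hex : ∃ n, x < Wd w n := by
    obtain ⟨n, hn⟩ := eventually_atTop.1 ((Wd_tendsto hw).eventually_gt_atTop x)
    exact ⟨n, hn n (le_refl _)⟩
  classical
  set n := Nat.find hex with hn
  have hxn : x < Wd w n := Nat.find_spec hex
  have hMn : M < n := by
    by_contra hcon
    have : Wd w n ≤ Wd w M := Wd_mono w (by omega)
    linarith
  obtain ⟨N, hNn⟩ : ∃ N, n = N + 1 := ⟨n - 1, by omega⟩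
  have hNx : Wd w N ≤ x := by
    have := Nat.find_min hex (m := N) (by omega)
    exact not_lt.1 this
  have hxN1 : x < Wd w (N + 1) := by rw [← hNn]; exact hxn
  obtain ⟨⟨ha, hr⟩, hNN1⟩ := hM N (by omega)
  have hWN0 : 0 ≤ Wd w N := Wd_nonneg w N
  have hx0 : 0 ≤ x := hWN0.trans hNx
  have hUN : 0 < U (Wd w N) := lt_of_lt_of_le hr1 (hU hr)
  have hUx : U (Wd w N) ≤ U x := hU hNx
  set a := ((N : ℝ) + 1) * T (Wd w N) with hadef
  have ha1 : a < 1 / (2 * c0 * C' ^ 2) := lt_of_lt_of_le ha (min_le_left _ _)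
  have ha2 : a < ε / (4 * C' ^ 2) := lt_of_lt_of_le ha (min_le_right _ _)
  have ha0 : 0 ≤ a := mul_nonneg (by positivity) (hT0 _)
  -- `W_{N+1}² ≤ 2 C'² (N+1) U(W_N)`
  have hW2 : Wd w (N + 1) ^ 2 ≤ 2 * C' ^ 2 * ((N : ℝ) + 1) * U (Wd w N) := by
    have h := h6 (N + 1) (by omega)
    have hs : Wd w (N + 1) ^ 2 ≤ C' ^ 2 * (((N : ℝ) + 1) * U (Wd w (N + 1))) := by
      have h' : Wd w (N + 1) ^ 2 ≤ (C' * √(((N + 1 : ℕ) : ℝ) * U (Wd w (N + 1)))) ^ 2 :=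
        pow_le_pow_left₀ (Wd_nonneg _ _) h 2
      rw [mul_pow, Real.sq_sqrt (mul_nonneg (by positivity) (hU0 _))] at h'
      push_cast at h'
      exact h'
    have hu := hUT (Wd w (N + 1)) (Wd w N) hWN0 (Wd_mono w (Nat.le_succ _))
    have hcc : C' ^ 2 * ((N : ℝ) + 1) * (c0 * Wd w (N + 1) ^ 2 * T (Wd w N)) ≤
        Wd w (N + 1) ^ 2 / 2 := by
      have e : C' ^ 2 * ((N : ℝ) + 1) * (c0 * Wd w (N + 1) ^ 2 * T (Wd w N)) =
          (c0 * C' ^ 2 * a) * Wd w (N + 1) ^ 2 := by rw [hadef]; ring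
      have e2 : c0 * C' ^ 2 * a ≤ 1 / 2 := by
        rw [lt_div_iff₀ (by positivity)] at ha1
        nlinarith
      rw [e]
      nlinarith [sq_nonneg (Wd w (N + 1))]
    have hCN : 0 ≤ C' ^ 2 * ((N : ℝ) + 1) := by positivity
    nlinarith [mul_le_mul_of_nonneg_left hu hCN]
  have hx2 : x ^ 2 ≤ Wd w (N + 1) ^ 2 := pow_le_pow_left₀ hx0 hxN1.le 2
  have hTx : T x ≤ T (Wd w N) := hT hNx
  have hbound : x ^ 2 * T x / U x ≤ 2 * C' ^ 2 * a := by
    rw [div_le_iff₀ (lt_of_lt_of_le hUN hUx)]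
    calc x ^ 2 * T x ≤ Wd w (N + 1) ^ 2 * T (Wd w N) :=
          mul_le_mul hx2 hTx (hT0 _) (by positivity)
      _ ≤ (2 * C' ^ 2 * ((N : ℝ) + 1) * U (Wd w N)) * T (Wd w N) :=
          mul_le_mul_of_nonneg_right hW2 (hT0 _)
      _ = 2 * C' ^ 2 * a * U (Wd w N) := by rw [hadef]; ring
      _ ≤ 2 * C' ^ 2 * a * U x := mul_le_mul_of_nonneg_left hUx (by positivity)
  have hnn : 0 ≤ x ^ 2 * T x / U x :=
    div_nonneg (mul_nonneg (sq_nonneg _) (hT0 _)) (hU0 _)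
  rw [Real.dist_eq, sub_zero, abs_of_nonneg hnn]
  calc x ^ 2 * T x / U x ≤ 2 * C' ^ 2 * a := hbound
    _ < 2 * C' ^ 2 * (ε / (4 * C' ^ 2)) := by
        apply mul_lt_mul_of_pos_left ha2; positivity
    _ ≤ ε := by
        have : 2 * C' ^ 2 * (ε / (4 * C' ^ 2)) = ε / 2 := by field_simp; ring
        rw [this]; linarith

/-- `U` is slowly varying. -/
theorem U_slow {U T : ℝ → ℝ} (hU : Monotone U) {r1 : ℝ} (hr1 : 0 < U r1)
    {c0 : ℝ} (hUT : ∀ x y, 0 ≤ y → y ≤ x → U x ≤ U y + c0 * x ^ 2 * T y)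
    (h7 : Tendsto (fun x : ℝ => x ^ 2 * T x / U x) atTop (𝓝 0)) {L : ℝ} (hL : 1 ≤ L) :
    Tendsto (fun x : ℝ => U (L * x) / U x) atTop (𝓝 1) := by
  have hup : Tendsto (fun x : ℝ => 1 + c0 * L ^ 2 * (x ^ 2 * T x / U x)) atTop (𝓝 1) := by
    have := (h7.const_mul (c0 * L ^ 2)).const_add 1
    simpa using this
  refine tendsto_of_tendsto_of_tendsto_of_le_of_le' tendsto_const_nhds hup ?_ ?_
  · filter_upwards [eventually_ge_atTop (max r1 0)] with x hx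
    have hx0 : 0 ≤ x := (le_max_right _ _).trans hx
    have hUx : 0 < U x := lt_of_lt_of_le hr1 (hU ((le_max_left _ _).trans hx))
    rw [le_div_iff₀ hUx, one_mul]
    exact hU (by nlinarith)
  · filter_upwards [eventually_ge_atTop (max r1 0)] with x hx
    have hx0 : 0 ≤ x := (le_max_right _ _).trans hx
    have hUx : 0 < U x := lt_of_lt_of_le hr1 (hU ((le_max_left _ _).trans hx))
    rw [div_le_iff₀ hUx]
    have h := hUT (L * x) x hx0 (by nlinarith)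
    have e : (1 + c0 * L ^ 2 * (x ^ 2 * T x / U x)) * U x = U x + c0 * (L * x) ^ 2 * T x := by
      field_simp
    rw [e]; exact h

/-- `n(w) T(δ w) → 0` with `n(w) = w²/U(w)`. -/
theorem nT_tendsto {U T : ℝ → ℝ} (hU : Monotone U) (hU0 : ∀ x, 0 ≤ U x) {r1 : ℝ} (hr1 : 0 < U r1)
    (hT : Antitone T) (hT0 : ∀ x, 0 ≤ T x)
    (h7 : Tendsto (fun x : ℝ => x ^ 2 * T x / U x) atTop (𝓝 0)) {δ : ℝ} (hδ : 0 < δ) :
    Tendsto (fun x : ℝ => x ^ 2 / U x * T (δ * x)) atTop (𝓝 0) := by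
  set δ' := min δ 1 with hδ'
  have hδ'0 : 0 < δ' := lt_min hδ one_pos
  have hcomp : Tendsto (fun x : ℝ => (δ' * x) ^ 2 * T (δ' * x) / U (δ' * x)) atTop (𝓝 0) :=
    h7.comp (tendsto_id.const_mul_atTop hδ'0)
  have hup : Tendsto (fun x : ℝ => (1 / δ' ^ 2) * ((δ' * x) ^ 2 * T (δ' * x) / U (δ' * x)))
      atTop (𝓝 0) := by
    have := hcomp.const_mul (1 / δ' ^ 2)
    rwa [mul_zero] at this
  refine tendsto_of_tendsto_of_tendsto_of_le_of_le' tendsto_const_nhds hup ?_ ?_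
  · exact Eventually.of_forall fun x => mul_nonneg (div_nonneg (sq_nonneg _) (hU0 _)) (hT0 _)
  · filter_upwards [eventually_ge_atTop (max 0 (r1 / δ'))] with x hx
    have hx0 : 0 ≤ x := (le_max_left _ _).trans hx
    have hx1 : r1 ≤ δ' * x := by
      have := (le_max_right _ _).trans hx
      rw [div_le_iff₀ hδ'0] at this
      linarith
    have hUd : 0 < U (δ' * x) := lt_of_lt_of_le hr1 (hU hx1)
    have hle : δ' * x ≤ x := by nlinarith [min_le_right δ 1]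
    have hUx : U (δ' * x) ≤ U x := hU hle
    have hle2 : δ' * x ≤ δ * x := mul_le_mul_of_nonneg_right (min_le_left _ _) hx0
    have hTT : T (δ * x) ≤ T (δ' * x) := hT hle2
    have e : (1 / δ' ^ 2) * ((δ' * x) ^ 2 * T (δ' * x) / U (δ' * x)) =
        x ^ 2 / U (δ' * x) * T (δ' * x) := by
      field_simp
    rw [e]
    refine mul_le_mul ?_ hTT (hT0 _) (div_nonneg (sq_nonneg _) hUd.le)
    exact div_le_div_of_nonneg_left (sq_nonneg _) hUd hUx

/-! ## (N4) -/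

theorem summable_aux (C c : ℝ) (hc : 0 < c) :
    Summable fun j : ℕ => C * 2 ^ (j + 1) * Real.exp (-c * √((2 : ℝ) ^ j)) := by
  -- compare with `(1/2)^j` eventually: `4^j exp (-c 2^{j/2})` is bounded
  have h1 : Tendsto (fun x : ℝ => x ^ 4 * Real.exp (-c * x)) atTop (𝓝 0) := by
    have := Real.tendsto_pow_mul_exp_neg_atTop_nhds_zero 4
    have h2 : Tendsto (fun x : ℝ => c * x) atTop atTop := tendsto_id.const_mul_atTop hc
    have h3 := (this.comp h2).const_mul (1 / c ^ 4)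
    simp only [mul_zero] at h3
    refine h3.congr fun x => ?_
    simp only [Function.comp]
    rw [mul_pow, neg_mul]
    field_simp
  have h2 : Tendsto (fun j : ℕ => √((2 : ℝ) ^ j)) atTop atTop :=
    Real.tendsto_sqrt_atTop.comp (tendsto_pow_atTop_atTop_of_one_lt (by norm_num))
  have h3 : Tendsto (fun j : ℕ => (4 : ℝ) ^ j * Real.exp (-c * √((2 : ℝ) ^ j))) atTop (𝓝 0) := by
    refine (h1.comp h2).congr fun j => ?_
    simp only [Function.comp]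
    congr 1
    have : √((2 : ℝ) ^ j) ^ 4 = (√((2 : ℝ) ^ j) ^ 2) ^ 2 := by ring
    rw [this, Real.sq_sqrt (by positivity), ← pow_mul, mul_comm j 2, pow_mul]
    norm_num
  obtain ⟨B, hB⟩ := h3.bddAbove_range
  have hb : ∀ j : ℕ, (4 : ℝ) ^ j * Real.exp (-c * √((2 : ℝ) ^ j)) ≤ B := fun j =>
    hB ⟨j, rfl⟩
  have hB0 : 0 ≤ B := le_trans (by positivity) (hb 0)
  have hs : Summable fun j : ℕ => (|C| * 2 * B) * (1 / 2 : ℝ) ^ j :=
    (summable_geometric_of_lt_one (by norm_num) (by norm_num)).mul_left _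
  refine Summable.of_norm_bounded hs fun j => ?_
  rw [Real.norm_eq_abs, abs_mul, abs_mul, abs_of_nonneg (Real.exp_pos _).le,
    abs_of_nonneg (by positivity : (0 : ℝ) ≤ 2 ^ (j + 1))]
  have e : (2 : ℝ) ^ (j + 1) = 2 * ((4 : ℝ) ^ j * (1 / 2) ^ j) := by
    rw [← mul_pow]; norm_num; ring
  rw [e]
  have h5 := hb j
  have h6 : (0 : ℝ) ≤ |C| * 2 * (1 / 2) ^ j := by positivity
  calc |C| * (2 * ((4 : ℝ) ^ j * (1 / 2) ^ j)) * Real.exp (-c * √((2 : ℝ) ^ j))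
      = |C| * 2 * (1 / 2) ^ j * ((4 : ℝ) ^ j * Real.exp (-c * √((2 : ℝ) ^ j))) := by ring
    _ ≤ |C| * 2 * (1 / 2) ^ j * B := mul_le_mul_of_nonneg_left h5 h6
    _ = _ := by ring

/-- **(N4)**: `PR I = P(R ≥ 2^I)`, `q i r = P(2^i ≤ R < 2^{i+1}, B ≥ r)`. -/
theorem nda_four {w : ℕ → ℝ} (hw : ∀ k, 1 ≤ k → 1 ≤ w k) {T : ℝ → ℝ} (hT0 : ∀ x, 0 ≤ T x)
    {PR : ℕ → ℝ} {q : ℕ → ℝ → ℝ}
    (hTq : ∀ I r, 0 ≤ r → T r ≤ PR I + ∑ i ∈ Finset.range I, q i r)
    (hPR : Tendsto (fun I : ℕ => 2 ^ I * PR I) atTop (𝓝 0)) (hPR0 : ∀ I, 0 ≤ PR I)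
    {C c : ℝ} (hC : 0 ≤ C) (hc : 0 < c)
    (hq : ∀ i r, 0 ≤ r → q i r ≤ C / 2 ^ i * Real.exp (-c * r / w (4 * 2 ^ i)))
    {ε : ℝ} (hε : 0 < ε) :
    Tendsto (fun N : ℕ => (N : ℝ) * T (ε * Wd w N)) atTop (𝓝 0) := by
  set f : ℕ → ℝ := fun j => C * 2 ^ (j + 1) * Real.exp (-(c * ε / 2) * √((2 : ℝ) ^ j)) with hf
  have hfs : Summable f := summable_aux C (c * ε / 2) (by positivity)
  have hf0 : ∀ j, 0 ≤ f j := fun j => by simp only [hf]; positivity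
  rw [Metric.tendsto_atTop]
  intro η hη
  -- tail of the series
  have htail : Tendsto (fun K : ℕ => ∑' j, f (j + K)) atTop (𝓝 0) := tendsto_sum_nat_add f
  obtain ⟨J0, hJ0⟩ := eventually_atTop.1 ((htail.eventually (gt_mem_nhds (half_pos hη))).and
    (eventually_ge_atTop 2))
  obtain ⟨hJ0a, hJ0b⟩ := hJ0 J0 (le_refl _)
  obtain ⟨I0, hI0⟩ := eventually_atTop.1 (hPR.eventually
    (gt_mem_nhds (show (0 : ℝ) < η / 2 / 2 ^ (J0 + 1) by positivity)))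
  refine ⟨2 ^ (J0 + I0 + 1), ?_⟩
  intro N hN
  have hNpos : 0 < N := lt_of_lt_of_le (by positivity) hN
  set J := Nat.log 2 N with hJ
  have hJ1 : 2 ^ J ≤ N := Nat.pow_log_le_self 2 (by omega)
  have hJ2 : N < 2 ^ (J + 1) := Nat.lt_pow_succ_log_self (by norm_num) N
  have hJ3 : J0 + I0 + 1 ≤ J := by
    by_contra hcon
    have h1 : 2 ^ (J + 1) ≤ 2 ^ (J0 + I0 + 1) := Nat.pow_le_pow_right (by norm_num) (by omega)
    omega
  have hN1 : ((2 : ℝ) ^ J) ≤ N := by exact_mod_cast hJ1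
  have hN2 : (N : ℝ) ≤ 2 ^ (J + 1) := by exact_mod_cast hJ2.le
  have hN0 : (0 : ℝ) < N := by exact_mod_cast hNpos
  set I := J - J0 with hI
  have hW0 : 0 ≤ Wd w N := Wd_nonneg w N
  have hr0 : 0 ≤ ε * Wd w N := by positivity
  have h := hTq I (ε * Wd w N) hr0
  -- first part
  have hp1 : (N : ℝ) * PR I < η / 2 := by
    have h1 := hI0 I (by omega)
    have h2 : (N : ℝ) * PR I ≤ 2 ^ (J0 + 1) * (2 ^ I * PR I) := by
      have e : (2 : ℝ) ^ (J0 + 1) * (2 ^ I * PR I) = 2 ^ (J + 1) * PR I := by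
        rw [← mul_assoc, ← pow_add]; congr 2; omega
      rw [e]; exact mul_le_mul_of_nonneg_right hN2 (hPR0 I)
    calc (N : ℝ) * PR I ≤ 2 ^ (J0 + 1) * (2 ^ I * PR I) := h2
      _ < 2 ^ (J0 + 1) * (η / 2 / 2 ^ (J0 + 1)) := by
          apply mul_lt_mul_of_pos_left h1; positivity
      _ = η / 2 := by field_simp
  -- second part: termwise
  have hterm : ∀ i ∈ Finset.range I, (N : ℝ) * q i (ε * Wd w N) ≤ f (J - i) := by
    intro i hi
    have hiI : i < I := Finset.mem_range.1 hi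
    have hiJ : i + 2 ≤ J := by omega
    have h1 := hq i (ε * Wd w N) hr0
    have hkN : 4 * 2 ^ i ≤ N := by
      calc 4 * 2 ^ i = 2 ^ (i + 2) := by rw [pow_add]; ring
        _ ≤ 2 ^ J := Nat.pow_le_pow_right (by norm_num) hiJ
        _ ≤ N := hJ1
    have hk1 : 1 ≤ 4 * 2 ^ i := by have : 1 ≤ 2 ^ i := Nat.one_le_two_pow; omega
    have hwpos : 0 < w (4 * 2 ^ i) := lt_of_lt_of_le one_pos (hw _ hk1)
    have h2 := sqrt_mul_le_Wd w hkN
    -- `W_N / w_{4h} ≥ √(N/4h) ≥ √(2^{J-i}) / 2`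
    have h3 : √((2 : ℝ) ^ (J - i)) / 2 ≤ Wd w N / w (4 * 2 ^ i) := by
      rw [le_div_iff₀ hwpos]
      refine le_trans (mul_le_mul_of_nonneg_right ?_ hwpos.le) h2
      have e4 : √((2 : ℝ) ^ (J - i)) / 2 = √((2 : ℝ) ^ (J - i) / 4) := by
        rw [Real.sqrt_div (by positivity), show (4 : ℝ) = 2 ^ 2 by norm_num,
          Real.sqrt_sq (by norm_num)]
      rw [e4]
      apply Real.sqrt_le_sqrt
      push_cast
      rw [div_le_div_iff₀ (by norm_num) (by positivity)]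
      have e5 : (2 : ℝ) ^ (J - i) * 2 ^ i = 2 ^ J := by rw [← pow_add]; congr 1; omega
      nlinarith
    have h4 : -c * (ε * Wd w N) / w (4 * 2 ^ i) ≤ -(c * ε / 2) * √((2 : ℝ) ^ (J - i)) := by
      have e6 : -c * (ε * Wd w N) / w (4 * 2 ^ i) = -(c * ε) * (Wd w N / w (4 * 2 ^ i)) := by
        ring
      rw [e6]
      have hce : 0 < c * ε := by positivity
      nlinarith
    have h5 : Real.exp (-c * (ε * Wd w N) / w (4 * 2 ^ i)) ≤
        Real.exp (-(c * ε / 2) * √((2 : ℝ) ^ (J - i))) := Real.exp_le_exp.2 h4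
    have h6 : (N : ℝ) * (C / 2 ^ i) ≤ C * 2 ^ (J - i + 1) := by
      have e7 : C * (2 : ℝ) ^ (J - i + 1) = 2 ^ (J + 1) * (C / 2 ^ i) := by
        have : (2 : ℝ) ^ (J + 1) = 2 ^ (J - i + 1) * 2 ^ i := by
          rw [← pow_add]; congr 1; omega
        rw [this]; field_simp
      rw [e7]
      exact mul_le_mul_of_nonneg_right hN2 (by positivity)
    calc (N : ℝ) * q i (ε * Wd w N)
        ≤ (N : ℝ) * (C / 2 ^ i * Real.exp (-c * (ε * Wd w N) / w (4 * 2 ^ i))) :=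
          mul_le_mul_of_nonneg_left h1 hN0.le
      _ = ((N : ℝ) * (C / 2 ^ i)) * Real.exp (-c * (ε * Wd w N) / w (4 * 2 ^ i)) := by ring
      _ ≤ (C * 2 ^ (J - i + 1)) * Real.exp (-(c * ε / 2) * √((2 : ℝ) ^ (J - i))) :=
          mul_le_mul h6 h5 (Real.exp_pos _).le (by positivity)
      _ = f (J - i) := by simp only [hf]
  have hsum : ∑ i ∈ Finset.range I, f (J - i) ≤ ∑' j, f (j + J0) := by
    have hfs' : Summable fun j => f (j + J0) := (summable_nat_add_iff J0).2 hfs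
    have e8 : ∑ i ∈ Finset.range I, f (J - i) = ∑ i ∈ Finset.range I, f (i + 1 + J0) := by
      rw [← Finset.sum_range_reflect]
      refine Finset.sum_congr rfl fun i hi => ?_
      have := Finset.mem_range.1 hi
      congr 1; omega
    rw [e8]
    have hfs'' : Summable fun j => f (j + 1 + J0) := by
      have := (summable_nat_add_iff (1 + J0)).2 hfs
      refine this.congr fun j => ?_
      congr 1; ring
    calc ∑ i ∈ Finset.range I, f (i + 1 + J0) ≤ ∑' j, f (j + 1 + J0) :=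
          hfs''.sum_le_tsum _ (fun j _ => hf0 _)
      _ ≤ f (0 + J0) + ∑' j, f (j + 1 + J0) := by linarith [hf0 (0 + J0)]
      _ = ∑' j, f (j + J0) := (hfs'.tsum_eq_zero_add).symm
  have hnn : 0 ≤ (N : ℝ) * T (ε * Wd w N) := mul_nonneg hN0.le (hT0 _)
  rw [Real.dist_eq, sub_zero, abs_of_nonneg hnn]
  calc (N : ℝ) * T (ε * Wd w N)
      ≤ (N : ℝ) * (PR I + ∑ i ∈ Finset.range I, q i (ε * Wd w N)) :=
        mul_le_mul_of_nonneg_left h hN0.le
    _ = (N : ℝ) * PR I + ∑ i ∈ Finset.range I, (N : ℝ) * q i (ε * Wd w N) := by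
        rw [mul_add, Finset.mul_sum]
    _ ≤ (N : ℝ) * PR I + ∑' j, f (j + J0) := by
        have := (Finset.sum_le_sum hterm).trans hsum
        linarith
    _ < η / 2 + η / 2 := add_lt_add hp1 hJ0a
    _ = η := by ring

end Crest.Agent.R154.NDAx450
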