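import Crest.Agent.R154.Gam_177

/-!
Row 154, d = 2 (helper177), D2.6: (E1) and (E2) in the letters from (NDA)
`w² P(B > w) = o(U(w))`.  Number of joint blocks of the scale `w`: `nn U w = ⌈w² / U w⌉`.
-/

set_option autoImplicit false

open MeasureTheory ProbabilityTheory Finset Filter Topology

namespace Crest.Agent.R154.Gam177

/-- (NDA) for the functions `U b = E[V²; B ≤ b]`, `tl b = P(B > b)`. -/
structure NDA (U tl : ℝ → ℝ) : Prop where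
  U_mono : ∀ a b, a ≤ b → U a ≤ U b
  U_nonneg : ∀ a, 0 ≤ U a
  U_pos : ∃ b, 0 < U b
  tl_nonneg : ∀ a, 0 ≤ tl a
  tl_zero : Tendsto tl atTop (𝓝 0)
  grow : ∀ a b, 0 ≤ a → a ≤ b → U b ≤ U a + 4 * b ^ 2 * tl a
  nda : ∀ ε : ℝ, 0 < ε → ∃ w0 : ℝ, ∀ w, w0 ≤ w → w ^ 2 * tl w ≤ ε * U w

/-- number of joint blocks at scale `w` -/
noncomputable def nn (U : ℝ → ℝ) (w : ℝ) : ℕ := ⌈w ^ 2 / U w⌉₊

variable {U tl : ℝ → ℝ}

lemma NDA.pos (h : NDA U tl) : ∃ w0 : ℝ, 0 < w0 ∧ ∀ w, w0 ≤ w → 0 < U w := by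
  obtain ⟨b, hb⟩ := h.U_pos
  exact ⟨max b 1, lt_max_of_lt_right one_pos, fun w hw =>
    hb.trans_le (h.U_mono _ _ ((le_max_left _ _).trans hw))⟩

/-- slow variation -/
lemma NDA.dbl (h : NDA U tl) {A : ℝ} (hA : 1 ≤ A) :
    ∃ w0 : ℝ, 0 < w0 ∧ ∀ w, w0 ≤ w → U (A * w) ≤ 2 * U w := by
  have hA0 : 0 < A := by linarith
  obtain ⟨w0, hw0⟩ := h.nda (1 / (4 * A ^ 2)) (by positivity)
  refine ⟨max w0 1, lt_max_of_lt_right one_pos, fun w hw => ?_⟩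
  have hw1 : 1 ≤ w := (le_max_right _ _).trans hw
  have h1 := hw0 w ((le_max_left _ _).trans hw)
  have h2 := h.grow w (A * w) (by linarith) (by nlinarith)
  have h3 : 4 * (A * w) ^ 2 * tl w = 4 * A ^ 2 * (w ^ 2 * tl w) := by ring
  have h4 : 4 * A ^ 2 * (w ^ 2 * tl w) ≤ 4 * A ^ 2 * (1 / (4 * A ^ 2) * U w) :=
    mul_le_mul_of_nonneg_left h1 (by positivity)
  have h5 : 4 * A ^ 2 * (1 / (4 * A ^ 2) * U w) = U w := by
    field_simp
  linarith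

lemma NDA.big (h : NDA U tl) (M : ℝ) : ∃ w0 : ℝ, 0 < w0 ∧ ∀ w, w0 ≤ w → M ≤ w ^ 2 / U w := by
  obtain ⟨w1, hw1, hU⟩ := h.pos
  have hM : (0 : ℝ) < |M| + 1 := by positivity
  have ht := h.tl_zero.eventually (gt_mem_nhds (show (0 : ℝ) < 1 / (8 * (|M| + 1)) by positivity))
  obtain ⟨b0, hb0⟩ := Filter.eventually_atTop.1 ht
  set b := max b0 1 with hb
  have hb1 : 1 ≤ b := le_max_right _ _
  have htb : tl b < 1 / (8 * (|M| + 1)) := hb0 b (le_max_left _ _)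
  refine ⟨max (max w1 b) (2 * (|M| + 1) * U b + 1), lt_max_of_lt_left (lt_max_of_lt_left hw1),
    fun w hw => ?_⟩
  have hw1' : w1 ≤ w := (le_max_left _ _).trans ((le_max_left _ _).trans hw)
  have hwb : b ≤ w := (le_max_right _ _).trans ((le_max_left _ _).trans hw)
  have hw2 : 2 * (|M| + 1) * U b + 1 ≤ w := (le_max_right _ _).trans hw
  have hUw := hU w hw1'
  have hw1'' : 1 ≤ w := hb1.trans hwb
  rw [le_div_iff₀ hUw]
  have h1 := h.grow b w (by linarith) hwb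
  have h2 : 4 * w ^ 2 * tl b ≤ 4 * w ^ 2 * (1 / (8 * (|M| + 1))) :=
    mul_le_mul_of_nonneg_left htb.le (by positivity)
  have h3 : (|M| + 1) * (4 * w ^ 2 * (1 / (8 * (|M| + 1)))) = w ^ 2 / 2 := by
    field_simp
    ring
  have hUb := h.U_nonneg b
  have h4 : (|M| + 1) * U w ≤ (|M| + 1) * U b + w ^ 2 / 2 := by
    have := mul_le_mul_of_nonneg_left (h1.trans (add_le_add_right h2 _)) hM.le
    nlinarith
  have h5 : (|M| + 1) * U b ≤ w ^ 2 / 2 := by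
    have : 2 * ((|M| + 1) * U b) ≤ w * w := by
      calc 2 * ((|M| + 1) * U b) ≤ w := by linarith
        _ = w * 1 := by ring
        _ ≤ w * w := by nlinarith
    nlinarith
  have h6 : M * U w ≤ |M| * U w := mul_le_mul_of_nonneg_right (le_abs_self M) hUw.le
  nlinarith

/-- facts about `nn` for large scales. -/
lemma NDA.facts (h : NDA U tl) : ∃ w0 : ℝ, 0 < w0 ∧ ∀ w, w0 ≤ w → 0 < U w ∧
    1 ≤ w ^ 2 / U w ∧ w ^ 2 / U w ≤ nn U w ∧ (nn U w : ℝ) ≤ 2 * (w ^ 2 / U w) ∧ 1 ≤ nn U w := by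
  obtain ⟨w1, hw1, hU⟩ := h.pos
  obtain ⟨w2, hw2, hB⟩ := h.big 1
  refine ⟨max w1 w2, lt_max_of_lt_left hw1, fun w hw => ?_⟩
  have hUw := hU w ((le_max_left _ _).trans hw)
  have hX := hB w ((le_max_right _ _).trans hw)
  have h1 : w ^ 2 / U w ≤ nn U w := Nat.le_ceil _
  have h2 : (nn U w : ℝ) < w ^ 2 / U w + 1 := Nat.ceil_lt_add_one (by linarith)
  refine ⟨hUw, hX, h1, by linarith, ?_⟩
  have : (0 : ℝ) < nn U w := by linarith
  exact_mod_cast this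

/-- growth of the number of blocks -/
lemma NDA.ratio (h : NDA U tl) {A : ℝ} (hA : 1 ≤ A) :
    ∃ w0 : ℝ, 0 < w0 ∧ ∀ w, w0 ≤ w → A ^ 2 / 4 * nn U w ≤ nn U (A * w) := by
  obtain ⟨w1, hw1, hF⟩ := h.facts
  obtain ⟨w2, hw2, hD⟩ := h.dbl hA
  refine ⟨max w1 w2, lt_max_of_lt_left hw1, fun w hw => ?_⟩
  have hw1' : w1 ≤ w := (le_max_left _ _).trans hw
  have hw0 : 0 < w := hw1.trans_le hw1'
  obtain ⟨hU, hX, hl, hu, _⟩ := hF w hw1'
  obtain ⟨hU', _, hl', _, _⟩ := hF (A * w) (hw1'.trans (by nlinarith))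
  have hd := hD w ((le_max_right _ _).trans hw)
  have h1 : A ^ 2 / 4 * nn U w ≤ A ^ 2 / 4 * (2 * (w ^ 2 / U w)) :=
    mul_le_mul_of_nonneg_left hu (by positivity)
  have h2 : A ^ 2 / 4 * (2 * (w ^ 2 / U w)) = (A * w) ^ 2 / (2 * U w) := by
    field_simp
    ring
  have h3 : (A * w) ^ 2 / (2 * U w) ≤ (A * w) ^ 2 / U (A * w) :=
    div_le_div_of_nonneg_left (by positivity) hU' hd
  linarith

/-- small tail -/
lemma NDA.tail (h : NDA U tl) {ε : ℝ} (hε : 0 < ε) :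
    ∃ w0 : ℝ, 0 < w0 ∧ ∀ w, w0 ≤ w → 0 < U w ∧ U w ≤ 2 * U (w / 16) ∧
      w ^ 2 / U w * tl (w / 16) ≤ ε := by
  obtain ⟨w1, hw1, hU⟩ := h.pos
  obtain ⟨w2, hw2, hD⟩ := h.dbl (A := 16) (by norm_num)
  obtain ⟨w3, hw3⟩ := h.nda (ε / 256) (by positivity)
  refine ⟨max w1 (max (16 * w2) (16 * w3)), lt_max_of_lt_left hw1, fun w hw => ?_⟩
  have hw1' : w1 ≤ w := (le_max_left _ _).trans hw
  have hw2' : 16 * w2 ≤ w := (le_max_left _ _).trans ((le_max_right _ _).trans hw)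
  have hw3' : 16 * w3 ≤ w := (le_max_right _ _).trans ((le_max_right _ _).trans hw)
  have hw0 : 0 < w := hw1.trans_le hw1'
  have hUw := hU w hw1'
  have h1 := hD (w / 16) (by linarith)
  rw [show 16 * (w / 16) = w by ring] at h1
  have h2 := hw3 (w / 16) (by linarith)
  have h3 := h.U_mono (w / 16) w (by linarith)
  refine ⟨hUw, h1, ?_⟩
  rw [div_mul_eq_mul_div, div_le_iff₀ hUw]
  have h4 : w ^ 2 * tl (w / 16) = 256 * ((w / 16) ^ 2 * tl (w / 16)) := by ring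
  have h5 : ε / 256 * U (w / 16) ≤ ε / 256 * U w := mul_le_mul_of_nonneg_left h3 (by positivity)
  nlinarith

universe v

set_option maxHeartbeats 1000000 in
/-- **(E1) in the letters.** -/
theorem NDA.e1 (h : NDA U tl) {Λ ρ : ℝ} (hΛ : 4 ≤ Λ) (hρ : 0 ≤ ρ) :
    ∃ K' K : ℕ, ∃ w0 : ℝ, 1 ≤ K' ∧ 1 ≤ K ∧ 0 < w0 ∧ ∀ (Ω : Type v) (m0 : MeasurableSpace Ω)
      (P : Measure Ω) [IsProbabilityMeasure P] (V B R : ℕ → Ω → ℝ), Blk P V B R U tl ρ →
      ∀ w, w0 ≤ w → 1 / (3 * Λ) ≤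
        P.real (UpF V B R (w / 16) w (w / 2) (Λ * w) ((K * nn U w : ℕ) : ℝ) (K' * nn U w)) := by
  have hΛ0 : 0 < Λ := by linarith
  set K' : ℕ := ⌈32 * Λ * (Λ + 1 / 8) ^ 2⌉₊ with hK'
  have hK'1 : 32 * Λ * (Λ + 1 / 8) ^ 2 ≤ K' := Nat.le_ceil _
  have hK'0 : (0 : ℝ) < K' := lt_of_lt_of_le (by positivity) hK'1
  set K : ℕ := ⌈25 * Λ * K' * ρ⌉₊ + 1 with hK
  have hK1 : 25 * Λ * K' * ρ ≤ K := by
    have := Nat.le_ceil (25 * Λ * K' * ρ)
    rw [hK]; push_cast; linarith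
  have hK0 : (1 : ℝ) ≤ K := by rw [hK]; push_cast; linarith [Nat.cast_nonneg (α := ℝ) ⌈25 * Λ * K' * ρ⌉₊]
  obtain ⟨w1, hw1, hF⟩ := h.facts
  obtain ⟨w2, hw2, hT⟩ := h.tail (ε := 1 / (50 * K' * Λ)) (by positivity)
  refine ⟨K', K, max w1 w2, by exact_mod_cast hK'0, by exact_mod_cast hK0,
    lt_max_of_lt_left hw1, ?_⟩
  intro Ω m0 P _ V B R hB w hw
  have hw1' : w1 ≤ w := (le_max_left _ _).trans hw
  have hw0 : 0 < w := hw1.trans_le hw1'
  obtain ⟨hU, hX, hl, hu, hn1⟩ := hF w hw1'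
  obtain ⟨_, hUb, htl⟩ := hT w ((le_max_right _ _).trans hw)
  have hUb0 : 0 < U (w / 16) := by linarith
  have hn1' : (1 : ℝ) ≤ nn U w := by exact_mod_cast hn1
  have hn0 : 0 < K' * nn U w := Nat.mul_pos (by exact_mod_cast hK'0) hn1
  have key := gam_fin hB (b := w / 16) (w := w) (lo := w / 2) (hi := Λ * w)
    (H := ((K * nn U w : ℕ) : ℝ)) (by positivity) (by positivity) (by linarith) (by nlinarith)
    hUb0 hn0 (by push_cast; nlinarith)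
  refine le_trans ?_ key
  push_cast
  -- (a)
  set X := w ^ 2 / U w with hXdef
  have hXU : X * U w = w ^ 2 := by rw [hXdef]; field_simp
  have ha1 : K' * w ^ 2 / 2 ≤ (K' * (nn U w : ℝ)) * U (w / 16) := by
    have h1 : X * U w ≤ (nn U w : ℝ) * (2 * U (w / 16)) := by
      calc X * U w ≤ nn U w * U w := mul_le_mul_of_nonneg_right hl hU.le
        _ ≤ _ := mul_le_mul_of_nonneg_left hUb (by linarith)
    rw [hXU] at h1
    nlinarith [mul_le_mul_of_nonneg_left h1 hK'0.le]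
  have hsq : (Λ * w + 2 * (w / 16)) = (Λ + 1 / 8) * w := by ring
  have ha2 : Λ * w * ((Λ * w + 2 * (w / 16)) ^ 2 / ((K' * (nn U w : ℝ)) * U (w / 16))) ≤ w / 16 := by
    have h1 : (Λ * w + 2 * (w / 16)) ^ 2 / ((K' * (nn U w : ℝ)) * U (w / 16))
        ≤ (Λ * w + 2 * (w / 16)) ^ 2 / (K' * w ^ 2 / 2) :=
      div_le_div_of_nonneg_left (by positivity) (by positivity) ha1
    have h2 : (Λ * w + 2 * (w / 16)) ^ 2 / (K' * w ^ 2 / 2) = 2 * (Λ + 1 / 8) ^ 2 / K' := by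
      rw [hsq]
      field_simp
    have h3 : Λ * w * (2 * (Λ + 1 / 8) ^ 2 / K') ≤ w / 16 := by
      rw [mul_div_assoc', div_le_iff₀ hK'0]
      nlinarith [mul_le_mul_of_nonneg_left hK'1 hw0.le]
    calc _ ≤ Λ * w * (2 * (Λ + 1 / 8) ^ 2 / K') :=
          mul_le_mul_of_nonneg_left (h1.trans h2.le) (by positivity)
      _ ≤ _ := h3
  have ha : (7 / 16) / ((33 / 32) * Λ) ≤ (w - w / 2 - Λ * w * ((Λ * w + 2 * (w / 16)) ^ 2 /
      ((K' * (nn U w : ℝ)) * U (w / 16)))) / (Λ * w + 2 * (w / 16)) := by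
    rw [hsq, div_le_div_iff₀ (by positivity) (by positivity)]
    rw [hsq] at ha2
    have h1 : 7 / 16 * w ≤ w - w / 2 - Λ * w * (((Λ + 1 / 8) * w) ^ 2 /
      ((K' * (nn U w : ℝ)) * U (w / 16))) := by linarith
    have h2 : 7 / 16 * ((Λ + 1 / 8) * w) ≤ 7 / 16 * w * (33 / 32 * Λ) := by nlinarith
    exact h2.trans (mul_le_mul_of_nonneg_right h1 (by positivity))
  -- (b)
  have hb : (K' * (nn U w : ℝ)) * tl (w / 16) ≤ 1 / (25 * Λ) := by
    have h0 := h.tl_nonneg (w / 16)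
    have h1 : (K' * (nn U w : ℝ)) * tl (w / 16) ≤ (K' * (2 * X)) * tl (w / 16) :=
      mul_le_mul_of_nonneg_right (mul_le_mul_of_nonneg_left hu hK'0.le) h0
    have h2 : (K' * (2 * X)) * tl (w / 16) = 2 * K' * (X * tl (w / 16)) := by ring
    have h3 : 2 * K' * (X * tl (w / 16)) ≤ 2 * K' * (1 / (50 * K' * Λ)) :=
      mul_le_mul_of_nonneg_left htl (by positivity)
    have h4 : 2 * (K' : ℝ) * (1 / (50 * K' * Λ)) = 1 / (25 * Λ) := by
      field_simp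
      ring
    linarith
  -- (c)
  have hc : (K' * (nn U w : ℝ)) * ρ / (K * (nn U w : ℝ)) ≤ 1 / (25 * Λ) := by
    have hN0 : (0 : ℝ) < (nn U w : ℝ) := by linarith
    have hKp : (0 : ℝ) < (K : ℝ) := by linarith
    rw [div_le_div_iff₀ (mul_pos hKp hN0) (by positivity)]
    have h1 := mul_le_mul_of_nonneg_right hK1 hN0.le
    calc (K' * (nn U w : ℝ)) * ρ * (25 * Λ) = 25 * Λ * K' * ρ * (nn U w : ℝ) := by ring
      _ ≤ K * (nn U w : ℝ) := h1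
      _ = 1 * (K * (nn U w : ℝ)) := by ring
  have hfin : 1 / (3 * Λ) + 1 / (25 * Λ) + 1 / (25 * Λ) ≤ (7 / 16) / ((33 / 32) * Λ) := by
    have e1 : 1 / (3 * Λ) + 1 / (25 * Λ) + 1 / (25 * Λ) = (1 / 3 + 1 / 25 + 1 / 25) / Λ := by
      field_simp
    have e2 : (7 / 16) / ((33 / 32) * Λ) = (14 / 33) / Λ := by
      field_simp
      norm_num
    rw [e1, e2]
    exact div_le_div_of_nonneg_right (by norm_num) hΛ0.le
  linarith

/-- **(E2) in the letters.** -/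
theorem NDA.e2 (h : NDA U tl) (ρ : ℝ) :
    ∃ w0 : ℝ, 0 < w0 ∧ ∀ (Ω : Type v) (m0 : MeasurableSpace Ω)
      (P : Measure Ω) [IsProbabilityMeasure P] (V B R : ℕ → Ω → ℝ), Blk P V B R U tl ρ →
      ∀ w, w0 ≤ w → 1 / 2 ≤ P.real (StF V B R (w / 16) w (w - w / 4) (nn U w / 128)) := by
  obtain ⟨w1, hw1, hF⟩ := h.facts
  obtain ⟨w2, hw2, hT⟩ := h.tail (ε := 1) one_pos
  refine ⟨max w1 w2, lt_max_of_lt_left hw1, ?_⟩
  intro Ω m0 P _ V B R hB w hw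
  have hw1' : w1 ≤ w := (le_max_left _ _).trans hw
  have hw0 : 0 < w := hw1.trans_le hw1'
  obtain ⟨hU, hX, hl, hu, hn1⟩ := hF w hw1'
  obtain ⟨_, hUb, htl⟩ := hT w ((le_max_right _ _).trans hw)
  have key := stay_fin hB (b := w / 16) (w := w) (r := w / 4) (by positivity) (by positivity)
    (h.U_nonneg _) (nn U w / 128)
  refine le_trans ?_ key
  have hn : ((nn U w / 128 : ℕ) : ℝ) ≤ (2 * (w ^ 2 / U w)) / 128 := by
    have := Nat.cast_div_le (α := ℝ) (m := nn U w) (n := 128)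
    push_cast at this
    linarith
  set X := w ^ 2 / U w with hXdef
  have hXU : X * U w = w ^ 2 := by rw [hXdef]; field_simp
  have hmono := h.U_mono (w / 16) w (by linarith)
  have h0 := h.tl_nonneg (w / 16)
  have hUb0 := h.U_nonneg (w / 16)
  have ha : ((nn U w / 128 : ℕ) : ℝ) * U (w / 16) / (w / 4) ^ 2 ≤ 1 / 4 := by
    rw [div_le_iff₀ (by positivity)]
    calc ((nn U w / 128 : ℕ) : ℝ) * U (w / 16) ≤ (2 * X / 128) * U (w / 16) :=
          mul_le_mul_of_nonneg_right hn hUb0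
      _ ≤ (2 * X / 128) * U w := mul_le_mul_of_nonneg_left hmono (by linarith)
      _ = 1 / 4 * (w / 4) ^ 2 := by
          rw [show (2 * X / 128) * U w = (2 / 128) * (X * U w) by ring, hXU]; ring
  have hb : ((nn U w / 128 : ℕ) : ℝ) * tl (w / 16) ≤ 1 / 4 := by
    calc ((nn U w / 128 : ℕ) : ℝ) * tl (w / 16) ≤ (2 * X / 128) * tl (w / 16) :=
          mul_le_mul_of_nonneg_right hn h0
      _ = (2 / 128) * (X * tl (w / 16)) := by ring
      _ ≤ (2 / 128) * 1 := mul_le_mul_of_nonneg_left htl (by norm_num)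
      _ ≤ 1 / 4 := by norm_num
  linarith

end Crest.Agent.R154.Gam177
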