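import Crest.Agent.R154.B6Sys_833

/-! R154, block d = 2 (helper21): **MACROSCOPIC NON-LOCALISATION OF A PAIR** by windows.

`Rch R A m s` = some level `l ≤ m` is reached naturally by both walkers (natural up to `l`) with the
pair of sites in `A`.  For every multiplicative family of pair laws (833's `Mult`: same environment
`PSm`, independent `PIm`):

* `windows`  : `P(Rch A (n m)) ≥ p₂ (1 - (1 - π)^n)` if `π ≤ P^t(Rch A m)` for every state `t`;
* `chainAB`  : `P(Rch A' (N + m₁)) ≥ θ P(Rch A N)` if `θ ≤ P^t(Rch A' m₁)` for `t ∈ A`;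
* `nlm`      : the recursion over scales (gambler's ruin `θ ~ 1/Λ` against `n ~ Λ²` windows). -/

set_option autoImplicit false
set_option linter.unusedSectionVars false
set_option linter.deprecated false

open MeasureTheory ProbabilityTheory Filter Set
open scoped ENNReal Topology

namespace Crest.Agent.R154.Nlm21

open Crest.ProbabilityR.RandomEnvironment Crest.Agent.R154.Q561 Crest.Agent.R154.Ren263
open Crest.Agent.R154.Mk561 Crest.Agent.R154.B6I
open Crest.Agent.R154.Flux132 (lev)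

local notation "shf" => Crest.Agent.R154.Ren263.shift

variable {d : ℕ} {u : Step d} {R : ℕ}

/-- both walkers natural up to level `j`. -/
def NN (u : Step d) (R j : ℕ) : Set (PP d) := {p | Nt u R 0 j p.1 ∧ Nt u R 0 j p.2}

/-- some level `l ≤ m` is reached naturally by both with the pair of sites in `A`. -/
def Rch (R : ℕ) (A : Set (SP u)) (m : ℕ) (s : SP u) : Set (PP d) :=
  {p | ∃ l ≤ m, (Nt u R 0 l p.1 ∧ Nt u R 0 l p.2) ∧ tip l s p ∈ A}

/-- `l` is the first level with the pair of sites in `A`, both natural up to `l`. -/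
def Fst (R : ℕ) (A : Set (SP u)) (l : ℕ) (s : SP u) : Set (PP d) :=
  {p | (Nt u R 0 l p.1 ∧ Nt u R 0 l p.2) ∧ tip l s p ∈ A ∧ ∀ i < l, tip i s p ∉ A}

lemma fst_al {A : Set (SP u)} {l : ℕ} {s : SP u} : ∀ p ∈ Fst R A l s, Al u l p :=
  fun _ hp => ⟨hp.1.1.alv, hp.1.2.alv⟩

lemma dt_fst (A : Set (SP u)) (l : ℕ) (s : SP u) : Dt u l (Fst R A l s) := by
  rintro p q h1 h2 ⟨⟨n1, n2⟩, h3, h4⟩
  refine ⟨⟨h1.nt (Nat.zero_le l) n1, h2.nt (Nat.zero_le l) n2⟩, ?_, fun i hi => ?_⟩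
  · rw [← tip_eqv s h1 h2]; exact h3
  · rw [← tip_eqv s (h1.mono hi.le) (h2.mono hi.le)]; exact h4 i hi

lemma meas_fst (A : Set (SP u)) (l : ℕ) (s : SP u) : MeasurableSet (Fst R A l s) :=
  measurableSet_of_dt fst_al (dt_fst A l s)

lemma rch_eq (A : Set (SP u)) (m : ℕ) (s : SP u) :
    Rch R A m s = ⋃ l ∈ Finset.range (m+1), Fst R A l s := by
  classical
  ext p
  simp only [Set.mem_iUnion, Finset.mem_range, exists_prop]
  constructor
  · rintro ⟨l, hl, hN, hA⟩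
    have hex : ∃ i, tip i s p ∈ A := ⟨l, hA⟩
    have h1 : Nat.find hex ≤ l := Nat.find_min' hex hA
    refine ⟨Nat.find hex, by omega, ⟨hN.1.left h1, hN.2.left h1⟩, Nat.find_spec hex,
      fun i hi => Nat.find_min hex hi⟩
  · rintro ⟨l, hl, h1, h2, _⟩
    exact ⟨l, by omega, h1, h2⟩

lemma fst_disj (A : Set (SP u)) (s : SP u) {l l' : ℕ} (h : l ≠ l') :
    Disjoint (Fst R A l s) (Fst R A l' s) := by
  rw [Set.disjoint_left]
  rintro p ⟨_, h2, h3⟩ ⟨_, h2', h3'⟩
  rcases lt_or_gt_of_ne h with hlt | hlt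
  · exact h3' l hlt h2
  · exact h3 l' hlt h2'

lemma meas_rch (A : Set (SP u)) (m : ℕ) (s : SP u) : MeasurableSet (Rch R A m s) := by
  rw [rch_eq]
  exact Finset.measurableSet_biUnion _ fun l _ => meas_fst A l s

lemma mu_rch (ν : Measure (PP d)) (A : Set (SP u)) (m : ℕ) (s : SP u) :
    ν (Rch R A m s) = ∑ l ∈ Finset.range (m+1), ν (Fst R A l s) := by
  rw [rch_eq]
  exact measure_biUnion_finset (fun l _ l' _ h => fst_disj A s h) fun l _ => meas_fst A l s

lemma rch_mono (A : Set (SP u)) {m m' : ℕ} (h : m ≤ m') (s : SP u) :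
    Rch R A m s ⊆ Rch R A m' s := by
  rintro p ⟨l, hl, h1⟩
  exact ⟨l, hl.trans h, h1⟩

lemma rch_dt (A : Set (SP u)) (m : ℕ) (s : SP u) {p q : PP d} (h1 : Eqv u m p.1 q.1)
    (h2 : Eqv u m p.2 q.2) (h : p ∈ Rch R A m s) : q ∈ Rch R A m s := by
  obtain ⟨l, hl, hN, hA⟩ := h
  refine ⟨l, hl, ⟨(h1.mono hl).nt (Nat.zero_le l) hN.1, (h2.mono hl).nt (Nat.zero_le l) hN.2⟩, ?_⟩
  rw [← tip_eqv s (h1.mono hl) (h2.mono hl)]; exact hA

/-! ### the shifted pair -/

lemma eqv_shift {j l : ℕ} {M M' : MPath d} {a : ℕ} (h : Eqv u (j+l) M M') (ha : Hit u j M a) :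
    Eqv u l (shf a M) (shf a M') := by
  intro n hn
  have h1 := (bf_shift_iff (Nat.le_add_right j l) ha n).1 (by rwa [Nat.add_sub_cancel_left])
  exact h (a+n) h1

lemma hit_of_shift {j l : ℕ} {M : MPath d} {a b : ℕ} (ha : Hit u j M a)
    (hb : Hit u l (shf a M) b) : Hit u (j+l) M (a+b) :=
  (hit_shift_iff (Nat.le_add_right j l) ha b).1 (by rwa [Nat.add_sub_cancel_left])

/-- the event `th ∈ E (tip)` restarted at level `j` -/
lemma dt_restart {j l : ℕ} {s : SP u} {B : Set (PP d)} (hBa : ∀ p ∈ B, Al u j p) (hB : Dt u j B)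
    {E : SP u → Set (PP d)} (hE : ∀ t, Dt u l (E t)) :
    Dt u (j+l) (B ∩ {p | th u j p ∈ E (tip j s p)}) := by
  rintro p q h1 h2 ⟨hp, hp'⟩
  have m1 := h1.mono (Nat.le_add_right j l)
  have m2 := h2.mono (Nat.le_add_right j l)
  refine ⟨hB p q m1 m2 hp, ?_⟩
  simp only [Set.mem_ofPred_eq] at hp' ⊢
  obtain ⟨⟨a, ha⟩, ⟨b, hb⟩⟩ := hBa p hp
  rw [th_eq ha hb] at hp'
  rw [th_eq (m1.hit ha) (m2.hit hb), ← tip_eqv s m1 m2]
  exact hE _ (shf a p.1, shf b p.2) (shf a q.1, shf b q.2) (eqv_shift h1 ha) (eqv_shift h2 hb) hp'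

lemma al_restart {j l : ℕ} {s : SP u} {B : Set (PP d)} (hBa : ∀ p ∈ B, Al u j p)
    {E : SP u → Set (PP d)} (hE : ∀ t, ∀ p ∈ E t, Al u l p) :
    ∀ p ∈ B ∩ {p | th u j p ∈ E (tip j s p)}, Al u (j+l) p := by
  rintro p ⟨hp, hp'⟩
  obtain ⟨⟨a, ha⟩, ⟨b, hb⟩⟩ := hBa p hp
  simp only [Set.mem_ofPred_eq] at hp'
  rw [th_eq ha hb] at hp'
  obtain ⟨⟨a', ha'⟩, ⟨b', hb'⟩⟩ := hE _ _ hp'
  exact ⟨⟨_, hit_of_shift ha ha'⟩, ⟨_, hit_of_shift hb hb'⟩⟩

/-- a natural start, then `Rch` of the shifted pair, gives `Rch`. -/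
lemma rch_of_restart {A : Set (SP u)} {j m : ℕ} {s : SP u} {p : PP d}
    (hN : Nt u R 0 j p.1 ∧ Nt u R 0 j p.2) (h : th u j p ∈ Rch R A m (tip j s p)) :
    p ∈ Rch R A (j+m) s := by
  obtain ⟨l, hl, ⟨n1, n2⟩, hA⟩ := h
  obtain ⟨a, ha⟩ := hN.1.alv
  obtain ⟨b, hb⟩ := hN.2.alv
  have hth := th_eq (p := p) ha hb
  rw [hth] at n1 n2
  simp only at n1 n2
  have k1 : Nt u R j (j+l) p.1 := by
    refine (nt_shift_iff (R := R) (le_refl j) (Nat.le_add_right j l) ha).1 ?_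
    rwa [Nat.sub_self, Nat.add_sub_cancel_left]
  have k2 : Nt u R j (j+l) p.2 := by
    refine (nt_shift_iff (R := R) (le_refl j) (Nat.le_add_right j l) hb).1 ?_
    rwa [Nat.sub_self, Nat.add_sub_cancel_left]
  refine ⟨j+l, by omega, ⟨hN.1.trans (Nat.zero_le j) (Nat.le_add_right j l) k1,
    hN.2.trans (Nat.zero_le j) (Nat.le_add_right j l) k2⟩, ?_⟩
  have := tip_shift (Nat.le_add_right j l) s (p := p) ⟨k1.alv, k2.alv⟩
  rw [Nat.add_sub_cancel_left] at this
  rw [← this]; exact hA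

variable {μ : SP u → Measure (PP d)}

/-- **restart for `Rch`.** -/
lemma rch_restart (hμ : Mult R μ) (A : Set (SP u)) (m : ℕ) (s : SP u) {j : ℕ} {B : Set (PP d)}
    (hBa : ∀ p ∈ B, Al u j p) (hB : Dt u j B) :
    μ s (B ∩ {p | th u j p ∈ Rch R A m (tip j s p)})
      = ∫⁻ p in B, μ (tip j s p) (Rch R A m (tip j s p)) ∂(μ s) := by
  have e0 : B ∩ {p | th u j p ∈ Rch R A m (tip j s p)}
      = ⋃ l ∈ Finset.range (m+1), (B ∩ {p | th u j p ∈ Fst R A l (tip j s p)}) := by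
    ext p
    simp only [rch_eq, Set.mem_inter_iff, Set.mem_ofPred_eq, Set.mem_iUnion, Finset.mem_range,
      exists_prop]
    tauto
  have hm : ∀ l, MeasurableSet (B ∩ {p | th u j p ∈ Fst R A l (tip j s p)}) := fun l =>
    measurableSet_of_dt (al_restart hBa fun t => fst_al) (dt_restart hBa hB fun t => dt_fst A l t)
  have e1 : μ s (B ∩ {p | th u j p ∈ Rch R A m (tip j s p)})
      = ∑ l ∈ Finset.range (m+1), μ s (B ∩ {p | th u j p ∈ Fst R A l (tip j s p)}) := by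
    rw [e0]
    refine measure_biUnion_finset (fun l _ l' _ h => ?_) fun l _ => hm l
    rw [Function.onFun, Set.disjoint_left]
    rintro p ⟨_, h1⟩ ⟨_, h2⟩
    exact Set.disjoint_left.1 (fst_disj A (tip j s p) h) h1 h2
  rw [e1]
  have e2 : ∀ l, μ s (B ∩ {p | th u j p ∈ Fst R A l (tip j s p)})
      = ∫⁻ p in B, μ (tip j s p) (Fst R A l (tip j s p)) ∂(μ s) := by
    intro l
    exact hμ.restart s (k := l) hBa hB (E := {ω : Om u | ω.2 ∈ Fst R A l ω.1})
      (fun t => dt_fst A l t) (fun t p hp => hp.1)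
  simp only [e2]
  rw [← lintegral_finset_sum']
  · refine lintegral_congr fun p => ?_
    rw [mu_rch]
  · intro l _
    have h1 : Measurable fun p : PP d => tip j s p := by
      have h : Measurable fun ω : Om u => tip j ω.1 ω.2 :=
        measurable_to_countable' fun t => set_of_mp (mp_tip j t)
      exact h.comp (meas_mk s)
    exact ((measurable_of_countable fun t : SP u => μ t (Fst R A l t)).comp h1).aemeasurable

/-- lower bound by a uniform restart probability. -/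
lemma rch_restart_ge (hμ : Mult R μ) (A : Set (SP u)) (m : ℕ) (s : SP u) {j : ℕ}
    {B : Set (PP d)} (hBa : ∀ p ∈ B, Al u j p) (hB : Dt u j B) {π : ℝ≥0∞}
    (hπ : ∀ p ∈ B, π ≤ μ (tip j s p) (Rch R A m (tip j s p))) :
    π * μ s B ≤ μ s (B ∩ {p | th u j p ∈ Rch R A m (tip j s p)}) := by
  rw [rch_restart hμ A m s hBa hB, ← setLIntegral_const]
  exact setLIntegral_mono' (measurableSet_of_dt hBa hB) hπ

/-! ### windows -/

lemma dt_NN (j : ℕ) : Dt u j (NN u R j) := dt_nt (Nat.zero_le j)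

/-- one window. -/
lemma window (hμ : Mult R μ) (A : Set (SP u)) {j m : ℕ} (s : SP u) {π : ℝ≥0∞}
    (hπ : ∀ t, π ≤ μ t (Rch R A m t)) :
    μ s (Rch R A j s) + π * μ s (NN u R j \ Rch R A j s) ≤ μ s (Rch R A (j+m) s) := by
  set B := NN u R j \ Rch R A j s with hBdef
  have hBa : ∀ p ∈ B, Al u j p := fun p hp => ⟨hp.1.1.alv, hp.1.2.alv⟩
  have hBd : Dt u j B := by
    rintro p q h1 h2 ⟨hp, hp'⟩
    exact ⟨dt_NN j p q h1 h2 hp, fun hq => hp' (rch_dt A j s h1.symm h2.symm hq)⟩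
  have h1 := rch_restart_ge hμ A m s hBa hBd fun p _ => hπ (tip j s p)
  calc _ ≤ μ s (Rch R A j s) + μ s (B ∩ {p | th u j p ∈ Rch R A m (tip j s p)}) := by gcongr
    _ = μ s (Rch R A j s ∪ (B ∩ {p | th u j p ∈ Rch R A m (tip j s p)})) := by
        rw [measure_union' ?_ (meas_rch A j s)]
        rw [Set.disjoint_left]
        rintro p hp ⟨⟨_, hp'⟩, _⟩
        exact hp' hp
    _ ≤ _ := by
        refine measure_mono (Set.union_subset (rch_mono A (Nat.le_add_right j m) s) ?_)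
        rintro p ⟨hp, hp'⟩
        exact rch_of_restart hp.1 hp'

lemma window_real (hμ : Mult R μ) (A : Set (SP u)) {j m : ℕ} (s : SP u) {p2 π : ℝ} (hπ0 : 0 ≤ π)
    (hp2 : p2 ≤ (μ s).real (NN u R j)) (hπ : ∀ t, π ≤ (μ t).real (Rch R A m t)) :
    (μ s).real (Rch R A j s) + π * (p2 - (μ s).real (Rch R A j s))
      ≤ (μ s).real (Rch R A (j+m) s) := by
  have := hμ.prob
  have h0 : ∀ t, ENNReal.ofReal π ≤ μ t (Rch R A m t) := fun t => by
    rw [← ofReal_measureReal]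
    exact ENNReal.ofReal_le_ofReal (hπ t)
  have h1 := window hμ A (j := j) s h0
  have h2 : (μ s).real (Rch R A j s) + π * (μ s).real (NN u R j \ Rch R A j s)
      ≤ (μ s).real (Rch R A (j+m) s) := by
    have h3 := ENNReal.toReal_mono (measure_ne_top _ _) h1
    rw [ENNReal.toReal_add (measure_ne_top _ _)
      (ENNReal.mul_ne_top ENNReal.ofReal_ne_top (measure_ne_top _ _)), ENNReal.toReal_mul,
      ENNReal.toReal_ofReal hπ0] at h3
    exact h3
  have h4 : (μ s).real (NN u R j) ≤ (μ s).real (NN u R j \ Rch R A j s)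
      + (μ s).real (Rch R A j s) := by
    refine (measureReal_mono ?_).trans (measureReal_union_le _ _)
    intro p hp
    by_cases h : p ∈ Rch R A j s
    · exact Or.inr h
    · exact Or.inl ⟨hp, h⟩
  nlinarith

/-- **(A) windows.** -/
theorem windows (hμ : Mult R μ) (A : Set (SP u)) {m : ℕ} {p2 π : ℝ} (hπ0 : 0 ≤ π) (hπ1 : π ≤ 1)
    (hp2 : ∀ s j, p2 ≤ (μ s).real (NN u R j)) (hπ : ∀ t, π ≤ (μ t).real (Rch R A m t))
    (n : ℕ) (s : SP u) :
    p2 * (1 - (1 - π)^n) ≤ (μ s).real (Rch R A (n*m) s) := by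
  induction n with
  | zero => simp
  | succ n ih =>
    have h1 := window_real hμ A (j := n*m) s hπ0 (hp2 s (n*m)) hπ
    rw [Nat.succ_mul]
    rw [pow_succ]
    have h2 : (0:ℝ) ≤ 1 - π := by linarith
    nlinarith [mul_le_mul_of_nonneg_left ih h2]

/-- **(B) from `A` to `A'`.** -/
theorem chainAB (hμ : Mult R μ) (A A' : Set (SP u)) {N m₁ : ℕ} {θ : ℝ} (hθ0 : 0 ≤ θ)
    (hθ : ∀ t ∈ A, θ ≤ (μ t).real (Rch R A' m₁ t)) (s : SP u) :
    θ * (μ s).real (Rch R A N s) ≤ (μ s).real (Rch R A' (N+m₁) s) := by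
  have := hμ.prob
  have h1 : ∀ l, ENNReal.ofReal θ * μ s (Fst R A l s)
      ≤ μ s (Fst R A l s ∩ {p | th u l p ∈ Rch R A' m₁ (tip l s p)}) := by
    intro l
    refine rch_restart_ge hμ A' m₁ s fst_al (dt_fst A l s) fun p hp => ?_
    rw [← ofReal_measureReal]
    exact ENNReal.ofReal_le_ofReal (hθ _ hp.2.1)
  have hm : ∀ l, MeasurableSet (Fst R A l s ∩ {p | th u l p ∈ Rch R A' m₁ (tip l s p)}) := by
    intro l
    have e0 : Fst R A l s ∩ {p | th u l p ∈ Rch R A' m₁ (tip l s p)}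
        = ⋃ i ∈ Finset.range (m₁+1),
          (Fst R A l s ∩ {p | th u l p ∈ Fst R A' i (tip l s p)}) := by
      ext p
      simp only [rch_eq, Set.mem_inter_iff, Set.mem_ofPred_eq, Set.mem_iUnion, Finset.mem_range,
        exists_prop]
      tauto
    rw [e0]
    exact Finset.measurableSet_biUnion _ fun i _ =>
      measurableSet_of_dt (al_restart fst_al fun t => fst_al)
        (dt_restart fst_al (dt_fst A l s) fun t => dt_fst A' i t)
  have h2 : ENNReal.ofReal θ * μ s (Rch R A N s) ≤ μ s (Rch R A' (N+m₁) s) := by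
    rw [mu_rch, Finset.mul_sum]
    calc _ ≤ ∑ l ∈ Finset.range (N+1),
          μ s (Fst R A l s ∩ {p | th u l p ∈ Rch R A' m₁ (tip l s p)}) :=
        Finset.sum_le_sum fun l _ => h1 l
      _ = μ s (⋃ l ∈ Finset.range (N+1),
          (Fst R A l s ∩ {p | th u l p ∈ Rch R A' m₁ (tip l s p)})) := by
        rw [measure_biUnion_finset (fun l _ l' _ h => ?_) fun l _ => hm l]
        exact (fst_disj A s h).mono Set.inter_subset_left Set.inter_subset_left
      _ ≤ _ := by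
        refine measure_mono (Set.iUnion₂_subset fun l hl => ?_)
        rintro p ⟨hp, hp'⟩
        exact rch_mono A' (by have := Finset.mem_range.1 hl; omega) s (rch_of_restart hp.1 hp')
  have h3 := ENNReal.toReal_mono (measure_ne_top _ _) h2
  rw [ENNReal.toReal_mul, ENNReal.toReal_ofReal hθ0] at h3
  exact h3

lemma one_sub_pow_ge {π : ℝ} (h0 : 0 ≤ π) (h1 : π ≤ 1) (n : ℕ) :
    n * π ≤ (1 + n * π) * (1 - (1 - π)^n) := by
  have h2 : (1 - π)^n * (1 + n*π) ≤ 1 := by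
    have h3 : 1 + n * π ≤ (1 + π)^n := one_add_mul_le_pow (by linarith) n
    calc (1 - π)^n * (1 + n*π) ≤ (1 - π)^n * (1 + π)^n :=
          mul_le_mul_of_nonneg_left h3 (pow_nonneg (by linarith) n)
      _ = (1 - π^2)^n := by rw [← mul_pow]; ring_nf
      _ ≤ 1 := pow_le_one₀ (by nlinarith) (by nlinarith)
  nlinarith

/-- **(NLM) the recursion over scales**: if from every state of `A k` the pair reaches `A (k+1)`
naturally within `m₁ k` levels with probability `≥ θ`, and there is room for `n ≥ 2/(θ p₂)` windows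
of length `m k` before, then the probability to reach `A k` naturally within `m k` levels stays
bounded below, uniformly over the scale `k` and the start state. -/
theorem nlm (hμ : Mult R μ) {p2 θ c : ℝ} {n : ℕ}
    (hp2 : ∀ s j, p2 ≤ (μ s).real (NN u R j)) (A : ℕ → Set (SP u)) (m m₁ : ℕ → ℕ)
    (hm : ∀ k, n * m k + m₁ k ≤ m (k+1))
    (hθ : ∀ k, ∀ t ∈ A k, θ ≤ (μ t).real (Rch R (A (k+1)) (m₁ k) t))
    (hθ0 : 0 ≤ θ) (hp0 : 0 ≤ p2) (hn : 2 ≤ θ * p2 * n) (hc0 : 0 ≤ c) (hc : c ≤ θ * p2 / 2)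
    (h0 : ∀ s, c ≤ (μ s).real (Rch R (A 0) (m 0) s)) :
    ∀ k s, c ≤ (μ s).real (Rch R (A k) (m k) s) := by
  have := hμ.prob
  intro k
  induction k with
  | zero => exact h0
  | succ k ih =>
    intro s
    have hc1 : c ≤ 1 := (ih s).trans measureReal_le_one
    have h1 := windows hμ (A k) hc0 hc1 hp2 ih n s
    have h2 := chainAB hμ (A k) (A (k+1)) (N := n * m k) hθ0 (hθ k) s
    have h3 : (μ s).real (Rch R (A (k+1)) (n * m k + m₁ k) s)
        ≤ (μ s).real (Rch R (A (k+1)) (m (k+1)) s) :=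
      measureReal_mono (rch_mono _ (hm k) s)
    have h4 := one_sub_pow_ge hc0 hc1 n
    have hn0 : (0:ℝ) ≤ n := Nat.cast_nonneg n
    have h5 : θ * p2 * (1 - (1 - c)^n) ≤ (μ s).real (Rch R (A (k+1)) (m (k+1)) s) := by
      have h6 := mul_le_mul_of_nonneg_left h1 hθ0
      calc _ = θ * (p2 * (1 - (1 - c)^n)) := by ring
        _ ≤ _ := h6.trans (h2.trans h3)
    refine le_trans ?_ h5
    have h7 : 0 < 1 + n * c := by positivity
    have h8 : c * (1 + n * c) ≤ θ * p2 * (n * c) := by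
      have : 1 + n * c ≤ θ * p2 * n := by nlinarith
      nlinarith [mul_le_mul_of_nonneg_left this hc0]
    have h9 : θ * p2 * (n * c) ≤ θ * p2 * ((1 + n * c) * (1 - (1 - c)^n)) :=
      mul_le_mul_of_nonneg_left h4 (by positivity)
    have h10 : c * (1 + n * c) ≤ (θ * p2 * (1 - (1 - c)^n)) * (1 + n * c) := by
      calc _ ≤ _ := h8
        _ ≤ _ := h9
        _ = _ := by ring
    exact le_of_mul_le_mul_right h10 h7

end Crest.Agent.R154.Nlm21
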