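import Crest.Agent.R154.EscObj_546
import Crest.Agent.R154.OccPow_7

/-! Row 154, `d = 2`, leaf D2.7 (helper7): **OCCUPATION BOUND FOR THE SAME-ENVIRONMENT PAIR**, power
form, uniform in the start pair: `OccPow7.occ_gen` with (E0), (E1), (E2) of `EscObj_546`. -/

set_option autoImplicit false
set_option linter.unusedSectionVars false
set_option linter.unusedVariables false
set_option linter.deprecated false

namespace Crest.Agent.R154.OccPair7

open MeasureTheory ProbabilityTheory Filter Set Crest.ProbabilityR.RandomEnvironment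
open Crest.Agent.R154.Q561 Crest.Agent.R154.Mk561 Crest.Agent.R154.B6I
open Crest.Agent.R154.Bind263
open Crest.Agent.R154.PInd546
open Crest.Agent.R154.EscObj546
open scoped ENNReal Topology

variable {d : ℕ} {u : Step d} {Q : Measure (Environment d)} [IsProbabilityMeasure Q]
  {φ : Site d →+ ℝ} {i : Fin d}

/-- **occupation of the near pairs, every start pair** -/
theorem occ_pair (F : Frame Q 0 0) (h1 : annealedProb Q 0 (escapeEvent (B2d.dirVec u)) = 1)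
    {κ : ℝ} (hκ : 0 < κ) (hell : ∀ᵐ ω ∂Q, ∀ (z : Site d) (e : Step d), κ ≤ (ω z).1 e)
    (hi : i ≠ u.1) (hφ : ∀ z, φ z = (z i : ℝ)) (hμ : Gam7.Law (triR Q 0 u φ))
    (hR : Integrable (fun x : ℝ × ℝ × ℝ => x.2.2) (triR Q 0 u φ))
    {wd : ℕ → ℝ} (hwd : Tendsto wd atTop atTop) {c1 : ℝ} (hc1 : 0 < c1)
    (hW : ∀ᶠ N : ℕ in atTop, c1 * wd N ^ 2 ≤ N * Gam7.U (triR Q 0 u φ) (wd N)) :
    ∃ C c0 : ℝ, 0 < C ∧ 0 < c0 ∧ ∀ a : ℝ, 0 < a → a ≤ 1 → ∃ N0 : ℕ, ∀ N, N0 ≤ N →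
      ∀ s : SP u, ∑ k ∈ Finset.range N,
        (PSm 0 Q s.1.1 s.1.2).real {p | Dr i s k p ≤ a * wd N} ≤ C * a ^ c0 * N := by
  have hA : annealedProb Q 0 (escapeEvent (B2d.dirVec u)) ≠ 0 := by rw [h1]; exact one_ne_zero
  have : IsProbabilityMeasure (triR Q 0 u φ) := J132.probJ (tr3 u φ) F hA
  have hpn := pn_pos F hA
  have hpn1 : pn 0 Q u ≤ 1 := measureReal_le_one
  set q : ℝ := pn 0 Q u ^ 2 / 4 with hq
  have hq0 : 0 < q := by positivity
  have hq1 : q ≤ 1 := by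
    have : pn 0 Q u ^ 2 ≤ 1 := pow_le_one₀ hpn.le hpn1
    linarith
  set q' : ℝ := pn 0 Q u ^ 2 / 2 with hq'
  have hq'0 : 0 < q' := by positivity
  have hΛ1 : 1 < 4 / q := by rw [lt_div_iff₀ hq0]; linarith
  obtain ⟨K, w1, hK, hw1, hE1⟩ := EscObj546.E1 F h1 hφ hμ hR hΛ1
  obtain ⟨c, w2, hc, hw2, hE2⟩ := EscObj546.E2 F h1 hφ hμ
  obtain ⟨w3, hsc⟩ := OccPow7.scale_law hμ hq0 hq1 hK hc
  set w0 : ℝ := max (max w1 w2) w3 with hw0
  have b1 : w1 ≤ w0 := (le_max_left _ _).trans (le_max_left _ _)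
  have b2 : w2 ≤ w0 := (le_max_right _ _).trans (le_max_left _ _)
  have hS := hsc w0 (le_max_right _ _)
  have hw0p : 0 < w0 := hS.w1_pos
  obtain ⟨H0, e0, hH0, he0, hE0⟩ := EscObj546.E0 F h1 hκ hell hi w0
  obtain ⟨ρ, hρ, hfit⟩ := OccPow7.fit_law hμ hwd hc1 hW hΛ1 hc
  obtain ⟨C, c0, hC, hc0, hfin⟩ := OccPow7.occ_gen (H0 := H0) (e0 := e0) (q' := q')
    (lam := 1 / 4) hS (by norm_num) hq'0 le_rfl hH0 he0 hwd hρ hfit
  refine ⟨C, c0, hC, hc0, fun a ha ha1 => ?_⟩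
  obtain ⟨N0, hN0⟩ := hfin a ha ha1
  refine ⟨N0, fun N hN s => ?_⟩
  have hE : OccPow7.Esc3 (PSm 0 Q s.1.1 s.1.2) (Fl u) (Dr i s)
      (fun w => ⌊K * OccPow7.hh (triR Q 0 u φ) w⌋₊) (fun w => ⌊c * OccPow7.hh (triR Q 0 u φ) w⌋₊)
      (4 / q) (q / (4 / q)) w0 q' (1 / 4) w0 e0 H0 :=
    { mono := Fl_mono
      le := Fl_le
      meas := Dr_meas i s
      E0 := fun k B hB => hE0 s k B hB
      E1 := fun w hw k B hB hBs => by
        refine ((hE1 w (b1.trans hw)).2.2 s k B hB hBs).trans (measureReal_mono ?_)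
        exact Set.inter_subset_inter_right _ (OccPow7.up_mono le_rfl (by linarith))
      E2 := fun w hw k B hB hBs => by
        refine ((hE2 w (b2.trans hw)).2 s k B hB hBs).trans (measureReal_mono ?_)
        exact Set.inter_subset_inter_right _
          (OccPow7.stay_anti (by linarith [hw0p.le.trans hw]) le_rfl) }
  have h2 := hN0 N hN (PSm 0 Q s.1.1 s.1.2) (Fl u) (Dr i s) hE Set.univ MeasurableSet.univ
  simpa only [Set.univ_inter, probReal_univ, mul_one] using h2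

end Crest.Agent.R154.OccPair7
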