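import Crest.Agent.R154.OccPair_7
import Crest.Agent.R154.LawTri_546
import Crest.Agent.R154.TubeObj_24

/-! Row 154, `d = 2`, leaf D2.7 (helper7): the occupation bound for iid environments with the width
`wdJ` of the joint blocks; unconditional. -/

set_option autoImplicit false
set_option linter.unusedSectionVars false
set_option linter.unusedVariables false
set_option linter.deprecated false

namespace Crest.Agent.R154.OccPair7

open MeasureTheory ProbabilityTheory Filter Set Crest.ProbabilityR.RandomEnvironment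
open Crest.Agent.R154.Q561 Crest.Agent.R154.Mk561 Crest.Agent.R154.B6I
open Crest.Agent.R154.Bind263
open Crest.Agent.R154.PInd546
open Crest.Agent.R154.EscObj546
open Crest.Agent.R154.NDAObj24 (wdJ core_tri nda_obj Vt Bt)
open Crest.Agent.R154.J132 (triL)
open Crest.Agent.R154.J6_24 (phi phi_apply)
open scoped ENNReal Topology

lemma ell_iid {d : ℕ} (ν : Measure (Row d)) [IsProbabilityMeasure ν] {κ : ℝ}
    (hν : ∀ᵐ p ∂ν, ∀ e : Step d, κ ≤ p.1 e) :
    ∀ᵐ ω ∂(iidEnvironmentLaw ν), ∀ (x : Site d) (e : Step d), κ ≤ (ω x).1 e := by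
  rw [ae_all_iff]
  intro x
  have hmap : (iidEnvironmentLaw ν).map (fun ω : Environment d => ω x) = ν := by
    rw [iidEnvironmentLaw]
    exact Measure.infinitePi_map_eval _ _
  rw [← hmap] at hν
  exact ae_of_ae_map (measurable_pi_apply x).aemeasurable hν

section
variable {u : Step 2} {i : Fin 2}

lemma wdJ_tendsto (ν : Measure (Row 2)) [IsProbabilityMeasure ν]
    (hν' : ∀ᵐ p ∂ν, ∀ e : Step 2, 0 < p.1 e) (hi : i ≠ u.1)
    (hA : annealedProb (iidEnvironmentLaw ν) 0 (escapeEvent (B2d.dirVec u)) ≠ 0) :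
    Tendsto (fun N : ℕ => (wdJ (iidEnvironmentLaw ν) 0 0 u i N : ℝ)) atTop atTop := by
  have h := Hair738.wd_tendstoR (core_tri (frame_iid ν hν') hA hi)
  exact h

lemma wdJ_sq (ν : Measure (Row 2)) [IsProbabilityMeasure ν]
    (hν' : ∀ᵐ p ∂ν, ∀ e : Step 2, 0 < p.1 e) (hi : i ≠ u.1)
    (hA : annealedProb (iidEnvironmentLaw ν) 0 (escapeEvent (B2d.dirVec u)) ≠ 0) :
    ∀ᶠ N : ℕ in atTop, (wdJ (iidEnvironmentLaw ν) 0 0 u i N : ℝ) ^ 2 ≤
      256 * (N * Hair738.U (triL (iidEnvironmentLaw ν) 0 0 u (phi i)) Vt Bt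
        (wdJ (iidEnvironmentLaw ν) 0 0 u i N : ℝ)) := by
  have h := (nda_obj ν hν' hi hA).wd_sq_le (core_tri (frame_iid ν hν') hA hi)
  exact h

/-- **OCCUPATION OF THE NEAR PAIRS, iid, unconditional, every start pair** -/
theorem occ_iid (ν : Measure (Row 2)) [IsProbabilityMeasure ν] {κ : ℝ}
    (hκ : 0 < κ) (hν : ∀ᵐ p ∂ν, ∀ e : Step 2, κ ≤ p.1 e) (hi : i ≠ u.1)
    (h1 : annealedProb (iidEnvironmentLaw ν) 0 (escapeEvent (B2d.dirVec u)) = 1) :
    ∃ C c0 : ℝ, 0 < C ∧ 0 < c0 ∧ ∀ a : ℝ, 0 < a → a ≤ 1 → ∃ N0 : ℕ, ∀ N, N0 ≤ N →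
      ∀ s : SP u, ∑ k ∈ Finset.range N,
        (PSm 0 (iidEnvironmentLaw ν) s.1.1 s.1.2).real
          {p | Dr i s k p ≤ a * (wdJ (iidEnvironmentLaw ν) 0 0 u i N : ℝ)} ≤ C * a ^ c0 * N := by
  have hν' : ∀ᵐ p ∂ν, ∀ e : Step 2, 0 < p.1 e := hν.mono fun p hp e => hκ.trans_le (hp e)
  have F := frame_iid ν hν'
  have hA : annealedProb (iidEnvironmentLaw ν) 0 (escapeEvent (B2d.dirVec u)) ≠ 0 := by
    rw [h1]; exact one_ne_zero
  have hN := nda_obj ν hν' hi hA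
  have hwd := wdJ_tendsto ν hν' hi hA
  have hsq := wdJ_sq ν hν' hi hA
  have hL := LawTri546.law F hA hi hN
  have hI := LawTri546.int_R F hA i
  have hell := ell_iid ν hν
  have hW : ∀ᶠ N : ℕ in atTop, (1 / 256 : ℝ) * (wdJ (iidEnvironmentLaw ν) 0 0 u i N : ℝ) ^ 2 ≤
      N * Gam7.U (triR (iidEnvironmentLaw ν) 0 u (phi i))
        (wdJ (iidEnvironmentLaw ν) 0 0 u i N : ℝ) := by
    filter_upwards [hsq] with N h2
    rw [LawTri546.U_eq]
    linarith
  exact occ_pair F h1 hκ hell hi (fun z => rfl) hL hI hwd (by norm_num) hW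

end

end Crest.Agent.R154.OccPair7
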