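import Mathlib

/-!
R154 (S0220, d = 2), helper31: **occupation bound without spreading** (786 #30495 (3)).

* `phi_ge` : the convex test function `f b w = √(w² + b²)`, second order lower bound.
* `occ_mean` : mean form of the occupation bound.
* `occ_cond` : conditional form (filtration).
-/

set_option autoImplicit false

namespace Crest.Agent.R154.Occ31

open MeasureTheory ProbabilityTheory

/-- the test function -/
noncomputable def tf (b w : ℝ) : ℝ := Real.sqrt (w ^ 2 + b ^ 2)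

/-- its derivative -/
noncomputable def tf' (b w : ℝ) : ℝ := w / tf b w

lemma tf_sq (b w : ℝ) : tf b w ^ 2 = w ^ 2 + b ^ 2 := Real.sq_sqrt (by positivity)

lemma tf_nonneg (b w : ℝ) : 0 ≤ tf b w := Real.sqrt_nonneg _

lemma tf_pos {b : ℝ} (hb : 0 < b) (w : ℝ) : 0 < tf b w := Real.sqrt_pos.2 (by positivity)

lemma abs_le_tf (b w : ℝ) : |w| ≤ tf b w := by
  rw [← Real.sqrt_sq_eq_abs]; exact Real.sqrt_le_sqrt (by nlinarith [sq_nonneg b])

lemma b_le_tf (b w : ℝ) : b ≤ tf b w := by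
  have := abs_le_of_sq_le_sq (a := b) (b := tf b w) (by rw [tf_sq]; nlinarith [sq_nonneg w])
    (tf_nonneg _ _)
  exact (le_abs_self b).trans this

lemma abs_tf'_le {b : ℝ} (hb : 0 < b) (w : ℝ) : |tf' b w| ≤ 1 := by
  unfold tf'
  rw [abs_div, abs_of_pos (tf_pos hb w), div_le_one (tf_pos hb w)]
  exact abs_le_tf b w

/-- `1`-Lipschitz -/
lemma tf_lip {b : ℝ} (hb : 0 < b) (w z : ℝ) : |tf b w - tf b z| ≤ |w - z| := by
  have hs := tf_pos hb w
  have ht := tf_pos hb z
  have h1 : (tf b w - tf b z) * (tf b w + tf b z) = (w - z) * (w + z) := by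
    have e1 := tf_sq b w
    have e2 := tf_sq b z
    nlinarith
  have h2 : |w + z| ≤ tf b w + tf b z :=
    (abs_add_le w z).trans (add_le_add (abs_le_tf b w) (abs_le_tf b z))
  have h3 : |tf b w - tf b z| * (tf b w + tf b z) = |w - z| * |w + z| := by
    rw [← abs_mul, ← h1, abs_mul, abs_of_pos (add_pos hs ht)]
  have h4 : |tf b w - tf b z| * (tf b w + tf b z) ≤ |w - z| * (tf b w + tf b z) := by
    rw [h3]; exact mul_le_mul_of_nonneg_left h2 (abs_nonneg _)
  exact le_of_mul_le_mul_right h4 (add_pos hs ht)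

/-- exact second order remainder -/
lemma tf_rem {b : ℝ} (hb : 0 < b) (w d : ℝ) :
    d ^ 2 * b ^ 2 / (tf b w * (tf b (w + d) + tf b w) ^ 2) ≤
      tf b (w + d) - tf b w - tf' b w * d := by
  have hs := tf_pos hb w
  have ht := tf_pos hb (w + d)
  set s := tf b w with hsd
  set t := tf b (w + d) with htd
  have e1 : s ^ 2 = w ^ 2 + b ^ 2 := tf_sq b w
  have e2 : t ^ 2 = (w + d) ^ 2 + b ^ 2 := tf_sq b (w + d)
  have hst : w * (w + d) ≤ s * t := by
    have h1 : w * (w + d) ≤ |w| * |w + d| := by rw [← abs_mul]; exact le_abs_self _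
    exact h1.trans (mul_le_mul (abs_le_tf b w) (abs_le_tf b (w + d)) (abs_nonneg _) hs.le)
  have hpos : 0 < s * (t + s) ^ 2 := by positivity
  rw [div_le_iff₀ hpos]
  have key : (t - s - tf' b w * d) * (s * (t + s) ^ 2) = d ^ 2 * (b ^ 2 + s * t - w * (w + d)) := by
    have h0 : tf' b w * s = w := by unfold tf'; rw [← hsd]; field_simp
    have h1 : (t - s) * (t + s) = d * (2 * w + d) := by nlinarith
    calc (t - s - tf' b w * d) * (s * (t + s) ^ 2)
        = s * ((t - s) * (t + s)) * (t + s) - (tf' b w * s) * d * (t + s) ^ 2 := by ring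
      _ = s * (d * (2 * w + d)) * (t + s) - w * d * (t + s) ^ 2 := by rw [h0, h1]
      _ = d * (s * d * (t + s) + w * (s ^ 2 - t ^ 2)) := by ring
      _ = d ^ 2 * (b ^ 2 + s * t - w * (w + d)) := by
          rw [e2, e1]
          have : s * d * (t + s) = d * (s * t + s ^ 2) := by ring
          rw [this, e1]; ring
  rw [key]
  nlinarith [sq_nonneg d]

lemma tf_convex {b : ℝ} (hb : 0 < b) (w d : ℝ) : tf b w + tf' b w * d ≤ tf b (w + d) := by
  have h := tf_rem hb w d
  have : 0 ≤ d ^ 2 * b ^ 2 / (tf b w * (tf b (w + d) + tf b w) ^ 2) := by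
    have := tf_pos hb w
    positivity
  linarith

/-- **the second order gain** -/
theorem phi_ge {b : ℝ} (hb : 0 < b) {w : ℝ} (hw : |w| ≤ 2 * b) (d : ℝ) :
    min (d ^ 2) (b ^ 2) / (70 * b) ≤ tf b (w + d) - tf b w - tf' b w * d := by
  refine le_trans ?_ (tf_rem hb w d)
  have hs := tf_pos hb w
  have ht := tf_pos hb (w + d)
  have hs1 : tf b w ≤ 9 / 4 * b := by
    apply Real.sqrt_le_iff.2
    refine ⟨by positivity, ?_⟩
    have : w ^ 2 ≤ (2 * b) ^ 2 := sq_le_sq' (by linarith [(abs_le.1 hw).1]) (abs_le.1 hw).2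
    nlinarith
  have ht1 : tf b (w + d) ≤ tf b w + |d| := by
    have := tf_lip hb (w + d) w
    have h2 := (abs_le.1 this).2
    have h3 : |w + d - w| = |d| := by congr 1; ring
    rw [h3] at h2
    linarith
  set M := max |d| b with hM
  have hM0 : 0 < M := lt_of_lt_of_le hb (le_max_right _ _)
  have h5 : tf b (w + d) + tf b w ≤ 11 / 2 * M := by
    have a1 : |d| ≤ M := le_max_left _ _
    have a2 : b ≤ M := le_max_right _ _
    linarith
  have h6 : tf b w * (tf b (w + d) + tf b w) ^ 2 ≤ 70 * b * M ^ 2 := by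
    have h7 : (tf b (w + d) + tf b w) ^ 2 ≤ (11 / 2 * M) ^ 2 := by
      apply pow_le_pow_left₀ (by positivity) h5
    calc tf b w * (tf b (w + d) + tf b w) ^ 2 ≤ (9 / 4 * b) * (11 / 2 * M) ^ 2 :=
          mul_le_mul hs1 h7 (by positivity) (by positivity)
      _ ≤ 70 * b * M ^ 2 := by nlinarith [mul_pos hb (pow_pos hM0 2)]
  have h8 : min (d ^ 2) (b ^ 2) * M ^ 2 ≤ d ^ 2 * b ^ 2 := by
    rcases le_total |d| b with h | h
    · rw [hM, max_eq_right h]
      exact mul_le_mul_of_nonneg_right (min_le_left _ _) (by positivity)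
    · rw [hM, max_eq_left h, sq_abs]
      rw [mul_comm (d ^ 2) (b ^ 2)]
      exact mul_le_mul_of_nonneg_right (min_le_right _ _) (by positivity)
  rw [div_le_div_iff₀ (by positivity) (by positivity)]
  have hmin : 0 ≤ min (d ^ 2) (b ^ 2) := le_min (by positivity) (by positivity)
  calc min (d ^ 2) (b ^ 2) * (tf b w * (tf b (w + d) + tf b w) ^ 2)
      ≤ min (d ^ 2) (b ^ 2) * (70 * b * M ^ 2) := mul_le_mul_of_nonneg_left h6 hmin
    _ = (min (d ^ 2) (b ^ 2) * M ^ 2) * (70 * b) := by ring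
    _ ≤ d ^ 2 * b ^ 2 * (70 * b) := mul_le_mul_of_nonneg_right h8 (by positivity)

lemma tf_cont (b : ℝ) : Continuous (tf b) := by unfold tf; fun_prop

lemma tf'_cont {b : ℝ} (hb : 0 < b) : Continuous (tf' b) := by
  unfold tf'
  exact continuous_id.div (tf_cont b) fun w => (tf_pos hb w).ne'

variable {Ω : Type*} [mΩ : MeasurableSpace Ω] {μ : Measure Ω} [IsProbabilityMeasure μ]

lemma int_tf {b : ℝ} (hb : 0 < b) {W : Ω → ℝ} (hW : Integrable W μ) :
    Integrable (fun ω => tf b (W ω)) μ := by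
  refine Integrable.mono' (hW.abs.add (integrable_const b))
    ((tf_cont b).comp_aestronglyMeasurable hW.1) (Filter.Eventually.of_forall fun ω => ?_)
  rw [Real.norm_of_nonneg (tf_nonneg _ _)]
  show tf b (W ω) ≤ |W ω| + b
  apply Real.sqrt_le_iff.2
  refine ⟨by positivity, ?_⟩
  nlinarith [sq_abs (W ω), abs_nonneg (W ω)]

lemma int_tf' {b : ℝ} (hb : 0 < b) {W D : Ω → ℝ} (hW : Integrable W μ) (hD : Integrable D μ) :
    Integrable (fun ω => tf' b (W ω) * D ω) μ := by
  refine Integrable.bdd_mul (c := 1) hD ((tf'_cont hb).comp_aestronglyMeasurable hW.1) ?_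
  exact Filter.Eventually.of_forall fun ω => by
    rw [Real.norm_eq_abs]; exact abs_tf'_le hb _

lemma int_min {b : ℝ} {D : Ω → ℝ} (hD : AEStronglyMeasurable D μ) :
    Integrable (fun ω => min ((D ω) ^ 2) (b ^ 2)) μ := by
  refine Integrable.mono' (integrable_const (b ^ 2)) ?_ (Filter.Eventually.of_forall fun ω => ?_)
  · exact (hD.pow 2).inf aestronglyMeasurable_const
  · rw [Real.norm_of_nonneg (le_min (by positivity) (by positivity))]
    exact min_le_right _ _

/-- one step, mean form -/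
lemma step_mean {b : ℝ} (hb : 0 < b) {W Z : Ω → ℝ} (hW : Integrable W μ) (hZ : Integrable Z μ) :
    (∫ ω in {ω | |W ω| ≤ 2 * b}, min ((Z ω - W ω) ^ 2) (b ^ 2) ∂μ) / (70 * b) +
      ∫ ω, tf' b (W ω) * (Z ω - W ω) ∂μ ≤ (∫ ω, tf b (Z ω) ∂μ) - ∫ ω, tf b (W ω) ∂μ := by
  have hD : Integrable (fun ω => Z ω - W ω) μ := hZ.sub hW
  have hS : NullMeasurableSet {ω | |W ω| ≤ 2 * b} μ :=
    hW.1.aemeasurable.abs.nullMeasurable measurableSet_Iic
  rw [← integral_sub (int_tf hb hZ) (int_tf hb hW), ← integral_div,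
    ← integral_indicator₀ hS, ← integral_add _ (int_tf' hb hW hD)]
  · apply integral_mono_ae
    · refine Integrable.add ?_ (int_tf' hb hW hD)
      exact ((int_min hD.1).div_const _).indicator₀ hS
    · exact (int_tf hb hZ).sub (int_tf hb hW)
    · refine Filter.Eventually.of_forall fun ω => ?_
      show ({ω | |W ω| ≤ 2 * b}.indicator (fun ω => min ((Z ω - W ω) ^ 2) (b ^ 2) / (70 * b)) ω) +
        tf' b (W ω) * (Z ω - W ω) ≤ tf b (Z ω) - tf b (W ω)
      have e : W ω + (Z ω - W ω) = Z ω := by ring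
      by_cases h : |W ω| ≤ 2 * b
      · rw [Set.indicator_of_mem (by exact h)]
        have := phi_ge hb h (Z ω - W ω)
        rw [e] at this
        linarith
      · rw [Set.indicator_of_notMem (by exact h)]
        have := tf_convex hb (W ω) (Z ω - W ω)
        rw [e] at this
        linarith
  · exact ((int_min hD.1).div_const _).indicator₀ hS

/-- **occupation bound, mean form** -/
theorem occ_mean {b v c₀ : ℝ} (hb : 0 < b) (hv : 0 < v) {n : ℕ} {W : ℕ → Ω → ℝ}
    (hW : ∀ k ≤ n, Integrable (W k) μ)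
    (h1 : ∀ k < n, v * μ.real {ω | |W k ω| ≤ 2 * b} ≤
      ∫ ω in {ω | |W k ω| ≤ 2 * b}, min ((W (k + 1) ω - W k ω) ^ 2) (b ^ 2) ∂μ)
    (h2 : ∀ k < n, -c₀ ≤ ∫ ω, tf' b (W k ω) * (W (k + 1) ω - W k ω) ∂μ) :
    ∑ k ∈ Finset.range n, μ.real {ω | |W k ω| ≤ 2 * b} ≤
      70 * b / v * ((∫ ω, |W n ω - W 0 ω| ∂μ) + c₀ * n) := by
  have h3 : ∀ k < n, v / (70 * b) * μ.real {ω | |W k ω| ≤ 2 * b} - c₀ ≤
      (∫ ω, tf b (W (k + 1) ω) ∂μ) - ∫ ω, tf b (W k ω) ∂μ := by
    intro k hk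
    have a := step_mean (μ := μ) hb (hW k hk.le) (hW (k + 1) hk)
    have a2 : v / (70 * b) * μ.real {ω | |W k ω| ≤ 2 * b} ≤
        (∫ ω in {ω | |W k ω| ≤ 2 * b}, min ((W (k + 1) ω - W k ω) ^ 2) (b ^ 2) ∂μ) / (70 * b) := by
      rw [div_mul_eq_mul_div]
      exact div_le_div_of_nonneg_right (h1 k hk) (by positivity)
    have a3 := h2 k hk
    linarith
  have h4 : ∑ k ∈ Finset.range n, (v / (70 * b) * μ.real {ω | |W k ω| ≤ 2 * b} - c₀) ≤
      (∫ ω, tf b (W n ω) ∂μ) - ∫ ω, tf b (W 0 ω) ∂μ := by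
    rw [← Finset.sum_range_sub (fun k => ∫ ω, tf b (W k ω) ∂μ)]
    exact Finset.sum_le_sum fun k hk => h3 k (Finset.mem_range.1 hk)
  have h5 : (∫ ω, tf b (W n ω) ∂μ) - ∫ ω, tf b (W 0 ω) ∂μ ≤ ∫ ω, |W n ω - W 0 ω| ∂μ := by
    rw [← integral_sub (int_tf hb (hW n le_rfl)) (int_tf hb (hW 0 (Nat.zero_le _)))]
    apply integral_mono_ae ((int_tf hb (hW n le_rfl)).sub (int_tf hb (hW 0 (Nat.zero_le _))))
      ((hW n le_rfl).sub (hW 0 (Nat.zero_le _))).abs
    exact Filter.Eventually.of_forall fun ω => (le_abs_self _).trans (tf_lip hb _ _)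
  rw [Finset.sum_sub_distrib, ← Finset.mul_sum, Finset.sum_const, Finset.card_range,
    nsmul_eq_mul] at h4
  have h6 : v / (70 * b) * ∑ k ∈ Finset.range n, μ.real {ω | |W k ω| ≤ 2 * b} ≤
      (∫ ω, |W n ω - W 0 ω| ∂μ) + c₀ * n := by linarith
  have h7 : 0 < 70 * b / v := by positivity
  calc ∑ k ∈ Finset.range n, μ.real {ω | |W k ω| ≤ 2 * b}
      = 70 * b / v * (v / (70 * b) * ∑ k ∈ Finset.range n, μ.real {ω | |W k ω| ≤ 2 * b}) := by
        field_simp
    _ ≤ _ := mul_le_mul_of_nonneg_left h6 h7.le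

/-- **occupation bound, conditional form** -/
theorem occ_cond {b v c₀ : ℝ} (hb : 0 < b) (hv : 0 < v) {n : ℕ}
    {W : ℕ → Ω → ℝ} {G : ℕ → MeasurableSpace Ω} (hG : ∀ k, G k ≤ mΩ)
    (hW : ∀ k ≤ n, Integrable (W k) μ) (hm : ∀ k < n, StronglyMeasurable[G k] (W k))
    (h1 : ∀ k < n, ∀ᵐ ω ∂μ, |W k ω| ≤ 2 * b →
      v ≤ (μ[fun ω => min ((W (k + 1) ω - W k ω) ^ 2) (b ^ 2) | G k]) ω)
    (h2 : ∀ k < n, ∀ᵐ ω ∂μ, |(μ[fun ω => W (k + 1) ω - W k ω | G k]) ω| ≤ c₀) :
    ∑ k ∈ Finset.range n, μ.real {ω | |W k ω| ≤ 2 * b} ≤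
      70 * b / v * ((∫ ω, |W n ω - W 0 ω| ∂μ) + c₀ * n) := by
  refine occ_mean hb hv hW (fun k hk => ?_) (fun k hk => ?_)
  · have hD : Integrable (fun ω => W (k + 1) ω - W k ω) μ := (hW (k + 1) hk).sub (hW k hk.le)
    have hS : MeasurableSet[G k] {ω | |W k ω| ≤ 2 * b} :=
      (continuous_abs.comp_stronglyMeasurable (hm k hk)).measurable measurableSet_Iic
    have hS' : MeasurableSet {ω | |W k ω| ≤ 2 * b} := hG k _ hS
    rw [← setIntegral_condExp (hG k) (int_min hD.1) hS]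
    have e : v * μ.real {ω | |W k ω| ≤ 2 * b} = ∫ _ω in {ω | |W k ω| ≤ 2 * b}, v ∂μ := by
      rw [setIntegral_const, smul_eq_mul, mul_comm]
    rw [e]
    apply setIntegral_mono_on_ae (integrable_const v).integrableOn
      integrable_condExp.integrableOn hS'
    filter_upwards [h1 k hk] with ω hω hmem using hω hmem
  · have hD : Integrable (fun ω => W (k + 1) ω - W k ω) μ := (hW (k + 1) hk).sub (hW k hk.le)
    have hf : StronglyMeasurable[G k] (fun ω => tf' b (W k ω)) :=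
      (tf'_cont hb).comp_stronglyMeasurable (hm k hk)
    have hint : Integrable (fun ω => tf' b (W k ω) * (W (k + 1) ω - W k ω)) μ :=
      int_tf' hb (hW k hk.le) hD
    have e : ∫ ω, tf' b (W k ω) * (W (k + 1) ω - W k ω) ∂μ =
        ∫ ω, tf' b (W k ω) * (μ[fun ω => W (k + 1) ω - W k ω | G k]) ω ∂μ := by
      rw [← integral_condExp (hG k)]
      apply integral_congr_ae
      exact condExp_mul_of_stronglyMeasurable_left hf hint hD
    rw [e]
    have hint2 : Integrable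
        (fun ω => tf' b (W k ω) * (μ[fun ω => W (k + 1) ω - W k ω | G k]) ω) μ :=
      int_tf' hb (hW k hk.le) integrable_condExp
    calc -c₀ = ∫ _ω, -c₀ ∂μ := by simp
      _ ≤ _ := by
        apply integral_mono_ae (integrable_const _) hint2
        filter_upwards [h2 k hk] with ω hω
        have h3 := abs_tf'_le hb (W k ω)
        have h4 : |tf' b (W k ω) * (μ[fun ω => W (k + 1) ω - W k ω | G k]) ω| ≤ c₀ := by
          rw [abs_mul]
          calc _ ≤ 1 * c₀ := mul_le_mul h3 hω (abs_nonneg _) zero_le_one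
            _ = c₀ := one_mul _
        exact (abs_le.1 h4).1

end Crest.Agent.R154.Occ31
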