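import Mathlib

/-! R154, block d = 2 (helper815): occupation lemma (786 #30495 (3)), abstract form. -/

set_option autoImplicit false

namespace Crest.Agent.R154.Occ815

open MeasureTheory Finset

/-- test function `√(w² + a²)` -/
noncomputable def ft (a w : ℝ) : ℝ := √(w ^ 2 + a ^ 2)

/-- derivative of the test function -/
noncomputable def gt (a w : ℝ) : ℝ := w / √(w ^ 2 + a ^ 2)

theorem ft_pos {a : ℝ} (ha : 0 < a) (w : ℝ) : 0 < ft a w := Real.sqrt_pos.2 (by positivity)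

theorem ft_sq {a : ℝ} (w : ℝ) : ft a w ^ 2 = w ^ 2 + a ^ 2 := Real.sq_sqrt (by positivity)

theorem ft_le {a : ℝ} (ha : 0 ≤ a) (w : ℝ) : ft a w ≤ |w| + a := by
  unfold ft
  rw [Real.sqrt_le_left (by positivity)]
  nlinarith [abs_nonneg w, sq_abs w, mul_nonneg (abs_nonneg w) ha]

theorem abs_le_ft (a w : ℝ) : |w| ≤ ft a w := by
  unfold ft
  apply Real.le_sqrt_of_sq_le
  rw [sq_abs]
  nlinarith [sq_nonneg a]

theorem abs_gt_le {a : ℝ} (ha : 0 < a) (w : ℝ) : |gt a w| ≤ 1 := by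
  have h := abs_le_ft a w
  have hp := ft_pos ha w
  unfold gt
  rw [abs_div, abs_of_pos (show 0 < √(w ^ 2 + a ^ 2) from hp)]
  exact (div_le_one hp).2 h

/-- exact remainder: `f(w+d) - f(w) - f'(w) d = ((w+d)·.. )` lower bound -/
theorem rem_nonneg {a : ℝ} (ha : 0 < a) (w d : ℝ) : 0 ≤ ft a (w + d) - ft a w - gt a w * d := by
  have hp := ft_pos ha w
  have hp2 := ft_pos ha (w + d)
  have h1 := ft_sq (a := a) w
  have h2 := ft_sq (a := a) (w + d)
  -- f(w+d) f(w) ≥ (w+d) w + a²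
  have h3 : (w + d) * w + a ^ 2 ≤ ft a (w + d) * ft a w := by
    apply le_of_sq_le_sq _ (by positivity)
    rw [mul_pow, h1, h2]
    nlinarith [sq_nonneg (a * d)]
  have e : gt a w = w / ft a w := rfl
  rw [e]
  have h4 : ft a (w + d) - ft a w - w / ft a w * d =
      (ft a (w + d) * ft a w - ft a w ^ 2 - w * d) / ft a w := by
    field_simp
  rw [h4]
  apply div_nonneg _ hp.le
  rw [h1]
  nlinarith

theorem rem_ge {a : ℝ} (ha : 0 < a) {w d : ℝ} (hw : |w| ≤ a) (hd : |d| ≤ a) :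
    d ^ 2 / (24 * a) ≤ ft a (w + d) - ft a w - gt a w * d := by
  have hp := ft_pos ha w
  have hp2 := ft_pos ha (w + d)
  have h1 := ft_sq (a := a) w
  have h2 := ft_sq (a := a) (w + d)
  have hw2 : w ^ 2 ≤ a ^ 2 := by rw [← sq_abs w]; exact pow_le_pow_left₀ (abs_nonneg _) hw 2
  have hwd : |w + d| ≤ 2 * a := (abs_add_le w d).trans (by linarith)
  have hwd2 : (w + d) ^ 2 ≤ 4 * a ^ 2 := by
    rw [← sq_abs (w + d)]
    calc |w + d| ^ 2 ≤ (2 * a) ^ 2 := pow_le_pow_left₀ (abs_nonneg _) hwd 2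
      _ = 4 * a ^ 2 := by ring
  -- upper bounds for f
  have hf1 : ft a w ≤ (3 / 2) * a := by
    apply le_of_sq_le_sq _ (by positivity)
    rw [h1]; nlinarith
  have hf2 : ft a (w + d) ≤ (9 / 4) * a := by
    apply le_of_sq_le_sq _ (by positivity)
    rw [h2]; nlinarith
  -- F := f(w+d) f(w), G := (w+d) w + a²: F² - G² = a² d²
  set F := ft a (w + d) * ft a w with hF
  set G := (w + d) * w + a ^ 2 with hG
  have hF0 : 0 < F := by positivity
  have hFG2 : F ^ 2 - G ^ 2 = a ^ 2 * d ^ 2 := by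
    rw [hF, mul_pow, h1, h2, hG]; ring
  have hFle : F ≤ (27 / 8) * a ^ 2 := by
    calc F ≤ (9 / 4 * a) * (3 / 2 * a) := mul_le_mul hf2 hf1 hp.le (by positivity)
      _ = (27 / 8) * a ^ 2 := by ring
  have hGF : G ≤ F := by
    apply le_of_sq_le_sq _ hF0.le
    nlinarith [sq_nonneg (a * d)]
  -- F - G ≥ a² d² / (2F) ≥ 4 d²/27
  have h5 : a ^ 2 * d ^ 2 ≤ (F - G) * (27 / 4 * a ^ 2) := by
    have h6 : F ^ 2 - G ^ 2 = (F - G) * (F + G) := by ring
    rw [← hFG2, h6]
    exact mul_le_mul_of_nonneg_left (by linarith) (by linarith)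
  have h7 : (4 / 27) * d ^ 2 ≤ F - G := by
    have : 0 < a ^ 2 := by positivity
    by_contra hc
    push Not at hc
    nlinarith [mul_lt_mul_of_pos_right hc (by positivity : (0 : ℝ) < 27 / 4 * a ^ 2)]
  have h4 : ft a (w + d) - ft a w - gt a w * d = (F - G) / ft a w := by
    have e : gt a w = w / ft a w := rfl
    rw [e, hF, hG]
    field_simp
    linear_combination -h1
  rw [h4, div_le_div_iff₀ (by positivity) hp]
  nlinarith [mul_le_mul_of_nonneg_left hf1 (sq_nonneg d), mul_le_mul_of_nonneg_right h7 ha.le]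

variable {Ω : Type*} [MeasurableSpace Ω] {P : Measure Ω} [IsProbabilityMeasure P]

/-- one step -/
theorem step {a : ℝ} (ha : 0 < a) {W W' : Ω → ℝ} (hWm : Measurable W) (hW'm : Measurable W')
    (hW : Integrable W P) (hW' : Integrable W' P) {B c : ℝ}
    (hB : ∫ ω, gt a (W ω) * (W' ω - W ω) ∂P ≥ -B)
    (hc : c * (P {ω | |W ω| ≤ a}).toReal ≤
      ∫ ω in {ω | |W ω| ≤ a ∧ |W' ω - W ω| ≤ a}, (W' ω - W ω) ^ 2 ∂P) :
    c / (24 * a) * (P {ω | |W ω| ≤ a}).toReal - B ≤
      (∫ ω, ft a (W' ω) ∂P) - ∫ ω, ft a (W ω) ∂P := by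
  set S : Set Ω := {ω | |W ω| ≤ a ∧ |W' ω - W ω| ≤ a} with hS
  have hSm : MeasurableSet S := by
    apply MeasurableSet.inter
    · exact measurableSet_le hWm.abs measurable_const
    · exact measurableSet_le (hW'm.sub hWm).abs measurable_const
  have hfm : Measurable (ft a) := by unfold ft; fun_prop
  have hgm : Measurable (gt a) := by unfold gt; fun_prop
  have hfi : Integrable (fun ω => ft a (W ω)) P := by
    refine Integrable.mono' (hW.abs.add (integrable_const a)) (hfm.comp hWm).aestronglyMeasurable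
      (Filter.Eventually.of_forall fun ω => ?_)
    rw [Real.norm_eq_abs, abs_of_pos (ft_pos ha _)]
    exact ft_le ha.le _
  have hfi' : Integrable (fun ω => ft a (W' ω)) P := by
    refine Integrable.mono' (hW'.abs.add (integrable_const a)) (hfm.comp hW'm).aestronglyMeasurable
      (Filter.Eventually.of_forall fun ω => ?_)
    rw [Real.norm_eq_abs, abs_of_pos (ft_pos ha _)]
    exact ft_le ha.le _
  have hgi : Integrable (fun ω => gt a (W ω) * (W' ω - W ω)) P := by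
    refine Integrable.mono' (hW'.sub hW).abs
      ((hgm.comp hWm).mul (hW'm.sub hWm)).aestronglyMeasurable
      (Filter.Eventually.of_forall fun ω => ?_)
    rw [Real.norm_eq_abs, abs_mul]
    calc |gt a (W ω)| * |W' ω - W ω| ≤ 1 * |W' ω - W ω| :=
          mul_le_mul_of_nonneg_right (abs_gt_le ha _) (abs_nonneg _)
      _ = |(W' - W) ω| := by rw [one_mul]; rfl
  have hle : ∀ ω, S.indicator (fun ω => (W' ω - W ω) ^ 2 / (24 * a)) ω ≤
      ft a (W' ω) - ft a (W ω) - gt a (W ω) * (W' ω - W ω) := by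
    intro ω
    by_cases h : ω ∈ S
    · rw [Set.indicator_of_mem h]
      have := rem_ge ha h.1 h.2
      rwa [add_sub_cancel] at this
    · rw [Set.indicator_of_notMem h]
      have := rem_nonneg ha (W ω) (W' ω - W ω)
      rwa [add_sub_cancel] at this
  have hint : ∫ ω in S, (W' ω - W ω) ^ 2 / (24 * a) ∂P ≤
      (∫ ω, ft a (W' ω) ∂P) - (∫ ω, ft a (W ω) ∂P) - ∫ ω, gt a (W ω) * (W' ω - W ω) ∂P := by
    have e1 : (∫ ω, ft a (W' ω) ∂P) - (∫ ω, ft a (W ω) ∂P) =
        ∫ ω, (ft a (W' ω) - ft a (W ω)) ∂P := (integral_sub hfi' hfi).symm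
    have e2 : (∫ ω, (ft a (W' ω) - ft a (W ω)) ∂P) - ∫ ω, gt a (W ω) * (W' ω - W ω) ∂P =
        ∫ ω, (ft a (W' ω) - ft a (W ω) - gt a (W ω) * (W' ω - W ω)) ∂P :=
      (integral_sub (f := fun ω => ft a (W' ω) - ft a (W ω)) (hfi'.sub hfi) hgi).symm
    rw [← integral_indicator hSm, e1, e2]
    refine integral_mono_of_nonneg (Filter.Eventually.of_forall fun ω => ?_)
      ((hfi'.sub hfi).sub hgi) (Filter.Eventually.of_forall fun ω => hle ω)
    exact Set.indicator_nonneg (fun ω _ => by positivity) ω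
  rw [integral_div] at hint
  have h2 : c / (24 * a) * (P {ω | |W ω| ≤ a}).toReal ≤
      (∫ ω in S, (W' ω - W ω) ^ 2 ∂P) / (24 * a) := by
    rw [div_mul_eq_mul_div]
    exact div_le_div_of_nonneg_right hc (by positivity)
  linarith

/-- **OCC**: occupation of `[-a, a]` by a real process with small drift and conditional second
moment bounded below near `0`. -/
theorem occ {a c B : ℝ} (ha : 0 < a) (hc : 0 < c) (n : ℕ) (W : ℕ → Ω → ℝ)
    (hWm : ∀ k ≤ n, Measurable (W k)) (hW : ∀ k ≤ n, Integrable (W k) P)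
    (hB : ∀ k < n, -B ≤ ∫ ω, gt a (W k ω) * (W (k + 1) ω - W k ω) ∂P)
    (h2 : ∀ k < n, c * (P {ω | |W k ω| ≤ a}).toReal ≤
      ∫ ω in {ω | |W k ω| ≤ a ∧ |W (k + 1) ω - W k ω| ≤ a}, (W (k + 1) ω - W k ω) ^ 2 ∂P) :
    ∑ k ∈ range n, (P {ω | |W k ω| ≤ a}).toReal ≤
      24 * a / c * (a + ∫ ω, |W n ω| ∂P + n * B) := by
  have hs : ∀ k ∈ range n, c / (24 * a) * (P {ω | |W k ω| ≤ a}).toReal - B ≤
      (∫ ω, ft a (W (k + 1) ω) ∂P) - ∫ ω, ft a (W k ω) ∂P := by
    intro k hk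
    rw [mem_range] at hk
    exact step ha (hWm k hk.le) (hWm (k + 1) hk) (hW k hk.le) (hW (k + 1) hk) (hB k hk) (h2 k hk)
  have h := sum_le_sum hs
  rw [sum_range_sub (fun k => ∫ ω, ft a (W k ω) ∂P), sum_sub_distrib, ← mul_sum, sum_const,
    card_range, nsmul_eq_mul] at h
  have h0 : 0 ≤ ∫ ω, ft a (W 0 ω) ∂P := integral_nonneg fun ω => (ft_pos ha _).le
  have hn : ∫ ω, ft a (W n ω) ∂P ≤ (∫ ω, |W n ω| ∂P) + a := by
    have e : (∫ ω, |W n ω| ∂P) + a = ∫ ω, (|W n ω| + a) ∂P := by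
      rw [integral_add (hW n le_rfl).abs (integrable_const a)]
      simp
    rw [e]
    refine integral_mono_of_nonneg (Filter.Eventually.of_forall fun ω => (ft_pos ha _).le)
      ((hW n le_rfl).abs.add (integrable_const a))
      (Filter.Eventually.of_forall fun ω => ft_le ha.le _)
  have hca : 0 < c / (24 * a) := by positivity
  have h3 : c / (24 * a) * ∑ k ∈ range n, (P {ω | |W k ω| ≤ a}).toReal ≤
      a + ∫ ω, |W n ω| ∂P + n * B := by linarith
  calc ∑ k ∈ range n, (P {ω | |W k ω| ≤ a}).toReal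
      = 24 * a / c * (c / (24 * a) * ∑ k ∈ range n, (P {ω | |W k ω| ≤ a}).toReal) := by
        field_simp
    _ ≤ 24 * a / c * (a + ∫ ω, |W n ω| ∂P + n * B) :=
        mul_le_mul_of_nonneg_left h3 (by positivity)

end Crest.Agent.R154.Occ815
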