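import Crest.Agent.R154.FP_178
import Crest.Agent.R154.Dens_280
import Crest.Agent.R154.AsmA_789

/-! Row 154, ROAD 801 (helper763): the one-window estimate, abstract part (lists of blocks). -/

set_option autoImplicit false

namespace Crest.Agent.R154.OW763

open scoped ENNReal
open Crest.Agent.R154.B5A Crest.Agent.R154.FP178

section single

variable {B V : Type*} [AddCommGroup V] (Λ : B → ℝ≥0∞) (ht : B → ℕ) (dz : B → V)

/-- displacement of a list -/
def Dz (L : List B) : V := (L.map dz).sum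

lemma Dz_append (L L' : List B) : Dz dz (L ++ L') = Dz dz L + Dz dz L' := by simp [Dz]

lemma Dz_nil : Dz dz ([] : List B) = 0 := by simp [Dz]

/-- overshoot bound -/
noncomputable def ov (i : ℕ) : ℝ≥0∞ := ∑' k, tail Λ ht (i + k)

open Classical in
/-- law of the first passage of `a`: overshoot `i`, displacement `z` -/
noncomputable def pL (a i : ℕ) (z : V) : ℝ≥0∞ :=
  ∑' L, if fp ht a L ∧ HT ht L = a + i ∧ Dz dz L = z then LW Λ L else 0

open Classical in
/-- weight of the first passages with overshoot `≤ i0` -/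
noncomputable def wt (a i0 : ℕ) (L : List B) : ℝ≥0∞ :=
  if fp ht a L ∧ HT ht L ≤ a + i0 then LW Λ L else 0

open Classical in
lemma sum_fp_one (h1 : ∀ b, 1 ≤ ht b) (hΛ : ∑' b, Λ b = 1) (a : ℕ) :
    ∑' L, (if fp ht a L then LW Λ L else 0) = 1 := by
  induction a using Nat.strong_induction_on with
  | _ a ih =>
    rcases Nat.eq_zero_or_pos a with rfl | ha
    · have := sum_fp_zero Λ ht (fun _ => 1)
      simp only [mul_one] at this
      exact this
    · have := sum_fp_step Λ ht a ha (fun _ => 1)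
      simp only [mul_one] at this
      rw [this]
      calc ∑' b, Λ b * ∑' L, (if fp ht (a - ht b) L then LW Λ L else 0)
          = ∑' b, Λ b * 1 := by
            refine tsum_congr fun b => ?_
            rw [ih (a - ht b) (by have := h1 b; omega)]
        _ = 1 := by simpa using hΛ

open Classical in
/-- pushing a sum over first passages to (overshoot, displacement) -/
lemma push (a : ℕ) (F : ℕ → V → ℝ≥0∞) :
    ∑' L, (if fp ht a L then LW Λ L * F (HT ht L - a) (Dz dz L) else 0)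
      = ∑' i, ∑' z, pL Λ ht dz a i z * F i z := by
  have e1 : ∑' i, ∑' z, pL Λ ht dz a i z * F i z
      = ∑' L, ∑' i, ∑' z, (if fp ht a L ∧ HT ht L = a + i ∧ Dz dz L = z then LW Λ L else 0)
          * F i z := by
    unfold pL
    simp_rw [← ENNReal.tsum_mul_right]
    calc _ = ∑' i, ∑' L, ∑' z, (if fp ht a L ∧ HT ht L = a + i ∧ Dz dz L = z then LW Λ L else 0)
          * F i z := tsum_congr fun i => ENNReal.tsum_comm
      _ = _ := ENNReal.tsum_comm
  rw [e1]
  refine tsum_congr fun L => ?_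
  by_cases h : fp ht a L
  · have ha := le_HT_of_fp ht h
    rw [if_pos h, tsum_eq_single (HT ht L - a), tsum_eq_single (Dz dz L), if_pos]
    · exact ⟨h, by omega, rfl⟩
    · intro z hz
      rw [if_neg (fun hh => hz hh.2.2.symm), zero_mul]
    · intro i hi
      rw [ENNReal.tsum_eq_zero]
      intro z
      rw [if_neg (fun hh => hi (by omega)), zero_mul]
  · rw [if_neg h]
    symm
    rw [ENNReal.tsum_eq_zero]
    intro i
    rw [ENNReal.tsum_eq_zero]
    intro z
    rw [if_neg (fun hh => h hh.1), zero_mul]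

lemma sum_pL (h1 : ∀ b, 1 ≤ ht b) (hΛ : ∑' b, Λ b = 1) (a : ℕ) :
    ∑' i, ∑' z, pL Λ ht dz a i z = 1 := by
  have h := push Λ ht dz a (fun _ _ => 1)
  simp only [mul_one] at h
  rw [← h]
  exact sum_fp_one Λ ht h1 hΛ a

lemma sum_pL_le (h1 : ∀ b, 1 ≤ ht b) (hΛ : ∑' b, Λ b = 1) (a i : ℕ) :
    ∑' z, pL Λ ht dz a i z ≤ 1 := by
  rw [← sum_pL Λ ht dz h1 hΛ a]
  exact ENNReal.le_tsum i

open Classical in
lemma push_wt (a i0 : ℕ) (F : ℕ → V → ℝ≥0∞) :
    ∑' L, wt Λ ht a i0 L * F (HT ht L - a) (Dz dz L)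
      = ∑' i, ∑' z, pL Λ ht dz a i z * (if i ≤ i0 then F i z else 0) := by
  rw [← push Λ ht dz a (fun i z => if i ≤ i0 then F i z else 0)]
  refine tsum_congr fun L => ?_
  unfold wt
  by_cases h : fp ht a L
  · have ha := le_HT_of_fp ht h
    by_cases h2 : HT ht L ≤ a + i0
    · rw [if_pos ⟨h, h2⟩, if_pos h, if_pos (by omega)]
    · rw [if_neg (fun hh => h2 hh.2), if_pos h, if_neg (by omega), zero_mul, mul_zero]
  · rw [if_neg (fun hh => h hh.1), if_neg h, zero_mul]

lemma wt_le (a i0 : ℕ) (L : List B) : wt Λ ht a i0 L ≤ LW Λ L := by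
  unfold wt; split_ifs
  · exact le_rfl
  · exact zero_le

lemma sum_wt (h1 : ∀ b, 1 ≤ ht b) (hΛ : ∑' b, Λ b = 1) (a i0 : ℕ) :
    ∑' L, wt Λ ht a i0 L ≤ 1 := by
  classical
  rw [← sum_fp_one Λ ht h1 hΛ a]
  refine ENNReal.tsum_le_tsum fun L => ?_
  unfold wt
  by_cases h : fp ht a L
  · rw [if_pos h]; split_ifs
    · exact le_rfl
    · exact zero_le
  · rw [if_neg (fun hh => h hh.1)]; exact zero_le

/-! ### density -/

open Classical in
theorem dens_fp (h1 : ∀ b, 1 ≤ ht b) (hΛ : ∑' b, Λ b = 1) (hU : ∀ n, U Λ ht n ≤ 1)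
    (T i0 : ℕ) (th q G : ℝ≥0∞)
    (hq : ∑' i, ∑' z', (if i ≤ i0 ∧ th < pL Λ ht dz T i z' then pL Λ ht dz T i z' else 0) ≤ q)
    (hq1 : q ≤ 1) (hG : (i0 + 1 : ℕ) * th + q * G ≤ G) (J r : ℕ) (hr : J * (T + i0) ≤ r) :
    ∃ b : ℕ → V → ℝ≥0∞, (∑' j, ∑' z, b j z ≤ q ^ J + J * ov Λ ht i0) ∧
      ∀ j z, pL Λ ht dz r j z ≤ G + b j z := by
  refine Dens280.dens (fun i z => pL Λ ht dz T i z) (fun r j z => pL Λ ht dz r j z)
    (fun r j z => ∑' A, if fp ht T A ∧ r < HT ht A ∧ HT ht A = r + j ∧ Dz dz A = z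
      then LW Λ A else 0) T i0 th q (ov Λ ht i0) G ?_ ?_ ?_ hq hq1 hG J r hr
  · -- recursion
    intro r hTr j z
    have e0 : pL Λ ht dz r j z = ∑' L, (if fp ht r L then
        LW Λ L * (if HT ht L = r + j ∧ Dz dz L = z then 1 else 0) else 0) := by
      unfold pL
      refine tsum_congr fun L => ?_
      by_cases h : fp ht r L <;> by_cases h' : HT ht L = r + j ∧ Dz dz L = z <;> simp [h, h']
    rw [e0, fp_split Λ ht h1 T r hTr]
    have e1 : (∑' i, ∑' z', if T + i ≤ r then pL Λ ht dz T i z' * pL Λ ht dz (r - T - i) j (z - z')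
        else 0) = ∑' A, (if fp ht T A then LW Λ A *
          (if T + (HT ht A - T) ≤ r then pL Λ ht dz (r - T - (HT ht A - T)) j (z - Dz dz A) else 0)
          else 0) := by
      rw [push Λ ht dz T (fun i z' => if T + i ≤ r then pL Λ ht dz (r - T - i) j (z - z') else 0)]
      refine tsum_congr fun i => tsum_congr fun z' => ?_
      split_ifs
      · rfl
      · rw [mul_zero]
    rw [e1, ← ENNReal.tsum_add]
    refine ENNReal.tsum_le_tsum fun A => ?_
    by_cases hA : fp ht T A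
    · have hT := le_HT_of_fp ht hA
      rw [if_pos hA, if_pos hA]
      by_cases hr' : HT ht A ≤ r
      · rw [if_pos (by omega), if_neg (fun hh => by omega), add_zero,
          show r - T - (HT ht A - T) = r - HT ht A by omega]
        refine mul_le_mul_right ?_ _
        unfold pL
        refine ENNReal.tsum_le_tsum fun L => ?_
        by_cases hL : fp ht (r - HT ht A) L
        · rw [if_pos hL]
          by_cases hh : HT ht (A ++ L) = r + j ∧ Dz dz (A ++ L) = z
          · rw [if_pos hh, if_pos, mul_one]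
            refine ⟨hL, ?_, ?_⟩
            · have := hh.1; rw [HT_append] at this; omega
            · have := hh.2; rw [Dz_append] at this; rw [← this]; abel
          · rw [if_neg hh, mul_zero]; exact zero_le
        · rw [if_neg hL]; exact zero_le
      · rw [if_neg (by omega), mul_zero, zero_add, show r - HT ht A = 0 by omega,
          sum_fp_zero Λ ht, List.append_nil]
        by_cases hh : HT ht A = r + j ∧ Dz dz A = z
        · rw [if_pos hh, if_pos ⟨hA, by omega, hh.1, hh.2⟩, mul_one]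
        · rw [if_neg hh, mul_zero]; exact zero_le
    · rw [if_neg hA]; exact zero_le
  · intro r
    exact (sum_pL Λ ht dz h1 hΛ r).le
  · -- error
    intro r hr
    have e1 : (∑' i, ∑' z', (if i0 < i ∧ T + i ≤ r then pL Λ ht dz T i z' else 0))
        = ∑' A, (if fp ht T A then LW Λ A *
          (if i0 < HT ht A - T ∧ T + (HT ht A - T) ≤ r then 1 else 0) else 0) := by
      rw [push Λ ht dz T (fun i z' => if i0 < i ∧ T + i ≤ r then 1 else 0)]
      refine tsum_congr fun i => tsum_congr fun z' => ?_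
      split_ifs
      · rw [mul_one]
      · rw [mul_zero]
    have e2 : (∑' j, ∑' z : V, ∑' A, if fp ht T A ∧ r < HT ht A ∧ HT ht A = r + j ∧ Dz dz A = z
        then LW Λ A else 0) ≤ ∑' A, (if fp ht T A ∧ r < HT ht A then LW Λ A else 0) := by
      calc _ = ∑' A, ∑' j, ∑' z : V, (if fp ht T A ∧ r < HT ht A ∧ HT ht A = r + j ∧ Dz dz A = z
            then LW Λ A else 0) := by
            calc _ = ∑' j, ∑' A, ∑' z : V, (if fp ht T A ∧ r < HT ht A ∧ HT ht A = r + j ∧
                  Dz dz A = z then LW Λ A else 0) := tsum_congr fun j => ENNReal.tsum_comm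
              _ = _ := ENNReal.tsum_comm
        _ ≤ _ := by
            refine ENNReal.tsum_le_tsum fun A => ?_
            by_cases h : fp ht T A ∧ r < HT ht A
            · rw [if_pos h, tsum_eq_single (HT ht A - r), tsum_eq_single (Dz dz A)]
              · split_ifs
                · exact le_rfl
                · exact zero_le
              · intro z hz
                rw [if_neg (fun hh => hz hh.2.2.2.symm)]
              · intro j hj
                rw [ENNReal.tsum_eq_zero]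
                intro z
                rw [if_neg (fun hh => hj (by omega))]
            · have : ∀ j (z : V), (if fp ht T A ∧ r < HT ht A ∧ HT ht A = r + j ∧ Dz dz A = z
                  then LW Λ A else 0) = 0 := by
                intro j z
                rw [if_neg (fun hh => h ⟨hh.1, hh.2.1⟩)]
              simp only [this, tsum_zero]
              exact zero_le
    refine le_trans (add_le_add e1.le e2) ?_
    rw [← ENNReal.tsum_add]
    refine le_trans ?_ (overshoot Λ ht h1 hU i0 T)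
    refine ENNReal.tsum_le_tsum fun A => ?_
    by_cases hA : fp ht T A
    · have hT := le_HT_of_fp ht hA
      rw [if_pos hA]
      by_cases hr' : HT ht A ≤ r
      · have hz : ¬ (fp ht T A ∧ r < HT ht A) := fun hh => by omega
        rw [if_neg hz, add_zero]
        by_cases h3 : i0 < HT ht A - T ∧ T + (HT ht A - T) ≤ r
        · rw [if_pos h3, mul_one, if_pos ⟨hA, by omega⟩]
        · rw [if_neg h3, mul_zero]; exact zero_le
      · have hz : ¬ (i0 < HT ht A - T ∧ T + (HT ht A - T) ≤ r) := fun hh => by omega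
        have hy : fp ht T A ∧ r < HT ht A := ⟨hA, by omega⟩
        have hx : fp ht T A ∧ T + i0 < HT ht A := ⟨hA, by omega⟩
        rw [if_neg hz, mul_zero, zero_add, if_pos hy, if_pos hx]
    · have hy : ¬ (fp ht T A ∧ r < HT ht A) := fun hh => hA hh.1
      rw [if_neg hA, if_neg hy]; simp

/-- **single walker**: local endpoints, density -/
theorem single (h1 : ∀ b, 1 ≤ ht b) (hΛ : ∑' b, Λ b = 1) (hU : ∀ n, U Λ ht n ≤ 1)
    {u : ℝ≥0∞} (hu : u ≠ 0) (hu1 : u < 1) (T i0 : ℕ) :
    ∃ (G : ℝ≥0∞) (E : ℕ → Finset V), G ≠ ⊤ ∧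
      (∑' i, ∑' z, (open Classical in if z ∈ E i then 0 else pL Λ ht dz T i z) ≤ u) ∧
      (∀ i, G * (E i).card ≤ 2 * (i0 + 1 : ℕ) / u) ∧
      ∀ J α, J * (T + i0) ≤ α → ∃ b : ℕ → V → ℝ≥0∞,
        (∑' j, ∑' z, b j z ≤ (1 - u) ^ J + J * ov Λ ht i0) ∧
        ∀ j z, pL Λ ht dz α j z ≤ G + b j z := by
  classical
  have hsum : ∑' x : ℕ × V, pL Λ ht dz T x.1 x.2 = 1 := by
    rw [ENNReal.tsum_prod' ]
    exact sum_pL Λ ht dz h1 hΛ T
  obtain ⟨θ, hθ, hθ1, hq1, hq2⟩ := AsmA789.quant (fun x : ℕ × V => pL Λ ht dz T x.1 x.2) hsum hu hu1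
  have hut : u ≠ ⊤ := (hu1.trans ENNReal.one_lt_top).ne
  have hfin : ∀ i, {z | θ ≤ pL Λ ht dz T i z}.Finite ∧
      ({z | θ ≤ pL Λ ht dz T i z}.ncard : ℝ≥0∞) * θ ≤ 1 := fun i =>
    AsmA789.card_le (fun z => pL Λ ht dz T i z) (sum_pL_le Λ ht dz h1 hΛ T i) hθ
  have hθt : θ ≠ ⊤ := (hθ1.trans_lt ENNReal.one_lt_top).ne
  refine ⟨(i0 + 1 : ℕ) * (2 * θ) / u, fun i => (hfin i).1.toFinset, ?_, ?_, ?_, ?_⟩
  · refine ENNReal.div_ne_top (ENNReal.mul_ne_top (ENNReal.natCast_ne_top _)
      (ENNReal.mul_ne_top (by norm_num) hθt)) hu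
  · rw [← ENNReal.tsum_prod' (f := fun x : ℕ × V => if x.2 ∈ (hfin x.1).1.toFinset then 0 else
      pL Λ ht dz T x.1 x.2)] 
    refine le_trans (ENNReal.tsum_le_tsum fun x => ?_) hq1
    by_cases h : pL Λ ht dz T x.1 x.2 < θ
    · rw [if_pos h]; split_ifs
      · exact zero_le
      · exact le_rfl
    · rw [if_pos]
      · exact zero_le
      · rw [Set.Finite.mem_toFinset]; exact not_lt.1 h
  · intro i
    have h2 := (hfin i).2
    rw [Set.ncard_eq_toFinset_card _ (hfin i).1] at h2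
    rw [ENNReal.div_eq_inv_mul, ENNReal.div_eq_inv_mul]
    calc u⁻¹ * ((i0 + 1 : ℕ) * (2 * θ)) * ((hfin i).1.toFinset.card : ℝ≥0∞)
        = u⁻¹ * (2 * (i0 + 1 : ℕ)) * (((hfin i).1.toFinset.card : ℝ≥0∞) * θ) := by ring
      _ ≤ u⁻¹ * (2 * (i0 + 1 : ℕ)) * 1 := mul_le_mul_right h2 _
      _ = _ := by rw [mul_one]
  · intro J α hJ
    refine dens_fp Λ ht dz h1 hΛ hU T i0 (2 * θ) (1 - u) _ ?_ tsub_le_self ?_ J α hJ
    · refine ENNReal.le_sub_of_add_le_left hut ?_
      have e : ∑' i, ∑' z', (if i ≤ i0 ∧ 2 * θ < pL Λ ht dz T i z' then pL Λ ht dz T i z' else 0)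
          = ∑' x : ℕ × V, (if x.1 ≤ i0 ∧ 2 * θ < pL Λ ht dz T x.1 x.2 then
            pL Λ ht dz T x.1 x.2 else 0) := by
        rw [ENNReal.tsum_prod']
      rw [e]
      calc u + ∑' x : ℕ × V, (if x.1 ≤ i0 ∧ 2 * θ < pL Λ ht dz T x.1 x.2 then
            pL Λ ht dz T x.1 x.2 else 0)
          ≤ (∑' x : ℕ × V, (if pL Λ ht dz T x.1 x.2 < 2 * θ then pL Λ ht dz T x.1 x.2 else 0))
            + ∑' x : ℕ × V, (if x.1 ≤ i0 ∧ 2 * θ < pL Λ ht dz T x.1 x.2 then
              pL Λ ht dz T x.1 x.2 else 0) := add_le_add hq2 le_rfl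
        _ = ∑' x : ℕ × V, ((if pL Λ ht dz T x.1 x.2 < 2 * θ then pL Λ ht dz T x.1 x.2 else 0)
            + (if x.1 ≤ i0 ∧ 2 * θ < pL Λ ht dz T x.1 x.2 then
              pL Λ ht dz T x.1 x.2 else 0)) := ENNReal.tsum_add.symm
        _ ≤ ∑' x : ℕ × V, pL Λ ht dz T x.1 x.2 := by
            refine ENNReal.tsum_le_tsum fun x => ?_
            by_cases h : pL Λ ht dz T x.1 x.2 < 2 * θ
            · rw [if_pos h, if_neg (fun hh => absurd hh.2 (not_lt.2 h.le)), add_zero]
            · rw [if_neg h, zero_add]; split_ifs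
              · exact le_rfl
              · exact zero_le
        _ = 1 := hsum
    · have h3 : ((i0 + 1 : ℕ) : ℝ≥0∞) * (2 * θ) = u * ((i0 + 1 : ℕ) * (2 * θ) / u) := by
        rw [ENNReal.mul_div_cancel hu hut]
      calc ((i0 + 1 : ℕ) : ℝ≥0∞) * (2 * θ) + (1 - u) * ((i0 + 1 : ℕ) * (2 * θ) / u)
          = u * ((i0 + 1 : ℕ) * (2 * θ) / u) + (1 - u) * ((i0 + 1 : ℕ) * (2 * θ) / u) := by
            rw [← h3]
        _ = (u + (1 - u)) * ((i0 + 1 : ℕ) * (2 * θ) / u) := by rw [add_mul]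
        _ = (i0 + 1 : ℕ) * (2 * θ) / u := by rw [add_tsub_cancel_of_le hu1.le, one_mul]
        _ ≤ _ := le_rfl

end single

end Crest.Agent.R154.OW763
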