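import Crest.Agent.R154.OneWinA_763

/-! Row 154, ROAD 801 (helper763): the one-window estimate, abstract part II (two walkers). -/

set_option autoImplicit false

namespace Crest.Agent.R154.OW763

open scoped ENNReal
open Crest.Agent.R154.B5A Crest.Agent.R154.FP178

section cut

variable {B : Type*} (Λ : B → ℝ≥0∞) (ht : B → ℕ)

open Classical in
lemma cut1 (h1 : ∀ b, 1 ≤ ht b) (hU : ∀ n, U Λ ht n ≤ 1) (n α i0 : ℕ) (hn : α ≤ n)
    (Φ : List B → ℝ≥0∞) (hΦ : ∀ L, Φ L ≤ 1) (ψ : List B → ℝ≥0∞)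
    (hψ : ∀ A, fp ht α A → HT ht A ≤ α + i0 →
      ∑' L, (if HT ht A + HT ht L = n then LW Λ L * Φ (A ++ L) else 0) ≤ ψ A) :
    ∑' L, (if HT ht L = n then LW Λ L * Φ L else 0)
      ≤ ov Λ ht i0 + ∑' A, wt Λ ht α i0 A * ψ A := by
  have e1 : ∑' L, (if HT ht L = n then LW Λ L * Φ L else 0)
      = ∑' L, (if α ≤ HT ht L then LW Λ L * (if HT ht L = n then Φ L else 0) else 0) := by
    refine tsum_congr fun L => ?_
    by_cases h : HT ht L = n
    · rw [if_pos h, if_pos (by omega), if_pos h]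
    · rw [if_neg h]
      split_ifs
      · rw [mul_zero]
      · rfl
  rw [e1, split Λ ht h1 α]
  refine le_trans ?_ (add_le_add_left (overshoot Λ ht h1 hU i0 α) _)
  rw [← ENNReal.tsum_add]
  refine ENNReal.tsum_le_tsum fun A => ?_
  by_cases hA : fp ht α A
  · rw [if_pos hA]
    by_cases h2 : HT ht A ≤ α + i0
    · have hz : ¬ (fp ht α A ∧ α + i0 < HT ht A) := fun hh => by omega
      rw [if_neg hz, zero_add]
      unfold wt
      rw [if_pos ⟨hA, h2⟩]
      refine mul_le_mul_right ?_ _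
      refine le_trans (le_of_eq ?_) (hψ A hA h2)
      refine tsum_congr fun L => ?_
      rw [HT_append]
      split_ifs
      · rfl
      · rw [mul_zero]
    · have hz : fp ht α A ∧ α + i0 < HT ht A := ⟨hA, by omega⟩
      rw [if_pos hz]
      refine le_trans ?_ le_self_add
      calc LW Λ A * ∑' L2, LW Λ L2 * (if HT ht (A ++ L2) = n then Φ (A ++ L2) else 0)
          ≤ LW Λ A * 1 := by
            refine mul_le_mul_right ?_ _
            refine le_trans (ENNReal.tsum_le_tsum fun L2 => ?_) (hU (n - HT ht A))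
            by_cases h3 : HT ht (A ++ L2) = n
            · have h4 : HT ht L2 = n - HT ht A := by rw [HT_append] at h3; omega
              rw [if_pos h3, if_pos h4]
              calc LW Λ L2 * Φ (A ++ L2) ≤ LW Λ L2 * 1 := mul_le_mul_right (hΦ _) _
                _ = LW Λ L2 := mul_one _
            · rw [if_neg h3, mul_zero]; exact zero_le
        _ = LW Λ A := mul_one _
  · rw [if_neg hA]; exact zero_le

open Classical in
/-- two cuts -/
lemma cut2 (h1 : ∀ b, 1 ≤ ht b) (hΛ : ∑' b, Λ b = 1) (hU : ∀ n, U Λ ht n ≤ 1) (n α T i0 : ℕ)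
    (hn : α + i0 + T ≤ n) (Φ : List B → ℝ≥0∞) (hΦ : ∀ L, Φ L ≤ 1) (φ : List B → List B → ℝ≥0∞)
    (hφ : ∀ A P R, fp ht α A → HT ht A ≤ α + i0 → fp ht T P → HT ht P ≤ T + i0 →
      HT ht (A ++ (P ++ R)) = n → Φ (A ++ (P ++ R)) ≤ φ A P) :
    ∑' L, (if HT ht L = n then LW Λ L * Φ L else 0)
      ≤ 2 * ov Λ ht i0 + ∑' A, wt Λ ht α i0 A * ∑' P, wt Λ ht T i0 P * φ A P := by
  have h := cut1 Λ ht h1 hU n α i0 (by omega) Φ hΦ
    (fun A => ov Λ ht i0 + ∑' P, wt Λ ht T i0 P * φ A P) ?_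
  · refine h.trans ?_
    simp_rw [mul_add, ENNReal.tsum_add]
    rw [two_mul, add_assoc]
    refine add_le_add le_rfl (add_le_add ?_ le_rfl)
    rw [ENNReal.tsum_mul_right]
    calc (∑' A, wt Λ ht α i0 A) * ov Λ ht i0 ≤ 1 * ov Λ ht i0 :=
          mul_le_mul_left (sum_wt Λ ht h1 hΛ α i0) _
      _ = _ := one_mul _
  · intro A hA hA2
    have h3 := cut1 Λ ht h1 hU (n - HT ht A) T i0 (by omega) (fun L => Φ (A ++ L))
      (fun L => hΦ _) (fun P => φ A P) ?_
    · refine le_trans (le_of_eq ?_) h3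
      refine tsum_congr fun L => ?_
      by_cases h4 : HT ht A + HT ht L = n
      · rw [if_pos h4, if_pos (by omega)]
      · rw [if_neg h4, if_neg (by omega)]
    · intro P hP hP2
      refine le_trans (ENNReal.tsum_le_tsum (g := fun R =>
        (if HT ht R = n - HT ht A - HT ht P then LW Λ R else 0) * φ A P) fun R => ?_) ?_
      · by_cases h5 : HT ht P + HT ht R = n - HT ht A
        · rw [if_pos h5, if_pos (by omega)]
          refine mul_le_mul_right (hφ A P R hA hA2 hP hP2 ?_) _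
          rw [HT_append, HT_append]; omega
        · rw [if_neg h5]; exact zero_le
      · rw [ENNReal.tsum_mul_right]
        calc (∑' R, if HT ht R = n - HT ht A - HT ht P then LW Λ R else 0) * φ A P
            ≤ 1 * φ A P := mul_le_mul_left (hU _) _
          _ = _ := one_mul _

end cut

section dterm

variable {B V : Type*} [AddCommGroup V] (Λ : B → ℝ≥0∞) (ht : B → ℕ) (dz : B → V)

/-- **density term** -/
lemma dterm (h1 : ∀ b, 1 ≤ ht b) (hΛ : ∑' b, Λ b = 1) (α i0 : ℕ) (G bad β : ℝ≥0∞)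
    (b : ℕ → V → ℝ≥0∞) (hb : ∑' j, ∑' z, b j z ≤ bad)
    (hpb : ∀ j z, pL Λ ht dz α j z ≤ G + b j z)
    (K : ℕ → V → ℝ≥0∞) (hK : ∀ j z, K j z ≤ 1)
    (hβ : ∀ j, j ≤ i0 → ∀ g : V → ℝ≥0∞, (∀ z, g z ≤ G) → (∑' z, g z ≤ 1) →
      (∀ z, g z ≠ 0 → pL Λ ht dz α j z ≠ 0) → ∑' z, g z * K j z ≤ β) :
    ∑' A, wt Λ ht α i0 A * K (HT ht A - α) (Dz dz A) ≤ (i0 + 1 : ℕ) * β + bad := by
  classical
  rw [push_wt]
  have hsplit : ∀ j z, pL Λ ht dz α j z * (if j ≤ i0 then K j z else 0)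
      ≤ (if j ≤ i0 then min (pL Λ ht dz α j z) G * K j z else 0) + b j z := by
    intro j z
    by_cases hj : j ≤ i0
    · rw [if_pos hj, if_pos hj]
      have h2 : pL Λ ht dz α j z ≤ min (pL Λ ht dz α j z) G + b j z := by
        rcases le_total (pL Λ ht dz α j z) G with h | h
        · rw [min_eq_left h]; exact le_self_add
        · rw [min_eq_right h]; exact hpb j z
      calc pL Λ ht dz α j z * K j z ≤ (min (pL Λ ht dz α j z) G + b j z) * K j z :=
            mul_le_mul_left h2 _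
        _ = min (pL Λ ht dz α j z) G * K j z + b j z * K j z := add_mul _ _ _
        _ ≤ min (pL Λ ht dz α j z) G * K j z + b j z * 1 :=
            add_le_add le_rfl (mul_le_mul_right (hK j z) _)
        _ = _ := by rw [mul_one]
    · rw [if_neg hj, mul_zero]; exact zero_le
  calc ∑' j, ∑' z, pL Λ ht dz α j z * (if j ≤ i0 then K j z else 0)
      ≤ ∑' j, ∑' z, ((if j ≤ i0 then min (pL Λ ht dz α j z) G * K j z else 0) + b j z) :=
        ENNReal.tsum_le_tsum fun j => ENNReal.tsum_le_tsum fun z => hsplit j z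
    _ = (∑' j, ∑' z, (if j ≤ i0 then min (pL Λ ht dz α j z) G * K j z else 0))
        + ∑' j, ∑' z, b j z := by
        simp_rw [ENNReal.tsum_add]
    _ ≤ (i0 + 1 : ℕ) * β + bad := by
        refine add_le_add ?_ hb
        rw [tsum_eq_sum (s := Finset.range (i0 + 1)) (fun j hj => ?_)]
        · calc ∑ j ∈ Finset.range (i0 + 1),
                ∑' z, (if j ≤ i0 then min (pL Λ ht dz α j z) G * K j z else 0)
              ≤ ∑ _j ∈ Finset.range (i0 + 1), β := by
                refine Finset.sum_le_sum fun j hj => ?_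
                have hj' : j ≤ i0 := by have := Finset.mem_range.1 hj; omega
                simp only [if_pos hj']
                refine hβ j hj' (fun z => min (pL Λ ht dz α j z) G) (fun z => min_le_right _ _)
                  ?_ ?_
                · exact (ENNReal.tsum_le_tsum fun z => min_le_left _ _).trans
                    (sum_pL_le Λ ht dz h1 hΛ α j)
                · intro z hz h0
                  apply hz
                  rw [h0]; simp
            _ = (i0 + 1 : ℕ) * β := by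
                rw [Finset.sum_const, Finset.card_range, nsmul_eq_mul]
        · rw [Finset.mem_range] at hj
          have : ¬ j ≤ i0 := by omega
          simp [this]

end dterm

/-! ### reordering -/

/-- sums against weights of mass `≤ 1` -/
lemma hle {X : Type*} (w F : X → ℝ≥0∞) (c : ℝ≥0∞) (hw : ∑' x, w x ≤ 1) (hF : ∀ x, F x ≤ c) :
    ∑' x, w x * F x ≤ c := by
  calc ∑' x, w x * F x ≤ ∑' x, w x * c := ENNReal.tsum_le_tsum fun x => mul_le_mul_right (hF x) _
    _ = (∑' x, w x) * c := ENNReal.tsum_mul_right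
    _ ≤ 1 * c := mul_le_mul_left hw _
    _ = c := one_mul c


lemma swap3 {X Y Z : Type*} (w : X → ℝ≥0∞) (v : Y → ℝ≥0∞) (x : Z → ℝ≥0∞) (F : X → Y → Z → ℝ≥0∞) :
    ∑' a, w a * ∑' b, v b * ∑' c, x c * F a b c
      = ∑' c, x c * ∑' a, w a * ∑' b, v b * F a b c := by
  calc ∑' a, w a * ∑' b, v b * ∑' c, x c * F a b c
      = ∑' a, ∑' b, ∑' c, w a * (v b * (x c * F a b c)) := by
        simp_rw [ENNReal.tsum_mul_left]
    _ = ∑' a, ∑' c, ∑' b, w a * (v b * (x c * F a b c)) :=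
        tsum_congr fun a => ENNReal.tsum_comm
    _ = ∑' c, ∑' a, ∑' b, w a * (v b * (x c * F a b c)) := ENNReal.tsum_comm
    _ = ∑' c, ∑' a, ∑' b, x c * (w a * (v b * F a b c)) := by
        refine tsum_congr fun c => tsum_congr fun a => tsum_congr fun b => ?_
        ring
    _ = _ := by simp_rw [ENNReal.tsum_mul_left]

lemma swap2 {Y Z : Type*} (v : Y → ℝ≥0∞) (x : Z → ℝ≥0∞) (F : Y → Z → ℝ≥0∞) :
    ∑' b, v b * ∑' c, x c * F b c = ∑' c, x c * ∑' b, v b * F b c := by
  calc ∑' b, v b * ∑' c, x c * F b c = ∑' b, ∑' c, v b * (x c * F b c) := by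
        simp_rw [ENNReal.tsum_mul_left]
    _ = ∑' c, ∑' b, v b * (x c * F b c) := ENNReal.tsum_comm
    _ = ∑' c, ∑' b, x c * (v b * F b c) := by
        refine tsum_congr fun c => tsum_congr fun b => ?_
        ring
    _ = _ := by simp_rw [ENNReal.tsum_mul_left]

section two

variable {B B' V : Type*} [AddCommGroup V] (Λ : B → ℝ≥0∞) (ht : B → ℕ) (dz : B → V)
  (Λ' : B' → ℝ≥0∞) (ht' : B' → ℕ) (dz' : B' → V)

open Classical in
/-- splitting the two pieces by their overshoots -/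
lemma pieces (T i0 : ℕ) (Q : List B → List B' → Prop) [∀ P P', Decidable (Q P P')] :
    ∑' P, wt Λ ht T i0 P * ∑' P', wt Λ' ht' T i0 P' * (if Q P P' then 1 else 0)
      ≤ ∑ i ∈ Finset.range (i0 + 1), ∑ i' ∈ Finset.range (i0 + 1), ∑' P, ∑' P',
        (if HT ht P = T + i ∧ HT ht' P' = T + i' ∧ Q P P' then LW Λ P * LW Λ' P' else 0) := by
  calc ∑' P, wt Λ ht T i0 P * ∑' P', wt Λ' ht' T i0 P' * (if Q P P' then 1 else 0)
      = ∑' P, ∑' P', wt Λ ht T i0 P * (wt Λ' ht' T i0 P' * (if Q P P' then 1 else 0)) := by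
        simp_rw [ENNReal.tsum_mul_left]
    _ ≤ ∑' P, ∑' P', ∑ i ∈ Finset.range (i0 + 1), ∑ i' ∈ Finset.range (i0 + 1),
        (if HT ht P = T + i ∧ HT ht' P' = T + i' ∧ Q P P' then LW Λ P * LW Λ' P' else 0) := by
        refine ENNReal.tsum_le_tsum fun P => ENNReal.tsum_le_tsum fun P' => ?_
        unfold wt
        by_cases hP : fp ht T P ∧ HT ht P ≤ T + i0
        · by_cases hP' : fp ht' T P' ∧ HT ht' P' ≤ T + i0
          · by_cases hQ : Q P P'
            · rw [if_pos hP, if_pos hP', if_pos hQ, mul_one]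
              have t1 := le_HT_of_fp ht hP.1
              have t2 := le_HT_of_fp ht' hP'.1
              have m1 : HT ht P - T ∈ Finset.range (i0 + 1) := by
                rw [Finset.mem_range]; omega
              have m2 : HT ht' P' - T ∈ Finset.range (i0 + 1) := by
                rw [Finset.mem_range]; omega
              refine le_trans ?_ (Finset.single_le_sum (f := fun i =>
                ∑ i' ∈ Finset.range (i0 + 1), (if HT ht P = T + i ∧ HT ht' P' = T + i' ∧ Q P P'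
                  then LW Λ P * LW Λ' P' else 0)) (fun _ _ => zero_le) m1)
              refine le_trans ?_ (Finset.single_le_sum (f := fun i' =>
                (if HT ht P = T + (HT ht P - T) ∧ HT ht' P' = T + i' ∧ Q P P'
                  then LW Λ P * LW Λ' P' else 0)) (fun _ _ => zero_le) m2)
              have m3 : HT ht P = T + (HT ht P - T) ∧ HT ht' P' = T + (HT ht' P' - T) ∧ Q P P' :=
                ⟨by omega, by omega, hQ⟩
              simp only [if_pos m3]
              exact le_rfl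
            · rw [if_neg hQ, mul_zero, mul_zero]; exact zero_le
          · rw [if_neg hP', zero_mul, mul_zero]; exact zero_le
        · rw [if_neg hP, zero_mul]; exact zero_le
    _ = _ := by
        simp_rw [Summable.tsum_finsetSum (fun _ _ => ENNReal.summable)]

open Classical in
/-- mass of the non-local pieces -/
lemma nonloc (T i0 : ℕ) (E : ℕ → Finset V) (u : ℝ≥0∞)
    (hE : ∑' i, ∑' z, (if z ∈ E i then 0 else pL Λ ht dz T i z) ≤ u) :
    ∑' P, wt Λ ht T i0 P * (if Dz dz P ∈ E (HT ht P - T) then 0 else 1) ≤ u := by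
  have h := push_wt Λ ht dz T i0 (fun i z => if z ∈ E i then 0 else 1)
  rw [h]
  refine le_trans (ENNReal.tsum_le_tsum fun i => ENNReal.tsum_le_tsum fun z => ?_) hE
  by_cases hz : z ∈ E i
  · simp [hz]
  · rw [if_neg hz, if_neg hz]
    split_ifs <;> simp

set_option maxHeartbeats 2000000 in
open Classical in
/-- **ONE WINDOW, abstract form** -/
theorem window (h1 : ∀ b, 1 ≤ ht b) (hΛ : ∑' b, Λ b = 1) (hU : ∀ n, U Λ ht n ≤ 1)
    (h1' : ∀ b, 1 ≤ ht' b) (hΛ' : ∑' b, Λ' b = 1) (hU' : ∀ n, U Λ' ht' n ≤ 1)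
    (n α α' T i0 : ℕ) (hn : α + i0 + T ≤ n) (hn' : α' + i0 + T ≤ n)
    (E E' : ℕ → Finset V) (G G' u bad bad' β : ℝ≥0∞)
    (hE : ∑' i, ∑' z, (if z ∈ E i then 0 else pL Λ ht dz T i z) ≤ u)
    (hE' : ∑' i, ∑' z, (if z ∈ E' i then 0 else pL Λ' ht' dz' T i z) ≤ u)
    (b b' : ℕ → V → ℝ≥0∞) (hb : ∑' j, ∑' z, b j z ≤ bad) (hb' : ∑' j, ∑' z, b' j z ≤ bad')
    (hpb : ∀ j z, pL Λ ht dz α j z ≤ G + b j z)
    (hpb' : ∀ j z, pL Λ' ht' dz' α' j z ≤ G' + b' j z)
    (Ev : List B → List B' → Prop)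
    (Q2 : ℕ → V → List B → List B' → List B' → Prop)
    (Q3 : List B → List B → ℕ → V → List B' → Prop)
    (hcase : ∀ A P R A' P' R', fp ht α A → HT ht A ≤ α + i0 → fp ht T P → HT ht P ≤ T + i0 →
      HT ht (A ++ (P ++ R)) = n → fp ht' α' A' → HT ht' A' ≤ α' + i0 → fp ht' T P' →
      HT ht' P' ≤ T + i0 → HT ht' (A' ++ (P' ++ R')) = n → Ev (A ++ (P ++ R)) (A' ++ (P' ++ R')) →
      Q2 (HT ht A - α) (Dz dz A) P A' P' ∧ Q3 A P (HT ht' A' - α') (Dz dz' A') P')
    (hβ2 : ∀ j ≤ i0, ∀ i ≤ i0, ∀ i' ≤ i0, ∀ A', fp ht' α' A' → HT ht' A' ≤ α' + i0 →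
      ∀ g : V → ℝ≥0∞, (∀ z, g z ≤ G) → (∑' z, g z ≤ 1) →
      (∀ z, g z ≠ 0 → pL Λ ht dz α j z ≠ 0) →
      ∑' z, g z * ∑' P, ∑' P', (if HT ht P = T + i ∧ HT ht' P' = T + i' ∧
        (Dz dz P ∈ E i ∧ Q2 j z P A' P') then LW Λ P * LW Λ' P' else 0) ≤ β)
    (hβ3 : ∀ j' ≤ i0, ∀ i ≤ i0, ∀ i' ≤ i0, ∀ A, fp ht α A → HT ht A ≤ α + i0 →
      ∀ g : V → ℝ≥0∞, (∀ z, g z ≤ G') → (∑' z, g z ≤ 1) →
      (∀ z, g z ≠ 0 → pL Λ' ht' dz' α' j' z ≠ 0) →
      ∑' z, g z * ∑' P, ∑' P', (if HT ht P = T + i ∧ HT ht' P' = T + i' ∧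
        (Dz dz' P' ∈ E' i' ∧ Q3 A P j' z P') then LW Λ P * LW Λ' P' else 0) ≤ β) :
    ∑' L, (if HT ht L = n then LW Λ L * ∑' L', (if HT ht' L' = n then
      LW Λ' L' * (if Ev L L' then 1 else 0) else 0) else 0)
      ≤ 2 * ov Λ ht i0 + 2 * ov Λ' ht' i0 + u * u
        + ((i0 + 1 : ℕ) * ((i0 + 1 : ℕ) * ((i0 + 1 : ℕ) * β)) + bad)
        + ((i0 + 1 : ℕ) * ((i0 + 1 : ℕ) * ((i0 + 1 : ℕ) * β)) + bad') := by
  classical
  -- conditions
  set CY : List B → List B' → List B' → Prop := fun L A' P' =>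
    fp ht' α' A' ∧ HT ht' A' ≤ α' + i0 ∧ fp ht' T P' ∧ HT ht' P' ≤ T + i0 ∧
      ∃ R', HT ht' (A' ++ (P' ++ R')) = n ∧ Ev L (A' ++ (P' ++ R')) with hCY
  set CC : List B → List B → List B' → List B' → Prop := fun A P A' P' =>
    fp ht α A ∧ HT ht A ≤ α + i0 ∧ fp ht T P ∧ HT ht P ≤ T + i0 ∧
      ∃ R, HT ht (A ++ (P ++ R)) = n ∧ CY (A ++ (P ++ R)) A' P' with hCC
  have hw1 : ∑' A', wt Λ' ht' α' i0 A' ≤ 1 := sum_wt Λ' ht' h1' hΛ' α' i0
  have hw2 : ∑' A', wt Λ' ht' T i0 A' ≤ 1 := sum_wt Λ' ht' h1' hΛ' T i0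
  have hw3 : ∑' A, wt Λ ht α i0 A ≤ 1 := sum_wt Λ ht h1 hΛ α i0
  have hw4 : ∑' A, wt Λ ht T i0 A ≤ 1 := sum_wt Λ ht h1 hΛ T i0
  have hite : ∀ (p : Prop) (_ : Decidable p), (if p then (1 : ℝ≥0∞) else 0) ≤ 1 := by
    intro p _; split_ifs
    · exact le_rfl
    · exact zero_le
  set Ψ : List B → ℝ≥0∞ := fun L => ∑' A', wt Λ' ht' α' i0 A' * ∑' P', wt Λ' ht' T i0 P' *
    (if CY L A' P' then 1 else 0) with hΨ
  have hΨ1 : ∀ L, Ψ L ≤ 1 := fun L => hle _ _ 1 hw1 fun A' => hle _ _ 1 hw2 fun P' => hite _ _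
  have hin : ∀ L, ∑' L', (if HT ht' L' = n then LW Λ' L' * (if Ev L L' then 1 else 0) else 0)
      ≤ 2 * ov Λ' ht' i0 + Ψ L := by
    intro L
    refine cut2 Λ' ht' h1' hΛ' hU' n α' T i0 hn' (fun L' => if Ev L L' then 1 else 0)
      (fun L' => hite _ _) (fun A' P' => if CY L A' P' then 1 else 0) ?_
    intro A' P' R' a1 a2 a3 a4 a5
    by_cases hEv : Ev L (A' ++ (P' ++ R'))
    · have : CY L A' P' := ⟨a1, a2, a3, a4, R', a5, hEv⟩
      simp [hEv, this]
    · simp [hEv]
  have hout : ∑' L, (if HT ht L = n then LW Λ L * Ψ L else 0)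
      ≤ 2 * ov Λ ht i0 + ∑' A, wt Λ ht α i0 A * ∑' P, wt Λ ht T i0 P *
        ∑' A', wt Λ' ht' α' i0 A' * ∑' P', wt Λ' ht' T i0 P' *
          (if CC A P A' P' then 1 else 0) := by
    refine cut2 Λ ht h1 hΛ hU n α T i0 hn Ψ hΨ1 (fun A P =>
      ∑' A', wt Λ' ht' α' i0 A' * ∑' P', wt Λ' ht' T i0 P' *
          (if CC A P A' P' then 1 else 0)) ?_
    intro A P R a1 a2 a3 a4 a5
    refine ENNReal.tsum_le_tsum fun A' => mul_le_mul_right ?_ _
    refine ENNReal.tsum_le_tsum fun P' => mul_le_mul_right ?_ _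
    by_cases hc : CY (A ++ (P ++ R)) A' P'
    · have : CC A P A' P' := ⟨a1, a2, a3, a4, R, a5, hc⟩
      rw [if_pos hc, if_pos this]
    · rw [if_neg hc]; exact zero_le
  have htot : ∑' L, (if HT ht L = n then LW Λ L * ∑' L', (if HT ht' L' = n then
      LW Λ' L' * (if Ev L L' then 1 else 0) else 0) else 0)
      ≤ 2 * ov Λ' ht' i0 + ∑' L, (if HT ht L = n then LW Λ L * Ψ L else 0) := by
    calc _ ≤ ∑' L, ((if HT ht L = n then LW Λ L else 0) * (2 * ov Λ' ht' i0)
          + (if HT ht L = n then LW Λ L * Ψ L else 0)) := by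
          refine ENNReal.tsum_le_tsum fun L => ?_
          by_cases h : HT ht L = n
          · rw [if_pos h, if_pos h, if_pos h, ← mul_add]
            exact mul_le_mul_right (hin L) _
          · rw [if_neg h]; exact zero_le
      _ = U Λ ht n * (2 * ov Λ' ht' i0) + ∑' L, (if HT ht L = n then LW Λ L * Ψ L else 0) := by
          rw [ENNReal.tsum_add, ENNReal.tsum_mul_right]; rfl
      _ ≤ 1 * (2 * ov Λ' ht' i0) + _ := add_le_add (mul_le_mul_left (hU n) _) le_rfl
      _ = _ := by rw [one_mul]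
  -- the three terms
  set nP : List B → ℝ≥0∞ := fun P => if Dz dz P ∈ E (HT ht P - T) then 0 else 1 with hnP
  set nP' : List B' → ℝ≥0∞ := fun P' => if Dz dz' P' ∈ E' (HT ht' P' - T) then 0 else 1 with hnP'
  set c2 : List B → List B → List B' → List B' → ℝ≥0∞ := fun A P A' P' =>
    if (Dz dz P ∈ E (HT ht P - T) ∧ Q2 (HT ht A - α) (Dz dz A) P A' P') then 1 else 0 with hc2
  set c3 : List B → List B → List B' → List B' → ℝ≥0∞ := fun A P A' P' =>
    if (Dz dz' P' ∈ E' (HT ht' P' - T) ∧ Q3 A P (HT ht' A' - α') (Dz dz' A') P') then 1 else 0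
    with hc3
  have hpt : ∀ A P A' P', (if CC A P A' P' then (1 : ℝ≥0∞) else 0)
      ≤ nP P * nP' P' + c2 A P A' P' + c3 A P A' P' := by
    intro A P A' P'
    by_cases hc : CC A P A' P'
    · rw [if_pos hc]
      obtain ⟨a1, a2, a3, a4, R, a5, b1, b2, b3, b4, R', b5, hEv⟩ := hc
      obtain ⟨q2, q3⟩ := hcase A P R A' P' R' a1 a2 a3 a4 a5 b1 b2 b3 b4 b5 hEv
      by_cases hx : Dz dz P ∈ E (HT ht P - T)
      · have : c2 A P A' P' = 1 := by simp only [hc2]; rw [if_pos ⟨hx, q2⟩]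
        rw [this]
        exact le_trans le_add_self le_self_add
      · by_cases hy : Dz dz' P' ∈ E' (HT ht' P' - T)
        · have : c3 A P A' P' = 1 := by simp only [hc3]; rw [if_pos ⟨hy, q3⟩]
          rw [this]
          exact le_add_self
        · have h5 : nP P * nP' P' = 1 := by
            simp only [hnP, hnP']; rw [if_neg hx, if_neg hy, mul_one]
          rw [h5, add_assoc]
          exact le_self_add
    · rw [if_neg hc]; exact zero_le
  have hsum3 : ∑' A, wt Λ ht α i0 A * ∑' P, wt Λ ht T i0 P *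
        ∑' A', wt Λ' ht' α' i0 A' * ∑' P', wt Λ' ht' T i0 P' *
          (if CC A P A' P' then 1 else 0)
      ≤ (∑' A, wt Λ ht α i0 A * ∑' P, wt Λ ht T i0 P *
        ∑' A', wt Λ' ht' α' i0 A' * ∑' P', wt Λ' ht' T i0 P' * (nP P * nP' P'))
        + (∑' A, wt Λ ht α i0 A * ∑' P, wt Λ ht T i0 P *
        ∑' A', wt Λ' ht' α' i0 A' * ∑' P', wt Λ' ht' T i0 P' * c2 A P A' P')
        + (∑' A, wt Λ ht α i0 A * ∑' P, wt Λ ht T i0 P *
        ∑' A', wt Λ' ht' α' i0 A' * ∑' P', wt Λ' ht' T i0 P' * c3 A P A' P') := by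
    calc _ ≤ ∑' A, wt Λ ht α i0 A * ∑' P, wt Λ ht T i0 P *
        ∑' A', wt Λ' ht' α' i0 A' * ∑' P', wt Λ' ht' T i0 P' *
          (nP P * nP' P' + c2 A P A' P' + c3 A P A' P') := by
          refine ENNReal.tsum_le_tsum fun A => mul_le_mul_right ?_ _
          refine ENNReal.tsum_le_tsum fun P => mul_le_mul_right ?_ _
          refine ENNReal.tsum_le_tsum fun A' => mul_le_mul_right ?_ _
          refine ENNReal.tsum_le_tsum fun P' => mul_le_mul_right ?_ _
          exact hpt A P A' P'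
      _ = _ := by simp_rw [mul_add, ENNReal.tsum_add, mul_add, ENNReal.tsum_add, mul_add,
            ENNReal.tsum_add, mul_add, ENNReal.tsum_add]
  have hN : (∑' A, wt Λ ht α i0 A * ∑' P, wt Λ ht T i0 P *
        ∑' A', wt Λ' ht' α' i0 A' * ∑' P', wt Λ' ht' T i0 P' * (nP P * nP' P')) ≤ u * u := by
    refine hle _ _ _ hw3 fun A => ?_
    have h5 : ∀ P, ∑' A', wt Λ' ht' α' i0 A' * ∑' P', wt Λ' ht' T i0 P' * (nP P * nP' P')
        ≤ nP P * u := by
      intro P
      refine hle _ _ _ hw1 fun A' => ?_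
      calc ∑' P', wt Λ' ht' T i0 P' * (nP P * nP' P')
          = ∑' P', nP P * (wt Λ' ht' T i0 P' * nP' P') := tsum_congr fun P' => by ring
        _ = nP P * ∑' P', wt Λ' ht' T i0 P' * nP' P' := ENNReal.tsum_mul_left
        _ ≤ nP P * u := mul_le_mul_right (nonloc Λ' ht' dz' T i0 E' u hE') _
    calc ∑' P, wt Λ ht T i0 P * ∑' A', wt Λ' ht' α' i0 A' * ∑' P', wt Λ' ht' T i0 P' *
          (nP P * nP' P')
        ≤ ∑' P, wt Λ ht T i0 P * (nP P * u) :=
          ENNReal.tsum_le_tsum fun P => mul_le_mul_right (h5 P) _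
      _ = (∑' P, wt Λ ht T i0 P * nP P) * u := by
          rw [← ENNReal.tsum_mul_right]
          exact tsum_congr fun P => by ring
      _ ≤ u * u := mul_le_mul_left (nonloc Λ ht dz T i0 E u hE) _
  have h2 : (∑' A, wt Λ ht α i0 A * ∑' P, wt Λ ht T i0 P *
        ∑' A', wt Λ' ht' α' i0 A' * ∑' P', wt Λ' ht' T i0 P' * c2 A P A' P')
      ≤ (i0 + 1 : ℕ) * ((i0 + 1 : ℕ) * ((i0 + 1 : ℕ) * β)) + bad := by
    rw [swap3 (wt Λ ht α i0) (wt Λ ht T i0) (wt Λ' ht' α' i0)
      (fun A P A' => ∑' P', wt Λ' ht' T i0 P' * c2 A P A' P')]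
    have h6 : ∀ A', wt Λ' ht' α' i0 A' * (∑' A, wt Λ ht α i0 A * ∑' P, wt Λ ht T i0 P *
          ∑' P', wt Λ' ht' T i0 P' * c2 A P A' P')
        ≤ wt Λ' ht' α' i0 A' * ((i0 + 1 : ℕ) * ((i0 + 1 : ℕ) * ((i0 + 1 : ℕ) * β)) + bad) := by
      intro A'
      by_cases hA' : fp ht' α' A' ∧ HT ht' A' ≤ α' + i0
      · refine mul_le_mul_right ?_ _
        refine dterm Λ ht dz h1 hΛ α i0 G bad _ b hb hpb
          (fun j z => ∑' P, wt Λ ht T i0 P * ∑' P', wt Λ' ht' T i0 P' *
            (if (Dz dz P ∈ E (HT ht P - T) ∧ Q2 j z P A' P') then 1 else 0)) ?_ ?_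
        · intro j z
          exact hle _ _ 1 hw4 fun P => hle _ _ 1 hw2 fun P' => hite _ _
        · intro j hj g hg hg1 hg0
          calc ∑' z, g z * ∑' P, wt Λ ht T i0 P * ∑' P', wt Λ' ht' T i0 P' *
                (if (Dz dz P ∈ E (HT ht P - T) ∧ Q2 j z P A' P') then 1 else 0)
              ≤ ∑' z, g z * ∑ i ∈ Finset.range (i0 + 1), ∑ i' ∈ Finset.range (i0 + 1),
                ∑' P, ∑' P', (if HT ht P = T + i ∧ HT ht' P' = T + i' ∧
                  (Dz dz P ∈ E (HT ht P - T) ∧ Q2 j z P A' P') then LW Λ P * LW Λ' P' else 0) :=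
                ENNReal.tsum_le_tsum fun z => mul_le_mul_right (pieces Λ ht Λ' ht' T i0
                  (fun P P' => Dz dz P ∈ E (HT ht P - T) ∧ Q2 j z P A' P')) _
            _ = ∑ i ∈ Finset.range (i0 + 1), ∑ i' ∈ Finset.range (i0 + 1), ∑' z, g z *
                ∑' P, ∑' P', (if HT ht P = T + i ∧ HT ht' P' = T + i' ∧
                  (Dz dz P ∈ E i ∧ Q2 j z P A' P') then LW Λ P * LW Λ' P' else 0) := by
                simp_rw [Finset.mul_sum]
                simp_rw [Summable.tsum_finsetSum (fun _ _ => ENNReal.summable)]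
                refine Finset.sum_congr rfl fun i _ => Finset.sum_congr rfl fun i' _ => ?_
                refine tsum_congr fun z => ?_
                congr 1
                refine tsum_congr fun P => tsum_congr fun P' => ?_
                by_cases h7 : HT ht P = T + i
                · rw [show HT ht P - T = i by omega]
                · rw [if_neg (fun hh => h7 hh.1), if_neg (fun hh => h7 hh.1)]
            _ ≤ ∑ i ∈ Finset.range (i0 + 1), ∑ i' ∈ Finset.range (i0 + 1), β := by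
                refine Finset.sum_le_sum fun i hi => Finset.sum_le_sum fun i' hi' => ?_
                have m1 := Finset.mem_range.1 hi
                have m2 := Finset.mem_range.1 hi'
                exact hβ2 j hj i (by omega) i' (by omega) A' hA'.1 hA'.2 g hg hg1 hg0
            _ = _ := by simp [Finset.sum_const, nsmul_eq_mul]
      · have : wt Λ' ht' α' i0 A' = 0 := by unfold wt; rw [if_neg hA']
        rw [this, zero_mul, zero_mul]
    refine le_trans (ENNReal.tsum_le_tsum h6) ?_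
    rw [ENNReal.tsum_mul_right]
    calc _ ≤ 1 * _ := mul_le_mul_left hw1 _
      _ = _ := one_mul _
  have h3 : (∑' A, wt Λ ht α i0 A * ∑' P, wt Λ ht T i0 P *
        ∑' A', wt Λ' ht' α' i0 A' * ∑' P', wt Λ' ht' T i0 P' * c3 A P A' P')
      ≤ (i0 + 1 : ℕ) * ((i0 + 1 : ℕ) * ((i0 + 1 : ℕ) * β)) + bad' := by
    have h6 : ∀ A, wt Λ ht α i0 A * (∑' P, wt Λ ht T i0 P * ∑' A', wt Λ' ht' α' i0 A' *
          ∑' P', wt Λ' ht' T i0 P' * c3 A P A' P')
        ≤ wt Λ ht α i0 A * ((i0 + 1 : ℕ) * ((i0 + 1 : ℕ) * ((i0 + 1 : ℕ) * β)) + bad') := by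
      intro A
      by_cases hA : fp ht α A ∧ HT ht A ≤ α + i0
      · refine mul_le_mul_right ?_ _
        rw [swap2 (wt Λ ht T i0) (wt Λ' ht' α' i0)
          (fun P A' => ∑' P', wt Λ' ht' T i0 P' * c3 A P A' P')]
        refine dterm Λ' ht' dz' h1' hΛ' α' i0 G' bad' _ b' hb' hpb'
          (fun j z => ∑' P, wt Λ ht T i0 P * ∑' P', wt Λ' ht' T i0 P' *
            (if (Dz dz' P' ∈ E' (HT ht' P' - T) ∧ Q3 A P j z P') then 1 else 0)) ?_ ?_
        · intro j z
          exact hle _ _ 1 hw4 fun P => hle _ _ 1 hw2 fun P' => hite _ _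
        · intro j hj g hg hg1 hg0
          calc ∑' z, g z * ∑' P, wt Λ ht T i0 P * ∑' P', wt Λ' ht' T i0 P' *
                (if (Dz dz' P' ∈ E' (HT ht' P' - T) ∧ Q3 A P j z P') then 1 else 0)
              ≤ ∑' z, g z * ∑ i ∈ Finset.range (i0 + 1), ∑ i' ∈ Finset.range (i0 + 1),
                ∑' P, ∑' P', (if HT ht P = T + i ∧ HT ht' P' = T + i' ∧
                  (Dz dz' P' ∈ E' (HT ht' P' - T) ∧ Q3 A P j z P') then LW Λ P * LW Λ' P' else 0) :=
                ENNReal.tsum_le_tsum fun z => mul_le_mul_right (pieces Λ ht Λ' ht' T i0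
                  (fun P P' => Dz dz' P' ∈ E' (HT ht' P' - T) ∧ Q3 A P j z P')) _
            _ = ∑ i ∈ Finset.range (i0 + 1), ∑ i' ∈ Finset.range (i0 + 1), ∑' z, g z *
                ∑' P, ∑' P', (if HT ht P = T + i ∧ HT ht' P' = T + i' ∧
                  (Dz dz' P' ∈ E' i' ∧ Q3 A P j z P') then LW Λ P * LW Λ' P' else 0) := by
                simp_rw [Finset.mul_sum]
                simp_rw [Summable.tsum_finsetSum (fun _ _ => ENNReal.summable)]
                refine Finset.sum_congr rfl fun i _ => Finset.sum_congr rfl fun i' _ => ?_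
                refine tsum_congr fun z => ?_
                congr 1
                refine tsum_congr fun P => tsum_congr fun P' => ?_
                by_cases h7 : HT ht' P' = T + i'
                · rw [show HT ht' P' - T = i' by omega]
                · rw [if_neg (fun hh => h7 hh.2.1), if_neg (fun hh => h7 hh.2.1)]
            _ ≤ ∑ i ∈ Finset.range (i0 + 1), ∑ i' ∈ Finset.range (i0 + 1), β := by
                refine Finset.sum_le_sum fun i hi => Finset.sum_le_sum fun i' hi' => ?_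
                have m1 := Finset.mem_range.1 hi
                have m2 := Finset.mem_range.1 hi'
                exact hβ3 j hj i (by omega) i' (by omega) A hA.1 hA.2 g hg hg1 hg0
            _ = _ := by simp [Finset.sum_const, nsmul_eq_mul]
      · have : wt Λ ht α i0 A = 0 := by unfold wt; rw [if_neg hA]
        rw [this, zero_mul, zero_mul]
    refine le_trans (ENNReal.tsum_le_tsum h6) ?_
    rw [ENNReal.tsum_mul_right]
    calc _ ≤ 1 * _ := mul_le_mul_left hw3 _
      _ = _ := one_mul _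
  refine htot.trans ?_
  refine (add_le_add_right (hout.trans (add_le_add_right (hsum3.trans
    (add_le_add (add_le_add hN h2) h3)) _)) _).trans (le_of_eq ?_)
  ring

end two

end Crest.Agent.R154.OW763
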