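import Crest.Agent.R154.WLit_763
import Crest.Agent.R154.KWin_327
import Crest.Agent.R154.Fact2_346
import Crest.Agent.R154.OneWinA_763

/-! Row 154, ROAD 801 (helper763): literals of the one-window inequality in words. `H3P` is replaced by the
strict form (`h + 1 ≤ h' + δ`), = helper125's `H3Q`. -/

set_option autoImplicit false

namespace Crest.Agent.R154.WL763

open MeasureTheory ProbabilityTheory Crest.ProbabilityR.RandomEnvironment Crest.Agent.R154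
open Crest.Agent.R154.Flux132 (lev opp)
open Crest.Agent.R154.Flux566 (lw endp sitesL)
open Crest.Agent.R154.NB28
open scoped ENNReal

variable {d : ℕ}

open Classical in
/-- `H2P` at `C, r0, η, s` -/
def H2at (ν : Measure (Row d)) [IsProbabilityMeasure ν] (u : Step d) (C : ℝ≥0∞) (r0 : ℕ)
    (η : ℝ≥0∞) (s : ℕ) : Prop :=
    ∀ (h h' δ : ℕ) (E : Finset (Site d)) (μ : Site d → ℝ≥0∞) (M lam : ℝ≥0∞),
      1 ≤ δ → δ ≤ r0 → h ≤ h' + δ → h' + δ ≤ h + r0 →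
      (∑' x, μ x ≤ 1) → (∀ x, μ x ≤ M) → M ≠ ⊤ → (∀ x, μ x ≠ 0 → lev u x = -(δ : ℤ)) →
      lam ≠ 0 → lam ≠ ⊤ →
      ∑' x, μ x * ∑' π : List (Step d), ∑' γ : List (Step d),
        (if IsUp u h π ∧ endp 0 π ∈ E ∧ IsDn u h' γ ∧
            (∃ y, y ∈ sitesL (-endp 0 π) π ∧ y ∈ sitesL x γ) ∧
            (∀ y, y ∈ sitesL (-endp 0 π) π → y ∈ sitesL x γ → lev u y + s ≤ -(δ : ℤ))
          then aw ν π * aw ν γ else 0) ≤ C * (lam + M * E.card * η / lam + η)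

open Classical in
/-- `H3P` (strict) at `C, r0, η, s` -/
def H3at (ν : Measure (Row d)) [IsProbabilityMeasure ν] (u : Step d) (C : ℝ≥0∞) (r0 : ℕ)
    (η : ℝ≥0∞) (s : ℕ) : Prop :=
    ∀ (h h' δ : ℕ) (E : Finset (Site d)) (μ : Site d → ℝ≥0∞) (M lam : ℝ≥0∞),
      1 ≤ δ → δ ≤ r0 → h < h' + δ → h' + δ ≤ h + r0 →
      (∑' x, μ x ≤ 1) → (∀ x, μ x ≤ M) → M ≠ ⊤ → (∀ x, μ x ≠ 0 → lev u x = -(δ : ℤ)) →
      lam ≠ 0 → lam ≠ ⊤ →
      ∑' x, μ x * ∑' π : List (Step d), ∑' γ : List (Step d),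
        (if IsUp u h π ∧ endp 0 γ ∈ E ∧ IsDn u h' γ ∧
            (∃ y, y ∈ sitesL (-endp 0 π) π ∧ y ∈ sitesL x γ) ∧
            (∀ y, y ∈ sitesL (-endp 0 π) π → y ∈ sitesL x γ → -(h : ℤ) + s ≤ lev u y)
          then aw ν π * aw ν γ else 0) ≤ C * (lam + M * E.card * η / lam + η)

open Classical in
/-- the slab `D ≤ depth ≤ D + S` -/
noncomputable def SlabW (ν : Measure (Row d)) [IsProbabilityMeasure ν] (u : Step d) (n D S : ℕ)
    (w : Site d) : ℝ≥0∞ :=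
    ∑' π : List (Step d), ∑' γ : List (Step d),
      (if IsUp u n π ∧ IsDn u n γ ∧ (∃ k ∈ Cm u w π γ, D ≤ k ∧ k ≤ D + S)
        then aw ν π * aw ν γ else 0)

/-- overshoot function of `X` (up crossings) -/
noncomputable def ovX (ν : Measure (Row d)) [IsProbabilityMeasure ν] (u : Step d) (i : ℕ) : ℝ≥0∞ :=
  OW763.ov (fun b : Fact346.Irr (IsUp u) => aw ν b.1) Fact346.ht i

/-- overshoot function of `Y` (down crossings) -/
noncomputable def ovY (ν : Measure (Row d)) [IsProbabilityMeasure ν] (u : Step d) (i : ℕ) : ℝ≥0∞ :=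
  OW763.ov (fun b : Fact346.Irr (IsDn u) => aw ν b.1) Fact346.ht i

/-- **the one-window inequality** -/
def OneW (ν : Measure (Row d)) [IsProbabilityMeasure ν] (u : Step d) : Prop :=
  ∀ (u0 C η lam σ : ℝ≥0∞) (i0 J s t k n : ℕ) (w : Site d), u0 ≠ 0 → u0 < 1 → lam ≠ 0 → lam ≠ ⊤ →
    lev u w = 0 → H2at ν u C (4 * i0 + 2) η s → H3at ν u C (4 * i0 + 2) η s →
    1 ≤ k → J * (3 * t + i0) ≤ (k - 1) * t → (k + 4) * t ≤ n → s + 4 * i0 + 4 ≤ t →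
    SlabW ν u n ((k + 2) * t - s) (s + 4 * i0 + 4) w ≤ σ →
    KWin327.WinW ν u n (k * t) ((k + 1) * t) w ≤
      2 * ovX ν u i0 + 2 * ovY ν u i0 + u0 * u0
      + ((i0 + 1 : ℕ) * ((i0 + 1 : ℕ) * ((i0 + 1 : ℕ) *
          (C * (lam + (2 * (i0 + 1 : ℕ) / u0) * η / lam + η)))) + ((1 - u0) ^ J + J * ovX ν u i0))
      + ((i0 + 1 : ℕ) * ((i0 + 1 : ℕ) * ((i0 + 1 : ℕ) *
          (C * (lam + (2 * (i0 + 1 : ℕ) / u0) * η / lam + η)))) + ((1 - u0) ^ J + J * ovY ν u i0))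
      + σ

end Crest.Agent.R154.WL763
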