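import Crest.Agent.R154.OneWinB_763
import Crest.Agent.R154.WLit2_763

/-! Row 154, ROAD 801 (helper763): the one-window inequality in words, `oneW : OneW ν u`. -/

set_option autoImplicit false

namespace Crest.Agent.R154.OW763

open MeasureTheory ProbabilityTheory Crest.ProbabilityR.RandomEnvironment Crest.Agent.R154
open Crest.Agent.R154.Flux132 (lev opp)
open Crest.Agent.R154.Flux566 (lw endp sitesL endp_append endp_eq_add)
open Crest.Agent.R154.NB28
open Crest.Agent.R154.B5A Crest.Agent.R154.FP178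
open Crest.Agent.R154.Fact346 (Irr fl flr fac_up fac_dn P_fl P_flr flr_append fl_append)
open Crest.Agent.R154.KWin327 (WinW lev_add lev_neg lev_zero lev_opp sitesL_append mem_sitesL_add
  mem_sitesL lev_hung)
open Crest.Agent.R154.WL763
open scoped ENNReal

variable {d : ℕ} (ν : Measure (Row d)) [IsProbabilityMeasure ν] (u : Step d)

/-- weight / displacement of a block -/
noncomputable abbrev LX (b : Irr (IsUp u)) : ℝ≥0∞ := aw ν b.1
noncomputable abbrev LY (b : Irr (IsDn u)) : ℝ≥0∞ := aw ν b.1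
abbrev zX (b : Irr (IsUp u)) : Site d := endp 0 b.1
abbrev zY (b : Irr (IsDn u)) : Site d := endp 0 b.1

lemma Dz_flr (L : List (Irr (IsUp u))) : Dz (zX u) L = endp 0 (flr L) := by
  induction L with
  | nil => rfl
  | cons b L ih =>
    rw [Fact346.flr_cons, endp_append, endp_eq_add, ← ih]
    simp only [Dz, List.map_cons, List.sum_cons]
    rw [add_comm]

lemma Dz_fl (L : List (Irr (IsDn u))) : Dz (zY u) L = endp 0 (fl L) := by
  induction L with
  | nil => rfl
  | cons b L ih =>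
    have e : fl (b :: L) = b.1 ++ fl L := rfl
    rw [e, endp_append, endp_eq_add, ← ih]
    simp only [Dz, List.map_cons, List.sum_cons]

lemma up_flr (L : List (Irr (IsUp u))) : IsUp u (HT Fact346.ht L) (flr L) := P_flr (fac_up u) L

lemma dn_fl (L : List (Irr (IsDn u))) : IsDn u (HT Fact346.ht L) (fl L) := P_fl (fac_dn u) L

open Classical in
/-- pairs of words as pairs of lists -/
lemma two_lists (n m : ℕ) (F : List (Step d) → List (Step d) → Prop)
    [∀ π γ, Decidable (F π γ)] :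
    ∑' π : List (Step d), ∑' γ : List (Step d),
      (if IsUp u n π ∧ IsDn u m γ ∧ F π γ then aw ν π * aw ν γ else 0)
      = ∑' L : List (Irr (IsUp u)), (if HT Fact346.ht L = n then LW (LX ν u) L *
          ∑' L' : List (Irr (IsDn u)), (if HT Fact346.ht L' = m then
            LW (LY ν u) L' * (if F (flr L) (fl L') then 1 else 0) else 0) else 0) := by
  have e1 : ∑' π : List (Step d), ∑' γ : List (Step d),
      (if IsUp u n π ∧ IsDn u m γ ∧ F π γ then aw ν π * aw ν γ else 0)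
      = ∑' π : List (Step d), (if IsUp u n π then aw ν π *
        (∑' γ : List (Step d), (if IsDn u m γ then aw ν γ * (if F π γ then 1 else 0) else 0))
          else 0) := by
    refine tsum_congr fun π => ?_
    by_cases h : IsUp u n π
    · rw [if_pos h, ← ENNReal.tsum_mul_left]
      refine tsum_congr fun γ => ?_
      by_cases h2 : IsDn u m γ <;> by_cases h3 : F π γ <;> simp [h, h2, h3]
    · rw [if_neg h]
      simp [h]
  rw [e1, Fact346.tsum_upr ν u n (fun π =>
    ∑' γ : List (Step d), (if IsDn u m γ then aw ν γ * (if F π γ then 1 else 0) else 0))]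
  refine tsum_congr fun L => ?_
  by_cases h : HT Fact346.ht L = n
  · rw [if_pos h, if_pos h]
    congr 1
    exact Fact346.tsum_dn ν u m (fun γ => if F (flr L) γ then 1 else 0)
  · rw [if_neg h, if_neg h]

/-! ### geometry -/

/-- the sites of the hung concatenation -/
lemma hang3 (a p r : List (Step d)) (y : Site d) :
    y ∈ sitesL (-endp 0 (r ++ p ++ a)) (r ++ p ++ a) ↔
      y ∈ sitesL (-endp 0 (r ++ p ++ a)) r ∨
      y + endp 0 a ∈ sitesL (-endp 0 p) p ∨ y ∈ sitesL (-endp 0 a) a := by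
  have e : endp 0 (r ++ p ++ a) = endp 0 r + endp 0 p + endp 0 a := by
    rw [endp_append, endp_eq_add a, endp_append, endp_eq_add p]
  rw [sitesL_append, sitesL_append, List.mem_append, List.mem_append, or_assoc]
  have e2 : endp (-endp 0 (r ++ p ++ a)) (r ++ p) = -endp 0 a := by
    rw [endp_eq_add (r ++ p) (-endp 0 (r ++ p ++ a)), e, endp_append r p, endp_eq_add p (endp 0 r)]
    abel
  have e3 : endp (-endp 0 (r ++ p ++ a)) r = -endp 0 a + -endp 0 p := by
    rw [endp_eq_add r (-endp 0 (r ++ p ++ a)), e]; abel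
  rw [e2, e3, mem_sitesL_add, sub_neg_eq_add]

/-- the sites of the concatenation of three words -/
lemma run3 (a p r : List (Step d)) (x y : Site d) :
    y ∈ sitesL x (a ++ (p ++ r)) ↔
      y ∈ sitesL x a ∨ y ∈ sitesL (x + endp 0 a) p ∨ y ∈ sitesL (x + endp 0 a + endp 0 p) r := by
  rw [sitesL_append, sitesL_append, List.mem_append, List.mem_append, endp_eq_add a,
    endp_eq_add p]

/-- levels of the sites of a down word -/
lemma lev_run {n : ℕ} {γ : List (Step d)} (h : IsDn u n γ) {x y : Site d}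
    (hy : y ∈ sitesL x γ) : lev u x - n < lev u y ∧ lev u y ≤ lev u x := by
  rw [mem_sitesL] at hy
  have h3 := h.1 _ hy
  have h4 : lev u y = lev u (y - x) + lev u x := by
    rw [← lev_add]; congr 1; abel
  constructor <;> omega

/-- levels of the sites of an up word -/
lemma lev_runU {n : ℕ} {γ : List (Step d)} (h : IsUp u n γ) {x y : Site d}
    (hy : y ∈ sitesL x γ) : lev u x ≤ lev u y ∧ lev u y < lev u x + n := by
  rw [mem_sitesL] at hy
  have h3 := h.1 _ hy
  have h4 : lev u y = lev u (y - x) + lev u x := by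
    rw [← lev_add]; congr 1; abel
  constructor <;> omega

/-- window event minus slab event -/
def Evw (u : Step d) (w : Site d) (a b D S : ℕ) (π γ : List (Step d)) : Prop :=
  (∀ k ∈ Cm u w π γ, a ≤ k) ∧ (∃ k ∈ Cm u w π γ, k < b) ∧
    ¬ ∃ k ∈ Cm u w π γ, D ≤ k ∧ k ≤ D + S

/-- common site of the pieces -/
def Ex2 (x : Site d) (π γ : List (Step d)) : Prop :=
  ∃ y, y ∈ sitesL (-endp 0 π) π ∧ y ∈ sitesL x γ

/-- **geometry of the window** -/
lemma geo {w : Site d} (hw : lev u w = 0) {t k s i0 : ℕ} (hk : 1 ≤ k) (ht : s + 4 * i0 + 4 ≤ t)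
    {nA nP nR mA mP mR : ℕ} {A P R A' P' R' : List (Step d)}
    (hA : IsUp u nA A) (hP : IsUp u nP P) (hR : IsUp u nR R)
    (hA' : IsDn u mA A') (hP' : IsDn u mP P') (hR' : IsDn u mR R')
    (a1 : (k - 1) * t ≤ nA) (a2 : nA ≤ (k - 1) * t + i0) (p1 : 3 * t ≤ nP) (p2 : nP ≤ 3 * t + i0)
    (b1 : (k - 1) * t + 2 * i0 ≤ mA) (b2 : mA ≤ (k - 1) * t + 2 * i0 + i0)
    (q1 : 3 * t ≤ mP) (q2 : mP ≤ 3 * t + i0)
    (hEv : Evw u w (k * t) ((k + 1) * t) ((k + 2) * t - s) (s + 4 * i0 + 4) (R ++ P ++ A)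
      (A' ++ (P' ++ R'))) :
    Ex2 (w + stepVec (opp u) + endp 0 A' + endp 0 A) P P' ∧
    (∀ y, y ∈ sitesL (-endp 0 P) P →
      y ∈ sitesL (w + stepVec (opp u) + endp 0 A' + endp 0 A) P' →
      lev u y + s ≤ -((1 + mA - nA : ℕ) : ℤ) ∧ -(nP : ℤ) + s ≤ lev u y) := by
  obtain ⟨k', rfl⟩ : ∃ k', k = k' + 1 := ⟨k - 1, by omega⟩
  obtain ⟨W1, ⟨κ, hκ, hκ2⟩, W3⟩ := hEv
  have hκ1 := W1 κ hκ
  have e1 : (k' + 1 - 1) * t = k' * t := by rw [Nat.add_sub_cancel]
  have e2 : (k' + 1) * t = k' * t + t := by ring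
  have e3 : (k' + 1 + 1) * t = k' * t + 2 * t := by ring
  have e4 : (k' + 1 + 2) * t = k' * t + 3 * t := by ring
  rw [e1] at a1 a2 b1 b2
  rw [e2] at W1 hκ1
  rw [e3] at hκ2
  rw [e4] at W3
  generalize k' * t = KT at *
  set x0 : Site d := w + stepVec (opp u) with hx0
  have lx0 : lev u x0 = -1 := by rw [hx0, lev_add, hw, lev_opp]; rfl
  have lA : lev u (endp 0 A) = nA := hA.2
  have lA' : lev u (endp 0 A') = -(mA : ℤ) := hA'.2
  have lP : lev u (endp 0 P) = nP := hP.2
  have lP' : lev u (endp 0 P') = -(mP : ℤ) := hP'.2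
  have lR : lev u (endp 0 R) = nR := hR.2
  -- piece contacts are contacts
  have hcon : ∀ y, y ∈ sitesL (-endp 0 P) P → y ∈ sitesL (x0 + endp 0 A' + endp 0 A) P' →
      ∀ κ : ℕ, lev u y = nA - (κ : ℤ) → κ ∈ Cm u w (R ++ P ++ A) (A' ++ (P' ++ R')) := by
    intro y h1 h2 κ hκ
    refine ⟨y - endp 0 A, ?_, ?_, ?_⟩
    · rw [hang3]
      right; left
      rwa [sub_add_cancel]
    · rw [run3]
      right; left
      rw [show x0 + endp 0 A' + endp 0 A = endp 0 A + (x0 + endp 0 A') by abel,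
        mem_sitesL_add] at h2
      exact h2
    · rw [sub_eq_add_neg, lev_add, lev_neg, lA]; omega
  constructor
  · obtain ⟨y0, h1, h2, h3⟩ := hκ
    rw [hang3] at h1
    rw [run3] at h2
    refine ⟨y0 + endp 0 A, ?_, ?_⟩
    · rcases h1 with h1 | h1 | h1
      · exfalso
        have := lev_runU u hR h1
        have e : lev u (-endp 0 (R ++ P ++ A)) = -(nR : ℤ) - nP - nA := by
          rw [lev_neg, endp_append, endp_eq_add A, endp_append, endp_eq_add P, lev_add, lev_add,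
            lR, lP, lA]
          ring
        omega
      · exact h1
      · exfalso
        have := lev_runU u hA h1
        rw [lev_neg, lA] at this
        omega
    · rcases h2 with h2 | h2 | h2
      · exfalso
        have := lev_run u hA' h2
        rw [← hx0] at this
        omega
      · rw [show x0 + endp 0 A' + endp 0 A = endp 0 A + (x0 + endp 0 A') by abel, mem_sitesL_add,
          add_sub_cancel_right]
        exact h2
      · exfalso
        have := lev_run u hR' h2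
        rw [← hx0, lev_add, lev_add, lx0, lA', lP'] at this
        omega
  · intro y h1 h2
    have hh := lev_hung hP h1
    obtain ⟨κ', hκ'⟩ : ∃ κ' : ℕ, lev u y = nA - (κ' : ℤ) :=
      ⟨((nA : ℤ) - lev u y).toNat, by omega⟩
    have hm := hcon y h1 h2 κ' hκ'
    have hm1 := W1 κ' hm
    have hm3 : ¬ (KT + 3 * t - s ≤ κ' ∧ κ' ≤ KT + 3 * t - s + (s + 4 * i0 + 4)) :=
      fun hc => W3 ⟨κ', hm, hc⟩
    constructor <;> omega

/-! ### the inequality -/

open Classical in
/-- the `X`-local term -/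
lemma term2 {C η lam G u0 : ℝ≥0∞} {i0 s T α : ℕ} (hG : G ≠ ⊤) (hlam : lam ≠ 0) (hlamt : lam ≠ ⊤)
    (h2 : H2at ν u C (4 * i0 + 2) η s) {w : Site d} (hw : lev u w = 0) (E : ℕ → Finset (Site d))
    (hE : ∀ i, G * (E i).card ≤ 2 * (i0 + 1 : ℕ) / u0) (j i i' : ℕ) (hj : j ≤ i0) (hi : i ≤ i0)
    (hi' : i' ≤ i0) (A' : List (Irr (IsDn u))) (hA1 : fp Fact346.ht (α + 2 * i0) A')
    (hA2 : HT Fact346.ht A' ≤ α + 2 * i0 + i0) (g : Site d → ℝ≥0∞) (hg : ∀ z, g z ≤ G)
    (hg1 : ∑' z, g z ≤ 1)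
    (hg0 : ∀ z, g z ≠ 0 → pL (LX ν u) Fact346.ht (zX u) α j z ≠ 0) :
    ∑' z, g z * ∑' P : List (Irr (IsUp u)), ∑' P' : List (Irr (IsDn u)),
      (if HT Fact346.ht P = T + i ∧ HT Fact346.ht P' = T + i' ∧
        (Dz (zX u) P ∈ E i ∧ (Ex2 (w + stepVec (opp u) + endp 0 (fl A') + z) (flr P) (fl P') ∧
          ∀ y, y ∈ sitesL (-endp 0 (flr P)) (flr P) →
            y ∈ sitesL (w + stepVec (opp u) + endp 0 (fl A') + z) (fl P') →
            lev u y + s ≤ -((1 + HT Fact346.ht A' - (α + j) : ℕ) : ℤ)))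
        then LW (LX ν u) P * LW (LY ν u) P' else 0)
      ≤ C * (lam + (2 * (i0 + 1 : ℕ) / u0) * η / lam + η) := by
  set c : Site d := w + stepVec (opp u) + endp 0 (fl A') with hc
  have hA3 := le_HT_of_fp Fact346.ht hA1
  set δ : ℕ := 1 + HT Fact346.ht A' - (α + j) with hδ
  have lc : lev u c = -1 - (HT Fact346.ht A' : ℤ) := by
    rw [hc, lev_add, lev_add, hw, lev_opp, (dn_fl u A').2]; ring
  have hz : ∀ z, g z ≠ 0 → lev u z = (α + j : ℕ) := by
    intro z hz
    have h := hg0 z hz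
    unfold pL at h
    rw [Ne, ENNReal.tsum_eq_zero, not_forall] at h
    obtain ⟨L, hL⟩ := h
    have hL2 : fp Fact346.ht α L ∧ HT Fact346.ht L = α + j ∧ Dz (zX u) L = z := by
      by_contra hcon
      exact hL (if_neg hcon)
    rw [← hL2.2.2, Dz_flr, (up_flr u L).2, hL2.2.1]
  have key := h2 (T + i) (T + i') δ (E i) (fun x => g (x - c)) G lam (by omega) (by omega)
    (by omega) (by omega) ?_ (fun x => hg _) hG ?_ hlam hlamt
  · refine le_trans (le_of_eq ?_) (key.trans ?_)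
    · rw [← (Equiv.addLeft c).tsum_eq (fun x => g (x - c) * ∑' π : List (Step d),
        ∑' γ : List (Step d),
        (if IsUp u (T + i) π ∧ endp 0 π ∈ E i ∧ IsDn u (T + i') γ ∧
            (∃ y, y ∈ sitesL (-endp 0 π) π ∧ y ∈ sitesL x γ) ∧
            (∀ y, y ∈ sitesL (-endp 0 π) π → y ∈ sitesL x γ → lev u y + s ≤ -(δ : ℤ))
          then aw ν π * aw ν γ else 0))]
      refine tsum_congr fun z => ?_
      have ez : (Equiv.addLeft c) z = c + z := rfl
      rw [ez, add_sub_cancel_left]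
      congr 1
      have e2 : ∀ π γ : List (Step d),
          (if IsUp u (T + i) π ∧ endp 0 π ∈ E i ∧ IsDn u (T + i') γ ∧
            (∃ y, y ∈ sitesL (-endp 0 π) π ∧ y ∈ sitesL (c + z) γ) ∧
            (∀ y, y ∈ sitesL (-endp 0 π) π → y ∈ sitesL (c + z) γ → lev u y + s ≤ -(δ : ℤ))
          then aw ν π * aw ν γ else 0)
          = (if IsUp u (T + i) π ∧ IsDn u (T + i') γ ∧
            (endp 0 π ∈ E i ∧ (Ex2 (c + z) π γ ∧
            ∀ y, y ∈ sitesL (-endp 0 π) π → y ∈ sitesL (c + z) γ → lev u y + s ≤ -(δ : ℤ)))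
          then aw ν π * aw ν γ else 0) := by
        intro π γ
        refine if_congr ?_ rfl rfl
        unfold Ex2
        tauto
      simp_rw [e2]
      rw [two_lists ν u (T + i) (T + i') (fun π γ => (endp 0 π ∈ E i ∧ (Ex2 (c + z) π γ ∧
            ∀ y, y ∈ sitesL (-endp 0 π) π → y ∈ sitesL (c + z) γ → lev u y + s ≤ -(δ : ℤ))))]
      refine tsum_congr fun P => ?_
      by_cases h1 : HT Fact346.ht P = T + i
      · rw [if_pos h1, ← ENNReal.tsum_mul_left]
        refine tsum_congr fun P' => ?_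
        by_cases h3 : HT Fact346.ht P' = T + i'
        · rw [if_pos h3]
          by_cases h4 : (endp 0 (flr P) ∈ E i ∧ (Ex2 (c + z) (flr P) (fl P') ∧
            ∀ y, y ∈ sitesL (-endp 0 (flr P)) (flr P) → y ∈ sitesL (c + z) (fl P') →
              lev u y + s ≤ -(δ : ℤ)))
          · rw [if_pos h4, if_pos ⟨h1, h3, by rw [Dz_flr]; exact h4⟩, mul_one]
          · rw [if_neg h4, if_neg, mul_zero, mul_zero]
            rintro ⟨-, -, h5⟩
            rw [Dz_flr] at h5
            exact h4 h5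
        · rw [if_neg h3, if_neg (fun hh => h3 hh.2.1), mul_zero]
      · rw [if_neg h1]
        simp [h1]
    · refine mul_le_mul_right ?_ _
      refine add_le_add (add_le_add le_rfl ?_) le_rfl
      exact ENNReal.div_le_div_right (mul_le_mul_left (hE i) _) _
  · rw [← (Equiv.addLeft c).tsum_eq (fun x => g (x - c))]
    have : ∀ z, g ((Equiv.addLeft c) z - c) = g z := fun z => by
      change g (c + z - c) = g z
      rw [add_sub_cancel_left]
    simp_rw [this]
    exact hg1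
  · intro x hx
    have h := hz _ hx
    have e : lev u x = lev u (x - c) + lev u c := by rw [← lev_add]; congr 1; abel
    rw [e, h, lc]
    omega

open Classical in
/-- the `Y`-local term -/
lemma term3 {C η lam G u0 : ℝ≥0∞} {i0 s T α : ℕ} (hG : G ≠ ⊤) (hlam : lam ≠ 0) (hlamt : lam ≠ ⊤)
    (h2 : H3at ν u C (4 * i0 + 2) η s) {w : Site d} (hw : lev u w = 0) (E : ℕ → Finset (Site d))
    (hE : ∀ i, G * (E i).card ≤ 2 * (i0 + 1 : ℕ) / u0) (j i i' : ℕ) (hj : j ≤ i0) (hi : i ≤ i0)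
    (hi' : i' ≤ i0) (A : List (Irr (IsUp u))) (hA1 : fp Fact346.ht α A)
    (hA2 : HT Fact346.ht A ≤ α + i0) (g : Site d → ℝ≥0∞) (hg : ∀ z, g z ≤ G)
    (hg1 : ∑' z, g z ≤ 1)
    (hg0 : ∀ z, g z ≠ 0 → pL (LY ν u) Fact346.ht (zY u) (α + 2 * i0) j z ≠ 0) :
    ∑' z, g z * ∑' P : List (Irr (IsUp u)), ∑' P' : List (Irr (IsDn u)),
      (if HT Fact346.ht P = T + i ∧ HT Fact346.ht P' = T + i' ∧
        (Dz (zY u) P' ∈ E i' ∧ (Ex2 (w + stepVec (opp u) + z + endp 0 (flr A)) (flr P) (fl P') ∧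
          ∀ y, y ∈ sitesL (-endp 0 (flr P)) (flr P) →
            y ∈ sitesL (w + stepVec (opp u) + z + endp 0 (flr A)) (fl P') →
            -(HT Fact346.ht P : ℤ) + s ≤ lev u y))
        then LW (LX ν u) P * LW (LY ν u) P' else 0)
      ≤ C * (lam + (2 * (i0 + 1 : ℕ) / u0) * η / lam + η) := by
  set c : Site d := w + stepVec (opp u) + endp 0 (flr A) with hc
  have hA3 := le_HT_of_fp Fact346.ht hA1
  set δ : ℕ := 1 + (α + 2 * i0 + j) - HT Fact346.ht A with hδ
  have lc : lev u c = -1 + (HT Fact346.ht A : ℤ) := by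
    rw [hc, lev_add, lev_add, hw, lev_opp, (up_flr u A).2]; ring
  have hz : ∀ z, g z ≠ 0 → lev u z = -((α + 2 * i0 + j : ℕ) : ℤ) := by
    intro z hz
    have h := hg0 z hz
    unfold pL at h
    rw [Ne, ENNReal.tsum_eq_zero, not_forall] at h
    obtain ⟨L, hL⟩ := h
    have hL2 : fp Fact346.ht (α + 2 * i0) L ∧ HT Fact346.ht L = α + 2 * i0 + j ∧
        Dz (zY u) L = z := by
      by_contra hcon
      exact hL (if_neg hcon)
    rw [← hL2.2.2, Dz_fl, (dn_fl u L).2, hL2.2.1]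
  have key := h2 (T + i) (T + i') δ (E i') (fun x => g (x - c)) G lam (by omega) (by omega)
    (by omega) (by omega) ?_ (fun x => hg _) hG ?_ hlam hlamt
  · refine le_trans (le_of_eq ?_) (key.trans ?_)
    · rw [← (Equiv.addLeft c).tsum_eq (fun x => g (x - c) * ∑' π : List (Step d),
        ∑' γ : List (Step d),
        (if IsUp u (T + i) π ∧ endp 0 γ ∈ E i' ∧ IsDn u (T + i') γ ∧
            (∃ y, y ∈ sitesL (-endp 0 π) π ∧ y ∈ sitesL x γ) ∧
            (∀ y, y ∈ sitesL (-endp 0 π) π → y ∈ sitesL x γ → -((T + i : ℕ) : ℤ) + s ≤ lev u y)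
          then aw ν π * aw ν γ else 0))]
      refine tsum_congr fun z => ?_
      have ez : (Equiv.addLeft c) z = c + z := rfl
      rw [ez, add_sub_cancel_left]
      have ec : c + z = w + stepVec (opp u) + z + endp 0 (flr A) := by rw [hc]; abel
      rw [← ec]
      congr 1
      have e2 : ∀ π γ : List (Step d),
          (if IsUp u (T + i) π ∧ endp 0 γ ∈ E i' ∧ IsDn u (T + i') γ ∧
            (∃ y, y ∈ sitesL (-endp 0 π) π ∧ y ∈ sitesL (c + z) γ) ∧
            (∀ y, y ∈ sitesL (-endp 0 π) π → y ∈ sitesL (c + z) γ →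
              -((T + i : ℕ) : ℤ) + s ≤ lev u y)
          then aw ν π * aw ν γ else 0)
          = (if IsUp u (T + i) π ∧ IsDn u (T + i') γ ∧
            (endp 0 γ ∈ E i' ∧ (Ex2 (c + z) π γ ∧
            ∀ y, y ∈ sitesL (-endp 0 π) π → y ∈ sitesL (c + z) γ →
              -((T + i : ℕ) : ℤ) + s ≤ lev u y))
          then aw ν π * aw ν γ else 0) := by
        intro π γ
        refine if_congr ?_ rfl rfl
        unfold Ex2
        tauto
      simp_rw [e2]
      rw [two_lists ν u (T + i) (T + i') (fun π γ => (endp 0 γ ∈ E i' ∧ (Ex2 (c + z) π γ ∧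
            ∀ y, y ∈ sitesL (-endp 0 π) π → y ∈ sitesL (c + z) γ →
              -((T + i : ℕ) : ℤ) + s ≤ lev u y)))]
      refine tsum_congr fun P => ?_
      by_cases h1 : HT Fact346.ht P = T + i
      · rw [if_pos h1, ← ENNReal.tsum_mul_left]
        refine tsum_congr fun P' => ?_
        by_cases h3 : HT Fact346.ht P' = T + i'
        · rw [if_pos h3]
          by_cases h4 : (endp 0 (fl P') ∈ E i' ∧ (Ex2 (c + z) (flr P) (fl P') ∧
            ∀ y, y ∈ sitesL (-endp 0 (flr P)) (flr P) → y ∈ sitesL (c + z) (fl P') →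
              -((T + i : ℕ) : ℤ) + s ≤ lev u y))
          · rw [if_pos h4, if_pos ⟨h1, h3, by rw [Dz_fl, h1]; exact h4⟩, mul_one]
          · rw [if_neg h4, if_neg, mul_zero, mul_zero]
            rintro ⟨-, -, h5⟩
            rw [Dz_fl, h1] at h5
            exact h4 h5
        · rw [if_neg h3, if_neg (fun hh => h3 hh.2.1), mul_zero]
      · rw [if_neg h1]
        simp [h1]
    · refine mul_le_mul_right ?_ _
      refine add_le_add (add_le_add le_rfl ?_) le_rfl
      exact ENNReal.div_le_div_right (mul_le_mul_left (hE i') _) _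
  · rw [← (Equiv.addLeft c).tsum_eq (fun x => g (x - c))]
    have : ∀ z, g ((Equiv.addLeft c) z - c) = g z := fun z => by
      change g (c + z - c) = g z
      rw [add_sub_cancel_left]
    simp_rw [this]
    exact hg1
  · intro x hx
    have h := hz _ hx
    have e : lev u x = lev u (x - c) + lev u c := by rw [← lev_add]; congr 1; abel
    rw [e, h, lc]
    omega

lemma ite_irrel {p : Prop} (i1 i2 : Decidable p) (x y : ℝ≥0∞) :
    @ite _ p i1 x y = @ite _ p i2 x y := by
  rw [Subsingleton.elim i1 i2]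

/-- **the one-window inequality** -/
theorem oneW (hX1 : ∑' b : Irr (IsUp u), aw ν b.1 = 1) (hY1 : ∑' b : Irr (IsDn u), aw ν b.1 = 1)
    (hUX : ∀ n, U (LX ν u) Fact346.ht n ≤ 1) (hUY : ∀ n, U (LY ν u) Fact346.ht n ≤ 1) :
    OneW ν u := by
  classical
  intro u0 C η lam σ i0 J s t k n w hu0 hu1 hlam hlamt hw h2 h3 hk hJ hn ht hσ
  obtain ⟨G, E, hG, hE1, hE2, hE3⟩ := single (LX ν u) Fact346.ht (zX u)
    (fun b => Fact346.ht_pos b) hX1 hUX hu0 hu1 (3 * t) i0
  obtain ⟨G', E', hG', hE1', hE2', hE3'⟩ := single (LY ν u) Fact346.ht (zY u)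
    (fun b => Fact346.ht_pos b) hY1 hUY hu0 hu1 (3 * t) i0
  obtain ⟨b, hb, hpb⟩ := hE3 J ((k - 1) * t) hJ
  obtain ⟨b', hb', hpb'⟩ := hE3' J ((k - 1) * t + 2 * i0) (by omega)
  obtain ⟨k', rfl⟩ : ∃ k', k = k' + 1 := ⟨k - 1, by omega⟩
  have ek1 : (k' + 1 - 1) * t = k' * t := by rw [Nat.add_sub_cancel]
  have ek2 : (k' + 1 + 4) * t = k' * t + 5 * t := by ring
  have hn2 : k' * t + 5 * t ≤ n := by rw [← ek2]; exact hn
  have hsplit : WinW ν u n ((k' + 1) * t) ((k' + 1 + 1) * t) w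
      ≤ (∑' π : List (Step d), ∑' γ : List (Step d),
        (if IsUp u n π ∧ IsDn u n γ ∧ Evw u w ((k' + 1) * t) ((k' + 1 + 1) * t)
          ((k' + 1 + 2) * t - s) (s + 4 * i0 + 4) π γ then aw ν π * aw ν γ else 0))
        + SlabW ν u n ((k' + 1 + 2) * t - s) (s + 4 * i0 + 4) w := by
    unfold WinW SlabW
    rw [← ENNReal.tsum_add]
    refine ENNReal.tsum_le_tsum fun π => ?_
    rw [← ENNReal.tsum_add]
    refine ENNReal.tsum_le_tsum fun γ => ?_
    by_cases h : IsUp u n π ∧ IsDn u n γ ∧ (∀ k ∈ Cm u w π γ, (k' + 1) * t ≤ k) ∧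
        (∃ k ∈ Cm u w π γ, k < (k' + 1 + 1) * t)
    · by_cases hs : ∃ k ∈ Cm u w π γ, (k' + 1 + 2) * t - s ≤ k ∧
          k ≤ (k' + 1 + 2) * t - s + (s + 4 * i0 + 4)
      · rw [if_pos h]
        refine le_trans ?_ le_add_self
        rw [if_pos ⟨h.1, h.2.1, hs⟩]
      · rw [if_pos h]
        refine le_trans ?_ le_self_add
        rw [if_pos ⟨h.1, h.2.1, h.2.2.1, h.2.2.2, hs⟩]
    · rw [if_neg h]; exact zero_le
  refine hsplit.trans (add_le_add ?_ hσ)
  rw [two_lists ν u n n (fun π γ => Evw u w ((k' + 1) * t) ((k' + 1 + 1) * t)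
          ((k' + 1 + 2) * t - s) (s + 4 * i0 + 4) π γ)]
  refine window (LX ν u) Fact346.ht (zX u) (LY ν u) Fact346.ht (zY u)
    (fun b => Fact346.ht_pos b) hX1 hUX (fun b => Fact346.ht_pos b) hY1 hUY
    n ((k' + 1 - 1) * t) ((k' + 1 - 1) * t + 2 * i0) (3 * t) i0 (by rw [ek1]; omega)
    (by rw [ek1]; omega) E E' G G' u0 ((1 - u0) ^ J + J * ovX ν u i0)
    ((1 - u0) ^ J + J * ovY ν u i0) (C * (lam + (2 * (i0 + 1 : ℕ) / u0) * η / lam + η))
    hE1 hE1' b b' hb hb' hpb hpb'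
    (fun L L' => Evw u w ((k' + 1) * t) ((k' + 1 + 1) * t)
          ((k' + 1 + 2) * t - s) (s + 4 * i0 + 4) (flr L) (fl L'))
    (fun j z P A' P' => Ex2 (w + stepVec (opp u) + endp 0 (fl A') + z) (flr P) (fl P') ∧
          ∀ y, y ∈ sitesL (-endp 0 (flr P)) (flr P) →
            y ∈ sitesL (w + stepVec (opp u) + endp 0 (fl A') + z) (fl P') →
            lev u y + s ≤ -((1 + HT Fact346.ht A' - ((k' + 1 - 1) * t + j) : ℕ) : ℤ))
    (fun A P j z P' => Ex2 (w + stepVec (opp u) + z + endp 0 (flr A)) (flr P) (fl P') ∧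
          ∀ y, y ∈ sitesL (-endp 0 (flr P)) (flr P) →
            y ∈ sitesL (w + stepVec (opp u) + z + endp 0 (flr A)) (fl P') →
            -(HT Fact346.ht P : ℤ) + s ≤ lev u y) ?_ ?_ ?_
  · intro A P R A' P' R' a1 a2 a3 a4 a5 c1 c2 c3 c4 c5 hEv
    have m1 := le_HT_of_fp Fact346.ht a1
    have m2 := le_HT_of_fp Fact346.ht a3
    have m3 := le_HT_of_fp Fact346.ht c1
    have m4 := le_HT_of_fp Fact346.ht c3
    have hg := geo u hw (k := k' + 1) (by omega) ht (up_flr u A) (up_flr u P) (up_flr u R)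
      (dn_fl u A') (dn_fl u P') (dn_fl u R') m1 a2 m2 a4 m3 c2 m4 c4
      (by
        have e1 : flr (A ++ (P ++ R)) = flr R ++ flr P ++ flr A := by
          rw [flr_append, flr_append]
        have e2 : fl (A' ++ (P' ++ R')) = fl A' ++ (fl P' ++ fl R') := by
          rw [fl_append, fl_append]
        rw [← e1, ← e2]
        exact hEv)
    have e3 : (k' + 1 - 1) * t + (HT Fact346.ht A - (k' + 1 - 1) * t) = HT Fact346.ht A := by
      omega
    refine ⟨⟨?_, ?_⟩, ⟨?_, ?_⟩⟩
    · rw [Dz_flr]; exact hg.1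
    · intro y h5 h6
      rw [Dz_flr] at h6
      rw [e3]
      exact (hg.2 y h5 h6).1
    · rw [Dz_fl]; exact hg.1
    · intro y h5 h6
      rw [Dz_fl] at h6
      exact (hg.2 y h5 h6).2
  · intro j hj i hi i' hi' A' hA1 hA2 g hg hg1 hg0
    refine le_trans (le_of_eq ?_) (term2 (T := 3 * t) ν u hG hlam hlamt h2 hw E hE2 j i i' hj hi hi' A' hA1
      hA2 g hg hg1 hg0)
    refine tsum_congr fun z => congrArg _ (tsum_congr fun P => tsum_congr fun P' => ?_)
    exact ite_irrel _ _ _ _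
  · intro j hj i hi i' hi' A hA1 hA2 g hg hg1 hg0
    refine le_trans (le_of_eq ?_) (term3 (T := 3 * t) ν u hG' hlam hlamt h3 hw E' hE2' j i i' hj hi hi' A hA1
      hA2 g hg hg1 hg0)
    refine tsum_congr fun z => congrArg _ (tsum_congr fun P => tsum_congr fun P' => ?_)
    exact ite_irrel _ _ _ _

end Crest.Agent.R154.OW763
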