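import Crest.Agent.R154.OneWin_975

/-! Row 154, ROAD 801 (helper768): helper975's one-window bound with staggered pieces
(`X` pieces at `D`, `T`; `Y` pieces at `D'`, `T'`). -/

set_option autoImplicit false

namespace Crest.Agent.R154.OneWin768

open scoped ENNReal
open Crest.Agent.R154.B5A Crest.Agent.R154.OneWin975

section window

variable {BX BY G : Type*} [AddCommGroup G] {ΛX : BX → ℝ≥0∞} {ΛY : BY → ℝ≥0∞}
  {hX : BX → ℕ} {hY : BY → ℕ} {zX : BX → G} {zY : BY → G}
  {sX : BX → Set (G × ℕ)} {sY : BY → Set (G × ℕ)}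

lemma fe_ev (hsX : ∀ b, ∀ q ∈ sX b, 1 ≤ q.2 ∧ q.2 ≤ hX b)
    (hsY : ∀ b, ∀ q ∈ sY b, 1 ≤ q.2 ∧ q.2 ≤ hY b) {D T D' T' i0 lo hi hb : ℕ} (h1 : D + i0 < lo)
    (h2 : hi ≤ D + T) (h1' : D' + i0 < lo) (h2' : hi ≤ D' + T') {w : G} {A P R : List BX} {A' P' R' : List BY}
    (gA : gd hX i0 D A) (gP : gd hX i0 T P) (gA' : gd hY i0 D' A') (gP' : gd hY i0 T' P')
    (hF : FE hX hY zX zY sX sY lo hi hb (D + T + 2 * i0) w (A ++ (P ++ R)) (A' ++ (P' ++ R'))) :
    Ev hX hY zX zY sX sY lo hb P P' (w + Dp zY A' - Dp zX A) (HT hX A) (HT hY A') := by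
  obtain ⟨⟨p, ⟨hpX, hpY⟩, hphi⟩, hlo, hsl⟩ := hF
  have gA1 := gA.1.1
  have gA2 := gA.2
  have gP1 := gP.1.1
  have gP2 := gP.2
  have gA1' := gA'.1.1
  have gA2' := gA'.2
  have gP1' := gP'.1.1
  have gP2' := gP'.2
  have hpl := hlo p ⟨hpX, hpY⟩
  rw [Tr_append, Tr_append] at hpX hpY
  simp only [zero_add] at hpX hpY
  have hX2 : p ∈ Tr sX zX hX P (Dp zX A) (HT hX A) := by
    rcases hpX with hp | hp | hp
    · have := Tr_depth sX zX hX hsX A _ _ _ hp; omega
    · exact hp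
    · have := Tr_depth sX zX hX hsX R _ _ _ hp; omega
  have hY2 : p ∈ Tr sY zY hY P' (w + Dp zY A') (HT hY A') := by
    rcases hpY with hp | hp | hp
    · have := Tr_depth sY zY hY hsY A' _ _ _ hp; omega
    · exact hp
    · have := Tr_depth sY zY hY hsY R' _ _ _ hp; omega
  have shX : ∀ g k, (g, k) ∈ Tr sX zX hX P 0 (HT hX A) ↔
      (g + Dp zX A, k) ∈ Tr sX zX hX P (Dp zX A) (HT hX A) := by
    intro g k
    have := Tr_shift sX zX hX P 0 (Dp zX A) (HT hX A) g k
    rw [zero_add] at this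
    exact this.symm
  have shY : ∀ g k, (g, k) ∈ Tr sY zY hY P' (w + Dp zY A' - Dp zX A) (HT hY A') ↔
      (g + Dp zX A, k) ∈ Tr sY zY hY P' (w + Dp zY A') (HT hY A') := by
    intro g k
    have := Tr_shift sY zY hY P' (w + Dp zY A' - Dp zX A) (Dp zX A) (HT hY A') g k
    rw [sub_add_cancel] at this
    exact this.symm
  refine ⟨⟨(p.1 - Dp zX A, p.2), ?_, ?_⟩, ?_⟩
  · rw [shX, sub_add_cancel]; exact hX2
  · rw [shY, sub_add_cancel]; exact hY2
  · rintro ⟨g, k⟩ ⟨hq1, hq2⟩
    rw [shX] at hq1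
    rw [shY] at hq2
    have hm1 : (g + Dp zX A, k) ∈ Tr sX zX hX (A ++ (P ++ R)) 0 0 := by
      rw [Tr_append, Tr_append]
      simp only [zero_add]
      exact Or.inr (Or.inl hq1)
    have hm2 : (g + Dp zX A, k) ∈ Tr sY zY hY (A' ++ (P' ++ R')) w 0 := by
      rw [Tr_append, Tr_append]
      simp only [zero_add]
      exact Or.inr (Or.inl hq2)
    have a1 := hlo _ ⟨hm1, hm2⟩
    have a2 := hsl _ ⟨hm1, hm2⟩
    have a3 := Tr_depth sX zX hX hsX P _ _ _ hq1
    simp only at a1 a2 a3 ⊢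
    refine ⟨a1, ?_⟩
    by_contra hcon
    exact a2 ⟨by omega, by omega⟩

end window

section main

variable {BX BY G : Type*} [AddCommGroup G] {ΛX : BX → ℝ≥0∞} {ΛY : BY → ℝ≥0∞}
  {hX : BX → ℕ} {hY : BY → ℕ} {zX : BX → G} {zY : BY → G}
  {sX : BX → Set (G × ℕ)} {sY : BY → Set (G × ℕ)}

open Classical in
/-- the transfer of the event of the pieces to the laws of the two prefixes -/
lemma pieces (D T D' T' i0 : ℕ) (w : G) (g : List BX → List BY → G → ℕ → ℕ → Prop) :
    ∑' A : List BX, ∑' P : List BX, ∑' A' : List BY, ∑' P' : List BY,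
      (if (gd hX i0 D A ∧ gd hX i0 T P) ∧ (gd hY i0 D' A' ∧ gd hY i0 T' P') ∧
        g P P' (w + Dp zY A' - Dp zX A) (HT hX A) (HT hY A') then
        LW ΛX A * (LW ΛX P * (LW ΛY A' * LW ΛY P')) else 0)
    ≤ ∑' o, ∑' z, ∑' o', ∑' z',
      (if o ≤ i0 ∧ o' ≤ i0 then fl ΛX hX zX D o z * (fl ΛY hY zY D' o' z' *
        (∑' P : List BX, ∑' P' : List BY, (if gd hX i0 T P ∧ gd hY i0 T' P' ∧
          g P P' (w + z' - z) (D + o) (D' + o') then LW ΛX P * LW ΛY P' else 0))) else 0) := by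
  set Φ : ℕ → ℕ → G → ℝ≥0∞ := fun o o' x => ∑' P : List BX, ∑' P' : List BY,
    (if gd hX i0 T P ∧ gd hY i0 T' P' ∧ g P P' x (D + o) (D' + o') then LW ΛX P * LW ΛY P' else 0)
    with hΦ
  calc _ = ∑' A : List BX, (if gd hX i0 D A then LW ΛX A * (∑' A' : List BY,
        (if gd hY i0 D' A' then LW ΛY A' * Φ (HT hX A - D) (HT hY A' - D')
          (w + Dp zY A' - Dp zX A) else 0)) else 0) := by
        refine tsum_congr fun A => ?_
        by_cases hA : gd hX i0 D A
        · rw [if_pos hA]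
          have hAD : D + (HT hX A - D) = HT hX A := by have := hA.1.1; omega
          rw [ENNReal.tsum_comm, ← ENNReal.tsum_mul_left]
          refine tsum_congr fun A' => ?_
          by_cases hA' : gd hY i0 D' A'
          · rw [if_pos hA']
            have hAD' : D' + (HT hY A' - D') = HT hY A' := by have := hA'.1.1; omega
            simp only [hΦ]
            rw [← ENNReal.tsum_mul_left, ← ENNReal.tsum_mul_left]
            refine tsum_congr fun P => ?_
            rw [← ENNReal.tsum_mul_left, ← ENNReal.tsum_mul_left]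
            refine tsum_congr fun P' => ?_
            rw [hAD, hAD']
            by_cases hg : gd hX i0 T P ∧ gd hY i0 T' P' ∧
              g P P' (w + Dp zY A' - Dp zX A) (HT hX A) (HT hY A')
            · rw [if_pos hg, if_pos ⟨⟨hA, hg.1⟩, ⟨hA', hg.2.1⟩, hg.2.2⟩]
              ring
            · rw [if_neg hg, if_neg (fun hh => hg ⟨hh.1.2, hh.2.1.2, hh.2.2⟩)]
              simp
          · rw [if_neg hA', mul_zero, ENNReal.tsum_eq_zero]
            intro P
            rw [ENNReal.tsum_eq_zero]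
            intro P'
            rw [if_neg (fun hh => hA' hh.2.1.1)]
        · rw [if_neg hA, ENNReal.tsum_eq_zero]
          intro P
          rw [ENNReal.tsum_eq_zero]
          intro A'
          rw [ENNReal.tsum_eq_zero]
          intro P'
          rw [if_neg (fun hh => hA hh.1.1)]
    _ ≤ ∑' o, ∑' z, (if o ≤ i0 then fl ΛX hX zX D o z * (∑' A' : List BY,
        (if gd hY i0 D' A' then LW ΛY A' * Φ o (HT hY A' - D')
          (w + Dp zY A' - z) else 0)) else 0) :=
        push_le ΛX hX zX D i0 (fun o z => ∑' A' : List BY,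
        (if gd hY i0 D' A' then LW ΛY A' * Φ o (HT hY A' - D')
          (w + Dp zY A' - z) else 0))
    _ ≤ _ := by
        refine ENNReal.tsum_le_tsum fun o => ENNReal.tsum_le_tsum fun z => ?_
        by_cases ho : o ≤ i0
        · rw [if_pos ho]
          calc _ ≤ fl ΛX hX zX D o z * ∑' o', ∑' z', (if o' ≤ i0 then
                fl ΛY hY zY D' o' z' * Φ o o' (w + z' - z) else 0) :=
                mul_le_mul_right (push_le ΛY hY zY D' i0
                  (fun o' z' => Φ o o' (w + z' - z))) _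
            _ = _ := by
                rw [← ENNReal.tsum_mul_left]
                refine tsum_congr fun o' => ?_
                rw [← ENNReal.tsum_mul_left]
                refine tsum_congr fun z' => ?_
                by_cases ho' : o' ≤ i0
                · rw [if_pos ho', if_pos ⟨ho, ho'⟩]
                · rw [if_neg ho', if_neg (fun hh => ho' hh.2), mul_zero]
        · rw [if_neg ho]; exact zero_le

open Classical in
/-- pieces of bounded overshoot, by their heights -/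
lemma by_heights (T T' i0 : ℕ) (g : List BX → List BY → Prop) :
    ∑' P : List BX, ∑' P' : List BY, (if gd hX i0 T P ∧ gd hY i0 T' P' ∧ g P P' then
      LW ΛX P * LW ΛY P' else 0)
    ≤ ∑' j : ℕ, ∑' j' : ℕ, (if j ≤ i0 ∧ j' ≤ i0 then ∑' P : List BX, ∑' P' : List BY,
      (if HT hX P = T + j ∧ HT hY P' = T' + j' ∧ g P P' then LW ΛX P * LW ΛY P' else 0) else 0) := by
  calc _ ≤ ∑' P : List BX, ∑' P' : List BY, ∑' j : ℕ, ∑' j' : ℕ, (if j ≤ i0 ∧ j' ≤ i0 then
      (if HT hX P = T + j ∧ HT hY P' = T' + j' ∧ g P P' then LW ΛX P * LW ΛY P' else 0) else 0) := by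
        refine ENNReal.tsum_le_tsum fun P => ENNReal.tsum_le_tsum fun P' => ?_
        by_cases hg : gd hX i0 T P ∧ gd hY i0 T' P' ∧ g P P'
        · have h1 := hg.1.1.1
          have h2 := hg.1.2
          have h3 := hg.2.1.1.1
          have h4 := hg.2.1.2
          refine le_trans ?_ (ENNReal.le_tsum (HT hX P - T))
          refine le_trans ?_ (ENNReal.le_tsum (HT hY P' - T'))
          rw [if_pos hg, if_pos ⟨by omega, by omega⟩, if_pos ⟨by omega, by omega, hg.2.2⟩]
        · rw [if_neg hg]; exact zero_le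
    _ = _ := by
        rw [comm4]
        refine tsum_congr fun j => tsum_congr fun j' => ?_
        by_cases hj : j ≤ i0 ∧ j' ≤ i0
        · simp only [if_pos hj]
        · simp [hj]

open Classical in
/-- THE BOUND OF ONE WINDOW -/
theorem one_window' (hsX : ∀ b, ∀ q ∈ sX b, 1 ≤ q.2 ∧ q.2 ≤ hX b)
    (hsY : ∀ b, ∀ q ∈ sY b, 1 ≤ q.2 ∧ q.2 ≤ hY b)
    {D T D' T' i0 lo hi hb n : ℕ} (h1 : D + i0 < lo) (h2 : hi ≤ D + T) (hn : D + i0 + T ≤ n)
    (h1' : D' + i0 < lo) (h2' : hi ≤ D' + T') (hn' : D' + i0 + T' ≤ n)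
    (hUX : ∀ r, ∑' R : List BX, (if HT hX R = r then LW ΛX R else 0) ≤ 1)
    (hUY : ∀ r, ∑' R : List BY, (if HT hY R = r then LW ΛY R else 0) ≤ 1)
    (hfX : ∀ D, ∑' A : List BX, (if fp hX D A then LW ΛX A else 0) ≤ 1)
    (hfY : ∀ D, ∑' A : List BY, (if fp hY D A then LW ΛY A else 0) ≤ 1)
    (eX eY : ℝ≥0∞)
    (heX : ∀ D, ∑' A : List BX, (if fp hX D A ∧ D + i0 < HT hX A then LW ΛX A else 0) ≤ eX)
    (heY : ∀ D, ∑' A : List BY, (if fp hY D A ∧ D + i0 < HT hY A then LW ΛY A else 0) ≤ eY)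
    (EX EY : ℕ → Set G) (uX uY : ℝ≥0∞)
    (hnX : ∑' P : List BX, (if gd hX i0 T P ∧ Dp zX P ∉ EX (HT hX P) then LW ΛX P else 0) ≤ uX)
    (hnY : ∑' P : List BY, (if gd hY i0 T' P ∧ Dp zY P ∉ EY (HT hY P) then LW ΛY P else 0) ≤ uY)
    (agX bbX : ℕ → G → ℝ≥0∞) (hleX : ∀ o z, fl ΛX hX zX D o z ≤ agX o z + bbX o z)
    (MX bX : ℝ≥0∞) (hagX : ∀ o z, agX o z ≤ MX) (hbbX : ∑' o, ∑' z, bbX o z ≤ bX)
    (agY bbY : ℕ → G → ℝ≥0∞) (hleY : ∀ o z, fl ΛY hY zY D' o z ≤ agY o z + bbY o z)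
    (MY bY : ℝ≥0∞) (hagY : ∀ o z, agY o z ≤ MY) (hbbY : ∑' o, ∑' z, bbY o z ≤ bY)
    (B2 B3 : ℝ≥0∞)
    (H2 : ∀ o ≤ i0, ∀ o' ≤ i0, ∀ j ≤ i0, ∀ j' ≤ i0, ∀ μ : G → ℝ≥0∞, ∑' x, μ x ≤ 1 →
      (∀ x, μ x ≤ MX) → ∑' x, μ x * ∑' P : List BX, ∑' P' : List BY,
        (if HT hX P = T + j ∧ HT hY P' = T' + j' ∧
          EvX hX hY zX zY sX sY EX lo hb P P' x (D + o) (D' + o')
          then LW ΛX P * LW ΛY P' else 0) ≤ B2)
    (H3 : ∀ o ≤ i0, ∀ o' ≤ i0, ∀ j ≤ i0, ∀ j' ≤ i0, ∀ μ : G → ℝ≥0∞, ∑' x, μ x ≤ 1 →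
      (∀ x, μ x ≤ MY) → ∑' x, μ x * ∑' P : List BX, ∑' P' : List BY,
        (if HT hX P = T + j ∧ HT hY P' = T' + j' ∧
          EvY hX hY zX zY sX sY EY lo hb P P' x (D + o) (D' + o')
          then LW ΛX P * LW ΛY P' else 0) ≤ B3)
    (w : G) :
    ∑' LX : List BX, ∑' LY : List BY, (if HT hX LX = n ∧ HT hY LY = n ∧
      FE hX hY zX zY sX sY lo hi hb (D + T + 2 * i0) w LX LY then LW ΛX LX * LW ΛY LY else 0)
    ≤ 2 * eX + 2 * eY + uX * uY
      + (bX + (i0 + 1) * ((i0 + 1) * ((i0 + 1) * ((i0 + 1) * B2))))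
      + (bY + (i0 + 1) * ((i0 + 1) * ((i0 + 1) * ((i0 + 1) * B3)))) := by
  set Y : List BX → ℝ≥0∞ := fun LX => ∑' LY : List BY, (if HT hY LY = n then LW ΛY LY *
    (if FE hX hY zX zY sX sY lo hi hb (D + T + 2 * i0) w LX LY then 1 else 0) else 0) with hYd
  set K : List BX → List BX → ℝ≥0∞ := fun A P => ∑' A' : List BY, ∑' P' : List BY,
    (if gd hY i0 D' A' ∧ gd hY i0 T' P' then LW ΛY A' * (LW ΛY P' *
      (if Ev hX hY zX zY sX sY lo hb P P' (w + Dp zY A' - Dp zX A) (HT hX A) (HT hY A')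
        then 1 else 0)) else 0) with hK
  have hY1 : ∀ LX, Y LX ≤ 1 := by
    intro LX
    refine le_trans (ENNReal.tsum_le_tsum fun LY => ?_) (hUY n)
    by_cases hL : HT hY LY = n
    · rw [if_pos hL, if_pos hL]
      calc _ ≤ LW ΛY LY * 1 := by
            refine mul_le_mul_right ?_ _
            split_ifs <;> simp
        _ = _ := mul_one _
    · rw [if_neg hL, if_neg hL]
  have e1 : ∑' LX : List BX, ∑' LY : List BY, (if HT hX LX = n ∧ HT hY LY = n ∧
      FE hX hY zX zY sX sY lo hi hb (D + T + 2 * i0) w LX LY then LW ΛX LX * LW ΛY LY else 0)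
      = ∑' LX : List BX, (if HT hX LX = n then LW ΛX LX * Y LX else 0) := by
    refine tsum_congr fun LX => ?_
    by_cases hL : HT hX LX = n
    · rw [if_pos hL]
      simp only [hYd]
      rw [← ENNReal.tsum_mul_left]
      refine tsum_congr fun LY => ?_
      by_cases hL' : HT hY LY = n
      · by_cases hF : FE hX hY zX zY sX sY lo hi hb (D + T + 2 * i0) w LX LY
        · rw [if_pos ⟨hL, hL', hF⟩, if_pos hL', if_pos hF, mul_one]
        · rw [if_neg (fun hh => hF hh.2.2), if_pos hL', if_neg hF, mul_zero, mul_zero]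
      · rw [if_neg (fun hh => hL' hh.2.1), if_neg hL', mul_zero]
    · rw [if_neg hL, ENNReal.tsum_eq_zero]
      intro LY
      rw [if_neg (fun hh => hL hh.1)]
  have hYK : ∀ A P R, gd hX i0 D A → gd hX i0 T P → Y (A ++ (P ++ R)) ≤ 2 * eY + K A P := by
    intro A P R gA gP
    refine split1 hY ΛY D' T' i0 n hn' eY hUY (hfY D') (heY D') (heY T')
      (fun LY => if FE hX hY zX zY sX sY lo hi hb (D + T + 2 * i0) w (A ++ (P ++ R)) LY
        then 1 else 0) (fun LY => by split_ifs <;> simp)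
      (fun A' P' => if Ev hX hY zX zY sX sY lo hb P P' (w + Dp zY A' - Dp zX A) (HT hX A)
        (HT hY A') then 1 else 0) ?_
    intro A' P' R' gA' gP'
    by_cases hF : FE hX hY zX zY sX sY lo hi hb (D + T + 2 * i0) w (A ++ (P ++ R))
      (A' ++ (P' ++ R'))
    · rw [if_pos hF, if_pos (fe_ev hsX hsY h1 h2 h1' h2' gA gP gA' gP' hF)]
    · rw [if_neg hF]; exact zero_le
  have e2 := split1 hX ΛX D T i0 n hn eX hUX (hfX D) (heX D) (heX T) Y hY1
    (fun A P => 2 * eY + K A P) hYK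
  rw [e1]
  refine e2.trans ?_
  -- the three events
  set g2 : List BX → List BY → G → ℕ → ℕ → Prop := fun P P' x a a' =>
    EvX hX hY zX zY sX sY EX lo hb P P' x a a' with hg2
  set g3 : List BX → List BY → G → ℕ → ℕ → Prop := fun P P' x a a' =>
    EvY hX hY zX zY sX sY EY lo hb P P' x a a' with hg3
  set S2 : List BX → List BX → List BY → List BY → ℝ≥0∞ := fun A P A' P' =>
    (if (gd hX i0 D A ∧ gd hX i0 T P) ∧ (gd hY i0 D' A' ∧ gd hY i0 T' P') ∧
        g2 P P' (w + Dp zY A' - Dp zX A) (HT hX A) (HT hY A') then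
        LW ΛX A * (LW ΛX P * (LW ΛY A' * LW ΛY P')) else 0) with hS2
  set S3 : List BX → List BX → List BY → List BY → ℝ≥0∞ := fun A P A' P' =>
    (if (gd hX i0 D A ∧ gd hX i0 T P) ∧ (gd hY i0 D' A' ∧ gd hY i0 T' P') ∧
        g3 P P' (w + Dp zY A' - Dp zX A) (HT hX A) (HT hY A') then
        LW ΛX A * (LW ΛX P * (LW ΛY A' * LW ΛY P')) else 0) with hS3
  set nX : List BX → ℝ≥0∞ := fun P =>
    (if gd hX i0 T P ∧ Dp zX P ∉ EX (HT hX P) then LW ΛX P else 0) with hnXd
  set nY : List BY → ℝ≥0∞ := fun P =>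
    (if gd hY i0 T' P ∧ Dp zY P ∉ EY (HT hY P) then LW ΛY P else 0) with hnYd
  set fX : ℕ → List BX → ℝ≥0∞ := fun D A => (if fp hX D A then LW ΛX A else 0) with hfXd
  set fY : ℕ → List BY → ℝ≥0∞ := fun D A => (if fp hY D A then LW ΛY A else 0) with hfYd
  have e3 : ∀ A P : List BX, (if gd hX i0 D A ∧ gd hX i0 T P then
      LW ΛX A * (LW ΛX P * (2 * eY + K A P)) else 0)
      ≤ fX D A * fX T P * (2 * eY) + fX D A * nX P * (∑' A' : List BY, ∑' P' : List BY,
          fY D' A' * nY P')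
        + ∑' A' : List BY, ∑' P' : List BY, S2 A P A' P'
        + ∑' A' : List BY, ∑' P' : List BY, S3 A P A' P' := by
    intro A P
    by_cases hAP : gd hX i0 D A ∧ gd hX i0 T P
    · rw [if_pos hAP, mul_add, mul_add]
      have hfa : fX D A = LW ΛX A := by simp only [hfXd]; rw [if_pos hAP.1.1]
      have hfp : fX T P = LW ΛX P := by simp only [hfXd]; rw [if_pos hAP.2.1]
      rw [hfa, hfp, ← mul_assoc]
      rw [add_assoc, add_assoc]
      refine add_le_add (le_of_eq (by ring)) ?_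
      calc LW ΛX A * (LW ΛX P * K A P) = ∑' A' : List BY, ∑' P' : List BY,
          (LW ΛX A * LW ΛX P) * (if gd hY i0 D' A' ∧ gd hY i0 T' P' then LW ΛY A' * (LW ΛY P' *
          (if Ev hX hY zX zY sX sY lo hb P P' (w + Dp zY A' - Dp zX A) (HT hX A) (HT hY A')
          then 1 else 0)) else 0) := by
            simp only [hK]
            rw [← mul_assoc, ← ENNReal.tsum_mul_left]
            exact tsum_congr fun A' => ENNReal.tsum_mul_left.symm
        _ ≤ ∑' A' : List BY, ∑' P' : List BY, (LW ΛX A * nX P * (fY D' A' * nY P')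
            + (S2 A P A' P' + S3 A P A' P')) := by
            refine ENNReal.tsum_le_tsum fun A' => ENNReal.tsum_le_tsum fun P' => ?_
            by_cases hAP' : gd hY i0 D' A' ∧ gd hY i0 T' P'
            · rw [if_pos hAP']
              by_cases hE : Ev hX hY zX zY sX sY lo hb P P' (w + Dp zY A' - Dp zX A)
                (HT hX A) (HT hY A')
              · rw [if_pos hE, mul_one]
                by_cases hl : Dp zX P ∈ EX (HT hX P)
                · have : S2 A P A' P' = LW ΛX A * (LW ΛX P * (LW ΛY A' * LW ΛY P')) := by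
                    simp only [hS2, hg2]
                    rw [if_pos ⟨hAP, hAP', hl, hE⟩]
                  rw [this]
                  refine le_trans (le_of_eq (by ring)) (le_trans le_self_add le_add_self)
                · by_cases hl' : Dp zY P' ∈ EY (HT hY P')
                  · have : S3 A P A' P' = LW ΛX A * (LW ΛX P * (LW ΛY A' * LW ΛY P')) := by
                      simp only [hS3, hg3]
                      rw [if_pos ⟨hAP, hAP', hl', hE⟩]
                    rw [this]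
                    refine le_trans (le_of_eq (by ring)) (le_trans le_add_self le_add_self)
                  · have h1 : nX P = LW ΛX P := by simp only [hnXd]; rw [if_pos ⟨hAP.2, hl⟩]
                    have h2 : nY P' = LW ΛY P' := by simp only [hnYd]; rw [if_pos ⟨hAP'.2, hl'⟩]
                    have h3 : fY D' A' = LW ΛY A' := by simp only [hfYd]; rw [if_pos hAP'.1.1]
                    rw [h1, h2, h3]
                    refine le_trans (le_of_eq (by ring)) le_self_add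
              · rw [if_neg hE, mul_zero, mul_zero, mul_zero]; exact zero_le
            · rw [if_neg hAP', mul_zero]; exact zero_le
        _ = _ := by
            simp_rw [ENNReal.tsum_add, ENNReal.tsum_mul_left]
    · rw [if_neg hAP]; exact zero_le
  have e4 : ∑' A : List BX, ∑' P : List BX, (if gd hX i0 D A ∧ gd hX i0 T P then
      LW ΛX A * (LW ΛX P * (2 * eY + K A P)) else 0)
      ≤ 2 * eY + uX * uY
        + ∑' A : List BX, ∑' P : List BX, ∑' A' : List BY, ∑' P' : List BY, S2 A P A' P'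
        + ∑' A : List BX, ∑' P : List BX, ∑' A' : List BY, ∑' P' : List BY, S3 A P A' P' := by
    refine (ENNReal.tsum_le_tsum fun A => ENNReal.tsum_le_tsum fun P => e3 A P).trans ?_
    simp_rw [ENNReal.tsum_add]
    refine add_le_add (add_le_add (add_le_add ?_ ?_) le_rfl) le_rfl
    · simp_rw [ENNReal.tsum_mul_right, ENNReal.tsum_mul_left, ENNReal.tsum_mul_right]
      calc _ ≤ 1 * 1 * (2 * eY) := by gcongr <;> first | exact hfX D | exact hfX T
        _ = _ := by ring
    · simp_rw [ENNReal.tsum_mul_left, ENNReal.tsum_mul_right, ENNReal.tsum_mul_left,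
        ENNReal.tsum_mul_right]
      calc _ ≤ 1 * uX * (1 * uY) := by
            gcongr
            · exact hfX D
            · exact hfY D'
        _ = _ := by ring
  refine (add_le_add le_rfl e4).trans ?_
  have hΦ1 : ∀ (g : List BX → List BY → Prop), ∑' P : List BX, ∑' P' : List BY,
      (if gd hX i0 T P ∧ gd hY i0 T' P' ∧ g P P' then LW ΛX P * LW ΛY P' else 0) ≤ 1 := by
    intro g
    calc _ ≤ ∑' P : List BX, ∑' P' : List BY, fX T P * fY T' P' := by
          refine ENNReal.tsum_le_tsum fun P => ENNReal.tsum_le_tsum fun P' => ?_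
          by_cases hg : gd hX i0 T P ∧ gd hY i0 T' P' ∧ g P P'
          · simp only [hfXd, hfYd]
            rw [if_pos hg, if_pos hg.1.1, if_pos hg.2.1.1]
          · rw [if_neg hg]; exact zero_le
      _ = (∑' P : List BX, fX T P) * ∑' P' : List BY, fY T' P' := by
          simp_rw [ENNReal.tsum_mul_left, ENNReal.tsum_mul_right]
      _ ≤ 1 * 1 := mul_le_mul' (hfX T) (hfY T')
      _ = 1 := one_mul 1
  have hbh : ∀ (g : List BX → List BY → G → ℕ → ℕ → Prop) (C : ℝ≥0∞) (μ : G → ℝ≥0∞) (a a' : ℕ),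
      (∀ j ≤ i0, ∀ j' ≤ i0, ∑' x, μ x * ∑' P : List BX, ∑' P' : List BY,
        (if HT hX P = T + j ∧ HT hY P' = T' + j' ∧ g P P' x a a'
          then LW ΛX P * LW ΛY P' else 0) ≤ C) →
      ∑' x, μ x * ∑' P : List BX, ∑' P' : List BY,
        (if gd hX i0 T P ∧ gd hY i0 T' P' ∧ g P P' x a a' then LW ΛX P * LW ΛY P' else 0)
        ≤ (i0 + 1) * ((i0 + 1) * C) := by
    intro g C μ a a' hC
    calc _ ≤ ∑' x, μ x * ∑' j : ℕ, ∑' j' : ℕ, (if j ≤ i0 ∧ j' ≤ i0 then
          ∑' P : List BX, ∑' P' : List BY,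
          (if HT hX P = T + j ∧ HT hY P' = T' + j' ∧ g P P' x a a' then
            LW ΛX P * LW ΛY P' else 0) else 0) :=
          ENNReal.tsum_le_tsum fun x => mul_le_mul_right
            (by_heights T T' i0 (fun P P' => g P P' x a a')) _
      _ = ∑' j : ℕ, ∑' j' : ℕ, ∑' x, μ x * (if j ≤ i0 ∧ j' ≤ i0 then
          ∑' P : List BX, ∑' P' : List BY,
          (if HT hX P = T + j ∧ HT hY P' = T' + j' ∧ g P P' x a a' then
            LW ΛX P * LW ΛY P' else 0) else 0) := by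
          simp_rw [← ENNReal.tsum_mul_left]
          rw [ENNReal.tsum_comm]
          exact tsum_congr fun j => ENNReal.tsum_comm
      _ ≤ ∑' j : ℕ, ∑' j' : ℕ, (if j ≤ i0 ∧ j' ≤ i0 then C else 0) := by
          refine ENNReal.tsum_le_tsum fun j => ENNReal.tsum_le_tsum fun j' => ?_
          by_cases hj : j ≤ i0 ∧ j' ≤ i0
          · simp only [if_pos hj]
            exact hC j hj.1 j' hj.2
          · simp [hj]
      _ = _ := sum_i0' i0 C
  have hS2le : ∑' A : List BX, ∑' P : List BX, ∑' A' : List BY, ∑' P' : List BY, S2 A P A' P'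
      ≤ bX + (i0 + 1) * ((i0 + 1) * ((i0 + 1) * ((i0 + 1) * B2))) := by
    refine le_trans (ENNReal.tsum_le_tsum fun A => ENNReal.tsum_le_tsum fun P =>
      ENNReal.tsum_le_tsum fun A' => ENNReal.tsum_le_tsum fun P' => ?_)
      ((pieces (ΛX := ΛX) (ΛY := ΛY) (hX := hX) (hY := hY) (zX := zX) (zY := zY)
        D T D' T' i0 w g2).trans ?_)
    · by_cases hc : (gd hX i0 D A ∧ gd hX i0 T P) ∧ (gd hY i0 D' A' ∧ gd hY i0 T' P') ∧
        g2 P P' (w + Dp zY A' - Dp zX A) (HT hX A) (HT hY A')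
      · simp only [hS2]
        rw [if_pos hc]
      · simp only [hS2]
        rw [if_neg hc]
    exact tie (fl ΛX hX zX D) (fl ΛY hY zY D') (fl_mass ΛX hX zX D (hfX D))
      (fl_mass ΛY hY zY D' (hfY D')) agX bbX hleX MX bX hagX hbbX i0 w
      (fun o o' x => ∑' P : List BX, ∑' P' : List BY, (if gd hX i0 T P ∧ gd hY i0 T' P' ∧
          g2 P P' x (D + o) (D' + o') then LW ΛX P * LW ΛY P' else 0))
      (fun o o' x => hΦ1 _) ((i0 + 1) * ((i0 + 1) * B2))
      (fun o ho o' ho' μ hμ hμM => hbh g2 B2 μ (D + o) (D' + o')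
        (fun j hj j' hj' => H2 o ho o' ho' j hj j' hj' μ hμ hμM))
  have hS3le : ∑' A : List BX, ∑' P : List BX, ∑' A' : List BY, ∑' P' : List BY, S3 A P A' P'
      ≤ bY + (i0 + 1) * ((i0 + 1) * ((i0 + 1) * ((i0 + 1) * B3))) := by
    refine le_trans (ENNReal.tsum_le_tsum fun A => ENNReal.tsum_le_tsum fun P =>
      ENNReal.tsum_le_tsum fun A' => ENNReal.tsum_le_tsum fun P' => ?_)
      ((pieces (ΛX := ΛX) (ΛY := ΛY) (hX := hX) (hY := hY) (zX := zX) (zY := zY)
        D T D' T' i0 w g3).trans ?_)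
    · by_cases hc : (gd hX i0 D A ∧ gd hX i0 T P) ∧ (gd hY i0 D' A' ∧ gd hY i0 T' P') ∧
        g3 P P' (w + Dp zY A' - Dp zX A) (HT hX A) (HT hY A')
      · simp only [hS3]
        rw [if_pos hc]
      · simp only [hS3]
        rw [if_neg hc]
    exact tie' (fl ΛX hX zX D) (fl ΛY hY zY D') (fl_mass ΛX hX zX D (hfX D))
      (fl_mass ΛY hY zY D' (hfY D')) agY bbY hleY MY bY hagY hbbY i0 w
      (fun o o' x => ∑' P : List BX, ∑' P' : List BY, (if gd hX i0 T P ∧ gd hY i0 T' P' ∧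
          g3 P P' x (D + o) (D' + o') then LW ΛX P * LW ΛY P' else 0))
      (fun o o' x => hΦ1 _) ((i0 + 1) * ((i0 + 1) * B3))
      (fun o ho o' ho' μ hμ hμM => hbh g3 B3 μ (D + o) (D' + o')
        (fun j hj j' hj' => H3 o ho o' ho' j hj j' hj' μ hμ hμM))
  calc _ ≤ 2 * eX + (2 * eY + uX * uY
      + (bX + (i0 + 1) * ((i0 + 1) * ((i0 + 1) * ((i0 + 1) * B2))))
      + (bY + (i0 + 1) * ((i0 + 1) * ((i0 + 1) * ((i0 + 1) * B3))))) := by gcongr
    _ = _ := by ring

end main

end Crest.Agent.R154.OneWin768
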