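import Crest.Agent.R154.B5Abs_566

/-! Row 154, T0219, ROAD 801: the bound of one window (helper975), number-free. -/

set_option autoImplicit false

namespace Crest.Agent.R154.OneWin975

open scoped ENNReal
open Crest.Agent.R154.B5A

section trace

variable {B G : Type*} [AddCommGroup G]

/-- (position, depth) read by a list of blocks hung at position `x`, depth `a` -/
def Tr (s : B → Set (G × ℕ)) (z : B → G) (h : B → ℕ) : List B → G → ℕ → Set (G × ℕ)
  | [], _, _ => ∅
  | b :: L, x, a => (fun q : G × ℕ => (x + q.1, a + q.2)) '' s b ∪ Tr s z h L (x + z b) (a + h b)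

/-- displacement -/
def Dp (z : B → G) (L : List B) : G := (L.map z).sum

lemma Dp_nil (z : B → G) : Dp z [] = 0 := by simp [Dp]

lemma Dp_cons (z : B → G) (b : B) (L : List B) : Dp z (b :: L) = z b + Dp z L := by simp [Dp]

lemma Dp_append (z : B → G) (L L' : List B) : Dp z (L ++ L') = Dp z L + Dp z L' := by
  simp [Dp]

variable (s : B → Set (G × ℕ)) (z : B → G) (h : B → ℕ)

lemma Tr_append (L L' : List B) (x : G) (a : ℕ) :
    Tr s z h (L ++ L') x a = Tr s z h L x a ∪ Tr s z h L' (x + Dp z L) (a + HT h L) := by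
  induction L generalizing x a with
  | nil => simp [Tr, Dp_nil, HT_nil]
  | cons b L ih =>
    simp only [List.cons_append, Tr, Dp_cons, HT_cons]
    rw [ih, Set.union_assoc, add_assoc, add_assoc]

lemma Tr_shift (L : List B) (x c : G) (a : ℕ) (g : G) (k : ℕ) :
    (g + c, k) ∈ Tr s z h L (x + c) a ↔ (g, k) ∈ Tr s z h L x a := by
  induction L generalizing x a with
  | nil => simp [Tr]
  | cons b L ih =>
    simp only [Tr, Set.mem_union, Set.mem_image, Prod.mk.injEq]
    rw [show x + c + z b = x + z b + c by abel, ih]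
    refine or_congr ?_ Iff.rfl
    constructor
    · rintro ⟨q, hq, h1, h2⟩
      exact ⟨q, hq, by
        have : x + q.1 + c = g + c := by rw [← h1]; abel
        exact add_right_cancel this, h2⟩
    · rintro ⟨q, hq, h1, h2⟩
      exact ⟨q, hq, by rw [← h1]; abel, h2⟩

lemma Tr_depth (hs : ∀ b, ∀ q ∈ s b, 1 ≤ q.2 ∧ q.2 ≤ h b) (L : List B) (x : G) (a : ℕ)
    (p : G × ℕ) (hp : p ∈ Tr s z h L x a) : a < p.2 ∧ p.2 ≤ a + HT h L := by
  induction L generalizing x a with
  | nil => simp [Tr] at hp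
  | cons b L ih =>
    rw [HT_cons]
    rcases hp with ⟨q, hq, rfl⟩ | hp
    · have := hs b q hq
      simp only
      omega
    · have := ih _ _ hp
      omega

end trace

section fpass

variable {B : Type*} (h : B → ℕ)

/-- first passage of depth `D` -/
def fp (D : ℕ) (A : List B) : Prop := D ≤ HT h A ∧ ∀ j < A.length, HT h (A.take j) < D

/-- first passage with overshoot at most `i0` -/
def gd (i0 D : ℕ) (A : List B) : Prop := fp h D A ∧ HT h A ≤ D + i0

open Classical in
lemma tsum_fp (D : ℕ) (F : List B → ℝ≥0∞) :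
    ∑' L : List B, (if D ≤ HT h L then F L else 0)
      ≤ ∑' A : List B, ∑' R : List B, (if fp h D A then F (A ++ R) else 0) := by
  rw [← ENNReal.tsum_prod (f := fun A R => if fp h D A then F (A ++ R) else 0)]
  have hex : ∀ L : List B, D ≤ HT h L → ∃ k, D ≤ HT h (L.take k) := fun L hL =>
    ⟨L.length, by rwa [List.take_length]⟩
  set idx : List B → ℕ := fun L => if hL : D ≤ HT h L then Nat.find (hex L hL) else 0 with hidx
  have hinj : Function.Injective (fun L : List B => (L.take (idx L), L.drop (idx L))) := by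
    intro L L' hLL
    simp only [Prod.mk.injEq] at hLL
    rw [← List.take_append_drop (idx L) L, hLL.1, hLL.2, List.take_append_drop]
  refine le_trans ?_ (ENNReal.tsum_comp_le_tsum_of_injective hinj
    (fun p : List B × List B => if fp h D p.1 then F (p.1 ++ p.2) else 0))
  refine ENNReal.tsum_le_tsum fun L => ?_
  by_cases hL : D ≤ HT h L
  · have hi : idx L = Nat.find (hex L hL) := by simp only [hidx, dif_pos hL]
    have h1 : fp h D (L.take (idx L)) := by
      refine ⟨?_, ?_⟩
      · rw [hi]; exact Nat.find_spec (hex L hL)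
      · intro j hj
        rw [List.length_take] at hj
        have hj2 : j < idx L := lt_of_lt_of_le hj (min_le_left _ _)
        rw [List.take_take, min_eq_left hj2.le]
        have := Nat.find_min (hex L hL) (hi ▸ hj2)
        omega
    rw [if_pos hL, if_pos h1, List.take_append_drop]
  · rw [if_neg hL]; exact zero_le

variable (Λ : B → ℝ≥0∞)

open Classical in
/-- a crossing of height `n` = first passage of `D`, first passage of `T`, rest -/
lemma split1 (D T i0 n : ℕ) (hn : D + i0 + T ≤ n) (e : ℝ≥0∞)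
    (hU : ∀ r, ∑' R : List B, (if HT h R = r then LW Λ R else 0) ≤ 1)
    (hD1 : ∑' A : List B, (if fp h D A then LW Λ A else 0) ≤ 1)
    (hDe : ∑' A : List B, (if fp h D A ∧ D + i0 < HT h A then LW Λ A else 0) ≤ e)
    (hTe : ∑' A : List B, (if fp h T A ∧ T + i0 < HT h A then LW Λ A else 0) ≤ e)
    (F : List B → ℝ≥0∞) (hF : ∀ L, F L ≤ 1) (F' : List B → List B → ℝ≥0∞)
    (hFF : ∀ A P R, gd h i0 D A → gd h i0 T P → F (A ++ (P ++ R)) ≤ F' A P) :
    ∑' L : List B, (if HT h L = n then LW Λ L * F L else 0)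
      ≤ 2 * e + ∑' A : List B, ∑' P : List B,
        (if gd h i0 D A ∧ gd h i0 T P then LW Λ A * (LW Λ P * F' A P) else 0) := by
  have s1 : ∑' L : List B, (if HT h L = n then LW Λ L * F L else 0)
      ≤ ∑' A : List B, ∑' R : List B, (if fp h D A then
        (if HT h (A ++ R) = n then LW Λ (A ++ R) * F (A ++ R) else 0) else 0) := by
    refine le_trans (le_of_eq ?_) (tsum_fp h D (fun L => if HT h L = n then LW Λ L * F L else 0))
    refine tsum_congr fun L => ?_
    by_cases hL : HT h L = n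
    · rw [if_pos (by omega : D ≤ HT h L)]
    · simp [hL]
  -- split according to the overshoot of `A`
  have s2 : ∀ A : List B, ∑' R : List B, (if fp h D A then
        (if HT h (A ++ R) = n then LW Λ (A ++ R) * F (A ++ R) else 0) else 0)
      ≤ (if fp h D A ∧ D + i0 < HT h A then LW Λ A else 0)
        + (if fp h D A then LW Λ A else 0) * ∑' P : List B,
            (if fp h T P ∧ T + i0 < HT h P then LW Λ P else 0)
        + ∑' P : List B,
        (if gd h i0 D A ∧ gd h i0 T P then LW Λ A * (LW Λ P * F' A P) else 0) := by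
    intro A
    by_cases hA : fp h D A
    · by_cases hA2 : D + i0 < HT h A
      · rw [if_pos ⟨hA, hA2⟩]
        refine le_add_right (le_add_right ?_)
        calc ∑' R : List B, (if fp h D A then
              (if HT h (A ++ R) = n then LW Λ (A ++ R) * F (A ++ R) else 0) else 0)
            ≤ ∑' R : List B, LW Λ A * (if HT h R = n - HT h A then LW Λ R else 0) := by
              refine ENNReal.tsum_le_tsum fun R => ?_
              rw [if_pos hA]
              by_cases hR : HT h (A ++ R) = n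
              · have hR2 : HT h R = n - HT h A := by rw [HT_append] at hR; omega
                rw [if_pos hR, if_pos hR2, LW_append]
                calc LW Λ A * LW Λ R * F (A ++ R) ≤ LW Λ A * LW Λ R * 1 :=
                      mul_le_mul_right (hF _) _
                  _ = _ := mul_one _
              · rw [if_neg hR]; exact zero_le
          _ = LW Λ A * ∑' R : List B, (if HT h R = n - HT h A then LW Λ R else 0) :=
              ENNReal.tsum_mul_left
          _ ≤ LW Λ A * 1 := mul_le_mul_right (hU _) _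
          _ = _ := mul_one _
      · have hgA : gd h i0 D A := ⟨hA, by omega⟩
        rw [if_neg (fun hh => hA2 hh.2), zero_add, if_pos hA]
        calc ∑' R : List B, (if fp h D A then
              (if HT h (A ++ R) = n then LW Λ (A ++ R) * F (A ++ R) else 0) else 0)
            ≤ ∑' R : List B, (if T ≤ HT h R then (LW Λ A * (if HT h R = n - HT h A
                then LW Λ R * F (A ++ R) else 0)) else 0) := by
              refine ENNReal.tsum_le_tsum fun R => ?_
              rw [if_pos hA]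
              by_cases hR : HT h (A ++ R) = n
              · have hR2 : HT h R = n - HT h A := by rw [HT_append] at hR; omega
                have hR3 : T ≤ HT h R := by omega
                rw [if_pos hR, if_pos hR3, if_pos hR2, LW_append, mul_assoc]
              · rw [if_neg hR]; exact zero_le
          _ ≤ ∑' P : List B, ∑' R : List B, (if fp h T P then (LW Λ A *
                (if HT h (P ++ R) = n - HT h A then LW Λ (P ++ R) * F (A ++ (P ++ R)) else 0))
                else 0) := tsum_fp h T (fun L => LW Λ A *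
                (if HT h L = n - HT h A then LW Λ L * F (A ++ L) else 0))
          _ ≤ ∑' P : List B, (LW Λ A * (if fp h T P ∧ T + i0 < HT h P then LW Λ P else 0)
                + (if gd h i0 D A ∧ gd h i0 T P then LW Λ A * (LW Λ P * F' A P) else 0)) := by
              refine ENNReal.tsum_le_tsum fun P => ?_
              by_cases hP : fp h T P
              · have key : ∀ c : ℝ≥0∞, (∀ R, F (A ++ (P ++ R)) ≤ c) →
                    ∑' R : List B, (if fp h T P then (LW Λ A *
                    (if HT h (P ++ R) = n - HT h A then LW Λ (P ++ R) * F (A ++ (P ++ R)) else 0))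
                    else 0) ≤ LW Λ A * (LW Λ P * c) := by
                  intro c hc
                  calc _ ≤ ∑' R : List B, (LW Λ A * (LW Λ P * c)) *
                        (if HT h R = n - HT h A - HT h P then LW Λ R else 0) := by
                        refine ENNReal.tsum_le_tsum fun R => ?_
                        rw [if_pos hP]
                        by_cases hR : HT h (P ++ R) = n - HT h A
                        · have hR2 : HT h R = n - HT h A - HT h P := by
                            rw [HT_append] at hR; omega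
                          rw [if_pos hR, if_pos hR2, LW_append]
                          calc LW Λ A * (LW Λ P * LW Λ R * F (A ++ (P ++ R)))
                              ≤ LW Λ A * (LW Λ P * LW Λ R * c) := by gcongr; exact hc R
                            _ = _ := by ring
                        · rw [if_neg hR, mul_zero]; exact zero_le
                    _ = (LW Λ A * (LW Λ P * c)) * ∑' R : List B,
                        (if HT h R = n - HT h A - HT h P then LW Λ R else 0) :=
                        ENNReal.tsum_mul_left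
                    _ ≤ (LW Λ A * (LW Λ P * c)) * 1 := mul_le_mul_right (hU _) _
                    _ = _ := mul_one _
                by_cases hP2 : T + i0 < HT h P
                · rw [if_pos ⟨hP, hP2⟩]
                  refine le_trans (key 1 fun R => hF _) ?_
                  rw [mul_one]; exact le_self_add
                · have hgP : gd h i0 T P := ⟨hP, by omega⟩
                  rw [if_pos (show gd h i0 D A ∧ gd h i0 T P from ⟨hgA, hgP⟩)]
                  exact le_trans (key _ fun R => hFF A P R hgA hgP) le_add_self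
              · simp [hP]
          _ = _ := by rw [ENNReal.tsum_add, ENNReal.tsum_mul_left]
    · simp [hA]
  refine s1.trans ((ENNReal.tsum_le_tsum s2).trans ?_)
  rw [ENNReal.tsum_add, ENNReal.tsum_add, ENNReal.tsum_mul_right]
  refine add_le_add ?_ le_rfl
  rw [two_mul]
  refine add_le_add hDe ?_
  calc _ ≤ 1 * e := mul_le_mul' hD1 hTe
    _ = e := one_mul e

end fpass

section tie

variable {G : Type*} [AddCommGroup G]

lemma sum_i0 (i0 : ℕ) (c : ℝ≥0∞) : ∑' o : ℕ, (if o ≤ i0 then c else 0) = (i0 + 1) * c := by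
  rw [tsum_eq_sum (s := Finset.range (i0 + 1))]
  · rw [Finset.sum_congr rfl (g := fun _ => c)]
    · simp
    · intro o ho
      rw [if_pos (by have := Finset.mem_range.1 ho; omega)]
  · intro o ho
    rw [if_neg (by intro h; exact ho (Finset.mem_range.2 (by omega)))]

open Classical in
lemma tie (fx fy : ℕ → G → ℝ≥0∞) (hfx : ∑' o, ∑' z, fx o z ≤ 1) (hfy : ∑' o, ∑' z, fy o z ≤ 1)
    (ag bb : ℕ → G → ℝ≥0∞) (hle : ∀ o z, fx o z ≤ ag o z + bb o z) (M b : ℝ≥0∞)
    (hag : ∀ o z, ag o z ≤ M) (hbb : ∑' o, ∑' z, bb o z ≤ b)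
    (i0 : ℕ) (w : G) (Φ : ℕ → ℕ → G → ℝ≥0∞) (hΦ : ∀ o o' x, Φ o o' x ≤ 1) (B' : ℝ≥0∞)
    (hB : ∀ o ≤ i0, ∀ o' ≤ i0, ∀ μ : G → ℝ≥0∞, ∑' x, μ x ≤ 1 → (∀ x, μ x ≤ M) →
      ∑' x, μ x * Φ o o' x ≤ B') :
    ∑' o, ∑' z, ∑' o', ∑' z',
      (if o ≤ i0 ∧ o' ≤ i0 then fx o z * (fy o' z' * Φ o o' (w + z' - z)) else 0)
      ≤ b + (i0 + 1) * ((i0 + 1) * B') := by
  set m : ℕ → G → ℝ≥0∞ := fun o z => min (fx o z) (ag o z) with hm
  have hfm : ∀ o z, fx o z ≤ bb o z + m o z := by
    intro o z
    rcases le_total (fx o z) (ag o z) with h | h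
    · simp only [hm, min_eq_left h]; exact le_add_self
    · simp only [hm, min_eq_right h]; rw [add_comm]; exact hle o z
  have hm1 : ∀ o, ∑' z, m o z ≤ 1 := fun o =>
    (ENNReal.tsum_le_tsum fun z => min_le_left _ _).trans
      ((ENNReal.le_tsum (f := fun o => ∑' z, fx o z) o).trans hfx)
  have hy1 : ∀ o, ∑' z, fy o z ≤ 1 := fun o =>
    (ENNReal.le_tsum (f := fun o => ∑' z, fy o z) o).trans hfy
  have e1 : ∑' o, ∑' z, ∑' o', ∑' z',
      (if o ≤ i0 ∧ o' ≤ i0 then fx o z * (fy o' z' * Φ o o' (w + z' - z)) else 0)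
      ≤ ∑' o, ∑' z, ∑' o', ∑' z', (bb o z * fy o' z' +
        (if o ≤ i0 ∧ o' ≤ i0 then m o z * (fy o' z' * Φ o o' (w + z' - z)) else 0)) := by
    refine ENNReal.tsum_le_tsum fun o => ENNReal.tsum_le_tsum fun z =>
      ENNReal.tsum_le_tsum fun o' => ENNReal.tsum_le_tsum fun z' => ?_
    by_cases hc : o ≤ i0 ∧ o' ≤ i0
    · rw [if_pos hc, if_pos hc]
      calc fx o z * (fy o' z' * Φ o o' (w + z' - z))
          ≤ (bb o z + m o z) * (fy o' z' * Φ o o' (w + z' - z)) := mul_le_mul_left (hfm o z) _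
        _ = bb o z * (fy o' z' * Φ o o' (w + z' - z))
            + m o z * (fy o' z' * Φ o o' (w + z' - z)) := add_mul _ _ _
        _ ≤ _ := by
            refine add_le_add ?_ le_rfl
            refine mul_le_mul_right ?_ _
            calc fy o' z' * Φ o o' (w + z' - z) ≤ fy o' z' * 1 := mul_le_mul_right (hΦ _ _ _) _
              _ = _ := mul_one _
    · rw [if_neg hc]; exact zero_le
  refine e1.trans ?_
  simp_rw [ENNReal.tsum_add]
  refine add_le_add ?_ ?_
  · simp_rw [ENNReal.tsum_mul_left, ENNReal.tsum_mul_right]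
    calc _ ≤ b * 1 := mul_le_mul' hbb hfy
      _ = b := mul_one b
  · calc ∑' o, ∑' z, ∑' o', ∑' z',
        (if o ≤ i0 ∧ o' ≤ i0 then m o z * (fy o' z' * Φ o o' (w + z' - z)) else 0)
        = ∑' o, ∑' o', ∑' z, ∑' z',
        (if o ≤ i0 ∧ o' ≤ i0 then m o z * (fy o' z' * Φ o o' (w + z' - z)) else 0) :=
          tsum_congr fun o => ENNReal.tsum_comm
      _ ≤ ∑' o : ℕ, ∑' o' : ℕ, (if o ≤ i0 then (if o' ≤ i0 then B' else 0) else 0) := by
          refine ENNReal.tsum_le_tsum fun o => ENNReal.tsum_le_tsum fun o' => ?_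
          by_cases ho : o ≤ i0
          · by_cases ho' : o' ≤ i0
            · rw [if_pos ho, if_pos ho']
              simp_rw [if_pos (show o ≤ i0 ∧ o' ≤ i0 from ⟨ho, ho'⟩)]
              set μ : G → ℝ≥0∞ := fun x => ∑' z', m o (w + z' - x) * fy o' z' with hμ
              have hμ1 : ∑' x, μ x ≤ 1 := by
                simp only [hμ]
                rw [ENNReal.tsum_comm]
                calc ∑' z', ∑' x, m o (w + z' - x) * fy o' z'
                    = ∑' z', (∑' z, m o z) * fy o' z' := by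
                      refine tsum_congr fun z' => ?_
                      rw [ENNReal.tsum_mul_right]
                      congr 1
                      exact (Equiv.subLeft (w + z')).tsum_eq (fun z => m o z)
                  _ = (∑' z, m o z) * ∑' z', fy o' z' := ENNReal.tsum_mul_left
                  _ ≤ 1 * 1 := mul_le_mul' (hm1 o) (hy1 o')
                  _ = 1 := one_mul 1
              have hμM : ∀ x, μ x ≤ M := by
                intro x
                calc μ x ≤ ∑' z', M * fy o' z' := ENNReal.tsum_le_tsum fun z' =>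
                      mul_le_mul_left ((min_le_right _ _).trans (hag _ _)) _
                  _ = M * ∑' z', fy o' z' := ENNReal.tsum_mul_left
                  _ ≤ M * 1 := mul_le_mul_right (hy1 o') _
                  _ = M := mul_one M
              refine le_trans (le_of_eq ?_) (hB o ho o' ho' μ hμ1 hμM)
              rw [ENNReal.tsum_comm]
              calc ∑' z', ∑' z, m o z * (fy o' z' * Φ o o' (w + z' - z))
                  = ∑' z', ∑' x, m o (w + z' - x) * (fy o' z' * Φ o o' x) := by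
                    refine tsum_congr fun z' => ?_
                    rw [← (Equiv.subLeft (w + z')).tsum_eq
                      (fun z => m o z * (fy o' z' * Φ o o' (w + z' - z)))]
                    refine tsum_congr fun x => ?_
                    simp only [Equiv.subLeft_apply, sub_sub_cancel]
                _ = ∑' x, ∑' z', m o (w + z' - x) * (fy o' z' * Φ o o' x) := ENNReal.tsum_comm
                _ = _ := by
                    refine tsum_congr fun x => ?_
                    simp only [hμ]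
                    rw [← ENNReal.tsum_mul_right]
                    exact tsum_congr fun z' => by ring
            · simp [ho, ho']
          · simp [ho]
      _ = ∑' o : ℕ, (if o ≤ i0 then (i0 + 1) * B' else 0) := by
          refine tsum_congr fun o => ?_
          by_cases ho : o ≤ i0
          · simp only [ho, if_true]; exact sum_i0 i0 B'
          · simp [ho]
      _ = _ := sum_i0 i0 _

open Classical in
/-- the mirror of `tie`: the second law is smooth -/
lemma tie' (fx fy : ℕ → G → ℝ≥0∞) (hfx : ∑' o, ∑' z, fx o z ≤ 1) (hfy : ∑' o, ∑' z, fy o z ≤ 1)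
    (ag bb : ℕ → G → ℝ≥0∞) (hle : ∀ o z, fy o z ≤ ag o z + bb o z) (M b : ℝ≥0∞)
    (hag : ∀ o z, ag o z ≤ M) (hbb : ∑' o, ∑' z, bb o z ≤ b)
    (i0 : ℕ) (w : G) (Φ : ℕ → ℕ → G → ℝ≥0∞) (hΦ : ∀ o o' x, Φ o o' x ≤ 1) (B' : ℝ≥0∞)
    (hB : ∀ o ≤ i0, ∀ o' ≤ i0, ∀ μ : G → ℝ≥0∞, ∑' x, μ x ≤ 1 → (∀ x, μ x ≤ M) →
      ∑' x, μ x * Φ o o' x ≤ B') :
    ∑' o, ∑' z, ∑' o', ∑' z',
      (if o ≤ i0 ∧ o' ≤ i0 then fx o z * (fy o' z' * Φ o o' (w + z' - z)) else 0)
      ≤ b + (i0 + 1) * ((i0 + 1) * B') := by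
  have key := tie fy fx hfy hfx ag bb hle M b hag hbb i0 (-w) (fun o' o y => Φ o o' (-y))
    (fun _ _ _ => hΦ _ _ _) B' (by
      intro o' ho' o ho μ hμ hμM
      refine le_trans (le_of_eq ?_) (hB o ho o' ho' (fun x => μ (-x)) ?_ fun x => hμM _)
      · rw [← (Equiv.neg G).tsum_eq (fun x => μ x * Φ o o' (-x))]
        refine tsum_congr fun x => ?_
        simp only [Equiv.neg_apply, neg_neg]
      · exact le_trans (le_of_eq ((Equiv.neg G).tsum_eq μ)) hμ)
  refine le_trans (le_of_eq ?_) key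
  calc _ = ∑' o, ∑' o', ∑' z, ∑' z',
        (if o ≤ i0 ∧ o' ≤ i0 then fx o z * (fy o' z' * Φ o o' (w + z' - z)) else 0) :=
          tsum_congr fun o => ENNReal.tsum_comm
    _ = ∑' o', ∑' o, ∑' z', ∑' z,
        (if o ≤ i0 ∧ o' ≤ i0 then fx o z * (fy o' z' * Φ o o' (w + z' - z)) else 0) := by
          rw [ENNReal.tsum_comm]
          exact tsum_congr fun o' => tsum_congr fun o => ENNReal.tsum_comm
    _ = ∑' o', ∑' z', ∑' o, ∑' z,
        (if o ≤ i0 ∧ o' ≤ i0 then fx o z * (fy o' z' * Φ o o' (w + z' - z)) else 0) :=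
          tsum_congr fun o' => ENNReal.tsum_comm
    _ = _ := by
          refine tsum_congr fun o' => tsum_congr fun z' => tsum_congr fun o =>
            tsum_congr fun z => ?_
          by_cases hc : o ≤ i0 ∧ o' ≤ i0
          · rw [if_pos hc, if_pos hc.symm]
            rw [show -(-w + z - z') = w + z' - z by abel]
            ring
          · rw [if_neg hc, if_neg (fun h => hc h.symm)]

end tie

section push

variable {B G : Type*} [AddCommGroup G] (Λ : B → ℝ≥0∞) (h : B → ℕ) (z : B → G)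

open Classical in
/-- joint law of (overshoot, displacement) of the first passage of depth `D` -/
noncomputable def fl (D : ℕ) (o : ℕ) (g : G) : ℝ≥0∞ :=
  ∑' A : List B, (if fp h D A ∧ HT h A = D + o ∧ Dp z A = g then LW Λ A else 0)

open Classical in
lemma fl_mass (D : ℕ) (hD1 : ∑' A : List B, (if fp h D A then LW Λ A else 0) ≤ 1) :
    ∑' o, ∑' g, fl Λ h z D o g ≤ 1 := by
  refine le_trans ?_ hD1
  calc ∑' o, ∑' g, fl Λ h z D o g
      = ∑' A : List B, ∑' o : ℕ, ∑' g : G,
        (if fp h D A ∧ HT h A = D + o ∧ Dp z A = g then LW Λ A else 0) := by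
        simp only [fl]
        rw [ENNReal.tsum_comm]
        rw [← ENNReal.tsum_comm]
        calc _ = ∑' o : ℕ, ∑' A : List B, ∑' g : G,
              (if fp h D A ∧ HT h A = D + o ∧ Dp z A = g then LW Λ A else 0) :=
              tsum_congr fun o => ENNReal.tsum_comm
          _ = _ := ENNReal.tsum_comm
    _ ≤ _ := by
        refine ENNReal.tsum_le_tsum fun A => ?_
        by_cases hA : fp h D A
        · rw [if_pos hA, tsum_eq_single (HT h A - D), tsum_eq_single (Dp z A)]
          · split_ifs <;> simp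
          · intro g hg
            rw [if_neg (fun hh => hg hh.2.2.symm)]
          · intro o ho
            rw [ENNReal.tsum_eq_zero]
            intro g
            rw [if_neg (fun hh => ho (by omega))]
        · simp [hA]

open Classical in
lemma push_le (D i0 : ℕ) (H : ℕ → G → ℝ≥0∞) :
    ∑' A : List B, (if gd h i0 D A then LW Λ A * H (HT h A - D) (Dp z A) else 0)
      ≤ ∑' o, ∑' g, (if o ≤ i0 then fl Λ h z D o g * H o g else 0) := by
  calc _ ≤ ∑' A : List B, ∑' o : ℕ, ∑' g : G, (if o ≤ i0 then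
        (if fp h D A ∧ HT h A = D + o ∧ Dp z A = g then LW Λ A else 0) * H o g else 0) := by
        refine ENNReal.tsum_le_tsum fun A => ?_
        by_cases hA : gd h i0 D A
        · have h1 := hA.1.1
          have h2 := hA.2
          refine le_trans ?_ (ENNReal.le_tsum (HT h A - D))
          refine le_trans ?_ (ENNReal.le_tsum (Dp z A))
          rw [if_pos hA, if_pos (by omega), if_pos ⟨hA.1, by omega, rfl⟩]
        · rw [if_neg hA]; exact zero_le
    _ = ∑' o : ℕ, ∑' g : G, ∑' A : List B, (if o ≤ i0 then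
        (if fp h D A ∧ HT h A = D + o ∧ Dp z A = g then LW Λ A else 0) * H o g else 0) := by
        rw [ENNReal.tsum_comm]
        exact tsum_congr fun o => ENNReal.tsum_comm
    _ = _ := by
        refine tsum_congr fun o => tsum_congr fun g => ?_
        by_cases ho : o ≤ i0
        · simp only [ho, if_true]
          rw [ENNReal.tsum_mul_right]
          rfl
        · simp [ho]

end push

section window

variable {BX BY G : Type*} [AddCommGroup G] (ΛX : BX → ℝ≥0∞) (ΛY : BY → ℝ≥0∞)
  (hX : BX → ℕ) (hY : BY → ℕ) (zX : BX → G) (zY : BY → G)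
  (sX : BX → Set (G × ℕ)) (sY : BY → Set (G × ℕ))

/-- common sites of an `X` list hung at `(x, a)` and a `Y` list hung at `(y, a')` -/
def Co (L : List BX) (L' : List BY) (x : G) (a : ℕ) (y : G) (a' : ℕ) : Set (G × ℕ) :=
  {p | p ∈ Tr sX zX hX L x a ∧ p ∈ Tr sY zY hY L' y a'}

/-- the full event: first contact in `[lo, hi]`, nothing in the slab `(hb, c]` -/
def FE (lo hi hb c : ℕ) (w : G) (L : List BX) (L' : List BY) : Prop :=
  (∃ p ∈ Co hX hY zX zY sX sY L L' 0 0 w 0, p.2 ≤ hi) ∧
  (∀ p ∈ Co hX hY zX zY sX sY L L' 0 0 w 0, lo ≤ p.2) ∧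
  (∀ p ∈ Co hX hY zX zY sX sY L L' 0 0 w 0, ¬ (hb < p.2 ∧ p.2 ≤ c))

/-- the event of the pieces -/
def Ev (lo hb : ℕ) (P : List BX) (P' : List BY) (x : G) (a a' : ℕ) : Prop :=
  (∃ p, p ∈ Co hX hY zX zY sX sY P P' 0 a x a') ∧
  (∀ p ∈ Co hX hY zX zY sX sY P P' 0 a x a', lo ≤ p.2 ∧ p.2 ≤ hb)

variable {hX hY zX zY sX sY}

lemma fe_ev (hsX : ∀ b, ∀ q ∈ sX b, 1 ≤ q.2 ∧ q.2 ≤ hX b)
    (hsY : ∀ b, ∀ q ∈ sY b, 1 ≤ q.2 ∧ q.2 ≤ hY b) {D T D' T' i0 lo hi hb c : ℕ}
    (h1 : D + i0 < lo) (h1' : D' + i0 < lo)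
    (h2 : hi ≤ D + T) (h2' : hi ≤ D' + T') (hc : D + T + 2 * i0 ≤ c)
    {w : G} {A P R : List BX} {A' P' R' : List BY}
    (gA : gd hX i0 D A) (gP : gd hX i0 T P) (gA' : gd hY i0 D' A') (gP' : gd hY i0 T' P')
    (hF : FE hX hY zX zY sX sY lo hi hb c w (A ++ (P ++ R)) (A' ++ (P' ++ R'))) :
    Ev hX hY zX zY sX sY lo hb P P' (w + Dp zY A' - Dp zX A) (HT hX A) (HT hY A') := by
  obtain ⟨⟨p, ⟨hpX, hpY⟩, hphi⟩, hlo, hsl⟩ := hF
  have gA1 := gA.1.1
  have gA2 := gA.2
  have gP1 := gP.1.1
  have gP2 := gP.2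
  have gA1' := gA'.1.1
  have gA2' := gA'.2
  have gP1' := gP'.1.1
  have gP2' := gP'.2
  have hpl := hlo p ⟨hpX, hpY⟩
  rw [Tr_append, Tr_append] at hpX hpY
  simp only [zero_add] at hpX hpY
  have hX2 : p ∈ Tr sX zX hX P (Dp zX A) (HT hX A) := by
    rcases hpX with hp | hp | hp
    · have := Tr_depth sX zX hX hsX A _ _ _ hp; omega
    · exact hp
    · have := Tr_depth sX zX hX hsX R _ _ _ hp; omega
  have hY2 : p ∈ Tr sY zY hY P' (w + Dp zY A') (HT hY A') := by
    rcases hpY with hp | hp | hp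
    · have := Tr_depth sY zY hY hsY A' _ _ _ hp; omega
    · exact hp
    · have := Tr_depth sY zY hY hsY R' _ _ _ hp; omega
  have shX : ∀ g k, (g, k) ∈ Tr sX zX hX P 0 (HT hX A) ↔
      (g + Dp zX A, k) ∈ Tr sX zX hX P (Dp zX A) (HT hX A) := by
    intro g k
    have := Tr_shift sX zX hX P 0 (Dp zX A) (HT hX A) g k
    rw [zero_add] at this
    exact this.symm
  have shY : ∀ g k, (g, k) ∈ Tr sY zY hY P' (w + Dp zY A' - Dp zX A) (HT hY A') ↔
      (g + Dp zX A, k) ∈ Tr sY zY hY P' (w + Dp zY A') (HT hY A') := by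
    intro g k
    have := Tr_shift sY zY hY P' (w + Dp zY A' - Dp zX A) (Dp zX A) (HT hY A') g k
    rw [sub_add_cancel] at this
    exact this.symm
  refine ⟨⟨(p.1 - Dp zX A, p.2), ?_, ?_⟩, ?_⟩
  · rw [shX, sub_add_cancel]; exact hX2
  · rw [shY, sub_add_cancel]; exact hY2
  · rintro ⟨g, k⟩ ⟨hq1, hq2⟩
    rw [shX] at hq1
    rw [shY] at hq2
    have hm1 : (g + Dp zX A, k) ∈ Tr sX zX hX (A ++ (P ++ R)) 0 0 := by
      rw [Tr_append, Tr_append]
      simp only [zero_add]
      exact Or.inr (Or.inl hq1)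
    have hm2 : (g + Dp zX A, k) ∈ Tr sY zY hY (A' ++ (P' ++ R')) w 0 := by
      rw [Tr_append, Tr_append]
      simp only [zero_add]
      exact Or.inr (Or.inl hq2)
    have a1 := hlo _ ⟨hm1, hm2⟩
    have a2 := hsl _ ⟨hm1, hm2⟩
    have a3 := Tr_depth sX zX hX hsX P _ _ _ hq1
    simp only at a1 a2 a3 ⊢
    refine ⟨a1, ?_⟩
    by_contra hcon
    exact a2 ⟨by omega, by omega⟩

end window

section main

variable {BX BY G : Type*} [AddCommGroup G] {ΛX : BX → ℝ≥0∞} {ΛY : BY → ℝ≥0∞}
  {hX : BX → ℕ} {hY : BY → ℕ} {zX : BX → G} {zY : BY → G}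
  {sX : BX → Set (G × ℕ)} {sY : BY → Set (G × ℕ)}

lemma comm4 {α β γ δ : Type*} (f : α → β → γ → δ → ℝ≥0∞) :
    ∑' a, ∑' b, ∑' c, ∑' d, f a b c d = ∑' c, ∑' d, ∑' a, ∑' b, f a b c d := by
  calc ∑' a, ∑' b, ∑' c, ∑' d, f a b c d
      = ∑' a, ∑' c, ∑' b, ∑' d, f a b c d := tsum_congr fun a => ENNReal.tsum_comm
    _ = ∑' c, ∑' a, ∑' b, ∑' d, f a b c d := ENNReal.tsum_comm
    _ = ∑' c, ∑' a, ∑' d, ∑' b, f a b c d :=
        tsum_congr fun c => tsum_congr fun a => ENNReal.tsum_comm
    _ = ∑' c, ∑' d, ∑' a, ∑' b, f a b c d := tsum_congr fun c => ENNReal.tsum_comm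

open Classical in
/-- the transfer of the event of the pieces to the laws of the two prefixes -/
lemma pieces (D T D' T' i0 : ℕ) (w : G) (g : List BX → List BY → G → ℕ → ℕ → Prop) :
    ∑' A : List BX, ∑' P : List BX, ∑' A' : List BY, ∑' P' : List BY,
      (if (gd hX i0 D A ∧ gd hX i0 T P) ∧ (gd hY i0 D' A' ∧ gd hY i0 T' P') ∧
        g P P' (w + Dp zY A' - Dp zX A) (HT hX A) (HT hY A') then
        LW ΛX A * (LW ΛX P * (LW ΛY A' * LW ΛY P')) else 0)
    ≤ ∑' o, ∑' z, ∑' o', ∑' z',
      (if o ≤ i0 ∧ o' ≤ i0 then fl ΛX hX zX D o z * (fl ΛY hY zY D' o' z' *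
        (∑' P : List BX, ∑' P' : List BY, (if gd hX i0 T P ∧ gd hY i0 T' P' ∧
          g P P' (w + z' - z) (D + o) (D' + o') then LW ΛX P * LW ΛY P' else 0))) else 0) := by
  set Φ : ℕ → ℕ → G → ℝ≥0∞ := fun o o' x => ∑' P : List BX, ∑' P' : List BY,
    (if gd hX i0 T P ∧ gd hY i0 T' P' ∧ g P P' x (D + o) (D' + o') then LW ΛX P * LW ΛY P' else 0)
    with hΦ
  calc _ = ∑' A : List BX, (if gd hX i0 D A then LW ΛX A * (∑' A' : List BY,
        (if gd hY i0 D' A' then LW ΛY A' * Φ (HT hX A - D) (HT hY A' - D')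
          (w + Dp zY A' - Dp zX A) else 0)) else 0) := by
        refine tsum_congr fun A => ?_
        by_cases hA : gd hX i0 D A
        · rw [if_pos hA]
          have hAD : D + (HT hX A - D) = HT hX A := by have := hA.1.1; omega
          rw [ENNReal.tsum_comm, ← ENNReal.tsum_mul_left]
          refine tsum_congr fun A' => ?_
          by_cases hA' : gd hY i0 D' A'
          · rw [if_pos hA']
            have hAD' : D' + (HT hY A' - D') = HT hY A' := by have := hA'.1.1; omega
            simp only [hΦ]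
            rw [← ENNReal.tsum_mul_left, ← ENNReal.tsum_mul_left]
            refine tsum_congr fun P => ?_
            rw [← ENNReal.tsum_mul_left, ← ENNReal.tsum_mul_left]
            refine tsum_congr fun P' => ?_
            rw [hAD, hAD']
            by_cases hg : gd hX i0 T P ∧ gd hY i0 T' P' ∧
              g P P' (w + Dp zY A' - Dp zX A) (HT hX A) (HT hY A')
            · rw [if_pos hg, if_pos ⟨⟨hA, hg.1⟩, ⟨hA', hg.2.1⟩, hg.2.2⟩]
              ring
            · rw [if_neg hg, if_neg (fun hh => hg ⟨hh.1.2, hh.2.1.2, hh.2.2⟩)]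
              simp
          · rw [if_neg hA', mul_zero, ENNReal.tsum_eq_zero]
            intro P
            rw [ENNReal.tsum_eq_zero]
            intro P'
            rw [if_neg (fun hh => hA' hh.2.1.1)]
        · rw [if_neg hA, ENNReal.tsum_eq_zero]
          intro P
          rw [ENNReal.tsum_eq_zero]
          intro A'
          rw [ENNReal.tsum_eq_zero]
          intro P'
          rw [if_neg (fun hh => hA hh.1.1)]
    _ ≤ ∑' o, ∑' z, (if o ≤ i0 then fl ΛX hX zX D o z * (∑' A' : List BY,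
        (if gd hY i0 D' A' then LW ΛY A' * Φ o (HT hY A' - D')
          (w + Dp zY A' - z) else 0)) else 0) :=
        push_le ΛX hX zX D i0 (fun o z => ∑' A' : List BY,
        (if gd hY i0 D' A' then LW ΛY A' * Φ o (HT hY A' - D')
          (w + Dp zY A' - z) else 0))
    _ ≤ _ := by
        refine ENNReal.tsum_le_tsum fun o => ENNReal.tsum_le_tsum fun z => ?_
        by_cases ho : o ≤ i0
        · rw [if_pos ho]
          calc _ ≤ fl ΛX hX zX D o z * ∑' o', ∑' z', (if o' ≤ i0 then
                fl ΛY hY zY D' o' z' * Φ o o' (w + z' - z) else 0) :=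
                mul_le_mul_right (push_le ΛY hY zY D' i0
                  (fun o' z' => Φ o o' (w + z' - z))) _
            _ = _ := by
                rw [← ENNReal.tsum_mul_left]
                refine tsum_congr fun o' => ?_
                rw [← ENNReal.tsum_mul_left]
                refine tsum_congr fun z' => ?_
                by_cases ho' : o' ≤ i0
                · rw [if_pos ho', if_pos ⟨ho, ho'⟩]
                · rw [if_neg ho', if_neg (fun hh => ho' hh.2), mul_zero]
        · rw [if_neg ho]; exact zero_le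

open Classical in
/-- pieces of bounded overshoot, by their heights -/
lemma by_heights (T T' i0 : ℕ) (g : List BX → List BY → Prop) :
    ∑' P : List BX, ∑' P' : List BY, (if gd hX i0 T P ∧ gd hY i0 T' P' ∧ g P P' then
      LW ΛX P * LW ΛY P' else 0)
    ≤ ∑' j : ℕ, ∑' j' : ℕ, (if j ≤ i0 ∧ j' ≤ i0 then ∑' P : List BX, ∑' P' : List BY,
      (if HT hX P = T + j ∧ HT hY P' = T' + j' ∧ g P P' then LW ΛX P * LW ΛY P' else 0) else 0) := by
  calc _ ≤ ∑' P : List BX, ∑' P' : List BY, ∑' j : ℕ, ∑' j' : ℕ, (if j ≤ i0 ∧ j' ≤ i0 then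
      (if HT hX P = T + j ∧ HT hY P' = T' + j' ∧ g P P' then LW ΛX P * LW ΛY P' else 0) else 0) := by
        refine ENNReal.tsum_le_tsum fun P => ENNReal.tsum_le_tsum fun P' => ?_
        by_cases hg : gd hX i0 T P ∧ gd hY i0 T' P' ∧ g P P'
        · have h1 := hg.1.1.1
          have h2 := hg.1.2
          have h3 := hg.2.1.1.1
          have h4 := hg.2.1.2
          refine le_trans ?_ (ENNReal.le_tsum (HT hX P - T))
          refine le_trans ?_ (ENNReal.le_tsum (HT hY P' - T'))
          rw [if_pos hg, if_pos ⟨by omega, by omega⟩, if_pos ⟨by omega, by omega, hg.2.2⟩]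
        · rw [if_neg hg]; exact zero_le
    _ = _ := by
        rw [comm4]
        refine tsum_congr fun j => tsum_congr fun j' => ?_
        by_cases hj : j ≤ i0 ∧ j' ≤ i0
        · simp only [if_pos hj]
        · simp [hj]

lemma sum_i0' (i0 : ℕ) (c : ℝ≥0∞) :
    ∑' j : ℕ, ∑' j' : ℕ, (if j ≤ i0 ∧ j' ≤ i0 then c else 0) = (i0 + 1) * ((i0 + 1) * c) := by
  rw [← sum_i0 i0 ((i0 + 1) * c)]
  refine tsum_congr fun j => ?_
  by_cases hj : j ≤ i0
  · rw [if_pos hj, ← sum_i0 i0 c]
    refine tsum_congr fun j' => ?_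
    simp [hj]
  · simp [hj]

variable (hX hY zX zY sX sY) in
/-- the event of the pieces, `X` piece local -/
def EvX (EX : ℕ → Set G) (lo hb : ℕ) (P : List BX) (P' : List BY) (x : G) (a a' : ℕ) : Prop :=
  Dp zX P ∈ EX (HT hX P) ∧ Ev hX hY zX zY sX sY lo hb P P' x a a'

variable (hX hY zX zY sX sY) in
/-- the event of the pieces, `Y` piece local -/
def EvY (EY : ℕ → Set G) (lo hb : ℕ) (P : List BX) (P' : List BY) (x : G) (a a' : ℕ) : Prop :=
  Dp zY P' ∈ EY (HT hY P') ∧ Ev hX hY zX zY sX sY lo hb P P' x a a'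

open Classical in
/-- THE BOUND OF ONE WINDOW -/
theorem one_window (hsX : ∀ b, ∀ q ∈ sX b, 1 ≤ q.2 ∧ q.2 ≤ hX b)
    (hsY : ∀ b, ∀ q ∈ sY b, 1 ≤ q.2 ∧ q.2 ≤ hY b)
    {D T D' T' i0 lo hi hb c n : ℕ}
    (h1 : D + i0 < lo) (h1' : D' + i0 < lo) (h2 : hi ≤ D + T) (h2' : hi ≤ D' + T')
    (hc : D + T + 2 * i0 ≤ c) (hn : D + i0 + T ≤ n) (hn' : D' + i0 + T' ≤ n)
    (hUX : ∀ r, ∑' R : List BX, (if HT hX R = r then LW ΛX R else 0) ≤ 1)
    (hUY : ∀ r, ∑' R : List BY, (if HT hY R = r then LW ΛY R else 0) ≤ 1)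
    (hfX : ∀ D, ∑' A : List BX, (if fp hX D A then LW ΛX A else 0) ≤ 1)
    (hfY : ∀ D, ∑' A : List BY, (if fp hY D A then LW ΛY A else 0) ≤ 1)
    (eX eY : ℝ≥0∞)
    (heX : ∀ D, ∑' A : List BX, (if fp hX D A ∧ D + i0 < HT hX A then LW ΛX A else 0) ≤ eX)
    (heY : ∀ D, ∑' A : List BY, (if fp hY D A ∧ D + i0 < HT hY A then LW ΛY A else 0) ≤ eY)
    (EX EY : ℕ → Set G) (uX uY : ℝ≥0∞)
    (hnX : ∑' P : List BX, (if gd hX i0 T P ∧ Dp zX P ∉ EX (HT hX P) then LW ΛX P else 0) ≤ uX)
    (hnY : ∑' P : List BY, (if gd hY i0 T' P ∧ Dp zY P ∉ EY (HT hY P) then LW ΛY P else 0) ≤ uY)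
    (agX bbX : ℕ → G → ℝ≥0∞) (hleX : ∀ o z, fl ΛX hX zX D o z ≤ agX o z + bbX o z)
    (MX bX : ℝ≥0∞) (hagX : ∀ o z, agX o z ≤ MX) (hbbX : ∑' o, ∑' z, bbX o z ≤ bX)
    (agY bbY : ℕ → G → ℝ≥0∞) (hleY : ∀ o z, fl ΛY hY zY D' o z ≤ agY o z + bbY o z)
    (MY bY : ℝ≥0∞) (hagY : ∀ o z, agY o z ≤ MY) (hbbY : ∑' o, ∑' z, bbY o z ≤ bY)
    (B2 B3 : ℝ≥0∞)
    (H2 : ∀ o ≤ i0, ∀ o' ≤ i0, ∀ j ≤ i0, ∀ j' ≤ i0, ∀ μ : G → ℝ≥0∞, ∑' x, μ x ≤ 1 →
      (∀ x, μ x ≤ MX) → ∑' x, μ x * ∑' P : List BX, ∑' P' : List BY,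
        (if HT hX P = T + j ∧ HT hY P' = T' + j' ∧
          EvX hX hY zX zY sX sY EX lo hb P P' x (D + o) (D' + o')
          then LW ΛX P * LW ΛY P' else 0) ≤ B2)
    (H3 : ∀ o ≤ i0, ∀ o' ≤ i0, ∀ j ≤ i0, ∀ j' ≤ i0, ∀ μ : G → ℝ≥0∞, ∑' x, μ x ≤ 1 →
      (∀ x, μ x ≤ MY) → ∑' x, μ x * ∑' P : List BX, ∑' P' : List BY,
        (if HT hX P = T + j ∧ HT hY P' = T' + j' ∧
          EvY hX hY zX zY sX sY EY lo hb P P' x (D + o) (D' + o')
          then LW ΛX P * LW ΛY P' else 0) ≤ B3)
    (w : G) :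
    ∑' LX : List BX, ∑' LY : List BY, (if HT hX LX = n ∧ HT hY LY = n ∧
      FE hX hY zX zY sX sY lo hi hb c w LX LY then LW ΛX LX * LW ΛY LY else 0)
    ≤ 2 * eX + 2 * eY + uX * uY
      + (bX + (i0 + 1) * ((i0 + 1) * ((i0 + 1) * ((i0 + 1) * B2))))
      + (bY + (i0 + 1) * ((i0 + 1) * ((i0 + 1) * ((i0 + 1) * B3)))) := by
  set Y : List BX → ℝ≥0∞ := fun LX => ∑' LY : List BY, (if HT hY LY = n then LW ΛY LY *
    (if FE hX hY zX zY sX sY lo hi hb c w LX LY then 1 else 0) else 0) with hYd
  set K : List BX → List BX → ℝ≥0∞ := fun A P => ∑' A' : List BY, ∑' P' : List BY,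
    (if gd hY i0 D' A' ∧ gd hY i0 T' P' then LW ΛY A' * (LW ΛY P' *
      (if Ev hX hY zX zY sX sY lo hb P P' (w + Dp zY A' - Dp zX A) (HT hX A) (HT hY A')
        then 1 else 0)) else 0) with hK
  have hY1 : ∀ LX, Y LX ≤ 1 := by
    intro LX
    refine le_trans (ENNReal.tsum_le_tsum fun LY => ?_) (hUY n)
    by_cases hL : HT hY LY = n
    · rw [if_pos hL, if_pos hL]
      calc _ ≤ LW ΛY LY * 1 := by
            refine mul_le_mul_right ?_ _
            split_ifs <;> simp
        _ = _ := mul_one _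
    · rw [if_neg hL, if_neg hL]
  have e1 : ∑' LX : List BX, ∑' LY : List BY, (if HT hX LX = n ∧ HT hY LY = n ∧
      FE hX hY zX zY sX sY lo hi hb c w LX LY then LW ΛX LX * LW ΛY LY else 0)
      = ∑' LX : List BX, (if HT hX LX = n then LW ΛX LX * Y LX else 0) := by
    refine tsum_congr fun LX => ?_
    by_cases hL : HT hX LX = n
    · rw [if_pos hL]
      simp only [hYd]
      rw [← ENNReal.tsum_mul_left]
      refine tsum_congr fun LY => ?_
      by_cases hL' : HT hY LY = n
      · by_cases hF : FE hX hY zX zY sX sY lo hi hb c w LX LY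
        · rw [if_pos ⟨hL, hL', hF⟩, if_pos hL', if_pos hF, mul_one]
        · rw [if_neg (fun hh => hF hh.2.2), if_pos hL', if_neg hF, mul_zero, mul_zero]
      · rw [if_neg (fun hh => hL' hh.2.1), if_neg hL', mul_zero]
    · rw [if_neg hL, ENNReal.tsum_eq_zero]
      intro LY
      rw [if_neg (fun hh => hL hh.1)]
  have hYK : ∀ A P R, gd hX i0 D A → gd hX i0 T P → Y (A ++ (P ++ R)) ≤ 2 * eY + K A P := by
    intro A P R gA gP
    refine split1 hY ΛY D' T' i0 n hn' eY hUY (hfY D') (heY D') (heY T')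
      (fun LY => if FE hX hY zX zY sX sY lo hi hb c w (A ++ (P ++ R)) LY
        then 1 else 0) (fun LY => by split_ifs <;> simp)
      (fun A' P' => if Ev hX hY zX zY sX sY lo hb P P' (w + Dp zY A' - Dp zX A) (HT hX A)
        (HT hY A') then 1 else 0) ?_
    intro A' P' R' gA' gP'
    by_cases hF : FE hX hY zX zY sX sY lo hi hb c w (A ++ (P ++ R))
      (A' ++ (P' ++ R'))
    · rw [if_pos hF, if_pos (fe_ev hsX hsY h1 h1' h2 h2' hc gA gP gA' gP' hF)]
    · rw [if_neg hF]; exact zero_le
  have e2 := split1 hX ΛX D T i0 n hn eX hUX (hfX D) (heX D) (heX T) Y hY1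
    (fun A P => 2 * eY + K A P) hYK
  rw [e1]
  refine e2.trans ?_
  -- the three events
  set g2 : List BX → List BY → G → ℕ → ℕ → Prop := fun P P' x a a' =>
    EvX hX hY zX zY sX sY EX lo hb P P' x a a' with hg2
  set g3 : List BX → List BY → G → ℕ → ℕ → Prop := fun P P' x a a' =>
    EvY hX hY zX zY sX sY EY lo hb P P' x a a' with hg3
  set S2 : List BX → List BX → List BY → List BY → ℝ≥0∞ := fun A P A' P' =>
    (if (gd hX i0 D A ∧ gd hX i0 T P) ∧ (gd hY i0 D' A' ∧ gd hY i0 T' P') ∧
        g2 P P' (w + Dp zY A' - Dp zX A) (HT hX A) (HT hY A') then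
        LW ΛX A * (LW ΛX P * (LW ΛY A' * LW ΛY P')) else 0) with hS2
  set S3 : List BX → List BX → List BY → List BY → ℝ≥0∞ := fun A P A' P' =>
    (if (gd hX i0 D A ∧ gd hX i0 T P) ∧ (gd hY i0 D' A' ∧ gd hY i0 T' P') ∧
        g3 P P' (w + Dp zY A' - Dp zX A) (HT hX A) (HT hY A') then
        LW ΛX A * (LW ΛX P * (LW ΛY A' * LW ΛY P')) else 0) with hS3
  set nX : List BX → ℝ≥0∞ := fun P =>
    (if gd hX i0 T P ∧ Dp zX P ∉ EX (HT hX P) then LW ΛX P else 0) with hnXd
  set nY : List BY → ℝ≥0∞ := fun P =>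
    (if gd hY i0 T' P ∧ Dp zY P ∉ EY (HT hY P) then LW ΛY P else 0) with hnYd
  set fX : ℕ → List BX → ℝ≥0∞ := fun D A => (if fp hX D A then LW ΛX A else 0) with hfXd
  set fY : ℕ → List BY → ℝ≥0∞ := fun D A => (if fp hY D A then LW ΛY A else 0) with hfYd
  have e3 : ∀ A P : List BX, (if gd hX i0 D A ∧ gd hX i0 T P then
      LW ΛX A * (LW ΛX P * (2 * eY + K A P)) else 0)
      ≤ fX D A * fX T P * (2 * eY) + fX D A * nX P * (∑' A' : List BY, ∑' P' : List BY,
          fY D' A' * nY P')
        + ∑' A' : List BY, ∑' P' : List BY, S2 A P A' P'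
        + ∑' A' : List BY, ∑' P' : List BY, S3 A P A' P' := by
    intro A P
    by_cases hAP : gd hX i0 D A ∧ gd hX i0 T P
    · rw [if_pos hAP, mul_add, mul_add]
      have hfa : fX D A = LW ΛX A := by simp only [hfXd]; rw [if_pos hAP.1.1]
      have hfp : fX T P = LW ΛX P := by simp only [hfXd]; rw [if_pos hAP.2.1]
      rw [hfa, hfp, ← mul_assoc]
      rw [add_assoc, add_assoc]
      refine add_le_add (le_of_eq (by ring)) ?_
      calc LW ΛX A * (LW ΛX P * K A P) = ∑' A' : List BY, ∑' P' : List BY,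
          (LW ΛX A * LW ΛX P) * (if gd hY i0 D' A' ∧ gd hY i0 T' P' then LW ΛY A' * (LW ΛY P' *
          (if Ev hX hY zX zY sX sY lo hb P P' (w + Dp zY A' - Dp zX A) (HT hX A) (HT hY A')
          then 1 else 0)) else 0) := by
            simp only [hK]
            rw [← mul_assoc, ← ENNReal.tsum_mul_left]
            exact tsum_congr fun A' => ENNReal.tsum_mul_left.symm
        _ ≤ ∑' A' : List BY, ∑' P' : List BY, (LW ΛX A * nX P * (fY D' A' * nY P')
            + (S2 A P A' P' + S3 A P A' P')) := by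
            refine ENNReal.tsum_le_tsum fun A' => ENNReal.tsum_le_tsum fun P' => ?_
            by_cases hAP' : gd hY i0 D' A' ∧ gd hY i0 T' P'
            · rw [if_pos hAP']
              by_cases hE : Ev hX hY zX zY sX sY lo hb P P' (w + Dp zY A' - Dp zX A)
                (HT hX A) (HT hY A')
              · rw [if_pos hE, mul_one]
                by_cases hl : Dp zX P ∈ EX (HT hX P)
                · have : S2 A P A' P' = LW ΛX A * (LW ΛX P * (LW ΛY A' * LW ΛY P')) := by
                    simp only [hS2, hg2]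
                    rw [if_pos ⟨hAP, hAP', hl, hE⟩]
                  rw [this]
                  refine le_trans (le_of_eq (by ring)) (le_trans le_self_add le_add_self)
                · by_cases hl' : Dp zY P' ∈ EY (HT hY P')
                  · have : S3 A P A' P' = LW ΛX A * (LW ΛX P * (LW ΛY A' * LW ΛY P')) := by
                      simp only [hS3, hg3]
                      rw [if_pos ⟨hAP, hAP', hl', hE⟩]
                    rw [this]
                    refine le_trans (le_of_eq (by ring)) (le_trans le_add_self le_add_self)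
                  · have h1 : nX P = LW ΛX P := by simp only [hnXd]; rw [if_pos ⟨hAP.2, hl⟩]
                    have h2 : nY P' = LW ΛY P' := by simp only [hnYd]; rw [if_pos ⟨hAP'.2, hl'⟩]
                    have h3 : fY D' A' = LW ΛY A' := by simp only [hfYd]; rw [if_pos hAP'.1.1]
                    rw [h1, h2, h3]
                    refine le_trans (le_of_eq (by ring)) le_self_add
              · rw [if_neg hE, mul_zero, mul_zero, mul_zero]; exact zero_le
            · rw [if_neg hAP', mul_zero]; exact zero_le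
        _ = _ := by
            simp_rw [ENNReal.tsum_add, ENNReal.tsum_mul_left]
    · rw [if_neg hAP]; exact zero_le
  have e4 : ∑' A : List BX, ∑' P : List BX, (if gd hX i0 D A ∧ gd hX i0 T P then
      LW ΛX A * (LW ΛX P * (2 * eY + K A P)) else 0)
      ≤ 2 * eY + uX * uY
        + ∑' A : List BX, ∑' P : List BX, ∑' A' : List BY, ∑' P' : List BY, S2 A P A' P'
        + ∑' A : List BX, ∑' P : List BX, ∑' A' : List BY, ∑' P' : List BY, S3 A P A' P' := by
    refine (ENNReal.tsum_le_tsum fun A => ENNReal.tsum_le_tsum fun P => e3 A P).trans ?_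
    simp_rw [ENNReal.tsum_add]
    refine add_le_add (add_le_add (add_le_add ?_ ?_) le_rfl) le_rfl
    · simp_rw [ENNReal.tsum_mul_right, ENNReal.tsum_mul_left, ENNReal.tsum_mul_right]
      calc _ ≤ 1 * 1 * (2 * eY) := by gcongr <;> first | exact hfX D | exact hfX T
        _ = _ := by ring
    · simp_rw [ENNReal.tsum_mul_left, ENNReal.tsum_mul_right, ENNReal.tsum_mul_left,
        ENNReal.tsum_mul_right]
      calc _ ≤ 1 * uX * (1 * uY) := by
            gcongr
            · exact hfX D
            · exact hfY D'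
        _ = _ := by ring
  refine (add_le_add le_rfl e4).trans ?_
  have hΦ1 : ∀ (g : List BX → List BY → Prop), ∑' P : List BX, ∑' P' : List BY,
      (if gd hX i0 T P ∧ gd hY i0 T' P' ∧ g P P' then LW ΛX P * LW ΛY P' else 0) ≤ 1 := by
    intro g
    calc _ ≤ ∑' P : List BX, ∑' P' : List BY, fX T P * fY T' P' := by
          refine ENNReal.tsum_le_tsum fun P => ENNReal.tsum_le_tsum fun P' => ?_
          by_cases hg : gd hX i0 T P ∧ gd hY i0 T' P' ∧ g P P'
          · simp only [hfXd, hfYd]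
            rw [if_pos hg, if_pos hg.1.1, if_pos hg.2.1.1]
          · rw [if_neg hg]; exact zero_le
      _ = (∑' P : List BX, fX T P) * ∑' P' : List BY, fY T' P' := by
          simp_rw [ENNReal.tsum_mul_left, ENNReal.tsum_mul_right]
      _ ≤ 1 * 1 := mul_le_mul' (hfX T) (hfY T')
      _ = 1 := one_mul 1
  have hbh : ∀ (g : List BX → List BY → G → ℕ → ℕ → Prop) (C : ℝ≥0∞) (μ : G → ℝ≥0∞) (a a' : ℕ),
      (∀ j ≤ i0, ∀ j' ≤ i0, ∑' x, μ x * ∑' P : List BX, ∑' P' : List BY,
        (if HT hX P = T + j ∧ HT hY P' = T' + j' ∧ g P P' x a a'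
          then LW ΛX P * LW ΛY P' else 0) ≤ C) →
      ∑' x, μ x * ∑' P : List BX, ∑' P' : List BY,
        (if gd hX i0 T P ∧ gd hY i0 T' P' ∧ g P P' x a a' then LW ΛX P * LW ΛY P' else 0)
        ≤ (i0 + 1) * ((i0 + 1) * C) := by
    intro g C μ a a' hC
    calc _ ≤ ∑' x, μ x * ∑' j : ℕ, ∑' j' : ℕ, (if j ≤ i0 ∧ j' ≤ i0 then
          ∑' P : List BX, ∑' P' : List BY,
          (if HT hX P = T + j ∧ HT hY P' = T' + j' ∧ g P P' x a a' then
            LW ΛX P * LW ΛY P' else 0) else 0) :=
          ENNReal.tsum_le_tsum fun x => mul_le_mul_right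
            (by_heights T T' i0 (fun P P' => g P P' x a a')) _
      _ = ∑' j : ℕ, ∑' j' : ℕ, ∑' x, μ x * (if j ≤ i0 ∧ j' ≤ i0 then
          ∑' P : List BX, ∑' P' : List BY,
          (if HT hX P = T + j ∧ HT hY P' = T' + j' ∧ g P P' x a a' then
            LW ΛX P * LW ΛY P' else 0) else 0) := by
          simp_rw [← ENNReal.tsum_mul_left]
          rw [ENNReal.tsum_comm]
          exact tsum_congr fun j => ENNReal.tsum_comm
      _ ≤ ∑' j : ℕ, ∑' j' : ℕ, (if j ≤ i0 ∧ j' ≤ i0 then C else 0) := by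
          refine ENNReal.tsum_le_tsum fun j => ENNReal.tsum_le_tsum fun j' => ?_
          by_cases hj : j ≤ i0 ∧ j' ≤ i0
          · simp only [if_pos hj]
            exact hC j hj.1 j' hj.2
          · simp [hj]
      _ = _ := sum_i0' i0 C
  have hS2le : ∑' A : List BX, ∑' P : List BX, ∑' A' : List BY, ∑' P' : List BY, S2 A P A' P'
      ≤ bX + (i0 + 1) * ((i0 + 1) * ((i0 + 1) * ((i0 + 1) * B2))) := by
    refine le_trans (ENNReal.tsum_le_tsum fun A => ENNReal.tsum_le_tsum fun P =>
      ENNReal.tsum_le_tsum fun A' => ENNReal.tsum_le_tsum fun P' => ?_)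
      ((pieces (ΛX := ΛX) (ΛY := ΛY) (hX := hX) (hY := hY) (zX := zX) (zY := zY)
        D T D' T' i0 w g2).trans ?_)
    · by_cases hc : (gd hX i0 D A ∧ gd hX i0 T P) ∧ (gd hY i0 D' A' ∧ gd hY i0 T' P') ∧
        g2 P P' (w + Dp zY A' - Dp zX A) (HT hX A) (HT hY A')
      · simp only [hS2]
        rw [if_pos hc]
      · simp only [hS2]
        rw [if_neg hc]
    exact tie (fl ΛX hX zX D) (fl ΛY hY zY D') (fl_mass ΛX hX zX D (hfX D))
      (fl_mass ΛY hY zY D' (hfY D')) agX bbX hleX MX bX hagX hbbX i0 w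
      (fun o o' x => ∑' P : List BX, ∑' P' : List BY, (if gd hX i0 T P ∧ gd hY i0 T' P' ∧
          g2 P P' x (D + o) (D' + o') then LW ΛX P * LW ΛY P' else 0))
      (fun o o' x => hΦ1 _) ((i0 + 1) * ((i0 + 1) * B2))
      (fun o ho o' ho' μ hμ hμM => hbh g2 B2 μ (D + o) (D' + o')
        (fun j hj j' hj' => H2 o ho o' ho' j hj j' hj' μ hμ hμM))
  have hS3le : ∑' A : List BX, ∑' P : List BX, ∑' A' : List BY, ∑' P' : List BY, S3 A P A' P'
      ≤ bY + (i0 + 1) * ((i0 + 1) * ((i0 + 1) * ((i0 + 1) * B3))) := by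
    refine le_trans (ENNReal.tsum_le_tsum fun A => ENNReal.tsum_le_tsum fun P =>
      ENNReal.tsum_le_tsum fun A' => ENNReal.tsum_le_tsum fun P' => ?_)
      ((pieces (ΛX := ΛX) (ΛY := ΛY) (hX := hX) (hY := hY) (zX := zX) (zY := zY)
        D T D' T' i0 w g3).trans ?_)
    · by_cases hc : (gd hX i0 D A ∧ gd hX i0 T P) ∧ (gd hY i0 D' A' ∧ gd hY i0 T' P') ∧
        g3 P P' (w + Dp zY A' - Dp zX A) (HT hX A) (HT hY A')
      · simp only [hS3]
        rw [if_pos hc]
      · simp only [hS3]
        rw [if_neg hc]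
    exact tie' (fl ΛX hX zX D) (fl ΛY hY zY D') (fl_mass ΛX hX zX D (hfX D))
      (fl_mass ΛY hY zY D' (hfY D')) agY bbY hleY MY bY hagY hbbY i0 w
      (fun o o' x => ∑' P : List BX, ∑' P' : List BY, (if gd hX i0 T P ∧ gd hY i0 T' P' ∧
          g3 P P' x (D + o) (D' + o') then LW ΛX P * LW ΛY P' else 0))
      (fun o o' x => hΦ1 _) ((i0 + 1) * ((i0 + 1) * B3))
      (fun o ho o' ho' μ hμ hμM => hbh g3 B3 μ (D + o) (D' + o')
        (fun j hj j' hj' => H3 o ho o' ho' j hj j' hj' μ hμ hμM))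
  calc _ ≤ 2 * eX + (2 * eY + uX * uY
      + (bX + (i0 + 1) * ((i0 + 1) * ((i0 + 1) * ((i0 + 1) * B2))))
      + (bY + (i0 + 1) * ((i0 + 1) * ((i0 + 1) * ((i0 + 1) * B3))))) := by gcongr
    _ = _ := by ring

end main

end Crest.Agent.R154.OneWin975
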