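import Mathlib

/-!
R154, d = 2, helper34: **optional stopping for a walk killed by its own extents** (509's (H), abstract).

`(X k, E k)` : increment (integer) and extent of the `k`-th block, law `ν` independent of the past,
`|X| ≤ E`, `E X = 0`, `E[E²] < ∞`, `E|X| > 0`. The walk `W` is killed at the step `k` if
`E k ≥ W k` or `W (k+1) ≤ v0`; it may be frozen at any time (`D k` = it moves at the step `k`).

`main` : **`(1/2) ∫_B W 0 ≤ ∫_{B, alive n} W n`** for every past event `B` with `4 v0 < W 0` on `B`.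
No Green function, no local estimate: `u ↦ min u W` is a family of concave functions.
-/

set_option autoImplicit false
set_option linter.unusedVariables false
set_option linter.unusedSectionVars false

open MeasureTheory Filter
open scoped ENNReal Topology

namespace Crest.Agent.R154.OptH34

/-- the law of a block -/
structure Law (ν : Measure (ℤ × ℕ)) : Prop where
  prob : IsProbabilityMeasure ν
  le : ∀ᵐ z ∂ν, |(z.1 : ℝ)| ≤ (z.2 : ℝ)
  sq : Integrable (fun z : ℤ × ℕ => (z.2 : ℝ) ^ 2) ν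
  mean : ∫ z, (z.1 : ℝ) ∂ν = 0
  pos : 0 < ∫ z, |(z.1 : ℝ)| ∂ν

variable {ν : Measure (ℤ × ℕ)}

lemma meas {β : Type*} [MeasurableSpace β] (f : ℤ × ℕ → β) : Measurable f := measurable_of_countable f

namespace Law

lemma intE (h : Law ν) : Integrable (fun z : ℤ × ℕ => (z.2 : ℝ)) ν := by
  have := h.prob
  refine Integrable.mono' (h.sq.add (integrable_const (1 : ℝ))) (meas _).aestronglyMeasurable ?_
  refine Eventually.of_forall fun z => ?_
  have h0 : (0 : ℝ) ≤ z.2 := Nat.cast_nonneg _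
  show ‖(z.2 : ℝ)‖ ≤ (z.2 : ℝ) ^ 2 + 1
  rw [Real.norm_eq_abs, abs_of_nonneg h0]
  nlinarith [sq_nonneg ((z.2 : ℝ) - 1)]

lemma intX (h : Law ν) : Integrable (fun z : ℤ × ℕ => (z.1 : ℝ)) ν := by
  refine Integrable.mono' h.intE (meas _).aestronglyMeasurable ?_
  filter_upwards [h.le] with z hz
  rw [Real.norm_eq_abs]
  exact hz

lemma intXa (h : Law ν) : Integrable (fun z : ℤ × ℕ => |(z.1 : ℝ)|) ν := h.intX.abs

end Law

/-- mean extent on `v ≤ E`, real -/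
noncomputable def gr (ν : Measure (ℤ × ℕ)) (v : ℤ) : ℝ :=
  ∫ z, (if v ≤ (z.2 : ℤ) then (z.2 : ℝ) else 0) ∂ν

/-- mean extent on `v ≤ E` -/
noncomputable def g (ν : Measure (ℤ × ℕ)) (v : ℤ) : ℝ≥0∞ :=
  ∫⁻ z, (if v ≤ (z.2 : ℤ) then (z.2 : ℝ≥0∞) else 0) ∂ν

/-- mean absolute increment -/
noncomputable def m (ν : Measure (ℤ × ℕ)) : ℝ := ∫ z, |(z.1 : ℝ)| ∂ν

lemma int_ind (h : Law ν) (v : ℤ) :
    Integrable (fun z : ℤ × ℕ => (if v ≤ (z.2 : ℤ) then (z.2 : ℝ) else 0)) ν := by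
  refine Integrable.mono' h.intE (meas _).aestronglyMeasurable (Eventually.of_forall fun z => ?_)
  have h0 : (0 : ℝ) ≤ z.2 := Nat.cast_nonneg _
  show ‖(if v ≤ (z.2 : ℤ) then (z.2 : ℝ) else 0)‖ ≤ (z.2 : ℝ)
  split_ifs
  · rw [Real.norm_eq_abs, abs_of_nonneg h0]
  · simp

lemma g_eq (h : Law ν) (v : ℤ) : g ν v = ENNReal.ofReal (gr ν v) := by
  unfold g gr
  rw [ofReal_integral_eq_lintegral_ofReal (int_ind h v) (Eventually.of_forall fun z => ?_)]
  · refine lintegral_congr fun z => ?_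
    split_ifs
    · simp
    · simp
  · show (0 : ℝ) ≤ if v ≤ (z.2 : ℤ) then (z.2 : ℝ) else 0
    split_ifs
    · exact Nat.cast_nonneg _
    · exact le_rfl

lemma gr_nonneg (v : ℤ) : 0 ≤ gr ν v := by
  refine integral_nonneg fun z => ?_
  show (0 : ℝ) ≤ if v ≤ (z.2 : ℤ) then (z.2 : ℝ) else 0
  split_ifs
  · exact Nat.cast_nonneg _
  · exact le_rfl

lemma gr_le (h : Law ν) (v : ℤ) : gr ν v ≤ ∫ z, (z.2 : ℝ) ∂ν := by
  refine integral_mono (int_ind h v) h.intE fun z => ?_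
  show (if v ≤ (z.2 : ℤ) then (z.2 : ℝ) else 0) ≤ (z.2 : ℝ)
  split_ifs
  · exact le_rfl
  · exact Nat.cast_nonneg _

/-- **the extents are summable** -/
lemma tsum_g (h : Law ν) : ∑' u : ℕ, g ν (u : ℤ) ≠ ∞ := by
  have e1 : ∑' u : ℕ, g ν (u : ℤ) =
      ∫⁻ z, ∑' u : ℕ, (if (u : ℤ) ≤ (z.2 : ℤ) then (z.2 : ℝ≥0∞) else 0) ∂ν := by
    unfold g
    rw [lintegral_tsum]
    exact fun u => (meas _).aemeasurable
  have e2 : ∀ z : ℤ × ℕ, ∑' u : ℕ, (if (u : ℤ) ≤ (z.2 : ℤ) then (z.2 : ℝ≥0∞) else 0) ≤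
      ENNReal.ofReal (2 * (z.2 : ℝ) ^ 2) := by
    intro z
    rw [tsum_eq_sum (s := Finset.range (z.2 + 1))]
    · refine (Finset.sum_le_sum (g := fun _ => (z.2 : ℝ≥0∞)) fun u _ => ?_).trans ?_
      · split_ifs
        · exact le_rfl
        · exact bot_le
      · rw [Finset.sum_const, Finset.card_range, nsmul_eq_mul]
        have e3 : ((z.2 + 1 : ℕ) : ℝ≥0∞) * (z.2 : ℝ≥0∞) =
            ENNReal.ofReal (((z.2 + 1 : ℕ) : ℝ) * (z.2 : ℝ)) := by
          rw [ENNReal.ofReal_mul (Nat.cast_nonneg _), ENNReal.ofReal_natCast,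
            ENNReal.ofReal_natCast]
        rw [e3]
        refine ENNReal.ofReal_le_ofReal ?_
        rcases Nat.eq_zero_or_pos z.2 with h0 | h0
        · rw [h0]; norm_num
        · have h1 : (1 : ℝ) ≤ z.2 := by exact_mod_cast h0
          push_cast
          nlinarith
    · intro u hu
      rw [if_neg]
      intro hc
      apply hu
      rw [Finset.mem_range]
      omega
  rw [e1]
  refine ne_top_of_le_ne_top ?_ (lintegral_mono e2)
  exact ((h.sq.const_mul 2).lintegral_lt_top).ne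

/-- **the level `v0`** -/
theorem exists_v0 (h : Law ν) {δ : ℝ} (hδ : 0 < δ) :
    ∃ v0 : ℕ, ∑' u : ℕ, g ν (((u + (v0 + 1) : ℕ) : ℤ)) ≤ ENNReal.ofReal δ := by
  have h1 := ENNReal.tendsto_sum_nat_add (fun u : ℕ => g ν (u : ℤ)) (tsum_g h)
  have h2 := h1.eventually (ge_mem_nhds (show (0 : ℝ≥0∞) < ENNReal.ofReal δ by
    rw [ENNReal.ofReal_pos]; exact hδ))
  obtain ⟨N, hN⟩ := h2.exists_forall_of_atTop
  exact ⟨N, hN (N + 1) (by omega)⟩

/-! ### one step -/

lemma int4 (h : Law ν) (a c : ℝ) {t s : ℤ × ℕ → ℝ} (ht : Integrable t ν) (hs : Integrable s ν) :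
    ∫ z, (a + c * (z.1 : ℝ) - t z + s z) ∂ν = a - ∫ z, t z ∂ν + ∫ z, s z ∂ν := by
  have := h.prob
  have i1 : Integrable (fun z : ℤ × ℕ => a + c * (z.1 : ℝ)) ν :=
    (integrable_const a).add (h.intX.const_mul c)
  have i2 : Integrable (fun z : ℤ × ℕ => a + c * (z.1 : ℝ) - t z) ν := i1.sub ht
  rw [integral_add i2 hs, integral_sub i1 ht, integral_add (integrable_const a)
    (h.intX.const_mul c), integral_const_mul, h.mean]
  simp

/-- a good step from `v` -/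
def good (v0 : ℕ) (v : ℤ) (z : ℤ × ℕ) : Prop := (z.2 : ℤ) < v ∧ (v0 : ℤ) < v + z.1

open Classical in
/-- **the concave functions `min u`** -/
lemma step_min (h : Law ν) (v0 : ℕ) {u v : ℤ} (hu : 0 ≤ u) (hv : 0 ≤ v) :
    (∫⁻ z, (if good v0 v z then ENNReal.ofReal ((min u (v + z.1) : ℤ) : ℝ) else 0) ∂ν) +
      (if u = v then ENNReal.ofReal (m ν / 2) else 0) ≤
      ENNReal.ofReal ((min u v : ℤ) : ℝ) + g ν v := by
  have := h.prob
  set f : ℤ × ℕ → ℝ := fun z => if good v0 v z then ((min u (v + z.1) : ℤ) : ℝ) else 0 with hf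
  have f0 : ∀ z, 0 ≤ f z := by
    intro z
    simp only [hf]
    split_ifs with hg
    · have := hg.2
      have h1 : (0 : ℤ) ≤ min u (v + z.1) := le_min hu (by omega)
      exact_mod_cast h1
    · exact le_rfl
  have fle : ∀ z, f z ≤ (u : ℝ) := by
    intro z
    simp only [hf]
    split_ifs with hg
    · exact_mod_cast min_le_left u (v + z.1)
    · exact_mod_cast hu
  have fi : Integrable f ν := by
    refine Integrable.mono' (integrable_const (u : ℝ)) (meas _).aestronglyMeasurable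
      (Eventually.of_forall fun z => ?_)
    rw [Real.norm_eq_abs, abs_of_nonneg (f0 z)]
    exact fle z
  have e1 : (∫⁻ z, (if good v0 v z then ENNReal.ofReal ((min u (v + z.1) : ℤ) : ℝ) else 0) ∂ν) =
      ENNReal.ofReal (∫ z, f z ∂ν) := by
    rw [ofReal_integral_eq_lintegral_ofReal fi (Eventually.of_forall f0)]
    refine lintegral_congr fun z => ?_
    simp only [hf]
    split_ifs
    · rfl
    · simp
  -- the tangent
  obtain ⟨c, hc⟩ : ∃ c : ℝ, ∀ x : ℤ, ((min u (v + x) : ℤ) : ℝ) ≤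
      ((min u v : ℤ) : ℝ) + c * (x : ℝ) - (if u = v then |(x : ℝ)| / 2 else 0) := by
    rcases lt_trichotomy v u with h1 | h1 | h1
    · refine ⟨1, fun x => ?_⟩
      rw [if_neg (by omega), min_eq_right h1.le]
      have : ((min u (v + x) : ℤ) : ℝ) ≤ ((v + x : ℤ) : ℝ) := by exact_mod_cast min_le_right _ _
      push_cast at this ⊢
      linarith
    · refine ⟨1 / 2, fun x => ?_⟩
      subst h1
      rw [if_pos rfl, min_self]
      rcases le_total 0 x with h2 | h2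
      · rw [min_eq_left (by omega), abs_of_nonneg (by exact_mod_cast h2)]
        linarith
      · rw [min_eq_right (by omega), abs_of_nonpos (by exact_mod_cast h2)]
        push_cast
        linarith
    · refine ⟨0, fun x => ?_⟩
      rw [if_neg (by omega), min_eq_left h1.le]
      have : ((min u (v + x) : ℤ) : ℝ) ≤ (u : ℝ) := by exact_mod_cast min_le_left _ _
      linarith
  have key : ∫ z, f z ∂ν + (if u = v then m ν / 2 else 0) ≤ ((min u v : ℤ) : ℝ) + gr ν v := by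
    have h2 : ∫ z, f z ∂ν ≤ ∫ z, (((min u v : ℤ) : ℝ) + c * (z.1 : ℝ) -
        (if u = v then |(z.1 : ℝ)| / 2 else 0) +
        (if v ≤ (z.2 : ℤ) then (z.2 : ℝ) else 0)) ∂ν := by
      have i1 : Integrable (fun z : ℤ × ℕ => (if u = v then |(z.1 : ℝ)| / 2 else 0)) ν := by
        by_cases hu : u = v
        · simp only [hu, if_true]; exact h.intXa.div_const 2
        · simp only [hu, if_false]; exact integrable_const 0
      refine integral_mono_ae fi ((((integrable_const _).add (h.intX.const_mul c)).sub i1).add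
        (int_ind h v)) ?_
      filter_upwards [h.le] with z hz
      show f z ≤ ((min u v : ℤ) : ℝ) + c * (z.1 : ℝ) -
        (if u = v then |(z.1 : ℝ)| / 2 else 0) + (if v ≤ (z.2 : ℤ) then (z.2 : ℝ) else 0)
      have h3 := hc z.1
      have hz' : |z.1| ≤ (z.2 : ℤ) := by exact_mod_cast hz
      have h4 := (abs_le.1 hz').1
      simp only [hf]
      split_ifs at h3 ⊢
      all_goals first
        | (have : (0 : ℝ) ≤ z.2 := Nat.cast_nonneg _; linarith)
        | (have h5 : -(z.2 : ℤ) ≤ min u (v + z.1) := le_min (by omega) (by omega)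
           have h6 : -(z.2 : ℝ) ≤ ((min u (v + z.1) : ℤ) : ℝ) := by exact_mod_cast h5
           linarith)
        | (have h5 : 0 ≤ min u (v + z.1) := le_min (by omega) (by omega)
           have h6 : (0 : ℝ) ≤ ((min u (v + z.1) : ℤ) : ℝ) := by exact_mod_cast h5
           linarith)
    refine (add_le_add h2 le_rfl).trans (le_of_eq ?_)
    have i1 : Integrable (fun z : ℤ × ℕ => (if u = v then |(z.1 : ℝ)| / 2 else 0)) ν := by
      by_cases hu : u = v
      · simp only [hu, if_true]; exact h.intXa.div_const 2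
      · simp only [hu, if_false]; exact integrable_const 0
    rw [int4 h _ c i1 (int_ind h v)]
    by_cases hu : u = v
    · simp only [hu, if_true]
      rw [integral_div]
      simp only [gr, m]
      ring
    · simp only [hu, if_false, integral_zero]
      simp [gr]
  have m0 : 0 ≤ m ν := integral_nonneg fun z => abs_nonneg _
  have mm : (0 : ℝ) ≤ ((min u v : ℤ) : ℝ) := by exact_mod_cast le_min hu hv
  rw [e1, g_eq h, ← ENNReal.ofReal_add mm (gr_nonneg v)]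
  have e2 : (if u = v then ENNReal.ofReal (m ν / 2) else 0) =
      ENNReal.ofReal (if u = v then m ν / 2 else 0) := by
    split_ifs
    · rfl
    · simp
  rw [e2, ← ENNReal.ofReal_add (integral_nonneg f0) (by split_ifs <;> linarith)]
  exact ENNReal.ofReal_le_ofReal key

open Classical in
/-- **the linear function** -/
lemma step_lin (h : Law ν) (v0 : ℕ) {v : ℤ} (hv : (v0 : ℤ) ≤ v) :
    ENNReal.ofReal (v : ℝ) + v0 * ν {z | good v0 v z} ≤
      (∫⁻ z, (if good v0 v z then ENNReal.ofReal ((v + z.1 : ℤ) : ℝ) else 0) ∂ν) +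
      2 * g ν v + v0 := by
  have := h.prob
  set f : ℤ × ℕ → ℝ := fun z => if good v0 v z then ((v + z.1 : ℤ) : ℝ) else 0 with hf
  have f0 : ∀ z, 0 ≤ f z := by
    intro z
    simp only [hf]
    split_ifs with hg
    · have := hg.2
      have h1 : (0 : ℤ) ≤ v + z.1 := by omega
      exact_mod_cast h1
    · exact le_rfl
  have v0' : (0 : ℝ) ≤ v := by
    have : (0 : ℤ) ≤ v := by omega
    exact_mod_cast this
  have fi : Integrable f ν := by
    refine Integrable.mono' ((integrable_const (v : ℝ)).add h.intE) (meas _).aestronglyMeasurable ?_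
    filter_upwards [h.le] with z hz
    rw [Real.norm_eq_abs, abs_of_nonneg (f0 z)]
    show f z ≤ (v : ℝ) + (z.2 : ℝ)
    have h3 := (abs_le.1 hz).2
    have : (0 : ℝ) ≤ z.2 := Nat.cast_nonneg _
    simp only [hf]
    split_ifs
    · push_cast; linarith
    · linarith
  have e1 : (∫⁻ z, (if good v0 v z then ENNReal.ofReal ((v + z.1 : ℤ) : ℝ) else 0) ∂ν) =
      ENNReal.ofReal (∫ z, f z ∂ν) := by
    rw [ofReal_integral_eq_lintegral_ofReal fi (Eventually.of_forall f0)]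
    refine lintegral_congr fun z => ?_
    simp only [hf]
    split_ifs
    · rfl
    · simp
  have mg : MeasurableSet {z : ℤ × ℕ | good v0 v z} := Set.Countable.measurableSet (Set.to_countable _)
  have e2 : (v0 : ℝ≥0∞) * ν {z | good v0 v z} = ENNReal.ofReal ((v0 : ℝ) * ν.real {z | good v0 v z}) := by
    rw [ENNReal.ofReal_mul (Nat.cast_nonneg _), ENNReal.ofReal_natCast, Measure.real,
      ENNReal.ofReal_toReal (measure_ne_top _ _)]
  have e3 : ν.real {z | good v0 v z} = ∫ z, (if good v0 v z then (1 : ℝ) else 0) ∂ν := by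
    have : (fun z => if good v0 v z then (1 : ℝ) else 0) =
        Set.indicator {z | good v0 v z} (fun _ => (1 : ℝ)) := by
      funext z
      by_cases hz : good v0 v z <;> simp [Set.indicator, hz]
    rw [this, integral_indicator mg]
    simp
  have ig : Integrable (fun z : ℤ × ℕ => (if good v0 v z then (1 : ℝ) else 0)) ν := by
    refine Integrable.mono' (integrable_const (1 : ℝ)) (meas _).aestronglyMeasurable
      (Eventually.of_forall fun z => ?_)
    show ‖(if good v0 v z then (1 : ℝ) else 0)‖ ≤ 1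
    split_ifs <;> simp
  have key : (v : ℝ) + (v0 : ℝ) * ν.real {z | good v0 v z} ≤
      ∫ z, f z ∂ν + 2 * gr ν v + v0 := by
    rw [e3]
    have h1 : ∫ z, ((v : ℝ) + (z.1 : ℝ) + (v0 : ℝ) * (if good v0 v z then (1 : ℝ) else 0)) ∂ν ≤
        ∫ z, (f z + 2 * (if v ≤ (z.2 : ℤ) then (z.2 : ℝ) else 0) + (v0 : ℝ)) ∂ν := by
      refine integral_mono_ae (((integrable_const _).add h.intX).add (ig.const_mul _))
        ((fi.add ((int_ind h v).const_mul 2)).add (integrable_const _)) ?_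
      filter_upwards [h.le] with z hz
      show (v : ℝ) + (z.1 : ℝ) + (v0 : ℝ) * (if good v0 v z then (1 : ℝ) else 0) ≤
        f z + 2 * (if v ≤ (z.2 : ℤ) then (z.2 : ℝ) else 0) + (v0 : ℝ)
      have h3 := (abs_le.1 hz).2
      have h00 : (0 : ℝ) ≤ z.2 := Nat.cast_nonneg _
      have h01 : (0 : ℝ) ≤ (v0 : ℝ) := Nat.cast_nonneg _
      by_cases hg : good v0 v z
      · simp only [hf, if_pos hg]
        rw [if_neg (by have := hg.1; omega)]
        push_cast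
        linarith
      · simp only [hf, if_neg hg]
        by_cases ha : v ≤ (z.2 : ℤ)
        · rw [if_pos ha]
          have : (v : ℝ) ≤ z.2 := by exact_mod_cast ha
          linarith
        · rw [if_neg ha]
          have : v + z.1 ≤ (v0 : ℤ) := by
            by_contra hc
            exact hg ⟨by omega, by omega⟩
          have h5 : (v : ℝ) + (z.1 : ℝ) ≤ v0 := by exact_mod_cast this
          linarith
    have j1 : ∫ z, ((v : ℝ) + (z.1 : ℝ) + (v0 : ℝ) * (if good v0 v z then (1 : ℝ) else 0)) ∂ν =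
        v + v0 * ∫ z, (if good v0 v z then (1 : ℝ) else 0) ∂ν := by
      have i1 : Integrable (fun z : ℤ × ℕ => (v : ℝ) + (z.1 : ℝ)) ν := (integrable_const _).add h.intX
      rw [integral_add i1 (ig.const_mul _), integral_add (integrable_const _) h.intX, h.mean,
        integral_const_mul]
      simp
    have j2 : ∫ z, (f z + 2 * (if v ≤ (z.2 : ℤ) then (z.2 : ℝ) else 0) + (v0 : ℝ)) ∂ν =
        ∫ z, f z ∂ν + 2 * gr ν v + v0 := by
      have i2 : Integrable (fun z : ℤ × ℕ => f z + 2 * (if v ≤ (z.2 : ℤ) then (z.2 : ℝ) else 0)) ν :=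
        fi.add ((int_ind h v).const_mul 2)
      rw [integral_add i2 (integrable_const _), integral_add fi ((int_ind h v).const_mul 2),
        integral_const_mul]
      simp [gr]
    rw [j1, j2] at h1
    exact h1
  have i0 : 0 ≤ ∫ z, f z ∂ν := integral_nonneg f0
  rw [e1, e2, g_eq h, ← ENNReal.ofReal_add v0' (by positivity)]
  have e4 : (2 : ℝ≥0∞) * ENNReal.ofReal (gr ν v) = ENNReal.ofReal (2 * gr ν v) := by
    rw [ENNReal.ofReal_mul (by norm_num)]
    simp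
  have e5 : (v0 : ℝ≥0∞) = ENNReal.ofReal (v0 : ℝ) := by rw [ENNReal.ofReal_natCast]
  have g0 := gr_nonneg (ν := ν) v
  rw [e4, e5, ← ENNReal.ofReal_add i0 (by positivity), ← ENNReal.ofReal_add (by positivity)
    (Nat.cast_nonneg _)]
  exact ENNReal.ofReal_le_ofReal key

/-! ### the walk -/

section walk
variable {Ω : Type*} {mΩ : MeasurableSpace Ω}

/-- the walk: `D k` = it moves at the step `k` -/
structure Walk (P : Measure Ω) (ν : Measure (ℤ × ℕ)) (F : ℕ → MeasurableSpace Ω)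
    (X : ℕ → Ω → ℤ) (E : ℕ → Ω → ℕ) (W : ℕ → Ω → ℤ) (D : ℕ → Set Ω) : Prop where
  mono : ∀ k, F k ≤ F (k + 1)
  le : ∀ k, F k ≤ mΩ
  mW : Measurable[F 0] (W 0)
  mX : ∀ k, Measurable[F (k + 1)] (X k)
  mE : ∀ k, Measurable[F (k + 1)] (E k)
  mD : ∀ k, MeasurableSet[F k] (D k)
  ind : ∀ k A, MeasurableSet[F k] A → A ⊆ D k → ∀ (x : ℤ) (e : ℕ),
    P (A ∩ {ω | X k ω = x ∧ E k ω = e}) = P A * ν {(x, e)}
  mv : ∀ k, ∀ ω ∈ D k, W (k + 1) ω = W k ω + X k ω
  st : ∀ k, ∀ ω, ω ∉ D k → W (k + 1) ω = W k ω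

/-- alive up to the time `k`, inside `B` -/
def Al (v0 : ℕ) (X : ℕ → Ω → ℤ) (E : ℕ → Ω → ℕ) (W : ℕ → Ω → ℤ) (D : ℕ → Set Ω) (B : Set Ω) :
    ℕ → Set Ω
  | 0 => B
  | k + 1 => {ω | ω ∈ Al v0 X E W D B k ∧ (ω ∈ D k → good v0 (W k ω) (X k ω, E k ω))}

variable {P : Measure Ω} {F : ℕ → MeasurableSpace Ω} {X : ℕ → Ω → ℤ} {E : ℕ → Ω → ℕ}
  {W : ℕ → Ω → ℤ} {D : ℕ → Set Ω} {B : Set Ω} {v0 : ℕ}

namespace Walk

lemma mWk (h : Walk P ν F X E W D) : ∀ k, Measurable[F k] (W k) := by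
  classical
  intro k
  induction k with
  | zero => exact h.mW
  | succ k ih =>
    have e : W (k + 1) = fun ω => if ω ∈ D k then W k ω + X k ω else W k ω := by
      funext ω
      by_cases hω : ω ∈ D k
      · rw [if_pos hω, h.mv k ω hω]
      · rw [if_neg hω, h.st k ω hω]
    rw [e]
    have h1 : Measurable[F (k + 1)] (W k) := ih.mono (h.mono k) le_rfl
    have h2 : MeasurableSet[F (k + 1)] (D k) := h.mono k _ (h.mD k)
    exact Measurable.ite h2 (h1.add (h.mX k)) h1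

lemma mAl (h : Walk P ν F X E W D) (hB : MeasurableSet[F 0] B) :
    ∀ k, MeasurableSet[F k] (Al v0 X E W D B k) := by
  intro k
  induction k with
  | zero => exact hB
  | succ k ih =>
    have h1 : Measurable[F (k + 1)] (W k) := (h.mWk k).mono (h.mono k) le_rfl
    have h2 : MeasurableSet[F (k + 1)] (D k) := h.mono k _ (h.mD k)
    have h3 : MeasurableSet[F (k + 1)] (Al v0 X E W D B k) := h.mono k _ ih
    have h4 : Measurable[F (k + 1)] (fun ω => (W k ω, (X k ω, E k ω))) :=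
      h1.prodMk ((h.mX k).prodMk (h.mE k))
    have h5 : MeasurableSet[F (k + 1)] ((fun ω => (W k ω, (X k ω, E k ω))) ⁻¹'
        {q | good v0 q.1 q.2}) := h4 (Set.Countable.measurableSet (Set.to_countable _))
    have e : Al v0 X E W D B (k + 1) = Al v0 X E W D B k ∩ ((D k)ᶜ ∪
        ((fun ω => (W k ω, (X k ω, E k ω))) ⁻¹' {q | good v0 q.1 q.2})) := by
      ext ω
      show (ω ∈ Al v0 X E W D B k ∧ (ω ∈ D k → _)) ↔ _
      simp only [Set.mem_inter_iff, Set.mem_union, Set.mem_compl_iff, Set.mem_preimage,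
        Set.mem_ofPred_eq]
      constructor
      · rintro ⟨h1, h2⟩
        exact ⟨h1, (Classical.em (ω ∈ D k)).elim (fun h => Or.inr (h2 h)) Or.inl⟩
      · rintro ⟨h1, h2⟩
        exact ⟨h1, fun h => h2.resolve_left (fun h3 => h3 h)⟩
    rw [e]
    exact h3.inter (h2.compl.union h5)

/-- **the law of a step** -/
lemma law (h : Walk P ν F X E W D) [IsFiniteMeasure P] [IsProbabilityMeasure ν] (k : ℕ) {A : Set Ω}
    (hA : MeasurableSet[F k] A) (hAD : A ⊆ D k) :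
    (P.restrict A).map (fun ω => (W k ω, (X k ω, E k ω))) = ((P.restrict A).map (W k)).prod ν := by
  have mA : MeasurableSet A := h.le k _ hA
  have mW : Measurable (W k) := (h.mWk k).mono (h.le k) le_rfl
  have mX : Measurable (X k) := (h.mX k).mono (h.le _) le_rfl
  have mE : Measurable (E k) := (h.mE k).mono (h.le _) le_rfl
  refine Measure.ext_of_singleton ?_
  rintro ⟨v, x, e⟩
  rw [Measure.map_apply (mW.prodMk (mX.prodMk mE)) (measurableSet_singleton _),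
    Measure.restrict_apply ((mW.prodMk (mX.prodMk mE)) (measurableSet_singleton _)),
    ← Set.singleton_prod_singleton, Measure.prod_prod, Measure.map_apply mW
    (measurableSet_singleton _), Measure.restrict_apply (mW (measurableSet_singleton _))]
  have h1 : MeasurableSet[F k] (W k ⁻¹' {v} ∩ A) :=
    ((h.mWk k) (measurableSet_singleton v)).inter hA
  rw [← h.ind k _ h1 (Set.inter_subset_right.trans hAD) x e]
  congr 1
  ext ω
  simp only [Set.mem_inter_iff, Set.mem_preimage, Set.mem_singleton_iff, Set.mem_ofPred_eq,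
    Set.singleton_prod_singleton, Prod.mk.injEq]
  tauto

/-- **freezing** -/
lemma freeze (h : Walk P ν F X E W D) [IsFiniteMeasure P] [IsProbabilityMeasure ν] (k : ℕ)
    {A : Set Ω} (hA : MeasurableSet[F k] A) (hAD : A ⊆ D k) (ψ : ℤ → ℤ × ℕ → ℝ≥0∞) :
    ∫⁻ ω in A, ψ (W k ω) (X k ω, E k ω) ∂P = ∫⁻ ω in A, (∫⁻ z, ψ (W k ω) z ∂ν) ∂P := by
  have mW : Measurable (W k) := (h.mWk k).mono (h.le k) le_rfl
  have mX : Measurable (X k) := (h.mX k).mono (h.le _) le_rfl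
  have mE : Measurable (E k) := (h.mE k).mono (h.le _) le_rfl
  have m1 : Measurable (fun q : ℤ × (ℤ × ℕ) => ψ q.1 q.2) := measurable_of_countable _
  have m2 : Measurable (fun v : ℤ => ∫⁻ z, ψ v z ∂ν) := measurable_of_countable _
  have e1 : ∫⁻ ω in A, ψ (W k ω) (X k ω, E k ω) ∂P =
      ∫⁻ q, ψ q.1 q.2 ∂((P.restrict A).map (fun ω => (W k ω, (X k ω, E k ω)))) := by
    rw [lintegral_map m1 (mW.prodMk (mX.prodMk mE))]
  rw [e1, h.law k hA hAD, lintegral_prod _ m1.aemeasurable, lintegral_map m2 mW]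

open Classical in
/-- **the step of the alive walk** -/
lemma split (h : Walk P ν F X E W D) [IsFiniteMeasure P] [IsProbabilityMeasure ν]
    (hB : MeasurableSet[F 0] B) (k : ℕ) (φ : ℤ → ℝ≥0∞) :
    ∫⁻ ω in Al v0 X E W D B (k + 1), φ (W (k + 1) ω) ∂P =
      ∫⁻ ω in Al v0 X E W D B k \ D k, φ (W k ω) ∂P +
      ∫⁻ ω in Al v0 X E W D B k ∩ D k,
        (∫⁻ z, (if good v0 (W k ω) z then φ (W k ω + z.1) else 0) ∂ν) ∂P := by
  have mAk := h.le k _ (h.mAl (v0 := v0) hB k)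
  have mD := h.le k _ (h.mD k)
  have mW : Measurable (W k) := (h.mWk k).mono (h.le k) le_rfl
  have mX : Measurable (X k) := (h.mX k).mono (h.le _) le_rfl
  have mE : Measurable (E k) := (h.mE k).mono (h.le _) le_rfl
  set G : Set Ω := (fun ω => (W k ω, (X k ω, E k ω))) ⁻¹' {q | good v0 q.1 q.2} with hG
  have mG : MeasurableSet G :=
    (mW.prodMk (mX.prodMk mE)) (Set.Countable.measurableSet (Set.to_countable _))
  have e : Al v0 X E W D B (k + 1) =
      (Al v0 X E W D B k \ D k) ∪ ((Al v0 X E W D B k ∩ D k) ∩ G) := by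
    ext ω
    show (ω ∈ Al v0 X E W D B k ∧ (ω ∈ D k → _)) ↔ _
    simp only [Set.mem_inter_iff, Set.mem_union, Set.mem_sdiff, hG, Set.mem_preimage,
      Set.mem_ofPred_eq]
    constructor
    · rintro ⟨h1, h2⟩
      by_cases hd : ω ∈ D k
      · exact Or.inr ⟨⟨h1, hd⟩, h2 hd⟩
      · exact Or.inl ⟨h1, hd⟩
    · rintro (⟨h1, h2⟩ | ⟨⟨h1, h2⟩, h3⟩)
      · exact ⟨h1, fun h => absurd h h2⟩
      · exact ⟨h1, fun _ => h3⟩
  have dj : Disjoint (Al v0 X E W D B k \ D k) ((Al v0 X E W D B k ∩ D k) ∩ G) := by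
    rw [Set.disjoint_left]
    rintro ω ⟨_, h2⟩ ⟨⟨_, h3⟩, _⟩
    exact h2 h3
  rw [e, lintegral_union (((mAk.inter mD).inter mG)) dj]
  congr 1
  · refine setLIntegral_congr_fun (mAk.diff mD) fun ω hω => ?_
    show φ (W (k + 1) ω) = φ (W k ω)
    rw [h.st k ω hω.2]
  · have e2 : ∫⁻ ω in (Al v0 X E W D B k ∩ D k) ∩ G, φ (W (k + 1) ω) ∂P =
        ∫⁻ ω in Al v0 X E W D B k ∩ D k,
          (if good v0 (W k ω) (X k ω, E k ω) then φ (W k ω + X k ω) else 0) ∂P := by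
      rw [Set.inter_comm _ G, ← Measure.restrict_restrict mG, ← lintegral_indicator mG]
      refine setLIntegral_congr_fun (mAk.inter mD) fun ω hω => ?_
      show G.indicator (fun ω => φ (W (k + 1) ω)) ω = _
      by_cases hg : ω ∈ G
      · rw [Set.indicator_of_mem hg, if_pos (show good v0 (W k ω) (X k ω, E k ω) from hg),
          h.mv k ω hω.2]
      · rw [Set.indicator_of_notMem hg, if_neg (show ¬ good v0 (W k ω) (X k ω, E k ω) from hg)]
    rw [e2]
    exact h.freeze k ((h.mAl hB k).inter (h.mD k)) Set.inter_subset_right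
      (fun v z => if good v0 v z then φ (v + z.1) else 0)

/-- alive means above `v0` -/
lemma above (h : Walk P ν F X E W D) (hv : ∀ ω ∈ B, (v0 : ℤ) < W 0 ω) : ∀ k,
    ∀ ω ∈ Al v0 X E W D B k, (v0 : ℤ) < W k ω := by
  intro k
  induction k with
  | zero => exact hv
  | succ k ih =>
    rintro ω ⟨h1, h2⟩
    by_cases hd : ω ∈ D k
    · rw [h.mv k ω hd]
      exact (h2 hd).2
    · rw [h.st k ω hd]
      exact ih ω h1

lemma part (h : Walk P ν F X E W D) (k : ℕ) (hB : MeasurableSet[F 0] B) (f : Ω → ℝ≥0∞) :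
    ∫⁻ ω in Al v0 X E W D B k, f ω ∂P = ∫⁻ ω in Al v0 X E W D B k \ D k, f ω ∂P +
      ∫⁻ ω in Al v0 X E W D B k ∩ D k, f ω ∂P := by
  have mD := h.le k _ (h.mD k)
  rw [add_comm]
  exact (lintegral_inter_add_sdiff f _ mD).symm

/-- killing potential -/
noncomputable def Ga (P : Measure Ω) (ν : Measure (ℤ × ℕ)) (v0 : ℕ) (X : ℕ → Ω → ℤ)
    (E : ℕ → Ω → ℕ) (W : ℕ → Ω → ℤ) (D : ℕ → Set Ω) (B : Set Ω) (n : ℕ) : ℝ≥0∞ :=
  ∑ k ∈ Finset.range n, ∫⁻ ω in Al v0 X E W D B k ∩ D k, g ν (W k ω) ∂P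

/-- occupation of `u` -/
noncomputable def Oc (P : Measure Ω) (v0 : ℕ) (X : ℕ → Ω → ℤ)
    (E : ℕ → Ω → ℕ) (W : ℕ → Ω → ℤ) (D : ℕ → Set Ω) (B : Set Ω) (u : ℤ) (n : ℕ) : ℝ≥0∞ :=
  ∑ k ∈ Finset.range n, P ((Al v0 X E W D B k ∩ D k) ∩ {ω | u = W k ω})

lemma Ga_succ (n : ℕ) : Ga P ν v0 X E W D B (n + 1) = Ga P ν v0 X E W D B n +
    ∫⁻ ω in Al v0 X E W D B n ∩ D n, g ν (W n ω) ∂P := Finset.sum_range_succ _ _

lemma Oc_succ (u : ℤ) (n : ℕ) : Oc P v0 X E W D B u (n + 1) = Oc P v0 X E W D B u n +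
    P ((Al v0 X E W D B n ∩ D n) ∩ {ω | u = W n ω}) := Finset.sum_range_succ _ _

open Classical in
lemma occ_step (h : Walk P ν F X E W D) [IsFiniteMeasure P] (hν : Law ν)
    (hB : MeasurableSet[F 0] B) (hv : ∀ ω ∈ B, (v0 : ℤ) < W 0 ω) {u : ℤ} (hu : 0 ≤ u) (k : ℕ) :
    ∫⁻ ω in Al v0 X E W D B (k + 1), ENNReal.ofReal ((min u (W (k + 1) ω) : ℤ) : ℝ) ∂P +
      ENNReal.ofReal (m ν / 2) * P ((Al v0 X E W D B k ∩ D k) ∩ {ω | u = W k ω}) ≤
    ∫⁻ ω in Al v0 X E W D B k, ENNReal.ofReal ((min u (W k ω) : ℤ) : ℝ) ∂P +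
      ∫⁻ ω in Al v0 X E W D B k ∩ D k, g ν (W k ω) ∂P := by
  have := hν.prob
  have mAk := h.le k _ (h.mAl (v0 := v0) hB k)
  have mD := h.le k _ (h.mD k)
  have mW : Measurable (W k) := (h.mWk k).mono (h.le k) le_rfl
  rw [h.split hB k (fun v => ENNReal.ofReal ((min u v : ℤ) : ℝ)),
    h.part k hB (fun ω => ENNReal.ofReal ((min u (W k ω) : ℤ) : ℝ)), add_assoc, add_assoc]
  refine add_le_add le_rfl ?_
  have mu : MeasurableSet {ω | u = W k ω} := by
    have : {ω | u = W k ω} = W k ⁻¹' {u} := by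
      ext ω; simp [eq_comm]
    rw [this]
    exact mW (measurableSet_singleton u)
  have e1 : ENNReal.ofReal (m ν / 2) * P ((Al v0 X E W D B k ∩ D k) ∩ {ω | u = W k ω}) =
      ∫⁻ ω in Al v0 X E W D B k ∩ D k, (if u = W k ω then ENNReal.ofReal (m ν / 2) else 0) ∂P := by
    have e2 : (fun ω => if u = W k ω then ENNReal.ofReal (m ν / 2) else 0) =
        Set.indicator {ω | u = W k ω} (fun _ => ENNReal.ofReal (m ν / 2)) := by
      funext ω
      by_cases hω : u = W k ω <;> simp [Set.indicator, hω]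
    rw [e2, lintegral_indicator mu, setLIntegral_const, Measure.restrict_apply mu, Set.inter_comm]
  have mm : Measurable (fun ω => if u = W k ω then ENNReal.ofReal (m ν / 2) else 0) :=
    Measurable.ite mu measurable_const measurable_const
  have mg : Measurable (fun ω => g ν (W k ω)) := (measurable_of_countable (g ν)).comp mW
  rw [e1, ← lintegral_add_right _ mm, ← lintegral_add_right _ mg]
  refine setLIntegral_mono' (mAk.inter mD) fun ω hω => ?_
  exact step_min hν v0 hu (by have := h.above hv k ω hω.1; omega)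

lemma occ_sum (h : Walk P ν F X E W D) [IsFiniteMeasure P] (hν : Law ν)
    (hB : MeasurableSet[F 0] B) (hv : ∀ ω ∈ B, (v0 : ℤ) < W 0 ω) {u : ℤ} (hu : 0 ≤ u) (n : ℕ) :
    ∫⁻ ω in Al v0 X E W D B n, ENNReal.ofReal ((min u (W n ω) : ℤ) : ℝ) ∂P +
      ENNReal.ofReal (m ν / 2) * Oc P v0 X E W D B u n ≤
    ∫⁻ ω in B, ENNReal.ofReal ((W 0 ω : ℤ) : ℝ) ∂P + Ga P ν v0 X E W D B n := by
  have mB := h.le 0 _ hB
  induction n with
  | zero =>
    simp only [Oc, Ga, Finset.range_zero, Finset.sum_empty, mul_zero, add_zero]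
    refine setLIntegral_mono' mB fun ω hω => ENNReal.ofReal_le_ofReal ?_
    exact_mod_cast min_le_right _ _
  | succ n ih =>
    have h1 := h.occ_step hν hB hv hu n
    rw [Oc_succ, Ga_succ, mul_add]
    calc _ = (∫⁻ ω in Al v0 X E W D B (n + 1), ENNReal.ofReal ((min u (W (n + 1) ω) : ℤ) : ℝ) ∂P +
        ENNReal.ofReal (m ν / 2) * P ((Al v0 X E W D B n ∩ D n) ∩ {ω | u = W n ω})) +
        ENNReal.ofReal (m ν / 2) * Oc P v0 X E W D B u n := by ring
      _ ≤ (∫⁻ ω in Al v0 X E W D B n, ENNReal.ofReal ((min u (W n ω) : ℤ) : ℝ) ∂P +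
        ∫⁻ ω in Al v0 X E W D B n ∩ D n, g ν (W n ω) ∂P) +
        ENNReal.ofReal (m ν / 2) * Oc P v0 X E W D B u n := add_le_add h1 le_rfl
      _ = (∫⁻ ω in Al v0 X E W D B n, ENNReal.ofReal ((min u (W n ω) : ℤ) : ℝ) ∂P +
        ENNReal.ofReal (m ν / 2) * Oc P v0 X E W D B u n) +
        ∫⁻ ω in Al v0 X E W D B n ∩ D n, g ν (W n ω) ∂P := by ring
      _ ≤ _ := (add_le_add ih le_rfl).trans (le_of_eq (by ring))

open Classical in
lemma Ga_le (h : Walk P ν F X E W D) [IsFiniteMeasure P]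
    (hB : MeasurableSet[F 0] B) (hv : ∀ ω ∈ B, (v0 : ℤ) < W 0 ω) (n : ℕ) :
    Ga P ν v0 X E W D B n ≤ ∑' u : ℕ, g ν (((u + (v0 + 1) : ℕ) : ℤ)) *
      Oc P v0 X E W D B (((u + (v0 + 1) : ℕ) : ℤ)) n := by
  have key : ∀ k, ∫⁻ ω in Al v0 X E W D B k ∩ D k, g ν (W k ω) ∂P ≤
      ∑' u : ℕ, g ν (((u + (v0 + 1) : ℕ) : ℤ)) *
        P ((Al v0 X E W D B k ∩ D k) ∩ {ω | (((u + (v0 + 1) : ℕ) : ℤ)) = W k ω}) := by
    intro k
    have mAk := h.le k _ (h.mAl (v0 := v0) hB k)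
    have mD := h.le k _ (h.mD k)
    have mW : Measurable (W k) := (h.mWk k).mono (h.le k) le_rfl
    have mu : ∀ u : ℕ, MeasurableSet {ω | (((u + (v0 + 1) : ℕ) : ℤ)) = W k ω} := by
      intro u
      have : {ω | (((u + (v0 + 1) : ℕ) : ℤ)) = W k ω} = W k ⁻¹' {(((u + (v0 + 1) : ℕ) : ℤ))} := by
        ext ω; simp [eq_comm]
      rw [this]
      exact mW (measurableSet_singleton _)
    have e1 : ∀ u : ℕ, g ν (((u + (v0 + 1) : ℕ) : ℤ)) *
        P ((Al v0 X E W D B k ∩ D k) ∩ {ω | (((u + (v0 + 1) : ℕ) : ℤ)) = W k ω}) =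
        ∫⁻ ω in Al v0 X E W D B k ∩ D k, Set.indicator {ω | (((u + (v0 + 1) : ℕ) : ℤ)) = W k ω}
          (fun _ => g ν (((u + (v0 + 1) : ℕ) : ℤ))) ω ∂P := by
      intro u
      rw [lintegral_indicator (mu u), setLIntegral_const, Measure.restrict_apply (mu u),
        Set.inter_comm]
    simp only [e1]
    rw [← lintegral_tsum fun u => (measurable_const.indicator (mu u)).aemeasurable]
    refine setLIntegral_mono' (mAk.inter mD) fun ω hω => ?_
    have h1 := h.above hv k ω hω.1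
    have h2 : ((((W k ω - (v0 + 1)).toNat + (v0 + 1) : ℕ) : ℤ)) = W k ω := by
      push_cast
      rw [Int.toNat_of_nonneg (by omega)]
      ring
    refine le_trans (le_of_eq ?_) (ENNReal.le_tsum (W k ω - (v0 + 1)).toNat)
    rw [Set.indicator_of_mem (show ω ∈ {ω | _ = W k ω} from h2), h2]
  unfold Ga Oc
  calc _ ≤ ∑ k ∈ Finset.range n, ∑' u : ℕ, g ν (((u + (v0 + 1) : ℕ) : ℤ)) *
        P ((Al v0 X E W D B k ∩ D k) ∩ {ω | (((u + (v0 + 1) : ℕ) : ℤ)) = W k ω}) :=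
        Finset.sum_le_sum fun k _ => key k
    _ = ∑' u : ℕ, ∑ k ∈ Finset.range n, g ν (((u + (v0 + 1) : ℕ) : ℤ)) *
        P ((Al v0 X E W D B k ∩ D k) ∩ {ω | (((u + (v0 + 1) : ℕ) : ℤ)) = W k ω}) :=
        (Summable.tsum_finsetSum fun _ _ => ENNReal.summable).symm
    _ = _ := by
        congr 1
        funext u
        rw [Finset.mul_sum]

lemma Ga_top (h : Walk P ν F X E W D) [IsFiniteMeasure P] (hν : Law ν) (n : ℕ) :
    Ga P ν v0 X E W D B n ≠ ∞ := by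
  unfold Ga
  refine (ENNReal.sum_lt_top.2 fun k _ => ?_).ne
  refine lt_of_le_of_lt (lintegral_mono (g := fun _ => ENNReal.ofReal (∫ z, (z.2 : ℝ) ∂ν))
    fun ω => ?_) ?_
  · rw [g_eq hν]
    exact ENNReal.ofReal_le_ofReal (gr_le hν _)
  · rw [setLIntegral_const]
    exact ENNReal.mul_lt_top ENNReal.ofReal_lt_top (measure_lt_top _ _)

/-- **the killing potential is small** -/
theorem Ga_small (h : Walk P ν F X E W D) [IsFiniteMeasure P] (hν : Law ν)
    (hB : MeasurableSet[F 0] B) (hv : ∀ ω ∈ B, (v0 : ℤ) < W 0 ω)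
    (hv0 : ∑' u : ℕ, g ν (((u + (v0 + 1) : ℕ) : ℤ)) ≤ ENNReal.ofReal (m ν / 34)) (n : ℕ) :
    16 * Ga P ν v0 X E W D B n ≤ ∫⁻ ω in B, ENNReal.ofReal ((W 0 ω : ℤ) : ℝ) ∂P := by
  set I0 := ∫⁻ ω in B, ENNReal.ofReal ((W 0 ω : ℤ) : ℝ) ∂P with hI0
  set G := Ga P ν v0 X E W D B n with hG
  have hm : 0 < m ν := hν.pos
  have h1 : ENNReal.ofReal (m ν / 2) * G ≤ ENNReal.ofReal (m ν / 34) * (I0 + G) := by
    calc _ ≤ ENNReal.ofReal (m ν / 2) * ∑' u : ℕ, g ν (((u + (v0 + 1) : ℕ) : ℤ)) *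
          Oc P v0 X E W D B (((u + (v0 + 1) : ℕ) : ℤ)) n := mul_le_mul_right (h.Ga_le hB hv n) _
      _ = ∑' u : ℕ, g ν (((u + (v0 + 1) : ℕ) : ℤ)) *
          (ENNReal.ofReal (m ν / 2) * Oc P v0 X E W D B (((u + (v0 + 1) : ℕ) : ℤ)) n) := by
          rw [← ENNReal.tsum_mul_left]
          congr 1
          funext u
          ring
      _ ≤ ∑' u : ℕ, g ν (((u + (v0 + 1) : ℕ) : ℤ)) * (I0 + G) := by
          refine ENNReal.tsum_le_tsum fun u => mul_le_mul_right ?_ _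
          have h2 := h.occ_sum hν hB hv (u := (((u + (v0 + 1) : ℕ) : ℤ))) (by positivity) n
          exact le_trans le_add_self h2
      _ = (∑' u : ℕ, g ν (((u + (v0 + 1) : ℕ) : ℤ))) * (I0 + G) := ENNReal.tsum_mul_right
      _ ≤ _ := mul_le_mul_left hv0 _
  by_cases hI : I0 = ∞
  · rw [hI]; exact le_top
  have hGt : G ≠ ∞ := h.Ga_top hν n
  have h3 := ENNReal.toReal_mono (ENNReal.mul_ne_top ENNReal.ofReal_ne_top
    (ENNReal.add_ne_top.2 ⟨hI, hGt⟩)) h1
  rw [ENNReal.toReal_mul, ENNReal.toReal_mul, ENNReal.toReal_ofReal (by positivity),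
    ENNReal.toReal_ofReal (by positivity), ENNReal.toReal_add hI hGt] at h3
  have h4 : 16 * G.toReal ≤ I0.toReal := by
    have h5 : (m ν) * (17 * G.toReal) ≤ m ν * (I0.toReal + G.toReal) := by nlinarith
    have h6 := le_of_mul_le_mul_left h5 hm
    linarith
  rw [← ENNReal.ofReal_toReal hI, ← ENNReal.ofReal_toReal hGt]
  have e16 : (16 : ℝ≥0∞) = ENNReal.ofReal 16 := by simp
  rw [e16, ← ENNReal.ofReal_mul (by norm_num)]
  exact ENNReal.ofReal_le_ofReal h4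

open Classical in
lemma lin_step (h : Walk P ν F X E W D) [IsFiniteMeasure P] (hν : Law ν)
    (hB : MeasurableSet[F 0] B) (hv : ∀ ω ∈ B, (v0 : ℤ) < W 0 ω) (k : ℕ) :
    ∫⁻ ω in Al v0 X E W D B k, ENNReal.ofReal ((W k ω : ℤ) : ℝ) ∂P +
      v0 * P (Al v0 X E W D B (k + 1)) ≤
    ∫⁻ ω in Al v0 X E W D B (k + 1), ENNReal.ofReal ((W (k + 1) ω : ℤ) : ℝ) ∂P +
      2 * ∫⁻ ω in Al v0 X E W D B k ∩ D k, g ν (W k ω) ∂P + v0 * P (Al v0 X E W D B k) := by
  have := hν.prob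
  have mAk := h.le k _ (h.mAl (v0 := v0) hB k)
  have mD := h.le k _ (h.mD k)
  have mW : Measurable (W k) := (h.mWk k).mono (h.le k) le_rfl
  have mg : Measurable (fun ω => g ν (W k ω)) := (measurable_of_countable (g ν)).comp mW
  have e1 : P (Al v0 X E W D B (k + 1)) = ∫⁻ ω in Al v0 X E W D B k \ D k, 1 ∂P +
      ∫⁻ ω in Al v0 X E W D B k ∩ D k, ν {z | good v0 (W k ω) z} ∂P := by
    have h1 := h.split (v0 := v0) hB k (fun _ => 1)
    rw [setLIntegral_one] at h1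
    rw [h1]
    congr 1
    refine lintegral_congr fun ω => ?_
    have e2 : (fun z => if good v0 (W k ω) z then (1 : ℝ≥0∞) else 0) =
        Set.indicator {z | good v0 (W k ω) z} (fun _ => 1) := by
      funext z
      by_cases hz : good v0 (W k ω) z <;> simp [Set.indicator, hz]
    rw [e2, lintegral_indicator (Set.Countable.measurableSet (Set.to_countable _))]
    simp
  have e3 : P (Al v0 X E W D B k) = ∫⁻ ω in Al v0 X E W D B k \ D k, 1 ∂P +
      ∫⁻ ω in Al v0 X E W D B k ∩ D k, 1 ∂P := by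
    rw [← h.part k hB (fun _ => 1), setLIntegral_one]
  rw [e1, e3, h.split hB k (fun v => ENNReal.ofReal ((v : ℤ) : ℝ)),
    h.part k hB (fun ω => ENNReal.ofReal ((W k ω : ℤ) : ℝ))]
  set a := ∫⁻ ω in Al v0 X E W D B k \ D k, ENNReal.ofReal ((W k ω : ℤ) : ℝ) ∂P
  set b := ∫⁻ ω in Al v0 X E W D B k \ D k, 1 ∂P
  have key : ∫⁻ ω in Al v0 X E W D B k ∩ D k, ENNReal.ofReal ((W k ω : ℤ) : ℝ) ∂P +
      v0 * ∫⁻ ω in Al v0 X E W D B k ∩ D k, ν {z | good v0 (W k ω) z} ∂P ≤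
      ∫⁻ ω in Al v0 X E W D B k ∩ D k,
        (∫⁻ z, (if good v0 (W k ω) z then ENNReal.ofReal ((W k ω + z.1 : ℤ) : ℝ) else 0) ∂ν) ∂P +
      2 * ∫⁻ ω in Al v0 X E W D B k ∩ D k, g ν (W k ω) ∂P +
      v0 * ∫⁻ ω in Al v0 X E W D B k ∩ D k, 1 ∂P := by
    have m1 : Measurable (fun ω => ν {z | good v0 (W k ω) z}) :=
      (measurable_of_countable (fun v : ℤ => ν {z | good v0 v z})).comp mW
    rw [← lintegral_const_mul _ m1, ← lintegral_const_mul _ mg,
      ← lintegral_const_mul _ measurable_const, ← lintegral_add_right _ (m1.const_mul _),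
      ← lintegral_add_right _ (mg.const_mul _), ← lintegral_add_right _
      (measurable_const.const_mul _)]
    refine setLIntegral_mono' (mAk.inter mD) fun ω hω => ?_
    have h2 := step_lin hν v0 (v := W k ω) (h.above hv k ω hω.1).le
    rw [mul_one]
    exact h2
  calc _ = (a + v0 * b) + (∫⁻ ω in Al v0 X E W D B k ∩ D k, ENNReal.ofReal ((W k ω : ℤ) : ℝ) ∂P +
      v0 * ∫⁻ ω in Al v0 X E W D B k ∩ D k, ν {z | good v0 (W k ω) z} ∂P) := by ring
    _ ≤ _ := (add_le_add le_rfl key).trans (le_of_eq (by ring))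

lemma lin_sum (h : Walk P ν F X E W D) [IsFiniteMeasure P] (hν : Law ν)
    (hB : MeasurableSet[F 0] B) (hv : ∀ ω ∈ B, (v0 : ℤ) < W 0 ω) (n : ℕ) :
    ∫⁻ ω in B, ENNReal.ofReal ((W 0 ω : ℤ) : ℝ) ∂P + v0 * P (Al v0 X E W D B n) ≤
    ∫⁻ ω in Al v0 X E W D B n, ENNReal.ofReal ((W n ω : ℤ) : ℝ) ∂P +
      2 * Ga P ν v0 X E W D B n + v0 * P B := by
  have ft : ∀ k, (v0 : ℝ≥0∞) * P (Al v0 X E W D B k) ≠ ∞ := fun k =>
    ENNReal.mul_ne_top (ENNReal.natCast_ne_top _) (measure_ne_top _ _)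
  induction n with
  | zero =>
    simp only [Ga, Finset.range_zero, Finset.sum_empty, mul_zero, add_zero]
    exact le_rfl
  | succ n ih =>
    have h1 := h.lin_step hν hB hv n
    rw [Ga_succ]
    refine (ENNReal.add_le_add_iff_right (ft n)).1 ?_
    calc _ = (∫⁻ ω in B, ENNReal.ofReal ((W 0 ω : ℤ) : ℝ) ∂P + v0 * P (Al v0 X E W D B n)) +
        v0 * P (Al v0 X E W D B (n + 1)) := by ring
      _ ≤ (∫⁻ ω in Al v0 X E W D B n, ENNReal.ofReal ((W n ω : ℤ) : ℝ) ∂P +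
        2 * Ga P ν v0 X E W D B n + v0 * P B) + v0 * P (Al v0 X E W D B (n + 1)) :=
        add_le_add ih le_rfl
      _ = (∫⁻ ω in Al v0 X E W D B n, ENNReal.ofReal ((W n ω : ℤ) : ℝ) ∂P +
        v0 * P (Al v0 X E W D B (n + 1))) + (2 * Ga P ν v0 X E W D B n + v0 * P B) := by ring
      _ ≤ _ := (add_le_add h1 le_rfl).trans (le_of_eq (by ring))

/-- **optional stopping** : half of the distance survives -/
theorem main (h : Walk P ν F X E W D) [IsFiniteMeasure P] (hν : Law ν)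
    (hv0 : ∑' u : ℕ, g ν (((u + (v0 + 1) : ℕ) : ℤ)) ≤ ENNReal.ofReal (m ν / 34))
    (hB : MeasurableSet[F 0] B) (hw : ∀ ω ∈ B, 4 * (v0 : ℤ) + 1 ≤ W 0 ω)
    (hI : ∫⁻ ω in B, ENNReal.ofReal ((W 0 ω : ℤ) : ℝ) ∂P ≠ ∞) (n : ℕ) :
    ∫⁻ ω in B, ENNReal.ofReal ((W 0 ω : ℤ) : ℝ) ∂P ≤
      2 * ∫⁻ ω in Al v0 X E W D B n, ENNReal.ofReal ((W n ω : ℤ) : ℝ) ∂P := by
  have hv : ∀ ω ∈ B, (v0 : ℤ) < W 0 ω := fun ω hω => by have := hw ω hω; omega
  have mB := h.le 0 _ hB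
  have h1 := h.lin_sum hν hB hv n
  have h2 := h.Ga_small hν hB hv hv0 n
  have h3 : 4 * (v0 * P B) ≤ ∫⁻ ω in B, ENNReal.ofReal ((W 0 ω : ℤ) : ℝ) ∂P := by
    have e : 4 * (v0 * P B) = ∫⁻ ω in B, ENNReal.ofReal (4 * (v0 : ℝ)) ∂P := by
      rw [setLIntegral_const, ENNReal.ofReal_mul (by norm_num), ENNReal.ofReal_natCast]
      simp [mul_assoc]
    rw [e]
    refine setLIntegral_mono' mB fun ω hω => ENNReal.ofReal_le_ofReal ?_
    have h4 : 4 * (v0 : ℤ) ≤ W 0 ω := by have := hw ω hω; omega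
    exact_mod_cast h4
  set I0 := ∫⁻ ω in B, ENNReal.ofReal ((W 0 ω : ℤ) : ℝ) ∂P
  set J := ∫⁻ ω in Al v0 X E W D B n, ENNReal.ofReal ((W n ω : ℤ) : ℝ) ∂P
  set G := Ga P ν v0 X E W D B n
  have hG : G ≠ ∞ := h.Ga_top hν n
  have hV : (v0 : ℝ≥0∞) * P B ≠ ∞ :=
    ENNReal.mul_ne_top (ENNReal.natCast_ne_top _) (measure_ne_top _ _)
  by_cases hJ : J = ∞
  · rw [hJ]; simp
  have h1' : I0 ≤ J + 2 * G + v0 * P B := le_trans le_self_add h1
  have hG2 : 2 * G ≠ ∞ := ENNReal.mul_ne_top (by norm_num) hG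
  have r1 := ENNReal.toReal_mono (ENNReal.add_ne_top.2 ⟨ENNReal.add_ne_top.2 ⟨hJ, hG2⟩, hV⟩) h1'
  rw [ENNReal.toReal_add (ENNReal.add_ne_top.2 ⟨hJ, hG2⟩) hV, ENNReal.toReal_add hJ hG2,
    ENNReal.toReal_mul] at r1
  have r2 := ENNReal.toReal_mono hI h2
  rw [ENNReal.toReal_mul] at r2
  have r3 := ENNReal.toReal_mono hI h3
  rw [ENNReal.toReal_mul] at r3
  have e2 : (2 : ℝ≥0∞).toReal = 2 := by simp
  have e4 : (4 : ℝ≥0∞).toReal = 4 := by simp
  have e16 : (16 : ℝ≥0∞).toReal = 16 := by simp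
  rw [e2] at r1
  rw [e16] at r2
  rw [e4] at r3
  have n1 : 0 ≤ I0.toReal := ENNReal.toReal_nonneg
  have r4 : I0.toReal ≤ 2 * J.toReal := by linarith
  rw [← ENNReal.ofReal_toReal hI, ← ENNReal.ofReal_toReal hJ]
  have e : (2 : ℝ≥0∞) = ENNReal.ofReal 2 := by simp
  rw [e, ← ENNReal.ofReal_mul (by norm_num)]
  exact ENNReal.ofReal_le_ofReal r4

open Classical in
lemma sq_step (hν : Law ν) (v0 : ℕ) (v : ℤ) :
    (∫⁻ z, (if good v0 v z then ENNReal.ofReal (((v + z.1 : ℤ) : ℝ) ^ 2) else 0) ∂ν) ≤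
      ENNReal.ofReal ((v : ℝ) ^ 2 + ∫ z, (z.1 : ℝ) ^ 2 ∂ν) := by
  have := hν.prob
  have i2 : Integrable (fun z : ℤ × ℕ => (z.1 : ℝ) ^ 2) ν := by
    refine Integrable.mono' hν.sq (meas _).aestronglyMeasurable ?_
    filter_upwards [hν.le] with z hz
    rw [Real.norm_eq_abs, abs_of_nonneg (sq_nonneg _), ← sq_abs]
    exact pow_le_pow_left₀ (abs_nonneg _) hz 2
  have i1 : Integrable (fun z : ℤ × ℕ => (v : ℝ) ^ 2 + 2 * v * (z.1 : ℝ)) ν :=
    (integrable_const _).add (hν.intX.const_mul _)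
  have i3 : Integrable (fun z : ℤ × ℕ => ((v + z.1 : ℤ) : ℝ) ^ 2) ν := by
    refine (i1.add i2).congr (Eventually.of_forall fun z => ?_)
    show (v : ℝ) ^ 2 + 2 * v * (z.1 : ℝ) + (z.1 : ℝ) ^ 2 = ((v + z.1 : ℤ) : ℝ) ^ 2
    push_cast; ring
  calc _ ≤ ∫⁻ z, ENNReal.ofReal (((v + z.1 : ℤ) : ℝ) ^ 2) ∂ν := by
        refine lintegral_mono fun z => ?_
        show (if good v0 v z then ENNReal.ofReal (((v + z.1 : ℤ) : ℝ) ^ 2) else 0) ≤ _
        split_ifs
        · exact le_rfl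
        · exact bot_le
    _ = ENNReal.ofReal (∫ z, ((v + z.1 : ℤ) : ℝ) ^ 2 ∂ν) :=
        (ofReal_integral_eq_lintegral_ofReal i3 (Eventually.of_forall fun z => sq_nonneg _)).symm
    _ = _ := by
        congr 1
        have e : ∫ z, ((v + z.1 : ℤ) : ℝ) ^ 2 ∂ν =
            ∫ z, ((v : ℝ) ^ 2 + 2 * v * (z.1 : ℝ) + (z.1 : ℝ) ^ 2) ∂ν := by
          refine integral_congr_ae (Eventually.of_forall fun z => ?_)
          show ((v + z.1 : ℤ) : ℝ) ^ 2 = (v : ℝ) ^ 2 + 2 * v * (z.1 : ℝ) + (z.1 : ℝ) ^ 2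
          push_cast; ring
        rw [e, integral_add i1 i2, integral_add (integrable_const _) (hν.intX.const_mul _),
          integral_const_mul, hν.mean]
        simp

lemma al_anti (n : ℕ) : Al v0 X E W D B n ⊆ B := by
  induction n with
  | zero => exact le_rfl
  | succ n ih => exact fun ω hω => ih hω.1

open Classical in
/-- **second moment** on the alive set -/
lemma sq_sum (h : Walk P ν F X E W D) [IsFiniteMeasure P] (hν : Law ν)
    (hB : MeasurableSet[F 0] B) (n : ℕ) :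
    ∫⁻ ω in Al v0 X E W D B n, ENNReal.ofReal ((W n ω : ℝ) ^ 2) ∂P ≤
      ∫⁻ ω in B, ENNReal.ofReal ((W 0 ω : ℝ) ^ 2) ∂P +
        n * (ENNReal.ofReal (∫ z, (z.1 : ℝ) ^ 2 ∂ν) * P B) := by
  have := hν.prob
  induction n with
  | zero => simp [Al]
  | succ k ih =>
    have mAk := h.le k _ (h.mAl (v0 := v0) hB k)
    have mD := h.le k _ (h.mD k)
    rw [h.split hB k (fun v => ENNReal.ofReal ((v : ℝ) ^ 2))]
    have s0 : (0 : ℝ) ≤ ∫ z, (z.1 : ℝ) ^ 2 ∂ν := integral_nonneg fun z => sq_nonneg _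
    have h1 : ∫⁻ ω in Al v0 X E W D B k ∩ D k, (∫⁻ z, (if good v0 (W k ω) z then
        ENNReal.ofReal (((W k ω + z.1 : ℤ) : ℝ) ^ 2) else 0) ∂ν) ∂P ≤
        ∫⁻ ω in Al v0 X E W D B k ∩ D k, ENNReal.ofReal ((W k ω : ℝ) ^ 2) ∂P +
        ENNReal.ofReal (∫ z, (z.1 : ℝ) ^ 2 ∂ν) * P B := by
      calc _ ≤ ∫⁻ ω in Al v0 X E W D B k ∩ D k, (ENNReal.ofReal ((W k ω : ℝ) ^ 2) +
            ENNReal.ofReal (∫ z, (z.1 : ℝ) ^ 2 ∂ν)) ∂P := by
            refine setLIntegral_mono' (mAk.inter mD) fun ω hω => ?_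
            rw [← ENNReal.ofReal_add (sq_nonneg _) s0]
            exact sq_step hν v0 (W k ω)
        _ = ∫⁻ ω in Al v0 X E W D B k ∩ D k, ENNReal.ofReal ((W k ω : ℝ) ^ 2) ∂P +
            ENNReal.ofReal (∫ z, (z.1 : ℝ) ^ 2 ∂ν) * P (Al v0 X E W D B k ∩ D k) := by
            rw [lintegral_add_right _ measurable_const, setLIntegral_const]
        _ ≤ _ := add_le_add le_rfl (mul_le_mul_right (measure_mono
            (Set.inter_subset_left.trans (al_anti k))) _)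
    calc _ ≤ ∫⁻ ω in Al v0 X E W D B k \ D k, ENNReal.ofReal ((W k ω : ℝ) ^ 2) ∂P +
        (∫⁻ ω in Al v0 X E W D B k ∩ D k, ENNReal.ofReal ((W k ω : ℝ) ^ 2) ∂P +
        ENNReal.ofReal (∫ z, (z.1 : ℝ) ^ 2 ∂ν) * P B) := add_le_add le_rfl h1
      _ = ∫⁻ ω in Al v0 X E W D B k, ENNReal.ofReal ((W k ω : ℝ) ^ 2) ∂P +
        ENNReal.ofReal (∫ z, (z.1 : ℝ) ^ 2 ∂ν) * P B := by
        rw [← add_assoc, ← h.part k hB]
      _ ≤ _ := (add_le_add ih le_rfl).trans (le_of_eq (by push_cast; ring))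

/-- **survival** : Cauchy-Schwarz -/
lemma cs (h : Walk P ν F X E W D) [IsFiniteMeasure P] (hB : MeasurableSet[F 0] B)
    (hv : ∀ ω ∈ B, (v0 : ℤ) < W 0 ω) (n : ℕ) :
    (∫⁻ ω in Al v0 X E W D B n, ENNReal.ofReal ((W n ω : ℤ) : ℝ) ∂P) ^ 2 ≤
      P (Al v0 X E W D B n) *
        ∫⁻ ω in Al v0 X E W D B n, ENNReal.ofReal ((W n ω : ℝ) ^ 2) ∂P := by
  have mA := h.le n _ (h.mAl (v0 := v0) hB n)
  have mW : Measurable (W n) := (h.mWk n).mono (h.le n) le_rfl
  have mf : Measurable (fun ω => ENNReal.ofReal ((W n ω : ℤ) : ℝ)) :=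
    (measurable_of_countable (fun v : ℤ => ENNReal.ofReal (v : ℝ))).comp mW
  have h1 := ENNReal.lintegral_mul_le_Lp_mul_Lq (P.restrict (Al v0 X E W D B n))
    Real.HolderConjugate.two_two (f := fun _ => 1)
    (g := fun ω => ENNReal.ofReal ((W n ω : ℤ) : ℝ)) aemeasurable_const mf.aemeasurable
  have e1 : ∫⁻ ω in Al v0 X E W D B n, ((fun _ : Ω => (1 : ℝ≥0∞)) * (fun ω : Ω =>
      ENNReal.ofReal ((W n ω : ℤ) : ℝ))) ω ∂P =
      ∫⁻ ω in Al v0 X E W D B n, ENNReal.ofReal ((W n ω : ℤ) : ℝ) ∂P :=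
    lintegral_congr fun ω => by simp
  have e2 : ∫⁻ ω in Al v0 X E W D B n, (1 : ℝ≥0∞) ^ (2 : ℝ) ∂P = P (Al v0 X E W D B n) := by
    simp
  have e3 : ∫⁻ ω in Al v0 X E W D B n, ENNReal.ofReal ((W n ω : ℤ) : ℝ) ^ (2 : ℝ) ∂P =
      ∫⁻ ω in Al v0 X E W D B n, ENNReal.ofReal ((W n ω : ℝ) ^ 2) ∂P := by
    refine setLIntegral_congr_fun mA fun ω hω => ?_
    have := h.above hv n ω hω
    have h0 : (0 : ℝ) ≤ ((W n ω : ℤ) : ℝ) := by
      have : (0 : ℤ) ≤ W n ω := by omega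
      exact_mod_cast this
    show ENNReal.ofReal ((W n ω : ℤ) : ℝ) ^ (2 : ℝ) = ENNReal.ofReal ((W n ω : ℝ) ^ 2)
    rw [ENNReal.ofReal_pow h0]
    exact ENNReal.rpow_two _
  rw [e1, e2, e3] at h1
  calc _ ≤ (P (Al v0 X E W D B n) ^ (1 / (2 : ℝ)) *
      (∫⁻ ω in Al v0 X E W D B n, ENNReal.ofReal ((W n ω : ℝ) ^ 2) ∂P) ^ (1 / (2 : ℝ))) ^ 2 :=
        pow_le_pow_left₀ bot_le h1 2
    _ = _ := by
        rw [mul_pow, ← ENNReal.rpow_two, ← ENNReal.rpow_mul, ← ENNReal.rpow_two,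
          ← ENNReal.rpow_mul]
        norm_num

/-- **survival probability** from `w` : at least `w² / (4 (w² + n σ²))` -/
theorem survive (h : Walk P ν F X E W D) [IsFiniteMeasure P] (hν : Law ν)
    (hv0 : ∑' u : ℕ, g ν (((u + (v0 + 1) : ℕ) : ℤ)) ≤ ENNReal.ofReal (m ν / 34))
    (hB : MeasurableSet[F 0] B) {w : ℤ} (hw : 4 * (v0 : ℤ) + 1 ≤ w) (hW : ∀ ω ∈ B, W 0 ω = w)
    (n : ℕ) :
    (w : ℝ) ^ 2 / (4 * ((w : ℝ) ^ 2 + n * ∫ z, (z.1 : ℝ) ^ 2 ∂ν)) * P.real B ≤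
      P.real (Al v0 X E W D B n) := by
  have mB := h.le 0 _ hB
  have w0 : (0 : ℝ) < w := by
    have : (0 : ℤ) < w := by omega
    exact_mod_cast this
  have s0 : (0 : ℝ) ≤ ∫ z, (z.1 : ℝ) ^ 2 ∂ν := integral_nonneg fun z => sq_nonneg _
  have hv : ∀ ω ∈ B, (v0 : ℤ) < W 0 ω := fun ω hω => by rw [hW ω hω]; omega
  have i0 : ∫⁻ ω in B, ENNReal.ofReal ((W 0 ω : ℤ) : ℝ) ∂P = ENNReal.ofReal (w : ℝ) * P B := by
    rw [← setLIntegral_const]
    refine setLIntegral_congr_fun mB fun ω hω => ?_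
    show ENNReal.ofReal ((W 0 ω : ℤ) : ℝ) = ENNReal.ofReal (w : ℝ)
    rw [hW ω hω]
  have i1 : ∫⁻ ω in B, ENNReal.ofReal ((W 0 ω : ℝ) ^ 2) ∂P =
      ENNReal.ofReal ((w : ℝ) ^ 2) * P B := by
    rw [← setLIntegral_const]
    refine setLIntegral_congr_fun mB fun ω hω => ?_
    show ENNReal.ofReal ((W 0 ω : ℝ) ^ 2) = ENNReal.ofReal ((w : ℝ) ^ 2)
    rw [hW ω hω]
  have h1 := h.main hν hv0 hB (fun ω hω => by rw [hW ω hω]; exact hw)
    (by rw [i0]; exact ENNReal.mul_ne_top ENNReal.ofReal_ne_top (measure_ne_top _ _)) n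
  have h2 := h.sq_sum (v0 := v0) hν hB n
  have h3 := h.cs hB hv n
  rw [i0] at h1
  rw [i1] at h2
  set J := ∫⁻ ω in Al v0 X E W D B n, ENNReal.ofReal ((W n ω : ℤ) : ℝ) ∂P
  set S := ∫⁻ ω in Al v0 X E W D B n, ENNReal.ofReal ((W n ω : ℝ) ^ 2) ∂P
  have tS : ENNReal.ofReal ((w : ℝ) ^ 2) * P B +
      n * (ENNReal.ofReal (∫ z, (z.1 : ℝ) ^ 2 ∂ν) * P B) ≠ ∞ := by
    refine ENNReal.add_ne_top.2 ⟨ENNReal.mul_ne_top ENNReal.ofReal_ne_top (measure_ne_top _ _), ?_⟩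
    exact ENNReal.mul_ne_top (ENNReal.natCast_ne_top _)
      (ENNReal.mul_ne_top ENNReal.ofReal_ne_top (measure_ne_top _ _))
  have hS : S ≠ ∞ := ne_top_of_le_ne_top tS h2
  have hJ : J ≠ ∞ := by
    intro hc
    rw [hc] at h3
    have : P (Al v0 X E W D B n) * S ≠ ∞ := ENNReal.mul_ne_top (measure_ne_top _ _) hS
    rw [ENNReal.top_pow (by norm_num)] at h3
    exact this (top_le_iff.1 h3)
  have r1 := ENNReal.toReal_mono (ENNReal.mul_ne_top (by norm_num) hJ) h1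
  rw [ENNReal.toReal_mul, ENNReal.toReal_mul, ENNReal.toReal_ofReal w0.le] at r1
  have r2 := ENNReal.toReal_mono tS h2
  rw [ENNReal.toReal_add (ENNReal.mul_ne_top ENNReal.ofReal_ne_top (measure_ne_top _ _))
    (ENNReal.mul_ne_top (ENNReal.natCast_ne_top _)
      (ENNReal.mul_ne_top ENNReal.ofReal_ne_top (measure_ne_top _ _))), ENNReal.toReal_mul,
    ENNReal.toReal_mul, ENNReal.toReal_mul, ENNReal.toReal_ofReal (sq_nonneg _),
    ENNReal.toReal_ofReal s0, ENNReal.toReal_natCast] at r2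
  have r3 := ENNReal.toReal_mono (ENNReal.mul_ne_top (measure_ne_top _ _) hS) h3
  rw [ENNReal.toReal_mul, ENNReal.toReal_pow] at r3
  have e2 : (2 : ℝ≥0∞).toReal = 2 := by simp
  rw [e2] at r1
  set σ := ∫ z, (z.1 : ℝ) ^ 2 ∂ν
  have pB : 0 ≤ P.real B := measureReal_nonneg
  have pA : 0 ≤ P.real (Al v0 X E W D B n) := measureReal_nonneg
  have j0 : 0 ≤ J.toReal := ENNReal.toReal_nonneg
  change (w : ℝ) * P.real B ≤ 2 * J.toReal at r1
  change S.toReal ≤ (w : ℝ) ^ 2 * P.real B + n * (σ * P.real B) at r2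
  change J.toReal ^ 2 ≤ P.real (Al v0 X E W D B n) * S.toReal at r3
  rcases pB.eq_or_lt with hb | hb
  · rw [← hb, mul_zero]; exact pA
  have k1 : ((w : ℝ) * P.real B) ^ 2 ≤ 4 * (P.real (Al v0 X E W D B n) *
      (((w : ℝ) ^ 2 + n * σ) * P.real B)) := by
    calc _ ≤ (2 * J.toReal) ^ 2 := pow_le_pow_left₀ (by positivity) r1 2
      _ = 4 * J.toReal ^ 2 := by ring
      _ ≤ 4 * (P.real (Al v0 X E W D B n) * S.toReal) := by linarith
      _ ≤ _ := by
        refine mul_le_mul_of_nonneg_left (mul_le_mul_of_nonneg_left ?_ pA) (by norm_num)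
        linarith
  have k2 : 0 < 4 * ((w : ℝ) ^ 2 + n * σ) := by positivity
  rw [div_mul_eq_mul_div, div_le_iff₀ k2]
  have k3 : ((w : ℝ) ^ 2 * P.real B) * P.real B ≤
      (P.real (Al v0 X E W D B n) * (4 * ((w : ℝ) ^ 2 + n * σ))) * P.real B := by nlinarith
  exact le_of_mul_le_mul_right k3 hb

end Walk

end walk

end Crest.Agent.R154.OptH34
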