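import Crest.Agent.R154.FP_178

/-! Row 154, ROAD 801 (helper337): the window inequalities for ALL relative heights from the
ordered ones (`a ≤ a'` in (2), `a + h ≤ a' + h'` in (3)): cut the runner at a renewal.
`TX`, `TY` are arbitrary trace functions with the append and depth properties. -/

set_option autoImplicit false

namespace Crest.Agent.R154.Ord337

open Crest.Agent.R154.B5A Crest.Agent.R154.FP178
open scoped ENNReal Topology
open Filter

variable {BX BY G : Type*} [AddCommGroup G]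

/-- the new return function for a cut-off `σ` -/
noncomputable def X (us ov : ℕ → ℝ≥0∞) (σ s : ℕ) : ℝ≥0∞ :=
  ((σ : ℝ≥0∞) + 1) ^ 2 * us (s - σ) + ov σ

/-- the new return function -/
noncomputable def us' (us ov : ℕ → ℝ≥0∞) (s : ℕ) : ℝ≥0∞ :=
  us s + ⨅ σ : Fin s, X us ov σ s

lemma us'_tendsto (us ov : ℕ → ℝ≥0∞) (hus : Tendsto us atTop (𝓝 0))
    (hov : Tendsto ov atTop (𝓝 0)) : Tendsto (us' us ov) atTop (𝓝 0) := by
  have h2 : Tendsto (fun s : ℕ => ⨅ σ : Fin s, X us ov σ s) atTop (𝓝 0) := by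
    rw [ENNReal.tendsto_nhds_zero]
    intro ε hε
    have e1 := (ENNReal.tendsto_nhds_zero.1 hov) (ε / 2) (ENNReal.half_pos hε.ne')
    obtain ⟨σ, hσ⟩ := e1.exists
    have hA : ((σ : ℝ≥0∞) + 1) ^ 2 ≠ ⊤ := by
      simp
    have t1 : Tendsto (fun s : ℕ => ((σ : ℝ≥0∞) + 1) ^ 2 * us (s - σ)) atTop (𝓝 0) := by
      have := ENNReal.Tendsto.const_mul (hus.comp (tendsto_sub_atTop_nat σ)) (Or.inr hA)
      simpa using this
    have e2 := (ENNReal.tendsto_nhds_zero.1 t1) (ε / 2) (ENNReal.half_pos hε.ne')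
    filter_upwards [e2, eventually_gt_atTop σ] with s hs hs'
    calc (⨅ σ : Fin s, X us ov σ s) ≤ X us ov ((⟨σ, hs'⟩ : Fin s) : ℕ) s := iInf_le _ _
      _ = ((σ : ℝ≥0∞) + 1) ^ 2 * us (s - σ) + ov σ := rfl
      _ ≤ ε / 2 + ε / 2 := add_le_add hs hσ
      _ = ε := ENNReal.add_halves ε
  have h3 := hus.add h2
  rw [add_zero] at h3
  exact h3

section

variable (ΛX : BX → ℝ≥0∞) (ΛY : BY → ℝ≥0∞) (hX : BX → ℕ) (hY : BY → ℕ) (zX : BX → G) (zY : BY → G)
variable (TX : List BX → G → ℕ → Set (G × ℕ)) (TY : List BY → G → ℕ → Set (G × ℕ))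

/-- overshoot mass -/
noncomputable def ovf {B : Type*} (Λ : B → ℝ≥0∞) (ht : B → ℕ) (σ : ℕ) : ℝ≥0∞ :=
  ∑' k, tail Λ ht (σ + k)

lemma U_sum_le {B : Type*} (Λ : B → ℝ≥0∞) (ht : B → ℕ) (hU : ∀ n, U Λ ht n ≤ 1) (n : ℕ) :
    ∑' L : List B, (if HT ht L = n then LW Λ L else 0) ≤ 1 := hU n

open Classical in
/-- algebra of the thresholds: `σ + 1` windows with `lam / (σ + 1)` -/
lemma algebra (C M N lam r q : ℝ≥0∞) (σ : ℕ) (hl : lam ≠ 0) :
    ∑ _j ∈ Finset.range (σ + 1), C * (lam / (σ + 1) + M * N * r / (lam / (σ + 1)) + r) + q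
      ≤ (C + 1) * (lam + M * N * (((σ : ℝ≥0∞) + 1) ^ 2 * r + q) / lam
        + (((σ : ℝ≥0∞) + 1) ^ 2 * r + q)) := by
  rw [Finset.sum_const, Finset.card_range, nsmul_eq_mul]
  push_cast
  set a : ℝ≥0∞ := (σ : ℝ≥0∞) + 1 with ha
  have ha0 : a ≠ 0 := by simp [ha]
  have hat : a ≠ ⊤ := by simp [ha]
  have ha1 : 1 ≤ a := by rw [ha]; exact le_add_self
  have e1 : a * (lam / a) = lam := ENNReal.mul_div_cancel ha0 hat
  have e2 : M * N * r / (lam / a) = a * (M * N * r / lam) := by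
    rw [ENNReal.div_eq_inv_mul, ENNReal.div_eq_inv_mul, ENNReal.div_eq_inv_mul,
      ENNReal.mul_inv (Or.inl (ENNReal.inv_ne_zero.2 hat)) (Or.inl (ENNReal.inv_ne_top.2 ha0)),
      inv_inv]
    ring
  rw [e2]
  have e3 : a * (C * (lam / a + a * (M * N * r / lam) + r))
      = C * (a * (lam / a)) + C * (M * N * (a ^ 2 * r) / lam) + C * (a * r) := by
    rw [ENNReal.div_eq_inv_mul, ENNReal.div_eq_inv_mul, ENNReal.div_eq_inv_mul]
    ring
  rw [e3, e1]
  have f1 : C * lam ≤ (C + 1) * lam := by gcongr; exact le_self_add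
  have f2 : C * (M * N * (a ^ 2 * r) / lam) ≤ (C + 1) * (M * N * (a ^ 2 * r + q) / lam) := by
    gcongr
    · exact le_self_add
    · exact le_self_add
  have f3 : C * (a * r) + q ≤ (C + 1) * (a ^ 2 * r + q) := by
    have g1 : a * r ≤ a ^ 2 * r + q := by
      calc a * r = a * 1 * r := by ring
        _ ≤ a * a * r := by gcongr
        _ = a ^ 2 * r := by ring
        _ ≤ _ := le_self_add
    calc C * (a * r) + q ≤ C * (a ^ 2 * r + q) + 1 * (a ^ 2 * r + q) := by
          gcongr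
          rw [one_mul]; exact le_add_self
      _ = _ := by ring
  calc C * lam + C * (M * N * (a ^ 2 * r) / lam) + C * (a * r) + q
      = C * lam + C * (M * N * (a ^ 2 * r) / lam) + (C * (a * r) + q) := by ring
    _ ≤ (C + 1) * lam + (C + 1) * (M * N * (a ^ 2 * r + q) / lam) + (C + 1) * (a ^ 2 * r + q) := by
        gcongr
    _ = _ := by ring

open Classical in
/-- **(2) for all relative heights** -/
theorem H2_gen (h1Y : ∀ b, 1 ≤ hY b) (hUX : ∀ n, U ΛX hX n ≤ 1) (hUY : ∀ n, U ΛY hY n ≤ 1)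
    (hΛY : ∑' b, ΛY b ≤ 1)
    (hY1 : ∀ A R x a z k, (z, k) ∈ TY (A ++ R) x a →
      (z, k) ∈ TY A x a ∨ (z, k) ∈ TY R (x + (A.map zY).sum) (a + HT hY A))
    (hY2 : ∀ A R x a z k, (z, k) ∈ TY R (x + (A.map zY).sum) (a + HT hY A) →
      (z, k) ∈ TY (A ++ R) x a)
    (hY3 : ∀ A x a z k, (z, k) ∈ TY A x a → k ≤ a + HT hY A)
    (us : ℕ → ℝ≥0∞) (C : ℝ≥0∞)
    (H2 : ∀ (s h h' a a' lo : ℕ) (E : Finset G) (μ : G → ℝ≥0∞) (M lam : ℝ≥0∞),
      ∑' x, μ x ≤ 1 → (∀ x, μ x ≤ M) → lam ≠ 0 → lam ≠ ⊤ → a ≤ a' → a + s ≤ lo → a' + s ≤ lo →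
      ∑' x, μ x * ∑' L, ∑' L', (if HT hX L = h ∧ (L.map zX).sum ∈ E ∧ HT hY L' = h' ∧
        (∃ z k, (z, k) ∈ TX L 0 a ∧ (z, k) ∈ TY L' x a') ∧
        (∀ z k, (z, k) ∈ TX L 0 a → (z, k) ∈ TY L' x a' → lo ≤ k) then LW ΛX L * LW ΛY L' else 0)
        ≤ C * (lam + M * E.card * us s / lam + us s))
    (s h h' a a' lo : ℕ) (E : Finset G) (μ : G → ℝ≥0∞) (M lam : ℝ≥0∞)
    (hμ1 : ∑' x, μ x ≤ 1) (hμM : ∀ x, μ x ≤ M) (hl : lam ≠ 0) (hlt : lam ≠ ⊤)
    (hlo : a + s ≤ lo) (hlo' : a' + s ≤ lo) :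
    ∑' x, μ x * ∑' L, ∑' L', (if HT hX L = h ∧ (L.map zX).sum ∈ E ∧ HT hY L' = h' ∧
        (∃ z k, (z, k) ∈ TX L 0 a ∧ (z, k) ∈ TY L' x a') ∧
        (∀ z k, (z, k) ∈ TX L 0 a → (z, k) ∈ TY L' x a' → lo ≤ k) then LW ΛX L * LW ΛY L' else 0)
        ≤ (C + 1) * (lam + M * E.card * us' us (ovf ΛY hY) s / lam + us' us (ovf ΛY hY) s) := by
  -- monotonicity in the return function
  have mono : ∀ (C' r r' : ℝ≥0∞), C' ≤ C + 1 → r ≤ r' →
      C' * (lam + M * E.card * r / lam + r) ≤ (C + 1) * (lam + M * E.card * r' / lam + r') := by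
    intro C' r r' h1 h2
    gcongr
  rcases le_or_gt a a' with haa | haa
  · refine (H2 s h h' a a' lo E μ M lam hμ1 hμM hl hlt haa hlo hlo').trans ?_
    exact mono C _ _ le_self_add le_self_add
  -- the unordered case
  rcases Nat.eq_zero_or_pos s with rfl | hs
  · have : us' us (ovf ΛY hY) 0 = ⊤ := by
      unfold us'
      rw [iInf_of_empty]
      simp
    rw [this]
    have : (C + 1) * (lam + M * E.card * ⊤ / lam + ⊤) = ⊤ := by
      rw [add_top]
      exact ENNReal.mul_top (by simp)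
    rw [this]
    exact le_top
  have : Nonempty (Fin s) := ⟨⟨0, hs⟩⟩
  obtain ⟨σ, hσ⟩ := exists_eq_ciInf_of_finite (f := fun σ : Fin s => X us (ovf ΛY hY) σ s)
  have hσs : (σ : ℕ) < s := σ.2
  refine le_trans ?_ (mono (C + 1) (X us (ovf ΛY hY) σ s) _ le_rfl (by
    unfold us'; rw [← hσ]; exact le_add_self))
  set g : ℕ := a - a' with hg
  have hg0 : 0 < g := by omega
  -- the window functions after the cut
  set Φ : ℕ → G → ℝ≥0∞ := fun j y => ∑' L, ∑' R, (if HT hX L = h ∧ (L.map zX).sum ∈ E ∧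
    HT hY R = h' - (g + j) ∧ (∃ z k, (z, k) ∈ TX L 0 a ∧ (z, k) ∈ TY R y (a + j)) ∧
    (∀ z k, (z, k) ∈ TX L 0 a → (z, k) ∈ TY R y (a + j) → lo ≤ k) then LW ΛX L * LW ΛY R else 0)
    with hΦ
  set w : ℕ → List BY → ℝ≥0∞ := fun j A => if fp hY g A ∧ HT hY A = g + j then LW ΛY A else 0
    with hw
  set O : List BY → ℝ≥0∞ := fun A => if fp hY g A ∧ g + σ < HT hY A then LW ΛY A else 0 with hO
  -- step A and B : the cut
  have hcut : ∀ x, ∑' L, ∑' L', (if HT hX L = h ∧ (L.map zX).sum ∈ E ∧ HT hY L' = h' ∧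
        (∃ z k, (z, k) ∈ TX L 0 a ∧ (z, k) ∈ TY L' x a') ∧
        (∀ z k, (z, k) ∈ TX L 0 a → (z, k) ∈ TY L' x a' → lo ≤ k) then LW ΛX L * LW ΛY L' else 0)
      ≤ ∑ j ∈ Finset.range (σ + 1), ∑' A, w j A * Φ j (x + (A.map zY).sum) + ∑' A, O A := by
    intro x
    have hL : ∀ L, ∑' L', (if HT hX L = h ∧ (L.map zX).sum ∈ E ∧ HT hY L' = h' ∧
        (∃ z k, (z, k) ∈ TX L 0 a ∧ (z, k) ∈ TY L' x a') ∧
        (∀ z k, (z, k) ∈ TX L 0 a → (z, k) ∈ TY L' x a' → lo ≤ k) then LW ΛX L * LW ΛY L' else 0)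
        ≤ ∑ j ∈ Finset.range (σ + 1), ∑' A, w j A * (∑' R, (if HT hX L = h ∧ (L.map zX).sum ∈ E ∧
          HT hY R = h' - (g + j) ∧ (∃ z k, (z, k) ∈ TX L 0 a ∧
            (z, k) ∈ TY R (x + (A.map zY).sum) (a + j)) ∧
          (∀ z k, (z, k) ∈ TX L 0 a → (z, k) ∈ TY R (x + (A.map zY).sum) (a + j) → lo ≤ k)
          then LW ΛX L * LW ΛY R else 0))
          + ∑' A, O A * (if HT hX L = h then LW ΛX L else 0) := by
      intro L
      have e1 : ∀ L', (if HT hX L = h ∧ (L.map zX).sum ∈ E ∧ HT hY L' = h' ∧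
        (∃ z k, (z, k) ∈ TX L 0 a ∧ (z, k) ∈ TY L' x a') ∧
        (∀ z k, (z, k) ∈ TX L 0 a → (z, k) ∈ TY L' x a' → lo ≤ k) then LW ΛX L * LW ΛY L' else 0)
        = (if g ≤ HT hY L' then LW ΛY L' * (if HT hX L = h ∧ (L.map zX).sum ∈ E ∧ HT hY L' = h' ∧
        (∃ z k, (z, k) ∈ TX L 0 a ∧ (z, k) ∈ TY L' x a') ∧
        (∀ z k, (z, k) ∈ TX L 0 a → (z, k) ∈ TY L' x a' → lo ≤ k) then LW ΛX L else 0) else 0) := by
        intro L'
        by_cases hc : HT hX L = h ∧ (L.map zX).sum ∈ E ∧ HT hY L' = h' ∧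
          (∃ z k, (z, k) ∈ TX L 0 a ∧ (z, k) ∈ TY L' x a') ∧
          (∀ z k, (z, k) ∈ TX L 0 a → (z, k) ∈ TY L' x a' → lo ≤ k)
        · have hge : g ≤ HT hY L' := by
            obtain ⟨_, _, _, ⟨z, k, hz1, hz2⟩, h5⟩ := hc
            have h6 := h5 z k hz1 hz2
            have h7 := hY3 _ _ _ _ _ hz2
            omega
          rw [if_pos hc, if_pos hc, if_pos hge, mul_comm]
        · rw [if_neg hc, if_neg hc]
          simp
      rw [tsum_congr e1, split ΛY hY h1Y g]
      have e2 : ∑ j ∈ Finset.range (σ + 1), ∑' A, w j A * (∑' R, (if HT hX L = h ∧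
            (L.map zX).sum ∈ E ∧
          HT hY R = h' - (g + j) ∧ (∃ z k, (z, k) ∈ TX L 0 a ∧
            (z, k) ∈ TY R (x + (A.map zY).sum) (a + j)) ∧
          (∀ z k, (z, k) ∈ TX L 0 a → (z, k) ∈ TY R (x + (A.map zY).sum) (a + j) → lo ≤ k)
          then LW ΛX L * LW ΛY R else 0))
          + ∑' A, O A * (if HT hX L = h then LW ΛX L else 0)
          = ∑' A, (∑ j ∈ Finset.range (σ + 1), w j A * (∑' R, (if HT hX L = h ∧
            (L.map zX).sum ∈ E ∧
          HT hY R = h' - (g + j) ∧ (∃ z k, (z, k) ∈ TX L 0 a ∧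
            (z, k) ∈ TY R (x + (A.map zY).sum) (a + j)) ∧
          (∀ z k, (z, k) ∈ TX L 0 a → (z, k) ∈ TY R (x + (A.map zY).sum) (a + j) → lo ≤ k)
          then LW ΛX L * LW ΛY R else 0)) + O A * (if HT hX L = h then LW ΛX L else 0)) := by
        rw [ENNReal.tsum_add]
        congr 1
        rw [← Summable.tsum_finsetSum (fun _ _ => ENNReal.summable)]
      rw [e2]
      refine ENNReal.tsum_le_tsum fun A => ?_
      by_cases hA : fp hY g A
      swap
      · rw [if_neg hA]; exact zero_le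
      rw [if_pos hA]
      have hgA := le_HT_of_fp hY hA
      rcases le_or_gt (HT hY A) (g + σ) with hAσ | hAσ
      · -- small overshoot
        obtain ⟨j, hj⟩ := Nat.exists_eq_add_of_le hgA
        refine le_trans ?_ le_self_add
        refine le_trans ?_ (Finset.single_le_sum (fun _ _ => zero_le)
          (Finset.mem_range.2 (show j < σ + 1 by omega)))
        have hwj : w j A = LW ΛY A := by rw [hw]; exact if_pos ⟨hA, hj⟩
        rw [hwj]
        gcongr with R
        by_cases hc : HT hX L = h ∧ (L.map zX).sum ∈ E ∧ HT hY (A ++ R) = h' ∧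
          (∃ z k, (z, k) ∈ TX L 0 a ∧ (z, k) ∈ TY (A ++ R) x a') ∧
          (∀ z k, (z, k) ∈ TX L 0 a → (z, k) ∈ TY (A ++ R) x a' → lo ≤ k)
        · rw [if_pos hc]
          obtain ⟨c1, c2, c3, ⟨z, k, hz1, hz2⟩, c5⟩ := hc
          have haj : a' + HT hY A = a + j := by omega
          have hk := c5 z k hz1 hz2
          have hR : (z, k) ∈ TY R (x + (A.map zY).sum) (a + j) := by
            rcases hY1 A R x a' z k hz2 with h8 | h8
            · exfalso
              have := hY3 _ _ _ _ _ h8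
              omega
            · rw [haj] at h8; exact h8
          rw [if_pos ⟨c1, c2, by rw [HT_append] at c3; omega, ⟨z, k, hz1, hR⟩, fun z' k' h9 h10 =>
            c5 z' k' h9 (hY2 A R x a' z' k' (by rw [haj]; exact h10))⟩, mul_comm]
        · rw [if_neg hc, mul_zero]
          exact zero_le
      · -- large overshoot
        refine le_trans ?_ le_add_self
        have hOA : O A = LW ΛY A := by rw [hO]; exact if_pos ⟨hA, hAσ⟩
        rw [hOA]
        gcongr
        calc ∑' R, LW ΛY R * (if HT hX L = h ∧ (L.map zX).sum ∈ E ∧ HT hY (A ++ R) = h' ∧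
          (∃ z k, (z, k) ∈ TX L 0 a ∧ (z, k) ∈ TY (A ++ R) x a') ∧
          (∀ z k, (z, k) ∈ TX L 0 a → (z, k) ∈ TY (A ++ R) x a' → lo ≤ k) then LW ΛX L else 0)
            ≤ ∑' R, (if HT hY R = h' - HT hY A then LW ΛY R else 0) *
              (if HT hX L = h then LW ΛX L else 0) := by
              refine ENNReal.tsum_le_tsum fun R => ?_
              by_cases hc : HT hX L = h ∧ (L.map zX).sum ∈ E ∧ HT hY (A ++ R) = h' ∧
                (∃ z k, (z, k) ∈ TX L 0 a ∧ (z, k) ∈ TY (A ++ R) x a') ∧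
                (∀ z k, (z, k) ∈ TX L 0 a → (z, k) ∈ TY (A ++ R) x a' → lo ≤ k)
              · have c3 := hc.2.2.1
                rw [HT_append] at c3
                rw [if_pos hc, if_pos (by omega), if_pos hc.1]
              · rw [if_neg hc, mul_zero]; exact zero_le
          _ = (∑' R, (if HT hY R = h' - HT hY A then LW ΛY R else 0)) *
              (if HT hX L = h then LW ΛX L else 0) := ENNReal.tsum_mul_right
          _ ≤ 1 * (if HT hX L = h then LW ΛX L else 0) := by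
              gcongr
              exact U_sum_le ΛY hY hUY _
          _ = _ := one_mul _
    refine (ENNReal.tsum_le_tsum hL).trans ?_
    rw [ENNReal.tsum_add]
    gcongr
    · rw [Summable.tsum_finsetSum (fun _ _ => ENNReal.summable)]
      refine Finset.sum_le_sum fun j _ => ?_
      rw [ENNReal.tsum_comm]
      refine ENNReal.tsum_le_tsum fun A => ?_
      rw [ENNReal.tsum_mul_left]
    · rw [ENNReal.tsum_comm]
      refine ENNReal.tsum_le_tsum fun A => ?_
      rw [ENNReal.tsum_mul_left]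
      calc O A * ∑' L, (if HT hX L = h then LW ΛX L else 0) ≤ O A * 1 := by
            gcongr
            exact U_sum_le ΛX hX hUX h
        _ = O A := mul_one _
  -- masses
  have hwsum : ∀ j, ∑' A, w j A ≤ 1 := by
    intro j
    refine le_trans (ENNReal.tsum_le_tsum fun A => ?_) (sum_FP ΛY hY h1Y hΛY g)
    simp only [hw]
    split_ifs with h1 h2 h2
    · exact le_rfl
    · exact absurd h1.1 h2
    · exact zero_le
    · exact le_rfl
  have hOsum : ∑' A, O A ≤ ovf ΛY hY σ := overshoot ΛY hY h1Y hUY σ g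
  set lam' : ℝ≥0∞ := lam / (σ + 1) with hlam'
  have hl' : lam' ≠ 0 := by
    rw [hlam']
    exact (ENNReal.div_ne_zero).2 ⟨hl, by simp⟩
  have hlt' : lam' ≠ ⊤ := by
    rw [hlam']
    exact ENNReal.div_ne_top hlt (by simp)
  have hj : ∀ j ∈ Finset.range ((σ : ℕ) + 1), ∑' x, μ x * ∑' A, w j A * Φ j (x + (A.map zY).sum)
      ≤ C * (lam' + M * E.card * us (s - σ) / lam' + us (s - σ)) := by
    intro j hj
    have hjσ : j ≤ σ := by have := Finset.mem_range.1 hj; omega
    set μj : G → ℝ≥0∞ := fun y => ∑' A, w j A * μ (y - (A.map zY).sum) with hμj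
    have e1 : ∑' x, μ x * ∑' A, w j A * Φ j (x + (A.map zY).sum) = ∑' y, μj y * Φ j y := by
      calc ∑' x, μ x * ∑' A, w j A * Φ j (x + (A.map zY).sum)
          = ∑' x, ∑' A, μ x * (w j A * Φ j (x + (A.map zY).sum)) := by
            simp_rw [ENNReal.tsum_mul_left]
        _ = ∑' A, ∑' x, μ x * (w j A * Φ j (x + (A.map zY).sum)) := ENNReal.tsum_comm
        _ = ∑' A, ∑' y, μ (y - (A.map zY).sum) * (w j A * Φ j y) := by
            refine tsum_congr fun A => ?_
            rw [← (Equiv.subRight (A.map zY).sum).tsum_eq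
              (fun x => μ x * (w j A * Φ j (x + (A.map zY).sum)))]
            refine tsum_congr fun y => ?_
            simp
        _ = ∑' y, ∑' A, μ (y - (A.map zY).sum) * (w j A * Φ j y) := ENNReal.tsum_comm
        _ = ∑' y, μj y * Φ j y := by
            refine tsum_congr fun y => ?_
            rw [hμj]
            simp only
            rw [← ENNReal.tsum_mul_right]
            refine tsum_congr fun A => ?_
            ring
    rw [e1]
    refine H2 (s - σ) h (h' - (g + j)) a (a + j) lo E μj M lam' ?_ ?_ hl' hlt' (by omega)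
      (by omega) (by omega)
    · calc ∑' y, μj y = ∑' A, ∑' y, w j A * μ (y - (A.map zY).sum) := by
            rw [hμj]; exact ENNReal.tsum_comm
        _ ≤ ∑' A, w j A * 1 := by
            refine ENNReal.tsum_le_tsum fun A => ?_
            rw [ENNReal.tsum_mul_left]
            gcongr
            exact ((Equiv.subRight (A.map zY).sum).tsum_eq μ).trans_le hμ1
        _ ≤ 1 := by simpa using hwsum j
    · intro y
      calc μj y ≤ ∑' A, w j A * M := by
            rw [hμj]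
            refine ENNReal.tsum_le_tsum fun A => ?_
            gcongr
            exact hμM _
        _ = (∑' A, w j A) * M := ENNReal.tsum_mul_right
        _ ≤ 1 * M := by gcongr; exact hwsum j
        _ = M := one_mul _
  calc _ ≤ ∑' x, μ x * (∑ j ∈ Finset.range (σ + 1), ∑' A, w j A * Φ j (x + (A.map zY).sum)
        + ∑' A, O A) := by
        refine ENNReal.tsum_le_tsum fun x => ?_
        gcongr
        exact hcut x
    _ = ∑ j ∈ Finset.range ((σ : ℕ) + 1), ∑' x, μ x * ∑' A, w j A * Φ j (x + (A.map zY).sum)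
        + (∑' x, μ x) * ∑' A, O A := by
        simp_rw [mul_add, Finset.mul_sum]
        rw [ENNReal.tsum_add, Summable.tsum_finsetSum (fun _ _ => ENNReal.summable),
          ENNReal.tsum_mul_right]
    _ ≤ ∑ _j ∈ Finset.range ((σ : ℕ) + 1), C * (lam' + M * E.card * us (s - σ) / lam' + us (s - σ))
        + 1 * ovf ΛY hY σ := by
        gcongr with j hjr
        exact hj j hjr
    _ ≤ _ := by
        rw [one_mul]
        exact algebra C M E.card lam (us (s - σ)) (ovf ΛY hY σ) σ hl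

open Classical in
/-- **(3) for all relative heights** -/
theorem H3_gen (h1X : ∀ b, 1 ≤ hX b) (hUX : ∀ n, U ΛX hX n ≤ 1) (hUY : ∀ n, U ΛY hY n ≤ 1)
    (hX1 : ∀ A R x a z k, (z, k) ∈ TX (A ++ R) x a →
      (z, k) ∈ TX A x a ∨ a + HT hX A < k)
    (hX2 : ∀ A R x a z k, (z, k) ∈ TX A x a → (z, k) ∈ TX (A ++ R) x a)
    (hX3 : ∀ A x a z k, (z, k) ∈ TX A x a → a < k)
    (us : ℕ → ℝ≥0∞) (C : ℝ≥0∞)
    (H3 : ∀ (s h h' a a' hi : ℕ) (E : Finset G) (μ : G → ℝ≥0∞) (M lam : ℝ≥0∞),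
      ∑' x, μ x ≤ 1 → (∀ x, μ x ≤ M) → lam ≠ 0 → lam ≠ ⊤ → a + h ≤ a' + h' → hi + s ≤ a + h →
      hi + s ≤ a' + h' →
      ∑' x, μ x * ∑' L, ∑' L', (if HT hX L = h ∧ HT hY L' = h' ∧ (L'.map zY).sum ∈ E ∧
        (∃ z k, (z, k) ∈ TX L 0 a ∧ (z, k) ∈ TY L' x a') ∧
        (∀ z k, (z, k) ∈ TX L 0 a → (z, k) ∈ TY L' x a' → k ≤ hi) then LW ΛX L * LW ΛY L' else 0)
        ≤ C * (lam + M * E.card * us s / lam + us s))
    (s h h' a a' hi : ℕ) (E : Finset G) (μ : G → ℝ≥0∞) (M lam : ℝ≥0∞)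
    (hμ1 : ∑' x, μ x ≤ 1) (hμM : ∀ x, μ x ≤ M) (hl : lam ≠ 0) (hlt : lam ≠ ⊤)
    (hhi : hi + s ≤ a + h) (hhi' : hi + s ≤ a' + h') :
    ∑' x, μ x * ∑' L, ∑' L', (if HT hX L = h ∧ HT hY L' = h' ∧ (L'.map zY).sum ∈ E ∧
        (∃ z k, (z, k) ∈ TX L 0 a ∧ (z, k) ∈ TY L' x a') ∧
        (∀ z k, (z, k) ∈ TX L 0 a → (z, k) ∈ TY L' x a' → k ≤ hi) then LW ΛX L * LW ΛY L' else 0)
        ≤ (C + 1) * (lam + M * E.card * us' us (ovf ΛX hX) s / lam + us' us (ovf ΛX hX) s) := by
  have mono : ∀ (C' r r' : ℝ≥0∞), C' ≤ C + 1 → r ≤ r' →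
      C' * (lam + M * E.card * r / lam + r) ≤ (C + 1) * (lam + M * E.card * r' / lam + r') := by
    intro C' r r' h1 h2
    gcongr
  rcases le_or_gt (a + h) (a' + h') with haa | haa
  · refine (H3 s h h' a a' hi E μ M lam hμ1 hμM hl hlt haa hhi hhi').trans ?_
    exact mono C _ _ le_self_add le_self_add
  rcases Nat.eq_zero_or_pos s with rfl | hs
  · have : us' us (ovf ΛX hX) 0 = ⊤ := by
      unfold us'
      rw [iInf_of_empty]
      simp
    rw [this]
    have : (C + 1) * (lam + M * E.card * ⊤ / lam + ⊤) = ⊤ := by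
      rw [add_top]
      exact ENNReal.mul_top (by simp)
    rw [this]
    exact le_top
  have : Nonempty (Fin s) := ⟨⟨0, hs⟩⟩
  obtain ⟨σ, hσ⟩ := exists_eq_ciInf_of_finite (f := fun σ : Fin s => X us (ovf ΛX hX) σ s)
  have hσs : (σ : ℕ) < s := σ.2
  refine le_trans ?_ (mono (C + 1) (X us (ovf ΛX hX) σ s) _ le_rfl (by
    unfold us'; rw [← hσ]; exact le_add_self))
  -- no contact at all when the window is empty
  rcases le_or_gt hi a with hia | hia
  · refine le_trans (le_of_eq ?_) zero_le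
    rw [ENNReal.tsum_eq_zero]
    intro x
    have : ∑' L, ∑' L', (if HT hX L = h ∧ HT hY L' = h' ∧ (L'.map zY).sum ∈ E ∧
        (∃ z k, (z, k) ∈ TX L 0 a ∧ (z, k) ∈ TY L' x a') ∧
        (∀ z k, (z, k) ∈ TX L 0 a → (z, k) ∈ TY L' x a' → k ≤ hi)
        then LW ΛX L * LW ΛY L' else 0) = 0 := by
      rw [ENNReal.tsum_eq_zero]
      intro L
      rw [ENNReal.tsum_eq_zero]
      intro L'
      rw [if_neg]
      rintro ⟨_, _, _, ⟨z, k, hz1, hz2⟩, h5⟩
      have := h5 z k hz1 hz2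
      have := hX3 _ _ _ _ _ hz1
      omega
    rw [this, mul_zero]
  set τ : ℕ := a' + h' - a - σ with hτ
  have hτh : τ ≤ h := by omega
  set w : ℕ → List BX → ℝ≥0∞ := fun j A => if fp hX τ A ∧ HT hX A = τ + j then LW ΛX A else 0
    with hw
  set O : List BX → ℝ≥0∞ := fun A => if fp hX τ A ∧ τ + σ < HT hX A then LW ΛX A else 0 with hO
  set Ψ : ℕ → List BX → G → ℝ≥0∞ := fun j P x => ∑' L', (if HT hX P = τ + j ∧ HT hY L' = h' ∧
      (L'.map zY).sum ∈ E ∧
        (∃ z k, (z, k) ∈ TX P 0 a ∧ (z, k) ∈ TY L' x a') ∧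
        (∀ z k, (z, k) ∈ TX P 0 a → (z, k) ∈ TY L' x a' → k ≤ hi)
        then LW ΛX P * LW ΛY L' else 0) with hΨ
  have hcut : ∀ x, ∑' L, ∑' L', (if HT hX L = h ∧ HT hY L' = h' ∧ (L'.map zY).sum ∈ E ∧
        (∃ z k, (z, k) ∈ TX L 0 a ∧ (z, k) ∈ TY L' x a') ∧
        (∀ z k, (z, k) ∈ TX L 0 a → (z, k) ∈ TY L' x a' → k ≤ hi)
        then LW ΛX L * LW ΛY L' else 0)
      ≤ ∑ j ∈ Finset.range ((σ : ℕ) + 1), ∑' P, Ψ j P x + ∑' A, O A := by
    intro x
    set f : List BX → ℝ≥0∞ := fun L => ∑' L', (if HT hX L = h ∧ HT hY L' = h' ∧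
      (L'.map zY).sum ∈ E ∧
        (∃ z k, (z, k) ∈ TX L 0 a ∧ (z, k) ∈ TY L' x a') ∧
        (∀ z k, (z, k) ∈ TX L 0 a → (z, k) ∈ TY L' x a' → k ≤ hi)
        then LW ΛY L' else 0) with hf
    have e1 : ∀ L, ∑' L', (if HT hX L = h ∧ HT hY L' = h' ∧ (L'.map zY).sum ∈ E ∧
        (∃ z k, (z, k) ∈ TX L 0 a ∧ (z, k) ∈ TY L' x a') ∧
        (∀ z k, (z, k) ∈ TX L 0 a → (z, k) ∈ TY L' x a' → k ≤ hi)
        then LW ΛX L * LW ΛY L' else 0)
        = (if τ ≤ HT hX L then LW ΛX L * f L else 0) := by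
      intro L
      by_cases hL : HT hX L = h
      · rw [if_pos (by omega), hf]
        simp only
        rw [← ENNReal.tsum_mul_left]
        refine tsum_congr fun L' => ?_
        rw [mul_ite, mul_zero]
      · have : f L = 0 := by
          rw [hf, ENNReal.tsum_eq_zero]
          intro L'
          rw [if_neg (fun hc => hL hc.1)]
        rw [this, mul_zero, ite_self, ENNReal.tsum_eq_zero]
        intro L'
        rw [if_neg (fun hc => hL hc.1)]
    rw [tsum_congr e1, split ΛX hX h1X τ]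
    rw [← Summable.tsum_finsetSum (fun _ _ => ENNReal.summable), ← ENNReal.tsum_add]
    refine ENNReal.tsum_le_tsum fun A => ?_
    by_cases hA : fp hX τ A
    swap
    · rw [if_neg hA]; exact zero_le
    rw [if_pos hA]
    have hgA := le_HT_of_fp hX hA
    rcases le_or_gt (HT hX A) (τ + σ) with hAσ | hAσ
    · obtain ⟨j, hj⟩ := Nat.exists_eq_add_of_le hgA
      refine le_trans ?_ le_self_add
      refine le_trans ?_ (Finset.single_le_sum (f := fun j => Ψ j A x) (fun _ _ => zero_le)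
        (Finset.mem_range.2 (show j < (σ : ℕ) + 1 by omega)))
      simp only [hΨ]
      calc LW ΛX A * ∑' R, LW ΛX R * f (A ++ R)
          ≤ LW ΛX A * ∑' R, (if HT hX R = h - HT hX A then LW ΛX R else 0) *
            ∑' L', (if HT hX A = τ + j ∧ HT hY L' = h' ∧ (L'.map zY).sum ∈ E ∧
              (∃ z k, (z, k) ∈ TX A 0 a ∧ (z, k) ∈ TY L' x a') ∧
              (∀ z k, (z, k) ∈ TX A 0 a → (z, k) ∈ TY L' x a' → k ≤ hi)
              then LW ΛY L' else 0) := by
            refine mul_le_mul' le_rfl (ENNReal.tsum_le_tsum fun R => ?_)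
            rcases eq_or_ne (HT hX R) (h - HT hX A) with hR | hR
            · rw [if_pos hR]
              refine mul_le_mul' le_rfl ?_
              rw [hf]
              refine ENNReal.tsum_le_tsum fun L' => ?_
              by_cases hc : HT hX (A ++ R) = h ∧ HT hY L' = h' ∧ (L'.map zY).sum ∈ E ∧
                (∃ z k, (z, k) ∈ TX (A ++ R) 0 a ∧ (z, k) ∈ TY L' x a') ∧
                (∀ z k, (z, k) ∈ TX (A ++ R) 0 a → (z, k) ∈ TY L' x a' → k ≤ hi)
              · rw [if_pos hc]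
                obtain ⟨c1, c2, c3, ⟨z, k, hz1, hz2⟩, c5⟩ := hc
                have hk := c5 z k hz1 hz2
                have hzA : (z, k) ∈ TX A 0 a := by
                  rcases hX1 A R 0 a z k hz1 with h8 | h8
                  · exact h8
                  · exfalso; omega
                rw [if_pos ⟨hj, c2, c3, ⟨z, k, hzA, hz2⟩, fun z' k' h9 h10 =>
                  c5 z' k' (hX2 A R 0 a z' k' h9) h10⟩]
              · rw [if_neg hc]; exact zero_le
            · have : f (A ++ R) = 0 := by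
                rw [hf, ENNReal.tsum_eq_zero]
                intro L'
                rw [if_neg]
                intro hc
                have := hc.1
                rw [HT_append] at this
                omega
              rw [this, mul_zero]; exact zero_le
        _ ≤ LW ΛX A * (1 * ∑' L', (if HT hX A = τ + j ∧ HT hY L' = h' ∧ (L'.map zY).sum ∈ E ∧
              (∃ z k, (z, k) ∈ TX A 0 a ∧ (z, k) ∈ TY L' x a') ∧
              (∀ z k, (z, k) ∈ TX A 0 a → (z, k) ∈ TY L' x a' → k ≤ hi)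
              then LW ΛY L' else 0)) := by
            rw [ENNReal.tsum_mul_right]
            gcongr
            exact U_sum_le ΛX hX hUX _
        _ = _ := by
            rw [one_mul, ← ENNReal.tsum_mul_left]
            refine tsum_congr fun L' => ?_
            rw [mul_ite, mul_zero]
    · refine le_trans ?_ le_add_self
      have hOA : O A = LW ΛX A := by rw [hO]; exact if_pos ⟨hA, hAσ⟩
      rw [hOA]
      calc LW ΛX A * ∑' R, LW ΛX R * f (A ++ R)
          ≤ LW ΛX A * ∑' R, (if HT hX R = h - HT hX A then LW ΛX R else 0) * 1 := by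
            refine mul_le_mul' le_rfl (ENNReal.tsum_le_tsum fun R => ?_)
            rcases eq_or_ne (HT hX R) (h - HT hX A) with hR | hR
            · rw [if_pos hR]
              refine mul_le_mul' le_rfl ?_
              refine le_trans ?_ (U_sum_le ΛY hY hUY h')
              rw [hf]
              refine ENNReal.tsum_le_tsum fun L' => ?_
              split_ifs with h1 h2 h2
              · exact le_rfl
              · exact absurd h1.2.1 h2
              · exact zero_le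
              · exact le_rfl
            · have : f (A ++ R) = 0 := by
                rw [hf, ENNReal.tsum_eq_zero]
                intro L'
                rw [if_neg]
                intro hc
                have := hc.1
                rw [HT_append] at this
                omega
              rw [this, mul_zero]; exact zero_le
        _ ≤ LW ΛX A * 1 := by
            gcongr
            simp only [mul_one]
            exact U_sum_le ΛX hX hUX _
        _ = _ := mul_one _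
  have hOsum : ∑' A, O A ≤ ovf ΛX hX σ := overshoot ΛX hX h1X hUX σ τ
  set lam' : ℝ≥0∞ := lam / (σ + 1) with hlam'
  have hl' : lam' ≠ 0 := by
    rw [hlam']
    exact (ENNReal.div_ne_zero).2 ⟨hl, by simp⟩
  have hlt' : lam' ≠ ⊤ := by
    rw [hlam']
    exact ENNReal.div_ne_top hlt (by simp)
  have hj : ∀ j ∈ Finset.range ((σ : ℕ) + 1), ∑' x, μ x * ∑' P, Ψ j P x
      ≤ C * (lam' + M * E.card * us (s - σ) / lam' + us (s - σ)) := by
    intro j hj
    have hjσ : j ≤ σ := by have := Finset.mem_range.1 hj; omega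
    exact H3 (s - σ) (τ + j) h' a a' hi E μ M lam' hμ1 hμM hl' hlt' (by omega)
      (by omega) (by omega)
  calc _ ≤ ∑' x, μ x * (∑ j ∈ Finset.range ((σ : ℕ) + 1), ∑' P, Ψ j P x + ∑' A, O A) := by
        refine ENNReal.tsum_le_tsum fun x => ?_
        gcongr
        exact hcut x
    _ = ∑ j ∈ Finset.range ((σ : ℕ) + 1), ∑' x, μ x * ∑' P, Ψ j P x
        + (∑' x, μ x) * ∑' A, O A := by
        simp_rw [mul_add, Finset.mul_sum]
        rw [ENNReal.tsum_add, Summable.tsum_finsetSum (fun _ _ => ENNReal.summable),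
          ENNReal.tsum_mul_right]
    _ ≤ ∑ _j ∈ Finset.range ((σ : ℕ) + 1), C * (lam' + M * E.card * us (s - σ) / lam' + us (s - σ))
        + 1 * ovf ΛX hX σ := by
        gcongr with j hjr
        exact hj j hjr
    _ ≤ _ := by
        rw [one_mul]
        exact algebra C M E.card lam (us (s - σ)) (ovf ΛX hX σ) σ hl

end

end Crest.Agent.R154.Ord337
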