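import Crest.Agent.R154.Perc_272

/-! Row 154, `d = 2` (helper980): lifetime of the cluster of good boxes, abstract part.
The first climb of an attempt succeeds into some cell `j ∈ I` of layer `1` (`St j`); `bad k l` =
the box (layer `k ≥ 1`, cell `l`) is bad; children of the good wet cell `l` are `l` and `l + 1`. -/

set_option autoImplicit false
set_option linter.unusedSectionVars false
set_option linter.deprecated false

namespace Crest.Agent.R154.TileD2

open MeasureTheory Set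
open scoped ENNReal NNReal

variable {Ω : Type*}

/-- wet cells (relative to `j0`) of layer `1 + s` from the source `(1, j0)`. -/
def wt (bad : ℕ → ℤ → Set Ω) (j0 : ℤ) (s : ℕ) (ω : Ω) : Set ℤ :=
  Perc272.W (fun k l ω => ω ∈ bad (1 + k) (j0 + l)) 1 s ω

lemma wt_zero (bad : ℕ → ℤ → Set Ω) (j0 : ℤ) (ω : Ω) : wt bad j0 0 ω = {0} := by
  ext x
  simp only [wt, Perc272.W, Perc272.wet, mem_Ico, mem_singleton_iff]
  push_cast
  omega

lemma mem_wt_succ (bad : ℕ → ℤ → Set Ω) (j0 : ℤ) (s : ℕ) (ω : Ω) (x : ℤ) :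
    x ∈ wt bad j0 (s + 1) ω ↔ (x ∈ wt bad j0 s ω ∧ ω ∉ bad (1 + s) (j0 + x)) ∨
      (x - 1 ∈ wt bad j0 s ω ∧ ω ∉ bad (1 + s) (j0 + (x - 1))) := by
  rfl

lemma wt_nonempty_of_succ (bad : ℕ → ℤ → Set Ω) (j0 : ℤ) (s : ℕ) (ω : Ω)
    (h : (wt bad j0 (s + 1) ω).Nonempty) : (wt bad j0 s ω).Nonempty := by
  obtain ⟨x, hx⟩ := h
  rcases (mem_wt_succ bad j0 s ω x).1 hx with h | h
  · exact ⟨_, h.1⟩
  · exact ⟨_, h.1⟩

/-- some source is alive at layer `1 + s`. -/
def alive (I : Finset ℤ) (St : ℤ → Set Ω) (bad : ℕ → ℤ → Set Ω) (s : ℕ) : Set Ω :=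
  {ω | ∃ j ∈ I, ω ∈ St j ∧ (wt bad j s ω).Nonempty}

lemma alive_succ (I : Finset ℤ) (St : ℤ → Set Ω) (bad : ℕ → ℤ → Set Ω) (s : ℕ) :
    alive I St bad (s + 1) ⊆ alive I St bad s := by
  rintro ω ⟨j, hj, h1, h2⟩
  exact ⟨j, hj, h1, wt_nonempty_of_succ _ _ _ _ h2⟩

lemma alive_zero (I : Finset ℤ) (St : ℤ → Set Ω) (bad : ℕ → ℤ → Set Ω) :
    alive I St bad 0 = ⋃ j ∈ I, St j := by
  ext ω
  simp only [alive, mem_setOf_eq, wt_zero, singleton_nonempty, and_true, mem_iUnion, exists_prop]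

open Classical in
/-- lifetime -/
noncomputable def tau (I : Finset ℤ) (St : ℤ → Set Ω) (bad : ℕ → ℤ → Set Ω) (ω : Ω) : ℕ∞ :=
  if h : ∃ s, ω ∉ alive I St bad s then ((1 + Nat.find h : ℕ) : ℕ∞) else ⊤

lemma one_le_tau (I : Finset ℤ) (St : ℤ → Set Ω) (bad : ℕ → ℤ → Set Ω) (ω : Ω) :
    1 ≤ tau I St bad ω := by
  unfold tau
  split_ifs with h
  · exact_mod_cast Nat.le_add_right 1 _
  · exact le_top

open Classical in
lemma alive_of_lt_tau {I : Finset ℤ} {St : ℤ → Set Ω} {bad : ℕ → ℤ → Set Ω} {ω : Ω} {s : ℕ}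
    (h : ((1 + s : ℕ) : ℕ∞) < tau I St bad ω) : ω ∈ alive I St bad s := by
  by_contra hcon
  have hex : ∃ s, ω ∉ alive I St bad s := ⟨s, hcon⟩
  rw [tau, dif_pos hex] at h
  have h1 : 1 + s < 1 + Nat.find hex := by exact_mod_cast h
  exact Nat.find_min hex (show s < Nat.find hex by omega) hcon

open Classical in
lemma tau_eq_succ_iff {I : Finset ℤ} {St : ℤ → Set Ω} {bad : ℕ → ℤ → Set Ω} {ω : Ω} {s : ℕ} :
    tau I St bad ω = ((s + 1 : ℕ) : ℕ∞) ↔
      ω ∉ alive I St bad s ∧ ∀ k < s, ω ∈ alive I St bad k := by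
  constructor
  · intro h
    by_cases hex : ∃ s, ω ∉ alive I St bad s
    · rw [tau, dif_pos hex] at h
      have h1 : 1 + Nat.find hex = s + 1 := by exact_mod_cast h
      have h2 : Nat.find hex = s := by omega
      exact ⟨h2 ▸ Nat.find_spec hex, fun k hk => by
        by_contra hcon
        exact Nat.find_min hex (show k < Nat.find hex by omega) hcon⟩
    · rw [tau, dif_neg hex] at h
      exact absurd h.symm (ENat.natCast_ne_top _)
  · rintro ⟨h1, h2⟩
    have hex : ∃ s, ω ∉ alive I St bad s := ⟨s, h1⟩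
    rw [tau, dif_pos hex]
    have h3 : Nat.find hex = s := by
      rw [Nat.find_eq_iff]
      exact ⟨h1, fun k hk hcon => hcon (h2 k hk)⟩
    rw [h3, Nat.add_comm]

lemma tau_ne_zero {I : Finset ℤ} {St : ℤ → Set Ω} {bad : ℕ → ℤ → Set Ω} {ω : Ω} :
    tau I St bad ω ≠ ((0 : ℕ) : ℕ∞) := by
  intro h
  have := one_le_tau I St bad ω
  rw [h] at this
  exact absurd this (by norm_num)

/-! ### measurability -/

lemma meas_wt (F : ℕ → MeasurableSpace Ω) (hmono : Monotone F) (bad : ℕ → ℤ → Set Ω)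
    (hbad : ∀ k l, 1 ≤ k → MeasurableSet[F (k + 1)] (bad k l)) (j0 : ℤ) (s : ℕ) :
    ∀ x : ℤ, MeasurableSet[F (s + 1)] {ω | x ∈ wt bad j0 s ω} := by
  induction s with
  | zero =>
    intro x
    simp only [wt_zero, mem_singleton_iff]
    exact @MeasurableSet.const _ (F 1) _
  | succ s ih =>
    intro x
    have hle : F (s + 1) ≤ F (s + 1 + 1) := hmono (Nat.le_succ _)
    have e : {ω | x ∈ wt bad j0 (s + 1) ω} =
        ({ω | x ∈ wt bad j0 s ω} ∩ (bad (1 + s) (j0 + x))ᶜ) ∪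
          ({ω | x - 1 ∈ wt bad j0 s ω} ∩ (bad (1 + s) (j0 + (x - 1)))ᶜ) := by
      ext ω
      simp only [mem_setOf_eq, mem_wt_succ, mem_union, mem_inter_iff, mem_compl_iff]
    rw [e]
    have hb : ∀ l, MeasurableSet[F (s + 1 + 1)] (bad (1 + s) l) := by
      intro l
      have := hbad (1 + s) l (by omega)
      rwa [Nat.add_comm 1 s] at this ⊢
    refine MeasurableSet.union ?_ ?_
    · exact MeasurableSet.inter (hle _ (ih x)) (hb _).compl
    · exact MeasurableSet.inter (hle _ (ih (x - 1))) (hb _).compl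

lemma meas_alive (F : ℕ → MeasurableSpace Ω) (hmono : Monotone F) (I : Finset ℤ)
    (St : ℤ → Set Ω) (hSt : ∀ j, MeasurableSet[F 1] (St j)) (bad : ℕ → ℤ → Set Ω)
    (hbad : ∀ k l, 1 ≤ k → MeasurableSet[F (k + 1)] (bad k l)) (s : ℕ) :
    MeasurableSet[F (s + 1)] (alive I St bad s) := by
  have e : alive I St bad s = ⋃ j ∈ I, (St j ∩ ⋃ x : ℤ, {ω | x ∈ wt bad j s ω}) := by
    ext ω
    simp only [alive, mem_setOf_eq, mem_iUnion, mem_inter_iff, exists_prop, Set.Nonempty]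
  rw [e]
  refine Finset.measurableSet_biUnion _ fun j _ => MeasurableSet.inter ?_ ?_
  · exact hmono (by omega : 1 ≤ s + 1) _ (hSt j)
  · exact MeasurableSet.iUnion fun x => meas_wt F hmono bad hbad j s x

/-! ### the law of the lifetime -/

theorem life {m0 : MeasurableSpace Ω} (P : Measure Ω) (F : ℕ → MeasurableSpace Ω)
    (hmono : Monotone F) (I : Finset ℤ)
    (St : ℤ → Set Ω) (hSt : ∀ j, MeasurableSet[F 1] (St j)) (bad : ℕ → ℤ → Set Ω)
    (hbad : ∀ k l, 1 ≤ k → MeasurableSet[F (k + 1)] (bad k l))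
    {q q0 θ : ℝ≥0∞} (hq0 : q ≠ 0) (hq : q ≤ ((1 / 48 : ℝ≥0) : ℝ≥0∞))
    (hstart : ∀ B, MeasurableSet[F 0] B → P (B ∩ (⋃ j ∈ I, St j)ᶜ) ≤ q0 * P B)
    (hK : ∀ B, MeasurableSet[F 0] B → ∀ K : Finset (ℕ × ℤ), (∀ p ∈ K, 1 ≤ p.1) →
      P (B ∩ {ω | ∀ p ∈ K, ω ∈ bad p.1 p.2}) ≤ P B * q ^ K.card)
    (hθ0 : q0 ≤ θ) (hθ1 : 12 * q ≤ θ) (hθ2 : (I.card : ℝ≥0∞) * (12 * q) ≤ θ ^ 2) :
    ∃ τ : Ω → ℕ∞, (∀ t : ℕ, MeasurableSet[F t] {ω | τ ω = t}) ∧ (∀ ω, 1 ≤ τ ω) ∧
      (∀ t : ℕ, 1 ≤ t → ∀ B, MeasurableSet[F 0] B → P (B ∩ {ω | τ ω = t}) ≤ θ ^ t * P B) ∧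
      (∀ ω, ∀ s : ℕ, 1 ≤ s → (s : ℕ∞) < τ ω →
        ∃ j ∈ I, ω ∈ St j ∧ (wt bad j (s - 1) ω).Nonempty) := by
  refine ⟨tau I St bad, ?_, one_le_tau I St bad, ?_, ?_⟩
  · intro t
    rcases t with _ | s
    · have : {ω | tau I St bad ω = ((0 : ℕ) : ℕ∞)} = ∅ := by
        ext ω
        simp only [mem_setOf_eq, mem_empty_iff_false, iff_false]
        exact tau_ne_zero
      rw [this]
      exact @MeasurableSet.empty _ (F 0)
    · have e : {ω | tau I St bad ω = ((s + 1 : ℕ) : ℕ∞)} =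
          (alive I St bad s)ᶜ ∩ ⋂ k ∈ Finset.range s, alive I St bad k := by
        ext ω
        simp only [mem_setOf_eq, tau_eq_succ_iff, mem_inter_iff, mem_compl_iff, mem_iInter,
          Finset.mem_range]
      rw [e]
      refine MeasurableSet.inter (meas_alive F hmono I St hSt bad hbad s).compl ?_
      refine Finset.measurableSet_biInter _ fun k hk => ?_
      exact hmono (by have := Finset.mem_range.1 hk; omega) _
        (meas_alive F hmono I St hSt bad hbad k)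
  · intro t ht B hB
    obtain ⟨s, rfl⟩ : ∃ s, t = s + 1 := ⟨t - 1, by omega⟩
    rcases s with _ | s
    · rw [zero_add, pow_one]
      refine le_trans (measure_mono ?_) ((hstart B hB).trans (mul_le_mul' hθ0 le_rfl))
      rintro ω ⟨hωB, hω⟩
      have h1 := (tau_eq_succ_iff.1 hω).1
      rw [alive_zero] at h1
      exact ⟨hωB, h1⟩
    · have hsub : B ∩ {ω | tau I St bad ω = ((s + 1 + 1 : ℕ) : ℕ∞)} ⊆
          ⋃ j ∈ I, (B ∩ {ω | (Perc272.W (fun k l ω => ω ∈ bad (1 + k) (j + l)) 1 s ω).Nonempty ∧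
            Perc272.W (fun k l ω => ω ∈ bad (1 + k) (j + l)) 1 (s + 1) ω = ∅}) := by
        rintro ω ⟨hωB, hω⟩
        obtain ⟨h1, h2⟩ := tau_eq_succ_iff.1 hω
        obtain ⟨j, hj, h3, h4⟩ := h2 s (Nat.lt_succ_self s)
        refine mem_iUnion₂.2 ⟨j, hj, hωB, h4, ?_⟩
        by_contra hne
        exact h1 ⟨j, hj, h3, nonempty_iff_ne_empty.2 hne⟩
      refine (measure_mono hsub).trans ?_
      refine (measure_biUnion_finset_le _ _).trans ?_
      have hone : ∀ j ∈ I, P (B ∩ {ω |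
          (Perc272.W (fun k l ω => ω ∈ bad (1 + k) (j + l)) 1 s ω).Nonempty ∧
            Perc272.W (fun k l ω => ω ∈ bad (1 + k) (j + l)) 1 (s + 1) ω = ∅}) ≤
          P B * (12 * q) ^ (1 + s) := by
        intro j _
        refine Perc272.dies_le P B (P B) q (fun k l ω => ω ∈ bad (1 + k) (j + l)) hq0 hq 1 s ?_
        intro K
        classical
        let f : ℕ × ℤ → ℕ × ℤ := fun p => (1 + p.1, j + p.2)
        have hf : Function.Injective f := by
          rintro ⟨a, b⟩ ⟨a', b'⟩ h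
          simp only [f, Prod.mk.injEq] at h
          ext <;> simp <;> omega
        have h5 := hK B hB (K.image f) (by
          intro p hp
          obtain ⟨p', _, rfl⟩ := Finset.mem_image.1 hp
          exact Nat.le_add_right 1 _)
        rw [Finset.card_image_of_injective _ hf] at h5
        refine le_trans (measure_mono ?_) h5
        rintro ω ⟨hωB, hω⟩
        refine ⟨hωB, ?_⟩
        intro p hp
        obtain ⟨p', hp', rfl⟩ := Finset.mem_image.1 hp
        exact hω p' hp'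
      refine (Finset.sum_le_sum hone).trans ?_
      rw [Finset.sum_const, nsmul_eq_mul]
      calc (I.card : ℝ≥0∞) * (P B * (12 * q) ^ (1 + s))
          = ((I.card : ℝ≥0∞) * (12 * q)) * (12 * q) ^ s * P B := by rw [pow_add, pow_one]; ring
        _ ≤ θ ^ 2 * θ ^ s * P B := by
            refine mul_le_mul' (mul_le_mul' hθ2 (pow_le_pow_left' hθ1 s)) le_rfl
        _ = θ ^ (s + 1 + 1) * P B := by ring
  · intro ω s hs hτ
    obtain ⟨k, rfl⟩ : ∃ k, s = 1 + k := ⟨s - 1, by omega⟩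
    have h1 := alive_of_lt_tau hτ
    rwa [show 1 + k - 1 = k by omega]

/-- masses along the wet cells. -/
lemma mass_of_wet (bad : ℕ → ℤ → Set Ω) (ω : Ω) (V : ℕ → ℤ → ℝ≥0∞) (c1 c : ℝ≥0∞) (j0 : ℤ)
    (h1 : c1 ≤ V 1 j0)
    (h2 : ∀ k l, 1 ≤ k → ω ∉ bad k l → c * V k l ≤ V (k + 1) l ∧ c * V k l ≤ V (k + 1) (l + 1))
    (s : ℕ) : ∀ x, x ∈ wt bad j0 s ω → c1 * c ^ s ≤ V (1 + s) (j0 + x) := by
  induction s with
  | zero =>
    intro x hx
    rw [wt_zero, mem_singleton_iff] at hx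
    subst hx
    simpa using h1
  | succ s ih =>
    intro x hx
    rcases (mem_wt_succ bad j0 s ω x).1 hx with ⟨h3, h4⟩ | ⟨h3, h4⟩
    · have h5 := ih x h3
      have h6 := (h2 (1 + s) (j0 + x) (by omega) h4).1
      calc c1 * c ^ (s + 1) = c * (c1 * c ^ s) := by ring
        _ ≤ c * V (1 + s) (j0 + x) := mul_le_mul' le_rfl h5
        _ ≤ V (1 + s + 1) (j0 + x) := h6
        _ = V (1 + (s + 1)) (j0 + x) := by rw [Nat.add_assoc]
    · have h5 := ih (x - 1) h3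
      have h6 := (h2 (1 + s) (j0 + (x - 1)) (by omega) h4).2
      have e : j0 + (x - 1) + 1 = j0 + x := by ring
      rw [e] at h6
      calc c1 * c ^ (s + 1) = c * (c1 * c ^ s) := by ring
        _ ≤ c * V (1 + s) (j0 + (x - 1)) := mul_le_mul' le_rfl h5
        _ ≤ V (1 + s + 1) (j0 + x) := h6
        _ = V (1 + (s + 1)) (j0 + x) := by rw [Nat.add_assoc]

end Crest.Agent.R154.TileD2
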