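import Crest.Agent.R154.P2Defs_916
import Crest.Agent.R154.TileD2_980

/-!
# Row 154, `d = 2`: `FixM ∧ FixC ∧ REG ⟹ (P2)` (good boxes for ALL points of the cell).  (helper916)
-/

set_option autoImplicit false

namespace Crest.Agent.R154.P2916

open MeasureTheory ProbabilityTheory Crest.ProbabilityR.RandomEnvironment
open Crest.Agent.R154.Flux132 (lev lev_add lev_neg lev_zero)
open Crest.Agent.R154.River916 Crest.Agent.R154.Planar999
open scoped ENNReal

section pts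
variable (u : Step 2) (i : Fin 2)

/-- the site with lateral coordinate `a` and level `l` -/
def pt (a l : ℤ) : Site 2 := fun j => if j = i then a else if u.2 then l else -l

lemma pt_i (a l : ℤ) : pt u i a l i = a := by simp [pt]

variable {i}

lemma lev_pt (hi : i ≠ u.1) (a l : ℤ) : lev u (pt u i a l) = l := by
  unfold lev pt
  rw [if_neg hi.symm]
  split_ifs <;> ring

variable (i) in
/-- (lateral, level) -/
def ph (z : Site 2) : ℤ × ℤ := (z i, lev u z)

lemma ph_inj (hi : i ≠ u.1) : Function.Injective (ph u i) := by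
  intro z z' h
  have h1 : z i = z' i := congrArg Prod.fst h
  have h2 : lev u z = lev u z' := congrArg Prod.snd h
  have h3 : z u.1 = z' u.1 := by
    unfold lev at h2
    split_ifs at h2 with hb
    · exact h2
    · exact neg_injective h2
  funext j
  have hj : j = i ∨ j = u.1 := by
    have h4 := i.isLt
    have h5 := u.1.isLt
    have h6 := j.isLt
    have h7 : (i : ℕ) ≠ (u.1 : ℕ) := fun h => hi (Fin.ext h)
    rcases Nat.lt_or_ge 0 (j : ℕ) with h | h <;> rcases Nat.lt_or_ge 0 (i : ℕ) with h' | h'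
    · left; exact Fin.ext (by omega)
    · right; exact Fin.ext (by omega)
    · right; exact Fin.ext (by omega)
    · left; exact Fin.ext (by omega)
  rcases hj with rfl | rfl
  · exact h1
  · exact h3

lemma ph_step (hi : i ≠ u.1) (z : Site 2) (e : Step 2) :
    Stp (ph u i z) (ph u i (z + stepVec e)) := by
  have hj : e.1 = i ∨ e.1 = u.1 := by
    have h4 := i.isLt
    have h5 := u.1.isLt
    have h6 := e.1.isLt
    have h7 : (i : ℕ) ≠ (u.1 : ℕ) := fun h => hi (Fin.ext h)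
    rcases Nat.lt_or_ge 0 (e.1 : ℕ) with h | h <;> rcases Nat.lt_or_ge 0 (i : ℕ) with h' | h'
    · left; exact Fin.ext (by omega)
    · right; exact Fin.ext (by omega)
    · right; exact Fin.ext (by omega)
    · left; exact Fin.ext (by omega)
  have hv : ∀ j, (z + stepVec e) j = z j + (if j = e.1 then (if e.2 then 1 else -1) else 0) := by
    intro j
    rw [Pi.add_apply, stepVec, Pi.single_apply]
  simp only [Stp, ph, lev, hv]
  rcases hj with h | h
  · rw [h, if_pos rfl, if_neg hi.symm]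
    split_ifs <;> omega
  · rw [h, if_neg hi, if_pos rfl]
    split_ifs <;> omega

end pts

section det

variable (u : Step 2) {i : Fin 2} (θ : ℝ)

/-- the integer slant -/
noncomputable def vf (l : ℤ) : ℤ := ⌊θ * (l : ℝ)⌋

lemma vf_zero : vf θ 0 = 0 := by simp [vf]

lemma sl_sub (y z : Site 2) : sl u i θ (y - z) = sl u i θ y - sl u i θ z := by
  have h : lev u (y - z) = lev u y - lev u z := by rw [sub_eq_add_neg, lev_add, lev_neg]; ring
  unfold sl
  rw [h, Pi.sub_apply]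
  push_cast
  ring

lemma lev_sub_pt (hi : i ≠ u.1) (y : Site 2) (a l : ℤ) :
    lev u (y - pt u i a l) = lev u y - l := by
  rw [sub_eq_add_neg, lev_add, lev_neg, lev_pt u hi]; ring

/-- the slanted coordinate of `y` seen from a point of slanted coordinate `r` -/
lemma si_key (hi : i ≠ u.1) (l r : ℤ) (y : Site 2) :
    ((y i - vf θ (lev u y) : ℤ) : ℝ) < r + sl u i θ (y - pt u i (vf θ l + r) l) + 1 ∧
      (r : ℝ) + sl u i θ (y - pt u i (vf θ l + r) l) - 1 < ((y i - vf θ (lev u y) : ℤ) : ℝ) := by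
  have h1 := Int.floor_le (θ * (l : ℝ))
  have h2 := Int.lt_floor_add_one (θ * (l : ℝ))
  have h3 := Int.floor_le (θ * ((lev u y : ℤ) : ℝ))
  have h4 := Int.lt_floor_add_one (θ * ((lev u y : ℤ) : ℝ))
  rw [sl_sub]
  unfold sl
  rw [pt_i, lev_pt u hi]
  unfold vf
  push_cast
  constructor <;> linarith

/-- quenched window event from `z` -/
noncomputable def EM (i : Fin 2) (g δ A a b : ℝ) (H : ℕ) (z : Site 2) (ω : Environment 2) : ℝ≥0∞ :=
  quenchedLaw ω z (Ev {y | y - z ∈ Rg u i θ g δ A H} {y | y - z ∈ Tg u i θ g a b H})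

/-- quenched non confinement from `z` -/
noncomputable def EC (i : Fin 2) (g δ A : ℝ) (H : ℕ) (z : Site 2) (ω : Environment 2) : ℝ≥0∞ :=
  quenchedLaw ω z (Ev {y | y - z ∈ Rg u i θ g δ A H} {y | y - z ∈ Tp u H})ᶜ

lemma Ev_mono2 {d : ℕ} {B B' T T' : Set (Site d)} (h : B ⊆ B') (h' : T ⊆ T') :
    Ev B T ⊆ Ev B' T' := by
  rintro X ⟨n, hn, hi⟩
  exact ⟨n, h' hn, fun i hi' => h (hi i hi')⟩

variable {u θ}

set_option maxHeartbeats 8000000 in
/-- **deterministic part**: finitely many fixed-point bounds give the good box. -/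
theorem det_box (hi : i ≠ u.1) (ω : Environment 2) (hell : ∀ z e, 0 < (ω z).1 e)
    (N M g a1 a2 a3 a4 : ℕ) (c c4 : ℝ) (hc : 0 < c) (hM1 : 4 * M ≤ N)
    (hM2 : N < 4 * M + 4) (hM3 : 2 ≤ M) (hg : 6 ≤ g)
    (E1 : ∀ j : ℤ, |j| ≤ 2 * a2 + 3 →
      ENNReal.ofReal c ≤ EM u θ i g (1/2) a1 2 3 M (pt u i (vf θ (-M) + j * g) (-M)) ω ∧
      ENNReal.ofReal c ≤ EM u θ i g (1/2) a1 (-3) (-2) M (pt u i (vf θ (-M) + j * g) (-M)) ω ∧
      EC u θ i g (1/3) a3 (N + M) (pt u i (vf θ (-M) + j * g) (-M)) ω ≤ ENNReal.ofReal (c / 4))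
    (E2 : ∀ σ : ℤ, (σ = 1 ∨ σ = -1) →
      ENNReal.ofReal c ≤ EM u θ i g (1/3) a2 0 1 (N + 2 * M)
        (pt u i (vf θ (-(2 * M)) + σ * ((a2 + 2) * g)) (-(2 * M))) ω ∧
      EC u θ i g (1/3) a3 (N + 2 * M)
        (pt u i (vf θ (-(2 * M)) + σ * ((a2 + 2) * g)) (-(2 * M))) ω ≤ ENNReal.ofReal (c / 4))
    (E3 : ∀ σ : ℤ, (σ = 1 ∨ σ = -1) → ∀ τ : ℕ, τ ≤ 1 →
      ENNReal.ofReal c4 ≤ EM u θ i g (1/4) a4 (-(σ * (2 * a2 + 5 + a1 + a3)) + τ + 1/3)
        (-(σ * (2 * a2 + 5 + a1 + a3)) + τ + 2/3) (N - 2 * M)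
        (pt u i (vf θ (2 * M) + σ * ((2 * a2 + 5 + a1 + a3) * g)) (2 * M)) ω)
    (x : Site 2) (hx : x ∈ TileD2.Cell u i g 0 0) (τ : ℕ) (hτ : τ ≤ 1) :
    ENNReal.ofReal (c4 / 2) ≤ quenchedLaw ω x (Ev
      (TileD2.Dom u i N g ((2 * a2 + 6 + a1 + a3 + a4) * g) (vf θ) 0 0)
      (TileD2.Cell u i g (0 + N) (0 + vf θ N + τ * g))) := by
  -- numbers
  obtain ⟨hx0, hx1, hx2⟩ := hx
  have hgr : (6 : ℝ) ≤ g := by exact_mod_cast hg
  have ha1 : (0 : ℝ) ≤ a1 := Nat.cast_nonneg _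
  have ha2 : (0 : ℝ) ≤ a2 := Nat.cast_nonneg _
  have ha3 : (0 : ℝ) ≤ a3 := Nat.cast_nonneg _
  have ha4 : (0 : ℝ) ≤ a4 := Nat.cast_nonneg _
  have hMr : (2 : ℝ) ≤ M := by exact_mod_cast hM3
  have hM1r : (4 : ℝ) * M ≤ N := by exact_mod_cast hM1
  have hM2r : (N : ℝ) < 4 * M + 4 := by exact_mod_cast hM2
  -- the widths
  obtain ⟨w1, hw1⟩ : ∃ w1 : ℤ, w1 = (2 * a2 + 3) * g := ⟨_, rfl⟩
  obtain ⟨w2, hw2⟩ : ∃ w2 : ℤ, w2 = (2 * a2 + 4 + a1 + a3) * g := ⟨_, rfl⟩
  obtain ⟨w3, hw3⟩ : ∃ w3 : ℤ, w3 = (2 * a2 + 6 + a1 + a3 + a4) * g := ⟨_, rfl⟩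
  have hw1r : (w1 : ℝ) = (2 * a2 + 3) * g := by rw [hw1]; push_cast; ring
  have hw2r : (w2 : ℝ) = (2 * a2 + 4 + a1 + a3) * g := by rw [hw2]; push_cast; ring
  have hw3r : (w3 : ℝ) = (2 * a2 + 6 + a1 + a3 + a4) * g := by rw [hw3]; push_cast; ring
  have hgw : (g : ℤ) ≤ w1 := by
    have : (g : ℝ) ≤ w1 := by rw [hw1r]; nlinarith
    exact_mod_cast this
  have hw12 : w1 ≤ w2 := by
    have : (w1 : ℝ) ≤ w2 := by rw [hw1r, hw2r]; nlinarith
    exact_mod_cast this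
  have hw23 : w2 ≤ w3 := by
    have : (w2 : ℝ) ≤ w3 := by rw [hw2r, hw3r]; nlinarith
    exact_mod_cast this
  have hφ := ph_inj u hi
  have hst := ph_step u hi
  -- membership in a box from the tube
  have tube : ∀ (l r : ℤ) (δ A : ℝ) (H : ℕ) (l0 l3 W : ℤ) (y : Site 2),
      y - pt u i (vf θ l + r) l ∈ Rg u i θ g δ A H → (l0 : ℝ) ≤ l - δ * H → l + H ≤ l3 →
      |(r : ℝ)| + A * g + 1 ≤ W → y ∈ Bx (ph u i) (vf θ) l0 l3 W := by
    rintro l r δ A H l0 l3 W y ⟨h1, h2, h3⟩ hl0 hl3 hW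
    have hl := lev_sub_pt u hi y (vf θ l + r) l
    rw [hl] at h1 h2
    obtain ⟨k1, k2⟩ := si_key u θ hi l r y
    have h3' := abs_le.1 h3
    have hr := le_abs_self (r : ℝ)
    have hr' := neg_abs_le (r : ℝ)
    refine ⟨?_, ?_, ?_⟩
    · have : (l0 : ℝ) ≤ ((lev u y : ℤ) : ℝ) := by push_cast at h1; linarith
      exact_mod_cast this
    · show lev u y < l3
      omega
    · show |y i - vf θ (lev u y)| ≤ W
      rw [abs_le]
      constructor
      · have : (-(W : ℤ) : ℝ) ≤ ((y i - vf θ (lev u y) : ℤ) : ℝ) := by linarith [h3'.1]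
        exact_mod_cast this
      · have : ((y i - vf θ (lev u y) : ℤ) : ℝ) ≤ ((W : ℤ) : ℝ) := by linarith [h3'.2]
        exact_mod_cast this
  -- (B)
  have hB : quenchedLaw ω x (Ev (Bx (ph u i) (vf θ) (-N) N w2) (Lv (ph u i) N))ᶜ < 2⁻¹ := by
    have hbad : ∀ (l r : ℤ) (H : ℕ), l + H = N → (-(N : ℝ)) ≤ l - 1/3 * H →
        |(r : ℝ)| ≤ w1 →
        EC u θ i g (1/3) a3 H (pt u i (vf θ l + r) l) ω ≤ ENNReal.ofReal (c / 4) →
        quenchedLaw ω (pt u i (vf θ l + r) l) (Ev (Bx (ph u i) (vf θ) (-N) N w2)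
          (Lv (ph u i) N))ᶜ < 2⁻¹ * ENNReal.ofReal c := by
      intro l r H hlH hl hr hE
      refine lt_of_le_of_lt (le_trans (measure_mono (Set.compl_subset_compl.2
        (Ev_mono2 (fun y hy => ?_) fun y hy => ?_))) hE) ?_
      · refine tube l r (1/3) a3 H (-N) N w2 y hy ?_ hlH.le ?_
        · push_cast; exact hl
        · rw [hw1r] at hr; rw [hw2r]; nlinarith
      · have h1 : lev u (y - pt u i (vf θ l + r) l) = H := hy
        rw [lev_sub_pt u hi] at h1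
        show lev u y = N
        omega
      · have e : (2⁻¹ : ℝ≥0∞) * ENNReal.ofReal c = ENNReal.ofReal (c / 2) := by
          rw [show (2⁻¹ : ℝ≥0∞) = ENNReal.ofReal (2⁻¹) by
            rw [ENNReal.ofReal_inv_of_pos (by norm_num)]; norm_num, ← ENNReal.ofReal_mul
            (by norm_num)]
          congr 1; ring
        rw [e]
        exact (ENNReal.ofReal_lt_ofReal_iff (by linarith)).2 (by linarith)
    refine back_all ω 0 hφ hst (-N) (-(2 * M)) 0 N g w1 w2 (by omega) (by omega) hgw hw12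
      (fun z _ e => hell z e) 2⁻¹ (ENNReal.ofReal c) ?_ ?_ ?_ x hx0.ge ?_ ?_
    · -- H1
      intro t ht
      rw [vf_zero, sub_zero] at ht
      have hg0 : (0 : ℤ) < g := by omega
      obtain ⟨j, hj⟩ : ∃ j : ℤ, j = t / g := ⟨_, rfl⟩
      have hj1 : j * g ≤ t := by rw [hj]; exact Int.ediv_mul_le t hg0.ne'
      have hj2 : t < (j + 1) * g := by rw [hj]; exact Int.lt_ediv_add_one_mul_self t hg0
      have ht' := abs_le.1 ht
      have hjn : |j| ≤ 2 * a2 + 3 := by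
        rw [abs_le]
        constructor
        · by_contra hcon
          push Not at hcon
          have : (j + 1) * g ≤ (-(2 * a2 + 3) : ℤ) * g :=
            mul_le_mul_of_nonneg_right (by omega) hg0.le
          rw [hw1] at ht'
          linarith [ht'.1]
        · by_contra hcon
          push Not at hcon
          have : ((2 * a2 + 3 : ℤ) + 1) * g ≤ j * g :=
            mul_le_mul_of_nonneg_right (by omega) hg0.le
          rw [hw1] at ht'
          linarith [ht'.2]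
      obtain ⟨e1, e2, e3⟩ := E1 j hjn
      have hj1r : (j : ℝ) * g ≤ t := by exact_mod_cast hj1
      have hj2r : (t : ℝ) < (j + 1) * g := by exact_mod_cast hj2
      have hjr : |((j * g : ℤ) : ℝ)| ≤ w1 := by
        have h1 : |j * (g : ℤ)| ≤ w1 := by
          rw [abs_mul, abs_of_pos hg0, hw1]
          exact mul_le_mul_of_nonneg_right hjn hg0.le
        have h2 : ((|j * (g : ℤ)| : ℤ) : ℝ) ≤ w1 := by exact_mod_cast h1
        rwa [Int.cast_abs] at h2
      refine ⟨pt u i (vf θ (-M) + j * g) (-M), ?_, ?_, ?_⟩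
      · refine le_trans e2 (measure_mono (Ev_mono2 (fun y hy => ?_) fun y hy => ?_))
        · have hb := tube (-M) (j * g) (1/2) a1 M (-N) N w2 y hy (by push_cast; nlinarith)
            (by omega) (by rw [hw1r] at hjr; rw [hw2r]; nlinarith)
          obtain ⟨h1, h2, h3⟩ := hy
          rw [lev_sub_pt u hi] at h1 h2
          refine ⟨hb, ?_, ?_⟩
          · have : (-(2 * (M : ℤ)) : ℝ) < ((lev u y : ℤ) : ℝ) := by
              push_cast at h1 ⊢; nlinarith
            show -(2 * (M : ℤ)) < lev u y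
            exact_mod_cast this
          · show lev u y < 0
            omega
        · obtain ⟨h1, h2, h3⟩ := hy
          rw [lev_sub_pt u hi] at h1
          obtain ⟨k1, k2⟩ := si_key u θ hi (-M) (j * g) y
          have hl0 : lev u y = 0 := by omega
          refine ⟨hl0, ?_⟩
          rw [hl0, vf_zero, sub_zero] at k1
          have : ((y i : ℤ) : ℝ) ≤ t := by push_cast at k1 ⊢; nlinarith
          show y i ≤ t
          exact_mod_cast this
      · refine le_trans e1 (measure_mono (Ev_mono2 (fun y hy => ?_) fun y hy => ?_))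
        · have hb := tube (-M) (j * g) (1/2) a1 M (-N) N w2 y hy (by push_cast; nlinarith)
            (by omega) (by rw [hw1r] at hjr; rw [hw2r]; nlinarith)
          obtain ⟨h1, h2, h3⟩ := hy
          rw [lev_sub_pt u hi] at h1 h2
          refine ⟨hb, ?_, ?_⟩
          · have : (-(2 * (M : ℤ)) : ℝ) < ((lev u y : ℤ) : ℝ) := by
              push_cast at h1 ⊢; nlinarith
            show -(2 * (M : ℤ)) < lev u y
            exact_mod_cast this
          · show lev u y < 0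
            omega
        · obtain ⟨h1, h2, h3⟩ := hy
          rw [lev_sub_pt u hi] at h1
          obtain ⟨k1, k2⟩ := si_key u θ hi (-M) (j * g) y
          have hl0 : lev u y = 0 := by omega
          refine ⟨hl0, ?_⟩
          rw [hl0, vf_zero, sub_zero] at k2
          have : (t : ℝ) ≤ ((y i : ℤ) : ℝ) := by push_cast at k2 ⊢; nlinarith
          show t ≤ y i
          exact_mod_cast this
      · exact hbad (-M) (j * g) (N + M) (by push_cast; ring) (by push_cast; linarith) hjr e3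
    · -- H2R
      obtain ⟨e1, e2⟩ := E2 1 (Or.inl rfl)
      refine ⟨_, ?_, ?_, hbad (-(2 * M)) (1 * ((a2 + 2) * g)) (N + 2 * M) (by push_cast; ring)
        (by push_cast; linarith) ?_ e2⟩
      · show lev u (pt u i _ _) ≤ _
        rw [lev_pt u hi]
      · refine le_trans e1 (measure_mono (Ev_mono2 (fun y hy => ?_) fun y hy => ?_))
        · have hb := tube (-(2 * M)) (1 * ((a2 + 2) * g)) (1/3) a2 (N + 2 * M) (-N) N w2 y hy
            (by push_cast; linarith) (by push_cast; linarith) (by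
              push_cast
              rw [one_mul, abs_of_nonneg (by positivity), hw2r]
              nlinarith)
          obtain ⟨h1, h2, h3⟩ := hy
          obtain ⟨k1, k2⟩ := si_key u θ hi (-(2 * M)) (1 * ((a2 + 2) * g)) y
          have h3' := abs_le.1 h3
          refine ⟨hb, ?_, ?_⟩
          · show (g : ℤ) < y i - vf θ (lev u y)
            have : ((g : ℤ) : ℝ) < ((y i - vf θ (lev u y) : ℤ) : ℝ) := by
              push_cast at k2 h3' ⊢; nlinarith [h3'.1]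
            exact_mod_cast this
          · show y i - vf θ (lev u y) ≤ w1
            have : ((y i - vf θ (lev u y) : ℤ) : ℝ) ≤ w1 := by
              rw [hw1r]; push_cast at k1 h3' ⊢; nlinarith [h3'.2]
            exact_mod_cast this
        · have h1 := hy.1
          rw [lev_sub_pt u hi] at h1
          show lev u y = N
          push_cast at h1
          omega
      · push_cast
        rw [one_mul, abs_of_nonneg (by positivity), hw1r]
        nlinarith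
    · -- H2L
      obtain ⟨e1, e2⟩ := E2 (-1) (Or.inr rfl)
      refine ⟨_, ?_, ?_, hbad (-(2 * M)) (-1 * ((a2 + 2) * g)) (N + 2 * M) (by push_cast; ring)
        (by push_cast; linarith) ?_ e2⟩
      · show lev u (pt u i _ _) ≤ _
        rw [lev_pt u hi]
      · refine le_trans e1 (measure_mono (Ev_mono2 (fun y hy => ?_) fun y hy => ?_))
        · have hb := tube (-(2 * M)) (-1 * ((a2 + 2) * g)) (1/3) a2 (N + 2 * M) (-N) N w2 y hy
            (by push_cast; linarith) (by push_cast; linarith) (by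
              push_cast
              rw [neg_one_mul, abs_neg, abs_of_nonneg (by positivity), hw2r]
              nlinarith)
          obtain ⟨h1, h2, h3⟩ := hy
          obtain ⟨k1, k2⟩ := si_key u θ hi (-(2 * M)) (-1 * ((a2 + 2) * g)) y
          have h3' := abs_le.1 h3
          refine ⟨hb, ?_, ?_⟩
          · show y i - vf θ (lev u y) < -(g : ℤ)
            have : ((y i - vf θ (lev u y) : ℤ) : ℝ) < ((-(g : ℤ) : ℤ) : ℝ) := by
              push_cast at k1 h3' ⊢; nlinarith [h3'.2]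
            exact_mod_cast this
          · show -w1 ≤ y i - vf θ (lev u y)
            have : ((-w1 : ℤ) : ℝ) ≤ ((y i - vf θ (lev u y) : ℤ) : ℝ) := by
              push_cast at k2 h3' ⊢; rw [hw1r]; nlinarith [h3'.1]
            exact_mod_cast this
        · have h1 := hy.1
          rw [lev_sub_pt u hi] at h1
          show lev u y = N
          push_cast at h1
          omega
      · push_cast
        rw [neg_one_mul, abs_neg, abs_of_nonneg (by positivity), hw1r]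
        nlinarith
    · show lev u x < N
      omega
    · show |x i - vf θ (lev u x)| ≤ g
      rw [hx0, vf_zero, sub_zero, abs_le]
      constructor <;> omega
  -- (C)
  have hB' : 2⁻¹ ≤ quenchedLaw ω x (Ev {y | y ∈ Bx (ph u i) (vf θ) (-N) N w3 ∧
      |(ph u i y).1 - vf θ (ph u i y).2| ≤ w2} (Lv (ph u i) N)) := by
    have h1 : 2⁻¹ ≤ quenchedLaw ω x (Ev (Bx (ph u i) (vf θ) (-N) N w2) (Lv (ph u i) N)) := by
      by_contra hcon
      push Not at hcon
      have h2 : quenchedLaw ω x (Ev (Bx (ph u i) (vf θ) (-N) N w2) (Lv (ph u i) N)) +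
          quenchedLaw ω x (Ev (Bx (ph u i) (vf θ) (-N) N w2) (Lv (ph u i) N))ᶜ = 1 := by
        rw [measure_add_measure_compl (meas_Ev _ _), measure_univ]
      have h3 := ENNReal.add_lt_add hcon hB
      rw [h2, ENNReal.inv_two_add_inv_two] at h3
      exact lt_irrefl _ h3
    refine le_trans h1 (measure_mono (Ev_mono fun y hy => ?_))
    obtain ⟨k1, k2, k3⟩ := hy
    exact ⟨⟨k1, k2, le_trans k3 hw23⟩, k3⟩
  have hpt : ∀ σ : ℤ, (σ = 1 ∨ σ = -1) →
      ENNReal.ofReal c4 ≤ quenchedLaw ω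
        (pt u i (vf θ (2 * M) + σ * ((2 * a2 + 5 + a1 + a3) * g)) (2 * M))
        (Ev {y | y ∈ Bx (ph u i) (vf θ) (-N) N w3 ∧ (M : ℤ) ≤ (ph u i y).2}
          {y | (ph u i y).2 = N ∧ vf θ N + τ * g ≤ (ph u i y).1 ∧
            (ph u i y).1 ≤ vf θ N + τ * g + g - 1}) := by
    intro σ hσ
    have hσr : |(σ : ℝ)| = 1 := by
      rcases hσ with rfl | rfl <;> simp
    have hNM : ((N - 2 * M : ℕ) : ℝ) = N - 2 * M := by
      rw [Nat.cast_sub (by omega)]; push_cast; ring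
    have hNMz : ((N - 2 * M : ℕ) : ℤ) = N - 2 * M := by
      rw [Nat.cast_sub (by omega)]; push_cast; ring
    refine le_trans (E3 σ hσ τ hτ) (measure_mono (Ev_mono2 (fun y hy => ?_) fun y hy => ?_))
    · have hb := tube (2 * M) (σ * ((2 * a2 + 5 + a1 + a3) * g)) (1/4) a4 (N - 2 * M) (-N) N w3 y
        hy (by rw [hNM]; push_cast; linarith) (by rw [hNMz]; linarith) (by
          push_cast
          rw [abs_mul, hσr, one_mul, abs_of_nonneg (by positivity), hw3r]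
          nlinarith)
      refine ⟨hb, ?_⟩
      obtain ⟨h1, h2, h3⟩ := hy
      rw [lev_sub_pt u hi, hNM] at h1
      show (M : ℤ) ≤ lev u y
      have : ((M : ℤ) : ℝ) ≤ ((lev u y : ℤ) : ℝ) := by push_cast at h1 ⊢; linarith
      exact_mod_cast this
    · obtain ⟨h1, h2, h3⟩ := hy
      rw [lev_sub_pt u hi, hNMz] at h1
      have hl : lev u y = N := by linarith
      obtain ⟨k1, k2⟩ := si_key u θ hi (2 * M) (σ * ((2 * a2 + 5 + a1 + a3) * g)) y
      rw [hl] at k1 k2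
      have hτr : (0 : ℝ) ≤ τ := Nat.cast_nonneg _
      refine ⟨hl, ?_, ?_⟩
      · show vf θ N + τ * g ≤ y i
        have : ((vf θ N + τ * g : ℤ) : ℝ) ≤ ((y i : ℤ) : ℝ) := by
          push_cast at k2 ⊢
          nlinarith
        exact_mod_cast this
      · show y i ≤ vf θ N + τ * g + g - 1
        have : ((y i : ℤ) : ℝ) ≤ ((vf θ N + τ * g + g - 1 : ℤ) : ℝ) := by
          push_cast at k1 ⊢
          nlinarith
        exact_mod_cast this
  have hin : ∀ σ : ℤ, (σ = 1 ∨ σ = -1) →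
      pt u i (vf θ (2 * M) + σ * ((2 * a2 + 5 + a1 + a3) * g)) (2 * M) ∈
        Bx (ph u i) (vf θ) (-N) N w3 := by
    intro σ hσ
    refine ⟨?_, ?_, ?_⟩
    · show -(N : ℤ) ≤ lev u _
      rw [lev_pt u hi]; omega
    · show lev u _ < (N : ℤ)
      rw [lev_pt u hi]; omega
    · show |pt u i _ _ i - vf θ (lev u _)| ≤ w3
      rw [lev_pt u hi, pt_i, add_sub_cancel_left, abs_mul]
      have h1 : |σ| = 1 := by rcases hσ with rfl | rfl <;> rfl
      rw [h1, one_mul, abs_of_nonneg (by positivity), hw3]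
      nlinarith
  have hC := mob_all ω 0 hφ hst (-N) M N w2 w3 (vf θ N + τ * g) (vf θ N + τ * g + g - 1)
    (fun z _ e => hell z e) (ENNReal.ofReal c4) 2⁻¹
    (pt u i (vf θ (2 * M) + (-1) * ((2 * a2 + 5 + a1 + a3) * g)) (2 * M))
    (pt u i (vf θ (2 * M) + 1 * ((2 * a2 + 5 + a1 + a3) * g)) (2 * M))
    (hin (-1) (Or.inr rfl)) (hin 1 (Or.inl rfl))
    (by
      show (M : ℤ) ≤ lev u _
      rw [lev_pt u hi]; omega)
    (by
      show (M : ℤ) ≤ lev u _
      rw [lev_pt u hi]; omega)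
    (by
      show pt u i _ _ i - vf θ (lev u _) ≤ -w2
      rw [lev_pt u hi, pt_i, add_sub_cancel_left, hw2]
      nlinarith)
    (by
      show w2 ≤ pt u i _ _ i - vf θ (lev u _)
      rw [lev_pt u hi, pt_i, add_sub_cancel_left, hw2]
      nlinarith)
    (hpt (-1) (Or.inr rfl)) (hpt 1 (Or.inl rfl)) x
    (by
      show lev u x < M
      omega) hB'
  have hfin : ENNReal.ofReal (c4 / 2) = ENNReal.ofReal c4 * 2⁻¹ := by
    rw [div_eq_mul_inv, ENNReal.ofReal_mul' (by norm_num), ENNReal.ofReal_inv_of_pos (by norm_num)]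
    norm_num
  rw [hfin]
  refine le_trans hC (measure_mono (Ev_mono2 (fun y hy => ?_) fun y hy => ?_))
  · obtain ⟨k1, k2, k3⟩ := hy
    have k3' := abs_le.1 k3
    simp only [ph] at k1 k2 k3'
    have hw3' : (((2 * a2 + 6 + a1 + a3 + a4) * g : ℕ) : ℤ) = w3 := by rw [hw3]; push_cast; ring
    refine ⟨by omega, by omega, ?_, ?_⟩
    · rw [hw3', sub_zero, zero_add]; omega
    · rw [hw3', sub_zero, zero_add]; omega
  · obtain ⟨k1, k2, k3⟩ := hy
    simp only [ph] at k1 k2 k3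
    exact ⟨by omega, by omega, by omega⟩

lemma EM_mono {g δ a b : ℝ} {A A' : ℝ} (hg : 0 ≤ g) (h : A ≤ A') (H : ℕ) (z : Site 2)
    (ω : Environment 2) : EM u θ i g δ A a b H z ω ≤ EM u θ i g δ A' a b H z ω := by
  refine measure_mono (Ev_mono fun y hy => ?_)
  obtain ⟨h1, h2, h3⟩ := hy
  exact ⟨h1, h2, le_trans h3 (mul_le_mul_of_nonneg_right h hg)⟩

lemma EC_mono {g δ : ℝ} {A A' : ℝ} (hg : 0 ≤ g) (h : A ≤ A') (H : ℕ) (z : Site 2)
    (ω : Environment 2) : EC u θ i g δ A' H z ω ≤ EC u θ i g δ A H z ω := by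
  refine measure_mono (Set.compl_subset_compl.2 (Ev_mono fun y hy => ?_))
  obtain ⟨h1, h2, h3⟩ := hy
  exact ⟨h1, h2, le_trans h3 (mul_le_mul_of_nonneg_right h hg)⟩

variable {Q : Measure (Environment 2)} {wd : ℕ → ℕ}

/-- `FixM` for a finite family of windows, uniform constants. -/
lemma fixM_fin (hM : FixM u i θ Q wd) (δ : ℝ) (hδ : 0 < δ) (S : Finset (ℝ × ℝ)) :
    (∀ p ∈ S, p.1 < p.2) → ∃ (A : ℕ) (c : ℝ), 0 < c ∧ ∀ ε : ℝ, 0 < ε → ∃ N0 : ℕ, ∀ N ≥ N0,
      ∀ H : ℕ, N ≤ 8 * H → H ≤ 2 * N → ∀ z : Site 2, ∀ p ∈ S,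
      Q {ω | EM u θ i (wd N) δ A p.1 p.2 H z ω < ENNReal.ofReal c} ≤ ENNReal.ofReal ε := by
  classical
  induction S using Finset.induction_on with
  | empty =>
    intro _
    exact ⟨0, 1, one_pos, fun ε _ => ⟨0, fun N _ H _ _ z p hp => absurd hp (by simp)⟩⟩
  | insert q S hq ih =>
    intro hS
    obtain ⟨A, c, hc, h⟩ := ih fun p hp => hS p (Finset.mem_insert_of_mem hp)
    obtain ⟨A', c', hc', h'⟩ := hM δ hδ q.1 q.2 (hS q (Finset.mem_insert_self q S))
    refine ⟨max A ⌈A'⌉₊, min c c', lt_min hc hc', fun ε hε => ?_⟩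
    obtain ⟨N0, hN0⟩ := h ε hε
    obtain ⟨N1, hN1⟩ := h' ε hε
    refine ⟨max N0 N1, fun N hN H h1 h2 z p hp => ?_⟩
    rcases Finset.mem_insert.1 hp with rfl | hp
    · refine le_trans (measure_mono fun ω hω => ?_) (hN1 N (le_trans (le_max_right _ _) hN) H h1
        h2 z)
      refine lt_of_le_of_lt (EM_mono (Nat.cast_nonneg _) ?_ H z ω) (lt_of_lt_of_le hω
        (ENNReal.ofReal_le_ofReal (min_le_right _ _)))
      exact le_trans (Nat.le_ceil A') (by exact_mod_cast le_max_right _ _)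
    · refine le_trans (measure_mono fun ω hω => ?_) (hN0 N (le_trans (le_max_left _ _) hN) H h1
        h2 z p hp)
      refine lt_of_le_of_lt (EM_mono (Nat.cast_nonneg _) ?_ H z ω) (lt_of_lt_of_le hω
        (ENNReal.ofReal_le_ofReal (min_le_left _ _)))
      exact_mod_cast le_max_left _ _

lemma un_le {ι Ω : Type*} [MeasurableSpace Ω] (μ : Measure Ω) (s : Finset ι) (f : ι → Set Ω)
    (e : ℝ≥0∞) (h : ∀ j ∈ s, μ (f j) ≤ e) : μ (⋃ j ∈ s, f j) ≤ s.card * e := by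
  refine le_trans (measure_biUnion_finset_le s f) ?_
  refine le_trans (Finset.sum_le_card_nsmul s _ e h) ?_
  rw [nsmul_eq_mul]

lemma hitS_eq {d : ℕ} {κ : ℝ} {ω : Environment d} (h : ∀ z e, Mk561.kf d κ ≤ (ω z).1 e)
    (S T : Set (Site d)) (y : Site d) :
    Mk561.mkLaw κ ω y (TileD2.HitS S T y) = quenchedLaw ω y (Ev S T) := by
  rw [← Mk561.mk_projection_of_le h y, Measure.map_apply (Mk561.measurable_mpath y) (meas_Ev S T)]
  congr 1
  ext M
  simp only [TileD2.HitS, TileD2.HitM, Set.mem_iUnion, Set.mem_preimage, Ev]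
  constructor
  · rintro ⟨m, h1, h2⟩
    exact ⟨m, h2, h1⟩
  · rintro ⟨m, h1, h2⟩
    exact ⟨m, h2, h1⟩

/-- **(P2)**: good boxes for all points of the cell, in 980's letters. -/
theorem p2 (hi : i ≠ u.1) (hM : FixM u i θ Q wd) (hC : FixC u i θ Q wd) (hR : REG wd)
    {κ : ℝ} (hell : ∀ᵐ ω ∂Q, ∀ (z : Site 2) (e : Step 2), Mk561.kf 2 κ ≤ (ω z).1 e)
    (help : ∀ᵐ ω ∂Q, ∀ (z : Site 2) (e : Step 2), 0 < (ω z).1 e) :
    ∃ m : ℝ, 1 ≤ m ∧ ∃ k : ℕ, ∀ ε : ℝ, 0 < ε → ∃ N0 : ℕ, ∀ N, N0 ≤ N →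
      Q (TileD2.BoxGood u i N (wd N) (k * wd N) (vf θ) (vf θ N) κ
        (ENNReal.ofReal (Real.exp (-m))) 0 0)ᶜ ≤ ENNReal.ofReal ε := by
  classical
  obtain ⟨a1, c1, hc1, h1⟩ := fixM_fin hM (1/2) (by norm_num) {(2, 3), (-3, -2)} (by
    intro p hp
    rw [Finset.mem_insert, Finset.mem_singleton] at hp
    rcases hp with rfl | rfl <;> norm_num)
  obtain ⟨a2, c2, hc2, h2⟩ := fixM_fin hM (1/3) (by norm_num) {(0, 1)} (by
    intro p hp
    rw [Finset.mem_singleton] at hp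
    rw [hp]; norm_num)
  obtain ⟨c, hcdef⟩ : ∃ c, c = min c1 c2 := ⟨_, rfl⟩
  have hc : 0 < c := by rw [hcdef]; exact lt_min hc1 hc2
  obtain ⟨A3, h3⟩ := hC (1/3) (by norm_num) (c / 4) (by linarith)
  obtain ⟨a3, ha3⟩ : ∃ a3, a3 = ⌈A3⌉₊ := ⟨_, rfl⟩
  have ha3' : A3 ≤ (a3 : ℝ) := by rw [ha3]; exact Nat.le_ceil _
  obtain ⟨W, hW⟩ : ∃ W : ℤ → ℕ → ℝ × ℝ, ∀ σ τ, W σ τ =
    (-((σ : ℝ) * (2 * a2 + 5 + a1 + a3)) + τ + 1/3, -((σ : ℝ) * (2 * a2 + 5 + a1 + a3)) + τ + 2/3)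
    := ⟨_, fun _ _ => rfl⟩
  obtain ⟨a4, c4, hc4, h4⟩ := fixM_fin hM (1/4) (by norm_num)
    {W 1 0, W 1 1, W (-1) 0, W (-1) 1} (by
    intro p hp
    simp only [Finset.mem_insert, Finset.mem_singleton] at hp
    rcases hp with rfl | rfl | rfl | rfl <;> rw [hW] <;> linarith)
  obtain ⟨k, hk⟩ : ∃ k, k = 2 * a2 + 6 + a1 + a3 + a4 := ⟨_, rfl⟩
  obtain ⟨m, hm⟩ : ∃ m, m = max 1 (-Real.log (c4 / 2)) := ⟨_, rfl⟩
  have hm4 : Real.exp (-m) ≤ c4 / 2 := by
    have h : -m ≤ Real.log (c4 / 2) := by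
      have := le_max_right 1 (-Real.log (c4 / 2))
      rw [← hm] at this; linarith
    calc Real.exp (-m) ≤ Real.exp (Real.log (c4 / 2)) := Real.exp_le_exp.2 h
      _ = c4 / 2 := Real.exp_log (by linarith)
  refine ⟨m, by rw [hm]; exact le_max_left _ _, k, fun ε hε => ?_⟩
  obtain ⟨J, hJ⟩ : ∃ J : Finset ℤ, J = Finset.Icc (-(2 * a2 + 3 : ℤ)) (2 * a2 + 3) := ⟨_, rfl⟩
  obtain ⟨ε', hε'⟩ : ∃ ε', ε' = ε / (3 * J.card + 8) := ⟨_, rfl⟩
  have hε'0 : 0 < ε' := by rw [hε']; positivity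
  obtain ⟨N1, hN1⟩ := h1 ε' hε'0
  obtain ⟨N2, hN2⟩ := h2 ε' hε'0
  obtain ⟨N3, hN3⟩ := h3 ε' hε'0
  obtain ⟨N4, hN4⟩ := h4 ε' hε'0
  obtain ⟨N5, hN5⟩ := hR.1 6
  refine ⟨N1 + N2 + N3 + N4 + N5 + 8, fun N hN => ?_⟩
  obtain ⟨M, hM0⟩ : ∃ M, M = N / 4 := ⟨_, rfl⟩
  have hM1 : 4 * M ≤ N := by omega
  have hM2 : N < 4 * M + 4 := by omega
  have hM3 : 2 ≤ M := by omega
  have hg : 6 ≤ wd N := hN5 N (by omega)
  obtain ⟨z1, hz1⟩ : ∃ z1 : ℤ → Site 2, ∀ j, z1 j =
    pt u i (vf θ (-M) + j * (wd N : ℕ)) (-M) := ⟨_, fun _ => rfl⟩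
  obtain ⟨z2, hz2⟩ : ∃ z2 : ℤ → Site 2, ∀ σ, z2 σ =
    pt u i (vf θ (-(2 * M)) + σ * ((a2 + 2) * (wd N : ℕ))) (-(2 * M)) := ⟨_, fun _ => rfl⟩
  obtain ⟨z3, hz3⟩ : ∃ z3 : ℤ → Site 2, ∀ σ, z3 σ =
    pt u i (vf θ (2 * M) + σ * ((2 * a2 + 5 + a1 + a3) * (wd N : ℕ))) (2 * M) := ⟨_, fun _ => rfl⟩
  obtain ⟨S, hS⟩ : ∃ S : Finset ℤ, S = {1, -1} := ⟨_, rfl⟩
  have hScard : S.card = 2 := by rw [hS]; rfl
  have hSmem : ∀ σ : ℤ, σ ∈ S ↔ (σ = 1 ∨ σ = -1) := by
    intro σ; rw [hS, Finset.mem_insert, Finset.mem_singleton]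
  -- the bad events
  obtain ⟨X1, hX1⟩ : ∃ X : ℤ → Set (Environment 2), ∀ j, X j =
    {ω | EM u θ i (wd N) (1/2) a1 2 3 M (z1 j) ω < ENNReal.ofReal c1} := ⟨_, fun _ => rfl⟩
  obtain ⟨X2, hX2⟩ : ∃ X : ℤ → Set (Environment 2), ∀ j, X j =
    {ω | EM u θ i (wd N) (1/2) a1 (-3) (-2) M (z1 j) ω < ENNReal.ofReal c1} := ⟨_, fun _ => rfl⟩
  obtain ⟨X3, hX3⟩ : ∃ X : ℤ → Set (Environment 2), ∀ j, X j =
    {ω | ENNReal.ofReal (c / 4) < EC u θ i (wd N) (1/3) A3 (N + M) (z1 j) ω} := ⟨_, fun _ => rfl⟩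
  obtain ⟨Y1, hY1⟩ : ∃ X : ℤ → Set (Environment 2), ∀ j, X j =
    {ω | EM u θ i (wd N) (1/3) a2 0 1 (N + 2 * M) (z2 j) ω < ENNReal.ofReal c2} :=
    ⟨_, fun _ => rfl⟩
  obtain ⟨Y2, hY2⟩ : ∃ X : ℤ → Set (Environment 2), ∀ j, X j =
    {ω | ENNReal.ofReal (c / 4) < EC u θ i (wd N) (1/3) A3 (N + 2 * M) (z2 j) ω} :=
    ⟨_, fun _ => rfl⟩
  obtain ⟨Z, hZ⟩ : ∃ X : ℕ → ℤ → Set (Environment 2), ∀ τ j, X τ j =
    {ω | EM u θ i (wd N) (1/4) a4 (W j τ).1 (W j τ).2 (N - 2 * M) (z3 j) ω < ENNReal.ofReal c4} :=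
    ⟨_, fun _ _ => rfl⟩
  have hbad : Q (((⋃ j ∈ J, X1 j) ∪ (⋃ j ∈ J, X2 j) ∪ (⋃ j ∈ J, X3 j)) ∪
      ((⋃ j ∈ S, Y1 j) ∪ (⋃ j ∈ S, Y2 j)) ∪ ((⋃ j ∈ S, Z 0 j) ∪ (⋃ j ∈ S, Z 1 j)))
      ≤ ENNReal.ofReal ε := by
    have e1 : Q (⋃ j ∈ J, X1 j) ≤ J.card * ENNReal.ofReal ε' := un_le Q J _ _ fun j _ => by
      rw [hX1]
      exact hN1 N (by omega) M (by omega) (by omega) _ (2, 3) (by simp)
    have e2 : Q (⋃ j ∈ J, X2 j) ≤ J.card * ENNReal.ofReal ε' := un_le Q J _ _ fun j _ => by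
      rw [hX2]
      exact hN1 N (by omega) M (by omega) (by omega) _ (-3, -2) (by simp)
    have e3 : Q (⋃ j ∈ J, X3 j) ≤ J.card * ENNReal.ofReal ε' := un_le Q J _ _ fun j _ => by
      rw [hX3]
      exact hN3 N (by omega) (N + M) (by omega) (by omega) _
    have e4 : Q (⋃ j ∈ S, Y1 j) ≤ S.card * ENNReal.ofReal ε' := un_le Q S _ _ fun j _ => by
      rw [hY1]
      exact hN2 N (by omega) (N + 2 * M) (by omega) (by omega) _ (0, 1) (by simp)
    have e5 : Q (⋃ j ∈ S, Y2 j) ≤ S.card * ENNReal.ofReal ε' := un_le Q S _ _ fun j _ => by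
      rw [hY2]
      exact hN3 N (by omega) (N + 2 * M) (by omega) (by omega) _
    have e6 : ∀ τ ≤ 1, Q (⋃ j ∈ S, Z τ j) ≤ S.card * ENNReal.ofReal ε' := fun τ hτ =>
      un_le Q S _ _ fun j hj => by
        rw [hZ]
        refine hN4 N (by omega) (N - 2 * M) (by omega) (by omega) _ (W j τ) ?_
        have hj' := (hSmem j).1 hj
        have hτ' : τ = 0 ∨ τ = 1 := by omega
        rcases hj' with rfl | rfl <;> rcases hτ' with rfl | rfl <;> simp
    refine le_trans (measure_union_le _ _) ?_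
    refine le_trans (add_le_add (le_trans (measure_union_le _ _) (add_le_add
      (le_trans (measure_union_le _ _) (add_le_add (le_trans (measure_union_le _ _)
      (add_le_add e1 e2)) e3)) (le_trans (measure_union_le _ _) (add_le_add e4 e5))))
      (le_trans (measure_union_le _ _) (add_le_add (e6 0 (by norm_num)) (e6 1 le_rfl)))) ?_
    rw [hScard]
    have e7 : ((J.card : ℝ≥0∞) * ENNReal.ofReal ε' + J.card * ENNReal.ofReal ε' +
        J.card * ENNReal.ofReal ε' + (((2 : ℕ) : ℝ≥0∞) * ENNReal.ofReal ε' +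
        ((2 : ℕ) : ℝ≥0∞) * ENNReal.ofReal ε') + (((2 : ℕ) : ℝ≥0∞) * ENNReal.ofReal ε' +
        ((2 : ℕ) : ℝ≥0∞) * ENNReal.ofReal ε')) = ((3 * J.card + 8 : ℕ) : ℝ≥0∞) *
        ENNReal.ofReal ε' := by
      push_cast
      ring
    rw [e7, ← ENNReal.ofReal_natCast, ← ENNReal.ofReal_mul (Nat.cast_nonneg _)]
    refine ENNReal.ofReal_le_ofReal (le_of_eq ?_)
    rw [hε']
    push_cast
    field_simp
  refine le_trans (measure_mono_ae ?_) hbad
  filter_upwards [hell, help] with ω hω1 hω2 hω3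
  by_contra hno0
  have hno : ω ∉ (((⋃ j ∈ J, X1 j) ∪ (⋃ j ∈ J, X2 j) ∪ (⋃ j ∈ J, X3 j)) ∪
      ((⋃ j ∈ S, Y1 j) ∪ (⋃ j ∈ S, Y2 j)) ∪ ((⋃ j ∈ S, Z 0 j) ∪ (⋃ j ∈ S, Z 1 j))) := hno0
  simp only [Set.mem_union, Set.mem_iUnion, not_or, not_exists, hX1, hX2, hX3, hY1, hY2, hZ,
    Set.mem_ofPred_eq, not_lt] at hno
  obtain ⟨⟨⟨⟨k1, k2⟩, k3⟩, k4, k5⟩, k6, k7⟩ := hno
  have hg0 : (0 : ℝ) ≤ (wd N : ℝ) := Nat.cast_nonneg _
  have hdet := det_box (u := u) (θ := θ) hi ω hω2 N M (wd N) a1 a2 a3 a4 c c4 hc hM1 hM2 hM3 hg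
    (by
      intro j hj
      have hjJ : j ∈ J := by
        rw [hJ, Finset.mem_Icc]
        exact abs_le.1 hj
      refine ⟨?_, ?_, ?_⟩
      · refine le_trans (ENNReal.ofReal_le_ofReal ?_) (le_of_le_of_eq (k1 j hjJ) (by rw [hz1]))
        rw [hcdef]; exact min_le_left _ _
      · refine le_trans (ENNReal.ofReal_le_ofReal ?_) (le_of_le_of_eq (k2 j hjJ) (by rw [hz1]))
        rw [hcdef]; exact min_le_left _ _
      · refine le_trans (EC_mono hg0 ha3' _ _ ω) (le_trans (le_of_eq ?_) (k3 j hjJ))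
        rw [hz1])
    (by
      intro σ hσ
      have hσS := (hSmem σ).2 hσ
      refine ⟨?_, ?_⟩
      · refine le_trans (ENNReal.ofReal_le_ofReal ?_) (le_of_le_of_eq (k4 σ hσS) (by rw [hz2]))
        rw [hcdef]; exact min_le_right _ _
      · refine le_trans (EC_mono hg0 ha3' _ _ ω) (le_trans (le_of_eq ?_) (k5 σ hσS))
        rw [hz2])
    (by
      intro σ hσ τ hτ
      have hσS := (hSmem σ).2 hσ
      have hτ' : τ = 0 ∨ τ = 1 := by omega
      rcases hτ' with rfl | rfl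
      · refine le_of_le_of_eq (k6 σ hσS) ?_
        rw [hz3, hW]
      · refine le_of_le_of_eq (k7 σ hσS) ?_
        rw [hz3, hW])
  apply hω3
  intro y hy
  rw [hitS_eq hω1, hitS_eq hω1]
  have d0 := hdet y hy 0 (by norm_num)
  have d1 := hdet y hy 1 le_rfl
  rw [hk]
  constructor
  · refine le_trans (ENNReal.ofReal_le_ofReal hm4) (le_trans d0 (le_of_eq ?_))
    simp
  · refine le_trans (ENNReal.ofReal_le_ofReal hm4) (le_trans d1 (le_of_eq ?_))
    simp

end det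

end Crest.Agent.R154.P2916
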