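import Crest.Agent.R154.PFW_109

/-! Row 154, pair frame of 692 (helper109): the sum over the windows and the constants. -/

set_option autoImplicit false

namespace Crest.Agent.R154.PFW109

open Crest.Agent.R154.B5A
open Filter
open scoped ENNReal Topology

variable {B W : Type*} (Λ : B → ℝ≥0∞) (ht : B → ℕ) (dl : B → W → W) (cd : W → B → Set ℕ)

open Classical in
/-- contact at depth exactly `k` -/
noncomputable def Pt (n k : ℕ) (w : W) : ℝ≥0∞ :=
  ∑' L : List B, if HT ht L = n ∧ k ∈ CD ht dl cd L w then LW Λ L else 0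

open Classical in
lemma kap_le (n m t K i s : ℕ) (ht0 : 0 < t) (htm : t ≤ m) (hK : m ≤ (K + 1) * t) (w : W) :
    Kap1 Λ ht dl cd n m w ≤ ∑ j ∈ Finset.range (K + 1),
      (Win Λ ht dl cd n (m + j * t - t) t i s w +
        ∑ k ∈ Finset.Ioc (m + j * t - t + 4 * t - i - s) (m + j * t - t + i + 4 * t),
          Pt Λ ht dl cd n k w) := by
  have e1 : ∀ j : ℕ, (Win Λ ht dl cd n (m + j * t - t) t i s w +
        ∑ k ∈ Finset.Ioc (m + j * t - t + 4 * t - i - s) (m + j * t - t + i + 4 * t),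
          Pt Λ ht dl cd n k w)
      = ∑' L : List B, ((if HT ht L = n ∧ (∀ k ∈ CD ht dl cd L w, m + j * t - t + t < k) ∧
            (∃ k ∈ CD ht dl cd L w, k ≤ m + j * t - t + 2 * t) ∧
            (∀ k ∈ CD ht dl cd L w, ¬ (m + j * t - t + 4 * t - i - s < k ∧
              k ≤ m + j * t - t + i + 4 * t)) then LW Λ L else 0)
          + ∑ k ∈ Finset.Ioc (m + j * t - t + 4 * t - i - s) (m + j * t - t + i + 4 * t),
            (if HT ht L = n ∧ k ∈ CD ht dl cd L w then LW Λ L else 0)) := by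
    intro j
    rw [ENNReal.tsum_add, Win]
    congr 1
    rw [Summable.tsum_finsetSum (fun _ _ => ENNReal.summable)]
    rfl
  rw [Finset.sum_congr rfl (fun j _ => e1 j), ← Summable.tsum_finsetSum (fun _ _ => ENNReal.summable),
    Kap1]
  refine ENNReal.tsum_le_tsum fun L => ?_
  split_ifs with h
  · obtain ⟨hn, hall, k1, hk1, hk1'⟩ := h
    have hex : ∃ k, k ∈ CD ht dl cd L w := ⟨k1, hk1⟩
    set k0 := Nat.find hex with hk0
    have h0 : k0 ∈ CD ht dl cd L w := Nat.find_spec hex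
    have h0' : k0 ≤ k1 := Nat.find_min' hex hk1
    have hmin : ∀ k ∈ CD ht dl cd L w, k0 ≤ k := fun k hk => Nat.find_min' hex hk
    have hm := hall k0 h0
    set j := (k0 - m - 1) / t with hj
    have hj1 : j * t ≤ k0 - m - 1 := Nat.div_mul_le_self _ _
    have hj2 : k0 - m - 1 < (j + 1) * t := by
      have := Nat.lt_div_mul_add (a := k0 - m - 1) ht0
      rw [← hj] at this
      nlinarith
    have hjK : j < K + 1 := by
      by_contra hcon
      have : (K + 1) * t ≤ j * t := Nat.mul_le_mul_right t (not_lt.1 hcon)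
      omega
    have hj2' : k0 - m - 1 < j * t + t := by linarith [hj2, show (j + 1) * t = j * t + t by ring]
    refine le_trans ?_ (Finset.single_le_sum (f := fun j : ℕ =>
      ((if HT ht L = n ∧ (∀ k ∈ CD ht dl cd L w, m + j * t - t + t < k) ∧
            (∃ k ∈ CD ht dl cd L w, k ≤ m + j * t - t + 2 * t) ∧
            (∀ k ∈ CD ht dl cd L w, ¬ (m + j * t - t + 4 * t - i - s < k ∧
              k ≤ m + j * t - t + i + 4 * t)) then LW Λ L else 0)
          + ∑ k ∈ Finset.Ioc (m + j * t - t + 4 * t - i - s) (m + j * t - t + i + 4 * t),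
            (if HT ht L = n ∧ k ∈ CD ht dl cd L w then LW Λ L else 0)))
      (fun _ _ => zero_le) (Finset.mem_range.2 hjK))
    by_cases hs : ∀ k ∈ CD ht dl cd L w, ¬ (m + j * t - t + 4 * t - i - s < k ∧
              k ≤ m + j * t - t + i + 4 * t)
    · rw [if_pos ⟨hn, fun k hk => by have := hmin k hk; omega, ⟨k0, h0, by omega⟩, hs⟩]
      exact le_self_add
    · push Not at hs
      obtain ⟨k, hk, hk2, hk3⟩ := hs
      refine le_trans ?_ le_add_self
      refine le_trans ?_ (Finset.single_le_sum (f := fun k : ℕ =>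
        (if HT ht L = n ∧ k ∈ CD ht dl cd L w then LW Λ L else 0))
        (fun _ _ => zero_le) (Finset.mem_Ioc.2 ⟨hk2, hk3⟩))
      rw [if_pos ⟨hn, hk⟩]
  · exact zero_le

/-- the real constants -/
lemma numR (c : ℝ) (hc : 0 < c) (hc1 : c ≤ 1) (δ : ℝ) (h0 : 0 < δ) :
    ∃ r : ℕ, 1 ≤ r ∧ (6 * (r : ℝ) ^ 3 + 1) * (c / r ^ 2) ^ 2 ≤ δ ∧
      (6 * (r : ℝ) ^ 3 + 1) * (1 - c ^ 2 / r ^ 2) ^ (r ^ 3) ≤ δ := by
  have hc2 : (0 : ℝ) < c ^ 2 := by positivity
  have hT : Tendsto (fun r : ℕ => 7 / (c ^ 2) ^ 3 * ((c ^ 2 * r) ^ 3 * Real.exp (-(c ^ 2 * r))))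
      atTop (𝓝 0) := by
    have h2 := (Real.tendsto_pow_mul_exp_neg_atTop_nhds_zero 3).comp
      ((tendsto_natCast_atTop_atTop (R := ℝ)).const_mul_atTop hc2)
    have h3 := h2.const_mul (7 / (c ^ 2) ^ 3)
    simpa [Function.comp_def] using h3
  have hT2 : Tendsto (fun r : ℕ => (7 : ℝ) / r) atTop (𝓝 0) := tendsto_const_div_atTop_nhds_zero_nat 7
  obtain ⟨r, h1, h2, h3⟩ := ((hT.eventually (gt_mem_nhds h0)).and
    ((hT2.eventually (gt_mem_nhds h0)).and (eventually_ge_atTop 1))).exists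
  have hr : (1 : ℝ) ≤ r := by exact_mod_cast h3
  have hr0 : (0 : ℝ) < r := by linarith
  have h6 : 6 * (r : ℝ) ^ 3 + 1 ≤ 7 * r ^ 3 := by
    have : (1 : ℝ) ≤ r ^ 3 := one_le_pow₀ hr
    linarith
  refine ⟨r, h3, ?_, ?_⟩
  · calc (6 * (r : ℝ) ^ 3 + 1) * (c / r ^ 2) ^ 2 ≤ (7 * r ^ 3) * (c / r ^ 2) ^ 2 := by gcongr
      _ = 7 / r * c ^ 2 := by field_simp
      _ ≤ 7 / r * 1 := by
          gcongr
          nlinarith
      _ ≤ δ := by rw [mul_one]; exact h2.le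
  · have hx0 : 0 ≤ 1 - c ^ 2 / (r : ℝ) ^ 2 := by
      rw [sub_nonneg, div_le_one (by positivity)]
      nlinarith
    have hx : 1 - c ^ 2 / (r : ℝ) ^ 2 ≤ Real.exp (-(c ^ 2 / r ^ 2)) := by
      have := Real.add_one_le_exp (-(c ^ 2 / (r : ℝ) ^ 2))
      linarith
    calc (6 * (r : ℝ) ^ 3 + 1) * (1 - c ^ 2 / r ^ 2) ^ (r ^ 3)
        ≤ (7 * r ^ 3) * (Real.exp (-(c ^ 2 / r ^ 2))) ^ (r ^ 3) := by gcongr
      _ = 7 / (c ^ 2) ^ 3 * ((c ^ 2 * r) ^ 3 * Real.exp (-(c ^ 2 * r))) := by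
          rw [← Real.exp_nat_mul]
          have : ((r ^ 3 : ℕ) : ℝ) * (-(c ^ 2 / (r : ℝ) ^ 2)) = -(c ^ 2 * r) := by
            push_cast
            field_simp
          rw [this]
          field_simp
      _ ≤ δ := h1.le

lemma numE (c : ℝ≥0∞) (hc : c ≠ 0) (hc1 : c ≤ 1) (C : ℝ≥0∞) (hC : C ≠ ⊤) (ε : ℝ≥0∞) (hε : ε ≠ 0) :
    ∃ (r : ℕ) (v : ℝ≥0∞), 1 ≤ r ∧ v ≠ 0 ∧ v ≤ c ∧
      C * (((6 * r ^ 3 + 1 : ℕ) : ℝ≥0∞) * (v * v)) ≤ ε ∧
      C * (((6 * r ^ 3 + 1 : ℕ) : ℝ≥0∞) * (1 - c * v) ^ (r ^ 3)) ≤ ε := by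
  obtain ⟨η, hη, hη2⟩ := NumK658.chooseEta C hC ε hε
  have hct : c ≠ ⊤ := ne_top_of_le_ne_top ENNReal.one_ne_top hc1
  obtain ⟨δ, hδ0, hδε⟩ : ∃ δ : ℝ, 0 < δ ∧ ENNReal.ofReal δ ≤ η := by
    by_cases ht : η = ⊤
    · exact ⟨1, one_pos, by rw [ht]; exact le_top⟩
    · exact ⟨η.toReal, ENNReal.toReal_pos hη ht, by rw [ENNReal.ofReal_toReal ht]⟩
  have hc0 : 0 < c.toReal := ENNReal.toReal_pos hc hct
  have hc1' : c.toReal ≤ 1 := by
    have := ENNReal.toReal_mono ENNReal.one_ne_top hc1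
    simpa using this
  obtain ⟨r, hr, h1, h2⟩ := numR c.toReal hc0 hc1' δ hδ0
  have hr1 : (1 : ℝ) ≤ r := by exact_mod_cast hr
  have hr0 : (0 : ℝ) < r := by linarith
  have hcr : ENNReal.ofReal c.toReal = c := ENNReal.ofReal_toReal hct
  refine ⟨r, ENNReal.ofReal (c.toReal / r ^ 2), hr, ?_, ?_, ?_, ?_⟩
  · rw [Ne, ENNReal.ofReal_eq_zero, not_le]
    positivity
  · conv_rhs => rw [← hcr]
    refine ENNReal.ofReal_le_ofReal (div_le_self hc0.le ?_)
    exact one_le_pow₀ hr1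
  · refine le_trans ?_ hη2
    refine mul_le_mul_right (le_trans ?_ hδε) C
    rw [← ENNReal.ofReal_mul (by positivity), ← ENNReal.ofReal_natCast,
      ← ENNReal.ofReal_mul (by positivity)]
    refine ENNReal.ofReal_le_ofReal (le_trans (le_of_eq ?_) h1)
    push_cast
    ring
  · refine le_trans ?_ hη2
    refine mul_le_mul_right (le_trans ?_ hδε) C
    have e1 : (1 : ℝ≥0∞) - c * ENNReal.ofReal (c.toReal / r ^ 2)
        = ENNReal.ofReal (1 - c.toReal ^ 2 / r ^ 2) := by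
      conv_lhs => rw [← hcr]
      rw [ENNReal.toReal_ofReal hc0.le, ← ENNReal.ofReal_mul hc0.le, ← ENNReal.ofReal_one,
        ← ENNReal.ofReal_sub _ (by positivity)]
      congr 1
      ring
    have hx0 : 0 ≤ 1 - c.toReal ^ 2 / (r : ℝ) ^ 2 := by
      rw [sub_nonneg, div_le_one (by positivity)]
      nlinarith
    rw [e1, ← ENNReal.ofReal_pow hx0, ← ENNReal.ofReal_natCast,
      ← ENNReal.ofReal_mul (by positivity)]
    refine ENNReal.ofReal_le_ofReal (le_trans (le_of_eq ?_) h2)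
    push_cast
    ring

lemma tl_tendsto (htl : tl Λ ht 0 ≠ ⊤) : Tendsto (tl Λ ht) atTop (𝓝 0) := by
  have h : ∑' k, tail Λ ht k ≠ ⊤ := by simpa [tl] using htl
  have := ENNReal.tendsto_sum_nat_add (fun k => tail Λ ht k) h
  refine this.congr fun i => ?_
  rw [tl]
  exact tsum_congr fun k => by rw [add_comm]

/-- **the last step of the pair frame** -/
theorem hK_of (h1 : ∀ b, 1 ≤ ht b) (hΛ : ∑' b, Λ b = 1) (hU1 : ∀ n, U Λ ht n ≤ 1)
    (hinj : ∀ b, Function.Injective (dl b)) (hcd : ∀ w b k, k ∈ cd w b → 1 ≤ k ∧ k ≤ ht b)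
    (htl : tl Λ ht 0 ≠ ⊤) (hD : DensSt Λ ht dl) (hS : SplitSt Λ ht) (hP : HPoint Λ ht dl cd)
    (c A : ℝ≥0∞) (hc : c ≠ 0) (hc1 : c ≤ 1) (hA : A ≠ ⊤) (δ : ℕ → ℝ≥0∞)
    (hδ : Tendsto δ atTop (𝓝 0)) (hH : HPiece Λ ht dl cd c A δ) :
    ∀ ε : ℝ≥0∞, ε ≠ 0 → ∃ M : ℕ, ∀ m, M ≤ m → ∃ n0 : ℕ, ∀ n, n0 ≤ n → ∀ w,
      Kap1 Λ ht dl cd n m w ≤ ε := by
  intro ε hε
  set T0 := tl Λ ht 0 with hT0
  set η := ε / 7 with hηd
  have hη : η ≠ 0 := by
    rw [hηd, Ne, ENNReal.div_eq_zero_iff, not_or]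
    exact ⟨hε, by norm_num⟩
  have hη7 : 7 * η ≤ ε := ENNReal.mul_div_le
  have htl0 := tl_tendsto Λ ht htl
  -- constants
  obtain ⟨r, v, hr, hv0, hvc, hn1, hn2⟩ := numE c hc hc1 (2 * T0)
    (ENNReal.mul_ne_top (by norm_num) htl) η hη
  set K := 6 * r ^ 3 with hK
  set J := r ^ 3 with hJ
  have hJ1 : 1 ≤ J := Nat.one_le_pow _ _ hr
  set N : ℝ≥0∞ := ((K + 1 : ℕ) : ℝ≥0∞) with hN
  have hNt : N ≠ ⊤ := ENNReal.natCast_ne_top _
  have hJt : (J : ℝ≥0∞) ≠ ⊤ := ENNReal.natCast_ne_top _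
  obtain ⟨i, hi⟩ := NumK658.chooseNat (tl Λ ht) htl0 (N * 2)
    (ENNReal.mul_ne_top hNt (by norm_num)) η hη
  obtain ⟨lam, hl0, hlt, -, hlam⟩ := NumK658.chooseLam (N * T0 * 2 * A)
    (ENNReal.mul_ne_top (ENNReal.mul_ne_top (ENNReal.mul_ne_top hNt htl) (by norm_num)) hA) η hη
  obtain ⟨s, hs⟩ := NumK658.chooseNat δ hδ (N * T0 * 2 * A * J / lam + N * T0 * 2 * A)
    (ENNReal.add_ne_top.2 ⟨ENNReal.div_ne_top (ENNReal.mul_ne_top (ENNReal.mul_ne_top
      (ENNReal.mul_ne_top (ENNReal.mul_ne_top hNt htl) (by norm_num)) hA) hJt) hl0,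
      ENNReal.mul_ne_top (ENNReal.mul_ne_top (ENNReal.mul_ne_top hNt htl) (by norm_num)) hA⟩) η hη
  obtain ⟨ε4, hε4, hε4'⟩ := NumK658.chooseEta (N * ((2 * i + s : ℕ) : ℝ≥0∞))
    (ENNReal.mul_ne_top hNt (ENNReal.natCast_ne_top _)) η hη
  obtain ⟨k0, hk0⟩ := hP ε4 hε4
  obtain ⟨t1, ht1⟩ := NumK658.chooseNat (tl Λ ht) htl0 (N * T0 * 2 * J)
    (ENNReal.mul_ne_top (ENNReal.mul_ne_top (ENNReal.mul_ne_top hNt htl) (by norm_num)) hJt) η hη
  refine ⟨K * (t1 + i + s + k0 + K + 1), fun m hm => ?_⟩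
  have hK1 : 0 < K := by rw [hK]; positivity
  set t := m / K with htd
  have htbig : t1 + i + s + k0 + K + 1 ≤ t := by
    rw [htd, Nat.le_div_iff_mul_le hK1, mul_comm]
    exact hm
  have hKt : K * t ≤ m := Nat.mul_div_le m K
  have hmK : m < K * t + K := by
    have := Nat.lt_mul_div_succ m hK1
    rw [← htd] at this
    linarith [this, show K * (t + 1) = K * t + K by ring]
  have hKK : K = 6 * J := by rw [hK, hJ]
  have htm : t ≤ m := le_trans (Nat.le_mul_of_pos_left t hK1) hKt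
  refine ⟨m + K * t + 8 * t + i + 1, fun n hn w => ?_⟩
  have hKm : m ≤ (K + 1) * t := by
    have : (K + 1) * t = K * t + t := by ring
    omega
  refine (kap_le Λ ht dl cd n m t K i s (by omega) htm hKm w).trans ?_
  -- one window
  set Zc : ℝ≥0∞ := 2 * (A * (lam + J * δ s / lam + δ s) + ((1 - c * v) ^ J + J * tl Λ ht t)) + v * v with hZc
  have hwin : ∀ j ∈ Finset.range (K + 1), (Win Λ ht dl cd n (m + j * t - t) t i s w +
        ∑ k ∈ Finset.Ioc (m + j * t - t + 4 * t - i - s) (m + j * t - t + i + 4 * t),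
          Pt Λ ht dl cd n k w)
      ≤ (2 * tl Λ ht i + T0 * Zc) + ((2 * i + s : ℕ) : ℝ≥0∞) * ε4 := by
    intro j hj
    have hjK : j ≤ K := by have := Finset.mem_range.1 hj; omega
    have hjt : j * t ≤ K * t := Nat.mul_le_mul_right t hjK
    have ha : 5 * t * J ≤ m + j * t - t := by
      have e1 : K * t = 5 * t * J + t * J := by rw [hKK]; ring
      have e2 : t ≤ t * J := Nat.le_mul_of_pos_right t (by omega)
      omega
    refine add_le_add ?_ ?_
    · refine win_le Λ ht dl cd h1 hΛ hU1 hcd hS n _ t i s (by omega) (by omega) w Zc fun h hh => ?_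
      obtain ⟨lx, ly, hxy, px, py⟩ := hH v hv0 hvc h
      calc ∑' w', nuF Λ ht dl (m + j * t - t) w w' * Gh Λ ht dl cd h s w'
          ≤ ∑' w', (nuF Λ ht dl (m + j * t - t) w w' * FI Λ ht dl cd lx h s w'
              + nuF Λ ht dl (m + j * t - t) w w' * FI Λ ht dl cd ly h s w'
              + nuF Λ ht dl (m + j * t - t) w w' * (v * v)) := by
            refine ENNReal.tsum_le_tsum fun w' => ?_
            rw [← mul_add, ← mul_add]
            gcongr
            exact Gh_le Λ ht dl cd lx ly h s w' (v * v) hxy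
        _ = ∑' w', nuF Λ ht dl (m + j * t - t) w w' * FI Λ ht dl cd lx h s w'
              + ∑' w', nuF Λ ht dl (m + j * t - t) w w' * FI Λ ht dl cd ly h s w'
              + (∑' w', nuF Λ ht dl (m + j * t - t) w w') * (v * v) := by
            rw [ENNReal.tsum_add, ENNReal.tsum_add, ENNReal.tsum_mul_right]
        _ ≤ (A * (lam + J * δ s / lam + δ s) + ((1 - c * v) ^ J + J * tl Λ ht t))
              + (A * (lam + J * δ s / lam + δ s) + ((1 - c * v) ^ J + J * tl Λ ht t))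
              + 1 * (v * v) := by
            refine add_le_add (add_le_add ?_ ?_) ?_
            · exact ptype_le Λ ht dl cd h1 hΛ hU1 hinj hD px t J _ hh ha s lam hl0 hlt w
            · exact ptype_le Λ ht dl cd h1 hΛ hU1 hinj hD py t J _ hh ha s lam hl0 hlt w
            · gcongr
              exact nu_mass Λ ht dl h1 hΛ _ w
        _ = Zc := by rw [hZc, one_mul, two_mul]
    · calc ∑ k ∈ Finset.Ioc (m + j * t - t + 4 * t - i - s) (m + j * t - t + i + 4 * t),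
          Pt Λ ht dl cd n k w
          ≤ ∑ k ∈ Finset.Ioc (m + j * t - t + 4 * t - i - s) (m + j * t - t + i + 4 * t), ε4 := by
            refine Finset.sum_le_sum fun k hk => ?_
            have := Finset.mem_Ioc.1 hk
            exact hk0 k (by omega) n (by omega) w
        _ = ((2 * i + s : ℕ) : ℝ≥0∞) * ε4 := by
            rw [Finset.sum_const, Nat.card_Ioc, nsmul_eq_mul]
            congr 2
            omega
  refine (Finset.sum_le_sum hwin).trans ?_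
  rw [Finset.sum_const, Finset.card_range, nsmul_eq_mul, ← hN]
  have hi' := hi i le_rfl
  have hs' := hs s le_rfl
  have ht1' := ht1 t (by omega)
  calc N * ((2 * tl Λ ht i + T0 * Zc) + ((2 * i + s : ℕ) : ℝ≥0∞) * ε4)
      = N * 2 * tl Λ ht i + N * T0 * 2 * A * lam + (N * T0 * 2 * A * J / lam + N * T0 * 2 * A) * δ s
        + (2 * T0) * (N * (1 - c * v) ^ J) + N * T0 * 2 * J * tl Λ ht t
        + T0 * (N * (v * v)) + N * ((2 * i + s : ℕ) : ℝ≥0∞) * ε4 := by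
        rw [hZc]
        simp only [ENNReal.div_eq_inv_mul]
        ring
    _ ≤ η + η + η + η + η + η + η := by
        gcongr
        refine le_trans ?_ hn1
        gcongr
        exact le_mul_of_one_le_left' (by norm_num)
    _ = 7 * η := by ring
    _ ≤ ε := hη7

end Crest.Agent.R154.PFW109
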