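import Crest.Agent.R154.PFDefs_692
import Crest.Agent.R154.FP_178
import Crest.Agent.R154.NumK_658

/-! Row 154, pair frame of 692 (helper109): window estimate and `hK` of `abs_main2` from
`DensSt`, `SplitSt`, `HPoint`, `HPiece`. -/

set_option autoImplicit false

namespace Crest.Agent.R154.PFW109

open Crest.Agent.R154.B5A
open Filter
open scoped ENNReal Topology

variable {B W : Type*} (Λ : B → ℝ≥0∞) (ht : B → ℕ) (dl : B → W → W) (cd : W → B → Set ℕ)

lemma fp_of_FPL : ∀ (L : List B) (a : ℕ), FPL ht a L → FP178.fp ht a L := by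
  intro L
  induction L with
  | nil =>
    intro a h
    have := h.1
    rw [HT_nil] at this
    exact Nat.le_zero.1 this
  | cons b L ih =>
    intro a h
    have h0 : 0 < a := by
      have := h.2 [] List.nil_prefix (by simp)
      rw [HT_nil] at this
      exact this
    refine ⟨h0, ih _ ⟨?_, fun L' hp hne => ?_⟩⟩
    · have := h.1
      rw [HT_cons] at this
      omega
    · have := h.2 (b :: L') ((List.prefix_cons_inj b).2 hp) (by simpa using hne)
      rw [HT_cons] at this
      omega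

open Classical in
lemma mass_FPL (h1 : ∀ b, 1 ≤ ht b) (hΛ : ∑' b, Λ b = 1) (a : ℕ) :
    ∑' L, (if FPL ht a L then LW Λ L else 0) ≤ 1 := by
  refine le_trans (ENNReal.tsum_le_tsum fun L => ?_) (FP178.sum_FP Λ ht h1 hΛ.le a)
  by_cases h : FPL ht a L
  · rw [if_pos h, if_pos (fp_of_FPL ht L a h)]
  · rw [if_neg h]; exact zero_le

open Classical in
lemma fiber (a : ℕ) (w : W) (φ : W → ℝ≥0∞) :
    ∑' L, (if FPL ht a L then LW Λ L * φ (act dl L w) else 0)
      = ∑' w', nuF Λ ht dl a w w' * φ w' := by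
  calc ∑' L, (if FPL ht a L then LW Λ L * φ (act dl L w) else 0)
      = ∑' L, ∑' w', (if FPL ht a L ∧ act dl L w = w' then LW Λ L else 0) * φ w' := by
        refine tsum_congr fun L => ?_
        rw [tsum_eq_single (act dl L w)]
        · by_cases h : FPL ht a L <;> simp [h]
        · intro w' hne
          rw [if_neg (fun h => hne h.2.symm), zero_mul]
    _ = ∑' w', ∑' L, (if FPL ht a L ∧ act dl L w = w' then LW Λ L else 0) * φ w' :=
        ENNReal.tsum_comm
    _ = _ := by
        refine tsum_congr fun w' => ?_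
        rw [ENNReal.tsum_mul_right, nuF]

lemma nu_mass (h1 : ∀ b, 1 ≤ ht b) (hΛ : ∑' b, Λ b = 1) (a : ℕ) (w : W) :
    ∑' w', nuF Λ ht dl a w w' ≤ 1 := by
  classical
  have h := fiber Λ ht dl a w (fun _ => 1)
  simp only [mul_one] at h
  rw [← h]
  exact mass_FPL Λ ht h1 hΛ a

open Classical in
/-- one-piece crossings of height `h` with contact, all contacts interior -/
noncomputable def Gh (h s : ℕ) (w : W) : ℝ≥0∞ :=
  ∑' L : List B, if HT ht L = h ∧ CD ht dl cd L w ≠ ∅ ∧
    (∀ k ∈ CD ht dl cd L w, s < k ∧ k + s ≤ h) then LW Λ L else 0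

open Classical in
lemma Gh_le (lx ly : List B → Prop) (h s : ℕ) (w : W) (z : ℝ≥0∞)
    (hz : (∑' L : List B, if HT ht L = h ∧ ¬ lx L ∧ ¬ ly L then LW Λ L else 0) ≤ z) :
    Gh Λ ht dl cd h s w ≤ FI Λ ht dl cd lx h s w + FI Λ ht dl cd ly h s w + z := by
  refine le_trans ?_ (add_le_add_right hz _)
  rw [Gh, FI, FI, ← ENNReal.tsum_add, ← ENNReal.tsum_add]
  refine ENNReal.tsum_le_tsum fun L => ?_
  by_cases h0 : HT ht L = h ∧ CD ht dl cd L w ≠ ∅ ∧ (∀ k ∈ CD ht dl cd L w, s < k ∧ k + s ≤ h)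
  · rw [if_pos h0]
    by_cases hx : lx L
    · rw [if_pos ⟨h0.1, hx, h0.2.1, h0.2.2⟩, add_assoc]
      exact le_self_add
    · by_cases hy : ly L
      · rw [if_pos (⟨h0.1, hy, h0.2.1, h0.2.2⟩ :
          HT ht L = h ∧ ly L ∧ CD ht dl cd L w ≠ ∅ ∧
            (∀ k ∈ CD ht dl cd L w, s < k ∧ k + s ≤ h))]
        rw [add_comm (ite _ _ _) (LW Λ L), add_assoc]
        exact le_self_add
      · rw [if_pos (⟨h0.1, hx, hy⟩ : HT ht L = h ∧ ¬ lx L ∧ ¬ ly L)]
        exact le_add_self
  · rw [if_neg h0]; exact zero_le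

lemma FI_le_one (hU1 : ∀ n, U Λ ht n ≤ 1) (loc : List B → Prop) (h s : ℕ) (w : W) :
    FI Λ ht dl cd loc h s w ≤ 1 := by
  classical
  refine le_trans (ENNReal.tsum_le_tsum fun L => ?_) (hU1 h)
  by_cases h0 : HT ht L = h
  · rw [if_pos h0]; split_ifs
    · exact le_rfl
    · exact zero_le
  · rw [if_neg h0, if_neg (fun h => h0 h.1)]

lemma ptype_le (h1 : ∀ b, 1 ≤ ht b) (hΛ : ∑' b, Λ b = 1) (hU1 : ∀ n, U Λ ht n ≤ 1)
    (hinj : ∀ b, Function.Injective (dl b)) (hD : DensSt Λ ht dl) {q A : ℝ≥0∞} {δ : ℕ → ℝ≥0∞}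
    {h : ℕ} {loc : List B → Prop} (hp : PType Λ ht dl cd q A δ h loc) (t J a : ℕ)
    (hh : h ≤ 4 * t) (ha : 5 * t * J ≤ a) (s : ℕ) (lam : ℝ≥0∞) (hl0 : lam ≠ 0) (hlt : lam ≠ ⊤)
    (w : W) :
    ∑' w', nuF Λ ht dl a w w' * FI Λ ht dl cd loc h s w'
      ≤ A * (lam + J * δ s / lam + δ s) + ((1 - q) ^ J + J * tl Λ ht t) := by
  obtain ⟨th, hth0, htht, low, hlow1, hlow2, hwin⟩ := hp
  have hd := hD h1 hΛ hU1 hinj th q h t low hh hlow1 hlow2 J a ha w
  have hw := hwin s lam (J * th) hl0 hlt (fun w' => min (nuF Λ ht dl a w w') (J * th))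
    ((ENNReal.tsum_le_tsum fun w' => min_le_left _ _).trans (nu_mass Λ ht dl h1 hΛ a w))
    (fun w' => min_le_right _ _)
  have e1 : (J : ℝ≥0∞) * th * th⁻¹ = J := by
    rw [mul_assoc, ENNReal.mul_inv_cancel hth0 htht, mul_one]
  rw [e1] at hw
  calc ∑' w', nuF Λ ht dl a w w' * FI Λ ht dl cd loc h s w'
      ≤ ∑' w', (min (nuF Λ ht dl a w w') (J * th) * FI Λ ht dl cd loc h s w'
          + (nuF Λ ht dl a w w' - J * th)) := by
        refine ENNReal.tsum_le_tsum fun w' => ?_
        have e2 : nuF Λ ht dl a w w'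
            = min (nuF Λ ht dl a w w') (J * th) + (nuF Λ ht dl a w w' - J * th) := by
          rw [add_comm, tsub_add_min]
        calc nuF Λ ht dl a w w' * FI Λ ht dl cd loc h s w'
            = min (nuF Λ ht dl a w w') (J * th) * FI Λ ht dl cd loc h s w'
              + (nuF Λ ht dl a w w' - J * th) * FI Λ ht dl cd loc h s w' := by
              rw [← add_mul, ← e2]
          _ ≤ _ := by
              gcongr
              exact mul_le_of_le_one_right' (FI_le_one Λ ht dl cd hU1 loc h s w')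
    _ ≤ _ := by
        rw [ENNReal.tsum_add]
        exact add_le_add hw hd

open Classical in
/-- windows without slab contact -/
noncomputable def Win (n a t i s : ℕ) (w : W) : ℝ≥0∞ :=
  ∑' L : List B, if HT ht L = n ∧ (∀ k ∈ CD ht dl cd L w, a + t < k) ∧
    (∃ k ∈ CD ht dl cd L w, k ≤ a + 2 * t) ∧
    (∀ k ∈ CD ht dl cd L w, ¬ (a + 4 * t - i - s < k ∧ k ≤ a + i + 4 * t)) then LW Λ L else 0

lemma range_tail_le (g : ℕ) : ∑ h ∈ Finset.range (g + 1), tail Λ ht (g - h) ≤ tl Λ ht 0 := by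
  have e := Finset.sum_range_reflect (fun h => tail Λ ht h) (g + 1)
  simp only [Nat.add_sub_cancel] at e
  rw [e, tl]
  simp only [zero_add]
  exact ENNReal.sum_le_tsum _

open Classical in
lemma win_le (h1 : ∀ b, 1 ≤ ht b) (hΛ : ∑' b, Λ b = 1) (hU1 : ∀ n, U Λ ht n ≤ 1)
    (hcd : ∀ w b k, k ∈ cd w b → 1 ≤ k ∧ k ≤ ht b)
    (hS : SplitSt Λ ht) (n a t i s : ℕ) (hits : i + s ≤ t) (hn : a + i + 4 * t < n) (w : W)
    (Z : ℝ≥0∞) (hZ : ∀ h, h ≤ 4 * t → ∑' w', nuF Λ ht dl a w w' * Gh Λ ht dl cd h s w' ≤ Z) :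
    Win Λ ht dl cd n a t i s w ≤ 2 * tl Λ ht i + tl Λ ht 0 * Z := by
  set F : List B → ℝ≥0∞ := fun L => if (∀ k ∈ CD ht dl cd L w, a + t < k) ∧
    (∃ k ∈ CD ht dl cd L w, k ≤ a + 2 * t) ∧
    (∀ k ∈ CD ht dl cd L w, ¬ (a + 4 * t - i - s < k ∧ k ≤ a + i + 4 * t)) then 1 else 0 with hF
  set P : List B → List B → ℝ≥0∞ := fun L1 Lp => if CD ht dl cd Lp (act dl L1 w) ≠ ∅ ∧
    (∀ k ∈ CD ht dl cd Lp (act dl L1 w), s < k ∧ k + s ≤ HT ht Lp) then 1 else 0 with hP
  have key := hS h1 hΛ hU1 n a (4 * t) F P i hn (by omega)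
    (fun L => by simp only [hF]; split_ifs <;> simp)
    (by
      intro L1 Lp R hL1 hHT1 hLp1 hLp2 hHT
      simp only [hF, hP]
      split_ifs with g1 g2
      · exact le_rfl
      · exfalso
        apply g2
        obtain ⟨c1, ⟨k0, hk0, hk0'⟩, c3⟩ := g1
        have hsub : ∀ k, k ∈ CD ht dl cd Lp (act dl L1 w) →
            HT ht L1 + k ∈ CD ht dl cd (L1 ++ (Lp ++ R)) w := by
          intro k hk
          rw [CD_append]
          refine Or.inr ⟨k, ?_, rfl⟩
          rw [CD_append]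
          exact Or.inl hk
        constructor
        · have hk1 := c1 k0 hk0
          rw [CD_append] at hk0
          rcases hk0 with hk0 | ⟨k1, hk1', rfl⟩
          · have := CD_pos ht dl cd hcd L1 w k0 hk0
            omega
          · rw [CD_append] at hk1'
            rcases hk1' with hk1' | ⟨k2, hk2, rfl⟩
            · exact Set.nonempty_iff_ne_empty.1 ⟨k1, hk1'⟩
            · have := CD_pos ht dl cd hcd R _ k2 hk2
              simp only at hk0'
              have := hL1.1
              omega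
        · intro k hk
          have h2 := c1 _ (hsub k hk)
          have h3 := c3 _ (hsub k hk)
          have h4 := CD_pos ht dl cd hcd Lp _ k hk
          have := hL1.1
          constructor
          · omega
          · by_contra hcon
            exact h3 ⟨by omega, by omega⟩
      · exact zero_le
      · exact le_rfl)
  have e1 : Win Λ ht dl cd n a t i s w
      = ∑' L : List B, if HT ht L = n then LW Λ L * F L else 0 := by
    refine tsum_congr fun L => ?_
    simp only [hF]
    by_cases h0 : HT ht L = n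
    · simp only [h0, true_and, if_true]
      split_ifs <;> simp
    · rw [if_neg h0, if_neg (fun h => h0 h.1)]
  rw [e1]
  refine key.trans ?_
  gcongr
  calc ∑ h ∈ Finset.range (4 * t + 1), tail Λ ht (4 * t - h) *
        ∑' L1 : List B, (if FPL ht a L1 then LW Λ L1 *
          ∑' Lp : List B, (if HT ht Lp = h then LW Λ Lp * P L1 Lp else 0) else 0)
      ≤ ∑ h ∈ Finset.range (4 * t + 1), tail Λ ht (4 * t - h) * Z := by
        refine Finset.sum_le_sum fun h hh => ?_
        gcongr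
        have hφ : ∀ L1 : List B, ∑' Lp : List B, (if HT ht Lp = h then LW Λ Lp * P L1 Lp else 0)
            = Gh Λ ht dl cd h s (act dl L1 w) := by
          intro L1
          refine tsum_congr fun Lp => ?_
          simp only [hP]
          by_cases h0 : HT ht Lp = h
          · simp only [h0, true_and, if_true]
            split_ifs <;> simp
          · rw [if_neg h0, if_neg (fun h => h0 h.1)]
        simp only [hφ]
        rw [fiber Λ ht dl a w (fun w' => Gh Λ ht dl cd h s w')]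
        exact hZ h (by have := Finset.mem_range.1 hh; omega)
    _ = (∑ h ∈ Finset.range (4 * t + 1), tail Λ ht (4 * t - h)) * Z := by
        rw [Finset.sum_mul]
    _ ≤ tl Λ ht 0 * Z := by gcongr; exact range_tail_le Λ ht (4 * t)

end Crest.Agent.R154.PFW109
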