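import Crest.Agent.R154.PIndE0_546
import Crest.Agent.R154.JBind4_132

/-! Row 154, `d = 2`, leaf D2.8 (helper546), part 2: from independent environments to the iid
letters of two natural walkers; attempts with distances; coordinates `D j` of the pair. -/

set_option autoImplicit false
set_option linter.unusedSectionVars false
set_option linter.deprecated false

namespace Crest.Agent.R154.PInd546

open MeasureTheory ProbabilityTheory Filter Set Crest.ProbabilityR.RandomEnvironment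
open Crest.Agent.R154.Q561 Crest.Agent.R154.Mk561 Crest.Agent.R154.B6I
open Crest.Agent.R154.Bind263
open Crest.Agent.R154.Ren263 (Word Stay measurableSet_Stay)
open Crest.Agent.R154.RenG263 (blks RegInf measurable_blks)
open Crest.Agent.R154.J132 (rhoU muW stL pairL iidL map_blksU ae_regInfU probW NS_eq restrict_eq)
open Crest.Agent.R154.KB424 (NS)
open scoped ENNReal Topology

local notation "shf" => Crest.Agent.R154.Ren263.shift

variable {d : ℕ} {u : Step d} {R : ℕ} {κ : ℝ} {Q : Measure (Environment d)}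
  [IsProbabilityMeasure Q]

/-- **independent environments ≥ (natural for ever)² × iid letters**, from any two starting
points. -/
theorem ind_ge (F : Frame Q κ R) (hA : annealedProb Q 0 (escapeEvent (B2d.dirVec u)) ≠ 0)
    (x y : Site d) {C : Set ((ℕ → Word (Mark d)) × (ℕ → Word (Mark d)))}
    (hC : MeasurableSet C) {E : Set (PP d)}
    (h : ∀ p : PP d, p.1 ∈ NS u → p.2 ∈ NS u → p.1 ∈ RegInf (rhoU u κ R) →
      p.2 ∈ RegInf (rhoU u κ R) →
      (blks (rhoU u κ R) p.1, blks (rhoU u κ R) p.2) ∈ C → p ∈ E) :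
    mkAnn κ Q 0 (NS u) * mkAnn κ Q 0 (NS u) * pairL (muW Q κ R u) C ≤ PIm κ Q x y E := by
  have := probW F hA
  have hp : mkAnn κ Q 0 (Stay (mht (B2d.dirVec u))) ≠ 0 := F.hp _ hA
  have hst : IsProbabilityMeasure (stL Q κ u) := cond_isProbabilityMeasure hp
  have hSm : MeasurableSet (NS u) := by rw [NS_eq]; exact measurableSet_Stay _
  have hm : Measurable (blks (rhoU u κ R)) := measurable_blks _
  unfold PIm
  rw [mkAnn_stat F.stat κ x, mkAnn_stat F.stat κ y]
  have e1 : (((mkAnn κ Q 0).restrict (NS u)).prod ((mkAnn κ Q 0).restrict (NS u))) E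
      ≤ ((mkAnn κ Q 0).prod (mkAnn κ Q 0)) E := by
    rw [Measure.prod_restrict]
    exact Measure.restrict_apply_le _ _
  refine le_trans ?_ e1
  rw [restrict_eq F hA, Measure.prod_smul_left, Measure.prod_smul_right, smul_smul,
    Measure.smul_apply, smul_eq_mul]
  refine mul_le_mul_right ?_ _
  rw [pairL, ← map_blksU F hA, Measure.map_prod_map _ _ hm hm,
    Measure.map_apply (hm.prodMap hm) hC]
  refine measure_mono_ae ?_
  have hS : ∀ᵐ s ∂(stL Q κ u), s ∈ NS u := by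
    rw [NS_eq]
    exact ae_cond_mem (measurableSet_Stay _)
  have h1 := Measure.quasiMeasurePreserving_fst (μ := stL Q κ u) (ν := stL Q κ u)
    |>.ae (ae_regInfU F hA)
  have h2 := Measure.quasiMeasurePreserving_snd (μ := stL Q κ u) (ν := stL Q κ u)
    |>.ae (ae_regInfU F hA)
  have h3 := Measure.quasiMeasurePreserving_fst (μ := stL Q κ u) (ν := stL Q κ u) |>.ae hS
  have h4 := Measure.quasiMeasurePreserving_snd (μ := stL Q κ u) (ν := stL Q κ u) |>.ae hS
  filter_upwards [h1, h2, h3, h4] with p hp1 hp2 hp3 hp4 hpC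
  exact h p hp3 hp4 hp1 hp2 hpC

/-! ### distances -/

lemma dt_Dd (i : Fin d) (s : SP u) (j : ℕ) (S : Set ℤ) : Dt u j {p | Dd i s j p ∈ S} := by
  intro p q h1 h2 hp
  simp only [Set.mem_ofPred_eq, Dd] at hp ⊢
  rw [← tip_eqv s h1 h2]; exact hp

lemma Dd_shift (i : Fin d) (s : SP u) {j n : ℕ} {p : PP d} (h : Al u (j+n) p) :
    Dd i (tip j s p) n (th u j p) = Dd i s (j+n) p := by
  unfold Dd
  have := tip_shift (Nat.le_add_right j n) s h
  rw [Nat.add_sub_cancel_left] at this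
  rw [this]

lemma Al_shift {s : SP u} {j n : ℕ} {p : PP d} (h : Al u j p) :
    Al u n (th u j p) ↔ Al u (j+n) p := by
  obtain ⟨⟨a, ha⟩, ⟨b, hb⟩⟩ := h
  rw [th_eq ha hb]
  have e : j + n - j = n := Nat.add_sub_cancel_left j n
  constructor
  · rintro ⟨⟨a', ha'⟩, ⟨b', hb'⟩⟩
    rw [← e] at ha' hb'
    exact ⟨⟨_, (hit_shift_iff (Nat.le_add_right j n) ha _).1 ha'⟩,
      ⟨_, (hit_shift_iff (Nat.le_add_right j n) hb _).1 hb'⟩⟩
  · rintro ⟨⟨a', ha'⟩, ⟨b', hb'⟩⟩
    have h1 := ha.le_of_le (Nat.le_add_right j n) ha'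
    have h2 := hb.le_of_le (Nat.le_add_right j n) hb'
    refine ⟨⟨a' - a, ?_⟩, ⟨b' - b, ?_⟩⟩
    · have := (hit_shift_iff (Nat.le_add_right j n) ha (a'-a)).2 (by
        rwa [show a + (a' - a) = a' by omega])
      rwa [e] at this
    · have := (hit_shift_iff (Nat.le_add_right j n) hb (b'-b)).2 (by
        rwa [show b + (b' - b) = b' by omega])
      rwa [e] at this

/-- success with distances: natural, no contact, `S l (Dd 0), …` seen up to `l` -/
def GS (R : ℕ) (i : Fin d) (S : ℕ → Set (ℕ → ℤ)) (l : ℕ) : Set (Om u) :=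
  {ω | (Nt u R 0 l ω.2.1 ∧ Nt u R 0 l ω.2.2) ∧ NoC R 0 l ω ∧
    ∃ f ∈ S l, ∀ k ≤ l, f k = Dd i ω.1 k ω.2}

lemma att_GS (R : ℕ) (i : Fin d) (S : ℕ → Set (ℕ → ℤ)) : Att (u := u) R (GS R i S) where
  dt l t := by
    rintro p q h1 h2 ⟨hN, hC, f, hf, hfk⟩
    refine ⟨dt_nt (Nat.zero_le l) p q h1 h2 hN, dt_noC (Nat.zero_le l) t p q h1 h2 hC, f, hf,
      fun k hk => ?_⟩
    rw [hfk k hk]
    simp only [Dd]
    rw [tip_eqv t (h1.mono hk) (h2.mono hk)]
  nat l t p h := h.1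
  noC l t p h := h.2.1

/-- the success set seen from the start of the walk -/
def Ev (i : Fin d) (s : SP u) (S : ℕ → Set (ℕ → ℤ)) (j L : ℕ) : Set (PP d) :=
  {p | ∃ l ≤ L, ∃ f ∈ S l, ∀ k ≤ l, f k = Dd i s (j+k) p}

/-- **MAIN LOWER BOUND**: for any past `B` at level `j`, the same-environment pair realises the
distance pattern `S` within `L` more levels with probability at least `p² × iid letters`. -/
theorem attempt (F : Frame Q κ R) (hA : annealedProb Q 0 (escapeEvent (B2d.dirVec u)) ≠ 0)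
    (i : Fin d) (S : ℕ → Set (ℕ → ℤ)) (s : SP u) {j : ℕ} (L : ℕ)
    {B : Set (PP d)} (hBa : ∀ p ∈ B, Al u j p) (hB : Dt u j B)
    {C : ℤ → Set ((ℕ → Word (Mark d)) × (ℕ → Word (Mark d)))} (hC : ∀ w, MeasurableSet (C w))
    {c : ℝ≥0∞} {Bs : Set ℤ} (hBs : ∀ p ∈ B, ldf i (tip j s p) ∈ Bs)
    (hc : ∀ w ∈ Bs, c ≤ pairL (muW Q κ R u) (C w))
    (h : ∀ (t : SP u) (p : PP d), ldf i t ∈ Bs → p.1 ∈ NS u → p.2 ∈ NS u →
      p.1 ∈ RegInf (rhoU u κ R) → p.2 ∈ RegInf (rhoU u κ R) →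
      (blks (rhoU u κ R) p.1, blks (rhoU u κ R) p.2) ∈ C (ldf i t) →
      ((t, p) : Om u) ∈ Suc (GS R i S) L) :
    mkAnn κ Q 0 (NS u) * mkAnn κ Q 0 (NS u) * c * PSm κ Q s.1.1 s.1.2 B
      ≤ PSm κ Q s.1.1 s.1.2 (B ∩ Ev i s S j L) := by
  refine ((att_GS R i S).ge F.fin s L hBa hB fun p hp => ?_).trans (measure_mono ?_)
  · refine le_trans (mul_le_mul_right (hc _ (hBs p hp)) _) ?_
    exact ind_ge F hA _ _ (hC _) fun q h1 h2 h3 h4 h5 => h _ q (hBs p hp) h1 h2 h3 h4 h5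
  · rintro p ⟨hp, l, hl, ⟨hN, _, f, hf, hfk⟩⟩
    refine ⟨hp, l, hl, f, hf, fun k hk => ?_⟩
    rw [hfk k hk]
    have hal := hBa p hp
    have : Al u k (th u j p) :=
      ⟨(hN.1.left hk).alv, (hN.2.left hk).alv⟩
    exact Dd_shift i s ((Al_shift (s := s) hal).1 this)

end Crest.Agent.R154.PInd546
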