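import Crest.Agent.R154.PIndB_546

/-! Row 154, `d = 2`, leaf D2.8 (helper546), part 3: pathwise dictionary of the joint blocks ⟹
success of the attempts `(E1)` (reach `hi`, staying above `lo - b`) and `(E2)` (stay). `R = 0`. -/

set_option autoImplicit false
set_option linter.unusedSectionVars false
set_option linter.deprecated false

namespace Crest.Agent.R154.PInd546

open MeasureTheory ProbabilityTheory Filter Set Crest.ProbabilityR.RandomEnvironment
open Crest.Agent.R154.Q561 Crest.Agent.R154.Mk561 Crest.Agent.R154.B6I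
open Crest.Agent.R154.Flux132 (lev)
open Crest.Agent.R154.KB424 (NS)
open scoped ENNReal Topology

variable {d : ℕ} {u : Step d}

/-- heights of the joint cuts -/
def Hc (Rh : ℕ → ℕ) (k : ℕ) : ℕ := ∑ j ∈ Finset.range k, Rh j

lemma Hc_zero (Rh : ℕ → ℕ) : Hc Rh 0 = 0 := by simp [Hc]

lemma Hc_succ (Rh : ℕ → ℕ) (k : ℕ) : Hc Rh (k+1) = Hc Rh k + Rh k := Finset.sum_range_succ _ _

lemma Hc_mono {Rh : ℕ → ℕ} : Monotone (Hc Rh) :=
  monotone_nat_of_le_succ fun k => by rw [Hc_succ]; omega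

lemma le_Hc {Rh : ℕ → ℕ} (h1 : ∀ k, 1 ≤ Rh k) (k : ℕ) : k ≤ Hc Rh k := by
  induction k with
  | zero => omega
  | succ k ih => rw [Hc_succ]; have := h1 k; omega

lemma exists_block {Rh : ℕ → ℕ} (h1 : ∀ k, 1 ≤ Rh k) (z : ℕ) :
    ∃ k, Hc Rh k ≤ z ∧ z < Hc Rh (k+1) := by
  classical
  have hex : ∃ k, z < Hc Rh (k+1) := ⟨z, by have := le_Hc h1 (z+1); omega⟩
  refine ⟨Nat.find hex, ?_, Nat.find_spec hex⟩
  rcases Nat.eq_zero_or_pos (Nat.find hex) with h0 | hpos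
  · rw [h0, Hc_zero]; omega
  · have := Nat.find_min hex (m := Nat.find hex - 1) (by omega)
    rw [show Nat.find hex - 1 + 1 = Nat.find hex by omega] at this
    omega

/-- **pathwise dictionary** of the joint blocks of a pair started from `t`. -/
structure Dict (i : Fin d) (t : SP u) (p : PP d) (V B : ℕ → ℝ) (Rh : ℕ → ℕ) : Prop where
  ns1 : p.1 ∈ NS u
  ns2 : p.2 ∈ NS u
  R1 : ∀ k, 1 ≤ Rh k
  cut : ∀ k, ∃ a b, Hit u (Hc Rh k) p.1 a ∧ Hit u (Hc Rh k) p.2 b ∧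
    ((pos t.1.1 p.1 a i - pos t.1.2 p.2 b i : ℤ) : ℝ) = ldf i t + ∑ j ∈ Finset.range k, V j
  lev : ∀ k n m, (Hc Rh k : ℤ) ≤ zt u p.1 n → zt u p.1 n < (Hc Rh (k+1) : ℤ) →
    zt u p.2 m = zt u p.1 n →
    |((pos t.1.1 p.1 n i - pos t.1.2 p.2 m i : ℤ) : ℝ)
      - (ldf i t + ∑ j ∈ Finset.range k, V j)| ≤ B k

variable {i : Fin d} {t : SP u} {p : PP d} {V B : ℕ → ℝ} {Rh : ℕ → ℕ}

lemma Dict.al (h : Dict i t p V B Rh) (l : ℕ) : Al u l p := by
  obtain ⟨a, b, ha, hb, _⟩ := h.cut l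
  exact ⟨Alv.anti (le_Hc h.R1 l) ⟨a, ha⟩, Alv.anti (le_Hc h.R1 l) ⟨b, hb⟩⟩

lemma nt_of_ns {M : MPath d} (h : M ∈ NS u) {l : ℕ} (ha : Alv u l M) : Nt u 0 0 l M := by
  obtain ⟨n, hn⟩ := ha
  refine ⟨0, n, hit_zero M, hn, fun m _ _ => ⟨fun h0 => absurd h0 (Nat.not_lt_zero _), fun _ => ?_⟩⟩
  have := h m
  simpa using this

lemma Dict.nt (h : Dict i t p V B Rh) (l : ℕ) : Nt u 0 0 l p.1 ∧ Nt u 0 0 l p.2 :=
  ⟨nt_of_ns h.ns1 (h.al l).1, nt_of_ns h.ns2 (h.al l).2⟩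

/-- distance at a cut -/
lemma Dict.Dd_cut (h : Dict i t p V B Rh) (k : ℕ) :
    (Dd i t (Hc Rh k) p : ℝ) = |ldf i t + ∑ j ∈ Finset.range k, V j| := by
  obtain ⟨a, b, ha, hb, hab⟩ := h.cut k
  rw [← hab]
  unfold Dd ldf
  rw [tip_val t ha hb, Int.cast_abs]

/-- distance at any level of a block -/
lemma Dict.Dd_ge (h : Dict i t p V B Rh) {k l : ℕ} (h1 : Hc Rh k ≤ l) (h2 : l < Hc Rh (k+1)) :
    |ldf i t + ∑ j ∈ Finset.range k, V j| - B k ≤ (Dd i t l p : ℝ) := by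
  obtain ⟨⟨a, ha⟩, ⟨b, hb⟩⟩ := h.al l
  have h3 := h.lev k a b (by rw [ha.1]; exact_mod_cast h1) (by rw [ha.1]; exact_mod_cast h2)
    (by rw [ha.1, hb.1])
  have h4 : (Dd i t l p : ℝ) = |((pos t.1.1 p.1 a i - pos t.1.2 p.2 b i : ℤ) : ℝ)| := by
    unfold Dd ldf
    rw [tip_val t ha hb, Int.cast_abs]
  rw [h4]
  set X : ℝ := ((pos t.1.1 p.1 a i - pos t.1.2 p.2 b i : ℤ) : ℝ)
  set Y : ℝ := ldf i t + ∑ j ∈ Finset.range k, V j
  have := abs_sub_abs_le_abs_sub Y X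
  rw [abs_sub_comm] at this
  linarith

/-- no contact below level `l` if the extents are smaller than the distances -/
lemma Dict.noC (h : Dict i t p V B Rh) {l : ℕ}
    (hB : ∀ k, Hc Rh k < l → B k < |ldf i t + ∑ j ∈ Finset.range k, V j|) :
    NoC 0 0 l ((t, p) : Om u) := by
  intro n m hn hm hct
  exfalso
  obtain ⟨_, _, hc⟩ := hct
  have heq : pos t.1.1 p.1 n = pos t.1.2 p.2 m := by
    funext c
    have := hc c
    simp only [Nat.cast_zero] at this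
    have := abs_nonpos_iff.1 this
    linarith
  have hz : zt u p.2 m = zt u p.1 n := by
    have h1 := lev_pos u t.1.1 p.1 n
    have h2 := lev_pos u t.1.2 p.2 m
    rw [heq, h2, t.2] at h1
    linarith
  have h0 : 0 ≤ zt u p.1 n := h.ns1 n
  have hl : zt u p.1 n < l := hn n le_rfl
  obtain ⟨z, hzz⟩ := Int.eq_ofNat_of_zero_le h0
  obtain ⟨k, k1, k2⟩ := exists_block h.R1 z
  have h3 := h.lev k n m (by rw [hzz]; exact_mod_cast k1) (by rw [hzz]; exact_mod_cast k2) hz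
  rw [heq] at h3
  simp only [sub_self, Int.cast_zero, zero_sub, abs_neg] at h3
  have h4 := hB k (by
    rw [hzz] at hl
    have : z < l := by exact_mod_cast hl
    omega)
  linarith

/-- **(E1) from the letters.** `σ = ±1` is the sign of the starting difference. -/
theorem Dict.up (h : Dict i t p V B Rh) {σ w lo hi b : ℝ} (hσ : |σ| = 1)
    (hw : w ≤ σ * ldf i t) (hb0 : 0 ≤ b) (hb : b < lo) {n : ℕ} {L : ℕ}
    (hm : ∃ m, m ≤ n ∧ hi ≤ w + ∑ j ∈ Finset.range m, σ * V j ∧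
      ∀ k, k ≤ m → lo ≤ w + ∑ j ∈ Finset.range k, σ * V j)
    (hB : ∀ k < n, B k ≤ b) (hL : Hc Rh n ≤ L) :
    ((t, p) : Om u) ∈ Suc (GS 0 i fun l => {f | hi ≤ (f l : ℝ) ∧ ∀ k ≤ l, lo - b ≤ (f k : ℝ)}) L := by
  obtain ⟨m, hmn, hhi, hlo⟩ := hm
  have key : ∀ k, w + ∑ j ∈ Finset.range k, σ * V j ≤ |ldf i t + ∑ j ∈ Finset.range k, V j| := by
    intro k
    calc w + ∑ j ∈ Finset.range k, σ * V j ≤ σ * (ldf i t + ∑ j ∈ Finset.range k, V j) := by
          rw [mul_add, Finset.mul_sum]; linarith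
      _ ≤ |σ * (ldf i t + ∑ j ∈ Finset.range k, V j)| := le_abs_self _
      _ = _ := by rw [abs_mul, hσ, one_mul]
  have hlt : ∀ k, Hc Rh k < Hc Rh m → k < m := fun k hk => by
    by_contra hcon
    exact absurd (Hc_mono (Rh := Rh) (not_lt.1 hcon)) (by omega)
  refine ⟨Hc Rh m, (Hc_mono hmn).trans hL, h.nt _, h.noC fun k hk => ?_,
    fun k => Dd i t k p, ⟨?_, ?_⟩, fun k _ => rfl⟩
  · have hkm := hlt k hk
    have h1 := hB k (by omega)
    have h2 := hlo k hkm.le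
    have h3 := key k
    linarith
  · have := h.Dd_cut m
    rw [this]
    exact hhi.trans (key m)
  · intro k hk
    obtain ⟨q, q1, q2⟩ := exists_block h.R1 k
    have hqm : q ≤ m := by
      by_contra hcon
      have := Hc_mono (Rh := Rh) (show m + 1 ≤ q by omega)
      rw [Hc_succ] at this
      have := h.R1 m
      omega
    rcases Nat.lt_or_ge q m with hlt' | hge
    · have h1 := h.Dd_ge q1 q2
      have h2 := hB q (by omega)
      have h3 := hlo q hqm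
      have h4 := key q
      linarith
    · obtain rfl : q = m := le_antisymm hqm hge
      obtain rfl : k = Hc Rh q := le_antisymm hk q1
      have h1 := h.Dd_cut q
      have h3 := hlo q le_rfl
      have h4 := key q
      rw [h1]; linarith

/-- **(E2) from the letters.** -/
theorem Dict.stay (h : Dict i t p V B Rh) {σ w lo b : ℝ} (hσ : |σ| = 1)
    (hw : w ≤ σ * ldf i t) (hb : b < lo) {n : ℕ} {L : ℕ}
    (hm : ∀ k, k ≤ n → lo ≤ w + ∑ j ∈ Finset.range k, σ * V j)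
    (hB : ∀ k < n, B k ≤ b) (hL : L < Hc Rh n) :
    ((t, p) : Om u) ∈ Suc (GS 0 i fun l => {f | l = L ∧ ∀ k ≤ l, lo - b ≤ (f k : ℝ)}) L := by
  have key : ∀ k, w + ∑ j ∈ Finset.range k, σ * V j ≤ |ldf i t + ∑ j ∈ Finset.range k, V j| := by
    intro k
    calc w + ∑ j ∈ Finset.range k, σ * V j ≤ σ * (ldf i t + ∑ j ∈ Finset.range k, V j) := by
          rw [mul_add, Finset.mul_sum]; linarith
      _ ≤ |σ * (ldf i t + ∑ j ∈ Finset.range k, V j)| := le_abs_self _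
      _ = _ := by rw [abs_mul, hσ, one_mul]
  have hlt : ∀ k, Hc Rh k ≤ L → k < n := fun k hk => by
    by_contra hcon
    exact absurd (Hc_mono (Rh := Rh) (not_lt.1 hcon)) (by omega)
  refine ⟨L, le_rfl, h.nt _, h.noC fun k hk => ?_,
    fun k => Dd i t k p, ⟨rfl, ?_⟩, fun k _ => rfl⟩
  · have hkm := hlt k hk.le
    have h1 := hB k hkm
    have h2 := hm k hkm.le
    have h3 := key k
    linarith
  · intro k hk
    obtain ⟨q, q1, q2⟩ := exists_block h.R1 k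
    have hqn := hlt q (q1.trans hk)
    have h1 := h.Dd_ge q1 q2
    have h2 := hB q hqn
    have h3 := hm q hqn.le
    have h4 := key q
    linarith

end Crest.Agent.R154.PInd546
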