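import Crest.Agent.R154.PInd_546

/-! Row 154, `d = 2`, leaf D2.8 (helper546), part 0: `(E0)`.  Under uniform ellipticity, from any
past at level `j`, the two walkers of the same environment are at lateral distance `≥ 2 n` at level
`j + 1` with probability at least `κ ^ (2 (n+1))`. -/

set_option autoImplicit false
set_option linter.unusedSectionVars false
set_option linter.deprecated false

namespace Crest.Agent.R154.PInd546

open MeasureTheory ProbabilityTheory Filter Set Crest.ProbabilityR.RandomEnvironment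
open Crest.Agent.R154.Q561 Crest.Agent.R154.Mk561 Crest.Agent.R154.B6I
open Crest.Agent.R154.Flux132 (lev)
open scoped ENNReal Topology

local notation "shf" => Crest.Agent.R154.Ren263.shift

variable {d : ℕ} {u : Step d} {R : ℕ}

/-- lateral difference of a pair of sites -/
def ldf (i : Fin d) (t : SP u) : ℤ := t.1.1 i - t.1.2 i

/-- **distance of the pair at level `j`** (first hits), started from `s` -/
noncomputable def Dd (i : Fin d) (s : SP u) (j : ℕ) (p : PP d) : ℤ := |ldf i (tip j s p)|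

/-- `n` lateral steps `e`, then up -/
def Wl (u e : Step d) (n : ℕ) : MPath d := fun k => if k < n then (e, false) else (u, false)

lemma zt_Wl {e : Step d} (he : e.1 ≠ u.1) (n k : ℕ) (hk : k ≤ n) : zt u (Wl u e n) k = 0 := by
  induction k with
  | zero => simp
  | succ k ih =>
    rw [zt_succ, ih (by omega)]
    have : Wl u e n k = (e, false) := if_pos (by omega)
    rw [this]
    have : lev u (stp ((e, false) : Mark d)) = 0 := lev_lat u he
    rw [this]; ring

lemma hit_Wl {e : Step d} (he : e.1 ≠ u.1) (n : ℕ) : Hit u 1 (Wl u e n) (n+1) := by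
  refine ⟨?_, fun k hk => ?_⟩
  · rw [zt_succ, zt_Wl he n n le_rfl]
    have : Wl u e n n = (u, false) := if_neg (lt_irrefl n)
    rw [this]
    have : lev u (stp ((u, false) : Mark d)) = 1 := lev_self u
    rw [this]; simp
  · rw [zt_Wl he n k (by omega)]; simp

lemma pos_Wl {i : Fin d} (b : Bool) (x : Site d) (n k : ℕ) (hk : k ≤ n) :
    pos x (Wl u (i, b) n) k i = x i + (if b then (k : ℤ) else - (k : ℤ)) := by
  induction k with
  | zero => simp [pos_zero]
  | succ k ih =>
    rw [pos_succ, Pi.add_apply, ih (by omega)]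
    have : Wl u (i, b) n k = ((i, b), false) := if_pos (by omega)
    rw [this]
    unfold stp stepVec
    cases b
    · simp; ring
    · simp; ring

lemma pos_Wl_last {i : Fin d} (b : Bool) (hi : i ≠ u.1) (x : Site d) (n : ℕ) :
    pos x (Wl u (i, b) n) (n+1) i = x i + (if b then (n : ℤ) else - (n : ℤ)) := by
  rw [pos_succ, Pi.add_apply, pos_Wl b x n n le_rfl]
  have : Wl u (i, b) n n = (u, false) := if_neg (lt_irrefl n)
  rw [this]
  unfold stp stepVec
  rw [Pi.single_eq_of_ne hi, add_zero]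

lemma mw_ge {κ : ℝ} {r : Row d} {e : Step d} (h : κ ≤ r.1 e) :
    ENNReal.ofReal κ ≤ mw 0 r (e, false) := by
  unfold mw
  rw [reg_zero, kf_zero]
  simp only [Bool.false_eq_true, if_false, sub_zero]
  exact ENNReal.ofReal_le_ofReal h

lemma wgt_Wl_ge {κ : ℝ} {ω : Environment d} (h : ∀ z e, κ ≤ (ω z).1 e) (e : Step d) (x : Site d)
    (n : ℕ) : ENNReal.ofReal κ ^ (n+1) ≤ wgt 0 ω x (Wl u e n) (n+1) := by
  unfold wgt
  have := Finset.pow_card_le_prod (Finset.range (n+1))
    (fun i => mw 0 (ω (pos x (Wl u e n) i)) (Wl u e n i)) (ENNReal.ofReal κ) (fun i _ => by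
      unfold Wl
      split_ifs
      · exact mw_ge (h _ _)
      · exact mw_ge (h _ _))
  rwa [Finset.card_range] at this

variable {Q : Measure (Environment d)} [IsProbabilityMeasure Q]

/-- **(E0)** -/
theorem E0 {κ : ℝ} (hκ : ∀ᵐ ω ∂Q, ∀ (z : Site d) (e : Step d), κ ≤ (ω z).1 e) {i : Fin d}
    (hi : i ≠ u.1) (n : ℕ) (s : SP u) {j : ℕ} {B : Set (PP d)} (hBa : ∀ p ∈ B, Al u j p)
    (hB : Dt u j B) :
    ENNReal.ofReal κ ^ (2 * (n+1)) * PSm 0 Q s.1.1 s.1.2 B
      ≤ PSm 0 Q s.1.1 s.1.2 (B ∩ {p | Al u (j+1) p ∧ 2 * (n : ℤ) ≤ Dd i s (j+1) p}) := by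
  have key : ∀ c : Bix u j B, ∃ A : Set (PP d), A ⊆ cylp u c.1 ∧ MeasurableSet A ∧
      A ⊆ {p | Al u (j+1) p ∧ 2 * (n : ℤ) ≤ Dd i s (j+1) p} ∧
      ENNReal.ofReal κ ^ (2 * (n+1)) * PSm 0 Q s.1.1 s.1.2 (cylp u c.1)
        ≤ PSm 0 Q s.1.1 s.1.2 A := by
    rintro ⟨c, h1, h2, h3⟩
    obtain ⟨⟨a, w⟩, ⟨b, v⟩⟩ := c
    simp only at h1 h2 h3
    set W := wx u ⟨a, w⟩ with hW
    set V := wx u ⟨b, v⟩ with hV
    -- the sign
    obtain ⟨g, hg⟩ : ∃ g : Bool, 2 * (n : ℤ) ≤
        |(pos s.1.1 W a i + (if g then (n : ℤ) else -n))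
          - (pos s.1.2 V b i + (if !g then (n : ℤ) else -n))| := by
      rcases le_total 0 (pos s.1.1 W a i - pos s.1.2 V b i) with h | h
      · refine ⟨true, ?_⟩
        rw [le_abs]; left; simp; linarith
      · refine ⟨false, ?_⟩
        rw [le_abs]; right; simp; linarith
    set W' := Wl u (i, g) n with hW'
    set V' := Wl u (i, !g) n with hV'
    have hitW : Hit u (j+1) (spl W a W') (a + (n+1)) := by
      have h1' : Hit u j (spl W a W') a := by
        refine ⟨?_, fun k hk => ?_⟩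
        · rw [zt_congr u (M := spl W a W') (M' := W) (fun i hi => spl_lt hi) le_rfl]; exact h1.1
        · rw [zt_congr u (M := spl W a W') (M' := W) (fun i hi => spl_lt hi) hk.le]; exact h1.2 k hk
      refine (hit_shift_iff (Nat.le_add_right j 1) h1' (n+1)).1 ?_
      rw [Nat.add_sub_cancel_left]
      have : shf a (spl W a W') = W' := shift_spl W W' a
      rw [this]
      exact hit_Wl hi n
    have hitV : Hit u (j+1) (spl V b V') (b + (n+1)) := by
      have h1' : Hit u j (spl V b V') b := by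
        refine ⟨?_, fun k hk => ?_⟩
        · rw [zt_congr u (M := spl V b V') (M' := V) (fun i hi => spl_lt hi) le_rfl]; exact h2.1
        · rw [zt_congr u (M := spl V b V') (M' := V) (fun i hi => spl_lt hi) hk.le]; exact h2.2 k hk
      refine (hit_shift_iff (Nat.le_add_right j 1) h1' (n+1)).1 ?_
      rw [Nat.add_sub_cancel_left]
      have : shf b (spl V b V') = V' := shift_spl V V' b
      rw [this]
      exact hit_Wl hi n
    refine ⟨Cy (spl W a W') (a + (n+1)) ×ˢ Cy (spl V b V') (b + (n+1)), ?_,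
      (measurableSet_Cy _ _).prod (measurableSet_Cy _ _), ?_, ?_⟩
    · rintro p ⟨k1, k2⟩
      refine ⟨fun i hi => ?_, fun i hi => ?_⟩
      · have hi' : i < a := hi
        rw [k1 i (by omega), spl_lt hi']
      · have hi' : i < b := hi
        rw [k2 i (by omega), spl_lt hi']
    · rintro p ⟨k1, k2⟩
      have q1 := ((eqv_iff_of_hit hitW).2 k1).hit hitW
      have q2 := ((eqv_iff_of_hit hitV).2 k2).hit hitV
      refine ⟨⟨⟨_, q1⟩, ⟨_, q2⟩⟩, ?_⟩
      unfold Dd ldf
      rw [tip_val s q1 q2]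
      have e1 : pos s.1.1 p.1 (a + (n+1)) = pos (pos s.1.1 W a) W' (n+1) := by
        rw [pos_congr s.1.1 (M := p.1) (M' := spl W a W') k1 le_rfl, ← pos_shift]
        have : shf a (spl W a W') = W' := shift_spl W W' a
        rw [this, pos_congr s.1.1 (M := spl W a W') (M' := W) (fun i hi => spl_lt hi) le_rfl]
      have e2 : pos s.1.2 p.2 (b + (n+1)) = pos (pos s.1.2 V b) V' (n+1) := by
        rw [pos_congr s.1.2 (M := p.2) (M' := spl V b V') k2 le_rfl, ← pos_shift]
        have : shf b (spl V b V') = V' := shift_spl V V' b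
        rw [this, pos_congr s.1.2 (M := spl V b V') (M' := V) (fun i hi => spl_lt hi) le_rfl]
      simp only [e1, e2]
      rw [hW', hV', pos_Wl_last g hi, pos_Wl_last (!g) hi]
      exact hg
    · have e3 : cylp u (⟨a, w⟩, ⟨b, v⟩) = Cy W a ×ˢ Cy V b := rfl
      rw [e3, PSm_cyl, PSm_cyl, ← lintegral_const_mul' _ _ (by finiteness)]
      refine lintegral_mono_ae ?_
      filter_upwards [hκ] with ω hω
      rw [wgt_spl, wgt_spl]
      have g1 := wgt_Wl_ge (u := u) hω (i, g) (pos s.1.1 W a) n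
      have g2 := wgt_Wl_ge (u := u) hω (i, !g) (pos s.1.2 V b) n
      calc ENNReal.ofReal κ ^ (2 * (n+1)) * (wgt 0 ω s.1.1 W a * wgt 0 ω s.1.2 V b)
          = (wgt 0 ω s.1.1 W a * ENNReal.ofReal κ ^ (n+1))
            * (wgt 0 ω s.1.2 V b * ENNReal.ofReal κ ^ (n+1)) := by ring
        _ ≤ _ := by gcongr
  choose A hA1 hA2 hA3 hA4 using key
  have hBm := measure_decomp hBa hB (PSm 0 Q s.1.1 s.1.2)
  rw [hBm, ← ENNReal.tsum_mul_left]
  refine (ENNReal.tsum_le_tsum hA4).trans ?_
  rw [← measure_iUnion (fun c c' hne => (pairwise_cylp hne).mono (hA1 c) (hA1 c')) hA2]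
  refine measure_mono (Set.iUnion_subset fun c => ?_)
  refine Set.subset_inter ((hA1 c).trans ?_) (hA3 c)
  conv_rhs => rw [decomp hBa hB]
  exact Set.subset_iUnion (fun c : Bix u j B => cylp u c.1) c

end Crest.Agent.R154.PInd546
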