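import Crest.Agent.R154.B6Laws_833

/-! Row 154, `d = 2`, leaf D2.8 (helper546), part 1: attempts of the same-environment pair.
An attempt started at the first hits of level `j`, for ANY past `B`, succeeds under the
same-environment law with the probability given by INDEPENDENT environments, as long as success at
level `l` means: both natural up to `l`, no contact up to `l`, and anything seen up to `l`. -/

set_option autoImplicit false
set_option linter.unusedSectionVars false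
set_option linter.deprecated false

namespace Crest.Agent.R154.PInd546

open MeasureTheory ProbabilityTheory Filter Set Crest.ProbabilityR.RandomEnvironment
open Crest.Agent.R154.Q561 Crest.Agent.R154.Mk561 Crest.Agent.R154.B6I
open scoped ENNReal Topology

local notation "shf" => Crest.Agent.R154.Ren263.shift

variable {d : ℕ} {u : Step d} {R : ℕ}

/-- **an attempt**: `G l` = success seen at level `l` (start state, pair of paths from there). -/
structure Att (R : ℕ) (G : ℕ → Set (Om u)) : Prop where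
  dt : ∀ l t, Dt u l {p | ((t, p) : Om u) ∈ G l}
  nat : ∀ l t p, ((t, p) : Om u) ∈ G l → Nt u R 0 l p.1 ∧ Nt u R 0 l p.2
  noC : ∀ l t p, ((t, p) : Om u) ∈ G l → NoC R 0 l ((t, p) : Om u)

/-- success at some level `≤ L` -/
def Suc (G : ℕ → Set (Om u)) (L : ℕ) : Set (Om u) := {ω | ∃ l ≤ L, ω ∈ G l}

/-- first success at level `l` -/
def Fs (G : ℕ → Set (Om u)) (l : ℕ) : Set (Om u) := {ω | ω ∈ G l ∧ ∀ l' < l, ω ∉ G l'}

lemma suc_eq (G : ℕ → Set (Om u)) (L : ℕ) (t : SP u) :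
    {p | ((t, p) : Om u) ∈ Suc G L} = ⋃ l : Fin (L+1), {p | ((t, p) : Om u) ∈ Fs G l} := by
  classical
  ext p
  simp only [Set.mem_ofPred_eq, Set.mem_iUnion]
  constructor
  · rintro ⟨l, hl, h⟩
    have hex : ∃ l, ((t, p) : Om u) ∈ G l := ⟨l, h⟩
    have h1 : Nat.find hex ≤ l := Nat.find_min' hex h
    exact ⟨⟨Nat.find hex, by omega⟩, Nat.find_spec hex, fun l' hl' => Nat.find_min hex hl'⟩
  · rintro ⟨l, h, _⟩
    exact ⟨l, Nat.lt_succ_iff.1 l.2, h⟩

lemma disj_fs (G : ℕ → Set (Om u)) (L : ℕ) (t : SP u) :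
    Pairwise (Function.onFun Disjoint fun l : Fin (L+1) => {p | ((t, p) : Om u) ∈ Fs G l}) := by
  intro l l' hne
  rw [Function.onFun, Set.disjoint_left]
  rintro p ⟨h1, h2⟩ ⟨h1', h2'⟩
  have hne' : (l : ℕ) ≠ l' := fun h => hne (Fin.ext h)
  rcases lt_or_gt_of_ne hne' with h | h
  · exact h2' _ h h1
  · exact h2 _ h h1'

variable {G : ℕ → Set (Om u)}

lemma Att.fs (hG : Att R G) : Att R (Fs G) where
  dt l t := by
    rintro p q h1 h2 ⟨hp, hn⟩
    exact ⟨hG.dt l t p q h1 h2 hp, fun l' hl' hq =>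
      hn l' hl' (hG.dt l' t q p (h1.mono hl'.le).symm (h2.mono hl'.le).symm hq)⟩
  nat l t p h := hG.nat l t p h.1
  noC l t p h := hG.noC l t p h.1

lemma Att.al (hG : Att R G) (l : ℕ) (t : SP u) :
    ∀ p ∈ {p | ((t, p) : Om u) ∈ G l}, Al u l p :=
  fun p hp => ⟨(hG.nat l t p hp).1.alv, (hG.nat l t p hp).2.alv⟩

lemma Att.meas (hG : Att R G) (l : ℕ) (t : SP u) :
    MeasurableSet {p | ((t, p) : Om u) ∈ G l} :=
  measurableSet_of_dt (hG.al l t) (hG.dt l t)

lemma Att.meas_suc (hG : Att R G) (L : ℕ) (t : SP u) :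
    MeasurableSet {p | ((t, p) : Om u) ∈ Suc G L} := by
  rw [suc_eq]
  exact MeasurableSet.iUnion fun l => hG.fs.meas l t

variable {κ : ℝ} {Q : Measure (Environment d)} [IsProbabilityMeasure Q]

/-- the attempt on one cylinder of the past -/
theorem Att.cyl (hG : Att R G) (hR : IsFiniteRangeDependent Q R) (s t : SP u) {j : ℕ} (L : ℕ)
    {W V : MPath d} {n m : ℕ} (hW : Hit u j W n) (hV : Hit u j V m)
    (ht : t.1 = (pos s.1.1 W n, pos s.1.2 V m)) :
    PSm κ Q s.1.1 s.1.2 ((Cy W n ×ˢ Cy V m) ∩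
        (Prod.map (shf n) (shf m)) ⁻¹' {q | ((t, q) : Om u) ∈ Suc G L})
      = PSm κ Q s.1.1 s.1.2 (Cy W n ×ˢ Cy V m)
        * PIm κ Q t.1.1 t.1.2 {q | ((t, q) : Om u) ∈ Suc G L} := by
  have hsh : Measurable (Prod.map (shf n) (shf m) : PP d → PP d) :=
    (measurable_shf n).prodMap (measurable_shf m)
  have hC : MeasurableSet (Cy W n ×ˢ Cy V m : Set (PP d)) :=
    (measurableSet_Cy _ _).prod (measurableSet_Cy _ _)
  rw [suc_eq, Set.preimage_iUnion, Set.inter_iUnion, measure_iUnion, measure_iUnion,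
    ← ENNReal.tsum_mul_left]
  · refine tsum_congr fun l => ?_
    have h1 := (mult_PS (u := u) κ hR).cyl s t (k := (l : ℕ)) hW hV ht (hG.fs.dt l t)
      (fun p hp => hG.fs.nat l t p hp)
    rw [h1]
    congr 1
    exact PS_eq_PI_set hR t (hG.fs.al l t) (hG.fs.dt l t) (fun p hp => hG.fs.noC l t p hp)
  · exact disj_fs G L t
  · exact fun l => hG.fs.meas l t
  · intro l l' hne
    exact ((disj_fs G L t hne).preimage _).mono Set.inter_subset_right Set.inter_subset_right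
  · exact fun l => hC.inter (hsh (hG.fs.meas l t))

/-- key data of one stopped word of the past -/
lemma Att.key (hG : Att R G) (hR : IsFiniteRangeDependent Q R) (s : SP u) {j : ℕ} (L : ℕ)
    {B : Set (PP d)} (c : Bix u j B) :
    ∃ t : SP u, (∀ p ∈ cylp u c.1, tip j s p = t) ∧
      MeasurableSet (cylp u c.1 ∩ {p | ((tip j s p, th u j p) : Om u) ∈ Suc G L}) ∧
      PSm κ Q s.1.1 s.1.2 (cylp u c.1 ∩ {p | ((tip j s p, th u j p) : Om u) ∈ Suc G L})
        = PSm κ Q s.1.1 s.1.2 (cylp u c.1)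
          * PIm κ Q t.1.1 t.1.2 {q | ((t, q) : Om u) ∈ Suc G L} := by
  obtain ⟨c, h1, h2, h3⟩ := c
  have e1 : cylp u c ∩ {p | ((tip j s p, th u j p) : Om u) ∈ Suc G L}
      = cylp u c ∩ (Prod.map (shf c.1.1) (shf c.2.1)) ⁻¹'
        {p | ((tip j s (wx u c.1, wx u c.2), p) : Om u) ∈ Suc G L} := by
    ext p
    simp only [Set.mem_inter_iff, Set.mem_ofPred_eq, Set.mem_preimage]
    refine and_congr_right fun hp => ?_
    obtain ⟨k1, k2⟩ := hp
    have q1 := (eqv_iff_of_hit h1).2 k1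
    have q2 := (eqv_iff_of_hit h2).2 k2
    rw [← tip_eqv (p := (wx u c.1, wx u c.2)) (q := p) s q1 q2,
      th_eq (p := p) (q1.hit h1) (q2.hit h2)]
    rfl
  refine ⟨tip j s (wx u c.1, wx u c.2), ?_, ?_, ?_⟩
  · rintro p ⟨k1, k2⟩
    exact (tip_eqv (p := (wx u c.1, wx u c.2)) (q := p) s ((eqv_iff_of_hit h1).2 k1)
      ((eqv_iff_of_hit h2).2 k2)).symm
  · rw [e1]
    exact (measurableSet_cylp _).inter
      (((measurable_shf _).prodMap (measurable_shf _)) (hG.meas_suc L _))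
  · rw [e1]
    exact hG.cyl hR s (tip j s (wx u c.1, wx u c.2)) L h1 h2
      (tip_val (p := (wx u c.1, wx u c.2)) s h1 h2)

/-- **ATTEMPT, ANY PAST, exact form.** -/
theorem Att.eq (hG : Att R G) (hR : IsFiniteRangeDependent Q R) (s : SP u) {j : ℕ} (L : ℕ)
    {B : Set (PP d)} (hBa : ∀ p ∈ B, Al u j p) (hB : Dt u j B) :
    PSm κ Q s.1.1 s.1.2 (B ∩ {p | ((tip j s p, th u j p) : Om u) ∈ Suc G L})
      = ∫⁻ p in B, PIm κ Q (tip j s p).1.1 (tip j s p).1.2
          {q | ((tip j s p, q) : Om u) ∈ Suc G L} ∂(PSm κ Q s.1.1 s.1.2) := by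
  rw [lintegral_decomp hBa hB]
  have e0 : B ∩ {p | ((tip j s p, th u j p) : Om u) ∈ Suc G L}
      = ⋃ c : Bix u j B, (cylp u c.1 ∩ {p | ((tip j s p, th u j p) : Om u) ∈ Suc G L}) := by
    conv_lhs => rw [decomp hBa hB]
    rw [Set.iUnion_inter]
  rw [e0, measure_iUnion]
  · refine tsum_congr fun c => ?_
    obtain ⟨t, k1, _, k3⟩ := hG.key (κ := κ) hR s L c
    rw [k3]
    have : ∫⁻ p in cylp u c.1, PIm κ Q (tip j s p).1.1 (tip j s p).1.2
          {q | ((tip j s p, q) : Om u) ∈ Suc G L} ∂(PSm κ Q s.1.1 s.1.2)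
        = ∫⁻ _ in cylp u c.1, PIm κ Q t.1.1 t.1.2 {q | ((t, q) : Om u) ∈ Suc G L}
          ∂(PSm κ Q s.1.1 s.1.2) := by
      refine setLIntegral_congr_fun (measurableSet_cylp _) fun p hp => ?_
      rw [k1 p hp]
    rw [this, setLIntegral_const, mul_comm]
  · intro c c' hne
    exact (pairwise_cylp hne).mono Set.inter_subset_left Set.inter_subset_left
  · exact fun c => (hG.key (κ := κ) hR s L c).choose_spec.2.1

/-- **ATTEMPT, ANY PAST, lower bound.** -/
theorem Att.ge (hG : Att R G) (hR : IsFiniteRangeDependent Q R) (s : SP u) {j : ℕ} (L : ℕ)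
    {B : Set (PP d)} (hBa : ∀ p ∈ B, Al u j p) (hB : Dt u j B) {c : ℝ≥0∞}
    (hc : ∀ p ∈ B, c ≤ PIm κ Q (tip j s p).1.1 (tip j s p).1.2
          {q | ((tip j s p, q) : Om u) ∈ Suc G L}) :
    c * PSm κ Q s.1.1 s.1.2 B
      ≤ PSm κ Q s.1.1 s.1.2 (B ∩ {p | ((tip j s p, th u j p) : Om u) ∈ Suc G L}) := by
  rw [hG.eq hR s L hBa hB, ← setLIntegral_const]
  exact setLIntegral_mono' (measurableSet_of_dt hBa hB) hc

end Crest.Agent.R154.PInd546
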