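import Mathlib

/-!
# R154: product moment of `k` random mixtures (helper402)

`jensen_neg`   : `(∑ w e)^(-θ) ≤ ∑ w e^(-θ)` for probability weights `w`, in `ℝ≥0∞`.
`prod_tsum`    : `∏ a, ∑' x, f a x = ∑' x, ∏ a, f a (x a)`.
`prod_moment`  : past-measurable weights, future-measurable masses.
`prod_early`   : the same on `{some mass < δ}` with the small factor `δ^θ`.
-/

open MeasureTheory ProbabilityTheory
open scoped ENNReal BigOperators

namespace PMom402

/-- Jensen for `x ↦ x^(-θ)` and probability weights, in `ℝ≥0∞`. -/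
theorem jensen_neg {S : Type*} (w e : S → ℝ≥0∞) (h1 : ∑' x, w x = 1) {θ : ℝ} (hθ : 0 < θ) :
    (∑' x, w x * e x) ^ (-θ) ≤ ∑' x, w x * (e x) ^ (-θ) := by
  classical
  by_cases hz : ∃ x, w x ≠ 0 ∧ e x = 0
  · obtain ⟨x, hx, hx0⟩ := hz
    have : w x * (e x) ^ (-θ) = ∞ := by
      rw [hx0, ENNReal.zero_rpow_of_neg (by linarith), ENNReal.mul_top hx]
    calc _ ≤ (∞ : ℝ≥0∞) := le_top
      _ = w x * (e x) ^ (-θ) := this.symm
      _ ≤ _ := ENNReal.le_tsum x
  by_cases ht : ∃ x, w x ≠ 0 ∧ e x = ∞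
  · obtain ⟨x, hx, hx0⟩ := ht
    have h2 : ∑' x, w x * e x = ∞ := by
      apply top_unique
      calc (∞ : ℝ≥0∞) = w x * e x := by rw [hx0, ENNReal.mul_top hx]
        _ ≤ _ := ENNReal.le_tsum (f := fun x => w x * e x) x
    rw [h2, ENNReal.top_rpow_of_neg (by linarith)]
    exact zero_le
  push Not at hz ht
  set q : ℝ := 1 / (1 + θ) with hq
  set p : ℝ := θ / (1 + θ) with hp
  have h1θ : 0 < 1 + θ := by linarith
  have hq0 : 0 < q := by positivity
  have hp0 : 0 < p := by positivity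
  have hpq : p + q = 1 := by rw [hp, hq, ← add_div, add_comm, div_self h1θ.ne']
  have key : ∀ x, w x ≤ (w x * e x) ^ p * (w x * (e x) ^ (-θ)) ^ q := by
    intro x
    by_cases hx : w x = 0
    · rw [hx]; exact zero_le
    have he0 := hz x hx
    have het := ht x hx
    rw [ENNReal.mul_rpow_of_nonneg _ _ hp0.le, ENNReal.mul_rpow_of_nonneg _ _ hq0.le,
      ← ENNReal.rpow_mul]
    have : w x ^ p * e x ^ p * (w x ^ q * e x ^ (-θ * q)) = w x := by
      calc w x ^ p * e x ^ p * (w x ^ q * e x ^ (-θ * q))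
          = (w x ^ p * w x ^ q) * (e x ^ p * e x ^ (-θ * q)) := by ring
        _ = w x ^ (p + q) * e x ^ (p + -θ * q) := by
            rw [ENNReal.rpow_add_of_nonneg _ _ hp0.le hq0.le, ENNReal.rpow_add _ _ he0 het]
        _ = w x := by
            rw [hpq, ENNReal.rpow_one]
            have : p + -θ * q = 0 := by rw [hp, hq]; ring
            rw [this, ENNReal.rpow_zero, mul_one]
    exact this.ge
  let _ : MeasurableSpace S := ⊤
  have H := ENNReal.lintegral_mul_norm_pow_le (μ := Measure.count) (f := fun x => w x * e x)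
    (g := fun x => w x * (e x) ^ (-θ)) (measurable_from_top.aemeasurable)
    (measurable_from_top.aemeasurable) hp0.le hq0.le hpq
  rw [lintegral_count, lintegral_count, lintegral_count] at H
  set A := ∑' x, w x * e x with hA
  set B := ∑' x, w x * (e x) ^ (-θ) with hB
  have H1 : 1 ≤ A ^ p * B ^ q := by
    rw [← h1]
    exact (ENNReal.tsum_le_tsum key).trans H
  have H2 : 1 ≤ A ^ θ * B := by
    have := ENNReal.rpow_le_rpow H1 h1θ.le
    rw [ENNReal.one_rpow, ENNReal.mul_rpow_of_nonneg _ _ h1θ.le, ← ENNReal.rpow_mul,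
      ← ENNReal.rpow_mul] at this
    have e1 : p * (1 + θ) = θ := by rw [hp]; field_simp
    have e2 : q * (1 + θ) = 1 := by rw [hq]; field_simp
    rwa [e1, e2, ENNReal.rpow_one] at this
  rw [ENNReal.rpow_neg]
  calc (A ^ θ)⁻¹ = (A ^ θ)⁻¹ * 1 := (mul_one _).symm
    _ ≤ (A ^ θ)⁻¹ * (A ^ θ * B) := by gcongr
    _ = (A ^ θ)⁻¹ * A ^ θ * B := by rw [mul_assoc]
    _ ≤ 1 * B := by gcongr; exact ENNReal.inv_mul_le_one _
    _ = B := one_mul _

theorem prod_tsum_fin {S : Type*} : ∀ {k : ℕ} (f : Fin k → S → ℝ≥0∞),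
    ∏ a, ∑' x, f a x = ∑' x : Fin k → S, ∏ a, f a (x a)
  | 0, f => by
      rw [tsum_eq_single (default : Fin 0 → S) (fun b hb => (hb (Subsingleton.elim _ _)).elim)]
      simp
  | k + 1, f => by
      rw [Fin.prod_univ_succ, prod_tsum_fin (fun a => f a.succ),
        ← (Fin.consEquiv (fun _ : Fin (k + 1) => S)).tsum_eq, ENNReal.tsum_prod',
        ← ENNReal.tsum_mul_right]
      refine tsum_congr fun x => ?_
      rw [← ENNReal.tsum_mul_left]
      refine tsum_congr fun y => ?_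
      rw [Fin.prod_univ_succ]
      simp [Fin.consEquiv]

theorem prod_tsum {S ι : Type*} [Fintype ι] (f : ι → S → ℝ≥0∞) :
    ∏ a, ∑' x, f a x = ∑' x : ι → S, ∏ a, f a (x a) := by
  classical
  let E := Fintype.equivFin ι
  have h1 : ∏ a, ∑' x, f a x = ∏ i, ∑' x, f (E.symm i) x :=
    (Equiv.prod_comp E.symm (fun a => ∑' x, f a x)).symm
  rw [h1, prod_tsum_fin]
  rw [← (Equiv.arrowCongr E (Equiv.refl S)).tsum_eq]
  refine tsum_congr fun x => ?_
  rw [← Equiv.prod_comp E.symm (fun a => f a (x a))]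
  rfl

variable {Ω S ι : Type*} [Fintype ι] [Countable S] {m0 : MeasurableSpace Ω} {P : Measure Ω}

/-- **Product moment.** Past-measurable probability weights `w a`, future-measurable masses
`e a x`; if the product of the `-θ` powers has mean `≤ C` for every admissible choice of points,
the mixtures have the same bound. -/
theorem prod_moment {F G : MeasurableSpace Ω} (hF : F ≤ m0) (hG : G ≤ m0) (hind : Indep F G P)
    {B : Set Ω} (hB : MeasurableSet[F] B)
    (w : ι → Ω → S → ℝ≥0∞) (hw : ∀ a x, Measurable[F] (fun ω => w a ω x))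
    (h1 : ∀ ω ∈ B, ∀ a, ∑' x, w a ω x = 1)
    (e : ι → S → Ω → ℝ≥0∞) (he : ∀ a x, Measurable[G] (e a x)) {θ : ℝ} (hθ : 0 < θ) (C : ℝ≥0∞)
    (Adm : (ι → S) → Prop)
    (hcol : ∀ x : ι → S, Adm x → ∫⁻ ω, ∏ a, (e a (x a) ω) ^ (-θ) ∂P ≤ C)
    (hadm : ∀ ω ∈ B, ∀ x : ι → S, (∀ a, w a ω (x a) ≠ 0) → Adm x)
    (Z : Ω → ℝ≥0∞) (hZ : Measurable[F] Z) :
    ∫⁻ ω in B, Z ω * ∏ a, (∑' x, w a ω x * e a x ω) ^ (-θ) ∂P ≤ C * ∫⁻ ω in B, Z ω ∂P := by
  classical
  have hB' : MeasurableSet[m0] B := hF _ hB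
  -- the past part
  let W : (ι → S) → Ω → ℝ≥0∞ := fun x ω => B.indicator (fun ω => Z ω * ∏ a, w a ω (x a)) ω
  let E : (ι → S) → Ω → ℝ≥0∞ := fun x ω => ∏ a, (e a (x a) ω) ^ (-θ)
  have hW : ∀ x, Measurable[F] (W x) := by
    intro x
    refine Measurable.indicator ?_ hB
    exact hZ.mul (Finset.measurable_fun_prod _ fun a _ => hw a (x a))
  have hE : ∀ x, Measurable[G] (E x) := by
    intro x
    refine Finset.measurable_fun_prod _ fun a _ => ?_
    exact (he a (x a)).pow_const _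
  have step1 : ∫⁻ ω in B, Z ω * ∏ a, (∑' x, w a ω x * e a x ω) ^ (-θ) ∂P
      ≤ ∫⁻ ω, ∑' x : ι → S, W x ω * E x ω ∂P := by
    rw [← lintegral_indicator (m := m0) hB']
    refine lintegral_mono fun ω => ?_
    by_cases hω : ω ∈ B
    · rw [Set.indicator_of_mem hω]
      calc Z ω * ∏ a, (∑' x, w a ω x * e a x ω) ^ (-θ)
          ≤ Z ω * ∏ a, ∑' x, w a ω x * (e a x ω) ^ (-θ) := by
            gcongr with a
            exact jensen_neg _ _ (h1 ω hω a) hθ
        _ = Z ω * ∑' x : ι → S, ∏ a, (w a ω (x a) * (e a (x a) ω) ^ (-θ)) := by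
            rw [prod_tsum]
        _ = ∑' x : ι → S, W x ω * E x ω := by
            rw [← ENNReal.tsum_mul_left]
            refine tsum_congr fun x => ?_
            simp only [W, E, Set.indicator_of_mem hω, Finset.prod_mul_distrib]
            ring
    · rw [Set.indicator_of_notMem hω]; exact zero_le
  have step2 : ∀ x : ι → S, ∫⁻ ω, W x ω * E x ω ∂P ≤ C * ∫⁻ ω, W x ω ∂P := by
    intro x
    by_cases hx : Adm x
    · rw [lintegral_mul_eq_lintegral_mul_lintegral_of_independent_measurableSpace hF hG hind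
        (hW x) (hE x), mul_comm]
      gcongr
      exact hcol x hx
    · have : ∀ ω, W x ω = 0 := by
        intro ω
        by_cases hω : ω ∈ B
        · have h3 : ¬ ∀ a, w a ω (x a) ≠ 0 := fun h => hx (hadm ω hω x h)
          push Not at h3
          obtain ⟨a, ha⟩ := h3
          simp only [W, Set.indicator_of_mem hω]
          rw [Finset.prod_eq_zero (Finset.mem_univ a) ha, mul_zero]
        · simp only [W, Set.indicator_of_notMem hω]
      simp [this]
  calc _ ≤ _ := step1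
    _ = ∑' x : ι → S, ∫⁻ ω, W x ω * E x ω ∂P :=
        lintegral_tsum fun x => (((hW x).mono hF le_rfl).mul ((hE x).mono hG le_rfl)).aemeasurable
    _ ≤ ∑' x : ι → S, C * ∫⁻ ω, W x ω ∂P := ENNReal.tsum_le_tsum step2
    _ = C * ∑' x : ι → S, ∫⁻ ω, W x ω ∂P := ENNReal.tsum_mul_left
    _ = C * ∫⁻ ω, ∑' x : ι → S, W x ω ∂P := by
        rw [lintegral_tsum fun x => ((hW x).mono hF le_rfl).aemeasurable]
    _ = C * ∫⁻ ω in B, Z ω ∂P := by
        rw [← lintegral_indicator (m := m0) hB']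
        congr 1
        refine lintegral_congr fun ω => ?_
        by_cases hω : ω ∈ B
        · simp only [W, Set.indicator_of_mem hω]
          rw [ENNReal.tsum_mul_left, ← prod_tsum, Finset.prod_congr rfl fun a _ => h1 ω hω a]
          simp
        · simp only [W, Set.indicator_of_notMem hω]
          simp

/-- `E < δ`, `0 < δ < ∞` : `E^(-θ) ≤ δ^θ * E^(-2θ)`. -/
theorem rpow_small {E δ : ℝ≥0∞} (h : E < δ) (hδ : δ ≠ ∞) {θ : ℝ} (hθ : 0 < θ) :
    E ^ (-θ) ≤ δ ^ θ * E ^ (-(2 * θ)) := by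
  have hδ0 : δ ≠ 0 := (lt_of_le_of_lt zero_le h).ne'
  by_cases hE : E = 0
  · rw [hE, ENNReal.zero_rpow_of_neg (by linarith), ENNReal.zero_rpow_of_neg (by linarith),
      ENNReal.mul_top]
    simp [hδ0, hδ, hθ.le, ENNReal.rpow_eq_zero_iff, hθ.not_gt]
  have hEt : E ≠ ∞ := (h.trans_le le_top).ne
  have e1 : E ^ (-(2 * θ)) = E ^ (-θ) * E ^ (-θ) := by
    rw [← ENNReal.rpow_add _ _ hE hEt]; congr 1; ring
  have e2 : 1 ≤ δ ^ θ * E ^ (-θ) := by
    rw [ENNReal.rpow_neg, ← div_eq_mul_inv, ENNReal.le_div_iff_mul_le, one_mul]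
    · exact ENNReal.rpow_le_rpow h.le hθ.le
    · left; simp [hE, hEt, ENNReal.rpow_eq_zero_iff]
    · left; exact (ENNReal.rpow_lt_top_of_nonneg hθ.le hEt).ne
  calc E ^ (-θ) = 1 * E ^ (-θ) := (one_mul _).symm
    _ ≤ (δ ^ θ * E ^ (-θ)) * E ^ (-θ) := by gcongr
    _ = _ := by rw [e1, mul_assoc]

/-- **Early loss**: on `{some mixture < δ}` the `-θ` product is `≤ card * δ^θ * C`, where `C`
bounds the `-2θ` products. -/
theorem prod_early {F G : MeasurableSpace Ω} (hF : F ≤ m0) (hG : G ≤ m0) (hind : Indep F G P)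
    {B : Set Ω} (hB : MeasurableSet[F] B)
    (w : ι → Ω → S → ℝ≥0∞) (hw : ∀ a x, Measurable[F] (fun ω => w a ω x))
    (h1 : ∀ ω ∈ B, ∀ a, ∑' x, w a ω x = 1)
    (e : ι → S → Ω → ℝ≥0∞) (he : ∀ a x, Measurable[G] (e a x)) (hle : ∀ a x ω, e a x ω ≤ 1)
    {θ : ℝ} (hθ : 0 < θ) (C : ℝ≥0∞)
    (Adm : (ι → S) → Prop)
    (hcol : ∀ x : ι → S, Adm x → ∫⁻ ω, ∏ a, (e a (x a) ω) ^ (-(2 * θ)) ∂P ≤ C)
    (hadm : ∀ ω ∈ B, ∀ x : ι → S, (∀ a, w a ω (x a) ≠ 0) → Adm x)
    (δ : ℝ≥0∞) (hδ : δ ≠ ∞)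
    (Z : Ω → ℝ≥0∞) (hZ : Measurable[F] Z) :
    ∫⁻ ω in B ∩ {ω | ∃ b, ∑' x, w b ω x * e b x ω < δ},
        Z ω * ∏ a, (∑' x, w a ω x * e a x ω) ^ (-θ) ∂P
      ≤ δ ^ θ * C * ∫⁻ ω in B, Z ω ∂P := by
  classical
  have hB' : MeasurableSet[m0] B := hF _ hB
  have hM : ∀ a, Measurable[m0] (fun ω => ∑' x, w a ω x * e a x ω) := fun a =>
    Measurable.ennreal_tsum fun x => ((hw a x).mono hF le_rfl).mul ((he a x).mono hG le_rfl)
  have hbad : MeasurableSet[m0] {ω | ∃ b, ∑' x, w b ω x * e b x ω < δ} := by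
    have : {ω | ∃ b, ∑' x, w b ω x * e b x ω < δ} = ⋃ b, {ω | ∑' x, w b ω x * e b x ω < δ} := by
      ext ω; simp
    rw [this]
    exact MeasurableSet.iUnion fun b => measurableSet_lt (hM b) measurable_const
  have hmain := prod_moment hF hG hind hB w hw h1 e he (by linarith : 0 < 2 * θ) C Adm hcol hadm Z hZ
  calc ∫⁻ ω in B ∩ {ω | ∃ b, ∑' x, w b ω x * e b x ω < δ},
        Z ω * ∏ a, (∑' x, w a ω x * e a x ω) ^ (-θ) ∂P
      ≤ ∫⁻ ω in B ∩ {ω | ∃ b, ∑' x, w b ω x * e b x ω < δ},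
        δ ^ θ * (Z ω * ∏ a, (∑' x, w a ω x * e a x ω) ^ (-(2 * θ))) ∂P := by
        refine setLIntegral_mono' (hB'.inter hbad) fun ω hω => ?_
        obtain ⟨hωB, b, hb⟩ := hω
        have hle1 : ∀ a, ∑' x, w a ω x * e a x ω ≤ 1 := fun a => by
          calc ∑' x, w a ω x * e a x ω ≤ ∑' x, w a ω x * 1 := by
                refine ENNReal.tsum_le_tsum fun x => ?_
                gcongr
                exact hle a x ω
            _ = 1 := by simp [h1 ω hωB a]
        have hprod : ∏ a, (∑' x, w a ω x * e a x ω) ^ (-θ)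
            ≤ δ ^ θ * ∏ a, (∑' x, w a ω x * e a x ω) ^ (-(2 * θ)) := by
          rw [← Finset.mul_prod_erase Finset.univ _ (Finset.mem_univ b),
            ← Finset.mul_prod_erase Finset.univ
              (fun a => (∑' x, w a ω x * e a x ω) ^ (-(2 * θ))) (Finset.mem_univ b), ← mul_assoc]
          refine mul_le_mul' (rpow_small hb hδ hθ) ?_
          refine Finset.prod_le_prod' fun a _ => ?_
          exact ENNReal.rpow_le_rpow_of_exponent_ge (hle1 a) (by linarith)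
        calc Z ω * ∏ a, (∑' x, w a ω x * e a x ω) ^ (-θ)
            ≤ Z ω * (δ ^ θ * ∏ a, (∑' x, w a ω x * e a x ω) ^ (-(2 * θ))) := by gcongr
          _ = _ := by ring
    _ ≤ ∫⁻ ω in B, δ ^ θ * (Z ω * ∏ a, (∑' x, w a ω x * e a x ω) ^ (-(2 * θ))) ∂P :=
        lintegral_mono_set Set.inter_subset_left
    _ = δ ^ θ * ∫⁻ ω in B, Z ω * ∏ a, (∑' x, w a ω x * e a x ω) ^ (-(2 * θ)) ∂P := by
        rw [lintegral_const_mul]
        exact ((hZ.mono hF le_rfl)).mul (Finset.measurable_fun_prod _ fun a _ => (hM a).pow_const _)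
    _ ≤ δ ^ θ * (C * ∫⁻ ω in B, Z ω ∂P) := by gcongr
    _ = _ := by rw [mul_assoc]

/-- Independent columns: the product of the means. -/
theorem adm_prod [IsProbabilityMeasure P] (X : ι → Ω → ℝ≥0∞) (hX : iIndepFun X P)
    (hXm : ∀ a, Measurable (X a)) (θ : ℝ) (K : ℝ≥0∞) (hK : ∀ a, ∫⁻ ω, (X a ω) ^ (-θ) ∂P ≤ K) :
    ∫⁻ ω, ∏ a, (X a ω) ^ (-θ) ∂P ≤ K ^ Fintype.card ι := by
  have hY : iIndepFun (fun a ω => (X a ω) ^ (-θ)) P :=
    hX.comp (fun _ y => y ^ (-θ)) fun _ => measurable_id.pow_const _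
  rw [lintegral_prod_eq_prod_lintegral_of_indepFun Finset.univ _ hY
    fun a => (hXm a).pow_const _]
  calc ∏ a, ∫⁻ ω, (X a ω) ^ (-θ) ∂P ≤ ∏ _a : ι, K := Finset.prod_le_prod' fun a _ => hK a
    _ = K ^ Fintype.card ι := by simp

end PMom402
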