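import Mathlib

/-!
Row 154, `d ≥ 3` (helper730): the counting half of (H3b) of 177 #35221.

Events `E p` (contact in the window `[p, p+l]` of a pair in the same environment), pasts `G p`
(pair past at level `p`).  If from every past the probability that some `E p'`, `p' ≥ p + k`, ever
occurs again is `≤ 1 - c`, then the expected number of `E p`, `p ≥ p0`, is `≤ (k + l)/c`, for any
past.
-/

set_option autoImplicit false

namespace Crest.Agent.R154.PairCount730

open MeasureTheory Finset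
open scoped ENNReal

variable {Ω : Type*} {m0 : MeasurableSpace Ω} {P : Measure Ω}

/-- the first `t ≥ a` at which `E t` occurs -/
def Fst (E : ℕ → Set Ω) (a t : ℕ) : Set Ω := E t \ ⋃ s ∈ Ico a t, E s

theorem meas_fst {G : ℕ → MeasurableSpace Ω} (hG : Monotone G) {E : ℕ → Set Ω} {l : ℕ}
    (hE : ∀ p, MeasurableSet[G (p + l)] (E p)) (a t : ℕ) :
    MeasurableSet[G (t + l)] (Fst E a t) := by
  unfold Fst
  refine MeasurableSet.diff (hE t) ?_
  refine Finset.measurableSet_biUnion _ fun s hs => ?_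
  exact hG (by have := (mem_Ico.1 hs).2; omega) _ (hE s)

theorem fst_disj (E : ℕ → Set Ω) (a : ℕ) {s t : ℕ} (hs : a ≤ s) (ht : a ≤ t) (hst : s ≠ t) :
    Disjoint (Fst E a s) (Fst E a t) := by
  rw [Set.disjoint_left]
  intro ω h1 h2
  rcases lt_or_gt_of_ne hst with h | h
  · exact h2.2 (Set.mem_biUnion (mem_Ico.2 ⟨hs, h⟩ : s ∈ (Ico a t : Finset ℕ)) h1.1)
  · exact h1.2 (Set.mem_biUnion (mem_Ico.2 ⟨ht, h⟩ : t ∈ (Ico a s : Finset ℕ)) h2.1)

theorem exists_fst {E : ℕ → Set Ω} {a p : ℕ} (hap : a ≤ p) {ω : Ω} (h : ω ∈ E p) :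
    ∃ t ∈ Ico a (p + 1), ω ∈ Fst E a t := by
  classical
  have hex : ∃ t, a ≤ t ∧ ω ∈ E t := ⟨p, hap, h⟩
  refine ⟨Nat.find hex, mem_Ico.2 ⟨(Nat.find_spec hex).1, ?_⟩, (Nat.find_spec hex).2, ?_⟩
  · exact Nat.lt_succ_of_le (Nat.find_min' hex ⟨hap, h⟩)
  · intro hω
    obtain ⟨s, hs, h2⟩ := Set.mem_iUnion₂.1 hω
    have := mem_Ico.1 hs
    exact Nat.find_min hex this.2 ⟨this.1, h2⟩

/-- finite horizon version -/
theorem count_fin {G : ℕ → MeasurableSpace Ω} (hG : Monotone G) (hG0 : ∀ p, G p ≤ m0)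
    {E : ℕ → Set Ω} {k l : ℕ} (hk : 1 ≤ k) {c C : ℝ≥0∞}
    (hE : ∀ p, MeasurableSet[G (p + l)] (E p))
    (hD : ∀ p B, MeasurableSet[G p] B → P (B ∩ ⋃ q, ⋃ (_ : p + k ≤ q), E q) ≤ (1 - c) * P B)
    (hC : (k : ℝ≥0∞) + (l + C) * (1 - c) ≤ C) (N : ℕ) :
    ∀ n p : ℕ, N ≤ p + n → ∀ B, MeasurableSet[G p] B →
      ∑ q ∈ Ico p N, P (B ∩ E q) ≤ C * P B := by
  intro n
  induction n using Nat.strong_induction_on with
  | _ n ih =>
    intro p hp B hB
    have hEm : ∀ q, MeasurableSet (E q) := fun q => hG0 _ _ (hE q)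
    have hBm : MeasurableSet B := hG0 _ _ hB
    rcases Nat.lt_or_ge p N with hpN | hpN
    swap
    · rw [Ico_eq_empty (by omega)]
      simp
    -- split the first `k` terms
    have s1 : ∑ q ∈ Ico p N, P (B ∩ E q)
        ≤ ∑ q ∈ Ico p (p + k), P (B ∩ E q) + ∑ q ∈ Ico (p + k) N, P (B ∩ E q) := by
      rw [← sum_union (by
        rw [disjoint_left]
        intro x h1 h2
        have := (mem_Ico.1 h1).2
        have := (mem_Ico.1 h2).1
        omega)]
      refine sum_le_sum_of_subset fun x hx => ?_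
      have := mem_Ico.1 hx
      rw [mem_union, mem_Ico, mem_Ico]
      omega
    have s2 : ∑ q ∈ Ico p (p + k), P (B ∩ E q) ≤ k * P B := by
      calc _ ≤ ∑ _q ∈ Ico p (p + k), P B := sum_le_sum fun q _ => measure_mono Set.inter_subset_left
        _ = k * P B := by simp
    -- decomposition by the first occurrence
    have s3 : ∑ q ∈ Ico (p + k) N, P (B ∩ E q)
        ≤ ∑ t ∈ Ico (p + k) N, ∑ q ∈ Ico t N, P ((B ∩ Fst E (p + k) t) ∩ E q) := by
      have e1 : ∀ q ∈ Ico (p + k) N, P (B ∩ E q)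
          ≤ ∑ t ∈ Ico (p + k) N, if t ≤ q then P ((B ∩ Fst E (p + k) t) ∩ E q) else 0 := by
        intro q hq
        have hq' := mem_Ico.1 hq
        have : B ∩ E q ⊆ ⋃ t ∈ (Ico (p + k) N).filter (fun t => t ≤ q),
            (B ∩ Fst E (p + k) t) ∩ E q := by
          rintro ω ⟨h1, h2⟩
          obtain ⟨t, ht, h3⟩ := exists_fst hq'.1 h2
          have ht' := mem_Ico.1 ht
          exact Set.mem_biUnion (x := t) (by
            simp only [mem_filter, mem_Ico, mem_coe]
            omega) ⟨⟨h1, h3⟩, h2⟩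
        refine (measure_mono this).trans ((measure_biUnion_finset_le _ _).trans ?_)
        rw [sum_filter]
      refine (sum_le_sum e1).trans ?_
      rw [sum_comm]
      refine sum_le_sum fun t ht => ?_
      have ht' := mem_Ico.1 ht
      rw [← sum_filter]
      refine sum_le_sum_of_subset fun x hx => ?_
      have := mem_filter.1 hx
      have := mem_Ico.1 this.1
      rw [mem_Ico]
      omega
    have s4 : ∀ t ∈ Ico (p + k) N, ∑ q ∈ Ico t N, P ((B ∩ Fst E (p + k) t) ∩ E q)
        ≤ (l + C) * P (B ∩ Fst E (p + k) t) := by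
      intro t ht
      have ht' := mem_Ico.1 ht
      have hB' : MeasurableSet[G (t + l)] (B ∩ Fst E (p + k) t) :=
        MeasurableSet.inter (hG (by omega) _ hB) (meas_fst hG hE _ _)
      have h5 := ih (N - (t + l)) (by omega) (t + l) (by omega) _ hB'
      have h6 : ∑ q ∈ Ico t N, P ((B ∩ Fst E (p + k) t) ∩ E q)
          ≤ ∑ q ∈ Ico t (t + l), P ((B ∩ Fst E (p + k) t) ∩ E q)
            + ∑ q ∈ Ico (t + l) N, P ((B ∩ Fst E (p + k) t) ∩ E q) := by
        rw [← sum_union (by
          rw [disjoint_left]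
          intro x h1 h2
          have := (mem_Ico.1 h1).2
          have := (mem_Ico.1 h2).1
          omega)]
        refine sum_le_sum_of_subset fun x hx => ?_
        have := mem_Ico.1 hx
        rw [mem_union, mem_Ico, mem_Ico]
        omega
      refine h6.trans ?_
      rw [add_mul]
      refine add_le_add ?_ h5
      calc _ ≤ ∑ _q ∈ Ico t (t + l), P (B ∩ Fst E (p + k) t) :=
            sum_le_sum fun q _ => measure_mono Set.inter_subset_left
        _ = l * P (B ∩ Fst E (p + k) t) := by simp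
    have s5 : ∑ t ∈ Ico (p + k) N, P (B ∩ Fst E (p + k) t) ≤ (1 - c) * P B := by
      rw [← measure_biUnion_finset (fun s hs t ht hst => by
          have h1 := fst_disj E (p + k) (mem_Ico.1 (mem_coe.1 hs)).1
            (mem_Ico.1 (mem_coe.1 ht)).1 hst
          exact h1.mono Set.inter_subset_right Set.inter_subset_right)
        (fun t _ => hBm.inter (hG0 _ _ (meas_fst hG hE _ _)))]
      refine (measure_mono ?_).trans (hD p B hB)
      refine Set.iUnion₂_subset fun t ht => ?_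
      rintro ω ⟨h1, h2⟩
      exact ⟨h1, Set.mem_iUnion₂.2 ⟨t, (mem_Ico.1 ht).1, h2.1⟩⟩
    calc ∑ q ∈ Ico p N, P (B ∩ E q)
        ≤ k * P B + ∑ t ∈ Ico (p + k) N, (l + C) * P (B ∩ Fst E (p + k) t) :=
          s1.trans (add_le_add s2 (s3.trans (sum_le_sum s4)))
      _ = k * P B + (l + C) * ∑ t ∈ Ico (p + k) N, P (B ∩ Fst E (p + k) t) := by rw [mul_sum]
      _ ≤ k * P B + (l + C) * ((1 - c) * P B) := by gcongr
      _ = (k + (l + C) * (1 - c)) * P B := by ring
      _ ≤ C * P B := by gcongr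

/-- the constant: `C = (k + l)/c` works. -/
theorem const_ok {c : ℝ≥0∞} (hc0 : c ≠ 0) (hc1 : c ≤ 1) (k l : ℕ) :
    (k : ℝ≥0∞) + (l + (k + l) / c) * (1 - c) ≤ (k + l) / c := by
  have hct : c ≠ ∞ := ne_top_of_le_ne_top ENNReal.one_ne_top hc1
  lift c to NNReal using hct
  have hc0' : c ≠ 0 := by simpa using hc0
  have hc1' : c ≤ 1 := by simpa using hc1
  have : ((k : ℝ≥0∞) + (l + (k + l) / c) * (1 - c)) =
      (((k : NNReal) + (l + (k + l) / c) * (1 - c) : NNReal) : ℝ≥0∞) := by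
    rw [ENNReal.coe_add, ENNReal.coe_mul, ENNReal.coe_add, ENNReal.coe_div hc0', ENNReal.coe_sub]
    push_cast
    rfl
  rw [this]
  have h2 : ((k : ℝ≥0∞) + l) / c = (((k + l : NNReal) / c : NNReal) : ℝ≥0∞) := by
    rw [ENNReal.coe_div hc0']
    push_cast
    rfl
  rw [h2, ENNReal.coe_le_coe, ← NNReal.coe_le_coe]
  push_cast [NNReal.coe_sub hc1']
  have hc : (0:ℝ) < c := by positivity
  have e1 : ((k:ℝ) + l) / c * (1 - c) = (k + l) / c - (k + l) := by
    field_simp
  have hl : (0:ℝ) ≤ l := Nat.cast_nonneg l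
  nlinarith [e1, mul_nonneg hl hc.le]

/-- **(H3b), counting half**: expected number of events after `p0`, from any past. -/
theorem count {G : ℕ → MeasurableSpace Ω} (hG : Monotone G) (hG0 : ∀ p, G p ≤ m0)
    {E : ℕ → Set Ω} {k l : ℕ} (hk : 1 ≤ k) {c : ℝ≥0∞} (hc0 : c ≠ 0) (hc1 : c ≤ 1)
    (hE : ∀ p, MeasurableSet[G (p + l)] (E p))
    (hD : ∀ p B, MeasurableSet[G p] B → P (B ∩ ⋃ q, ⋃ (_ : p + k ≤ q), E q) ≤ (1 - c) * P B)
    (p0 : ℕ) {B : Set Ω} (hB : MeasurableSet[G p0] B) :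
    ∑' q, P (B ∩ E (p0 + q)) ≤ (k + l) / c * P B := by
  rw [ENNReal.tsum_eq_iSup_nat]
  refine iSup_le fun n => ?_
  have h := count_fin hG hG0 hk hE hD (const_ok hc0 hc1 k l) (p0 + n) n p0 le_rfl B hB
  rw [sum_Ico_eq_sum_range] at h
  simpa using h

/-- pointwise absorption: if `E2 p` excludes every later `E2 q`, `q ≥ p + l`, at most `l` of them
occur. -/
theorem count_abs {E2 : ℕ → Set Ω} (hm : ∀ p, MeasurableSet (E2 p)) {l : ℕ}
    (hx : ∀ p q, p + l ≤ q → Disjoint (E2 p) (E2 q)) {B : Set Ω} (hB : MeasurableSet B) (p0 : ℕ) :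
    ∑' q, P (B ∩ E2 (p0 + q)) ≤ l * P B := by
  classical
  rw [ENNReal.tsum_eq_iSup_nat]
  refine iSup_le fun n => ?_
  have h1 : ∀ q, P (B ∩ E2 (p0 + q)) = ∫⁻ ω in B, (E2 (p0 + q)).indicator 1 ω ∂P := by
    intro q
    rw [lintegral_indicator_one (hm _), Measure.restrict_apply (hm _), Set.inter_comm]
  simp_rw [h1]
  rw [← lintegral_finsetSum _ (fun q _ => (measurable_one.indicator (hm _)))]
  calc _ ≤ ∫⁻ _ω in B, (l : ℝ≥0∞) ∂P := by
        refine lintegral_mono fun ω => ?_
        have e1 : ∑ q ∈ range n, (E2 (p0 + q)).indicator (1 : Ω → ℝ≥0∞) ω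
            = (((range n).filter fun q => ω ∈ E2 (p0 + q)).card : ℝ≥0∞) := by
          rw [card_filter]
          push_cast
          refine sum_congr rfl fun q _ => ?_
          by_cases h : ω ∈ E2 (p0 + q) <;> simp [h]
        rw [e1]
        norm_cast
        rcases ((range n).filter fun q => ω ∈ E2 (p0 + q)).eq_empty_or_nonempty with h | h
        · rw [h]; simp
        · set s := (range n).filter fun q => ω ∈ E2 (p0 + q) with hs
          have h0 := s.min'_mem h
          have : s ⊆ Ico (s.min' h) (s.min' h + l) := by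
            intro x hx'
            rw [mem_Ico]
            refine ⟨s.min'_le _ hx', ?_⟩
            by_contra hcon
            have hd := hx (p0 + s.min' h) (p0 + x) (by omega)
            exact Set.disjoint_left.1 hd (mem_filter.1 h0).2 (mem_filter.1 hx').2
          have h9 := card_le_card this
          simpa using h9
    _ = l * P B := by simp

end Crest.Agent.R154.PairCount730
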