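import Crest.Agent.R154.ProdWS_850
import Crest.Agent.R154.ConKap_402

/-!
Row 154, (KS), energy half: the K-set bound of `KExp_402` for PAIR tests (two walkers of the same
law in the same environment, both stopped at their own decision time), on helper850's product of
labelled stopped walk spaces.
-/

set_option autoImplicit false
set_option linter.unusedSectionVars false
set_option linter.unusedVariables false

namespace Crest.Agent.R154.PairK3

open MeasureTheory ProbabilityTheory Crest.ProbabilityR.RandomEnvironment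
open Crest.Agent.R154.Lab850
open scoped ENNReal

variable {d : ℕ} {Ω : Type} [MeasurableSpace Ω] [Nonempty Ω]
  {ι : Type} [Fintype ι] [DecidableEq ι] [Nonempty ι] [MeasurableSpace ι]
  [MeasurableSingletonClass ι]
  {W : WalkSpace d Ω} {rd : Ω → ℕ → Prop}
  {τ : ι → Ω → ℕ∞}

/-- product of two labelled stopped walk spaces -/
noncomputable def PW (hτ : ∀ l, W.IsStop (τ l)) : WalkSpace d ((ι × Ω) × (ι × Ω)) :=
  prodWS (lsWS W hτ) (lsWS W hτ)

/-- reading times of the labelled walker -/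
def rdL (ι : Type) (rd : Ω → ℕ → Prop) (p : ι × Ω) (n : ℕ) : Prop := rd p.2 n

/-- reading times of the pair -/
def rdPr (τ : ι → Ω → ℕ∞) (rd : Ω → ℕ → Prop) : (ι × Ω) × (ι × Ω) → ℕ → Prop :=
  rdP (rdS (labS τ) (rdL ι rd)) (rdS (labS τ) (rdL ι rd))

lemma rdSpace_PW (hW : Cont.RdSpace W rd) (hτ : ∀ l, W.IsStop (τ l)) :
    Cont.RdSpace (PW hτ) (rdPr τ rd) :=
  rdSpace_prod (rdSpace_stopped (isStop_lab hτ) (rdSpace_lab hW))
    (rdSpace_stopped (isStop_lab hτ) (rdSpace_lab hW))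

/-- law of the pair of frozen walkers -/
noncomputable def PL (W : WalkSpace d Ω) (τ : ι → Ω → ℕ∞) (law : ι → Kernel (Environment d) Ω)
    (l : ι) : Kernel (Environment d) ((ι × Ω) × (ι × Ω)) :=
  ((law l).map (frzL W τ l)) ×ₖ ((law l).map (frzL W τ l))

/-- decision time of the pair -/
noncomputable def PT (τ : ι → Ω → ℕ∞) : (ι × Ω) × (ι × Ω) → ℕ∞ := pT (labS τ) (labS τ)

open Classical in
/-- payoff of the pair -/
noncomputable def PU (v : ι → Ω → Ω → ℝ≥0∞) (l : ι) (p : (ι × Ω) × (ι × Ω)) : ℝ≥0∞ :=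
  if p.1.1 = l ∧ p.2.1 = l then v l p.1.2 p.2.2 else 0

/-- assumptions on the payoffs: measurable, `≤ 1`, decided at the two decision times, zero if one
of them is infinite. -/
structure Pay (W : WalkSpace d Ω) (τ : ι → Ω → ℕ∞) (v : ι → Ω → Ω → ℝ≥0∞) : Prop where
  meas : ∀ l, Measurable (Function.uncurry (v l))
  le_one : ∀ l X Y, v l X Y ≤ 1
  top : ∀ l X Y, τ l X = ⊤ ∨ τ l Y = ⊤ → v l X Y = 0
  det : ∀ l (X X' Y Y' : Ω) (m n : ℕ), τ l X = m → τ l Y = n → W.hist m X = W.hist m X' →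
    W.hist n Y = W.hist n Y' → v l X Y = v l X' Y'

section basic

variable {v : ι → Ω → Ω → ℝ≥0∞}

lemma measurable_PU (hv : Pay W τ v) (l : ι) : Measurable (PU v l) := by
  classical
  unfold PU
  refine Measurable.ite ?_ ?_ measurable_const
  · exact (measurableSet_eq_fun (measurable_fst.comp measurable_fst) measurable_const).inter
      (measurableSet_eq_fun (measurable_fst.comp measurable_snd) measurable_const)
  · exact (hv.meas l).comp ((measurable_snd.comp measurable_fst).prodMk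
      (measurable_snd.comp measurable_snd))

lemma PU_frz (hτ : ∀ l, W.IsStop (τ l)) (hv : Pay W τ v) (l : ι) (X Y : Ω) :
    PU v l (frzL W τ l X, frzL W τ l Y) = v l X Y := by
  classical
  unfold PU frzL
  simp only [and_self, if_true]
  by_cases hX : τ l X = ⊤
  · rw [hv.top l X Y (Or.inl hX), hv.top l _ _ (Or.inl (by rw [W.stop_frz (hτ l)]; exact hX))]
  by_cases hY : τ l Y = ⊤
  · rw [hv.top l X Y (Or.inr hY), hv.top l _ _ (Or.inr (by rw [W.stop_frz (hτ l)]; exact hY))]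
  obtain ⟨m, hm⟩ := ENat.ne_top_iff_exists.1 hX
  obtain ⟨n, hn⟩ := ENat.ne_top_iff_exists.1 hY
  exact (hv.det l X _ Y _ m n hm.symm hn.symm (W.hist_frz hm.le).symm (W.hist_frz hn.le).symm).symm

variable {law : ι → Kernel (Environment d) Ω} [∀ l, IsMarkovKernel (law l)]

lemma markov_frz (hτ : ∀ l, W.IsStop (τ l)) (l : ι) :
    IsMarkovKernel ((law l).map (frzL W τ l)) :=
  Kernel.IsMarkovKernel.map _ (measurable_frzL hτ l)

lemma lintegral_PL (hτ : ∀ l, W.IsStop (τ l)) (hv : Pay W τ v) (l : ι) (ω : Environment d) :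
    ∫⁻ p, PU v l p ∂(PL W τ law l ω) = ∫⁻ X, ∫⁻ Y, v l X Y ∂(law l ω) ∂(law l ω) := by
  have := markov_frz (law := law) hτ l
  have hm := measurable_PU hv l
  have hf := measurable_frzL (W := W) hτ l
  unfold PL
  rw [Kernel.prod_apply, lintegral_prod _ hm.aemeasurable, Kernel.map_apply _ hf,
    lintegral_map ?_ hf]
  · refine lintegral_congr fun X => ?_
    rw [lintegral_map ?_ hf]
    · exact lintegral_congr fun Y => PU_frz hτ hv l X Y
    · exact hm.comp measurable_prodMk_left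
  · have : IsProbabilityMeasure (((law l ω)).map (frzL W τ l)) :=
      Measure.isProbabilityMeasure_map hf.aemeasurable
    exact hm.lintegral_prod_right'

end basic

/-! ### contacts -/

section contact

variable {law : ι → Kernel (Environment d) Ω} [∀ l, IsMarkovKernel (law l)]

/-- contact set in the labelled space -/
def B0 (hW : Cont.RdSpace W rd) (R : ℕ) (τ : ι → Ω → ℕ∞) (l l' : ι) :
    Set ((ι × Ω) × (ι × Ω)) :=
  KExp.meet (Con.kapCon (rdSpace_lab (ι := ι) hW) R) (fun _ : ι => labS τ) l l'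

lemma mem_B0 (hW : Cont.RdSpace W rd) (R : ℕ) (τ : ι → Ω → ℕ∞) (l l' : ι) (p p' : ι × Ω) :
    (p, p') ∈ B0 hW R τ l l' ↔ ∃ n j : ℕ, (n : ℕ∞) < τ p'.1 p'.2 ∧ (j : ℕ∞) < τ p.1 p.2 ∧
      rd p'.2 n ∧ rd p.2 j ∧ ∀ i, |W.pos p.2 j i - W.pos p'.2 n i| ≤ (R : ℤ) :=
  mem_meet_kapCon _ R _ l l' _

lemma meas_B0 (hW : Cont.RdSpace W rd) (R : ℕ) (hτ : ∀ l, W.IsStop (τ l)) (l l' : ι) :
    MeasurableSet (B0 hW R τ l l') :=
  KExp.measurableSet_meet _ _ (fun _ => isStop_lab hτ) l l'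

lemma meet_subset (hW : Cont.RdSpace W rd) (R : ℕ) (hτ : ∀ l, W.IsStop (τ l)) (l l' : ι) :
    KExp.meet (Con.kapCon (rdSpace_PW hW hτ) R) (fun _ : ι => PT τ) l l' ⊆
      (Prod.map Prod.fst Prod.fst ⁻¹' B0 hW R τ l l' ∪
        Prod.map Prod.fst Prod.snd ⁻¹' B0 hW R τ l l') ∪
      (Prod.map Prod.snd Prod.fst ⁻¹' B0 hW R τ l l' ∪
        Prod.map Prod.snd Prod.snd ⁻¹' B0 hW R τ l l') := by
  rintro ⟨P, P'⟩ h
  obtain ⟨n, j, hn, hj, h1, h2, h3⟩ := (mem_meet_kapCon _ R _ l l' _).1 h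
  change rdP (rdS (labS τ) (rdL ι rd)) (rdS (labS τ) (rdL ι rd)) P' n at h1
  change rdP (rdS (labS τ) (rdL ι rd)) (rdS (labS τ) (rdL ι rd)) P j at h2
  change ∀ i, |(if j % 2 = 0 then W.pos P.1.2 (j / 2) else W.pos P.2.2 (j / 2)) i
    - (if n % 2 = 0 then W.pos P'.1.2 (n / 2) else W.pos P'.2.2 (n / 2)) i| ≤ (R : ℤ) at h3
  unfold rdP at h1 h2
  by_cases hj2 : j % 2 = 0 <;> by_cases hn2 : n % 2 = 0 <;>
    simp only [hj2, hn2, if_true, if_false] at h1 h2 h3
  · exact Or.inl (Or.inl ((mem_B0 hW R τ l l' P.1 P'.1).2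
      ⟨n / 2, j / 2, h1.2, h2.2, h1.1, h2.1, h3⟩))
  · exact Or.inl (Or.inr ((mem_B0 hW R τ l l' P.1 P'.2).2
      ⟨n / 2, j / 2, h1.2, h2.2, h1.1, h2.1, h3⟩))
  · exact Or.inr (Or.inl ((mem_B0 hW R τ l l' P.2 P'.1).2
      ⟨n / 2, j / 2, h1.2, h2.2, h1.1, h2.1, h3⟩))
  · exact Or.inr (Or.inr ((mem_B0 hW R τ l l' P.2 P'.2).2
      ⟨n / 2, j / 2, h1.2, h2.2, h1.1, h2.1, h3⟩))

lemma preimage_B0 (hW : Cont.RdSpace W rd) (R : ℕ) (hτ : ∀ l, W.IsStop (τ l)) (l l' : ι) :
    Prod.map (frzL W τ l) (frzL W τ l') ⁻¹' B0 hW R τ l l'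
      = KExp.meet (Con.kapCon hW R) τ l l' := by
  ext ⟨X, Y⟩
  rw [Set.mem_preimage, mem_meet_kapCon]
  change (frzL W τ l X, frzL W τ l' Y) ∈ B0 hW R τ l l' ↔ _
  rw [mem_B0]
  have hr : ∀ (k : ι) (Z : Ω) (n : ℕ), (n : ℕ∞) < τ k Z →
      (rd (W.frz (τ k) Z) n ↔ rd Z n) ∧ W.pos (W.frz (τ k) Z) n = W.pos Z n := by
    intro k Z n hn
    have h := W.hist_frz hn.le
    exact ⟨hW.det n _ _ h, W.pos_det n _ _ h⟩
  change (∃ n j : ℕ, (n : ℕ∞) < τ l' (W.frz (τ l') Y) ∧ (j : ℕ∞) < τ l (W.frz (τ l) X) ∧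
      rd (W.frz (τ l') Y) n ∧ rd (W.frz (τ l) X) j ∧
      ∀ i, |W.pos (W.frz (τ l) X) j i - W.pos (W.frz (τ l') Y) n i| ≤ (R : ℤ)) ↔ _
  rw [W.stop_frz (hτ l'), W.stop_frz (hτ l)]
  refine exists_congr fun n => exists_congr fun j => ?_
  constructor
  · rintro ⟨h1, h2, h3, h4, h5⟩
    obtain ⟨a1, a2⟩ := hr l' Y n h1
    obtain ⟨b1, b2⟩ := hr l X j h2
    rw [a2, b2] at h5
    exact ⟨h1, h2, a1.1 h3, b1.1 h4, h5⟩
  · rintro ⟨h1, h2, h3, h4, h5⟩
    obtain ⟨a1, a2⟩ := hr l' Y n h1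
    obtain ⟨b1, b2⟩ := hr l X j h2
    refine ⟨h1, h2, a1.2 h3, b1.2 h4, ?_⟩
    rw [a2, b2]
    exact h5

variable (Q : Measure (Environment d)) [IsProbabilityMeasure Q]

lemma fst_PL (hτ : ∀ l, W.IsStop (τ l)) (l : ι) :
    (Q.bind (PL W τ law l)).map Prod.fst = (Q.bind (law l)).map (frzL W τ l) := by
  have := markov_frz (law := law) hτ l
  have hf := measurable_frzL (W := W) hτ l
  refine Measure.ext fun A hA => ?_
  rw [Measure.map_apply measurable_fst hA, Measure.map_apply hf hA,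
    Measure.bind_apply (measurable_fst hA) (Kernel.measurable _).aemeasurable,
    Measure.bind_apply (hf hA) (Kernel.measurable _).aemeasurable]
  refine lintegral_congr fun ω => ?_
  unfold PL
  have : (Prod.fst : (ι × Ω) × (ι × Ω) → ι × Ω) ⁻¹' A = A ×ˢ Set.univ := by
    ext p; simp
  rw [Kernel.prod_apply, this, Measure.prod_prod, measure_univ, mul_one,
    Kernel.map_apply' _ hf _ hA]

lemma snd_PL (hτ : ∀ l, W.IsStop (τ l)) (l : ι) :
    (Q.bind (PL W τ law l)).map Prod.snd = (Q.bind (law l)).map (frzL W τ l) := by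
  have := markov_frz (law := law) hτ l
  have hf := measurable_frzL (W := W) hτ l
  refine Measure.ext fun A hA => ?_
  rw [Measure.map_apply measurable_snd hA, Measure.map_apply hf hA,
    Measure.bind_apply (measurable_snd hA) (Kernel.measurable _).aemeasurable,
    Measure.bind_apply (hf hA) (Kernel.measurable _).aemeasurable]
  refine lintegral_congr fun ω => ?_
  unfold PL
  have : (Prod.snd : (ι × Ω) × (ι × Ω) → ι × Ω) ⁻¹' A = Set.univ ×ˢ A := by
    ext p; simp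
  rw [Kernel.prod_apply, this, Measure.prod_prod, measure_univ, one_mul,
    Kernel.map_apply' _ hf _ hA]

instance prob_bind (l : ι) : IsProbabilityMeasure (Q.bind (law l)) := by
  refine ⟨?_⟩
  rw [Measure.bind_apply MeasurableSet.univ (Kernel.measurable _).aemeasurable]
  simp

lemma markov_PL (hτ : ∀ l, W.IsStop (τ l)) (l : ι) : IsMarkovKernel (PL W τ law l) := by
  have := markov_frz (law := law) hτ l
  unfold PL
  infer_instance

lemma meas_side (hW : Cont.RdSpace W rd) (R : ℕ) (hτ : ∀ l, W.IsStop (τ l)) (l l' : ι)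
    {f g : (ι × Ω) × (ι × Ω) → ι × Ω} (hf : Measurable f) (hg : Measurable g)
    (hf' : (Q.bind (PL W τ law l)).map f = (Q.bind (law l)).map (frzL W τ l))
    (hg' : (Q.bind (PL W τ law l')).map g = (Q.bind (law l')).map (frzL W τ l')) :
    ((Q.bind (PL W τ law l)).prod (Q.bind (PL W τ law l'))) (Prod.map f g ⁻¹' B0 hW R τ l l')
      = ((Q.bind (law l)).prod (Q.bind (law l'))) (KExp.meet (Con.kapCon hW R) τ l l') := by
  have h1 : ∀ l, IsMarkovKernel (PL W τ law l) := markov_PL hτ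
  have h2 : ∀ l, IsProbabilityMeasure (Q.bind (PL W τ law l)) := fun l => by
    refine ⟨?_⟩
    rw [Measure.bind_apply MeasurableSet.univ (Kernel.measurable _).aemeasurable]
    simp
  have hB := meas_B0 hW R hτ l l'
  have e1 := Measure.map_prod_map (Q.bind (PL W τ law l)) (Q.bind (PL W τ law l')) hf hg
  have e2 := Measure.map_prod_map (Q.bind (law l)) (Q.bind (law l'))
    (measurable_frzL (W := W) hτ l) (measurable_frzL (W := W) hτ l')
  rw [← Measure.map_apply (hf.prodMap hg) hB, ← e1, hf', hg', e2,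
    Measure.map_apply ((measurable_frzL hτ l).prodMap (measurable_frzL hτ l')) hB,
    preimage_B0 hW R hτ l l']

lemma meet_le (hW : Cont.RdSpace W rd) (R : ℕ) (hτ : ∀ l, W.IsStop (τ l)) (l l' : ι) :
    ((Q.bind (PL W τ law l)).prod (Q.bind (PL W τ law l')))
        (KExp.meet (Con.kapCon (rdSpace_PW hW hτ) R) (fun _ : ι => PT τ) l l')
      ≤ 4 * ((Q.bind (law l)).prod (Q.bind (law l'))) (KExp.meet (Con.kapCon hW R) τ l l') := by
  refine (measure_mono (meet_subset hW R hτ l l')).trans ?_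
  refine (measure_union_le _ _).trans ?_
  refine (add_le_add (measure_union_le _ _) (measure_union_le _ _)).trans ?_
  rw [meas_side Q hW R hτ l l' measurable_fst measurable_fst (fst_PL Q hτ l) (fst_PL Q hτ l'),
    meas_side Q hW R hτ l l' measurable_fst measurable_snd (fst_PL Q hτ l) (snd_PL Q hτ l'),
    meas_side Q hW R hτ l l' measurable_snd measurable_fst (snd_PL Q hτ l) (fst_PL Q hτ l'),
    meas_side Q hW R hτ l l' measurable_snd measurable_snd (snd_PL Q hτ l) (snd_PL Q hτ l')]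
  refine le_of_eq ?_
  ring

/-- **K-set bound for pair tests.** -/
theorem main (hW : Cont.RdSpace W rd) {R : ℕ} (hQ : IndepAt R Q)
    (hτ : ∀ l, W.IsStop (τ l)) (hr : ∀ l, W.ReadsOnly Q (law l))
    {v : ι → Ω → Ω → ℝ≥0∞} (hv : Pay W τ v) {δ η κ ε : ℝ≥0∞} (hδt : δ ≠ ⊤) (hη0 : η ≠ 0)
    (hηt : η ≠ ⊤) (hκt : κ ≠ ⊤)
    (hδ : ∀ l, ∫⁻ ω, ∫⁻ X, ∫⁻ Y, v l X Y ∂(law l ω) ∂(law l ω) ∂Q ≤ δ)
    (hκ : ∀ l, ∑ l' ∈ Finset.univ.erase l,
      ((Q.bind (law l)).prod (Q.bind (law l'))) (KExp.meet (Con.kapCon hW R) τ l l') ≤ κ) :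
    ε ^ ((Fintype.card ι + 1) / 2)
        * Q {ω | ∀ l, ε ≤ ∫⁻ X, ∫⁻ Y, v l X Y ∂(law l ω) ∂(law l ω)}
      ≤ (δ + η + 4 * κ / (η / 2)) ^ ((Fintype.card ι + 1) / 2) := by
  have h1 : ∀ l, IsMarkovKernel (PL W τ law l) := markov_PL hτ
  have hro : ∀ l, (PW hτ).ReadsOnly Q (PL W τ law l) := fun l => by
    have := markov_frz (law := law) hτ l
    exact readsOnly_prod (readsOnly_frzL hτ (hr l) l) (readsOnly_frzL hτ (hr l) l)
  have hT : (PW hτ).IsStop (PT τ) := isStop_pT (W₁ := lsWS W hτ) (W₂ := lsWS W hτ)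
    (isStop_lab hτ) (isStop_lab hτ)
  have hdet : ∀ l, (PW hτ).DetBy (PT τ) (PU v l) := by
    classical
    intro l
    refine detBy_pT (W₁ := lsWS W hτ) (W₂ := lsWS W hτ) ?_
    intro p q a b ha hb h1 h2
    obtain ⟨e1, e2⟩ := labWS_hist_eq.1 (show (labWS ι W).hist a p.1 = (labWS ι W).hist a q.1 from h1)
    obtain ⟨e3, e4⟩ := labWS_hist_eq.1 (show (labWS ι W).hist b p.2 = (labWS ι W).hist b q.2 from h2)
    unfold PU
    rw [← e1, ← e3]
    by_cases hl : p.1.1 = l ∧ p.2.1 = l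
    · rw [if_pos hl, if_pos hl]
      have ha' : τ p.1.1 p.1.2 = a := ha
      have hb' : τ p.2.1 p.2.2 = b := hb
      rw [hl.1] at ha'
      rw [hl.2] at hb'
      exact hv.det l _ _ _ _ a b ha' hb' e2 e4
    · rw [if_neg hl, if_neg hl]
  have hint : ∀ l ω, ∫⁻ p, PU v l p ∂(PL W τ law l ω)
      = ∫⁻ X, ∫⁻ Y, v l X Y ∂(law l ω) ∂(law l ω) := fun l ω => lintegral_PL hτ hv l ω
  have key := KExp.K3_half (Con.kapCon (rdSpace_PW hW hτ) R) Q (PL W τ law) (fun _ : ι => PT τ) hQ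
    (fun _ => hT) (PU v) hdet (measurable_PU hv) (fun l p => by
      classical
      unfold PU
      split_ifs
      · exact hv.le_one _ _ _
      · exact zero_le) (fun l p hp => by
      classical
      unfold PU
      split_ifs with hl
      · refine hv.top _ _ _ ?_
        by_contra hcon
        push Not at hcon
        have h3 : PT τ p < ⊤ := pT_lt_top.2 ⟨by
          rw [labS, hl.1]; exact lt_top_iff_ne_top.2 hcon.1, by
          rw [labS, hl.2]; exact lt_top_iff_ne_top.2 hcon.2⟩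
        exact h3.ne hp
      · rfl) hro (δ := δ) (η := η) (κ := 4 * κ) (ε := ε) hδt hη0 hηt
    (ENNReal.mul_ne_top (by norm_num) hκt) (fun l => by
      rw [Measure.lintegral_bind (Kernel.measurable _).aemeasurable
        (measurable_PU hv l).aemeasurable]
      refine le_trans (le_of_eq ?_) (hδ l)
      exact lintegral_congr fun ω => hint l ω) (fun l => by
      calc _ ≤ ∑ l' ∈ Finset.univ.erase l, 4 * ((Q.bind (law l)).prod (Q.bind (law l')))
            (KExp.meet (Con.kapCon hW R) τ l l') :=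
            Finset.sum_le_sum fun l' _ => meet_le Q hW R hτ l l'
        _ = 4 * ∑ l' ∈ Finset.univ.erase l, ((Q.bind (law l)).prod (Q.bind (law l')))
            (KExp.meet (Con.kapCon hW R) τ l l') := by rw [Finset.mul_sum]
        _ ≤ 4 * κ := by gcongr; exact hκ l)
    ∅ (by simp [KExp.cc_empty]) (Φ := fun _ => 1) measurable_const
  simp only [hint, lintegral_const, Measure.restrict_apply MeasurableSet.univ, Set.univ_inter,
    one_mul, measure_univ] at key
  exact key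

end contact

end Crest.Agent.R154.PairK3
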