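import Crest.Agent.R154.Two_225
import Crest.Agent.R154.FP_178

/-! Row 154 (helper225), ROAD 801: peeling `J` first passage pieces off the lists of height `n`. -/

set_option autoImplicit false

namespace Crest.Agent.R154.Cd225

open scoped ENNReal
open Crest.Agent.R154.B5A
open Crest.Agent.R154.FP178 (fp)

variable {B : Type*} (Λ : B → ℝ≥0∞) (ht : B → ℕ)

open Classical in
/-- weight of a good piece -/
noncomputable def lg (T i0 : ℕ) (A : List B) : ℝ≥0∞ :=
  if fp ht T A ∧ HT ht A ≤ T + i0 then LW Λ A else 0

lemma lg_le (h1 : ∀ b, 1 ≤ ht b) (hΛ : ∑' b, Λ b ≤ 1) (T i0 : ℕ) : ∑' A, lg Λ ht T i0 A ≤ 1 := by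
  classical
  refine le_trans (ENNReal.tsum_le_tsum fun A => ?_) (FP178.sum_FP Λ ht h1 hΛ T)
  unfold lg
  by_cases h : fp ht T A ∧ HT ht A ≤ T + i0
  · rw [if_pos h, if_pos h.1]
  · rw [if_neg h]; exact zero_le

lemma HT_flatten (P : List (List B)) : HT ht P.flatten = (P.map (HT ht)).sum := by
  induction P with
  | nil => simp [HT_nil]
  | cons A P ih => rw [List.flatten_cons, HT_append, ih]; simp

open Classical in
/-- **peeling** -/
theorem peel (h1 : ∀ b, 1 ≤ ht b) (hΛ : ∑' b, Λ b ≤ 1) (hU : ∀ n, U Λ ht n ≤ 1)
    (T i0 : ℕ) (e : ℝ≥0∞)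
    (he : ∑' A, (if fp ht T A ∧ T + i0 < HT ht A then LW Λ A else 0) ≤ e)
    (J : ℕ) : ∀ (n : ℕ), J * (T + i0) ≤ n → ∀ F : List B → ℝ≥0∞, (∀ L, F L ≤ 1) →
    ∑' L, (if HT ht L = n then LW Λ L * F L else 0)
      ≤ J * e + SL (lg Λ ht T i0) J (fun P =>
        ∑' R, (if HT ht R = n - HT ht P.flatten then LW Λ R * F (P.flatten ++ R) else 0)) := by
  induction J with
  | zero =>
    intro n _ F _
    rw [SL_zero]
    simp [HT_nil]
  | succ J ih =>
    intro n hn F hF
    have hTn : T + i0 ≤ n := le_trans (by nlinarith) hn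
    have e1 : ∑' L, (if HT ht L = n then LW Λ L * F L else 0)
        = ∑' L, (if T ≤ HT ht L then LW Λ L * (if HT ht L = n then F L else 0) else 0) := by
      refine tsum_congr fun L => ?_
      by_cases h : HT ht L = n
      · rw [if_pos h, if_pos (by omega), if_pos h]
      · rw [if_neg h, if_neg h, mul_zero]; simp
    rw [e1, FP178.split Λ ht h1 T]
    have e2 : ∀ A : List B, (if fp ht T A then LW Λ A * ∑' L2, LW Λ L2 *
          (if HT ht (A ++ L2) = n then F (A ++ L2) else 0) else 0)
        ≤ (if fp ht T A ∧ T + i0 < HT ht A then LW Λ A else 0)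
          + lg Λ ht T i0 A * (J * e + SL (lg Λ ht T i0) J (fun P =>
            ∑' R, (if HT ht R = n - HT ht (A ++ P.flatten) then
              LW Λ R * F ((A ++ P.flatten) ++ R) else 0))) := by
      intro A
      by_cases hA : fp ht T A
      · rw [if_pos hA]
        by_cases hA2 : HT ht A ≤ T + i0
        · rw [if_neg (by omega), zero_add, lg, if_pos ⟨hA, hA2⟩]
          refine mul_le_mul_right ?_ _
          have := ih (n - HT ht A) (by
            have : (J + 1) * (T + i0) = J * (T + i0) + (T + i0) := by ring
            omega) (fun L => F (A ++ L)) (fun L => hF _)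
          refine le_trans (le_of_eq ?_) (this.trans (le_of_eq ?_))
          · refine tsum_congr fun L => ?_
            rw [HT_append]
            by_cases h : HT ht L = n - HT ht A
            · rw [if_pos h, if_pos (by omega)]
            · rw [if_neg h, if_neg (by omega), mul_zero]
          · congr 2
            funext P
            refine tsum_congr fun R => ?_
            rw [HT_append, List.append_assoc, Nat.sub_sub]
        · rw [if_pos ⟨hA, by omega⟩]
          refine le_trans ?_ le_self_add
          calc LW Λ A * ∑' L2, LW Λ L2 * (if HT ht (A ++ L2) = n then F (A ++ L2) else 0)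
              ≤ LW Λ A * ∑' L2, (if HT ht L2 = n - HT ht A then LW Λ L2 else 0) := by
                refine mul_le_mul_right (ENNReal.tsum_le_tsum fun L2 => ?_) _
                rw [HT_append]
                by_cases h : HT ht A + HT ht L2 = n
                · rw [if_pos h, if_pos (by omega)]
                  exact (mul_le_mul_right (hF _) _).trans (mul_one _).le
                · rw [if_neg h, mul_zero]; exact zero_le
            _ ≤ LW Λ A * 1 := mul_le_mul_right (hU _) _
            _ = _ := mul_one _
      · rw [if_neg hA]; exact zero_le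
    refine (ENNReal.tsum_le_tsum e2).trans ?_
    rw [ENNReal.tsum_add]
    have e3 : ∑' A, lg Λ ht T i0 A * (J * e + SL (lg Λ ht T i0) J (fun P =>
            ∑' R, (if HT ht R = n - HT ht (A ++ P.flatten) then
              LW Λ R * F ((A ++ P.flatten) ++ R) else 0)))
        ≤ J * e + SL (lg Λ ht T i0) (J + 1) (fun P =>
        ∑' R, (if HT ht R = n - HT ht P.flatten then LW Λ R * F (P.flatten ++ R) else 0)) := by
      rw [SL_succ]
      simp_rw [mul_add]
      rw [ENNReal.tsum_add, ENNReal.tsum_mul_right]
      refine add_le_add ?_ ?_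
      · calc (∑' A, lg Λ ht T i0 A) * (J * e) ≤ 1 * (J * e) :=
              mul_le_mul_left (lg_le Λ ht h1 hΛ T i0) _
          _ = _ := one_mul _
      · simp only [List.flatten_cons]
        exact le_rfl
    refine (add_le_add he e3).trans (le_of_eq ?_)
    push_cast
    ring

open Classical in
/-- the pieces after the index `j` cost at most one -/
lemma SL_mid {C : Type*} (l : C → ℝ≥0∞) (hl : ∑' A, l A ≤ 1) (dflt : C) (j r : ℕ)
    (F : List C → C → ℝ≥0∞) :
    SL l (j + (r + 1)) (fun P => F (P.take j) (P.getD j dflt))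
      ≤ SL l j (fun P1 => ∑' A, l A * F P1 A) := by
  rw [SL_add]
  refine SL_mono l j fun P1 hP1 => ?_
  rw [SL_succ]
  refine ENNReal.tsum_le_tsum fun A => mul_le_mul_right ?_ _
  calc SL l r (fun P2 => F ((P1 ++ A :: P2).take j) ((P1 ++ A :: P2).getD j dflt))
      = SL l r (fun _ => F P1 A) := by
        refine SL_congr l r fun P2 _ => ?_
        have e1 : (P1 ++ A :: P2).take j = P1 := by
          rw [List.take_append_of_le_length (by omega), List.take_of_length_le (by omega)]
        have e2 : (P1 ++ A :: P2).getD j dflt = A := by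
          rw [List.getD_append_right _ _ _ _ (by omega), hP1, Nat.sub_self]
          rfl
        rw [e1, e2]
    _ = F P1 A * SL l r (fun _ => 1) := by rw [← SL_const_mul]; simp
    _ ≤ F P1 A * 1 := by
        rw [SL_pow]
        exact mul_le_mul_right (pow_le_one₀ zero_le hl) _
    _ = F P1 A := mul_one _

end Crest.Agent.R154.Cd225
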